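import Vale.Agent.Lib.P154.PChain.BG.R5_0

set_option linter.all false

namespace Vale.Agent.Lib.P154.PChain.BG.S6

open Vale.Agent.Lib.P154.Chain

noncomputable def pc0 : PT := (PT.nd (nat_lit 4637724) (PT.nd (nat_lit 4478448) (PT.nd (nat_lit 4319328) (PT.nd (nat_lit 4266210) (PT.nd (nat_lit 4213170) (PT.nd (nat_lit 4213092) PT.nil (PT.lf (nat_lit 76) (nat_lit 6) (nat_lit 1) (nat_lit 3) (nat_lit 215) (nat_lit 79) (nat_lit 216))) (PT.lf (nat_lit 76) (nat_lit 6) (nat_lit 1) (nat_lit 1) (nat_lit 216) (nat_lit 79) (nat_lit 215))) (PT.nd (nat_lit 53040) (PT.lf (nat_lit 152) (nat_lit 3) (nat_lit 2) (nat_lit 1) (nat_lit 215) (nat_lit 80) (nat_lit 215)) (PT.lf (nat_lit 228) (nat_lit 6) (nat_lit 3) (nat_lit 3) (nat_lit 214) (nat_lit 81) (nat_lit 215)))) (PT.nd (nat_lit 106080) (PT.nd (nat_lit 53040) (PT.lf (nat_lit 228) (nat_lit 6) (nat_lit 3) (nat_lit 1) (nat_lit 215) (nat_lit 81) (nat_lit 214)) (PT.lf (nat_lit 380)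 (nat_lit 3) (nat_lit 5) (nat_lit 1) (nat_lit 214) (nat_lit 82) (nat_lit 214))) (PT.nd (nat_lit 78) (PT.lf (nat_lit 456) (nat_lit 6) (nat_lit 6) (nat_lit 3) (nat_lit 213) (nat_lit 83) (nat_lit 214)) (PT.lf (nat_lit 456) (nat_lit 6) (nat_lit 6) (nat_lit 1) (nat_lit 214) (nat_lit 83) (nat_lit 213))))) (PT.nd (nat_lit 53196) (PT.nd (nat_lit 156) (PT.nd (nat_lit 78) (PT.lf (nat_lit 532) (nat_lit 6) (nat_lit 7) (nat_lit 3) (nat_lit 212) (nat_lit 84) (nat_lit 214)) (PT.lf (nat_lit 608) (nat_lit 3) (nat_lit 8) (nat_lit 1) (nat_lit 213) (nat_lit 84) (nat_lit 213))) (PT.nd (nat_lit 52962) (PT.lf (nat_lit 532) (nat_lit 6) (nat_lit 7) (nat_lit 1) (nat_lit 214) (nat_lit 84) (nat_lit 212)) (PT.lf (nat_lit 684) (nat_lit 6) (nat_lit 9) (nat_lit 3) (nat_lit 212) (nat_lit 85) (nat_lit 213)))) (PT.nd (nat_lit 53040) (PT.nd (nat_lit 52962) (PT.lf (nat_lit 684) (nat_lit 6) (nat_lit 9) (nat_lit 1) (nat_lit 213) (nat_lit 85) (nat_lit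 212)) (PT.lf (nat_lit 760) (nat_lit 6) (nat_lit 10) (nat_lit 3) (nat_lit 211) (nat_lit 86) (nat_lit 213))) (PT.nd (nat_lit 78) (PT.lf (nat_lit 836) (nat_lit 3) (nat_lit 11) (nat_lit 1) (nat_lit 212) (nat_lit 86) (nat_lit 212)) (PT.lf (nat_lit 760) (nat_lit 6) (nat_lit 10) (nat_lit 1) (nat_lit 213) (nat_lit 86) (nat_lit 211)))))) (PT.nd (nat_lit 159276) (PT.nd (nat_lit 53196) (PT.nd (nat_lit 53040) (PT.nd (nat_lit 78) (PT.lf (nat_lit 912) (nat_lit 6) (nat_lit 12) (nat_lit 3) (nat_lit 211) (nat_lit 87) (nat_lit 212)) (PT.lf (nat_lit 912) (nat_lit 6) (nat_lit 12) (nat_lit 1) (nat_lit 212) (nat_lit 87) (nat_lit 211))) (PT.nd (nat_lit 78) (PT.lf (nat_lit 988) (nat_lit 6) (nat_lit 13) (nat_lit 3) (nat_lit 210) (nat_lit 88) (nat_lit 212)) (PT.lf (nat_lit 1064) (nat_lit 3) (nat_lit 14) (nat_lit 1) (nat_lit 211) (nat_lit 88) (nat_lit 211)))) (PT.nd (nat_lit 53040) (PT.nd (nat_lit 52962) (PT.lf (nat_lit 988) (nat_lit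 6) (nat_lit 13) (nat_lit 1) (nat_lit 212) (nat_lit 88) (nat_lit 210)) (PT.lf (nat_lit 1140) (nat_lit 6) (nat_lit 15) (nat_lit 3) (nat_lit 210) (nat_lit 89) (nat_lit 211))) (PT.nd (nat_lit 52962) (PT.lf (nat_lit 1140) (nat_lit 6) (nat_lit 15) (nat_lit 1) (nat_lit 211) (nat_lit 89) (nat_lit 210)) (PT.lf (nat_lit 1216) (nat_lit 6) (nat_lit 16) (nat_lit 3) (nat_lit 209) (nat_lit 90) (nat_lit 211))))) (PT.nd (nat_lit 106080) (PT.nd (nat_lit 53040) (PT.nd (nat_lit 78) (PT.lf (nat_lit 1292) (nat_lit 3) (nat_lit 17) (nat_lit 1) (nat_lit 210) (nat_lit 90) (nat_lit 210)) (PT.lf (nat_lit 1216) (nat_lit 6) (nat_lit 16) (nat_lit 1) (nat_lit 211) (nat_lit 90) (nat_lit 209))) (PT.nd (nat_lit 78) (PT.lf (nat_lit 1368) (nat_lit 6) (nat_lit 18) (nat_lit 3) (nat_lit 209) (nat_lit 91) (nat_lit 210)) (PT.lf (nat_lit 1368) (nat_lit 6) (nat_lit 18) (nat_lit 1) (nat_lit 210) (nat_lit 91) (nat_lit 209)))) (PT.nd (nat_lit 156) (PT.nd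 (nat_lit 78) (PT.lf (nat_lit 1444) (nat_lit 6) (nat_lit 19) (nat_lit 3) (nat_lit 208) (nat_lit 92) (nat_lit 210)) (PT.lf (nat_lit 1520) (nat_lit 3) (nat_lit 20) (nat_lit 1) (nat_lit 209) (nat_lit 92) (nat_lit 209))) (PT.nd (nat_lit 52962) (PT.lf (nat_lit 1444) (nat_lit 6) (nat_lit 19) (nat_lit 1) (nat_lit 210) (nat_lit 92) (nat_lit 208)) (PT.nd (nat_lit 78) (PT.lf (nat_lit 1596) (nat_lit 6) (nat_lit 21) (nat_lit 3) (nat_lit 208) (nat_lit 93) (nat_lit 209)) (PT.lf (nat_lit 1596) (nat_lit 6) (nat_lit 21) (nat_lit 1) (nat_lit 209) (nat_lit 93) (nat_lit 208))))))))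
noncomputable def pc1 : PT := (PT.nd (nat_lit 318630) (PT.nd (nat_lit 159276) (PT.nd (nat_lit 53196) (PT.nd (nat_lit 156) (PT.nd (nat_lit 78) (PT.lf (nat_lit 1672) (nat_lit 6) (nat_lit 22) (nat_lit 3) (nat_lit 207) (nat_lit 94) (nat_lit 209)) (PT.lf (nat_lit 1748) (nat_lit 3) (nat_lit 23) (nat_lit 1) (nat_lit 208) (nat_lit 94) (nat_lit 208))) (PT.nd (nat_lit 52962) (PT.lf (nat_lit 1672) (nat_lit 6) (nat_lit 22) (nat_lit 1) (nat_lit 209) (nat_lit 94) (nat_lit 207)) (PT.lf (nat_lit 1824) (nat_lit 6) (nat_lit 24) (nat_lit 3) (nat_lit 207) (nat_lit 95) (nat_lit 208)))) (PT.nd (nat_lit 53040) (PT.nd (nat_lit 52962) (PT.lf (nat_lit 1824) (nat_lit 6) (nat_lit 24) (nat_lit 1) (nat_lit 208) (nat_lit 95) (nat_lit 207)) (PT.lf (nat_lit 1900) (nat_lit 6) (nat_lit 25) (nat_lit 3) (nat_lit 206) (nat_lit 96) (nat_lit 208))) (PT.nd (nat_lit 78) (PT.lf (nat_lit 1976) (nat_lit 3) (nat_lit 26) (nat_lit 1) (nat_lit 207) (nat_lit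 96) (nat_lit 207)) (PT.lf (nat_lit 1900) (nat_lit 6) (nat_lit 25) (nat_lit 1) (nat_lit 208) (nat_lit 96) (nat_lit 206))))) (PT.nd (nat_lit 53196) (PT.nd (nat_lit 53040) (PT.nd (nat_lit 78) (PT.lf (nat_lit 2052) (nat_lit 6) (nat_lit 27) (nat_lit 3) (nat_lit 206) (nat_lit 97) (nat_lit 207)) (PT.lf (nat_lit 2052) (nat_lit 6) (nat_lit 27) (nat_lit 1) (nat_lit 207) (nat_lit 97) (nat_lit 206))) (PT.nd (nat_lit 78) (PT.lf (nat_lit 2128) (nat_lit 6) (nat_lit 28) (nat_lit 3) (nat_lit 205) (nat_lit 98) (nat_lit 207)) (PT.lf (nat_lit 2204) (nat_lit 3) (nat_lit 29) (nat_lit 1) (nat_lit 206) (nat_lit 98) (nat_lit 206)))) (PT.nd (nat_lit 53040) (PT.nd (nat_lit 52962) (PT.lf (nat_lit 2128) (nat_lit 6) (nat_lit 28) (nat_lit 1) (nat_lit 207) (nat_lit 98) (nat_lit 205)) (PT.lf (nat_lit 2280) (nat_lit 6) (nat_lit 30) (nat_lit 3) (nat_lit 205) (nat_lit 99) (nat_lit 206))) (PT.nd (nat_lit 52962) (PT.lf (nat_lit 2280) (nat_lit 6)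 (nat_lit 30) (nat_lit 1) (nat_lit 206) (nat_lit 99) (nat_lit 205)) (PT.nd (nat_lit 78) (PT.lf (nat_lit 2356) (nat_lit 6) (nat_lit 31) (nat_lit 3) (nat_lit 204) (nat_lit 100) (nat_lit 206)) (PT.lf (nat_lit 2432) (nat_lit 3) (nat_lit 32) (nat_lit 1) (nat_lit 205) (nat_lit 100) (nat_lit 205))))))) (PT.nd (nat_lit 159198) (PT.nd (nat_lit 106080) (PT.nd (nat_lit 53040) (PT.nd (nat_lit 52962) (PT.lf (nat_lit 2356) (nat_lit 6) (nat_lit 31) (nat_lit 1) (nat_lit 206) (nat_lit 100) (nat_lit 204)) (PT.lf (nat_lit 2508) (nat_lit 6) (nat_lit 33) (nat_lit 3) (nat_lit 204) (nat_lit 101) (nat_lit 205))) (PT.nd (nat_lit 52962) (PT.lf (nat_lit 2508) (nat_lit 6) (nat_lit 33) (nat_lit 1) (nat_lit 205) (nat_lit 101) (nat_lit 204)) (PT.lf (nat_lit 2584) (nat_lit 6) (nat_lit 34) (nat_lit 3) (nat_lit 203) (nat_lit 102) (nat_lit 205)))) (PT.nd (nat_lit 52962) (PT.nd (nat_lit 78) (PT.lf (nat_lit 2660) (nat_lit 3) (nat_lit 35) (nat_lit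 1) (nat_lit 204) (nat_lit 102) (nat_lit 204)) (PT.lf (nat_lit 2584) (nat_lit 6) (nat_lit 34) (nat_lit 1) (nat_lit 205) (nat_lit 102) (nat_lit 203))) (PT.nd (nat_lit 78) (PT.lf (nat_lit 2736) (nat_lit 6) (nat_lit 36) (nat_lit 3) (nat_lit 202) (nat_lit 103) (nat_lit 205)) (PT.lf (nat_lit 2812) (nat_lit 6) (nat_lit 37) (nat_lit 3) (nat_lit 203) (nat_lit 103) (nat_lit 204))))) (PT.nd (nat_lit 53118) (PT.nd (nat_lit 52962) (PT.nd (nat_lit 78) (PT.lf (nat_lit 2812) (nat_lit 6) (nat_lit 37) (nat_lit 1) (nat_lit 204) (nat_lit 103) (nat_lit 203)) (PT.lf (nat_lit 2736) (nat_lit 6) (nat_lit 36) (nat_lit 1) (nat_lit 205) (nat_lit 103) (nat_lit 202))) (PT.nd (nat_lit 78) (PT.lf (nat_lit 2888) (nat_lit 6) (nat_lit 38) (nat_lit 3) (nat_lit 202) (nat_lit 104) (nat_lit 204)) (PT.lf (nat_lit 2964) (nat_lit 3) (nat_lit 39) (nat_lit 1) (nat_lit 203) (nat_lit 104) (nat_lit 203)))) (PT.nd (nat_lit 52962) (PT.nd (nat_lit 52884) (PT.lf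 (nat_lit 2888) (nat_lit 6) (nat_lit 38) (nat_lit 1) (nat_lit 204) (nat_lit 104) (nat_lit 202)) (PT.lf (nat_lit 3040) (nat_lit 6) (nat_lit 40) (nat_lit 3) (nat_lit 201) (nat_lit 105) (nat_lit 204))) (PT.nd (nat_lit 78) (PT.lf (nat_lit 3116) (nat_lit 6) (nat_lit 41) (nat_lit 3) (nat_lit 202) (nat_lit 105) (nat_lit 203)) (PT.nd (nat_lit 78) (PT.lf (nat_lit 3116) (nat_lit 6) (nat_lit 41) (nat_lit 1) (nat_lit 203) (nat_lit 105) (nat_lit 202)) (PT.lf (nat_lit 3040) (nat_lit 6) (nat_lit 40) (nat_lit 1) (nat_lit 204) (nat_lit 105) (nat_lit 201))))))))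
noncomputable def pc2 : PT := (PT.nd (nat_lit 265356) (PT.nd (nat_lit 106236) (PT.nd (nat_lit 53118) (PT.nd (nat_lit 156) (PT.nd (nat_lit 78) (PT.lf (nat_lit 3192) (nat_lit 6) (nat_lit 42) (nat_lit 3) (nat_lit 201) (nat_lit 106) (nat_lit 203)) (PT.lf (nat_lit 3268) (nat_lit 3) (nat_lit 43) (nat_lit 1) (nat_lit 202) (nat_lit 106) (nat_lit 202))) (PT.nd (nat_lit 52884) (PT.lf (nat_lit 3192) (nat_lit 6) (nat_lit 42) (nat_lit 1) (nat_lit 203) (nat_lit 106) (nat_lit 201)) (PT.lf (nat_lit 3344) (nat_lit 6) (nat_lit 44) (nat_lit 3) (nat_lit 200) (nat_lit 107) (nat_lit 203)))) (PT.nd (nat_lit 156) (PT.nd (nat_lit 78) (PT.lf (nat_lit 3420) (nat_lit 6) (nat_lit 45) (nat_lit 3) (nat_lit 201) (nat_lit 107) (nat_lit 202)) (PT.lf (nat_lit 3420) (nat_lit 6) (nat_lit 45) (nat_lit 1) (nat_lit 202) (nat_lit 107) (nat_lit 201))) (PT.nd (nat_lit 52884) (PT.lf (nat_lit 3344) (nat_lit 6) (nat_lit 44) (nat_lit 1) (nat_lit 203) (nat_lit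 107) (nat_lit 200)) (PT.lf (nat_lit 3496) (nat_lit 6) (nat_lit 46) (nat_lit 3) (nat_lit 200) (nat_lit 108) (nat_lit 202))))) (PT.nd (nat_lit 53118) (PT.nd (nat_lit 52962) (PT.nd (nat_lit 78) (PT.lf (nat_lit 3572) (nat_lit 3) (nat_lit 47) (nat_lit 1) (nat_lit 201) (nat_lit 108) (nat_lit 201)) (PT.lf (nat_lit 3496) (nat_lit 6) (nat_lit 46) (nat_lit 1) (nat_lit 202) (nat_lit 108) (nat_lit 200))) (PT.nd (nat_lit 78) (PT.lf (nat_lit 3648) (nat_lit 6) (nat_lit 48) (nat_lit 3) (nat_lit 199) (nat_lit 109) (nat_lit 202)) (PT.lf (nat_lit 3724) (nat_lit 6) (nat_lit 49) (nat_lit 3) (nat_lit 200) (nat_lit 109) (nat_lit 201)))) (PT.nd (nat_lit 52962) (PT.nd (nat_lit 78) (PT.lf (nat_lit 3724) (nat_lit 6) (nat_lit 49) (nat_lit 1) (nat_lit 201) (nat_lit 109) (nat_lit 200)) (PT.lf (nat_lit 3648) (nat_lit 6) (nat_lit 48) (nat_lit 1) (nat_lit 202) (nat_lit 109) (nat_lit 199))) (PT.nd (nat_lit 78) (PT.lf (nat_lit 3800) (nat_lit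 6) (nat_lit 50) (nat_lit 3) (nat_lit 199) (nat_lit 110) (nat_lit 201)) (PT.nd (nat_lit 78) (PT.lf (nat_lit 3876) (nat_lit 3) (nat_lit 51) (nat_lit 1) (nat_lit 200) (nat_lit 110) (nat_lit 200)) (PT.lf (nat_lit 3800) (nat_lit 6) (nat_lit 50) (nat_lit 1) (nat_lit 201) (nat_lit 110) (nat_lit 199))))))) (PT.nd (nat_lit 106236) (PT.nd (nat_lit 53118) (PT.nd (nat_lit 156) (PT.nd (nat_lit 78) (PT.lf (nat_lit 3952) (nat_lit 6) (nat_lit 52) (nat_lit 3) (nat_lit 198) (nat_lit 111) (nat_lit 201)) (PT.lf (nat_lit 4028) (nat_lit 6) (nat_lit 53) (nat_lit 3) (nat_lit 199) (nat_lit 111) (nat_lit 200))) (PT.nd (nat_lit 78) (PT.lf (nat_lit 4028) (nat_lit 6) (nat_lit 53) (nat_lit 1) (nat_lit 200) (nat_lit 111) (nat_lit 199)) (PT.lf (nat_lit 3952) (nat_lit 6) (nat_lit 52) (nat_lit 1) (nat_lit 201) (nat_lit 111) (nat_lit 198)))) (PT.nd (nat_lit 156) (PT.nd (nat_lit 78) (PT.lf (nat_lit 4104) (nat_lit 6) (nat_lit 54) (nat_lit 3) (nat_lit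 198) (nat_lit 112) (nat_lit 200)) (PT.lf (nat_lit 4180) (nat_lit 3) (nat_lit 55) (nat_lit 1) (nat_lit 199) (nat_lit 112) (nat_lit 199))) (PT.nd (nat_lit 52884) (PT.lf (nat_lit 4104) (nat_lit 6) (nat_lit 54) (nat_lit 1) (nat_lit 200) (nat_lit 112) (nat_lit 198)) (PT.lf (nat_lit 4256) (nat_lit 6) (nat_lit 56) (nat_lit 3) (nat_lit 197) (nat_lit 113) (nat_lit 200))))) (PT.nd (nat_lit 53040) (PT.nd (nat_lit 156) (PT.nd (nat_lit 78) (PT.lf (nat_lit 4332) (nat_lit 6) (nat_lit 57) (nat_lit 3) (nat_lit 198) (nat_lit 113) (nat_lit 199)) (PT.lf (nat_lit 4332) (nat_lit 6) (nat_lit 57) (nat_lit 1) (nat_lit 199) (nat_lit 113) (nat_lit 198))) (PT.nd (nat_lit 52806) (PT.lf (nat_lit 4256) (nat_lit 6) (nat_lit 56) (nat_lit 1) (nat_lit 200) (nat_lit 113) (nat_lit 197)) (PT.lf (nat_lit 4408) (nat_lit 6) (nat_lit 58) (nat_lit 3) (nat_lit 196) (nat_lit 114) (nat_lit 200)))) (PT.nd (nat_lit 156) (PT.nd (nat_lit 78) (PT.lf (nat_lit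 4484) (nat_lit 6) (nat_lit 59) (nat_lit 3) (nat_lit 197) (nat_lit 114) (nat_lit 199)) (PT.lf (nat_lit 4560) (nat_lit 3) (nat_lit 60) (nat_lit 1) (nat_lit 198) (nat_lit 114) (nat_lit 198))) (PT.nd (nat_lit 78) (PT.lf (nat_lit 4484) (nat_lit 6) (nat_lit 59) (nat_lit 1) (nat_lit 199) (nat_lit 114) (nat_lit 197)) (PT.nd (nat_lit 52806) (PT.lf (nat_lit 4408) (nat_lit 6) (nat_lit 58) (nat_lit 1) (nat_lit 200) (nat_lit 114) (nat_lit 196)) (PT.lf (nat_lit 4636) (nat_lit 6) (nat_lit 61) (nat_lit 3) (nat_lit 196) (nat_lit 115) (nat_lit 199))))))))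
noncomputable def pc3 : PT := (PT.nd (nat_lit 212238) (PT.nd (nat_lit 106080) (PT.nd (nat_lit 53040) (PT.nd (nat_lit 156) (PT.nd (nat_lit 78) (PT.lf (nat_lit 4712) (nat_lit 6) (nat_lit 62) (nat_lit 3) (nat_lit 197) (nat_lit 115) (nat_lit 198)) (PT.lf (nat_lit 4712) (nat_lit 6) (nat_lit 62) (nat_lit 1) (nat_lit 198) (nat_lit 115) (nat_lit 197))) (PT.nd (nat_lit 52806) (PT.lf (nat_lit 4636) (nat_lit 6) (nat_lit 61) (nat_lit 1) (nat_lit 199) (nat_lit 115) (nat_lit 196)) (PT.lf (nat_lit 4788) (nat_lit 6) (nat_lit 63) (nat_lit 3) (nat_lit 195) (nat_lit 116) (nat_lit 199)))) (PT.nd (nat_lit 156) (PT.nd (nat_lit 78) (PT.lf (nat_lit 4864) (nat_lit 6) (nat_lit 64) (nat_lit 3) (nat_lit 196) (nat_lit 116) (nat_lit 198)) (PT.lf (nat_lit 4940) (nat_lit 3) (nat_lit 65) (nat_lit 1) (nat_lit 197) (nat_lit 116) (nat_lit 197))) (PT.nd (nat_lit 78) (PT.lf (nat_lit 4864) (nat_lit 6) (nat_lit 64) (nat_lit 1) (nat_lit 198) (nat_lit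 116) (nat_lit 196)) (PT.lf (nat_lit 4788) (nat_lit 6) (nat_lit 63) (nat_lit 1) (nat_lit 199) (nat_lit 116) (nat_lit 195))))) (PT.nd (nat_lit 53040) (PT.nd (nat_lit 156) (PT.nd (nat_lit 78) (PT.lf (nat_lit 5016) (nat_lit 6) (nat_lit 66) (nat_lit 3) (nat_lit 195) (nat_lit 117) (nat_lit 198)) (PT.lf (nat_lit 5092) (nat_lit 6) (nat_lit 67) (nat_lit 3) (nat_lit 196) (nat_lit 117) (nat_lit 197))) (PT.nd (nat_lit 78) (PT.lf (nat_lit 5092) (nat_lit 6) (nat_lit 67) (nat_lit 1) (nat_lit 197) (nat_lit 117) (nat_lit 196)) (PT.lf (nat_lit 5016) (nat_lit 6) (nat_lit 66) (nat_lit 1) (nat_lit 198) (nat_lit 117) (nat_lit 195)))) (PT.nd (nat_lit 156) (PT.nd (nat_lit 78) (PT.lf (nat_lit 5168) (nat_lit 6) (nat_lit 68) (nat_lit 3) (nat_lit 194) (nat_lit 118) (nat_lit 198)) (PT.lf (nat_lit 5244) (nat_lit 6) (nat_lit 69) (nat_lit 3) (nat_lit 195) (nat_lit 118) (nat_lit 197))) (PT.nd (nat_lit 78) (PT.lf (nat_lit 5320) (nat_lit 3) (nat_lit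 70) (nat_lit 1) (nat_lit 196) (nat_lit 118) (nat_lit 196)) (PT.nd (nat_lit 78) (PT.lf (nat_lit 5244) (nat_lit 6) (nat_lit 69) (nat_lit 1) (nat_lit 197) (nat_lit 118) (nat_lit 195)) (PT.lf (nat_lit 5168) (nat_lit 6) (nat_lit 68) (nat_lit 1) (nat_lit 198) (nat_lit 118) (nat_lit 194))))))) (PT.nd (nat_lit 53352) (PT.nd (nat_lit 53040) (PT.nd (nat_lit 156) (PT.nd (nat_lit 78) (PT.lf (nat_lit 5396) (nat_lit 6) (nat_lit 71) (nat_lit 3) (nat_lit 194) (nat_lit 119) (nat_lit 197)) (PT.lf (nat_lit 5472) (nat_lit 6) (nat_lit 72) (nat_lit 3) (nat_lit 195) (nat_lit 119) (nat_lit 196))) (PT.nd (nat_lit 78) (PT.lf (nat_lit 5472) (nat_lit 6) (nat_lit 72) (nat_lit 1) (nat_lit 196) (nat_lit 119) (nat_lit 195)) (PT.lf (nat_lit 5396) (nat_lit 6) (nat_lit 71) (nat_lit 1) (nat_lit 197) (nat_lit 119) (nat_lit 194)))) (PT.nd (nat_lit 156) (PT.nd (nat_lit 78) (PT.lf (nat_lit 5548) (nat_lit 6) (nat_lit 73) (nat_lit 3) (nat_lit 193) (nat_lit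 120) (nat_lit 197)) (PT.lf (nat_lit 5624) (nat_lit 6) (nat_lit 74) (nat_lit 3) (nat_lit 194) (nat_lit 120) (nat_lit 196))) (PT.nd (nat_lit 78) (PT.lf (nat_lit 5700) (nat_lit 3) (nat_lit 75) (nat_lit 1) (nat_lit 195) (nat_lit 120) (nat_lit 195)) (PT.lf (nat_lit 5624) (nat_lit 6) (nat_lit 74) (nat_lit 1) (nat_lit 196) (nat_lit 120) (nat_lit 194))))) (PT.nd (nat_lit 52962) (PT.nd (nat_lit 52806) (PT.nd (nat_lit 52728) (PT.lf (nat_lit 5548) (nat_lit 6) (nat_lit 73) (nat_lit 1) (nat_lit 197) (nat_lit 120) (nat_lit 193)) (PT.lf (nat_lit 5776) (nat_lit 6) (nat_lit 76) (nat_lit 3) (nat_lit 192) (nat_lit 121) (nat_lit 197))) (PT.nd (nat_lit 78) (PT.lf (nat_lit 5852) (nat_lit 6) (nat_lit 77) (nat_lit 3) (nat_lit 193) (nat_lit 121) (nat_lit 196)) (PT.lf (nat_lit 5928) (nat_lit 6) (nat_lit 78) (nat_lit 3) (nat_lit 194) (nat_lit 121) (nat_lit 195)))) (PT.nd (nat_lit 156) (PT.nd (nat_lit 78) (PT.lf (nat_lit 5928) (nat_lit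 6) (nat_lit 78) (nat_lit 1) (nat_lit 195) (nat_lit 121) (nat_lit 194)) (PT.lf (nat_lit 5852) (nat_lit 6) (nat_lit 77) (nat_lit 1) (nat_lit 196) (nat_lit 121) (nat_lit 193))) (PT.nd (nat_lit 52728) (PT.lf (nat_lit 5776) (nat_lit 6) (nat_lit 76) (nat_lit 1) (nat_lit 197) (nat_lit 121) (nat_lit 192)) (PT.nd (nat_lit 78) (PT.lf (nat_lit 6004) (nat_lit 6) (nat_lit 79) (nat_lit 3) (nat_lit 192) (nat_lit 122) (nat_lit 196)) (PT.lf (nat_lit 6080) (nat_lit 6) (nat_lit 80) (nat_lit 3) (nat_lit 193) (nat_lit 122) (nat_lit 195))))))))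
noncomputable def pc4 : PT := (PT.nd (nat_lit 159276) (PT.nd (nat_lit 53274) (PT.nd (nat_lit 52962) (PT.nd (nat_lit 156) (PT.nd (nat_lit 78) (PT.lf (nat_lit 6156) (nat_lit 3) (nat_lit 81) (nat_lit 1) (nat_lit 194) (nat_lit 122) (nat_lit 194)) (PT.lf (nat_lit 6080) (nat_lit 6) (nat_lit 80) (nat_lit 1) (nat_lit 195) (nat_lit 122) (nat_lit 193))) (PT.nd (nat_lit 52728) (PT.lf (nat_lit 6004) (nat_lit 6) (nat_lit 79) (nat_lit 1) (nat_lit 196) (nat_lit 122) (nat_lit 192)) (PT.lf (nat_lit 6232) (nat_lit 6) (nat_lit 82) (nat_lit 3) (nat_lit 191) (nat_lit 123) (nat_lit 196)))) (PT.nd (nat_lit 156) (PT.nd (nat_lit 78) (PT.lf (nat_lit 6308) (nat_lit 6) (nat_lit 83) (nat_lit 3) (nat_lit 192) (nat_lit 123) (nat_lit 195)) (PT.lf (nat_lit 6384) (nat_lit 6) (nat_lit 84) (nat_lit 3) (nat_lit 193) (nat_lit 123) (nat_lit 194))) (PT.nd (nat_lit 78) (PT.lf (nat_lit 6384) (nat_lit 6) (nat_lit 84) (nat_lit 1) (nat_lit 194) (nat_lit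 123) (nat_lit 193)) (PT.lf (nat_lit 6308) (nat_lit 6) (nat_lit 83) (nat_lit 1) (nat_lit 195) (nat_lit 123) (nat_lit 192))))) (PT.nd (nat_lit 52962) (PT.nd (nat_lit 52806) (PT.nd (nat_lit 52728) (PT.lf (nat_lit 6232) (nat_lit 6) (nat_lit 82) (nat_lit 1) (nat_lit 196) (nat_lit 123) (nat_lit 191)) (PT.lf (nat_lit 6460) (nat_lit 6) (nat_lit 85) (nat_lit 3) (nat_lit 191) (nat_lit 124) (nat_lit 195))) (PT.nd (nat_lit 78) (PT.lf (nat_lit 6536) (nat_lit 6) (nat_lit 86) (nat_lit 3) (nat_lit 192) (nat_lit 124) (nat_lit 194)) (PT.lf (nat_lit 6612) (nat_lit 3) (nat_lit 87) (nat_lit 1) (nat_lit 193) (nat_lit 124) (nat_lit 193)))) (PT.nd (nat_lit 52806) (PT.nd (nat_lit 78) (PT.lf (nat_lit 6536) (nat_lit 6) (nat_lit 86) (nat_lit 1) (nat_lit 194) (nat_lit 124) (nat_lit 192)) (PT.lf (nat_lit 6460) (nat_lit 6) (nat_lit 85) (nat_lit 1) (nat_lit 195) (nat_lit 124) (nat_lit 191))) (PT.nd (nat_lit 78) (PT.lf (nat_lit 6688) (nat_lit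 6) (nat_lit 88) (nat_lit 3) (nat_lit 190) (nat_lit 125) (nat_lit 195)) (PT.nd (nat_lit 78) (PT.lf (nat_lit 6764) (nat_lit 6) (nat_lit 89) (nat_lit 3) (nat_lit 191) (nat_lit 125) (nat_lit 194)) (PT.lf (nat_lit 6840) (nat_lit 6) (nat_lit 90) (nat_lit 3) (nat_lit 192) (nat_lit 125) (nat_lit 193))))))) (PT.nd (nat_lit 53196) (PT.nd (nat_lit 52884) (PT.nd (nat_lit 156) (PT.nd (nat_lit 78) (PT.lf (nat_lit 6840) (nat_lit 6) (nat_lit 90) (nat_lit 1) (nat_lit 193) (nat_lit 125) (nat_lit 192)) (PT.lf (nat_lit 6764) (nat_lit 6) (nat_lit 89) (nat_lit 1) (nat_lit 194) (nat_lit 125) (nat_lit 191))) (PT.nd (nat_lit 52650) (PT.lf (nat_lit 6688) (nat_lit 6) (nat_lit 88) (nat_lit 1) (nat_lit 195) (nat_lit 125) (nat_lit 190)) (PT.lf (nat_lit 6916) (nat_lit 6) (nat_lit 91) (nat_lit 3) (nat_lit 189) (nat_lit 126) (nat_lit 195)))) (PT.nd (nat_lit 156) (PT.nd (nat_lit 78) (PT.lf (nat_lit 6992) (nat_lit 6) (nat_lit 92) (nat_lit 3)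 (nat_lit 190) (nat_lit 126) (nat_lit 194)) (PT.lf (nat_lit 7068) (nat_lit 6) (nat_lit 93) (nat_lit 3) (nat_lit 191) (nat_lit 126) (nat_lit 193))) (PT.nd (nat_lit 78) (PT.lf (nat_lit 7144) (nat_lit 3) (nat_lit 94) (nat_lit 1) (nat_lit 192) (nat_lit 126) (nat_lit 192)) (PT.lf (nat_lit 7068) (nat_lit 6) (nat_lit 93) (nat_lit 1) (nat_lit 193) (nat_lit 126) (nat_lit 191))))) (PT.nd (nat_lit 52884) (PT.nd (nat_lit 52728) (PT.nd (nat_lit 78) (PT.lf (nat_lit 6992) (nat_lit 6) (nat_lit 92) (nat_lit 1) (nat_lit 194) (nat_lit 126) (nat_lit 190)) (PT.lf (nat_lit 6916) (nat_lit 6) (nat_lit 91) (nat_lit 1) (nat_lit 195) (nat_lit 126) (nat_lit 189))) (PT.nd (nat_lit 78) (PT.lf (nat_lit 7220) (nat_lit 6) (nat_lit 95) (nat_lit 3) (nat_lit 189) (nat_lit 127) (nat_lit 194)) (PT.lf (nat_lit 7296) (nat_lit 6) (nat_lit 96) (nat_lit 3) (nat_lit 190) (nat_lit 127) (nat_lit 193)))) (PT.nd (nat_lit 156) (PT.nd (nat_lit 78) (PT.lf (nat_lit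 7372) (nat_lit 6) (nat_lit 97) (nat_lit 3) (nat_lit 191) (nat_lit 127) (nat_lit 192)) (PT.lf (nat_lit 7372) (nat_lit 6) (nat_lit 97) (nat_lit 1) (nat_lit 192) (nat_lit 127) (nat_lit 191))) (PT.nd (nat_lit 78) (PT.lf (nat_lit 7296) (nat_lit 6) (nat_lit 96) (nat_lit 1) (nat_lit 193) (nat_lit 127) (nat_lit 190)) (PT.nd (nat_lit 52650) (PT.lf (nat_lit 7220) (nat_lit 6) (nat_lit 95) (nat_lit 1) (nat_lit 194) (nat_lit 127) (nat_lit 189)) (PT.lf (nat_lit 7448) (nat_lit 6) (nat_lit 98) (nat_lit 3) (nat_lit 188) (nat_lit 128) (nat_lit 194))))))))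
noncomputable def pc5 : PT := (PT.nd (nat_lit 106470) (PT.nd (nat_lit 53196) (PT.nd (nat_lit 312) (PT.nd (nat_lit 156) (PT.nd (nat_lit 78) (PT.lf (nat_lit 7524) (nat_lit 6) (nat_lit 99) (nat_lit 3) (nat_lit 189) (nat_lit 128) (nat_lit 193)) (PT.lf (nat_lit 7600) (nat_lit 6) (nat_lit 100) (nat_lit 3) (nat_lit 190) (nat_lit 128) (nat_lit 192))) (PT.nd (nat_lit 78) (PT.lf (nat_lit 7676) (nat_lit 3) (nat_lit 101) (nat_lit 1) (nat_lit 191) (nat_lit 128) (nat_lit 191)) (PT.lf (nat_lit 7600) (nat_lit 6) (nat_lit 100) (nat_lit 1) (nat_lit 192) (nat_lit 128) (nat_lit 190)))) (PT.nd (nat_lit 52728) (PT.nd (nat_lit 78) (PT.lf (nat_lit 7524) (nat_lit 6) (nat_lit 99) (nat_lit 1) (nat_lit 193) (nat_lit 128) (nat_lit 189)) (PT.lf (nat_lit 7448) (nat_lit 6) (nat_lit 98) (nat_lit 1) (nat_lit 194) (nat_lit 128) (nat_lit 188))) (PT.nd (nat_lit 78) (PT.lf (nat_lit 7752) (nat_lit 6) (nat_lit 102) (nat_lit 3) (nat_lit 188) (nat_lit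 129) (nat_lit 193)) (PT.lf (nat_lit 7828) (nat_lit 6) (nat_lit 103) (nat_lit 3) (nat_lit 189) (nat_lit 129) (nat_lit 192))))) (PT.nd (nat_lit 52884) (PT.nd (nat_lit 156) (PT.nd (nat_lit 78) (PT.lf (nat_lit 7904) (nat_lit 6) (nat_lit 104) (nat_lit 3) (nat_lit 190) (nat_lit 129) (nat_lit 191)) (PT.lf (nat_lit 7904) (nat_lit 6) (nat_lit 104) (nat_lit 1) (nat_lit 191) (nat_lit 129) (nat_lit 190))) (PT.nd (nat_lit 78) (PT.lf (nat_lit 7828) (nat_lit 6) (nat_lit 103) (nat_lit 1) (nat_lit 192) (nat_lit 129) (nat_lit 189)) (PT.lf (nat_lit 7752) (nat_lit 6) (nat_lit 102) (nat_lit 1) (nat_lit 193) (nat_lit 129) (nat_lit 188)))) (PT.nd (nat_lit 156) (PT.nd (nat_lit 78) (PT.lf (nat_lit 7980) (nat_lit 6) (nat_lit 105) (nat_lit 3) (nat_lit 187) (nat_lit 130) (nat_lit 193)) (PT.lf (nat_lit 8056) (nat_lit 6) (nat_lit 106) (nat_lit 3) (nat_lit 188) (nat_lit 130) (nat_lit 192))) (PT.nd (nat_lit 78) (PT.lf (nat_lit 8132) (nat_lit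 6) (nat_lit 107) (nat_lit 3) (nat_lit 189) (nat_lit 130) (nat_lit 191)) (PT.nd (nat_lit 78) (PT.lf (nat_lit 8208) (nat_lit 3) (nat_lit 108) (nat_lit 1) (nat_lit 190) (nat_lit 130) (nat_lit 190)) (PT.lf (nat_lit 8132) (nat_lit 6) (nat_lit 107) (nat_lit 1) (nat_lit 191) (nat_lit 130) (nat_lit 189))))))) (PT.nd (nat_lit 53118) (PT.nd (nat_lit 52806) (PT.nd (nat_lit 52650) (PT.nd (nat_lit 78) (PT.lf (nat_lit 8056) (nat_lit 6) (nat_lit 106) (nat_lit 1) (nat_lit 192) (nat_lit 130) (nat_lit 188)) (PT.lf (nat_lit 7980) (nat_lit 6) (nat_lit 105) (nat_lit 1) (nat_lit 193) (nat_lit 130) (nat_lit 187))) (PT.nd (nat_lit 78) (PT.lf (nat_lit 8284) (nat_lit 6) (nat_lit 109) (nat_lit 3) (nat_lit 186) (nat_lit 131) (nat_lit 193)) (PT.lf (nat_lit 8360) (nat_lit 6) (nat_lit 110) (nat_lit 3) (nat_lit 187) (nat_lit 131) (nat_lit 192)))) (PT.nd (nat_lit 156) (PT.nd (nat_lit 78) (PT.lf (nat_lit 8436) (nat_lit 6) (nat_lit 111) (nat_lit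 3) (nat_lit 188) (nat_lit 131) (nat_lit 191)) (PT.lf (nat_lit 8512) (nat_lit 6) (nat_lit 112) (nat_lit 3) (nat_lit 189) (nat_lit 131) (nat_lit 190))) (PT.nd (nat_lit 78) (PT.lf (nat_lit 8512) (nat_lit 6) (nat_lit 112) (nat_lit 1) (nat_lit 190) (nat_lit 131) (nat_lit 189)) (PT.lf (nat_lit 8436) (nat_lit 6) (nat_lit 111) (nat_lit 1) (nat_lit 191) (nat_lit 131) (nat_lit 188))))) (PT.nd (nat_lit 52806) (PT.nd (nat_lit 52650) (PT.nd (nat_lit 78) (PT.lf (nat_lit 8360) (nat_lit 6) (nat_lit 110) (nat_lit 1) (nat_lit 192) (nat_lit 131) (nat_lit 187)) (PT.lf (nat_lit 8284) (nat_lit 6) (nat_lit 109) (nat_lit 1) (nat_lit 193) (nat_lit 131) (nat_lit 186))) (PT.nd (nat_lit 78) (PT.lf (nat_lit 8588) (nat_lit 6) (nat_lit 113) (nat_lit 3) (nat_lit 186) (nat_lit 132) (nat_lit 192)) (PT.lf (nat_lit 8664) (nat_lit 6) (nat_lit 114) (nat_lit 3) (nat_lit 187) (nat_lit 132) (nat_lit 191)))) (PT.nd (nat_lit 156) (PT.nd (nat_lit 78)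 (PT.lf (nat_lit 8740) (nat_lit 6) (nat_lit 115) (nat_lit 3) (nat_lit 188) (nat_lit 132) (nat_lit 190)) (PT.lf (nat_lit 8816) (nat_lit 3) (nat_lit 116) (nat_lit 1) (nat_lit 189) (nat_lit 132) (nat_lit 189))) (PT.nd (nat_lit 78) (PT.lf (nat_lit 8740) (nat_lit 6) (nat_lit 115) (nat_lit 1) (nat_lit 190) (nat_lit 132) (nat_lit 188)) (PT.nd (nat_lit 78) (PT.lf (nat_lit 8664) (nat_lit 6) (nat_lit 114) (nat_lit 1) (nat_lit 191) (nat_lit 132) (nat_lit 187)) (PT.lf (nat_lit 8588) (nat_lit 6) (nat_lit 113) (nat_lit 1) (nat_lit 192) (nat_lit 132) (nat_lit 186))))))))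
noncomputable def pc6 : PT := (PT.nd (nat_lit 106158) (PT.nd (nat_lit 53040) (PT.nd (nat_lit 312) (PT.nd (nat_lit 156) (PT.nd (nat_lit 78) (PT.lf (nat_lit 8892) (nat_lit 6) (nat_lit 117) (nat_lit 3) (nat_lit 185) (nat_lit 133) (nat_lit 192)) (PT.lf (nat_lit 8968) (nat_lit 6) (nat_lit 118) (nat_lit 3) (nat_lit 186) (nat_lit 133) (nat_lit 191))) (PT.nd (nat_lit 78) (PT.lf (nat_lit 9044) (nat_lit 6) (nat_lit 119) (nat_lit 3) (nat_lit 187) (nat_lit 133) (nat_lit 190)) (PT.lf (nat_lit 9120) (nat_lit 6) (nat_lit 120) (nat_lit 3) (nat_lit 188) (nat_lit 133) (nat_lit 189)))) (PT.nd (nat_lit 156) (PT.nd (nat_lit 78) (PT.lf (nat_lit 9120) (nat_lit 6) (nat_lit 120) (nat_lit 1) (nat_lit 189) (nat_lit 133) (nat_lit 188)) (PT.lf (nat_lit 9044) (nat_lit 6) (nat_lit 119) (nat_lit 1) (nat_lit 190) (nat_lit 133) (nat_lit 187))) (PT.nd (nat_lit 78) (PT.lf (nat_lit 8968) (nat_lit 6) (nat_lit 118) (nat_lit 1) (nat_lit 191) (nat_lit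 133) (nat_lit 186)) (PT.lf (nat_lit 8892) (nat_lit 6) (nat_lit 117) (nat_lit 1) (nat_lit 192) (nat_lit 133) (nat_lit 185))))) (PT.nd (nat_lit 312) (PT.nd (nat_lit 156) (PT.nd (nat_lit 78) (PT.lf (nat_lit 9196) (nat_lit 6) (nat_lit 121) (nat_lit 3) (nat_lit 184) (nat_lit 134) (nat_lit 192)) (PT.lf (nat_lit 9272) (nat_lit 6) (nat_lit 122) (nat_lit 3) (nat_lit 185) (nat_lit 134) (nat_lit 191))) (PT.nd (nat_lit 78) (PT.lf (nat_lit 9348) (nat_lit 6) (nat_lit 123) (nat_lit 3) (nat_lit 186) (nat_lit 134) (nat_lit 190)) (PT.lf (nat_lit 9424) (nat_lit 6) (nat_lit 124) (nat_lit 3) (nat_lit 187) (nat_lit 134) (nat_lit 189)))) (PT.nd (nat_lit 156) (PT.nd (nat_lit 78) (PT.lf (nat_lit 9500) (nat_lit 3) (nat_lit 125) (nat_lit 1) (nat_lit 188) (nat_lit 134) (nat_lit 188)) (PT.lf (nat_lit 9424) (nat_lit 6) (nat_lit 124) (nat_lit 1) (nat_lit 189) (nat_lit 134) (nat_lit 187))) (PT.nd (nat_lit 78) (PT.lf (nat_lit 9348) (nat_lit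 6) (nat_lit 123) (nat_lit 1) (nat_lit 190) (nat_lit 134) (nat_lit 186)) (PT.nd (nat_lit 78) (PT.lf (nat_lit 9272) (nat_lit 6) (nat_lit 122) (nat_lit 1) (nat_lit 191) (nat_lit 134) (nat_lit 185)) (PT.lf (nat_lit 9196) (nat_lit 6) (nat_lit 121) (nat_lit 1) (nat_lit 192) (nat_lit 134) (nat_lit 184))))))) (PT.nd (nat_lit 53040) (PT.nd (nat_lit 312) (PT.nd (nat_lit 156) (PT.nd (nat_lit 78) (PT.lf (nat_lit 9576) (nat_lit 6) (nat_lit 126) (nat_lit 3) (nat_lit 184) (nat_lit 135) (nat_lit 191)) (PT.lf (nat_lit 9652) (nat_lit 6) (nat_lit 127) (nat_lit 3) (nat_lit 185) (nat_lit 135) (nat_lit 190))) (PT.nd (nat_lit 78) (PT.lf (nat_lit 9728) (nat_lit 6) (nat_lit 128) (nat_lit 3) (nat_lit 186) (nat_lit 135) (nat_lit 189)) (PT.lf (nat_lit 9804) (nat_lit 6) (nat_lit 129) (nat_lit 3) (nat_lit 187) (nat_lit 135) (nat_lit 188)))) (PT.nd (nat_lit 156) (PT.nd (nat_lit 78) (PT.lf (nat_lit 9804) (nat_lit 6) (nat_lit 129) (nat_lit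 1) (nat_lit 188) (nat_lit 135) (nat_lit 187)) (PT.lf (nat_lit 9728) (nat_lit 6) (nat_lit 128) (nat_lit 1) (nat_lit 189) (nat_lit 135) (nat_lit 186))) (PT.nd (nat_lit 78) (PT.lf (nat_lit 9652) (nat_lit 6) (nat_lit 127) (nat_lit 1) (nat_lit 190) (nat_lit 135) (nat_lit 185)) (PT.lf (nat_lit 9576) (nat_lit 6) (nat_lit 126) (nat_lit 1) (nat_lit 191) (nat_lit 135) (nat_lit 184))))) (PT.nd (nat_lit 312) (PT.nd (nat_lit 156) (PT.nd (nat_lit 78) (PT.lf (nat_lit 9880) (nat_lit 6) (nat_lit 130) (nat_lit 3) (nat_lit 183) (nat_lit 136) (nat_lit 191)) (PT.lf (nat_lit 9956) (nat_lit 6) (nat_lit 131) (nat_lit 3) (nat_lit 184) (nat_lit 136) (nat_lit 190))) (PT.nd (nat_lit 78) (PT.lf (nat_lit 10032) (nat_lit 6) (nat_lit 132) (nat_lit 3) (nat_lit 185) (nat_lit 136) (nat_lit 189)) (PT.lf (nat_lit 10108) (nat_lit 6) (nat_lit 133) (nat_lit 3) (nat_lit 186) (nat_lit 136) (nat_lit 188)))) (PT.nd (nat_lit 156) (PT.nd (nat_lit 78) (PT.lf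 (nat_lit 10184) (nat_lit 3) (nat_lit 134) (nat_lit 1) (nat_lit 187) (nat_lit 136) (nat_lit 187)) (PT.lf (nat_lit 10108) (nat_lit 6) (nat_lit 133) (nat_lit 1) (nat_lit 188) (nat_lit 136) (nat_lit 186))) (PT.nd (nat_lit 78) (PT.lf (nat_lit 10032) (nat_lit 6) (nat_lit 132) (nat_lit 1) (nat_lit 189) (nat_lit 136) (nat_lit 185)) (PT.nd (nat_lit 78) (PT.lf (nat_lit 9956) (nat_lit 6) (nat_lit 131) (nat_lit 1) (nat_lit 190) (nat_lit 136) (nat_lit 184)) (PT.lf (nat_lit 9880) (nat_lit 6) (nat_lit 130) (nat_lit 1) (nat_lit 191) (nat_lit 136) (nat_lit 183))))))))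
noncomputable def pc7 : PT := (PT.nd (nat_lit 53664) (PT.nd (nat_lit 624) (PT.nd (nat_lit 312) (PT.nd (nat_lit 156) (PT.nd (nat_lit 78) (PT.lf (nat_lit 10260) (nat_lit 6) (nat_lit 135) (nat_lit 3) (nat_lit 182) (nat_lit 137) (nat_lit 191)) (PT.lf (nat_lit 10336) (nat_lit 6) (nat_lit 136) (nat_lit 3) (nat_lit 183) (nat_lit 137) (nat_lit 190))) (PT.nd (nat_lit 78) (PT.lf (nat_lit 10412) (nat_lit 6) (nat_lit 137) (nat_lit 3) (nat_lit 184) (nat_lit 137) (nat_lit 189)) (PT.lf (nat_lit 10488) (nat_lit 6) (nat_lit 138) (nat_lit 3) (nat_lit 185) (nat_lit 137) (nat_lit 188)))) (PT.nd (nat_lit 156) (PT.nd (nat_lit 78) (PT.lf (nat_lit 10564) (nat_lit 6) (nat_lit 139) (nat_lit 3) (nat_lit 186) (nat_lit 137) (nat_lit 187)) (PT.lf (nat_lit 10564) (nat_lit 6) (nat_lit 139) (nat_lit 1) (nat_lit 187) (nat_lit 137) (nat_lit 186))) (PT.nd (nat_lit 78) (PT.lf (nat_lit 10488) (nat_lit 6) (nat_lit 138) (nat_lit 1) (nat_lit 188) (nat_lit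 137) (nat_lit 185)) (PT.lf (nat_lit 10412) (nat_lit 6) (nat_lit 137) (nat_lit 1) (nat_lit 189) (nat_lit 137) (nat_lit 184))))) (PT.nd (nat_lit 52650) (PT.nd (nat_lit 52494) (PT.nd (nat_lit 78) (PT.lf (nat_lit 10336) (nat_lit 6) (nat_lit 136) (nat_lit 1) (nat_lit 190) (nat_lit 137) (nat_lit 183)) (PT.lf (nat_lit 10260) (nat_lit 6) (nat_lit 135) (nat_lit 1) (nat_lit 191) (nat_lit 137) (nat_lit 182))) (PT.nd (nat_lit 78) (PT.lf (nat_lit 10640) (nat_lit 6) (nat_lit 140) (nat_lit 3) (nat_lit 182) (nat_lit 138) (nat_lit 190)) (PT.lf (nat_lit 10716) (nat_lit 6) (nat_lit 141) (nat_lit 3) (nat_lit 183) (nat_lit 138) (nat_lit 189)))) (PT.nd (nat_lit 156) (PT.nd (nat_lit 78) (PT.lf (nat_lit 10792) (nat_lit 6) (nat_lit 142) (nat_lit 3) (nat_lit 184) (nat_lit 138) (nat_lit 188)) (PT.lf (nat_lit 10868) (nat_lit 6) (nat_lit 143) (nat_lit 3) (nat_lit 185) (nat_lit 138) (nat_lit 187))) (PT.nd (nat_lit 78) (PT.lf (nat_lit 10944)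 (nat_lit 3) (nat_lit 144) (nat_lit 1) (nat_lit 186) (nat_lit 138) (nat_lit 186)) (PT.nd (nat_lit 78) (PT.lf (nat_lit 10868) (nat_lit 6) (nat_lit 143) (nat_lit 1) (nat_lit 187) (nat_lit 138) (nat_lit 185)) (PT.lf (nat_lit 10792) (nat_lit 6) (nat_lit 142) (nat_lit 1) (nat_lit 188) (nat_lit 138) (nat_lit 184))))))) (PT.nd (nat_lit 52962) (PT.nd (nat_lit 52650) (PT.nd (nat_lit 52494) (PT.nd (nat_lit 78) (PT.lf (nat_lit 10716) (nat_lit 6) (nat_lit 141) (nat_lit 1) (nat_lit 189) (nat_lit 138) (nat_lit 183)) (PT.lf (nat_lit 10640) (nat_lit 6) (nat_lit 140) (nat_lit 1) (nat_lit 190) (nat_lit 138) (nat_lit 182))) (PT.nd (nat_lit 78) (PT.lf (nat_lit 11020) (nat_lit 6) (nat_lit 145) (nat_lit 3) (nat_lit 181) (nat_lit 139) (nat_lit 190)) (PT.lf (nat_lit 11096) (nat_lit 6) (nat_lit 146) (nat_lit 3) (nat_lit 182) (nat_lit 139) (nat_lit 189)))) (PT.nd (nat_lit 156) (PT.nd (nat_lit 78) (PT.lf (nat_lit 11172) (nat_lit 6) (nat_lit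 147) (nat_lit 3) (nat_lit 183) (nat_lit 139) (nat_lit 188)) (PT.lf (nat_lit 11248) (nat_lit 6) (nat_lit 148) (nat_lit 3) (nat_lit 184) (nat_lit 139) (nat_lit 187))) (PT.nd (nat_lit 78) (PT.lf (nat_lit 11324) (nat_lit 6) (nat_lit 149) (nat_lit 3) (nat_lit 185) (nat_lit 139) (nat_lit 186)) (PT.lf (nat_lit 11324) (nat_lit 6) (nat_lit 149) (nat_lit 1) (nat_lit 186) (nat_lit 139) (nat_lit 185))))) (PT.nd (nat_lit 52572) (PT.nd (nat_lit 156) (PT.nd (nat_lit 78) (PT.lf (nat_lit 11248) (nat_lit 6) (nat_lit 148) (nat_lit 1) (nat_lit 187) (nat_lit 139) (nat_lit 184)) (PT.lf (nat_lit 11172) (nat_lit 6) (nat_lit 147) (nat_lit 1) (nat_lit 188) (nat_lit 139) (nat_lit 183))) (PT.nd (nat_lit 78) (PT.lf (nat_lit 11096) (nat_lit 6) (nat_lit 146) (nat_lit 1) (nat_lit 189) (nat_lit 139) (nat_lit 182)) (PT.lf (nat_lit 11020) (nat_lit 6) (nat_lit 145) (nat_lit 1) (nat_lit 190) (nat_lit 139) (nat_lit 181)))) (PT.nd (nat_lit 156) (PT.nd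 (nat_lit 78) (PT.lf (nat_lit 11400) (nat_lit 6) (nat_lit 150) (nat_lit 3) (nat_lit 180) (nat_lit 140) (nat_lit 190)) (PT.lf (nat_lit 11476) (nat_lit 6) (nat_lit 151) (nat_lit 3) (nat_lit 181) (nat_lit 140) (nat_lit 189))) (PT.nd (nat_lit 78) (PT.lf (nat_lit 11552) (nat_lit 6) (nat_lit 152) (nat_lit 3) (nat_lit 182) (nat_lit 140) (nat_lit 188)) (PT.nd (nat_lit 78) (PT.lf (nat_lit 11628) (nat_lit 6) (nat_lit 153) (nat_lit 3) (nat_lit 183) (nat_lit 140) (nat_lit 187)) (PT.lf (nat_lit 11704) (nat_lit 6) (nat_lit 154) (nat_lit 3) (nat_lit 184) (nat_lit 140) (nat_lit 186))))))))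
noncomputable def pc8 : PT := (PT.nd (nat_lit 105768) (PT.nd (nat_lit 52884) (PT.nd (nat_lit 312) (PT.nd (nat_lit 156) (PT.nd (nat_lit 78) (PT.lf (nat_lit 11780) (nat_lit 3) (nat_lit 155) (nat_lit 1) (nat_lit 185) (nat_lit 140) (nat_lit 185)) (PT.lf (nat_lit 11704) (nat_lit 6) (nat_lit 154) (nat_lit 1) (nat_lit 186) (nat_lit 140) (nat_lit 184))) (PT.nd (nat_lit 78) (PT.lf (nat_lit 11628) (nat_lit 6) (nat_lit 153) (nat_lit 1) (nat_lit 187) (nat_lit 140) (nat_lit 183)) (PT.lf (nat_lit 11552) (nat_lit 6) (nat_lit 152) (nat_lit 1) (nat_lit 188) (nat_lit 140) (nat_lit 182)))) (PT.nd (nat_lit 52416) (PT.nd (nat_lit 78) (PT.lf (nat_lit 11476) (nat_lit 6) (nat_lit 151) (nat_lit 1) (nat_lit 189) (nat_lit 140) (nat_lit 181)) (PT.lf (nat_lit 11400) (nat_lit 6) (nat_lit 150) (nat_lit 1) (nat_lit 190) (nat_lit 140) (nat_lit 180))) (PT.nd (nat_lit 78) (PT.lf (nat_lit 11856) (nat_lit 6) (nat_lit 156) (nat_lit 3) (nat_lit 180)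 (nat_lit 141) (nat_lit 189)) (PT.lf (nat_lit 11932) (nat_lit 6) (nat_lit 157) (nat_lit 3) (nat_lit 181) (nat_lit 141) (nat_lit 188))))) (PT.nd (nat_lit 312) (PT.nd (nat_lit 156) (PT.nd (nat_lit 78) (PT.lf (nat_lit 12008) (nat_lit 6) (nat_lit 158) (nat_lit 3) (nat_lit 182) (nat_lit 141) (nat_lit 187)) (PT.lf (nat_lit 12084) (nat_lit 6) (nat_lit 159) (nat_lit 3) (nat_lit 183) (nat_lit 141) (nat_lit 186))) (PT.nd (nat_lit 78) (PT.lf (nat_lit 12160) (nat_lit 6) (nat_lit 160) (nat_lit 3) (nat_lit 184) (nat_lit 141) (nat_lit 185)) (PT.lf (nat_lit 12160) (nat_lit 6) (nat_lit 160) (nat_lit 1) (nat_lit 185) (nat_lit 141) (nat_lit 184)))) (PT.nd (nat_lit 156) (PT.nd (nat_lit 78) (PT.lf (nat_lit 12084) (nat_lit 6) (nat_lit 159) (nat_lit 1) (nat_lit 186) (nat_lit 141) (nat_lit 183)) (PT.lf (nat_lit 12008) (nat_lit 6) (nat_lit 158) (nat_lit 1) (nat_lit 187) (nat_lit 141) (nat_lit 182))) (PT.nd (nat_lit 78) (PT.lf (nat_lit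 11932) (nat_lit 6) (nat_lit 157) (nat_lit 1) (nat_lit 188) (nat_lit 141) (nat_lit 181)) (PT.lf (nat_lit 11856) (nat_lit 6) (nat_lit 156) (nat_lit 1) (nat_lit 189) (nat_lit 141) (nat_lit 180)))))) (PT.nd (nat_lit 624) (PT.nd (nat_lit 312) (PT.nd (nat_lit 156) (PT.nd (nat_lit 78) (PT.lf (nat_lit 12236) (nat_lit 6) (nat_lit 161) (nat_lit 3) (nat_lit 179) (nat_lit 142) (nat_lit 189)) (PT.lf (nat_lit 12312) (nat_lit 6) (nat_lit 162) (nat_lit 3) (nat_lit 180) (nat_lit 142) (nat_lit 188))) (PT.nd (nat_lit 78) (PT.lf (nat_lit 12388) (nat_lit 6) (nat_lit 163) (nat_lit 3) (nat_lit 181) (nat_lit 142) (nat_lit 187)) (PT.lf (nat_lit 12464) (nat_lit 6) (nat_lit 164) (nat_lit 3) (nat_lit 182) (nat_lit 142) (nat_lit 186)))) (PT.nd (nat_lit 156) (PT.nd (nat_lit 78) (PT.lf (nat_lit 12540) (nat_lit 6) (nat_lit 165) (nat_lit 3) (nat_lit 183) (nat_lit 142) (nat_lit 185)) (PT.lf (nat_lit 12616) (nat_lit 3) (nat_lit 166) (nat_lit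 1) (nat_lit 184) (nat_lit 142) (nat_lit 184))) (PT.nd (nat_lit 78) (PT.lf (nat_lit 12540) (nat_lit 6) (nat_lit 165) (nat_lit 1) (nat_lit 185) (nat_lit 142) (nat_lit 183)) (PT.lf (nat_lit 12464) (nat_lit 6) (nat_lit 164) (nat_lit 1) (nat_lit 186) (nat_lit 142) (nat_lit 182))))) (PT.nd (nat_lit 52494) (PT.nd (nat_lit 156) (PT.nd (nat_lit 78) (PT.lf (nat_lit 12388) (nat_lit 6) (nat_lit 163) (nat_lit 1) (nat_lit 187) (nat_lit 142) (nat_lit 181)) (PT.lf (nat_lit 12312) (nat_lit 6) (nat_lit 162) (nat_lit 1) (nat_lit 188) (nat_lit 142) (nat_lit 180))) (PT.nd (nat_lit 52260) (PT.lf (nat_lit 12236) (nat_lit 6) (nat_lit 161) (nat_lit 1) (nat_lit 189) (nat_lit 142) (nat_lit 179)) (PT.lf (nat_lit 12692) (nat_lit 6) (nat_lit 167) (nat_lit 3) (nat_lit 178) (nat_lit 143) (nat_lit 189)))) (PT.nd (nat_lit 156) (PT.nd (nat_lit 78) (PT.lf (nat_lit 12768) (nat_lit 6) (nat_lit 168) (nat_lit 3) (nat_lit 179) (nat_lit 143) (nat_lit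 188)) (PT.lf (nat_lit 12844) (nat_lit 6) (nat_lit 169) (nat_lit 3) (nat_lit 180) (nat_lit 143) (nat_lit 187))) (PT.nd (nat_lit 78) (PT.lf (nat_lit 12920) (nat_lit 6) (nat_lit 170) (nat_lit 3) (nat_lit 181) (nat_lit 143) (nat_lit 186)) (PT.nd (nat_lit 78) (PT.lf (nat_lit 12996) (nat_lit 6) (nat_lit 171) (nat_lit 3) (nat_lit 182) (nat_lit 143) (nat_lit 185)) (PT.lf (nat_lit 13072) (nat_lit 6) (nat_lit 172) (nat_lit 3) (nat_lit 183) (nat_lit 143) (nat_lit 184))))))))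
noncomputable def pc9 : PT := (PT.nd (nat_lit 105690) (PT.nd (nat_lit 52806) (PT.nd (nat_lit 312) (PT.nd (nat_lit 156) (PT.nd (nat_lit 78) (PT.lf (nat_lit 13072) (nat_lit 6) (nat_lit 172) (nat_lit 1) (nat_lit 184) (nat_lit 143) (nat_lit 183)) (PT.lf (nat_lit 12996) (nat_lit 6) (nat_lit 171) (nat_lit 1) (nat_lit 185) (nat_lit 143) (nat_lit 182))) (PT.nd (nat_lit 78) (PT.lf (nat_lit 12920) (nat_lit 6) (nat_lit 170) (nat_lit 1) (nat_lit 186) (nat_lit 143) (nat_lit 181)) (PT.lf (nat_lit 12844) (nat_lit 6) (nat_lit 169) (nat_lit 1) (nat_lit 187) (nat_lit 143) (nat_lit 180)))) (PT.nd (nat_lit 52338) (PT.nd (nat_lit 78) (PT.lf (nat_lit 12768) (nat_lit 6) (nat_lit 168) (nat_lit 1) (nat_lit 188) (nat_lit 143) (nat_lit 179)) (PT.lf (nat_lit 12692) (nat_lit 6) (nat_lit 167) (nat_lit 1) (nat_lit 189) (nat_lit 143) (nat_lit 178))) (PT.nd (nat_lit 78) (PT.lf (nat_lit 13148) (nat_lit 6) (nat_lit 173) (nat_lit 3) (nat_lit 178)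 (nat_lit 144) (nat_lit 188)) (PT.lf (nat_lit 13224) (nat_lit 6) (nat_lit 174) (nat_lit 3) (nat_lit 179) (nat_lit 144) (nat_lit 187))))) (PT.nd (nat_lit 312) (PT.nd (nat_lit 156) (PT.nd (nat_lit 78) (PT.lf (nat_lit 13300) (nat_lit 6) (nat_lit 175) (nat_lit 3) (nat_lit 180) (nat_lit 144) (nat_lit 186)) (PT.lf (nat_lit 13376) (nat_lit 6) (nat_lit 176) (nat_lit 3) (nat_lit 181) (nat_lit 144) (nat_lit 185))) (PT.nd (nat_lit 78) (PT.lf (nat_lit 13452) (nat_lit 6) (nat_lit 177) (nat_lit 3) (nat_lit 182) (nat_lit 144) (nat_lit 184)) (PT.lf (nat_lit 13528) (nat_lit 3) (nat_lit 178) (nat_lit 1) (nat_lit 183) (nat_lit 144) (nat_lit 183)))) (PT.nd (nat_lit 156) (PT.nd (nat_lit 78) (PT.lf (nat_lit 13452) (nat_lit 6) (nat_lit 177) (nat_lit 1) (nat_lit 184) (nat_lit 144) (nat_lit 182)) (PT.lf (nat_lit 13376) (nat_lit 6) (nat_lit 176) (nat_lit 1) (nat_lit 185) (nat_lit 144) (nat_lit 181))) (PT.nd (nat_lit 78) (PT.lf (nat_lit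 13300) (nat_lit 6) (nat_lit 175) (nat_lit 1) (nat_lit 186) (nat_lit 144) (nat_lit 180)) (PT.nd (nat_lit 78) (PT.lf (nat_lit 13224) (nat_lit 6) (nat_lit 174) (nat_lit 1) (nat_lit 187) (nat_lit 144) (nat_lit 179)) (PT.lf (nat_lit 13148) (nat_lit 6) (nat_lit 173) (nat_lit 1) (nat_lit 188) (nat_lit 144) (nat_lit 178))))))) (PT.nd (nat_lit 624) (PT.nd (nat_lit 312) (PT.nd (nat_lit 156) (PT.nd (nat_lit 78) (PT.lf (nat_lit 13604) (nat_lit 6) (nat_lit 179) (nat_lit 3) (nat_lit 177) (nat_lit 145) (nat_lit 188)) (PT.lf (nat_lit 13680) (nat_lit 6) (nat_lit 180) (nat_lit 3) (nat_lit 178) (nat_lit 145) (nat_lit 187))) (PT.nd (nat_lit 78) (PT.lf (nat_lit 13756) (nat_lit 6) (nat_lit 181) (nat_lit 3) (nat_lit 179) (nat_lit 145) (nat_lit 186)) (PT.lf (nat_lit 13832) (nat_lit 6) (nat_lit 182) (nat_lit 3) (nat_lit 180) (nat_lit 145) (nat_lit 185)))) (PT.nd (nat_lit 156) (PT.nd (nat_lit 78) (PT.lf (nat_lit 13908) (nat_lit 6) (nat_lit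 183) (nat_lit 3) (nat_lit 181) (nat_lit 145) (nat_lit 184)) (PT.lf (nat_lit 13984) (nat_lit 6) (nat_lit 184) (nat_lit 3) (nat_lit 182) (nat_lit 145) (nat_lit 183))) (PT.nd (nat_lit 78) (PT.lf (nat_lit 13984) (nat_lit 6) (nat_lit 184) (nat_lit 1) (nat_lit 183) (nat_lit 145) (nat_lit 182)) (PT.lf (nat_lit 13908) (nat_lit 6) (nat_lit 183) (nat_lit 1) (nat_lit 184) (nat_lit 145) (nat_lit 181))))) (PT.nd (nat_lit 52416) (PT.nd (nat_lit 156) (PT.nd (nat_lit 78) (PT.lf (nat_lit 13832) (nat_lit 6) (nat_lit 182) (nat_lit 1) (nat_lit 185) (nat_lit 145) (nat_lit 180)) (PT.lf (nat_lit 13756) (nat_lit 6) (nat_lit 181) (nat_lit 1) (nat_lit 186) (nat_lit 145) (nat_lit 179))) (PT.nd (nat_lit 78) (PT.lf (nat_lit 13680) (nat_lit 6) (nat_lit 180) (nat_lit 1) (nat_lit 187) (nat_lit 145) (nat_lit 178)) (PT.lf (nat_lit 13604) (nat_lit 6) (nat_lit 179) (nat_lit 1) (nat_lit 188) (nat_lit 145) (nat_lit 177)))) (PT.nd (nat_lit 156) (PT.nd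 (nat_lit 78) (PT.lf (nat_lit 14060) (nat_lit 6) (nat_lit 185) (nat_lit 3) (nat_lit 176) (nat_lit 146) (nat_lit 188)) (PT.lf (nat_lit 14136) (nat_lit 6) (nat_lit 186) (nat_lit 3) (nat_lit 177) (nat_lit 146) (nat_lit 187))) (PT.nd (nat_lit 78) (PT.lf (nat_lit 14212) (nat_lit 6) (nat_lit 187) (nat_lit 3) (nat_lit 178) (nat_lit 146) (nat_lit 186)) (PT.nd (nat_lit 78) (PT.lf (nat_lit 14288) (nat_lit 6) (nat_lit 188) (nat_lit 3) (nat_lit 179) (nat_lit 146) (nat_lit 185)) (PT.lf (nat_lit 14364) (nat_lit 6) (nat_lit 189) (nat_lit 3) (nat_lit 180) (nat_lit 146) (nat_lit 184))))))))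
noncomputable def pc10 : PT := (PT.nd (nat_lit 53352) (PT.nd (nat_lit 52650) (PT.nd (nat_lit 312) (PT.nd (nat_lit 156) (PT.nd (nat_lit 78) (PT.lf (nat_lit 14440) (nat_lit 6) (nat_lit 190) (nat_lit 3) (nat_lit 181) (nat_lit 146) (nat_lit 183)) (PT.lf (nat_lit 14516) (nat_lit 3) (nat_lit 191) (nat_lit 1) (nat_lit 182) (nat_lit 146) (nat_lit 182))) (PT.nd (nat_lit 78) (PT.lf (nat_lit 14440) (nat_lit 6) (nat_lit 190) (nat_lit 1) (nat_lit 183) (nat_lit 146) (nat_lit 181)) (PT.lf (nat_lit 14364) (nat_lit 6) (nat_lit 189) (nat_lit 1) (nat_lit 184) (nat_lit 146) (nat_lit 180)))) (PT.nd (nat_lit 156) (PT.nd (nat_lit 78) (PT.lf (nat_lit 14288) (nat_lit 6) (nat_lit 188) (nat_lit 1) (nat_lit 185) (nat_lit 146) (nat_lit 179)) (PT.lf (nat_lit 14212) (nat_lit 6) (nat_lit 187) (nat_lit 1) (nat_lit 186) (nat_lit 146) (nat_lit 178))) (PT.nd (nat_lit 78) (PT.lf (nat_lit 14136) (nat_lit 6) (nat_lit 186) (nat_lit 1) (nat_lit 187)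 (nat_lit 146) (nat_lit 177)) (PT.lf (nat_lit 14060) (nat_lit 6) (nat_lit 185) (nat_lit 1) (nat_lit 188) (nat_lit 146) (nat_lit 176))))) (PT.nd (nat_lit 312) (PT.nd (nat_lit 156) (PT.nd (nat_lit 78) (PT.lf (nat_lit 14592) (nat_lit 6) (nat_lit 192) (nat_lit 3) (nat_lit 175) (nat_lit 147) (nat_lit 188)) (PT.lf (nat_lit 14668) (nat_lit 6) (nat_lit 193) (nat_lit 3) (nat_lit 176) (nat_lit 147) (nat_lit 187))) (PT.nd (nat_lit 78) (PT.lf (nat_lit 14744) (nat_lit 6) (nat_lit 194) (nat_lit 3) (nat_lit 177) (nat_lit 147) (nat_lit 186)) (PT.lf (nat_lit 14820) (nat_lit 6) (nat_lit 195) (nat_lit 3) (nat_lit 178) (nat_lit 147) (nat_lit 185)))) (PT.nd (nat_lit 156) (PT.nd (nat_lit 78) (PT.lf (nat_lit 14896) (nat_lit 6) (nat_lit 196) (nat_lit 3) (nat_lit 179) (nat_lit 147) (nat_lit 184)) (PT.lf (nat_lit 14972) (nat_lit 6) (nat_lit 197) (nat_lit 3) (nat_lit 180) (nat_lit 147) (nat_lit 183))) (PT.nd (nat_lit 78) (PT.lf (nat_lit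 15048) (nat_lit 6) (nat_lit 198) (nat_lit 3) (nat_lit 181) (nat_lit 147) (nat_lit 182)) (PT.nd (nat_lit 78) (PT.lf (nat_lit 15048) (nat_lit 6) (nat_lit 198) (nat_lit 1) (nat_lit 182) (nat_lit 147) (nat_lit 181)) (PT.lf (nat_lit 14972) (nat_lit 6) (nat_lit 197) (nat_lit 1) (nat_lit 183) (nat_lit 147) (nat_lit 180))))))) (PT.nd (nat_lit 52650) (PT.nd (nat_lit 312) (PT.nd (nat_lit 156) (PT.nd (nat_lit 78) (PT.lf (nat_lit 14896) (nat_lit 6) (nat_lit 196) (nat_lit 1) (nat_lit 184) (nat_lit 147) (nat_lit 179)) (PT.lf (nat_lit 14820) (nat_lit 6) (nat_lit 195) (nat_lit 1) (nat_lit 185) (nat_lit 147) (nat_lit 178))) (PT.nd (nat_lit 78) (PT.lf (nat_lit 14744) (nat_lit 6) (nat_lit 194) (nat_lit 1) (nat_lit 186) (nat_lit 147) (nat_lit 177)) (PT.lf (nat_lit 14668) (nat_lit 6) (nat_lit 193) (nat_lit 1) (nat_lit 187) (nat_lit 147) (nat_lit 176)))) (PT.nd (nat_lit 52182) (PT.nd (nat_lit 52104) (PT.lf (nat_lit 14592) (nat_lit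 6) (nat_lit 192) (nat_lit 1) (nat_lit 188) (nat_lit 147) (nat_lit 175)) (PT.lf (nat_lit 15124) (nat_lit 6) (nat_lit 199) (nat_lit 3) (nat_lit 175) (nat_lit 148) (nat_lit 187))) (PT.nd (nat_lit 78) (PT.lf (nat_lit 15200) (nat_lit 6) (nat_lit 200) (nat_lit 3) (nat_lit 176) (nat_lit 148) (nat_lit 186)) (PT.lf (nat_lit 15276) (nat_lit 6) (nat_lit 201) (nat_lit 3) (nat_lit 177) (nat_lit 148) (nat_lit 185))))) (PT.nd (nat_lit 312) (PT.nd (nat_lit 156) (PT.nd (nat_lit 78) (PT.lf (nat_lit 15352) (nat_lit 6) (nat_lit 202) (nat_lit 3) (nat_lit 178) (nat_lit 148) (nat_lit 184)) (PT.lf (nat_lit 15428) (nat_lit 6) (nat_lit 203) (nat_lit 3) (nat_lit 179) (nat_lit 148) (nat_lit 183))) (PT.nd (nat_lit 78) (PT.lf (nat_lit 15504) (nat_lit 6) (nat_lit 204) (nat_lit 3) (nat_lit 180) (nat_lit 148) (nat_lit 182)) (PT.lf (nat_lit 15580) (nat_lit 3) (nat_lit 205) (nat_lit 1) (nat_lit 181) (nat_lit 148) (nat_lit 181)))) (PT.nd (nat_lit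 156) (PT.nd (nat_lit 78) (PT.lf (nat_lit 15504) (nat_lit 6) (nat_lit 204) (nat_lit 1) (nat_lit 182) (nat_lit 148) (nat_lit 180)) (PT.lf (nat_lit 15428) (nat_lit 6) (nat_lit 203) (nat_lit 1) (nat_lit 183) (nat_lit 148) (nat_lit 179))) (PT.nd (nat_lit 78) (PT.lf (nat_lit 15352) (nat_lit 6) (nat_lit 202) (nat_lit 1) (nat_lit 184) (nat_lit 148) (nat_lit 178)) (PT.nd (nat_lit 78) (PT.lf (nat_lit 15276) (nat_lit 6) (nat_lit 201) (nat_lit 1) (nat_lit 185) (nat_lit 148) (nat_lit 177)) (PT.lf (nat_lit 15200) (nat_lit 6) (nat_lit 200) (nat_lit 1) (nat_lit 186) (nat_lit 148) (nat_lit 176))))))))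
noncomputable def pc11 : PT := (PT.nd (nat_lit 105300) (PT.nd (nat_lit 52650) (PT.nd (nat_lit 52338) (PT.nd (nat_lit 52182) (PT.nd (nat_lit 52104) (PT.lf (nat_lit 15124) (nat_lit 6) (nat_lit 199) (nat_lit 1) (nat_lit 187) (nat_lit 148) (nat_lit 175)) (PT.lf (nat_lit 15656) (nat_lit 6) (nat_lit 206) (nat_lit 3) (nat_lit 174) (nat_lit 149) (nat_lit 187))) (PT.nd (nat_lit 78) (PT.lf (nat_lit 15732) (nat_lit 6) (nat_lit 207) (nat_lit 3) (nat_lit 175) (nat_lit 149) (nat_lit 186)) (PT.lf (nat_lit 15808) (nat_lit 6) (nat_lit 208) (nat_lit 3) (nat_lit 176) (nat_lit 149) (nat_lit 185)))) (PT.nd (nat_lit 156) (PT.nd (nat_lit 78) (PT.lf (nat_lit 15884) (nat_lit 6) (nat_lit 209) (nat_lit 3) (nat_lit 177) (nat_lit 149) (nat_lit 184)) (PT.lf (nat_lit 15960) (nat_lit 6) (nat_lit 210) (nat_lit 3) (nat_lit 178) (nat_lit 149) (nat_lit 183))) (PT.nd (nat_lit 78) (PT.lf (nat_lit 16036) (nat_lit 6) (nat_lit 211) (nat_lit 3) (nat_lit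 179) (nat_lit 149) (nat_lit 182)) (PT.lf (nat_lit 16112) (nat_lit 6) (nat_lit 212) (nat_lit 3) (nat_lit 180) (nat_lit 149) (nat_lit 181))))) (PT.nd (nat_lit 312) (PT.nd (nat_lit 156) (PT.nd (nat_lit 78) (PT.lf (nat_lit 16112) (nat_lit 6) (nat_lit 212) (nat_lit 1) (nat_lit 181) (nat_lit 149) (nat_lit 180)) (PT.lf (nat_lit 16036) (nat_lit 6) (nat_lit 211) (nat_lit 1) (nat_lit 182) (nat_lit 149) (nat_lit 179))) (PT.nd (nat_lit 78) (PT.lf (nat_lit 15960) (nat_lit 6) (nat_lit 210) (nat_lit 1) (nat_lit 183) (nat_lit 149) (nat_lit 178)) (PT.lf (nat_lit 15884) (nat_lit 6) (nat_lit 209) (nat_lit 1) (nat_lit 184) (nat_lit 149) (nat_lit 177)))) (PT.nd (nat_lit 156) (PT.nd (nat_lit 78) (PT.lf (nat_lit 15808) (nat_lit 6) (nat_lit 208) (nat_lit 1) (nat_lit 185) (nat_lit 149) (nat_lit 176)) (PT.lf (nat_lit 15732) (nat_lit 6) (nat_lit 207) (nat_lit 1) (nat_lit 186) (nat_lit 149) (nat_lit 175))) (PT.nd (nat_lit 52026) (PT.lf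 (nat_lit 15656) (nat_lit 6) (nat_lit 206) (nat_lit 1) (nat_lit 187) (nat_lit 149) (nat_lit 174)) (PT.nd (nat_lit 78) (PT.lf (nat_lit 16188) (nat_lit 6) (nat_lit 213) (nat_lit 3) (nat_lit 173) (nat_lit 150) (nat_lit 187)) (PT.lf (nat_lit 16264) (nat_lit 6) (nat_lit 214) (nat_lit 3) (nat_lit 174) (nat_lit 150) (nat_lit 186))))))) (PT.nd (nat_lit 624) (PT.nd (nat_lit 312) (PT.nd (nat_lit 156) (PT.nd (nat_lit 78) (PT.lf (nat_lit 16340) (nat_lit 6) (nat_lit 215) (nat_lit 3) (nat_lit 175) (nat_lit 150) (nat_lit 185)) (PT.lf (nat_lit 16416) (nat_lit 6) (nat_lit 216) (nat_lit 3) (nat_lit 176) (nat_lit 150) (nat_lit 184))) (PT.nd (nat_lit 78) (PT.lf (nat_lit 16492) (nat_lit 6) (nat_lit 217) (nat_lit 3) (nat_lit 177) (nat_lit 150) (nat_lit 183)) (PT.lf (nat_lit 16568) (nat_lit 6) (nat_lit 218) (nat_lit 3) (nat_lit 178) (nat_lit 150) (nat_lit 182)))) (PT.nd (nat_lit 156) (PT.nd (nat_lit 78) (PT.lf (nat_lit 16644) (nat_lit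 6) (nat_lit 219) (nat_lit 3) (nat_lit 179) (nat_lit 150) (nat_lit 181)) (PT.lf (nat_lit 16720) (nat_lit 3) (nat_lit 220) (nat_lit 1) (nat_lit 180) (nat_lit 150) (nat_lit 180))) (PT.nd (nat_lit 78) (PT.lf (nat_lit 16644) (nat_lit 6) (nat_lit 219) (nat_lit 1) (nat_lit 181) (nat_lit 150) (nat_lit 179)) (PT.lf (nat_lit 16568) (nat_lit 6) (nat_lit 218) (nat_lit 1) (nat_lit 182) (nat_lit 150) (nat_lit 178))))) (PT.nd (nat_lit 312) (PT.nd (nat_lit 156) (PT.nd (nat_lit 78) (PT.lf (nat_lit 16492) (nat_lit 6) (nat_lit 217) (nat_lit 1) (nat_lit 183) (nat_lit 150) (nat_lit 177)) (PT.lf (nat_lit 16416) (nat_lit 6) (nat_lit 216) (nat_lit 1) (nat_lit 184) (nat_lit 150) (nat_lit 176))) (PT.nd (nat_lit 78) (PT.lf (nat_lit 16340) (nat_lit 6) (nat_lit 215) (nat_lit 1) (nat_lit 185) (nat_lit 150) (nat_lit 175)) (PT.lf (nat_lit 16264) (nat_lit 6) (nat_lit 214) (nat_lit 1) (nat_lit 186) (nat_lit 150) (nat_lit 174)))) (PT.nd (nat_lit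 52026) (PT.nd (nat_lit 51948) (PT.lf (nat_lit 16188) (nat_lit 6) (nat_lit 213) (nat_lit 1) (nat_lit 187) (nat_lit 150) (nat_lit 173)) (PT.lf (nat_lit 16796) (nat_lit 6) (nat_lit 221) (nat_lit 3) (nat_lit 172) (nat_lit 151) (nat_lit 187))) (PT.nd (nat_lit 78) (PT.lf (nat_lit 16872) (nat_lit 6) (nat_lit 222) (nat_lit 3) (nat_lit 173) (nat_lit 151) (nat_lit 186)) (PT.nd (nat_lit 78) (PT.lf (nat_lit 16948) (nat_lit 6) (nat_lit 223) (nat_lit 3) (nat_lit 174) (nat_lit 151) (nat_lit 185)) (PT.lf (nat_lit 17024) (nat_lit 6) (nat_lit 224) (nat_lit 3) (nat_lit 175) (nat_lit 151) (nat_lit 184))))))))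
noncomputable def pc12 : PT := (PT.nd (nat_lit 53118) (PT.nd (nat_lit 624) (PT.nd (nat_lit 312) (PT.nd (nat_lit 156) (PT.nd (nat_lit 78) (PT.lf (nat_lit 17100) (nat_lit 6) (nat_lit 225) (nat_lit 3) (nat_lit 176) (nat_lit 151) (nat_lit 183)) (PT.lf (nat_lit 17176) (nat_lit 6) (nat_lit 226) (nat_lit 3) (nat_lit 177) (nat_lit 151) (nat_lit 182))) (PT.nd (nat_lit 78) (PT.lf (nat_lit 17252) (nat_lit 6) (nat_lit 227) (nat_lit 3) (nat_lit 178) (nat_lit 151) (nat_lit 181)) (PT.lf (nat_lit 17328) (nat_lit 6) (nat_lit 228) (nat_lit 3) (nat_lit 179) (nat_lit 151) (nat_lit 180)))) (PT.nd (nat_lit 156) (PT.nd (nat_lit 78) (PT.lf (nat_lit 17328) (nat_lit 6) (nat_lit 228) (nat_lit 1) (nat_lit 180) (nat_lit 151) (nat_lit 179)) (PT.lf (nat_lit 17252) (nat_lit 6) (nat_lit 227) (nat_lit 1) (nat_lit 181) (nat_lit 151) (nat_lit 178))) (PT.nd (nat_lit 78) (PT.lf (nat_lit 17176) (nat_lit 6) (nat_lit 226) (nat_lit 1) (nat_lit 182)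 (nat_lit 151) (nat_lit 177)) (PT.lf (nat_lit 17100) (nat_lit 6) (nat_lit 225) (nat_lit 1) (nat_lit 183) (nat_lit 151) (nat_lit 176))))) (PT.nd (nat_lit 52104) (PT.nd (nat_lit 156) (PT.nd (nat_lit 78) (PT.lf (nat_lit 17024) (nat_lit 6) (nat_lit 224) (nat_lit 1) (nat_lit 184) (nat_lit 151) (nat_lit 175)) (PT.lf (nat_lit 16948) (nat_lit 6) (nat_lit 223) (nat_lit 1) (nat_lit 185) (nat_lit 151) (nat_lit 174))) (PT.nd (nat_lit 78) (PT.lf (nat_lit 16872) (nat_lit 6) (nat_lit 222) (nat_lit 1) (nat_lit 186) (nat_lit 151) (nat_lit 173)) (PT.lf (nat_lit 16796) (nat_lit 6) (nat_lit 221) (nat_lit 1) (nat_lit 187) (nat_lit 151) (nat_lit 172)))) (PT.nd (nat_lit 156) (PT.nd (nat_lit 78) (PT.lf (nat_lit 17404) (nat_lit 6) (nat_lit 229) (nat_lit 3) (nat_lit 171) (nat_lit 152) (nat_lit 187)) (PT.lf (nat_lit 17480) (nat_lit 6) (nat_lit 230) (nat_lit 3) (nat_lit 172) (nat_lit 152) (nat_lit 186))) (PT.nd (nat_lit 78) (PT.lf (nat_lit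 17556) (nat_lit 6) (nat_lit 231) (nat_lit 3) (nat_lit 173) (nat_lit 152) (nat_lit 185)) (PT.nd (nat_lit 78) (PT.lf (nat_lit 17632) (nat_lit 6) (nat_lit 232) (nat_lit 3) (nat_lit 174) (nat_lit 152) (nat_lit 184)) (PT.lf (nat_lit 17708) (nat_lit 6) (nat_lit 233) (nat_lit 3) (nat_lit 175) (nat_lit 152) (nat_lit 183))))))) (PT.nd (nat_lit 624) (PT.nd (nat_lit 312) (PT.nd (nat_lit 156) (PT.nd (nat_lit 78) (PT.lf (nat_lit 17784) (nat_lit 6) (nat_lit 234) (nat_lit 3) (nat_lit 176) (nat_lit 152) (nat_lit 182)) (PT.lf (nat_lit 17860) (nat_lit 6) (nat_lit 235) (nat_lit 3) (nat_lit 177) (nat_lit 152) (nat_lit 181))) (PT.nd (nat_lit 78) (PT.lf (nat_lit 17936) (nat_lit 6) (nat_lit 236) (nat_lit 3) (nat_lit 178) (nat_lit 152) (nat_lit 180)) (PT.lf (nat_lit 18012) (nat_lit 3) (nat_lit 237) (nat_lit 1) (nat_lit 179) (nat_lit 152) (nat_lit 179)))) (PT.nd (nat_lit 156) (PT.nd (nat_lit 78) (PT.lf (nat_lit 17936) (nat_lit 6) (nat_lit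 236) (nat_lit 1) (nat_lit 180) (nat_lit 152) (nat_lit 178)) (PT.lf (nat_lit 17860) (nat_lit 6) (nat_lit 235) (nat_lit 1) (nat_lit 181) (nat_lit 152) (nat_lit 177))) (PT.nd (nat_lit 78) (PT.lf (nat_lit 17784) (nat_lit 6) (nat_lit 234) (nat_lit 1) (nat_lit 182) (nat_lit 152) (nat_lit 176)) (PT.lf (nat_lit 17708) (nat_lit 6) (nat_lit 233) (nat_lit 1) (nat_lit 183) (nat_lit 152) (nat_lit 175))))) (PT.nd (nat_lit 52104) (PT.nd (nat_lit 156) (PT.nd (nat_lit 78) (PT.lf (nat_lit 17632) (nat_lit 6) (nat_lit 232) (nat_lit 1) (nat_lit 184) (nat_lit 152) (nat_lit 174)) (PT.lf (nat_lit 17556) (nat_lit 6) (nat_lit 231) (nat_lit 1) (nat_lit 185) (nat_lit 152) (nat_lit 173))) (PT.nd (nat_lit 78) (PT.lf (nat_lit 17480) (nat_lit 6) (nat_lit 230) (nat_lit 1) (nat_lit 186) (nat_lit 152) (nat_lit 172)) (PT.lf (nat_lit 17404) (nat_lit 6) (nat_lit 229) (nat_lit 1) (nat_lit 187) (nat_lit 152) (nat_lit 171)))) (PT.nd (nat_lit 156) (PT.nd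 (nat_lit 78) (PT.lf (nat_lit 18088) (nat_lit 6) (nat_lit 238) (nat_lit 3) (nat_lit 171) (nat_lit 153) (nat_lit 186)) (PT.lf (nat_lit 18164) (nat_lit 6) (nat_lit 239) (nat_lit 3) (nat_lit 172) (nat_lit 153) (nat_lit 185))) (PT.nd (nat_lit 78) (PT.lf (nat_lit 18240) (nat_lit 6) (nat_lit 240) (nat_lit 3) (nat_lit 173) (nat_lit 153) (nat_lit 184)) (PT.nd (nat_lit 78) (PT.lf (nat_lit 18316) (nat_lit 6) (nat_lit 241) (nat_lit 3) (nat_lit 174) (nat_lit 153) (nat_lit 183)) (PT.lf (nat_lit 18392) (nat_lit 6) (nat_lit 242) (nat_lit 3) (nat_lit 175) (nat_lit 153) (nat_lit 182))))))))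
noncomputable def pc13 : PT := (PT.nd (nat_lit 53118) (PT.nd (nat_lit 624) (PT.nd (nat_lit 312) (PT.nd (nat_lit 156) (PT.nd (nat_lit 78) (PT.lf (nat_lit 18468) (nat_lit 6) (nat_lit 243) (nat_lit 3) (nat_lit 176) (nat_lit 153) (nat_lit 181)) (PT.lf (nat_lit 18544) (nat_lit 6) (nat_lit 244) (nat_lit 3) (nat_lit 177) (nat_lit 153) (nat_lit 180))) (PT.nd (nat_lit 78) (PT.lf (nat_lit 18620) (nat_lit 6) (nat_lit 245) (nat_lit 3) (nat_lit 178) (nat_lit 153) (nat_lit 179)) (PT.lf (nat_lit 18620) (nat_lit 6) (nat_lit 245) (nat_lit 1) (nat_lit 179) (nat_lit 153) (nat_lit 178)))) (PT.nd (nat_lit 156) (PT.nd (nat_lit 78) (PT.lf (nat_lit 18544) (nat_lit 6) (nat_lit 244) (nat_lit 1) (nat_lit 180) (nat_lit 153) (nat_lit 177)) (PT.lf (nat_lit 18468) (nat_lit 6) (nat_lit 243) (nat_lit 1) (nat_lit 181) (nat_lit 153) (nat_lit 176))) (PT.nd (nat_lit 78) (PT.lf (nat_lit 18392) (nat_lit 6) (nat_lit 242) (nat_lit 1) (nat_lit 182)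 (nat_lit 153) (nat_lit 175)) (PT.lf (nat_lit 18316) (nat_lit 6) (nat_lit 241) (nat_lit 1) (nat_lit 183) (nat_lit 153) (nat_lit 174))))) (PT.nd (nat_lit 52104) (PT.nd (nat_lit 156) (PT.nd (nat_lit 78) (PT.lf (nat_lit 18240) (nat_lit 6) (nat_lit 240) (nat_lit 1) (nat_lit 184) (nat_lit 153) (nat_lit 173)) (PT.lf (nat_lit 18164) (nat_lit 6) (nat_lit 239) (nat_lit 1) (nat_lit 185) (nat_lit 153) (nat_lit 172))) (PT.nd (nat_lit 51870) (PT.lf (nat_lit 18088) (nat_lit 6) (nat_lit 238) (nat_lit 1) (nat_lit 186) (nat_lit 153) (nat_lit 171)) (PT.lf (nat_lit 19304) (nat_lit 6) (nat_lit 254) (nat_lit 3) (nat_lit 170) (nat_lit 154) (nat_lit 186)))) (PT.nd (nat_lit 156) (PT.nd (nat_lit 78) (PT.lf (nat_lit 19380) (nat_lit 6) (nat_lit 255) (nat_lit 3) (nat_lit 171) (nat_lit 154) (nat_lit 185)) (PT.lf (nat_lit 19456) (nat_lit 6) (nat_lit 256) (nat_lit 3) (nat_lit 172) (nat_lit 154) (nat_lit 184))) (PT.nd (nat_lit 78) (PT.lf (nat_lit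 19532) (nat_lit 6) (nat_lit 257) (nat_lit 3) (nat_lit 173) (nat_lit 154) (nat_lit 183)) (PT.nd (nat_lit 78) (PT.lf (nat_lit 19608) (nat_lit 6) (nat_lit 258) (nat_lit 3) (nat_lit 174) (nat_lit 154) (nat_lit 182)) (PT.lf (nat_lit 19684) (nat_lit 6) (nat_lit 259) (nat_lit 3) (nat_lit 175) (nat_lit 154) (nat_lit 181))))))) (PT.nd (nat_lit 624) (PT.nd (nat_lit 312) (PT.nd (nat_lit 156) (PT.nd (nat_lit 78) (PT.lf (nat_lit 19760) (nat_lit 6) (nat_lit 260) (nat_lit 3) (nat_lit 176) (nat_lit 154) (nat_lit 180)) (PT.lf (nat_lit 19836) (nat_lit 6) (nat_lit 261) (nat_lit 3) (nat_lit 177) (nat_lit 154) (nat_lit 179))) (PT.nd (nat_lit 78) (PT.lf (nat_lit 19912) (nat_lit 3) (nat_lit 262) (nat_lit 1) (nat_lit 178) (nat_lit 154) (nat_lit 178)) (PT.lf (nat_lit 19836) (nat_lit 6) (nat_lit 261) (nat_lit 1) (nat_lit 179) (nat_lit 154) (nat_lit 177)))) (PT.nd (nat_lit 156) (PT.nd (nat_lit 78) (PT.lf (nat_lit 19760) (nat_lit 6) (nat_lit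 260) (nat_lit 1) (nat_lit 180) (nat_lit 154) (nat_lit 176)) (PT.lf (nat_lit 19684) (nat_lit 6) (nat_lit 259) (nat_lit 1) (nat_lit 181) (nat_lit 154) (nat_lit 175))) (PT.nd (nat_lit 78) (PT.lf (nat_lit 19608) (nat_lit 6) (nat_lit 258) (nat_lit 1) (nat_lit 182) (nat_lit 154) (nat_lit 174)) (PT.lf (nat_lit 19532) (nat_lit 6) (nat_lit 257) (nat_lit 1) (nat_lit 183) (nat_lit 154) (nat_lit 173))))) (PT.nd (nat_lit 52026) (PT.nd (nat_lit 156) (PT.nd (nat_lit 78) (PT.lf (nat_lit 19456) (nat_lit 6) (nat_lit 256) (nat_lit 1) (nat_lit 184) (nat_lit 154) (nat_lit 172)) (PT.lf (nat_lit 19380) (nat_lit 6) (nat_lit 255) (nat_lit 1) (nat_lit 185) (nat_lit 154) (nat_lit 171))) (PT.nd (nat_lit 51792) (PT.lf (nat_lit 19304) (nat_lit 6) (nat_lit 254) (nat_lit 1) (nat_lit 186) (nat_lit 154) (nat_lit 170)) (PT.lf (nat_lit 19228) (nat_lit 6) (nat_lit 253) (nat_lit 3) (nat_lit 169) (nat_lit 155) (nat_lit 186)))) (PT.nd (nat_lit 156)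 (PT.nd (nat_lit 78) (PT.lf (nat_lit 20520) (nat_lit 6) (nat_lit 270) (nat_lit 3) (nat_lit 170) (nat_lit 155) (nat_lit 185)) (PT.lf (nat_lit 20596) (nat_lit 6) (nat_lit 271) (nat_lit 3) (nat_lit 171) (nat_lit 155) (nat_lit 184))) (PT.nd (nat_lit 78) (PT.lf (nat_lit 20672) (nat_lit 6) (nat_lit 272) (nat_lit 3) (nat_lit 172) (nat_lit 155) (nat_lit 183)) (PT.nd (nat_lit 78) (PT.lf (nat_lit 20748) (nat_lit 6) (nat_lit 273) (nat_lit 3) (nat_lit 173) (nat_lit 155) (nat_lit 182)) (PT.lf (nat_lit 20824) (nat_lit 6) (nat_lit 274) (nat_lit 3) (nat_lit 174) (nat_lit 155) (nat_lit 181))))))))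
noncomputable def pc14 : PT := (PT.nd (nat_lit 52962) (PT.nd (nat_lit 624) (PT.nd (nat_lit 312) (PT.nd (nat_lit 156) (PT.nd (nat_lit 78) (PT.lf (nat_lit 20900) (nat_lit 6) (nat_lit 275) (nat_lit 3) (nat_lit 175) (nat_lit 155) (nat_lit 180)) (PT.lf (nat_lit 20976) (nat_lit 6) (nat_lit 276) (nat_lit 3) (nat_lit 176) (nat_lit 155) (nat_lit 179))) (PT.nd (nat_lit 78) (PT.lf (nat_lit 21052) (nat_lit 6) (nat_lit 277) (nat_lit 3) (nat_lit 177) (nat_lit 155) (nat_lit 178)) (PT.lf (nat_lit 21052) (nat_lit 6) (nat_lit 277) (nat_lit 1) (nat_lit 178) (nat_lit 155) (nat_lit 177)))) (PT.nd (nat_lit 156) (PT.nd (nat_lit 78) (PT.lf (nat_lit 20976) (nat_lit 6) (nat_lit 276) (nat_lit 1) (nat_lit 179) (nat_lit 155) (nat_lit 176)) (PT.lf (nat_lit 20900) (nat_lit 6) (nat_lit 275) (nat_lit 1) (nat_lit 180) (nat_lit 155) (nat_lit 175))) (PT.nd (nat_lit 78) (PT.lf (nat_lit 20824) (nat_lit 6) (nat_lit 274) (nat_lit 1) (nat_lit 181)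 (nat_lit 155) (nat_lit 174)) (PT.lf (nat_lit 20748) (nat_lit 6) (nat_lit 273) (nat_lit 1) (nat_lit 182) (nat_lit 155) (nat_lit 173))))) (PT.nd (nat_lit 51948) (PT.nd (nat_lit 156) (PT.nd (nat_lit 78) (PT.lf (nat_lit 20672) (nat_lit 6) (nat_lit 272) (nat_lit 1) (nat_lit 183) (nat_lit 155) (nat_lit 172)) (PT.lf (nat_lit 20596) (nat_lit 6) (nat_lit 271) (nat_lit 1) (nat_lit 184) (nat_lit 155) (nat_lit 171))) (PT.nd (nat_lit 78) (PT.lf (nat_lit 20520) (nat_lit 6) (nat_lit 270) (nat_lit 1) (nat_lit 185) (nat_lit 155) (nat_lit 170)) (PT.lf (nat_lit 19228) (nat_lit 6) (nat_lit 253) (nat_lit 1) (nat_lit 186) (nat_lit 155) (nat_lit 169)))) (PT.nd (nat_lit 156) (PT.nd (nat_lit 78) (PT.lf (nat_lit 19152) (nat_lit 6) (nat_lit 252) (nat_lit 3) (nat_lit 168) (nat_lit 156) (nat_lit 186)) (PT.lf (nat_lit 20444) (nat_lit 6) (nat_lit 269) (nat_lit 3) (nat_lit 169) (nat_lit 156) (nat_lit 185))) (PT.nd (nat_lit 78) (PT.lf (nat_lit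 21660) (nat_lit 6) (nat_lit 285) (nat_lit 3) (nat_lit 170) (nat_lit 156) (nat_lit 184)) (PT.nd (nat_lit 78) (PT.lf (nat_lit 21736) (nat_lit 6) (nat_lit 286) (nat_lit 3) (nat_lit 171) (nat_lit 156) (nat_lit 183)) (PT.lf (nat_lit 21812) (nat_lit 6) (nat_lit 287) (nat_lit 3) (nat_lit 172) (nat_lit 156) (nat_lit 182))))))) (PT.nd (nat_lit 624) (PT.nd (nat_lit 312) (PT.nd (nat_lit 156) (PT.nd (nat_lit 78) (PT.lf (nat_lit 21888) (nat_lit 6) (nat_lit 288) (nat_lit 3) (nat_lit 173) (nat_lit 156) (nat_lit 181)) (PT.lf (nat_lit 21964) (nat_lit 6) (nat_lit 289) (nat_lit 3) (nat_lit 174) (nat_lit 156) (nat_lit 180))) (PT.nd (nat_lit 78) (PT.lf (nat_lit 22040) (nat_lit 6) (nat_lit 290) (nat_lit 3) (nat_lit 175) (nat_lit 156) (nat_lit 179)) (PT.lf (nat_lit 22116) (nat_lit 6) (nat_lit 291) (nat_lit 3) (nat_lit 176) (nat_lit 156) (nat_lit 178)))) (PT.nd (nat_lit 156) (PT.nd (nat_lit 78) (PT.lf (nat_lit 22192) (nat_lit 3) (nat_lit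 292) (nat_lit 1) (nat_lit 177) (nat_lit 156) (nat_lit 177)) (PT.lf (nat_lit 22116) (nat_lit 6) (nat_lit 291) (nat_lit 1) (nat_lit 178) (nat_lit 156) (nat_lit 176))) (PT.nd (nat_lit 78) (PT.lf (nat_lit 22040) (nat_lit 6) (nat_lit 290) (nat_lit 1) (nat_lit 179) (nat_lit 156) (nat_lit 175)) (PT.lf (nat_lit 21964) (nat_lit 6) (nat_lit 289) (nat_lit 1) (nat_lit 180) (nat_lit 156) (nat_lit 174))))) (PT.nd (nat_lit 312) (PT.nd (nat_lit 156) (PT.nd (nat_lit 78) (PT.lf (nat_lit 21888) (nat_lit 6) (nat_lit 288) (nat_lit 1) (nat_lit 181) (nat_lit 156) (nat_lit 173)) (PT.lf (nat_lit 21812) (nat_lit 6) (nat_lit 287) (nat_lit 1) (nat_lit 182) (nat_lit 156) (nat_lit 172))) (PT.nd (nat_lit 78) (PT.lf (nat_lit 21736) (nat_lit 6) (nat_lit 286) (nat_lit 1) (nat_lit 183) (nat_lit 156) (nat_lit 171)) (PT.lf (nat_lit 21660) (nat_lit 6) (nat_lit 285) (nat_lit 1) (nat_lit 184) (nat_lit 156) (nat_lit 170)))) (PT.nd (nat_lit 51714) (PT.nd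 (nat_lit 78) (PT.lf (nat_lit 20444) (nat_lit 6) (nat_lit 269) (nat_lit 1) (nat_lit 185) (nat_lit 156) (nat_lit 169)) (PT.lf (nat_lit 19152) (nat_lit 6) (nat_lit 252) (nat_lit 1) (nat_lit 186) (nat_lit 156) (nat_lit 168))) (PT.nd (nat_lit 78) (PT.lf (nat_lit 19076) (nat_lit 6) (nat_lit 251) (nat_lit 3) (nat_lit 167) (nat_lit 157) (nat_lit 186)) (PT.nd (nat_lit 78) (PT.lf (nat_lit 20368) (nat_lit 6) (nat_lit 268) (nat_lit 3) (nat_lit 168) (nat_lit 157) (nat_lit 185)) (PT.lf (nat_lit 21584) (nat_lit 6) (nat_lit 284) (nat_lit 3) (nat_lit 169) (nat_lit 157) (nat_lit 184))))))))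
noncomputable def pc15 : PT := (PT.nd (nat_lit 52806) (PT.nd (nat_lit 624) (PT.nd (nat_lit 312) (PT.nd (nat_lit 156) (PT.nd (nat_lit 78) (PT.lf (nat_lit 22724) (nat_lit 6) (nat_lit 299) (nat_lit 3) (nat_lit 170) (nat_lit 157) (nat_lit 183)) (PT.lf (nat_lit 22800) (nat_lit 6) (nat_lit 300) (nat_lit 3) (nat_lit 171) (nat_lit 157) (nat_lit 182))) (PT.nd (nat_lit 78) (PT.lf (nat_lit 22876) (nat_lit 6) (nat_lit 301) (nat_lit 3) (nat_lit 172) (nat_lit 157) (nat_lit 181)) (PT.lf (nat_lit 22952) (nat_lit 6) (nat_lit 302) (nat_lit 3) (nat_lit 173) (nat_lit 157) (nat_lit 180)))) (PT.nd (nat_lit 156) (PT.nd (nat_lit 78) (PT.lf (nat_lit 23028) (nat_lit 6) (nat_lit 303) (nat_lit 3) (nat_lit 174) (nat_lit 157) (nat_lit 179)) (PT.lf (nat_lit 23104) (nat_lit 6) (nat_lit 304) (nat_lit 3) (nat_lit 175) (nat_lit 157) (nat_lit 178))) (PT.nd (nat_lit 78) (PT.lf (nat_lit 23180) (nat_lit 6) (nat_lit 305) (nat_lit 3) (nat_lit 176)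 (nat_lit 157) (nat_lit 177)) (PT.lf (nat_lit 23180) (nat_lit 6) (nat_lit 305) (nat_lit 1) (nat_lit 177) (nat_lit 157) (nat_lit 176))))) (PT.nd (nat_lit 312) (PT.nd (nat_lit 156) (PT.nd (nat_lit 78) (PT.lf (nat_lit 23104) (nat_lit 6) (nat_lit 304) (nat_lit 1) (nat_lit 178) (nat_lit 157) (nat_lit 175)) (PT.lf (nat_lit 23028) (nat_lit 6) (nat_lit 303) (nat_lit 1) (nat_lit 179) (nat_lit 157) (nat_lit 174))) (PT.nd (nat_lit 78) (PT.lf (nat_lit 22952) (nat_lit 6) (nat_lit 302) (nat_lit 1) (nat_lit 180) (nat_lit 157) (nat_lit 173)) (PT.lf (nat_lit 22876) (nat_lit 6) (nat_lit 301) (nat_lit 1) (nat_lit 181) (nat_lit 157) (nat_lit 172)))) (PT.nd (nat_lit 156) (PT.nd (nat_lit 78) (PT.lf (nat_lit 22800) (nat_lit 6) (nat_lit 300) (nat_lit 1) (nat_lit 182) (nat_lit 157) (nat_lit 171)) (PT.lf (nat_lit 22724) (nat_lit 6) (nat_lit 299) (nat_lit 1) (nat_lit 183) (nat_lit 157) (nat_lit 170))) (PT.nd (nat_lit 78) (PT.lf (nat_lit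 21584) (nat_lit 6) (nat_lit 284) (nat_lit 1) (nat_lit 184) (nat_lit 157) (nat_lit 169)) (PT.nd (nat_lit 78) (PT.lf (nat_lit 20368) (nat_lit 6) (nat_lit 268) (nat_lit 1) (nat_lit 185) (nat_lit 157) (nat_lit 168)) (PT.lf (nat_lit 19076) (nat_lit 6) (nat_lit 251) (nat_lit 1) (nat_lit 186) (nat_lit 157) (nat_lit 167))))))) (PT.nd (nat_lit 624) (PT.nd (nat_lit 312) (PT.nd (nat_lit 156) (PT.nd (nat_lit 78) (PT.lf (nat_lit 19000) (nat_lit 6) (nat_lit 250) (nat_lit 3) (nat_lit 166) (nat_lit 158) (nat_lit 186)) (PT.lf (nat_lit 20292) (nat_lit 6) (nat_lit 267) (nat_lit 3) (nat_lit 167) (nat_lit 158) (nat_lit 185))) (PT.nd (nat_lit 78) (PT.lf (nat_lit 21508) (nat_lit 6) (nat_lit 283) (nat_lit 3) (nat_lit 168) (nat_lit 158) (nat_lit 184)) (PT.lf (nat_lit 22648) (nat_lit 6) (nat_lit 298) (nat_lit 3) (nat_lit 169) (nat_lit 158) (nat_lit 183)))) (PT.nd (nat_lit 156) (PT.nd (nat_lit 78) (PT.lf (nat_lit 23712) (nat_lit 6) (nat_lit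 312) (nat_lit 3) (nat_lit 170) (nat_lit 158) (nat_lit 182)) (PT.lf (nat_lit 23788) (nat_lit 6) (nat_lit 313) (nat_lit 3) (nat_lit 171) (nat_lit 158) (nat_lit 181))) (PT.nd (nat_lit 78) (PT.lf (nat_lit 23864) (nat_lit 6) (nat_lit 314) (nat_lit 3) (nat_lit 172) (nat_lit 158) (nat_lit 180)) (PT.lf (nat_lit 23940) (nat_lit 6) (nat_lit 315) (nat_lit 3) (nat_lit 173) (nat_lit 158) (nat_lit 179))))) (PT.nd (nat_lit 312) (PT.nd (nat_lit 156) (PT.nd (nat_lit 78) (PT.lf (nat_lit 24016) (nat_lit 6) (nat_lit 316) (nat_lit 3) (nat_lit 174) (nat_lit 158) (nat_lit 178)) (PT.lf (nat_lit 24092) (nat_lit 6) (nat_lit 317) (nat_lit 3) (nat_lit 175) (nat_lit 158) (nat_lit 177))) (PT.nd (nat_lit 78) (PT.lf (nat_lit 24168) (nat_lit 3) (nat_lit 318) (nat_lit 1) (nat_lit 176) (nat_lit 158) (nat_lit 176)) (PT.lf (nat_lit 24092) (nat_lit 6) (nat_lit 317) (nat_lit 1) (nat_lit 177) (nat_lit 158) (nat_lit 175)))) (PT.nd (nat_lit 156) (PT.nd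 (nat_lit 78) (PT.lf (nat_lit 24016) (nat_lit 6) (nat_lit 316) (nat_lit 1) (nat_lit 178) (nat_lit 158) (nat_lit 174)) (PT.lf (nat_lit 23940) (nat_lit 6) (nat_lit 315) (nat_lit 1) (nat_lit 179) (nat_lit 158) (nat_lit 173))) (PT.nd (nat_lit 78) (PT.lf (nat_lit 23864) (nat_lit 6) (nat_lit 314) (nat_lit 1) (nat_lit 180) (nat_lit 158) (nat_lit 172)) (PT.nd (nat_lit 78) (PT.lf (nat_lit 23788) (nat_lit 6) (nat_lit 313) (nat_lit 1) (nat_lit 181) (nat_lit 158) (nat_lit 171)) (PT.lf (nat_lit 23712) (nat_lit 6) (nat_lit 312) (nat_lit 1) (nat_lit 182) (nat_lit 158) (nat_lit 170))))))))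
noncomputable def pc16 : PT := (PT.nd (nat_lit 52650) (PT.nd (nat_lit 52026) (PT.nd (nat_lit 51714) (PT.nd (nat_lit 156) (PT.nd (nat_lit 78) (PT.lf (nat_lit 22648) (nat_lit 6) (nat_lit 298) (nat_lit 1) (nat_lit 183) (nat_lit 158) (nat_lit 169)) (PT.lf (nat_lit 21508) (nat_lit 6) (nat_lit 283) (nat_lit 1) (nat_lit 184) (nat_lit 158) (nat_lit 168))) (PT.nd (nat_lit 78) (PT.lf (nat_lit 20292) (nat_lit 6) (nat_lit 267) (nat_lit 1) (nat_lit 185) (nat_lit 158) (nat_lit 167)) (PT.lf (nat_lit 19000) (nat_lit 6) (nat_lit 250) (nat_lit 1) (nat_lit 186) (nat_lit 158) (nat_lit 166)))) (PT.nd (nat_lit 156) (PT.nd (nat_lit 78) (PT.lf (nat_lit 18924) (nat_lit 6) (nat_lit 249) (nat_lit 3) (nat_lit 165) (nat_lit 159) (nat_lit 186)) (PT.lf (nat_lit 20216) (nat_lit 6) (nat_lit 266) (nat_lit 3) (nat_lit 166) (nat_lit 159) (nat_lit 185))) (PT.nd (nat_lit 78) (PT.lf (nat_lit 21432) (nat_lit 6) (nat_lit 282) (nat_lit 3) (nat_lit 167)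 (nat_lit 159) (nat_lit 184)) (PT.lf (nat_lit 22572) (nat_lit 6) (nat_lit 297) (nat_lit 3) (nat_lit 168) (nat_lit 159) (nat_lit 183))))) (PT.nd (nat_lit 312) (PT.nd (nat_lit 156) (PT.nd (nat_lit 78) (PT.lf (nat_lit 23636) (nat_lit 6) (nat_lit 311) (nat_lit 3) (nat_lit 169) (nat_lit 159) (nat_lit 182)) (PT.lf (nat_lit 24624) (nat_lit 6) (nat_lit 324) (nat_lit 3) (nat_lit 170) (nat_lit 159) (nat_lit 181))) (PT.nd (nat_lit 78) (PT.lf (nat_lit 24700) (nat_lit 6) (nat_lit 325) (nat_lit 3) (nat_lit 171) (nat_lit 159) (nat_lit 180)) (PT.lf (nat_lit 24776) (nat_lit 6) (nat_lit 326) (nat_lit 3) (nat_lit 172) (nat_lit 159) (nat_lit 179)))) (PT.nd (nat_lit 156) (PT.nd (nat_lit 78) (PT.lf (nat_lit 24852) (nat_lit 6) (nat_lit 327) (nat_lit 3) (nat_lit 173) (nat_lit 159) (nat_lit 178)) (PT.lf (nat_lit 24928) (nat_lit 6) (nat_lit 328) (nat_lit 3) (nat_lit 174) (nat_lit 159) (nat_lit 177))) (PT.nd (nat_lit 78) (PT.lf (nat_lit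 25004) (nat_lit 6) (nat_lit 329) (nat_lit 3) (nat_lit 175) (nat_lit 159) (nat_lit 176)) (PT.lf (nat_lit 25004) (nat_lit 6) (nat_lit 329) (nat_lit 1) (nat_lit 176) (nat_lit 159) (nat_lit 175)))))) (PT.nd (nat_lit 624) (PT.nd (nat_lit 312) (PT.nd (nat_lit 156) (PT.nd (nat_lit 78) (PT.lf (nat_lit 24928) (nat_lit 6) (nat_lit 328) (nat_lit 1) (nat_lit 177) (nat_lit 159) (nat_lit 174)) (PT.lf (nat_lit 24852) (nat_lit 6) (nat_lit 327) (nat_lit 1) (nat_lit 178) (nat_lit 159) (nat_lit 173))) (PT.nd (nat_lit 78) (PT.lf (nat_lit 24776) (nat_lit 6) (nat_lit 326) (nat_lit 1) (nat_lit 179) (nat_lit 159) (nat_lit 172)) (PT.lf (nat_lit 24700) (nat_lit 6) (nat_lit 325) (nat_lit 1) (nat_lit 180) (nat_lit 159) (nat_lit 171)))) (PT.nd (nat_lit 156) (PT.nd (nat_lit 78) (PT.lf (nat_lit 24624) (nat_lit 6) (nat_lit 324) (nat_lit 1) (nat_lit 181) (nat_lit 159) (nat_lit 170)) (PT.lf (nat_lit 23636) (nat_lit 6) (nat_lit 311) (nat_lit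 1) (nat_lit 182) (nat_lit 159) (nat_lit 169))) (PT.nd (nat_lit 78) (PT.lf (nat_lit 22572) (nat_lit 6) (nat_lit 297) (nat_lit 1) (nat_lit 183) (nat_lit 159) (nat_lit 168)) (PT.lf (nat_lit 21432) (nat_lit 6) (nat_lit 282) (nat_lit 1) (nat_lit 184) (nat_lit 159) (nat_lit 167))))) (PT.nd (nat_lit 51636) (PT.nd (nat_lit 51480) (PT.nd (nat_lit 78) (PT.lf (nat_lit 20216) (nat_lit 6) (nat_lit 266) (nat_lit 1) (nat_lit 185) (nat_lit 159) (nat_lit 166)) (PT.lf (nat_lit 18924) (nat_lit 6) (nat_lit 249) (nat_lit 1) (nat_lit 186) (nat_lit 159) (nat_lit 165))) (PT.nd (nat_lit 78) (PT.lf (nat_lit 18848) (nat_lit 6) (nat_lit 248) (nat_lit 3) (nat_lit 164) (nat_lit 160) (nat_lit 186)) (PT.lf (nat_lit 20140) (nat_lit 6) (nat_lit 265) (nat_lit 3) (nat_lit 165) (nat_lit 160) (nat_lit 185)))) (PT.nd (nat_lit 156) (PT.nd (nat_lit 78) (PT.lf (nat_lit 21356) (nat_lit 6) (nat_lit 281) (nat_lit 3) (nat_lit 166) (nat_lit 160) (nat_lit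 184)) (PT.lf (nat_lit 22496) (nat_lit 6) (nat_lit 296) (nat_lit 3) (nat_lit 167) (nat_lit 160) (nat_lit 183))) (PT.nd (nat_lit 78) (PT.lf (nat_lit 23560) (nat_lit 6) (nat_lit 310) (nat_lit 3) (nat_lit 168) (nat_lit 160) (nat_lit 182)) (PT.nd (nat_lit 78) (PT.lf (nat_lit 24548) (nat_lit 6) (nat_lit 323) (nat_lit 3) (nat_lit 169) (nat_lit 160) (nat_lit 181)) (PT.lf (nat_lit 25460) (nat_lit 6) (nat_lit 335) (nat_lit 3) (nat_lit 170) (nat_lit 160) (nat_lit 180))))))))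
noncomputable def pc17 : PT := (PT.nd (nat_lit 52572) (PT.nd (nat_lit 624) (PT.nd (nat_lit 312) (PT.nd (nat_lit 156) (PT.nd (nat_lit 78) (PT.lf (nat_lit 25536) (nat_lit 6) (nat_lit 336) (nat_lit 3) (nat_lit 171) (nat_lit 160) (nat_lit 179)) (PT.lf (nat_lit 25612) (nat_lit 6) (nat_lit 337) (nat_lit 3) (nat_lit 172) (nat_lit 160) (nat_lit 178))) (PT.nd (nat_lit 78) (PT.lf (nat_lit 25688) (nat_lit 6) (nat_lit 338) (nat_lit 3) (nat_lit 173) (nat_lit 160) (nat_lit 177)) (PT.lf (nat_lit 25764) (nat_lit 6) (nat_lit 339) (nat_lit 3) (nat_lit 174) (nat_lit 160) (nat_lit 176)))) (PT.nd (nat_lit 156) (PT.nd (nat_lit 78) (PT.lf (nat_lit 25840) (nat_lit 3) (nat_lit 340) (nat_lit 1) (nat_lit 175) (nat_lit 160) (nat_lit 175)) (PT.lf (nat_lit 25764) (nat_lit 6) (nat_lit 339) (nat_lit 1) (nat_lit 176) (nat_lit 160) (nat_lit 174))) (PT.nd (nat_lit 78) (PT.lf (nat_lit 25688) (nat_lit 6) (nat_lit 338) (nat_lit 1) (nat_lit 177)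 (nat_lit 160) (nat_lit 173)) (PT.lf (nat_lit 25612) (nat_lit 6) (nat_lit 337) (nat_lit 1) (nat_lit 178) (nat_lit 160) (nat_lit 172))))) (PT.nd (nat_lit 312) (PT.nd (nat_lit 156) (PT.nd (nat_lit 78) (PT.lf (nat_lit 25536) (nat_lit 6) (nat_lit 336) (nat_lit 1) (nat_lit 179) (nat_lit 160) (nat_lit 171)) (PT.lf (nat_lit 25460) (nat_lit 6) (nat_lit 335) (nat_lit 1) (nat_lit 180) (nat_lit 160) (nat_lit 170))) (PT.nd (nat_lit 78) (PT.lf (nat_lit 24548) (nat_lit 6) (nat_lit 323) (nat_lit 1) (nat_lit 181) (nat_lit 160) (nat_lit 169)) (PT.lf (nat_lit 23560) (nat_lit 6) (nat_lit 310) (nat_lit 1) (nat_lit 182) (nat_lit 160) (nat_lit 168)))) (PT.nd (nat_lit 156) (PT.nd (nat_lit 78) (PT.lf (nat_lit 22496) (nat_lit 6) (nat_lit 296) (nat_lit 1) (nat_lit 183) (nat_lit 160) (nat_lit 167)) (PT.lf (nat_lit 21356) (nat_lit 6) (nat_lit 281) (nat_lit 1) (nat_lit 184) (nat_lit 160) (nat_lit 166))) (PT.nd (nat_lit 78) (PT.lf (nat_lit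 20140) (nat_lit 6) (nat_lit 265) (nat_lit 1) (nat_lit 185) (nat_lit 160) (nat_lit 165)) (PT.nd (nat_lit 51324) (PT.lf (nat_lit 18848) (nat_lit 6) (nat_lit 248) (nat_lit 1) (nat_lit 186) (nat_lit 160) (nat_lit 164)) (PT.lf (nat_lit 18772) (nat_lit 6) (nat_lit 247) (nat_lit 3) (nat_lit 163) (nat_lit 161) (nat_lit 186))))))) (PT.nd (nat_lit 624) (PT.nd (nat_lit 312) (PT.nd (nat_lit 156) (PT.nd (nat_lit 78) (PT.lf (nat_lit 20064) (nat_lit 6) (nat_lit 264) (nat_lit 3) (nat_lit 164) (nat_lit 161) (nat_lit 185)) (PT.lf (nat_lit 21280) (nat_lit 6) (nat_lit 280) (nat_lit 3) (nat_lit 165) (nat_lit 161) (nat_lit 184))) (PT.nd (nat_lit 78) (PT.lf (nat_lit 22420) (nat_lit 6) (nat_lit 295) (nat_lit 3) (nat_lit 166) (nat_lit 161) (nat_lit 183)) (PT.lf (nat_lit 23484) (nat_lit 6) (nat_lit 309) (nat_lit 3) (nat_lit 167) (nat_lit 161) (nat_lit 182)))) (PT.nd (nat_lit 156) (PT.nd (nat_lit 78) (PT.lf (nat_lit 24472) (nat_lit 6)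 (nat_lit 322) (nat_lit 3) (nat_lit 168) (nat_lit 161) (nat_lit 181)) (PT.lf (nat_lit 25384) (nat_lit 6) (nat_lit 334) (nat_lit 3) (nat_lit 169) (nat_lit 161) (nat_lit 180))) (PT.nd (nat_lit 78) (PT.lf (nat_lit 26220) (nat_lit 6) (nat_lit 345) (nat_lit 3) (nat_lit 170) (nat_lit 161) (nat_lit 179)) (PT.lf (nat_lit 26296) (nat_lit 6) (nat_lit 346) (nat_lit 3) (nat_lit 171) (nat_lit 161) (nat_lit 178))))) (PT.nd (nat_lit 312) (PT.nd (nat_lit 156) (PT.nd (nat_lit 78) (PT.lf (nat_lit 26372) (nat_lit 6) (nat_lit 347) (nat_lit 3) (nat_lit 172) (nat_lit 161) (nat_lit 177)) (PT.lf (nat_lit 26448) (nat_lit 6) (nat_lit 348) (nat_lit 3) (nat_lit 173) (nat_lit 161) (nat_lit 176))) (PT.nd (nat_lit 78) (PT.lf (nat_lit 26524) (nat_lit 6) (nat_lit 349) (nat_lit 3) (nat_lit 174) (nat_lit 161) (nat_lit 175)) (PT.lf (nat_lit 26524) (nat_lit 6) (nat_lit 349) (nat_lit 1) (nat_lit 175) (nat_lit 161) (nat_lit 174)))) (PT.nd (nat_lit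 156) (PT.nd (nat_lit 78) (PT.lf (nat_lit 26448) (nat_lit 6) (nat_lit 348) (nat_lit 1) (nat_lit 176) (nat_lit 161) (nat_lit 173)) (PT.lf (nat_lit 26372) (nat_lit 6) (nat_lit 347) (nat_lit 1) (nat_lit 177) (nat_lit 161) (nat_lit 172))) (PT.nd (nat_lit 78) (PT.lf (nat_lit 26296) (nat_lit 6) (nat_lit 346) (nat_lit 1) (nat_lit 178) (nat_lit 161) (nat_lit 171)) (PT.nd (nat_lit 78) (PT.lf (nat_lit 26220) (nat_lit 6) (nat_lit 345) (nat_lit 1) (nat_lit 179) (nat_lit 161) (nat_lit 170)) (PT.lf (nat_lit 25384) (nat_lit 6) (nat_lit 334) (nat_lit 1) (nat_lit 180) (nat_lit 161) (nat_lit 169))))))))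
noncomputable def pc18 : PT := (PT.nd (nat_lit 52494) (PT.nd (nat_lit 51792) (PT.nd (nat_lit 312) (PT.nd (nat_lit 156) (PT.nd (nat_lit 78) (PT.lf (nat_lit 24472) (nat_lit 6) (nat_lit 322) (nat_lit 1) (nat_lit 181) (nat_lit 161) (nat_lit 168)) (PT.lf (nat_lit 23484) (nat_lit 6) (nat_lit 309) (nat_lit 1) (nat_lit 182) (nat_lit 161) (nat_lit 167))) (PT.nd (nat_lit 78) (PT.lf (nat_lit 22420) (nat_lit 6) (nat_lit 295) (nat_lit 1) (nat_lit 183) (nat_lit 161) (nat_lit 166)) (PT.lf (nat_lit 21280) (nat_lit 6) (nat_lit 280) (nat_lit 1) (nat_lit 184) (nat_lit 161) (nat_lit 165)))) (PT.nd (nat_lit 51324) (PT.nd (nat_lit 78) (PT.lf (nat_lit 20064) (nat_lit 6) (nat_lit 264) (nat_lit 1) (nat_lit 185) (nat_lit 161) (nat_lit 164)) (PT.lf (nat_lit 18772) (nat_lit 6) (nat_lit 247) (nat_lit 1) (nat_lit 186) (nat_lit 161) (nat_lit 163))) (PT.nd (nat_lit 78) (PT.lf (nat_lit 18696) (nat_lit 3) (nat_lit 246) (nat_lit 3) (nat_lit 162)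 (nat_lit 162) (nat_lit 186)) (PT.lf (nat_lit 19988) (nat_lit 6) (nat_lit 263) (nat_lit 3) (nat_lit 163) (nat_lit 162) (nat_lit 185))))) (PT.nd (nat_lit 312) (PT.nd (nat_lit 156) (PT.nd (nat_lit 78) (PT.lf (nat_lit 21204) (nat_lit 6) (nat_lit 279) (nat_lit 3) (nat_lit 164) (nat_lit 162) (nat_lit 184)) (PT.lf (nat_lit 22344) (nat_lit 6) (nat_lit 294) (nat_lit 3) (nat_lit 165) (nat_lit 162) (nat_lit 183))) (PT.nd (nat_lit 78) (PT.lf (nat_lit 23408) (nat_lit 6) (nat_lit 308) (nat_lit 3) (nat_lit 166) (nat_lit 162) (nat_lit 182)) (PT.lf (nat_lit 24396) (nat_lit 6) (nat_lit 321) (nat_lit 3) (nat_lit 167) (nat_lit 162) (nat_lit 181)))) (PT.nd (nat_lit 156) (PT.nd (nat_lit 78) (PT.lf (nat_lit 25308) (nat_lit 6) (nat_lit 333) (nat_lit 3) (nat_lit 168) (nat_lit 162) (nat_lit 180)) (PT.lf (nat_lit 26144) (nat_lit 6) (nat_lit 344) (nat_lit 3) (nat_lit 169) (nat_lit 162) (nat_lit 179))) (PT.nd (nat_lit 78) (PT.lf (nat_lit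 26904) (nat_lit 6) (nat_lit 354) (nat_lit 3) (nat_lit 170) (nat_lit 162) (nat_lit 178)) (PT.nd (nat_lit 78) (PT.lf (nat_lit 26980) (nat_lit 6) (nat_lit 355) (nat_lit 3) (nat_lit 171) (nat_lit 162) (nat_lit 177)) (PT.lf (nat_lit 27056) (nat_lit 6) (nat_lit 356) (nat_lit 3) (nat_lit 172) (nat_lit 162) (nat_lit 176))))))) (PT.nd (nat_lit 624) (PT.nd (nat_lit 312) (PT.nd (nat_lit 156) (PT.nd (nat_lit 78) (PT.lf (nat_lit 27132) (nat_lit 6) (nat_lit 357) (nat_lit 3) (nat_lit 173) (nat_lit 162) (nat_lit 175)) (PT.lf (nat_lit 27208) (nat_lit 3) (nat_lit 358) (nat_lit 1) (nat_lit 174) (nat_lit 162) (nat_lit 174))) (PT.nd (nat_lit 78) (PT.lf (nat_lit 27132) (nat_lit 6) (nat_lit 357) (nat_lit 1) (nat_lit 175) (nat_lit 162) (nat_lit 173)) (PT.lf (nat_lit 27056) (nat_lit 6) (nat_lit 356) (nat_lit 1) (nat_lit 176) (nat_lit 162) (nat_lit 172)))) (PT.nd (nat_lit 156) (PT.nd (nat_lit 78) (PT.lf (nat_lit 26980) (nat_lit 6) (nat_lit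 355) (nat_lit 1) (nat_lit 177) (nat_lit 162) (nat_lit 171)) (PT.lf (nat_lit 26904) (nat_lit 6) (nat_lit 354) (nat_lit 1) (nat_lit 178) (nat_lit 162) (nat_lit 170))) (PT.nd (nat_lit 78) (PT.lf (nat_lit 26144) (nat_lit 6) (nat_lit 344) (nat_lit 1) (nat_lit 179) (nat_lit 162) (nat_lit 169)) (PT.lf (nat_lit 25308) (nat_lit 6) (nat_lit 333) (nat_lit 1) (nat_lit 180) (nat_lit 162) (nat_lit 168))))) (PT.nd (nat_lit 312) (PT.nd (nat_lit 156) (PT.nd (nat_lit 78) (PT.lf (nat_lit 24396) (nat_lit 6) (nat_lit 321) (nat_lit 1) (nat_lit 181) (nat_lit 162) (nat_lit 167)) (PT.lf (nat_lit 23408) (nat_lit 6) (nat_lit 308) (nat_lit 1) (nat_lit 182) (nat_lit 162) (nat_lit 166))) (PT.nd (nat_lit 78) (PT.lf (nat_lit 22344) (nat_lit 6) (nat_lit 294) (nat_lit 1) (nat_lit 183) (nat_lit 162) (nat_lit 165)) (PT.lf (nat_lit 21204) (nat_lit 6) (nat_lit 279) (nat_lit 1) (nat_lit 184) (nat_lit 162) (nat_lit 164)))) (PT.nd (nat_lit 51246) (PT.nd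 (nat_lit 78) (PT.lf (nat_lit 19988) (nat_lit 6) (nat_lit 263) (nat_lit 1) (nat_lit 185) (nat_lit 162) (nat_lit 163)) (PT.lf (nat_lit 18696) (nat_lit 3) (nat_lit 246) (nat_lit 0) (nat_lit 186) (nat_lit 162) (nat_lit 162))) (PT.nd (nat_lit 78) (PT.lf (nat_lit 18772) (nat_lit 6) (nat_lit 247) (nat_lit 5) (nat_lit 161) (nat_lit 163) (nat_lit 186)) (PT.nd (nat_lit 78) (PT.lf (nat_lit 19988) (nat_lit 6) (nat_lit 263) (nat_lit 5) (nat_lit 162) (nat_lit 163) (nat_lit 185)) (PT.lf (nat_lit 21128) (nat_lit 3) (nat_lit 278) (nat_lit 3) (nat_lit 163) (nat_lit 163) (nat_lit 184))))))))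
noncomputable def pc19 : PT := (PT.nd (nat_lit 1326) (PT.nd (nat_lit 624) (PT.nd (nat_lit 312) (PT.nd (nat_lit 156) (PT.nd (nat_lit 78) (PT.lf (nat_lit 22268) (nat_lit 6) (nat_lit 293) (nat_lit 3) (nat_lit 164) (nat_lit 163) (nat_lit 183)) (PT.lf (nat_lit 23332) (nat_lit 6) (nat_lit 307) (nat_lit 3) (nat_lit 165) (nat_lit 163) (nat_lit 182))) (PT.nd (nat_lit 78) (PT.lf (nat_lit 24320) (nat_lit 6) (nat_lit 320) (nat_lit 3) (nat_lit 166) (nat_lit 163) (nat_lit 181)) (PT.lf (nat_lit 25232) (nat_lit 6) (nat_lit 332) (nat_lit 3) (nat_lit 167) (nat_lit 163) (nat_lit 180)))) (PT.nd (nat_lit 156) (PT.nd (nat_lit 78) (PT.lf (nat_lit 26068) (nat_lit 6) (nat_lit 343) (nat_lit 3) (nat_lit 168) (nat_lit 163) (nat_lit 179)) (PT.lf (nat_lit 26828) (nat_lit 6) (nat_lit 353) (nat_lit 3) (nat_lit 169) (nat_lit 163) (nat_lit 178))) (PT.nd (nat_lit 78) (PT.lf (nat_lit 27512) (nat_lit 6) (nat_lit 362) (nat_lit 3) (nat_lit 170) (nat_lit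 163) (nat_lit 177)) (PT.lf (nat_lit 27588) (nat_lit 6) (nat_lit 363) (nat_lit 3) (nat_lit 171) (nat_lit 163) (nat_lit 176))))) (PT.nd (nat_lit 312) (PT.nd (nat_lit 156) (PT.nd (nat_lit 78) (PT.lf (nat_lit 27664) (nat_lit 6) (nat_lit 364) (nat_lit 3) (nat_lit 172) (nat_lit 163) (nat_lit 175)) (PT.lf (nat_lit 27740) (nat_lit 6) (nat_lit 365) (nat_lit 3) (nat_lit 173) (nat_lit 163) (nat_lit 174))) (PT.nd (nat_lit 78) (PT.lf (nat_lit 27740) (nat_lit 6) (nat_lit 365) (nat_lit 1) (nat_lit 174) (nat_lit 163) (nat_lit 173)) (PT.lf (nat_lit 27664) (nat_lit 6) (nat_lit 364) (nat_lit 1) (nat_lit 175) (nat_lit 163) (nat_lit 172)))) (PT.nd (nat_lit 156) (PT.nd (nat_lit 78) (PT.lf (nat_lit 27588) (nat_lit 6) (nat_lit 363) (nat_lit 1) (nat_lit 176) (nat_lit 163) (nat_lit 171)) (PT.lf (nat_lit 27512) (nat_lit 6) (nat_lit 362) (nat_lit 1) (nat_lit 177) (nat_lit 163) (nat_lit 170))) (PT.nd (nat_lit 78) (PT.lf (nat_lit 26828)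 (nat_lit 6) (nat_lit 353) (nat_lit 1) (nat_lit 178) (nat_lit 163) (nat_lit 169)) (PT.nd (nat_lit 78) (PT.lf (nat_lit 26068) (nat_lit 6) (nat_lit 343) (nat_lit 1) (nat_lit 179) (nat_lit 163) (nat_lit 168)) (PT.lf (nat_lit 25232) (nat_lit 6) (nat_lit 332) (nat_lit 1) (nat_lit 180) (nat_lit 163) (nat_lit 167))))))) (PT.nd (nat_lit 51636) (PT.nd (nat_lit 312) (PT.nd (nat_lit 156) (PT.nd (nat_lit 78) (PT.lf (nat_lit 24320) (nat_lit 6) (nat_lit 320) (nat_lit 1) (nat_lit 181) (nat_lit 163) (nat_lit 166)) (PT.lf (nat_lit 23332) (nat_lit 6) (nat_lit 307) (nat_lit 1) (nat_lit 182) (nat_lit 163) (nat_lit 165))) (PT.nd (nat_lit 78) (PT.lf (nat_lit 22268) (nat_lit 6) (nat_lit 293) (nat_lit 1) (nat_lit 183) (nat_lit 163) (nat_lit 164)) (PT.lf (nat_lit 21128) (nat_lit 3) (nat_lit 278) (nat_lit 0) (nat_lit 184) (nat_lit 163) (nat_lit 163)))) (PT.nd (nat_lit 51168) (PT.nd (nat_lit 78) (PT.lf (nat_lit 19988) (nat_lit 6) (nat_lit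 263) (nat_lit 0) (nat_lit 185) (nat_lit 163) (nat_lit 162)) (PT.lf (nat_lit 18772) (nat_lit 6) (nat_lit 247) (nat_lit 0) (nat_lit 186) (nat_lit 163) (nat_lit 161))) (PT.nd (nat_lit 78) (PT.lf (nat_lit 18848) (nat_lit 6) (nat_lit 248) (nat_lit 5) (nat_lit 160) (nat_lit 164) (nat_lit 186)) (PT.lf (nat_lit 20064) (nat_lit 6) (nat_lit 264) (nat_lit 5) (nat_lit 161) (nat_lit 164) (nat_lit 185))))) (PT.nd (nat_lit 312) (PT.nd (nat_lit 156) (PT.nd (nat_lit 78) (PT.lf (nat_lit 21204) (nat_lit 6) (nat_lit 279) (nat_lit 5) (nat_lit 162) (nat_lit 164) (nat_lit 184)) (PT.lf (nat_lit 22268) (nat_lit 6) (nat_lit 293) (nat_lit 5) (nat_lit 163) (nat_lit 164) (nat_lit 183))) (PT.nd (nat_lit 78) (PT.lf (nat_lit 23256) (nat_lit 3) (nat_lit 306) (nat_lit 3) (nat_lit 164) (nat_lit 164) (nat_lit 182)) (PT.lf (nat_lit 24244) (nat_lit 6) (nat_lit 319) (nat_lit 3) (nat_lit 165) (nat_lit 164) (nat_lit 181)))) (PT.nd (nat_lit 156) (PT.nd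 (nat_lit 78) (PT.lf (nat_lit 25156) (nat_lit 6) (nat_lit 331) (nat_lit 3) (nat_lit 166) (nat_lit 164) (nat_lit 180)) (PT.lf (nat_lit 25992) (nat_lit 6) (nat_lit 342) (nat_lit 3) (nat_lit 167) (nat_lit 164) (nat_lit 179))) (PT.nd (nat_lit 78) (PT.lf (nat_lit 26752) (nat_lit 6) (nat_lit 352) (nat_lit 3) (nat_lit 168) (nat_lit 164) (nat_lit 178)) (PT.nd (nat_lit 78) (PT.lf (nat_lit 27436) (nat_lit 6) (nat_lit 361) (nat_lit 3) (nat_lit 169) (nat_lit 164) (nat_lit 177)) (PT.lf (nat_lit 28044) (nat_lit 6) (nat_lit 369) (nat_lit 3) (nat_lit 170) (nat_lit 164) (nat_lit 176))))))))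
noncomputable def pc20 : PT := (PT.nd (nat_lit 52260) (PT.nd (nat_lit 624) (PT.nd (nat_lit 312) (PT.nd (nat_lit 156) (PT.nd (nat_lit 78) (PT.lf (nat_lit 28120) (nat_lit 6) (nat_lit 370) (nat_lit 3) (nat_lit 171) (nat_lit 164) (nat_lit 175)) (PT.lf (nat_lit 28196) (nat_lit 6) (nat_lit 371) (nat_lit 3) (nat_lit 172) (nat_lit 164) (nat_lit 174))) (PT.nd (nat_lit 78) (PT.lf (nat_lit 28272) (nat_lit 3) (nat_lit 372) (nat_lit 1) (nat_lit 173) (nat_lit 164) (nat_lit 173)) (PT.lf (nat_lit 28196) (nat_lit 6) (nat_lit 371) (nat_lit 1) (nat_lit 174) (nat_lit 164) (nat_lit 172)))) (PT.nd (nat_lit 156) (PT.nd (nat_lit 78) (PT.lf (nat_lit 28120) (nat_lit 6) (nat_lit 370) (nat_lit 1) (nat_lit 175) (nat_lit 164) (nat_lit 171)) (PT.lf (nat_lit 28044) (nat_lit 6) (nat_lit 369) (nat_lit 1) (nat_lit 176) (nat_lit 164) (nat_lit 170))) (PT.nd (nat_lit 78) (PT.lf (nat_lit 27436) (nat_lit 6) (nat_lit 361) (nat_lit 1) (nat_lit 177)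 (nat_lit 164) (nat_lit 169)) (PT.lf (nat_lit 26752) (nat_lit 6) (nat_lit 352) (nat_lit 1) (nat_lit 178) (nat_lit 164) (nat_lit 168))))) (PT.nd (nat_lit 312) (PT.nd (nat_lit 156) (PT.nd (nat_lit 78) (PT.lf (nat_lit 25992) (nat_lit 6) (nat_lit 342) (nat_lit 1) (nat_lit 179) (nat_lit 164) (nat_lit 167)) (PT.lf (nat_lit 25156) (nat_lit 6) (nat_lit 331) (nat_lit 1) (nat_lit 180) (nat_lit 164) (nat_lit 166))) (PT.nd (nat_lit 78) (PT.lf (nat_lit 24244) (nat_lit 6) (nat_lit 319) (nat_lit 1) (nat_lit 181) (nat_lit 164) (nat_lit 165)) (PT.lf (nat_lit 23256) (nat_lit 3) (nat_lit 306) (nat_lit 0) (nat_lit 182) (nat_lit 164) (nat_lit 164)))) (PT.nd (nat_lit 156) (PT.nd (nat_lit 78) (PT.lf (nat_lit 22268) (nat_lit 6) (nat_lit 293) (nat_lit 0) (nat_lit 183) (nat_lit 164) (nat_lit 163)) (PT.lf (nat_lit 21204) (nat_lit 6) (nat_lit 279) (nat_lit 0) (nat_lit 184) (nat_lit 164) (nat_lit 162))) (PT.nd (nat_lit 78) (PT.lf (nat_lit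 20064) (nat_lit 6) (nat_lit 264) (nat_lit 0) (nat_lit 185) (nat_lit 164) (nat_lit 161)) (PT.nd (nat_lit 51012) (PT.lf (nat_lit 18848) (nat_lit 6) (nat_lit 248) (nat_lit 0) (nat_lit 186) (nat_lit 164) (nat_lit 160)) (PT.lf (nat_lit 18924) (nat_lit 6) (nat_lit 249) (nat_lit 5) (nat_lit 159) (nat_lit 165) (nat_lit 186))))))) (PT.nd (nat_lit 624) (PT.nd (nat_lit 312) (PT.nd (nat_lit 156) (PT.nd (nat_lit 78) (PT.lf (nat_lit 20140) (nat_lit 6) (nat_lit 265) (nat_lit 5) (nat_lit 160) (nat_lit 165) (nat_lit 185)) (PT.lf (nat_lit 21280) (nat_lit 6) (nat_lit 280) (nat_lit 5) (nat_lit 161) (nat_lit 165) (nat_lit 184))) (PT.nd (nat_lit 78) (PT.lf (nat_lit 22344) (nat_lit 6) (nat_lit 294) (nat_lit 5) (nat_lit 162) (nat_lit 165) (nat_lit 183)) (PT.lf (nat_lit 23332) (nat_lit 6) (nat_lit 307) (nat_lit 5) (nat_lit 163) (nat_lit 165) (nat_lit 182)))) (PT.nd (nat_lit 156) (PT.nd (nat_lit 78) (PT.lf (nat_lit 24244) (nat_lit 6)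 (nat_lit 319) (nat_lit 5) (nat_lit 164) (nat_lit 165) (nat_lit 181)) (PT.lf (nat_lit 25080) (nat_lit 3) (nat_lit 330) (nat_lit 3) (nat_lit 165) (nat_lit 165) (nat_lit 180))) (PT.nd (nat_lit 78) (PT.lf (nat_lit 25916) (nat_lit 6) (nat_lit 341) (nat_lit 3) (nat_lit 166) (nat_lit 165) (nat_lit 179)) (PT.lf (nat_lit 26676) (nat_lit 6) (nat_lit 351) (nat_lit 3) (nat_lit 167) (nat_lit 165) (nat_lit 178))))) (PT.nd (nat_lit 312) (PT.nd (nat_lit 156) (PT.nd (nat_lit 78) (PT.lf (nat_lit 27360) (nat_lit 6) (nat_lit 360) (nat_lit 3) (nat_lit 168) (nat_lit 165) (nat_lit 177)) (PT.lf (nat_lit 27968) (nat_lit 6) (nat_lit 368) (nat_lit 3) (nat_lit 169) (nat_lit 165) (nat_lit 176))) (PT.nd (nat_lit 78) (PT.lf (nat_lit 28500) (nat_lit 6) (nat_lit 375) (nat_lit 3) (nat_lit 170) (nat_lit 165) (nat_lit 175)) (PT.lf (nat_lit 28576) (nat_lit 6) (nat_lit 376) (nat_lit 3) (nat_lit 171) (nat_lit 165) (nat_lit 174)))) (PT.nd (nat_lit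 156) (PT.nd (nat_lit 78) (PT.lf (nat_lit 28652) (nat_lit 6) (nat_lit 377) (nat_lit 3) (nat_lit 172) (nat_lit 165) (nat_lit 173)) (PT.lf (nat_lit 28652) (nat_lit 6) (nat_lit 377) (nat_lit 1) (nat_lit 173) (nat_lit 165) (nat_lit 172))) (PT.nd (nat_lit 78) (PT.lf (nat_lit 28576) (nat_lit 6) (nat_lit 376) (nat_lit 1) (nat_lit 174) (nat_lit 165) (nat_lit 171)) (PT.nd (nat_lit 78) (PT.lf (nat_lit 28500) (nat_lit 6) (nat_lit 375) (nat_lit 1) (nat_lit 175) (nat_lit 165) (nat_lit 170)) (PT.lf (nat_lit 27968) (nat_lit 6) (nat_lit 368) (nat_lit 1) (nat_lit 176) (nat_lit 165) (nat_lit 169))))))))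
noncomputable def pc21 : PT := (PT.nd (nat_lit 52182) (PT.nd (nat_lit 624) (PT.nd (nat_lit 312) (PT.nd (nat_lit 156) (PT.nd (nat_lit 78) (PT.lf (nat_lit 27360) (nat_lit 6) (nat_lit 360) (nat_lit 1) (nat_lit 177) (nat_lit 165) (nat_lit 168)) (PT.lf (nat_lit 26676) (nat_lit 6) (nat_lit 351) (nat_lit 1) (nat_lit 178) (nat_lit 165) (nat_lit 167))) (PT.nd (nat_lit 78) (PT.lf (nat_lit 25916) (nat_lit 6) (nat_lit 341) (nat_lit 1) (nat_lit 179) (nat_lit 165) (nat_lit 166)) (PT.lf (nat_lit 25080) (nat_lit 3) (nat_lit 330) (nat_lit 0) (nat_lit 180) (nat_lit 165) (nat_lit 165)))) (PT.nd (nat_lit 156) (PT.nd (nat_lit 78) (PT.lf (nat_lit 24244) (nat_lit 6) (nat_lit 319) (nat_lit 0) (nat_lit 181) (nat_lit 165) (nat_lit 164)) (PT.lf (nat_lit 23332) (nat_lit 6) (nat_lit 307) (nat_lit 0) (nat_lit 182) (nat_lit 165) (nat_lit 163))) (PT.nd (nat_lit 78) (PT.lf (nat_lit 22344) (nat_lit 6) (nat_lit 294) (nat_lit 0) (nat_lit 183)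 (nat_lit 165) (nat_lit 162)) (PT.lf (nat_lit 21280) (nat_lit 6) (nat_lit 280) (nat_lit 0) (nat_lit 184) (nat_lit 165) (nat_lit 161))))) (PT.nd (nat_lit 51168) (PT.nd (nat_lit 51012) (PT.nd (nat_lit 78) (PT.lf (nat_lit 20140) (nat_lit 6) (nat_lit 265) (nat_lit 0) (nat_lit 185) (nat_lit 165) (nat_lit 160)) (PT.lf (nat_lit 18924) (nat_lit 6) (nat_lit 249) (nat_lit 0) (nat_lit 186) (nat_lit 165) (nat_lit 159))) (PT.nd (nat_lit 78) (PT.lf (nat_lit 19000) (nat_lit 6) (nat_lit 250) (nat_lit 5) (nat_lit 158) (nat_lit 166) (nat_lit 186)) (PT.lf (nat_lit 20216) (nat_lit 6) (nat_lit 266) (nat_lit 5) (nat_lit 159) (nat_lit 166) (nat_lit 185)))) (PT.nd (nat_lit 156) (PT.nd (nat_lit 78) (PT.lf (nat_lit 21356) (nat_lit 6) (nat_lit 281) (nat_lit 5) (nat_lit 160) (nat_lit 166) (nat_lit 184)) (PT.lf (nat_lit 22420) (nat_lit 6) (nat_lit 295) (nat_lit 5) (nat_lit 161) (nat_lit 166) (nat_lit 183))) (PT.nd (nat_lit 78) (PT.lf (nat_lit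 23408) (nat_lit 6) (nat_lit 308) (nat_lit 5) (nat_lit 162) (nat_lit 166) (nat_lit 182)) (PT.nd (nat_lit 78) (PT.lf (nat_lit 24320) (nat_lit 6) (nat_lit 320) (nat_lit 5) (nat_lit 163) (nat_lit 166) (nat_lit 181)) (PT.lf (nat_lit 25156) (nat_lit 6) (nat_lit 331) (nat_lit 5) (nat_lit 164) (nat_lit 166) (nat_lit 180))))))) (PT.nd (nat_lit 624) (PT.nd (nat_lit 312) (PT.nd (nat_lit 156) (PT.nd (nat_lit 78) (PT.lf (nat_lit 25916) (nat_lit 6) (nat_lit 341) (nat_lit 5) (nat_lit 165) (nat_lit 166) (nat_lit 179)) (PT.lf (nat_lit 26600) (nat_lit 3) (nat_lit 350) (nat_lit 3) (nat_lit 166) (nat_lit 166) (nat_lit 178))) (PT.nd (nat_lit 78) (PT.lf (nat_lit 27284) (nat_lit 6) (nat_lit 359) (nat_lit 3) (nat_lit 167) (nat_lit 166) (nat_lit 177)) (PT.lf (nat_lit 27892) (nat_lit 6) (nat_lit 367) (nat_lit 3) (nat_lit 168) (nat_lit 166) (nat_lit 176)))) (PT.nd (nat_lit 156) (PT.nd (nat_lit 78) (PT.lf (nat_lit 28424) (nat_lit 6) (nat_lit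 374) (nat_lit 3) (nat_lit 169) (nat_lit 166) (nat_lit 175)) (PT.lf (nat_lit 28880) (nat_lit 6) (nat_lit 380) (nat_lit 3) (nat_lit 170) (nat_lit 166) (nat_lit 174))) (PT.nd (nat_lit 78) (PT.lf (nat_lit 28956) (nat_lit 6) (nat_lit 381) (nat_lit 3) (nat_lit 171) (nat_lit 166) (nat_lit 173)) (PT.lf (nat_lit 29032) (nat_lit 3) (nat_lit 382) (nat_lit 1) (nat_lit 172) (nat_lit 166) (nat_lit 172))))) (PT.nd (nat_lit 312) (PT.nd (nat_lit 156) (PT.nd (nat_lit 78) (PT.lf (nat_lit 28956) (nat_lit 6) (nat_lit 381) (nat_lit 1) (nat_lit 173) (nat_lit 166) (nat_lit 171)) (PT.lf (nat_lit 28880) (nat_lit 6) (nat_lit 380) (nat_lit 1) (nat_lit 174) (nat_lit 166) (nat_lit 170))) (PT.nd (nat_lit 78) (PT.lf (nat_lit 28424) (nat_lit 6) (nat_lit 374) (nat_lit 1) (nat_lit 175) (nat_lit 166) (nat_lit 169)) (PT.lf (nat_lit 27892) (nat_lit 6) (nat_lit 367) (nat_lit 1) (nat_lit 176) (nat_lit 166) (nat_lit 168)))) (PT.nd (nat_lit 156) (PT.nd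 (nat_lit 78) (PT.lf (nat_lit 27284) (nat_lit 6) (nat_lit 359) (nat_lit 1) (nat_lit 177) (nat_lit 166) (nat_lit 167)) (PT.lf (nat_lit 26600) (nat_lit 3) (nat_lit 350) (nat_lit 0) (nat_lit 178) (nat_lit 166) (nat_lit 166))) (PT.nd (nat_lit 78) (PT.lf (nat_lit 25916) (nat_lit 6) (nat_lit 341) (nat_lit 0) (nat_lit 179) (nat_lit 166) (nat_lit 165)) (PT.nd (nat_lit 78) (PT.lf (nat_lit 25156) (nat_lit 6) (nat_lit 331) (nat_lit 0) (nat_lit 180) (nat_lit 166) (nat_lit 164)) (PT.lf (nat_lit 24320) (nat_lit 6) (nat_lit 320) (nat_lit 0) (nat_lit 181) (nat_lit 166) (nat_lit 163))))))))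
noncomputable def pc22 : PT := (PT.nd (nat_lit 52104) (PT.nd (nat_lit 51402) (PT.nd (nat_lit 312) (PT.nd (nat_lit 156) (PT.nd (nat_lit 78) (PT.lf (nat_lit 23408) (nat_lit 6) (nat_lit 308) (nat_lit 0) (nat_lit 182) (nat_lit 166) (nat_lit 162)) (PT.lf (nat_lit 22420) (nat_lit 6) (nat_lit 295) (nat_lit 0) (nat_lit 183) (nat_lit 166) (nat_lit 161))) (PT.nd (nat_lit 78) (PT.lf (nat_lit 21356) (nat_lit 6) (nat_lit 281) (nat_lit 0) (nat_lit 184) (nat_lit 166) (nat_lit 160)) (PT.lf (nat_lit 20216) (nat_lit 6) (nat_lit 266) (nat_lit 0) (nat_lit 185) (nat_lit 166) (nat_lit 159)))) (PT.nd (nat_lit 50934) (PT.nd (nat_lit 50856) (PT.lf (nat_lit 19000) (nat_lit 6) (nat_lit 250) (nat_lit 0) (nat_lit 186) (nat_lit 166) (nat_lit 158)) (PT.lf (nat_lit 19076) (nat_lit 6) (nat_lit 251) (nat_lit 5) (nat_lit 157) (nat_lit 167) (nat_lit 186))) (PT.nd (nat_lit 78) (PT.lf (nat_lit 20292) (nat_lit 6) (nat_lit 267) (nat_lit 5) (nat_lit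 158) (nat_lit 167) (nat_lit 185)) (PT.lf (nat_lit 21432) (nat_lit 6) (nat_lit 282) (nat_lit 5) (nat_lit 159) (nat_lit 167) (nat_lit 184))))) (PT.nd (nat_lit 312) (PT.nd (nat_lit 156) (PT.nd (nat_lit 78) (PT.lf (nat_lit 22496) (nat_lit 6) (nat_lit 296) (nat_lit 5) (nat_lit 160) (nat_lit 167) (nat_lit 183)) (PT.lf (nat_lit 23484) (nat_lit 6) (nat_lit 309) (nat_lit 5) (nat_lit 161) (nat_lit 167) (nat_lit 182))) (PT.nd (nat_lit 78) (PT.lf (nat_lit 24396) (nat_lit 6) (nat_lit 321) (nat_lit 5) (nat_lit 162) (nat_lit 167) (nat_lit 181)) (PT.lf (nat_lit 25232) (nat_lit 6) (nat_lit 332) (nat_lit 5) (nat_lit 163) (nat_lit 167) (nat_lit 180)))) (PT.nd (nat_lit 156) (PT.nd (nat_lit 78) (PT.lf (nat_lit 25992) (nat_lit 6) (nat_lit 342) (nat_lit 5) (nat_lit 164) (nat_lit 167) (nat_lit 179)) (PT.lf (nat_lit 26676) (nat_lit 6) (nat_lit 351) (nat_lit 5) (nat_lit 165) (nat_lit 167) (nat_lit 178))) (PT.nd (nat_lit 78) (PT.lf (nat_lit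 27284) (nat_lit 6) (nat_lit 359) (nat_lit 5) (nat_lit 166) (nat_lit 167) (nat_lit 177)) (PT.nd (nat_lit 78) (PT.lf (nat_lit 27816) (nat_lit 3) (nat_lit 366) (nat_lit 3) (nat_lit 167) (nat_lit 167) (nat_lit 176)) (PT.lf (nat_lit 28348) (nat_lit 6) (nat_lit 373) (nat_lit 3) (nat_lit 168) (nat_lit 167) (nat_lit 175))))))) (PT.nd (nat_lit 624) (PT.nd (nat_lit 312) (PT.nd (nat_lit 156) (PT.nd (nat_lit 78) (PT.lf (nat_lit 28804) (nat_lit 6) (nat_lit 379) (nat_lit 3) (nat_lit 169) (nat_lit 167) (nat_lit 174)) (PT.lf (nat_lit 29184) (nat_lit 6) (nat_lit 384) (nat_lit 3) (nat_lit 170) (nat_lit 167) (nat_lit 173))) (PT.nd (nat_lit 78) (PT.lf (nat_lit 29260) (nat_lit 6) (nat_lit 385) (nat_lit 3) (nat_lit 171) (nat_lit 167) (nat_lit 172)) (PT.lf (nat_lit 29260) (nat_lit 6) (nat_lit 385) (nat_lit 1) (nat_lit 172) (nat_lit 167) (nat_lit 171)))) (PT.nd (nat_lit 156) (PT.nd (nat_lit 78) (PT.lf (nat_lit 29184) (nat_lit 6) (nat_lit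 384) (nat_lit 1) (nat_lit 173) (nat_lit 167) (nat_lit 170)) (PT.lf (nat_lit 28804) (nat_lit 6) (nat_lit 379) (nat_lit 1) (nat_lit 174) (nat_lit 167) (nat_lit 169))) (PT.nd (nat_lit 78) (PT.lf (nat_lit 28348) (nat_lit 6) (nat_lit 373) (nat_lit 1) (nat_lit 175) (nat_lit 167) (nat_lit 168)) (PT.lf (nat_lit 27816) (nat_lit 3) (nat_lit 366) (nat_lit 0) (nat_lit 176) (nat_lit 167) (nat_lit 167))))) (PT.nd (nat_lit 312) (PT.nd (nat_lit 156) (PT.nd (nat_lit 78) (PT.lf (nat_lit 27284) (nat_lit 6) (nat_lit 359) (nat_lit 0) (nat_lit 177) (nat_lit 167) (nat_lit 166)) (PT.lf (nat_lit 26676) (nat_lit 6) (nat_lit 351) (nat_lit 0) (nat_lit 178) (nat_lit 167) (nat_lit 165))) (PT.nd (nat_lit 78) (PT.lf (nat_lit 25992) (nat_lit 6) (nat_lit 342) (nat_lit 0) (nat_lit 179) (nat_lit 167) (nat_lit 164)) (PT.lf (nat_lit 25232) (nat_lit 6) (nat_lit 332) (nat_lit 0) (nat_lit 180) (nat_lit 167) (nat_lit 163)))) (PT.nd (nat_lit 156) (PT.nd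 (nat_lit 78) (PT.lf (nat_lit 24396) (nat_lit 6) (nat_lit 321) (nat_lit 0) (nat_lit 181) (nat_lit 167) (nat_lit 162)) (PT.lf (nat_lit 23484) (nat_lit 6) (nat_lit 309) (nat_lit 0) (nat_lit 182) (nat_lit 167) (nat_lit 161))) (PT.nd (nat_lit 78) (PT.lf (nat_lit 22496) (nat_lit 6) (nat_lit 296) (nat_lit 0) (nat_lit 183) (nat_lit 167) (nat_lit 160)) (PT.nd (nat_lit 78) (PT.lf (nat_lit 21432) (nat_lit 6) (nat_lit 282) (nat_lit 0) (nat_lit 184) (nat_lit 167) (nat_lit 159)) (PT.lf (nat_lit 20292) (nat_lit 6) (nat_lit 267) (nat_lit 0) (nat_lit 185) (nat_lit 167) (nat_lit 158))))))))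
noncomputable def pc23 : PT := (PT.nd (nat_lit 52026) (PT.nd (nat_lit 51324) (PT.nd (nat_lit 51012) (PT.nd (nat_lit 50856) (PT.nd (nat_lit 50778) (PT.lf (nat_lit 19076) (nat_lit 6) (nat_lit 251) (nat_lit 0) (nat_lit 186) (nat_lit 167) (nat_lit 157)) (PT.lf (nat_lit 19152) (nat_lit 6) (nat_lit 252) (nat_lit 5) (nat_lit 156) (nat_lit 168) (nat_lit 186))) (PT.nd (nat_lit 78) (PT.lf (nat_lit 20368) (nat_lit 6) (nat_lit 268) (nat_lit 5) (nat_lit 157) (nat_lit 168) (nat_lit 185)) (PT.lf (nat_lit 21508) (nat_lit 6) (nat_lit 283) (nat_lit 5) (nat_lit 158) (nat_lit 168) (nat_lit 184)))) (PT.nd (nat_lit 156) (PT.nd (nat_lit 78) (PT.lf (nat_lit 22572) (nat_lit 6) (nat_lit 297) (nat_lit 5) (nat_lit 159) (nat_lit 168) (nat_lit 183)) (PT.lf (nat_lit 23560) (nat_lit 6) (nat_lit 310) (nat_lit 5) (nat_lit 160) (nat_lit 168) (nat_lit 182))) (PT.nd (nat_lit 78) (PT.lf (nat_lit 24472) (nat_lit 6) (nat_lit 322) (nat_lit 5) (nat_lit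 161) (nat_lit 168) (nat_lit 181)) (PT.lf (nat_lit 25308) (nat_lit 6) (nat_lit 333) (nat_lit 5) (nat_lit 162) (nat_lit 168) (nat_lit 180))))) (PT.nd (nat_lit 312) (PT.nd (nat_lit 156) (PT.nd (nat_lit 78) (PT.lf (nat_lit 26068) (nat_lit 6) (nat_lit 343) (nat_lit 5) (nat_lit 163) (nat_lit 168) (nat_lit 179)) (PT.lf (nat_lit 26752) (nat_lit 6) (nat_lit 352) (nat_lit 5) (nat_lit 164) (nat_lit 168) (nat_lit 178))) (PT.nd (nat_lit 78) (PT.lf (nat_lit 27360) (nat_lit 6) (nat_lit 360) (nat_lit 5) (nat_lit 165) (nat_lit 168) (nat_lit 177)) (PT.lf (nat_lit 27892) (nat_lit 6) (nat_lit 367) (nat_lit 5) (nat_lit 166) (nat_lit 168) (nat_lit 176)))) (PT.nd (nat_lit 156) (PT.nd (nat_lit 78) (PT.lf (nat_lit 28348) (nat_lit 6) (nat_lit 373) (nat_lit 5) (nat_lit 167) (nat_lit 168) (nat_lit 175)) (PT.lf (nat_lit 28728) (nat_lit 3) (nat_lit 378) (nat_lit 3) (nat_lit 168) (nat_lit 168) (nat_lit 174))) (PT.nd (nat_lit 78) (PT.lf (nat_lit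 29108) (nat_lit 6) (nat_lit 383) (nat_lit 3) (nat_lit 169) (nat_lit 168) (nat_lit 173)) (PT.nd (nat_lit 78) (PT.lf (nat_lit 29412) (nat_lit 6) (nat_lit 387) (nat_lit 3) (nat_lit 170) (nat_lit 168) (nat_lit 172)) (PT.lf (nat_lit 29488) (nat_lit 3) (nat_lit 388) (nat_lit 1) (nat_lit 171) (nat_lit 168) (nat_lit 171))))))) (PT.nd (nat_lit 624) (PT.nd (nat_lit 312) (PT.nd (nat_lit 156) (PT.nd (nat_lit 78) (PT.lf (nat_lit 29412) (nat_lit 6) (nat_lit 387) (nat_lit 1) (nat_lit 172) (nat_lit 168) (nat_lit 170)) (PT.lf (nat_lit 29108) (nat_lit 6) (nat_lit 383) (nat_lit 1) (nat_lit 173) (nat_lit 168) (nat_lit 169))) (PT.nd (nat_lit 78) (PT.lf (nat_lit 28728) (nat_lit 3) (nat_lit 378) (nat_lit 0) (nat_lit 174) (nat_lit 168) (nat_lit 168)) (PT.lf (nat_lit 28348) (nat_lit 6) (nat_lit 373) (nat_lit 0) (nat_lit 175) (nat_lit 168) (nat_lit 167)))) (PT.nd (nat_lit 156) (PT.nd (nat_lit 78) (PT.lf (nat_lit 27892) (nat_lit 6) (nat_lit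 367) (nat_lit 0) (nat_lit 176) (nat_lit 168) (nat_lit 166)) (PT.lf (nat_lit 27360) (nat_lit 6) (nat_lit 360) (nat_lit 0) (nat_lit 177) (nat_lit 168) (nat_lit 165))) (PT.nd (nat_lit 78) (PT.lf (nat_lit 26752) (nat_lit 6) (nat_lit 352) (nat_lit 0) (nat_lit 178) (nat_lit 168) (nat_lit 164)) (PT.lf (nat_lit 26068) (nat_lit 6) (nat_lit 343) (nat_lit 0) (nat_lit 179) (nat_lit 168) (nat_lit 163))))) (PT.nd (nat_lit 312) (PT.nd (nat_lit 156) (PT.nd (nat_lit 78) (PT.lf (nat_lit 25308) (nat_lit 6) (nat_lit 333) (nat_lit 0) (nat_lit 180) (nat_lit 168) (nat_lit 162)) (PT.lf (nat_lit 24472) (nat_lit 6) (nat_lit 322) (nat_lit 0) (nat_lit 181) (nat_lit 168) (nat_lit 161))) (PT.nd (nat_lit 78) (PT.lf (nat_lit 23560) (nat_lit 6) (nat_lit 310) (nat_lit 0) (nat_lit 182) (nat_lit 168) (nat_lit 160)) (PT.lf (nat_lit 22572) (nat_lit 6) (nat_lit 297) (nat_lit 0) (nat_lit 183) (nat_lit 168) (nat_lit 159)))) (PT.nd (nat_lit 156) (PT.nd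 (nat_lit 78) (PT.lf (nat_lit 21508) (nat_lit 6) (nat_lit 283) (nat_lit 0) (nat_lit 184) (nat_lit 168) (nat_lit 158)) (PT.lf (nat_lit 20368) (nat_lit 6) (nat_lit 268) (nat_lit 0) (nat_lit 185) (nat_lit 168) (nat_lit 157))) (PT.nd (nat_lit 50700) (PT.lf (nat_lit 19152) (nat_lit 6) (nat_lit 252) (nat_lit 0) (nat_lit 186) (nat_lit 168) (nat_lit 156)) (PT.nd (nat_lit 78) (PT.lf (nat_lit 19228) (nat_lit 6) (nat_lit 253) (nat_lit 5) (nat_lit 155) (nat_lit 169) (nat_lit 186)) (PT.lf (nat_lit 20444) (nat_lit 6) (nat_lit 269) (nat_lit 5) (nat_lit 156) (nat_lit 169) (nat_lit 185))))))))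
noncomputable def pc24 : PT := (PT.nd (nat_lit 1326) (PT.nd (nat_lit 624) (PT.nd (nat_lit 312) (PT.nd (nat_lit 156) (PT.nd (nat_lit 78) (PT.lf (nat_lit 21584) (nat_lit 6) (nat_lit 284) (nat_lit 5) (nat_lit 157) (nat_lit 169) (nat_lit 184)) (PT.lf (nat_lit 22648) (nat_lit 6) (nat_lit 298) (nat_lit 5) (nat_lit 158) (nat_lit 169) (nat_lit 183))) (PT.nd (nat_lit 78) (PT.lf (nat_lit 23636) (nat_lit 6) (nat_lit 311) (nat_lit 5) (nat_lit 159) (nat_lit 169) (nat_lit 182)) (PT.lf (nat_lit 24548) (nat_lit 6) (nat_lit 323) (nat_lit 5) (nat_lit 160) (nat_lit 169) (nat_lit 181)))) (PT.nd (nat_lit 156) (PT.nd (nat_lit 78) (PT.lf (nat_lit 25384) (nat_lit 6) (nat_lit 334) (nat_lit 5) (nat_lit 161) (nat_lit 169) (nat_lit 180)) (PT.lf (nat_lit 26144) (nat_lit 6) (nat_lit 344) (nat_lit 5) (nat_lit 162) (nat_lit 169) (nat_lit 179))) (PT.nd (nat_lit 78) (PT.lf (nat_lit 26828) (nat_lit 6) (nat_lit 353) (nat_lit 5) (nat_lit 163) (nat_lit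 169) (nat_lit 178)) (PT.lf (nat_lit 27436) (nat_lit 6) (nat_lit 361) (nat_lit 5) (nat_lit 164) (nat_lit 169) (nat_lit 177))))) (PT.nd (nat_lit 312) (PT.nd (nat_lit 156) (PT.nd (nat_lit 78) (PT.lf (nat_lit 27968) (nat_lit 6) (nat_lit 368) (nat_lit 5) (nat_lit 165) (nat_lit 169) (nat_lit 176)) (PT.lf (nat_lit 28424) (nat_lit 6) (nat_lit 374) (nat_lit 5) (nat_lit 166) (nat_lit 169) (nat_lit 175))) (PT.nd (nat_lit 78) (PT.lf (nat_lit 28804) (nat_lit 6) (nat_lit 379) (nat_lit 5) (nat_lit 167) (nat_lit 169) (nat_lit 174)) (PT.lf (nat_lit 29108) (nat_lit 6) (nat_lit 383) (nat_lit 5) (nat_lit 168) (nat_lit 169) (nat_lit 173)))) (PT.nd (nat_lit 156) (PT.nd (nat_lit 78) (PT.lf (nat_lit 29336) (nat_lit 3) (nat_lit 386) (nat_lit 3) (nat_lit 169) (nat_lit 169) (nat_lit 172)) (PT.lf (nat_lit 29564) (nat_lit 6) (nat_lit 389) (nat_lit 3) (nat_lit 170) (nat_lit 169) (nat_lit 171))) (PT.nd (nat_lit 78) (PT.lf (nat_lit 29564)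 (nat_lit 6) (nat_lit 389) (nat_lit 1) (nat_lit 171) (nat_lit 169) (nat_lit 170)) (PT.nd (nat_lit 78) (PT.lf (nat_lit 29336) (nat_lit 3) (nat_lit 386) (nat_lit 0) (nat_lit 172) (nat_lit 169) (nat_lit 169)) (PT.lf (nat_lit 29108) (nat_lit 6) (nat_lit 383) (nat_lit 0) (nat_lit 173) (nat_lit 169) (nat_lit 168))))))) (PT.nd (nat_lit 624) (PT.nd (nat_lit 312) (PT.nd (nat_lit 156) (PT.nd (nat_lit 78) (PT.lf (nat_lit 28804) (nat_lit 6) (nat_lit 379) (nat_lit 0) (nat_lit 174) (nat_lit 169) (nat_lit 167)) (PT.lf (nat_lit 28424) (nat_lit 6) (nat_lit 374) (nat_lit 0) (nat_lit 175) (nat_lit 169) (nat_lit 166))) (PT.nd (nat_lit 78) (PT.lf (nat_lit 27968) (nat_lit 6) (nat_lit 368) (nat_lit 0) (nat_lit 176) (nat_lit 169) (nat_lit 165)) (PT.lf (nat_lit 27436) (nat_lit 6) (nat_lit 361) (nat_lit 0) (nat_lit 177) (nat_lit 169) (nat_lit 164)))) (PT.nd (nat_lit 156) (PT.nd (nat_lit 78) (PT.lf (nat_lit 26828) (nat_lit 6) (nat_lit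 353) (nat_lit 0) (nat_lit 178) (nat_lit 169) (nat_lit 163)) (PT.lf (nat_lit 26144) (nat_lit 6) (nat_lit 344) (nat_lit 0) (nat_lit 179) (nat_lit 169) (nat_lit 162))) (PT.nd (nat_lit 78) (PT.lf (nat_lit 25384) (nat_lit 6) (nat_lit 334) (nat_lit 0) (nat_lit 180) (nat_lit 169) (nat_lit 161)) (PT.lf (nat_lit 24548) (nat_lit 6) (nat_lit 323) (nat_lit 0) (nat_lit 181) (nat_lit 169) (nat_lit 160))))) (PT.nd (nat_lit 312) (PT.nd (nat_lit 156) (PT.nd (nat_lit 78) (PT.lf (nat_lit 23636) (nat_lit 6) (nat_lit 311) (nat_lit 0) (nat_lit 182) (nat_lit 169) (nat_lit 159)) (PT.lf (nat_lit 22648) (nat_lit 6) (nat_lit 298) (nat_lit 0) (nat_lit 183) (nat_lit 169) (nat_lit 158))) (PT.nd (nat_lit 78) (PT.lf (nat_lit 21584) (nat_lit 6) (nat_lit 284) (nat_lit 0) (nat_lit 184) (nat_lit 169) (nat_lit 157)) (PT.lf (nat_lit 20444) (nat_lit 6) (nat_lit 269) (nat_lit 0) (nat_lit 185) (nat_lit 169) (nat_lit 156)))) (PT.nd (nat_lit 50700) (PT.nd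 (nat_lit 50622) (PT.lf (nat_lit 19228) (nat_lit 6) (nat_lit 253) (nat_lit 0) (nat_lit 186) (nat_lit 169) (nat_lit 155)) (PT.lf (nat_lit 19304) (nat_lit 6) (nat_lit 254) (nat_lit 5) (nat_lit 154) (nat_lit 170) (nat_lit 186))) (PT.nd (nat_lit 78) (PT.lf (nat_lit 20520) (nat_lit 6) (nat_lit 270) (nat_lit 5) (nat_lit 155) (nat_lit 170) (nat_lit 185)) (PT.nd (nat_lit 78) (PT.lf (nat_lit 21660) (nat_lit 6) (nat_lit 285) (nat_lit 5) (nat_lit 156) (nat_lit 170) (nat_lit 184)) (PT.lf (nat_lit 22724) (nat_lit 6) (nat_lit 299) (nat_lit 5) (nat_lit 157) (nat_lit 170) (nat_lit 183))))))))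
noncomputable def pc25 : PT := (PT.nd (nat_lit 1326) (PT.nd (nat_lit 624) (PT.nd (nat_lit 312) (PT.nd (nat_lit 156) (PT.nd (nat_lit 78) (PT.lf (nat_lit 23712) (nat_lit 6) (nat_lit 312) (nat_lit 5) (nat_lit 158) (nat_lit 170) (nat_lit 182)) (PT.lf (nat_lit 24624) (nat_lit 6) (nat_lit 324) (nat_lit 5) (nat_lit 159) (nat_lit 170) (nat_lit 181))) (PT.nd (nat_lit 78) (PT.lf (nat_lit 25460) (nat_lit 6) (nat_lit 335) (nat_lit 5) (nat_lit 160) (nat_lit 170) (nat_lit 180)) (PT.lf (nat_lit 26220) (nat_lit 6) (nat_lit 345) (nat_lit 5) (nat_lit 161) (nat_lit 170) (nat_lit 179)))) (PT.nd (nat_lit 156) (PT.nd (nat_lit 78) (PT.lf (nat_lit 26904) (nat_lit 6) (nat_lit 354) (nat_lit 5) (nat_lit 162) (nat_lit 170) (nat_lit 178)) (PT.lf (nat_lit 27512) (nat_lit 6) (nat_lit 362) (nat_lit 5) (nat_lit 163) (nat_lit 170) (nat_lit 177))) (PT.nd (nat_lit 78) (PT.lf (nat_lit 28044) (nat_lit 6) (nat_lit 369) (nat_lit 5) (nat_lit 164) (nat_lit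 170) (nat_lit 176)) (PT.lf (nat_lit 28500) (nat_lit 6) (nat_lit 375) (nat_lit 5) (nat_lit 165) (nat_lit 170) (nat_lit 175))))) (PT.nd (nat_lit 312) (PT.nd (nat_lit 156) (PT.nd (nat_lit 78) (PT.lf (nat_lit 28880) (nat_lit 6) (nat_lit 380) (nat_lit 5) (nat_lit 166) (nat_lit 170) (nat_lit 174)) (PT.lf (nat_lit 29184) (nat_lit 6) (nat_lit 384) (nat_lit 5) (nat_lit 167) (nat_lit 170) (nat_lit 173))) (PT.nd (nat_lit 78) (PT.lf (nat_lit 29412) (nat_lit 6) (nat_lit 387) (nat_lit 5) (nat_lit 168) (nat_lit 170) (nat_lit 172)) (PT.lf (nat_lit 29564) (nat_lit 6) (nat_lit 389) (nat_lit 5) (nat_lit 169) (nat_lit 170) (nat_lit 171)))) (PT.nd (nat_lit 156) (PT.nd (nat_lit 78) (PT.lf (nat_lit 29640) (nat_lit 1) (nat_lit 390) (nat_lit 0) (nat_lit 170) (nat_lit 170) (nat_lit 170)) (PT.lf (nat_lit 29564) (nat_lit 6) (nat_lit 389) (nat_lit 0) (nat_lit 171) (nat_lit 170) (nat_lit 169))) (PT.nd (nat_lit 78) (PT.lf (nat_lit 29412)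 (nat_lit 6) (nat_lit 387) (nat_lit 0) (nat_lit 172) (nat_lit 170) (nat_lit 168)) (PT.nd (nat_lit 78) (PT.lf (nat_lit 29184) (nat_lit 6) (nat_lit 384) (nat_lit 0) (nat_lit 173) (nat_lit 170) (nat_lit 167)) (PT.lf (nat_lit 28880) (nat_lit 6) (nat_lit 380) (nat_lit 0) (nat_lit 174) (nat_lit 170) (nat_lit 166))))))) (PT.nd (nat_lit 624) (PT.nd (nat_lit 312) (PT.nd (nat_lit 156) (PT.nd (nat_lit 78) (PT.lf (nat_lit 28500) (nat_lit 6) (nat_lit 375) (nat_lit 0) (nat_lit 175) (nat_lit 170) (nat_lit 165)) (PT.lf (nat_lit 28044) (nat_lit 6) (nat_lit 369) (nat_lit 0) (nat_lit 176) (nat_lit 170) (nat_lit 164))) (PT.nd (nat_lit 78) (PT.lf (nat_lit 27512) (nat_lit 6) (nat_lit 362) (nat_lit 0) (nat_lit 177) (nat_lit 170) (nat_lit 163)) (PT.lf (nat_lit 26904) (nat_lit 6) (nat_lit 354) (nat_lit 0) (nat_lit 178) (nat_lit 170) (nat_lit 162)))) (PT.nd (nat_lit 156) (PT.nd (nat_lit 78) (PT.lf (nat_lit 26220) (nat_lit 6) (nat_lit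 345) (nat_lit 0) (nat_lit 179) (nat_lit 170) (nat_lit 161)) (PT.lf (nat_lit 25460) (nat_lit 6) (nat_lit 335) (nat_lit 0) (nat_lit 180) (nat_lit 170) (nat_lit 160))) (PT.nd (nat_lit 78) (PT.lf (nat_lit 24624) (nat_lit 6) (nat_lit 324) (nat_lit 0) (nat_lit 181) (nat_lit 170) (nat_lit 159)) (PT.lf (nat_lit 23712) (nat_lit 6) (nat_lit 312) (nat_lit 0) (nat_lit 182) (nat_lit 170) (nat_lit 158))))) (PT.nd (nat_lit 50700) (PT.nd (nat_lit 156) (PT.nd (nat_lit 78) (PT.lf (nat_lit 22724) (nat_lit 6) (nat_lit 299) (nat_lit 0) (nat_lit 183) (nat_lit 170) (nat_lit 157)) (PT.lf (nat_lit 21660) (nat_lit 6) (nat_lit 285) (nat_lit 0) (nat_lit 184) (nat_lit 170) (nat_lit 156))) (PT.nd (nat_lit 78) (PT.lf (nat_lit 20520) (nat_lit 6) (nat_lit 270) (nat_lit 0) (nat_lit 185) (nat_lit 170) (nat_lit 155)) (PT.lf (nat_lit 19304) (nat_lit 6) (nat_lit 254) (nat_lit 0) (nat_lit 186) (nat_lit 170) (nat_lit 154)))) (PT.nd (nat_lit 156) (PT.nd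 (nat_lit 78) (PT.lf (nat_lit 17404) (nat_lit 6) (nat_lit 229) (nat_lit 5) (nat_lit 152) (nat_lit 171) (nat_lit 187)) (PT.lf (nat_lit 18088) (nat_lit 6) (nat_lit 238) (nat_lit 5) (nat_lit 153) (nat_lit 171) (nat_lit 186))) (PT.nd (nat_lit 78) (PT.lf (nat_lit 19380) (nat_lit 6) (nat_lit 255) (nat_lit 5) (nat_lit 154) (nat_lit 171) (nat_lit 185)) (PT.nd (nat_lit 78) (PT.lf (nat_lit 20596) (nat_lit 6) (nat_lit 271) (nat_lit 5) (nat_lit 155) (nat_lit 171) (nat_lit 184)) (PT.lf (nat_lit 21736) (nat_lit 6) (nat_lit 286) (nat_lit 5) (nat_lit 156) (nat_lit 171) (nat_lit 183))))))))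
noncomputable def pc26 : PT := (PT.nd (nat_lit 1326) (PT.nd (nat_lit 624) (PT.nd (nat_lit 312) (PT.nd (nat_lit 156) (PT.nd (nat_lit 78) (PT.lf (nat_lit 22800) (nat_lit 6) (nat_lit 300) (nat_lit 5) (nat_lit 157) (nat_lit 171) (nat_lit 182)) (PT.lf (nat_lit 23788) (nat_lit 6) (nat_lit 313) (nat_lit 5) (nat_lit 158) (nat_lit 171) (nat_lit 181))) (PT.nd (nat_lit 78) (PT.lf (nat_lit 24700) (nat_lit 6) (nat_lit 325) (nat_lit 5) (nat_lit 159) (nat_lit 171) (nat_lit 180)) (PT.lf (nat_lit 25536) (nat_lit 6) (nat_lit 336) (nat_lit 5) (nat_lit 160) (nat_lit 171) (nat_lit 179)))) (PT.nd (nat_lit 156) (PT.nd (nat_lit 78) (PT.lf (nat_lit 26296) (nat_lit 6) (nat_lit 346) (nat_lit 5) (nat_lit 161) (nat_lit 171) (nat_lit 178)) (PT.lf (nat_lit 26980) (nat_lit 6) (nat_lit 355) (nat_lit 5) (nat_lit 162) (nat_lit 171) (nat_lit 177))) (PT.nd (nat_lit 78) (PT.lf (nat_lit 27588) (nat_lit 6) (nat_lit 363) (nat_lit 5) (nat_lit 163) (nat_lit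 171) (nat_lit 176)) (PT.lf (nat_lit 28120) (nat_lit 6) (nat_lit 370) (nat_lit 5) (nat_lit 164) (nat_lit 171) (nat_lit 175))))) (PT.nd (nat_lit 312) (PT.nd (nat_lit 156) (PT.nd (nat_lit 78) (PT.lf (nat_lit 28576) (nat_lit 6) (nat_lit 376) (nat_lit 5) (nat_lit 165) (nat_lit 171) (nat_lit 174)) (PT.lf (nat_lit 28956) (nat_lit 6) (nat_lit 381) (nat_lit 5) (nat_lit 166) (nat_lit 171) (nat_lit 173))) (PT.nd (nat_lit 78) (PT.lf (nat_lit 29260) (nat_lit 6) (nat_lit 385) (nat_lit 5) (nat_lit 167) (nat_lit 171) (nat_lit 172)) (PT.lf (nat_lit 29488) (nat_lit 3) (nat_lit 388) (nat_lit 4) (nat_lit 168) (nat_lit 171) (nat_lit 171)))) (PT.nd (nat_lit 156) (PT.nd (nat_lit 78) (PT.lf (nat_lit 29564) (nat_lit 6) (nat_lit 389) (nat_lit 4) (nat_lit 169) (nat_lit 171) (nat_lit 170)) (PT.lf (nat_lit 29564) (nat_lit 6) (nat_lit 389) (nat_lit 2) (nat_lit 170) (nat_lit 171) (nat_lit 169))) (PT.nd (nat_lit 78) (PT.lf (nat_lit 29488)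 (nat_lit 3) (nat_lit 388) (nat_lit 0) (nat_lit 171) (nat_lit 171) (nat_lit 168)) (PT.nd (nat_lit 78) (PT.lf (nat_lit 29260) (nat_lit 6) (nat_lit 385) (nat_lit 0) (nat_lit 172) (nat_lit 171) (nat_lit 167)) (PT.lf (nat_lit 28956) (nat_lit 6) (nat_lit 381) (nat_lit 0) (nat_lit 173) (nat_lit 171) (nat_lit 166))))))) (PT.nd (nat_lit 624) (PT.nd (nat_lit 312) (PT.nd (nat_lit 156) (PT.nd (nat_lit 78) (PT.lf (nat_lit 28576) (nat_lit 6) (nat_lit 376) (nat_lit 0) (nat_lit 174) (nat_lit 171) (nat_lit 165)) (PT.lf (nat_lit 28120) (nat_lit 6) (nat_lit 370) (nat_lit 0) (nat_lit 175) (nat_lit 171) (nat_lit 164))) (PT.nd (nat_lit 78) (PT.lf (nat_lit 27588) (nat_lit 6) (nat_lit 363) (nat_lit 0) (nat_lit 176) (nat_lit 171) (nat_lit 163)) (PT.lf (nat_lit 26980) (nat_lit 6) (nat_lit 355) (nat_lit 0) (nat_lit 177) (nat_lit 171) (nat_lit 162)))) (PT.nd (nat_lit 156) (PT.nd (nat_lit 78) (PT.lf (nat_lit 26296) (nat_lit 6) (nat_lit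 346) (nat_lit 0) (nat_lit 178) (nat_lit 171) (nat_lit 161)) (PT.lf (nat_lit 25536) (nat_lit 6) (nat_lit 336) (nat_lit 0) (nat_lit 179) (nat_lit 171) (nat_lit 160))) (PT.nd (nat_lit 78) (PT.lf (nat_lit 24700) (nat_lit 6) (nat_lit 325) (nat_lit 0) (nat_lit 180) (nat_lit 171) (nat_lit 159)) (PT.lf (nat_lit 23788) (nat_lit 6) (nat_lit 313) (nat_lit 0) (nat_lit 181) (nat_lit 171) (nat_lit 158))))) (PT.nd (nat_lit 312) (PT.nd (nat_lit 156) (PT.nd (nat_lit 78) (PT.lf (nat_lit 22800) (nat_lit 6) (nat_lit 300) (nat_lit 0) (nat_lit 182) (nat_lit 171) (nat_lit 157)) (PT.lf (nat_lit 21736) (nat_lit 6) (nat_lit 286) (nat_lit 0) (nat_lit 183) (nat_lit 171) (nat_lit 156))) (PT.nd (nat_lit 78) (PT.lf (nat_lit 20596) (nat_lit 6) (nat_lit 271) (nat_lit 0) (nat_lit 184) (nat_lit 171) (nat_lit 155)) (PT.lf (nat_lit 19380) (nat_lit 6) (nat_lit 255) (nat_lit 0) (nat_lit 185) (nat_lit 171) (nat_lit 154)))) (PT.nd (nat_lit 50388) (PT.nd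 (nat_lit 78) (PT.lf (nat_lit 18088) (nat_lit 6) (nat_lit 238) (nat_lit 0) (nat_lit 186) (nat_lit 171) (nat_lit 153)) (PT.lf (nat_lit 17404) (nat_lit 6) (nat_lit 229) (nat_lit 0) (nat_lit 187) (nat_lit 171) (nat_lit 152))) (PT.nd (nat_lit 78) (PT.lf (nat_lit 16796) (nat_lit 6) (nat_lit 221) (nat_lit 5) (nat_lit 151) (nat_lit 172) (nat_lit 187)) (PT.nd (nat_lit 78) (PT.lf (nat_lit 17480) (nat_lit 6) (nat_lit 230) (nat_lit 5) (nat_lit 152) (nat_lit 172) (nat_lit 186)) (PT.lf (nat_lit 18164) (nat_lit 6) (nat_lit 239) (nat_lit 5) (nat_lit 153) (nat_lit 172) (nat_lit 185))))))))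
noncomputable def pc27 : PT := (PT.nd (nat_lit 1326) (PT.nd (nat_lit 624) (PT.nd (nat_lit 312) (PT.nd (nat_lit 156) (PT.nd (nat_lit 78) (PT.lf (nat_lit 19456) (nat_lit 6) (nat_lit 256) (nat_lit 5) (nat_lit 154) (nat_lit 172) (nat_lit 184)) (PT.lf (nat_lit 20672) (nat_lit 6) (nat_lit 272) (nat_lit 5) (nat_lit 155) (nat_lit 172) (nat_lit 183))) (PT.nd (nat_lit 78) (PT.lf (nat_lit 21812) (nat_lit 6) (nat_lit 287) (nat_lit 5) (nat_lit 156) (nat_lit 172) (nat_lit 182)) (PT.lf (nat_lit 22876) (nat_lit 6) (nat_lit 301) (nat_lit 5) (nat_lit 157) (nat_lit 172) (nat_lit 181)))) (PT.nd (nat_lit 156) (PT.nd (nat_lit 78) (PT.lf (nat_lit 23864) (nat_lit 6) (nat_lit 314) (nat_lit 5) (nat_lit 158) (nat_lit 172) (nat_lit 180)) (PT.lf (nat_lit 24776) (nat_lit 6) (nat_lit 326) (nat_lit 5) (nat_lit 159) (nat_lit 172) (nat_lit 179))) (PT.nd (nat_lit 78) (PT.lf (nat_lit 25612) (nat_lit 6) (nat_lit 337) (nat_lit 5) (nat_lit 160) (nat_lit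 172) (nat_lit 178)) (PT.lf (nat_lit 26372) (nat_lit 6) (nat_lit 347) (nat_lit 5) (nat_lit 161) (nat_lit 172) (nat_lit 177))))) (PT.nd (nat_lit 312) (PT.nd (nat_lit 156) (PT.nd (nat_lit 78) (PT.lf (nat_lit 27056) (nat_lit 6) (nat_lit 356) (nat_lit 5) (nat_lit 162) (nat_lit 172) (nat_lit 176)) (PT.lf (nat_lit 27664) (nat_lit 6) (nat_lit 364) (nat_lit 5) (nat_lit 163) (nat_lit 172) (nat_lit 175))) (PT.nd (nat_lit 78) (PT.lf (nat_lit 28196) (nat_lit 6) (nat_lit 371) (nat_lit 5) (nat_lit 164) (nat_lit 172) (nat_lit 174)) (PT.lf (nat_lit 28652) (nat_lit 6) (nat_lit 377) (nat_lit 5) (nat_lit 165) (nat_lit 172) (nat_lit 173)))) (PT.nd (nat_lit 156) (PT.nd (nat_lit 78) (PT.lf (nat_lit 29032) (nat_lit 3) (nat_lit 382) (nat_lit 4) (nat_lit 166) (nat_lit 172) (nat_lit 172)) (PT.lf (nat_lit 29260) (nat_lit 6) (nat_lit 385) (nat_lit 4) (nat_lit 167) (nat_lit 172) (nat_lit 171))) (PT.nd (nat_lit 78) (PT.lf (nat_lit 29412)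 (nat_lit 6) (nat_lit 387) (nat_lit 4) (nat_lit 168) (nat_lit 172) (nat_lit 170)) (PT.nd (nat_lit 78) (PT.lf (nat_lit 29336) (nat_lit 3) (nat_lit 386) (nat_lit 2) (nat_lit 169) (nat_lit 172) (nat_lit 169)) (PT.lf (nat_lit 29412) (nat_lit 6) (nat_lit 387) (nat_lit 2) (nat_lit 170) (nat_lit 172) (nat_lit 168))))))) (PT.nd (nat_lit 624) (PT.nd (nat_lit 312) (PT.nd (nat_lit 156) (PT.nd (nat_lit 78) (PT.lf (nat_lit 29260) (nat_lit 6) (nat_lit 385) (nat_lit 2) (nat_lit 171) (nat_lit 172) (nat_lit 167)) (PT.lf (nat_lit 29032) (nat_lit 3) (nat_lit 382) (nat_lit 0) (nat_lit 172) (nat_lit 172) (nat_lit 166))) (PT.nd (nat_lit 78) (PT.lf (nat_lit 28652) (nat_lit 6) (nat_lit 377) (nat_lit 0) (nat_lit 173) (nat_lit 172) (nat_lit 165)) (PT.lf (nat_lit 28196) (nat_lit 6) (nat_lit 371) (nat_lit 0) (nat_lit 174) (nat_lit 172) (nat_lit 164)))) (PT.nd (nat_lit 156) (PT.nd (nat_lit 78) (PT.lf (nat_lit 27664) (nat_lit 6) (nat_lit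 364) (nat_lit 0) (nat_lit 175) (nat_lit 172) (nat_lit 163)) (PT.lf (nat_lit 27056) (nat_lit 6) (nat_lit 356) (nat_lit 0) (nat_lit 176) (nat_lit 172) (nat_lit 162))) (PT.nd (nat_lit 78) (PT.lf (nat_lit 26372) (nat_lit 6) (nat_lit 347) (nat_lit 0) (nat_lit 177) (nat_lit 172) (nat_lit 161)) (PT.lf (nat_lit 25612) (nat_lit 6) (nat_lit 337) (nat_lit 0) (nat_lit 178) (nat_lit 172) (nat_lit 160))))) (PT.nd (nat_lit 312) (PT.nd (nat_lit 156) (PT.nd (nat_lit 78) (PT.lf (nat_lit 24776) (nat_lit 6) (nat_lit 326) (nat_lit 0) (nat_lit 179) (nat_lit 172) (nat_lit 159)) (PT.lf (nat_lit 23864) (nat_lit 6) (nat_lit 314) (nat_lit 0) (nat_lit 180) (nat_lit 172) (nat_lit 158))) (PT.nd (nat_lit 78) (PT.lf (nat_lit 22876) (nat_lit 6) (nat_lit 301) (nat_lit 0) (nat_lit 181) (nat_lit 172) (nat_lit 157)) (PT.lf (nat_lit 21812) (nat_lit 6) (nat_lit 287) (nat_lit 0) (nat_lit 182) (nat_lit 172) (nat_lit 156)))) (PT.nd (nat_lit 156) (PT.nd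 (nat_lit 78) (PT.lf (nat_lit 20672) (nat_lit 6) (nat_lit 272) (nat_lit 0) (nat_lit 183) (nat_lit 172) (nat_lit 155)) (PT.lf (nat_lit 19456) (nat_lit 6) (nat_lit 256) (nat_lit 0) (nat_lit 184) (nat_lit 172) (nat_lit 154))) (PT.nd (nat_lit 78) (PT.lf (nat_lit 18164) (nat_lit 6) (nat_lit 239) (nat_lit 0) (nat_lit 185) (nat_lit 172) (nat_lit 153)) (PT.nd (nat_lit 78) (PT.lf (nat_lit 17480) (nat_lit 6) (nat_lit 230) (nat_lit 0) (nat_lit 186) (nat_lit 172) (nat_lit 152)) (PT.lf (nat_lit 16796) (nat_lit 6) (nat_lit 221) (nat_lit 0) (nat_lit 187) (nat_lit 172) (nat_lit 151))))))))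
noncomputable def pc28 : PT := (PT.nd (nat_lit 1326) (PT.nd (nat_lit 624) (PT.nd (nat_lit 312) (PT.nd (nat_lit 156) (PT.nd (nat_lit 78) (PT.lf (nat_lit 16188) (nat_lit 6) (nat_lit 213) (nat_lit 5) (nat_lit 150) (nat_lit 173) (nat_lit 187)) (PT.lf (nat_lit 16872) (nat_lit 6) (nat_lit 222) (nat_lit 5) (nat_lit 151) (nat_lit 173) (nat_lit 186))) (PT.nd (nat_lit 78) (PT.lf (nat_lit 17556) (nat_lit 6) (nat_lit 231) (nat_lit 5) (nat_lit 152) (nat_lit 173) (nat_lit 185)) (PT.lf (nat_lit 18240) (nat_lit 6) (nat_lit 240) (nat_lit 5) (nat_lit 153) (nat_lit 173) (nat_lit 184)))) (PT.nd (nat_lit 156) (PT.nd (nat_lit 78) (PT.lf (nat_lit 19532) (nat_lit 6) (nat_lit 257) (nat_lit 5) (nat_lit 154) (nat_lit 173) (nat_lit 183)) (PT.lf (nat_lit 20748) (nat_lit 6) (nat_lit 273) (nat_lit 5) (nat_lit 155) (nat_lit 173) (nat_lit 182))) (PT.nd (nat_lit 78) (PT.lf (nat_lit 21888) (nat_lit 6) (nat_lit 288) (nat_lit 5) (nat_lit 156) (nat_lit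 173) (nat_lit 181)) (PT.lf (nat_lit 22952) (nat_lit 6) (nat_lit 302) (nat_lit 5) (nat_lit 157) (nat_lit 173) (nat_lit 180))))) (PT.nd (nat_lit 312) (PT.nd (nat_lit 156) (PT.nd (nat_lit 78) (PT.lf (nat_lit 23940) (nat_lit 6) (nat_lit 315) (nat_lit 5) (nat_lit 158) (nat_lit 173) (nat_lit 179)) (PT.lf (nat_lit 24852) (nat_lit 6) (nat_lit 327) (nat_lit 5) (nat_lit 159) (nat_lit 173) (nat_lit 178))) (PT.nd (nat_lit 78) (PT.lf (nat_lit 25688) (nat_lit 6) (nat_lit 338) (nat_lit 5) (nat_lit 160) (nat_lit 173) (nat_lit 177)) (PT.lf (nat_lit 26448) (nat_lit 6) (nat_lit 348) (nat_lit 5) (nat_lit 161) (nat_lit 173) (nat_lit 176)))) (PT.nd (nat_lit 156) (PT.nd (nat_lit 78) (PT.lf (nat_lit 27132) (nat_lit 6) (nat_lit 357) (nat_lit 5) (nat_lit 162) (nat_lit 173) (nat_lit 175)) (PT.lf (nat_lit 27740) (nat_lit 6) (nat_lit 365) (nat_lit 5) (nat_lit 163) (nat_lit 173) (nat_lit 174))) (PT.nd (nat_lit 78) (PT.lf (nat_lit 28272)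 (nat_lit 3) (nat_lit 372) (nat_lit 4) (nat_lit 164) (nat_lit 173) (nat_lit 173)) (PT.nd (nat_lit 78) (PT.lf (nat_lit 28652) (nat_lit 6) (nat_lit 377) (nat_lit 4) (nat_lit 165) (nat_lit 173) (nat_lit 172)) (PT.lf (nat_lit 28956) (nat_lit 6) (nat_lit 381) (nat_lit 4) (nat_lit 166) (nat_lit 173) (nat_lit 171))))))) (PT.nd (nat_lit 624) (PT.nd (nat_lit 312) (PT.nd (nat_lit 156) (PT.nd (nat_lit 78) (PT.lf (nat_lit 29184) (nat_lit 6) (nat_lit 384) (nat_lit 4) (nat_lit 167) (nat_lit 173) (nat_lit 170)) (PT.lf (nat_lit 29108) (nat_lit 6) (nat_lit 383) (nat_lit 4) (nat_lit 168) (nat_lit 173) (nat_lit 169))) (PT.nd (nat_lit 78) (PT.lf (nat_lit 29108) (nat_lit 6) (nat_lit 383) (nat_lit 2) (nat_lit 169) (nat_lit 173) (nat_lit 168)) (PT.lf (nat_lit 29184) (nat_lit 6) (nat_lit 384) (nat_lit 2) (nat_lit 170) (nat_lit 173) (nat_lit 167)))) (PT.nd (nat_lit 156) (PT.nd (nat_lit 78) (PT.lf (nat_lit 28956) (nat_lit 6) (nat_lit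 381) (nat_lit 2) (nat_lit 171) (nat_lit 173) (nat_lit 166)) (PT.lf (nat_lit 28652) (nat_lit 6) (nat_lit 377) (nat_lit 2) (nat_lit 172) (nat_lit 173) (nat_lit 165))) (PT.nd (nat_lit 78) (PT.lf (nat_lit 28272) (nat_lit 3) (nat_lit 372) (nat_lit 0) (nat_lit 173) (nat_lit 173) (nat_lit 164)) (PT.lf (nat_lit 27740) (nat_lit 6) (nat_lit 365) (nat_lit 0) (nat_lit 174) (nat_lit 173) (nat_lit 163))))) (PT.nd (nat_lit 312) (PT.nd (nat_lit 156) (PT.nd (nat_lit 78) (PT.lf (nat_lit 27132) (nat_lit 6) (nat_lit 357) (nat_lit 0) (nat_lit 175) (nat_lit 173) (nat_lit 162)) (PT.lf (nat_lit 26448) (nat_lit 6) (nat_lit 348) (nat_lit 0) (nat_lit 176) (nat_lit 173) (nat_lit 161))) (PT.nd (nat_lit 78) (PT.lf (nat_lit 25688) (nat_lit 6) (nat_lit 338) (nat_lit 0) (nat_lit 177) (nat_lit 173) (nat_lit 160)) (PT.lf (nat_lit 24852) (nat_lit 6) (nat_lit 327) (nat_lit 0) (nat_lit 178) (nat_lit 173) (nat_lit 159)))) (PT.nd (nat_lit 156) (PT.nd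 (nat_lit 78) (PT.lf (nat_lit 23940) (nat_lit 6) (nat_lit 315) (nat_lit 0) (nat_lit 179) (nat_lit 173) (nat_lit 158)) (PT.lf (nat_lit 22952) (nat_lit 6) (nat_lit 302) (nat_lit 0) (nat_lit 180) (nat_lit 173) (nat_lit 157))) (PT.nd (nat_lit 78) (PT.lf (nat_lit 21888) (nat_lit 6) (nat_lit 288) (nat_lit 0) (nat_lit 181) (nat_lit 173) (nat_lit 156)) (PT.nd (nat_lit 78) (PT.lf (nat_lit 20748) (nat_lit 6) (nat_lit 273) (nat_lit 0) (nat_lit 182) (nat_lit 173) (nat_lit 155)) (PT.lf (nat_lit 19532) (nat_lit 6) (nat_lit 257) (nat_lit 0) (nat_lit 183) (nat_lit 173) (nat_lit 154))))))))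
noncomputable def pc29 : PT := (PT.nd (nat_lit 51402) (PT.nd (nat_lit 50700) (PT.nd (nat_lit 50388) (PT.nd (nat_lit 156) (PT.nd (nat_lit 78) (PT.lf (nat_lit 18240) (nat_lit 6) (nat_lit 240) (nat_lit 0) (nat_lit 184) (nat_lit 173) (nat_lit 153)) (PT.lf (nat_lit 17556) (nat_lit 6) (nat_lit 231) (nat_lit 0) (nat_lit 185) (nat_lit 173) (nat_lit 152))) (PT.nd (nat_lit 78) (PT.lf (nat_lit 16872) (nat_lit 6) (nat_lit 222) (nat_lit 0) (nat_lit 186) (nat_lit 173) (nat_lit 151)) (PT.lf (nat_lit 16188) (nat_lit 6) (nat_lit 213) (nat_lit 0) (nat_lit 187) (nat_lit 173) (nat_lit 150)))) (PT.nd (nat_lit 156) (PT.nd (nat_lit 78) (PT.lf (nat_lit 15656) (nat_lit 6) (nat_lit 206) (nat_lit 5) (nat_lit 149) (nat_lit 174) (nat_lit 187)) (PT.lf (nat_lit 16264) (nat_lit 6) (nat_lit 214) (nat_lit 5) (nat_lit 150) (nat_lit 174) (nat_lit 186))) (PT.nd (nat_lit 78) (PT.lf (nat_lit 16948) (nat_lit 6) (nat_lit 223) (nat_lit 5) (nat_lit 151)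 (nat_lit 174) (nat_lit 185)) (PT.lf (nat_lit 17632) (nat_lit 6) (nat_lit 232) (nat_lit 5) (nat_lit 152) (nat_lit 174) (nat_lit 184))))) (PT.nd (nat_lit 312) (PT.nd (nat_lit 156) (PT.nd (nat_lit 78) (PT.lf (nat_lit 18316) (nat_lit 6) (nat_lit 241) (nat_lit 5) (nat_lit 153) (nat_lit 174) (nat_lit 183)) (PT.lf (nat_lit 19608) (nat_lit 6) (nat_lit 258) (nat_lit 5) (nat_lit 154) (nat_lit 174) (nat_lit 182))) (PT.nd (nat_lit 78) (PT.lf (nat_lit 20824) (nat_lit 6) (nat_lit 274) (nat_lit 5) (nat_lit 155) (nat_lit 174) (nat_lit 181)) (PT.lf (nat_lit 21964) (nat_lit 6) (nat_lit 289) (nat_lit 5) (nat_lit 156) (nat_lit 174) (nat_lit 180)))) (PT.nd (nat_lit 156) (PT.nd (nat_lit 78) (PT.lf (nat_lit 23028) (nat_lit 6) (nat_lit 303) (nat_lit 5) (nat_lit 157) (nat_lit 174) (nat_lit 179)) (PT.lf (nat_lit 24016) (nat_lit 6) (nat_lit 316) (nat_lit 5) (nat_lit 158) (nat_lit 174) (nat_lit 178))) (PT.nd (nat_lit 78) (PT.lf (nat_lit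 24928) (nat_lit 6) (nat_lit 328) (nat_lit 5) (nat_lit 159) (nat_lit 174) (nat_lit 177)) (PT.nd (nat_lit 78) (PT.lf (nat_lit 25764) (nat_lit 6) (nat_lit 339) (nat_lit 5) (nat_lit 160) (nat_lit 174) (nat_lit 176)) (PT.lf (nat_lit 26524) (nat_lit 6) (nat_lit 349) (nat_lit 5) (nat_lit 161) (nat_lit 174) (nat_lit 175))))))) (PT.nd (nat_lit 624) (PT.nd (nat_lit 312) (PT.nd (nat_lit 156) (PT.nd (nat_lit 78) (PT.lf (nat_lit 27208) (nat_lit 3) (nat_lit 358) (nat_lit 4) (nat_lit 162) (nat_lit 174) (nat_lit 174)) (PT.lf (nat_lit 27740) (nat_lit 6) (nat_lit 365) (nat_lit 4) (nat_lit 163) (nat_lit 174) (nat_lit 173))) (PT.nd (nat_lit 78) (PT.lf (nat_lit 28196) (nat_lit 6) (nat_lit 371) (nat_lit 4) (nat_lit 164) (nat_lit 174) (nat_lit 172)) (PT.lf (nat_lit 28576) (nat_lit 6) (nat_lit 376) (nat_lit 4) (nat_lit 165) (nat_lit 174) (nat_lit 171)))) (PT.nd (nat_lit 156) (PT.nd (nat_lit 78) (PT.lf (nat_lit 28880) (nat_lit 6) (nat_lit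 380) (nat_lit 4) (nat_lit 166) (nat_lit 174) (nat_lit 170)) (PT.lf (nat_lit 28804) (nat_lit 6) (nat_lit 379) (nat_lit 4) (nat_lit 167) (nat_lit 174) (nat_lit 169))) (PT.nd (nat_lit 78) (PT.lf (nat_lit 28728) (nat_lit 3) (nat_lit 378) (nat_lit 2) (nat_lit 168) (nat_lit 174) (nat_lit 168)) (PT.lf (nat_lit 28804) (nat_lit 6) (nat_lit 379) (nat_lit 2) (nat_lit 169) (nat_lit 174) (nat_lit 167))))) (PT.nd (nat_lit 312) (PT.nd (nat_lit 156) (PT.nd (nat_lit 78) (PT.lf (nat_lit 28880) (nat_lit 6) (nat_lit 380) (nat_lit 2) (nat_lit 170) (nat_lit 174) (nat_lit 166)) (PT.lf (nat_lit 28576) (nat_lit 6) (nat_lit 376) (nat_lit 2) (nat_lit 171) (nat_lit 174) (nat_lit 165))) (PT.nd (nat_lit 78) (PT.lf (nat_lit 28196) (nat_lit 6) (nat_lit 371) (nat_lit 2) (nat_lit 172) (nat_lit 174) (nat_lit 164)) (PT.lf (nat_lit 27740) (nat_lit 6) (nat_lit 365) (nat_lit 2) (nat_lit 173) (nat_lit 174) (nat_lit 163)))) (PT.nd (nat_lit 156) (PT.nd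 (nat_lit 78) (PT.lf (nat_lit 27208) (nat_lit 3) (nat_lit 358) (nat_lit 0) (nat_lit 174) (nat_lit 174) (nat_lit 162)) (PT.lf (nat_lit 26524) (nat_lit 6) (nat_lit 349) (nat_lit 0) (nat_lit 175) (nat_lit 174) (nat_lit 161))) (PT.nd (nat_lit 78) (PT.lf (nat_lit 25764) (nat_lit 6) (nat_lit 339) (nat_lit 0) (nat_lit 176) (nat_lit 174) (nat_lit 160)) (PT.nd (nat_lit 78) (PT.lf (nat_lit 24928) (nat_lit 6) (nat_lit 328) (nat_lit 0) (nat_lit 177) (nat_lit 174) (nat_lit 159)) (PT.lf (nat_lit 24016) (nat_lit 6) (nat_lit 316) (nat_lit 0) (nat_lit 178) (nat_lit 174) (nat_lit 158))))))))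
noncomputable def pc30 : PT := (PT.nd (nat_lit 51246) (PT.nd (nat_lit 624) (PT.nd (nat_lit 312) (PT.nd (nat_lit 156) (PT.nd (nat_lit 78) (PT.lf (nat_lit 23028) (nat_lit 6) (nat_lit 303) (nat_lit 0) (nat_lit 179) (nat_lit 174) (nat_lit 157)) (PT.lf (nat_lit 21964) (nat_lit 6) (nat_lit 289) (nat_lit 0) (nat_lit 180) (nat_lit 174) (nat_lit 156))) (PT.nd (nat_lit 78) (PT.lf (nat_lit 20824) (nat_lit 6) (nat_lit 274) (nat_lit 0) (nat_lit 181) (nat_lit 174) (nat_lit 155)) (PT.lf (nat_lit 19608) (nat_lit 6) (nat_lit 258) (nat_lit 0) (nat_lit 182) (nat_lit 174) (nat_lit 154)))) (PT.nd (nat_lit 156) (PT.nd (nat_lit 78) (PT.lf (nat_lit 18316) (nat_lit 6) (nat_lit 241) (nat_lit 0) (nat_lit 183) (nat_lit 174) (nat_lit 153)) (PT.lf (nat_lit 17632) (nat_lit 6) (nat_lit 232) (nat_lit 0) (nat_lit 184) (nat_lit 174) (nat_lit 152))) (PT.nd (nat_lit 78) (PT.lf (nat_lit 16948) (nat_lit 6) (nat_lit 223) (nat_lit 0) (nat_lit 185)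 (nat_lit 174) (nat_lit 151)) (PT.lf (nat_lit 16264) (nat_lit 6) (nat_lit 214) (nat_lit 0) (nat_lit 186) (nat_lit 174) (nat_lit 150))))) (PT.nd (nat_lit 50232) (PT.nd (nat_lit 50076) (PT.nd (nat_lit 49998) (PT.lf (nat_lit 15656) (nat_lit 6) (nat_lit 206) (nat_lit 0) (nat_lit 187) (nat_lit 174) (nat_lit 149)) (PT.lf (nat_lit 14592) (nat_lit 6) (nat_lit 192) (nat_lit 5) (nat_lit 147) (nat_lit 175) (nat_lit 188))) (PT.nd (nat_lit 78) (PT.lf (nat_lit 15124) (nat_lit 6) (nat_lit 199) (nat_lit 5) (nat_lit 148) (nat_lit 175) (nat_lit 187)) (PT.lf (nat_lit 15732) (nat_lit 6) (nat_lit 207) (nat_lit 5) (nat_lit 149) (nat_lit 175) (nat_lit 186)))) (PT.nd (nat_lit 156) (PT.nd (nat_lit 78) (PT.lf (nat_lit 16340) (nat_lit 6) (nat_lit 215) (nat_lit 5) (nat_lit 150) (nat_lit 175) (nat_lit 185)) (PT.lf (nat_lit 17024) (nat_lit 6) (nat_lit 224) (nat_lit 5) (nat_lit 151) (nat_lit 175) (nat_lit 184))) (PT.nd (nat_lit 78) (PT.lf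 (nat_lit 17708) (nat_lit 6) (nat_lit 233) (nat_lit 5) (nat_lit 152) (nat_lit 175) (nat_lit 183)) (PT.nd (nat_lit 78) (PT.lf (nat_lit 18392) (nat_lit 6) (nat_lit 242) (nat_lit 5) (nat_lit 153) (nat_lit 175) (nat_lit 182)) (PT.lf (nat_lit 19684) (nat_lit 6) (nat_lit 259) (nat_lit 5) (nat_lit 154) (nat_lit 175) (nat_lit 181))))))) (PT.nd (nat_lit 624) (PT.nd (nat_lit 312) (PT.nd (nat_lit 156) (PT.nd (nat_lit 78) (PT.lf (nat_lit 20900) (nat_lit 6) (nat_lit 275) (nat_lit 5) (nat_lit 155) (nat_lit 175) (nat_lit 180)) (PT.lf (nat_lit 22040) (nat_lit 6) (nat_lit 290) (nat_lit 5) (nat_lit 156) (nat_lit 175) (nat_lit 179))) (PT.nd (nat_lit 78) (PT.lf (nat_lit 23104) (nat_lit 6) (nat_lit 304) (nat_lit 5) (nat_lit 157) (nat_lit 175) (nat_lit 178)) (PT.lf (nat_lit 24092) (nat_lit 6) (nat_lit 317) (nat_lit 5) (nat_lit 158) (nat_lit 175) (nat_lit 177)))) (PT.nd (nat_lit 156) (PT.nd (nat_lit 78) (PT.lf (nat_lit 25004) (nat_lit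 6) (nat_lit 329) (nat_lit 5) (nat_lit 159) (nat_lit 175) (nat_lit 176)) (PT.lf (nat_lit 25840) (nat_lit 3) (nat_lit 340) (nat_lit 4) (nat_lit 160) (nat_lit 175) (nat_lit 175))) (PT.nd (nat_lit 78) (PT.lf (nat_lit 26524) (nat_lit 6) (nat_lit 349) (nat_lit 4) (nat_lit 161) (nat_lit 175) (nat_lit 174)) (PT.lf (nat_lit 27132) (nat_lit 6) (nat_lit 357) (nat_lit 4) (nat_lit 162) (nat_lit 175) (nat_lit 173))))) (PT.nd (nat_lit 312) (PT.nd (nat_lit 156) (PT.nd (nat_lit 78) (PT.lf (nat_lit 27664) (nat_lit 6) (nat_lit 364) (nat_lit 4) (nat_lit 163) (nat_lit 175) (nat_lit 172)) (PT.lf (nat_lit 28120) (nat_lit 6) (nat_lit 370) (nat_lit 4) (nat_lit 164) (nat_lit 175) (nat_lit 171))) (PT.nd (nat_lit 78) (PT.lf (nat_lit 28500) (nat_lit 6) (nat_lit 375) (nat_lit 4) (nat_lit 165) (nat_lit 175) (nat_lit 170)) (PT.lf (nat_lit 28424) (nat_lit 6) (nat_lit 374) (nat_lit 4) (nat_lit 166) (nat_lit 175) (nat_lit 169)))) (PT.nd (nat_lit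 156) (PT.nd (nat_lit 78) (PT.lf (nat_lit 28348) (nat_lit 6) (nat_lit 373) (nat_lit 4) (nat_lit 167) (nat_lit 175) (nat_lit 168)) (PT.lf (nat_lit 28348) (nat_lit 6) (nat_lit 373) (nat_lit 2) (nat_lit 168) (nat_lit 175) (nat_lit 167))) (PT.nd (nat_lit 78) (PT.lf (nat_lit 28424) (nat_lit 6) (nat_lit 374) (nat_lit 2) (nat_lit 169) (nat_lit 175) (nat_lit 166)) (PT.nd (nat_lit 78) (PT.lf (nat_lit 28500) (nat_lit 6) (nat_lit 375) (nat_lit 2) (nat_lit 170) (nat_lit 175) (nat_lit 165)) (PT.lf (nat_lit 28120) (nat_lit 6) (nat_lit 370) (nat_lit 2) (nat_lit 171) (nat_lit 175) (nat_lit 164))))))))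
noncomputable def pc31 : PT := (PT.nd (nat_lit 51090) (PT.nd (nat_lit 624) (PT.nd (nat_lit 312) (PT.nd (nat_lit 156) (PT.nd (nat_lit 78) (PT.lf (nat_lit 27664) (nat_lit 6) (nat_lit 364) (nat_lit 2) (nat_lit 172) (nat_lit 175) (nat_lit 163)) (PT.lf (nat_lit 27132) (nat_lit 6) (nat_lit 357) (nat_lit 2) (nat_lit 173) (nat_lit 175) (nat_lit 162))) (PT.nd (nat_lit 78) (PT.lf (nat_lit 26524) (nat_lit 6) (nat_lit 349) (nat_lit 2) (nat_lit 174) (nat_lit 175) (nat_lit 161)) (PT.lf (nat_lit 25840) (nat_lit 3) (nat_lit 340) (nat_lit 0) (nat_lit 175) (nat_lit 175) (nat_lit 160)))) (PT.nd (nat_lit 156) (PT.nd (nat_lit 78) (PT.lf (nat_lit 25004) (nat_lit 6) (nat_lit 329) (nat_lit 0) (nat_lit 176) (nat_lit 175) (nat_lit 159)) (PT.lf (nat_lit 24092) (nat_lit 6) (nat_lit 317) (nat_lit 0) (nat_lit 177) (nat_lit 175) (nat_lit 158))) (PT.nd (nat_lit 78) (PT.lf (nat_lit 23104) (nat_lit 6) (nat_lit 304) (nat_lit 0) (nat_lit 178)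 (nat_lit 175) (nat_lit 157)) (PT.lf (nat_lit 22040) (nat_lit 6) (nat_lit 290) (nat_lit 0) (nat_lit 179) (nat_lit 175) (nat_lit 156))))) (PT.nd (nat_lit 312) (PT.nd (nat_lit 156) (PT.nd (nat_lit 78) (PT.lf (nat_lit 20900) (nat_lit 6) (nat_lit 275) (nat_lit 0) (nat_lit 180) (nat_lit 175) (nat_lit 155)) (PT.lf (nat_lit 19684) (nat_lit 6) (nat_lit 259) (nat_lit 0) (nat_lit 181) (nat_lit 175) (nat_lit 154))) (PT.nd (nat_lit 78) (PT.lf (nat_lit 18392) (nat_lit 6) (nat_lit 242) (nat_lit 0) (nat_lit 182) (nat_lit 175) (nat_lit 153)) (PT.lf (nat_lit 17708) (nat_lit 6) (nat_lit 233) (nat_lit 0) (nat_lit 183) (nat_lit 175) (nat_lit 152)))) (PT.nd (nat_lit 156) (PT.nd (nat_lit 78) (PT.lf (nat_lit 17024) (nat_lit 6) (nat_lit 224) (nat_lit 0) (nat_lit 184) (nat_lit 175) (nat_lit 151)) (PT.lf (nat_lit 16340) (nat_lit 6) (nat_lit 215) (nat_lit 0) (nat_lit 185) (nat_lit 175) (nat_lit 150))) (PT.nd (nat_lit 78) (PT.lf (nat_lit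 15732) (nat_lit 6) (nat_lit 207) (nat_lit 0) (nat_lit 186) (nat_lit 175) (nat_lit 149)) (PT.nd (nat_lit 78) (PT.lf (nat_lit 15124) (nat_lit 6) (nat_lit 199) (nat_lit 0) (nat_lit 187) (nat_lit 175) (nat_lit 148)) (PT.lf (nat_lit 14592) (nat_lit 6) (nat_lit 192) (nat_lit 0) (nat_lit 188) (nat_lit 175) (nat_lit 147))))))) (PT.nd (nat_lit 624) (PT.nd (nat_lit 312) (PT.nd (nat_lit 156) (PT.nd (nat_lit 78) (PT.lf (nat_lit 14060) (nat_lit 6) (nat_lit 185) (nat_lit 5) (nat_lit 146) (nat_lit 176) (nat_lit 188)) (PT.lf (nat_lit 14668) (nat_lit 6) (nat_lit 193) (nat_lit 5) (nat_lit 147) (nat_lit 176) (nat_lit 187))) (PT.nd (nat_lit 78) (PT.lf (nat_lit 15200) (nat_lit 6) (nat_lit 200) (nat_lit 5) (nat_lit 148) (nat_lit 176) (nat_lit 186)) (PT.lf (nat_lit 15808) (nat_lit 6) (nat_lit 208) (nat_lit 5) (nat_lit 149) (nat_lit 176) (nat_lit 185)))) (PT.nd (nat_lit 156) (PT.nd (nat_lit 78) (PT.lf (nat_lit 16416) (nat_lit 6) (nat_lit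 216) (nat_lit 5) (nat_lit 150) (nat_lit 176) (nat_lit 184)) (PT.lf (nat_lit 17100) (nat_lit 6) (nat_lit 225) (nat_lit 5) (nat_lit 151) (nat_lit 176) (nat_lit 183))) (PT.nd (nat_lit 78) (PT.lf (nat_lit 17784) (nat_lit 6) (nat_lit 234) (nat_lit 5) (nat_lit 152) (nat_lit 176) (nat_lit 182)) (PT.lf (nat_lit 18468) (nat_lit 6) (nat_lit 243) (nat_lit 5) (nat_lit 153) (nat_lit 176) (nat_lit 181))))) (PT.nd (nat_lit 312) (PT.nd (nat_lit 156) (PT.nd (nat_lit 78) (PT.lf (nat_lit 19760) (nat_lit 6) (nat_lit 260) (nat_lit 5) (nat_lit 154) (nat_lit 176) (nat_lit 180)) (PT.lf (nat_lit 20976) (nat_lit 6) (nat_lit 276) (nat_lit 5) (nat_lit 155) (nat_lit 176) (nat_lit 179))) (PT.nd (nat_lit 78) (PT.lf (nat_lit 22116) (nat_lit 6) (nat_lit 291) (nat_lit 5) (nat_lit 156) (nat_lit 176) (nat_lit 178)) (PT.lf (nat_lit 23180) (nat_lit 6) (nat_lit 305) (nat_lit 5) (nat_lit 157) (nat_lit 176) (nat_lit 177)))) (PT.nd (nat_lit 156) (PT.nd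 (nat_lit 78) (PT.lf (nat_lit 24168) (nat_lit 3) (nat_lit 318) (nat_lit 4) (nat_lit 158) (nat_lit 176) (nat_lit 176)) (PT.lf (nat_lit 25004) (nat_lit 6) (nat_lit 329) (nat_lit 4) (nat_lit 159) (nat_lit 176) (nat_lit 175))) (PT.nd (nat_lit 78) (PT.lf (nat_lit 25764) (nat_lit 6) (nat_lit 339) (nat_lit 4) (nat_lit 160) (nat_lit 176) (nat_lit 174)) (PT.nd (nat_lit 78) (PT.lf (nat_lit 26448) (nat_lit 6) (nat_lit 348) (nat_lit 4) (nat_lit 161) (nat_lit 176) (nat_lit 173)) (PT.lf (nat_lit 27056) (nat_lit 6) (nat_lit 356) (nat_lit 4) (nat_lit 162) (nat_lit 176) (nat_lit 172))))))))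
noncomputable def pc32 : PT := (PT.nd (nat_lit 1248) (PT.nd (nat_lit 624) (PT.nd (nat_lit 312) (PT.nd (nat_lit 156) (PT.nd (nat_lit 78) (PT.lf (nat_lit 27588) (nat_lit 6) (nat_lit 363) (nat_lit 4) (nat_lit 163) (nat_lit 176) (nat_lit 171)) (PT.lf (nat_lit 28044) (nat_lit 6) (nat_lit 369) (nat_lit 4) (nat_lit 164) (nat_lit 176) (nat_lit 170))) (PT.nd (nat_lit 78) (PT.lf (nat_lit 27968) (nat_lit 6) (nat_lit 368) (nat_lit 4) (nat_lit 165) (nat_lit 176) (nat_lit 169)) (PT.lf (nat_lit 27892) (nat_lit 6) (nat_lit 367) (nat_lit 4) (nat_lit 166) (nat_lit 176) (nat_lit 168)))) (PT.nd (nat_lit 156) (PT.nd (nat_lit 78) (PT.lf (nat_lit 27816) (nat_lit 3) (nat_lit 366) (nat_lit 2) (nat_lit 167) (nat_lit 176) (nat_lit 167)) (PT.lf (nat_lit 27892) (nat_lit 6) (nat_lit 367) (nat_lit 2) (nat_lit 168) (nat_lit 176) (nat_lit 166))) (PT.nd (nat_lit 78) (PT.lf (nat_lit 27968) (nat_lit 6) (nat_lit 368) (nat_lit 2) (nat_lit 169) (nat_lit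 176) (nat_lit 165)) (PT.lf (nat_lit 28044) (nat_lit 6) (nat_lit 369) (nat_lit 2) (nat_lit 170) (nat_lit 176) (nat_lit 164))))) (PT.nd (nat_lit 312) (PT.nd (nat_lit 156) (PT.nd (nat_lit 78) (PT.lf (nat_lit 27588) (nat_lit 6) (nat_lit 363) (nat_lit 2) (nat_lit 171) (nat_lit 176) (nat_lit 163)) (PT.lf (nat_lit 27056) (nat_lit 6) (nat_lit 356) (nat_lit 2) (nat_lit 172) (nat_lit 176) (nat_lit 162))) (PT.nd (nat_lit 78) (PT.lf (nat_lit 26448) (nat_lit 6) (nat_lit 348) (nat_lit 2) (nat_lit 173) (nat_lit 176) (nat_lit 161)) (PT.lf (nat_lit 25764) (nat_lit 6) (nat_lit 339) (nat_lit 2) (nat_lit 174) (nat_lit 176) (nat_lit 160)))) (PT.nd (nat_lit 156) (PT.nd (nat_lit 78) (PT.lf (nat_lit 25004) (nat_lit 6) (nat_lit 329) (nat_lit 2) (nat_lit 175) (nat_lit 176) (nat_lit 159)) (PT.lf (nat_lit 24168) (nat_lit 3) (nat_lit 318) (nat_lit 0) (nat_lit 176) (nat_lit 176) (nat_lit 158))) (PT.nd (nat_lit 78) (PT.lf (nat_lit 23180)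 (nat_lit 6) (nat_lit 305) (nat_lit 0) (nat_lit 177) (nat_lit 176) (nat_lit 157)) (PT.lf (nat_lit 22116) (nat_lit 6) (nat_lit 291) (nat_lit 0) (nat_lit 178) (nat_lit 176) (nat_lit 156)))))) (PT.nd (nat_lit 624) (PT.nd (nat_lit 312) (PT.nd (nat_lit 156) (PT.nd (nat_lit 78) (PT.lf (nat_lit 20976) (nat_lit 6) (nat_lit 276) (nat_lit 0) (nat_lit 179) (nat_lit 176) (nat_lit 155)) (PT.lf (nat_lit 19760) (nat_lit 6) (nat_lit 260) (nat_lit 0) (nat_lit 180) (nat_lit 176) (nat_lit 154))) (PT.nd (nat_lit 78) (PT.lf (nat_lit 18468) (nat_lit 6) (nat_lit 243) (nat_lit 0) (nat_lit 181) (nat_lit 176) (nat_lit 153)) (PT.lf (nat_lit 17784) (nat_lit 6) (nat_lit 234) (nat_lit 0) (nat_lit 182) (nat_lit 176) (nat_lit 152)))) (PT.nd (nat_lit 156) (PT.nd (nat_lit 78) (PT.lf (nat_lit 17100) (nat_lit 6) (nat_lit 225) (nat_lit 0) (nat_lit 183) (nat_lit 176) (nat_lit 151)) (PT.lf (nat_lit 16416) (nat_lit 6) (nat_lit 216) (nat_lit 0) (nat_lit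 184) (nat_lit 176) (nat_lit 150))) (PT.nd (nat_lit 78) (PT.lf (nat_lit 15808) (nat_lit 6) (nat_lit 208) (nat_lit 0) (nat_lit 185) (nat_lit 176) (nat_lit 149)) (PT.lf (nat_lit 15200) (nat_lit 6) (nat_lit 200) (nat_lit 0) (nat_lit 186) (nat_lit 176) (nat_lit 148))))) (PT.nd (nat_lit 49998) (PT.nd (nat_lit 49842) (PT.nd (nat_lit 78) (PT.lf (nat_lit 14668) (nat_lit 6) (nat_lit 193) (nat_lit 0) (nat_lit 187) (nat_lit 176) (nat_lit 147)) (PT.lf (nat_lit 14060) (nat_lit 6) (nat_lit 185) (nat_lit 0) (nat_lit 188) (nat_lit 176) (nat_lit 146))) (PT.nd (nat_lit 78) (PT.lf (nat_lit 13604) (nat_lit 6) (nat_lit 179) (nat_lit 5) (nat_lit 145) (nat_lit 177) (nat_lit 188)) (PT.lf (nat_lit 14136) (nat_lit 6) (nat_lit 186) (nat_lit 5) (nat_lit 146) (nat_lit 177) (nat_lit 187)))) (PT.nd (nat_lit 156) (PT.nd (nat_lit 78) (PT.lf (nat_lit 14744) (nat_lit 6) (nat_lit 194) (nat_lit 5) (nat_lit 147) (nat_lit 177) (nat_lit 186)) (PT.lf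 (nat_lit 15276) (nat_lit 6) (nat_lit 201) (nat_lit 5) (nat_lit 148) (nat_lit 177) (nat_lit 185))) (PT.nd (nat_lit 78) (PT.lf (nat_lit 15884) (nat_lit 6) (nat_lit 209) (nat_lit 5) (nat_lit 149) (nat_lit 177) (nat_lit 184)) (PT.nd (nat_lit 78) (PT.lf (nat_lit 16492) (nat_lit 6) (nat_lit 217) (nat_lit 5) (nat_lit 150) (nat_lit 177) (nat_lit 183)) (PT.lf (nat_lit 17176) (nat_lit 6) (nat_lit 226) (nat_lit 5) (nat_lit 151) (nat_lit 177) (nat_lit 182))))))))
noncomputable def pc33 : PT := (PT.nd (nat_lit 1326) (PT.nd (nat_lit 624) (PT.nd (nat_lit 312) (PT.nd (nat_lit 156) (PT.nd (nat_lit 78) (PT.lf (nat_lit 17860) (nat_lit 6) (nat_lit 235) (nat_lit 5) (nat_lit 152) (nat_lit 177) (nat_lit 181)) (PT.lf (nat_lit 18544) (nat_lit 6) (nat_lit 244) (nat_lit 5) (nat_lit 153) (nat_lit 177) (nat_lit 180))) (PT.nd (nat_lit 78) (PT.lf (nat_lit 19836) (nat_lit 6) (nat_lit 261) (nat_lit 5) (nat_lit 154) (nat_lit 177) (nat_lit 179))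 (PT.lf (nat_lit 21052) (nat_lit 6) (nat_lit 277) (nat_lit 5) (nat_lit 155) (nat_lit 177) (nat_lit 178)))) (PT.nd (nat_lit 156) (PT.nd (nat_lit 78) (PT.lf (nat_lit 22192) (nat_lit 3) (nat_lit 292) (nat_lit 4) (nat_lit 156) (nat_lit 177) (nat_lit 177)) (PT.lf (nat_lit 23180) (nat_lit 6) (nat_lit 305) (nat_lit 4) (nat_lit 157) (nat_lit 177) (nat_lit 176))) (PT.nd (nat_lit 78) (PT.lf (nat_lit 24092) (nat_lit 6) (nat_lit 317) (nat_lit 4) (nat_lit 158) (nat_lit 177) (nat_lit 175)) (PT.lf (nat_lit 24928) (nat_lit 6) (nat_lit 328) (nat_lit 4) (nat_lit 159) (nat_lit 177) (nat_lit 174))))) (PT.nd (nat_lit 312) (PT.nd (nat_lit 156) (PT.nd (nat_lit 78) (PT.lf (nat_lit 25688) (nat_lit 6) (nat_lit 338) (nat_lit 4) (nat_lit 160) (nat_lit 177) (nat_lit 173)) (PT.lf (nat_lit 26372) (nat_lit 6) (nat_lit 347) (nat_lit 4) (nat_lit 161) (nat_lit 177) (nat_lit 172))) (PT.nd (nat_lit 78) (PT.lf (nat_lit 26980) (nat_lit 6) (nat_lit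 355) (nat_lit 4) (nat_lit 162) (nat_lit 177) (nat_lit 171)) (PT.lf (nat_lit 27512) (nat_lit 6) (nat_lit 362) (nat_lit 4) (nat_lit 163) (nat_lit 177) (nat_lit 170)))) (PT.nd (nat_lit 156) (PT.nd (nat_lit 78) (PT.lf (nat_lit 27436) (nat_lit 6) (nat_lit 361) (nat_lit 4) (nat_lit 164) (nat_lit 177) (nat_lit 169)) (PT.lf (nat_lit 27360) (nat_lit 6) (nat_lit 360) (nat_lit 4) (nat_lit 165) (nat_lit 177) (nat_lit 168))) (PT.nd (nat_lit 78) (PT.lf (nat_lit 27284) (nat_lit 6) (nat_lit 359) (nat_lit 4) (nat_lit 166) (nat_lit 177) (nat_lit 167)) (PT.nd (nat_lit 78) (PT.lf (nat_lit 27284) (nat_lit 6) (nat_lit 359) (nat_lit 2) (nat_lit 167) (nat_lit 177) (nat_lit 166)) (PT.lf (nat_lit 27360) (nat_lit 6) (nat_lit 360) (nat_lit 2) (nat_lit 168) (nat_lit 177) (nat_lit 165))))))) (PT.nd (nat_lit 624) (PT.nd (nat_lit 312) (PT.nd (nat_lit 156) (PT.nd (nat_lit 78) (PT.lf (nat_lit 27436) (nat_lit 6) (nat_lit 361) (nat_lit 2) (nat_lit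 169) (nat_lit 177) (nat_lit 164)) (PT.lf (nat_lit 27512) (nat_lit 6) (nat_lit 362) (nat_lit 2) (nat_lit 170) (nat_lit 177) (nat_lit 163))) (PT.nd (nat_lit 78) (PT.lf (nat_lit 26980) (nat_lit 6) (nat_lit 355) (nat_lit 2) (nat_lit 171) (nat_lit 177) (nat_lit 162)) (PT.lf (nat_lit 26372) (nat_lit 6) (nat_lit 347) (nat_lit 2) (nat_lit 172) (nat_lit 177) (nat_lit 161)))) (PT.nd (nat_lit 156) (PT.nd (nat_lit 78) (PT.lf (nat_lit 25688) (nat_lit 6) (nat_lit 338) (nat_lit 2) (nat_lit 173) (nat_lit 177) (nat_lit 160)) (PT.lf (nat_lit 24928) (nat_lit 6) (nat_lit 328) (nat_lit 2) (nat_lit 174) (nat_lit 177) (nat_lit 159))) (PT.nd (nat_lit 78) (PT.lf (nat_lit 24092) (nat_lit 6) (nat_lit 317) (nat_lit 2) (nat_lit 175) (nat_lit 177) (nat_lit 158)) (PT.lf (nat_lit 23180) (nat_lit 6) (nat_lit 305) (nat_lit 2) (nat_lit 176) (nat_lit 177) (nat_lit 157))))) (PT.nd (nat_lit 312) (PT.nd (nat_lit 156) (PT.nd (nat_lit 78) (PT.lf (nat_lit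 22192) (nat_lit 3) (nat_lit 292) (nat_lit 0) (nat_lit 177) (nat_lit 177) (nat_lit 156)) (PT.lf (nat_lit 21052) (nat_lit 6) (nat_lit 277) (nat_lit 0) (nat_lit 178) (nat_lit 177) (nat_lit 155))) (PT.nd (nat_lit 78) (PT.lf (nat_lit 19836) (nat_lit 6) (nat_lit 261) (nat_lit 0) (nat_lit 179) (nat_lit 177) (nat_lit 154)) (PT.lf (nat_lit 18544) (nat_lit 6) (nat_lit 244) (nat_lit 0) (nat_lit 180) (nat_lit 177) (nat_lit 153)))) (PT.nd (nat_lit 156) (PT.nd (nat_lit 78) (PT.lf (nat_lit 17860) (nat_lit 6) (nat_lit 235) (nat_lit 0) (nat_lit 181) (nat_lit 177) (nat_lit 152)) (PT.lf (nat_lit 17176) (nat_lit 6) (nat_lit 226) (nat_lit 0) (nat_lit 182) (nat_lit 177) (nat_lit 151))) (PT.nd (nat_lit 78) (PT.lf (nat_lit 16492) (nat_lit 6) (nat_lit 217) (nat_lit 0) (nat_lit 183) (nat_lit 177) (nat_lit 150)) (PT.nd (nat_lit 78) (PT.lf (nat_lit 15884) (nat_lit 6) (nat_lit 209) (nat_lit 0) (nat_lit 184) (nat_lit 177) (nat_lit 149))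 (PT.lf (nat_lit 15276) (nat_lit 6) (nat_lit 201) (nat_lit 0) (nat_lit 185) (nat_lit 177) (nat_lit 148))))))))
noncomputable def pc34 : PT := (PT.nd (nat_lit 50856) (PT.nd (nat_lit 50154) (PT.nd (nat_lit 49842) (PT.nd (nat_lit 156) (PT.nd (nat_lit 78) (PT.lf (nat_lit 14744) (nat_lit 6) (nat_lit 194) (nat_lit 0) (nat_lit 186) (nat_lit 177) (nat_lit 147)) (PT.lf (nat_lit 14136) (nat_lit 6) (nat_lit 186) (nat_lit 0) (nat_lit 187) (nat_lit 177) (nat_lit 146))) (PT.nd (nat_lit 49608) (PT.lf (nat_lit 13604) (nat_lit 6) (nat_lit 179) (nat_lit 0) (nat_lit 188) (nat_lit 177) (nat_lit 145)) (PT.lf (nat_lit 12692) (nat_lit 6) (nat_lit 167) (nat_lit 5) (nat_lit 143) (nat_lit 178) (nat_lit 189)))) (PT.nd (nat_lit 156) (PT.nd (nat_lit 78) (PT.lf (nat_lit 13148) (nat_lit 6) (nat_lit 173) (nat_lit 5) (nat_lit 144) (nat_lit 178) (nat_lit 188)) (PT.lf (nat_lit 13680) (nat_lit 6) (nat_lit 180) (nat_lit 5) (nat_lit 145) (nat_lit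 178) (nat_lit 187))) (PT.nd (nat_lit 78) (PT.lf (nat_lit 14212) (nat_lit 6) (nat_lit 187) (nat_lit 5) (nat_lit 146) (nat_lit 178) (nat_lit 186)) (PT.lf (nat_lit 14820) (nat_lit 6) (nat_lit 195) (nat_lit 5) (nat_lit 147) (nat_lit 178) (nat_lit 185))))) (PT.nd (nat_lit 312) (PT.nd (nat_lit 156) (PT.nd (nat_lit 78) (PT.lf (nat_lit 15352) (nat_lit 6) (nat_lit 202) (nat_lit 5) (nat_lit 148) (nat_lit 178) (nat_lit 184)) (PT.lf (nat_lit 15960) (nat_lit 6) (nat_lit 210) (nat_lit 5) (nat_lit 149) (nat_lit 178) (nat_lit 183))) (PT.nd (nat_lit 78) (PT.lf (nat_lit 16568) (nat_lit 6) (nat_lit 218) (nat_lit 5) (nat_lit 150) (nat_lit 178) (nat_lit 182)) (PT.lf (nat_lit 17252) (nat_lit 6) (nat_lit 227) (nat_lit 5) (nat_lit 151) (nat_lit 178) (nat_lit 181)))) (PT.nd (nat_lit 156) (PT.nd (nat_lit 78) (PT.lf (nat_lit 17936) (nat_lit 6) (nat_lit 236) (nat_lit 5) (nat_lit 152) (nat_lit 178) (nat_lit 180)) (PT.lf (nat_lit 18620)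 (nat_lit 6) (nat_lit 245) (nat_lit 5) (nat_lit 153) (nat_lit 178) (nat_lit 179))) (PT.nd (nat_lit 78) (PT.lf (nat_lit 19912) (nat_lit 3) (nat_lit 262) (nat_lit 4) (nat_lit 154) (nat_lit 178) (nat_lit 178)) (PT.nd (nat_lit 78) (PT.lf (nat_lit 21052) (nat_lit 6) (nat_lit 277) (nat_lit 4) (nat_lit 155) (nat_lit 178) (nat_lit 177)) (PT.lf (nat_lit 22116) (nat_lit 6) (nat_lit 291) (nat_lit 4) (nat_lit 156) (nat_lit 178) (nat_lit 176))))))) (PT.nd (nat_lit 624) (PT.nd (nat_lit 312) (PT.nd (nat_lit 156) (PT.nd (nat_lit 78) (PT.lf (nat_lit 23104) (nat_lit 6) (nat_lit 304) (nat_lit 4) (nat_lit 157) (nat_lit 178) (nat_lit 175)) (PT.lf (nat_lit 24016) (nat_lit 6) (nat_lit 316) (nat_lit 4) (nat_lit 158) (nat_lit 178) (nat_lit 174))) (PT.nd (nat_lit 78) (PT.lf (nat_lit 24852) (nat_lit 6) (nat_lit 327) (nat_lit 4) (nat_lit 159) (nat_lit 178) (nat_lit 173)) (PT.lf (nat_lit 25612) (nat_lit 6) (nat_lit 337) (nat_lit 4) (nat_lit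 160) (nat_lit 178) (nat_lit 172)))) (PT.nd (nat_lit 156) (PT.nd (nat_lit 78) (PT.lf (nat_lit 26296) (nat_lit 6) (nat_lit 346) (nat_lit 4) (nat_lit 161) (nat_lit 178) (nat_lit 171)) (PT.lf (nat_lit 26904) (nat_lit 6) (nat_lit 354) (nat_lit 4) (nat_lit 162) (nat_lit 178) (nat_lit 170))) (PT.nd (nat_lit 78) (PT.lf (nat_lit 26828) (nat_lit 6) (nat_lit 353) (nat_lit 4) (nat_lit 163) (nat_lit 178) (nat_lit 169)) (PT.lf (nat_lit 26752) (nat_lit 6) (nat_lit 352) (nat_lit 4) (nat_lit 164) (nat_lit 178) (nat_lit 168))))) (PT.nd (nat_lit 312) (PT.nd (nat_lit 156) (PT.nd (nat_lit 78) (PT.lf (nat_lit 26676) (nat_lit 6) (nat_lit 351) (nat_lit 4) (nat_lit 165) (nat_lit 178) (nat_lit 167)) (PT.lf (nat_lit 26600) (nat_lit 3) (nat_lit 350) (nat_lit 2) (nat_lit 166) (nat_lit 178) (nat_lit 166))) (PT.nd (nat_lit 78) (PT.lf (nat_lit 26676) (nat_lit 6) (nat_lit 351) (nat_lit 2) (nat_lit 167) (nat_lit 178) (nat_lit 165)) (PT.lf (nat_lit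 26752) (nat_lit 6) (nat_lit 352) (nat_lit 2) (nat_lit 168) (nat_lit 178) (nat_lit 164)))) (PT.nd (nat_lit 156) (PT.nd (nat_lit 78) (PT.lf (nat_lit 26828) (nat_lit 6) (nat_lit 353) (nat_lit 2) (nat_lit 169) (nat_lit 178) (nat_lit 163)) (PT.lf (nat_lit 26904) (nat_lit 6) (nat_lit 354) (nat_lit 2) (nat_lit 170) (nat_lit 178) (nat_lit 162))) (PT.nd (nat_lit 78) (PT.lf (nat_lit 26296) (nat_lit 6) (nat_lit 346) (nat_lit 2) (nat_lit 171) (nat_lit 178) (nat_lit 161)) (PT.nd (nat_lit 78) (PT.lf (nat_lit 25612) (nat_lit 6) (nat_lit 337) (nat_lit 2) (nat_lit 172) (nat_lit 178) (nat_lit 160)) (PT.lf (nat_lit 24852) (nat_lit 6) (nat_lit 327) (nat_lit 2) (nat_lit 173) (nat_lit 178) (nat_lit 159))))))))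
noncomputable def pc35 : PT := (PT.nd (nat_lit 50700) (PT.nd (nat_lit 624) (PT.nd (nat_lit 312) (PT.nd (nat_lit 156) (PT.nd (nat_lit 78) (PT.lf (nat_lit 24016) (nat_lit 6) (nat_lit 316) (nat_lit 2) (nat_lit 174) (nat_lit 178) (nat_lit 158)) (PT.lf (nat_lit 23104) (nat_lit 6) (nat_lit 304) (nat_lit 2) (nat_lit 175) (nat_lit 178) (nat_lit 157))) (PT.nd (nat_lit 78) (PT.lf (nat_lit 22116) (nat_lit 6) (nat_lit 291) (nat_lit 2) (nat_lit 176) (nat_lit 178) (nat_lit 156)) (PT.lf (nat_lit 21052) (nat_lit 6) (nat_lit 277) (nat_lit 2) (nat_lit 177) (nat_lit 178) (nat_lit 155)))) (PT.nd (nat_lit 156) (PT.nd (nat_lit 78) (PT.lf (nat_lit 19912) (nat_lit 3) (nat_lit 262) (nat_lit 0) (nat_lit 178) (nat_lit 178) (nat_lit 154)) (PT.lf (nat_lit 18620) (nat_lit 6) (nat_lit 245) (nat_lit 0) (nat_lit 179) (nat_lit 178) (nat_lit 153))) (PT.nd (nat_lit 78) (PT.lf (nat_lit 17936) (nat_lit 6) (nat_lit 236) (nat_lit 0) (nat_lit 180)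 (nat_lit 178) (nat_lit 152)) (PT.lf (nat_lit 17252) (nat_lit 6) (nat_lit 227) (nat_lit 0) (nat_lit 181) (nat_lit 178) (nat_lit 151))))) (PT.nd (nat_lit 312) (PT.nd (nat_lit 156) (PT.nd (nat_lit 78) (PT.lf (nat_lit 16568) (nat_lit 6) (nat_lit 218) (nat_lit 0) (nat_lit 182) (nat_lit 178) (nat_lit 150)) (PT.lf (nat_lit 15960) (nat_lit 6) (nat_lit 210) (nat_lit 0) (nat_lit 183) (nat_lit 178) (nat_lit 149))) (PT.nd (nat_lit 78) (PT.lf (nat_lit 15352) (nat_lit 6) (nat_lit 202) (nat_lit 0) (nat_lit 184) (nat_lit 178) (nat_lit 148)) (PT.lf (nat_lit 14820) (nat_lit 6) (nat_lit 195) (nat_lit 0) (nat_lit 185) (nat_lit 178) (nat_lit 147)))) (PT.nd (nat_lit 156) (PT.nd (nat_lit 78) (PT.lf (nat_lit 14212) (nat_lit 6) (nat_lit 187) (nat_lit 0) (nat_lit 186) (nat_lit 178) (nat_lit 146)) (PT.lf (nat_lit 13680) (nat_lit 6) (nat_lit 180) (nat_lit 0) (nat_lit 187) (nat_lit 178) (nat_lit 145))) (PT.nd (nat_lit 78) (PT.lf (nat_lit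 13148) (nat_lit 6) (nat_lit 173) (nat_lit 0) (nat_lit 188) (nat_lit 178) (nat_lit 144)) (PT.nd (nat_lit 49452) (PT.lf (nat_lit 12692) (nat_lit 6) (nat_lit 167) (nat_lit 0) (nat_lit 189) (nat_lit 178) (nat_lit 143)) (PT.lf (nat_lit 12236) (nat_lit 6) (nat_lit 161) (nat_lit 5) (nat_lit 142) (nat_lit 179) (nat_lit 189))))))) (PT.nd (nat_lit 624) (PT.nd (nat_lit 312) (PT.nd (nat_lit 156) (PT.nd (nat_lit 78) (PT.lf (nat_lit 12768) (nat_lit 6) (nat_lit 168) (nat_lit 5) (nat_lit 143) (nat_lit 179) (nat_lit 188)) (PT.lf (nat_lit 13224) (nat_lit 6) (nat_lit 174) (nat_lit 5) (nat_lit 144) (nat_lit 179) (nat_lit 187))) (PT.nd (nat_lit 78) (PT.lf (nat_lit 13756) (nat_lit 6) (nat_lit 181) (nat_lit 5) (nat_lit 145) (nat_lit 179) (nat_lit 186)) (PT.lf (nat_lit 14288) (nat_lit 6) (nat_lit 188) (nat_lit 5) (nat_lit 146) (nat_lit 179) (nat_lit 185)))) (PT.nd (nat_lit 156) (PT.nd (nat_lit 78) (PT.lf (nat_lit 14896) (nat_lit 6)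 (nat_lit 196) (nat_lit 5) (nat_lit 147) (nat_lit 179) (nat_lit 184)) (PT.lf (nat_lit 15428) (nat_lit 6) (nat_lit 203) (nat_lit 5) (nat_lit 148) (nat_lit 179) (nat_lit 183))) (PT.nd (nat_lit 78) (PT.lf (nat_lit 16036) (nat_lit 6) (nat_lit 211) (nat_lit 5) (nat_lit 149) (nat_lit 179) (nat_lit 182)) (PT.lf (nat_lit 16644) (nat_lit 6) (nat_lit 219) (nat_lit 5) (nat_lit 150) (nat_lit 179) (nat_lit 181))))) (PT.nd (nat_lit 312) (PT.nd (nat_lit 156) (PT.nd (nat_lit 78) (PT.lf (nat_lit 17328) (nat_lit 6) (nat_lit 228) (nat_lit 5) (nat_lit 151) (nat_lit 179) (nat_lit 180)) (PT.lf (nat_lit 18012) (nat_lit 3) (nat_lit 237) (nat_lit 4) (nat_lit 152) (nat_lit 179) (nat_lit 179))) (PT.nd (nat_lit 78) (PT.lf (nat_lit 18620) (nat_lit 6) (nat_lit 245) (nat_lit 4) (nat_lit 153) (nat_lit 179) (nat_lit 178)) (PT.lf (nat_lit 19836) (nat_lit 6) (nat_lit 261) (nat_lit 4) (nat_lit 154) (nat_lit 179) (nat_lit 177)))) (PT.nd (nat_lit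 156) (PT.nd (nat_lit 78) (PT.lf (nat_lit 20976) (nat_lit 6) (nat_lit 276) (nat_lit 4) (nat_lit 155) (nat_lit 179) (nat_lit 176)) (PT.lf (nat_lit 22040) (nat_lit 6) (nat_lit 290) (nat_lit 4) (nat_lit 156) (nat_lit 179) (nat_lit 175))) (PT.nd (nat_lit 78) (PT.lf (nat_lit 23028) (nat_lit 6) (nat_lit 303) (nat_lit 4) (nat_lit 157) (nat_lit 179) (nat_lit 174)) (PT.nd (nat_lit 78) (PT.lf (nat_lit 23940) (nat_lit 6) (nat_lit 315) (nat_lit 4) (nat_lit 158) (nat_lit 179) (nat_lit 173)) (PT.lf (nat_lit 24776) (nat_lit 6) (nat_lit 326) (nat_lit 4) (nat_lit 159) (nat_lit 179) (nat_lit 172))))))))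
noncomputable def pc36 : PT := (PT.nd (nat_lit 1326) (PT.nd (nat_lit 624) (PT.nd (nat_lit 312) (PT.nd (nat_lit 156) (PT.nd (nat_lit 78) (PT.lf (nat_lit 25536) (nat_lit 6) (nat_lit 336) (nat_lit 4) (nat_lit 160) (nat_lit 179) (nat_lit 171)) (PT.lf (nat_lit 26220) (nat_lit 6) (nat_lit 345) (nat_lit 4) (nat_lit 161) (nat_lit 179) (nat_lit 170))) (PT.nd (nat_lit 78) (PT.lf (nat_lit 26144) (nat_lit 6) (nat_lit 344) (nat_lit 4) (nat_lit 162) (nat_lit 179) (nat_lit 169)) (PT.lf (nat_lit 26068) (nat_lit 6) (nat_lit 343) (nat_lit 4) (nat_lit 163) (nat_lit 179) (nat_lit 168)))) (PT.nd (nat_lit 156) (PT.nd (nat_lit 78) (PT.lf (nat_lit 25992) (nat_lit 6) (nat_lit 342) (nat_lit 4) (nat_lit 164) (nat_lit 179) (nat_lit 167)) (PT.lf (nat_lit 25916) (nat_lit 6) (nat_lit 341) (nat_lit 4) (nat_lit 165) (nat_lit 179) (nat_lit 166))) (PT.nd (nat_lit 78) (PT.lf (nat_lit 25916) (nat_lit 6) (nat_lit 341) (nat_lit 2) (nat_lit 166) (nat_lit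 179) (nat_lit 165)) (PT.lf (nat_lit 25992) (nat_lit 6) (nat_lit 342) (nat_lit 2) (nat_lit 167) (nat_lit 179) (nat_lit 164))))) (PT.nd (nat_lit 312) (PT.nd (nat_lit 156) (PT.nd (nat_lit 78) (PT.lf (nat_lit 26068) (nat_lit 6) (nat_lit 343) (nat_lit 2) (nat_lit 168) (nat_lit 179) (nat_lit 163)) (PT.lf (nat_lit 26144) (nat_lit 6) (nat_lit 344) (nat_lit 2) (nat_lit 169) (nat_lit 179) (nat_lit 162))) (PT.nd (nat_lit 78) (PT.lf (nat_lit 26220) (nat_lit 6) (nat_lit 345) (nat_lit 2) (nat_lit 170) (nat_lit 179) (nat_lit 161)) (PT.lf (nat_lit 25536) (nat_lit 6) (nat_lit 336) (nat_lit 2) (nat_lit 171) (nat_lit 179) (nat_lit 160)))) (PT.nd (nat_lit 156) (PT.nd (nat_lit 78) (PT.lf (nat_lit 24776) (nat_lit 6) (nat_lit 326) (nat_lit 2) (nat_lit 172) (nat_lit 179) (nat_lit 159)) (PT.lf (nat_lit 23940) (nat_lit 6) (nat_lit 315) (nat_lit 2) (nat_lit 173) (nat_lit 179) (nat_lit 158))) (PT.nd (nat_lit 78) (PT.lf (nat_lit 23028)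 (nat_lit 6) (nat_lit 303) (nat_lit 2) (nat_lit 174) (nat_lit 179) (nat_lit 157)) (PT.nd (nat_lit 78) (PT.lf (nat_lit 22040) (nat_lit 6) (nat_lit 290) (nat_lit 2) (nat_lit 175) (nat_lit 179) (nat_lit 156)) (PT.lf (nat_lit 20976) (nat_lit 6) (nat_lit 276) (nat_lit 2) (nat_lit 176) (nat_lit 179) (nat_lit 155))))))) (PT.nd (nat_lit 624) (PT.nd (nat_lit 312) (PT.nd (nat_lit 156) (PT.nd (nat_lit 78) (PT.lf (nat_lit 19836) (nat_lit 6) (nat_lit 261) (nat_lit 2) (nat_lit 177) (nat_lit 179) (nat_lit 154)) (PT.lf (nat_lit 18620) (nat_lit 6) (nat_lit 245) (nat_lit 2) (nat_lit 178) (nat_lit 179) (nat_lit 153))) (PT.nd (nat_lit 78) (PT.lf (nat_lit 18012) (nat_lit 3) (nat_lit 237) (nat_lit 0) (nat_lit 179) (nat_lit 179) (nat_lit 152)) (PT.lf (nat_lit 17328) (nat_lit 6) (nat_lit 228) (nat_lit 0) (nat_lit 180) (nat_lit 179) (nat_lit 151)))) (PT.nd (nat_lit 156) (PT.nd (nat_lit 78) (PT.lf (nat_lit 16644) (nat_lit 6) (nat_lit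 219) (nat_lit 0) (nat_lit 181) (nat_lit 179) (nat_lit 150)) (PT.lf (nat_lit 16036) (nat_lit 6) (nat_lit 211) (nat_lit 0) (nat_lit 182) (nat_lit 179) (nat_lit 149))) (PT.nd (nat_lit 78) (PT.lf (nat_lit 15428) (nat_lit 6) (nat_lit 203) (nat_lit 0) (nat_lit 183) (nat_lit 179) (nat_lit 148)) (PT.lf (nat_lit 14896) (nat_lit 6) (nat_lit 196) (nat_lit 0) (nat_lit 184) (nat_lit 179) (nat_lit 147))))) (PT.nd (nat_lit 312) (PT.nd (nat_lit 156) (PT.nd (nat_lit 78) (PT.lf (nat_lit 14288) (nat_lit 6) (nat_lit 188) (nat_lit 0) (nat_lit 185) (nat_lit 179) (nat_lit 146)) (PT.lf (nat_lit 13756) (nat_lit 6) (nat_lit 181) (nat_lit 0) (nat_lit 186) (nat_lit 179) (nat_lit 145))) (PT.nd (nat_lit 78) (PT.lf (nat_lit 13224) (nat_lit 6) (nat_lit 174) (nat_lit 0) (nat_lit 187) (nat_lit 179) (nat_lit 144)) (PT.lf (nat_lit 12768) (nat_lit 6) (nat_lit 168) (nat_lit 0) (nat_lit 188) (nat_lit 179) (nat_lit 143)))) (PT.nd (nat_lit 49374) (PT.nd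 (nat_lit 49296) (PT.lf (nat_lit 12236) (nat_lit 6) (nat_lit 161) (nat_lit 0) (nat_lit 189) (nat_lit 179) (nat_lit 142)) (PT.lf (nat_lit 11400) (nat_lit 6) (nat_lit 150) (nat_lit 5) (nat_lit 140) (nat_lit 180) (nat_lit 190))) (PT.nd (nat_lit 78) (PT.lf (nat_lit 11856) (nat_lit 6) (nat_lit 156) (nat_lit 5) (nat_lit 141) (nat_lit 180) (nat_lit 189)) (PT.nd (nat_lit 78) (PT.lf (nat_lit 12312) (nat_lit 6) (nat_lit 162) (nat_lit 5) (nat_lit 142) (nat_lit 180) (nat_lit 188)) (PT.lf (nat_lit 12844) (nat_lit 6) (nat_lit 169) (nat_lit 5) (nat_lit 143) (nat_lit 180) (nat_lit 187))))))))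
noncomputable def pc37 : PT := (PT.nd (nat_lit 1326) (PT.nd (nat_lit 624) (PT.nd (nat_lit 312) (PT.nd (nat_lit 156) (PT.nd (nat_lit 78) (PT.lf (nat_lit 13300) (nat_lit 6) (nat_lit 175) (nat_lit 5) (nat_lit 144) (nat_lit 180) (nat_lit 186)) (PT.lf (nat_lit 13832) (nat_lit 6) (nat_lit 182) (nat_lit 5) (nat_lit 145) (nat_lit 180) (nat_lit 185))) (PT.nd (nat_lit 78) (PT.lf (nat_lit 14364) (nat_lit 6) (nat_lit 189) (nat_lit 5) (nat_lit 146) (nat_lit 180) (nat_lit 184)) (PT.lf (nat_lit 14972) (nat_lit 6) (nat_lit 197) (nat_lit 5) (nat_lit 147) (nat_lit 180) (nat_lit 183)))) (PT.nd (nat_lit 156) (PT.nd (nat_lit 78) (PT.lf (nat_lit 15504) (nat_lit 6) (nat_lit 204) (nat_lit 5) (nat_lit 148) (nat_lit 180) (nat_lit 182)) (PT.lf (nat_lit 16112) (nat_lit 6) (nat_lit 212) (nat_lit 5) (nat_lit 149) (nat_lit 180) (nat_lit 181))) (PT.nd (nat_lit 78) (PT.lf (nat_lit 16720) (nat_lit 3) (nat_lit 220) (nat_lit 4) (nat_lit 150) (nat_lit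 180) (nat_lit 180)) (PT.lf (nat_lit 17328) (nat_lit 6) (nat_lit 228) (nat_lit 4) (nat_lit 151) (nat_lit 180) (nat_lit 179))))) (PT.nd (nat_lit 312) (PT.nd (nat_lit 156) (PT.nd (nat_lit 78) (PT.lf (nat_lit 17936) (nat_lit 6) (nat_lit 236) (nat_lit 4) (nat_lit 152) (nat_lit 180) (nat_lit 178)) (PT.lf (nat_lit 18544) (nat_lit 6) (nat_lit 244) (nat_lit 4) (nat_lit 153) (nat_lit 180) (nat_lit 177))) (PT.nd (nat_lit 78) (PT.lf (nat_lit 19760) (nat_lit 6) (nat_lit 260) (nat_lit 4) (nat_lit 154) (nat_lit 180) (nat_lit 176)) (PT.lf (nat_lit 20900) (nat_lit 6) (nat_lit 275) (nat_lit 4) (nat_lit 155) (nat_lit 180) (nat_lit 175)))) (PT.nd (nat_lit 156) (PT.nd (nat_lit 78) (PT.lf (nat_lit 21964) (nat_lit 6) (nat_lit 289) (nat_lit 4) (nat_lit 156) (nat_lit 180) (nat_lit 174)) (PT.lf (nat_lit 22952) (nat_lit 6) (nat_lit 302) (nat_lit 4) (nat_lit 157) (nat_lit 180) (nat_lit 173))) (PT.nd (nat_lit 78) (PT.lf (nat_lit 23864)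 (nat_lit 6) (nat_lit 314) (nat_lit 4) (nat_lit 158) (nat_lit 180) (nat_lit 172)) (PT.nd (nat_lit 78) (PT.lf (nat_lit 24700) (nat_lit 6) (nat_lit 325) (nat_lit 4) (nat_lit 159) (nat_lit 180) (nat_lit 171)) (PT.lf (nat_lit 25460) (nat_lit 6) (nat_lit 335) (nat_lit 4) (nat_lit 160) (nat_lit 180) (nat_lit 170))))))) (PT.nd (nat_lit 624) (PT.nd (nat_lit 312) (PT.nd (nat_lit 156) (PT.nd (nat_lit 78) (PT.lf (nat_lit 25384) (nat_lit 6) (nat_lit 334) (nat_lit 4) (nat_lit 161) (nat_lit 180) (nat_lit 169)) (PT.lf (nat_lit 25308) (nat_lit 6) (nat_lit 333) (nat_lit 4) (nat_lit 162) (nat_lit 180) (nat_lit 168))) (PT.nd (nat_lit 78) (PT.lf (nat_lit 25232) (nat_lit 6) (nat_lit 332) (nat_lit 4) (nat_lit 163) (nat_lit 180) (nat_lit 167)) (PT.lf (nat_lit 25156) (nat_lit 6) (nat_lit 331) (nat_lit 4) (nat_lit 164) (nat_lit 180) (nat_lit 166)))) (PT.nd (nat_lit 156) (PT.nd (nat_lit 78) (PT.lf (nat_lit 25080) (nat_lit 3) (nat_lit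 330) (nat_lit 2) (nat_lit 165) (nat_lit 180) (nat_lit 165)) (PT.lf (nat_lit 25156) (nat_lit 6) (nat_lit 331) (nat_lit 2) (nat_lit 166) (nat_lit 180) (nat_lit 164))) (PT.nd (nat_lit 78) (PT.lf (nat_lit 25232) (nat_lit 6) (nat_lit 332) (nat_lit 2) (nat_lit 167) (nat_lit 180) (nat_lit 163)) (PT.lf (nat_lit 25308) (nat_lit 6) (nat_lit 333) (nat_lit 2) (nat_lit 168) (nat_lit 180) (nat_lit 162))))) (PT.nd (nat_lit 312) (PT.nd (nat_lit 156) (PT.nd (nat_lit 78) (PT.lf (nat_lit 25384) (nat_lit 6) (nat_lit 334) (nat_lit 2) (nat_lit 169) (nat_lit 180) (nat_lit 161)) (PT.lf (nat_lit 25460) (nat_lit 6) (nat_lit 335) (nat_lit 2) (nat_lit 170) (nat_lit 180) (nat_lit 160))) (PT.nd (nat_lit 78) (PT.lf (nat_lit 24700) (nat_lit 6) (nat_lit 325) (nat_lit 2) (nat_lit 171) (nat_lit 180) (nat_lit 159)) (PT.lf (nat_lit 23864) (nat_lit 6) (nat_lit 314) (nat_lit 2) (nat_lit 172) (nat_lit 180) (nat_lit 158)))) (PT.nd (nat_lit 156) (PT.nd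 (nat_lit 78) (PT.lf (nat_lit 22952) (nat_lit 6) (nat_lit 302) (nat_lit 2) (nat_lit 173) (nat_lit 180) (nat_lit 157)) (PT.lf (nat_lit 21964) (nat_lit 6) (nat_lit 289) (nat_lit 2) (nat_lit 174) (nat_lit 180) (nat_lit 156))) (PT.nd (nat_lit 78) (PT.lf (nat_lit 20900) (nat_lit 6) (nat_lit 275) (nat_lit 2) (nat_lit 175) (nat_lit 180) (nat_lit 155)) (PT.nd (nat_lit 78) (PT.lf (nat_lit 19760) (nat_lit 6) (nat_lit 260) (nat_lit 2) (nat_lit 176) (nat_lit 180) (nat_lit 154)) (PT.lf (nat_lit 18544) (nat_lit 6) (nat_lit 244) (nat_lit 2) (nat_lit 177) (nat_lit 180) (nat_lit 153))))))))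
noncomputable def pc38 : PT := (PT.nd (nat_lit 50388) (PT.nd (nat_lit 624) (PT.nd (nat_lit 312) (PT.nd (nat_lit 156) (PT.nd (nat_lit 78) (PT.lf (nat_lit 17936) (nat_lit 6) (nat_lit 236) (nat_lit 2) (nat_lit 178) (nat_lit 180) (nat_lit 152)) (PT.lf (nat_lit 17328) (nat_lit 6) (nat_lit 228) (nat_lit 2) (nat_lit 179) (nat_lit 180) (nat_lit 151))) (PT.nd (nat_lit 78) (PT.lf (nat_lit 16720) (nat_lit 3) (nat_lit 220) (nat_lit 0) (nat_lit 180) (nat_lit 180) (nat_lit 150)) (PT.lf (nat_lit 16112) (nat_lit 6) (nat_lit 212) (nat_lit 0) (nat_lit 181) (nat_lit 180) (nat_lit 149)))) (PT.nd (nat_lit 156) (PT.nd (nat_lit 78) (PT.lf (nat_lit 15504) (nat_lit 6) (nat_lit 204) (nat_lit 0) (nat_lit 182) (nat_lit 180) (nat_lit 148)) (PT.lf (nat_lit 14972) (nat_lit 6) (nat_lit 197) (nat_lit 0) (nat_lit 183) (nat_lit 180) (nat_lit 147))) (PT.nd (nat_lit 78) (PT.lf (nat_lit 14364) (nat_lit 6) (nat_lit 189) (nat_lit 0) (nat_lit 184)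 (nat_lit 180) (nat_lit 146)) (PT.lf (nat_lit 13832) (nat_lit 6) (nat_lit 182) (nat_lit 0) (nat_lit 185) (nat_lit 180) (nat_lit 145))))) (PT.nd (nat_lit 312) (PT.nd (nat_lit 156) (PT.nd (nat_lit 78) (PT.lf (nat_lit 13300) (nat_lit 6) (nat_lit 175) (nat_lit 0) (nat_lit 186) (nat_lit 180) (nat_lit 144)) (PT.lf (nat_lit 12844) (nat_lit 6) (nat_lit 169) (nat_lit 0) (nat_lit 187) (nat_lit 180) (nat_lit 143))) (PT.nd (nat_lit 78) (PT.lf (nat_lit 12312) (nat_lit 6) (nat_lit 162) (nat_lit 0) (nat_lit 188) (nat_lit 180) (nat_lit 142)) (PT.lf (nat_lit 11856) (nat_lit 6) (nat_lit 156) (nat_lit 0) (nat_lit 189) (nat_lit 180) (nat_lit 141)))) (PT.nd (nat_lit 49218) (PT.nd (nat_lit 49140) (PT.lf (nat_lit 11400) (nat_lit 6) (nat_lit 150) (nat_lit 0) (nat_lit 190) (nat_lit 180) (nat_lit 140)) (PT.lf (nat_lit 11020) (nat_lit 6) (nat_lit 145) (nat_lit 5) (nat_lit 139) (nat_lit 181) (nat_lit 190))) (PT.nd (nat_lit 78) (PT.lf (nat_lit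 11476) (nat_lit 6) (nat_lit 151) (nat_lit 5) (nat_lit 140) (nat_lit 181) (nat_lit 189)) (PT.nd (nat_lit 78) (PT.lf (nat_lit 11932) (nat_lit 6) (nat_lit 157) (nat_lit 5) (nat_lit 141) (nat_lit 181) (nat_lit 188)) (PT.lf (nat_lit 12388) (nat_lit 6) (nat_lit 163) (nat_lit 5) (nat_lit 142) (nat_lit 181) (nat_lit 187))))))) (PT.nd (nat_lit 624) (PT.nd (nat_lit 312) (PT.nd (nat_lit 156) (PT.nd (nat_lit 78) (PT.lf (nat_lit 12920) (nat_lit 6) (nat_lit 170) (nat_lit 5) (nat_lit 143) (nat_lit 181) (nat_lit 186)) (PT.lf (nat_lit 13376) (nat_lit 6) (nat_lit 176) (nat_lit 5) (nat_lit 144) (nat_lit 181) (nat_lit 185))) (PT.nd (nat_lit 78) (PT.lf (nat_lit 13908) (nat_lit 6) (nat_lit 183) (nat_lit 5) (nat_lit 145) (nat_lit 181) (nat_lit 184)) (PT.lf (nat_lit 14440) (nat_lit 6) (nat_lit 190) (nat_lit 5) (nat_lit 146) (nat_lit 181) (nat_lit 183)))) (PT.nd (nat_lit 156) (PT.nd (nat_lit 78) (PT.lf (nat_lit 15048) (nat_lit 6) (nat_lit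 198) (nat_lit 5) (nat_lit 147) (nat_lit 181) (nat_lit 182)) (PT.lf (nat_lit 15580) (nat_lit 3) (nat_lit 205) (nat_lit 4) (nat_lit 148) (nat_lit 181) (nat_lit 181))) (PT.nd (nat_lit 78) (PT.lf (nat_lit 16112) (nat_lit 6) (nat_lit 212) (nat_lit 4) (nat_lit 149) (nat_lit 181) (nat_lit 180)) (PT.lf (nat_lit 16644) (nat_lit 6) (nat_lit 219) (nat_lit 4) (nat_lit 150) (nat_lit 181) (nat_lit 179))))) (PT.nd (nat_lit 312) (PT.nd (nat_lit 156) (PT.nd (nat_lit 78) (PT.lf (nat_lit 17252) (nat_lit 6) (nat_lit 227) (nat_lit 4) (nat_lit 151) (nat_lit 181) (nat_lit 178)) (PT.lf (nat_lit 17860) (nat_lit 6) (nat_lit 235) (nat_lit 4) (nat_lit 152) (nat_lit 181) (nat_lit 177))) (PT.nd (nat_lit 78) (PT.lf (nat_lit 18468) (nat_lit 6) (nat_lit 243) (nat_lit 4) (nat_lit 153) (nat_lit 181) (nat_lit 176)) (PT.lf (nat_lit 19684) (nat_lit 6) (nat_lit 259) (nat_lit 4) (nat_lit 154) (nat_lit 181) (nat_lit 175)))) (PT.nd (nat_lit 156) (PT.nd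 (nat_lit 78) (PT.lf (nat_lit 20824) (nat_lit 6) (nat_lit 274) (nat_lit 4) (nat_lit 155) (nat_lit 181) (nat_lit 174)) (PT.lf (nat_lit 21888) (nat_lit 6) (nat_lit 288) (nat_lit 4) (nat_lit 156) (nat_lit 181) (nat_lit 173))) (PT.nd (nat_lit 78) (PT.lf (nat_lit 22876) (nat_lit 6) (nat_lit 301) (nat_lit 4) (nat_lit 157) (nat_lit 181) (nat_lit 172)) (PT.nd (nat_lit 78) (PT.lf (nat_lit 23788) (nat_lit 6) (nat_lit 313) (nat_lit 4) (nat_lit 158) (nat_lit 181) (nat_lit 171)) (PT.lf (nat_lit 24624) (nat_lit 6) (nat_lit 324) (nat_lit 4) (nat_lit 159) (nat_lit 181) (nat_lit 170))))))))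
noncomputable def pc39 : PT := (PT.nd (nat_lit 1326) (PT.nd (nat_lit 624) (PT.nd (nat_lit 312) (PT.nd (nat_lit 156) (PT.nd (nat_lit 78) (PT.lf (nat_lit 24548) (nat_lit 6) (nat_lit 323) (nat_lit 4) (nat_lit 160) (nat_lit 181) (nat_lit 169)) (PT.lf (nat_lit 24472) (nat_lit 6) (nat_lit 322) (nat_lit 4) (nat_lit 161) (nat_lit 181) (nat_lit 168))) (PT.nd (nat_lit 78) (PT.lf (nat_lit 24396) (nat_lit 6) (nat_lit 321) (nat_lit 4) (nat_lit 162) (nat_lit 181) (nat_lit 167)) (PT.lf (nat_lit 24320) (nat_lit 6) (nat_lit 320) (nat_lit 4) (nat_lit 163) (nat_lit 181) (nat_lit 166)))) (PT.nd (nat_lit 156) (PT.nd (nat_lit 78) (PT.lf (nat_lit 24244) (nat_lit 6) (nat_lit 319) (nat_lit 4) (nat_lit 164) (nat_lit 181) (nat_lit 165)) (PT.lf (nat_lit 24244) (nat_lit 6) (nat_lit 319) (nat_lit 2) (nat_lit 165) (nat_lit 181) (nat_lit 164))) (PT.nd (nat_lit 78) (PT.lf (nat_lit 24320) (nat_lit 6) (nat_lit 320) (nat_lit 2) (nat_lit 166) (nat_lit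 181) (nat_lit 163)) (PT.lf (nat_lit 24396) (nat_lit 6) (nat_lit 321) (nat_lit 2) (nat_lit 167) (nat_lit 181) (nat_lit 162))))) (PT.nd (nat_lit 312) (PT.nd (nat_lit 156) (PT.nd (nat_lit 78) (PT.lf (nat_lit 24472) (nat_lit 6) (nat_lit 322) (nat_lit 2) (nat_lit 168) (nat_lit 181) (nat_lit 161)) (PT.lf (nat_lit 24548) (nat_lit 6) (nat_lit 323) (nat_lit 2) (nat_lit 169) (nat_lit 181) (nat_lit 160))) (PT.nd (nat_lit 78) (PT.lf (nat_lit 24624) (nat_lit 6) (nat_lit 324) (nat_lit 2) (nat_lit 170) (nat_lit 181) (nat_lit 159)) (PT.lf (nat_lit 23788) (nat_lit 6) (nat_lit 313) (nat_lit 2) (nat_lit 171) (nat_lit 181) (nat_lit 158)))) (PT.nd (nat_lit 156) (PT.nd (nat_lit 78) (PT.lf (nat_lit 22876) (nat_lit 6) (nat_lit 301) (nat_lit 2) (nat_lit 172) (nat_lit 181) (nat_lit 157)) (PT.lf (nat_lit 21888) (nat_lit 6) (nat_lit 288) (nat_lit 2) (nat_lit 173) (nat_lit 181) (nat_lit 156))) (PT.nd (nat_lit 78) (PT.lf (nat_lit 20824)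 (nat_lit 6) (nat_lit 274) (nat_lit 2) (nat_lit 174) (nat_lit 181) (nat_lit 155)) (PT.nd (nat_lit 78) (PT.lf (nat_lit 19684) (nat_lit 6) (nat_lit 259) (nat_lit 2) (nat_lit 175) (nat_lit 181) (nat_lit 154)) (PT.lf (nat_lit 18468) (nat_lit 6) (nat_lit 243) (nat_lit 2) (nat_lit 176) (nat_lit 181) (nat_lit 153))))))) (PT.nd (nat_lit 624) (PT.nd (nat_lit 312) (PT.nd (nat_lit 156) (PT.nd (nat_lit 78) (PT.lf (nat_lit 17860) (nat_lit 6) (nat_lit 235) (nat_lit 2) (nat_lit 177) (nat_lit 181) (nat_lit 152)) (PT.lf (nat_lit 17252) (nat_lit 6) (nat_lit 227) (nat_lit 2) (nat_lit 178) (nat_lit 181) (nat_lit 151))) (PT.nd (nat_lit 78) (PT.lf (nat_lit 16644) (nat_lit 6) (nat_lit 219) (nat_lit 2) (nat_lit 179) (nat_lit 181) (nat_lit 150)) (PT.lf (nat_lit 16112) (nat_lit 6) (nat_lit 212) (nat_lit 2) (nat_lit 180) (nat_lit 181) (nat_lit 149)))) (PT.nd (nat_lit 156) (PT.nd (nat_lit 78) (PT.lf (nat_lit 15580) (nat_lit 3) (nat_lit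 205) (nat_lit 0) (nat_lit 181) (nat_lit 181) (nat_lit 148)) (PT.lf (nat_lit 15048) (nat_lit 6) (nat_lit 198) (nat_lit 0) (nat_lit 182) (nat_lit 181) (nat_lit 147))) (PT.nd (nat_lit 78) (PT.lf (nat_lit 14440) (nat_lit 6) (nat_lit 190) (nat_lit 0) (nat_lit 183) (nat_lit 181) (nat_lit 146)) (PT.lf (nat_lit 13908) (nat_lit 6) (nat_lit 183) (nat_lit 0) (nat_lit 184) (nat_lit 181) (nat_lit 145))))) (PT.nd (nat_lit 312) (PT.nd (nat_lit 156) (PT.nd (nat_lit 78) (PT.lf (nat_lit 13376) (nat_lit 6) (nat_lit 176) (nat_lit 0) (nat_lit 185) (nat_lit 181) (nat_lit 144)) (PT.lf (nat_lit 12920) (nat_lit 6) (nat_lit 170) (nat_lit 0) (nat_lit 186) (nat_lit 181) (nat_lit 143))) (PT.nd (nat_lit 78) (PT.lf (nat_lit 12388) (nat_lit 6) (nat_lit 163) (nat_lit 0) (nat_lit 187) (nat_lit 181) (nat_lit 142)) (PT.lf (nat_lit 11932) (nat_lit 6) (nat_lit 157) (nat_lit 0) (nat_lit 188) (nat_lit 181) (nat_lit 141)))) (PT.nd (nat_lit 49062) (PT.nd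 (nat_lit 78) (PT.lf (nat_lit 11476) (nat_lit 6) (nat_lit 151) (nat_lit 0) (nat_lit 189) (nat_lit 181) (nat_lit 140)) (PT.lf (nat_lit 11020) (nat_lit 6) (nat_lit 145) (nat_lit 0) (nat_lit 190) (nat_lit 181) (nat_lit 139))) (PT.nd (nat_lit 78) (PT.lf (nat_lit 10260) (nat_lit 6) (nat_lit 135) (nat_lit 5) (nat_lit 137) (nat_lit 182) (nat_lit 191)) (PT.nd (nat_lit 78) (PT.lf (nat_lit 10640) (nat_lit 6) (nat_lit 140) (nat_lit 5) (nat_lit 138) (nat_lit 182) (nat_lit 190)) (PT.lf (nat_lit 11096) (nat_lit 6) (nat_lit 146) (nat_lit 5) (nat_lit 139) (nat_lit 182) (nat_lit 189))))))))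
noncomputable def pc40 : PT := (PT.nd (nat_lit 1248) (PT.nd (nat_lit 624) (PT.nd (nat_lit 312) (PT.nd (nat_lit 156) (PT.nd (nat_lit 78) (PT.lf (nat_lit 11552) (nat_lit 6) (nat_lit 152) (nat_lit 5) (nat_lit 140) (nat_lit 182) (nat_lit 188)) (PT.lf (nat_lit 12008) (nat_lit 6) (nat_lit 158) (nat_lit 5) (nat_lit 141) (nat_lit 182) (nat_lit 187))) (PT.nd (nat_lit 78) (PT.lf (nat_lit 12464) (nat_lit 6) (nat_lit 164) (nat_lit 5) (nat_lit 142) (nat_lit 182) (nat_lit 186)) (PT.lf (nat_lit 12996) (nat_lit 6) (nat_lit 171) (nat_lit 5) (nat_lit 143) (nat_lit 182) (nat_lit 185)))) (PT.nd (nat_lit 156) (PT.nd (nat_lit 78) (PT.lf (nat_lit 13452) (nat_lit 6) (nat_lit 177) (nat_lit 5) (nat_lit 144) (nat_lit 182) (nat_lit 184)) (PT.lf (nat_lit 13984) (nat_lit 6) (nat_lit 184) (nat_lit 5) (nat_lit 145) (nat_lit 182) (nat_lit 183))) (PT.nd (nat_lit 78) (PT.lf (nat_lit 14516) (nat_lit 3) (nat_lit 191) (nat_lit 4) (nat_lit 146) (nat_lit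 182) (nat_lit 182)) (PT.lf (nat_lit 15048) (nat_lit 6) (nat_lit 198) (nat_lit 4) (nat_lit 147) (nat_lit 182) (nat_lit 181))))) (PT.nd (nat_lit 312) (PT.nd (nat_lit 156) (PT.nd (nat_lit 78) (PT.lf (nat_lit 15504) (nat_lit 6) (nat_lit 204) (nat_lit 4) (nat_lit 148) (nat_lit 182) (nat_lit 180)) (PT.lf (nat_lit 16036) (nat_lit 6) (nat_lit 211) (nat_lit 4) (nat_lit 149) (nat_lit 182) (nat_lit 179))) (PT.nd (nat_lit 78) (PT.lf (nat_lit 16568) (nat_lit 6) (nat_lit 218) (nat_lit 4) (nat_lit 150) (nat_lit 182) (nat_lit 178)) (PT.lf (nat_lit 17176) (nat_lit 6) (nat_lit 226) (nat_lit 4) (nat_lit 151) (nat_lit 182) (nat_lit 177)))) (PT.nd (nat_lit 156) (PT.nd (nat_lit 78) (PT.lf (nat_lit 17784) (nat_lit 6) (nat_lit 234) (nat_lit 4) (nat_lit 152) (nat_lit 182) (nat_lit 176)) (PT.lf (nat_lit 18392) (nat_lit 6) (nat_lit 242) (nat_lit 4) (nat_lit 153) (nat_lit 182) (nat_lit 175))) (PT.nd (nat_lit 78) (PT.lf (nat_lit 19608)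 (nat_lit 6) (nat_lit 258) (nat_lit 4) (nat_lit 154) (nat_lit 182) (nat_lit 174)) (PT.lf (nat_lit 20748) (nat_lit 6) (nat_lit 273) (nat_lit 4) (nat_lit 155) (nat_lit 182) (nat_lit 173)))))) (PT.nd (nat_lit 624) (PT.nd (nat_lit 312) (PT.nd (nat_lit 156) (PT.nd (nat_lit 78) (PT.lf (nat_lit 21812) (nat_lit 6) (nat_lit 287) (nat_lit 4) (nat_lit 156) (nat_lit 182) (nat_lit 172)) (PT.lf (nat_lit 22800) (nat_lit 6) (nat_lit 300) (nat_lit 4) (nat_lit 157) (nat_lit 182) (nat_lit 171))) (PT.nd (nat_lit 78) (PT.lf (nat_lit 23712) (nat_lit 6) (nat_lit 312) (nat_lit 4) (nat_lit 158) (nat_lit 182) (nat_lit 170)) (PT.lf (nat_lit 23636) (nat_lit 6) (nat_lit 311) (nat_lit 4) (nat_lit 159) (nat_lit 182) (nat_lit 169)))) (PT.nd (nat_lit 156) (PT.nd (nat_lit 78) (PT.lf (nat_lit 23560) (nat_lit 6) (nat_lit 310) (nat_lit 4) (nat_lit 160) (nat_lit 182) (nat_lit 168)) (PT.lf (nat_lit 23484) (nat_lit 6) (nat_lit 309) (nat_lit 4) (nat_lit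 161) (nat_lit 182) (nat_lit 167))) (PT.nd (nat_lit 78) (PT.lf (nat_lit 23408) (nat_lit 6) (nat_lit 308) (nat_lit 4) (nat_lit 162) (nat_lit 182) (nat_lit 166)) (PT.lf (nat_lit 23332) (nat_lit 6) (nat_lit 307) (nat_lit 4) (nat_lit 163) (nat_lit 182) (nat_lit 165))))) (PT.nd (nat_lit 312) (PT.nd (nat_lit 156) (PT.nd (nat_lit 78) (PT.lf (nat_lit 23256) (nat_lit 3) (nat_lit 306) (nat_lit 2) (nat_lit 164) (nat_lit 182) (nat_lit 164)) (PT.lf (nat_lit 23332) (nat_lit 6) (nat_lit 307) (nat_lit 2) (nat_lit 165) (nat_lit 182) (nat_lit 163))) (PT.nd (nat_lit 78) (PT.lf (nat_lit 23408) (nat_lit 6) (nat_lit 308) (nat_lit 2) (nat_lit 166) (nat_lit 182) (nat_lit 162)) (PT.lf (nat_lit 23484) (nat_lit 6) (nat_lit 309) (nat_lit 2) (nat_lit 167) (nat_lit 182) (nat_lit 161)))) (PT.nd (nat_lit 156) (PT.nd (nat_lit 78) (PT.lf (nat_lit 23560) (nat_lit 6) (nat_lit 310) (nat_lit 2) (nat_lit 168) (nat_lit 182) (nat_lit 160)) (PT.lf (nat_lit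 23636) (nat_lit 6) (nat_lit 311) (nat_lit 2) (nat_lit 169) (nat_lit 182) (nat_lit 159))) (PT.nd (nat_lit 78) (PT.lf (nat_lit 23712) (nat_lit 6) (nat_lit 312) (nat_lit 2) (nat_lit 170) (nat_lit 182) (nat_lit 158)) (PT.nd (nat_lit 78) (PT.lf (nat_lit 22800) (nat_lit 6) (nat_lit 300) (nat_lit 2) (nat_lit 171) (nat_lit 182) (nat_lit 157)) (PT.lf (nat_lit 21812) (nat_lit 6) (nat_lit 287) (nat_lit 2) (nat_lit 172) (nat_lit 182) (nat_lit 156))))))))
noncomputable def pc41 : PT := (PT.nd (nat_lit 1326) (PT.nd (nat_lit 624) (PT.nd (nat_lit 312) (PT.nd (nat_lit 156) (PT.nd (nat_lit 78) (PT.lf (nat_lit 20748) (nat_lit 6) (nat_lit 273) (nat_lit 2) (nat_lit 173) (nat_lit 182) (nat_lit 155)) (PT.lf (nat_lit 19608) (nat_lit 6) (nat_lit 258) (nat_lit 2) (nat_lit 174) (nat_lit 182) (nat_lit 154))) (PT.nd (nat_lit 78) (PT.lf (nat_lit 18392) (nat_lit 6) (nat_lit 242) (nat_lit 2) (nat_lit 175) (nat_lit 182) (nat_lit 153)) (PT.lf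 (nat_lit 17784) (nat_lit 6) (nat_lit 234) (nat_lit 2) (nat_lit 176) (nat_lit 182) (nat_lit 152)))) (PT.nd (nat_lit 156) (PT.nd (nat_lit 78) (PT.lf (nat_lit 17176) (nat_lit 6) (nat_lit 226) (nat_lit 2) (nat_lit 177) (nat_lit 182) (nat_lit 151)) (PT.lf (nat_lit 16568) (nat_lit 6) (nat_lit 218) (nat_lit 2) (nat_lit 178) (nat_lit 182) (nat_lit 150))) (PT.nd (nat_lit 78) (PT.lf (nat_lit 16036) (nat_lit 6) (nat_lit 211) (nat_lit 2) (nat_lit 179) (nat_lit 182) (nat_lit 149)) (PT.lf (nat_lit 15504) (nat_lit 6) (nat_lit 204) (nat_lit 2) (nat_lit 180) (nat_lit 182) (nat_lit 148))))) (PT.nd (nat_lit 312) (PT.nd (nat_lit 156) (PT.nd (nat_lit 78) (PT.lf (nat_lit 15048) (nat_lit 6) (nat_lit 198) (nat_lit 2) (nat_lit 181) (nat_lit 182) (nat_lit 147)) (PT.lf (nat_lit 14516) (nat_lit 3) (nat_lit 191) (nat_lit 0) (nat_lit 182) (nat_lit 182) (nat_lit 146))) (PT.nd (nat_lit 78) (PT.lf (nat_lit 13984) (nat_lit 6) (nat_lit 184) (nat_lit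 0) (nat_lit 183) (nat_lit 182) (nat_lit 145)) (PT.lf (nat_lit 13452) (nat_lit 6) (nat_lit 177) (nat_lit 0) (nat_lit 184) (nat_lit 182) (nat_lit 144)))) (PT.nd (nat_lit 156) (PT.nd (nat_lit 78) (PT.lf (nat_lit 12996) (nat_lit 6) (nat_lit 171) (nat_lit 0) (nat_lit 185) (nat_lit 182) (nat_lit 143)) (PT.lf (nat_lit 12464) (nat_lit 6) (nat_lit 164) (nat_lit 0) (nat_lit 186) (nat_lit 182) (nat_lit 142))) (PT.nd (nat_lit 78) (PT.lf (nat_lit 12008) (nat_lit 6) (nat_lit 158) (nat_lit 0) (nat_lit 187) (nat_lit 182) (nat_lit 141)) (PT.nd (nat_lit 78) (PT.lf (nat_lit 11552) (nat_lit 6) (nat_lit 152) (nat_lit 0) (nat_lit 188) (nat_lit 182) (nat_lit 140)) (PT.lf (nat_lit 11096) (nat_lit 6) (nat_lit 146) (nat_lit 0) (nat_lit 189) (nat_lit 182) (nat_lit 139))))))) (PT.nd (nat_lit 49374) (PT.nd (nat_lit 49062) (PT.nd (nat_lit 48906) (PT.nd (nat_lit 78) (PT.lf (nat_lit 10640) (nat_lit 6) (nat_lit 140) (nat_lit 0) (nat_lit 190)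 (nat_lit 182) (nat_lit 138)) (PT.lf (nat_lit 10260) (nat_lit 6) (nat_lit 135) (nat_lit 0) (nat_lit 191) (nat_lit 182) (nat_lit 137))) (PT.nd (nat_lit 78) (PT.lf (nat_lit 9880) (nat_lit 6) (nat_lit 130) (nat_lit 5) (nat_lit 136) (nat_lit 183) (nat_lit 191)) (PT.lf (nat_lit 10336) (nat_lit 6) (nat_lit 136) (nat_lit 5) (nat_lit 137) (nat_lit 183) (nat_lit 190)))) (PT.nd (nat_lit 156) (PT.nd (nat_lit 78) (PT.lf (nat_lit 10716) (nat_lit 6) (nat_lit 141) (nat_lit 5) (nat_lit 138) (nat_lit 183) (nat_lit 189)) (PT.lf (nat_lit 11172) (nat_lit 6) (nat_lit 147) (nat_lit 5) (nat_lit 139) (nat_lit 183) (nat_lit 188))) (PT.nd (nat_lit 78) (PT.lf (nat_lit 11628) (nat_lit 6) (nat_lit 153) (nat_lit 5) (nat_lit 140) (nat_lit 183) (nat_lit 187)) (PT.lf (nat_lit 12084) (nat_lit 6) (nat_lit 159) (nat_lit 5) (nat_lit 141) (nat_lit 183) (nat_lit 186))))) (PT.nd (nat_lit 312) (PT.nd (nat_lit 156) (PT.nd (nat_lit 78) (PT.lf (nat_lit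 12540) (nat_lit 6) (nat_lit 165) (nat_lit 5) (nat_lit 142) (nat_lit 183) (nat_lit 185)) (PT.lf (nat_lit 13072) (nat_lit 6) (nat_lit 172) (nat_lit 5) (nat_lit 143) (nat_lit 183) (nat_lit 184))) (PT.nd (nat_lit 78) (PT.lf (nat_lit 13528) (nat_lit 3) (nat_lit 178) (nat_lit 4) (nat_lit 144) (nat_lit 183) (nat_lit 183)) (PT.lf (nat_lit 13984) (nat_lit 6) (nat_lit 184) (nat_lit 4) (nat_lit 145) (nat_lit 183) (nat_lit 182)))) (PT.nd (nat_lit 156) (PT.nd (nat_lit 78) (PT.lf (nat_lit 14440) (nat_lit 6) (nat_lit 190) (nat_lit 4) (nat_lit 146) (nat_lit 183) (nat_lit 181)) (PT.lf (nat_lit 14972) (nat_lit 6) (nat_lit 197) (nat_lit 4) (nat_lit 147) (nat_lit 183) (nat_lit 180))) (PT.nd (nat_lit 78) (PT.lf (nat_lit 15428) (nat_lit 6) (nat_lit 203) (nat_lit 4) (nat_lit 148) (nat_lit 183) (nat_lit 179)) (PT.nd (nat_lit 78) (PT.lf (nat_lit 15960) (nat_lit 6) (nat_lit 210) (nat_lit 4) (nat_lit 149) (nat_lit 183) (nat_lit 178))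 (PT.lf (nat_lit 16492) (nat_lit 6) (nat_lit 217) (nat_lit 4) (nat_lit 150) (nat_lit 183) (nat_lit 177))))))))
noncomputable def pc42 : PT := (PT.nd (nat_lit 1326) (PT.nd (nat_lit 624) (PT.nd (nat_lit 312) (PT.nd (nat_lit 156) (PT.nd (nat_lit 78) (PT.lf (nat_lit 17100) (nat_lit 6) (nat_lit 225) (nat_lit 4) (nat_lit 151) (nat_lit 183) (nat_lit 176)) (PT.lf (nat_lit 17708) (nat_lit 6) (nat_lit 233) (nat_lit 4) (nat_lit 152) (nat_lit 183) (nat_lit 175))) (PT.nd (nat_lit 78) (PT.lf (nat_lit 18316) (nat_lit 6) (nat_lit 241) (nat_lit 4) (nat_lit 153) (nat_lit 183) (nat_lit 174)) (PT.lf (nat_lit 19532) (nat_lit 6) (nat_lit 257) (nat_lit 4) (nat_lit 154) (nat_lit 183) (nat_lit 173)))) (PT.nd (nat_lit 156) (PT.nd (nat_lit 78) (PT.lf (nat_lit 20672) (nat_lit 6) (nat_lit 272) (nat_lit 4) (nat_lit 155) (nat_lit 183) (nat_lit 172)) (PT.lf (nat_lit 21736) (nat_lit 6) (nat_lit 286) (nat_lit 4) (nat_lit 156) (nat_lit 183) (nat_lit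 171))) (PT.nd (nat_lit 78) (PT.lf (nat_lit 22724) (nat_lit 6) (nat_lit 299) (nat_lit 4) (nat_lit 157) (nat_lit 183) (nat_lit 170)) (PT.lf (nat_lit 22648) (nat_lit 6) (nat_lit 298) (nat_lit 4) (nat_lit 158) (nat_lit 183) (nat_lit 169))))) (PT.nd (nat_lit 312) (PT.nd (nat_lit 156) (PT.nd (nat_lit 78) (PT.lf (nat_lit 22572) (nat_lit 6) (nat_lit 297) (nat_lit 4) (nat_lit 159) (nat_lit 183) (nat_lit 168)) (PT.lf (nat_lit 22496) (nat_lit 6) (nat_lit 296) (nat_lit 4) (nat_lit 160) (nat_lit 183) (nat_lit 167))) (PT.nd (nat_lit 78) (PT.lf (nat_lit 22420) (nat_lit 6) (nat_lit 295) (nat_lit 4) (nat_lit 161) (nat_lit 183) (nat_lit 166)) (PT.lf (nat_lit 22344) (nat_lit 6) (nat_lit 294) (nat_lit 4) (nat_lit 162) (nat_lit 183) (nat_lit 165)))) (PT.nd (nat_lit 156) (PT.nd (nat_lit 78) (PT.lf (nat_lit 22268) (nat_lit 6) (nat_lit 293) (nat_lit 4) (nat_lit 163) (nat_lit 183) (nat_lit 164)) (PT.lf (nat_lit 22268) (nat_lit 6) (nat_lit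 293) (nat_lit 2) (nat_lit 164) (nat_lit 183) (nat_lit 163))) (PT.nd (nat_lit 78) (PT.lf (nat_lit 22344) (nat_lit 6) (nat_lit 294) (nat_lit 2) (nat_lit 165) (nat_lit 183) (nat_lit 162)) (PT.nd (nat_lit 78) (PT.lf (nat_lit 22420) (nat_lit 6) (nat_lit 295) (nat_lit 2) (nat_lit 166) (nat_lit 183) (nat_lit 161)) (PT.lf (nat_lit 22496) (nat_lit 6) (nat_lit 296) (nat_lit 2) (nat_lit 167) (nat_lit 183) (nat_lit 160))))))) (PT.nd (nat_lit 624) (PT.nd (nat_lit 312) (PT.nd (nat_lit 156) (PT.nd (nat_lit 78) (PT.lf (nat_lit 22572) (nat_lit 6) (nat_lit 297) (nat_lit 2) (nat_lit 168) (nat_lit 183) (nat_lit 159)) (PT.lf (nat_lit 22648) (nat_lit 6) (nat_lit 298) (nat_lit 2) (nat_lit 169) (nat_lit 183) (nat_lit 158))) (PT.nd (nat_lit 78) (PT.lf (nat_lit 22724) (nat_lit 6) (nat_lit 299) (nat_lit 2) (nat_lit 170) (nat_lit 183) (nat_lit 157)) (PT.lf (nat_lit 21736) (nat_lit 6) (nat_lit 286) (nat_lit 2) (nat_lit 171) (nat_lit 183)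 (nat_lit 156)))) (PT.nd (nat_lit 156) (PT.nd (nat_lit 78) (PT.lf (nat_lit 20672) (nat_lit 6) (nat_lit 272) (nat_lit 2) (nat_lit 172) (nat_lit 183) (nat_lit 155)) (PT.lf (nat_lit 19532) (nat_lit 6) (nat_lit 257) (nat_lit 2) (nat_lit 173) (nat_lit 183) (nat_lit 154))) (PT.nd (nat_lit 78) (PT.lf (nat_lit 18316) (nat_lit 6) (nat_lit 241) (nat_lit 2) (nat_lit 174) (nat_lit 183) (nat_lit 153)) (PT.lf (nat_lit 17708) (nat_lit 6) (nat_lit 233) (nat_lit 2) (nat_lit 175) (nat_lit 183) (nat_lit 152))))) (PT.nd (nat_lit 312) (PT.nd (nat_lit 156) (PT.nd (nat_lit 78) (PT.lf (nat_lit 17100) (nat_lit 6) (nat_lit 225) (nat_lit 2) (nat_lit 176) (nat_lit 183) (nat_lit 151)) (PT.lf (nat_lit 16492) (nat_lit 6) (nat_lit 217) (nat_lit 2) (nat_lit 177) (nat_lit 183) (nat_lit 150))) (PT.nd (nat_lit 78) (PT.lf (nat_lit 15960) (nat_lit 6) (nat_lit 210) (nat_lit 2) (nat_lit 178) (nat_lit 183) (nat_lit 149)) (PT.lf (nat_lit 15428) (nat_lit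 6) (nat_lit 203) (nat_lit 2) (nat_lit 179) (nat_lit 183) (nat_lit 148)))) (PT.nd (nat_lit 156) (PT.nd (nat_lit 78) (PT.lf (nat_lit 14972) (nat_lit 6) (nat_lit 197) (nat_lit 2) (nat_lit 180) (nat_lit 183) (nat_lit 147)) (PT.lf (nat_lit 14440) (nat_lit 6) (nat_lit 190) (nat_lit 2) (nat_lit 181) (nat_lit 183) (nat_lit 146))) (PT.nd (nat_lit 78) (PT.lf (nat_lit 13984) (nat_lit 6) (nat_lit 184) (nat_lit 2) (nat_lit 182) (nat_lit 183) (nat_lit 145)) (PT.nd (nat_lit 78) (PT.lf (nat_lit 13528) (nat_lit 3) (nat_lit 178) (nat_lit 0) (nat_lit 183) (nat_lit 183) (nat_lit 144)) (PT.lf (nat_lit 13072) (nat_lit 6) (nat_lit 172) (nat_lit 0) (nat_lit 184) (nat_lit 183) (nat_lit 143))))))))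
noncomputable def pc43 : PT := (PT.nd (nat_lit 49920) (PT.nd (nat_lit 49218) (PT.nd (nat_lit 312) (PT.nd (nat_lit 156) (PT.nd (nat_lit 78) (PT.lf (nat_lit 12540) (nat_lit 6) (nat_lit 165) (nat_lit 0) (nat_lit 185) (nat_lit 183) (nat_lit 142)) (PT.lf (nat_lit 12084) (nat_lit 6) (nat_lit 159) (nat_lit 0) (nat_lit 186) (nat_lit 183) (nat_lit 141))) (PT.nd (nat_lit 78) (PT.lf (nat_lit 11628) (nat_lit 6) (nat_lit 153) (nat_lit 0) (nat_lit 187) (nat_lit 183) (nat_lit 140)) (PT.lf (nat_lit 11172) (nat_lit 6) (nat_lit 147) (nat_lit 0) (nat_lit 188) (nat_lit 183) (nat_lit 139)))) (PT.nd (nat_lit 156) (PT.nd (nat_lit 78) (PT.lf (nat_lit 10716) (nat_lit 6) (nat_lit 141) (nat_lit 0) (nat_lit 189) (nat_lit 183) (nat_lit 138)) (PT.lf (nat_lit 10336) (nat_lit 6) (nat_lit 136) (nat_lit 0) (nat_lit 190) (nat_lit 183) (nat_lit 137))) (PT.nd (nat_lit 48672) (PT.lf (nat_lit 9880) (nat_lit 6) (nat_lit 130) (nat_lit 0) (nat_lit 191)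 (nat_lit 183) (nat_lit 136)) (PT.lf (nat_lit 9196) (nat_lit 6) (nat_lit 121) (nat_lit 5) (nat_lit 134) (nat_lit 184) (nat_lit 192))))) (PT.nd (nat_lit 312) (PT.nd (nat_lit 156) (PT.nd (nat_lit 78) (PT.lf (nat_lit 9576) (nat_lit 6) (nat_lit 126) (nat_lit 5) (nat_lit 135) (nat_lit 184) (nat_lit 191)) (PT.lf (nat_lit 9956) (nat_lit 6) (nat_lit 131) (nat_lit 5) (nat_lit 136) (nat_lit 184) (nat_lit 190))) (PT.nd (nat_lit 78) (PT.lf (nat_lit 10412) (nat_lit 6) (nat_lit 137) (nat_lit 5) (nat_lit 137) (nat_lit 184) (nat_lit 189)) (PT.lf (nat_lit 10792) (nat_lit 6) (nat_lit 142) (nat_lit 5) (nat_lit 138) (nat_lit 184) (nat_lit 188)))) (PT.nd (nat_lit 156) (PT.nd (nat_lit 78) (PT.lf (nat_lit 11248) (nat_lit 6) (nat_lit 148) (nat_lit 5) (nat_lit 139) (nat_lit 184) (nat_lit 187)) (PT.lf (nat_lit 11704) (nat_lit 6) (nat_lit 154) (nat_lit 5) (nat_lit 140) (nat_lit 184) (nat_lit 186))) (PT.nd (nat_lit 78) (PT.lf (nat_lit 12160)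 (nat_lit 6) (nat_lit 160) (nat_lit 5) (nat_lit 141) (nat_lit 184) (nat_lit 185)) (PT.nd (nat_lit 78) (PT.lf (nat_lit 12616) (nat_lit 3) (nat_lit 166) (nat_lit 4) (nat_lit 142) (nat_lit 184) (nat_lit 184)) (PT.lf (nat_lit 13072) (nat_lit 6) (nat_lit 172) (nat_lit 4) (nat_lit 143) (nat_lit 184) (nat_lit 183))))))) (PT.nd (nat_lit 624) (PT.nd (nat_lit 312) (PT.nd (nat_lit 156) (PT.nd (nat_lit 78) (PT.lf (nat_lit 13452) (nat_lit 6) (nat_lit 177) (nat_lit 4) (nat_lit 144) (nat_lit 184) (nat_lit 182)) (PT.lf (nat_lit 13908) (nat_lit 6) (nat_lit 183) (nat_lit 4) (nat_lit 145) (nat_lit 184) (nat_lit 181))) (PT.nd (nat_lit 78) (PT.lf (nat_lit 14364) (nat_lit 6) (nat_lit 189) (nat_lit 4) (nat_lit 146) (nat_lit 184) (nat_lit 180)) (PT.lf (nat_lit 14896) (nat_lit 6) (nat_lit 196) (nat_lit 4) (nat_lit 147) (nat_lit 184) (nat_lit 179)))) (PT.nd (nat_lit 156) (PT.nd (nat_lit 78) (PT.lf (nat_lit 15352) (nat_lit 6) (nat_lit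 202) (nat_lit 4) (nat_lit 148) (nat_lit 184) (nat_lit 178)) (PT.lf (nat_lit 15884) (nat_lit 6) (nat_lit 209) (nat_lit 4) (nat_lit 149) (nat_lit 184) (nat_lit 177))) (PT.nd (nat_lit 78) (PT.lf (nat_lit 16416) (nat_lit 6) (nat_lit 216) (nat_lit 4) (nat_lit 150) (nat_lit 184) (nat_lit 176)) (PT.lf (nat_lit 17024) (nat_lit 6) (nat_lit 224) (nat_lit 4) (nat_lit 151) (nat_lit 184) (nat_lit 175))))) (PT.nd (nat_lit 312) (PT.nd (nat_lit 156) (PT.nd (nat_lit 78) (PT.lf (nat_lit 17632) (nat_lit 6) (nat_lit 232) (nat_lit 4) (nat_lit 152) (nat_lit 184) (nat_lit 174)) (PT.lf (nat_lit 18240) (nat_lit 6) (nat_lit 240) (nat_lit 4) (nat_lit 153) (nat_lit 184) (nat_lit 173))) (PT.nd (nat_lit 78) (PT.lf (nat_lit 19456) (nat_lit 6) (nat_lit 256) (nat_lit 4) (nat_lit 154) (nat_lit 184) (nat_lit 172)) (PT.lf (nat_lit 20596) (nat_lit 6) (nat_lit 271) (nat_lit 4) (nat_lit 155) (nat_lit 184) (nat_lit 171)))) (PT.nd (nat_lit 156) (PT.nd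 (nat_lit 78) (PT.lf (nat_lit 21660) (nat_lit 6) (nat_lit 285) (nat_lit 4) (nat_lit 156) (nat_lit 184) (nat_lit 170)) (PT.lf (nat_lit 21584) (nat_lit 6) (nat_lit 284) (nat_lit 4) (nat_lit 157) (nat_lit 184) (nat_lit 169))) (PT.nd (nat_lit 78) (PT.lf (nat_lit 21508) (nat_lit 6) (nat_lit 283) (nat_lit 4) (nat_lit 158) (nat_lit 184) (nat_lit 168)) (PT.nd (nat_lit 78) (PT.lf (nat_lit 21432) (nat_lit 6) (nat_lit 282) (nat_lit 4) (nat_lit 159) (nat_lit 184) (nat_lit 167)) (PT.lf (nat_lit 21356) (nat_lit 6) (nat_lit 281) (nat_lit 4) (nat_lit 160) (nat_lit 184) (nat_lit 166))))))))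
noncomputable def pc44 : PT := (PT.nd (nat_lit 1326) (PT.nd (nat_lit 624) (PT.nd (nat_lit 312) (PT.nd (nat_lit 156) (PT.nd (nat_lit 78) (PT.lf (nat_lit 21280) (nat_lit 6) (nat_lit 280) (nat_lit 4) (nat_lit 161) (nat_lit 184) (nat_lit 165)) (PT.lf (nat_lit 21204) (nat_lit 6) (nat_lit 279) (nat_lit 4) (nat_lit 162) (nat_lit 184) (nat_lit 164))) (PT.nd (nat_lit 78) (PT.lf (nat_lit 21128) (nat_lit 3) (nat_lit 278) (nat_lit 2) (nat_lit 163) (nat_lit 184) (nat_lit 163)) (PT.lf (nat_lit 21204) (nat_lit 6) (nat_lit 279) (nat_lit 2) (nat_lit 164) (nat_lit 184) (nat_lit 162)))) (PT.nd (nat_lit 156) (PT.nd (nat_lit 78) (PT.lf (nat_lit 21280) (nat_lit 6) (nat_lit 280) (nat_lit 2) (nat_lit 165) (nat_lit 184) (nat_lit 161)) (PT.lf (nat_lit 21356) (nat_lit 6) (nat_lit 281) (nat_lit 2) (nat_lit 166) (nat_lit 184) (nat_lit 160))) (PT.nd (nat_lit 78) (PT.lf (nat_lit 21432) (nat_lit 6) (nat_lit 282) (nat_lit 2) (nat_lit 167) (nat_lit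 184) (nat_lit 159)) (PT.lf (nat_lit 21508) (nat_lit 6) (nat_lit 283) (nat_lit 2) (nat_lit 168) (nat_lit 184) (nat_lit 158))))) (PT.nd (nat_lit 312) (PT.nd (nat_lit 156) (PT.nd (nat_lit 78) (PT.lf (nat_lit 21584) (nat_lit 6) (nat_lit 284) (nat_lit 2) (nat_lit 169) (nat_lit 184) (nat_lit 157)) (PT.lf (nat_lit 21660) (nat_lit 6) (nat_lit 285) (nat_lit 2) (nat_lit 170) (nat_lit 184) (nat_lit 156))) (PT.nd (nat_lit 78) (PT.lf (nat_lit 20596) (nat_lit 6) (nat_lit 271) (nat_lit 2) (nat_lit 171) (nat_lit 184) (nat_lit 155)) (PT.lf (nat_lit 19456) (nat_lit 6) (nat_lit 256) (nat_lit 2) (nat_lit 172) (nat_lit 184) (nat_lit 154)))) (PT.nd (nat_lit 156) (PT.nd (nat_lit 78) (PT.lf (nat_lit 18240) (nat_lit 6) (nat_lit 240) (nat_lit 2) (nat_lit 173) (nat_lit 184) (nat_lit 153)) (PT.lf (nat_lit 17632) (nat_lit 6) (nat_lit 232) (nat_lit 2) (nat_lit 174) (nat_lit 184) (nat_lit 152))) (PT.nd (nat_lit 78) (PT.lf (nat_lit 17024)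 (nat_lit 6) (nat_lit 224) (nat_lit 2) (nat_lit 175) (nat_lit 184) (nat_lit 151)) (PT.nd (nat_lit 78) (PT.lf (nat_lit 16416) (nat_lit 6) (nat_lit 216) (nat_lit 2) (nat_lit 176) (nat_lit 184) (nat_lit 150)) (PT.lf (nat_lit 15884) (nat_lit 6) (nat_lit 209) (nat_lit 2) (nat_lit 177) (nat_lit 184) (nat_lit 149))))))) (PT.nd (nat_lit 624) (PT.nd (nat_lit 312) (PT.nd (nat_lit 156) (PT.nd (nat_lit 78) (PT.lf (nat_lit 15352) (nat_lit 6) (nat_lit 202) (nat_lit 2) (nat_lit 178) (nat_lit 184) (nat_lit 148)) (PT.lf (nat_lit 14896) (nat_lit 6) (nat_lit 196) (nat_lit 2) (nat_lit 179) (nat_lit 184) (nat_lit 147))) (PT.nd (nat_lit 78) (PT.lf (nat_lit 14364) (nat_lit 6) (nat_lit 189) (nat_lit 2) (nat_lit 180) (nat_lit 184) (nat_lit 146)) (PT.lf (nat_lit 13908) (nat_lit 6) (nat_lit 183) (nat_lit 2) (nat_lit 181) (nat_lit 184) (nat_lit 145)))) (PT.nd (nat_lit 156) (PT.nd (nat_lit 78) (PT.lf (nat_lit 13452) (nat_lit 6) (nat_lit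 177) (nat_lit 2) (nat_lit 182) (nat_lit 184) (nat_lit 144)) (PT.lf (nat_lit 13072) (nat_lit 6) (nat_lit 172) (nat_lit 2) (nat_lit 183) (nat_lit 184) (nat_lit 143))) (PT.nd (nat_lit 78) (PT.lf (nat_lit 12616) (nat_lit 3) (nat_lit 166) (nat_lit 0) (nat_lit 184) (nat_lit 184) (nat_lit 142)) (PT.lf (nat_lit 12160) (nat_lit 6) (nat_lit 160) (nat_lit 0) (nat_lit 185) (nat_lit 184) (nat_lit 141))))) (PT.nd (nat_lit 312) (PT.nd (nat_lit 156) (PT.nd (nat_lit 78) (PT.lf (nat_lit 11704) (nat_lit 6) (nat_lit 154) (nat_lit 0) (nat_lit 186) (nat_lit 184) (nat_lit 140)) (PT.lf (nat_lit 11248) (nat_lit 6) (nat_lit 148) (nat_lit 0) (nat_lit 187) (nat_lit 184) (nat_lit 139))) (PT.nd (nat_lit 78) (PT.lf (nat_lit 10792) (nat_lit 6) (nat_lit 142) (nat_lit 0) (nat_lit 188) (nat_lit 184) (nat_lit 138)) (PT.lf (nat_lit 10412) (nat_lit 6) (nat_lit 137) (nat_lit 0) (nat_lit 189) (nat_lit 184) (nat_lit 137)))) (PT.nd (nat_lit 156) (PT.nd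 (nat_lit 78) (PT.lf (nat_lit 9956) (nat_lit 6) (nat_lit 131) (nat_lit 0) (nat_lit 190) (nat_lit 184) (nat_lit 136)) (PT.lf (nat_lit 9576) (nat_lit 6) (nat_lit 126) (nat_lit 0) (nat_lit 191) (nat_lit 184) (nat_lit 135))) (PT.nd (nat_lit 48516) (PT.lf (nat_lit 9196) (nat_lit 6) (nat_lit 121) (nat_lit 0) (nat_lit 192) (nat_lit 184) (nat_lit 134)) (PT.nd (nat_lit 78) (PT.lf (nat_lit 8892) (nat_lit 6) (nat_lit 117) (nat_lit 5) (nat_lit 133) (nat_lit 185) (nat_lit 192)) (PT.lf (nat_lit 9272) (nat_lit 6) (nat_lit 122) (nat_lit 5) (nat_lit 134) (nat_lit 185) (nat_lit 191))))))))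
noncomputable def pc45 : PT := (PT.nd (nat_lit 1326) (PT.nd (nat_lit 624) (PT.nd (nat_lit 312) (PT.nd (nat_lit 156) (PT.nd (nat_lit 78) (PT.lf (nat_lit 9652) (nat_lit 6) (nat_lit 127) (nat_lit 5) (nat_lit 135) (nat_lit 185) (nat_lit 190)) (PT.lf (nat_lit 10032) (nat_lit 6) (nat_lit 132) (nat_lit 5) (nat_lit 136) (nat_lit 185) (nat_lit 189))) (PT.nd (nat_lit 78) (PT.lf (nat_lit 10488) (nat_lit 6) (nat_lit 138) (nat_lit 5) (nat_lit 137) (nat_lit 185) (nat_lit 188)) (PT.lf (nat_lit 10868) (nat_lit 6) (nat_lit 143) (nat_lit 5) (nat_lit 138) (nat_lit 185) (nat_lit 187)))) (PT.nd (nat_lit 156) (PT.nd (nat_lit 78) (PT.lf (nat_lit 11324) (nat_lit 6) (nat_lit 149) (nat_lit 5) (nat_lit 139) (nat_lit 185) (nat_lit 186)) (PT.lf (nat_lit 11780) (nat_lit 3) (nat_lit 155) (nat_lit 4) (nat_lit 140) (nat_lit 185) (nat_lit 185))) (PT.nd (nat_lit 78) (PT.lf (nat_lit 12160) (nat_lit 6) (nat_lit 160) (nat_lit 4) (nat_lit 141) (nat_lit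 185) (nat_lit 184)) (PT.lf (nat_lit 12540) (nat_lit 6) (nat_lit 165) (nat_lit 4) (nat_lit 142) (nat_lit 185) (nat_lit 183))))) (PT.nd (nat_lit 312) (PT.nd (nat_lit 156) (PT.nd (nat_lit 78) (PT.lf (nat_lit 12996) (nat_lit 6) (nat_lit 171) (nat_lit 4) (nat_lit 143) (nat_lit 185) (nat_lit 182)) (PT.lf (nat_lit 13376) (nat_lit 6) (nat_lit 176) (nat_lit 4) (nat_lit 144) (nat_lit 185) (nat_lit 181))) (PT.nd (nat_lit 78) (PT.lf (nat_lit 13832) (nat_lit 6) (nat_lit 182) (nat_lit 4) (nat_lit 145) (nat_lit 185) (nat_lit 180)) (PT.lf (nat_lit 14288) (nat_lit 6) (nat_lit 188) (nat_lit 4) (nat_lit 146) (nat_lit 185) (nat_lit 179)))) (PT.nd (nat_lit 156) (PT.nd (nat_lit 78) (PT.lf (nat_lit 14820) (nat_lit 6) (nat_lit 195) (nat_lit 4) (nat_lit 147) (nat_lit 185) (nat_lit 178)) (PT.lf (nat_lit 15276) (nat_lit 6) (nat_lit 201) (nat_lit 4) (nat_lit 148) (nat_lit 185) (nat_lit 177))) (PT.nd (nat_lit 78) (PT.lf (nat_lit 15808)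 (nat_lit 6) (nat_lit 208) (nat_lit 4) (nat_lit 149) (nat_lit 185) (nat_lit 176)) (PT.nd (nat_lit 78) (PT.lf (nat_lit 16340) (nat_lit 6) (nat_lit 215) (nat_lit 4) (nat_lit 150) (nat_lit 185) (nat_lit 175)) (PT.lf (nat_lit 16948) (nat_lit 6) (nat_lit 223) (nat_lit 4) (nat_lit 151) (nat_lit 185) (nat_lit 174))))))) (PT.nd (nat_lit 624) (PT.nd (nat_lit 312) (PT.nd (nat_lit 156) (PT.nd (nat_lit 78) (PT.lf (nat_lit 17556) (nat_lit 6) (nat_lit 231) (nat_lit 4) (nat_lit 152) (nat_lit 185) (nat_lit 173)) (PT.lf (nat_lit 18164) (nat_lit 6) (nat_lit 239) (nat_lit 4) (nat_lit 153) (nat_lit 185) (nat_lit 172))) (PT.nd (nat_lit 78) (PT.lf (nat_lit 19380) (nat_lit 6) (nat_lit 255) (nat_lit 4) (nat_lit 154) (nat_lit 185) (nat_lit 171)) (PT.lf (nat_lit 20520) (nat_lit 6) (nat_lit 270) (nat_lit 4) (nat_lit 155) (nat_lit 185) (nat_lit 170)))) (PT.nd (nat_lit 156) (PT.nd (nat_lit 78) (PT.lf (nat_lit 20444) (nat_lit 6) (nat_lit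 269) (nat_lit 4) (nat_lit 156) (nat_lit 185) (nat_lit 169)) (PT.lf (nat_lit 20368) (nat_lit 6) (nat_lit 268) (nat_lit 4) (nat_lit 157) (nat_lit 185) (nat_lit 168))) (PT.nd (nat_lit 78) (PT.lf (nat_lit 20292) (nat_lit 6) (nat_lit 267) (nat_lit 4) (nat_lit 158) (nat_lit 185) (nat_lit 167)) (PT.lf (nat_lit 20216) (nat_lit 6) (nat_lit 266) (nat_lit 4) (nat_lit 159) (nat_lit 185) (nat_lit 166))))) (PT.nd (nat_lit 312) (PT.nd (nat_lit 156) (PT.nd (nat_lit 78) (PT.lf (nat_lit 20140) (nat_lit 6) (nat_lit 265) (nat_lit 4) (nat_lit 160) (nat_lit 185) (nat_lit 165)) (PT.lf (nat_lit 20064) (nat_lit 6) (nat_lit 264) (nat_lit 4) (nat_lit 161) (nat_lit 185) (nat_lit 164))) (PT.nd (nat_lit 78) (PT.lf (nat_lit 19988) (nat_lit 6) (nat_lit 263) (nat_lit 4) (nat_lit 162) (nat_lit 185) (nat_lit 163)) (PT.lf (nat_lit 19988) (nat_lit 6) (nat_lit 263) (nat_lit 2) (nat_lit 163) (nat_lit 185) (nat_lit 162)))) (PT.nd (nat_lit 156) (PT.nd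 (nat_lit 78) (PT.lf (nat_lit 20064) (nat_lit 6) (nat_lit 264) (nat_lit 2) (nat_lit 164) (nat_lit 185) (nat_lit 161)) (PT.lf (nat_lit 20140) (nat_lit 6) (nat_lit 265) (nat_lit 2) (nat_lit 165) (nat_lit 185) (nat_lit 160))) (PT.nd (nat_lit 78) (PT.lf (nat_lit 20216) (nat_lit 6) (nat_lit 266) (nat_lit 2) (nat_lit 166) (nat_lit 185) (nat_lit 159)) (PT.nd (nat_lit 78) (PT.lf (nat_lit 20292) (nat_lit 6) (nat_lit 267) (nat_lit 2) (nat_lit 167) (nat_lit 185) (nat_lit 158)) (PT.lf (nat_lit 20368) (nat_lit 6) (nat_lit 268) (nat_lit 2) (nat_lit 168) (nat_lit 185) (nat_lit 157))))))))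
noncomputable def pc46 : PT := (PT.nd (nat_lit 1326) (PT.nd (nat_lit 624) (PT.nd (nat_lit 312) (PT.nd (nat_lit 156) (PT.nd (nat_lit 78) (PT.lf (nat_lit 20444) (nat_lit 6) (nat_lit 269) (nat_lit 2) (nat_lit 169) (nat_lit 185) (nat_lit 156)) (PT.lf (nat_lit 20520) (nat_lit 6) (nat_lit 270) (nat_lit 2) (nat_lit 170) (nat_lit 185) (nat_lit 155))) (PT.nd (nat_lit 78) (PT.lf (nat_lit 19380) (nat_lit 6) (nat_lit 255) (nat_lit 2) (nat_lit 171) (nat_lit 185) (nat_lit 154)) (PT.lf (nat_lit 18164) (nat_lit 6) (nat_lit 239) (nat_lit 2) (nat_lit 172) (nat_lit 185) (nat_lit 153)))) (PT.nd (nat_lit 156) (PT.nd (nat_lit 78) (PT.lf (nat_lit 17556) (nat_lit 6) (nat_lit 231) (nat_lit 2) (nat_lit 173) (nat_lit 185) (nat_lit 152)) (PT.lf (nat_lit 16948) (nat_lit 6) (nat_lit 223) (nat_lit 2) (nat_lit 174) (nat_lit 185) (nat_lit 151))) (PT.nd (nat_lit 78) (PT.lf (nat_lit 16340) (nat_lit 6) (nat_lit 215) (nat_lit 2) (nat_lit 175) (nat_lit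 185) (nat_lit 150)) (PT.lf (nat_lit 15808) (nat_lit 6) (nat_lit 208) (nat_lit 2) (nat_lit 176) (nat_lit 185) (nat_lit 149))))) (PT.nd (nat_lit 312) (PT.nd (nat_lit 156) (PT.nd (nat_lit 78) (PT.lf (nat_lit 15276) (nat_lit 6) (nat_lit 201) (nat_lit 2) (nat_lit 177) (nat_lit 185) (nat_lit 148)) (PT.lf (nat_lit 14820) (nat_lit 6) (nat_lit 195) (nat_lit 2) (nat_lit 178) (nat_lit 185) (nat_lit 147))) (PT.nd (nat_lit 78) (PT.lf (nat_lit 14288) (nat_lit 6) (nat_lit 188) (nat_lit 2) (nat_lit 179) (nat_lit 185) (nat_lit 146)) (PT.lf (nat_lit 13832) (nat_lit 6) (nat_lit 182) (nat_lit 2) (nat_lit 180) (nat_lit 185) (nat_lit 145)))) (PT.nd (nat_lit 156) (PT.nd (nat_lit 78) (PT.lf (nat_lit 13376) (nat_lit 6) (nat_lit 176) (nat_lit 2) (nat_lit 181) (nat_lit 185) (nat_lit 144)) (PT.lf (nat_lit 12996) (nat_lit 6) (nat_lit 171) (nat_lit 2) (nat_lit 182) (nat_lit 185) (nat_lit 143))) (PT.nd (nat_lit 78) (PT.lf (nat_lit 12540)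 (nat_lit 6) (nat_lit 165) (nat_lit 2) (nat_lit 183) (nat_lit 185) (nat_lit 142)) (PT.nd (nat_lit 78) (PT.lf (nat_lit 12160) (nat_lit 6) (nat_lit 160) (nat_lit 2) (nat_lit 184) (nat_lit 185) (nat_lit 141)) (PT.lf (nat_lit 11780) (nat_lit 3) (nat_lit 155) (nat_lit 0) (nat_lit 185) (nat_lit 185) (nat_lit 140))))))) (PT.nd (nat_lit 48906) (PT.nd (nat_lit 312) (PT.nd (nat_lit 156) (PT.nd (nat_lit 78) (PT.lf (nat_lit 11324) (nat_lit 6) (nat_lit 149) (nat_lit 0) (nat_lit 186) (nat_lit 185) (nat_lit 139)) (PT.lf (nat_lit 10868) (nat_lit 6) (nat_lit 143) (nat_lit 0) (nat_lit 187) (nat_lit 185) (nat_lit 138))) (PT.nd (nat_lit 78) (PT.lf (nat_lit 10488) (nat_lit 6) (nat_lit 138) (nat_lit 0) (nat_lit 188) (nat_lit 185) (nat_lit 137)) (PT.lf (nat_lit 10032) (nat_lit 6) (nat_lit 132) (nat_lit 0) (nat_lit 189) (nat_lit 185) (nat_lit 136)))) (PT.nd (nat_lit 156) (PT.nd (nat_lit 78) (PT.lf (nat_lit 9652) (nat_lit 6) (nat_lit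 127) (nat_lit 0) (nat_lit 190) (nat_lit 185) (nat_lit 135)) (PT.lf (nat_lit 9272) (nat_lit 6) (nat_lit 122) (nat_lit 0) (nat_lit 191) (nat_lit 185) (nat_lit 134))) (PT.nd (nat_lit 48360) (PT.lf (nat_lit 8892) (nat_lit 6) (nat_lit 117) (nat_lit 0) (nat_lit 192) (nat_lit 185) (nat_lit 133)) (PT.lf (nat_lit 8284) (nat_lit 6) (nat_lit 109) (nat_lit 5) (nat_lit 131) (nat_lit 186) (nat_lit 193))))) (PT.nd (nat_lit 312) (PT.nd (nat_lit 156) (PT.nd (nat_lit 78) (PT.lf (nat_lit 8588) (nat_lit 6) (nat_lit 113) (nat_lit 5) (nat_lit 132) (nat_lit 186) (nat_lit 192)) (PT.lf (nat_lit 8968) (nat_lit 6) (nat_lit 118) (nat_lit 5) (nat_lit 133) (nat_lit 186) (nat_lit 191))) (PT.nd (nat_lit 78) (PT.lf (nat_lit 9348) (nat_lit 6) (nat_lit 123) (nat_lit 5) (nat_lit 134) (nat_lit 186) (nat_lit 190)) (PT.lf (nat_lit 9728) (nat_lit 6) (nat_lit 128) (nat_lit 5) (nat_lit 135) (nat_lit 186) (nat_lit 189)))) (PT.nd (nat_lit 156) (PT.nd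 (nat_lit 78) (PT.lf (nat_lit 10108) (nat_lit 6) (nat_lit 133) (nat_lit 5) (nat_lit 136) (nat_lit 186) (nat_lit 188)) (PT.lf (nat_lit 10564) (nat_lit 6) (nat_lit 139) (nat_lit 5) (nat_lit 137) (nat_lit 186) (nat_lit 187))) (PT.nd (nat_lit 78) (PT.lf (nat_lit 10944) (nat_lit 3) (nat_lit 144) (nat_lit 4) (nat_lit 138) (nat_lit 186) (nat_lit 186)) (PT.nd (nat_lit 78) (PT.lf (nat_lit 11324) (nat_lit 6) (nat_lit 149) (nat_lit 4) (nat_lit 139) (nat_lit 186) (nat_lit 185)) (PT.lf (nat_lit 11704) (nat_lit 6) (nat_lit 154) (nat_lit 4) (nat_lit 140) (nat_lit 186) (nat_lit 184))))))))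
noncomputable def pc47 : PT := (PT.nd (nat_lit 1326) (PT.nd (nat_lit 624) (PT.nd (nat_lit 312) (PT.nd (nat_lit 156) (PT.nd (nat_lit 78) (PT.lf (nat_lit 12084) (nat_lit 6) (nat_lit 159) (nat_lit 4) (nat_lit 141) (nat_lit 186) (nat_lit 183)) (PT.lf (nat_lit 12464) (nat_lit 6) (nat_lit 164) (nat_lit 4) (nat_lit 142) (nat_lit 186) (nat_lit 182))) (PT.nd (nat_lit 78) (PT.lf (nat_lit 12920) (nat_lit 6) (nat_lit 170) (nat_lit 4) (nat_lit 143) (nat_lit 186) (nat_lit 181)) (PT.lf (nat_lit 13300) (nat_lit 6) (nat_lit 175) (nat_lit 4) (nat_lit 144) (nat_lit 186) (nat_lit 180)))) (PT.nd (nat_lit 156) (PT.nd (nat_lit 78) (PT.lf (nat_lit 13756) (nat_lit 6) (nat_lit 181) (nat_lit 4) (nat_lit 145) (nat_lit 186) (nat_lit 179)) (PT.lf (nat_lit 14212) (nat_lit 6) (nat_lit 187) (nat_lit 4) (nat_lit 146) (nat_lit 186) (nat_lit 178))) (PT.nd (nat_lit 78) (PT.lf (nat_lit 14744) (nat_lit 6) (nat_lit 194) (nat_lit 4) (nat_lit 147) (nat_lit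 186) (nat_lit 177)) (PT.lf (nat_lit 15200) (nat_lit 6) (nat_lit 200) (nat_lit 4) (nat_lit 148) (nat_lit 186) (nat_lit 176))))) (PT.nd (nat_lit 312) (PT.nd (nat_lit 156) (PT.nd (nat_lit 78) (PT.lf (nat_lit 15732) (nat_lit 6) (nat_lit 207) (nat_lit 4) (nat_lit 149) (nat_lit 186) (nat_lit 175)) (PT.lf (nat_lit 16264) (nat_lit 6) (nat_lit 214) (nat_lit 4) (nat_lit 150) (nat_lit 186) (nat_lit 174))) (PT.nd (nat_lit 78) (PT.lf (nat_lit 16872) (nat_lit 6) (nat_lit 222) (nat_lit 4) (nat_lit 151) (nat_lit 186) (nat_lit 173)) (PT.lf (nat_lit 17480) (nat_lit 6) (nat_lit 230) (nat_lit 4) (nat_lit 152) (nat_lit 186) (nat_lit 172)))) (PT.nd (nat_lit 156) (PT.nd (nat_lit 78) (PT.lf (nat_lit 18088) (nat_lit 6) (nat_lit 238) (nat_lit 4) (nat_lit 153) (nat_lit 186) (nat_lit 171)) (PT.lf (nat_lit 19304) (nat_lit 6) (nat_lit 254) (nat_lit 4) (nat_lit 154) (nat_lit 186) (nat_lit 170))) (PT.nd (nat_lit 78) (PT.lf (nat_lit 19228)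 (nat_lit 6) (nat_lit 253) (nat_lit 4) (nat_lit 155) (nat_lit 186) (nat_lit 169)) (PT.nd (nat_lit 78) (PT.lf (nat_lit 19152) (nat_lit 6) (nat_lit 252) (nat_lit 4) (nat_lit 156) (nat_lit 186) (nat_lit 168)) (PT.lf (nat_lit 19076) (nat_lit 6) (nat_lit 251) (nat_lit 4) (nat_lit 157) (nat_lit 186) (nat_lit 167))))))) (PT.nd (nat_lit 624) (PT.nd (nat_lit 312) (PT.nd (nat_lit 156) (PT.nd (nat_lit 78) (PT.lf (nat_lit 19000) (nat_lit 6) (nat_lit 250) (nat_lit 4) (nat_lit 158) (nat_lit 186) (nat_lit 166)) (PT.lf (nat_lit 18924) (nat_lit 6) (nat_lit 249) (nat_lit 4) (nat_lit 159) (nat_lit 186) (nat_lit 165))) (PT.nd (nat_lit 78) (PT.lf (nat_lit 18848) (nat_lit 6) (nat_lit 248) (nat_lit 4) (nat_lit 160) (nat_lit 186) (nat_lit 164)) (PT.lf (nat_lit 18772) (nat_lit 6) (nat_lit 247) (nat_lit 4) (nat_lit 161) (nat_lit 186) (nat_lit 163)))) (PT.nd (nat_lit 156) (PT.nd (nat_lit 78) (PT.lf (nat_lit 18696) (nat_lit 3) (nat_lit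 246) (nat_lit 2) (nat_lit 162) (nat_lit 186) (nat_lit 162)) (PT.lf (nat_lit 18772) (nat_lit 6) (nat_lit 247) (nat_lit 2) (nat_lit 163) (nat_lit 186) (nat_lit 161))) (PT.nd (nat_lit 78) (PT.lf (nat_lit 18848) (nat_lit 6) (nat_lit 248) (nat_lit 2) (nat_lit 164) (nat_lit 186) (nat_lit 160)) (PT.lf (nat_lit 18924) (nat_lit 6) (nat_lit 249) (nat_lit 2) (nat_lit 165) (nat_lit 186) (nat_lit 159))))) (PT.nd (nat_lit 312) (PT.nd (nat_lit 156) (PT.nd (nat_lit 78) (PT.lf (nat_lit 19000) (nat_lit 6) (nat_lit 250) (nat_lit 2) (nat_lit 166) (nat_lit 186) (nat_lit 158)) (PT.lf (nat_lit 19076) (nat_lit 6) (nat_lit 251) (nat_lit 2) (nat_lit 167) (nat_lit 186) (nat_lit 157))) (PT.nd (nat_lit 78) (PT.lf (nat_lit 19152) (nat_lit 6) (nat_lit 252) (nat_lit 2) (nat_lit 168) (nat_lit 186) (nat_lit 156)) (PT.lf (nat_lit 19228) (nat_lit 6) (nat_lit 253) (nat_lit 2) (nat_lit 169) (nat_lit 186) (nat_lit 155)))) (PT.nd (nat_lit 156) (PT.nd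 (nat_lit 78) (PT.lf (nat_lit 19304) (nat_lit 6) (nat_lit 254) (nat_lit 2) (nat_lit 170) (nat_lit 186) (nat_lit 154)) (PT.lf (nat_lit 18088) (nat_lit 6) (nat_lit 238) (nat_lit 2) (nat_lit 171) (nat_lit 186) (nat_lit 153))) (PT.nd (nat_lit 78) (PT.lf (nat_lit 17480) (nat_lit 6) (nat_lit 230) (nat_lit 2) (nat_lit 172) (nat_lit 186) (nat_lit 152)) (PT.nd (nat_lit 78) (PT.lf (nat_lit 16872) (nat_lit 6) (nat_lit 222) (nat_lit 2) (nat_lit 173) (nat_lit 186) (nat_lit 151)) (PT.lf (nat_lit 16264) (nat_lit 6) (nat_lit 214) (nat_lit 2) (nat_lit 174) (nat_lit 186) (nat_lit 150))))))))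
noncomputable def pc48 : PT := (PT.nd (nat_lit 1248) (PT.nd (nat_lit 624) (PT.nd (nat_lit 312) (PT.nd (nat_lit 156) (PT.nd (nat_lit 78) (PT.lf (nat_lit 15732) (nat_lit 6) (nat_lit 207) (nat_lit 2) (nat_lit 175) (nat_lit 186) (nat_lit 149)) (PT.lf (nat_lit 15200) (nat_lit 6) (nat_lit 200) (nat_lit 2) (nat_lit 176) (nat_lit 186) (nat_lit 148))) (PT.nd (nat_lit 78) (PT.lf (nat_lit 14744) (nat_lit 6) (nat_lit 194) (nat_lit 2) (nat_lit 177) (nat_lit 186) (nat_lit 147)) (PT.lf (nat_lit 14212) (nat_lit 6) (nat_lit 187) (nat_lit 2) (nat_lit 178) (nat_lit 186) (nat_lit 146)))) (PT.nd (nat_lit 156) (PT.nd (nat_lit 78) (PT.lf (nat_lit 13756) (nat_lit 6) (nat_lit 181) (nat_lit 2) (nat_lit 179) (nat_lit 186) (nat_lit 145)) (PT.lf (nat_lit 13300) (nat_lit 6) (nat_lit 175) (nat_lit 2) (nat_lit 180) (nat_lit 186) (nat_lit 144))) (PT.nd (nat_lit 78) (PT.lf (nat_lit 12920) (nat_lit 6) (nat_lit 170) (nat_lit 2) (nat_lit 181) (nat_lit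 186) (nat_lit 143)) (PT.lf (nat_lit 12464) (nat_lit 6) (nat_lit 164) (nat_lit 2) (nat_lit 182) (nat_lit 186) (nat_lit 142))))) (PT.nd (nat_lit 312) (PT.nd (nat_lit 156) (PT.nd (nat_lit 78) (PT.lf (nat_lit 12084) (nat_lit 6) (nat_lit 159) (nat_lit 2) (nat_lit 183) (nat_lit 186) (nat_lit 141)) (PT.lf (nat_lit 11704) (nat_lit 6) (nat_lit 154) (nat_lit 2) (nat_lit 184) (nat_lit 186) (nat_lit 140))) (PT.nd (nat_lit 78) (PT.lf (nat_lit 11324) (nat_lit 6) (nat_lit 149) (nat_lit 2) (nat_lit 185) (nat_lit 186) (nat_lit 139)) (PT.lf (nat_lit 10944) (nat_lit 3) (nat_lit 144) (nat_lit 0) (nat_lit 186) (nat_lit 186) (nat_lit 138)))) (PT.nd (nat_lit 156) (PT.nd (nat_lit 78) (PT.lf (nat_lit 10564) (nat_lit 6) (nat_lit 139) (nat_lit 0) (nat_lit 187) (nat_lit 186) (nat_lit 137)) (PT.lf (nat_lit 10108) (nat_lit 6) (nat_lit 133) (nat_lit 0) (nat_lit 188) (nat_lit 186) (nat_lit 136))) (PT.nd (nat_lit 78) (PT.lf (nat_lit 9728) (nat_lit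 6) (nat_lit 128) (nat_lit 0) (nat_lit 189) (nat_lit 186) (nat_lit 135)) (PT.lf (nat_lit 9348) (nat_lit 6) (nat_lit 123) (nat_lit 0) (nat_lit 190) (nat_lit 186) (nat_lit 134)))))) (PT.nd (nat_lit 48750) (PT.nd (nat_lit 48438) (PT.nd (nat_lit 156) (PT.nd (nat_lit 78) (PT.lf (nat_lit 8968) (nat_lit 6) (nat_lit 118) (nat_lit 0) (nat_lit 191) (nat_lit 186) (nat_lit 133)) (PT.lf (nat_lit 8588) (nat_lit 6) (nat_lit 113) (nat_lit 0) (nat_lit 192) (nat_lit 186) (nat_lit 132))) (PT.nd (nat_lit 48204) (PT.lf (nat_lit 8284) (nat_lit 6) (nat_lit 109) (nat_lit 0) (nat_lit 193) (nat_lit 186) (nat_lit 131)) (PT.lf (nat_lit 7980) (nat_lit 6) (nat_lit 105) (nat_lit 5) (nat_lit 130) (nat_lit 187) (nat_lit 193)))) (PT.nd (nat_lit 156) (PT.nd (nat_lit 78) (PT.lf (nat_lit 8360) (nat_lit 6) (nat_lit 110) (nat_lit 5) (nat_lit 131) (nat_lit 187) (nat_lit 192)) (PT.lf (nat_lit 8664) (nat_lit 6) (nat_lit 114) (nat_lit 5) (nat_lit 132)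 (nat_lit 187) (nat_lit 191))) (PT.nd (nat_lit 78) (PT.lf (nat_lit 9044) (nat_lit 6) (nat_lit 119) (nat_lit 5) (nat_lit 133) (nat_lit 187) (nat_lit 190)) (PT.lf (nat_lit 9424) (nat_lit 6) (nat_lit 124) (nat_lit 5) (nat_lit 134) (nat_lit 187) (nat_lit 189))))) (PT.nd (nat_lit 312) (PT.nd (nat_lit 156) (PT.nd (nat_lit 78) (PT.lf (nat_lit 9804) (nat_lit 6) (nat_lit 129) (nat_lit 5) (nat_lit 135) (nat_lit 187) (nat_lit 188)) (PT.lf (nat_lit 10184) (nat_lit 3) (nat_lit 134) (nat_lit 4) (nat_lit 136) (nat_lit 187) (nat_lit 187))) (PT.nd (nat_lit 78) (PT.lf (nat_lit 10564) (nat_lit 6) (nat_lit 139) (nat_lit 4) (nat_lit 137) (nat_lit 187) (nat_lit 186)) (PT.lf (nat_lit 10868) (nat_lit 6) (nat_lit 143) (nat_lit 4) (nat_lit 138) (nat_lit 187) (nat_lit 185)))) (PT.nd (nat_lit 156) (PT.nd (nat_lit 78) (PT.lf (nat_lit 11248) (nat_lit 6) (nat_lit 148) (nat_lit 4) (nat_lit 139) (nat_lit 187) (nat_lit 184)) (PT.lf (nat_lit 11628)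 (nat_lit 6) (nat_lit 153) (nat_lit 4) (nat_lit 140) (nat_lit 187) (nat_lit 183))) (PT.nd (nat_lit 78) (PT.lf (nat_lit 12008) (nat_lit 6) (nat_lit 158) (nat_lit 4) (nat_lit 141) (nat_lit 187) (nat_lit 182)) (PT.nd (nat_lit 78) (PT.lf (nat_lit 12388) (nat_lit 6) (nat_lit 163) (nat_lit 4) (nat_lit 142) (nat_lit 187) (nat_lit 181)) (PT.lf (nat_lit 12844) (nat_lit 6) (nat_lit 169) (nat_lit 4) (nat_lit 143) (nat_lit 187) (nat_lit 180))))))))
noncomputable def pc49 : PT := (PT.nd (nat_lit 2730) (PT.nd (nat_lit 624) (PT.nd (nat_lit 312) (PT.nd (nat_lit 156) (PT.nd (nat_lit 78) (PT.lf (nat_lit 13224) (nat_lit 6) (nat_lit 174) (nat_lit 4) (nat_lit 144) (nat_lit 187) (nat_lit 179)) (PT.lf (nat_lit 13680) (nat_lit 6) (nat_lit 180) (nat_lit 4) (nat_lit 145) (nat_lit 187) (nat_lit 178))) (PT.nd (nat_lit 78) (PT.lf (nat_lit 14136) (nat_lit 6) (nat_lit 186) (nat_lit 4) (nat_lit 146) (nat_lit 187) (nat_lit 177)) (PT.lf (nat_lit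 14668) (nat_lit 6) (nat_lit 193) (nat_lit 4) (nat_lit 147) (nat_lit 187) (nat_lit 176)))) (PT.nd (nat_lit 156) (PT.nd (nat_lit 78) (PT.lf (nat_lit 15124) (nat_lit 6) (nat_lit 199) (nat_lit 4) (nat_lit 148) (nat_lit 187) (nat_lit 175)) (PT.lf (nat_lit 15656) (nat_lit 6) (nat_lit 206) (nat_lit 4) (nat_lit 149) (nat_lit 187) (nat_lit 174))) (PT.nd (nat_lit 78) (PT.lf (nat_lit 16188) (nat_lit 6) (nat_lit 213) (nat_lit 4) (nat_lit 150) (nat_lit 187) (nat_lit 173)) (PT.lf (nat_lit 16796) (nat_lit 6) (nat_lit 221) (nat_lit 4) (nat_lit 151) (nat_lit 187) (nat_lit 172))))) (PT.nd (nat_lit 1716) (PT.nd (nat_lit 1560) (PT.nd (nat_lit 1482) (PT.lf (nat_lit 17404) (nat_lit 6) (nat_lit 229) (nat_lit 4) (nat_lit 152) (nat_lit 187) (nat_lit 171)) (PT.lf (nat_lit 17404) (nat_lit 6) (nat_lit 229) (nat_lit 2) (nat_lit 171) (nat_lit 187) (nat_lit 152))) (PT.nd (nat_lit 78) (PT.lf (nat_lit 16796) (nat_lit 6) (nat_lit 221) (nat_lit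 2) (nat_lit 172) (nat_lit 187) (nat_lit 151)) (PT.lf (nat_lit 16188) (nat_lit 6) (nat_lit 213) (nat_lit 2) (nat_lit 173) (nat_lit 187) (nat_lit 150)))) (PT.nd (nat_lit 156) (PT.nd (nat_lit 78) (PT.lf (nat_lit 15656) (nat_lit 6) (nat_lit 206) (nat_lit 2) (nat_lit 174) (nat_lit 187) (nat_lit 149)) (PT.lf (nat_lit 15124) (nat_lit 6) (nat_lit 199) (nat_lit 2) (nat_lit 175) (nat_lit 187) (nat_lit 148))) (PT.nd (nat_lit 78) (PT.lf (nat_lit 14668) (nat_lit 6) (nat_lit 193) (nat_lit 2) (nat_lit 176) (nat_lit 187) (nat_lit 147)) (PT.nd (nat_lit 78) (PT.lf (nat_lit 14136) (nat_lit 6) (nat_lit 186) (nat_lit 2) (nat_lit 177) (nat_lit 187) (nat_lit 146)) (PT.lf (nat_lit 13680) (nat_lit 6) (nat_lit 180) (nat_lit 2) (nat_lit 178) (nat_lit 187) (nat_lit 145))))))) (PT.nd (nat_lit 624) (PT.nd (nat_lit 312) (PT.nd (nat_lit 156) (PT.nd (nat_lit 78) (PT.lf (nat_lit 13224) (nat_lit 6) (nat_lit 174) (nat_lit 2) (nat_lit 179) (nat_lit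 187) (nat_lit 144)) (PT.lf (nat_lit 12844) (nat_lit 6) (nat_lit 169) (nat_lit 2) (nat_lit 180) (nat_lit 187) (nat_lit 143))) (PT.nd (nat_lit 78) (PT.lf (nat_lit 12388) (nat_lit 6) (nat_lit 163) (nat_lit 2) (nat_lit 181) (nat_lit 187) (nat_lit 142)) (PT.lf (nat_lit 12008) (nat_lit 6) (nat_lit 158) (nat_lit 2) (nat_lit 182) (nat_lit 187) (nat_lit 141)))) (PT.nd (nat_lit 156) (PT.nd (nat_lit 78) (PT.lf (nat_lit 11628) (nat_lit 6) (nat_lit 153) (nat_lit 2) (nat_lit 183) (nat_lit 187) (nat_lit 140)) (PT.lf (nat_lit 11248) (nat_lit 6) (nat_lit 148) (nat_lit 2) (nat_lit 184) (nat_lit 187) (nat_lit 139))) (PT.nd (nat_lit 78) (PT.lf (nat_lit 10868) (nat_lit 6) (nat_lit 143) (nat_lit 2) (nat_lit 185) (nat_lit 187) (nat_lit 138)) (PT.lf (nat_lit 10564) (nat_lit 6) (nat_lit 139) (nat_lit 2) (nat_lit 186) (nat_lit 187) (nat_lit 137))))) (PT.nd (nat_lit 312) (PT.nd (nat_lit 156) (PT.nd (nat_lit 78) (PT.lf (nat_lit 10184)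 (nat_lit 3) (nat_lit 134) (nat_lit 0) (nat_lit 187) (nat_lit 187) (nat_lit 136)) (PT.lf (nat_lit 9804) (nat_lit 6) (nat_lit 129) (nat_lit 0) (nat_lit 188) (nat_lit 187) (nat_lit 135))) (PT.nd (nat_lit 78) (PT.lf (nat_lit 9424) (nat_lit 6) (nat_lit 124) (nat_lit 0) (nat_lit 189) (nat_lit 187) (nat_lit 134)) (PT.lf (nat_lit 9044) (nat_lit 6) (nat_lit 119) (nat_lit 0) (nat_lit 190) (nat_lit 187) (nat_lit 133)))) (PT.nd (nat_lit 156) (PT.nd (nat_lit 78) (PT.lf (nat_lit 8664) (nat_lit 6) (nat_lit 114) (nat_lit 0) (nat_lit 191) (nat_lit 187) (nat_lit 132)) (PT.lf (nat_lit 8360) (nat_lit 6) (nat_lit 110) (nat_lit 0) (nat_lit 192) (nat_lit 187) (nat_lit 131))) (PT.nd (nat_lit 48048) (PT.lf (nat_lit 7980) (nat_lit 6) (nat_lit 105) (nat_lit 0) (nat_lit 193) (nat_lit 187) (nat_lit 130)) (PT.nd (nat_lit 78) (PT.lf (nat_lit 7448) (nat_lit 6) (nat_lit 98) (nat_lit 5) (nat_lit 128) (nat_lit 188) (nat_lit 194)) (PT.lf (nat_lit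 7752) (nat_lit 6) (nat_lit 102) (nat_lit 5) (nat_lit 129) (nat_lit 188) (nat_lit 193))))))))
noncomputable def pc50 : PT := (PT.nd (nat_lit 1326) (PT.nd (nat_lit 624) (PT.nd (nat_lit 312) (PT.nd (nat_lit 156) (PT.nd (nat_lit 78) (PT.lf (nat_lit 8056) (nat_lit 6) (nat_lit 106) (nat_lit 5) (nat_lit 130) (nat_lit 188) (nat_lit 192)) (PT.lf (nat_lit 8436) (nat_lit 6) (nat_lit 111) (nat_lit 5) (nat_lit 131) (nat_lit 188) (nat_lit 191))) (PT.nd (nat_lit 78) (PT.lf (nat_lit 8740) (nat_lit 6) (nat_lit 115) (nat_lit 5) (nat_lit 132) (nat_lit 188) (nat_lit 190)) (PT.lf (nat_lit 9120) (nat_lit 6) (nat_lit 120) (nat_lit 5) (nat_lit 133) (nat_lit 188) (nat_lit 189)))) (PT.nd (nat_lit 156) (PT.nd (nat_lit 78) (PT.lf (nat_lit 9500) (nat_lit 3) (nat_lit 125) (nat_lit 4) (nat_lit 134) (nat_lit 188) (nat_lit 188)) (PT.lf (nat_lit 9804) (nat_lit 6) (nat_lit 129) (nat_lit 4) (nat_lit 135) (nat_lit 188) (nat_lit 187))) (PT.nd (nat_lit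 78) (PT.lf (nat_lit 10108) (nat_lit 6) (nat_lit 133) (nat_lit 4) (nat_lit 136) (nat_lit 188) (nat_lit 186)) (PT.lf (nat_lit 10488) (nat_lit 6) (nat_lit 138) (nat_lit 4) (nat_lit 137) (nat_lit 188) (nat_lit 185))))) (PT.nd (nat_lit 312) (PT.nd (nat_lit 156) (PT.nd (nat_lit 78) (PT.lf (nat_lit 10792) (nat_lit 6) (nat_lit 142) (nat_lit 4) (nat_lit 138) (nat_lit 188) (nat_lit 184)) (PT.lf (nat_lit 11172) (nat_lit 6) (nat_lit 147) (nat_lit 4) (nat_lit 139) (nat_lit 188) (nat_lit 183))) (PT.nd (nat_lit 78) (PT.lf (nat_lit 11552) (nat_lit 6) (nat_lit 152) (nat_lit 4) (nat_lit 140) (nat_lit 188) (nat_lit 182)) (PT.lf (nat_lit 11932) (nat_lit 6) (nat_lit 157) (nat_lit 4) (nat_lit 141) (nat_lit 188) (nat_lit 181)))) (PT.nd (nat_lit 156) (PT.nd (nat_lit 78) (PT.lf (nat_lit 12312) (nat_lit 6) (nat_lit 162) (nat_lit 4) (nat_lit 142) (nat_lit 188) (nat_lit 180)) (PT.lf (nat_lit 12768) (nat_lit 6) (nat_lit 168) (nat_lit 4)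 (nat_lit 143) (nat_lit 188) (nat_lit 179))) (PT.nd (nat_lit 78) (PT.lf (nat_lit 13148) (nat_lit 6) (nat_lit 173) (nat_lit 4) (nat_lit 144) (nat_lit 188) (nat_lit 178)) (PT.nd (nat_lit 78) (PT.lf (nat_lit 13604) (nat_lit 6) (nat_lit 179) (nat_lit 4) (nat_lit 145) (nat_lit 188) (nat_lit 177)) (PT.lf (nat_lit 14060) (nat_lit 6) (nat_lit 185) (nat_lit 4) (nat_lit 146) (nat_lit 188) (nat_lit 176))))))) (PT.nd (nat_lit 2730) (PT.nd (nat_lit 2418) (PT.nd (nat_lit 2262) (PT.nd (nat_lit 2184) (PT.lf (nat_lit 14592) (nat_lit 6) (nat_lit 192) (nat_lit 4) (nat_lit 147) (nat_lit 188) (nat_lit 175)) (PT.lf (nat_lit 14592) (nat_lit 6) (nat_lit 192) (nat_lit 2) (nat_lit 175) (nat_lit 188) (nat_lit 147))) (PT.nd (nat_lit 78) (PT.lf (nat_lit 14060) (nat_lit 6) (nat_lit 185) (nat_lit 2) (nat_lit 176) (nat_lit 188) (nat_lit 146)) (PT.lf (nat_lit 13604) (nat_lit 6) (nat_lit 179) (nat_lit 2) (nat_lit 177) (nat_lit 188) (nat_lit 145))))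 (PT.nd (nat_lit 156) (PT.nd (nat_lit 78) (PT.lf (nat_lit 13148) (nat_lit 6) (nat_lit 173) (nat_lit 2) (nat_lit 178) (nat_lit 188) (nat_lit 144)) (PT.lf (nat_lit 12768) (nat_lit 6) (nat_lit 168) (nat_lit 2) (nat_lit 179) (nat_lit 188) (nat_lit 143))) (PT.nd (nat_lit 78) (PT.lf (nat_lit 12312) (nat_lit 6) (nat_lit 162) (nat_lit 2) (nat_lit 180) (nat_lit 188) (nat_lit 142)) (PT.lf (nat_lit 11932) (nat_lit 6) (nat_lit 157) (nat_lit 2) (nat_lit 181) (nat_lit 188) (nat_lit 141))))) (PT.nd (nat_lit 312) (PT.nd (nat_lit 156) (PT.nd (nat_lit 78) (PT.lf (nat_lit 11552) (nat_lit 6) (nat_lit 152) (nat_lit 2) (nat_lit 182) (nat_lit 188) (nat_lit 140)) (PT.lf (nat_lit 11172) (nat_lit 6) (nat_lit 147) (nat_lit 2) (nat_lit 183) (nat_lit 188) (nat_lit 139))) (PT.nd (nat_lit 78) (PT.lf (nat_lit 10792) (nat_lit 6) (nat_lit 142) (nat_lit 2) (nat_lit 184) (nat_lit 188) (nat_lit 138)) (PT.lf (nat_lit 10488) (nat_lit 6) (nat_lit 138)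 (nat_lit 2) (nat_lit 185) (nat_lit 188) (nat_lit 137)))) (PT.nd (nat_lit 156) (PT.nd (nat_lit 78) (PT.lf (nat_lit 10108) (nat_lit 6) (nat_lit 133) (nat_lit 2) (nat_lit 186) (nat_lit 188) (nat_lit 136)) (PT.lf (nat_lit 9804) (nat_lit 6) (nat_lit 129) (nat_lit 2) (nat_lit 187) (nat_lit 188) (nat_lit 135))) (PT.nd (nat_lit 78) (PT.lf (nat_lit 9500) (nat_lit 3) (nat_lit 125) (nat_lit 0) (nat_lit 188) (nat_lit 188) (nat_lit 134)) (PT.nd (nat_lit 78) (PT.lf (nat_lit 9120) (nat_lit 6) (nat_lit 120) (nat_lit 0) (nat_lit 189) (nat_lit 188) (nat_lit 133)) (PT.lf (nat_lit 8740) (nat_lit 6) (nat_lit 115) (nat_lit 0) (nat_lit 190) (nat_lit 188) (nat_lit 132))))))))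
noncomputable def pc51 : PT := (PT.nd (nat_lit 49062) (PT.nd (nat_lit 48360) (PT.nd (nat_lit 48048) (PT.nd (nat_lit 156) (PT.nd (nat_lit 78) (PT.lf (nat_lit 8436) (nat_lit 6) (nat_lit 111) (nat_lit 0) (nat_lit 191) (nat_lit 188) (nat_lit 131)) (PT.lf (nat_lit 8056) (nat_lit 6) (nat_lit 106) (nat_lit 0) (nat_lit 192) (nat_lit 188) (nat_lit 130))) (PT.nd (nat_lit 78) (PT.lf (nat_lit 7752) (nat_lit 6) (nat_lit 102) (nat_lit 0) (nat_lit 193) (nat_lit 188) (nat_lit 129)) (PT.lf (nat_lit 7448) (nat_lit 6) (nat_lit 98) (nat_lit 0) (nat_lit 194) (nat_lit 188) (nat_lit 128)))) (PT.nd (nat_lit 156) (PT.nd (nat_lit 78) (PT.lf (nat_lit 6916) (nat_lit 6) (nat_lit 91) (nat_lit 5) (nat_lit 126) (nat_lit 189) (nat_lit 195)) (PT.lf (nat_lit 7220) (nat_lit 6) (nat_lit 95) (nat_lit 5) (nat_lit 127) (nat_lit 189) (nat_lit 194))) (PT.nd (nat_lit 78) (PT.lf (nat_lit 7524) (nat_lit 6) (nat_lit 99) (nat_lit 5) (nat_lit 128) (nat_lit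 189) (nat_lit 193)) (PT.lf (nat_lit 7828) (nat_lit 6) (nat_lit 103) (nat_lit 5) (nat_lit 129) (nat_lit 189) (nat_lit 192))))) (PT.nd (nat_lit 312) (PT.nd (nat_lit 156) (PT.nd (nat_lit 78) (PT.lf (nat_lit 8132) (nat_lit 6) (nat_lit 107) (nat_lit 5) (nat_lit 130) (nat_lit 189) (nat_lit 191)) (PT.lf (nat_lit 8512) (nat_lit 6) (nat_lit 112) (nat_lit 5) (nat_lit 131) (nat_lit 189) (nat_lit 190))) (PT.nd (nat_lit 78) (PT.lf (nat_lit 8816) (nat_lit 3) (nat_lit 116) (nat_lit 4) (nat_lit 132) (nat_lit 189) (nat_lit 189)) (PT.lf (nat_lit 9120) (nat_lit 6) (nat_lit 120) (nat_lit 4) (nat_lit 133) (nat_lit 189) (nat_lit 188)))) (PT.nd (nat_lit 156) (PT.nd (nat_lit 78) (PT.lf (nat_lit 9424) (nat_lit 6) (nat_lit 124) (nat_lit 4) (nat_lit 134) (nat_lit 189) (nat_lit 187)) (PT.lf (nat_lit 9728) (nat_lit 6) (nat_lit 128) (nat_lit 4) (nat_lit 135) (nat_lit 189) (nat_lit 186))) (PT.nd (nat_lit 78) (PT.lf (nat_lit 10032) (nat_lit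 6) (nat_lit 132) (nat_lit 4) (nat_lit 136) (nat_lit 189) (nat_lit 185)) (PT.nd (nat_lit 78) (PT.lf (nat_lit 10412) (nat_lit 6) (nat_lit 137) (nat_lit 4) (nat_lit 137) (nat_lit 189) (nat_lit 184)) (PT.lf (nat_lit 10716) (nat_lit 6) (nat_lit 141) (nat_lit 4) (nat_lit 138) (nat_lit 189) (nat_lit 183))))))) (PT.nd (nat_lit 3276) (PT.nd (nat_lit 312) (PT.nd (nat_lit 156) (PT.nd (nat_lit 78) (PT.lf (nat_lit 11096) (nat_lit 6) (nat_lit 146) (nat_lit 4) (nat_lit 139) (nat_lit 189) (nat_lit 182)) (PT.lf (nat_lit 11476) (nat_lit 6) (nat_lit 151) (nat_lit 4) (nat_lit 140) (nat_lit 189) (nat_lit 181))) (PT.nd (nat_lit 78) (PT.lf (nat_lit 11856) (nat_lit 6) (nat_lit 156) (nat_lit 4) (nat_lit 141) (nat_lit 189) (nat_lit 180)) (PT.lf (nat_lit 12236) (nat_lit 6) (nat_lit 161) (nat_lit 4) (nat_lit 142) (nat_lit 189) (nat_lit 179)))) (PT.nd (nat_lit 2808) (PT.nd (nat_lit 2730) (PT.lf (nat_lit 12692) (nat_lit 6) (nat_lit 167)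 (nat_lit 4) (nat_lit 143) (nat_lit 189) (nat_lit 178)) (PT.lf (nat_lit 12692) (nat_lit 6) (nat_lit 167) (nat_lit 2) (nat_lit 178) (nat_lit 189) (nat_lit 143))) (PT.nd (nat_lit 78) (PT.lf (nat_lit 12236) (nat_lit 6) (nat_lit 161) (nat_lit 2) (nat_lit 179) (nat_lit 189) (nat_lit 142)) (PT.lf (nat_lit 11856) (nat_lit 6) (nat_lit 156) (nat_lit 2) (nat_lit 180) (nat_lit 189) (nat_lit 141))))) (PT.nd (nat_lit 312) (PT.nd (nat_lit 156) (PT.nd (nat_lit 78) (PT.lf (nat_lit 11476) (nat_lit 6) (nat_lit 151) (nat_lit 2) (nat_lit 181) (nat_lit 189) (nat_lit 140)) (PT.lf (nat_lit 11096) (nat_lit 6) (nat_lit 146) (nat_lit 2) (nat_lit 182) (nat_lit 189) (nat_lit 139))) (PT.nd (nat_lit 78) (PT.lf (nat_lit 10716) (nat_lit 6) (nat_lit 141) (nat_lit 2) (nat_lit 183) (nat_lit 189) (nat_lit 138)) (PT.lf (nat_lit 10412) (nat_lit 6) (nat_lit 137) (nat_lit 2) (nat_lit 184) (nat_lit 189) (nat_lit 137)))) (PT.nd (nat_lit 156) (PT.nd (nat_lit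 78) (PT.lf (nat_lit 10032) (nat_lit 6) (nat_lit 132) (nat_lit 2) (nat_lit 185) (nat_lit 189) (nat_lit 136)) (PT.lf (nat_lit 9728) (nat_lit 6) (nat_lit 128) (nat_lit 2) (nat_lit 186) (nat_lit 189) (nat_lit 135))) (PT.nd (nat_lit 78) (PT.lf (nat_lit 9424) (nat_lit 6) (nat_lit 124) (nat_lit 2) (nat_lit 187) (nat_lit 189) (nat_lit 134)) (PT.nd (nat_lit 78) (PT.lf (nat_lit 9120) (nat_lit 6) (nat_lit 120) (nat_lit 2) (nat_lit 188) (nat_lit 189) (nat_lit 133)) (PT.lf (nat_lit 8816) (nat_lit 3) (nat_lit 116) (nat_lit 0) (nat_lit 189) (nat_lit 189) (nat_lit 132))))))))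
noncomputable def pc52 : PT := (PT.nd (nat_lit 48906) (PT.nd (nat_lit 48204) (PT.nd (nat_lit 312) (PT.nd (nat_lit 156) (PT.nd (nat_lit 78) (PT.lf (nat_lit 8512) (nat_lit 6) (nat_lit 112) (nat_lit 0) (nat_lit 190) (nat_lit 189) (nat_lit 131)) (PT.lf (nat_lit 8132) (nat_lit 6) (nat_lit 107) (nat_lit 0) (nat_lit 191) (nat_lit 189) (nat_lit 130))) (PT.nd (nat_lit 78) (PT.lf (nat_lit 7828) (nat_lit 6) (nat_lit 103) (nat_lit 0) (nat_lit 192) (nat_lit 189) (nat_lit 129)) (PT.lf (nat_lit 7524) (nat_lit 6) (nat_lit 99) (nat_lit 0) (nat_lit 193) (nat_lit 189) (nat_lit 128)))) (PT.nd (nat_lit 47736) (PT.nd (nat_lit 78) (PT.lf (nat_lit 7220) (nat_lit 6) (nat_lit 95) (nat_lit 0) (nat_lit 194) (nat_lit 189) (nat_lit 127)) (PT.lf (nat_lit 6916) (nat_lit 6) (nat_lit 91) (nat_lit 0) (nat_lit 195) (nat_lit 189) (nat_lit 126))) (PT.nd (nat_lit 78) (PT.lf (nat_lit 6688) (nat_lit 6) (nat_lit 88) (nat_lit 5) (nat_lit 125) (nat_lit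 190) (nat_lit 195)) (PT.lf (nat_lit 6992) (nat_lit 6) (nat_lit 92) (nat_lit 5) (nat_lit 126) (nat_lit 190) (nat_lit 194))))) (PT.nd (nat_lit 312) (PT.nd (nat_lit 156) (PT.nd (nat_lit 78) (PT.lf (nat_lit 7296) (nat_lit 6) (nat_lit 96) (nat_lit 5) (nat_lit 127) (nat_lit 190) (nat_lit 193)) (PT.lf (nat_lit 7600) (nat_lit 6) (nat_lit 100) (nat_lit 5) (nat_lit 128) (nat_lit 190) (nat_lit 192))) (PT.nd (nat_lit 78) (PT.lf (nat_lit 7904) (nat_lit 6) (nat_lit 104) (nat_lit 5) (nat_lit 129) (nat_lit 190) (nat_lit 191)) (PT.lf (nat_lit 8208) (nat_lit 3) (nat_lit 108) (nat_lit 4) (nat_lit 130) (nat_lit 190) (nat_lit 190)))) (PT.nd (nat_lit 156) (PT.nd (nat_lit 78) (PT.lf (nat_lit 8512) (nat_lit 6) (nat_lit 112) (nat_lit 4) (nat_lit 131) (nat_lit 190) (nat_lit 189)) (PT.lf (nat_lit 8740) (nat_lit 6) (nat_lit 115) (nat_lit 4) (nat_lit 132) (nat_lit 190) (nat_lit 188))) (PT.nd (nat_lit 78) (PT.lf (nat_lit 9044) (nat_lit 6)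 (nat_lit 119) (nat_lit 4) (nat_lit 133) (nat_lit 190) (nat_lit 187)) (PT.nd (nat_lit 78) (PT.lf (nat_lit 9348) (nat_lit 6) (nat_lit 123) (nat_lit 4) (nat_lit 134) (nat_lit 190) (nat_lit 186)) (PT.lf (nat_lit 9652) (nat_lit 6) (nat_lit 127) (nat_lit 4) (nat_lit 135) (nat_lit 190) (nat_lit 185))))))) (PT.nd (nat_lit 3666) (PT.nd (nat_lit 312) (PT.nd (nat_lit 156) (PT.nd (nat_lit 78) (PT.lf (nat_lit 9956) (nat_lit 6) (nat_lit 131) (nat_lit 4) (nat_lit 136) (nat_lit 190) (nat_lit 184)) (PT.lf (nat_lit 10336) (nat_lit 6) (nat_lit 136) (nat_lit 4) (nat_lit 137) (nat_lit 190) (nat_lit 183))) (PT.nd (nat_lit 78) (PT.lf (nat_lit 10640) (nat_lit 6) (nat_lit 140) (nat_lit 4) (nat_lit 138) (nat_lit 190) (nat_lit 182)) (PT.lf (nat_lit 11020) (nat_lit 6) (nat_lit 145) (nat_lit 4) (nat_lit 139) (nat_lit 190) (nat_lit 181)))) (PT.nd (nat_lit 3198) (PT.nd (nat_lit 3120) (PT.lf (nat_lit 11400) (nat_lit 6) (nat_lit 150) (nat_lit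 4) (nat_lit 140) (nat_lit 190) (nat_lit 180)) (PT.lf (nat_lit 11400) (nat_lit 6) (nat_lit 150) (nat_lit 2) (nat_lit 180) (nat_lit 190) (nat_lit 140))) (PT.nd (nat_lit 78) (PT.lf (nat_lit 11020) (nat_lit 6) (nat_lit 145) (nat_lit 2) (nat_lit 181) (nat_lit 190) (nat_lit 139)) (PT.lf (nat_lit 10640) (nat_lit 6) (nat_lit 140) (nat_lit 2) (nat_lit 182) (nat_lit 190) (nat_lit 138))))) (PT.nd (nat_lit 312) (PT.nd (nat_lit 156) (PT.nd (nat_lit 78) (PT.lf (nat_lit 10336) (nat_lit 6) (nat_lit 136) (nat_lit 2) (nat_lit 183) (nat_lit 190) (nat_lit 137)) (PT.lf (nat_lit 9956) (nat_lit 6) (nat_lit 131) (nat_lit 2) (nat_lit 184) (nat_lit 190) (nat_lit 136))) (PT.nd (nat_lit 78) (PT.lf (nat_lit 9652) (nat_lit 6) (nat_lit 127) (nat_lit 2) (nat_lit 185) (nat_lit 190) (nat_lit 135)) (PT.lf (nat_lit 9348) (nat_lit 6) (nat_lit 123) (nat_lit 2) (nat_lit 186) (nat_lit 190) (nat_lit 134)))) (PT.nd (nat_lit 156) (PT.nd (nat_lit 78)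 (PT.lf (nat_lit 9044) (nat_lit 6) (nat_lit 119) (nat_lit 2) (nat_lit 187) (nat_lit 190) (nat_lit 133)) (PT.lf (nat_lit 8740) (nat_lit 6) (nat_lit 115) (nat_lit 2) (nat_lit 188) (nat_lit 190) (nat_lit 132))) (PT.nd (nat_lit 78) (PT.lf (nat_lit 8512) (nat_lit 6) (nat_lit 112) (nat_lit 2) (nat_lit 189) (nat_lit 190) (nat_lit 131)) (PT.nd (nat_lit 78) (PT.lf (nat_lit 8208) (nat_lit 3) (nat_lit 108) (nat_lit 0) (nat_lit 190) (nat_lit 190) (nat_lit 130)) (PT.lf (nat_lit 7904) (nat_lit 6) (nat_lit 104) (nat_lit 0) (nat_lit 191) (nat_lit 190) (nat_lit 129))))))))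
noncomputable def pc53 : PT := (PT.nd (nat_lit 48750) (PT.nd (nat_lit 48048) (PT.nd (nat_lit 47736) (PT.nd (nat_lit 156) (PT.nd (nat_lit 78) (PT.lf (nat_lit 7600) (nat_lit 6) (nat_lit 100) (nat_lit 0) (nat_lit 192) (nat_lit 190) (nat_lit 128)) (PT.lf (nat_lit 7296) (nat_lit 6) (nat_lit 96) (nat_lit 0) (nat_lit 193) (nat_lit 190) (nat_lit 127))) (PT.nd (nat_lit 78) (PT.lf (nat_lit 6992) (nat_lit 6) (nat_lit 92) (nat_lit 0) (nat_lit 194) (nat_lit 190) (nat_lit 126)) (PT.lf (nat_lit 6688) (nat_lit 6) (nat_lit 88) (nat_lit 0) (nat_lit 195) (nat_lit 190) (nat_lit 125)))) (PT.nd (nat_lit 156) (PT.nd (nat_lit 78) (PT.lf (nat_lit 6232) (nat_lit 6) (nat_lit 82) (nat_lit 5) (nat_lit 123) (nat_lit 191) (nat_lit 196)) (PT.lf (nat_lit 6460) (nat_lit 6) (nat_lit 85) (nat_lit 5) (nat_lit 124) (nat_lit 191) (nat_lit 195))) (PT.nd (nat_lit 78) (PT.lf (nat_lit 6764) (nat_lit 6) (nat_lit 89) (nat_lit 5) (nat_lit 125) (nat_lit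 191) (nat_lit 194)) (PT.lf (nat_lit 7068) (nat_lit 6) (nat_lit 93) (nat_lit 5) (nat_lit 126) (nat_lit 191) (nat_lit 193))))) (PT.nd (nat_lit 312) (PT.nd (nat_lit 156) (PT.nd (nat_lit 78) (PT.lf (nat_lit 7372) (nat_lit 6) (nat_lit 97) (nat_lit 5) (nat_lit 127) (nat_lit 191) (nat_lit 192)) (PT.lf (nat_lit 7676) (nat_lit 3) (nat_lit 101) (nat_lit 4) (nat_lit 128) (nat_lit 191) (nat_lit 191))) (PT.nd (nat_lit 78) (PT.lf (nat_lit 7904) (nat_lit 6) (nat_lit 104) (nat_lit 4) (nat_lit 129) (nat_lit 191) (nat_lit 190)) (PT.lf (nat_lit 8132) (nat_lit 6) (nat_lit 107) (nat_lit 4) (nat_lit 130) (nat_lit 191) (nat_lit 189)))) (PT.nd (nat_lit 156) (PT.nd (nat_lit 78) (PT.lf (nat_lit 8436) (nat_lit 6) (nat_lit 111) (nat_lit 4) (nat_lit 131) (nat_lit 191) (nat_lit 188)) (PT.lf (nat_lit 8664) (nat_lit 6) (nat_lit 114) (nat_lit 4) (nat_lit 132) (nat_lit 191) (nat_lit 187))) (PT.nd (nat_lit 78) (PT.lf (nat_lit 8968) (nat_lit 6)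 (nat_lit 118) (nat_lit 4) (nat_lit 133) (nat_lit 191) (nat_lit 186)) (PT.nd (nat_lit 78) (PT.lf (nat_lit 9272) (nat_lit 6) (nat_lit 122) (nat_lit 4) (nat_lit 134) (nat_lit 191) (nat_lit 185)) (PT.lf (nat_lit 9576) (nat_lit 6) (nat_lit 126) (nat_lit 4) (nat_lit 135) (nat_lit 191) (nat_lit 184))))))) (PT.nd (nat_lit 4056) (PT.nd (nat_lit 3744) (PT.nd (nat_lit 3588) (PT.nd (nat_lit 78) (PT.lf (nat_lit 9880) (nat_lit 6) (nat_lit 130) (nat_lit 4) (nat_lit 136) (nat_lit 191) (nat_lit 183)) (PT.lf (nat_lit 10260) (nat_lit 6) (nat_lit 135) (nat_lit 4) (nat_lit 137) (nat_lit 191) (nat_lit 182))) (PT.nd (nat_lit 78) (PT.lf (nat_lit 10260) (nat_lit 6) (nat_lit 135) (nat_lit 2) (nat_lit 182) (nat_lit 191) (nat_lit 137)) (PT.lf (nat_lit 9880) (nat_lit 6) (nat_lit 130) (nat_lit 2) (nat_lit 183) (nat_lit 191) (nat_lit 136)))) (PT.nd (nat_lit 156) (PT.nd (nat_lit 78) (PT.lf (nat_lit 9576) (nat_lit 6) (nat_lit 126) (nat_lit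 2) (nat_lit 184) (nat_lit 191) (nat_lit 135)) (PT.lf (nat_lit 9272) (nat_lit 6) (nat_lit 122) (nat_lit 2) (nat_lit 185) (nat_lit 191) (nat_lit 134))) (PT.nd (nat_lit 78) (PT.lf (nat_lit 8968) (nat_lit 6) (nat_lit 118) (nat_lit 2) (nat_lit 186) (nat_lit 191) (nat_lit 133)) (PT.lf (nat_lit 8664) (nat_lit 6) (nat_lit 114) (nat_lit 2) (nat_lit 187) (nat_lit 191) (nat_lit 132))))) (PT.nd (nat_lit 312) (PT.nd (nat_lit 156) (PT.nd (nat_lit 78) (PT.lf (nat_lit 8436) (nat_lit 6) (nat_lit 111) (nat_lit 2) (nat_lit 188) (nat_lit 191) (nat_lit 131)) (PT.lf (nat_lit 8132) (nat_lit 6) (nat_lit 107) (nat_lit 2) (nat_lit 189) (nat_lit 191) (nat_lit 130))) (PT.nd (nat_lit 78) (PT.lf (nat_lit 7904) (nat_lit 6) (nat_lit 104) (nat_lit 2) (nat_lit 190) (nat_lit 191) (nat_lit 129)) (PT.lf (nat_lit 7676) (nat_lit 3) (nat_lit 101) (nat_lit 0) (nat_lit 191) (nat_lit 191) (nat_lit 128)))) (PT.nd (nat_lit 156) (PT.nd (nat_lit 78) (PT.lf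 (nat_lit 7372) (nat_lit 6) (nat_lit 97) (nat_lit 0) (nat_lit 192) (nat_lit 191) (nat_lit 127)) (PT.lf (nat_lit 7068) (nat_lit 6) (nat_lit 93) (nat_lit 0) (nat_lit 193) (nat_lit 191) (nat_lit 126))) (PT.nd (nat_lit 78) (PT.lf (nat_lit 6764) (nat_lit 6) (nat_lit 89) (nat_lit 0) (nat_lit 194) (nat_lit 191) (nat_lit 125)) (PT.nd (nat_lit 78) (PT.lf (nat_lit 6460) (nat_lit 6) (nat_lit 85) (nat_lit 0) (nat_lit 195) (nat_lit 191) (nat_lit 124)) (PT.lf (nat_lit 6232) (nat_lit 6) (nat_lit 82) (nat_lit 0) (nat_lit 196) (nat_lit 191) (nat_lit 123))))))))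
noncomputable def pc54 : PT := (PT.nd (nat_lit 5148) (PT.nd (nat_lit 624) (PT.nd (nat_lit 312) (PT.nd (nat_lit 156) (PT.nd (nat_lit 78) (PT.lf (nat_lit 5776) (nat_lit 6) (nat_lit 76) (nat_lit 5) (nat_lit 121) (nat_lit 192) (nat_lit 197)) (PT.lf (nat_lit 6004) (nat_lit 6) (nat_lit 79) (nat_lit 5) (nat_lit 122) (nat_lit 192) (nat_lit 196))) (PT.nd (nat_lit 78) (PT.lf (nat_lit 6308) (nat_lit 6) (nat_lit 83) (nat_lit 5) (nat_lit 123) (nat_lit 192) (nat_lit 195)) (PT.lf (nat_lit 6536) (nat_lit 6) (nat_lit 86) (nat_lit 5) (nat_lit 124) (nat_lit 192) (nat_lit 194)))) (PT.nd (nat_lit 156) (PT.nd (nat_lit 78) (PT.lf (nat_lit 6840) (nat_lit 6) (nat_lit 90) (nat_lit 5) (nat_lit 125) (nat_lit 192) (nat_lit 193)) (PT.lf (nat_lit 7144) (nat_lit 3) (nat_lit 94) (nat_lit 4) (nat_lit 126) (nat_lit 192) (nat_lit 192))) (PT.nd (nat_lit 78) (PT.lf (nat_lit 7372) (nat_lit 6) (nat_lit 97) (nat_lit 4) (nat_lit 127) (nat_lit 192) (nat_lit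 191)) (PT.lf (nat_lit 7600) (nat_lit 6) (nat_lit 100) (nat_lit 4) (nat_lit 128) (nat_lit 192) (nat_lit 190))))) (PT.nd (nat_lit 312) (PT.nd (nat_lit 156) (PT.nd (nat_lit 78) (PT.lf (nat_lit 7828) (nat_lit 6) (nat_lit 103) (nat_lit 4) (nat_lit 129) (nat_lit 192) (nat_lit 189)) (PT.lf (nat_lit 8056) (nat_lit 6) (nat_lit 106) (nat_lit 4) (nat_lit 130) (nat_lit 192) (nat_lit 188))) (PT.nd (nat_lit 78) (PT.lf (nat_lit 8360) (nat_lit 6) (nat_lit 110) (nat_lit 4) (nat_lit 131) (nat_lit 192) (nat_lit 187)) (PT.lf (nat_lit 8588) (nat_lit 6) (nat_lit 113) (nat_lit 4) (nat_lit 132) (nat_lit 192) (nat_lit 186)))) (PT.nd (nat_lit 3978) (PT.nd (nat_lit 78) (PT.lf (nat_lit 8892) (nat_lit 6) (nat_lit 117) (nat_lit 4) (nat_lit 133) (nat_lit 192) (nat_lit 185)) (PT.lf (nat_lit 9196) (nat_lit 6) (nat_lit 121) (nat_lit 4) (nat_lit 134) (nat_lit 192) (nat_lit 184))) (PT.nd (nat_lit 78) (PT.lf (nat_lit 9196) (nat_lit 6) (nat_lit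 121) (nat_lit 2) (nat_lit 184) (nat_lit 192) (nat_lit 134)) (PT.nd (nat_lit 78) (PT.lf (nat_lit 8892) (nat_lit 6) (nat_lit 117) (nat_lit 2) (nat_lit 185) (nat_lit 192) (nat_lit 133)) (PT.lf (nat_lit 8588) (nat_lit 6) (nat_lit 113) (nat_lit 2) (nat_lit 186) (nat_lit 192) (nat_lit 132))))))) (PT.nd (nat_lit 624) (PT.nd (nat_lit 312) (PT.nd (nat_lit 156) (PT.nd (nat_lit 78) (PT.lf (nat_lit 8360) (nat_lit 6) (nat_lit 110) (nat_lit 2) (nat_lit 187) (nat_lit 192) (nat_lit 131)) (PT.lf (nat_lit 8056) (nat_lit 6) (nat_lit 106) (nat_lit 2) (nat_lit 188) (nat_lit 192) (nat_lit 130))) (PT.nd (nat_lit 78) (PT.lf (nat_lit 7828) (nat_lit 6) (nat_lit 103) (nat_lit 2) (nat_lit 189) (nat_lit 192) (nat_lit 129)) (PT.lf (nat_lit 7600) (nat_lit 6) (nat_lit 100) (nat_lit 2) (nat_lit 190) (nat_lit 192) (nat_lit 128)))) (PT.nd (nat_lit 156) (PT.nd (nat_lit 78) (PT.lf (nat_lit 7372) (nat_lit 6) (nat_lit 97) (nat_lit 2) (nat_lit 191)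 (nat_lit 192) (nat_lit 127)) (PT.lf (nat_lit 7144) (nat_lit 3) (nat_lit 94) (nat_lit 0) (nat_lit 192) (nat_lit 192) (nat_lit 126))) (PT.nd (nat_lit 78) (PT.lf (nat_lit 6840) (nat_lit 6) (nat_lit 90) (nat_lit 0) (nat_lit 193) (nat_lit 192) (nat_lit 125)) (PT.lf (nat_lit 6536) (nat_lit 6) (nat_lit 86) (nat_lit 0) (nat_lit 194) (nat_lit 192) (nat_lit 124))))) (PT.nd (nat_lit 47346) (PT.nd (nat_lit 156) (PT.nd (nat_lit 78) (PT.lf (nat_lit 6308) (nat_lit 6) (nat_lit 83) (nat_lit 0) (nat_lit 195) (nat_lit 192) (nat_lit 123)) (PT.lf (nat_lit 6004) (nat_lit 6) (nat_lit 79) (nat_lit 0) (nat_lit 196) (nat_lit 192) (nat_lit 122))) (PT.nd (nat_lit 47112) (PT.lf (nat_lit 5776) (nat_lit 6) (nat_lit 76) (nat_lit 0) (nat_lit 197) (nat_lit 192) (nat_lit 121)) (PT.lf (nat_lit 5548) (nat_lit 6) (nat_lit 73) (nat_lit 5) (nat_lit 120) (nat_lit 193) (nat_lit 197)))) (PT.nd (nat_lit 156) (PT.nd (nat_lit 78) (PT.lf (nat_lit 5852) (nat_lit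 6) (nat_lit 77) (nat_lit 5) (nat_lit 121) (nat_lit 193) (nat_lit 196)) (PT.lf (nat_lit 6080) (nat_lit 6) (nat_lit 80) (nat_lit 5) (nat_lit 122) (nat_lit 193) (nat_lit 195))) (PT.nd (nat_lit 78) (PT.lf (nat_lit 6384) (nat_lit 6) (nat_lit 84) (nat_lit 5) (nat_lit 123) (nat_lit 193) (nat_lit 194)) (PT.nd (nat_lit 78) (PT.lf (nat_lit 6612) (nat_lit 3) (nat_lit 87) (nat_lit 4) (nat_lit 124) (nat_lit 193) (nat_lit 193)) (PT.lf (nat_lit 6840) (nat_lit 6) (nat_lit 90) (nat_lit 4) (nat_lit 125) (nat_lit 193) (nat_lit 192))))))))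
noncomputable def pc55 : PT := (PT.nd (nat_lit 5538) (PT.nd (nat_lit 4836) (PT.nd (nat_lit 312) (PT.nd (nat_lit 156) (PT.nd (nat_lit 78) (PT.lf (nat_lit 7068) (nat_lit 6) (nat_lit 93) (nat_lit 4) (nat_lit 126) (nat_lit 193) (nat_lit 191)) (PT.lf (nat_lit 7296) (nat_lit 6) (nat_lit 96) (nat_lit 4) (nat_lit 127) (nat_lit 193) (nat_lit 190))) (PT.nd (nat_lit 78) (PT.lf (nat_lit 7524) (nat_lit 6) (nat_lit 99) (nat_lit 4) (nat_lit 128) (nat_lit 193) (nat_lit 189)) (PT.lf (nat_lit 7752) (nat_lit 6) (nat_lit 102) (nat_lit 4) (nat_lit 129) (nat_lit 193) (nat_lit 188)))) (PT.nd (nat_lit 4368) (PT.nd (nat_lit 78) (PT.lf (nat_lit 7980) (nat_lit 6) (nat_lit 105) (nat_lit 4) (nat_lit 130) (nat_lit 193) (nat_lit 187)) (PT.lf (nat_lit 8284) (nat_lit 6) (nat_lit 109) (nat_lit 4) (nat_lit 131) (nat_lit 193) (nat_lit 186))) (PT.nd (nat_lit 78) (PT.lf (nat_lit 8284) (nat_lit 6) (nat_lit 109) (nat_lit 2) (nat_lit 186) (nat_lit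 193) (nat_lit 131)) (PT.lf (nat_lit 7980) (nat_lit 6) (nat_lit 105) (nat_lit 2) (nat_lit 187) (nat_lit 193) (nat_lit 130))))) (PT.nd (nat_lit 312) (PT.nd (nat_lit 156) (PT.nd (nat_lit 78) (PT.lf (nat_lit 7752) (nat_lit 6) (nat_lit 102) (nat_lit 2) (nat_lit 188) (nat_lit 193) (nat_lit 129)) (PT.lf (nat_lit 7524) (nat_lit 6) (nat_lit 99) (nat_lit 2) (nat_lit 189) (nat_lit 193) (nat_lit 128))) (PT.nd (nat_lit 78) (PT.lf (nat_lit 7296) (nat_lit 6) (nat_lit 96) (nat_lit 2) (nat_lit 190) (nat_lit 193) (nat_lit 127)) (PT.lf (nat_lit 7068) (nat_lit 6) (nat_lit 93) (nat_lit 2) (nat_lit 191) (nat_lit 193) (nat_lit 126)))) (PT.nd (nat_lit 156) (PT.nd (nat_lit 78) (PT.lf (nat_lit 6840) (nat_lit 6) (nat_lit 90) (nat_lit 2) (nat_lit 192) (nat_lit 193) (nat_lit 125)) (PT.lf (nat_lit 6612) (nat_lit 3) (nat_lit 87) (nat_lit 0) (nat_lit 193) (nat_lit 193) (nat_lit 124))) (PT.nd (nat_lit 78) (PT.lf (nat_lit 6384) (nat_lit 6) (nat_lit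 84) (nat_lit 0) (nat_lit 194) (nat_lit 193) (nat_lit 123)) (PT.nd (nat_lit 78) (PT.lf (nat_lit 6080) (nat_lit 6) (nat_lit 80) (nat_lit 0) (nat_lit 195) (nat_lit 193) (nat_lit 122)) (PT.lf (nat_lit 5852) (nat_lit 6) (nat_lit 77) (nat_lit 0) (nat_lit 196) (nat_lit 193) (nat_lit 121))))))) (PT.nd (nat_lit 47502) (PT.nd (nat_lit 47190) (PT.nd (nat_lit 47034) (PT.nd (nat_lit 46956) (PT.lf (nat_lit 5548) (nat_lit 6) (nat_lit 73) (nat_lit 0) (nat_lit 197) (nat_lit 193) (nat_lit 120)) (PT.lf (nat_lit 5168) (nat_lit 6) (nat_lit 68) (nat_lit 5) (nat_lit 118) (nat_lit 194) (nat_lit 198))) (PT.nd (nat_lit 78) (PT.lf (nat_lit 5396) (nat_lit 6) (nat_lit 71) (nat_lit 5) (nat_lit 119) (nat_lit 194) (nat_lit 197)) (PT.lf (nat_lit 5624) (nat_lit 6) (nat_lit 74) (nat_lit 5) (nat_lit 120) (nat_lit 194) (nat_lit 196)))) (PT.nd (nat_lit 156) (PT.nd (nat_lit 78) (PT.lf (nat_lit 5928) (nat_lit 6) (nat_lit 78) (nat_lit 5) (nat_lit 121)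 (nat_lit 194) (nat_lit 195)) (PT.lf (nat_lit 6156) (nat_lit 3) (nat_lit 81) (nat_lit 4) (nat_lit 122) (nat_lit 194) (nat_lit 194))) (PT.nd (nat_lit 78) (PT.lf (nat_lit 6384) (nat_lit 6) (nat_lit 84) (nat_lit 4) (nat_lit 123) (nat_lit 194) (nat_lit 193)) (PT.lf (nat_lit 6536) (nat_lit 6) (nat_lit 86) (nat_lit 4) (nat_lit 124) (nat_lit 194) (nat_lit 192))))) (PT.nd (nat_lit 4914) (PT.nd (nat_lit 156) (PT.nd (nat_lit 78) (PT.lf (nat_lit 6764) (nat_lit 6) (nat_lit 89) (nat_lit 4) (nat_lit 125) (nat_lit 194) (nat_lit 191)) (PT.lf (nat_lit 6992) (nat_lit 6) (nat_lit 92) (nat_lit 4) (nat_lit 126) (nat_lit 194) (nat_lit 190))) (PT.nd (nat_lit 78) (PT.lf (nat_lit 7220) (nat_lit 6) (nat_lit 95) (nat_lit 4) (nat_lit 127) (nat_lit 194) (nat_lit 189)) (PT.lf (nat_lit 7448) (nat_lit 6) (nat_lit 98) (nat_lit 4) (nat_lit 128) (nat_lit 194) (nat_lit 188)))) (PT.nd (nat_lit 156) (PT.nd (nat_lit 78) (PT.lf (nat_lit 7448) (nat_lit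 6) (nat_lit 98) (nat_lit 2) (nat_lit 188) (nat_lit 194) (nat_lit 128)) (PT.lf (nat_lit 7220) (nat_lit 6) (nat_lit 95) (nat_lit 2) (nat_lit 189) (nat_lit 194) (nat_lit 127))) (PT.nd (nat_lit 78) (PT.lf (nat_lit 6992) (nat_lit 6) (nat_lit 92) (nat_lit 2) (nat_lit 190) (nat_lit 194) (nat_lit 126)) (PT.nd (nat_lit 78) (PT.lf (nat_lit 6764) (nat_lit 6) (nat_lit 89) (nat_lit 2) (nat_lit 191) (nat_lit 194) (nat_lit 125)) (PT.lf (nat_lit 6536) (nat_lit 6) (nat_lit 86) (nat_lit 2) (nat_lit 192) (nat_lit 194) (nat_lit 124))))))))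
noncomputable def pc56 : PT := (PT.nd (nat_lit 52806) (PT.nd (nat_lit 47268) (PT.nd (nat_lit 312) (PT.nd (nat_lit 156) (PT.nd (nat_lit 78) (PT.lf (nat_lit 6384) (nat_lit 6) (nat_lit 84) (nat_lit 2) (nat_lit 193) (nat_lit 194) (nat_lit 123)) (PT.lf (nat_lit 6156) (nat_lit 3) (nat_lit 81) (nat_lit 0) (nat_lit 194) (nat_lit 194) (nat_lit 122))) (PT.nd (nat_lit 78) (PT.lf (nat_lit 5928) (nat_lit 6) (nat_lit 78) (nat_lit 0) (nat_lit 195) (nat_lit 194) (nat_lit 121)) (PT.lf (nat_lit 5624) (nat_lit 6) (nat_lit 74) (nat_lit 0) (nat_lit 196) (nat_lit 194) (nat_lit 120)))) (PT.nd (nat_lit 46800) (PT.nd (nat_lit 78) (PT.lf (nat_lit 5396) (nat_lit 6) (nat_lit 71) (nat_lit 0) (nat_lit 197) (nat_lit 194) (nat_lit 119)) (PT.lf (nat_lit 5168) (nat_lit 6) (nat_lit 68) (nat_lit 0) (nat_lit 198) (nat_lit 194) (nat_lit 118))) (PT.nd (nat_lit 78) (PT.lf (nat_lit 4788) (nat_lit 6) (nat_lit 63) (nat_lit 5) (nat_lit 116) (nat_lit 195)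 (nat_lit 199)) (PT.lf (nat_lit 5016) (nat_lit 6) (nat_lit 66) (nat_lit 5) (nat_lit 117) (nat_lit 195) (nat_lit 198))))) (PT.nd (nat_lit 312) (PT.nd (nat_lit 156) (PT.nd (nat_lit 78) (PT.lf (nat_lit 5244) (nat_lit 6) (nat_lit 69) (nat_lit 5) (nat_lit 118) (nat_lit 195) (nat_lit 197)) (PT.lf (nat_lit 5472) (nat_lit 6) (nat_lit 72) (nat_lit 5) (nat_lit 119) (nat_lit 195) (nat_lit 196))) (PT.nd (nat_lit 78) (PT.lf (nat_lit 5700) (nat_lit 3) (nat_lit 75) (nat_lit 4) (nat_lit 120) (nat_lit 195) (nat_lit 195)) (PT.lf (nat_lit 5928) (nat_lit 6) (nat_lit 78) (nat_lit 4) (nat_lit 121) (nat_lit 195) (nat_lit 194)))) (PT.nd (nat_lit 156) (PT.nd (nat_lit 78) (PT.lf (nat_lit 6080) (nat_lit 6) (nat_lit 80) (nat_lit 4) (nat_lit 122) (nat_lit 195) (nat_lit 193)) (PT.lf (nat_lit 6308) (nat_lit 6) (nat_lit 83) (nat_lit 4) (nat_lit 123) (nat_lit 195) (nat_lit 192))) (PT.nd (nat_lit 78) (PT.lf (nat_lit 6460) (nat_lit 6) (nat_lit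 85) (nat_lit 4) (nat_lit 124) (nat_lit 195) (nat_lit 191)) (PT.nd (nat_lit 78) (PT.lf (nat_lit 6688) (nat_lit 6) (nat_lit 88) (nat_lit 4) (nat_lit 125) (nat_lit 195) (nat_lit 190)) (PT.lf (nat_lit 6916) (nat_lit 6) (nat_lit 91) (nat_lit 4) (nat_lit 126) (nat_lit 195) (nat_lit 189))))))) (PT.nd (nat_lit 624) (PT.nd (nat_lit 312) (PT.nd (nat_lit 156) (PT.nd (nat_lit 78) (PT.lf (nat_lit 6916) (nat_lit 6) (nat_lit 91) (nat_lit 2) (nat_lit 189) (nat_lit 195) (nat_lit 126)) (PT.lf (nat_lit 6688) (nat_lit 6) (nat_lit 88) (nat_lit 2) (nat_lit 190) (nat_lit 195) (nat_lit 125))) (PT.nd (nat_lit 78) (PT.lf (nat_lit 6460) (nat_lit 6) (nat_lit 85) (nat_lit 2) (nat_lit 191) (nat_lit 195) (nat_lit 124)) (PT.lf (nat_lit 6308) (nat_lit 6) (nat_lit 83) (nat_lit 2) (nat_lit 192) (nat_lit 195) (nat_lit 123)))) (PT.nd (nat_lit 156) (PT.nd (nat_lit 78) (PT.lf (nat_lit 6080) (nat_lit 6) (nat_lit 80) (nat_lit 2) (nat_lit 193) (nat_lit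 195) (nat_lit 122)) (PT.lf (nat_lit 5928) (nat_lit 6) (nat_lit 78) (nat_lit 2) (nat_lit 194) (nat_lit 195) (nat_lit 121))) (PT.nd (nat_lit 78) (PT.lf (nat_lit 5700) (nat_lit 3) (nat_lit 75) (nat_lit 0) (nat_lit 195) (nat_lit 195) (nat_lit 120)) (PT.lf (nat_lit 5472) (nat_lit 6) (nat_lit 72) (nat_lit 0) (nat_lit 196) (nat_lit 195) (nat_lit 119))))) (PT.nd (nat_lit 46722) (PT.nd (nat_lit 156) (PT.nd (nat_lit 78) (PT.lf (nat_lit 5244) (nat_lit 6) (nat_lit 69) (nat_lit 0) (nat_lit 197) (nat_lit 195) (nat_lit 118)) (PT.lf (nat_lit 5016) (nat_lit 6) (nat_lit 66) (nat_lit 0) (nat_lit 198) (nat_lit 195) (nat_lit 117))) (PT.nd (nat_lit 46488) (PT.lf (nat_lit 4788) (nat_lit 6) (nat_lit 63) (nat_lit 0) (nat_lit 199) (nat_lit 195) (nat_lit 116)) (PT.lf (nat_lit 4408) (nat_lit 6) (nat_lit 58) (nat_lit 5) (nat_lit 114) (nat_lit 196) (nat_lit 200)))) (PT.nd (nat_lit 156) (PT.nd (nat_lit 78) (PT.lf (nat_lit 4636) (nat_lit 6)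 (nat_lit 61) (nat_lit 5) (nat_lit 115) (nat_lit 196) (nat_lit 199)) (PT.lf (nat_lit 4864) (nat_lit 6) (nat_lit 64) (nat_lit 5) (nat_lit 116) (nat_lit 196) (nat_lit 198))) (PT.nd (nat_lit 78) (PT.lf (nat_lit 5092) (nat_lit 6) (nat_lit 67) (nat_lit 5) (nat_lit 117) (nat_lit 196) (nat_lit 197)) (PT.nd (nat_lit 78) (PT.lf (nat_lit 5320) (nat_lit 3) (nat_lit 70) (nat_lit 4) (nat_lit 118) (nat_lit 196) (nat_lit 196)) (PT.lf (nat_lit 5472) (nat_lit 6) (nat_lit 72) (nat_lit 4) (nat_lit 119) (nat_lit 196) (nat_lit 195))))))))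
noncomputable def pc57 : PT := (PT.nd (nat_lit 52806) (PT.nd (nat_lit 5850) (PT.nd (nat_lit 5538) (PT.nd (nat_lit 156) (PT.nd (nat_lit 78) (PT.lf (nat_lit 5624) (nat_lit 6) (nat_lit 74) (nat_lit 4) (nat_lit 120) (nat_lit 196) (nat_lit 194)) (PT.lf (nat_lit 5852) (nat_lit 6) (nat_lit 77) (nat_lit 4) (nat_lit 121) (nat_lit 196) (nat_lit 193))) (PT.nd (nat_lit 78) (PT.lf (nat_lit 6004) (nat_lit 6) (nat_lit 79) (nat_lit 4) (nat_lit 122) (nat_lit 196) (nat_lit 192)) (PT.lf (nat_lit 6232) (nat_lit 6) (nat_lit 82) (nat_lit 4) (nat_lit 123) (nat_lit 196) (nat_lit 191)))) (PT.nd (nat_lit 156) (PT.nd (nat_lit 78) (PT.lf (nat_lit 6232) (nat_lit 6) (nat_lit 82) (nat_lit 2) (nat_lit 191) (nat_lit 196) (nat_lit 123)) (PT.lf (nat_lit 6004) (nat_lit 6) (nat_lit 79) (nat_lit 2) (nat_lit 192) (nat_lit 196) (nat_lit 122))) (PT.nd (nat_lit 78) (PT.lf (nat_lit 5852) (nat_lit 6) (nat_lit 77) (nat_lit 2) (nat_lit 193) (nat_lit 196)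 (nat_lit 121)) (PT.lf (nat_lit 5624) (nat_lit 6) (nat_lit 74) (nat_lit 2) (nat_lit 194) (nat_lit 196) (nat_lit 120))))) (PT.nd (nat_lit 312) (PT.nd (nat_lit 156) (PT.nd (nat_lit 78) (PT.lf (nat_lit 5472) (nat_lit 6) (nat_lit 72) (nat_lit 2) (nat_lit 195) (nat_lit 196) (nat_lit 119)) (PT.lf (nat_lit 5320) (nat_lit 3) (nat_lit 70) (nat_lit 0) (nat_lit 196) (nat_lit 196) (nat_lit 118))) (PT.nd (nat_lit 78) (PT.lf (nat_lit 5092) (nat_lit 6) (nat_lit 67) (nat_lit 0) (nat_lit 197) (nat_lit 196) (nat_lit 117)) (PT.lf (nat_lit 4864) (nat_lit 6) (nat_lit 64) (nat_lit 0) (nat_lit 198) (nat_lit 196) (nat_lit 116)))) (PT.nd (nat_lit 46410) (PT.nd (nat_lit 78) (PT.lf (nat_lit 4636) (nat_lit 6) (nat_lit 61) (nat_lit 0) (nat_lit 199) (nat_lit 196) (nat_lit 115)) (PT.lf (nat_lit 4408) (nat_lit 6) (nat_lit 58) (nat_lit 0) (nat_lit 200) (nat_lit 196) (nat_lit 114))) (PT.nd (nat_lit 78) (PT.lf (nat_lit 4256) (nat_lit 6) (nat_lit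 56) (nat_lit 5) (nat_lit 113) (nat_lit 197) (nat_lit 200)) (PT.nd (nat_lit 78) (PT.lf (nat_lit 4484) (nat_lit 6) (nat_lit 59) (nat_lit 5) (nat_lit 114) (nat_lit 197) (nat_lit 199)) (PT.lf (nat_lit 4712) (nat_lit 6) (nat_lit 62) (nat_lit 5) (nat_lit 115) (nat_lit 197) (nat_lit 198))))))) (PT.nd (nat_lit 6084) (PT.nd (nat_lit 312) (PT.nd (nat_lit 156) (PT.nd (nat_lit 78) (PT.lf (nat_lit 4940) (nat_lit 3) (nat_lit 65) (nat_lit 4) (nat_lit 116) (nat_lit 197) (nat_lit 197)) (PT.lf (nat_lit 5092) (nat_lit 6) (nat_lit 67) (nat_lit 4) (nat_lit 117) (nat_lit 197) (nat_lit 196))) (PT.nd (nat_lit 78) (PT.lf (nat_lit 5244) (nat_lit 6) (nat_lit 69) (nat_lit 4) (nat_lit 118) (nat_lit 197) (nat_lit 195)) (PT.lf (nat_lit 5396) (nat_lit 6) (nat_lit 71) (nat_lit 4) (nat_lit 119) (nat_lit 197) (nat_lit 194)))) (PT.nd (nat_lit 5616) (PT.nd (nat_lit 78) (PT.lf (nat_lit 5548) (nat_lit 6) (nat_lit 73) (nat_lit 4) (nat_lit 120) (nat_lit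 197) (nat_lit 193)) (PT.lf (nat_lit 5776) (nat_lit 6) (nat_lit 76) (nat_lit 4) (nat_lit 121) (nat_lit 197) (nat_lit 192))) (PT.nd (nat_lit 78) (PT.lf (nat_lit 5776) (nat_lit 6) (nat_lit 76) (nat_lit 2) (nat_lit 192) (nat_lit 197) (nat_lit 121)) (PT.lf (nat_lit 5548) (nat_lit 6) (nat_lit 73) (nat_lit 2) (nat_lit 193) (nat_lit 197) (nat_lit 120))))) (PT.nd (nat_lit 312) (PT.nd (nat_lit 156) (PT.nd (nat_lit 78) (PT.lf (nat_lit 5396) (nat_lit 6) (nat_lit 71) (nat_lit 2) (nat_lit 194) (nat_lit 197) (nat_lit 119)) (PT.lf (nat_lit 5244) (nat_lit 6) (nat_lit 69) (nat_lit 2) (nat_lit 195) (nat_lit 197) (nat_lit 118))) (PT.nd (nat_lit 78) (PT.lf (nat_lit 5092) (nat_lit 6) (nat_lit 67) (nat_lit 2) (nat_lit 196) (nat_lit 197) (nat_lit 117)) (PT.lf (nat_lit 4940) (nat_lit 3) (nat_lit 65) (nat_lit 0) (nat_lit 197) (nat_lit 197) (nat_lit 116)))) (PT.nd (nat_lit 156) (PT.nd (nat_lit 78) (PT.lf (nat_lit 4712) (nat_lit 6) (nat_lit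 62) (nat_lit 0) (nat_lit 198) (nat_lit 197) (nat_lit 115)) (PT.lf (nat_lit 4484) (nat_lit 6) (nat_lit 59) (nat_lit 0) (nat_lit 199) (nat_lit 197) (nat_lit 114))) (PT.nd (nat_lit 46176) (PT.lf (nat_lit 4256) (nat_lit 6) (nat_lit 56) (nat_lit 0) (nat_lit 200) (nat_lit 197) (nat_lit 113)) (PT.nd (nat_lit 78) (PT.lf (nat_lit 3952) (nat_lit 6) (nat_lit 52) (nat_lit 5) (nat_lit 111) (nat_lit 198) (nat_lit 201)) (PT.lf (nat_lit 4104) (nat_lit 6) (nat_lit 54) (nat_lit 5) (nat_lit 112) (nat_lit 198) (nat_lit 200))))))))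
noncomputable def pc58 : PT := (PT.nd (nat_lit 53040) (PT.nd (nat_lit 6474) (PT.nd (nat_lit 312) (PT.nd (nat_lit 156) (PT.nd (nat_lit 78) (PT.lf (nat_lit 4332) (nat_lit 6) (nat_lit 57) (nat_lit 5) (nat_lit 113) (nat_lit 198) (nat_lit 199)) (PT.lf (nat_lit 4560) (nat_lit 3) (nat_lit 60) (nat_lit 4) (nat_lit 114) (nat_lit 198) (nat_lit 198))) (PT.nd (nat_lit 78) (PT.lf (nat_lit 4712) (nat_lit 6) (nat_lit 62) (nat_lit 4) (nat_lit 115) (nat_lit 198) (nat_lit 197)) (PT.lf (nat_lit 4864) (nat_lit 6) (nat_lit 64) (nat_lit 4) (nat_lit 116) (nat_lit 198) (nat_lit 196)))) (PT.nd (nat_lit 6006) (PT.nd (nat_lit 78) (PT.lf (nat_lit 5016) (nat_lit 6) (nat_lit 66) (nat_lit 4) (nat_lit 117) (nat_lit 198) (nat_lit 195)) (PT.lf (nat_lit 5168) (nat_lit 6) (nat_lit 68) (nat_lit 4) (nat_lit 118) (nat_lit 198) (nat_lit 194))) (PT.nd (nat_lit 78) (PT.lf (nat_lit 5168) (nat_lit 6) (nat_lit 68) (nat_lit 2) (nat_lit 194) (nat_lit 198)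 (nat_lit 118)) (PT.lf (nat_lit 5016) (nat_lit 6) (nat_lit 66) (nat_lit 2) (nat_lit 195) (nat_lit 198) (nat_lit 117))))) (PT.nd (nat_lit 312) (PT.nd (nat_lit 156) (PT.nd (nat_lit 78) (PT.lf (nat_lit 4864) (nat_lit 6) (nat_lit 64) (nat_lit 2) (nat_lit 196) (nat_lit 198) (nat_lit 116)) (PT.lf (nat_lit 4712) (nat_lit 6) (nat_lit 62) (nat_lit 2) (nat_lit 197) (nat_lit 198) (nat_lit 115))) (PT.nd (nat_lit 78) (PT.lf (nat_lit 4560) (nat_lit 3) (nat_lit 60) (nat_lit 0) (nat_lit 198) (nat_lit 198) (nat_lit 114)) (PT.lf (nat_lit 4332) (nat_lit 6) (nat_lit 57) (nat_lit 0) (nat_lit 199) (nat_lit 198) (nat_lit 113)))) (PT.nd (nat_lit 46020) (PT.nd (nat_lit 78) (PT.lf (nat_lit 4104) (nat_lit 6) (nat_lit 54) (nat_lit 0) (nat_lit 200) (nat_lit 198) (nat_lit 112)) (PT.lf (nat_lit 3952) (nat_lit 6) (nat_lit 52) (nat_lit 0) (nat_lit 201) (nat_lit 198) (nat_lit 111))) (PT.nd (nat_lit 78) (PT.lf (nat_lit 3648) (nat_lit 6) (nat_lit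 48) (nat_lit 5) (nat_lit 109) (nat_lit 199) (nat_lit 202)) (PT.nd (nat_lit 78) (PT.lf (nat_lit 3800) (nat_lit 6) (nat_lit 50) (nat_lit 5) (nat_lit 110) (nat_lit 199) (nat_lit 201)) (PT.lf (nat_lit 4028) (nat_lit 6) (nat_lit 53) (nat_lit 5) (nat_lit 111) (nat_lit 199) (nat_lit 200))))))) (PT.nd (nat_lit 6708) (PT.nd (nat_lit 312) (PT.nd (nat_lit 156) (PT.nd (nat_lit 78) (PT.lf (nat_lit 4180) (nat_lit 3) (nat_lit 55) (nat_lit 4) (nat_lit 112) (nat_lit 199) (nat_lit 199)) (PT.lf (nat_lit 4332) (nat_lit 6) (nat_lit 57) (nat_lit 4) (nat_lit 113) (nat_lit 199) (nat_lit 198))) (PT.nd (nat_lit 78) (PT.lf (nat_lit 4484) (nat_lit 6) (nat_lit 59) (nat_lit 4) (nat_lit 114) (nat_lit 199) (nat_lit 197)) (PT.lf (nat_lit 4636) (nat_lit 6) (nat_lit 61) (nat_lit 4) (nat_lit 115) (nat_lit 199) (nat_lit 196)))) (PT.nd (nat_lit 6240) (PT.nd (nat_lit 6162) (PT.lf (nat_lit 4788) (nat_lit 6) (nat_lit 63) (nat_lit 4) (nat_lit 116) (nat_lit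 199) (nat_lit 195)) (PT.lf (nat_lit 4788) (nat_lit 6) (nat_lit 63) (nat_lit 2) (nat_lit 195) (nat_lit 199) (nat_lit 116))) (PT.nd (nat_lit 78) (PT.lf (nat_lit 4636) (nat_lit 6) (nat_lit 61) (nat_lit 2) (nat_lit 196) (nat_lit 199) (nat_lit 115)) (PT.lf (nat_lit 4484) (nat_lit 6) (nat_lit 59) (nat_lit 2) (nat_lit 197) (nat_lit 199) (nat_lit 114))))) (PT.nd (nat_lit 312) (PT.nd (nat_lit 156) (PT.nd (nat_lit 78) (PT.lf (nat_lit 4332) (nat_lit 6) (nat_lit 57) (nat_lit 2) (nat_lit 198) (nat_lit 199) (nat_lit 113)) (PT.lf (nat_lit 4180) (nat_lit 3) (nat_lit 55) (nat_lit 0) (nat_lit 199) (nat_lit 199) (nat_lit 112))) (PT.nd (nat_lit 78) (PT.lf (nat_lit 4028) (nat_lit 6) (nat_lit 53) (nat_lit 0) (nat_lit 200) (nat_lit 199) (nat_lit 111)) (PT.lf (nat_lit 3800) (nat_lit 6) (nat_lit 50) (nat_lit 0) (nat_lit 201) (nat_lit 199) (nat_lit 110)))) (PT.nd (nat_lit 45786) (PT.nd (nat_lit 45708) (PT.lf (nat_lit 3648) (nat_lit 6)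 (nat_lit 48) (nat_lit 0) (nat_lit 202) (nat_lit 199) (nat_lit 109)) (PT.lf (nat_lit 3344) (nat_lit 6) (nat_lit 44) (nat_lit 5) (nat_lit 107) (nat_lit 200) (nat_lit 203))) (PT.nd (nat_lit 78) (PT.lf (nat_lit 3496) (nat_lit 6) (nat_lit 46) (nat_lit 5) (nat_lit 108) (nat_lit 200) (nat_lit 202)) (PT.nd (nat_lit 78) (PT.lf (nat_lit 3724) (nat_lit 6) (nat_lit 49) (nat_lit 5) (nat_lit 109) (nat_lit 200) (nat_lit 201)) (PT.lf (nat_lit 3876) (nat_lit 3) (nat_lit 51) (nat_lit 4) (nat_lit 110) (nat_lit 200) (nat_lit 200))))))))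
noncomputable def pc59 : PT := (PT.nd (nat_lit 53040) (PT.nd (nat_lit 6942) (PT.nd (nat_lit 6630) (PT.nd (nat_lit 156) (PT.nd (nat_lit 78) (PT.lf (nat_lit 4028) (nat_lit 6) (nat_lit 53) (nat_lit 4) (nat_lit 111) (nat_lit 200) (nat_lit 199)) (PT.lf (nat_lit 4104) (nat_lit 6) (nat_lit 54) (nat_lit 4) (nat_lit 112) (nat_lit 200) (nat_lit 198))) (PT.nd (nat_lit 78) (PT.lf (nat_lit 4256) (nat_lit 6) (nat_lit 56) (nat_lit 4) (nat_lit 113) (nat_lit 200) (nat_lit 197)) (PT.lf (nat_lit 4408) (nat_lit 6) (nat_lit 58) (nat_lit 4) (nat_lit 114) (nat_lit 200) (nat_lit 196)))) (PT.nd (nat_lit 156) (PT.nd (nat_lit 78) (PT.lf (nat_lit 4408) (nat_lit 6) (nat_lit 58) (nat_lit 2) (nat_lit 196) (nat_lit 200) (nat_lit 114)) (PT.lf (nat_lit 4256) (nat_lit 6) (nat_lit 56) (nat_lit 2) (nat_lit 197) (nat_lit 200) (nat_lit 113))) (PT.nd (nat_lit 78) (PT.lf (nat_lit 4104) (nat_lit 6) (nat_lit 54) (nat_lit 2) (nat_lit 198) (nat_lit 200)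 (nat_lit 112)) (PT.lf (nat_lit 4028) (nat_lit 6) (nat_lit 53) (nat_lit 2) (nat_lit 199) (nat_lit 200) (nat_lit 111))))) (PT.nd (nat_lit 45708) (PT.nd (nat_lit 156) (PT.nd (nat_lit 78) (PT.lf (nat_lit 3876) (nat_lit 3) (nat_lit 51) (nat_lit 0) (nat_lit 200) (nat_lit 200) (nat_lit 110)) (PT.lf (nat_lit 3724) (nat_lit 6) (nat_lit 49) (nat_lit 0) (nat_lit 201) (nat_lit 200) (nat_lit 109))) (PT.nd (nat_lit 78) (PT.lf (nat_lit 3496) (nat_lit 6) (nat_lit 46) (nat_lit 0) (nat_lit 202) (nat_lit 200) (nat_lit 108)) (PT.lf (nat_lit 3344) (nat_lit 6) (nat_lit 44) (nat_lit 0) (nat_lit 203) (nat_lit 200) (nat_lit 107)))) (PT.nd (nat_lit 156) (PT.nd (nat_lit 78) (PT.lf (nat_lit 3040) (nat_lit 6) (nat_lit 40) (nat_lit 5) (nat_lit 105) (nat_lit 201) (nat_lit 204)) (PT.lf (nat_lit 3192) (nat_lit 6) (nat_lit 42) (nat_lit 5) (nat_lit 106) (nat_lit 201) (nat_lit 203))) (PT.nd (nat_lit 78) (PT.lf (nat_lit 3420) (nat_lit 6) (nat_lit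 45) (nat_lit 5) (nat_lit 107) (nat_lit 201) (nat_lit 202)) (PT.nd (nat_lit 78) (PT.lf (nat_lit 3572) (nat_lit 3) (nat_lit 47) (nat_lit 4) (nat_lit 108) (nat_lit 201) (nat_lit 201)) (PT.lf (nat_lit 3724) (nat_lit 6) (nat_lit 49) (nat_lit 4) (nat_lit 109) (nat_lit 201) (nat_lit 200))))))) (PT.nd (nat_lit 7332) (PT.nd (nat_lit 7020) (PT.nd (nat_lit 6864) (PT.nd (nat_lit 78) (PT.lf (nat_lit 3800) (nat_lit 6) (nat_lit 50) (nat_lit 4) (nat_lit 110) (nat_lit 201) (nat_lit 199)) (PT.lf (nat_lit 3952) (nat_lit 6) (nat_lit 52) (nat_lit 4) (nat_lit 111) (nat_lit 201) (nat_lit 198))) (PT.nd (nat_lit 78) (PT.lf (nat_lit 3952) (nat_lit 6) (nat_lit 52) (nat_lit 2) (nat_lit 198) (nat_lit 201) (nat_lit 111)) (PT.lf (nat_lit 3800) (nat_lit 6) (nat_lit 50) (nat_lit 2) (nat_lit 199) (nat_lit 201) (nat_lit 110)))) (PT.nd (nat_lit 156) (PT.nd (nat_lit 78) (PT.lf (nat_lit 3724) (nat_lit 6) (nat_lit 49) (nat_lit 2) (nat_lit 200) (nat_lit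 201) (nat_lit 109)) (PT.lf (nat_lit 3572) (nat_lit 3) (nat_lit 47) (nat_lit 0) (nat_lit 201) (nat_lit 201) (nat_lit 108))) (PT.nd (nat_lit 78) (PT.lf (nat_lit 3420) (nat_lit 6) (nat_lit 45) (nat_lit 0) (nat_lit 202) (nat_lit 201) (nat_lit 107)) (PT.lf (nat_lit 3192) (nat_lit 6) (nat_lit 42) (nat_lit 0) (nat_lit 203) (nat_lit 201) (nat_lit 106))))) (PT.nd (nat_lit 45474) (PT.nd (nat_lit 45318) (PT.nd (nat_lit 45240) (PT.lf (nat_lit 3040) (nat_lit 6) (nat_lit 40) (nat_lit 0) (nat_lit 204) (nat_lit 201) (nat_lit 105)) (PT.lf (nat_lit 2736) (nat_lit 6) (nat_lit 36) (nat_lit 5) (nat_lit 103) (nat_lit 202) (nat_lit 205))) (PT.nd (nat_lit 78) (PT.lf (nat_lit 2888) (nat_lit 6) (nat_lit 38) (nat_lit 5) (nat_lit 104) (nat_lit 202) (nat_lit 204)) (PT.lf (nat_lit 3116) (nat_lit 6) (nat_lit 41) (nat_lit 5) (nat_lit 105) (nat_lit 202) (nat_lit 203)))) (PT.nd (nat_lit 156) (PT.nd (nat_lit 78) (PT.lf (nat_lit 3268) (nat_lit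 3) (nat_lit 43) (nat_lit 4) (nat_lit 106) (nat_lit 202) (nat_lit 202)) (PT.lf (nat_lit 3420) (nat_lit 6) (nat_lit 45) (nat_lit 4) (nat_lit 107) (nat_lit 202) (nat_lit 201))) (PT.nd (nat_lit 78) (PT.lf (nat_lit 3496) (nat_lit 6) (nat_lit 46) (nat_lit 4) (nat_lit 108) (nat_lit 202) (nat_lit 200)) (PT.nd (nat_lit 7020) (PT.lf (nat_lit 3648) (nat_lit 6) (nat_lit 48) (nat_lit 4) (nat_lit 109) (nat_lit 202) (nat_lit 199)) (PT.lf (nat_lit 3648) (nat_lit 6) (nat_lit 48) (nat_lit 2) (nat_lit 199) (nat_lit 202) (nat_lit 109))))))))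
noncomputable def pc60 : PT := (PT.nd (nat_lit 53508) (PT.nd (nat_lit 45630) (PT.nd (nat_lit 312) (PT.nd (nat_lit 156) (PT.nd (nat_lit 78) (PT.lf (nat_lit 3496) (nat_lit 6) (nat_lit 46) (nat_lit 2) (nat_lit 200) (nat_lit 202) (nat_lit 108)) (PT.lf (nat_lit 3420) (nat_lit 6) (nat_lit 45) (nat_lit 2) (nat_lit 201) (nat_lit 202) (nat_lit 107))) (PT.nd (nat_lit 78) (PT.lf (nat_lit 3268) (nat_lit 3) (nat_lit 43) (nat_lit 0) (nat_lit 202) (nat_lit 202) (nat_lit 106)) (PT.lf (nat_lit 3116) (nat_lit 6) (nat_lit 41) (nat_lit 0) (nat_lit 203) (nat_lit 202) (nat_lit 105)))) (PT.nd (nat_lit 45162) (PT.nd (nat_lit 78) (PT.lf (nat_lit 2888) (nat_lit 6) (nat_lit 38) (nat_lit 0) (nat_lit 204) (nat_lit 202) (nat_lit 104)) (PT.lf (nat_lit 2736) (nat_lit 6) (nat_lit 36) (nat_lit 0) (nat_lit 205) (nat_lit 202) (nat_lit 103))) (PT.nd (nat_lit 78) (PT.lf (nat_lit 2584) (nat_lit 6) (nat_lit 34) (nat_lit 5) (nat_lit 102) (nat_lit 203)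 (nat_lit 205)) (PT.lf (nat_lit 2812) (nat_lit 6) (nat_lit 37) (nat_lit 5) (nat_lit 103) (nat_lit 203) (nat_lit 204))))) (PT.nd (nat_lit 7488) (PT.nd (nat_lit 156) (PT.nd (nat_lit 78) (PT.lf (nat_lit 2964) (nat_lit 3) (nat_lit 39) (nat_lit 4) (nat_lit 104) (nat_lit 203) (nat_lit 203)) (PT.lf (nat_lit 3116) (nat_lit 6) (nat_lit 41) (nat_lit 4) (nat_lit 105) (nat_lit 203) (nat_lit 202))) (PT.nd (nat_lit 78) (PT.lf (nat_lit 3192) (nat_lit 6) (nat_lit 42) (nat_lit 4) (nat_lit 106) (nat_lit 203) (nat_lit 201)) (PT.lf (nat_lit 3344) (nat_lit 6) (nat_lit 44) (nat_lit 4) (nat_lit 107) (nat_lit 203) (nat_lit 200)))) (PT.nd (nat_lit 156) (PT.nd (nat_lit 78) (PT.lf (nat_lit 3344) (nat_lit 6) (nat_lit 44) (nat_lit 2) (nat_lit 200) (nat_lit 203) (nat_lit 107)) (PT.lf (nat_lit 3192) (nat_lit 6) (nat_lit 42) (nat_lit 2) (nat_lit 201) (nat_lit 203) (nat_lit 106))) (PT.nd (nat_lit 78) (PT.lf (nat_lit 3116) (nat_lit 6) (nat_lit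 41) (nat_lit 2) (nat_lit 202) (nat_lit 203) (nat_lit 105)) (PT.nd (nat_lit 78) (PT.lf (nat_lit 2964) (nat_lit 3) (nat_lit 39) (nat_lit 0) (nat_lit 203) (nat_lit 203) (nat_lit 104)) (PT.lf (nat_lit 2812) (nat_lit 6) (nat_lit 37) (nat_lit 0) (nat_lit 204) (nat_lit 203) (nat_lit 103))))))) (PT.nd (nat_lit 52884) (PT.nd (nat_lit 45162) (PT.nd (nat_lit 45006) (PT.nd (nat_lit 44928) (PT.lf (nat_lit 2584) (nat_lit 6) (nat_lit 34) (nat_lit 0) (nat_lit 205) (nat_lit 203) (nat_lit 102)) (PT.lf (nat_lit 2356) (nat_lit 6) (nat_lit 31) (nat_lit 5) (nat_lit 100) (nat_lit 204) (nat_lit 206))) (PT.nd (nat_lit 78) (PT.lf (nat_lit 2508) (nat_lit 6) (nat_lit 33) (nat_lit 5) (nat_lit 101) (nat_lit 204) (nat_lit 205)) (PT.lf (nat_lit 2660) (nat_lit 3) (nat_lit 35) (nat_lit 4) (nat_lit 102) (nat_lit 204) (nat_lit 204)))) (PT.nd (nat_lit 156) (PT.nd (nat_lit 78) (PT.lf (nat_lit 2812) (nat_lit 6) (nat_lit 37) (nat_lit 4) (nat_lit 103)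 (nat_lit 204) (nat_lit 203)) (PT.lf (nat_lit 2888) (nat_lit 6) (nat_lit 38) (nat_lit 4) (nat_lit 104) (nat_lit 204) (nat_lit 202))) (PT.nd (nat_lit 7488) (PT.lf (nat_lit 3040) (nat_lit 6) (nat_lit 40) (nat_lit 4) (nat_lit 105) (nat_lit 204) (nat_lit 201)) (PT.lf (nat_lit 3040) (nat_lit 6) (nat_lit 40) (nat_lit 2) (nat_lit 201) (nat_lit 204) (nat_lit 105))))) (PT.nd (nat_lit 312) (PT.nd (nat_lit 156) (PT.nd (nat_lit 78) (PT.lf (nat_lit 2888) (nat_lit 6) (nat_lit 38) (nat_lit 2) (nat_lit 202) (nat_lit 204) (nat_lit 104)) (PT.lf (nat_lit 2812) (nat_lit 6) (nat_lit 37) (nat_lit 2) (nat_lit 203) (nat_lit 204) (nat_lit 103))) (PT.nd (nat_lit 78) (PT.lf (nat_lit 2660) (nat_lit 3) (nat_lit 35) (nat_lit 0) (nat_lit 204) (nat_lit 204) (nat_lit 102)) (PT.lf (nat_lit 2508) (nat_lit 6) (nat_lit 33) (nat_lit 0) (nat_lit 205) (nat_lit 204) (nat_lit 101)))) (PT.nd (nat_lit 44772) (PT.nd (nat_lit 44694) (PT.lf (nat_lit 2356)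 (nat_lit 6) (nat_lit 31) (nat_lit 0) (nat_lit 206) (nat_lit 204) (nat_lit 100)) (PT.lf (nat_lit 2128) (nat_lit 6) (nat_lit 28) (nat_lit 5) (nat_lit 98) (nat_lit 205) (nat_lit 207))) (PT.nd (nat_lit 78) (PT.lf (nat_lit 2280) (nat_lit 6) (nat_lit 30) (nat_lit 5) (nat_lit 99) (nat_lit 205) (nat_lit 206)) (PT.nd (nat_lit 78) (PT.lf (nat_lit 2432) (nat_lit 3) (nat_lit 32) (nat_lit 4) (nat_lit 100) (nat_lit 205) (nat_lit 205)) (PT.lf (nat_lit 2508) (nat_lit 6) (nat_lit 33) (nat_lit 4) (nat_lit 101) (nat_lit 205) (nat_lit 204))))))))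
noncomputable def pc61 : PT := (PT.nd (nat_lit 61386) (PT.nd (nat_lit 52650) (PT.nd (nat_lit 7956) (PT.nd (nat_lit 7800) (PT.nd (nat_lit 78) (PT.lf (nat_lit 2584) (nat_lit 6) (nat_lit 34) (nat_lit 4) (nat_lit 102) (nat_lit 205) (nat_lit 203)) (PT.lf (nat_lit 2736) (nat_lit 6) (nat_lit 36) (nat_lit 4) (nat_lit 103) (nat_lit 205) (nat_lit 202))) (PT.nd (nat_lit 78) (PT.lf (nat_lit 2736) (nat_lit 6) (nat_lit 36) (nat_lit 2) (nat_lit 202) (nat_lit 205) (nat_lit 103)) (PT.lf (nat_lit 2584) (nat_lit 6) (nat_lit 34) (nat_lit 2) (nat_lit 203) (nat_lit 205) (nat_lit 102)))) (PT.nd (nat_lit 156) (PT.nd (nat_lit 78) (PT.lf (nat_lit 2508) (nat_lit 6) (nat_lit 33) (nat_lit 2) (nat_lit 204) (nat_lit 205) (nat_lit 101)) (PT.lf (nat_lit 2432) (nat_lit 3) (nat_lit 32) (nat_lit 0) (nat_lit 205) (nat_lit 205) (nat_lit 100))) (PT.nd (nat_lit 78) (PT.lf (nat_lit 2280) (nat_lit 6) (nat_lit 30) (nat_lit 0) (nat_lit 206) (nat_lit 205)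 (nat_lit 99)) (PT.lf (nat_lit 2128) (nat_lit 6) (nat_lit 28) (nat_lit 0) (nat_lit 207) (nat_lit 205) (nat_lit 98))))) (PT.nd (nat_lit 312) (PT.nd (nat_lit 156) (PT.nd (nat_lit 78) (PT.lf (nat_lit 1900) (nat_lit 6) (nat_lit 25) (nat_lit 5) (nat_lit 96) (nat_lit 206) (nat_lit 208)) (PT.lf (nat_lit 2052) (nat_lit 6) (nat_lit 27) (nat_lit 5) (nat_lit 97) (nat_lit 206) (nat_lit 207))) (PT.nd (nat_lit 78) (PT.lf (nat_lit 2204) (nat_lit 3) (nat_lit 29) (nat_lit 4) (nat_lit 98) (nat_lit 206) (nat_lit 206)) (PT.lf (nat_lit 2280) (nat_lit 6) (nat_lit 30) (nat_lit 4) (nat_lit 99) (nat_lit 206) (nat_lit 205)))) (PT.nd (nat_lit 8190) (PT.nd (nat_lit 8112) (PT.lf (nat_lit 2356) (nat_lit 6) (nat_lit 31) (nat_lit 4) (nat_lit 100) (nat_lit 206) (nat_lit 204)) (PT.lf (nat_lit 2356) (nat_lit 6) (nat_lit 31) (nat_lit 2) (nat_lit 204) (nat_lit 206) (nat_lit 100))) (PT.nd (nat_lit 78) (PT.lf (nat_lit 2280) (nat_lit 6) (nat_lit 30)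 (nat_lit 2) (nat_lit 205) (nat_lit 206) (nat_lit 99)) (PT.nd (nat_lit 78) (PT.lf (nat_lit 2204) (nat_lit 3) (nat_lit 29) (nat_lit 0) (nat_lit 206) (nat_lit 206) (nat_lit 98)) (PT.lf (nat_lit 2052) (nat_lit 6) (nat_lit 27) (nat_lit 0) (nat_lit 207) (nat_lit 206) (nat_lit 97))))))) (PT.nd (nat_lit 53040) (PT.nd (nat_lit 44460) (PT.nd (nat_lit 44304) (PT.nd (nat_lit 44226) (PT.lf (nat_lit 1900) (nat_lit 6) (nat_lit 25) (nat_lit 0) (nat_lit 208) (nat_lit 206) (nat_lit 96)) (PT.lf (nat_lit 1672) (nat_lit 6) (nat_lit 22) (nat_lit 5) (nat_lit 94) (nat_lit 207) (nat_lit 209))) (PT.nd (nat_lit 78) (PT.lf (nat_lit 1824) (nat_lit 6) (nat_lit 24) (nat_lit 5) (nat_lit 95) (nat_lit 207) (nat_lit 208)) (PT.lf (nat_lit 1976) (nat_lit 3) (nat_lit 26) (nat_lit 4) (nat_lit 96) (nat_lit 207) (nat_lit 207)))) (PT.nd (nat_lit 8424) (PT.nd (nat_lit 78) (PT.lf (nat_lit 2052) (nat_lit 6) (nat_lit 27) (nat_lit 4) (nat_lit 97) (nat_lit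 207) (nat_lit 206)) (PT.lf (nat_lit 2128) (nat_lit 6) (nat_lit 28) (nat_lit 4) (nat_lit 98) (nat_lit 207) (nat_lit 205))) (PT.nd (nat_lit 78) (PT.lf (nat_lit 2128) (nat_lit 6) (nat_lit 28) (nat_lit 2) (nat_lit 205) (nat_lit 207) (nat_lit 98)) (PT.lf (nat_lit 2052) (nat_lit 6) (nat_lit 27) (nat_lit 2) (nat_lit 206) (nat_lit 207) (nat_lit 97))))) (PT.nd (nat_lit 44226) (PT.nd (nat_lit 156) (PT.nd (nat_lit 78) (PT.lf (nat_lit 1976) (nat_lit 3) (nat_lit 26) (nat_lit 0) (nat_lit 207) (nat_lit 207) (nat_lit 96)) (PT.lf (nat_lit 1824) (nat_lit 6) (nat_lit 24) (nat_lit 0) (nat_lit 208) (nat_lit 207) (nat_lit 95))) (PT.nd (nat_lit 43992) (PT.lf (nat_lit 1672) (nat_lit 6) (nat_lit 22) (nat_lit 0) (nat_lit 209) (nat_lit 207) (nat_lit 94)) (PT.lf (nat_lit 1444) (nat_lit 6) (nat_lit 19) (nat_lit 5) (nat_lit 92) (nat_lit 208) (nat_lit 210)))) (PT.nd (nat_lit 156) (PT.nd (nat_lit 78) (PT.lf (nat_lit 1596) (nat_lit 6) (nat_lit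 21) (nat_lit 5) (nat_lit 93) (nat_lit 208) (nat_lit 209)) (PT.lf (nat_lit 1748) (nat_lit 3) (nat_lit 23) (nat_lit 4) (nat_lit 94) (nat_lit 208) (nat_lit 208))) (PT.nd (nat_lit 78) (PT.lf (nat_lit 1824) (nat_lit 6) (nat_lit 24) (nat_lit 4) (nat_lit 95) (nat_lit 208) (nat_lit 207)) (PT.nd (nat_lit 8580) (PT.lf (nat_lit 1900) (nat_lit 6) (nat_lit 25) (nat_lit 4) (nat_lit 96) (nat_lit 208) (nat_lit 206)) (PT.lf (nat_lit 1900) (nat_lit 6) (nat_lit 25) (nat_lit 2) (nat_lit 206) (nat_lit 208) (nat_lit 96))))))))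
noncomputable def pc62 : PT := (PT.nd (nat_lit 97188) (PT.nd (nat_lit 44304) (PT.nd (nat_lit 43992) (PT.nd (nat_lit 156) (PT.nd (nat_lit 78) (PT.lf (nat_lit 1824) (nat_lit 6) (nat_lit 24) (nat_lit 2) (nat_lit 207) (nat_lit 208) (nat_lit 95)) (PT.lf (nat_lit 1748) (nat_lit 3) (nat_lit 23) (nat_lit 0) (nat_lit 208) (nat_lit 208) (nat_lit 94))) (PT.nd (nat_lit 78) (PT.lf (nat_lit 1596) (nat_lit 6) (nat_lit 21) (nat_lit 0) (nat_lit 209) (nat_lit 208) (nat_lit 93)) (PT.lf (nat_lit 1444) (nat_lit 6) (nat_lit 19) (nat_lit 0) (nat_lit 210) (nat_lit 208) (nat_lit 92)))) (PT.nd (nat_lit 156) (PT.nd (nat_lit 78) (PT.lf (nat_lit 1216) (nat_lit 6) (nat_lit 16) (nat_lit 5) (nat_lit 90) (nat_lit 209) (nat_lit 211)) (PT.lf (nat_lit 1368) (nat_lit 6) (nat_lit 18) (nat_lit 5) (nat_lit 91) (nat_lit 209) (nat_lit 210))) (PT.nd (nat_lit 78) (PT.lf (nat_lit 1520) (nat_lit 3) (nat_lit 20) (nat_lit 4) (nat_lit 92) (nat_lit 209) (nat_lit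 209)) (PT.lf (nat_lit 1596) (nat_lit 6) (nat_lit 21) (nat_lit 4) (nat_lit 93) (nat_lit 209) (nat_lit 208))))) (PT.nd (nat_lit 9048) (PT.nd (nat_lit 8892) (PT.nd (nat_lit 8814) (PT.lf (nat_lit 1672) (nat_lit 6) (nat_lit 22) (nat_lit 4) (nat_lit 94) (nat_lit 209) (nat_lit 207)) (PT.lf (nat_lit 1672) (nat_lit 6) (nat_lit 22) (nat_lit 2) (nat_lit 207) (nat_lit 209) (nat_lit 94))) (PT.nd (nat_lit 78) (PT.lf (nat_lit 1596) (nat_lit 6) (nat_lit 21) (nat_lit 2) (nat_lit 208) (nat_lit 209) (nat_lit 93)) (PT.lf (nat_lit 1520) (nat_lit 3) (nat_lit 20) (nat_lit 0) (nat_lit 209) (nat_lit 209) (nat_lit 92)))) (PT.nd (nat_lit 43602) (PT.nd (nat_lit 78) (PT.lf (nat_lit 1368) (nat_lit 6) (nat_lit 18) (nat_lit 0) (nat_lit 210) (nat_lit 209) (nat_lit 91)) (PT.lf (nat_lit 1216) (nat_lit 6) (nat_lit 16) (nat_lit 0) (nat_lit 211) (nat_lit 209) (nat_lit 90))) (PT.nd (nat_lit 78) (PT.lf (nat_lit 988) (nat_lit 6) (nat_lit 13) (nat_lit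 5) (nat_lit 88) (nat_lit 210) (nat_lit 212)) (PT.nd (nat_lit 78) (PT.lf (nat_lit 1140) (nat_lit 6) (nat_lit 15) (nat_lit 5) (nat_lit 89) (nat_lit 210) (nat_lit 211)) (PT.lf (nat_lit 1292) (nat_lit 3) (nat_lit 17) (nat_lit 4) (nat_lit 90) (nat_lit 210) (nat_lit 210))))))) (PT.nd (nat_lit 52806) (PT.nd (nat_lit 9282) (PT.nd (nat_lit 9126) (PT.nd (nat_lit 78) (PT.lf (nat_lit 1368) (nat_lit 6) (nat_lit 18) (nat_lit 4) (nat_lit 91) (nat_lit 210) (nat_lit 209)) (PT.lf (nat_lit 1444) (nat_lit 6) (nat_lit 19) (nat_lit 4) (nat_lit 92) (nat_lit 210) (nat_lit 208))) (PT.nd (nat_lit 78) (PT.lf (nat_lit 1444) (nat_lit 6) (nat_lit 19) (nat_lit 2) (nat_lit 208) (nat_lit 210) (nat_lit 92)) (PT.lf (nat_lit 1368) (nat_lit 6) (nat_lit 18) (nat_lit 2) (nat_lit 209) (nat_lit 210) (nat_lit 91)))) (PT.nd (nat_lit 156) (PT.nd (nat_lit 78) (PT.lf (nat_lit 1292) (nat_lit 3) (nat_lit 17) (nat_lit 0) (nat_lit 210) (nat_lit 210) (nat_lit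 90)) (PT.lf (nat_lit 1140) (nat_lit 6) (nat_lit 15) (nat_lit 0) (nat_lit 211) (nat_lit 210) (nat_lit 89))) (PT.nd (nat_lit 43290) (PT.lf (nat_lit 988) (nat_lit 6) (nat_lit 13) (nat_lit 0) (nat_lit 212) (nat_lit 210) (nat_lit 88)) (PT.lf (nat_lit 760) (nat_lit 6) (nat_lit 10) (nat_lit 5) (nat_lit 86) (nat_lit 211) (nat_lit 213))))) (PT.nd (nat_lit 9516) (PT.nd (nat_lit 156) (PT.nd (nat_lit 78) (PT.lf (nat_lit 912) (nat_lit 6) (nat_lit 12) (nat_lit 5) (nat_lit 87) (nat_lit 211) (nat_lit 212)) (PT.lf (nat_lit 1064) (nat_lit 3) (nat_lit 14) (nat_lit 4) (nat_lit 88) (nat_lit 211) (nat_lit 211))) (PT.nd (nat_lit 78) (PT.lf (nat_lit 1140) (nat_lit 6) (nat_lit 15) (nat_lit 4) (nat_lit 89) (nat_lit 211) (nat_lit 210)) (PT.lf (nat_lit 1216) (nat_lit 6) (nat_lit 16) (nat_lit 4) (nat_lit 90) (nat_lit 211) (nat_lit 209)))) (PT.nd (nat_lit 156) (PT.nd (nat_lit 78) (PT.lf (nat_lit 1216) (nat_lit 6) (nat_lit 16) (nat_lit 2)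 (nat_lit 209) (nat_lit 211) (nat_lit 90)) (PT.lf (nat_lit 1140) (nat_lit 6) (nat_lit 15) (nat_lit 2) (nat_lit 210) (nat_lit 211) (nat_lit 89))) (PT.nd (nat_lit 78) (PT.lf (nat_lit 1064) (nat_lit 3) (nat_lit 14) (nat_lit 0) (nat_lit 211) (nat_lit 211) (nat_lit 88)) (PT.nd (nat_lit 78) (PT.lf (nat_lit 912) (nat_lit 6) (nat_lit 12) (nat_lit 0) (nat_lit 212) (nat_lit 211) (nat_lit 87)) (PT.lf (nat_lit 760) (nat_lit 6) (nat_lit 10) (nat_lit 0) (nat_lit 213) (nat_lit 211) (nat_lit 86))))))))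
noncomputable def pc63 : PT := (PT.nd (nat_lit 63258) (PT.nd (nat_lit 10062) (PT.nd (nat_lit 312) (PT.nd (nat_lit 156) (PT.nd (nat_lit 78) (PT.lf (nat_lit 532) (nat_lit 6) (nat_lit 7) (nat_lit 5) (nat_lit 84) (nat_lit 212) (nat_lit 214)) (PT.lf (nat_lit 684) (nat_lit 6) (nat_lit 9) (nat_lit 5) (nat_lit 85) (nat_lit 212) (nat_lit 213))) (PT.nd (nat_lit 78) (PT.lf (nat_lit 836) (nat_lit 3) (nat_lit 11) (nat_lit 4) (nat_lit 86) (nat_lit 212) (nat_lit 212)) (PT.lf (nat_lit 912) (nat_lit 6) (nat_lit 12) (nat_lit 4) (nat_lit 87) (nat_lit 212) (nat_lit 211)))) (PT.nd (nat_lit 9594) (PT.nd (nat_lit 9516) (PT.lf (nat_lit 988) (nat_lit 6) (nat_lit 13) (nat_lit 4) (nat_lit 88) (nat_lit 212) (nat_lit 210)) (PT.lf (nat_lit 988) (nat_lit 6) (nat_lit 13) (nat_lit 2) (nat_lit 210) (nat_lit 212) (nat_lit 88))) (PT.nd (nat_lit 78) (PT.lf (nat_lit 912) (nat_lit 6) (nat_lit 12) (nat_lit 2) (nat_lit 211) (nat_lit 212) (nat_lit 87))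 (PT.lf (nat_lit 836) (nat_lit 3) (nat_lit 11) (nat_lit 0) (nat_lit 212) (nat_lit 212) (nat_lit 86))))) (PT.nd (nat_lit 43134) (PT.nd (nat_lit 42978) (PT.nd (nat_lit 78) (PT.lf (nat_lit 684) (nat_lit 6) (nat_lit 9) (nat_lit 0) (nat_lit 213) (nat_lit 212) (nat_lit 85)) (PT.lf (nat_lit 532) (nat_lit 6) (nat_lit 7) (nat_lit 0) (nat_lit 214) (nat_lit 212) (nat_lit 84))) (PT.nd (nat_lit 78) (PT.lf (nat_lit 456) (nat_lit 6) (nat_lit 6) (nat_lit 5) (nat_lit 83) (nat_lit 213) (nat_lit 214)) (PT.lf (nat_lit 608) (nat_lit 3) (nat_lit 8) (nat_lit 4) (nat_lit 84) (nat_lit 213) (nat_lit 213)))) (PT.nd (nat_lit 9828) (PT.nd (nat_lit 78) (PT.lf (nat_lit 684) (nat_lit 6) (nat_lit 9) (nat_lit 4) (nat_lit 85) (nat_lit 213) (nat_lit 212)) (PT.lf (nat_lit 760) (nat_lit 6) (nat_lit 10) (nat_lit 4) (nat_lit 86) (nat_lit 213) (nat_lit 211))) (PT.nd (nat_lit 78) (PT.lf (nat_lit 760) (nat_lit 6) (nat_lit 10) (nat_lit 2) (nat_lit 211)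 (nat_lit 213) (nat_lit 86)) (PT.nd (nat_lit 78) (PT.lf (nat_lit 684) (nat_lit 6) (nat_lit 9) (nat_lit 2) (nat_lit 212) (nat_lit 213) (nat_lit 85)) (PT.lf (nat_lit 608) (nat_lit 3) (nat_lit 8) (nat_lit 0) (nat_lit 213) (nat_lit 213) (nat_lit 84))))))) (PT.nd (nat_lit 53196) (PT.nd (nat_lit 42978) (PT.nd (nat_lit 42822) (PT.nd (nat_lit 42744) (PT.lf (nat_lit 456) (nat_lit 6) (nat_lit 6) (nat_lit 0) (nat_lit 214) (nat_lit 213) (nat_lit 83)) (PT.lf (nat_lit 228) (nat_lit 6) (nat_lit 3) (nat_lit 5) (nat_lit 81) (nat_lit 214) (nat_lit 215))) (PT.nd (nat_lit 78) (PT.lf (nat_lit 380) (nat_lit 3) (nat_lit 5) (nat_lit 4) (nat_lit 82) (nat_lit 214) (nat_lit 214)) (PT.lf (nat_lit 456) (nat_lit 6) (nat_lit 6) (nat_lit 4) (nat_lit 83) (nat_lit 214) (nat_lit 213)))) (PT.nd (nat_lit 10062) (PT.nd (nat_lit 9984) (PT.lf (nat_lit 532) (nat_lit 6) (nat_lit 7) (nat_lit 4) (nat_lit 84) (nat_lit 214) (nat_lit 212)) (PT.lf (nat_lit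 532) (nat_lit 6) (nat_lit 7) (nat_lit 2) (nat_lit 212) (nat_lit 214) (nat_lit 84))) (PT.nd (nat_lit 78) (PT.lf (nat_lit 456) (nat_lit 6) (nat_lit 6) (nat_lit 2) (nat_lit 213) (nat_lit 214) (nat_lit 83)) (PT.lf (nat_lit 380) (nat_lit 3) (nat_lit 5) (nat_lit 0) (nat_lit 214) (nat_lit 214) (nat_lit 82))))) (PT.nd (nat_lit 53040) (PT.nd (nat_lit 42588) (PT.nd (nat_lit 42510) (PT.lf (nat_lit 228) (nat_lit 6) (nat_lit 3) (nat_lit 0) (nat_lit 215) (nat_lit 214) (nat_lit 81)) (PT.lf (nat_lit 76) (nat_lit 6) (nat_lit 1) (nat_lit 5) (nat_lit 79) (nat_lit 215) (nat_lit 216))) (PT.nd (nat_lit 78) (PT.lf (nat_lit 152) (nat_lit 3) (nat_lit 2) (nat_lit 4) (nat_lit 80) (nat_lit 215) (nat_lit 215)) (PT.lf (nat_lit 228) (nat_lit 6) (nat_lit 3) (nat_lit 4) (nat_lit 81) (nat_lit 215) (nat_lit 214)))) (PT.nd (nat_lit 156) (PT.nd (nat_lit 78) (PT.lf (nat_lit 228) (nat_lit 6) (nat_lit 3) (nat_lit 2) (nat_lit 214) (nat_lit 215) (nat_lit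 81)) (PT.lf (nat_lit 152) (nat_lit 3) (nat_lit 2) (nat_lit 0) (nat_lit 215) (nat_lit 215) (nat_lit 80))) (PT.nd (nat_lit 42432) (PT.lf (nat_lit 76) (nat_lit 6) (nat_lit 1) (nat_lit 0) (nat_lit 216) (nat_lit 215) (nat_lit 79)) (PT.nd (nat_lit 10608) (PT.lf (nat_lit 76) (nat_lit 6) (nat_lit 1) (nat_lit 4) (nat_lit 79) (nat_lit 216) (nat_lit 215)) (PT.lf (nat_lit 76) (nat_lit 6) (nat_lit 1) (nat_lit 2) (nat_lit 215) (nat_lit 216) (nat_lit 79))))))))
noncomputable def xc0 : XT := (XT.nd (nat_lit 264732) (nat_lit 0) (nat_lit 0) (XT.nd (nat_lit 159120) (nat_lit 0) (nat_lit 0) (XT.nd (nat_lit 106080) (nat_lit 0) (nat_lit 0) (XT.nd (nat_lit 53118) (nat_lit 0) (nat_lit 0) (XT.nd (nat_lit 52962) (nat_lit 0) (nat_lit 0) (XT.lf (nat_lit 0) (nat_lit 62777457155) (nat_lit 76) (nat_lit 8855019450) (nat_lit 76) (nat_lit 8764723764) (nat_lit 5) (nat_lit 4) (nat_lit 6) (nat_lit 5) (nat_lit 6) (nat_lit 4) (nat_lit 493) (nat_lit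 264) (nat_lit 263)) (XT.nd (nat_lit 78) (nat_lit 0) (nat_lit 0) (XT.lf (nat_lit 0) (nat_lit 42022726304) (nat_lit 76) (nat_lit 17056999203) (nat_lit 76) (nat_lit 16963994646) (nat_lit 5) (nat_lit 4) (nat_lit 6) (nat_lit 5) (nat_lit 6) (nat_lit 4) (nat_lit 491) (nat_lit 265) (nat_lit 264)) (XT.lf (nat_lit 0) (nat_lit 52246731649) (nat_lit 76) (nat_lit 13062430140) (nat_lit 76) (nat_lit 12879129898) (nat_lit 5) (nat_lit 4) (nat_lit 6) (nat_lit 5) (nat_lit 6) (nat_lit 4) (nat_lit 492) (nat_lit 265) (nat_lit 263)))) (XT.nd (nat_lit 52806) (nat_lit 0) (nat_lit 0) (XT.nd (nat_lit 52728) (nat_lit 0) (nat_lit 0) (XT.lf (nat_lit 0) (nat_lit 62605996615) (nat_lit 76) (nat_lit 9032392714) (nat_lit 76) (nat_lit 8761426758) (nat_lit 5) (nat_lit 4) (nat_lit 6) (nat_lit 5) (nat_lit 6) (nat_lit 4) (nat_lit 493) (nat_lit 265) (nat_lit 262)) (XT.lf (nat_lit 0) (nat_lit 6082885786) (nat_lit 76) (nat_lit 14456521727) (nat_lit 76)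 (nat_lit 14456521727) (nat_lit 5) (nat_lit 4) (nat_lit 6) (nat_lit 5) (nat_lit 6) (nat_lit 4) (nat_lit 488) (nat_lit 266) (nat_lit 266))) (XT.nd (nat_lit 78) (nat_lit 0) (nat_lit 0) (XT.lf (nat_lit 0) (nat_lit 21944870469) (nat_lit 76) (nat_lit 25049460587) (nat_lit 76) (nat_lit 24953665894) (nat_lit 5) (nat_lit 4) (nat_lit 6) (nat_lit 5) (nat_lit 6) (nat_lit 4) (nat_lit 489) (nat_lit 266) (nat_lit 265)) (XT.lf (nat_lit 0) (nat_lit 31835439845) (nat_lit 76) (nat_lit 21159476995) (nat_lit 76) (nat_lit 20970677746) (nat_lit 5) (nat_lit 4) (nat_lit 6) (nat_lit 5) (nat_lit 6) (nat_lit 4) (nat_lit 490) (nat_lit 266) (nat_lit 264))))) (XT.nd (nat_lit 52728) (nat_lit 0) (nat_lit 0) (XT.nd (nat_lit 78) (nat_lit 0) (nat_lit 0) (XT.lf (nat_lit 0) (nat_lit 41846121947) (nat_lit 76) (nat_lit 17239693665) (nat_lit 76) (nat_lit 16960598730) (nat_lit 5) (nat_lit 4) (nat_lit 6) (nat_lit 5) (nat_lit 6) (nat_lit 4) (nat_lit 491)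 (nat_lit 266) (nat_lit 263)) (XT.nd (nat_lit 78) (nat_lit 0) (nat_lit 0) (XT.lf (nat_lit 0) (nat_lit 51985663973) (nat_lit 76) (nat_lit 13286685542) (nat_lit 76) (nat_lit 12919924893) (nat_lit 5) (nat_lit 4) (nat_lit 6) (nat_lit 5) (nat_lit 6) (nat_lit 4) (nat_lit 492) (nat_lit 266) (nat_lit 262)) (XT.lf (nat_lit 0) (nat_lit 62262925715) (nat_lit 76) (nat_lit 9296998543) (nat_lit 76) (nat_lit 8845125550) (nat_lit 5) (nat_lit 4) (nat_lit 6) (nat_lit 5) (nat_lit 6) (nat_lit 4) (nat_lit 493) (nat_lit 266) (nat_lit 261)))) (XT.nd (nat_lit 156) (nat_lit 0) (nat_lit 0) (XT.nd (nat_lit 78) (nat_lit 76) (nat_lit 0) (XT.lf (nat_lit 0) (nat_lit 14848300917) (nat_lit 152) (nat_lit 3430251278) (nat_lit 0) (nat_lit 14848300917) (nat_lit 6) (nat_lit 5) (nat_lit 8) (nat_lit 4) (nat_lit 6) (nat_lit 4) (nat_lit 486) (nat_lit 267) (nat_lit 267)) (XT.lf (nat_lit 0) (nat_lit 2489598311) (nat_lit 76) (nat_lit 32852270080) (nat_lit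 76) (nat_lit 32753601546) (nat_lit 5) (nat_lit 4) (nat_lit 6) (nat_lit 5) (nat_lit 6) (nat_lit 4) (nat_lit 487) (nat_lit 267) (nat_lit 266))) (XT.nd (nat_lit 78) (nat_lit 0) (nat_lit 0) (XT.lf (nat_lit 0) (nat_lit 12073476221) (nat_lit 76) (nat_lit 29057126750) (nat_lit 76) (nat_lit 28862663524) (nat_lit 5) (nat_lit 4) (nat_lit 6) (nat_lit 5) (nat_lit 6) (nat_lit 4) (nat_lit 488) (nat_lit 267) (nat_lit 265)) (XT.lf (nat_lit 0) (nat_lit 21762967982) (nat_lit 76) (nat_lit 25237635883) (nat_lit 76) (nat_lit 24950168100) (nat_lit 5) (nat_lit 4) (nat_lit 6) (nat_lit 5) (nat_lit 6) (nat_lit 4) (nat_lit 489) (nat_lit 267) (nat_lit 264)))))) (XT.nd (nat_lit 52884) (nat_lit 0) (nat_lit 0) (XT.nd (nat_lit 234) (nat_lit 0) (nat_lit 0) (XT.nd (nat_lit 78) (nat_lit 0) (nat_lit 0) (XT.lf (nat_lit 0) (nat_lit 31566540139) (nat_lit 76) (nat_lit 21390460059) (nat_lit 76) (nat_lit 21012696591) (nat_lit 5) (nat_lit 4) (nat_lit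 6) (nat_lit 5) (nat_lit 6) (nat_lit 4) (nat_lit 490) (nat_lit 267) (nat_lit 263)) (XT.nd (nat_lit 78) (nat_lit 0) (nat_lit 0) (XT.lf (nat_lit 0) (nat_lit 41492758921) (nat_lit 76) (nat_lit 17512237669) (nat_lit 76) (nat_lit 17046808486) (nat_lit 5) (nat_lit 4) (nat_lit 6) (nat_lit 5) (nat_lit 6) (nat_lit 4) (nat_lit 491) (nat_lit 267) (nat_lit 262)) (XT.lf (nat_lit 0) (nat_lit 51550297722) (nat_lit 76) (nat_lit 13599579973) (nat_lit 76) (nat_lit 13049038447) (nat_lit 5) (nat_lit 4) (nat_lit 6) (nat_lit 5) (nat_lit 6) (nat_lit 4) (nat_lit 492) (nat_lit 267) (nat_lit 261)))) (XT.nd (nat_lit 52494) (nat_lit 0) (nat_lit 76) (XT.nd (nat_lit 52416) (nat_lit 0) (nat_lit 76) (XT.lf (nat_lit 0) (nat_lit 61747944684) (nat_lit 76) (nat_lit 9649068146) (nat_lit 76) (nat_lit 9015893276) (nat_lit 5) (nat_lit 4) (nat_lit 6) (nat_lit 5) (nat_lit 6) (nat_lit 4) (nat_lit 493) (nat_lit 267) (nat_lit 260)) (XT.lf (nat_lit 0) (nat_lit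 9405294643) (nat_lit 152) (nat_lit 12556972236) (nat_lit 0) (nat_lit 9405294643) (nat_lit 6) (nat_lit 5) (nat_lit 8) (nat_lit 4) (nat_lit 6) (nat_lit 4) (nat_lit 484) (nat_lit 268) (nat_lit 268))) (XT.nd (nat_lit 78) (nat_lit 0) (nat_lit 0) (XT.lf (nat_lit 0) (nat_lit 24247257033) (nat_lit 152) (nat_lit 16074807844) (nat_lit 0) (nat_lit 24145628443) (nat_lit 6) (nat_lit 5) (nat_lit 8) (nat_lit 4) (nat_lit 6) (nat_lit 4) (nat_lit 485) (nat_lit 268) (nat_lit 267)) (XT.lf (nat_lit 0) (nat_lit 29750857233) (nat_lit 152) (nat_lit 6953711723) (nat_lit 0) (nat_lit 29550560110) (nat_lit 6) (nat_lit 5) (nat_lit 8) (nat_lit 4) (nat_lit 6) (nat_lit 4) (nat_lit 486) (nat_lit 268) (nat_lit 266))))) (XT.nd (nat_lit 234) (nat_lit 0) (nat_lit 0) (XT.nd (nat_lit 78) (nat_lit 0) (nat_lit 0) (XT.lf (nat_lit 0) (nat_lit 2302238750) (nat_lit 76) (nat_lit 33046090635) (nat_lit 76) (nat_lit 32749998818) (nat_lit 5) (nat_lit 4) (nat_lit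 6) (nat_lit 5) (nat_lit 6) (nat_lit 4) (nat_lit 487) (nat_lit 268) (nat_lit 265)) (XT.nd (nat_lit 78) (nat_lit 0) (nat_lit 0) (XT.lf (nat_lit 0) (nat_lit 11796509523) (nat_lit 76) (nat_lit 29295039306) (nat_lit 76) (nat_lit 28905942934) (nat_lit 5) (nat_lit 4) (nat_lit 6) (nat_lit 5) (nat_lit 6) (nat_lit 4) (nat_lit 488) (nat_lit 268) (nat_lit 264)) (XT.lf (nat_lit 0) (nat_lit 21399004064) (nat_lit 76) (nat_lit 25518356207) (nat_lit 76) (nat_lit 25038964149) (nat_lit 5) (nat_lit 4) (nat_lit 6) (nat_lit 5) (nat_lit 6) (nat_lit 4) (nat_lit 489) (nat_lit 268) (nat_lit 263)))) (XT.nd (nat_lit 156) (nat_lit 0) (nat_lit 0) (XT.nd (nat_lit 78) (nat_lit 0) (nat_lit 0) (XT.lf (nat_lit 0) (nat_lit 31118112901) (nat_lit 76) (nat_lit 21712741323) (nat_lit 76) (nat_lit 21145683551) (nat_lit 5) (nat_lit 4) (nat_lit 6) (nat_lit 5) (nat_lit 6) (nat_lit 4) (nat_lit 490) (nat_lit 268) (nat_lit 262)) (XT.lf (nat_lit 0) (nat_lit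 40962328459) (nat_lit 76) (nat_lit 17874869360) (nat_lit 76) (nat_lit 17222699243) (nat_lit 5) (nat_lit 4) (nat_lit 6) (nat_lit 5) (nat_lit 6) (nat_lit 4) (nat_lit 491) (nat_lit 268) (nat_lit 261))) (XT.nd (nat_lit 78) (nat_lit 0) (nat_lit 0) (XT.lf (nat_lit 0) (nat_lit 50940252481) (nat_lit 76) (nat_lit 14001386836) (nat_lit 76) (nat_lit 13266583376) (nat_lit 5) (nat_lit 4) (nat_lit 6) (nat_lit 5) (nat_lit 6) (nat_lit 4) (nat_lit 492) (nat_lit 268) (nat_lit 260)) (XT.lf (nat_lit 0) (nat_lit 61060603540) (nat_lit 76) (nat_lit 10088909157) (nat_lit 76) (nat_lit 9273879149) (nat_lit 5) (nat_lit 4) (nat_lit 6) (nat_lit 5) (nat_lit 6) (nat_lit 4) (nat_lit 493) (nat_lit 268) (nat_lit 259))))))) (XT.nd (nat_lit 53118) (nat_lit 0) (nat_lit 0) (XT.nd (nat_lit 546) (nat_lit 0) (nat_lit 0) (XT.nd (nat_lit 234) (nat_lit 76) (nat_lit 0) (XT.nd (nat_lit 78) (nat_lit 0) (nat_lit 0) (XT.lf (nat_lit 0) (nat_lit 4137019604)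 (nat_lit 152) (nat_lit 21439491017) (nat_lit 0) (nat_lit 4137019604) (nat_lit 6) (nat_lit 5) (nat_lit 8) (nat_lit 4) (nat_lit 6) (nat_lit 4) (nat_lit 482) (nat_lit 269) (nat_lit 269)) (XT.nd (nat_lit 78) (nat_lit 0) (nat_lit 0) (XT.lf (nat_lit 0) (nat_lit 13540780954) (nat_lit 152) (nat_lit 34079019884) (nat_lit 0) (nat_lit 13436103507) (nat_lit 6) (nat_lit 5) (nat_lit 8) (nat_lit 4) (nat_lit 6) (nat_lit 4) (nat_lit 483) (nat_lit 269) (nat_lit 268)) (XT.lf (nat_lit 0) (nat_lit 18866472346) (nat_lit 152) (nat_lit 25209949913) (nat_lit 0) (nat_lit 18660166309) (nat_lit 6) (nat_lit 5) (nat_lit 8) (nat_lit 4) (nat_lit 6) (nat_lit 4) (nat_lit 484) (nat_lit 269) (nat_lit 267)))) (XT.nd (nat_lit 156) (nat_lit 76) (nat_lit 0) (XT.nd (nat_lit 78) (nat_lit 0) (nat_lit 0) (XT.lf (nat_lit 0) (nat_lit 24255766901) (nat_lit 152) (nat_lit 16264022450) (nat_lit 0) (nat_lit 23950792330) (nat_lit 6) (nat_lit 5) (nat_lit 8) (nat_lit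 4) (nat_lit 6) (nat_lit 4) (nat_lit 485) (nat_lit 269) (nat_lit 266)) (XT.lf (nat_lit 0) (nat_lit 29713373712) (nat_lit 152) (nat_lit 7233420665) (nat_lit 0) (nat_lit 29312604448) (nat_lit 6) (nat_lit 5) (nat_lit 8) (nat_lit 4) (nat_lit 6) (nat_lit 4) (nat_lit 486) (nat_lit 269) (nat_lit 265))) (XT.nd (nat_lit 78) (nat_lit 0) (nat_lit 0) (XT.lf (nat_lit 0) (nat_lit 1927355915) (nat_lit 76) (nat_lit 33335232568) (nat_lit 76) (nat_lit 32841458748) (nat_lit 5) (nat_lit 4) (nat_lit 6) (nat_lit 5) (nat_lit 6) (nat_lit 4) (nat_lit 487) (nat_lit 269) (nat_lit 264)) (XT.lf (nat_lit 0) (nat_lit 11334629468) (nat_lit 76) (nat_lit 29626989008) (nat_lit 76) (nat_lit 29042919502) (nat_lit 5) (nat_lit 4) (nat_lit 6) (nat_lit 5) (nat_lit 6) (nat_lit 4) (nat_lit 488) (nat_lit 269) (nat_lit 263))))) (XT.nd (nat_lit 234) (nat_lit 0) (nat_lit 0) (XT.nd (nat_lit 78) (nat_lit 0) (nat_lit 0) (XT.lf (nat_lit 0) (nat_lit 20852660689)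 (nat_lit 76) (nat_lit 25891866849) (nat_lit 76) (nat_lit 25220131629) (nat_lit 5) (nat_lit 4) (nat_lit 6) (nat_lit 5) (nat_lit 6) (nat_lit 4) (nat_lit 489) (nat_lit 269) (nat_lit 262)) (XT.nd (nat_lit 78) (nat_lit 0) (nat_lit 0) (XT.lf (nat_lit 0) (nat_lit 30489766302) (nat_lit 76) (nat_lit 22126602392) (nat_lit 76) (nat_lit 21369754828) (nat_lit 5) (nat_lit 4) (nat_lit 6) (nat_lit 5) (nat_lit 6) (nat_lit 4) (nat_lit 490) (nat_lit 269) (nat_lit 261)) (XT.lf (nat_lit 0) (nat_lit 40254367080) (nat_lit 76) (nat_lit 18327905601) (nat_lit 76) (nat_lit 17488424693) (nat_lit 5) (nat_lit 4) (nat_lit 6) (nat_lit 5) (nat_lit 6) (nat_lit 4) (nat_lit 491) (nat_lit 269) (nat_lit 260)))) (XT.nd (nat_lit 52182) (nat_lit 0) (nat_lit 76) (XT.nd (nat_lit 78) (nat_lit 0) (nat_lit 0) (XT.lf (nat_lit 0) (nat_lit 50154995199) (nat_lit 76) (nat_lit 14492457225) (nat_lit 76) (nat_lit 13572749770) (nat_lit 5) (nat_lit 4) (nat_lit 6)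 (nat_lit 5) (nat_lit 6) (nat_lit 4) (nat_lit 492) (nat_lit 269) (nat_lit 259)) (XT.lf (nat_lit 0) (nat_lit 60200301692) (nat_lit 76) (nat_lit 10616905902) (nat_lit 76) (nat_lit 9619308595) (nat_lit 5) (nat_lit 4) (nat_lit 6) (nat_lit 5) (nat_lit 6) (nat_lit 4) (nat_lit 493) (nat_lit 269) (nat_lit 258))) (XT.nd (nat_lit 78) (nat_lit 152) (nat_lit 0) (XT.lf (nat_lit 0) (nat_lit 26235380498) (nat_lit 76) (nat_lit 961169545) (nat_lit 76) (nat_lit 961169545) (nat_lit 8) (nat_lit 4) (nat_lit 9) (nat_lit 5) (nat_lit 9) (nat_lit 4) (nat_lit 480) (nat_lit 270) (nat_lit 270)) (XT.lf (nat_lit 0) (nat_lit 3169462871) (nat_lit 152) (nat_lit 51617525653) (nat_lit 0) (nat_lit 3061645100) (nat_lit 6) (nat_lit 5) (nat_lit 8) (nat_lit 4) (nat_lit 6) (nat_lit 4) (nat_lit 481) (nat_lit 270) (nat_lit 269)))))) (XT.nd (nat_lit 546) (nat_lit 0) (nat_lit 0) (XT.nd (nat_lit 234) (nat_lit 76) (nat_lit 0) (XT.nd (nat_lit 78) (nat_lit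 0) (nat_lit 0) (XT.lf (nat_lit 0) (nat_lit 8331598759) (nat_lit 152) (nat_lit 42977867639) (nat_lit 0) (nat_lit 8119103541) (nat_lit 6) (nat_lit 5) (nat_lit 8) (nat_lit 4) (nat_lit 6) (nat_lit 4) (nat_lit 482) (nat_lit 270) (nat_lit 268)) (XT.nd (nat_lit 78) (nat_lit 0) (nat_lit 0) (XT.lf (nat_lit 0) (nat_lit 13549546118) (nat_lit 152) (nat_lit 34273910929) (nat_lit 0) (nat_lit 13235422310) (nat_lit 6) (nat_lit 5) (nat_lit 8) (nat_lit 4) (nat_lit 6) (nat_lit 4) (nat_lit 483) (nat_lit 270) (nat_lit 267)) (XT.lf (nat_lit 0) (nat_lit 18827864319) (nat_lit 152) (nat_lit 25498050124) (nat_lit 0) (nat_lit 18415071977) (nat_lit 6) (nat_lit 5) (nat_lit 8) (nat_lit 4) (nat_lit 6) (nat_lit 4) (nat_lit 484) (nat_lit 270) (nat_lit 266)))) (XT.nd (nat_lit 156) (nat_lit 76) (nat_lit 0) (XT.nd (nat_lit 78) (nat_lit 0) (nat_lit 0) (XT.lf (nat_lit 0) (nat_lit 24171165484) (nat_lit 152) (nat_lit 16642616997) (nat_lit 0) (nat_lit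 23662578449) (nat_lit 6) (nat_lit 5) (nat_lit 8) (nat_lit 4) (nat_lit 6) (nat_lit 4) (nat_lit 485) (nat_lit 270) (nat_lit 265)) (XT.lf (nat_lit 0) (nat_lit 29584118518) (nat_lit 152) (nat_lit 7699873790) (nat_lit 0) (nat_lit 28982526927) (nat_lit 6) (nat_lit 5) (nat_lit 8) (nat_lit 4) (nat_lit 6) (nat_lit 4) (nat_lit 486) (nat_lit 270) (nat_lit 264))) (XT.nd (nat_lit 78) (nat_lit 0) (nat_lit 0) (XT.lf (nat_lit 0) (nat_lit 1364622238) (nat_lit 76) (nat_lit 33719948529) (nat_lit 76) (nat_lit 33028061253) (nat_lit 5) (nat_lit 4) (nat_lit 6) (nat_lit 5) (nat_lit 6) (nat_lit 4) (nat_lit 487) (nat_lit 270) (nat_lit 263)) (XT.lf (nat_lit 0) (nat_lit 10687432472) (nat_lit 76) (nat_lit 30053265909) (nat_lit 76) (nat_lit 29273712918) (nat_lit 5) (nat_lit 4) (nat_lit 6) (nat_lit 5) (nat_lit 6) (nat_lit 4) (nat_lit 488) (nat_lit 270) (nat_lit 262))))) (XT.nd (nat_lit 312) (nat_lit 0) (nat_lit 0) (XT.nd (nat_lit 156) (nat_lit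 0) (nat_lit 0) (XT.nd (nat_lit 78) (nat_lit 0) (nat_lit 0) (XT.lf (nat_lit 0) (nat_lit 20123460469) (nat_lit 76) (nat_lit 26358494177) (nat_lit 76) (nat_lit 25493828842) (nat_lit 5) (nat_lit 4) (nat_lit 6) (nat_lit 5) (nat_lit 6) (nat_lit 4) (nat_lit 489) (nat_lit 270) (nat_lit 261)) (XT.lf (nat_lit 0) (nat_lit 29680951302) (nat_lit 76) (nat_lit 22632404892) (nat_lit 76) (nat_lit 21685106214) (nat_lit 5) (nat_lit 4) (nat_lit 6) (nat_lit 5) (nat_lit 6) (nat_lit 4) (nat_lit 490) (nat_lit 270) (nat_lit 260))) (XT.nd (nat_lit 78) (nat_lit 0) (nat_lit 0) (XT.lf (nat_lit 0) (nat_lit 39368256177) (nat_lit 76) (nat_lit 18871742248) (nat_lit 76) (nat_lit 17844217022) (nat_lit 5) (nat_lit 4) (nat_lit 6) (nat_lit 5) (nat_lit 6) (nat_lit 4) (nat_lit 491) (nat_lit 270) (nat_lit 259)) (XT.lf (nat_lit 0) (nat_lit 49193839730) (nat_lit 76) (nat_lit 15073220229) (nat_lit 76) (nat_lit 13967805151) (nat_lit 5) (nat_lit 4) (nat_lit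 6) (nat_lit 5) (nat_lit 6) (nat_lit 4) (nat_lit 492) (nat_lit 270) (nat_lit 258)))) (XT.nd (nat_lit 52026) (nat_lit 0) (nat_lit 228) (XT.nd (nat_lit 51948) (nat_lit 0) (nat_lit 228) (XT.lf (nat_lit 0) (nat_lit 59166287421) (nat_lit 76) (nat_lit 11233519738) (nat_lit 76) (nat_lit 10052483445) (nat_lit 5) (nat_lit 4) (nat_lit 6) (nat_lit 5) (nat_lit 6) (nat_lit 4) (nat_lit 493) (nat_lit 270) (nat_lit 257)) (XT.lf (nat_lit 0) (nat_lit 14944767736) (nat_lit 76) (nat_lit 5873145315) (nat_lit 76) (nat_lit 5873145315) (nat_lit 8) (nat_lit 4) (nat_lit 9) (nat_lit 5) (nat_lit 9) (nat_lit 4) (nat_lit 478) (nat_lit 271) (nat_lit 271))) (XT.nd (nat_lit 78) (nat_lit 0) (nat_lit 0) (XT.lf (nat_lit 0) (nat_lit 41062923405) (nat_lit 76) (nat_lit 6938902126) (nat_lit 76) (nat_lit 6824518253) (nat_lit 8) (nat_lit 4) (nat_lit 9) (nat_lit 5) (nat_lit 9) (nat_lit 4) (nat_lit 479) (nat_lit 271) (nat_lit 270)) (XT.lf (nat_lit 0) (nat_lit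 52372943541) (nat_lit 76) (nat_lit 2084714224) (nat_lit 76) (nat_lit 1859278047) (nat_lit 8) (nat_lit 4) (nat_lit 9) (nat_lit 5) (nat_lit 9) (nat_lit 4) (nat_lit 480) (nat_lit 271) (nat_lit 269))))))))
noncomputable def xc1 : XT := (XT.nd (nat_lit 53898) (nat_lit 0) (nat_lit 0) (XT.nd (nat_lit 52806) (nat_lit 0) (nat_lit 0) (XT.nd (nat_lit 546) (nat_lit 0) (nat_lit 0) (XT.nd (nat_lit 234) (nat_lit 76) (nat_lit 0) (XT.nd (nat_lit 78) (nat_lit 0) (nat_lit 0) (XT.lf (nat_lit 0) (nat_lit 3178490990) (nat_lit 152) (nat_lit 51818263429) (nat_lit 0) (nat_lit 2854943468) (nat_lit 6) (nat_lit 5) (nat_lit 8) (nat_lit 4) (nat_lit 6) (nat_lit 4) (nat_lit 481) (nat_lit 271) (nat_lit 268)) (XT.nd (nat_lit 78) (nat_lit 0) (nat_lit 0) (XT.lf (nat_lit 0) (nat_lit 8291832491) (nat_lit 152) (nat_lit 43274610856) (nat_lit 0) (nat_lit 7866656379) (nat_lit 6) (nat_lit 5) (nat_lit 8) (nat_lit 4) (nat_lit 6) (nat_lit 4) (nat_lit 482)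 (nat_lit 271) (nat_lit 267)) (XT.lf (nat_lit 0) (nat_lit 13462406659) (nat_lit 152) (nat_lit 34663863311) (nat_lit 0) (nat_lit 12938562013) (nat_lit 6) (nat_lit 5) (nat_lit 8) (nat_lit 4) (nat_lit 6) (nat_lit 4) (nat_lit 483) (nat_lit 271) (nat_lit 266)))) (XT.nd (nat_lit 156) (nat_lit 76) (nat_lit 0) (XT.nd (nat_lit 78) (nat_lit 0) (nat_lit 0) (XT.lf (nat_lit 0) (nat_lit 18694731469) (nat_lit 152) (nat_lit 25978496843) (nat_lit 0) (nat_lit 18075092131) (nat_lit 6) (nat_lit 5) (nat_lit 8) (nat_lit 4) (nat_lit 6) (nat_lit 4) (nat_lit 484) (nat_lit 271) (nat_lit 265)) (XT.lf (nat_lit 0) (nat_lit 23993378858) (nat_lit 152) (nat_lit 17210922294) (nat_lit 0) (nat_lit 23280734963) (nat_lit 6) (nat_lit 5) (nat_lit 8) (nat_lit 4) (nat_lit 6) (nat_lit 4) (nat_lit 485) (nat_lit 271) (nat_lit 264))) (XT.nd (nat_lit 78) (nat_lit 76) (nat_lit 0) (XT.lf (nat_lit 0) (nat_lit 29362978710) (nat_lit 152) (nat_lit 8353478678)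 (nat_lit 0) (nat_lit 28560039129) (nat_lit 6) (nat_lit 5) (nat_lit 8) (nat_lit 4) (nat_lit 6) (nat_lit 4) (nat_lit 486) (nat_lit 271) (nat_lit 263)) (XT.lf (nat_lit 0) (nat_lit 613546011) (nat_lit 76) (nat_lit 34200574677) (nat_lit 76) (nat_lit 33309969382) (nat_lit 5) (nat_lit 4) (nat_lit 6) (nat_lit 5) (nat_lit 6) (nat_lit 4) (nat_lit 487) (nat_lit 271) (nat_lit 262))))) (XT.nd (nat_lit 234) (nat_lit 0) (nat_lit 0) (XT.nd (nat_lit 78) (nat_lit 0) (nat_lit 0) (XT.lf (nat_lit 0) (nat_lit 9854353021) (nat_lit 76) (nat_lit 30574242484) (nat_lit 76) (nat_lit 29598524845) (nat_lit 5) (nat_lit 4) (nat_lit 6) (nat_lit 5) (nat_lit 6) (nat_lit 4) (nat_lit 488) (nat_lit 271) (nat_lit 261)) (XT.nd (nat_lit 78) (nat_lit 0) (nat_lit 0) (XT.lf (nat_lit 0) (nat_lit 19210766238) (nat_lit 76) (nat_lit 26918645924) (nat_lit 76) (nat_lit 25860294941) (nat_lit 5) (nat_lit 4) (nat_lit 6) (nat_lit 5) (nat_lit 6) (nat_lit 4) (nat_lit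 489) (nat_lit 271) (nat_lit 260)) (XT.lf (nat_lit 0) (nat_lit 28690961169) (nat_lit 76) (nat_lit 23230590786) (nat_lit 76) (nat_lit 22092013257) (nat_lit 5) (nat_lit 4) (nat_lit 6) (nat_lit 5) (nat_lit 6) (nat_lit 4) (nat_lit 490) (nat_lit 271) (nat_lit 259)))) (XT.nd (nat_lit 156) (nat_lit 0) (nat_lit 0) (XT.nd (nat_lit 78) (nat_lit 0) (nat_lit 0) (XT.lf (nat_lit 0) (nat_lit 38303221478) (nat_lit 76) (nat_lit 19506854499) (nat_lit 76) (nat_lit 18290387118) (nat_lit 5) (nat_lit 4) (nat_lit 6) (nat_lit 5) (nat_lit 6) (nat_lit 4) (nat_lit 491) (nat_lit 271) (nat_lit 258)) (XT.lf (nat_lit 0) (nat_lit 48055946228) (nat_lit 76) (nat_lit 15744183312) (nat_lit 76) (nat_lit 14452094715) (nat_lit 5) (nat_lit 4) (nat_lit 6) (nat_lit 5) (nat_lit 6) (nat_lit 4) (nat_lit 492) (nat_lit 271) (nat_lit 257))) (XT.nd (nat_lit 51792) (nat_lit 0) (nat_lit 228) (XT.lf (nat_lit 0) (nat_lit 57957657218) (nat_lit 76) (nat_lit 11939289453)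 (nat_lit 76) (nat_lit 10573782201) (nat_lit 5) (nat_lit 4) (nat_lit 6) (nat_lit 5) (nat_lit 6) (nat_lit 4) (nat_lit 493) (nat_lit 271) (nat_lit 256)) (XT.lf (nat_lit 0) (nat_lit 4008744498) (nat_lit 76) (nat_lit 10652168107) (nat_lit 76) (nat_lit 10652168107) (nat_lit 8) (nat_lit 4) (nat_lit 9) (nat_lit 5) (nat_lit 9) (nat_lit 4) (nat_lit 476) (nat_lit 272) (nat_lit 272)))))) (XT.nd (nat_lit 546) (nat_lit 76) (nat_lit 0) (XT.nd (nat_lit 234) (nat_lit 152) (nat_lit 0) (XT.nd (nat_lit 78) (nat_lit 0) (nat_lit 0) (XT.lf (nat_lit 0) (nat_lit 18843016590) (nat_lit 76) (nat_lit 16628895761) (nat_lit 76) (nat_lit 16511080371) (nat_lit 8) (nat_lit 4) (nat_lit 9) (nat_lit 5) (nat_lit 9) (nat_lit 4) (nat_lit 477) (nat_lit 272) (nat_lit 271)) (XT.nd (nat_lit 78) (nat_lit 0) (nat_lit 0) (XT.lf (nat_lit 0) (nat_lit 29788783494) (nat_lit 76) (nat_lit 11913537019) (nat_lit 76) (nat_lit 11681337757) (nat_lit 8) (nat_lit 4)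 (nat_lit 9) (nat_lit 5) (nat_lit 9) (nat_lit 4) (nat_lit 478) (nat_lit 272) (nat_lit 270)) (XT.lf (nat_lit 0) (nat_lit 40864353971) (nat_lit 76) (nat_lit 7154139774) (nat_lit 76) (nat_lit 6810888208) (nat_lit 8) (nat_lit 4) (nat_lit 9) (nat_lit 5) (nat_lit 9) (nat_lit 4) (nat_lit 479) (nat_lit 272) (nat_lit 269)))) (XT.nd (nat_lit 156) (nat_lit 0) (nat_lit 0) (XT.nd (nat_lit 78) (nat_lit 152) (nat_lit 0) (XT.lf (nat_lit 0) (nat_lit 52079405703) (nat_lit 76) (nat_lit 2346545330) (nat_lit 76) (nat_lit 1895475992) (nat_lit 8) (nat_lit 4) (nat_lit 9) (nat_lit 5) (nat_lit 9) (nat_lit 4) (nat_lit 480) (nat_lit 272) (nat_lit 268)) (XT.lf (nat_lit 0) (nat_lit 3088737346) (nat_lit 152) (nat_lit 52219914384) (nat_lit 0) (nat_lit 2549177361) (nat_lit 6) (nat_lit 5) (nat_lit 8) (nat_lit 4) (nat_lit 6) (nat_lit 4) (nat_lit 481) (nat_lit 272) (nat_lit 267))) (XT.nd (nat_lit 78) (nat_lit 0) (nat_lit 0) (XT.lf (nat_lit 0) (nat_lit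 8154705656) (nat_lit 152) (nat_lit 43769470976) (nat_lit 0) (nat_lit 7516477137) (nat_lit 6) (nat_lit 5) (nat_lit 8) (nat_lit 4) (nat_lit 6) (nat_lit 4) (nat_lit 482) (nat_lit 272) (nat_lit 266)) (XT.lf (nat_lit 0) (nat_lit 13279286434) (nat_lit 152) (nat_lit 35249217767) (nat_lit 0) (nat_lit 12545263222) (nat_lit 6) (nat_lit 5) (nat_lit 8) (nat_lit 4) (nat_lit 6) (nat_lit 4) (nat_lit 483) (nat_lit 272) (nat_lit 265))))) (XT.nd (nat_lit 234) (nat_lit 76) (nat_lit 0) (XT.nd (nat_lit 78) (nat_lit 0) (nat_lit 0) (XT.lf (nat_lit 0) (nat_lit 18466957468) (nat_lit 152) (nat_lit 26651709877) (nat_lit 0) (nat_lit 17639929700) (nat_lit 6) (nat_lit 5) (nat_lit 8) (nat_lit 4) (nat_lit 6) (nat_lit 4) (nat_lit 484) (nat_lit 272) (nat_lit 264)) (XT.nd (nat_lit 78) (nat_lit 0) (nat_lit 0) (XT.lf (nat_lit 0) (nat_lit 23722251675) (nat_lit 152) (nat_lit 17969434919) (nat_lit 0) (nat_lit 22804928221) (nat_lit 6) (nat_lit 5) (nat_lit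 8) (nat_lit 4) (nat_lit 6) (nat_lit 4) (nat_lit 485) (nat_lit 272) (nat_lit 263)) (XT.lf (nat_lit 0) (nat_lit 29049761060) (nat_lit 152) (nat_lit 9194806439) (nat_lit 0) (nat_lit 28044771892) (nat_lit 6) (nat_lit 5) (nat_lit 8) (nat_lit 4) (nat_lit 6) (nat_lit 4) (nat_lit 486) (nat_lit 272) (nat_lit 262)))) (XT.nd (nat_lit 156) (nat_lit 0) (nat_lit 0) (XT.nd (nat_lit 78) (nat_lit 76) (nat_lit 0) (XT.lf (nat_lit 0) (nat_lit 34454140728) (nat_lit 152) (nat_lit 320157287) (nat_lit 0) (nat_lit 33364039216) (nat_lit 6) (nat_lit 5) (nat_lit 8) (nat_lit 4) (nat_lit 6) (nat_lit 4) (nat_lit 487) (nat_lit 272) (nat_lit 261)) (XT.lf (nat_lit 0) (nat_lit 8834663184) (nat_lit 76) (nat_lit 31190373955) (nat_lit 76) (nat_lit 30017639100) (nat_lit 5) (nat_lit 4) (nat_lit 6) (nat_lit 5) (nat_lit 6) (nat_lit 4) (nat_lit 488) (nat_lit 272) (nat_lit 260))) (XT.nd (nat_lit 78) (nat_lit 0) (nat_lit 0) (XT.lf (nat_lit 0) (nat_lit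 18113780498) (nat_lit 76) (nat_lit 27572811543) (nat_lit 76) (nat_lit 26319850140) (nat_lit 5) (nat_lit 4) (nat_lit 6) (nat_lit 5) (nat_lit 6) (nat_lit 4) (nat_lit 489) (nat_lit 272) (nat_lit 259)) (XT.lf (nat_lit 0) (nat_lit 27518930862) (nat_lit 76) (nat_lit 23921682762) (nat_lit 76) (nat_lit 22590831507) (nat_lit 5) (nat_lit 4) (nat_lit 6) (nat_lit 5) (nat_lit 6) (nat_lit 4) (nat_lit 490) (nat_lit 272) (nat_lit 258))))))) (XT.nd (nat_lit 52650) (nat_lit 0) (nat_lit 0) (XT.nd (nat_lit 52104) (nat_lit 0) (nat_lit 76) (XT.nd (nat_lit 51792) (nat_lit 0) (nat_lit 228) (XT.nd (nat_lit 78) (nat_lit 0) (nat_lit 0) (XT.lf (nat_lit 0) (nat_lit 37058332370) (nat_lit 76) (nat_lit 20233797306) (nat_lit 76) (nat_lit 18827324837) (nat_lit 5) (nat_lit 4) (nat_lit 6) (nat_lit 5) (nat_lit 6) (nat_lit 4) (nat_lit 491) (nat_lit 272) (nat_lit 257)) (XT.nd (nat_lit 78) (nat_lit 0) (nat_lit 0) (XT.lf (nat_lit 0) (nat_lit 46740320419)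 (nat_lit 76) (nat_lit 16505932752) (nat_lit 76) (nat_lit 15026041627) (nat_lit 5) (nat_lit 4) (nat_lit 6) (nat_lit 5) (nat_lit 6) (nat_lit 4) (nat_lit 492) (nat_lit 272) (nat_lit 256)) (XT.lf (nat_lit 0) (nat_lit 56573355001) (nat_lit 76) (nat_lit 12734831741) (nat_lit 76) (nat_lit 11183660368) (nat_lit 5) (nat_lit 4) (nat_lit 6) (nat_lit 5) (nat_lit 6) (nat_lit 4) (nat_lit 493) (nat_lit 272) (nat_lit 255)))) (XT.nd (nat_lit 156) (nat_lit 76) (nat_lit 0) (XT.nd (nat_lit 78) (nat_lit 0) (nat_lit 0) (XT.lf (nat_lit 0) (nat_lit 8771951183) (nat_lit 152) (nat_lit 6473024364) (nat_lit 0) (nat_lit 8771951183) (nat_lit 9) (nat_lit 5) (nat_lit 11) (nat_lit 4) (nat_lit 9) (nat_lit 4) (nat_lit 474) (nat_lit 273) (nat_lit 273)) (XT.lf (nat_lit 0) (nat_lit 23393962782) (nat_lit 152) (nat_lit 2644625258) (nat_lit 0) (nat_lit 23272612931) (nat_lit 9) (nat_lit 5) (nat_lit 11) (nat_lit 4) (nat_lit 9) (nat_lit 4) (nat_lit 475)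 (nat_lit 273) (nat_lit 272))) (XT.nd (nat_lit 78) (nat_lit 0) (nat_lit 0) (XT.lf (nat_lit 0) (nat_lit 7913714457) (nat_lit 76) (nat_lit 21476599994) (nat_lit 76) (nat_lit 21237434754) (nat_lit 8) (nat_lit 4) (nat_lit 9) (nat_lit 5) (nat_lit 9) (nat_lit 4) (nat_lit 476) (nat_lit 273) (nat_lit 271)) (XT.lf (nat_lit 0) (nat_lit 18638490072) (nat_lit 76) (nat_lit 16850590538) (nat_lit 76) (nat_lit 16497041425) (nat_lit 8) (nat_lit 4) (nat_lit 9) (nat_lit 5) (nat_lit 9) (nat_lit 4) (nat_lit 477) (nat_lit 273) (nat_lit 270))))) (XT.nd (nat_lit 234) (nat_lit 152) (nat_lit 0) (XT.nd (nat_lit 78) (nat_lit 0) (nat_lit 0) (XT.lf (nat_lit 0) (nat_lit 29486439521) (nat_lit 76) (nat_lit 12183223057) (nat_lit 76) (nat_lit 11718621640) (nat_lit 8) (nat_lit 4) (nat_lit 9) (nat_lit 5) (nat_lit 9) (nat_lit 4) (nat_lit 478) (nat_lit 273) (nat_lit 269)) (XT.nd (nat_lit 78) (nat_lit 0) (nat_lit 0) (XT.lf (nat_lit 0) (nat_lit 40467041594)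 (nat_lit 76) (nat_lit 7470419269) (nat_lit 76) (nat_lit 6898000081) (nat_lit 8) (nat_lit 4) (nat_lit 9) (nat_lit 5) (nat_lit 9) (nat_lit 4) (nat_lit 479) (nat_lit 273) (nat_lit 268)) (XT.lf (nat_lit 0) (nat_lit 51589890993) (nat_lit 76) (nat_lit 2708061191) (nat_lit 76) (nat_lit 2030964555) (nat_lit 8) (nat_lit 4) (nat_lit 9) (nat_lit 5) (nat_lit 9) (nat_lit 4) (nat_lit 480) (nat_lit 273) (nat_lit 267)))) (XT.nd (nat_lit 156) (nat_lit 0) (nat_lit 0) (XT.nd (nat_lit 78) (nat_lit 0) (nat_lit 0) (XT.lf (nat_lit 0) (nat_lit 2900123515) (nat_lit 152) (nat_lit 52822829473) (nat_lit 0) (nat_lit 2144079606) (nat_lit 6) (nat_lit 5) (nat_lit 8) (nat_lit 4) (nat_lit 6) (nat_lit 4) (nat_lit 481) (nat_lit 273) (nat_lit 266)) (XT.lf (nat_lit 0) (nat_lit 7920098434) (nat_lit 152) (nat_lit 44462880401) (nat_lit 0) (nat_lit 7068259833) (nat_lit 6) (nat_lit 5) (nat_lit 8) (nat_lit 4) (nat_lit 6) (nat_lit 4) (nat_lit 482) (nat_lit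 273) (nat_lit 265))) (XT.nd (nat_lit 78) (nat_lit 0) (nat_lit 0) (XT.lf (nat_lit 0) (nat_lit 13000025435) (nat_lit 152) (nat_lit 36030485771) (nat_lit 0) (nat_lit 12055182278) (nat_lit 6) (nat_lit 5) (nat_lit 8) (nat_lit 4) (nat_lit 6) (nat_lit 4) (nat_lit 483) (nat_lit 273) (nat_lit 264)) (XT.lf (nat_lit 0) (nat_lit 18144343288) (nat_lit 152) (nat_lit 27518277471) (nat_lit 0) (nat_lit 17109204445) (nat_lit 6) (nat_lit 5) (nat_lit 8) (nat_lit 4) (nat_lit 6) (nat_lit 4) (nat_lit 484) (nat_lit 273) (nat_lit 263)))))) (XT.nd (nat_lit 546) (nat_lit 0) (nat_lit 0) (XT.nd (nat_lit 234) (nat_lit 76) (nat_lit 0) (XT.nd (nat_lit 78) (nat_lit 0) (nat_lit 0) (XT.lf (nat_lit 0) (nat_lit 23357547028) (nat_lit 152) (nat_lit 18918817650) (nat_lit 0) (nat_lit 22234742471) (nat_lit 6) (nat_lit 5) (nat_lit 8) (nat_lit 4) (nat_lit 6) (nat_lit 4) (nat_lit 485) (nat_lit 273) (nat_lit 262)) (XT.nd (nat_lit 78) (nat_lit 0) (nat_lit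 0) (XT.lf (nat_lit 0) (nat_lit 28644191882) (nat_lit 152) (nat_lit 10224592216) (nat_lit 0) (nat_lit 27436274980) (nat_lit 6) (nat_lit 5) (nat_lit 8) (nat_lit 4) (nat_lit 6) (nat_lit 4) (nat_lit 486) (nat_lit 273) (nat_lit 261)) (XT.lf (nat_lit 0) (nat_lit 34008897248) (nat_lit 152) (nat_lit 1428004272) (nat_lit 0) (nat_lit 32718347003) (nat_lit 6) (nat_lit 5) (nat_lit 8) (nat_lit 4) (nat_lit 6) (nat_lit 4) (nat_lit 487) (nat_lit 273) (nat_lit 260)))) (XT.nd (nat_lit 156) (nat_lit 0) (nat_lit 0) (XT.nd (nat_lit 78) (nat_lit 0) (nat_lit 0) (XT.lf (nat_lit 0) (nat_lit 7627471969) (nat_lit 76) (nat_lit 31902198690) (nat_lit 76) (nat_lit 30531421898) (nat_lit 5) (nat_lit 4) (nat_lit 6) (nat_lit 5) (nat_lit 6) (nat_lit 4) (nat_lit 488) (nat_lit 273) (nat_lit 259)) (XT.lf (nat_lit 0) (nat_lit 16831544716) (nat_lit 76) (nat_lit 28321562634) (nat_lit 76) (nat_lit 26872895990) (nat_lit 5) (nat_lit 4) (nat_lit 6) (nat_lit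 5) (nat_lit 6) (nat_lit 4) (nat_lit 489) (nat_lit 273) (nat_lit 258))) (XT.nd (nat_lit 78) (nat_lit 0) (nat_lit 0) (XT.lf (nat_lit 0) (nat_lit 26163836279) (nat_lit 76) (nat_lit 24706284685) (nat_lit 76) (nat_lit 23181996826) (nat_lit 5) (nat_lit 4) (nat_lit 6) (nat_lit 5) (nat_lit 6) (nat_lit 4) (nat_lit 490) (nat_lit 273) (nat_lit 257)) (XT.lf (nat_lit 0) (nat_lit 35632501085) (nat_lit 76) (nat_lit 21053205862) (nat_lit 76) (nat_lit 19455499348) (nat_lit 5) (nat_lit 4) (nat_lit 6) (nat_lit 5) (nat_lit 6) (nat_lit 4) (nat_lit 491) (nat_lit 273) (nat_lit 256))))) (XT.nd (nat_lit 51714) (nat_lit 0) (nat_lit 228) (XT.nd (nat_lit 51558) (nat_lit 0) (nat_lit 304) (XT.nd (nat_lit 78) (nat_lit 0) (nat_lit 0) (XT.lf (nat_lit 0) (nat_lit 45245812726) (nat_lit 76) (nat_lit 17359134155) (nat_lit 76) (nat_lit 15690147393) (nat_lit 5) (nat_lit 4) (nat_lit 6) (nat_lit 5) (nat_lit 6) (nat_lit 4) (nat_lit 492) (nat_lit 273)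 (nat_lit 255)) (XT.lf (nat_lit 0) (nat_lit 55012171182) (nat_lit 76) (nat_lit 13620841734) (nat_lit 76) (nat_lit 11882650847) (nat_lit 5) (nat_lit 4) (nat_lit 6) (nat_lit 5) (nat_lit 6) (nat_lit 4) (nat_lit 493) (nat_lit 273) (nat_lit 254))) (XT.nd (nat_lit 78) (nat_lit 0) (nat_lit 0) (XT.lf (nat_lit 0) (nat_lit 3107031425) (nat_lit 152) (nat_lit 16584699686) (nat_lit 0) (nat_lit 3107031425) (nat_lit 9) (nat_lit 5) (nat_lit 11) (nat_lit 4) (nat_lit 9) (nat_lit 4) (nat_lit 472) (nat_lit 274) (nat_lit 274)) (XT.lf (nat_lit 0) (nat_lit 11883940382) (nat_lit 152) (nat_lit 23153982273) (nat_lit 0) (nat_lit 11758950035) (nat_lit 9) (nat_lit 5) (nat_lit 11) (nat_lit 4) (nat_lit 9) (nat_lit 4) (nat_lit 473) (nat_lit 274) (nat_lit 273)))) (XT.nd (nat_lit 156) (nat_lit 76) (nat_lit 0) (XT.nd (nat_lit 78) (nat_lit 0) (nat_lit 0) (XT.lf (nat_lit 0) (nat_lit 17615473755) (nat_lit 152) (nat_lit 13050850738) (nat_lit 0) (nat_lit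 17369133557) (nat_lit 9) (nat_lit 5) (nat_lit 11) (nat_lit 4) (nat_lit 9) (nat_lit 4) (nat_lit 474) (nat_lit 274) (nat_lit 272)) (XT.lf (nat_lit 0) (nat_lit 23413671105) (nat_lit 152) (nat_lit 2851176790) (nat_lit 0) (nat_lit 23049515519) (nat_lit 9) (nat_lit 5) (nat_lit 11) (nat_lit 4) (nat_lit 9) (nat_lit 4) (nat_lit 475) (nat_lit 274) (nat_lit 271))) (XT.nd (nat_lit 78) (nat_lit 0) (nat_lit 0) (XT.lf (nat_lit 0) (nat_lit 7602300165) (nat_lit 76) (nat_lit 21754376614) (nat_lit 76) (nat_lit 21275837154) (nat_lit 8) (nat_lit 4) (nat_lit 9) (nat_lit 5) (nat_lit 9) (nat_lit 4) (nat_lit 476) (nat_lit 274) (nat_lit 270)) (XT.lf (nat_lit 0) (nat_lit 18229258325) (nat_lit 76) (nat_lit 17176358418) (nat_lit 76) (nat_lit 16586766654) (nat_lit 8) (nat_lit 4) (nat_lit 9) (nat_lit 5) (nat_lit 9) (nat_lit 4) (nat_lit 477) (nat_lit 274) (nat_lit 269))))))))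
noncomputable def xc2 : XT := (XT.nd (nat_lit 53430) (nat_lit 0) (nat_lit 0) (XT.nd (nat_lit 1092) (nat_lit 0) (nat_lit 0) (XT.nd (nat_lit 546) (nat_lit 76) (nat_lit 0) (XT.nd (nat_lit 234) (nat_lit 152) (nat_lit 0) (XT.nd (nat_lit 78) (nat_lit 0) (nat_lit 0) (XT.lf (nat_lit 0) (nat_lit 28982239370) (nat_lit 76) (nat_lit 12555584394) (nat_lit 76) (nat_lit 11858174859) (nat_lit 8) (nat_lit 4) (nat_lit 9) (nat_lit 5) (nat_lit 9) (nat_lit 4) (nat_lit 478) (nat_lit 274) (nat_lit 268)) (XT.nd (nat_lit 78) (nat_lit 0) (nat_lit 0) (XT.lf (nat_lit 0) (nat_lit 39870639110) (nat_lit 76) (nat_lit 7888016972) (nat_lit 76) (nat_lit 7085929990) (nat_lit 8) (nat_lit 4) (nat_lit 9) (nat_lit 5) (nat_lit 9) (nat_lit 4) (nat_lit 479) (nat_lit 274) (nat_lit 267)) (XT.lf (nat_lit 0) (nat_lit 50903971681) (nat_lit 76) (nat_lit 3169577695) (nat_lit 76) (nat_lit 2265862123) (nat_lit 8) (nat_lit 4) (nat_lit 9) (nat_lit 5) (nat_lit 9)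 (nat_lit 4) (nat_lit 480) (nat_lit 274) (nat_lit 266)))) (XT.nd (nat_lit 156) (nat_lit 0) (nat_lit 0) (XT.nd (nat_lit 78) (nat_lit 0) (nat_lit 0) (XT.lf (nat_lit 0) (nat_lit 2612484686) (nat_lit 152) (nat_lit 53627535517) (nat_lit 0) (nat_lit 1639296234) (nat_lit 6) (nat_lit 5) (nat_lit 8) (nat_lit 4) (nat_lit 6) (nat_lit 4) (nat_lit 481) (nat_lit 274) (nat_lit 265)) (XT.lf (nat_lit 0) (nat_lit 7587805829) (nat_lit 152) (nat_lit 45355445024) (nat_lit 0) (nat_lit 6521612821) (nat_lit 6) (nat_lit 5) (nat_lit 8) (nat_lit 4) (nat_lit 6) (nat_lit 4) (nat_lit 482) (nat_lit 274) (nat_lit 264))) (XT.nd (nat_lit 78) (nat_lit 0) (nat_lit 0) (XT.lf (nat_lit 0) (nat_lit 12624379649) (nat_lit 152) (nat_lit 37008349984) (nat_lit 0) (nat_lit 11467890955) (nat_lit 6) (nat_lit 5) (nat_lit 8) (nat_lit 4) (nat_lit 6) (nat_lit 4) (nat_lit 483) (nat_lit 274) (nat_lit 263)) (XT.lf (nat_lit 0) (nat_lit 17726607034) (nat_lit 152) (nat_lit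 28578956821) (nat_lit 0) (nat_lit 16482452626) (nat_lit 6) (nat_lit 5) (nat_lit 8) (nat_lit 4) (nat_lit 6) (nat_lit 4) (nat_lit 484) (nat_lit 274) (nat_lit 262))))) (XT.nd (nat_lit 234) (nat_lit 76) (nat_lit 0) (XT.nd (nat_lit 78) (nat_lit 0) (nat_lit 0) (XT.lf (nat_lit 0) (nat_lit 22898946243) (nat_lit 152) (nat_lit 20059900045) (nat_lit 0) (nat_lit 21569679491) (nat_lit 6) (nat_lit 5) (nat_lit 8) (nat_lit 4) (nat_lit 6) (nat_lit 4) (nat_lit 485) (nat_lit 274) (nat_lit 261)) (XT.nd (nat_lit 78) (nat_lit 0) (nat_lit 0) (XT.lf (nat_lit 0) (nat_lit 28145916795) (nat_lit 152) (nat_lit 11443735819) (nat_lit 0) (nat_lit 26734016699) (nat_lit 6) (nat_lit 5) (nat_lit 8) (nat_lit 4) (nat_lit 6) (nat_lit 4) (nat_lit 486) (nat_lit 274) (nat_lit 260)) (XT.lf (nat_lit 0) (nat_lit 33472103421) (nat_lit 152) (nat_lit 2722935458) (nat_lit 0) (nat_lit 31979976778) (nat_lit 6) (nat_lit 5) (nat_lit 8) (nat_lit 4) (nat_lit 6)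 (nat_lit 4) (nat_lit 487) (nat_lit 274) (nat_lit 259)))) (XT.nd (nat_lit 156) (nat_lit 0) (nat_lit 0) (XT.nd (nat_lit 78) (nat_lit 0) (nat_lit 0) (XT.lf (nat_lit 0) (nat_lit 6231724548) (nat_lit 76) (nat_lit 32710338671) (nat_lit 76) (nat_lit 31140322176) (nat_lit 5) (nat_lit 4) (nat_lit 6) (nat_lit 5) (nat_lit 6) (nat_lit 4) (nat_lit 488) (nat_lit 274) (nat_lit 258)) (XT.lf (nat_lit 0) (nat_lit 15362938493) (nat_lit 76) (nat_lit 29165553447) (nat_lit 76) (nat_lit 27519915737) (nat_lit 5) (nat_lit 4) (nat_lit 6) (nat_lit 5) (nat_lit 6) (nat_lit 4) (nat_lit 489) (nat_lit 274) (nat_lit 257))) (XT.nd (nat_lit 78) (nat_lit 0) (nat_lit 0) (XT.lf (nat_lit 0) (nat_lit 24624493355) (nat_lit 76) (nat_lit 25585082131) (nat_lit 76) (nat_lit 23866025765) (nat_lit 5) (nat_lit 4) (nat_lit 6) (nat_lit 5) (nat_lit 6) (nat_lit 4) (nat_lit 490) (nat_lit 274) (nat_lit 256)) (XT.lf (nat_lit 0) (nat_lit 34024481752) (nat_lit 76)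 (nat_lit 21965796156) (nat_lit 76) (nat_lit 20175459542) (nat_lit 5) (nat_lit 4) (nat_lit 6) (nat_lit 5) (nat_lit 6) (nat_lit 4) (nat_lit 491) (nat_lit 274) (nat_lit 255)))))) (XT.nd (nat_lit 51792) (nat_lit 0) (nat_lit 76) (XT.nd (nat_lit 51480) (nat_lit 0) (nat_lit 304) (XT.nd (nat_lit 78) (nat_lit 0) (nat_lit 0) (XT.lf (nat_lit 0) (nat_lit 43571117268) (nat_lit 76) (nat_lit 18304533038) (nat_lit 76) (nat_lit 16444992300) (nat_lit 5) (nat_lit 4) (nat_lit 6) (nat_lit 5) (nat_lit 6) (nat_lit 4) (nat_lit 492) (nat_lit 274) (nat_lit 254)) (XT.nd (nat_lit 51324) (nat_lit 0) (nat_lit 456) (XT.lf (nat_lit 0) (nat_lit 53272741623) (nat_lit 76) (nat_lit 14598093617) (nat_lit 76) (nat_lit 12671364409) (nat_lit 5) (nat_lit 4) (nat_lit 6) (nat_lit 5) (nat_lit 6) (nat_lit 4) (nat_lit 493) (nat_lit 274) (nat_lit 253)) (XT.lf (nat_lit 0) (nat_lit 16924307706) (nat_lit 76) (nat_lit 2364132725) (nat_lit 76) (nat_lit 2364132725)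 (nat_lit 11) (nat_lit 4) (nat_lit 12) (nat_lit 5) (nat_lit 12) (nat_lit 4) (nat_lit 470) (nat_lit 275) (nat_lit 275)))) (XT.nd (nat_lit 156) (nat_lit 0) (nat_lit 0) (XT.nd (nat_lit 78) (nat_lit 0) (nat_lit 0) (XT.lf (nat_lit 0) (nat_lit 729626956) (nat_lit 152) (nat_lit 43105853374) (nat_lit 0) (nat_lit 600886899) (nat_lit 9) (nat_lit 5) (nat_lit 11) (nat_lit 4) (nat_lit 9) (nat_lit 4) (nat_lit 471) (nat_lit 275) (nat_lit 274)) (XT.lf (nat_lit 0) (nat_lit 6287781381) (nat_lit 152) (nat_lit 33277345442) (nat_lit 0) (nat_lit 6034050978) (nat_lit 9) (nat_lit 5) (nat_lit 11) (nat_lit 4) (nat_lit 9) (nat_lit 4) (nat_lit 472) (nat_lit 275) (nat_lit 273))) (XT.nd (nat_lit 78) (nat_lit 0) (nat_lit 0) (XT.lf (nat_lit 0) (nat_lit 11904239955) (nat_lit 152) (nat_lit 23366730351) (nat_lit 0) (nat_lit 11529159700) (nat_lit 9) (nat_lit 5) (nat_lit 11) (nat_lit 4) (nat_lit 9) (nat_lit 4) (nat_lit 473) (nat_lit 275) (nat_lit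 272)) (XT.lf (nat_lit 0) (nat_lit 17583910262) (nat_lit 152) (nat_lit 13365348340) (nat_lit 0) (nat_lit 17091014618) (nat_lit 9) (nat_lit 5) (nat_lit 11) (nat_lit 4) (nat_lit 9) (nat_lit 4) (nat_lit 474) (nat_lit 275) (nat_lit 271))))) (XT.nd (nat_lit 234) (nat_lit 152) (nat_lit 0) (XT.nd (nat_lit 78) (nat_lit 76) (nat_lit 0) (XT.lf (nat_lit 0) (nat_lit 23331755121) (nat_lit 152) (nat_lit 3264460337) (nat_lit 0) (nat_lit 22724475604) (nat_lit 9) (nat_lit 5) (nat_lit 11) (nat_lit 4) (nat_lit 9) (nat_lit 4) (nat_lit 475) (nat_lit 275) (nat_lit 270)) (XT.nd (nat_lit 78) (nat_lit 0) (nat_lit 0) (XT.lf (nat_lit 0) (nat_lit 7082974010) (nat_lit 76) (nat_lit 22137908791) (nat_lit 76) (nat_lit 21419576970) (nat_lit 8) (nat_lit 4) (nat_lit 9) (nat_lit 5) (nat_lit 9) (nat_lit 4) (nat_lit 476) (nat_lit 275) (nat_lit 269)) (XT.lf (nat_lit 0) (nat_lit 17614963766) (nat_lit 76) (nat_lit 17606484052) (nat_lit 76) (nat_lit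 16780334460) (nat_lit 8) (nat_lit 4) (nat_lit 9) (nat_lit 5) (nat_lit 9) (nat_lit 4) (nat_lit 477) (nat_lit 275) (nat_lit 268)))) (XT.nd (nat_lit 156) (nat_lit 152) (nat_lit 0) (XT.nd (nat_lit 78) (nat_lit 0) (nat_lit 0) (XT.lf (nat_lit 0) (nat_lit 28275742478) (nat_lit 76) (nat_lit 13030946394) (nat_lit 76) (nat_lit 12100119355) (nat_lit 8) (nat_lit 4) (nat_lit 9) (nat_lit 5) (nat_lit 9) (nat_lit 4) (nat_lit 478) (nat_lit 275) (nat_lit 267)) (XT.lf (nat_lit 0) (nat_lit 39074625390) (nat_lit 76) (nat_lit 8407297774) (nat_lit 76) (nat_lit 7374842145) (nat_lit 8) (nat_lit 4) (nat_lit 9) (nat_lit 5) (nat_lit 9) (nat_lit 4) (nat_lit 479) (nat_lit 275) (nat_lit 266))) (XT.nd (nat_lit 78) (nat_lit 152) (nat_lit 0) (XT.lf (nat_lit 0) (nat_lit 50021048418) (nat_lit 76) (nat_lit 3731498110) (nat_lit 76) (nat_lit 2600373947) (nat_lit 8) (nat_lit 4) (nat_lit 9) (nat_lit 5) (nat_lit 9) (nat_lit 4) (nat_lit 480) (nat_lit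 275) (nat_lit 265)) (XT.lf (nat_lit 0) (nat_lit 2225569526) (nat_lit 152) (nat_lit 54634735657) (nat_lit 0) (nat_lit 1034386171) (nat_lit 6) (nat_lit 5) (nat_lit 8) (nat_lit 4) (nat_lit 6) (nat_lit 4) (nat_lit 481) (nat_lit 275) (nat_lit 264))))))) (XT.nd (nat_lit 52182) (nat_lit 0) (nat_lit 76) (XT.nd (nat_lit 546) (nat_lit 0) (nat_lit 0) (XT.nd (nat_lit 234) (nat_lit 76) (nat_lit 0) (XT.nd (nat_lit 78) (nat_lit 0) (nat_lit 0) (XT.lf (nat_lit 0) (nat_lit 7157537488) (nat_lit 152) (nat_lit 46447944754) (nat_lit 0) (nat_lit 5876058448) (nat_lit 6) (nat_lit 5) (nat_lit 8) (nat_lit 4) (nat_lit 6) (nat_lit 4) (nat_lit 482) (nat_lit 275) (nat_lit 263)) (XT.nd (nat_lit 78) (nat_lit 0) (nat_lit 0) (XT.lf (nat_lit 0) (nat_lit 12152020840) (nat_lit 152) (nat_lit 38183664851) (nat_lit 0) (nat_lit 10782876086) (nat_lit 6) (nat_lit 5) (nat_lit 8) (nat_lit 4) (nat_lit 6) (nat_lit 4) (nat_lit 483) (nat_lit 275) (nat_lit 262))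 (XT.lf (nat_lit 0) (nat_lit 17213383695) (nat_lit 152) (nat_lit 29834674733) (nat_lit 0) (nat_lit 15759126596) (nat_lit 6) (nat_lit 5) (nat_lit 8) (nat_lit 4) (nat_lit 6) (nat_lit 4) (nat_lit 484) (nat_lit 275) (nat_lit 261)))) (XT.nd (nat_lit 156) (nat_lit 76) (nat_lit 0) (XT.nd (nat_lit 78) (nat_lit 0) (nat_lit 0) (XT.lf (nat_lit 0) (nat_lit 22346048601) (nat_lit 152) (nat_lit 21393679166) (nat_lit 0) (nat_lit 20809158159) (nat_lit 6) (nat_lit 5) (nat_lit 8) (nat_lit 4) (nat_lit 6) (nat_lit 4) (nat_lit 485) (nat_lit 275) (nat_lit 260)) (XT.lf (nat_lit 0) (nat_lit 27554500413) (nat_lit 152) (nat_lit 12853302522) (nat_lit 0) (nat_lit 25937383423) (nat_lit 6) (nat_lit 5) (nat_lit 8) (nat_lit 4) (nat_lit 6) (nat_lit 4) (nat_lit 486) (nat_lit 275) (nat_lit 259))) (XT.nd (nat_lit 78) (nat_lit 76) (nat_lit 0) (XT.lf (nat_lit 0) (nat_lit 32843290204) (nat_lit 152) (nat_lit 4206082336) (nat_lit 0) (nat_lit 31148283363)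 (nat_lit 6) (nat_lit 5) (nat_lit 8) (nat_lit 4) (nat_lit 6) (nat_lit 4) (nat_lit 487) (nat_lit 275) (nat_lit 258)) (XT.lf (nat_lit 0) (nat_lit 4646201336) (nat_lit 76) (nat_lit 33615500040) (nat_lit 76) (nat_lit 31844871983) (nat_lit 5) (nat_lit 4) (nat_lit 6) (nat_lit 5) (nat_lit 6) (nat_lit 4) (nat_lit 488) (nat_lit 275) (nat_lit 257))))) (XT.nd (nat_lit 234) (nat_lit 0) (nat_lit 0) (XT.nd (nat_lit 78) (nat_lit 0) (nat_lit 0) (XT.lf (nat_lit 0) (nat_lit 13706678581) (nat_lit 76) (nat_lit 30105521449) (nat_lit 76) (nat_lit 28261474737) (nat_lit 5) (nat_lit 4) (nat_lit 6) (nat_lit 5) (nat_lit 6) (nat_lit 4) (nat_lit 489) (nat_lit 275) (nat_lit 256)) (XT.nd (nat_lit 78) (nat_lit 0) (nat_lit 0) (XT.lf (nat_lit 0) (nat_lit 22899557034) (nat_lit 76) (nat_lit 26558842980) (nat_lit 76) (nat_lit 24643516020) (nat_lit 5) (nat_lit 4) (nat_lit 6) (nat_lit 5) (nat_lit 6) (nat_lit 4) (nat_lit 490) (nat_lit 275) (nat_lit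 255)) (XT.lf (nat_lit 0) (nat_lit 32232869306) (nat_lit 76) (nat_lit 22972365595) (nat_lit 76) (nat_lit 20987834510) (nat_lit 5) (nat_lit 4) (nat_lit 6) (nat_lit 5) (nat_lit 6) (nat_lit 4) (nat_lit 491) (nat_lit 275) (nat_lit 254)))) (XT.nd (nat_lit 51246) (nat_lit 0) (nat_lit 456) (XT.nd (nat_lit 78) (nat_lit 0) (nat_lit 0) (XT.lf (nat_lit 0) (nat_lit 41714770720) (nat_lit 76) (nat_lit 19342955477) (nat_lit 76) (nat_lit 17291235922) (nat_lit 5) (nat_lit 4) (nat_lit 6) (nat_lit 5) (nat_lit 6) (nat_lit 4) (nat_lit 492) (nat_lit 275) (nat_lit 253)) (XT.lf (nat_lit 0) (nat_lit 51353546433) (nat_lit 76) (nat_lit 15667441298) (nat_lit 76) (nat_lit 13550490219) (nat_lit 5) (nat_lit 4) (nat_lit 6) (nat_lit 5) (nat_lit 6) (nat_lit 4) (nat_lit 493) (nat_lit 275) (nat_lit 252))) (XT.nd (nat_lit 78) (nat_lit 0) (nat_lit 0) (XT.lf (nat_lit 0) (nat_lit 5272679076) (nat_lit 76) (nat_lit 7650440030) (nat_lit 76) (nat_lit 7650440030)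 (nat_lit 11) (nat_lit 4) (nat_lit 12) (nat_lit 5) (nat_lit 12) (nat_lit 4) (nat_lit 468) (nat_lit 276) (nat_lit 276)) (XT.lf (nat_lit 0) (nat_lit 22078969139) (nat_lit 76) (nat_lit 10133482965) (nat_lit 76) (nat_lit 9996902638) (nat_lit 11) (nat_lit 4) (nat_lit 12) (nat_lit 5) (nat_lit 12) (nat_lit 4) (nat_lit 469) (nat_lit 276) (nat_lit 275)))))) (XT.nd (nat_lit 546) (nat_lit 152) (nat_lit 0) (XT.nd (nat_lit 234) (nat_lit 76) (nat_lit 0) (XT.nd (nat_lit 78) (nat_lit 152) (nat_lit 0) (XT.lf (nat_lit 0) (nat_lit 33741845470) (nat_lit 76) (nat_lit 4917061137) (nat_lit 76) (nat_lit 4647878552) (nat_lit 11) (nat_lit 4) (nat_lit 12) (nat_lit 5) (nat_lit 12) (nat_lit 4) (nat_lit 470) (nat_lit 276) (nat_lit 274)) (XT.nd (nat_lit 78) (nat_lit 0) (nat_lit 0) (XT.lf (nat_lit 0) (nat_lit 750535516) (nat_lit 152) (nat_lit 43324983894) (nat_lit 0) (nat_lit 364202854) (nat_lit 9) (nat_lit 5) (nat_lit 11) (nat_lit 4) (nat_lit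 9) (nat_lit 4) (nat_lit 471) (nat_lit 276) (nat_lit 273)) (XT.lf (nat_lit 0) (nat_lit 6255270983) (nat_lit 152) (nat_lit 33601277972) (nat_lit 0) (nat_lit 5747588470) (nat_lit 9) (nat_lit 5) (nat_lit 11) (nat_lit 4) (nat_lit 9) (nat_lit 4) (nat_lit 472) (nat_lit 276) (nat_lit 272)))) (XT.nd (nat_lit 156) (nat_lit 76) (nat_lit 0) (XT.nd (nat_lit 78) (nat_lit 0) (nat_lit 0) (XT.lf (nat_lit 0) (nat_lit 11819866491) (nat_lit 152) (nat_lit 23792412405) (nat_lit 0) (nat_lit 11194368589) (nat_lit 9) (nat_lit 5) (nat_lit 11) (nat_lit 4) (nat_lit 9) (nat_lit 4) (nat_lit 473) (nat_lit 276) (nat_lit 271)) (XT.lf (nat_lit 0) (nat_lit 17449184307) (nat_lit 152) (nat_lit 13889816339) (nat_lit 0) (nat_lit 16709302532) (nat_lit 9) (nat_lit 5) (nat_lit 11) (nat_lit 4) (nat_lit 9) (nat_lit 4) (nat_lit 474) (nat_lit 276) (nat_lit 270))) (XT.nd (nat_lit 78) (nat_lit 76) (nat_lit 0) (XT.lf (nat_lit 0) (nat_lit 23148143253) (nat_lit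 152) (nat_lit 3884837020) (nat_lit 0) (nat_lit 22297209173) (nat_lit 9) (nat_lit 5) (nat_lit 11) (nat_lit 4) (nat_lit 9) (nat_lit 4) (nat_lit 475) (nat_lit 276) (nat_lit 269)) (XT.lf (nat_lit 0) (nat_lit 6355282211) (nat_lit 76) (nat_lit 22627531650) (nat_lit 76) (nat_lit 21668779800) (nat_lit 8) (nat_lit 4) (nat_lit 9) (nat_lit 5) (nat_lit 9) (nat_lit 4) (nat_lit 476) (nat_lit 276) (nat_lit 268))))) (XT.nd (nat_lit 312) (nat_lit 152) (nat_lit 0) (XT.nd (nat_lit 156) (nat_lit 0) (nat_lit 0) (XT.nd (nat_lit 78) (nat_lit 0) (nat_lit 0) (XT.lf (nat_lit 0) (nat_lit 16795069633) (nat_lit 76) (nat_lit 18141343278) (nat_lit 76) (nat_lit 17077913980) (nat_lit 8) (nat_lit 4) (nat_lit 9) (nat_lit 5) (nat_lit 9) (nat_lit 4) (nat_lit 477) (nat_lit 276) (nat_lit 267)) (XT.lf (nat_lit 0) (nat_lit 27366331517) (nat_lit 76) (nat_lit 13609724421) (nat_lit 76) (nat_lit 12444666534) (nat_lit 8) (nat_lit 4) (nat_lit 9) (nat_lit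 5) (nat_lit 9) (nat_lit 4) (nat_lit 478) (nat_lit 276) (nat_lit 266))) (XT.nd (nat_lit 78) (nat_lit 0) (nat_lit 0) (XT.lf (nat_lit 0) (nat_lit 38078304887) (nat_lit 76) (nat_lit 9028715414) (nat_lit 76) (nat_lit 7764988993) (nat_lit 8) (nat_lit 4) (nat_lit 9) (nat_lit 5) (nat_lit 9) (nat_lit 4) (nat_lit 479) (nat_lit 276) (nat_lit 265)) (XT.lf (nat_lit 0) (nat_lit 48940349719) (nat_lit 76) (nat_lit 4394313434) (nat_lit 76) (nat_lit 3034792320) (nat_lit 8) (nat_lit 4) (nat_lit 9) (nat_lit 5) (nat_lit 9) (nat_lit 4) (nat_lit 480) (nat_lit 276) (nat_lit 264)))) (XT.nd (nat_lit 156) (nat_lit 0) (nat_lit 0) (XT.nd (nat_lit 78) (nat_lit 0) (nat_lit 0) (XT.lf (nat_lit 0) (nat_lit 1739039954) (nat_lit 152) (nat_lit 55845309969) (nat_lit 0) (nat_lit 328820856) (nat_lit 6) (nat_lit 5) (nat_lit 8) (nat_lit 4) (nat_lit 6) (nat_lit 4) (nat_lit 481) (nat_lit 276) (nat_lit 263)) (XT.lf (nat_lit 0) (nat_lit 6628917448) (nat_lit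 152) (nat_lit 47741334203) (nat_lit 0) (nat_lit 5131032637) (nat_lit 6) (nat_lit 5) (nat_lit 8) (nat_lit 4) (nat_lit 6) (nat_lit 4) (nat_lit 482) (nat_lit 276) (nat_lit 262))) (XT.nd (nat_lit 78) (nat_lit 0) (nat_lit 0) (XT.lf (nat_lit 0) (nat_lit 11582536269) (nat_lit 152) (nat_lit 39557457345) (nat_lit 0) (nat_lit 9999539114) (nat_lit 6) (nat_lit 5) (nat_lit 8) (nat_lit 4) (nat_lit 6) (nat_lit 4) (nat_lit 483) (nat_lit 276) (nat_lit 261)) (XT.lf (nat_lit 0) (nat_lit 16604224822) (nat_lit 152) (nat_lit 31286528436) (nat_lit 0) (nat_lit 14938594322) (nat_lit 6) (nat_lit 5) (nat_lit 8) (nat_lit 4) (nat_lit 6) (nat_lit 4) (nat_lit 484) (nat_lit 276) (nat_lit 260))))))))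
noncomputable def xc3 : XT := (XT.nd (nat_lit 53118) (nat_lit 0) (nat_lit 0) (XT.nd (nat_lit 52026) (nat_lit 0) (nat_lit 76) (XT.nd (nat_lit 546) (nat_lit 0) (nat_lit 0) (XT.nd (nat_lit 234) (nat_lit 76) (nat_lit 0) (XT.nd (nat_lit 78) (nat_lit 0) (nat_lit 0) (XT.lf (nat_lit 0) (nat_lit 21698370988) (nat_lit 152) (nat_lit 22921320451) (nat_lit 0) (nat_lit 19952513942) (nat_lit 6) (nat_lit 5) (nat_lit 8) (nat_lit 4) (nat_lit 6) (nat_lit 4) (nat_lit 485) (nat_lit 276) (nat_lit 259)) (XT.nd (nat_lit 78) (nat_lit 0) (nat_lit 0) (XT.lf (nat_lit 0) (nat_lit 26869425965) (nat_lit 152) (nat_lit 14454523983) (nat_lit 0) (nat_lit 25045679067) (nat_lit 6) (nat_lit 5) (nat_lit 8) (nat_lit 4) (nat_lit 6) (nat_lit 4) (nat_lit 486) (nat_lit 276) (nat_lit 258)) (XT.lf (nat_lit 0) (nat_lit 32121908149) (nat_lit 152) (nat_lit 5878740862) (nat_lit 0) (nat_lit 30222540035) (nat_lit 6) (nat_lit 5) (nat_lit 8) (nat_lit 4) (nat_lit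 6) (nat_lit 4) (nat_lit 487) (nat_lit 276) (nat_lit 257)))) (XT.nd (nat_lit 156) (nat_lit 0) (nat_lit 0) (XT.nd (nat_lit 78) (nat_lit 0) (nat_lit 0) (XT.lf (nat_lit 0) (nat_lit 2869516925) (nat_lit 76) (nat_lit 34618473715) (nat_lit 76) (nat_lit 32645686946) (nat_lit 5) (nat_lit 4) (nat_lit 6) (nat_lit 5) (nat_lit 6) (nat_lit 4) (nat_lit 488) (nat_lit 276) (nat_lit 256)) (XT.lf (nat_lit 0) (nat_lit 11861317761) (nat_lit 76) (nat_lit 31142287971) (nat_lit 76) (nat_lit 29098220954) (nat_lit 5) (nat_lit 4) (nat_lit 6) (nat_lit 5) (nat_lit 6) (nat_lit 4) (nat_lit 489) (nat_lit 276) (nat_lit 255))) (XT.nd (nat_lit 78) (nat_lit 0) (nat_lit 0) (XT.lf (nat_lit 0) (nat_lit 20987520089) (nat_lit 76) (nat_lit 27628418092) (nat_lit 76) (nat_lit 25515146951) (nat_lit 5) (nat_lit 4) (nat_lit 6) (nat_lit 5) (nat_lit 6) (nat_lit 4) (nat_lit 490) (nat_lit 276) (nat_lit 254)) (XT.lf (nat_lit 0) (nat_lit 30256098260) (nat_lit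 76) (nat_lit 24073793706) (nat_lit 76) (nat_lit 21893334095) (nat_lit 5) (nat_lit 4) (nat_lit 6) (nat_lit 5) (nat_lit 6) (nat_lit 4) (nat_lit 491) (nat_lit 276) (nat_lit 253))))) (XT.nd (nat_lit 51168) (nat_lit 0) (nat_lit 456) (XT.nd (nat_lit 78) (nat_lit 0) (nat_lit 0) (XT.lf (nat_lit 0) (nat_lit 39675151032) (nat_lit 76) (nat_lit 20475308831) (nat_lit 76) (nat_lit 18229617695) (nat_lit 5) (nat_lit 4) (nat_lit 6) (nat_lit 5) (nat_lit 6) (nat_lit 4) (nat_lit 492) (nat_lit 276) (nat_lit 252)) (XT.nd (nat_lit 51012) (nat_lit 0) (nat_lit 532) (XT.lf (nat_lit 0) (nat_lit 49252908644) (nat_lit 76) (nat_lit 16829819160) (nat_lit 76) (nat_lit 14520796446) (nat_lit 5) (nat_lit 4) (nat_lit 6) (nat_lit 5) (nat_lit 6) (nat_lit 4) (nat_lit 493) (nat_lit 276) (nat_lit 251)) (XT.lf (nat_lit 0) (nat_lit 6823419559) (nat_lit 152) (nat_lit 5912824722) (nat_lit 0) (nat_lit 6823419559) (nat_lit 12) (nat_lit 5) (nat_lit 14) (nat_lit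 4) (nat_lit 12) (nat_lit 4) (nat_lit 466) (nat_lit 277) (nat_lit 277)))) (XT.nd (nat_lit 156) (nat_lit 0) (nat_lit 0) (XT.nd (nat_lit 78) (nat_lit 76) (nat_lit 0) (XT.lf (nat_lit 0) (nat_lit 19703733953) (nat_lit 152) (nat_lit 852106803) (nat_lit 0) (nat_lit 19563056217) (nat_lit 12) (nat_lit 5) (nat_lit 14) (nat_lit 4) (nat_lit 12) (nat_lit 4) (nat_lit 467) (nat_lit 277) (nat_lit 276)) (XT.lf (nat_lit 0) (nat_lit 10435385112) (nat_lit 76) (nat_lit 15495339619) (nat_lit 76) (nat_lit 15218081556) (nat_lit 11) (nat_lit 4) (nat_lit 12) (nat_lit 5) (nat_lit 12) (nat_lit 4) (nat_lit 468) (nat_lit 277) (nat_lit 275))) (XT.nd (nat_lit 78) (nat_lit 0) (nat_lit 0) (XT.lf (nat_lit 0) (nat_lit 21862226154) (nat_lit 76) (nat_lit 10380157882) (nat_lit 76) (nat_lit 9970297561) (nat_lit 11) (nat_lit 4) (nat_lit 12) (nat_lit 5) (nat_lit 12) (nat_lit 4) (nat_lit 469) (nat_lit 277) (nat_lit 274)) (XT.lf (nat_lit 0) (nat_lit 33421442346)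 (nat_lit 76) (nat_lit 5214430579) (nat_lit 76) (nat_lit 4675830201) (nat_lit 11) (nat_lit 4) (nat_lit 12) (nat_lit 5) (nat_lit 12) (nat_lit 4) (nat_lit 470) (nat_lit 277) (nat_lit 273)))))) (XT.nd (nat_lit 546) (nat_lit 152) (nat_lit 0) (XT.nd (nat_lit 234) (nat_lit 76) (nat_lit 0) (XT.nd (nat_lit 78) (nat_lit 0) (nat_lit 0) (XT.lf (nat_lit 0) (nat_lit 663630848) (nat_lit 152) (nat_lit 43763436410) (nat_lit 0) (nat_lit 19368009) (nat_lit 9) (nat_lit 5) (nat_lit 11) (nat_lit 4) (nat_lit 9) (nat_lit 4) (nat_lit 471) (nat_lit 277) (nat_lit 272)) (XT.nd (nat_lit 78) (nat_lit 0) (nat_lit 0) (XT.lf (nat_lit 0) (nat_lit 6116503250) (nat_lit 152) (nat_lit 34141480011) (nat_lit 0) (nat_lit 5354425021) (nat_lit 9) (nat_lit 5) (nat_lit 11) (nat_lit 4) (nat_lit 9) (nat_lit 4) (nat_lit 472) (nat_lit 277) (nat_lit 271)) (XT.lf (nat_lit 0) (nat_lit 11630746266) (nat_lit 152) (nat_lit 24431400388) (nat_lit 0) (nat_lit 10754284165)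 (nat_lit 9) (nat_lit 5) (nat_lit 11) (nat_lit 4) (nat_lit 9) (nat_lit 4) (nat_lit 473) (nat_lit 277) (nat_lit 270)))) (XT.nd (nat_lit 156) (nat_lit 76) (nat_lit 0) (XT.nd (nat_lit 78) (nat_lit 0) (nat_lit 0) (XT.lf (nat_lit 0) (nat_lit 17211178169) (nat_lit 152) (nat_lit 14624713007) (nat_lit 0) (nat_lit 16223663763) (nat_lit 9) (nat_lit 5) (nat_lit 11) (nat_lit 4) (nat_lit 9) (nat_lit 4) (nat_lit 474) (nat_lit 277) (nat_lit 269)) (XT.lf (nat_lit 0) (nat_lit 22862675063) (nat_lit 152) (nat_lit 4712848916) (nat_lit 0) (nat_lit 21767342886) (nat_lit 9) (nat_lit 5) (nat_lit 11) (nat_lit 4) (nat_lit 9) (nat_lit 4) (nat_lit 475) (nat_lit 277) (nat_lit 268))) (XT.nd (nat_lit 78) (nat_lit 0) (nat_lit 0) (XT.lf (nat_lit 0) (nat_lit 5418588921) (nat_lit 76) (nat_lit 23223673019) (nat_lit 76) (nat_lit 22023663395) (nat_lit 8) (nat_lit 4) (nat_lit 9) (nat_lit 5) (nat_lit 9) (nat_lit 4) (nat_lit 476) (nat_lit 277) (nat_lit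 267)) (XT.lf (nat_lit 0) (nat_lit 15768859515) (nat_lit 76) (nat_lit 18781403448) (nat_lit 76) (nat_lit 17479765234) (nat_lit 8) (nat_lit 4) (nat_lit 9) (nat_lit 5) (nat_lit 9) (nat_lit 4) (nat_lit 477) (nat_lit 277) (nat_lit 266))))) (XT.nd (nat_lit 234) (nat_lit 152) (nat_lit 0) (XT.nd (nat_lit 78) (nat_lit 0) (nat_lit 0) (XT.lf (nat_lit 0) (nat_lit 26253211857) (nat_lit 76) (nat_lit 14292424205) (nat_lit 76) (nat_lit 12892117457) (nat_lit 8) (nat_lit 4) (nat_lit 9) (nat_lit 5) (nat_lit 9) (nat_lit 4) (nat_lit 478) (nat_lit 277) (nat_lit 265)) (XT.nd (nat_lit 78) (nat_lit 0) (nat_lit 0) (XT.lf (nat_lit 0) (nat_lit 36880807030) (nat_lit 76) (nat_lit 9752812881) (nat_lit 76) (nat_lit 8256711440) (nat_lit 8) (nat_lit 4) (nat_lit 9) (nat_lit 5) (nat_lit 9) (nat_lit 4) (nat_lit 479) (nat_lit 277) (nat_lit 264)) (XT.lf (nat_lit 0) (nat_lit 47660931283) (nat_lit 76) (nat_lit 5158602825) (nat_lit 76) (nat_lit 3569496829)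 (nat_lit 8) (nat_lit 4) (nat_lit 9) (nat_lit 5) (nat_lit 9) (nat_lit 4) (nat_lit 480) (nat_lit 277) (nat_lit 263)))) (XT.nd (nat_lit 156) (nat_lit 0) (nat_lit 0) (XT.nd (nat_lit 78) (nat_lit 0) (nat_lit 0) (XT.lf (nat_lit 0) (nat_lit 669627595) (nat_lit 76) (nat_lit 487529684) (nat_lit 152) (nat_lit 56777472988) (nat_lit 6) (nat_lit 5) (nat_lit 7) (nat_lit 5) (nat_lit 8) (nat_lit 4) (nat_lit 481) (nat_lit 277) (nat_lit 262)) (XT.lf (nat_lit 0) (nat_lit 6001483809) (nat_lit 152) (nat_lit 49236743518) (nat_lit 0) (nat_lit 4285884395) (nat_lit 6) (nat_lit 5) (nat_lit 8) (nat_lit 4) (nat_lit 6) (nat_lit 4) (nat_lit 482) (nat_lit 277) (nat_lit 261))) (XT.nd (nat_lit 78) (nat_lit 0) (nat_lit 0) (XT.lf (nat_lit 0) (nat_lit 10915428328) (nat_lit 152) (nat_lit 41130927869) (nat_lit 0) (nat_lit 9117195570) (nat_lit 6) (nat_lit 5) (nat_lit 8) (nat_lit 4) (nat_lit 6) (nat_lit 4) (nat_lit 483) (nat_lit 277) (nat_lit 260))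 (XT.lf (nat_lit 0) (nat_lit 15898598140) (nat_lit 152) (nat_lit 32935786542) (nat_lit 0) (nat_lit 14020138835) (nat_lit 6) (nat_lit 5) (nat_lit 8) (nat_lit 4) (nat_lit 6) (nat_lit 4) (nat_lit 484) (nat_lit 277) (nat_lit 259))))))) (XT.nd (nat_lit 51870) (nat_lit 0) (nat_lit 76) (XT.nd (nat_lit 546) (nat_lit 0) (nat_lit 0) (XT.nd (nat_lit 234) (nat_lit 76) (nat_lit 0) (XT.nd (nat_lit 78) (nat_lit 0) (nat_lit 0) (XT.lf (nat_lit 0) (nat_lit 20955347471) (nat_lit 152) (nat_lit 24644158732) (nat_lit 0) (nat_lit 18998998315) (nat_lit 6) (nat_lit 5) (nat_lit 8) (nat_lit 4) (nat_lit 6) (nat_lit 4) (nat_lit 485) (nat_lit 277) (nat_lit 258)) (XT.nd (nat_lit 78) (nat_lit 0) (nat_lit 0) (XT.lf (nat_lit 0) (nat_lit 26090094841) (nat_lit 152) (nat_lit 16248799329) (nat_lit 0) (nat_lit 24058124469) (nat_lit 6) (nat_lit 5) (nat_lit 8) (nat_lit 4) (nat_lit 6) (nat_lit 4) (nat_lit 486) (nat_lit 277) (nat_lit 257)) (XT.lf (nat_lit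 0) (nat_lit 31307326922) (nat_lit 152) (nat_lit 7742372581) (nat_lit 0) (nat_lit 29201937894) (nat_lit 6) (nat_lit 5) (nat_lit 8) (nat_lit 4) (nat_lit 6) (nat_lit 4) (nat_lit 487) (nat_lit 277) (nat_lit 256)))) (XT.nd (nat_lit 156) (nat_lit 0) (nat_lit 0) (XT.nd (nat_lit 78) (nat_lit 0) (nat_lit 0) (XT.lf (nat_lit 0) (nat_lit 900118872) (nat_lit 76) (nat_lit 35720136080) (nat_lit 76) (nat_lit 33543466804) (nat_lit 5) (nat_lit 4) (nat_lit 6) (nat_lit 5) (nat_lit 6) (nat_lit 4) (nat_lit 488) (nat_lit 277) (nat_lit 255)) (XT.lf (nat_lit 0) (nat_lit 9825243584) (nat_lit 76) (nat_lit 32276758926) (nat_lit 76) (nat_lit 30030885526) (nat_lit 5) (nat_lit 4) (nat_lit 6) (nat_lit 5) (nat_lit 6) (nat_lit 4) (nat_lit 489) (nat_lit 277) (nat_lit 254))) (XT.nd (nat_lit 78) (nat_lit 0) (nat_lit 0) (XT.lf (nat_lit 0) (nat_lit 18886711810) (nat_lit 76) (nat_lit 28794742047) (nat_lit 76) (nat_lit 26481680177) (nat_lit 5) (nat_lit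 4) (nat_lit 6) (nat_lit 5) (nat_lit 6) (nat_lit 4) (nat_lit 490) (nat_lit 277) (nat_lit 253)) (XT.lf (nat_lit 0) (nat_lit 28092441338) (nat_lit 76) (nat_lit 25271042904) (nat_lit 76) (nat_lit 22892749509) (nat_lit 5) (nat_lit 4) (nat_lit 6) (nat_lit 5) (nat_lit 6) (nat_lit 4) (nat_lit 491) (nat_lit 277) (nat_lit 252))))) (XT.nd (nat_lit 51012) (nat_lit 0) (nat_lit 456) (XT.nd (nat_lit 78) (nat_lit 0) (nat_lit 0) (XT.lf (nat_lit 0) (nat_lit 37450476010) (nat_lit 76) (nat_lit 21702582536) (nat_lit 76) (nat_lit 19260957564) (nat_lit 5) (nat_lit 4) (nat_lit 6) (nat_lit 5) (nat_lit 6) (nat_lit 4) (nat_lit 492) (nat_lit 277) (nat_lit 251)) (XT.nd (nat_lit 50856) (nat_lit 0) (nat_lit 532) (XT.lf (nat_lit 0) (nat_lit 46968992749) (nat_lit 76) (nat_lit 18086242871) (nat_lit 76) (nat_lit 15583130931) (nat_lit 5) (nat_lit 4) (nat_lit 6) (nat_lit 5) (nat_lit 6) (nat_lit 4) (nat_lit 493) (nat_lit 277) (nat_lit 250)) (XT.lf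 (nat_lit 0) (nat_lit 962339905) (nat_lit 152) (nat_lit 16682827564) (nat_lit 0) (nat_lit 962339905) (nat_lit 12) (nat_lit 5) (nat_lit 14) (nat_lit 4) (nat_lit 12) (nat_lit 4) (nat_lit 464) (nat_lit 278) (nat_lit 278)))) (XT.nd (nat_lit 156) (nat_lit 76) (nat_lit 0) (XT.nd (nat_lit 78) (nat_lit 0) (nat_lit 0) (XT.lf (nat_lit 0) (nat_lit 7799334557) (nat_lit 152) (nat_lit 22698463293) (nat_lit 0) (nat_lit 7654436489) (nat_lit 12) (nat_lit 5) (nat_lit 14) (nat_lit 4) (nat_lit 12) (nat_lit 4) (nat_lit 465) (nat_lit 278) (nat_lit 277)) (XT.lf (nat_lit 0) (nat_lit 13734949071) (nat_lit 152) (nat_lit 11936711328) (nat_lit 0) (nat_lit 13449373267) (nat_lit 12) (nat_lit 5) (nat_lit 14) (nat_lit 4) (nat_lit 12) (nat_lit 4) (nat_lit 466) (nat_lit 278) (nat_lit 276))) (XT.nd (nat_lit 78) (nat_lit 76) (nat_lit 0) (XT.lf (nat_lit 0) (nat_lit 19736709814) (nat_lit 152) (nat_lit 1070995758) (nat_lit 0) (nat_lit 19314553683)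 (nat_lit 12) (nat_lit 5) (nat_lit 14) (nat_lit 4) (nat_lit 12) (nat_lit 4) (nat_lit 467) (nat_lit 278) (nat_lit 275)) (XT.lf (nat_lit 0) (nat_lit 10105369894) (nat_lit 76) (nat_lit 15801630144) (nat_lit 76) (nat_lit 15246871755) (nat_lit 11) (nat_lit 4) (nat_lit 12) (nat_lit 5) (nat_lit 12) (nat_lit 4) (nat_lit 468) (nat_lit 278) (nat_lit 274)))))) (XT.nd (nat_lit 546) (nat_lit 228) (nat_lit 0) (XT.nd (nat_lit 234) (nat_lit 0) (nat_lit 0) (XT.nd (nat_lit 78) (nat_lit 152) (nat_lit 0) (XT.lf (nat_lit 0) (nat_lit 21428550797) (nat_lit 76) (nat_lit 10737142933) (nat_lit 76) (nat_lit 10053644486) (nat_lit 11) (nat_lit 4) (nat_lit 12) (nat_lit 5) (nat_lit 12) (nat_lit 4) (nat_lit 469) (nat_lit 278) (nat_lit 273)) (XT.nd (nat_lit 78) (nat_lit 152) (nat_lit 0) (XT.lf (nat_lit 0) (nat_lit 32887126077) (nat_lit 76) (nat_lit 5620633614) (nat_lit 76) (nat_lit 4812144822) (nat_lit 11) (nat_lit 4) (nat_lit 12) (nat_lit 5)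 (nat_lit 12) (nat_lit 4) (nat_lit 470) (nat_lit 278) (nat_lit 272)) (XT.lf (nat_lit 0) (nat_lit 30536339) (nat_lit 76) (nat_lit 442554785) (nat_lit 152) (nat_lit 43983293355) (nat_lit 9) (nat_lit 5) (nat_lit 10) (nat_lit 5) (nat_lit 11) (nat_lit 4) (nat_lit 471) (nat_lit 278) (nat_lit 271)))) (XT.nd (nat_lit 156) (nat_lit 0) (nat_lit 0) (XT.nd (nat_lit 78) (nat_lit 0) (nat_lit 0) (XT.lf (nat_lit 0) (nat_lit 5871356927) (nat_lit 152) (nat_lit 34898423579) (nat_lit 0) (nat_lit 4854217089) (nat_lit 9) (nat_lit 5) (nat_lit 11) (nat_lit 4) (nat_lit 9) (nat_lit 4) (nat_lit 472) (nat_lit 278) (nat_lit 270)) (XT.lf (nat_lit 0) (nat_lit 11336714030) (nat_lit 152) (nat_lit 25284252641) (nat_lit 0) (nat_lit 10208521888) (nat_lit 9) (nat_lit 5) (nat_lit 11) (nat_lit 4) (nat_lit 9) (nat_lit 4) (nat_lit 473) (nat_lit 278) (nat_lit 269))) (XT.nd (nat_lit 78) (nat_lit 0) (nat_lit 0) (XT.lf (nat_lit 0) (nat_lit 16869683881)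 (nat_lit 152) (nat_lit 15570680488) (nat_lit 0) (nat_lit 15633673968) (nat_lit 9) (nat_lit 5) (nat_lit 11) (nat_lit 4) (nat_lit 9) (nat_lit 4) (nat_lit 474) (nat_lit 278) (nat_lit 268)) (XT.lf (nat_lit 0) (nat_lit 22475101112) (nat_lit 152) (nat_lit 5749219531) (nat_lit 0) (nat_lit 21134413752) (nat_lit 9) (nat_lit 5) (nat_lit 11) (nat_lit 4) (nat_lit 9) (nat_lit 4) (nat_lit 475) (nat_lit 278) (nat_lit 267))))) (XT.nd (nat_lit 312) (nat_lit 152) (nat_lit 0) (XT.nd (nat_lit 156) (nat_lit 0) (nat_lit 0) (XT.nd (nat_lit 78) (nat_lit 0) (nat_lit 0) (XT.lf (nat_lit 0) (nat_lit 4272075671) (nat_lit 76) (nat_lit 23926853796) (nat_lit 76) (nat_lit 22484537846) (nat_lit 8) (nat_lit 4) (nat_lit 9) (nat_lit 5) (nat_lit 9) (nat_lit 4) (nat_lit 476) (nat_lit 278) (nat_lit 266)) (XT.lf (nat_lit 0) (nat_lit 14535436723) (nat_lit 76) (nat_lit 19527223838) (nat_lit 76) (nat_lit 17986239354) (nat_lit 8) (nat_lit 4) (nat_lit 9)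 (nat_lit 5) (nat_lit 9) (nat_lit 4) (nat_lit 477) (nat_lit 278) (nat_lit 265))) (XT.nd (nat_lit 78) (nat_lit 0) (nat_lit 0) (XT.lf (nat_lit 0) (nat_lit 24935410868) (nat_lit 76) (nat_lit 15079642278) (nat_lit 76) (nat_lit 13442863101) (nat_lit 8) (nat_lit 4) (nat_lit 9) (nat_lit 5) (nat_lit 9) (nat_lit 4) (nat_lit 478) (nat_lit 278) (nat_lit 264)) (XT.lf (nat_lit 0) (nat_lit 35481085462) (nat_lit 76) (nat_lit 10580222879) (nat_lit 76) (nat_lit 8850439146) (nat_lit 8) (nat_lit 4) (nat_lit 9) (nat_lit 5) (nat_lit 9) (nat_lit 4) (nat_lit 479) (nat_lit 278) (nat_lit 263)))) (XT.nd (nat_lit 156) (nat_lit 76) (nat_lit 0) (XT.nd (nat_lit 78) (nat_lit 76) (nat_lit 0) (XT.lf (nat_lit 0) (nat_lit 46181675173) (nat_lit 76) (nat_lit 6025034110) (nat_lit 76) (nat_lit 4204954692) (nat_lit 8) (nat_lit 4) (nat_lit 9) (nat_lit 5) (nat_lit 9) (nat_lit 4) (nat_lit 480) (nat_lit 278) (nat_lit 262)) (XT.lf (nat_lit 0) (nat_lit 487938490)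 (nat_lit 152) (nat_lit 917229997) (nat_lit 76) (nat_lit 56553664317) (nat_lit 7) (nat_lit 5) (nat_lit 9) (nat_lit 5) (nat_lit 8) (nat_lit 4) (nat_lit 481) (nat_lit 278) (nat_lit 261))) (XT.nd (nat_lit 78) (nat_lit 0) (nat_lit 0) (XT.lf (nat_lit 0) (nat_lit 5274688327) (nat_lit 152) (nat_lit 50935479366) (nat_lit 0) (nat_lit 3339875243) (nat_lit 6) (nat_lit 5) (nat_lit 8) (nat_lit 4) (nat_lit 6) (nat_lit 4) (nat_lit 482) (nat_lit 278) (nat_lit 260)) (XT.lf (nat_lit 0) (nat_lit 10150114106) (nat_lit 152) (nat_lit 42905451299) (nat_lit 0) (nat_lit 8135074474) (nat_lit 6) (nat_lit 5) (nat_lit 8) (nat_lit 4) (nat_lit 6) (nat_lit 4) (nat_lit 483) (nat_lit 278) (nat_lit 259))))))))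
noncomputable def xc4 : XT := (XT.nd (nat_lit 52806) (nat_lit 0) (nat_lit 0) (XT.nd (nat_lit 51714) (nat_lit 0) (nat_lit 228) (XT.nd (nat_lit 546) (nat_lit 0) (nat_lit 0) (XT.nd (nat_lit 234) (nat_lit 76) (nat_lit 0) (XT.nd (nat_lit 78) (nat_lit 0) (nat_lit 0) (XT.lf (nat_lit 0) (nat_lit 15095887083) (nat_lit 152) (nat_lit 34783890148) (nat_lit 0) (nat_lit 13002957600) (nat_lit 6) (nat_lit 5) (nat_lit 8) (nat_lit 4) (nat_lit 6) (nat_lit 4) (nat_lit 484) (nat_lit 278) (nat_lit 258)) (XT.nd (nat_lit 78) (nat_lit 0) (nat_lit 0) (XT.lf (nat_lit 0) (nat_lit 20116328808) (nat_lit 152) (nat_lit 26563699402) (nat_lit 0) (nat_lit 17947778109) (nat_lit 6) (nat_lit 5) (nat_lit 8) (nat_lit 4) (nat_lit 6) (nat_lit 4) (nat_lit 485) (nat_lit 278) (nat_lit 257)) (XT.lf (nat_lit 0) (nat_lit 25215826074) (nat_lit 152) (nat_lit 18237696372) (nat_lit 0) (nat_lit 22973856720) (nat_lit 6) (nat_lit 5) (nat_lit 8) (nat_lit 4) (nat_lit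 6) (nat_lit 4) (nat_lit 486) (nat_lit 278) (nat_lit 256)))) (XT.nd (nat_lit 156) (nat_lit 76) (nat_lit 0) (XT.nd (nat_lit 78) (nat_lit 0) (nat_lit 0) (XT.lf (nat_lit 0) (nat_lit 30398834753) (nat_lit 152) (nat_lit 9798605909) (nat_lit 0) (nat_lit 28085585151) (nat_lit 6) (nat_lit 5) (nat_lit 8) (nat_lit 4) (nat_lit 6) (nat_lit 4) (nat_lit 487) (nat_lit 278) (nat_lit 255)) (XT.lf (nat_lit 0) (nat_lit 35669883687) (nat_lit 152) (nat_lit 1239054050) (nat_lit 0) (nat_lit 33287429961) (nat_lit 6) (nat_lit 5) (nat_lit 8) (nat_lit 4) (nat_lit 6) (nat_lit 4) (nat_lit 488) (nat_lit 278) (nat_lit 254))) (XT.nd (nat_lit 78) (nat_lit 0) (nat_lit 0) (XT.lf (nat_lit 0) (nat_lit 7596676954) (nat_lit 76) (nat_lit 33509925599) (nat_lit 76) (nat_lit 31060283403) (nat_lit 5) (nat_lit 4) (nat_lit 6) (nat_lit 5) (nat_lit 6) (nat_lit 4) (nat_lit 489) (nat_lit 278) (nat_lit 253)) (XT.lf (nat_lit 0) (nat_lit 16595296537) (nat_lit 76)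 (nat_lit 30058833963) (nat_lit 76) (nat_lit 27543960241) (nat_lit 5) (nat_lit 4) (nat_lit 6) (nat_lit 5) (nat_lit 6) (nat_lit 4) (nat_lit 490) (nat_lit 278) (nat_lit 252))))) (XT.nd (nat_lit 50856) (nat_lit 0) (nat_lit 532) (XT.nd (nat_lit 78) (nat_lit 0) (nat_lit 0) (XT.lf (nat_lit 0) (nat_lit 25740007966) (nat_lit 76) (nat_lit 26565159327) (nat_lit 76) (nat_lit 23986954028) (nat_lit 5) (nat_lit 4) (nat_lit 6) (nat_lit 5) (nat_lit 6) (nat_lit 4) (nat_lit 491) (nat_lit 278) (nat_lit 251)) (XT.nd (nat_lit 78) (nat_lit 0) (nat_lit 0) (XT.lf (nat_lit 0) (nat_lit 35038801764) (nat_lit 76) (nat_lit 23025848966) (nat_lit 76) (nat_lit 20386156699) (nat_lit 5) (nat_lit 4) (nat_lit 6) (nat_lit 5) (nat_lit 6) (nat_lit 4) (nat_lit 492) (nat_lit 278) (nat_lit 250)) (XT.lf (nat_lit 0) (nat_lit 44499803092) (nat_lit 76) (nat_lit 19437810279) (nat_lit 76) (nat_lit 16738421927) (nat_lit 5) (nat_lit 4) (nat_lit 6) (nat_lit 5)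 (nat_lit 6) (nat_lit 4) (nat_lit 493) (nat_lit 278) (nat_lit 249)))) (XT.nd (nat_lit 156) (nat_lit 152) (nat_lit 0) (XT.nd (nat_lit 78) (nat_lit 0) (nat_lit 0) (XT.lf (nat_lit 0) (nat_lit 8349579680) (nat_lit 76) (nat_lit 4680034447) (nat_lit 76) (nat_lit 4680034447) (nat_lit 14) (nat_lit 4) (nat_lit 15) (nat_lit 5) (nat_lit 15) (nat_lit 4) (nat_lit 462) (nat_lit 279) (nat_lit 279)) (XT.lf (nat_lit 0) (nat_lit 28739968811) (nat_lit 76) (nat_lit 3858940701) (nat_lit 76) (nat_lit 3705218340) (nat_lit 14) (nat_lit 4) (nat_lit 15) (nat_lit 5) (nat_lit 15) (nat_lit 4) (nat_lit 463) (nat_lit 279) (nat_lit 278))) (XT.nd (nat_lit 78) (nat_lit 0) (nat_lit 0) (XT.lf (nat_lit 0) (nat_lit 2015433063) (nat_lit 152) (nat_lit 33480048868) (nat_lit 0) (nat_lit 1721289985) (nat_lit 12) (nat_lit 5) (nat_lit 14) (nat_lit 4) (nat_lit 12) (nat_lit 4) (nat_lit 464) (nat_lit 279) (nat_lit 277)) (XT.lf (nat_lit 0) (nat_lit 7833299694)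 (nat_lit 152) (nat_lit 22923918917) (nat_lit 0) (nat_lit 7398478879) (nat_lit 12) (nat_lit 5) (nat_lit 14) (nat_lit 4) (nat_lit 12) (nat_lit 4) (nat_lit 465) (nat_lit 279) (nat_lit 276)))))) (XT.nd (nat_lit 546) (nat_lit 76) (nat_lit 0) (XT.nd (nat_lit 234) (nat_lit 152) (nat_lit 0) (XT.nd (nat_lit 78) (nat_lit 76) (nat_lit 0) (XT.lf (nat_lit 0) (nat_lit 13713780116) (nat_lit 152) (nat_lit 12269994023) (nat_lit 0) (nat_lit 13142378975) (nat_lit 12) (nat_lit 5) (nat_lit 14) (nat_lit 4) (nat_lit 12) (nat_lit 4) (nat_lit 466) (nat_lit 279) (nat_lit 275)) (XT.nd (nat_lit 78) (nat_lit 76) (nat_lit 0) (XT.lf (nat_lit 0) (nat_lit 19662012614) (nat_lit 152) (nat_lit 1508964930) (nat_lit 0) (nat_lit 18958009214) (nat_lit 12) (nat_lit 5) (nat_lit 14) (nat_lit 4) (nat_lit 12) (nat_lit 4) (nat_lit 467) (nat_lit 279) (nat_lit 274)) (XT.lf (nat_lit 0) (nat_lit 9555024138) (nat_lit 76) (nat_lit 16220019271) (nat_lit 76) (nat_lit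 15387275814) (nat_lit 11) (nat_lit 4) (nat_lit 12) (nat_lit 5) (nat_lit 12) (nat_lit 4) (nat_lit 468) (nat_lit 279) (nat_lit 273)))) (XT.nd (nat_lit 156) (nat_lit 152) (nat_lit 0) (XT.nd (nat_lit 78) (nat_lit 0) (nat_lit 0) (XT.lf (nat_lit 0) (nat_lit 20777564129) (nat_lit 76) (nat_lit 11204750044) (nat_lit 76) (nat_lit 10247016241) (nat_lit 11) (nat_lit 4) (nat_lit 12) (nat_lit 5) (nat_lit 12) (nat_lit 4) (nat_lit 469) (nat_lit 279) (nat_lit 272)) (XT.lf (nat_lit 0) (nat_lit 32138429786) (nat_lit 76) (nat_lit 6136025177) (nat_lit 76) (nat_lit 5056941523) (nat_lit 11) (nat_lit 4) (nat_lit 12) (nat_lit 5) (nat_lit 12) (nat_lit 4) (nat_lit 470) (nat_lit 279) (nat_lit 271))) (XT.nd (nat_lit 78) (nat_lit 76) (nat_lit 0) (XT.lf (nat_lit 0) (nat_lit 183824879) (nat_lit 152) (nat_lit 823734537) (nat_lit 76) (nat_lit 43461866927) (nat_lit 10) (nat_lit 5) (nat_lit 12) (nat_lit 5) (nat_lit 11) (nat_lit 4) (nat_lit 471)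 (nat_lit 279) (nat_lit 270)) (XT.lf (nat_lit 0) (nat_lit 5519617811) (nat_lit 152) (nat_lit 35872770084) (nat_lit 0) (nat_lit 4246527601) (nat_lit 9) (nat_lit 5) (nat_lit 11) (nat_lit 4) (nat_lit 9) (nat_lit 4) (nat_lit 472) (nat_lit 279) (nat_lit 269))))) (XT.nd (nat_lit 234) (nat_lit 76) (nat_lit 0) (XT.nd (nat_lit 78) (nat_lit 0) (nat_lit 0) (XT.lf (nat_lit 0) (nat_lit 10937512862) (nat_lit 152) (nat_lit 26351714374) (nat_lit 0) (nat_lit 9556604881) (nat_lit 9) (nat_lit 5) (nat_lit 11) (nat_lit 4) (nat_lit 9) (nat_lit 4) (nat_lit 473) (nat_lit 279) (nat_lit 268)) (XT.nd (nat_lit 78) (nat_lit 0) (nat_lit 0) (XT.lf (nat_lit 0) (nat_lit 16424403050) (nat_lit 152) (nat_lit 16728545354) (nat_lit 0) (nat_lit 14938817621) (nat_lit 9) (nat_lit 5) (nat_lit 11) (nat_lit 4) (nat_lit 9) (nat_lit 4) (nat_lit 474) (nat_lit 279) (nat_lit 267)) (XT.lf (nat_lit 0) (nat_lit 21985082745) (nat_lit 152) (nat_lit 6994854430) (nat_lit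 0) (nat_lit 20397868727) (nat_lit 9) (nat_lit 5) (nat_lit 11) (nat_lit 4) (nat_lit 9) (nat_lit 4) (nat_lit 475) (nat_lit 279) (nat_lit 266)))) (XT.nd (nat_lit 156) (nat_lit 0) (nat_lit 0) (XT.nd (nat_lit 78) (nat_lit 0) (nat_lit 0) (XT.lf (nat_lit 0) (nat_lit 2914740653) (nat_lit 76) (nat_lit 24737688411) (nat_lit 76) (nat_lit 23051805859) (nat_lit 8) (nat_lit 4) (nat_lit 9) (nat_lit 5) (nat_lit 9) (nat_lit 4) (nat_lit 476) (nat_lit 279) (nat_lit 265)) (XT.lf (nat_lit 0) (nat_lit 13093723509) (nat_lit 76) (nat_lit 20379456136) (nat_lit 76) (nat_lit 18597778892) (nat_lit 8) (nat_lit 4) (nat_lit 9) (nat_lit 5) (nat_lit 9) (nat_lit 4) (nat_lit 477) (nat_lit 279) (nat_lit 264))) (XT.nd (nat_lit 78) (nat_lit 0) (nat_lit 0) (XT.lf (nat_lit 0) (nat_lit 23411777075) (nat_lit 76) (nat_lit 15972066502) (nat_lit 76) (nat_lit 14097384701) (nat_lit 8) (nat_lit 4) (nat_lit 9) (nat_lit 5) (nat_lit 9) (nat_lit 4) (nat_lit 478)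 (nat_lit 279) (nat_lit 263)) (XT.lf (nat_lit 0) (nat_lit 33877917126) (nat_lit 76) (nat_lit 11511668390) (nat_lit 76) (nat_lit 9546690903) (nat_lit 8) (nat_lit 4) (nat_lit 9) (nat_lit 5) (nat_lit 9) (nat_lit 4) (nat_lit 479) (nat_lit 279) (nat_lit 262))))))) (XT.nd (nat_lit 51636) (nat_lit 0) (nat_lit 304) (XT.nd (nat_lit 546) (nat_lit 76) (nat_lit 0) (XT.nd (nat_lit 234) (nat_lit 0) (nat_lit 0) (XT.nd (nat_lit 78) (nat_lit 152) (nat_lit 0) (XT.lf (nat_lit 0) (nat_lit 44501288834) (nat_lit 76) (nat_lit 6994364365) (nat_lit 76) (nat_lit 4941721164) (nat_lit 8) (nat_lit 4) (nat_lit 9) (nat_lit 5) (nat_lit 9) (nat_lit 4) (nat_lit 480) (nat_lit 279) (nat_lit 261)) (XT.nd (nat_lit 78) (nat_lit 152) (nat_lit 0) (XT.lf (nat_lit 0) (nat_lit 55291174756) (nat_lit 76) (nat_lit 2416207269) (nat_lit 76) (nat_lit 278451724) (nat_lit 8) (nat_lit 4) (nat_lit 9) (nat_lit 5) (nat_lit 9) (nat_lit 4) (nat_lit 481) (nat_lit 279)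 (nat_lit 260)) (XT.lf (nat_lit 0) (nat_lit 4447895938) (nat_lit 152) (nat_lit 52839026080) (nat_lit 0) (nat_lit 2292178570) (nat_lit 6) (nat_lit 5) (nat_lit 8) (nat_lit 4) (nat_lit 6) (nat_lit 4) (nat_lit 482) (nat_lit 279) (nat_lit 259)))) (XT.nd (nat_lit 156) (nat_lit 0) (nat_lit 0) (XT.nd (nat_lit 78) (nat_lit 0) (nat_lit 0) (XT.lf (nat_lit 0) (nat_lit 9285924882) (nat_lit 152) (nat_lit 44882578189) (nat_lit 0) (nat_lit 7052317663) (nat_lit 6) (nat_lit 5) (nat_lit 8) (nat_lit 4) (nat_lit 6) (nat_lit 4) (nat_lit 483) (nat_lit 279) (nat_lit 258)) (XT.lf (nat_lit 0) (nat_lit 14195390252) (nat_lit 152) (nat_lit 36832454102) (nat_lit 0) (nat_lit 11886161818) (nat_lit 6) (nat_lit 5) (nat_lit 8) (nat_lit 4) (nat_lit 6) (nat_lit 4) (nat_lit 484) (nat_lit 279) (nat_lit 257))) (XT.nd (nat_lit 78) (nat_lit 0) (nat_lit 0) (XT.lf (nat_lit 0) (nat_lit 19180581873) (nat_lit 152) (nat_lit 28681619730) (nat_lit 0) (nat_lit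 16797934783) (nat_lit 6) (nat_lit 5) (nat_lit 8) (nat_lit 4) (nat_lit 6) (nat_lit 4) (nat_lit 485) (nat_lit 279) (nat_lit 256)) (XT.lf (nat_lit 0) (nat_lit 24245855738) (nat_lit 152) (nat_lit 20422952985) (nat_lit 0) (nat_lit 21791928400) (nat_lit 6) (nat_lit 5) (nat_lit 8) (nat_lit 4) (nat_lit 6) (nat_lit 4) (nat_lit 486) (nat_lit 279) (nat_lit 255))))) (XT.nd (nat_lit 234) (nat_lit 0) (nat_lit 0) (XT.nd (nat_lit 78) (nat_lit 76) (nat_lit 0) (XT.lf (nat_lit 0) (nat_lit 29395637814) (nat_lit 152) (nat_lit 12049237555) (nat_lit 0) (nat_lit 26872506351) (nat_lit 6) (nat_lit 5) (nat_lit 8) (nat_lit 4) (nat_lit 6) (nat_lit 4) (nat_lit 487) (nat_lit 279) (nat_lit 254)) (XT.nd (nat_lit 78) (nat_lit 76) (nat_lit 0) (XT.lf (nat_lit 0) (nat_lit 34634427909) (nat_lit 152) (nat_lit 3553156602) (nat_lit 0) (nat_lit 32044107977) (nat_lit 6) (nat_lit 5) (nat_lit 8) (nat_lit 4) (nat_lit 6) (nat_lit 4) (nat_lit 488) (nat_lit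 279) (nat_lit 253)) (XT.lf (nat_lit 0) (nat_lit 5173670581) (nat_lit 76) (nat_lit 34842865515) (nat_lit 76) (nat_lit 32187314058) (nat_lit 5) (nat_lit 4) (nat_lit 6) (nat_lit 5) (nat_lit 6) (nat_lit 4) (nat_lit 489) (nat_lit 279) (nat_lit 252)))) (XT.nd (nat_lit 156) (nat_lit 0) (nat_lit 0) (XT.nd (nat_lit 78) (nat_lit 0) (nat_lit 0) (XT.lf (nat_lit 0) (nat_lit 14111272064) (nat_lit 76) (nat_lit 31421798385) (nat_lit 76) (nat_lit 28702915351) (nat_lit 5) (nat_lit 4) (nat_lit 6) (nat_lit 5) (nat_lit 6) (nat_lit 4) (nat_lit 490) (nat_lit 279) (nat_lit 251)) (XT.lf (nat_lit 0) (nat_lit 23196742620) (nat_lit 76) (nat_lit 27957273756) (nat_lit 76) (nat_lit 25176903754) (nat_lit 5) (nat_lit 4) (nat_lit 6) (nat_lit 5) (nat_lit 6) (nat_lit 4) (nat_lit 491) (nat_lit 279) (nat_lit 250))) (XT.nd (nat_lit 50622) (nat_lit 0) (nat_lit 760) (XT.lf (nat_lit 0) (nat_lit 32438021007) (nat_lit 76) (nat_lit 24446264373) (nat_lit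 76) (nat_lit 21606198285) (nat_lit 5) (nat_lit 4) (nat_lit 6) (nat_lit 5) (nat_lit 6) (nat_lit 4) (nat_lit 492) (nat_lit 279) (nat_lit 249)) (XT.lf (nat_lit 0) (nat_lit 6743519148) (nat_lit 152) (nat_lit 3379323793) (nat_lit 0) (nat_lit 6743519148) (nat_lit 15) (nat_lit 5) (nat_lit 17) (nat_lit 4) (nat_lit 15) (nat_lit 4) (nat_lit 460) (nat_lit 280) (nat_lit 280)))))) (XT.nd (nat_lit 546) (nat_lit 228) (nat_lit 0) (XT.nd (nat_lit 234) (nat_lit 152) (nat_lit 0) (XT.nd (nat_lit 78) (nat_lit 0) (nat_lit 0) (XT.lf (nat_lit 0) (nat_lit 4786077045) (nat_lit 76) (nat_lit 14967964853) (nat_lit 76) (nat_lit 14809630821) (nat_lit 14) (nat_lit 4) (nat_lit 15) (nat_lit 5) (nat_lit 15) (nat_lit 4) (nat_lit 461) (nat_lit 280) (nat_lit 279)) (XT.nd (nat_lit 78) (nat_lit 0) (nat_lit 0) (XT.lf (nat_lit 0) (nat_lit 16586023727) (nat_lit 76) (nat_lit 9573536222) (nat_lit 76) (nat_lit 9261479830) (nat_lit 14) (nat_lit 4) (nat_lit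 15) (nat_lit 5) (nat_lit 15) (nat_lit 4) (nat_lit 462) (nat_lit 280) (nat_lit 278)) (XT.lf (nat_lit 0) (nat_lit 28516992755) (nat_lit 76) (nat_lit 4125935501) (nat_lit 76) (nat_lit 3664634099) (nat_lit 14) (nat_lit 4) (nat_lit 15) (nat_lit 5) (nat_lit 15) (nat_lit 4) (nat_lit 463) (nat_lit 280) (nat_lit 277)))) (XT.nd (nat_lit 156) (nat_lit 0) (nat_lit 0) (XT.nd (nat_lit 78) (nat_lit 0) (nat_lit 0) (XT.lf (nat_lit 0) (nat_lit 1993629039) (nat_lit 152) (nat_lit 33823330044) (nat_lit 0) (nat_lit 1405085864) (nat_lit 12) (nat_lit 5) (nat_lit 14) (nat_lit 4) (nat_lit 12) (nat_lit 4) (nat_lit 464) (nat_lit 280) (nat_lit 276)) (XT.lf (nat_lit 0) (nat_lit 7756361577) (nat_lit 152) (nat_lit 23375027165) (nat_lit 0) (nat_lit 7031238076) (nat_lit 12) (nat_lit 5) (nat_lit 14) (nat_lit 4) (nat_lit 12) (nat_lit 4) (nat_lit 465) (nat_lit 280) (nat_lit 275))) (XT.nd (nat_lit 78) (nat_lit 0) (nat_lit 0) (XT.lf (nat_lit 0) (nat_lit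 13583313755) (nat_lit 152) (nat_lit 12825788747) (nat_lit 0) (nat_lit 12725587994) (nat_lit 12) (nat_lit 5) (nat_lit 14) (nat_lit 4) (nat_lit 12) (nat_lit 4) (nat_lit 466) (nat_lit 280) (nat_lit 274)) (XT.lf (nat_lit 0) (nat_lit 19479577083) (nat_lit 152) (nat_lit 2166397011) (nat_lit 0) (nat_lit 18493111265) (nat_lit 12) (nat_lit 5) (nat_lit 14) (nat_lit 4) (nat_lit 12) (nat_lit 4) (nat_lit 467) (nat_lit 280) (nat_lit 273))))) (XT.nd (nat_lit 312) (nat_lit 152) (nat_lit 0) (XT.nd (nat_lit 156) (nat_lit 0) (nat_lit 0) (XT.nd (nat_lit 78) (nat_lit 0) (nat_lit 0) (XT.lf (nat_lit 0) (nat_lit 8783866957) (nat_lit 76) (nat_lit 16750872581) (nat_lit 76) (nat_lit 15639416417) (nat_lit 11) (nat_lit 4) (nat_lit 12) (nat_lit 5) (nat_lit 12) (nat_lit 4) (nat_lit 468) (nat_lit 280) (nat_lit 272)) (XT.lf (nat_lit 0) (nat_lit 19908697326) (nat_lit 76) (nat_lit 11783387806) (nat_lit 76) (nat_lit 10550581791) (nat_lit 11) (nat_lit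 4) (nat_lit 12) (nat_lit 5) (nat_lit 12) (nat_lit 4) (nat_lit 469) (nat_lit 280) (nat_lit 271))) (XT.nd (nat_lit 78) (nat_lit 0) (nat_lit 0) (XT.lf (nat_lit 0) (nat_lit 31174699271) (nat_lit 76) (nat_lit 6761055610) (nat_lit 76) (nat_lit 5410434207) (nat_lit 11) (nat_lit 4) (nat_lit 12) (nat_lit 5) (nat_lit 12) (nat_lit 4) (nat_lit 470) (nat_lit 280) (nat_lit 270)) (XT.lf (nat_lit 0) (nat_lit 42591716871) (nat_lit 76) (nat_lit 1679487549) (nat_lit 76) (nat_lit 214482272) (nat_lit 11) (nat_lit 4) (nat_lit 12) (nat_lit 5) (nat_lit 12) (nat_lit 4) (nat_lit 471) (nat_lit 280) (nat_lit 269)))) (XT.nd (nat_lit 156) (nat_lit 0) (nat_lit 0) (XT.nd (nat_lit 78) (nat_lit 0) (nat_lit 0) (XT.lf (nat_lit 0) (nat_lit 5060978555) (nat_lit 152) (nat_lit 37065370896) (nat_lit 0) (nat_lit 3530825564) (nat_lit 9) (nat_lit 5) (nat_lit 11) (nat_lit 4) (nat_lit 9) (nat_lit 4) (nat_lit 472) (nat_lit 280) (nat_lit 268)) (XT.lf (nat_lit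 0) (nat_lit 10432793944) (nat_lit 152) (nat_lit 27634718320) (nat_lit 0) (nat_lit 8797963505) (nat_lit 9) (nat_lit 5) (nat_lit 11) (nat_lit 4) (nat_lit 9) (nat_lit 4) (nat_lit 473) (nat_lit 280) (nat_lit 267))) (XT.nd (nat_lit 78) (nat_lit 0) (nat_lit 0) (XT.lf (nat_lit 0) (nat_lit 15874946596) (nat_lit 152) (nat_lit 18099319333) (nat_lit 0) (nat_lit 14138487567) (nat_lit 9) (nat_lit 5) (nat_lit 11) (nat_lit 4) (nat_lit 9) (nat_lit 4) (nat_lit 474) (nat_lit 280) (nat_lit 266)) (XT.lf (nat_lit 0) (nat_lit 21392191790) (nat_lit 152) (nat_lit 8450842033) (nat_lit 0) (nat_lit 19557064228) (nat_lit 9) (nat_lit 5) (nat_lit 11) (nat_lit 4) (nat_lit 9) (nat_lit 4) (nat_lit 475) (nat_lit 280) (nat_lit 265))))))))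
noncomputable def xc5 : XT := (XT.nd (nat_lit 52572) (nat_lit 0) (nat_lit 0) (XT.nd (nat_lit 1092) (nat_lit 0) (nat_lit 0) (XT.nd (nat_lit 546) (nat_lit 76) (nat_lit 0) (XT.nd (nat_lit 234) (nat_lit 152) (nat_lit 0) (XT.nd (nat_lit 78) (nat_lit 0) (nat_lit 0) (XT.lf (nat_lit 0) (nat_lit 1345397845) (nat_lit 76) (nat_lit 25656885362) (nat_lit 76) (nat_lit 23725963106) (nat_lit 8) (nat_lit 4) (nat_lit 9) (nat_lit 5) (nat_lit 9) (nat_lit 4) (nat_lit 476) (nat_lit 280) (nat_lit 264)) (XT.nd (nat_lit 78) (nat_lit 0) (nat_lit 0) (XT.lf (nat_lit 0) (nat_lit 11442460122) (nat_lit 76) (nat_lit 21338845012) (nat_lit 76) (nat_lit 19314918201) (nat_lit 8) (nat_lit 4) (nat_lit 9) (nat_lit 5) (nat_lit 9) (nat_lit 4) (nat_lit 477) (nat_lit 280) (nat_lit 263)) (XT.lf (nat_lit 0) (nat_lit 21680979146) (nat_lit 76) (nat_lit 16970476664) (nat_lit 76) (nat_lit 14856254167) (nat_lit 8) (nat_lit 4) (nat_lit 9) (nat_lit 5) (nat_lit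 9) (nat_lit 4) (nat_lit 478) (nat_lit 280) (nat_lit 262)))) (XT.nd (nat_lit 156) (nat_lit 152) (nat_lit 0) (XT.nd (nat_lit 78) (nat_lit 0) (nat_lit 0) (XT.lf (nat_lit 0) (nat_lit 32069901195) (nat_lit 76) (nat_lit 12547963296) (nat_lit 76) (nat_lit 10346075085) (nat_lit 8) (nat_lit 4) (nat_lit 9) (nat_lit 5) (nat_lit 9) (nat_lit 4) (nat_lit 479) (nat_lit 280) (nat_lit 261)) (XT.lf (nat_lit 0) (nat_lit 42618303968) (nat_lit 76) (nat_lit 8067440576) (nat_lit 76) (nat_lit 5780440021) (nat_lit 8) (nat_lit 4) (nat_lit 9) (nat_lit 5) (nat_lit 9) (nat_lit 4) (nat_lit 480) (nat_lit 280) (nat_lit 260))) (XT.nd (nat_lit 78) (nat_lit 152) (nat_lit 0) (XT.lf (nat_lit 0) (nat_lit 53335404516) (nat_lit 76) (nat_lit 3524993485) (nat_lit 76) (nat_lit 1155359586) (nat_lit 8) (nat_lit 4) (nat_lit 9) (nat_lit 5) (nat_lit 9) (nat_lit 4) (nat_lit 481) (nat_lit 280) (nat_lit 259)) (XT.lf (nat_lit 0) (nat_lit 3520384203) (nat_lit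 152) (nat_lit 54949046953) (nat_lit 0) (nat_lit 1141878915) (nat_lit 6) (nat_lit 5) (nat_lit 8) (nat_lit 4) (nat_lit 6) (nat_lit 4) (nat_lit 482) (nat_lit 280) (nat_lit 258))))) (XT.nd (nat_lit 234) (nat_lit 76) (nat_lit 0) (XT.nd (nat_lit 78) (nat_lit 0) (nat_lit 0) (XT.lf (nat_lit 0) (nat_lit 8322105540) (nat_lit 152) (nat_lit 47064036127) (nat_lit 0) (nat_lit 5867979037) (nat_lit 6) (nat_lit 5) (nat_lit 8) (nat_lit 4) (nat_lit 6) (nat_lit 4) (nat_lit 483) (nat_lit 280) (nat_lit 257)) (XT.nd (nat_lit 78) (nat_lit 0) (nat_lit 0) (XT.lf (nat_lit 0) (nat_lit 13196320806) (nat_lit 152) (nat_lit 39083268413) (nat_lit 0) (nat_lit 10668775648) (nat_lit 6) (nat_lit 5) (nat_lit 8) (nat_lit 4) (nat_lit 6) (nat_lit 4) (nat_lit 484) (nat_lit 280) (nat_lit 256)) (XT.lf (nat_lit 0) (nat_lit 18147289026) (nat_lit 152) (nat_lit 30999770326) (nat_lit 0) (nat_lit 15548463620) (nat_lit 6) (nat_lit 5) (nat_lit 8) (nat_lit 4)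 (nat_lit 6) (nat_lit 4) (nat_lit 485) (nat_lit 280) (nat_lit 255)))) (XT.nd (nat_lit 156) (nat_lit 76) (nat_lit 0) (XT.nd (nat_lit 78) (nat_lit 0) (nat_lit 0) (XT.lf (nat_lit 0) (nat_lit 23179336287) (nat_lit 152) (nat_lit 22806478613) (nat_lit 0) (nat_lit 20511306756) (nat_lit 6) (nat_lit 5) (nat_lit 8) (nat_lit 4) (nat_lit 6) (nat_lit 4) (nat_lit 486) (nat_lit 280) (nat_lit 254)) (XT.lf (nat_lit 0) (nat_lit 28296859524) (nat_lit 152) (nat_lit 14496234090) (nat_lit 0) (nat_lit 25561641523) (nat_lit 6) (nat_lit 5) (nat_lit 8) (nat_lit 4) (nat_lit 6) (nat_lit 4) (nat_lit 487) (nat_lit 280) (nat_lit 253))) (XT.nd (nat_lit 78) (nat_lit 76) (nat_lit 0) (XT.lf (nat_lit 0) (nat_lit 33504330360) (nat_lit 152) (nat_lit 6061775376) (nat_lit 0) (nat_lit 30703880834) (nat_lit 6) (nat_lit 5) (nat_lit 8) (nat_lit 4) (nat_lit 6) (nat_lit 4) (nat_lit 488) (nat_lit 280) (nat_lit 252)) (XT.lf (nat_lit 0) (nat_lit 2554107274)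 (nat_lit 76) (nat_lit 36276743378) (nat_lit 76) (nat_lit 33412962275) (nat_lit 5) (nat_lit 4) (nat_lit 6) (nat_lit 5) (nat_lit 6) (nat_lit 4) (nat_lit 489) (nat_lit 280) (nat_lit 251)))))) (XT.nd (nat_lit 50934) (nat_lit 0) (nat_lit 456) (XT.nd (nat_lit 50622) (nat_lit 0) (nat_lit 684) (XT.nd (nat_lit 78) (nat_lit 0) (nat_lit 0) (XT.lf (nat_lit 0) (nat_lit 11432467884) (nat_lit 76) (nat_lit 32884826255) (nat_lit 76) (nat_lit 29959558184) (nat_lit 5) (nat_lit 4) (nat_lit 6) (nat_lit 5) (nat_lit 6) (nat_lit 4) (nat_lit 490) (nat_lit 280) (nat_lit 250)) (XT.nd (nat_lit 78) (nat_lit 0) (nat_lit 0) (XT.lf (nat_lit 0) (nat_lit 20460423029) (nat_lit 76) (nat_lit 29448602604) (nat_lit 76) (nat_lit 26463638447) (nat_lit 5) (nat_lit 4) (nat_lit 6) (nat_lit 5) (nat_lit 6) (nat_lit 4) (nat_lit 491) (nat_lit 280) (nat_lit 249)) (XT.lf (nat_lit 0) (nat_lit 29645861211) (nat_lit 76) (nat_lit 25965069898) (nat_lit 76) (nat_lit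 22922148377) (nat_lit 5) (nat_lit 4) (nat_lit 6) (nat_lit 5) (nat_lit 6) (nat_lit 4) (nat_lit 492) (nat_lit 280) (nat_lit 248)))) (XT.nd (nat_lit 156) (nat_lit 76) (nat_lit 0) (XT.nd (nat_lit 78) (nat_lit 0) (nat_lit 0) (XT.lf (nat_lit 0) (nat_lit 730051042) (nat_lit 152) (nat_lit 14614243500) (nat_lit 0) (nat_lit 730051042) (nat_lit 15) (nat_lit 5) (nat_lit 17) (nat_lit 4) (nat_lit 15) (nat_lit 4) (nat_lit 458) (nat_lit 281) (nat_lit 281)) (XT.lf (nat_lit 0) (nat_lit 7494782472) (nat_lit 152) (nat_lit 18101628441) (nat_lit 0) (nat_lit 7331698419) (nat_lit 15) (nat_lit 5) (nat_lit 17) (nat_lit 4) (nat_lit 15) (nat_lit 4) (nat_lit 459) (nat_lit 281) (nat_lit 280))) (XT.nd (nat_lit 78) (nat_lit 76) (nat_lit 0) (XT.lf (nat_lit 0) (nat_lit 13591500096) (nat_lit 152) (nat_lit 6872903374) (nat_lit 0) (nat_lit 13270082013) (nat_lit 15) (nat_lit 5) (nat_lit 17) (nat_lit 4) (nat_lit 15) (nat_lit 4) (nat_lit 460) (nat_lit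 281) (nat_lit 279)) (XT.lf (nat_lit 0) (nat_lit 4556411708) (nat_lit 76) (nat_lit 15242969497) (nat_lit 76) (nat_lit 14767829052) (nat_lit 14) (nat_lit 4) (nat_lit 15) (nat_lit 5) (nat_lit 15) (nat_lit 4) (nat_lit 461) (nat_lit 281) (nat_lit 278))))) (XT.nd (nat_lit 234) (nat_lit 76) (nat_lit 0) (XT.nd (nat_lit 78) (nat_lit 152) (nat_lit 0) (XT.lf (nat_lit 0) (nat_lit 16246517969) (nat_lit 76) (nat_lit 9902068338) (nat_lit 76) (nat_lit 9277682883) (nat_lit 14) (nat_lit 4) (nat_lit 15) (nat_lit 5) (nat_lit 15) (nat_lit 4) (nat_lit 462) (nat_lit 281) (nat_lit 277)) (XT.nd (nat_lit 78) (nat_lit 152) (nat_lit 0) (XT.lf (nat_lit 0) (nat_lit 28070845811) (nat_lit 76) (nat_lit 4506436037) (nat_lit 76) (nat_lit 3737152514) (nat_lit 14) (nat_lit 4) (nat_lit 15) (nat_lit 5) (nat_lit 15) (nat_lit 4) (nat_lit 463) (nat_lit 281) (nat_lit 276)) (XT.lf (nat_lit 0) (nat_lit 1859248687) (nat_lit 152) (nat_lit 34395798610) (nat_lit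 0) (nat_lit 975791154) (nat_lit 12) (nat_lit 5) (nat_lit 14) (nat_lit 4) (nat_lit 12) (nat_lit 4) (nat_lit 464) (nat_lit 281) (nat_lit 275)))) (XT.nd (nat_lit 156) (nat_lit 76) (nat_lit 0) (XT.nd (nat_lit 78) (nat_lit 0) (nat_lit 0) (XT.lf (nat_lit 0) (nat_lit 7568452981) (nat_lit 152) (nat_lit 24052182208) (nat_lit 0) (nat_lit 6552393189) (nat_lit 12) (nat_lit 5) (nat_lit 14) (nat_lit 4) (nat_lit 12) (nat_lit 4) (nat_lit 465) (nat_lit 281) (nat_lit 274)) (XT.lf (nat_lit 0) (nat_lit 13343435988) (nat_lit 152) (nat_lit 13604581147) (nat_lit 0) (nat_lit 12198636139) (nat_lit 12) (nat_lit 5) (nat_lit 14) (nat_lit 4) (nat_lit 12) (nat_lit 4) (nat_lit 466) (nat_lit 281) (nat_lit 273))) (XT.nd (nat_lit 78) (nat_lit 76) (nat_lit 0) (XT.lf (nat_lit 0) (nat_lit 19189243811) (nat_lit 152) (nat_lit 3043866456) (nat_lit 0) (nat_lit 17919453616) (nat_lit 12) (nat_lit 5) (nat_lit 14) (nat_lit 4) (nat_lit 12) (nat_lit 4) (nat_lit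 467) (nat_lit 281) (nat_lit 272)) (XT.lf (nat_lit 0) (nat_lit 7791224527) (nat_lit 76) (nat_lit 17394653927) (nat_lit 76) (nat_lit 16003513881) (nat_lit 11) (nat_lit 4) (nat_lit 12) (nat_lit 5) (nat_lit 12) (nat_lit 4) (nat_lit 468) (nat_lit 281) (nat_lit 271))))))) (XT.nd (nat_lit 1092) (nat_lit 76) (nat_lit 0) (XT.nd (nat_lit 546) (nat_lit 228) (nat_lit 0) (XT.nd (nat_lit 234) (nat_lit 152) (nat_lit 0) (XT.nd (nat_lit 78) (nat_lit 0) (nat_lit 0) (XT.lf (nat_lit 0) (nat_lit 18821191184) (nat_lit 76) (nat_lit 12473561823) (nat_lit 76) (nat_lit 10964606388) (nat_lit 11) (nat_lit 4) (nat_lit 12) (nat_lit 5) (nat_lit 12) (nat_lit 4) (nat_lit 469) (nat_lit 281) (nat_lit 270)) (XT.nd (nat_lit 78) (nat_lit 0) (nat_lit 0) (XT.lf (nat_lit 0) (nat_lit 29995092438) (nat_lit 76) (nat_lit 7496271056) (nat_lit 76) (nat_lit 5872931748) (nat_lit 11) (nat_lit 4) (nat_lit 12) (nat_lit 5) (nat_lit 12) (nat_lit 4) (nat_lit 470)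 (nat_lit 281) (nat_lit 269)) (XT.lf (nat_lit 0) (nat_lit 41322691891) (nat_lit 76) (nat_lit 2458432538) (nat_lit 76) (nat_lit 724040925) (nat_lit 11) (nat_lit 4) (nat_lit 12) (nat_lit 5) (nat_lit 12) (nat_lit 4) (nat_lit 471) (nat_lit 281) (nat_lit 268)))) (XT.nd (nat_lit 156) (nat_lit 0) (nat_lit 0) (XT.nd (nat_lit 78) (nat_lit 0) (nat_lit 0) (XT.lf (nat_lit 0) (nat_lit 4495038407) (nat_lit 152) (nat_lit 38477268095) (nat_lit 0) (nat_lit 2706485608) (nat_lit 9) (nat_lit 5) (nat_lit 11) (nat_lit 4) (nat_lit 9) (nat_lit 4) (nat_lit 472) (nat_lit 281) (nat_lit 267)) (XT.lf (nat_lit 0) (nat_lit 9822116260) (nat_lit 152) (nat_lit 29134385551) (nat_lit 0) (nat_lit 7931934870) (nat_lit 9) (nat_lit 5) (nat_lit 11) (nat_lit 4) (nat_lit 9) (nat_lit 4) (nat_lit 473) (nat_lit 281) (nat_lit 266))) (XT.nd (nat_lit 78) (nat_lit 0) (nat_lit 0) (XT.lf (nat_lit 0) (nat_lit 15220834410) (nat_lit 152) (nat_lit 19684200188) (nat_lit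 0) (nat_lit 13231984488) (nat_lit 9) (nat_lit 5) (nat_lit 11) (nat_lit 4) (nat_lit 9) (nat_lit 4) (nat_lit 474) (nat_lit 281) (nat_lit 265)) (XT.lf (nat_lit 0) (nat_lit 20695910186) (nat_lit 152) (nat_lit 10118454561) (nat_lit 0) (nat_lit 18611265570) (nat_lit 9) (nat_lit 5) (nat_lit 11) (nat_lit 4) (nat_lit 9) (nat_lit 4) (nat_lit 475) (nat_lit 281) (nat_lit 264))))) (XT.nd (nat_lit 234) (nat_lit 152) (nat_lit 0) (XT.nd (nat_lit 78) (nat_lit 76) (nat_lit 0) (XT.lf (nat_lit 0) (nat_lit 26252127634) (nat_lit 152) (nat_lit 428790254) (nat_lit 0) (nat_lit 24074478462) (nat_lit 9) (nat_lit 5) (nat_lit 11) (nat_lit 4) (nat_lit 9) (nat_lit 4) (nat_lit 476) (nat_lit 281) (nat_lit 263)) (XT.nd (nat_lit 78) (nat_lit 0) (nat_lit 0) (XT.lf (nat_lit 0) (nat_lit 9580203713) (nat_lit 76) (nat_lit 22406228766) (nat_lit 76) (nat_lit 20138283908) (nat_lit 8) (nat_lit 4) (nat_lit 9) (nat_lit 5) (nat_lit 9) (nat_lit 4) (nat_lit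 477) (nat_lit 281) (nat_lit 262)) (XT.lf (nat_lit 0) (nat_lit 19741504734) (nat_lit 76) (nat_lit 18075745162) (nat_lit 76) (nat_lit 15720134590) (nat_lit 8) (nat_lit 4) (nat_lit 9) (nat_lit 5) (nat_lit 9) (nat_lit 4) (nat_lit 478) (nat_lit 281) (nat_lit 261)))) (XT.nd (nat_lit 156) (nat_lit 152) (nat_lit 0) (XT.nd (nat_lit 78) (nat_lit 0) (nat_lit 0) (XT.lf (nat_lit 0) (nat_lit 30055457848) (nat_lit 76) (nat_lit 13690013099) (nat_lit 76) (nat_lit 11249290183) (nat_lit 8) (nat_lit 4) (nat_lit 9) (nat_lit 5) (nat_lit 9) (nat_lit 4) (nat_lit 479) (nat_lit 281) (nat_lit 260)) (XT.lf (nat_lit 0) (nat_lit 40531075248) (nat_lit 76) (nat_lit 9245200384) (nat_lit 76) (nat_lit 6721844125) (nat_lit 8) (nat_lit 4) (nat_lit 9) (nat_lit 5) (nat_lit 9) (nat_lit 4) (nat_lit 480) (nat_lit 281) (nat_lit 259))) (XT.nd (nat_lit 78) (nat_lit 152) (nat_lit 0) (XT.lf (nat_lit 0) (nat_lit 51177510385) (nat_lit 76) (nat_lit 4737423201)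 (nat_lit 76) (nat_lit 2133840394) (nat_lit 8) (nat_lit 4) (nat_lit 9) (nat_lit 5) (nat_lit 9) (nat_lit 4) (nat_lit 481) (nat_lit 281) (nat_lit 258)) (XT.lf (nat_lit 0) (nat_lit 2378182563) (nat_lit 76) (nat_lit 114258432) (nat_lit 152) (nat_lit 57154225583) (nat_lit 6) (nat_lit 5) (nat_lit 7) (nat_lit 5) (nat_lit 8) (nat_lit 4) (nat_lit 482) (nat_lit 281) (nat_lit 257)))))) (XT.nd (nat_lit 546) (nat_lit 76) (nat_lit 0) (XT.nd (nat_lit 234) (nat_lit 0) (nat_lit 0) (XT.nd (nat_lit 78) (nat_lit 0) (nat_lit 0) (XT.lf (nat_lit 0) (nat_lit 7257813907) (nat_lit 152) (nat_lit 49451731240) (nat_lit 0) (nat_lit 4581023738) (nat_lit 6) (nat_lit 5) (nat_lit 8) (nat_lit 4) (nat_lit 6) (nat_lit 4) (nat_lit 483) (nat_lit 281) (nat_lit 256)) (XT.nd (nat_lit 78) (nat_lit 0) (nat_lit 0) (XT.lf (nat_lit 0) (nat_lit 12097805772) (nat_lit 152) (nat_lit 41538299811) (nat_lit 0) (nat_lit 9349735355) (nat_lit 6) (nat_lit 5) (nat_lit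 8) (nat_lit 4) (nat_lit 6) (nat_lit 4) (nat_lit 484) (nat_lit 281) (nat_lit 255)) (XT.lf (nat_lit 0) (nat_lit 17015547388) (nat_lit 152) (nat_lit 33520176757) (nat_lit 0) (nat_lit 14198272847) (nat_lit 6) (nat_lit 5) (nat_lit 8) (nat_lit 4) (nat_lit 6) (nat_lit 4) (nat_lit 485) (nat_lit 281) (nat_lit 254)))) (XT.nd (nat_lit 156) (nat_lit 0) (nat_lit 0) (XT.nd (nat_lit 78) (nat_lit 0) (nat_lit 0) (XT.lf (nat_lit 0) (nat_lit 22015335811) (nat_lit 152) (nat_lit 25390355951) (nat_lit 0) (nat_lit 19130872800) (nat_lit 6) (nat_lit 5) (nat_lit 8) (nat_lit 4) (nat_lit 6) (nat_lit 4) (nat_lit 486) (nat_lit 281) (nat_lit 253)) (XT.lf (nat_lit 0) (nat_lit 27101539788) (nat_lit 152) (nat_lit 17141733667) (nat_lit 0) (nat_lit 24151845252) (nat_lit 6) (nat_lit 5) (nat_lit 8) (nat_lit 4) (nat_lit 6) (nat_lit 4) (nat_lit 487) (nat_lit 281) (nat_lit 252))) (XT.nd (nat_lit 78) (nat_lit 0) (nat_lit 0) (XT.lf (nat_lit 0) (nat_lit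 32278603574) (nat_lit 152) (nat_lit 8767102370) (nat_lit 0) (nat_lit 29265577461) (nat_lit 6) (nat_lit 5) (nat_lit 8) (nat_lit 4) (nat_lit 6) (nat_lit 4) (nat_lit 488) (nat_lit 281) (nat_lit 251)) (XT.lf (nat_lit 0) (nat_lit 37551050818) (nat_lit 152) (nat_lit 259144422) (nat_lit 0) (nat_lit 34476537737) (nat_lit 6) (nat_lit 5) (nat_lit 8) (nat_lit 4) (nat_lit 6) (nat_lit 4) (nat_lit 489) (nat_lit 281) (nat_lit 250))))) (XT.nd (nat_lit 50544) (nat_lit 0) (nat_lit 760) (XT.nd (nat_lit 156) (nat_lit 0) (nat_lit 0) (XT.nd (nat_lit 78) (nat_lit 0) (nat_lit 0) (XT.lf (nat_lit 0) (nat_lit 8556543294) (nat_lit 76) (nat_lit 34449195946) (nat_lit 76) (nat_lit 31314986779) (nat_lit 5) (nat_lit 4) (nat_lit 6) (nat_lit 5) (nat_lit 6) (nat_lit 4) (nat_lit 490) (nat_lit 281) (nat_lit 249)) (XT.lf (nat_lit 0) (nat_lit 17528658234) (nat_lit 76) (nat_lit 31040448972) (nat_lit 76) (nat_lit 27848282441) (nat_lit 5) (nat_lit 4)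 (nat_lit 6) (nat_lit 5) (nat_lit 6) (nat_lit 4) (nat_lit 491) (nat_lit 281) (nat_lit 248))) (XT.nd (nat_lit 50310) (nat_lit 0) (nat_lit 912) (XT.lf (nat_lit 0) (nat_lit 26659882625) (nat_lit 76) (nat_lit 27583592652) (nat_lit 76) (nat_lit 24335156835) (nat_lit 5) (nat_lit 4) (nat_lit 6) (nat_lit 5) (nat_lit 6) (nat_lit 4) (nat_lit 492) (nat_lit 281) (nat_lit 247)) (XT.lf (nat_lit 0) (nat_lit 5213275689) (nat_lit 76) (nat_lit 5056941541) (nat_lit 76) (nat_lit 5056941541) (nat_lit 17) (nat_lit 4) (nat_lit 18) (nat_lit 5) (nat_lit 18) (nat_lit 4) (nat_lit 456) (nat_lit 282) (nat_lit 282)))) (XT.nd (nat_lit 156) (nat_lit 0) (nat_lit 0) (XT.nd (nat_lit 78) (nat_lit 152) (nat_lit 0) (XT.lf (nat_lit 0) (nat_lit 22609695823) (nat_lit 76) (nat_lit 4476864853) (nat_lit 76) (nat_lit 4303848981) (nat_lit 17) (nat_lit 4) (nat_lit 18) (nat_lit 5) (nat_lit 18) (nat_lit 4) (nat_lit 457) (nat_lit 282) (nat_lit 281)) (XT.lf (nat_lit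 0) (nat_lit 1567697738) (nat_lit 152) (nat_lit 29346170464) (nat_lit 0) (nat_lit 1236637112) (nat_lit 15) (nat_lit 5) (nat_lit 17) (nat_lit 4) (nat_lit 15) (nat_lit 4) (nat_lit 458) (nat_lit 282) (nat_lit 280))) (XT.nd (nat_lit 78) (nat_lit 0) (nat_lit 0) (XT.lf (nat_lit 0) (nat_lit 7543755872) (nat_lit 152) (nat_lit 18333567692) (nat_lit 0) (nat_lit 7054361214) (nat_lit 15) (nat_lit 5) (nat_lit 17) (nat_lit 4) (nat_lit 15) (nat_lit 4) (nat_lit 459) (nat_lit 282) (nat_lit 279)) (XT.lf (nat_lit 0) (nat_lit 13583558688) (nat_lit 152) (nat_lit 7215770576) (nat_lit 0) (nat_lit 12940441670) (nat_lit 15) (nat_lit 5) (nat_lit 17) (nat_lit 4) (nat_lit 15) (nat_lit 4) (nat_lit 460) (nat_lit 282) (nat_lit 278))))))))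
noncomputable def xc6 : XT := (XT.nd (nat_lit 2184) (nat_lit 76) (nat_lit 0) (XT.nd (nat_lit 1092) (nat_lit 228) (nat_lit 0) (XT.nd (nat_lit 546) (nat_lit 228) (nat_lit 0) (XT.nd (nat_lit 234) (nat_lit 152) (nat_lit 0) (XT.nd (nat_lit 78) (nat_lit 0) (nat_lit 0) (XT.lf (nat_lit 0) (nat_lit 4096880355) (nat_lit 76) (nat_lit 15634885049) (nat_lit 76) (nat_lit 14842523020) (nat_lit 14) (nat_lit 4) (nat_lit 15) (nat_lit 5) (nat_lit 15) (nat_lit 4) (nat_lit 461) (nat_lit 282) (nat_lit 277)) (XT.nd (nat_lit 78) (nat_lit 0) (nat_lit 0) (XT.lf (nat_lit 0) (nat_lit 15680345431) (nat_lit 76) (nat_lit 10345952310) (nat_lit 76) (nat_lit 9408692213) (nat_lit 14) (nat_lit 4) (nat_lit 15) (nat_lit 5) (nat_lit 15) (nat_lit 4) (nat_lit 462) (nat_lit 282) (nat_lit 276)) (XT.lf (nat_lit 0) (nat_lit 27401138141) (nat_lit 76) (nat_lit 5000774784) (nat_lit 76) (nat_lit 3922836951) (nat_lit 14) (nat_lit 4) (nat_lit 15) (nat_lit 5)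 (nat_lit 15) (nat_lit 4) (nat_lit 463) (nat_lit 282) (nat_lit 275)))) (XT.nd (nat_lit 156) (nat_lit 0) (nat_lit 0) (XT.nd (nat_lit 78) (nat_lit 0) (nat_lit 0) (XT.lf (nat_lit 0) (nat_lit 1612174588) (nat_lit 152) (nat_lit 35197954782) (nat_lit 0) (nat_lit 433030744) (nat_lit 12) (nat_lit 5) (nat_lit 14) (nat_lit 4) (nat_lit 12) (nat_lit 4) (nat_lit 464) (nat_lit 282) (nat_lit 274)) (XT.lf (nat_lit 0) (nat_lit 7269409711) (nat_lit 152) (nat_lit 24955975736) (nat_lit 0) (nat_lit 5961525810) (nat_lit 12) (nat_lit 5) (nat_lit 14) (nat_lit 4) (nat_lit 12) (nat_lit 4) (nat_lit 465) (nat_lit 282) (nat_lit 273))) (XT.nd (nat_lit 78) (nat_lit 0) (nat_lit 0) (XT.lf (nat_lit 0) (nat_lit 12993937214) (nat_lit 152) (nat_lit 14607051720) (nat_lit 0) (nat_lit 11561062966) (nat_lit 12) (nat_lit 5) (nat_lit 14) (nat_lit 4) (nat_lit 12) (nat_lit 4) (nat_lit 466) (nat_lit 282) (nat_lit 272)) (XT.lf (nat_lit 0) (nat_lit 18790759110)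 (nat_lit 152) (nat_lit 4142139985) (nat_lit 0) (nat_lit 17236535012) (nat_lit 12) (nat_lit 5) (nat_lit 14) (nat_lit 4) (nat_lit 12) (nat_lit 4) (nat_lit 467) (nat_lit 282) (nat_lit 271))))) (XT.nd (nat_lit 234) (nat_lit 152) (nat_lit 0) (XT.nd (nat_lit 78) (nat_lit 0) (nat_lit 0) (XT.lf (nat_lit 0) (nat_lit 6576229489) (nat_lit 76) (nat_lit 18151925836) (nat_lit 76) (nat_lit 16479886348) (nat_lit 11) (nat_lit 4) (nat_lit 12) (nat_lit 5) (nat_lit 12) (nat_lit 4) (nat_lit 468) (nat_lit 282) (nat_lit 270)) (XT.nd (nat_lit 78) (nat_lit 0) (nat_lit 0) (XT.lf (nat_lit 0) (nat_lit 17514095455) (nat_lit 76) (nat_lit 13275875161) (nat_lit 76) (nat_lit 11489451800) (nat_lit 11) (nat_lit 4) (nat_lit 12) (nat_lit 5) (nat_lit 12) (nat_lit 4) (nat_lit 469) (nat_lit 282) (nat_lit 269)) (XT.lf (nat_lit 0) (nat_lit 28598578562) (nat_lit 76) (nat_lit 8342313936) (nat_lit 76) (nat_lit 6444838272) (nat_lit 11) (nat_lit 4) (nat_lit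 12) (nat_lit 5) (nat_lit 12) (nat_lit 4) (nat_lit 470) (nat_lit 282) (nat_lit 268)))) (XT.nd (nat_lit 156) (nat_lit 0) (nat_lit 0) (XT.nd (nat_lit 78) (nat_lit 152) (nat_lit 0) (XT.lf (nat_lit 0) (nat_lit 39839364281) (nat_lit 76) (nat_lit 3346931284) (nat_lit 76) (nat_lit 1341637848) (nat_lit 11) (nat_lit 4) (nat_lit 12) (nat_lit 5) (nat_lit 12) (nat_lit 4) (nat_lit 471) (nat_lit 282) (nat_lit 267)) (XT.lf (nat_lit 0) (nat_lit 3821302856) (nat_lit 152) (nat_lit 40109695375) (nat_lit 0) (nat_lit 1772787436) (nat_lit 9) (nat_lit 5) (nat_lit 11) (nat_lit 4) (nat_lit 9) (nat_lit 4) (nat_lit 472) (nat_lit 282) (nat_lit 266))) (XT.nd (nat_lit 78) (nat_lit 0) (nat_lit 0) (XT.lf (nat_lit 0) (nat_lit 9104946208) (nat_lit 152) (nat_lit 30852026456) (nat_lit 0) (nat_lit 6957762254) (nat_lit 9) (nat_lit 5) (nat_lit 11) (nat_lit 4) (nat_lit 9) (nat_lit 4) (nat_lit 473) (nat_lit 282) (nat_lit 265)) (XT.lf (nat_lit 0) (nat_lit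 14461494940) (nat_lit 152) (nat_lit 21484572766) (nat_lit 0) (nat_lit 12218516293) (nat_lit 9) (nat_lit 5) (nat_lit 11) (nat_lit 4) (nat_lit 9) (nat_lit 4) (nat_lit 474) (nat_lit 282) (nat_lit 264)))))) (XT.nd (nat_lit 546) (nat_lit 152) (nat_lit 0) (XT.nd (nat_lit 234) (nat_lit 0) (nat_lit 0) (XT.nd (nat_lit 78) (nat_lit 76) (nat_lit 0) (XT.lf (nat_lit 0) (nat_lit 19895629533) (nat_lit 152) (nat_lit 11999149153) (nat_lit 0) (nat_lit 17559646329) (nat_lit 9) (nat_lit 5) (nat_lit 11) (nat_lit 4) (nat_lit 9) (nat_lit 4) (nat_lit 475) (nat_lit 282) (nat_lit 263)) (XT.nd (nat_lit 78) (nat_lit 76) (nat_lit 0) (XT.lf (nat_lit 0) (nat_lit 25412098259) (nat_lit 152) (nat_lit 2387467383) (nat_lit 0) (nat_lit 22985819370) (nat_lit 9) (nat_lit 5) (nat_lit 11) (nat_lit 4) (nat_lit 9) (nat_lit 4) (nat_lit 476) (nat_lit 282) (nat_lit 262)) (XT.lf (nat_lit 0) (nat_lit 7505327066) (nat_lit 76) (nat_lit 23582540063) (nat_lit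 76) (nat_lit 21068595459) (nat_lit 8) (nat_lit 4) (nat_lit 9) (nat_lit 5) (nat_lit 9) (nat_lit 4) (nat_lit 477) (nat_lit 282) (nat_lit 261)))) (XT.nd (nat_lit 156) (nat_lit 0) (nat_lit 0) (XT.nd (nat_lit 78) (nat_lit 0) (nat_lit 0) (XT.lf (nat_lit 0) (nat_lit 17591659152) (nat_lit 76) (nat_lit 19288837764) (nat_lit 76) (nat_lit 16689780816) (nat_lit 8) (nat_lit 4) (nat_lit 9) (nat_lit 5) (nat_lit 9) (nat_lit 4) (nat_lit 478) (nat_lit 282) (nat_lit 260)) (XT.lf (nat_lit 0) (nat_lit 27832826893) (nat_lit 76) (nat_lit 14938815706) (nat_lit 76) (nat_lit 12257125415) (nat_lit 8) (nat_lit 4) (nat_lit 9) (nat_lit 5) (nat_lit 9) (nat_lit 4) (nat_lit 479) (nat_lit 282) (nat_lit 259))) (XT.nd (nat_lit 78) (nat_lit 0) (nat_lit 0) (XT.lf (nat_lit 0) (nat_lit 38237778882) (nat_lit 76) (nat_lit 10528672899) (nat_lit 76) (nat_lit 7766756061) (nat_lit 8) (nat_lit 4) (nat_lit 9) (nat_lit 5) (nat_lit 9) (nat_lit 4) (nat_lit 480)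 (nat_lit 282) (nat_lit 258)) (XT.lf (nat_lit 0) (nat_lit 48815606824) (nat_lit 76) (nat_lit 6054555820) (nat_lit 76) (nat_lit 3214749131) (nat_lit 8) (nat_lit 4) (nat_lit 9) (nat_lit 5) (nat_lit 9) (nat_lit 4) (nat_lit 481) (nat_lit 282) (nat_lit 257))))) (XT.nd (nat_lit 234) (nat_lit 0) (nat_lit 0) (XT.nd (nat_lit 78) (nat_lit 76) (nat_lit 0) (XT.lf (nat_lit 0) (nat_lit 1375497755) (nat_lit 152) (nat_lit 123167462) (nat_lit 76) (nat_lit 58186165897) (nat_lit 7) (nat_lit 5) (nat_lit 9) (nat_lit 5) (nat_lit 8) (nat_lit 4) (nat_lit 482) (nat_lit 282) (nat_lit 256)) (XT.nd (nat_lit 78) (nat_lit 0) (nat_lit 0) (XT.lf (nat_lit 0) (nat_lit 6092120020) (nat_lit 152) (nat_lit 52047749864) (nat_lit 0) (nat_lit 3190327243) (nat_lit 6) (nat_lit 5) (nat_lit 8) (nat_lit 4) (nat_lit 6) (nat_lit 4) (nat_lit 483) (nat_lit 282) (nat_lit 255)) (XT.lf (nat_lit 0) (nat_lit 10898885282) (nat_lit 152) (nat_lit 44199693469) (nat_lit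 0) (nat_lit 7927888380) (nat_lit 6) (nat_lit 5) (nat_lit 8) (nat_lit 4) (nat_lit 6) (nat_lit 4) (nat_lit 484) (nat_lit 282) (nat_lit 254)))) (XT.nd (nat_lit 156) (nat_lit 0) (nat_lit 0) (XT.nd (nat_lit 78) (nat_lit 0) (nat_lit 0) (XT.lf (nat_lit 0) (nat_lit 15784368059) (nat_lit 152) (nat_lit 36245041321) (nat_lit 0) (nat_lit 12746182687) (nat_lit 6) (nat_lit 5) (nat_lit 8) (nat_lit 4) (nat_lit 6) (nat_lit 4) (nat_lit 485) (nat_lit 282) (nat_lit 253)) (XT.lf (nat_lit 0) (nat_lit 20752837222) (nat_lit 152) (nat_lit 28176842755) (nat_lit 0) (nat_lit 17649420325) (nat_lit 6) (nat_lit 5) (nat_lit 8) (nat_lit 4) (nat_lit 6) (nat_lit 4) (nat_lit 486) (nat_lit 282) (nat_lit 252))) (XT.nd (nat_lit 78) (nat_lit 0) (nat_lit 0) (XT.lf (nat_lit 0) (nat_lit 25808634149) (nat_lit 152) (nat_lit 19988047887) (nat_lit 0) (nat_lit 22641885675) (nat_lit 6) (nat_lit 5) (nat_lit 8) (nat_lit 4) (nat_lit 6) (nat_lit 4) (nat_lit 487)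 (nat_lit 282) (nat_lit 251)) (XT.lf (nat_lit 0) (nat_lit 30956176529) (nat_lit 152) (nat_lit 11671501461) (nat_lit 0) (nat_lit 27727941087) (nat_lit 6) (nat_lit 5) (nat_lit 8) (nat_lit 4) (nat_lit 6) (nat_lit 4) (nat_lit 488) (nat_lit 282) (nat_lit 250))))))) (XT.nd (nat_lit 51168) (nat_lit 0) (nat_lit 228) (XT.nd (nat_lit 50622) (nat_lit 0) (nat_lit 684) (XT.nd (nat_lit 234) (nat_lit 0) (nat_lit 0) (XT.nd (nat_lit 78) (nat_lit 76) (nat_lit 0) (XT.lf (nat_lit 0) (nat_lit 36199962213) (nat_lit 152) (nat_lit 3219936591) (nat_lit 0) (nat_lit 32912030685) (nat_lit 6) (nat_lit 5) (nat_lit 8) (nat_lit 4) (nat_lit 6) (nat_lit 4) (nat_lit 489) (nat_lit 282) (nat_lit 249)) (XT.nd (nat_lit 78) (nat_lit 0) (nat_lit 0) (XT.lf (nat_lit 0) (nat_lit 5480985351) (nat_lit 76) (nat_lit 36116274382) (nat_lit 76) (nat_lit 32770385490) (nat_lit 5) (nat_lit 4) (nat_lit 6) (nat_lit 5) (nat_lit 6) (nat_lit 4) (nat_lit 490) (nat_lit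 282) (nat_lit 248)) (XT.lf (nat_lit 0) (nat_lit 14398886499) (nat_lit 76) (nat_lit 32734203794) (nat_lit 76) (nat_lit 29332045616) (nat_lit 5) (nat_lit 4) (nat_lit 6) (nat_lit 5) (nat_lit 6) (nat_lit 4) (nat_lit 491) (nat_lit 282) (nat_lit 247)))) (XT.nd (nat_lit 50232) (nat_lit 0) (nat_lit 912) (XT.nd (nat_lit 50154) (nat_lit 0) (nat_lit 988) (XT.lf (nat_lit 0) (nat_lit 23477476142) (nat_lit 76) (nat_lit 29303246878) (nat_lit 76) (nat_lit 25846458325) (nat_lit 5) (nat_lit 4) (nat_lit 6) (nat_lit 5) (nat_lit 6) (nat_lit 4) (nat_lit 492) (nat_lit 282) (nat_lit 246)) (XT.lf (nat_lit 0) (nat_lit 4014831264) (nat_lit 152) (nat_lit 6595705760) (nat_lit 0) (nat_lit 4014831264) (nat_lit 18) (nat_lit 5) (nat_lit 20) (nat_lit 4) (nat_lit 18) (nat_lit 4) (nat_lit 454) (nat_lit 283) (nat_lit 283))) (XT.nd (nat_lit 78) (nat_lit 76) (nat_lit 0) (XT.lf (nat_lit 0) (nat_lit 14260834786) (nat_lit 152) (nat_lit 1599277765) (nat_lit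 0) (nat_lit 14082628439) (nat_lit 18) (nat_lit 5) (nat_lit 20) (nat_lit 4) (nat_lit 18) (nat_lit 4) (nat_lit 455) (nat_lit 283) (nat_lit 282)) (XT.lf (nat_lit 0) (nat_lit 10310175418) (nat_lit 76) (nat_lit 10348581864) (nat_lit 76) (nat_lit 9997359646) (nat_lit 17) (nat_lit 4) (nat_lit 18) (nat_lit 5) (nat_lit 18) (nat_lit 4) (nat_lit 456) (nat_lit 283) (nat_lit 281))))) (XT.nd (nat_lit 234) (nat_lit 76) (nat_lit 0) (XT.nd (nat_lit 78) (nat_lit 152) (nat_lit 0) (XT.lf (nat_lit 0) (nat_lit 22380333495) (nat_lit 76) (nat_lit 4766410659) (nat_lit 76) (nat_lit 4247211867) (nat_lit 17) (nat_lit 4) (nat_lit 18) (nat_lit 5) (nat_lit 18) (nat_lit 4) (nat_lit 457) (nat_lit 283) (nat_lit 280)) (XT.nd (nat_lit 78) (nat_lit 0) (nat_lit 0) (XT.lf (nat_lit 0) (nat_lit 1559518088) (nat_lit 152) (nat_lit 29699323681) (nat_lit 0) (nat_lit 897107559) (nat_lit 15) (nat_lit 5) (nat_lit 17) (nat_lit 4) (nat_lit 15) (nat_lit 4) (nat_lit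 458) (nat_lit 283) (nat_lit 279)) (XT.lf (nat_lit 0) (nat_lit 7478661413) (nat_lit 152) (nat_lit 18797648860) (nat_lit 0) (nat_lit 6662528523) (nat_lit 15) (nat_lit 5) (nat_lit 17) (nat_lit 4) (nat_lit 15) (nat_lit 4) (nat_lit 459) (nat_lit 283) (nat_lit 278)))) (XT.nd (nat_lit 156) (nat_lit 0) (nat_lit 0) (XT.nd (nat_lit 78) (nat_lit 76) (nat_lit 0) (XT.lf (nat_lit 0) (nat_lit 13463207133) (nat_lit 152) (nat_lit 7787548783) (nat_lit 0) (nat_lit 12497829233) (nat_lit 15) (nat_lit 5) (nat_lit 17) (nat_lit 4) (nat_lit 15) (nat_lit 4) (nat_lit 460) (nat_lit 283) (nat_lit 277)) (XT.lf (nat_lit 0) (nat_lit 3407081455) (nat_lit 76) (nat_lit 16144053959) (nat_lit 76) (nat_lit 15033777991) (nat_lit 14) (nat_lit 4) (nat_lit 15) (nat_lit 5) (nat_lit 15) (nat_lit 4) (nat_lit 461) (nat_lit 283) (nat_lit 276))) (XT.nd (nat_lit 78) (nat_lit 0) (nat_lit 0) (XT.lf (nat_lit 0) (nat_lit 14887011399) (nat_lit 76) (nat_lit 10905575996)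 (nat_lit 76) (nat_lit 9654622292) (nat_lit 14) (nat_lit 4) (nat_lit 15) (nat_lit 5) (nat_lit 15) (nat_lit 4) (nat_lit 462) (nat_lit 283) (nat_lit 275)) (XT.lf (nat_lit 0) (nat_lit 26507284563) (nat_lit 76) (nat_lit 5609383691) (nat_lit 76) (nat_lit 4221849660) (nat_lit 14) (nat_lit 4) (nat_lit 15) (nat_lit 5) (nat_lit 15) (nat_lit 4) (nat_lit 463) (nat_lit 283) (nat_lit 274)))))) (XT.nd (nat_lit 546) (nat_lit 228) (nat_lit 0) (XT.nd (nat_lit 234) (nat_lit 76) (nat_lit 0) (XT.nd (nat_lit 78) (nat_lit 0) (nat_lit 0) (XT.lf (nat_lit 0) (nat_lit 1026262601) (nat_lit 76) (nat_lit 228121088) (nat_lit 152) (nat_lit 36004571224) (nat_lit 12) (nat_lit 5) (nat_lit 13) (nat_lit 5) (nat_lit 14) (nat_lit 4) (nat_lit 464) (nat_lit 283) (nat_lit 273)) (XT.nd (nat_lit 78) (nat_lit 0) (nat_lit 0) (XT.lf (nat_lit 0) (nat_lit 6858970469) (nat_lit 152) (nat_lit 26087197472) (nat_lit 0) (nat_lit 5258119648) (nat_lit 12) (nat_lit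 5) (nat_lit 14) (nat_lit 4) (nat_lit 12) (nat_lit 4) (nat_lit 465) (nat_lit 283) (nat_lit 272)) (XT.lf (nat_lit 0) (nat_lit 12534512045) (nat_lit 152) (nat_lit 15834076412) (nat_lit 0) (nat_lit 10812311373) (nat_lit 12) (nat_lit 5) (nat_lit 14) (nat_lit 4) (nat_lit 12) (nat_lit 4) (nat_lit 466) (nat_lit 283) (nat_lit 271)))) (XT.nd (nat_lit 156) (nat_lit 0) (nat_lit 0) (XT.nd (nat_lit 78) (nat_lit 76) (nat_lit 0) (XT.lf (nat_lit 0) (nat_lit 18283774789) (nat_lit 152) (nat_lit 5462177256) (nat_lit 0) (nat_lit 16443758728) (nat_lit 12) (nat_lit 5) (nat_lit 14) (nat_lit 4) (nat_lit 12) (nat_lit 4) (nat_lit 467) (nat_lit 283) (nat_lit 270)) (XT.lf (nat_lit 0) (nat_lit 5137820197) (nat_lit 76) (nat_lit 19023350002) (nat_lit 76) (nat_lit 17068950068) (nat_lit 11) (nat_lit 4) (nat_lit 12) (nat_lit 5) (nat_lit 12) (nat_lit 4) (nat_lit 468) (nat_lit 283) (nat_lit 269))) (XT.nd (nat_lit 78) (nat_lit 0) (nat_lit 0) (XT.lf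 (nat_lit 0) (nat_lit 15986268016) (nat_lit 76) (nat_lit 14191028870) (nat_lit 76) (nat_lit 12125576631) (nat_lit 11) (nat_lit 4) (nat_lit 12) (nat_lit 5) (nat_lit 12) (nat_lit 4) (nat_lit 469) (nat_lit 283) (nat_lit 268)) (XT.lf (nat_lit 0) (nat_lit 26983937389) (nat_lit 76) (nat_lit 9299923512) (nat_lit 76) (nat_lit 7126653502) (nat_lit 11) (nat_lit 4) (nat_lit 12) (nat_lit 5) (nat_lit 12) (nat_lit 4) (nat_lit 470) (nat_lit 283) (nat_lit 267))))) (XT.nd (nat_lit 312) (nat_lit 76) (nat_lit 0) (XT.nd (nat_lit 156) (nat_lit 0) (nat_lit 0) (XT.nd (nat_lit 78) (nat_lit 152) (nat_lit 0) (XT.lf (nat_lit 0) (nat_lit 38140437929) (nat_lit 76) (nat_lit 4345760147) (nat_lit 76) (nat_lit 2067812690) (nat_lit 11) (nat_lit 4) (nat_lit 12) (nat_lit 5) (nat_lit 12) (nat_lit 4) (nat_lit 471) (nat_lit 283) (nat_lit 266)) (XT.lf (nat_lit 0) (nat_lit 3039183202) (nat_lit 152) (nat_lit 41964079131) (nat_lit 0) (nat_lit 728915195)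 (nat_lit 9) (nat_lit 5) (nat_lit 11) (nat_lit 4) (nat_lit 9) (nat_lit 4) (nat_lit 472) (nat_lit 283) (nat_lit 265))) (XT.nd (nat_lit 78) (nat_lit 0) (nat_lit 0) (XT.lf (nat_lit 0) (nat_lit 8280657135) (nat_lit 152) (nat_lit 32789141885) (nat_lit 0) (nat_lit 5874594435) (nat_lit 9) (nat_lit 5) (nat_lit 11) (nat_lit 4) (nat_lit 9) (nat_lit 4) (nat_lit 473) (nat_lit 283) (nat_lit 264)) (XT.lf (nat_lit 0) (nat_lit 13596264684) (nat_lit 152) (nat_lit 23502010209) (nat_lit 0) (nat_lit 11097197428) (nat_lit 9) (nat_lit 5) (nat_lit 11) (nat_lit 4) (nat_lit 9) (nat_lit 4) (nat_lit 474) (nat_lit 283) (nat_lit 263)))) (XT.nd (nat_lit 156) (nat_lit 76) (nat_lit 0) (XT.nd (nat_lit 78) (nat_lit 0) (nat_lit 0) (XT.lf (nat_lit 0) (nat_lit 18990650555) (nat_lit 152) (nat_lit 14094569133) (nat_lit 0) (nat_lit 16401287614) (nat_lit 9) (nat_lit 5) (nat_lit 11) (nat_lit 4) (nat_lit 9) (nat_lit 4) (nat_lit 475) (nat_lit 283) (nat_lit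 262)) (XT.lf (nat_lit 0) (nat_lit 24468528290) (nat_lit 152) (nat_lit 4558598564) (nat_lit 0) (nat_lit 21791499634) (nat_lit 9) (nat_lit 5) (nat_lit 11) (nat_lit 4) (nat_lit 9) (nat_lit 4) (nat_lit 476) (nat_lit 283) (nat_lit 261))) (XT.nd (nat_lit 78) (nat_lit 0) (nat_lit 0) (XT.lf (nat_lit 0) (nat_lit 5216017182) (nat_lit 76) (nat_lit 24868806748) (nat_lit 76) (nat_lit 22106665748) (nat_lit 8) (nat_lit 4) (nat_lit 9) (nat_lit 5) (nat_lit 9) (nat_lit 4) (nat_lit 477) (nat_lit 283) (nat_lit 260)) (XT.lf (nat_lit 0) (nat_lit 15229563895) (nat_lit 76) (nat_lit 20610814454) (nat_lit 76) (nat_lit 17766040111) (nat_lit 8) (nat_lit 4) (nat_lit 9) (nat_lit 5) (nat_lit 9) (nat_lit 4) (nat_lit 478) (nat_lit 283) (nat_lit 259))))))))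
noncomputable def xc7 : XT := (XT.nd (nat_lit 52104) (nat_lit 0) (nat_lit 0) (XT.nd (nat_lit 51012) (nat_lit 0) (nat_lit 532) (XT.nd (nat_lit 546) (nat_lit 76) (nat_lit 0) (XT.nd (nat_lit 234) (nat_lit 152) (nat_lit 0) (XT.nd (nat_lit 78) (nat_lit 0) (nat_lit 0) (XT.lf (nat_lit 0) (nat_lit 25400066225) (nat_lit 76) (nat_lit 16295462304) (nat_lit 76) (nat_lit 13370461413) (nat_lit 8) (nat_lit 4) (nat_lit 9) (nat_lit 5) (nat_lit 9) (nat_lit 4) (nat_lit 479) (nat_lit 283) (nat_lit 258)) (XT.nd (nat_lit 78) (nat_lit 0) (nat_lit 0) (XT.lf (nat_lit 0) (nat_lit 35736411018) (nat_lit 76) (nat_lit 11918979602) (nat_lit 76) (nat_lit 8916088859) (nat_lit 8) (nat_lit 4) (nat_lit 9) (nat_lit 5) (nat_lit 9) (nat_lit 4) (nat_lit 480) (nat_lit 283) (nat_lit 257)) (XT.lf (nat_lit 0) (nat_lit 46247630033) (nat_lit 76) (nat_lit 7477542236) (nat_lit 76) (nat_lit 4399030279) (nat_lit 8) (nat_lit 4) (nat_lit 9) (nat_lit 5) (nat_lit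 9) (nat_lit 4) (nat_lit 481) (nat_lit 283) (nat_lit 256)))) (XT.nd (nat_lit 156) (nat_lit 0) (nat_lit 0) (XT.nd (nat_lit 78) (nat_lit 76) (nat_lit 0) (XT.lf (nat_lit 0) (nat_lit 181057866) (nat_lit 152) (nat_lit 2784383144) (nat_lit 76) (nat_lit 56760021634) (nat_lit 7) (nat_lit 5) (nat_lit 9) (nat_lit 5) (nat_lit 8) (nat_lit 4) (nat_lit 482) (nat_lit 283) (nat_lit 255)) (XT.lf (nat_lit 0) (nat_lit 4824005311) (nat_lit 152) (nat_lit 54854360366) (nat_lit 0) (nat_lit 1694674378) (nat_lit 6) (nat_lit 5) (nat_lit 8) (nat_lit 4) (nat_lit 6) (nat_lit 4) (nat_lit 483) (nat_lit 283) (nat_lit 254))) (XT.nd (nat_lit 78) (nat_lit 0) (nat_lit 0) (XT.lf (nat_lit 0) (nat_lit 9598511734) (nat_lit 152) (nat_lit 47069774876) (nat_lit 0) (nat_lit 6401992331) (nat_lit 6) (nat_lit 5) (nat_lit 8) (nat_lit 4) (nat_lit 6) (nat_lit 4) (nat_lit 484) (nat_lit 283) (nat_lit 253)) (XT.lf (nat_lit 0) (nat_lit 14452675252) (nat_lit 152)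 (nat_lit 39176744968) (nat_lit 0) (nat_lit 11190924324) (nat_lit 6) (nat_lit 5) (nat_lit 8) (nat_lit 4) (nat_lit 6) (nat_lit 4) (nat_lit 485) (nat_lit 283) (nat_lit 252))))) (XT.nd (nat_lit 234) (nat_lit 76) (nat_lit 0) (XT.nd (nat_lit 78) (nat_lit 0) (nat_lit 0) (XT.lf (nat_lit 0) (nat_lit 19390737365) (nat_lit 152) (nat_lit 31168373818) (nat_lit 0) (nat_lit 16065654860) (nat_lit 6) (nat_lit 5) (nat_lit 8) (nat_lit 4) (nat_lit 6) (nat_lit 4) (nat_lit 486) (nat_lit 283) (nat_lit 251)) (XT.nd (nat_lit 78) (nat_lit 0) (nat_lit 0) (XT.lf (nat_lit 0) (nat_lit 24417012886) (nat_lit 152) (nat_lit 23037663821) (nat_lit 0) (nat_lit 21030443412) (nat_lit 6) (nat_lit 5) (nat_lit 8) (nat_lit 4) (nat_lit 6) (nat_lit 4) (nat_lit 487) (nat_lit 283) (nat_lit 250)) (XT.lf (nat_lit 0) (nat_lit 29535893705) (nat_lit 152) (nat_lit 14777510473) (nat_lit 0) (nat_lit 26089628146) (nat_lit 6) (nat_lit 5) (nat_lit 8) (nat_lit 4) (nat_lit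 6) (nat_lit 4) (nat_lit 488) (nat_lit 283) (nat_lit 249)))) (XT.nd (nat_lit 156) (nat_lit 0) (nat_lit 0) (XT.nd (nat_lit 78) (nat_lit 76) (nat_lit 0) (XT.lf (nat_lit 0) (nat_lit 34751852632) (nat_lit 152) (nat_lit 6380696164) (nat_lit 0) (nat_lit 31247629708) (nat_lit 6) (nat_lit 5) (nat_lit 8) (nat_lit 4) (nat_lit 6) (nat_lit 4) (nat_lit 489) (nat_lit 283) (nat_lit 248)) (XT.lf (nat_lit 0) (nat_lit 2203106673) (nat_lit 76) (nat_lit 37887518235) (nat_lit 76) (nat_lit 34327026026) (nat_lit 5) (nat_lit 4) (nat_lit 6) (nat_lit 5) (nat_lit 6) (nat_lit 4) (nat_lit 490) (nat_lit 283) (nat_lit 247))) (XT.nd (nat_lit 78) (nat_lit 0) (nat_lit 0) (XT.lf (nat_lit 0) (nat_lit 11068373072) (nat_lit 76) (nat_lit 34531347051) (nat_lit 76) (nat_lit 30916224466) (nat_lit 5) (nat_lit 4) (nat_lit 6) (nat_lit 5) (nat_lit 6) (nat_lit 4) (nat_lit 491) (nat_lit 283) (nat_lit 246)) (XT.lf (nat_lit 0) (nat_lit 20095861017) (nat_lit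 76) (nat_lit 31125535187) (nat_lit 76) (nat_lit 27457373403) (nat_lit 5) (nat_lit 4) (nat_lit 6) (nat_lit 5) (nat_lit 6) (nat_lit 4) (nat_lit 492) (nat_lit 283) (nat_lit 245)))))) (XT.nd (nat_lit 546) (nat_lit 228) (nat_lit 0) (XT.nd (nat_lit 234) (nat_lit 228) (nat_lit 0) (XT.nd (nat_lit 78) (nat_lit 152) (nat_lit 0) (XT.lf (nat_lit 0) (nat_lit 9999111142) (nat_lit 76) (nat_lit 1983156163) (nat_lit 76) (nat_lit 1983156163) (nat_lit 20) (nat_lit 4) (nat_lit 21) (nat_lit 5) (nat_lit 21) (nat_lit 4) (nat_lit 452) (nat_lit 284) (nat_lit 284)) (XT.nd (nat_lit 78) (nat_lit 0) (nat_lit 0) (XT.lf (nat_lit 0) (nat_lit 2044240623) (nat_lit 152) (nat_lit 24677543554) (nat_lit 0) (nat_lit 1860688086) (nat_lit 18) (nat_lit 5) (nat_lit 20) (nat_lit 4) (nat_lit 18) (nat_lit 4) (nat_lit 453) (nat_lit 284) (nat_lit 283)) (XT.lf (nat_lit 0) (nat_lit 8152687274) (nat_lit 152) (nat_lit 13308939717) (nat_lit 0) (nat_lit 7790928389)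 (nat_lit 18) (nat_lit 5) (nat_lit 20) (nat_lit 4) (nat_lit 18) (nat_lit 4) (nat_lit 454) (nat_lit 284) (nat_lit 282)))) (XT.nd (nat_lit 156) (nat_lit 152) (nat_lit 0) (XT.nd (nat_lit 78) (nat_lit 76) (nat_lit 0) (XT.lf (nat_lit 0) (nat_lit 14325094683) (nat_lit 152) (nat_lit 1830911007) (nat_lit 0) (nat_lit 13790319926) (nat_lit 18) (nat_lit 5) (nat_lit 20) (nat_lit 4) (nat_lit 18) (nat_lit 4) (nat_lit 455) (nat_lit 284) (nat_lit 281)) (XT.lf (nat_lit 0) (nat_lit 9960945851) (nat_lit 76) (nat_lit 10701661069) (nat_lit 76) (nat_lit 9998909739) (nat_lit 17) (nat_lit 4) (nat_lit 18) (nat_lit 5) (nat_lit 18) (nat_lit 4) (nat_lit 456) (nat_lit 284) (nat_lit 280))) (XT.nd (nat_lit 78) (nat_lit 152) (nat_lit 0) (XT.lf (nat_lit 0) (nat_lit 21921408424) (nat_lit 76) (nat_lit 5172739402) (nat_lit 76) (nat_lit 4306904020) (nat_lit 17) (nat_lit 4) (nat_lit 18) (nat_lit 5) (nat_lit 18) (nat_lit 4) (nat_lit 457) (nat_lit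 284) (nat_lit 279)) (XT.lf (nat_lit 0) (nat_lit 1435555986) (nat_lit 152) (nat_lit 30288255235) (nat_lit 0) (nat_lit 441216749) (nat_lit 15) (nat_lit 5) (nat_lit 17) (nat_lit 4) (nat_lit 15) (nat_lit 4) (nat_lit 458) (nat_lit 284) (nat_lit 278))))) (XT.nd (nat_lit 234) (nat_lit 152) (nat_lit 0) (XT.nd (nat_lit 78) (nat_lit 76) (nat_lit 0) (XT.lf (nat_lit 0) (nat_lit 7299442215) (nat_lit 152) (nat_lit 19494277452) (nat_lit 0) (nat_lit 6155857968) (nat_lit 15) (nat_lit 5) (nat_lit 17) (nat_lit 4) (nat_lit 15) (nat_lit 4) (nat_lit 459) (nat_lit 284) (nat_lit 277)) (XT.nd (nat_lit 78) (nat_lit 76) (nat_lit 0) (XT.lf (nat_lit 0) (nat_lit 13230340269) (nat_lit 152) (nat_lit 8588737607) (nat_lit 0) (nat_lit 11941857954) (nat_lit 15) (nat_lit 5) (nat_lit 17) (nat_lit 4) (nat_lit 15) (nat_lit 4) (nat_lit 460) (nat_lit 284) (nat_lit 276)) (XT.lf (nat_lit 0) (nat_lit 2486412270) (nat_lit 76) (nat_lit 16770921132) (nat_lit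 76) (nat_lit 15341761081) (nat_lit 14) (nat_lit 4) (nat_lit 15) (nat_lit 5) (nat_lit 15) (nat_lit 4) (nat_lit 461) (nat_lit 284) (nat_lit 275)))) (XT.nd (nat_lit 156) (nat_lit 152) (nat_lit 0) (XT.nd (nat_lit 78) (nat_lit 0) (nat_lit 0) (XT.lf (nat_lit 0) (nat_lit 13865822668) (nat_lit 76) (nat_lit 11581428389) (nat_lit 76) (nat_lit 10015688011) (nat_lit 14) (nat_lit 4) (nat_lit 15) (nat_lit 5) (nat_lit 15) (nat_lit 4) (nat_lit 462) (nat_lit 284) (nat_lit 274)) (XT.lf (nat_lit 0) (nat_lit 25388504041) (nat_lit 76) (nat_lit 6332794550) (nat_lit 76) (nat_lit 4634451913) (nat_lit 14) (nat_lit 4) (nat_lit 15) (nat_lit 5) (nat_lit 15) (nat_lit 4) (nat_lit 463) (nat_lit 284) (nat_lit 273))) (XT.nd (nat_lit 78) (nat_lit 76) (nat_lit 0) (XT.lf (nat_lit 0) (nat_lit 790908632) (nat_lit 152) (nat_lit 221538170) (nat_lit 76) (nat_lit 36265629493) (nat_lit 13) (nat_lit 5) (nat_lit 15) (nat_lit 5) (nat_lit 14) (nat_lit 4)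 (nat_lit 464) (nat_lit 284) (nat_lit 272)) (XT.lf (nat_lit 0) (nat_lit 6336776618) (nat_lit 152) (nat_lit 27446835861) (nat_lit 0) (nat_lit 4441560075) (nat_lit 12) (nat_lit 5) (nat_lit 14) (nat_lit 4) (nat_lit 12) (nat_lit 4) (nat_lit 465) (nat_lit 284) (nat_lit 271))))))) (XT.nd (nat_lit 1092) (nat_lit 228) (nat_lit 0) (XT.nd (nat_lit 546) (nat_lit 76) (nat_lit 0) (XT.nd (nat_lit 234) (nat_lit 152) (nat_lit 0) (XT.nd (nat_lit 78) (nat_lit 76) (nat_lit 0) (XT.lf (nat_lit 0) (nat_lit 11964759042) (nat_lit 152) (nat_lit 17286727380) (nat_lit 0) (nat_lit 9951727109) (nat_lit 12) (nat_lit 5) (nat_lit 14) (nat_lit 4) (nat_lit 12) (nat_lit 4) (nat_lit 466) (nat_lit 284) (nat_lit 270)) (XT.nd (nat_lit 78) (nat_lit 76) (nat_lit 0) (XT.lf (nat_lit 0) (nat_lit 17667847852) (nat_lit 152) (nat_lit 7005131699) (nat_lit 0) (nat_lit 15540432046) (nat_lit 12) (nat_lit 5) (nat_lit 14) (nat_lit 4) (nat_lit 12) (nat_lit 4) (nat_lit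 467) (nat_lit 284) (nat_lit 269)) (XT.lf (nat_lit 0) (nat_lit 3474739789) (nat_lit 76) (nat_lit 20009687865) (nat_lit 76) (nat_lit 17771219755) (nat_lit 11) (nat_lit 4) (nat_lit 12) (nat_lit 5) (nat_lit 12) (nat_lit 4) (nat_lit 468) (nat_lit 284) (nat_lit 268)))) (XT.nd (nat_lit 156) (nat_lit 152) (nat_lit 0) (XT.nd (nat_lit 78) (nat_lit 0) (nat_lit 0) (XT.lf (nat_lit 0) (nat_lit 14236373873) (nat_lit 76) (nat_lit 15219822598) (nat_lit 76) (nat_lit 12873536718) (nat_lit 11) (nat_lit 4) (nat_lit 12) (nat_lit 5) (nat_lit 12) (nat_lit 4) (nat_lit 469) (nat_lit 284) (nat_lit 267)) (XT.lf (nat_lit 0) (nat_lit 25149758067) (nat_lit 76) (nat_lit 10369936528) (nat_lit 76) (nat_lit 7918973200) (nat_lit 11) (nat_lit 4) (nat_lit 12) (nat_lit 5) (nat_lit 12) (nat_lit 4) (nat_lit 470) (nat_lit 284) (nat_lit 266))) (XT.nd (nat_lit 78) (nat_lit 152) (nat_lit 0) (XT.lf (nat_lit 0) (nat_lit 36224428336) (nat_lit 76) (nat_lit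 5455791889) (nat_lit 76) (nat_lit 2903199971) (nat_lit 11) (nat_lit 4) (nat_lit 12) (nat_lit 5) (nat_lit 12) (nat_lit 4) (nat_lit 471) (nat_lit 284) (nat_lit 265)) (XT.lf (nat_lit 0) (nat_lit 1717650602) (nat_lit 76) (nat_lit 434522330) (nat_lit 152) (nat_lit 43611694261) (nat_lit 9) (nat_lit 5) (nat_lit 10) (nat_lit 5) (nat_lit 11) (nat_lit 4) (nat_lit 472) (nat_lit 284) (nat_lit 264))))) (XT.nd (nat_lit 234) (nat_lit 76) (nat_lit 0) (XT.nd (nat_lit 78) (nat_lit 0) (nat_lit 0) (XT.lf (nat_lit 0) (nat_lit 7348528788) (nat_lit 152) (nat_lit 34947424465) (nat_lit 0) (nat_lit 4681484958) (nat_lit 9) (nat_lit 5) (nat_lit 11) (nat_lit 4) (nat_lit 9) (nat_lit 4) (nat_lit 473) (nat_lit 284) (nat_lit 263)) (XT.nd (nat_lit 78) (nat_lit 0) (nat_lit 0) (XT.lf (nat_lit 0) (nat_lit 12624387616) (nat_lit 152) (nat_lit 25738275326) (nat_lit 0) (nat_lit 9867048101) (nat_lit 9) (nat_lit 5) (nat_lit 11) (nat_lit 4) (nat_lit 9)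 (nat_lit 4) (nat_lit 474) (nat_lit 284) (nat_lit 262)) (XT.lf (nat_lit 0) (nat_lit 17980182496) (nat_lit 152) (nat_lit 16406545452) (nat_lit 0) (nat_lit 15135177266) (nat_lit 9) (nat_lit 5) (nat_lit 11) (nat_lit 4) (nat_lit 9) (nat_lit 4) (nat_lit 475) (nat_lit 284) (nat_lit 261)))) (XT.nd (nat_lit 156) (nat_lit 0) (nat_lit 0) (XT.nd (nat_lit 78) (nat_lit 76) (nat_lit 0) (XT.lf (nat_lit 0) (nat_lit 23420593248) (nat_lit 152) (nat_lit 6944080903) (nat_lit 0) (nat_lit 20490475674) (nat_lit 9) (nat_lit 5) (nat_lit 11) (nat_lit 4) (nat_lit 9) (nat_lit 4) (nat_lit 476) (nat_lit 284) (nat_lit 260)) (XT.lf (nat_lit 0) (nat_lit 2710273694) (nat_lit 76) (nat_lit 26266152744) (nat_lit 76) (nat_lit 23253401827) (nat_lit 8) (nat_lit 4) (nat_lit 9) (nat_lit 5) (nat_lit 9) (nat_lit 4) (nat_lit 477) (nat_lit 284) (nat_lit 259))) (XT.nd (nat_lit 78) (nat_lit 0) (nat_lit 0) (XT.lf (nat_lit 0) (nat_lit 12653154996) (nat_lit 76)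 (nat_lit 22042830358) (nat_lit 76) (nat_lit 18949852893) (nat_lit 8) (nat_lit 4) (nat_lit 9) (nat_lit 5) (nat_lit 9) (nat_lit 4) (nat_lit 478) (nat_lit 284) (nat_lit 258)) (XT.lf (nat_lit 0) (nat_lit 22755050131) (nat_lit 76) (nat_lit 17761138312) (nat_lit 76) (nat_lit 14590270996) (nat_lit 8) (nat_lit 4) (nat_lit 9) (nat_lit 5) (nat_lit 9) (nat_lit 4) (nat_lit 479) (nat_lit 284) (nat_lit 257)))))) (XT.nd (nat_lit 546) (nat_lit 76) (nat_lit 0) (XT.nd (nat_lit 234) (nat_lit 152) (nat_lit 0) (XT.nd (nat_lit 78) (nat_lit 0) (nat_lit 0) (XT.lf (nat_lit 0) (nat_lit 33024785997) (nat_lit 76) (nat_lit 13417335323) (nat_lit 76) (nat_lit 10170846792) (nat_lit 8) (nat_lit 4) (nat_lit 9) (nat_lit 5) (nat_lit 9) (nat_lit 4) (nat_lit 480) (nat_lit 284) (nat_lit 256)) (XT.nd (nat_lit 78) (nat_lit 0) (nat_lit 0) (XT.lf (nat_lit 0) (nat_lit 43471336150) (nat_lit 76) (nat_lit 9007625834) (nat_lit 76) (nat_lit 5687718648) (nat_lit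 8) (nat_lit 4) (nat_lit 9) (nat_lit 5) (nat_lit 9) (nat_lit 4) (nat_lit 481) (nat_lit 284) (nat_lit 255)) (XT.lf (nat_lit 0) (nat_lit 54103828644) (nat_lit 76) (nat_lit 4528156702) (nat_lit 76) (nat_lit 1136969267) (nat_lit 8) (nat_lit 4) (nat_lit 9) (nat_lit 5) (nat_lit 9) (nat_lit 4) (nat_lit 482) (nat_lit 284) (nat_lit 254)))) (XT.nd (nat_lit 156) (nat_lit 0) (nat_lit 0) (XT.nd (nat_lit 78) (nat_lit 0) (nat_lit 0) (XT.lf (nat_lit 0) (nat_lit 3452361719) (nat_lit 152) (nat_lit 57874015122) (nat_lit 0) (nat_lit 92758264) (nat_lit 6) (nat_lit 5) (nat_lit 8) (nat_lit 4) (nat_lit 6) (nat_lit 4) (nat_lit 483) (nat_lit 284) (nat_lit 253)) (XT.lf (nat_lit 0) (nat_lit 8195548882) (nat_lit 152) (nat_lit 50151051872) (nat_lit 0) (nat_lit 4770713902) (nat_lit 6) (nat_lit 5) (nat_lit 8) (nat_lit 4) (nat_lit 6) (nat_lit 4) (nat_lit 484) (nat_lit 284) (nat_lit 252))) (XT.nd (nat_lit 78) (nat_lit 0) (nat_lit 0) (XT.lf (nat_lit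 0) (nat_lit 13019305350) (nat_lit 152) (nat_lit 42317849380) (nat_lit 0) (nat_lit 9531138793) (nat_lit 6) (nat_lit 5) (nat_lit 8) (nat_lit 4) (nat_lit 6) (nat_lit 4) (nat_lit 485) (nat_lit 284) (nat_lit 251)) (XT.lf (nat_lit 0) (nat_lit 17927846057) (nat_lit 152) (nat_lit 34367563101) (nat_lit 0) (nat_lit 14378192531) (nat_lit 6) (nat_lit 5) (nat_lit 8) (nat_lit 4) (nat_lit 6) (nat_lit 4) (nat_lit 486) (nat_lit 284) (nat_lit 250))))) (XT.nd (nat_lit 312) (nat_lit 76) (nat_lit 0) (XT.nd (nat_lit 156) (nat_lit 0) (nat_lit 0) (XT.nd (nat_lit 78) (nat_lit 0) (nat_lit 0) (XT.lf (nat_lit 0) (nat_lit 22925460017) (nat_lit 152) (nat_lit 26293246182) (nat_lit 0) (nat_lit 19316110406) (nat_lit 6) (nat_lit 5) (nat_lit 8) (nat_lit 4) (nat_lit 6) (nat_lit 4) (nat_lit 487) (nat_lit 284) (nat_lit 249)) (XT.lf (nat_lit 0) (nat_lit 28016514079) (nat_lit 152) (nat_lit 18087843395) (nat_lit 0) (nat_lit 24349207104) (nat_lit 6)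 (nat_lit 5) (nat_lit 8) (nat_lit 4) (nat_lit 6) (nat_lit 4) (nat_lit 488) (nat_lit 284) (nat_lit 248))) (XT.nd (nat_lit 78) (nat_lit 0) (nat_lit 0) (XT.lf (nat_lit 0) (nat_lit 33205456737) (nat_lit 152) (nat_lit 9744184971) (nat_lit 0) (nat_lit 29481880475) (nat_lit 6) (nat_lit 5) (nat_lit 8) (nat_lit 4) (nat_lit 6) (nat_lit 4) (nat_lit 489) (nat_lit 284) (nat_lit 247)) (XT.lf (nat_lit 0) (nat_lit 38496822017) (nat_lit 152) (nat_lit 1254980335) (nat_lit 0) (nat_lit 34718615380) (nat_lit 6) (nat_lit 5) (nat_lit 8) (nat_lit 4) (nat_lit 6) (nat_lit 4) (nat_lit 490) (nat_lit 284) (nat_lit 246)))) (XT.nd (nat_lit 49920) (nat_lit 0) (nat_lit 1140) (XT.nd (nat_lit 78) (nat_lit 0) (nat_lit 0) (XT.lf (nat_lit 0) (nat_lit 7534207796) (nat_lit 76) (nat_lit 36433449061) (nat_lit 76) (nat_lit 32602203225) (nat_lit 5) (nat_lit 4) (nat_lit 6) (nat_lit 5) (nat_lit 6) (nat_lit 4) (nat_lit 491) (nat_lit 284) (nat_lit 245)) (XT.lf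 (nat_lit 0) (nat_lit 16512082442) (nat_lit 76) (nat_lit 33052049869) (nat_lit 76) (nat_lit 29169309665) (nat_lit 5) (nat_lit 4) (nat_lit 6) (nat_lit 5) (nat_lit 6) (nat_lit 4) (nat_lit 492) (nat_lit 284) (nat_lit 244))) (XT.nd (nat_lit 78) (nat_lit 76) (nat_lit 0) (XT.lf (nat_lit 0) (nat_lit 5593724728) (nat_lit 152) (nat_lit 2156147920) (nat_lit 0) (nat_lit 5593724728) (nat_lit 21) (nat_lit 5) (nat_lit 23) (nat_lit 4) (nat_lit 21) (nat_lit 4) (nat_lit 450) (nat_lit 285) (nat_lit 285)) (XT.lf (nat_lit 0) (nat_lit 7678745778) (nat_lit 76) (nat_lit 9907772234) (nat_lit 76) (nat_lit 9713041347) (nat_lit 20) (nat_lit 4) (nat_lit 21) (nat_lit 5) (nat_lit 21) (nat_lit 4) (nat_lit 451) (nat_lit 285) (nat_lit 284))))))))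
noncomputable def xc8 : XT := (XT.nd (nat_lit 2184) (nat_lit 228) (nat_lit 0) (XT.nd (nat_lit 1092) (nat_lit 304) (nat_lit 0) (XT.nd (nat_lit 546) (nat_lit 228) (nat_lit 0) (XT.nd (nat_lit 234) (nat_lit 228) (nat_lit 0) (XT.nd (nat_lit 78) (nat_lit 152) (nat_lit 0) (XT.lf (nat_lit 0) (nat_lit 19882014323) (nat_lit 76) (nat_lit 4217213447) (nat_lit 76) (nat_lit 3833423446) (nat_lit 20) (nat_lit 4) (nat_lit 21) (nat_lit 5) (nat_lit 21) (nat_lit 4) (nat_lit 452) (nat_lit 285) (nat_lit 283)) (XT.nd (nat_lit 78) (nat_lit 0) (nat_lit 0) (XT.lf (nat_lit 0) (nat_lit 2110428317) (nat_lit 152) (nat_lit 24916125795) (nat_lit 0) (nat_lit 1559610318) (nat_lit 18) (nat_lit 5) (nat_lit 20) (nat_lit 4) (nat_lit 18) (nat_lit 4) (nat_lit 453) (nat_lit 285) (nat_lit 282)) (XT.lf (nat_lit 0) (nat_lit 8160110119) (nat_lit 152) (nat_lit 13661627003) (nat_lit 0) (nat_lit 7436276249) (nat_lit 18) (nat_lit 5) (nat_lit 20) (nat_lit 4)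 (nat_lit 18) (nat_lit 4) (nat_lit 454) (nat_lit 285) (nat_lit 281)))) (XT.nd (nat_lit 156) (nat_lit 152) (nat_lit 0) (XT.nd (nat_lit 78) (nat_lit 76) (nat_lit 0) (XT.lf (nat_lit 0) (nat_lit 14275464278) (nat_lit 152) (nat_lit 2294379891) (nat_lit 0) (nat_lit 13383653834) (nat_lit 18) (nat_lit 5) (nat_lit 20) (nat_lit 4) (nat_lit 18) (nat_lit 4) (nat_lit 455) (nat_lit 285) (nat_lit 280)) (XT.lf (nat_lit 0) (nat_lit 9378557524) (nat_lit 76) (nat_lit 11173429213) (nat_lit 76) (nat_lit 10118534717) (nat_lit 17) (nat_lit 4) (nat_lit 18) (nat_lit 5) (nat_lit 18) (nat_lit 4) (nat_lit 456) (nat_lit 285) (nat_lit 279))) (XT.nd (nat_lit 78) (nat_lit 152) (nat_lit 0) (XT.lf (nat_lit 0) (nat_lit 21232519608) (nat_lit 76) (nat_lit 5696206127) (nat_lit 76) (nat_lit 4482977599) (nat_lit 17) (nat_lit 4) (nat_lit 18) (nat_lit 5) (nat_lit 18) (nat_lit 4) (nat_lit 457) (nat_lit 285) (nat_lit 278)) (XT.lf (nat_lit 0) (nat_lit 1062942227)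 (nat_lit 76) (nat_lit 134049455) (nat_lit 152) (nat_lit 30980718834) (nat_lit 15) (nat_lit 5) (nat_lit 16) (nat_lit 5) (nat_lit 17) (nat_lit 4) (nat_lit 458) (nat_lit 285) (nat_lit 277))))) (XT.nd (nat_lit 234) (nat_lit 152) (nat_lit 0) (XT.nd (nat_lit 78) (nat_lit 76) (nat_lit 0) (XT.lf (nat_lit 0) (nat_lit 7005941680) (nat_lit 152) (nat_lit 20424062173) (nat_lit 0) (nat_lit 5533906827) (nat_lit 15) (nat_lit 5) (nat_lit 17) (nat_lit 4) (nat_lit 15) (nat_lit 4) (nat_lit 459) (nat_lit 285) (nat_lit 276)) (XT.nd (nat_lit 78) (nat_lit 76) (nat_lit 0) (XT.lf (nat_lit 0) (nat_lit 12884754622) (nat_lit 152) (nat_lit 9620037117) (nat_lit 0) (nat_lit 11272042033) (nat_lit 15) (nat_lit 5) (nat_lit 17) (nat_lit 4) (nat_lit 15) (nat_lit 4) (nat_lit 460) (nat_lit 285) (nat_lit 275)) (XT.lf (nat_lit 0) (nat_lit 1334068333) (nat_lit 76) (nat_lit 17516034317) (nat_lit 76) (nat_lit 15766741401) (nat_lit 14) (nat_lit 4) (nat_lit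 15) (nat_lit 5) (nat_lit 15) (nat_lit 4) (nat_lit 461) (nat_lit 285) (nat_lit 274)))) (XT.nd (nat_lit 156) (nat_lit 152) (nat_lit 0) (XT.nd (nat_lit 78) (nat_lit 0) (nat_lit 0) (XT.lf (nat_lit 0) (nat_lit 12615886939) (nat_lit 76) (nat_lit 12374100040) (nat_lit 76) (nat_lit 10492204866) (nat_lit 14) (nat_lit 4) (nat_lit 15) (nat_lit 5) (nat_lit 15) (nat_lit 4) (nat_lit 462) (nat_lit 285) (nat_lit 273)) (XT.lf (nat_lit 0) (nat_lit 24043819000) (nat_lit 76) (nat_lit 7171639468) (nat_lit 76) (nat_lit 5161004237) (nat_lit 14) (nat_lit 4) (nat_lit 15) (nat_lit 5) (nat_lit 15) (nat_lit 4) (nat_lit 463) (nat_lit 285) (nat_lit 272))) (XT.nd (nat_lit 78) (nat_lit 76) (nat_lit 0) (XT.lf (nat_lit 0) (nat_lit 227001049) (nat_lit 152) (nat_lit 1674813447) (nat_lit 76) (nat_lit 35398556771) (nat_lit 13) (nat_lit 5) (nat_lit 15) (nat_lit 5) (nat_lit 14) (nat_lit 4) (nat_lit 464) (nat_lit 285) (nat_lit 271)) (XT.lf (nat_lit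 0) (nat_lit 5702371873) (nat_lit 152) (nat_lit 29036078937) (nat_lit 0) (nat_lit 3511133593) (nat_lit 12) (nat_lit 5) (nat_lit 14) (nat_lit 4) (nat_lit 12) (nat_lit 4) (nat_lit 465) (nat_lit 285) (nat_lit 270)))))) (XT.nd (nat_lit 546) (nat_lit 152) (nat_lit 0) (XT.nd (nat_lit 234) (nat_lit 76) (nat_lit 0) (XT.nd (nat_lit 78) (nat_lit 76) (nat_lit 0) (XT.lf (nat_lit 0) (nat_lit 11284180363) (nat_lit 152) (nat_lit 18966273931) (nat_lit 0) (nat_lit 8978558209) (nat_lit 12) (nat_lit 5) (nat_lit 14) (nat_lit 4) (nat_lit 12) (nat_lit 4) (nat_lit 466) (nat_lit 285) (nat_lit 269)) (XT.nd (nat_lit 78) (nat_lit 76) (nat_lit 0) (XT.lf (nat_lit 0) (nat_lit 16942440110) (nat_lit 152) (nat_lit 8772351527) (nat_lit 0) (nat_lit 14525765653) (nat_lit 12) (nat_lit 5) (nat_lit 14) (nat_lit 4) (nat_lit 12) (nat_lit 4) (nat_lit 467) (nat_lit 285) (nat_lit 268)) (XT.lf (nat_lit 0) (nat_lit 1585535087) (nat_lit 76) (nat_lit 21111801272)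 (nat_lit 76) (nat_lit 18587309044) (nat_lit 11) (nat_lit 4) (nat_lit 12) (nat_lit 5) (nat_lit 12) (nat_lit 4) (nat_lit 468) (nat_lit 285) (nat_lit 267)))) (XT.nd (nat_lit 156) (nat_lit 76) (nat_lit 0) (XT.nd (nat_lit 78) (nat_lit 0) (nat_lit 0) (XT.lf (nat_lit 0) (nat_lit 12262883993) (nat_lit 76) (nat_lit 16363155293) (nat_lit 76) (nat_lit 13733985617) (nat_lit 11) (nat_lit 4) (nat_lit 12) (nat_lit 5) (nat_lit 12) (nat_lit 4) (nat_lit 469) (nat_lit 285) (nat_lit 266)) (XT.lf (nat_lit 0) (nat_lit 23094437915) (nat_lit 76) (nat_lit 11553287948) (nat_lit 76) (nat_lit 8822489683) (nat_lit 11) (nat_lit 4) (nat_lit 12) (nat_lit 5) (nat_lit 12) (nat_lit 4) (nat_lit 470) (nat_lit 285) (nat_lit 265))) (XT.nd (nat_lit 78) (nat_lit 76) (nat_lit 0) (XT.lf (nat_lit 0) (nat_lit 34089661319) (nat_lit 76) (nat_lit 6677996441) (nat_lit 76) (nat_lit 3848529642) (nat_lit 11) (nat_lit 4) (nat_lit 12) (nat_lit 5) (nat_lit 12) (nat_lit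 4) (nat_lit 471) (nat_lit 285) (nat_lit 264)) (XT.lf (nat_lit 0) (nat_lit 1168975773) (nat_lit 152) (nat_lit 552240672) (nat_lit 76) (nat_lit 44077381545) (nat_lit 10) (nat_lit 5) (nat_lit 12) (nat_lit 5) (nat_lit 11) (nat_lit 4) (nat_lit 472) (nat_lit 285) (nat_lit 263))))) (XT.nd (nat_lit 234) (nat_lit 76) (nat_lit 0) (XT.nd (nat_lit 78) (nat_lit 0) (nat_lit 0) (XT.lf (nat_lit 0) (nat_lit 6307746686) (nat_lit 152) (nat_lit 37328760072) (nat_lit 0) (nat_lit 3377391300) (nat_lit 9) (nat_lit 5) (nat_lit 11) (nat_lit 4) (nat_lit 9) (nat_lit 4) (nat_lit 473) (nat_lit 285) (nat_lit 262)) (XT.nd (nat_lit 78) (nat_lit 0) (nat_lit 0) (XT.lf (nat_lit 0) (nat_lit 11545014523) (nat_lit 152) (nat_lit 28195322135) (nat_lit 0) (nat_lit 8526993422) (nat_lit 9) (nat_lit 5) (nat_lit 11) (nat_lit 4) (nat_lit 9) (nat_lit 4) (nat_lit 474) (nat_lit 285) (nat_lit 261)) (XT.lf (nat_lit 0) (nat_lit 16863342420) (nat_lit 152) (nat_lit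 18937098281) (nat_lit 0) (nat_lit 13760208975) (nat_lit 9) (nat_lit 5) (nat_lit 11) (nat_lit 4) (nat_lit 9) (nat_lit 4) (nat_lit 475) (nat_lit 285) (nat_lit 260)))) (XT.nd (nat_lit 156) (nat_lit 76) (nat_lit 0) (XT.nd (nat_lit 78) (nat_lit 0) (nat_lit 0) (XT.lf (nat_lit 0) (nat_lit 22267377461) (nat_lit 152) (nat_lit 9545998801) (nat_lit 0) (nat_lit 19081610673) (nat_lit 9) (nat_lit 5) (nat_lit 11) (nat_lit 4) (nat_lit 9) (nat_lit 4) (nat_lit 476) (nat_lit 285) (nat_lit 259)) (XT.lf (nat_lit 0) (nat_lit 27761841619) (nat_lit 152) (nat_lit 13817879) (nat_lit 0) (nat_lit 24495848283) (nat_lit 9) (nat_lit 5) (nat_lit 11) (nat_lit 4) (nat_lit 9) (nat_lit 4) (nat_lit 477) (nat_lit 285) (nat_lit 258))) (XT.nd (nat_lit 78) (nat_lit 0) (nat_lit 0) (XT.lf (nat_lit 0) (nat_lit 9860181223) (nat_lit 76) (nat_lit 23586136751) (nat_lit 76) (nat_lit 20242253563) (nat_lit 8) (nat_lit 4) (nat_lit 9) (nat_lit 5) (nat_lit 9) (nat_lit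 4) (nat_lit 478) (nat_lit 285) (nat_lit 257)) (XT.lf (nat_lit 0) (nat_lit 19895467431) (nat_lit 76) (nat_lit 19337124418) (nat_lit 76) (nat_lit 15917620016) (nat_lit 8) (nat_lit 4) (nat_lit 9) (nat_lit 5) (nat_lit 9) (nat_lit 4) (nat_lit 479) (nat_lit 285) (nat_lit 256))))))) (XT.nd (nat_lit 50700) (nat_lit 0) (nat_lit 684) (XT.nd (nat_lit 546) (nat_lit 76) (nat_lit 0) (XT.nd (nat_lit 234) (nat_lit 152) (nat_lit 0) (XT.nd (nat_lit 78) (nat_lit 0) (nat_lit 0) (XT.lf (nat_lit 0) (nat_lit 30100534436) (nat_lit 76) (nat_lit 15025049306) (nat_lit 76) (nat_lit 11532126248) (nat_lit 8) (nat_lit 4) (nat_lit 9) (nat_lit 5) (nat_lit 9) (nat_lit 4) (nat_lit 480) (nat_lit 285) (nat_lit 255)) (XT.nd (nat_lit 78) (nat_lit 0) (nat_lit 0) (XT.lf (nat_lit 0) (nat_lit 40484299287) (nat_lit 76) (nat_lit 10646143581) (nat_lit 76) (nat_lit 7081940275) (nat_lit 8) (nat_lit 4) (nat_lit 9) (nat_lit 5) (nat_lit 9) (nat_lit 4) (nat_lit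 481) (nat_lit 285) (nat_lit 254)) (XT.lf (nat_lit 0) (nat_lit 51055835176) (nat_lit 76) (nat_lit 6196581016) (nat_lit 76) (nat_lit 2563173585) (nat_lit 8) (nat_lit 4) (nat_lit 9) (nat_lit 5) (nat_lit 9) (nat_lit 4) (nat_lit 482) (nat_lit 285) (nat_lit 253)))) (XT.nd (nat_lit 156) (nat_lit 0) (nat_lit 0) (XT.nd (nat_lit 78) (nat_lit 0) (nat_lit 0) (XT.lf (nat_lit 0) (nat_lit 342843168) (nat_lit 76) (nat_lit 1648998737) (nat_lit 152) (nat_lit 59476205113) (nat_lit 6) (nat_lit 5) (nat_lit 7) (nat_lit 5) (nat_lit 8) (nat_lit 4) (nat_lit 483) (nat_lit 285) (nat_lit 252)) (XT.lf (nat_lit 0) (nat_lit 6688770835) (nat_lit 152) (nat_lit 53446216833) (nat_lit 0) (nat_lit 3032627703) (nat_lit 6) (nat_lit 5) (nat_lit 8) (nat_lit 4) (nat_lit 6) (nat_lit 4) (nat_lit 484) (nat_lit 285) (nat_lit 251))) (XT.nd (nat_lit 78) (nat_lit 0) (nat_lit 0) (XT.lf (nat_lit 0) (nat_lit 11483005896) (nat_lit 152) (nat_lit 45671099212) (nat_lit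 0) (nat_lit 7765375797) (nat_lit 6) (nat_lit 5) (nat_lit 8) (nat_lit 4) (nat_lit 6) (nat_lit 4) (nat_lit 485) (nat_lit 285) (nat_lit 250)) (XT.lf (nat_lit 0) (nat_lit 16362885042) (nat_lit 152) (nat_lit 37777206011) (nat_lit 0) (nat_lit 12585558857) (nat_lit 6) (nat_lit 5) (nat_lit 8) (nat_lit 4) (nat_lit 6) (nat_lit 4) (nat_lit 486) (nat_lit 285) (nat_lit 249))))) (XT.nd (nat_lit 234) (nat_lit 76) (nat_lit 0) (XT.nd (nat_lit 78) (nat_lit 0) (nat_lit 0) (XT.lf (nat_lit 0) (nat_lit 21332672246) (nat_lit 152) (nat_lit 29757639653) (nat_lit 0) (nat_lit 17497388696) (nat_lit 6) (nat_lit 5) (nat_lit 8) (nat_lit 4) (nat_lit 6) (nat_lit 4) (nat_lit 487) (nat_lit 285) (nat_lit 248)) (XT.nd (nat_lit 78) (nat_lit 0) (nat_lit 0) (XT.lf (nat_lit 0) (nat_lit 26396710038) (nat_lit 152) (nat_lit 21605392752) (nat_lit 0) (nat_lit 22505157203) (nat_lit 6) (nat_lit 5) (nat_lit 8) (nat_lit 4) (nat_lit 6) (nat_lit 4) (nat_lit 488)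 (nat_lit 285) (nat_lit 247)) (XT.lf (nat_lit 0) (nat_lit 31559423308) (nat_lit 152) (nat_lit 13313341983) (nat_lit 0) (nat_lit 27613240098) (nat_lit 6) (nat_lit 5) (nat_lit 8) (nat_lit 4) (nat_lit 6) (nat_lit 4) (nat_lit 489) (nat_lit 285) (nat_lit 246)))) (XT.nd (nat_lit 156) (nat_lit 0) (nat_lit 0) (XT.nd (nat_lit 78) (nat_lit 76) (nat_lit 0) (XT.lf (nat_lit 0) (nat_lit 36825323164) (nat_lit 152) (nat_lit 4874241866) (nat_lit 0) (nat_lit 32826100754) (nat_lit 6) (nat_lit 5) (nat_lit 8) (nat_lit 4) (nat_lit 6) (nat_lit 4) (nat_lit 490) (nat_lit 285) (nat_lit 245)) (XT.lf (nat_lit 0) (nat_lit 3793302566) (nat_lit 76) (nat_lit 38442171855) (nat_lit 76) (nat_lit 34391455078) (nat_lit 5) (nat_lit 4) (nat_lit 6) (nat_lit 5) (nat_lit 6) (nat_lit 4) (nat_lit 491) (nat_lit 285) (nat_lit 244))) (XT.nd (nat_lit 49686) (nat_lit 0) (nat_lit 1368) (XT.lf (nat_lit 0) (nat_lit 12723008960) (nat_lit 76) (nat_lit 35084474286)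 (nat_lit 76) (nat_lit 30983762977) (nat_lit 5) (nat_lit 4) (nat_lit 6) (nat_lit 5) (nat_lit 6) (nat_lit 4) (nat_lit 492) (nat_lit 285) (nat_lit 243)) (XT.lf (nat_lit 0) (nat_lit 11757808256) (nat_lit 76) (nat_lit 500833928) (nat_lit 76) (nat_lit 500833928) (nat_lit 23) (nat_lit 4) (nat_lit 24) (nat_lit 5) (nat_lit 24) (nat_lit 4) (nat_lit 448) (nat_lit 286) (nat_lit 286)))))) (XT.nd (nat_lit 546) (nat_lit 304) (nat_lit 0) (XT.nd (nat_lit 234) (nat_lit 152) (nat_lit 0) (XT.nd (nat_lit 78) (nat_lit 76) (nat_lit 0) (XT.lf (nat_lit 0) (nat_lit 5127388316) (nat_lit 152) (nat_lit 16039906965) (nat_lit 0) (nat_lit 4926815503) (nat_lit 21) (nat_lit 5) (nat_lit 23) (nat_lit 4) (nat_lit 21) (nat_lit 4) (nat_lit 449) (nat_lit 286) (nat_lit 285)) (XT.nd (nat_lit 78) (nat_lit 76) (nat_lit 0) (XT.lf (nat_lit 0) (nat_lit 11327333985) (nat_lit 152) (nat_lit 4429654376) (nat_lit 0) (nat_lit 10932030284) (nat_lit 21) (nat_lit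 5) (nat_lit 23) (nat_lit 4) (nat_lit 21) (nat_lit 4) (nat_lit 450) (nat_lit 286) (nat_lit 284)) (XT.lf (nat_lit 0) (nat_lit 7442843618) (nat_lit 76) (nat_lit 10222370622) (nat_lit 76) (nat_lit 9638007807) (nat_lit 20) (nat_lit 4) (nat_lit 21) (nat_lit 5) (nat_lit 21) (nat_lit 4) (nat_lit 451) (nat_lit 286) (nat_lit 283)))) (XT.nd (nat_lit 156) (nat_lit 0) (nat_lit 0) (XT.nd (nat_lit 78) (nat_lit 152) (nat_lit 0) (XT.lf (nat_lit 0) (nat_lit 19533288901) (nat_lit 76) (nat_lit 4586346041) (nat_lit 76) (nat_lit 3818430689) (nat_lit 20) (nat_lit 4) (nat_lit 21) (nat_lit 5) (nat_lit 21) (nat_lit 4) (nat_lit 452) (nat_lit 286) (nat_lit 282)) (XT.lf (nat_lit 0) (nat_lit 2059309000) (nat_lit 152) (nat_lit 25393498745) (nat_lit 0) (nat_lit 1140744243) (nat_lit 18) (nat_lit 5) (nat_lit 20) (nat_lit 4) (nat_lit 18) (nat_lit 4) (nat_lit 453) (nat_lit 286) (nat_lit 281))) (XT.nd (nat_lit 78) (nat_lit 0) (nat_lit 0) (XT.lf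 (nat_lit 0) (nat_lit 8051937552) (nat_lit 152) (nat_lit 14249781551) (nat_lit 0) (nat_lit 6965396221) (nat_lit 18) (nat_lit 5) (nat_lit 20) (nat_lit 4) (nat_lit 18) (nat_lit 4) (nat_lit 454) (nat_lit 286) (nat_lit 280)) (XT.lf (nat_lit 0) (nat_lit 14111900205) (nat_lit 152) (nat_lit 2990089388) (nat_lit 0) (nat_lit 12862274822) (nat_lit 18) (nat_lit 5) (nat_lit 20) (nat_lit 4) (nat_lit 18) (nat_lit 4) (nat_lit 455) (nat_lit 286) (nat_lit 279))))) (XT.nd (nat_lit 312) (nat_lit 76) (nat_lit 0) (XT.nd (nat_lit 156) (nat_lit 152) (nat_lit 0) (XT.nd (nat_lit 78) (nat_lit 0) (nat_lit 0) (XT.lf (nat_lit 0) (nat_lit 8562501555) (nat_lit 76) (nat_lit 11764298520) (nat_lit 76) (nat_lit 10356339105) (nat_lit 17) (nat_lit 4) (nat_lit 18) (nat_lit 5) (nat_lit 18) (nat_lit 4) (nat_lit 456) (nat_lit 286) (nat_lit 278)) (XT.lf (nat_lit 0) (nat_lit 20313065106) (nat_lit 76) (nat_lit 6337268231) (nat_lit 76) (nat_lit 4775586455)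 (nat_lit 17) (nat_lit 4) (nat_lit 18) (nat_lit 5) (nat_lit 18) (nat_lit 4) (nat_lit 457) (nat_lit 286) (nat_lit 277))) (XT.nd (nat_lit 78) (nat_lit 0) (nat_lit 0) (XT.lf (nat_lit 0) (nat_lit 10111868) (nat_lit 76) (nat_lit 837690424) (nat_lit 152) (nat_lit 31346080187) (nat_lit 15) (nat_lit 5) (nat_lit 16) (nat_lit 5) (nat_lit 17) (nat_lit 4) (nat_lit 458) (nat_lit 286) (nat_lit 276)) (XT.lf (nat_lit 0) (nat_lit 6597903350) (nat_lit 152) (nat_lit 21587815457) (nat_lit 0) (nat_lit 4796131647) (nat_lit 15) (nat_lit 5) (nat_lit 17) (nat_lit 4) (nat_lit 15) (nat_lit 4) (nat_lit 459) (nat_lit 286) (nat_lit 275)))) (XT.nd (nat_lit 156) (nat_lit 76) (nat_lit 0) (XT.nd (nat_lit 78) (nat_lit 0) (nat_lit 0) (XT.lf (nat_lit 0) (nat_lit 12426148222) (nat_lit 152) (nat_lit 10882348448) (nat_lit 0) (nat_lit 10487796192) (nat_lit 15) (nat_lit 5) (nat_lit 17) (nat_lit 4) (nat_lit 15) (nat_lit 4) (nat_lit 460) (nat_lit 286)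 (nat_lit 274)) (XT.lf (nat_lit 0) (nat_lit 18329577155) (nat_lit 152) (nat_lit 49962900) (nat_lit 0) (nat_lit 16258622867) (nat_lit 15) (nat_lit 5) (nat_lit 17) (nat_lit 4) (nat_lit 15) (nat_lit 4) (nat_lit 461) (nat_lit 286) (nat_lit 273))) (XT.nd (nat_lit 78) (nat_lit 0) (nat_lit 0) (XT.lf (nat_lit 0) (nat_lit 11136112034) (nat_lit 76) (nat_lit 13284283573) (nat_lit 76) (nat_lit 11084589228) (nat_lit 14) (nat_lit 4) (nat_lit 15) (nat_lit 5) (nat_lit 15) (nat_lit 4) (nat_lit 462) (nat_lit 286) (nat_lit 272)) (XT.lf (nat_lit 0) (nat_lit 22472054471) (nat_lit 76) (nat_lit 8126651416) (nat_lit 76) (nat_lit 5801966725) (nat_lit 14) (nat_lit 4) (nat_lit 15) (nat_lit 5) (nat_lit 15) (nat_lit 4) (nat_lit 463) (nat_lit 286) (nat_lit 271))))))))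
noncomputable def xc9 : XT := (XT.nd (nat_lit 2184) (nat_lit 76) (nat_lit 0) (XT.nd (nat_lit 1092) (nat_lit 228) (nat_lit 0) (XT.nd (nat_lit 546) (nat_lit 152) (nat_lit 0) (XT.nd (nat_lit 234) (nat_lit 76) (nat_lit 0) (XT.nd (nat_lit 78) (nat_lit 152) (nat_lit 0) (XT.lf (nat_lit 0) (nat_lit 33966775243) (nat_lit 76) (nat_lit 2902641443) (nat_lit 76) (nat_lit 456606901) (nat_lit 14) (nat_lit 4) (nat_lit 15) (nat_lit 5) (nat_lit 15) (nat_lit 4) (nat_lit 464) (nat_lit 286) (nat_lit 270)) (XT.nd (nat_lit 78) (nat_lit 0) (nat_lit 0) (XT.lf (nat_lit 0) (nat_lit 4955201899) (nat_lit 152) (nat_lit 30856315359) (nat_lit 0) (nat_lit 2466027208) (nat_lit 12) (nat_lit 5) (nat_lit 14) (nat_lit 4) (nat_lit 12) (nat_lit 4) (nat_lit 465) (nat_lit 286) (nat_lit 269)) (XT.lf (nat_lit 0) (nat_lit 10492181326) (nat_lit 152) (nat_lit 20874183630) (nat_lit 0) (nat_lit 7891954331) (nat_lit 12) (nat_lit 5) (nat_lit 14) (nat_lit 4)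 (nat_lit 12) (nat_lit 4) (nat_lit 466) (nat_lit 286) (nat_lit 268)))) (XT.nd (nat_lit 156) (nat_lit 76) (nat_lit 0) (XT.nd (nat_lit 78) (nat_lit 0) (nat_lit 0) (XT.lf (nat_lit 0) (nat_lit 16106917712) (nat_lit 152) (nat_lit 10765380911) (nat_lit 0) (nat_lit 13398872946) (nat_lit 12) (nat_lit 5) (nat_lit 14) (nat_lit 4) (nat_lit 12) (nat_lit 4) (nat_lit 467) (nat_lit 286) (nat_lit 267)) (XT.lf (nat_lit 0) (nat_lit 21804317137) (nat_lit 152) (nat_lit 521074268) (nat_lit 0) (nat_lit 18991594924) (nat_lit 12) (nat_lit 5) (nat_lit 14) (nat_lit 4) (nat_lit 12) (nat_lit 4) (nat_lit 468) (nat_lit 286) (nat_lit 266))) (XT.nd (nat_lit 78) (nat_lit 0) (nat_lit 0) (XT.lf (nat_lit 0) (nat_lit 10064073965) (nat_lit 76) (nat_lit 17622025982) (nat_lit 76) (nat_lit 14707675179) (nat_lit 11) (nat_lit 4) (nat_lit 12) (nat_lit 5) (nat_lit 12) (nat_lit 4) (nat_lit 469) (nat_lit 286) (nat_lit 265)) (XT.lf (nat_lit 0) (nat_lit 20816181023)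 (nat_lit 76) (nat_lit 12851011769) (nat_lit 76) (nat_lit 9837992432) (nat_lit 11) (nat_lit 4) (nat_lit 12) (nat_lit 5) (nat_lit 12) (nat_lit 4) (nat_lit 470) (nat_lit 286) (nat_lit 264))))) (XT.nd (nat_lit 234) (nat_lit 0) (nat_lit 0) (XT.nd (nat_lit 78) (nat_lit 152) (nat_lit 0) (XT.lf (nat_lit 0) (nat_lit 31734271548) (nat_lit 76) (nat_lit 8013441749) (nat_lit 76) (nat_lit 4904627720) (nat_lit 11) (nat_lit 4) (nat_lit 12) (nat_lit 5) (nat_lit 12) (nat_lit 4) (nat_lit 471) (nat_lit 286) (nat_lit 263)) (XT.nd (nat_lit 78) (nat_lit 76) (nat_lit 0) (XT.lf (nat_lit 0) (nat_lit 94842121) (nat_lit 152) (nat_lit 3009289078) (nat_lit 76) (nat_lit 42732085779) (nat_lit 10) (nat_lit 5) (nat_lit 12) (nat_lit 5) (nat_lit 11) (nat_lit 4) (nat_lit 472) (nat_lit 286) (nat_lit 262)) (XT.lf (nat_lit 0) (nat_lit 5157401409) (nat_lit 152) (nat_lit 39935229487) (nat_lit 0) (nat_lit 1961173961) (nat_lit 9) (nat_lit 5) (nat_lit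 11) (nat_lit 4) (nat_lit 9) (nat_lit 4) (nat_lit 473) (nat_lit 286) (nat_lit 261)))) (XT.nd (nat_lit 156) (nat_lit 0) (nat_lit 0) (XT.nd (nat_lit 78) (nat_lit 0) (nat_lit 0) (XT.lf (nat_lit 0) (nat_lit 10357202263) (nat_lit 152) (nat_lit 30875297570) (nat_lit 0) (nat_lit 7075862471) (nat_lit 9) (nat_lit 5) (nat_lit 11) (nat_lit 4) (nat_lit 9) (nat_lit 4) (nat_lit 474) (nat_lit 286) (nat_lit 260)) (XT.lf (nat_lit 0) (nat_lit 15639154449) (nat_lit 152) (nat_lit 21688438785) (nat_lit 0) (nat_lit 12275181314) (nat_lit 9) (nat_lit 5) (nat_lit 11) (nat_lit 4) (nat_lit 9) (nat_lit 4) (nat_lit 475) (nat_lit 286) (nat_lit 259))) (XT.nd (nat_lit 78) (nat_lit 0) (nat_lit 0) (XT.lf (nat_lit 0) (nat_lit 21007873266) (nat_lit 152) (nat_lit 12366625779) (nat_lit 0) (nat_lit 17563673584) (nat_lit 9) (nat_lit 5) (nat_lit 11) (nat_lit 4) (nat_lit 9) (nat_lit 4) (nat_lit 476) (nat_lit 286) (nat_lit 258)) (XT.lf (nat_lit 0) (nat_lit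 26468049828) (nat_lit 152) (nat_lit 2901713279) (nat_lit 0) (nat_lit 22945960293) (nat_lit 9) (nat_lit 5) (nat_lit 11) (nat_lit 4) (nat_lit 9) (nat_lit 4) (nat_lit 477) (nat_lit 286) (nat_lit 257)))))) (XT.nd (nat_lit 546) (nat_lit 0) (nat_lit 0) (XT.nd (nat_lit 234) (nat_lit 152) (nat_lit 0) (XT.nd (nat_lit 78) (nat_lit 0) (nat_lit 0) (XT.lf (nat_lit 0) (nat_lit 6848202115) (nat_lit 76) (nat_lit 25242082153) (nat_lit 76) (nat_lit 21644371404) (nat_lit 8) (nat_lit 4) (nat_lit 9) (nat_lit 5) (nat_lit 9) (nat_lit 4) (nat_lit 478) (nat_lit 286) (nat_lit 256)) (XT.nd (nat_lit 78) (nat_lit 0) (nat_lit 0) (XT.lf (nat_lit 0) (nat_lit 16818819461) (nat_lit 76) (nat_lit 21024797698) (nat_lit 76) (nat_lit 17353668293) (nat_lit 8) (nat_lit 4) (nat_lit 9) (nat_lit 5) (nat_lit 9) (nat_lit 4) (nat_lit 479) (nat_lit 286) (nat_lit 255)) (XT.lf (nat_lit 0) (nat_lit 26961101164) (nat_lit 76) (nat_lit 16743526350) (nat_lit 76)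 (nat_lit 13001116696) (nat_lit 8) (nat_lit 4) (nat_lit 9) (nat_lit 5) (nat_lit 9) (nat_lit 4) (nat_lit 480) (nat_lit 286) (nat_lit 254)))) (XT.nd (nat_lit 156) (nat_lit 152) (nat_lit 0) (XT.nd (nat_lit 78) (nat_lit 0) (nat_lit 0) (XT.lf (nat_lit 0) (nat_lit 37283909410) (nat_lit 76) (nat_lit 12394527192) (nat_lit 76) (nat_lit 8582913414) (nat_lit 8) (nat_lit 4) (nat_lit 9) (nat_lit 5) (nat_lit 9) (nat_lit 4) (nat_lit 481) (nat_lit 286) (nat_lit 253)) (XT.lf (nat_lit 0) (nat_lit 47796264131) (nat_lit 76) (nat_lit 7974000128) (nat_lit 76) (nat_lit 4095197880) (nat_lit 8) (nat_lit 4) (nat_lit 9) (nat_lit 5) (nat_lit 9) (nat_lit 4) (nat_lit 482) (nat_lit 286) (nat_lit 252))) (XT.nd (nat_lit 78) (nat_lit 76) (nat_lit 0) (XT.lf (nat_lit 0) (nat_lit 456858823) (nat_lit 152) (nat_lit 3016610361) (nat_lit 76) (nat_lit 58045878676) (nat_lit 7) (nat_lit 5) (nat_lit 9) (nat_lit 5) (nat_lit 8) (nat_lit 4) (nat_lit 483) (nat_lit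 286) (nat_lit 251)) (XT.lf (nat_lit 0) (nat_lit 5076860990) (nat_lit 152) (nat_lit 56958149030) (nat_lit 0) (nat_lit 1186215019) (nat_lit 6) (nat_lit 5) (nat_lit 8) (nat_lit 4) (nat_lit 6) (nat_lit 4) (nat_lit 484) (nat_lit 286) (nat_lit 250))))) (XT.nd (nat_lit 234) (nat_lit 0) (nat_lit 0) (XT.nd (nat_lit 78) (nat_lit 0) (nat_lit 0) (XT.lf (nat_lit 0) (nat_lit 9842434491) (nat_lit 152) (nat_lit 49239424487) (nat_lit 0) (nat_lit 5892092435) (nat_lit 6) (nat_lit 5) (nat_lit 8) (nat_lit 4) (nat_lit 6) (nat_lit 4) (nat_lit 485) (nat_lit 286) (nat_lit 249)) (XT.nd (nat_lit 78) (nat_lit 0) (nat_lit 0) (XT.lf (nat_lit 0) (nat_lit 14694486880) (nat_lit 152) (nat_lit 41400281848) (nat_lit 0) (nat_lit 10686187459) (nat_lit 6) (nat_lit 5) (nat_lit 8) (nat_lit 4) (nat_lit 6) (nat_lit 4) (nat_lit 486) (nat_lit 286) (nat_lit 248)) (XT.lf (nat_lit 0) (nat_lit 19637257814) (nat_lit 152) (nat_lit 33433871375) (nat_lit 0) (nat_lit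 15572689107) (nat_lit 6) (nat_lit 5) (nat_lit 8) (nat_lit 4) (nat_lit 6) (nat_lit 4) (nat_lit 487) (nat_lit 286) (nat_lit 247)))) (XT.nd (nat_lit 156) (nat_lit 0) (nat_lit 0) (XT.nd (nat_lit 78) (nat_lit 0) (nat_lit 0) (XT.lf (nat_lit 0) (nat_lit 24675066219) (nat_lit 152) (nat_lit 25333232129) (nat_lit 0) (nat_lit 20555867138) (nat_lit 6) (nat_lit 5) (nat_lit 8) (nat_lit 4) (nat_lit 6) (nat_lit 4) (nat_lit 488) (nat_lit 286) (nat_lit 246)) (XT.lf (nat_lit 0) (nat_lit 29812314064) (nat_lit 152) (nat_lit 17091285879) (nat_lit 0) (nat_lit 25640075784) (nat_lit 6) (nat_lit 5) (nat_lit 8) (nat_lit 4) (nat_lit 6) (nat_lit 4) (nat_lit 489) (nat_lit 286) (nat_lit 245))) (XT.nd (nat_lit 78) (nat_lit 0) (nat_lit 0) (XT.lf (nat_lit 0) (nat_lit 35053490206) (nat_lit 152) (nat_lit 8700830927) (nat_lit 0) (nat_lit 30829757558) (nat_lit 6) (nat_lit 5) (nat_lit 8) (nat_lit 4) (nat_lit 6) (nat_lit 4) (nat_lit 490) (nat_lit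 286) (nat_lit 244)) (XT.lf (nat_lit 0) (nat_lit 40403174314) (nat_lit 152) (nat_lit 154535806) (nat_lit 0) (nat_lit 36129447133) (nat_lit 6) (nat_lit 5) (nat_lit 8) (nat_lit 4) (nat_lit 6) (nat_lit 4) (nat_lit 491) (nat_lit 286) (nat_lit 243))))))) (XT.nd (nat_lit 50544) (nat_lit 0) (nat_lit 304) (XT.nd (nat_lit 49998) (nat_lit 0) (nat_lit 836) (XT.nd (nat_lit 49686) (nat_lit 0) (nat_lit 1140) (XT.nd (nat_lit 49530) (nat_lit 0) (nat_lit 1368) (XT.lf (nat_lit 0) (nat_lit 8725329730) (nat_lit 76) (nat_lit 37224584344) (nat_lit 76) (nat_lit 32902318784) (nat_lit 5) (nat_lit 4) (nat_lit 6) (nat_lit 5) (nat_lit 6) (nat_lit 4) (nat_lit 492) (nat_lit 286) (nat_lit 242)) (XT.nd (nat_lit 78) (nat_lit 76) (nat_lit 0) (XT.lf (nat_lit 0) (nat_lit 5847571791) (nat_lit 152) (nat_lit 512750950) (nat_lit 0) (nat_lit 5847571791) (nat_lit 24) (nat_lit 5) (nat_lit 26) (nat_lit 4) (nat_lit 24) (nat_lit 4) (nat_lit 446) (nat_lit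 287) (nat_lit 287)) (XT.lf (nat_lit 0) (nat_lit 11112232948) (nat_lit 76) (nat_lit 7029504398) (nat_lit 76) (nat_lit 6816716700) (nat_lit 23) (nat_lit 4) (nat_lit 24) (nat_lit 5) (nat_lit 24) (nat_lit 4) (nat_lit 447) (nat_lit 287) (nat_lit 286)))) (XT.nd (nat_lit 156) (nat_lit 76) (nat_lit 0) (XT.nd (nat_lit 78) (nat_lit 152) (nat_lit 0) (XT.lf (nat_lit 0) (nat_lit 23399592130) (nat_lit 76) (nat_lit 1270273709) (nat_lit 76) (nat_lit 850896013) (nat_lit 23) (nat_lit 4) (nat_lit 24) (nat_lit 5) (nat_lit 24) (nat_lit 4) (nat_lit 448) (nat_lit 287) (nat_lit 285)) (XT.lf (nat_lit 0) (nat_lit 5210781096) (nat_lit 152) (nat_lit 16278144790) (nat_lit 0) (nat_lit 4608887397) (nat_lit 21) (nat_lit 5) (nat_lit 23) (nat_lit 4) (nat_lit 21) (nat_lit 4) (nat_lit 449) (nat_lit 287) (nat_lit 284))) (XT.nd (nat_lit 78) (nat_lit 76) (nat_lit 0) (XT.lf (nat_lit 0) (nat_lit 11351806099) (nat_lit 152) (nat_lit 4781832525) (nat_lit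 0) (nat_lit 10560853286) (nat_lit 21) (nat_lit 5) (nat_lit 23) (nat_lit 4) (nat_lit 21) (nat_lit 4) (nat_lit 450) (nat_lit 287) (nat_lit 283)) (XT.lf (nat_lit 0) (nat_lit 6970833170) (nat_lit 76) (nat_lit 10657111401) (nat_lit 76) (nat_lit 9682606050) (nat_lit 20) (nat_lit 4) (nat_lit 21) (nat_lit 5) (nat_lit 21) (nat_lit 4) (nat_lit 451) (nat_lit 287) (nat_lit 282))))) (XT.nd (nat_lit 234) (nat_lit 152) (nat_lit 0) (XT.nd (nat_lit 78) (nat_lit 152) (nat_lit 0) (XT.lf (nat_lit 0) (nat_lit 18951741305) (nat_lit 76) (nat_lit 5074032653) (nat_lit 76) (nat_lit 3921320955) (nat_lit 20) (nat_lit 4) (nat_lit 21) (nat_lit 5) (nat_lit 21) (nat_lit 4) (nat_lit 452) (nat_lit 287) (nat_lit 281)) (XT.nd (nat_lit 78) (nat_lit 0) (nat_lit 0) (XT.lf (nat_lit 0) (nat_lit 1890838005) (nat_lit 152) (nat_lit 26110079527) (nat_lit 0) (nat_lit 603723860) (nat_lit 18) (nat_lit 5) (nat_lit 20) (nat_lit 4) (nat_lit 18) (nat_lit 4) (nat_lit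 453) (nat_lit 287) (nat_lit 280)) (XT.lf (nat_lit 0) (nat_lit 7828075052) (nat_lit 152) (nat_lit 15073917282) (nat_lit 0) (nat_lit 6377876855) (nat_lit 18) (nat_lit 5) (nat_lit 20) (nat_lit 4) (nat_lit 18) (nat_lit 4) (nat_lit 454) (nat_lit 287) (nat_lit 279)))) (XT.nd (nat_lit 156) (nat_lit 76) (nat_lit 0) (XT.nd (nat_lit 78) (nat_lit 76) (nat_lit 0) (XT.lf (nat_lit 0) (nat_lit 13834259545) (nat_lit 152) (nat_lit 3918647400) (nat_lit 0) (nat_lit 12225727316) (nat_lit 18) (nat_lit 5) (nat_lit 20) (nat_lit 4) (nat_lit 18) (nat_lit 4) (nat_lit 455) (nat_lit 287) (nat_lit 278)) (XT.lf (nat_lit 0) (nat_lit 7512064884) (nat_lit 76) (nat_lit 12474785284) (nat_lit 76) (nat_lit 10712530694) (nat_lit 17) (nat_lit 4) (nat_lit 18) (nat_lit 5) (nat_lit 18) (nat_lit 4) (nat_lit 456) (nat_lit 287) (nat_lit 277))) (XT.nd (nat_lit 78) (nat_lit 76) (nat_lit 0) (XT.lf (nat_lit 0) (nat_lit 19162241510) (nat_lit 76) (nat_lit 7096485865)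 (nat_lit 76) (nat_lit 5184986266) (nat_lit 17) (nat_lit 4) (nat_lit 18) (nat_lit 5) (nat_lit 18) (nat_lit 4) (nat_lit 457) (nat_lit 287) (nat_lit 276)) (XT.lf (nat_lit 0) (nat_lit 395643721) (nat_lit 152) (nat_lit 1253240913) (nat_lit 76) (nat_lit 30564434528) (nat_lit 16) (nat_lit 5) (nat_lit 18) (nat_lit 5) (nat_lit 17) (nat_lit 4) (nat_lit 458) (nat_lit 287) (nat_lit 275)))))) (XT.nd (nat_lit 546) (nat_lit 228) (nat_lit 0) (XT.nd (nat_lit 234) (nat_lit 228) (nat_lit 0) (XT.nd (nat_lit 78) (nat_lit 0) (nat_lit 0) (XT.lf (nat_lit 0) (nat_lit 6074970688) (nat_lit 152) (nat_lit 22986554175) (nat_lit 0) (nat_lit 3941887771) (nat_lit 15) (nat_lit 5) (nat_lit 17) (nat_lit 4) (nat_lit 15) (nat_lit 4) (nat_lit 459) (nat_lit 287) (nat_lit 274)) (XT.nd (nat_lit 78) (nat_lit 0) (nat_lit 0) (XT.lf (nat_lit 0) (nat_lit 11854120345) (nat_lit 152) (nat_lit 12376774590) (nat_lit 0) (nat_lit 9588435170) (nat_lit 15) (nat_lit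 5) (nat_lit 17) (nat_lit 4) (nat_lit 15) (nat_lit 4) (nat_lit 460) (nat_lit 287) (nat_lit 273)) (XT.lf (nat_lit 0) (nat_lit 17709884022) (nat_lit 152) (nat_lit 1637289454) (nat_lit 0) (nat_lit 15315458790) (nat_lit 15) (nat_lit 5) (nat_lit 17) (nat_lit 4) (nat_lit 15) (nat_lit 4) (nat_lit 461) (nat_lit 287) (nat_lit 272)))) (XT.nd (nat_lit 156) (nat_lit 152) (nat_lit 0) (XT.nd (nat_lit 78) (nat_lit 0) (nat_lit 0) (XT.lf (nat_lit 0) (nat_lit 9425204945) (nat_lit 76) (nat_lit 14312774295) (nat_lit 76) (nat_lit 11793358717) (nat_lit 14) (nat_lit 4) (nat_lit 15) (nat_lit 5) (nat_lit 15) (nat_lit 4) (nat_lit 462) (nat_lit 287) (nat_lit 271)) (XT.lf (nat_lit 0) (nat_lit 20671837068) (nat_lit 76) (nat_lit 9198664872) (nat_lit 76) (nat_lit 6557899442) (nat_lit 14) (nat_lit 4) (nat_lit 15) (nat_lit 5) (nat_lit 15) (nat_lit 4) (nat_lit 463) (nat_lit 287) (nat_lit 270))) (XT.nd (nat_lit 78) (nat_lit 152) (nat_lit 0) (XT.lf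 (nat_lit 0) (nat_lit 32079848797) (nat_lit 76) (nat_lit 4016909980) (nat_lit 76) (nat_lit 1258329161) (nat_lit 14) (nat_lit 4) (nat_lit 15) (nat_lit 5) (nat_lit 15) (nat_lit 4) (nat_lit 464) (nat_lit 287) (nat_lit 269)) (XT.lf (nat_lit 0) (nat_lit 4094613829) (nat_lit 152) (nat_lit 32909135625) (nat_lit 0) (nat_lit 1305327720) (nat_lit 12) (nat_lit 5) (nat_lit 14) (nat_lit 4) (nat_lit 12) (nat_lit 4) (nat_lit 465) (nat_lit 287) (nat_lit 268))))) (XT.nd (nat_lit 312) (nat_lit 152) (nat_lit 0) (XT.nd (nat_lit 156) (nat_lit 76) (nat_lit 0) (XT.nd (nat_lit 78) (nat_lit 0) (nat_lit 0) (XT.lf (nat_lit 0) (nat_lit 9588069894) (nat_lit 152) (nat_lit 23012123582) (nat_lit 0) (nat_lit 6690966015) (nat_lit 12) (nat_lit 5) (nat_lit 14) (nat_lit 4) (nat_lit 12) (nat_lit 4) (nat_lit 466) (nat_lit 287) (nat_lit 267)) (XT.lf (nat_lit 0) (nat_lit 15160550589) (nat_lit 152) (nat_lit 12985961335) (nat_lit 0) (nat_lit 12158769262)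 (nat_lit 12) (nat_lit 5) (nat_lit 14) (nat_lit 4) (nat_lit 12) (nat_lit 4) (nat_lit 467) (nat_lit 287) (nat_lit 266))) (XT.nd (nat_lit 78) (nat_lit 76) (nat_lit 0) (XT.lf (nat_lit 0) (nat_lit 20816925072) (nat_lit 152) (nat_lit 2821888160) (nat_lit 0) (nat_lit 17713515155) (nat_lit 12) (nat_lit 5) (nat_lit 14) (nat_lit 4) (nat_lit 12) (nat_lit 4) (nat_lit 468) (nat_lit 287) (nat_lit 265)) (XT.lf (nat_lit 0) (nat_lit 7638022501) (nat_lit 76) (nat_lit 18997534649) (nat_lit 76) (nat_lit 15795456198) (nat_lit 11) (nat_lit 4) (nat_lit 12) (nat_lit 5) (nat_lit 12) (nat_lit 4) (nat_lit 469) (nat_lit 287) (nat_lit 264)))) (XT.nd (nat_lit 156) (nat_lit 152) (nat_lit 0) (XT.nd (nat_lit 78) (nat_lit 0) (nat_lit 0) (XT.lf (nat_lit 0) (nat_lit 18312996680) (nat_lit 76) (nat_lit 14264241924) (nat_lit 76) (nat_lit 10966368780) (nat_lit 11) (nat_lit 4) (nat_lit 12) (nat_lit 5) (nat_lit 12) (nat_lit 4) (nat_lit 470) (nat_lit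 287) (nat_lit 263)) (XT.lf (nat_lit 0) (nat_lit 29156200915) (nat_lit 76) (nat_lit 9463294707) (nat_lit 76) (nat_lit 6072417007) (nat_lit 11) (nat_lit 4) (nat_lit 12) (nat_lit 5) (nat_lit 12) (nat_lit 4) (nat_lit 471) (nat_lit 287) (nat_lit 262))) (XT.nd (nat_lit 78) (nat_lit 152) (nat_lit 0) (XT.lf (nat_lit 0) (nat_lit 40177109851) (nat_lit 76) (nat_lit 4590497997) (nat_lit 76) (nat_lit 1109324611) (nat_lit 11) (nat_lit 4) (nat_lit 12) (nat_lit 5) (nat_lit 12) (nat_lit 4) (nat_lit 472) (nat_lit 287) (nat_lit 261)) (XT.lf (nat_lit 0) (nat_lit 3896487799) (nat_lit 152) (nat_lit 42769110206) (nat_lit 0) (nat_lit 431595469) (nat_lit 9) (nat_lit 5) (nat_lit 11) (nat_lit 4) (nat_lit 9) (nat_lit 4) (nat_lit 473) (nat_lit 287) (nat_lit 260))))))))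
noncomputable def xc10 : XT := (XT.nd (nat_lit 51480) (nat_lit 0) (nat_lit 228) (XT.nd (nat_lit 1092) (nat_lit 76) (nat_lit 0) (XT.nd (nat_lit 546) (nat_lit 152) (nat_lit 0) (XT.nd (nat_lit 234) (nat_lit 76) (nat_lit 0) (XT.nd (nat_lit 78) (nat_lit 0) (nat_lit 0) (XT.lf (nat_lit 0) (nat_lit 9059912942) (nat_lit 152) (nat_lit 33780543357) (nat_lit 0) (nat_lit 5512387269) (nat_lit 9) (nat_lit 5) (nat_lit 11) (nat_lit 4) (nat_lit 9) (nat_lit 4) (nat_lit 474) (nat_lit 287) (nat_lit 259)) (XT.nd (nat_lit 78) (nat_lit 0) (nat_lit 0) (XT.lf (nat_lit 0) (nat_lit 14306548904) (nat_lit 152) (nat_lit 24662971046) (nat_lit 0) (nat_lit 10678796684) (nat_lit 9) (nat_lit 5) (nat_lit 11) (nat_lit 4) (nat_lit 9) (nat_lit 4) (nat_lit 475) (nat_lit 287) (nat_lit 258)) (XT.lf (nat_lit 0) (nat_lit 19640980125) (nat_lit 152) (nat_lit 15408426462) (nat_lit 0) (nat_lit 15935338053) (nat_lit 9) (nat_lit 5) (nat_lit 11) (nat_lit 4) (nat_lit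 9) (nat_lit 4) (nat_lit 476) (nat_lit 287) (nat_lit 257)))) (XT.nd (nat_lit 156) (nat_lit 0) (nat_lit 0) (XT.nd (nat_lit 78) (nat_lit 76) (nat_lit 0) (XT.lf (nat_lit 0) (nat_lit 25067867758) (nat_lit 152) (nat_lit 6008823110) (nat_lit 0) (nat_lit 21286604471) (nat_lit 9) (nat_lit 5) (nat_lit 11) (nat_lit 4) (nat_lit 9) (nat_lit 4) (nat_lit 477) (nat_lit 287) (nat_lit 256)) (XT.lf (nat_lit 0) (nat_lit 3614585845) (nat_lit 76) (nat_lit 27012113508) (nat_lit 76) (nat_lit 23157431565) (nat_lit 8) (nat_lit 4) (nat_lit 9) (nat_lit 5) (nat_lit 9) (nat_lit 4) (nat_lit 478) (nat_lit 287) (nat_lit 255))) (XT.nd (nat_lit 78) (nat_lit 0) (nat_lit 0) (XT.lf (nat_lit 0) (nat_lit 13522417889) (nat_lit 76) (nat_lit 22825632817) (nat_lit 76) (nat_lit 18899670626) (nat_lit 8) (nat_lit 4) (nat_lit 9) (nat_lit 5) (nat_lit 9) (nat_lit 4) (nat_lit 479) (nat_lit 287) (nat_lit 254)) (XT.lf (nat_lit 0) (nat_lit 23603742987) (nat_lit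 76) (nat_lit 18574268035) (nat_lit 76) (nat_lit 14579101720) (nat_lit 8) (nat_lit 4) (nat_lit 9) (nat_lit 5) (nat_lit 9) (nat_lit 4) (nat_lit 480) (nat_lit 287) (nat_lit 253))))) (XT.nd (nat_lit 234) (nat_lit 152) (nat_lit 0) (XT.nd (nat_lit 78) (nat_lit 0) (nat_lit 0) (XT.lf (nat_lit 0) (nat_lit 33867370064) (nat_lit 76) (nat_lit 14254304379) (nat_lit 76) (nat_lit 10191949594) (nat_lit 8) (nat_lit 4) (nat_lit 9) (nat_lit 5) (nat_lit 9) (nat_lit 4) (nat_lit 481) (nat_lit 287) (nat_lit 252)) (XT.nd (nat_lit 78) (nat_lit 0) (nat_lit 0) (XT.lf (nat_lit 0) (nat_lit 44322267339) (nat_lit 76) (nat_lit 9861967124) (nat_lit 76) (nat_lit 5734380813) (nat_lit 8) (nat_lit 4) (nat_lit 9) (nat_lit 5) (nat_lit 9) (nat_lit 4) (nat_lit 482) (nat_lit 287) (nat_lit 251)) (XT.lf (nat_lit 0) (nat_lit 54977570158) (nat_lit 76) (nat_lit 5393418303) (nat_lit 76) (nat_lit 1202500415) (nat_lit 8) (nat_lit 4) (nat_lit 9) (nat_lit 5)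 (nat_lit 9) (nat_lit 4) (nat_lit 483) (nat_lit 287) (nat_lit 250)))) (XT.nd (nat_lit 156) (nat_lit 0) (nat_lit 0) (XT.nd (nat_lit 78) (nat_lit 0) (nat_lit 0) (XT.lf (nat_lit 0) (nat_lit 2580496484) (nat_lit 76) (nat_lit 785464766) (nat_lit 152) (nat_lit 59912002743) (nat_lit 6) (nat_lit 5) (nat_lit 7) (nat_lit 5) (nat_lit 8) (nat_lit 4) (nat_lit 484) (nat_lit 287) (nat_lit 249)) (XT.lf (nat_lit 0) (nat_lit 8096157627) (nat_lit 152) (nat_lit 53025943161) (nat_lit 0) (nat_lit 3909651859) (nat_lit 6) (nat_lit 5) (nat_lit 8) (nat_lit 4) (nat_lit 6) (nat_lit 4) (nat_lit 485) (nat_lit 287) (nat_lit 248))) (XT.nd (nat_lit 78) (nat_lit 0) (nat_lit 0) (XT.lf (nat_lit 0) (nat_lit 12921193746) (nat_lit 152) (nat_lit 45239956406) (nat_lit 0) (nat_lit 8678418692) (nat_lit 6) (nat_lit 5) (nat_lit 8) (nat_lit 4) (nat_lit 6) (nat_lit 4) (nat_lit 486) (nat_lit 287) (nat_lit 247)) (XT.lf (nat_lit 0) (nat_lit 17837735293) (nat_lit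 152) (nat_lit 37325153589) (nat_lit 0) (nat_lit 13540329864) (nat_lit 6) (nat_lit 5) (nat_lit 8) (nat_lit 4) (nat_lit 6) (nat_lit 4) (nat_lit 487) (nat_lit 287) (nat_lit 246)))))) (XT.nd (nat_lit 49842) (nat_lit 0) (nat_lit 1140) (XT.nd (nat_lit 234) (nat_lit 76) (nat_lit 0) (XT.nd (nat_lit 78) (nat_lit 0) (nat_lit 0) (XT.lf (nat_lit 0) (nat_lit 22850078273) (nat_lit 152) (nat_lit 29274618862) (nat_lit 0) (nat_lit 18499633645) (nat_lit 6) (nat_lit 5) (nat_lit 8) (nat_lit 4) (nat_lit 6) (nat_lit 4) (nat_lit 488) (nat_lit 287) (nat_lit 245)) (XT.nd (nat_lit 78) (nat_lit 0) (nat_lit 0) (XT.lf (nat_lit 0) (nat_lit 27962602405) (nat_lit 152) (nat_lit 21081317777) (nat_lit 0) (nat_lit 23560663409) (nat_lit 6) (nat_lit 5) (nat_lit 8) (nat_lit 4) (nat_lit 6) (nat_lit 4) (nat_lit 489) (nat_lit 287) (nat_lit 244)) (XT.lf (nat_lit 0) (nat_lit 33179774941) (nat_lit 152) (nat_lit 12738091140) (nat_lit 0) (nat_lit 28727841414)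 (nat_lit 6) (nat_lit 5) (nat_lit 8) (nat_lit 4) (nat_lit 6) (nat_lit 4) (nat_lit 490) (nat_lit 287) (nat_lit 243)))) (XT.nd (nat_lit 49452) (nat_lit 0) (nat_lit 1444) (XT.nd (nat_lit 78) (nat_lit 76) (nat_lit 0) (XT.lf (nat_lit 0) (nat_lit 38506154577) (nat_lit 152) (nat_lit 4237648752) (nat_lit 0) (nat_lit 34005682669) (nat_lit 6) (nat_lit 5) (nat_lit 8) (nat_lit 4) (nat_lit 6) (nat_lit 4) (nat_lit 491) (nat_lit 287) (nat_lit 242)) (XT.lf (nat_lit 0) (nat_lit 4515551633) (nat_lit 76) (nat_lit 39474250042) (nat_lit 76) (nat_lit 34926653493) (nat_lit 5) (nat_lit 4) (nat_lit 6) (nat_lit 5) (nat_lit 6) (nat_lit 4) (nat_lit 492) (nat_lit 287) (nat_lit 241))) (XT.nd (nat_lit 78) (nat_lit 152) (nat_lit 0) (XT.lf (nat_lit 0) (nat_lit 11180916936) (nat_lit 76) (nat_lit 254447571) (nat_lit 76) (nat_lit 254447571) (nat_lit 26) (nat_lit 4) (nat_lit 27) (nat_lit 5) (nat_lit 27) (nat_lit 4) (nat_lit 444) (nat_lit 288) (nat_lit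 288)) (XT.lf (nat_lit 0) (nat_lit 5639237813) (nat_lit 152) (nat_lit 12830119992) (nat_lit 0) (nat_lit 5420066484) (nat_lit 24) (nat_lit 5) (nat_lit 26) (nat_lit 4) (nat_lit 24) (nat_lit 4) (nat_lit 445) (nat_lit 288) (nat_lit 287))))) (XT.nd (nat_lit 234) (nat_lit 228) (nat_lit 0) (XT.nd (nat_lit 78) (nat_lit 76) (nat_lit 0) (XT.lf (nat_lit 0) (nat_lit 11853451252) (nat_lit 152) (nat_lit 1142675040) (nat_lit 0) (nat_lit 11421492225) (nat_lit 24) (nat_lit 5) (nat_lit 26) (nat_lit 4) (nat_lit 24) (nat_lit 4) (nat_lit 446) (nat_lit 288) (nat_lit 286)) (XT.nd (nat_lit 78) (nat_lit 0) (nat_lit 0) (XT.lf (nat_lit 0) (nat_lit 10876703451) (nat_lit 76) (nat_lit 7361986582) (nat_lit 76) (nat_lit 6723437556) (nat_lit 23) (nat_lit 4) (nat_lit 24) (nat_lit 5) (nat_lit 24) (nat_lit 4) (nat_lit 447) (nat_lit 288) (nat_lit 285)) (XT.lf (nat_lit 0) (nat_lit 23051417600) (nat_lit 76) (nat_lit 1656948276) (nat_lit 76) (nat_lit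 817826437) (nat_lit 23) (nat_lit 4) (nat_lit 24) (nat_lit 5) (nat_lit 24) (nat_lit 4) (nat_lit 448) (nat_lit 288) (nat_lit 284)))) (XT.nd (nat_lit 156) (nat_lit 76) (nat_lit 0) (XT.nd (nat_lit 78) (nat_lit 0) (nat_lit 0) (XT.lf (nat_lit 0) (nat_lit 5177066708) (nat_lit 152) (nat_lit 16754828608) (nat_lit 0) (nat_lit 4173326197) (nat_lit 21) (nat_lit 5) (nat_lit 23) (nat_lit 4) (nat_lit 21) (nat_lit 4) (nat_lit 449) (nat_lit 288) (nat_lit 283)) (XT.lf (nat_lit 0) (nat_lit 11260887183) (nat_lit 152) (nat_lit 5369138018) (nat_lit 0) (nat_lit 10073594134) (nat_lit 21) (nat_lit 5) (nat_lit 23) (nat_lit 4) (nat_lit 21) (nat_lit 4) (nat_lit 450) (nat_lit 288) (nat_lit 282))) (XT.nd (nat_lit 78) (nat_lit 0) (nat_lit 0) (XT.lf (nat_lit 0) (nat_lit 6262301998) (nat_lit 76) (nat_lit 11212374443) (nat_lit 76) (nat_lit 9846875047) (nat_lit 20) (nat_lit 4) (nat_lit 21) (nat_lit 5) (nat_lit 21) (nat_lit 4) (nat_lit 451) (nat_lit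 288) (nat_lit 281)) (XT.lf (nat_lit 0) (nat_lit 18136863387) (nat_lit 76) (nat_lit 5680699416) (nat_lit 76) (nat_lit 4142184148) (nat_lit 20) (nat_lit 4) (nat_lit 21) (nat_lit 5) (nat_lit 21) (nat_lit 4) (nat_lit 452) (nat_lit 288) (nat_lit 280))))))) (XT.nd (nat_lit 1092) (nat_lit 304) (nat_lit 0) (XT.nd (nat_lit 546) (nat_lit 228) (nat_lit 0) (XT.nd (nat_lit 234) (nat_lit 228) (nat_lit 0) (XT.nd (nat_lit 78) (nat_lit 0) (nat_lit 0) (XT.lf (nat_lit 0) (nat_lit 1552423764) (nat_lit 76) (nat_lit 52953381) (nat_lit 152) (nat_lit 27014049918) (nat_lit 18) (nat_lit 5) (nat_lit 19) (nat_lit 5) (nat_lit 20) (nat_lit 4) (nat_lit 453) (nat_lit 288) (nat_lit 279)) (XT.nd (nat_lit 78) (nat_lit 0) (nat_lit 0) (XT.lf (nat_lit 0) (nat_lit 7488327011) (nat_lit 152) (nat_lit 16134754315) (nat_lit 0) (nat_lit 5673204784) (nat_lit 18) (nat_lit 5) (nat_lit 20) (nat_lit 4) (nat_lit 18) (nat_lit 4) (nat_lit 454) (nat_lit 288) (nat_lit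 278)) (XT.lf (nat_lit 0) (nat_lit 13442299698) (nat_lit 152) (nat_lit 5080865289) (nat_lit 0) (nat_lit 11473455110) (nat_lit 18) (nat_lit 5) (nat_lit 20) (nat_lit 4) (nat_lit 18) (nat_lit 4) (nat_lit 455) (nat_lit 288) (nat_lit 277)))) (XT.nd (nat_lit 156) (nat_lit 152) (nat_lit 0) (XT.nd (nat_lit 78) (nat_lit 0) (nat_lit 0) (XT.lf (nat_lit 0) (nat_lit 6226329656) (nat_lit 76) (nat_lit 13305510318) (nat_lit 76) (nat_lit 11187420720) (nat_lit 17) (nat_lit 4) (nat_lit 18) (nat_lit 5) (nat_lit 18) (nat_lit 4) (nat_lit 456) (nat_lit 288) (nat_lit 276)) (XT.lf (nat_lit 0) (nat_lit 17779043247) (nat_lit 76) (nat_lit 7974522425) (nat_lit 76) (nat_lit 5711534758) (nat_lit 17) (nat_lit 4) (nat_lit 18) (nat_lit 5) (nat_lit 18) (nat_lit 4) (nat_lit 457) (nat_lit 288) (nat_lit 275))) (XT.nd (nat_lit 78) (nat_lit 152) (nat_lit 0) (XT.lf (nat_lit 0) (nat_lit 29486250907) (nat_lit 76) (nat_lit 2576849939) (nat_lit 76) (nat_lit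 173184536) (nat_lit 17) (nat_lit 4) (nat_lit 18) (nat_lit 5) (nat_lit 18) (nat_lit 4) (nat_lit 458) (nat_lit 288) (nat_lit 274)) (XT.lf (nat_lit 0) (nat_lit 5436686761) (nat_lit 152) (nat_lit 24621500525) (nat_lit 0) (nat_lit 2970428772) (nat_lit 15) (nat_lit 5) (nat_lit 17) (nat_lit 4) (nat_lit 15) (nat_lit 4) (nat_lit 459) (nat_lit 288) (nat_lit 273))))) (XT.nd (nat_lit 234) (nat_lit 152) (nat_lit 0) (XT.nd (nat_lit 78) (nat_lit 76) (nat_lit 0) (XT.lf (nat_lit 0) (nat_lit 11168171162) (nat_lit 152) (nat_lit 14104621353) (nat_lit 0) (nat_lit 8573173116) (nat_lit 15) (nat_lit 5) (nat_lit 17) (nat_lit 4) (nat_lit 15) (nat_lit 4) (nat_lit 460) (nat_lit 288) (nat_lit 272)) (XT.nd (nat_lit 78) (nat_lit 76) (nat_lit 0) (XT.lf (nat_lit 0) (nat_lit 16977657891) (nat_lit 152) (nat_lit 3455330791) (nat_lit 0) (nat_lit 14257669499) (nat_lit 15) (nat_lit 5) (nat_lit 17) (nat_lit 4) (nat_lit 15) (nat_lit 4) (nat_lit 461)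 (nat_lit 288) (nat_lit 271)) (XT.lf (nat_lit 0) (nat_lit 7481670706) (nat_lit 76) (nat_lit 15460470888) (nat_lit 76) (nat_lit 12619132645) (nat_lit 14) (nat_lit 4) (nat_lit 15) (nat_lit 5) (nat_lit 15) (nat_lit 4) (nat_lit 462) (nat_lit 288) (nat_lit 270)))) (XT.nd (nat_lit 156) (nat_lit 152) (nat_lit 0) (XT.nd (nat_lit 78) (nat_lit 0) (nat_lit 0) (XT.lf (nat_lit 0) (nat_lit 18641593786) (nat_lit 76) (nat_lit 10388616545) (nat_lit 76) (nat_lit 7429462913) (nat_lit 14) (nat_lit 4) (nat_lit 15) (nat_lit 5) (nat_lit 15) (nat_lit 4) (nat_lit 463) (nat_lit 288) (nat_lit 269)) (XT.lf (nat_lit 0) (nat_lit 29965421978) (nat_lit 76) (nat_lit 5247886004) (nat_lit 76) (nat_lit 2174348498) (nat_lit 14) (nat_lit 4) (nat_lit 15) (nat_lit 5) (nat_lit 15) (nat_lit 4) (nat_lit 464) (nat_lit 288) (nat_lit 268))) (XT.nd (nat_lit 78) (nat_lit 0) (nat_lit 0) (XT.lf (nat_lit 0) (nat_lit 3119855693) (nat_lit 152) (nat_lit 35196333461)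 (nat_lit 0) (nat_lit 28020926) (nat_lit 12) (nat_lit 5) (nat_lit 14) (nat_lit 4) (nat_lit 12) (nat_lit 4) (nat_lit 465) (nat_lit 288) (nat_lit 267)) (XT.lf (nat_lit 0) (nat_lit 8571056067) (nat_lit 152) (nat_lit 25381961890) (nat_lit 0) (nat_lit 5374543853) (nat_lit 12) (nat_lit 5) (nat_lit 14) (nat_lit 4) (nat_lit 12) (nat_lit 4) (nat_lit 466) (nat_lit 288) (nat_lit 266)))))) (XT.nd (nat_lit 546) (nat_lit 76) (nat_lit 0) (XT.nd (nat_lit 234) (nat_lit 152) (nat_lit 0) (XT.nd (nat_lit 78) (nat_lit 76) (nat_lit 0) (XT.lf (nat_lit 0) (nat_lit 14102511820) (nat_lit 152) (nat_lit 15436033111) (nat_lit 0) (nat_lit 10804371016) (nat_lit 12) (nat_lit 5) (nat_lit 14) (nat_lit 4) (nat_lit 12) (nat_lit 4) (nat_lit 467) (nat_lit 288) (nat_lit 265)) (XT.nd (nat_lit 78) (nat_lit 76) (nat_lit 0) (XT.lf (nat_lit 0) (nat_lit 19719056261) (nat_lit 152) (nat_lit 5349856506) (nat_lit 0) (nat_lit 16322246924) (nat_lit 12) (nat_lit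 5) (nat_lit 14) (nat_lit 4) (nat_lit 12) (nat_lit 4) (nat_lit 468) (nat_lit 288) (nat_lit 264)) (XT.lf (nat_lit 0) (nat_lit 4982609749) (nat_lit 76) (nat_lit 20490883196) (nat_lit 76) (nat_lit 16998279165) (nat_lit 11) (nat_lit 4) (nat_lit 12) (nat_lit 5) (nat_lit 12) (nat_lit 4) (nat_lit 469) (nat_lit 288) (nat_lit 263)))) (XT.nd (nat_lit 156) (nat_lit 152) (nat_lit 0) (XT.nd (nat_lit 78) (nat_lit 0) (nat_lit 0) (XT.lf (nat_lit 0) (nat_lit 15582697637) (nat_lit 76) (nat_lit 15794213273) (nat_lit 76) (nat_lit 12208604687) (nat_lit 11) (nat_lit 4) (nat_lit 12) (nat_lit 5) (nat_lit 12) (nat_lit 4) (nat_lit 470) (nat_lit 288) (nat_lit 262)) (XT.lf (nat_lit 0) (nat_lit 26353196737) (nat_lit 76) (nat_lit 11028822176) (nat_lit 76) (nat_lit 7352917904) (nat_lit 11) (nat_lit 4) (nat_lit 12) (nat_lit 5) (nat_lit 12) (nat_lit 4) (nat_lit 471) (nat_lit 288) (nat_lit 261))) (XT.nd (nat_lit 78) (nat_lit 152) (nat_lit 0)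 (XT.lf (nat_lit 0) (nat_lit 37303518162) (nat_lit 76) (nat_lit 6190545971) (nat_lit 76) (nat_lit 2426975984) (nat_lit 11) (nat_lit 4) (nat_lit 12) (nat_lit 5) (nat_lit 12) (nat_lit 4) (nat_lit 472) (nat_lit 288) (nat_lit 260)) (XT.lf (nat_lit 0) (nat_lit 1298977691) (nat_lit 76) (nat_lit 1236815423) (nat_lit 152) (nat_lit 44607952039) (nat_lit 9) (nat_lit 5) (nat_lit 10) (nat_lit 5) (nat_lit 11) (nat_lit 4) (nat_lit 473) (nat_lit 288) (nat_lit 259))))) (XT.nd (nat_lit 312) (nat_lit 76) (nat_lit 0) (XT.nd (nat_lit 156) (nat_lit 0) (nat_lit 0) (XT.nd (nat_lit 78) (nat_lit 0) (nat_lit 0) (XT.lf (nat_lit 0) (nat_lit 7652013006) (nat_lit 152) (nat_lit 36913598061) (nat_lit 0) (nat_lit 3835201672) (nat_lit 9) (nat_lit 5) (nat_lit 11) (nat_lit 4) (nat_lit 9) (nat_lit 4) (nat_lit 474) (nat_lit 288) (nat_lit 258)) (XT.lf (nat_lit 0) (nat_lit 12864361373) (nat_lit 152) (nat_lit 27863294172) (nat_lit 0) (nat_lit 8969660187)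 (nat_lit 9) (nat_lit 5) (nat_lit 11) (nat_lit 4) (nat_lit 9) (nat_lit 4) (nat_lit 475) (nat_lit 288) (nat_lit 257))) (XT.nd (nat_lit 78) (nat_lit 0) (nat_lit 0) (XT.lf (nat_lit 0) (nat_lit 18165503665) (nat_lit 152) (nat_lit 18674058735) (nat_lit 0) (nat_lit 14195181264) (nat_lit 9) (nat_lit 5) (nat_lit 11) (nat_lit 4) (nat_lit 9) (nat_lit 4) (nat_lit 476) (nat_lit 288) (nat_lit 256)) (XT.lf (nat_lit 0) (nat_lit 23560071950) (nat_lit 152) (nat_lit 9337862321) (nat_lit 0) (nat_lit 19516330893) (nat_lit 9) (nat_lit 5) (nat_lit 11) (nat_lit 4) (nat_lit 9) (nat_lit 4) (nat_lit 477) (nat_lit 288) (nat_lit 255)))) (XT.nd (nat_lit 156) (nat_lit 0) (nat_lit 0) (XT.nd (nat_lit 78) (nat_lit 0) (nat_lit 0) (XT.lf (nat_lit 0) (nat_lit 156506923) (nat_lit 76) (nat_lit 28897777444) (nat_lit 76) (nat_lit 24782756139) (nat_lit 8) (nat_lit 4) (nat_lit 9) (nat_lit 5) (nat_lit 9) (nat_lit 4) (nat_lit 478) (nat_lit 288) (nat_lit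 254)) (XT.lf (nat_lit 0) (nat_lit 10003382362) (nat_lit 76) (nat_lit 24741203320) (nat_lit 76) (nat_lit 20556977891) (nat_lit 8) (nat_lit 4) (nat_lit 9) (nat_lit 5) (nat_lit 9) (nat_lit 4) (nat_lit 479) (nat_lit 288) (nat_lit 253))) (XT.nd (nat_lit 78) (nat_lit 0) (nat_lit 0) (XT.lf (nat_lit 0) (nat_lit 20025526291) (nat_lit 76) (nat_lit 20518874040) (nat_lit 76) (nat_lit 16267460141) (nat_lit 8) (nat_lit 4) (nat_lit 9) (nat_lit 5) (nat_lit 9) (nat_lit 4) (nat_lit 480) (nat_lit 288) (nat_lit 252)) (XT.lf (nat_lit 0) (nat_lit 30231695923) (nat_lit 76) (nat_lit 16227100192) (nat_lit 76) (nat_lit 11910454768) (nat_lit 8) (nat_lit 4) (nat_lit 9) (nat_lit 5) (nat_lit 9) (nat_lit 4) (nat_lit 481) (nat_lit 288) (nat_lit 251))))))))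
noncomputable def xc11 : XT := (XT.nd (nat_lit 51324) (nat_lit 0) (nat_lit 76) (XT.nd (nat_lit 50232) (nat_lit 0) (nat_lit 912) (XT.nd (nat_lit 546) (nat_lit 76) (nat_lit 0) (XT.nd (nat_lit 234) (nat_lit 76) (nat_lit 0) (XT.nd (nat_lit 78) (nat_lit 76) (nat_lit 0) (XT.lf (nat_lit 0) (nat_lit 40630809269) (nat_lit 76) (nat_lit 11862131682) (nat_lit 76) (nat_lit 7482154680) (nat_lit 8) (nat_lit 4) (nat_lit 9) (nat_lit 5) (nat_lit 9) (nat_lit 4) (nat_lit 482) (nat_lit 288) (nat_lit 250)) (XT.nd (nat_lit 78) (nat_lit 76) (nat_lit 0) (XT.lf (nat_lit 0) (nat_lit 51231952935) (nat_lit 76) (nat_lit 7420154458) (nat_lit 76) (nat_lit 2978690489) (nat_lit 8) (nat_lit 4) (nat_lit 9) (nat_lit 5) (nat_lit 9) (nat_lit 4) (nat_lit 483) (nat_lit 288) (nat_lit 249)) (XT.lf (nat_lit 0) (nat_lit 1572575534) (nat_lit 152) (nat_lit 1308831719) (nat_lit 76) (nat_lit 60455934591) (nat_lit 7) (nat_lit 5) (nat_lit 9) (nat_lit 5) (nat_lit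 8) (nat_lit 4) (nat_lit 484) (nat_lit 288) (nat_lit 248)))) (XT.nd (nat_lit 156) (nat_lit 0) (nat_lit 0) (XT.nd (nat_lit 78) (nat_lit 0) (nat_lit 0) (XT.lf (nat_lit 0) (nat_lit 6242649430) (nat_lit 152) (nat_lit 57033963840) (nat_lit 0) (nat_lit 1816321838) (nat_lit 6) (nat_lit 5) (nat_lit 8) (nat_lit 4) (nat_lit 6) (nat_lit 4) (nat_lit 485) (nat_lit 288) (nat_lit 247)) (XT.lf (nat_lit 0) (nat_lit 11041456162) (nat_lit 152) (nat_lit 49299584741) (nat_lit 0) (nat_lit 6560498195) (nat_lit 6) (nat_lit 5) (nat_lit 8) (nat_lit 4) (nat_lit 6) (nat_lit 4) (nat_lit 486) (nat_lit 288) (nat_lit 246))) (XT.nd (nat_lit 78) (nat_lit 0) (nat_lit 0) (XT.lf (nat_lit 0) (nat_lit 15932532284) (nat_lit 152) (nat_lit 41434886443) (nat_lit 0) (nat_lit 11398535118) (nat_lit 6) (nat_lit 5) (nat_lit 8) (nat_lit 4) (nat_lit 6) (nat_lit 4) (nat_lit 487) (nat_lit 288) (nat_lit 245)) (XT.lf (nat_lit 0) (nat_lit 20920151550) (nat_lit 152)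 (nat_lit 33432996881) (nat_lit 0) (nat_lit 16334660017) (nat_lit 6) (nat_lit 5) (nat_lit 8) (nat_lit 4) (nat_lit 6) (nat_lit 4) (nat_lit 488) (nat_lit 288) (nat_lit 244))))) (XT.nd (nat_lit 234) (nat_lit 76) (nat_lit 0) (XT.nd (nat_lit 78) (nat_lit 0) (nat_lit 0) (XT.lf (nat_lit 0) (nat_lit 26008672077) (nat_lit 152) (nat_lit 25286924111) (nat_lit 0) (nat_lit 21373186011) (nat_lit 6) (nat_lit 5) (nat_lit 8) (nat_lit 4) (nat_lit 6) (nat_lit 4) (nat_lit 489) (nat_lit 288) (nat_lit 243)) (XT.nd (nat_lit 78) (nat_lit 0) (nat_lit 0) (XT.lf (nat_lit 0) (nat_lit 31202540142) (nat_lit 152) (nat_lit 16989550207) (nat_lit 0) (nat_lit 26518515696) (nat_lit 6) (nat_lit 5) (nat_lit 8) (nat_lit 4) (nat_lit 6) (nat_lit 4) (nat_lit 490) (nat_lit 288) (nat_lit 242)) (XT.lf (nat_lit 0) (nat_lit 36506294078) (nat_lit 152) (nat_lit 8533625036) (nat_lit 0) (nat_lit 31775144991) (nat_lit 6) (nat_lit 5) (nat_lit 8) (nat_lit 4) (nat_lit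 6) (nat_lit 4) (nat_lit 491) (nat_lit 288) (nat_lit 241)))) (XT.nd (nat_lit 49296) (nat_lit 0) (nat_lit 1596) (XT.nd (nat_lit 49218) (nat_lit 0) (nat_lit 1672) (XT.lf (nat_lit 0) (nat_lit 89996224) (nat_lit 76) (nat_lit 41835437107) (nat_lit 76) (nat_lit 37058535941) (nat_lit 5) (nat_lit 4) (nat_lit 6) (nat_lit 5) (nat_lit 6) (nat_lit 4) (nat_lit 492) (nat_lit 288) (nat_lit 240)) (XT.lf (nat_lit 0) (nat_lit 5086912977) (nat_lit 152) (nat_lit 1026241049) (nat_lit 0) (nat_lit 5086912977) (nat_lit 27) (nat_lit 5) (nat_lit 29) (nat_lit 4) (nat_lit 27) (nat_lit 4) (nat_lit 442) (nat_lit 289) (nat_lit 289))) (XT.nd (nat_lit 78) (nat_lit 0) (nat_lit 0) (XT.lf (nat_lit 0) (nat_lit 10012316224) (nat_lit 76) (nat_lit 6551114628) (nat_lit 76) (nat_lit 6318595765) (nat_lit 26) (nat_lit 4) (nat_lit 27) (nat_lit 5) (nat_lit 27) (nat_lit 4) (nat_lit 443) (nat_lit 289) (nat_lit 288)) (XT.lf (nat_lit 0) (nat_lit 22246010089)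 (nat_lit 76) (nat_lit 796847434) (nat_lit 76) (nat_lit 338582102) (nat_lit 26) (nat_lit 4) (nat_lit 27) (nat_lit 5) (nat_lit 27) (nat_lit 4) (nat_lit 444) (nat_lit 289) (nat_lit 287)))))) (XT.nd (nat_lit 546) (nat_lit 228) (nat_lit 0) (XT.nd (nat_lit 234) (nat_lit 228) (nat_lit 0) (XT.nd (nat_lit 78) (nat_lit 76) (nat_lit 0) (XT.lf (nat_lit 0) (nat_lit 5741431054) (nat_lit 152) (nat_lit 13067981465) (nat_lit 0) (nat_lit 5083725558) (nat_lit 24) (nat_lit 5) (nat_lit 26) (nat_lit 4) (nat_lit 24) (nat_lit 4) (nat_lit 445) (nat_lit 289) (nat_lit 286)) (XT.nd (nat_lit 78) (nat_lit 76) (nat_lit 0) (XT.lf (nat_lit 0) (nat_lit 11896553563) (nat_lit 152) (nat_lit 1494296843) (nat_lit 0) (nat_lit 11032258068) (nat_lit 24) (nat_lit 5) (nat_lit 26) (nat_lit 4) (nat_lit 24) (nat_lit 4) (nat_lit 446) (nat_lit 289) (nat_lit 285)) (XT.lf (nat_lit 0) (nat_lit 10405438653) (nat_lit 76) (nat_lit 7814453769) (nat_lit 76) (nat_lit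 6749585460) (nat_lit 23) (nat_lit 4) (nat_lit 24) (nat_lit 5) (nat_lit 24) (nat_lit 4) (nat_lit 447) (nat_lit 289) (nat_lit 284)))) (XT.nd (nat_lit 156) (nat_lit 76) (nat_lit 0) (XT.nd (nat_lit 78) (nat_lit 152) (nat_lit 0) (XT.lf (nat_lit 0) (nat_lit 22470788693) (nat_lit 76) (nat_lit 2162029428) (nat_lit 76) (nat_lit 902430232) (nat_lit 23) (nat_lit 4) (nat_lit 24) (nat_lit 5) (nat_lit 24) (nat_lit 4) (nat_lit 448) (nat_lit 289) (nat_lit 283)) (XT.lf (nat_lit 0) (nat_lit 5026215695) (nat_lit 152) (nat_lit 17470374940) (nat_lit 0) (nat_lit 3619751317) (nat_lit 21) (nat_lit 5) (nat_lit 23) (nat_lit 4) (nat_lit 21) (nat_lit 4) (nat_lit 449) (nat_lit 289) (nat_lit 282))) (XT.nd (nat_lit 78) (nat_lit 76) (nat_lit 0) (XT.lf (nat_lit 0) (nat_lit 11054497791) (nat_lit 152) (nat_lit 6192084034) (nat_lit 0) (nat_lit 9469827066) (nat_lit 21) (nat_lit 5) (nat_lit 23) (nat_lit 4) (nat_lit 21) (nat_lit 4) (nat_lit 450)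 (nat_lit 289) (nat_lit 281)) (XT.lf (nat_lit 0) (nat_lit 5316630997) (nat_lit 76) (nat_lit 11888644930) (nat_lit 76) (nat_lit 10130958333) (nat_lit 20) (nat_lit 4) (nat_lit 21) (nat_lit 5) (nat_lit 21) (nat_lit 4) (nat_lit 451) (nat_lit 289) (nat_lit 280))))) (XT.nd (nat_lit 234) (nat_lit 76) (nat_lit 0) (XT.nd (nat_lit 78) (nat_lit 152) (nat_lit 0) (XT.lf (nat_lit 0) (nat_lit 17087943118) (nat_lit 76) (nat_lit 6406876427) (nat_lit 76) (nat_lit 4481213256) (nat_lit 20) (nat_lit 4) (nat_lit 21) (nat_lit 5) (nat_lit 21) (nat_lit 4) (nat_lit 452) (nat_lit 289) (nat_lit 279)) (XT.nd (nat_lit 78) (nat_lit 0) (nat_lit 0) (XT.lf (nat_lit 0) (nat_lit 366040381) (nat_lit 76) (nat_lit 843214595) (nat_lit 152) (nat_lit 27428469603) (nat_lit 18) (nat_lit 5) (nat_lit 19) (nat_lit 5) (nat_lit 20) (nat_lit 4) (nat_lit 453) (nat_lit 289) (nat_lit 278)) (XT.lf (nat_lit 0) (nat_lit 7032396563) (nat_lit 152) (nat_lit 17433219596)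 (nat_lit 0) (nat_lit 4850764277) (nat_lit 18) (nat_lit 5) (nat_lit 20) (nat_lit 4) (nat_lit 18) (nat_lit 4) (nat_lit 454) (nat_lit 289) (nat_lit 277)))) (XT.nd (nat_lit 156) (nat_lit 0) (nat_lit 0) (XT.nd (nat_lit 78) (nat_lit 76) (nat_lit 0) (XT.lf (nat_lit 0) (nat_lit 12935678176) (nat_lit 152) (nat_lit 6477758584) (nat_lit 0) (nat_lit 10604800879) (nat_lit 18) (nat_lit 5) (nat_lit 20) (nat_lit 4) (nat_lit 18) (nat_lit 4) (nat_lit 455) (nat_lit 289) (nat_lit 276)) (XT.lf (nat_lit 0) (nat_lit 4704172411) (nat_lit 76) (nat_lit 14257199499) (nat_lit 76) (nat_lit 11781424135) (nat_lit 17) (nat_lit 4) (nat_lit 18) (nat_lit 5) (nat_lit 18) (nat_lit 4) (nat_lit 456) (nat_lit 289) (nat_lit 275))) (XT.nd (nat_lit 78) (nat_lit 0) (nat_lit 0) (XT.lf (nat_lit 0) (nat_lit 16162261697) (nat_lit 76) (nat_lit 8972145125) (nat_lit 76) (nat_lit 6355692025) (nat_lit 17) (nat_lit 4) (nat_lit 18) (nat_lit 5) (nat_lit 18) (nat_lit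 4) (nat_lit 457) (nat_lit 289) (nat_lit 274)) (XT.lf (nat_lit 0) (nat_lit 27777601100) (nat_lit 76) (nat_lit 3619068289) (nat_lit 76) (nat_lit 866034862) (nat_lit 17) (nat_lit 4) (nat_lit 18) (nat_lit 5) (nat_lit 18) (nat_lit 4) (nat_lit 458) (nat_lit 289) (nat_lit 273))))))) (XT.nd (nat_lit 1092) (nat_lit 380) (nat_lit 0) (XT.nd (nat_lit 546) (nat_lit 76) (nat_lit 0) (XT.nd (nat_lit 234) (nat_lit 228) (nat_lit 0) (XT.nd (nat_lit 78) (nat_lit 0) (nat_lit 0) (XT.lf (nat_lit 0) (nat_lit 4682493846) (nat_lit 152) (nat_lit 26494083103) (nat_lit 0) (nat_lit 1880905802) (nat_lit 15) (nat_lit 5) (nat_lit 17) (nat_lit 4) (nat_lit 15) (nat_lit 4) (nat_lit 459) (nat_lit 289) (nat_lit 272)) (XT.nd (nat_lit 78) (nat_lit 0) (nat_lit 0) (XT.lf (nat_lit 0) (nat_lit 10367701300) (nat_lit 152) (nat_lit 16067398505) (nat_lit 0) (nat_lit 7441122909) (nat_lit 15) (nat_lit 5) (nat_lit 17) (nat_lit 4) (nat_lit 15) (nat_lit 4) (nat_lit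 460) (nat_lit 289) (nat_lit 271)) (XT.lf (nat_lit 0) (nat_lit 16132258953) (nat_lit 152) (nat_lit 5505675492) (nat_lit 0) (nat_lit 13084330712) (nat_lit 15) (nat_lit 5) (nat_lit 17) (nat_lit 4) (nat_lit 15) (nat_lit 4) (nat_lit 461) (nat_lit 289) (nat_lit 270)))) (XT.nd (nat_lit 156) (nat_lit 152) (nat_lit 0) (XT.nd (nat_lit 78) (nat_lit 0) (nat_lit 0) (XT.lf (nat_lit 0) (nat_lit 5303811083) (nat_lit 76) (nat_lit 16728376193) (nat_lit 76) (nat_lit 13562632562) (nat_lit 14) (nat_lit 4) (nat_lit 15) (nat_lit 5) (nat_lit 15) (nat_lit 4) (nat_lit 462) (nat_lit 289) (nat_lit 269)) (XT.lf (nat_lit 0) (nat_lit 16379550626) (nat_lit 76) (nat_lit 11697546200) (nat_lit 76) (nat_lit 8417418696) (nat_lit 14) (nat_lit 4) (nat_lit 15) (nat_lit 5) (nat_lit 15) (nat_lit 4) (nat_lit 463) (nat_lit 289) (nat_lit 268))) (XT.nd (nat_lit 78) (nat_lit 152) (nat_lit 0) (XT.lf (nat_lit 0) (nat_lit 27621647229) (nat_lit 76) (nat_lit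 6596645125) (nat_lit 76) (nat_lit 3205465317) (nat_lit 14) (nat_lit 4) (nat_lit 15) (nat_lit 5) (nat_lit 15) (nat_lit 4) (nat_lit 464) (nat_lit 289) (nat_lit 267)) (XT.lf (nat_lit 0) (nat_lit 649262379) (nat_lit 76) (nat_lit 1394215432) (nat_lit 152) (nat_lit 36339094010) (nat_lit 12) (nat_lit 5) (nat_lit 13) (nat_lit 5) (nat_lit 14) (nat_lit 4) (nat_lit 465) (nat_lit 289) (nat_lit 266))))) (XT.nd (nat_lit 234) (nat_lit 76) (nat_lit 0) (XT.nd (nat_lit 78) (nat_lit 0) (nat_lit 0) (XT.lf (nat_lit 0) (nat_lit 7440251192) (nat_lit 152) (nat_lit 27985769287) (nat_lit 0) (nat_lit 3941537575) (nat_lit 12) (nat_lit 5) (nat_lit 14) (nat_lit 4) (nat_lit 12) (nat_lit 4) (nat_lit 466) (nat_lit 289) (nat_lit 265)) (XT.nd (nat_lit 78) (nat_lit 0) (nat_lit 0) (XT.lf (nat_lit 0) (nat_lit 12931876904) (nat_lit 152) (nat_lit 18117737078) (nat_lit 0) (nat_lit 9334494752) (nat_lit 12) (nat_lit 5) (nat_lit 14) (nat_lit 4) (nat_lit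 12) (nat_lit 4) (nat_lit 467) (nat_lit 289) (nat_lit 264)) (XT.lf (nat_lit 0) (nat_lit 18509751402) (nat_lit 152) (nat_lit 8107188212) (nat_lit 0) (nat_lit 14816574558) (nat_lit 12) (nat_lit 5) (nat_lit 14) (nat_lit 4) (nat_lit 12) (nat_lit 4) (nat_lit 468) (nat_lit 289) (nat_lit 263)))) (XT.nd (nat_lit 156) (nat_lit 0) (nat_lit 0) (XT.nd (nat_lit 78) (nat_lit 0) (nat_lit 0) (XT.lf (nat_lit 0) (nat_lit 2095515445) (nat_lit 76) (nat_lit 22103376489) (nat_lit 76) (nat_lit 18317195088) (nat_lit 11) (nat_lit 4) (nat_lit 12) (nat_lit 5) (nat_lit 12) (nat_lit 4) (nat_lit 469) (nat_lit 289) (nat_lit 262)) (XT.lf (nat_lit 0) (nat_lit 12622898198) (nat_lit 76) (nat_lit 17442262687) (nat_lit 76) (nat_lit 13565785600) (nat_lit 11) (nat_lit 4) (nat_lit 12) (nat_lit 5) (nat_lit 12) (nat_lit 4) (nat_lit 470) (nat_lit 289) (nat_lit 261))) (XT.nd (nat_lit 78) (nat_lit 0) (nat_lit 0) (XT.lf (nat_lit 0) (nat_lit 23322809787)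 (nat_lit 76) (nat_lit 12711392094) (nat_lit 76) (nat_lit 8747249293) (nat_lit 11) (nat_lit 4) (nat_lit 12) (nat_lit 5) (nat_lit 12) (nat_lit 4) (nat_lit 471) (nat_lit 289) (nat_lit 260)) (XT.lf (nat_lit 0) (nat_lit 34204599649) (nat_lit 76) (nat_lit 7906630941) (nat_lit 76) (nat_lit 3857375797) (nat_lit 11) (nat_lit 4) (nat_lit 12) (nat_lit 5) (nat_lit 12) (nat_lit 4) (nat_lit 472) (nat_lit 289) (nat_lit 259)))))) (XT.nd (nat_lit 546) (nat_lit 152) (nat_lit 0) (XT.nd (nat_lit 234) (nat_lit 76) (nat_lit 0) (XT.nd (nat_lit 78) (nat_lit 76) (nat_lit 0) (XT.lf (nat_lit 0) (nat_lit 1086484424) (nat_lit 152) (nat_lit 1926325106) (nat_lit 76) (nat_lit 44180320357) (nat_lit 10) (nat_lit 5) (nat_lit 12) (nat_lit 5) (nat_lit 11) (nat_lit 4) (nat_lit 473) (nat_lit 289) (nat_lit 258)) (XT.nd (nat_lit 78) (nat_lit 0) (nat_lit 0) (XT.lf (nat_lit 0) (nat_lit 6132272252) (nat_lit 152) (nat_lit 40277199302) (nat_lit 0) (nat_lit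 2042840179) (nat_lit 9) (nat_lit 5) (nat_lit 11) (nat_lit 4) (nat_lit 9) (nat_lit 4) (nat_lit 474) (nat_lit 289) (nat_lit 257)) (XT.lf (nat_lit 0) (nat_lit 11311331690) (nat_lit 152) (nat_lit 31292204560) (nat_lit 0) (nat_lit 7146278402) (nat_lit 9) (nat_lit 5) (nat_lit 11) (nat_lit 4) (nat_lit 9) (nat_lit 4) (nat_lit 475) (nat_lit 289) (nat_lit 256)))) (XT.nd (nat_lit 156) (nat_lit 76) (nat_lit 0) (XT.nd (nat_lit 78) (nat_lit 0) (nat_lit 0) (XT.lf (nat_lit 0) (nat_lit 16580154635) (nat_lit 152) (nat_lit 22166376062) (nat_lit 0) (nat_lit 12341682691) (nat_lit 9) (nat_lit 5) (nat_lit 11) (nat_lit 4) (nat_lit 9) (nat_lit 4) (nat_lit 476) (nat_lit 289) (nat_lit 255)) (XT.lf (nat_lit 0) (nat_lit 21943344912) (nat_lit 152) (nat_lit 12891739784) (nat_lit 0) (nat_lit 17633592720) (nat_lit 9) (nat_lit 5) (nat_lit 11) (nat_lit 4) (nat_lit 9) (nat_lit 4) (nat_lit 477) (nat_lit 289) (nat_lit 254))) (XT.nd (nat_lit 78)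 (nat_lit 76) (nat_lit 0) (XT.lf (nat_lit 0) (nat_lit 27405588805) (nat_lit 152) (nat_lit 3460191673) (nat_lit 0) (nat_lit 23026632488) (nat_lit 9) (nat_lit 5) (nat_lit 11) (nat_lit 4) (nat_lit 9) (nat_lit 4) (nat_lit 478) (nat_lit 289) (nat_lit 253)) (XT.lf (nat_lit 0) (nat_lit 6258637997) (nat_lit 76) (nat_lit 26773183007) (nat_lit 76) (nat_lit 22327038220) (nat_lit 8) (nat_lit 4) (nat_lit 9) (nat_lit 5) (nat_lit 9) (nat_lit 4) (nat_lit 479) (nat_lit 289) (nat_lit 252))))) (XT.nd (nat_lit 312) (nat_lit 152) (nat_lit 0) (XT.nd (nat_lit 156) (nat_lit 0) (nat_lit 0) (XT.nd (nat_lit 78) (nat_lit 0) (nat_lit 0) (XT.lf (nat_lit 0) (nat_lit 16223324480) (nat_lit 76) (nat_lit 22579043535) (nat_lit 76) (nat_lit 18067667224) (nat_lit 8) (nat_lit 4) (nat_lit 9) (nat_lit 5) (nat_lit 9) (nat_lit 4) (nat_lit 480) (nat_lit 289) (nat_lit 251)) (XT.lf (nat_lit 0) (nat_lit 26373710183) (nat_lit 76) (nat_lit 18314638432) (nat_lit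 76) (nat_lit 13739930544) (nat_lit 8) (nat_lit 4) (nat_lit 9) (nat_lit 5) (nat_lit 9) (nat_lit 4) (nat_lit 481) (nat_lit 289) (nat_lit 250))) (XT.nd (nat_lit 78) (nat_lit 0) (nat_lit 0) (XT.lf (nat_lit 0) (nat_lit 36718664376) (nat_lit 76) (nat_lit 13976241519) (nat_lit 76) (nat_lit 9340046662) (nat_lit 8) (nat_lit 4) (nat_lit 9) (nat_lit 5) (nat_lit 9) (nat_lit 4) (nat_lit 482) (nat_lit 289) (nat_lit 249)) (XT.lf (nat_lit 0) (nat_lit 47267226340) (nat_lit 76) (nat_lit 9560061963) (nat_lit 76) (nat_lit 4864171021) (nat_lit 8) (nat_lit 4) (nat_lit 9) (nat_lit 5) (nat_lit 9) (nat_lit 4) (nat_lit 483) (nat_lit 289) (nat_lit 248)))) (XT.nd (nat_lit 156) (nat_lit 0) (nat_lit 0) (XT.nd (nat_lit 78) (nat_lit 152) (nat_lit 0) (XT.lf (nat_lit 0) (nat_lit 58028613263) (nat_lit 76) (nat_lit 5062240967) (nat_lit 76) (nat_lit 308392660) (nat_lit 8) (nat_lit 4) (nat_lit 9) (nat_lit 5) (nat_lit 9) (nat_lit 4) (nat_lit 484)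 (nat_lit 289) (nat_lit 247)) (XT.lf (nat_lit 0) (nat_lit 3886628104) (nat_lit 76) (nat_lit 397483076) (nat_lit 152) (nat_lit 60873326455) (nat_lit 6) (nat_lit 5) (nat_lit 7) (nat_lit 5) (nat_lit 8) (nat_lit 4) (nat_lit 485) (nat_lit 289) (nat_lit 246))) (XT.nd (nat_lit 78) (nat_lit 0) (nat_lit 0) (XT.lf (nat_lit 0) (nat_lit 9053631637) (nat_lit 152) (nat_lit 53582714101) (nat_lit 0) (nat_lit 4330575358) (nat_lit 6) (nat_lit 5) (nat_lit 8) (nat_lit 4) (nat_lit 6) (nat_lit 4) (nat_lit 486) (nat_lit 289) (nat_lit 245)) (XT.lf (nat_lit 0) (nat_lit 13919984046) (nat_lit 152) (nat_lit 45766660968) (nat_lit 0) (nat_lit 9145433398) (nat_lit 6) (nat_lit 5) (nat_lit 8) (nat_lit 4) (nat_lit 6) (nat_lit 4) (nat_lit 487) (nat_lit 289) (nat_lit 244))))))))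
noncomputable def xc12 : XT := (XT.nd (nat_lit 51168) (nat_lit 0) (nat_lit 0) (XT.nd (nat_lit 50076) (nat_lit 0) (nat_lit 608) (XT.nd (nat_lit 49530) (nat_lit 0) (nat_lit 1292) (XT.nd (nat_lit 234) (nat_lit 0) (nat_lit 0) (XT.nd (nat_lit 78) (nat_lit 0) (nat_lit 0) (XT.lf (nat_lit 0) (nat_lit 18883599707) (nat_lit 152) (nat_lit 37811999721) (nat_lit 0) (nat_lit 14059054528) (nat_lit 6) (nat_lit 5) (nat_lit 8) (nat_lit 4) (nat_lit 6) (nat_lit 4) (nat_lit 488) (nat_lit 289) (nat_lit 243)) (XT.nd (nat_lit 78) (nat_lit 0) (nat_lit 0) (XT.lf (nat_lit 0) (nat_lit 23948815762) (nat_lit 152) (nat_lit 29711779684) (nat_lit 0) (nat_lit 19075732202) (nat_lit 6) (nat_lit 5) (nat_lit 8) (nat_lit 4) (nat_lit 6) (nat_lit 4) (nat_lit 489) (nat_lit 289) (nat_lit 242)) (XT.lf (nat_lit 0) (nat_lit 29120058127) (nat_lit 152) (nat_lit 21458922997) (nat_lit 0) (nat_lit 24199849926) (nat_lit 6) (nat_lit 5) (nat_lit 8) (nat_lit 4)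 (nat_lit 6) (nat_lit 4) (nat_lit 490) (nat_lit 289) (nat_lit 241)))) (XT.nd (nat_lit 49140) (nat_lit 0) (nat_lit 1596) (XT.nd (nat_lit 78) (nat_lit 0) (nat_lit 0) (XT.lf (nat_lit 0) (nat_lit 34401845364) (nat_lit 152) (nat_lit 13046218425) (nat_lit 0) (nat_lit 29435885084) (nat_lit 6) (nat_lit 5) (nat_lit 8) (nat_lit 4) (nat_lit 6) (nat_lit 4) (nat_lit 491) (nat_lit 289) (nat_lit 240)) (XT.lf (nat_lit 0) (nat_lit 39798792626) (nat_lit 152) (nat_lit 4466315060) (nat_lit 0) (nat_lit 34788412853) (nat_lit 6) (nat_lit 5) (nat_lit 8) (nat_lit 4) (nat_lit 6) (nat_lit 4) (nat_lit 492) (nat_lit 289) (nat_lit 239))) (XT.nd (nat_lit 78) (nat_lit 152) (nat_lit 0) (XT.lf (nat_lit 0) (nat_lit 8831470375) (nat_lit 76) (nat_lit 954078197) (nat_lit 76) (nat_lit 954078197) (nat_lit 29) (nat_lit 4) (nat_lit 30) (nat_lit 5) (nat_lit 30) (nat_lit 4) (nat_lit 440) (nat_lit 290) (nat_lit 290)) (XT.lf (nat_lit 0) (nat_lit 4182929475)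 (nat_lit 152) (nat_lit 13806726947) (nat_lit 0) (nat_lit 3943435046) (nat_lit 27) (nat_lit 5) (nat_lit 29) (nat_lit 4) (nat_lit 27) (nat_lit 4) (nat_lit 441) (nat_lit 290) (nat_lit 289))))) (XT.nd (nat_lit 234) (nat_lit 228) (nat_lit 0) (XT.nd (nat_lit 78) (nat_lit 76) (nat_lit 0) (XT.lf (nat_lit 0) (nat_lit 10352265090) (nat_lit 152) (nat_lit 2169452652) (nat_lit 0) (nat_lit 9880251798) (nat_lit 27) (nat_lit 5) (nat_lit 29) (nat_lit 4) (nat_lit 27) (nat_lit 4) (nat_lit 442) (nat_lit 290) (nat_lit 288)) (XT.nd (nat_lit 78) (nat_lit 0) (nat_lit 0) (XT.lf (nat_lit 0) (nat_lit 9777193944) (nat_lit 76) (nat_lit 6903138918) (nat_lit 76) (nat_lit 6205379157) (nat_lit 26) (nat_lit 4) (nat_lit 27) (nat_lit 5) (nat_lit 27) (nat_lit 4) (nat_lit 443) (nat_lit 290) (nat_lit 287)) (XT.lf (nat_lit 0) (nat_lit 21898437534) (nat_lit 76) (nat_lit 1202690587) (nat_lit 76) (nat_lit 285759497) (nat_lit 26) (nat_lit 4) (nat_lit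 27) (nat_lit 5) (nat_lit 27) (nat_lit 4) (nat_lit 444) (nat_lit 290) (nat_lit 286)))) (XT.nd (nat_lit 156) (nat_lit 76) (nat_lit 0) (XT.nd (nat_lit 78) (nat_lit 0) (nat_lit 0) (XT.lf (nat_lit 0) (nat_lit 5726735503) (nat_lit 152) (nat_lit 13543912251) (nat_lit 0) (nat_lit 4629921146) (nat_lit 24) (nat_lit 5) (nat_lit 26) (nat_lit 4) (nat_lit 24) (nat_lit 4) (nat_lit 445) (nat_lit 290) (nat_lit 285)) (XT.lf (nat_lit 0) (nat_lit 11824488176) (nat_lit 152) (nat_lit 2080674551) (nat_lit 0) (nat_lit 10527101004) (nat_lit 24) (nat_lit 5) (nat_lit 26) (nat_lit 4) (nat_lit 24) (nat_lit 4) (nat_lit 446) (nat_lit 290) (nat_lit 284))) (XT.nd (nat_lit 78) (nat_lit 0) (nat_lit 0) (XT.lf (nat_lit 0) (nat_lit 9698026770) (nat_lit 76) (nat_lit 8387301319) (nat_lit 76) (nat_lit 6895183260) (nat_lit 23) (nat_lit 4) (nat_lit 24) (nat_lit 5) (nat_lit 24) (nat_lit 4) (nat_lit 447) (nat_lit 290) (nat_lit 283)) (XT.lf (nat_lit 0)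 (nat_lit 21657198064) (nat_lit 76) (nat_lit 2785958497) (nat_lit 76) (nat_lit 1104781324) (nat_lit 23) (nat_lit 4) (nat_lit 24) (nat_lit 5) (nat_lit 24) (nat_lit 4) (nat_lit 448) (nat_lit 290) (nat_lit 282)))))) (XT.nd (nat_lit 546) (nat_lit 304) (nat_lit 0) (XT.nd (nat_lit 234) (nat_lit 152) (nat_lit 0) (XT.nd (nat_lit 78) (nat_lit 76) (nat_lit 0) (XT.lf (nat_lit 0) (nat_lit 4758096244) (nat_lit 152) (nat_lit 18425409021) (nat_lit 0) (nat_lit 2947679049) (nat_lit 21) (nat_lit 5) (nat_lit 23) (nat_lit 4) (nat_lit 21) (nat_lit 4) (nat_lit 449) (nat_lit 290) (nat_lit 281)) (XT.nd (nat_lit 78) (nat_lit 76) (nat_lit 0) (XT.lf (nat_lit 0) (nat_lit 10732457585) (nat_lit 152) (nat_lit 7251389653) (nat_lit 0) (nat_lit 8749024519) (nat_lit 21) (nat_lit 5) (nat_lit 23) (nat_lit 4) (nat_lit 21) (nat_lit 4) (nat_lit 450) (nat_lit 290) (nat_lit 280)) (XT.lf (nat_lit 0) (nat_lit 4132993852) (nat_lit 76) (nat_lit 12686513776)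 (nat_lit 76) (nat_lit 10535104136) (nat_lit 20) (nat_lit 4) (nat_lit 21) (nat_lit 5) (nat_lit 21) (nat_lit 4) (nat_lit 451) (nat_lit 290) (nat_lit 279)))) (XT.nd (nat_lit 156) (nat_lit 76) (nat_lit 0) (XT.nd (nat_lit 78) (nat_lit 76) (nat_lit 0) (XT.lf (nat_lit 0) (nat_lit 15804063965) (nat_lit 76) (nat_lit 7253198210) (nat_lit 76) (nat_lit 4938704518) (nat_lit 20) (nat_lit 4) (nat_lit 21) (nat_lit 5) (nat_lit 21) (nat_lit 4) (nat_lit 452) (nat_lit 290) (nat_lit 278)) (XT.lf (nat_lit 0) (nat_lit 706391350) (nat_lit 152) (nat_lit 1038853282) (nat_lit 76) (nat_lit 26914177320) (nat_lit 19) (nat_lit 5) (nat_lit 21) (nat_lit 5) (nat_lit 20) (nat_lit 4) (nat_lit 453) (nat_lit 290) (nat_lit 277))) (XT.nd (nat_lit 78) (nat_lit 0) (nat_lit 0) (XT.lf (nat_lit 0) (nat_lit 6459885321) (nat_lit 152) (nat_lit 18970447704) (nat_lit 0) (nat_lit 3909836696) (nat_lit 18) (nat_lit 5) (nat_lit 20) (nat_lit 4) (nat_lit 18) (nat_lit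 4) (nat_lit 454) (nat_lit 290) (nat_lit 276)) (XT.lf (nat_lit 0) (nat_lit 12313952299) (nat_lit 152) (nat_lit 8110547872) (nat_lit 0) (nat_lit 9619005605) (nat_lit 18) (nat_lit 5) (nat_lit 20) (nat_lit 4) (nat_lit 18) (nat_lit 4) (nat_lit 455) (nat_lit 290) (nat_lit 275))))) (XT.nd (nat_lit 234) (nat_lit 228) (nat_lit 0) (XT.nd (nat_lit 78) (nat_lit 0) (nat_lit 0) (XT.lf (nat_lit 0) (nat_lit 2944263109) (nat_lit 76) (nat_lit 15330684400) (nat_lit 76) (nat_lit 12495059970) (nat_lit 17) (nat_lit 4) (nat_lit 18) (nat_lit 5) (nat_lit 18) (nat_lit 4) (nat_lit 456) (nat_lit 290) (nat_lit 274)) (XT.nd (nat_lit 78) (nat_lit 0) (nat_lit 0) (XT.lf (nat_lit 0) (nat_lit 14310484138) (nat_lit 76) (nat_lit 10090225676) (nat_lit 76) (nat_lit 7118020920) (nat_lit 17) (nat_lit 4) (nat_lit 18) (nat_lit 5) (nat_lit 18) (nat_lit 4) (nat_lit 457) (nat_lit 290) (nat_lit 273)) (XT.lf (nat_lit 0) (nat_lit 25836631058) (nat_lit 76)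 (nat_lit 4780445587) (nat_lit 76) (nat_lit 1675638572) (nat_lit 17) (nat_lit 4) (nat_lit 18) (nat_lit 5) (nat_lit 18) (nat_lit 4) (nat_lit 458) (nat_lit 290) (nat_lit 272)))) (XT.nd (nat_lit 156) (nat_lit 76) (nat_lit 0) (XT.nd (nat_lit 78) (nat_lit 0) (nat_lit 0) (XT.lf (nat_lit 0) (nat_lit 3811732940) (nat_lit 152) (nat_lit 28605938144) (nat_lit 0) (nat_lit 672366851) (nat_lit 15) (nat_lit 5) (nat_lit 17) (nat_lit 4) (nat_lit 15) (nat_lit 4) (nat_lit 459) (nat_lit 290) (nat_lit 271)) (XT.lf (nat_lit 0) (nat_lit 9452011318) (nat_lit 152) (nat_lit 18266821095) (nat_lit 0) (nat_lit 6191295378) (nat_lit 15) (nat_lit 5) (nat_lit 17) (nat_lit 4) (nat_lit 15) (nat_lit 4) (nat_lit 460) (nat_lit 290) (nat_lit 270))) (XT.nd (nat_lit 78) (nat_lit 76) (nat_lit 0) (XT.lf (nat_lit 0) (nat_lit 15172948510) (nat_lit 152) (nat_lit 7790115119) (nat_lit 0) (nat_lit 11794417180) (nat_lit 15) (nat_lit 5) (nat_lit 17) (nat_lit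 4) (nat_lit 15) (nat_lit 4) (nat_lit 461) (nat_lit 290) (nat_lit 269)) (XT.lf (nat_lit 0) (nat_lit 2889723091) (nat_lit 76) (nat_lit 18117598087) (nat_lit 76) (nat_lit 14624682885) (nat_lit 14) (nat_lit 4) (nat_lit 15) (nat_lit 5) (nat_lit 15) (nat_lit 4) (nat_lit 462) (nat_lit 290) (nat_lit 268))))))) (XT.nd (nat_lit 1092) (nat_lit 228) (nat_lit 0) (XT.nd (nat_lit 546) (nat_lit 228) (nat_lit 0) (XT.nd (nat_lit 234) (nat_lit 76) (nat_lit 0) (XT.nd (nat_lit 78) (nat_lit 76) (nat_lit 0) (XT.lf (nat_lit 0) (nat_lit 13883731045) (nat_lit 76) (nat_lit 13126597561) (nat_lit 76) (nat_lit 9522630055) (nat_lit 14) (nat_lit 4) (nat_lit 15) (nat_lit 5) (nat_lit 15) (nat_lit 4) (nat_lit 463) (nat_lit 290) (nat_lit 267)) (XT.nd (nat_lit 78) (nat_lit 76) (nat_lit 0) (XT.lf (nat_lit 0) (nat_lit 25046476591) (nat_lit 76) (nat_lit 8064365871) (nat_lit 76) (nat_lit 4352580594) (nat_lit 14) (nat_lit 4) (nat_lit 15) (nat_lit 5)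 (nat_lit 15) (nat_lit 4) (nat_lit 464) (nat_lit 290) (nat_lit 266)) (XT.lf (nat_lit 0) (nat_lit 872616243) (nat_lit 152) (nat_lit 2045051750) (nat_lit 76) (nat_lit 35506285627) (nat_lit 13) (nat_lit 5) (nat_lit 15) (nat_lit 5) (nat_lit 14) (nat_lit 4) (nat_lit 465) (nat_lit 290) (nat_lit 265)))) (XT.nd (nat_lit 156) (nat_lit 0) (nat_lit 0) (XT.nd (nat_lit 78) (nat_lit 0) (nat_lit 0) (XT.lf (nat_lit 0) (nat_lit 6194667187) (nat_lit 152) (nat_lit 30825820944) (nat_lit 0) (nat_lit 2390695037) (nat_lit 12) (nat_lit 5) (nat_lit 14) (nat_lit 4) (nat_lit 12) (nat_lit 4) (nat_lit 466) (nat_lit 290) (nat_lit 264)) (XT.lf (nat_lit 0) (nat_lit 11647622956) (nat_lit 152) (nat_lit 21033416474) (nat_lit 0) (nat_lit 7747856113) (nat_lit 12) (nat_lit 5) (nat_lit 14) (nat_lit 4) (nat_lit 12) (nat_lit 4) (nat_lit 467) (nat_lit 290) (nat_lit 263))) (XT.nd (nat_lit 78) (nat_lit 0) (nat_lit 0) (XT.lf (nat_lit 0) (nat_lit 17187953820)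 (nat_lit 152) (nat_lit 11096292597) (nat_lit 0) (nat_lit 13195182421) (nat_lit 12) (nat_lit 5) (nat_lit 14) (nat_lit 4) (nat_lit 12) (nat_lit 4) (nat_lit 468) (nat_lit 290) (nat_lit 262)) (XT.lf (nat_lit 0) (nat_lit 22820500846) (nat_lit 152) (nat_lit 1005766389) (nat_lit 0) (nat_lit 18737433762) (nat_lit 12) (nat_lit 5) (nat_lit 14) (nat_lit 4) (nat_lit 12) (nat_lit 4) (nat_lit 469) (nat_lit 290) (nat_lit 261))))) (XT.nd (nat_lit 234) (nat_lit 152) (nat_lit 0) (XT.nd (nat_lit 78) (nat_lit 0) (nat_lit 0) (XT.lf (nat_lit 0) (nat_lit 9431012129) (nat_lit 76) (nat_lit 19209830206) (nat_lit 76) (nat_lit 15039097407) (nat_lit 11) (nat_lit 4) (nat_lit 12) (nat_lit 5) (nat_lit 12) (nat_lit 4) (nat_lit 470) (nat_lit 290) (nat_lit 260)) (XT.nd (nat_lit 78) (nat_lit 0) (nat_lit 0) (XT.lf (nat_lit 0) (nat_lit 20062392154) (nat_lit 76) (nat_lit 14512474667) (nat_lit 76) (nat_lit 10256629524) (nat_lit 11) (nat_lit 4) (nat_lit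 12) (nat_lit 5) (nat_lit 12) (nat_lit 4) (nat_lit 471) (nat_lit 290) (nat_lit 259)) (XT.lf (nat_lit 0) (nat_lit 30877646517) (nat_lit 76) (nat_lit 9740252400) (nat_lit 76) (nat_lit 5401773914) (nat_lit 11) (nat_lit 4) (nat_lit 12) (nat_lit 5) (nat_lit 12) (nat_lit 4) (nat_lit 472) (nat_lit 290) (nat_lit 258)))) (XT.nd (nat_lit 156) (nat_lit 0) (nat_lit 0) (XT.nd (nat_lit 78) (nat_lit 152) (nat_lit 0) (XT.lf (nat_lit 0) (nat_lit 41886225441) (nat_lit 76) (nat_lit 4888993504) (nat_lit 76) (nat_lit 470288470) (nat_lit 11) (nat_lit 4) (nat_lit 12) (nat_lit 5) (nat_lit 12) (nat_lit 4) (nat_lit 473) (nat_lit 290) (nat_lit 257)) (XT.lf (nat_lit 0) (nat_lit 4499362751) (nat_lit 152) (nat_lit 43874286149) (nat_lit 0) (nat_lit 133736649) (nat_lit 9) (nat_lit 5) (nat_lit 11) (nat_lit 4) (nat_lit 9) (nat_lit 4) (nat_lit 474) (nat_lit 290) (nat_lit 256))) (XT.nd (nat_lit 78) (nat_lit 0) (nat_lit 0) (XT.lf (nat_lit 0) (nat_lit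 9646102841) (nat_lit 152) (nat_lit 34952698346) (nat_lit 0) (nat_lit 5207058083) (nat_lit 9) (nat_lit 5) (nat_lit 11) (nat_lit 4) (nat_lit 9) (nat_lit 4) (nat_lit 475) (nat_lit 290) (nat_lit 255)) (XT.lf (nat_lit 0) (nat_lit 14883547778) (nat_lit 152) (nat_lit 25888429984) (nat_lit 0) (nat_lit 10373222772) (nat_lit 9) (nat_lit 5) (nat_lit 11) (nat_lit 4) (nat_lit 9) (nat_lit 4) (nat_lit 476) (nat_lit 290) (nat_lit 254)))))) (XT.nd (nat_lit 546) (nat_lit 152) (nat_lit 0) (XT.nd (nat_lit 234) (nat_lit 0) (nat_lit 0) (XT.nd (nat_lit 78) (nat_lit 76) (nat_lit 0) (XT.lf (nat_lit 0) (nat_lit 20216273970) (nat_lit 152) (nat_lit 16673560827) (nat_lit 0) (nat_lit 15636744839) (nat_lit 9) (nat_lit 5) (nat_lit 11) (nat_lit 4) (nat_lit 9) (nat_lit 4) (nat_lit 477) (nat_lit 290) (nat_lit 253)) (XT.nd (nat_lit 78) (nat_lit 76) (nat_lit 0) (XT.lf (nat_lit 0) (nat_lit 25648941081) (nat_lit 152) (nat_lit 7300039047) (nat_lit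 0) (nat_lit 21002223480) (nat_lit 9) (nat_lit 5) (nat_lit 11) (nat_lit 4) (nat_lit 9) (nat_lit 4) (nat_lit 478) (nat_lit 290) (nat_lit 252)) (XT.lf (nat_lit 0) (nat_lit 2284912685) (nat_lit 76) (nat_lit 28923347394) (nat_lit 76) (nat_lit 24211398269) (nat_lit 8) (nat_lit 4) (nat_lit 9) (nat_lit 5) (nat_lit 9) (nat_lit 4) (nat_lit 479) (nat_lit 290) (nat_lit 251)))) (XT.nd (nat_lit 156) (nat_lit 0) (nat_lit 0) (XT.nd (nat_lit 78) (nat_lit 0) (nat_lit 0) (XT.lf (nat_lit 0) (nat_lit 12193815240) (nat_lit 76) (nat_lit 24756576668) (nat_lit 76) (nat_lit 19981295966) (nat_lit 8) (nat_lit 4) (nat_lit 9) (nat_lit 5) (nat_lit 9) (nat_lit 4) (nat_lit 480) (nat_lit 290) (nat_lit 250)) (XT.lf (nat_lit 0) (nat_lit 22290041790) (nat_lit 76) (nat_lit 20518743162) (nat_lit 76) (nat_lit 15681975492) (nat_lit 8) (nat_lit 4) (nat_lit 9) (nat_lit 5) (nat_lit 9) (nat_lit 4) (nat_lit 481) (nat_lit 290) (nat_lit 249))) (XT.nd (nat_lit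 78) (nat_lit 0) (nat_lit 0) (XT.lf (nat_lit 0) (nat_lit 32582414281) (nat_lit 76) (nat_lit 16206143917) (nat_lit 76) (nat_lit 11309680160) (nat_lit 8) (nat_lit 4) (nat_lit 9) (nat_lit 5) (nat_lit 9) (nat_lit 4) (nat_lit 482) (nat_lit 290) (nat_lit 248)) (XT.lf (nat_lit 0) (nat_lit 43079926048) (nat_lit 76) (nat_lit 11815010640) (nat_lit 76) (nat_lit 6860589519) (nat_lit 8) (nat_lit 4) (nat_lit 9) (nat_lit 5) (nat_lit 9) (nat_lit 4) (nat_lit 483) (nat_lit 290) (nat_lit 247))))) (XT.nd (nat_lit 312) (nat_lit 0) (nat_lit 0) (XT.nd (nat_lit 156) (nat_lit 76) (nat_lit 0) (XT.nd (nat_lit 78) (nat_lit 76) (nat_lit 0) (XT.lf (nat_lit 0) (nat_lit 53791749674) (nat_lit 76) (nat_lit 7341506419) (nat_lit 76) (nat_lit 2330816012) (nat_lit 8) (nat_lit 4) (nat_lit 9) (nat_lit 5) (nat_lit 9) (nat_lit 4) (nat_lit 484) (nat_lit 290) (nat_lit 246)) (XT.lf (nat_lit 0) (nat_lit 2239037183) (nat_lit 152) (nat_lit 520075300) (nat_lit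 76) (nat_lit 62465597936) (nat_lit 7) (nat_lit 5) (nat_lit 9) (nat_lit 5) (nat_lit 8) (nat_lit 4) (nat_lit 485) (nat_lit 290) (nat_lit 245))) (XT.nd (nat_lit 78) (nat_lit 0) (nat_lit 0) (XT.lf (nat_lit 0) (nat_lit 6955983239) (nat_lit 152) (nat_lit 58093087026) (nat_lit 0) (nat_lit 1986701704) (nat_lit 6) (nat_lit 5) (nat_lit 8) (nat_lit 4) (nat_lit 6) (nat_lit 4) (nat_lit 486) (nat_lit 290) (nat_lit 244)) (XT.lf (nat_lit 0) (nat_lit 11798332042) (nat_lit 152) (nat_lit 50324262208) (nat_lit 0) (nat_lit 6779055975) (nat_lit 6) (nat_lit 5) (nat_lit 8) (nat_lit 4) (nat_lit 6) (nat_lit 4) (nat_lit 487) (nat_lit 290) (nat_lit 243)))) (XT.nd (nat_lit 156) (nat_lit 0) (nat_lit 0) (XT.nd (nat_lit 78) (nat_lit 0) (nat_lit 0) (XT.lf (nat_lit 0) (nat_lit 16738643232) (nat_lit 152) (nat_lit 42415453694) (nat_lit 0) (nat_lit 11670828785) (nat_lit 6) (nat_lit 5) (nat_lit 8) (nat_lit 4) (nat_lit 6) (nat_lit 4) (nat_lit 488)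 (nat_lit 290) (nat_lit 242)) (XT.lf (nat_lit 0) (nat_lit 21781233587) (nat_lit 152) (nat_lit 34359750874) (nat_lit 0) (nat_lit 16666294499) (nat_lit 6) (nat_lit 5) (nat_lit 8) (nat_lit 4) (nat_lit 6) (nat_lit 4) (nat_lit 489) (nat_lit 290) (nat_lit 241))) (XT.nd (nat_lit 78) (nat_lit 0) (nat_lit 0) (XT.lf (nat_lit 0) (nat_lit 26930509253) (nat_lit 152) (nat_lit 26150114786) (nat_lit 0) (nat_lit 21769818086) (nat_lit 6) (nat_lit 5) (nat_lit 8) (nat_lit 4) (nat_lit 6) (nat_lit 4) (nat_lit 490) (nat_lit 290) (nat_lit 240)) (XT.lf (nat_lit 0) (nat_lit 32190969597) (nat_lit 152) (nat_lit 17779371960) (nat_lit 0) (nat_lit 26985858936) (nat_lit 6) (nat_lit 5) (nat_lit 8) (nat_lit 4) (nat_lit 6) (nat_lit 4) (nat_lit 491) (nat_lit 290) (nat_lit 239))))))))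
noncomputable def xc13 : XT := (XT.nd (nat_lit 51012) (nat_lit 0) (nat_lit 0) (XT.nd (nat_lit 49920) (nat_lit 0) (nat_lit 608) (XT.nd (nat_lit 49374) (nat_lit 0) (nat_lit 1140) (XT.nd (nat_lit 49062) (nat_lit 0) (nat_lit 1520) (XT.nd (nat_lit 48906) (nat_lit 0) (nat_lit 1748) (XT.lf (nat_lit 0) (nat_lit 37567211139) (nat_lit 152) (nat_lit 9240208155) (nat_lit 0) (nat_lit 32318974755) (nat_lit 6) (nat_lit 5) (nat_lit 8) (nat_lit 4) (nat_lit 6) (nat_lit 4) (nat_lit 492) (nat_lit 290) (nat_lit 238)) (XT.nd (nat_lit 78) (nat_lit 76) (nat_lit 0) (XT.lf (nat_lit 0) (nat_lit 3564162902) (nat_lit 152) (nat_lit 3176106738) (nat_lit 0) (nat_lit 3564162902) (nat_lit 30) (nat_lit 5) (nat_lit 32) (nat_lit 4) (nat_lit 30) (nat_lit 4) (nat_lit 438) (nat_lit 291) (nat_lit 291)) (XT.lf (nat_lit 0) (nat_lit 5472423369) (nat_lit 76) (nat_lit 7909653852) (nat_lit 76) (nat_lit 7655574213) (nat_lit 29) (nat_lit 4) (nat_lit 30) (nat_lit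 5) (nat_lit 30) (nat_lit 4) (nat_lit 439) (nat_lit 291) (nat_lit 290)))) (XT.nd (nat_lit 156) (nat_lit 76) (nat_lit 0) (XT.nd (nat_lit 78) (nat_lit 152) (nat_lit 0) (XT.lf (nat_lit 0) (nat_lit 17547336168) (nat_lit 76) (nat_lit 2217249063) (nat_lit 76) (nat_lit 1716490161) (nat_lit 29) (nat_lit 4) (nat_lit 30) (nat_lit 5) (nat_lit 30) (nat_lit 4) (nat_lit 440) (nat_lit 291) (nat_lit 289)) (XT.lf (nat_lit 0) (nat_lit 4305666489) (nat_lit 152) (nat_lit 14044177170) (nat_lit 0) (nat_lit 3586973935) (nat_lit 27) (nat_lit 5) (nat_lit 29) (nat_lit 4) (nat_lit 27) (nat_lit 4) (nat_lit 441) (nat_lit 291) (nat_lit 288))) (XT.nd (nat_lit 78) (nat_lit 76) (nat_lit 0) (XT.lf (nat_lit 0) (nat_lit 10415725119) (nat_lit 152) (nat_lit 2520466519) (nat_lit 0) (nat_lit 9471286096) (nat_lit 27) (nat_lit 5) (nat_lit 29) (nat_lit 4) (nat_lit 27) (nat_lit 4) (nat_lit 442) (nat_lit 291) (nat_lit 287)) (XT.lf (nat_lit 0) (nat_lit 9306743938)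 (nat_lit 76) (nat_lit 7374976229) (nat_lit 76) (nat_lit 6211365877) (nat_lit 26) (nat_lit 4) (nat_lit 27) (nat_lit 5) (nat_lit 27) (nat_lit 4) (nat_lit 443) (nat_lit 291) (nat_lit 286))))) (XT.nd (nat_lit 234) (nat_lit 228) (nat_lit 0) (XT.nd (nat_lit 78) (nat_lit 152) (nat_lit 0) (XT.lf (nat_lit 0) (nat_lit 21318812503) (nat_lit 76) (nat_lit 1726779222) (nat_lit 76) (nat_lit 350381172) (nat_lit 26) (nat_lit 4) (nat_lit 27) (nat_lit 5) (nat_lit 27) (nat_lit 4) (nat_lit 444) (nat_lit 291) (nat_lit 285)) (XT.nd (nat_lit 78) (nat_lit 0) (nat_lit 0) (XT.lf (nat_lit 0) (nat_lit 5595138319) (nat_lit 152) (nat_lit 14258328212) (nat_lit 0) (nat_lit 4058256718) (nat_lit 24) (nat_lit 5) (nat_lit 26) (nat_lit 4) (nat_lit 24) (nat_lit 4) (nat_lit 445) (nat_lit 291) (nat_lit 284)) (XT.lf (nat_lit 0) (nat_lit 11637192122) (nat_lit 152) (nat_lit 2902320533) (nat_lit 0) (nat_lit 9905579634) (nat_lit 24) (nat_lit 5) (nat_lit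 26) (nat_lit 4) (nat_lit 24) (nat_lit 4) (nat_lit 446) (nat_lit 291) (nat_lit 283)))) (XT.nd (nat_lit 156) (nat_lit 152) (nat_lit 0) (XT.nd (nat_lit 78) (nat_lit 0) (nat_lit 0) (XT.lf (nat_lit 0) (nat_lit 8753849675) (nat_lit 76) (nat_lit 9081029779) (nat_lit 76) (nat_lit 7160358178) (nat_lit 23) (nat_lit 4) (nat_lit 24) (nat_lit 5) (nat_lit 24) (nat_lit 4) (nat_lit 447) (nat_lit 291) (nat_lit 282)) (XT.lf (nat_lit 0) (nat_lit 20609934807) (nat_lit 76) (nat_lit 3529280665) (nat_lit 76) (nat_lit 1425056525) (nat_lit 23) (nat_lit 4) (nat_lit 24) (nat_lit 5) (nat_lit 24) (nat_lit 4) (nat_lit 448) (nat_lit 291) (nat_lit 281))) (XT.nd (nat_lit 78) (nat_lit 0) (nat_lit 0) (XT.lf (nat_lit 0) (nat_lit 4372474076) (nat_lit 152) (nat_lit 19620765345) (nat_lit 0) (nat_lit 2156522147) (nat_lit 21) (nat_lit 5) (nat_lit 23) (nat_lit 4) (nat_lit 21) (nat_lit 4) (nat_lit 449) (nat_lit 291) (nat_lit 280)) (XT.lf (nat_lit 0)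 (nat_lit 10294485169) (nat_lit 152) (nat_lit 8547980480) (nat_lit 0) (nat_lit 7910556666) (nat_lit 21) (nat_lit 5) (nat_lit 23) (nat_lit 4) (nat_lit 21) (nat_lit 4) (nat_lit 450) (nat_lit 291) (nat_lit 279)))))) (XT.nd (nat_lit 546) (nat_lit 228) (nat_lit 0) (XT.nd (nat_lit 234) (nat_lit 152) (nat_lit 0) (XT.nd (nat_lit 78) (nat_lit 76) (nat_lit 0) (XT.lf (nat_lit 0) (nat_lit 2710356317) (nat_lit 76) (nat_lit 13606678149) (nat_lit 76) (nat_lit 11059665594) (nat_lit 20) (nat_lit 4) (nat_lit 21) (nat_lit 5) (nat_lit 21) (nat_lit 4) (nat_lit 451) (nat_lit 291) (nat_lit 278)) (XT.nd (nat_lit 78) (nat_lit 76) (nat_lit 0) (XT.lf (nat_lit 0) (nat_lit 14284104093) (nat_lit 76) (nat_lit 8220404269) (nat_lit 76) (nat_lit 5515057682) (nat_lit 20) (nat_lit 4) (nat_lit 21) (nat_lit 5) (nat_lit 21) (nat_lit 4) (nat_lit 452) (nat_lit 291) (nat_lit 277)) (XT.lf (nat_lit 0) (nat_lit 91982907) (nat_lit 152) (nat_lit 2672343644)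 (nat_lit 76) (nat_lit 25920342505) (nat_lit 19) (nat_lit 5) (nat_lit 21) (nat_lit 5) (nat_lit 20) (nat_lit 4) (nat_lit 453) (nat_lit 291) (nat_lit 276)))) (XT.nd (nat_lit 156) (nat_lit 76) (nat_lit 0) (XT.nd (nat_lit 78) (nat_lit 0) (nat_lit 0) (XT.lf (nat_lit 0) (nat_lit 5770293033) (nat_lit 152) (nat_lit 20747781851) (nat_lit 0) (nat_lit 2849599870) (nat_lit 18) (nat_lit 5) (nat_lit 20) (nat_lit 4) (nat_lit 18) (nat_lit 4) (nat_lit 454) (nat_lit 291) (nat_lit 275)) (XT.lf (nat_lit 0) (nat_lit 11576578811) (nat_lit 152) (nat_lit 9980659862) (nat_lit 0) (nat_lit 8515207912) (nat_lit 18) (nat_lit 5) (nat_lit 20) (nat_lit 4) (nat_lit 18) (nat_lit 4) (nat_lit 455) (nat_lit 291) (nat_lit 274))) (XT.nd (nat_lit 78) (nat_lit 0) (nat_lit 0) (XT.lf (nat_lit 0) (nat_lit 945063966) (nat_lit 76) (nat_lit 16526903017) (nat_lit 76) (nat_lit 13328951792) (nat_lit 17) (nat_lit 4) (nat_lit 18) (nat_lit 5) (nat_lit 18) (nat_lit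 4) (nat_lit 456) (nat_lit 291) (nat_lit 273)) (XT.lf (nat_lit 0) (nat_lit 12222092512) (nat_lit 76) (nat_lit 11329741040) (nat_lit 76) (nat_lit 7999187557) (nat_lit 17) (nat_lit 4) (nat_lit 18) (nat_lit 5) (nat_lit 18) (nat_lit 4) (nat_lit 457) (nat_lit 291) (nat_lit 272))))) (XT.nd (nat_lit 234) (nat_lit 76) (nat_lit 0) (XT.nd (nat_lit 78) (nat_lit 152) (nat_lit 0) (XT.lf (nat_lit 0) (nat_lit 23661644788) (nat_lit 76) (nat_lit 6061996629) (nat_lit 76) (nat_lit 2602703088) (nat_lit 17) (nat_lit 4) (nat_lit 18) (nat_lit 5) (nat_lit 18) (nat_lit 4) (nat_lit 458) (nat_lit 291) (nat_lit 271)) (XT.nd (nat_lit 78) (nat_lit 0) (nat_lit 0) (XT.lf (nat_lit 0) (nat_lit 2160772319) (nat_lit 76) (nat_lit 669304629) (nat_lit 152) (nat_lit 30296040096) (nat_lit 15) (nat_lit 5) (nat_lit 16) (nat_lit 5) (nat_lit 17) (nat_lit 4) (nat_lit 459) (nat_lit 291) (nat_lit 270)) (XT.lf (nat_lit 0) (nat_lit 8420301099) (nat_lit 152)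 (nat_lit 20704810948) (nat_lit 0) (nat_lit 4822598441) (nat_lit 15) (nat_lit 5) (nat_lit 17) (nat_lit 4) (nat_lit 15) (nat_lit 4) (nat_lit 460) (nat_lit 291) (nat_lit 269)))) (XT.nd (nat_lit 156) (nat_lit 0) (nat_lit 0) (XT.nd (nat_lit 78) (nat_lit 76) (nat_lit 0) (XT.lf (nat_lit 0) (nat_lit 14098888328) (nat_lit 152) (nat_lit 10310645785) (nat_lit 0) (nat_lit 10386801797) (nat_lit 15) (nat_lit 5) (nat_lit 17) (nat_lit 4) (nat_lit 15) (nat_lit 4) (nat_lit 461) (nat_lit 291) (nat_lit 268)) (XT.lf (nat_lit 0) (nat_lit 237297334) (nat_lit 76) (nat_lit 19629350456) (nat_lit 76) (nat_lit 15806211620) (nat_lit 14) (nat_lit 4) (nat_lit 15) (nat_lit 5) (nat_lit 15) (nat_lit 4) (nat_lit 462) (nat_lit 291) (nat_lit 267))) (XT.nd (nat_lit 78) (nat_lit 0) (nat_lit 0) (XT.lf (nat_lit 0) (nat_lit 11151954230) (nat_lit 76) (nat_lit 14677019314) (nat_lit 76) (nat_lit 10746062708) (nat_lit 14) (nat_lit 4) (nat_lit 15) (nat_lit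 5) (nat_lit 15) (nat_lit 4) (nat_lit 463) (nat_lit 291) (nat_lit 266)) (XT.lf (nat_lit 0) (nat_lit 22237659914) (nat_lit 76) (nat_lit 9652330716) (nat_lit 76) (nat_lit 5616696662) (nat_lit 14) (nat_lit 4) (nat_lit 15) (nat_lit 5) (nat_lit 15) (nat_lit 4) (nat_lit 464) (nat_lit 291) (nat_lit 265))))))) (XT.nd (nat_lit 1092) (nat_lit 228) (nat_lit 0) (XT.nd (nat_lit 546) (nat_lit 152) (nat_lit 0) (XT.nd (nat_lit 234) (nat_lit 76) (nat_lit 0) (XT.nd (nat_lit 78) (nat_lit 152) (nat_lit 0) (XT.lf (nat_lit 0) (nat_lit 33504100925) (nat_lit 76) (nat_lit 4550894155) (nat_lit 76) (nat_lit 413631512) (nat_lit 14) (nat_lit 4) (nat_lit 15) (nat_lit 5) (nat_lit 15) (nat_lit 4) (nat_lit 465) (nat_lit 291) (nat_lit 264)) (XT.nd (nat_lit 78) (nat_lit 0) (nat_lit 0) (XT.lf (nat_lit 0) (nat_lit 4833215678) (nat_lit 152) (nat_lit 33904598460) (nat_lit 0) (nat_lit 720661137) (nat_lit 12) (nat_lit 5) (nat_lit 14) (nat_lit 4) (nat_lit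 12) (nat_lit 4) (nat_lit 466) (nat_lit 291) (nat_lit 263)) (XT.lf (nat_lit 0) (nat_lit 10248627812) (nat_lit 152) (nat_lit 24185618978) (nat_lit 0) (nat_lit 6043068715) (nat_lit 12) (nat_lit 5) (nat_lit 14) (nat_lit 4) (nat_lit 12) (nat_lit 4) (nat_lit 467) (nat_lit 291) (nat_lit 262)))) (XT.nd (nat_lit 156) (nat_lit 76) (nat_lit 0) (XT.nd (nat_lit 78) (nat_lit 0) (nat_lit 0) (XT.lf (nat_lit 0) (nat_lit 15752508546) (nat_lit 152) (nat_lit 14319781498) (nat_lit 0) (nat_lit 11456653763) (nat_lit 12) (nat_lit 5) (nat_lit 14) (nat_lit 4) (nat_lit 12) (nat_lit 4) (nat_lit 468) (nat_lit 291) (nat_lit 261)) (XT.lf (nat_lit 0) (nat_lit 21349667097) (nat_lit 152) (nat_lit 4298465384) (nat_lit 0) (nat_lit 16966146600) (nat_lit 12) (nat_lit 5) (nat_lit 14) (nat_lit 4) (nat_lit 12) (nat_lit 4) (nat_lit 469) (nat_lit 291) (nat_lit 260))) (XT.nd (nat_lit 78) (nat_lit 0) (nat_lit 0) (XT.lf (nat_lit 0) (nat_lit 6004250403)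 (nat_lit 76) (nat_lit 21098460309) (nat_lit 76) (nat_lit 16629827468) (nat_lit 11) (nat_lit 4) (nat_lit 12) (nat_lit 5) (nat_lit 12) (nat_lit 4) (nat_lit 470) (nat_lit 291) (nat_lit 259)) (XT.lf (nat_lit 0) (nat_lit 16569094929) (nat_lit 76) (nat_lit 16433643656) (nat_lit 76) (nat_lit 11882377471) (nat_lit 11) (nat_lit 4) (nat_lit 12) (nat_lit 5) (nat_lit 12) (nat_lit 4) (nat_lit 471) (nat_lit 291) (nat_lit 258))))) (XT.nd (nat_lit 234) (nat_lit 0) (nat_lit 0) (XT.nd (nat_lit 78) (nat_lit 152) (nat_lit 0) (XT.lf (nat_lit 0) (nat_lit 27319751721) (nat_lit 76) (nat_lit 11693012541) (nat_lit 76) (nat_lit 7061519809) (nat_lit 11) (nat_lit 4) (nat_lit 12) (nat_lit 5) (nat_lit 12) (nat_lit 4) (nat_lit 472) (nat_lit 291) (nat_lit 257)) (XT.nd (nat_lit 78) (nat_lit 152) (nat_lit 0) (XT.lf (nat_lit 0) (nat_lit 38265614556) (nat_lit 76) (nat_lit 6872424665) (nat_lit 76) (nat_lit 2163042082) (nat_lit 11) (nat_lit 4) (nat_lit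 12) (nat_lit 5) (nat_lit 12) (nat_lit 4) (nat_lit 473) (nat_lit 291) (nat_lit 256)) (XT.lf (nat_lit 0) (nat_lit 838957187) (nat_lit 76) (nat_lit 1931466943) (nat_lit 152) (nat_lit 45795101186) (nat_lit 9) (nat_lit 5) (nat_lit 10) (nat_lit 5) (nat_lit 11) (nat_lit 4) (nat_lit 474) (nat_lit 291) (nat_lit 255)))) (XT.nd (nat_lit 156) (nat_lit 0) (nat_lit 0) (XT.nd (nat_lit 78) (nat_lit 0) (nat_lit 0) (XT.lf (nat_lit 0) (nat_lit 7867219771) (nat_lit 152) (nat_lit 38847974020) (nat_lit 0) (nat_lit 3150304766) (nat_lit 9) (nat_lit 5) (nat_lit 11) (nat_lit 4) (nat_lit 9) (nat_lit 4) (nat_lit 475) (nat_lit 291) (nat_lit 254)) (XT.lf (nat_lit 0) (nat_lit 13074200622) (nat_lit 152) (nat_lit 29843472779) (nat_lit 0) (nat_lit 8288081494) (nat_lit 9) (nat_lit 5) (nat_lit 11) (nat_lit 4) (nat_lit 9) (nat_lit 4) (nat_lit 476) (nat_lit 291) (nat_lit 253))) (XT.nd (nat_lit 78) (nat_lit 0) (nat_lit 0) (XT.lf (nat_lit 0) (nat_lit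 18377350033) (nat_lit 152) (nat_lit 20686629953) (nat_lit 0) (nat_lit 13524042434) (nat_lit 9) (nat_lit 5) (nat_lit 11) (nat_lit 4) (nat_lit 9) (nat_lit 4) (nat_lit 477) (nat_lit 291) (nat_lit 252)) (XT.lf (nat_lit 0) (nat_lit 23781301821) (nat_lit 152) (nat_lit 11369444418) (nat_lit 0) (nat_lit 18862762698) (nat_lit 9) (nat_lit 5) (nat_lit 11) (nat_lit 4) (nat_lit 9) (nat_lit 4) (nat_lit 478) (nat_lit 291) (nat_lit 251)))))) (XT.nd (nat_lit 546) (nat_lit 76) (nat_lit 0) (XT.nd (nat_lit 234) (nat_lit 76) (nat_lit 0) (XT.nd (nat_lit 78) (nat_lit 76) (nat_lit 0) (XT.lf (nat_lit 0) (nat_lit 29290777888) (nat_lit 152) (nat_lit 1883774944) (nat_lit 0) (nat_lit 24308907188) (nat_lit 9) (nat_lit 5) (nat_lit 11) (nat_lit 4) (nat_lit 9) (nat_lit 4) (nat_lit 479) (nat_lit 291) (nat_lit 250)) (XT.nd (nat_lit 78) (nat_lit 0) (nat_lit 0) (XT.lf (nat_lit 0) (nat_lit 7933477641) (nat_lit 76) (nat_lit 27053376137) (nat_lit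 76) (nat_lit 22010018468) (nat_lit 8) (nat_lit 4) (nat_lit 9) (nat_lit 5) (nat_lit 9) (nat_lit 4) (nat_lit 480) (nat_lit 291) (nat_lit 249)) (XT.lf (nat_lit 0) (nat_lit 17977122489) (nat_lit 76) (nat_lit 22841340299) (nat_lit 76) (nat_lit 17738286545) (nat_lit 8) (nat_lit 4) (nat_lit 9) (nat_lit 5) (nat_lit 9) (nat_lit 4) (nat_lit 481) (nat_lit 291) (nat_lit 248)))) (XT.nd (nat_lit 156) (nat_lit 76) (nat_lit 0) (XT.nd (nat_lit 78) (nat_lit 0) (nat_lit 0) (XT.lf (nat_lit 0) (nat_lit 28218444784) (nat_lit 76) (nat_lit 18553787332) (nat_lit 76) (nat_lit 13392776213) (nat_lit 8) (nat_lit 4) (nat_lit 9) (nat_lit 5) (nat_lit 9) (nat_lit 4) (nat_lit 482) (nat_lit 291) (nat_lit 247)) (XT.lf (nat_lit 0) (nat_lit 38666393253) (nat_lit 76) (nat_lit 14186970831) (nat_lit 76) (nat_lit 8969690426) (nat_lit 8) (nat_lit 4) (nat_lit 9) (nat_lit 5) (nat_lit 9) (nat_lit 4) (nat_lit 483) (nat_lit 291) (nat_lit 246))) (XT.nd (nat_lit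 78) (nat_lit 76) (nat_lit 0) (XT.lf (nat_lit 0) (nat_lit 49330097172) (nat_lit 76) (nat_lit 9737075131) (nat_lit 76) (nat_lit 4465164351) (nat_lit 8) (nat_lit 4) (nat_lit 9) (nat_lit 5) (nat_lit 9) (nat_lit 4) (nat_lit 484) (nat_lit 291) (nat_lit 245)) (XT.lf (nat_lit 0) (nat_lit 122303917) (nat_lit 152) (nat_lit 5076673025) (nat_lit 76) (nat_lit 60095335394) (nat_lit 7) (nat_lit 5) (nat_lit 9) (nat_lit 5) (nat_lit 8) (nat_lit 4) (nat_lit 485) (nat_lit 291) (nat_lit 244))))) (XT.nd (nat_lit 312) (nat_lit 0) (nat_lit 0) (XT.nd (nat_lit 156) (nat_lit 0) (nat_lit 0) (XT.nd (nat_lit 78) (nat_lit 0) (nat_lit 0) (XT.lf (nat_lit 0) (nat_lit 4268729162) (nat_lit 76) (nat_lit 482587837) (nat_lit 152) (nat_lit 62356695711) (nat_lit 6) (nat_lit 5) (nat_lit 7) (nat_lit 5) (nat_lit 8) (nat_lit 4) (nat_lit 486) (nat_lit 291) (nat_lit 243)) (XT.lf (nat_lit 0) (nat_lit 9565722401) (nat_lit 152) (nat_lit 55111672534) (nat_lit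 0) (nat_lit 4297335140) (nat_lit 6) (nat_lit 5) (nat_lit 8) (nat_lit 4) (nat_lit 6) (nat_lit 4) (nat_lit 487) (nat_lit 291) (nat_lit 242))) (XT.nd (nat_lit 78) (nat_lit 0) (nat_lit 0) (XT.lf (nat_lit 0) (nat_lit 14483407891) (nat_lit 152) (nat_lit 47247381236) (nat_lit 0) (nat_lit 9167895989) (nat_lit 6) (nat_lit 5) (nat_lit 8) (nat_lit 4) (nat_lit 6) (nat_lit 4) (nat_lit 488) (nat_lit 291) (nat_lit 241)) (XT.lf (nat_lit 0) (nat_lit 19504031547) (nat_lit 152) (nat_lit 39234899016) (nat_lit 0) (nat_lit 14142767566) (nat_lit 6) (nat_lit 5) (nat_lit 8) (nat_lit 4) (nat_lit 6) (nat_lit 4) (nat_lit 489) (nat_lit 291) (nat_lit 240)))) (XT.nd (nat_lit 156) (nat_lit 0) (nat_lit 0) (XT.nd (nat_lit 78) (nat_lit 0) (nat_lit 0) (XT.lf (nat_lit 0) (nat_lit 24631980321) (nat_lit 152) (nat_lit 31067224674) (nat_lit 0) (nat_lit 19226296846) (nat_lit 6) (nat_lit 5) (nat_lit 8) (nat_lit 4) (nat_lit 6) (nat_lit 4) (nat_lit 490)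 (nat_lit 291) (nat_lit 239)) (XT.lf (nat_lit 0) (nat_lit 29871734944) (nat_lit 152) (nat_lit 22737221407) (nat_lit 0) (nat_lit 24422925747) (nat_lit 6) (nat_lit 5) (nat_lit 8) (nat_lit 4) (nat_lit 6) (nat_lit 4) (nat_lit 491) (nat_lit 291) (nat_lit 238))) (XT.nd (nat_lit 48750) (nat_lit 0) (nat_lit 1976) (XT.lf (nat_lit 0) (nat_lit 35227873844) (nat_lit 152) (nat_lit 14237610573) (nat_lit 0) (nat_lit 29737195014) (nat_lit 6) (nat_lit 5) (nat_lit 8) (nat_lit 4) (nat_lit 6) (nat_lit 4) (nat_lit 492) (nat_lit 291) (nat_lit 237)) (XT.lf (nat_lit 0) (nat_lit 5166314660) (nat_lit 76) (nat_lit 2364052108) (nat_lit 76) (nat_lit 2364052108) (nat_lit 32) (nat_lit 4) (nat_lit 33) (nat_lit 5) (nat_lit 33) (nat_lit 4) (nat_lit 436) (nat_lit 292) (nat_lit 292))))))))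
noncomputable def xc14 : XT := (XT.nd (nat_lit 2184) (nat_lit 608) (nat_lit 0) (XT.nd (nat_lit 1092) (nat_lit 532) (nat_lit 0) (XT.nd (nat_lit 546) (nat_lit 380) (nat_lit 0) (XT.nd (nat_lit 234) (nat_lit 228) (nat_lit 0) (XT.nd (nat_lit 78) (nat_lit 76) (nat_lit 0) (XT.lf (nat_lit 0) (nat_lit 1248751640) (nat_lit 152) (nat_lit 17958864927) (nat_lit 0) (nat_lit 987049612) (nat_lit 30) (nat_lit 5) (nat_lit 32) (nat_lit 4) (nat_lit 30) (nat_lit 4) (nat_lit 437) (nat_lit 292) (nat_lit 291)) (XT.nd (nat_lit 78) (nat_lit 76) (nat_lit 0) (XT.lf (nat_lit 0) (nat_lit 7328763133) (nat_lit 152) (nat_lit 6468962658) (nat_lit 0) (nat_lit 6812981464) (nat_lit 30) (nat_lit 5) (nat_lit 32) (nat_lit 4) (nat_lit 30) (nat_lit 4) (nat_lit 438) (nat_lit 292) (nat_lit 290)) (XT.lf (nat_lit 0) (nat_lit 5237746068) (nat_lit 76) (nat_lit 8283032330) (nat_lit 76) (nat_lit 7520571399) (nat_lit 29) (nat_lit 4) (nat_lit 30) (nat_lit 5)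 (nat_lit 30) (nat_lit 4) (nat_lit 439) (nat_lit 292) (nat_lit 289)))) (XT.nd (nat_lit 156) (nat_lit 76) (nat_lit 0) (XT.nd (nat_lit 78) (nat_lit 152) (nat_lit 0) (XT.lf (nat_lit 0) (nat_lit 17200421408) (nat_lit 76) (nat_lit 2644038248) (nat_lit 76) (nat_lit 1642082889) (nat_lit 29) (nat_lit 4) (nat_lit 30) (nat_lit 5) (nat_lit 30) (nat_lit 4) (nat_lit 440) (nat_lit 292) (nat_lit 288)) (XT.lf (nat_lit 0) (nat_lit 4311753334) (nat_lit 152) (nat_lit 14519285097) (nat_lit 0) (nat_lit 3113234671) (nat_lit 27) (nat_lit 5) (nat_lit 29) (nat_lit 4) (nat_lit 27) (nat_lit 4) (nat_lit 441) (nat_lit 292) (nat_lit 287))) (XT.nd (nat_lit 78) (nat_lit 76) (nat_lit 0) (XT.lf (nat_lit 0) (nat_lit 10364261493) (nat_lit 152) (nat_lit 3105830411) (nat_lit 0) (nat_lit 8946571501) (nat_lit 27) (nat_lit 5) (nat_lit 29) (nat_lit 4) (nat_lit 27) (nat_lit 4) (nat_lit 442) (nat_lit 292) (nat_lit 286)) (XT.lf (nat_lit 0) (nat_lit 8600555133)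 (nat_lit 76) (nat_lit 7967038847) (nat_lit 76) (nat_lit 6336561156) (nat_lit 26) (nat_lit 4) (nat_lit 27) (nat_lit 5) (nat_lit 27) (nat_lit 4) (nat_lit 443) (nat_lit 292) (nat_lit 285))))) (XT.nd (nat_lit 234) (nat_lit 228) (nat_lit 0) (XT.nd (nat_lit 78) (nat_lit 152) (nat_lit 0) (XT.lf (nat_lit 0) (nat_lit 20506628529) (nat_lit 76) (nat_lit 2369571280) (nat_lit 76) (nat_lit 532503591) (nat_lit 26) (nat_lit 4) (nat_lit 27) (nat_lit 5) (nat_lit 27) (nat_lit 4) (nat_lit 444) (nat_lit 292) (nat_lit 284)) (XT.nd (nat_lit 78) (nat_lit 0) (nat_lit 0) (XT.lf (nat_lit 0) (nat_lit 5346524513) (nat_lit 152) (nat_lit 15211853595) (nat_lit 0) (nat_lit 3368232764) (nat_lit 24) (nat_lit 5) (nat_lit 26) (nat_lit 4) (nat_lit 24) (nat_lit 4) (nat_lit 445) (nat_lit 292) (nat_lit 283)) (XT.lf (nat_lit 0) (nat_lit 11334501744) (nat_lit 152) (nat_lit 3959952733) (nat_lit 0) (nat_lit 9167150880) (nat_lit 24) (nat_lit 5) (nat_lit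 26) (nat_lit 4) (nat_lit 24) (nat_lit 4) (nat_lit 446) (nat_lit 292) (nat_lit 282)))) (XT.nd (nat_lit 156) (nat_lit 152) (nat_lit 0) (XT.nd (nat_lit 78) (nat_lit 0) (nat_lit 0) (XT.lf (nat_lit 0) (nat_lit 7572082359) (nat_lit 76) (nat_lit 9896245320) (nat_lit 76) (nat_lit 7545341919) (nat_lit 23) (nat_lit 4) (nat_lit 24) (nat_lit 5) (nat_lit 24) (nat_lit 4) (nat_lit 447) (nat_lit 292) (nat_lit 281)) (XT.lf (nat_lit 0) (nat_lit 19328083839) (nat_lit 76) (nat_lit 4392645436) (nat_lit 76) (nat_lit 1863535687) (nat_lit 23) (nat_lit 4) (nat_lit 24) (nat_lit 5) (nat_lit 24) (nat_lit 4) (nat_lit 448) (nat_lit 292) (nat_lit 280))) (XT.nd (nat_lit 78) (nat_lit 0) (nat_lit 0) (XT.lf (nat_lit 0) (nat_lit 3869012239) (nat_lit 152) (nat_lit 21057488400) (nat_lit 0) (nat_lit 1245589307) (nat_lit 21) (nat_lit 5) (nat_lit 23) (nat_lit 4) (nat_lit 21) (nat_lit 4) (nat_lit 449) (nat_lit 292) (nat_lit 279)) (XT.lf (nat_lit 0)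 (nat_lit 9740197849) (nat_lit 152) (nat_lit 10082989460) (nat_lit 0) (nat_lit 6953690865) (nat_lit 21) (nat_lit 5) (nat_lit 23) (nat_lit 4) (nat_lit 21) (nat_lit 4) (nat_lit 450) (nat_lit 292) (nat_lit 278)))))) (XT.nd (nat_lit 546) (nat_lit 228) (nat_lit 0) (XT.nd (nat_lit 234) (nat_lit 228) (nat_lit 0) (XT.nd (nat_lit 78) (nat_lit 0) (nat_lit 0) (XT.lf (nat_lit 0) (nat_lit 1047475311) (nat_lit 76) (nat_lit 14649942076) (nat_lit 76) (nat_lit 11705101060) (nat_lit 20) (nat_lit 4) (nat_lit 21) (nat_lit 5) (nat_lit 21) (nat_lit 4) (nat_lit 451) (nat_lit 292) (nat_lit 277)) (XT.nd (nat_lit 78) (nat_lit 0) (nat_lit 0) (XT.lf (nat_lit 0) (nat_lit 12526735381) (nat_lit 76) (nat_lit 9309339736) (nat_lit 76) (nat_lit 6210776360) (nat_lit 20) (nat_lit 4) (nat_lit 21) (nat_lit 5) (nat_lit 21) (nat_lit 4) (nat_lit 452) (nat_lit 292) (nat_lit 276)) (XT.lf (nat_lit 0) (nat_lit 24164149910) (nat_lit 76) (nat_lit 3898532167)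 (nat_lit 76) (nat_lit 650723780) (nat_lit 20) (nat_lit 4) (nat_lit 21) (nat_lit 5) (nat_lit 21) (nat_lit 4) (nat_lit 453) (nat_lit 292) (nat_lit 275)))) (XT.nd (nat_lit 156) (nat_lit 76) (nat_lit 0) (XT.nd (nat_lit 78) (nat_lit 0) (nat_lit 0) (XT.lf (nat_lit 0) (nat_lit 4963017142) (nat_lit 152) (nat_lit 22766775045) (nat_lit 0) (nat_lit 1669127380) (nat_lit 18) (nat_lit 5) (nat_lit 20) (nat_lit 4) (nat_lit 18) (nat_lit 4) (nat_lit 454) (nat_lit 292) (nat_lit 274)) (XT.lf (nat_lit 0) (nat_lit 10722913407) (nat_lit 152) (nat_lit 12089728633) (nat_lit 0) (nat_lit 7292443319) (nat_lit 18) (nat_lit 5) (nat_lit 20) (nat_lit 4) (nat_lit 18) (nat_lit 4) (nat_lit 455) (nat_lit 292) (nat_lit 273))) (XT.nd (nat_lit 78) (nat_lit 76) (nat_lit 0) (XT.lf (nat_lit 0) (nat_lit 16564178684) (nat_lit 152) (nat_lit 1269898422) (nat_lit 0) (nat_lit 13001106337) (nat_lit 18) (nat_lit 5) (nat_lit 20) (nat_lit 4) (nat_lit 18) (nat_lit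 4) (nat_lit 456) (nat_lit 292) (nat_lit 272)) (XT.lf (nat_lit 0) (nat_lit 9895262011) (nat_lit 76) (nat_lit 12691774290) (nat_lit 76) (nat_lit 8999961887) (nat_lit 17) (nat_lit 4) (nat_lit 18) (nat_lit 5) (nat_lit 18) (nat_lit 4) (nat_lit 457) (nat_lit 292) (nat_lit 271))))) (XT.nd (nat_lit 234) (nat_lit 76) (nat_lit 0) (XT.nd (nat_lit 78) (nat_lit 152) (nat_lit 0) (XT.lf (nat_lit 0) (nat_lit 21250741818) (nat_lit 76) (nat_lit 7464841216) (nat_lit 76) (nat_lit 3648038466) (nat_lit 17) (nat_lit 4) (nat_lit 18) (nat_lit 5) (nat_lit 18) (nat_lit 4) (nat_lit 458) (nat_lit 292) (nat_lit 270)) (XT.nd (nat_lit 78) (nat_lit 76) (nat_lit 0) (XT.lf (nat_lit 0) (nat_lit 1741950231) (nat_lit 152) (nat_lit 401993630) (nat_lit 76) (nat_lit 31021649279) (nat_lit 16) (nat_lit 5) (nat_lit 18) (nat_lit 5) (nat_lit 17) (nat_lit 4) (nat_lit 459) (nat_lit 292) (nat_lit 269)) (XT.lf (nat_lit 0) (nat_lit 7271669150) (nat_lit 152)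 (nat_lit 23383498346) (nat_lit 0) (nat_lit 3333836149) (nat_lit 15) (nat_lit 5) (nat_lit 17) (nat_lit 4) (nat_lit 15) (nat_lit 4) (nat_lit 460) (nat_lit 292) (nat_lit 268)))) (XT.nd (nat_lit 156) (nat_lit 76) (nat_lit 0) (XT.nd (nat_lit 78) (nat_lit 0) (nat_lit 0) (XT.lf (nat_lit 0) (nat_lit 12909139910) (nat_lit 152) (nat_lit 13069469895) (nat_lit 0) (nat_lit 8860254605) (nat_lit 15) (nat_lit 5) (nat_lit 17) (nat_lit 4) (nat_lit 15) (nat_lit 4) (nat_lit 461) (nat_lit 292) (nat_lit 267)) (XT.lf (nat_lit 0) (nat_lit 18634699422) (nat_lit 152) (nat_lit 2603959934) (nat_lit 0) (nat_lit 14477996347) (nat_lit 15) (nat_lit 5) (nat_lit 17) (nat_lit 4) (nat_lit 15) (nat_lit 4) (nat_lit 462) (nat_lit 292) (nat_lit 266))) (XT.nd (nat_lit 78) (nat_lit 0) (nat_lit 0) (XT.lf (nat_lit 0) (nat_lit 8181833192) (nat_lit 76) (nat_lit 16350166197) (nat_lit 76) (nat_lit 12088785674) (nat_lit 14) (nat_lit 4) (nat_lit 15) (nat_lit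 5) (nat_lit 15) (nat_lit 4) (nat_lit 463) (nat_lit 292) (nat_lit 265)) (XT.lf (nat_lit 0) (nat_lit 19192742894) (nat_lit 76) (nat_lit 11361927202) (nat_lit 76) (nat_lit 6998918090) (nat_lit 14) (nat_lit 4) (nat_lit 15) (nat_lit 5) (nat_lit 15) (nat_lit 4) (nat_lit 464) (nat_lit 292) (nat_lit 264))))))) (XT.nd (nat_lit 1092) (nat_lit 228) (nat_lit 0) (XT.nd (nat_lit 546) (nat_lit 152) (nat_lit 0) (XT.nd (nat_lit 234) (nat_lit 76) (nat_lit 0) (XT.nd (nat_lit 78) (nat_lit 152) (nat_lit 0) (XT.lf (nat_lit 0) (nat_lit 30386566447) (nat_lit 76) (nat_lit 6295878607) (nat_lit 76) (nat_lit 1834200960) (nat_lit 14) (nat_lit 4) (nat_lit 15) (nat_lit 5) (nat_lit 15) (nat_lit 4) (nat_lit 465) (nat_lit 292) (nat_lit 263)) (XT.nd (nat_lit 78) (nat_lit 0) (nat_lit 0) (XT.lf (nat_lit 0) (nat_lit 2273878528) (nat_lit 76) (nat_lit 1091318943) (nat_lit 152) (nat_lit 36143963510) (nat_lit 12) (nat_lit 5) (nat_lit 13) (nat_lit 5)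 (nat_lit 14) (nat_lit 4) (nat_lit 466) (nat_lit 292) (nat_lit 262)) (XT.lf (nat_lit 0) (nat_lit 8733669050) (nat_lit 152) (nat_lit 27577098944) (nat_lit 0) (nat_lit 4218642938) (nat_lit 12) (nat_lit 5) (nat_lit 14) (nat_lit 4) (nat_lit 12) (nat_lit 4) (nat_lit 467) (nat_lit 292) (nat_lit 261)))) (XT.nd (nat_lit 156) (nat_lit 76) (nat_lit 0) (XT.nd (nat_lit 78) (nat_lit 0) (nat_lit 0) (XT.lf (nat_lit 0) (nat_lit 14202161309) (nat_lit 152) (nat_lit 17780471558) (nat_lit 0) (nat_lit 9599469482) (nat_lit 12) (nat_lit 5) (nat_lit 14) (nat_lit 4) (nat_lit 12) (nat_lit 4) (nat_lit 468) (nat_lit 292) (nat_lit 260)) (XT.lf (nat_lit 0) (nat_lit 19764962116) (nat_lit 152) (nat_lit 7826349710) (nat_lit 0) (nat_lit 15077157945) (nat_lit 12) (nat_lit 5) (nat_lit 14) (nat_lit 4) (nat_lit 12) (nat_lit 4) (nat_lit 469) (nat_lit 292) (nat_lit 259))) (XT.nd (nat_lit 78) (nat_lit 0) (nat_lit 0) (XT.lf (nat_lit 0) (nat_lit 2339618763)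 (nat_lit 76) (nat_lit 23109803254) (nat_lit 76) (nat_lit 18339365740) (nat_lit 11) (nat_lit 4) (nat_lit 12) (nat_lit 5) (nat_lit 12) (nat_lit 4) (nat_lit 470) (nat_lit 292) (nat_lit 258)) (XT.lf (nat_lit 0) (nat_lit 12839865718) (nat_lit 76) (nat_lit 18476577752) (nat_lit 76) (nat_lit 13625913691) (nat_lit 11) (nat_lit 4) (nat_lit 12) (nat_lit 5) (nat_lit 12) (nat_lit 4) (nat_lit 471) (nat_lit 292) (nat_lit 257))))) (XT.nd (nat_lit 234) (nat_lit 76) (nat_lit 0) (XT.nd (nat_lit 78) (nat_lit 76) (nat_lit 0) (XT.lf (nat_lit 0) (nat_lit 23527806421) (nat_lit 76) (nat_lit 13766617659) (nat_lit 76) (nat_lit 8838063746) (nat_lit 11) (nat_lit 4) (nat_lit 12) (nat_lit 5) (nat_lit 12) (nat_lit 4) (nat_lit 472) (nat_lit 292) (nat_lit 256)) (XT.nd (nat_lit 78) (nat_lit 76) (nat_lit 0) (XT.lf (nat_lit 0) (nat_lit 34412779849) (nat_lit 76) (nat_lit 8975807474) (nat_lit 76) (nat_lit 3971632346) (nat_lit 11) (nat_lit 4) (nat_lit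 12) (nat_lit 5) (nat_lit 12) (nat_lit 4) (nat_lit 473) (nat_lit 292) (nat_lit 255)) (XT.lf (nat_lit 0) (nat_lit 958555594) (nat_lit 152) (nat_lit 3131725926) (nat_lit 76) (nat_lit 44536062017) (nat_lit 10) (nat_lit 5) (nat_lit 12) (nat_lit 5) (nat_lit 11) (nat_lit 4) (nat_lit 474) (nat_lit 292) (nat_lit 254)))) (XT.nd (nat_lit 156) (nat_lit 0) (nat_lit 0) (XT.nd (nat_lit 78) (nat_lit 0) (nat_lit 0) (XT.lf (nat_lit 0) (nat_lit 5973128115) (nat_lit 152) (nat_lit 42981435221) (nat_lit 0) (nat_lit 974221288) (nat_lit 9) (nat_lit 5) (nat_lit 11) (nat_lit 4) (nat_lit 9) (nat_lit 4) (nat_lit 475) (nat_lit 292) (nat_lit 253)) (XT.lf (nat_lit 0) (nat_lit 11150532185) (nat_lit 152) (nat_lit 34034960311) (nat_lit 0) (nat_lit 6084436888) (nat_lit 9) (nat_lit 5) (nat_lit 11) (nat_lit 4) (nat_lit 9) (nat_lit 4) (nat_lit 476) (nat_lit 292) (nat_lit 252))) (XT.nd (nat_lit 78) (nat_lit 0) (nat_lit 0) (XT.lf (nat_lit 0) (nat_lit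 16424966273) (nat_lit 152) (nat_lit 24934453730) (nat_lit 0) (nat_lit 11293639452) (nat_lit 9) (nat_lit 5) (nat_lit 11) (nat_lit 4) (nat_lit 9) (nat_lit 4) (nat_lit 477) (nat_lit 292) (nat_lit 251)) (XT.lf (nat_lit 0) (nat_lit 21801039109) (nat_lit 152) (nat_lit 15671963577) (nat_lit 0) (nat_lit 16606380710) (nat_lit 9) (nat_lit 5) (nat_lit 11) (nat_lit 4) (nat_lit 9) (nat_lit 4) (nat_lit 478) (nat_lit 292) (nat_lit 250)))))) (XT.nd (nat_lit 546) (nat_lit 152) (nat_lit 0) (XT.nd (nat_lit 234) (nat_lit 0) (nat_lit 0) (XT.nd (nat_lit 78) (nat_lit 76) (nat_lit 0) (XT.lf (nat_lit 0) (nat_lit 27283448231) (nat_lit 152) (nat_lit 6239396416) (nat_lit 0) (nat_lit 22027302864) (nat_lit 9) (nat_lit 5) (nat_lit 11) (nat_lit 4) (nat_lit 9) (nat_lit 4) (nat_lit 479) (nat_lit 292) (nat_lit 249)) (XT.nd (nat_lit 78) (nat_lit 0) (nat_lit 0) (XT.lf (nat_lit 0) (nat_lit 3438589059) (nat_lit 76) (nat_lit 29471448855) (nat_lit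 76) (nat_lit 24155607403) (nat_lit 8) (nat_lit 4) (nat_lit 9) (nat_lit 5) (nat_lit 9) (nat_lit 4) (nat_lit 480) (nat_lit 292) (nat_lit 248)) (XT.lf (nat_lit 0) (nat_lit 13431183710) (nat_lit 76) (nat_lit 25284459296) (nat_lit 76) (nat_lit 19910660479) (nat_lit 8) (nat_lit 4) (nat_lit 9) (nat_lit 5) (nat_lit 9) (nat_lit 4) (nat_lit 481) (nat_lit 292) (nat_lit 247)))) (XT.nd (nat_lit 156) (nat_lit 0) (nat_lit 0) (XT.nd (nat_lit 78) (nat_lit 0) (nat_lit 0) (XT.lf (nat_lit 0) (nat_lit 23622942707) (nat_lit 76) (nat_lit 21021223105) (nat_lit 76) (nat_lit 15591155002) (nat_lit 8) (nat_lit 4) (nat_lit 9) (nat_lit 5) (nat_lit 9) (nat_lit 4) (nat_lit 482) (nat_lit 292) (nat_lit 246)) (XT.lf (nat_lit 0) (nat_lit 34022771470) (nat_lit 76) (nat_lit 16678015124) (nat_lit 76) (nat_lit 11193316646) (nat_lit 8) (nat_lit 4) (nat_lit 9) (nat_lit 5) (nat_lit 9) (nat_lit 4) (nat_lit 483) (nat_lit 292) (nat_lit 245))) (XT.nd (nat_lit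 78) (nat_lit 0) (nat_lit 0) (XT.lf (nat_lit 0) (nat_lit 44639757228) (nat_lit 76) (nat_lit 12251040317) (nat_lit 76) (nat_lit 6713302640) (nat_lit 8) (nat_lit 4) (nat_lit 9) (nat_lit 5) (nat_lit 9) (nat_lit 4) (nat_lit 484) (nat_lit 292) (nat_lit 244)) (XT.lf (nat_lit 0) (nat_lit 55483176959) (nat_lit 76) (nat_lit 7736430454) (nat_lit 76) (nat_lit 2147198409) (nat_lit 8) (nat_lit 4) (nat_lit 9) (nat_lit 5) (nat_lit 9) (nat_lit 4) (nat_lit 485) (nat_lit 292) (nat_lit 243))))) (XT.nd (nat_lit 312) (nat_lit 0) (nat_lit 0) (XT.nd (nat_lit 156) (nat_lit 0) (nat_lit 0) (XT.nd (nat_lit 78) (nat_lit 76) (nat_lit 0) (XT.lf (nat_lit 0) (nat_lit 2460026496) (nat_lit 152) (nat_lit 645372789) (nat_lit 76) (nat_lit 64077637556) (nat_lit 7) (nat_lit 5) (nat_lit 9) (nat_lit 5) (nat_lit 8) (nat_lit 4) (nat_lit 486) (nat_lit 292) (nat_lit 242)) (XT.lf (nat_lit 0) (nat_lit 7220204300) (nat_lit 152) (nat_lit 60133075119) (nat_lit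 0) (nat_lit 1698102400) (nat_lit 6) (nat_lit 5) (nat_lit 8) (nat_lit 4) (nat_lit 6) (nat_lit 4) (nat_lit 487) (nat_lit 292) (nat_lit 241))) (XT.nd (nat_lit 78) (nat_lit 0) (nat_lit 0) (XT.lf (nat_lit 0) (nat_lit 12115923091) (nat_lit 152) (nat_lit 52312004421) (nat_lit 0) (nat_lit 6548069112) (nat_lit 6) (nat_lit 5) (nat_lit 8) (nat_lit 4) (nat_lit 6) (nat_lit 4) (nat_lit 488) (nat_lit 292) (nat_lit 240)) (XT.lf (nat_lit 0) (nat_lit 17115219854) (nat_lit 152) (nat_lit 44341483946) (nat_lit 0) (nat_lit 11502946381) (nat_lit 6) (nat_lit 5) (nat_lit 8) (nat_lit 4) (nat_lit 6) (nat_lit 4) (nat_lit 489) (nat_lit 292) (nat_lit 239)))) (XT.nd (nat_lit 156) (nat_lit 0) (nat_lit 0) (XT.nd (nat_lit 78) (nat_lit 0) (nat_lit 0) (XT.lf (nat_lit 0) (nat_lit 22222462907) (nat_lit 152) (nat_lit 36214549164) (nat_lit 0) (nat_lit 16567063712) (nat_lit 6) (nat_lit 5) (nat_lit 8) (nat_lit 4) (nat_lit 6) (nat_lit 4) (nat_lit 490)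 (nat_lit 292) (nat_lit 238)) (XT.lf (nat_lit 0) (nat_lit 27442114889) (nat_lit 152) (nat_lit 27924098868) (nat_lit 0) (nat_lit 21744846060) (nat_lit 6) (nat_lit 5) (nat_lit 8) (nat_lit 4) (nat_lit 6) (nat_lit 4) (nat_lit 491) (nat_lit 292) (nat_lit 237))) (XT.nd (nat_lit 48594) (nat_lit 0) (nat_lit 2052) (XT.lf (nat_lit 0) (nat_lit 32778736661) (nat_lit 152) (nat_lit 19462888975) (nat_lit 0) (nat_lit 27040817703) (nat_lit 6) (nat_lit 5) (nat_lit 8) (nat_lit 4) (nat_lit 6) (nat_lit 4) (nat_lit 492) (nat_lit 292) (nat_lit 236)) (XT.lf (nat_lit 0) (nat_lit 1483745476) (nat_lit 152) (nat_lit 6539960571) (nat_lit 0) (nat_lit 1483745476) (nat_lit 33) (nat_lit 5) (nat_lit 35) (nat_lit 4) (nat_lit 33) (nat_lit 4) (nat_lit 434) (nat_lit 293) (nat_lit 293))))))))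
noncomputable def xc15 : XT := (XT.nd (nat_lit 2262) (nat_lit 608) (nat_lit 0) (XT.nd (nat_lit 1092) (nat_lit 684) (nat_lit 0) (XT.nd (nat_lit 546) (nat_lit 304) (nat_lit 0) (XT.nd (nat_lit 234) (nat_lit 228) (nat_lit 0) (XT.nd (nat_lit 78) (nat_lit 228) (nat_lit 0) (XT.lf (nat_lit 0) (nat_lit 9042886142) (nat_lit 152) (nat_lit 1588575856) (nat_lit 0) (nat_lit 8765246460) (nat_lit 33) (nat_lit 5) (nat_lit 35) (nat_lit 4) (nat_lit 33) (nat_lit 4) (nat_lit 435) (nat_lit 293) (nat_lit 292)) (XT.nd (nat_lit 78) (nat_lit 152) (nat_lit 0) (XT.lf (nat_lit 0) (nat_lit 10217264265) (nat_lit 76) (nat_lit 5060297544) (nat_lit 76) (nat_lit 4513104772) (nat_lit 32) (nat_lit 4) (nat_lit 33) (nat_lit 5) (nat_lit 33) (nat_lit 4) (nat_lit 436) (nat_lit 293) (nat_lit 291)) (XT.lf (nat_lit 0) (nat_lit 1393937389) (nat_lit 152) (nat_lit 18195865766) (nat_lit 0) (nat_lit 608602631) (nat_lit 30) (nat_lit 5) (nat_lit 32) (nat_lit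 4) (nat_lit 30) (nat_lit 4) (nat_lit 437) (nat_lit 293) (nat_lit 290)))) (XT.nd (nat_lit 156) (nat_lit 152) (nat_lit 0) (XT.nd (nat_lit 78) (nat_lit 76) (nat_lit 0) (XT.lf (nat_lit 0) (nat_lit 7414468591) (nat_lit 152) (nat_lit 6819312217) (nat_lit 0) (nat_lit 6382454570) (nat_lit 30) (nat_lit 5) (nat_lit 32) (nat_lit 4) (nat_lit 30) (nat_lit 4) (nat_lit 438) (nat_lit 293) (nat_lit 289)) (XT.lf (nat_lit 0) (nat_lit 4768186406) (nat_lit 76) (nat_lit 8776035899) (nat_lit 76) (nat_lit 7504527450) (nat_lit 29) (nat_lit 4) (nat_lit 30) (nat_lit 5) (nat_lit 30) (nat_lit 4) (nat_lit 439) (nat_lit 293) (nat_lit 288))) (XT.nd (nat_lit 78) (nat_lit 152) (nat_lit 0) (XT.lf (nat_lit 0) (nat_lit 16621893340) (nat_lit 76) (nat_lit 3188896873) (nat_lit 76) (nat_lit 1684869561) (nat_lit 29) (nat_lit 4) (nat_lit 30) (nat_lit 5) (nat_lit 30) (nat_lit 4) (nat_lit 440) (nat_lit 293) (nat_lit 287)) (XT.lf (nat_lit 0) (nat_lit 4201195329)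 (nat_lit 152) (nat_lit 15232465871) (nat_lit 0) (nat_lit 2521803308) (nat_lit 27) (nat_lit 5) (nat_lit 29) (nat_lit 4) (nat_lit 27) (nat_lit 4) (nat_lit 441) (nat_lit 293) (nat_lit 286))))) (XT.nd (nat_lit 234) (nat_lit 228) (nat_lit 0) (XT.nd (nat_lit 78) (nat_lit 76) (nat_lit 0) (XT.lf (nat_lit 0) (nat_lit 10197829244) (nat_lit 152) (nat_lit 3926055811) (nat_lit 0) (nat_lit 8305649525) (nat_lit 27) (nat_lit 5) (nat_lit 29) (nat_lit 4) (nat_lit 27) (nat_lit 4) (nat_lit 442) (nat_lit 293) (nat_lit 285)) (XT.nd (nat_lit 78) (nat_lit 0) (nat_lit 0) (XT.lf (nat_lit 0) (nat_lit 7658010470) (nat_lit 76) (nat_lit 8679844106) (nat_lit 76) (nat_lit 6581074389) (nat_lit 26) (nat_lit 4) (nat_lit 27) (nat_lit 5) (nat_lit 27) (nat_lit 4) (nat_lit 443) (nat_lit 293) (nat_lit 284)) (XT.lf (nat_lit 0) (nat_lit 19461175935) (nat_lit 76) (nat_lit 3131628423) (nat_lit 76) (nat_lit 832285892) (nat_lit 26) (nat_lit 4) (nat_lit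 27) (nat_lit 5) (nat_lit 27) (nat_lit 4) (nat_lit 444) (nat_lit 293) (nat_lit 283)))) (XT.nd (nat_lit 156) (nat_lit 76) (nat_lit 0) (XT.nd (nat_lit 78) (nat_lit 0) (nat_lit 0) (XT.lf (nat_lit 0) (nat_lit 4980676851) (nat_lit 152) (nat_lit 16405321577) (nat_lit 0) (nat_lit 2559246348) (nat_lit 24) (nat_lit 5) (nat_lit 26) (nat_lit 4) (nat_lit 24) (nat_lit 4) (nat_lit 445) (nat_lit 293) (nat_lit 282)) (XT.lf (nat_lit 0) (nat_lit 10916152555) (nat_lit 152) (nat_lit 5254495294) (nat_lit 0) (nat_lit 8311169514) (nat_lit 24) (nat_lit 5) (nat_lit 26) (nat_lit 4) (nat_lit 24) (nat_lit 4) (nat_lit 446) (nat_lit 293) (nat_lit 281))) (XT.nd (nat_lit 78) (nat_lit 0) (nat_lit 0) (XT.lf (nat_lit 0) (nat_lit 6151692210) (nat_lit 76) (nat_lit 10833660265) (nat_lit 76) (nat_lit 8050470876) (nat_lit 23) (nat_lit 4) (nat_lit 24) (nat_lit 5) (nat_lit 24) (nat_lit 4) (nat_lit 447) (nat_lit 293) (nat_lit 280)) (XT.lf (nat_lit 0)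 (nat_lit 17810525096) (nat_lit 76) (nat_lit 5376807207) (nat_lit 76) (nat_lit 2420601947) (nat_lit 23) (nat_lit 4) (nat_lit 24) (nat_lit 5) (nat_lit 24) (nat_lit 4) (nat_lit 448) (nat_lit 293) (nat_lit 279)))))) (XT.nd (nat_lit 546) (nat_lit 304) (nat_lit 0) (XT.nd (nat_lit 234) (nat_lit 228) (nat_lit 0) (XT.nd (nat_lit 78) (nat_lit 0) (nat_lit 0) (XT.lf (nat_lit 0) (nat_lit 3247270817) (nat_lit 152) (nat_lit 22736833574) (nat_lit 0) (nat_lit 214084571) (nat_lit 21) (nat_lit 5) (nat_lit 23) (nat_lit 4) (nat_lit 21) (nat_lit 4) (nat_lit 449) (nat_lit 293) (nat_lit 278)) (XT.nd (nat_lit 78) (nat_lit 0) (nat_lit 0) (XT.lf (nat_lit 0) (nat_lit 9069111297) (nat_lit 152) (nat_lit 11857757862) (nat_lit 0) (nat_lit 5877591019) (nat_lit 21) (nat_lit 5) (nat_lit 23) (nat_lit 4) (nat_lit 21) (nat_lit 4) (nat_lit 450) (nat_lit 293) (nat_lit 277)) (XT.lf (nat_lit 0) (nat_lit 14968353969) (nat_lit 152) (nat_lit 840377017)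 (nat_lit 0) (nat_lit 11623111331) (nat_lit 21) (nat_lit 5) (nat_lit 23) (nat_lit 4) (nat_lit 21) (nat_lit 4) (nat_lit 451) (nat_lit 293) (nat_lit 276)))) (XT.nd (nat_lit 156) (nat_lit 152) (nat_lit 0) (XT.nd (nat_lit 78) (nat_lit 0) (nat_lit 0) (XT.lf (nat_lit 0) (nat_lit 10530422265) (nat_lit 76) (nat_lit 10520956108) (nat_lit 76) (nat_lit 7026468459) (nat_lit 20) (nat_lit 4) (nat_lit 21) (nat_lit 5) (nat_lit 21) (nat_lit 4) (nat_lit 452) (nat_lit 293) (nat_lit 275)) (XT.lf (nat_lit 0) (nat_lit 22078773068) (nat_lit 76) (nat_lit 5153198345) (nat_lit 76) (nat_lit 1513812628) (nat_lit 20) (nat_lit 4) (nat_lit 21) (nat_lit 5) (nat_lit 21) (nat_lit 4) (nat_lit 453) (nat_lit 293) (nat_lit 274))) (XT.nd (nat_lit 78) (nat_lit 0) (nat_lit 0) (XT.lf (nat_lit 0) (nat_lit 4037352262) (nat_lit 152) (nat_lit 25029191455) (nat_lit 0) (nat_lit 367387744) (nat_lit 18) (nat_lit 5) (nat_lit 20) (nat_lit 4) (nat_lit 18) (nat_lit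 4) (nat_lit 454) (nat_lit 293) (nat_lit 273)) (XT.lf (nat_lit 0) (nat_lit 9752210164) (nat_lit 152) (nat_lit 14439597060) (nat_lit 0) (nat_lit 5949643388) (nat_lit 18) (nat_lit 5) (nat_lit 20) (nat_lit 4) (nat_lit 18) (nat_lit 4) (nat_lit 455) (nat_lit 293) (nat_lit 272))))) (XT.nd (nat_lit 312) (nat_lit 152) (nat_lit 0) (XT.nd (nat_lit 156) (nat_lit 76) (nat_lit 0) (XT.nd (nat_lit 78) (nat_lit 76) (nat_lit 0) (XT.lf (nat_lit 0) (nat_lit 15549748875) (nat_lit 152) (nat_lit 3704671719) (nat_lit 0) (nat_lit 11618442042) (nat_lit 18) (nat_lit 5) (nat_lit 20) (nat_lit 4) (nat_lit 18) (nat_lit 4) (nat_lit 456) (nat_lit 293) (nat_lit 271)) (XT.lf (nat_lit 0) (nat_lit 7327959482) (nat_lit 76) (nat_lit 14177515552) (nat_lit 76) (nat_lit 10121218373) (nat_lit 17) (nat_lit 4) (nat_lit 18) (nat_lit 5) (nat_lit 18) (nat_lit 4) (nat_lit 457) (nat_lit 293) (nat_lit 270))) (XT.nd (nat_lit 78) (nat_lit 76) (nat_lit 0) (XT.lf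 (nat_lit 0) (nat_lit 18601815532) (nat_lit 76) (nat_lit 8990205135) (nat_lit 76) (nat_lit 4812558105) (nat_lit 17) (nat_lit 4) (nat_lit 18) (nat_lit 5) (nat_lit 18) (nat_lit 4) (nat_lit 458) (nat_lit 293) (nat_lit 269)) (XT.lf (nat_lit 0) (nat_lit 558971135) (nat_lit 152) (nat_lit 3160751015) (nat_lit 76) (nat_lit 29488401493) (nat_lit 16) (nat_lit 5) (nat_lit 18) (nat_lit 5) (nat_lit 17) (nat_lit 4) (nat_lit 459) (nat_lit 293) (nat_lit 268)))) (XT.nd (nat_lit 156) (nat_lit 76) (nat_lit 0) (XT.nd (nat_lit 78) (nat_lit 0) (nat_lit 0) (XT.lf (nat_lit 0) (nat_lit 6005111810) (nat_lit 152) (nat_lit 26305223891) (nat_lit 0) (nat_lit 1723707642) (nat_lit 15) (nat_lit 5) (nat_lit 17) (nat_lit 4) (nat_lit 15) (nat_lit 4) (nat_lit 460) (nat_lit 293) (nat_lit 267)) (XT.lf (nat_lit 0) (nat_lit 11602663668) (nat_lit 152) (nat_lit 16068998072) (nat_lit 0) (nat_lit 7213441730) (nat_lit 15) (nat_lit 5) (nat_lit 17) (nat_lit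 4) (nat_lit 15) (nat_lit 4) (nat_lit 461) (nat_lit 293) (nat_lit 266))) (XT.nd (nat_lit 78) (nat_lit 76) (nat_lit 0) (XT.lf (nat_lit 0) (nat_lit 17289466966) (nat_lit 152) (nat_lit 5679024647) (nat_lit 0) (nat_lit 12795567580) (nat_lit 15) (nat_lit 5) (nat_lit 17) (nat_lit 4) (nat_lit 15) (nat_lit 4) (nat_lit 462) (nat_lit 293) (nat_lit 265)) (XT.lf (nat_lit 0) (nat_lit 4970772678) (nat_lit 76) (nat_lit 18147500182) (nat_lit 76) (nat_lit 13551972206) (nat_lit 14) (nat_lit 4) (nat_lit 15) (nat_lit 5) (nat_lit 15) (nat_lit 4) (nat_lit 463) (nat_lit 293) (nat_lit 264))))))) (XT.nd (nat_lit 1092) (nat_lit 228) (nat_lit 0) (XT.nd (nat_lit 546) (nat_lit 228) (nat_lit 0) (XT.nd (nat_lit 234) (nat_lit 76) (nat_lit 0) (XT.nd (nat_lit 78) (nat_lit 76) (nat_lit 0) (XT.lf (nat_lit 0) (nat_lit 15909064922) (nat_lit 76) (nat_lit 13194649152) (nat_lit 76) (nat_lit 8500452643) (nat_lit 14) (nat_lit 4) (nat_lit 15) (nat_lit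 5) (nat_lit 15) (nat_lit 4) (nat_lit 464) (nat_lit 293) (nat_lit 263)) (XT.nd (nat_lit 78) (nat_lit 76) (nat_lit 0) (XT.lf (nat_lit 0) (nat_lit 27032386088) (nat_lit 76) (nat_lit 8162957804) (nat_lit 76) (nat_lit 3372966602) (nat_lit 14) (nat_lit 4) (nat_lit 15) (nat_lit 5) (nat_lit 15) (nat_lit 4) (nat_lit 465) (nat_lit 293) (nat_lit 262)) (XT.lf (nat_lit 0) (nat_lit 1799159443) (nat_lit 152) (nat_lit 1230702088) (nat_lit 76) (nat_lit 36533128158) (nat_lit 13) (nat_lit 5) (nat_lit 15) (nat_lit 5) (nat_lit 14) (nat_lit 4) (nat_lit 466) (nat_lit 293) (nat_lit 261)))) (XT.nd (nat_lit 156) (nat_lit 0) (nat_lit 0) (XT.nd (nat_lit 78) (nat_lit 0) (nat_lit 0) (XT.lf (nat_lit 0) (nat_lit 7101422919) (nat_lit 152) (nat_lit 31210819799) (nat_lit 0) (nat_lit 2272984624) (nat_lit 12) (nat_lit 5) (nat_lit 14) (nat_lit 4) (nat_lit 12) (nat_lit 4) (nat_lit 467) (nat_lit 293) (nat_lit 260)) (XT.lf (nat_lit 0) (nat_lit 12535557435)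 (nat_lit 152) (nat_lit 21481386679) (nat_lit 0) (nat_lit 7622006795) (nat_lit 12) (nat_lit 5) (nat_lit 14) (nat_lit 4) (nat_lit 12) (nat_lit 4) (nat_lit 468) (nat_lit 293) (nat_lit 259))) (XT.nd (nat_lit 78) (nat_lit 0) (nat_lit 0) (XT.lf (nat_lit 0) (nat_lit 18065001209) (nat_lit 152) (nat_lit 11592501983) (nat_lit 0) (nat_lit 13068817226) (nat_lit 12) (nat_lit 5) (nat_lit 14) (nat_lit 4) (nat_lit 12) (nat_lit 4) (nat_lit 469) (nat_lit 293) (nat_lit 258)) (XT.lf (nat_lit 0) (nat_lit 23694585796) (nat_lit 152) (nat_lit 1535524938) (nat_lit 0) (nat_lit 18618175265) (nat_lit 12) (nat_lit 5) (nat_lit 14) (nat_lit 4) (nat_lit 12) (nat_lit 4) (nat_lit 470) (nat_lit 293) (nat_lit 257))))) (XT.nd (nat_lit 234) (nat_lit 152) (nat_lit 0) (XT.nd (nat_lit 78) (nat_lit 0) (nat_lit 0) (XT.lf (nat_lit 0) (nat_lit 8871445970) (nat_lit 76) (nat_lit 20643062045) (nat_lit 76) (nat_lit 15488761663) (nat_lit 11) (nat_lit 4) (nat_lit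 12) (nat_lit 5) (nat_lit 12) (nat_lit 4) (nat_lit 471) (nat_lit 293) (nat_lit 256)) (XT.nd (nat_lit 78) (nat_lit 0) (nat_lit 0) (XT.lf (nat_lit 0) (nat_lit 19498497266) (nat_lit 76) (nat_lit 15962879641) (nat_lit 76) (nat_lit 10732958044) (nat_lit 11) (nat_lit 4) (nat_lit 12) (nat_lit 5) (nat_lit 12) (nat_lit 4) (nat_lit 472) (nat_lit 293) (nat_lit 255)) (XT.lf (nat_lit 0) (nat_lit 30324354765) (nat_lit 76) (nat_lit 11200979836) (nat_lit 76) (nat_lit 5897639583) (nat_lit 11) (nat_lit 4) (nat_lit 12) (nat_lit 5) (nat_lit 12) (nat_lit 4) (nat_lit 473) (nat_lit 293) (nat_lit 254)))) (XT.nd (nat_lit 156) (nat_lit 0) (nat_lit 0) (XT.nd (nat_lit 78) (nat_lit 152) (nat_lit 0) (XT.lf (nat_lit 0) (nat_lit 41358477954) (nat_lit 76) (nat_lit 6353201744) (nat_lit 76) (nat_lit 978581243) (nat_lit 11) (nat_lit 4) (nat_lit 12) (nat_lit 5) (nat_lit 12) (nat_lit 4) (nat_lit 474) (nat_lit 293) (nat_lit 253)) (XT.lf (nat_lit 0)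 (nat_lit 2625718408) (nat_lit 76) (nat_lit 1349425942) (nat_lit 152) (nat_lit 46020239275) (nat_lit 9) (nat_lit 5) (nat_lit 10) (nat_lit 5) (nat_lit 11) (nat_lit 4) (nat_lit 475) (nat_lit 293) (nat_lit 252))) (XT.nd (nat_lit 78) (nat_lit 0) (nat_lit 0) (XT.lf (nat_lit 0) (nat_lit 9110861591) (nat_lit 152) (nat_lit 38466555045) (nat_lit 0) (nat_lit 3760363440) (nat_lit 9) (nat_lit 5) (nat_lit 11) (nat_lit 4) (nat_lit 9) (nat_lit 4) (nat_lit 476) (nat_lit 293) (nat_lit 251)) (XT.lf (nat_lit 0) (nat_lit 14357416726) (nat_lit 152) (nat_lit 29420743846) (nat_lit 0) (nat_lit 8943586998) (nat_lit 9) (nat_lit 5) (nat_lit 11) (nat_lit 4) (nat_lit 9) (nat_lit 4) (nat_lit 477) (nat_lit 293) (nat_lit 250)))))) (XT.nd (nat_lit 546) (nat_lit 152) (nat_lit 0) (XT.nd (nat_lit 234) (nat_lit 76) (nat_lit 0) (XT.nd (nat_lit 78) (nat_lit 0) (nat_lit 0) (XT.lf (nat_lit 0) (nat_lit 19706422616) (nat_lit 152) (nat_lit 20211356007)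 (nat_lit 0) (nat_lit 14231105920) (nat_lit 9) (nat_lit 5) (nat_lit 11) (nat_lit 4) (nat_lit 9) (nat_lit 4) (nat_lit 478) (nat_lit 293) (nat_lit 249)) (XT.nd (nat_lit 78) (nat_lit 0) (nat_lit 0) (XT.lf (nat_lit 0) (nat_lit 25162553151) (nat_lit 152) (nat_lit 10830344490) (nat_lit 0) (nat_lit 19627540369) (nat_lit 9) (nat_lit 5) (nat_lit 11) (nat_lit 4) (nat_lit 9) (nat_lit 4) (nat_lit 479) (nat_lit 293) (nat_lit 248)) (XT.lf (nat_lit 0) (nat_lit 30730575822) (nat_lit 152) (nat_lit 1269512294) (nat_lit 0) (nat_lit 25137605675) (nat_lit 9) (nat_lit 5) (nat_lit 11) (nat_lit 4) (nat_lit 9) (nat_lit 4) (nat_lit 480) (nat_lit 293) (nat_lit 247)))) (XT.nd (nat_lit 156) (nat_lit 0) (nat_lit 0) (XT.nd (nat_lit 78) (nat_lit 0) (nat_lit 0) (XT.lf (nat_lit 0) (nat_lit 8648253274) (nat_lit 76) (nat_lit 27850234918) (nat_lit 76) (nat_lit 22200995486) (nat_lit 8) (nat_lit 4) (nat_lit 9) (nat_lit 5) (nat_lit 9) (nat_lit 4) (nat_lit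 481) (nat_lit 293) (nat_lit 246)) (XT.lf (nat_lit 0) (nat_lit 18791892565) (nat_lit 76) (nat_lit 23610607247) (nat_lit 76) (nat_lit 17906737440) (nat_lit 8) (nat_lit 4) (nat_lit 9) (nat_lit 5) (nat_lit 9) (nat_lit 4) (nat_lit 482) (nat_lit 293) (nat_lit 245))) (XT.nd (nat_lit 78) (nat_lit 0) (nat_lit 0) (XT.lf (nat_lit 0) (nat_lit 29145003167) (nat_lit 76) (nat_lit 19290320159) (nat_lit 76) (nat_lit 13533411153) (nat_lit 8) (nat_lit 4) (nat_lit 9) (nat_lit 5) (nat_lit 9) (nat_lit 4) (nat_lit 483) (nat_lit 293) (nat_lit 244)) (XT.lf (nat_lit 0) (nat_lit 39716631486) (nat_lit 76) (nat_lit 14885598647) (nat_lit 76) (nat_lit 9077195273) (nat_lit 8) (nat_lit 4) (nat_lit 9) (nat_lit 5) (nat_lit 9) (nat_lit 4) (nat_lit 484) (nat_lit 293) (nat_lit 243))))) (XT.nd (nat_lit 312) (nat_lit 0) (nat_lit 0) (XT.nd (nat_lit 156) (nat_lit 76) (nat_lit 0) (XT.nd (nat_lit 78) (nat_lit 76) (nat_lit 0) (XT.lf (nat_lit 0) (nat_lit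 50516014869) (nat_lit 76) (nat_lit 10392593924) (nat_lit 76) (nat_lit 4534196018) (nat_lit 8) (nat_lit 4) (nat_lit 9) (nat_lit 5) (nat_lit 9) (nat_lit 4) (nat_lit 485) (nat_lit 293) (nat_lit 242)) (XT.lf (nat_lit 0) (nat_lit 97613521) (nat_lit 152) (nat_lit 5708780836) (nat_lit 76) (nat_lit 61453990443) (nat_lit 7) (nat_lit 5) (nat_lit 9) (nat_lit 5) (nat_lit 8) (nat_lit 4) (nat_lit 486) (nat_lit 293) (nat_lit 241))) (XT.nd (nat_lit 78) (nat_lit 0) (nat_lit 0) (XT.lf (nat_lit 0) (nat_lit 3728505613) (nat_lit 76) (nat_lit 1041231599) (nat_lit 152) (nat_lit 64361634954) (nat_lit 6) (nat_lit 5) (nat_lit 7) (nat_lit 5) (nat_lit 8) (nat_lit 4) (nat_lit 487) (nat_lit 293) (nat_lit 240)) (XT.lf (nat_lit 0) (nat_lit 9634120155) (nat_lit 152) (nat_lit 57613748645) (nat_lit 0) (nat_lit 3809058984) (nat_lit 6) (nat_lit 5) (nat_lit 8) (nat_lit 4) (nat_lit 6) (nat_lit 4) (nat_lit 488) (nat_lit 293) (nat_lit 239)))) (XT.nd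 (nat_lit 156) (nat_lit 0) (nat_lit 0) (XT.nd (nat_lit 78) (nat_lit 0) (nat_lit 0) (XT.lf (nat_lit 0) (nat_lit 14612711198) (nat_lit 152) (nat_lit 49683967731) (nat_lit 0) (nat_lit 8744524304) (nat_lit 6) (nat_lit 5) (nat_lit 8) (nat_lit 4) (nat_lit 6) (nat_lit 4) (nat_lit 489) (nat_lit 293) (nat_lit 238)) (XT.lf (nat_lit 0) (nat_lit 19699851609) (nat_lit 152) (nat_lit 41596585918) (nat_lit 0) (nat_lit 13789795082) (nat_lit 6) (nat_lit 5) (nat_lit 8) (nat_lit 4) (nat_lit 6) (nat_lit 4) (nat_lit 490) (nat_lit 293) (nat_lit 237))) (XT.nd (nat_lit 78) (nat_lit 0) (nat_lit 0) (XT.lf (nat_lit 0) (nat_lit 24899986463) (nat_lit 152) (nat_lit 33344536565) (nat_lit 0) (nat_lit 18949279807) (nat_lit 6) (nat_lit 5) (nat_lit 8) (nat_lit 4) (nat_lit 6) (nat_lit 4) (nat_lit 491) (nat_lit 293) (nat_lit 236)) (XT.lf (nat_lit 0) (nat_lit 30217659568) (nat_lit 152) (nat_lit 24920609140) (nat_lit 0) (nat_lit 24227486766) (nat_lit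 6) (nat_lit 5) (nat_lit 8) (nat_lit 4) (nat_lit 6) (nat_lit 4) (nat_lit 492) (nat_lit 293) (nat_lit 235))))))))
noncomputable def xc16 : XT := (XT.nd (nat_lit 2184) (nat_lit 836) (nat_lit 0) (XT.nd (nat_lit 1092) (nat_lit 532) (nat_lit 0) (XT.nd (nat_lit 546) (nat_lit 456) (nat_lit 0) (XT.nd (nat_lit 234) (nat_lit 228) (nat_lit 0) (XT.nd (nat_lit 78) (nat_lit 152) (nat_lit 0) (XT.lf (nat_lit 0) (nat_lit 554693900) (nat_lit 152) (nat_lit 4293480414) (nat_lit 152) (nat_lit 4293480414) (nat_lit 35) (nat_lit 4) (nat_lit 37) (nat_lit 5) (nat_lit 37) (nat_lit 4) (nat_lit 432) (nat_lit 294) (nat_lit 294)) (XT.nd (nat_lit 78) (nat_lit 152) (nat_lit 0) (XT.lf (nat_lit 0) (nat_lit 12883207850) (nat_lit 152) (nat_lit 3027915281) (nat_lit 152) (nat_lit 2733367342) (nat_lit 35) (nat_lit 4) (nat_lit 37) (nat_lit 5) (nat_lit 37) (nat_lit 4) (nat_lit 433) (nat_lit 294) (nat_lit 293)) (XT.lf (nat_lit 0) (nat_lit 3191966303)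 (nat_lit 152) (nat_lit 13196428426) (nat_lit 0) (nat_lit 2628357748) (nat_lit 33) (nat_lit 5) (nat_lit 35) (nat_lit 4) (nat_lit 33) (nat_lit 4) (nat_lit 434) (nat_lit 294) (nat_lit 292)))) (XT.nd (nat_lit 156) (nat_lit 152) (nat_lit 0) (XT.nd (nat_lit 78) (nat_lit 76) (nat_lit 0) (XT.lf (nat_lit 0) (nat_lit 9207659043) (nat_lit 152) (nat_lit 1818197007) (nat_lit 0) (nat_lit 8374497398) (nat_lit 33) (nat_lit 5) (nat_lit 35) (nat_lit 4) (nat_lit 33) (nat_lit 4) (nat_lit 435) (nat_lit 294) (nat_lit 291)) (XT.lf (nat_lit 0) (nat_lit 9871068294) (nat_lit 76) (nat_lit 5509975025) (nat_lit 76) (nat_lit 4415111351) (nat_lit 32) (nat_lit 4) (nat_lit 33) (nat_lit 5) (nat_lit 33) (nat_lit 4) (nat_lit 436) (nat_lit 294) (nat_lit 290))) (XT.nd (nat_lit 78) (nat_lit 0) (nat_lit 0) (XT.lf (nat_lit 0) (nat_lit 1422733720) (nat_lit 152) (nat_lit 18670074533) (nat_lit 0) (nat_lit 113080017) (nat_lit 30) (nat_lit 5) (nat_lit 32)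 (nat_lit 4) (nat_lit 30) (nat_lit 4) (nat_lit 437) (nat_lit 294) (nat_lit 289)) (XT.lf (nat_lit 0) (nat_lit 7385517065) (nat_lit 152) (nat_lit 7403568286) (nat_lit 0) (nat_lit 5836368934) (nat_lit 30) (nat_lit 5) (nat_lit 32) (nat_lit 4) (nat_lit 30) (nat_lit 4) (nat_lit 438) (nat_lit 294) (nat_lit 288))))) (XT.nd (nat_lit 234) (nat_lit 228) (nat_lit 0) (XT.nd (nat_lit 78) (nat_lit 152) (nat_lit 0) (XT.lf (nat_lit 0) (nat_lit 4063334091) (nat_lit 76) (nat_lit 9389095339) (nat_lit 76) (nat_lit 7607428344) (nat_lit 29) (nat_lit 4) (nat_lit 30) (nat_lit 5) (nat_lit 30) (nat_lit 4) (nat_lit 439) (nat_lit 294) (nat_lit 287)) (XT.nd (nat_lit 78) (nat_lit 152) (nat_lit 0) (XT.lf (nat_lit 0) (nat_lit 15811246455) (nat_lit 76) (nat_lit 3852301027) (nat_lit 76) (nat_lit 1844887563) (nat_lit 29) (nat_lit 4) (nat_lit 30) (nat_lit 5) (nat_lit 30) (nat_lit 4) (nat_lit 440) (nat_lit 294) (nat_lit 286)) (XT.lf (nat_lit 0) (nat_lit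 3973895869) (nat_lit 152) (nat_lit 16184342660) (nat_lit 0) (nat_lit 1812163060) (nat_lit 27) (nat_lit 5) (nat_lit 29) (nat_lit 4) (nat_lit 27) (nat_lit 4) (nat_lit 441) (nat_lit 294) (nat_lit 285)))) (XT.nd (nat_lit 156) (nat_lit 152) (nat_lit 0) (XT.nd (nat_lit 78) (nat_lit 76) (nat_lit 0) (XT.lf (nat_lit 0) (nat_lit 9916282946) (nat_lit 152) (nat_lit 4981859421) (nat_lit 0) (nat_lit 7547960139) (nat_lit 27) (nat_lit 5) (nat_lit 29) (nat_lit 4) (nat_lit 27) (nat_lit 4) (nat_lit 442) (nat_lit 294) (nat_lit 284)) (XT.lf (nat_lit 0) (nat_lit 6478286367) (nat_lit 76) (nat_lit 9514014848) (nat_lit 76) (nat_lit 6945119227) (nat_lit 26) (nat_lit 4) (nat_lit 27) (nat_lit 5) (nat_lit 27) (nat_lit 4) (nat_lit 443) (nat_lit 294) (nat_lit 283))) (XT.nd (nat_lit 78) (nat_lit 152) (nat_lit 0) (XT.lf (nat_lit 0) (nat_lit 18181541219) (nat_lit 76) (nat_lit 4013616528) (nat_lit 76) (nat_lit 1249990020) (nat_lit 26) (nat_lit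 4) (nat_lit 27) (nat_lit 5) (nat_lit 27) (nat_lit 4) (nat_lit 444) (nat_lit 294) (nat_lit 282)) (XT.lf (nat_lit 0) (nat_lit 4497275660) (nat_lit 152) (nat_lit 17839774995) (nat_lit 0) (nat_lit 1630590590) (nat_lit 24) (nat_lit 5) (nat_lit 26) (nat_lit 4) (nat_lit 24) (nat_lit 4) (nat_lit 445) (nat_lit 294) (nat_lit 281)))))) (XT.nd (nat_lit 546) (nat_lit 228) (nat_lit 0) (XT.nd (nat_lit 234) (nat_lit 228) (nat_lit 0) (XT.nd (nat_lit 78) (nat_lit 76) (nat_lit 0) (XT.lf (nat_lit 0) (nat_lit 10381779007) (nat_lit 152) (nat_lit 6787079372) (nat_lit 0) (nat_lit 7336887590) (nat_lit 24) (nat_lit 5) (nat_lit 26) (nat_lit 4) (nat_lit 24) (nat_lit 4) (nat_lit 446) (nat_lit 294) (nat_lit 280)) (XT.nd (nat_lit 78) (nat_lit 0) (nat_lit 0) (XT.lf (nat_lit 0) (nat_lit 4491438110) (nat_lit 76) (nat_lit 11894093715) (nat_lit 76) (nat_lit 8676186426) (nat_lit 23) (nat_lit 4) (nat_lit 24) (nat_lit 5) (nat_lit 24) (nat_lit 4)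 (nat_lit 447) (nat_lit 294) (nat_lit 279)) (XT.lf (nat_lit 0) (nat_lit 16055932555) (nat_lit 76) (nat_lit 6482625924) (nat_lit 76) (nat_lit 3096742062) (nat_lit 23) (nat_lit 4) (nat_lit 24) (nat_lit 5) (nat_lit 24) (nat_lit 4) (nat_lit 448) (nat_lit 294) (nat_lit 278)))) (XT.nd (nat_lit 156) (nat_lit 76) (nat_lit 0) (XT.nd (nat_lit 78) (nat_lit 0) (nat_lit 0) (XT.lf (nat_lit 0) (nat_lit 1558332178) (nat_lit 76) (nat_lit 957579197) (nat_lit 152) (nat_lit 23711893896) (nat_lit 21) (nat_lit 5) (nat_lit 22) (nat_lit 5) (nat_lit 23) (nat_lit 4) (nat_lit 449) (nat_lit 294) (nat_lit 277)) (XT.lf (nat_lit 0) (nat_lit 8280639126) (nat_lit 152) (nat_lit 13873836455) (nat_lit 0) (nat_lit 4681316848) (nat_lit 21) (nat_lit 5) (nat_lit 23) (nat_lit 4) (nat_lit 21) (nat_lit 4) (nat_lit 450) (nat_lit 294) (nat_lit 276))) (XT.nd (nat_lit 78) (nat_lit 76) (nat_lit 0) (XT.lf (nat_lit 0) (nat_lit 14133369281) (nat_lit 152) (nat_lit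 2946401154) (nat_lit 0) (nat_lit 10384801993) (nat_lit 21) (nat_lit 5) (nat_lit 23) (nat_lit 4) (nat_lit 21) (nat_lit 4) (nat_lit 451) (nat_lit 294) (nat_lit 275)) (XT.lf (nat_lit 0) (nat_lit 8293420392) (nat_lit 76) (nat_lit 11856312078) (nat_lit 76) (nat_lit 7962846722) (nat_lit 20) (nat_lit 4) (nat_lit 21) (nat_lit 5) (nat_lit 21) (nat_lit 4) (nat_lit 452) (nat_lit 294) (nat_lit 274))))) (XT.nd (nat_lit 234) (nat_lit 76) (nat_lit 0) (XT.nd (nat_lit 78) (nat_lit 152) (nat_lit 0) (XT.lf (nat_lit 0) (nat_lit 19755301559) (nat_lit 76) (nat_lit 6530350244) (nat_lit 76) (nat_lit 2496207152) (nat_lit 20) (nat_lit 4) (nat_lit 21) (nat_lit 5) (nat_lit 21) (nat_lit 4) (nat_lit 453) (nat_lit 294) (nat_lit 273)) (XT.nd (nat_lit 78) (nat_lit 0) (nat_lit 0) (XT.lf (nat_lit 0) (nat_lit 1925061912) (nat_lit 76) (nat_lit 1077788004) (nat_lit 152) (nat_lit 26469580305) (nat_lit 18) (nat_lit 5) (nat_lit 19) (nat_lit 5) (nat_lit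 20) (nat_lit 4) (nat_lit 454) (nat_lit 294) (nat_lit 272)) (XT.lf (nat_lit 0) (nat_lit 8663620895) (nat_lit 152) (nat_lit 17032318426) (nat_lit 0) (nat_lit 4485634801) (nat_lit 18) (nat_lit 5) (nat_lit 20) (nat_lit 4) (nat_lit 18) (nat_lit 4) (nat_lit 455) (nat_lit 294) (nat_lit 271)))) (XT.nd (nat_lit 156) (nat_lit 0) (nat_lit 0) (XT.nd (nat_lit 78) (nat_lit 76) (nat_lit 0) (XT.lf (nat_lit 0) (nat_lit 14418706630) (nat_lit 152) (nat_lit 6379824998) (nat_lit 0) (nat_lit 10115730189) (nat_lit 18) (nat_lit 5) (nat_lit 20) (nat_lit 4) (nat_lit 18) (nat_lit 4) (nat_lit 456) (nat_lit 294) (nat_lit 270)) (XT.lf (nat_lit 0) (nat_lit 4517941650) (nat_lit 76) (nat_lit 15788263046) (nat_lit 76) (nat_lit 11363936754) (nat_lit 17) (nat_lit 4) (nat_lit 18) (nat_lit 5) (nat_lit 18) (nat_lit 4) (nat_lit 457) (nat_lit 294) (nat_lit 269))) (XT.nd (nat_lit 78) (nat_lit 0) (nat_lit 0) (XT.lf (nat_lit 0) (nat_lit 15712551334) (nat_lit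 76) (nat_lit 10639421229) (nat_lit 76) (nat_lit 6097279547) (nat_lit 17) (nat_lit 4) (nat_lit 18) (nat_lit 5) (nat_lit 18) (nat_lit 4) (nat_lit 458) (nat_lit 294) (nat_lit 268)) (XT.lf (nat_lit 0) (nat_lit 27086814724) (nat_lit 76) (nat_lit 5411930910) (nat_lit 76) (nat_lit 755405356) (nat_lit 17) (nat_lit 4) (nat_lit 18) (nat_lit 5) (nat_lit 18) (nat_lit 4) (nat_lit 459) (nat_lit 294) (nat_lit 267))))))) (XT.nd (nat_lit 1092) (nat_lit 380) (nat_lit 0) (XT.nd (nat_lit 546) (nat_lit 152) (nat_lit 0) (XT.nd (nat_lit 234) (nat_lit 152) (nat_lit 0) (XT.nd (nat_lit 78) (nat_lit 0) (nat_lit 0) (XT.lf (nat_lit 0) (nat_lit 4610235550) (nat_lit 76) (nat_lit 9376966) (nat_lit 152) (nat_lit 29463253717) (nat_lit 15) (nat_lit 5) (nat_lit 16) (nat_lit 5) (nat_lit 17) (nat_lit 4) (nat_lit 460) (nat_lit 294) (nat_lit 266)) (XT.nd (nat_lit 78) (nat_lit 0) (nat_lit 0) (XT.lf (nat_lit 0) (nat_lit 10178318022) (nat_lit 152) (nat_lit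 19311851264) (nat_lit 0) (nat_lit 5444924208) (nat_lit 15) (nat_lit 5) (nat_lit 17) (nat_lit 4) (nat_lit 15) (nat_lit 4) (nat_lit 461) (nat_lit 294) (nat_lit 265)) (XT.lf (nat_lit 0) (nat_lit 15827493926) (nat_lit 152) (nat_lit 8995214282) (nat_lit 0) (nat_lit 10992471522) (nat_lit 15) (nat_lit 5) (nat_lit 17) (nat_lit 4) (nat_lit 15) (nat_lit 4) (nat_lit 462) (nat_lit 294) (nat_lit 264)))) (XT.nd (nat_lit 156) (nat_lit 76) (nat_lit 0) (XT.nd (nat_lit 78) (nat_lit 0) (nat_lit 0) (XT.lf (nat_lit 0) (nat_lit 1515966909) (nat_lit 76) (nat_lit 20070591755) (nat_lit 76) (nat_lit 15136900817) (nat_lit 14) (nat_lit 4) (nat_lit 15) (nat_lit 5) (nat_lit 15) (nat_lit 4) (nat_lit 463) (nat_lit 294) (nat_lit 263)) (XT.lf (nat_lit 0) (nat_lit 12383756766) (nat_lit 76) (nat_lit 15152097973) (nat_lit 76) (nat_lit 10122612342) (nat_lit 14) (nat_lit 4) (nat_lit 15) (nat_lit 5) (nat_lit 15) (nat_lit 4) (nat_lit 464) (nat_lit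 294) (nat_lit 262))) (XT.nd (nat_lit 78) (nat_lit 76) (nat_lit 0) (XT.lf (nat_lit 0) (nat_lit 23438629013) (nat_lit 76) (nat_lit 10153763176) (nat_lit 76) (nat_lit 5031272988) (nat_lit 14) (nat_lit 4) (nat_lit 15) (nat_lit 5) (nat_lit 15) (nat_lit 4) (nat_lit 465) (nat_lit 294) (nat_lit 261)) (XT.lf (nat_lit 0) (nat_lit 138803523) (nat_lit 152) (nat_lit 4931014720) (nat_lit 76) (nat_lit 34550038080) (nat_lit 13) (nat_lit 5) (nat_lit 15) (nat_lit 5) (nat_lit 14) (nat_lit 4) (nat_lit 466) (nat_lit 294) (nat_lit 260))))) (XT.nd (nat_lit 234) (nat_lit 76) (nat_lit 0) (XT.nd (nat_lit 78) (nat_lit 0) (nat_lit 0) (XT.lf (nat_lit 0) (nat_lit 5350463186) (nat_lit 152) (nat_lit 35089956640) (nat_lit 0) (nat_lit 204393683) (nat_lit 12) (nat_lit 5) (nat_lit 14) (nat_lit 4) (nat_lit 12) (nat_lit 4) (nat_lit 467) (nat_lit 294) (nat_lit 259)) (XT.nd (nat_lit 78) (nat_lit 0) (nat_lit 0) (XT.lf (nat_lit 0) (nat_lit 10751240668)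 (nat_lit 152) (nat_lit 25425760672) (nat_lit 0) (nat_lit 5522537822) (nat_lit 12) (nat_lit 5) (nat_lit 14) (nat_lit 4) (nat_lit 12) (nat_lit 4) (nat_lit 468) (nat_lit 294) (nat_lit 258)) (XT.lf (nat_lit 0) (nat_lit 16248298974) (nat_lit 152) (nat_lit 15600213016) (nat_lit 0) (nat_lit 10939369581) (nat_lit 12) (nat_lit 5) (nat_lit 14) (nat_lit 4) (nat_lit 12) (nat_lit 4) (nat_lit 469) (nat_lit 294) (nat_lit 257)))) (XT.nd (nat_lit 156) (nat_lit 0) (nat_lit 0) (XT.nd (nat_lit 78) (nat_lit 76) (nat_lit 0) (XT.lf (nat_lit 0) (nat_lit 21846441358) (nat_lit 152) (nat_lit 5604728243) (nat_lit 0) (nat_lit 16459622113) (nat_lit 12) (nat_lit 5) (nat_lit 14) (nat_lit 4) (nat_lit 12) (nat_lit 4) (nat_lit 470) (nat_lit 294) (nat_lit 256)) (XT.lf (nat_lit 0) (nat_lit 4660368133) (nat_lit 76) (nat_lit 22934989577) (nat_lit 76) (nat_lit 17472549117) (nat_lit 11) (nat_lit 4) (nat_lit 12) (nat_lit 5) (nat_lit 12) (nat_lit 4)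 (nat_lit 471) (nat_lit 294) (nat_lit 255))) (XT.nd (nat_lit 78) (nat_lit 0) (nat_lit 0) (XT.lf (nat_lit 0) (nat_lit 15228303500) (nat_lit 76) (nat_lit 18283717553) (nat_lit 76) (nat_lit 12747858437) (nat_lit 11) (nat_lit 4) (nat_lit 12) (nat_lit 5) (nat_lit 12) (nat_lit 4) (nat_lit 472) (nat_lit 294) (nat_lit 254)) (XT.lf (nat_lit 0) (nat_lit 25996766894) (nat_lit 76) (nat_lit 13549886077) (nat_lit 76) (nat_lit 7942746713) (nat_lit 11) (nat_lit 4) (nat_lit 12) (nat_lit 5) (nat_lit 12) (nat_lit 4) (nat_lit 473) (nat_lit 294) (nat_lit 253)))))) (XT.nd (nat_lit 546) (nat_lit 228) (nat_lit 0) (XT.nd (nat_lit 234) (nat_lit 0) (nat_lit 0) (XT.nd (nat_lit 78) (nat_lit 152) (nat_lit 0) (XT.lf (nat_lit 0) (nat_lit 36975167651) (nat_lit 76) (nat_lit 8729358790) (nat_lit 76) (nat_lit 3053015301) (nat_lit 11) (nat_lit 4) (nat_lit 12) (nat_lit 5) (nat_lit 12) (nat_lit 4) (nat_lit 474) (nat_lit 294) (nat_lit 252)) (XT.nd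 (nat_lit 78) (nat_lit 76) (nat_lit 0) (XT.lf (nat_lit 0) (nat_lit 1888032821) (nat_lit 152) (nat_lit 1910825331) (nat_lit 76) (nat_lit 46266000297) (nat_lit 10) (nat_lit 5) (nat_lit 12) (nat_lit 5) (nat_lit 11) (nat_lit 4) (nat_lit 475) (nat_lit 294) (nat_lit 251)) (XT.lf (nat_lit 0) (nat_lit 6953406604) (nat_lit 152) (nat_lit 43142129247) (nat_lit 0) (nat_lit 1313830407) (nat_lit 9) (nat_lit 5) (nat_lit 11) (nat_lit 4) (nat_lit 9) (nat_lit 4) (nat_lit 476) (nat_lit 294) (nat_lit 250)))) (XT.nd (nat_lit 156) (nat_lit 0) (nat_lit 0) (XT.nd (nat_lit 78) (nat_lit 0) (nat_lit 0) (XT.lf (nat_lit 0) (nat_lit 12172894794) (nat_lit 152) (nat_lit 34149420361) (nat_lit 0) (nat_lit 6471831628) (nat_lit 9) (nat_lit 5) (nat_lit 11) (nat_lit 4) (nat_lit 9) (nat_lit 4) (nat_lit 477) (nat_lit 294) (nat_lit 249)) (XT.lf (nat_lit 0) (nat_lit 17495622096) (nat_lit 152) (nat_lit 24991588166) (nat_lit 0) (nat_lit 11734862845) (nat_lit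 9) (nat_lit 5) (nat_lit 11) (nat_lit 4) (nat_lit 9) (nat_lit 4) (nat_lit 478) (nat_lit 294) (nat_lit 248))) (XT.nd (nat_lit 78) (nat_lit 0) (nat_lit 0) (XT.lf (nat_lit 0) (nat_lit 22926239439) (nat_lit 152) (nat_lit 15660630673) (nat_lit 0) (nat_lit 17107522823) (nat_lit 9) (nat_lit 5) (nat_lit 11) (nat_lit 4) (nat_lit 9) (nat_lit 4) (nat_lit 479) (nat_lit 294) (nat_lit 247)) (XT.lf (nat_lit 0) (nat_lit 28469492021) (nat_lit 152) (nat_lit 6148394616) (nat_lit 0) (nat_lit 22594506119) (nat_lit 9) (nat_lit 5) (nat_lit 11) (nat_lit 4) (nat_lit 9) (nat_lit 4) (nat_lit 480) (nat_lit 294) (nat_lit 246))))) (XT.nd (nat_lit 312) (nat_lit 152) (nat_lit 0) (XT.nd (nat_lit 156) (nat_lit 0) (nat_lit 0) (XT.nd (nat_lit 78) (nat_lit 0) (nat_lit 0) (XT.lf (nat_lit 0) (nat_lit 3624151922) (nat_lit 76) (nat_lit 30540909104) (nat_lit 76) (nat_lit 24611292828) (nat_lit 8) (nat_lit 4) (nat_lit 9) (nat_lit 5) (nat_lit 9) (nat_lit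 4) (nat_lit 481) (nat_lit 294) (nat_lit 245)) (XT.lf (nat_lit 0) (nat_lit 13721073051) (nat_lit 76) (nat_lit 26324202327) (nat_lit 76) (nat_lit 20341546851) (nat_lit 8) (nat_lit 4) (nat_lit 9) (nat_lit 5) (nat_lit 9) (nat_lit 4) (nat_lit 482) (nat_lit 294) (nat_lit 244))) (XT.nd (nat_lit 78) (nat_lit 0) (nat_lit 0) (XT.lf (nat_lit 0) (nat_lit 24028826214) (nat_lit 76) (nat_lit 22026168533) (nat_lit 76) (nat_lit 15992018690) (nat_lit 8) (nat_lit 4) (nat_lit 9) (nat_lit 5) (nat_lit 9) (nat_lit 4) (nat_lit 483) (nat_lit 294) (nat_lit 243)) (XT.lf (nat_lit 0) (nat_lit 34556418186) (nat_lit 76) (nat_lit 17643052161) (nat_lit 76) (nat_lit 11558907786) (nat_lit 8) (nat_lit 4) (nat_lit 9) (nat_lit 5) (nat_lit 9) (nat_lit 4) (nat_lit 484) (nat_lit 294) (nat_lit 242)))) (XT.nd (nat_lit 156) (nat_lit 152) (nat_lit 0) (XT.nd (nat_lit 78) (nat_lit 0) (nat_lit 0) (XT.lf (nat_lit 0) (nat_lit 45313047833) (nat_lit 76) (nat_lit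 13171023302) (nat_lit 76) (nat_lit 7038340547) (nat_lit 8) (nat_lit 4) (nat_lit 9) (nat_lit 5) (nat_lit 9) (nat_lit 4) (nat_lit 485) (nat_lit 294) (nat_lit 241)) (XT.lf (nat_lit 0) (nat_lit 56308114152) (nat_lit 76) (nat_lit 8606174359) (nat_lit 76) (nat_lit 2426366962) (nat_lit 8) (nat_lit 4) (nat_lit 9) (nat_lit 5) (nat_lit 9) (nat_lit 4) (nat_lit 486) (nat_lit 294) (nat_lit 240))) (XT.nd (nat_lit 78) (nat_lit 76) (nat_lit 0) (XT.lf (nat_lit 0) (nat_lit 2236531485) (nat_lit 152) (nat_lit 1685400560) (nat_lit 76) (nat_lit 65292108416) (nat_lit 7) (nat_lit 5) (nat_lit 9) (nat_lit 5) (nat_lit 8) (nat_lit 4) (nat_lit 487) (nat_lit 294) (nat_lit 239)) (XT.lf (nat_lit 0) (nat_lit 7035830518) (nat_lit 152) (nat_lit 63157246503) (nat_lit 0) (nat_lit 948472295) (nat_lit 6) (nat_lit 5) (nat_lit 8) (nat_lit 4) (nat_lit 6) (nat_lit 4) (nat_lit 488) (nat_lit 294) (nat_lit 238))))))))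
noncomputable def xc17 : XT := (XT.nd (nat_lit 50388) (nat_lit 0) (nat_lit 152) (XT.nd (nat_lit 49296) (nat_lit 0) (nat_lit 1064) (XT.nd (nat_lit 48750) (nat_lit 0) (nat_lit 1748) (XT.nd (nat_lit 234) (nat_lit 0) (nat_lit 0) (XT.nd (nat_lit 78) (nat_lit 0) (nat_lit 0) (XT.lf (nat_lit 0) (nat_lit 11994318919) (nat_lit 152) (nat_lit 55267018559) (nat_lit 0) (nat_lit 5865091063) (nat_lit 6) (nat_lit 5) (nat_lit 8) (nat_lit 4) (nat_lit 6) (nat_lit 4) (nat_lit 489) (nat_lit 294) (nat_lit 237)) (XT.nd (nat_lit 78) (nat_lit 0) (nat_lit 0) (XT.lf (nat_lit 0) (nat_lit 17061942202) (nat_lit 152) (nat_lit 47218037689) (nat_lit 0) (nat_lit 10892064217) (nat_lit 6) (nat_lit 5) (nat_lit 8) (nat_lit 4) (nat_lit 6) (nat_lit 4) (nat_lit 490) (nat_lit 294) (nat_lit 236)) (XT.lf (nat_lit 0) (nat_lit 22243128389) (nat_lit 152) (nat_lit 39003270803) (nat_lit 0) (nat_lit 16033784258) (nat_lit 6) (nat_lit 5) (nat_lit 8) (nat_lit 4)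 (nat_lit 6) (nat_lit 4) (nat_lit 491) (nat_lit 294) (nat_lit 235)))) (XT.nd (nat_lit 48360) (nat_lit 0) (nat_lit 2204) (XT.nd (nat_lit 48282) (nat_lit 0) (nat_lit 2508) (XT.lf (nat_lit 0) (nat_lit 27542404729) (nat_lit 152) (nat_lit 30615539950) (nat_lit 0) (nat_lit 21294743952) (nat_lit 6) (nat_lit 5) (nat_lit 8) (nat_lit 4) (nat_lit 6) (nat_lit 4) (nat_lit 492) (nat_lit 294) (nat_lit 234)) (XT.lf (nat_lit 0) (nat_lit 6836724284) (nat_lit 152) (nat_lit 979772133) (nat_lit 152) (nat_lit 979772133) (nat_lit 39) (nat_lit 4) (nat_lit 41) (nat_lit 5) (nat_lit 41) (nat_lit 4) (nat_lit 430) (nat_lit 295) (nat_lit 295))) (XT.nd (nat_lit 78) (nat_lit 152) (nat_lit 0) (XT.lf (nat_lit 0) (nat_lit 3947043542) (nat_lit 152) (nat_lit 10342523073) (nat_lit 0) (nat_lit 3643659165) (nat_lit 37) (nat_lit 5) (nat_lit 39) (nat_lit 4) (nat_lit 37) (nat_lit 4) (nat_lit 431) (nat_lit 295) (nat_lit 294)) (XT.lf (nat_lit 0) (nat_lit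 994284483) (nat_lit 152) (nat_lit 8944396873) (nat_lit 152) (nat_lit 8346464557) (nat_lit 35) (nat_lit 4) (nat_lit 37) (nat_lit 5) (nat_lit 37) (nat_lit 4) (nat_lit 432) (nat_lit 295) (nat_lit 293))))) (XT.nd (nat_lit 234) (nat_lit 304) (nat_lit 0) (XT.nd (nat_lit 78) (nat_lit 152) (nat_lit 0) (XT.lf (nat_lit 0) (nat_lit 12656353739) (nat_lit 152) (nat_lit 3437828672) (nat_lit 152) (nat_lit 2553927482) (nat_lit 35) (nat_lit 4) (nat_lit 37) (nat_lit 5) (nat_lit 37) (nat_lit 4) (nat_lit 433) (nat_lit 295) (nat_lit 292)) (XT.nd (nat_lit 78) (nat_lit 0) (nat_lit 0) (XT.lf (nat_lit 0) (nat_lit 3301979942) (nat_lit 152) (nat_lit 13546052079) (nat_lit 0) (nat_lit 2174270357) (nat_lit 33) (nat_lit 5) (nat_lit 35) (nat_lit 4) (nat_lit 33) (nat_lit 4) (nat_lit 434) (nat_lit 295) (nat_lit 291)) (XT.lf (nat_lit 0) (nat_lit 9259709138) (nat_lit 152) (nat_lit 2277639949) (nat_lit 0) (nat_lit 7870297525) (nat_lit 33) (nat_lit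 5) (nat_lit 35) (nat_lit 4) (nat_lit 33) (nat_lit 4) (nat_lit 435) (nat_lit 295) (nat_lit 290)))) (XT.nd (nat_lit 156) (nat_lit 76) (nat_lit 0) (XT.nd (nat_lit 78) (nat_lit 152) (nat_lit 0) (XT.lf (nat_lit 0) (nat_lit 9293738908) (nat_lit 76) (nat_lit 6077529579) (nat_lit 76) (nat_lit 4434038326) (nat_lit 32) (nat_lit 4) (nat_lit 33) (nat_lit 5) (nat_lit 33) (nat_lit 4) (nat_lit 436) (nat_lit 295) (nat_lit 289)) (XT.lf (nat_lit 0) (nat_lit 830166055) (nat_lit 76) (nat_lit 509901220) (nat_lit 152) (nat_lit 18876905847) (nat_lit 30) (nat_lit 5) (nat_lit 31) (nat_lit 5) (nat_lit 32) (nat_lit 4) (nat_lit 437) (nat_lit 295) (nat_lit 288))) (XT.nd (nat_lit 78) (nat_lit 76) (nat_lit 0) (XT.lf (nat_lit 0) (nat_lit 7241883260) (nat_lit 152) (nat_lit 8222241377) (nat_lit 0) (nat_lit 5174247392) (nat_lit 30) (nat_lit 5) (nat_lit 32) (nat_lit 4) (nat_lit 30) (nat_lit 4) (nat_lit 438) (nat_lit 295) (nat_lit 287)) (XT.lf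 (nat_lit 0) (nat_lit 3122573230) (nat_lit 76) (nat_lit 10122746332) (nat_lit 76) (nat_lit 7829363995) (nat_lit 29) (nat_lit 4) (nat_lit 30) (nat_lit 5) (nat_lit 30) (nat_lit 4) (nat_lit 439) (nat_lit 295) (nat_lit 286)))))) (XT.nd (nat_lit 546) (nat_lit 304) (nat_lit 0) (XT.nd (nat_lit 234) (nat_lit 228) (nat_lit 0) (XT.nd (nat_lit 78) (nat_lit 152) (nat_lit 0) (XT.lf (nat_lit 0) (nat_lit 14767772421) (nat_lit 76) (nat_lit 4634830385) (nat_lit 76) (nat_lit 2122276719) (nat_lit 29) (nat_lit 4) (nat_lit 30) (nat_lit 5) (nat_lit 30) (nat_lit 4) (nat_lit 440) (nat_lit 295) (nat_lit 285)) (XT.nd (nat_lit 78) (nat_lit 0) (nat_lit 0) (XT.lf (nat_lit 0) (nat_lit 3629656343) (nat_lit 152) (nat_lit 17375747199) (nat_lit 0) (nat_lit 983693853) (nat_lit 27) (nat_lit 5) (nat_lit 29) (nat_lit 4) (nat_lit 27) (nat_lit 4) (nat_lit 441) (nat_lit 295) (nat_lit 284)) (XT.lf (nat_lit 0) (nat_lit 9519376587) (nat_lit 152) (nat_lit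 6274163787) (nat_lit 0) (nat_lit 6672841283) (nat_lit 27) (nat_lit 5) (nat_lit 29) (nat_lit 4) (nat_lit 27) (nat_lit 4) (nat_lit 442) (nat_lit 295) (nat_lit 283)))) (XT.nd (nat_lit 156) (nat_lit 152) (nat_lit 0) (XT.nd (nat_lit 78) (nat_lit 0) (nat_lit 0) (XT.lf (nat_lit 0) (nat_lit 5060351997) (nat_lit 76) (nat_lit 10470279959) (nat_lit 76) (nat_lit 7429013768) (nat_lit 26) (nat_lit 4) (nat_lit 27) (nat_lit 5) (nat_lit 27) (nat_lit 4) (nat_lit 443) (nat_lit 295) (nat_lit 282)) (XT.lf (nat_lit 0) (nat_lit 16666606254) (nat_lit 76) (nat_lit 5016306263) (nat_lit 76) (nat_lit 1785980958) (nat_lit 26) (nat_lit 4) (nat_lit 27) (nat_lit 5) (nat_lit 27) (nat_lit 4) (nat_lit 444) (nat_lit 295) (nat_lit 281))) (XT.nd (nat_lit 78) (nat_lit 0) (nat_lit 0) (XT.lf (nat_lit 0) (nat_lit 3895898550) (nat_lit 152) (nat_lit 19516467255) (nat_lit 0) (nat_lit 581454043) (nat_lit 24) (nat_lit 5) (nat_lit 26) (nat_lit 4) (nat_lit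 24) (nat_lit 4) (nat_lit 445) (nat_lit 295) (nat_lit 280)) (XT.lf (nat_lit 0) (nat_lit 9730914173) (nat_lit 152) (nat_lit 8559044116) (nat_lit 0) (nat_lit 6243453795) (nat_lit 24) (nat_lit 5) (nat_lit 26) (nat_lit 4) (nat_lit 24) (nat_lit 4) (nat_lit 446) (nat_lit 295) (nat_lit 279))))) (XT.nd (nat_lit 234) (nat_lit 152) (nat_lit 0) (XT.nd (nat_lit 78) (nat_lit 76) (nat_lit 0) (XT.lf (nat_lit 0) (nat_lit 2589869352) (nat_lit 76) (nat_lit 13078472262) (nat_lit 76) (nat_lit 9423035310) (nat_lit 23) (nat_lit 4) (nat_lit 24) (nat_lit 5) (nat_lit 24) (nat_lit 4) (nat_lit 447) (nat_lit 295) (nat_lit 278)) (XT.nd (nat_lit 78) (nat_lit 76) (nat_lit 0) (XT.lf (nat_lit 0) (nat_lit 14062773078) (nat_lit 76) (nat_lit 7711067838) (nat_lit 76) (nat_lit 3892546834) (nat_lit 23) (nat_lit 4) (nat_lit 24) (nat_lit 5) (nat_lit 24) (nat_lit 4) (nat_lit 448) (nat_lit 295) (nat_lit 277)) (XT.lf (nat_lit 0) (nat_lit 1674053472) (nat_lit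 152) (nat_lit 578526487) (nat_lit 76) (nat_lit 24008392037) (nat_lit 22) (nat_lit 5) (nat_lit 24) (nat_lit 5) (nat_lit 23) (nat_lit 4) (nat_lit 449) (nat_lit 295) (nat_lit 276)))) (XT.nd (nat_lit 156) (nat_lit 76) (nat_lit 0) (XT.nd (nat_lit 78) (nat_lit 0) (nat_lit 0) (XT.lf (nat_lit 0) (nat_lit 7374092380) (nat_lit 152) (nat_lit 16132986861) (nat_lit 0) (nat_lit 3363823063) (nat_lit 21) (nat_lit 5) (nat_lit 23) (nat_lit 4) (nat_lit 21) (nat_lit 4) (nat_lit 450) (nat_lit 295) (nat_lit 275)) (XT.lf (nat_lit 0) (nat_lit 13181664752) (nat_lit 152) (nat_lit 5292877331) (nat_lit 0) (nat_lit 9026497367) (nat_lit 21) (nat_lit 5) (nat_lit 23) (nat_lit 4) (nat_lit 21) (nat_lit 4) (nat_lit 451) (nat_lit 295) (nat_lit 274))) (XT.nd (nat_lit 78) (nat_lit 0) (nat_lit 0) (XT.lf (nat_lit 0) (nat_lit 5813775102) (nat_lit 76) (nat_lit 13316574463) (nat_lit 76) (nat_lit 9020729342) (nat_lit 20) (nat_lit 4) (nat_lit 21) (nat_lit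 5) (nat_lit 21) (nat_lit 4) (nat_lit 452) (nat_lit 295) (nat_lit 273)) (XT.lf (nat_lit 0) (nat_lit 17191705166) (nat_lit 76) (nat_lit 8031191201) (nat_lit 76) (nat_lit 3598765753) (nat_lit 20) (nat_lit 4) (nat_lit 21) (nat_lit 5) (nat_lit 21) (nat_lit 4) (nat_lit 453) (nat_lit 295) (nat_lit 272))))))) (XT.nd (nat_lit 1092) (nat_lit 304) (nat_lit 0) (XT.nd (nat_lit 546) (nat_lit 228) (nat_lit 0) (XT.nd (nat_lit 234) (nat_lit 228) (nat_lit 0) (XT.nd (nat_lit 78) (nat_lit 76) (nat_lit 0) (XT.lf (nat_lit 0) (nat_lit 1860772990) (nat_lit 152) (nat_lit 787658535) (nat_lit 76) (nat_lit 26865952954) (nat_lit 19) (nat_lit 5) (nat_lit 21) (nat_lit 5) (nat_lit 20) (nat_lit 4) (nat_lit 454) (nat_lit 295) (nat_lit 271)) (XT.nd (nat_lit 78) (nat_lit 0) (nat_lit 0) (XT.lf (nat_lit 0) (nat_lit 7456194407) (nat_lit 152) (nat_lit 19870158216) (nat_lit 0) (nat_lit 2899138326) (nat_lit 18) (nat_lit 5) (nat_lit 20) (nat_lit 4) (nat_lit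 18) (nat_lit 4) (nat_lit 455) (nat_lit 295) (nat_lit 270)) (XT.lf (nat_lit 0) (nat_lit 13170063659) (nat_lit 152) (nat_lit 9297695771) (nat_lit 0) (nat_lit 8491657727) (nat_lit 18) (nat_lit 5) (nat_lit 20) (nat_lit 4) (nat_lit 18) (nat_lit 4) (nat_lit 456) (nat_lit 295) (nat_lit 269)))) (XT.nd (nat_lit 156) (nat_lit 152) (nat_lit 0) (XT.nd (nat_lit 78) (nat_lit 0) (nat_lit 0) (XT.lf (nat_lit 0) (nat_lit 1462753161) (nat_lit 76) (nat_lit 17525424222) (nat_lit 76) (nat_lit 12729202901) (nat_lit 17) (nat_lit 4) (nat_lit 18) (nat_lit 5) (nat_lit 18) (nat_lit 4) (nat_lit 457) (nat_lit 295) (nat_lit 268)) (XT.lf (nat_lit 0) (nat_lit 12580424626) (nat_lit 76) (nat_lit 12413930559) (nat_lit 76) (nat_lit 7503325365) (nat_lit 17) (nat_lit 4) (nat_lit 18) (nat_lit 5) (nat_lit 18) (nat_lit 4) (nat_lit 458) (nat_lit 295) (nat_lit 267))) (XT.nd (nat_lit 78) (nat_lit 152) (nat_lit 0) (XT.lf (nat_lit 0) (nat_lit 23879990716)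 (nat_lit 76) (nat_lit 7222700585) (nat_lit 76) (nat_lit 2201043087) (nat_lit 17) (nat_lit 4) (nat_lit 18) (nat_lit 5) (nat_lit 18) (nat_lit 4) (nat_lit 459) (nat_lit 295) (nat_lit 266)) (XT.lf (nat_lit 0) (nat_lit 1228460413) (nat_lit 76) (nat_lit 1903527607) (nat_lit 152) (nat_lit 31002986135) (nat_lit 15) (nat_lit 5) (nat_lit 16) (nat_lit 5) (nat_lit 17) (nat_lit 4) (nat_lit 460) (nat_lit 295) (nat_lit 265))))) (XT.nd (nat_lit 234) (nat_lit 228) (nat_lit 0) (XT.nd (nat_lit 78) (nat_lit 0) (nat_lit 0) (XT.lf (nat_lit 0) (nat_lit 8634858399) (nat_lit 152) (nat_lit 22800863031) (nat_lit 0) (nat_lit 3553156732) (nat_lit 15) (nat_lit 5) (nat_lit 17) (nat_lit 4) (nat_lit 15) (nat_lit 4) (nat_lit 461) (nat_lit 295) (nat_lit 264)) (XT.nd (nat_lit 78) (nat_lit 0) (nat_lit 0) (XT.lf (nat_lit 0) (nat_lit 14247502853) (nat_lit 152) (nat_lit 12555426479) (nat_lit 0) (nat_lit 9067132652) (nat_lit 15) (nat_lit 5) (nat_lit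 17) (nat_lit 4) (nat_lit 15) (nat_lit 4) (nat_lit 462) (nat_lit 295) (nat_lit 263)) (XT.lf (nat_lit 0) (nat_lit 19956527763) (nat_lit 152) (nat_lit 2142953893) (nat_lit 0) (nat_lit 14680362870) (nat_lit 15) (nat_lit 5) (nat_lit 17) (nat_lit 4) (nat_lit 15) (nat_lit 4) (nat_lit 463) (nat_lit 295) (nat_lit 262)))) (XT.nd (nat_lit 156) (nat_lit 152) (nat_lit 0) (XT.nd (nat_lit 78) (nat_lit 0) (nat_lit 0) (XT.lf (nat_lit 0) (nat_lit 8613738060) (nat_lit 76) (nat_lit 17235984057) (nat_lit 76) (nat_lit 11866814608) (nat_lit 14) (nat_lit 4) (nat_lit 15) (nat_lit 5) (nat_lit 15) (nat_lit 4) (nat_lit 464) (nat_lit 295) (nat_lit 261)) (XT.lf (nat_lit 0) (nat_lit 19602155046) (nat_lit 76) (nat_lit 12270034261) (nat_lit 76) (nat_lit 6810569126) (nat_lit 14) (nat_lit 4) (nat_lit 15) (nat_lit 5) (nat_lit 15) (nat_lit 4) (nat_lit 465) (nat_lit 295) (nat_lit 260))) (XT.nd (nat_lit 78) (nat_lit 152) (nat_lit 0) (XT.lf (nat_lit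 0) (nat_lit 30789249608) (nat_lit 76) (nat_lit 7218932721) (nat_lit 76) (nat_lit 1671801871) (nat_lit 14) (nat_lit 4) (nat_lit 15) (nat_lit 5) (nat_lit 15) (nat_lit 4) (nat_lit 466) (nat_lit 295) (nat_lit 259)) (XT.lf (nat_lit 0) (nat_lit 1470238125) (nat_lit 76) (nat_lit 2028521144) (nat_lit 152) (nat_lit 37208877245) (nat_lit 12) (nat_lit 5) (nat_lit 13) (nat_lit 5) (nat_lit 14) (nat_lit 4) (nat_lit 467) (nat_lit 295) (nat_lit 258)))))) (XT.nd (nat_lit 546) (nat_lit 228) (nat_lit 0) (XT.nd (nat_lit 234) (nat_lit 76) (nat_lit 0) (XT.nd (nat_lit 78) (nat_lit 0) (nat_lit 0) (XT.lf (nat_lit 0) (nat_lit 8847651898) (nat_lit 152) (nat_lit 29617040076) (nat_lit 0) (nat_lit 3299228075) (nat_lit 12) (nat_lit 5) (nat_lit 14) (nat_lit 4) (nat_lit 12) (nat_lit 4) (nat_lit 468) (nat_lit 295) (nat_lit 257)) (XT.nd (nat_lit 78) (nat_lit 0) (nat_lit 0) (XT.lf (nat_lit 0) (nat_lit 14313268001) (nat_lit 152) (nat_lit 19852984692)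 (nat_lit 0) (nat_lit 8686954327) (nat_lit 12) (nat_lit 5) (nat_lit 14) (nat_lit 4) (nat_lit 12) (nat_lit 4) (nat_lit 469) (nat_lit 295) (nat_lit 256)) (XT.lf (nat_lit 0) (nat_lit 19880883976) (nat_lit 152) (nat_lit 9917201154) (nat_lit 0) (nat_lit 14178949086) (nat_lit 12) (nat_lit 5) (nat_lit 14) (nat_lit 4) (nat_lit 12) (nat_lit 4) (nat_lit 470) (nat_lit 295) (nat_lit 255)))) (XT.nd (nat_lit 156) (nat_lit 0) (nat_lit 0) (XT.nd (nat_lit 78) (nat_lit 0) (nat_lit 0) (XT.lf (nat_lit 0) (nat_lit 202952626) (nat_lit 76) (nat_lit 25354363006) (nat_lit 76) (nat_lit 19579009461) (nat_lit 11) (nat_lit 4) (nat_lit 12) (nat_lit 5) (nat_lit 12) (nat_lit 4) (nat_lit 471) (nat_lit 295) (nat_lit 254)) (XT.lf (nat_lit 0) (nat_lit 10713493888) (nat_lit 76) (nat_lit 20731159311) (nat_lit 76) (nat_lit 14884525518) (nat_lit 11) (nat_lit 4) (nat_lit 12) (nat_lit 5) (nat_lit 12) (nat_lit 4) (nat_lit 472) (nat_lit 295) (nat_lit 253)))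 (XT.nd (nat_lit 78) (nat_lit 0) (nat_lit 0) (XT.lf (nat_lit 0) (nat_lit 21426234848) (nat_lit 76) (nat_lit 16024578639) (nat_lit 76) (nat_lit 10108740722) (nat_lit 11) (nat_lit 4) (nat_lit 12) (nat_lit 5) (nat_lit 12) (nat_lit 4) (nat_lit 473) (nat_lit 295) (nat_lit 252)) (XT.lf (nat_lit 0) (nat_lit 32350536156) (nat_lit 76) (nat_lit 11230508444) (nat_lit 76) (nat_lit 5247482057) (nat_lit 11) (nat_lit 4) (nat_lit 12) (nat_lit 5) (nat_lit 12) (nat_lit 4) (nat_lit 474) (nat_lit 295) (nat_lit 251))))) (XT.nd (nat_lit 312) (nat_lit 76) (nat_lit 0) (XT.nd (nat_lit 156) (nat_lit 0) (nat_lit 0) (XT.nd (nat_lit 78) (nat_lit 152) (nat_lit 0) (XT.lf (nat_lit 0) (nat_lit 43495943316) (nat_lit 76) (nat_lit 6344759734) (nat_lit 76) (nat_lit 296501822) (nat_lit 11) (nat_lit 4) (nat_lit 12) (nat_lit 5) (nat_lit 12) (nat_lit 4) (nat_lit 475) (nat_lit 295) (nat_lit 250)) (XT.lf (nat_lit 0) (nat_lit 3406285845) (nat_lit 76) (nat_lit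 1282322693) (nat_lit 152) (nat_lit 46795772148) (nat_lit 9) (nat_lit 5) (nat_lit 10) (nat_lit 5) (nat_lit 11) (nat_lit 4) (nat_lit 476) (nat_lit 295) (nat_lit 249))) (XT.nd (nat_lit 78) (nat_lit 0) (nat_lit 0) (XT.lf (nat_lit 0) (nat_lit 9869491671) (nat_lit 152) (nat_lit 39124615130) (nat_lit 0) (nat_lit 3876213557) (nat_lit 9) (nat_lit 5) (nat_lit 11) (nat_lit 4) (nat_lit 9) (nat_lit 4) (nat_lit 477) (nat_lit 295) (nat_lit 248)) (XT.lf (nat_lit 0) (nat_lit 15166705782) (nat_lit 152) (nat_lit 30016836958) (nat_lit 0) (nat_lit 9115470303) (nat_lit 9) (nat_lit 5) (nat_lit 11) (nat_lit 4) (nat_lit 9) (nat_lit 4) (nat_lit 478) (nat_lit 295) (nat_lit 247)))) (XT.nd (nat_lit 156) (nat_lit 76) (nat_lit 0) (XT.nd (nat_lit 78) (nat_lit 0) (nat_lit 0) (XT.lf (nat_lit 0) (nat_lit 20572553035) (nat_lit 152) (nat_lit 20734475603) (nat_lit 0) (nat_lit 14465048270) (nat_lit 9) (nat_lit 5) (nat_lit 11) (nat_lit 4) (nat_lit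 9) (nat_lit 4) (nat_lit 479) (nat_lit 295) (nat_lit 246)) (XT.lf (nat_lit 0) (nat_lit 26091756987) (nat_lit 152) (nat_lit 11269420265) (nat_lit 0) (nat_lit 19929621847) (nat_lit 9) (nat_lit 5) (nat_lit 11) (nat_lit 4) (nat_lit 9) (nat_lit 4) (nat_lit 480) (nat_lit 295) (nat_lit 245))) (XT.nd (nat_lit 78) (nat_lit 76) (nat_lit 0) (XT.lf (nat_lit 0) (nat_lit 31729140243) (nat_lit 152) (nat_lit 1613400505) (nat_lit 0) (nat_lit 25513965904) (nat_lit 9) (nat_lit 5) (nat_lit 11) (nat_lit 4) (nat_lit 9) (nat_lit 4) (nat_lit 481) (nat_lit 295) (nat_lit 244)) (XT.lf (nat_lit 0) (nat_lit 8406053351) (nat_lit 76) (nat_lit 29164379447) (nat_lit 76) (nat_lit 22897710740) (nat_lit 8) (nat_lit 4) (nat_lit 9) (nat_lit 5) (nat_lit 9) (nat_lit 4) (nat_lit 482) (nat_lit 295) (nat_lit 243))))))))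
noncomputable def xc18 : XT := (XT.nd (nat_lit 50232) (nat_lit 0) (nat_lit 380) (XT.nd (nat_lit 49140) (nat_lit 0) (nat_lit 1368) (XT.nd (nat_lit 546) (nat_lit 0) (nat_lit 0) (XT.nd (nat_lit 234) (nat_lit 152) (nat_lit 0) (XT.nd (nat_lit 78) (nat_lit 0) (nat_lit 0) (XT.lf (nat_lit 0) (nat_lit 18669770166) (nat_lit 76) (nat_lit 24887950794) (nat_lit 76) (nat_lit 18571287556) (nat_lit 8) (nat_lit 4) (nat_lit 9) (nat_lit 5) (nat_lit 9) (nat_lit 4) (nat_lit 483) (nat_lit 295) (nat_lit 242)) (XT.nd (nat_lit 78) (nat_lit 0) (nat_lit 0) (XT.lf (nat_lit 0) (nat_lit 29154608402) (nat_lit 76) (nat_lit 20525810286) (nat_lit 76) (nat_lit 14160608667) (nat_lit 8) (nat_lit 4) (nat_lit 9) (nat_lit 5) (nat_lit 9) (nat_lit 4) (nat_lit 484) (nat_lit 295) (nat_lit 241)) (XT.lf (nat_lit 0) (nat_lit 39869729568) (nat_lit 76) (nat_lit 16074146344) (nat_lit 76) (nat_lit 9661820084) (nat_lit 8) (nat_lit 4) (nat_lit 9) (nat_lit 5) (nat_lit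 9) (nat_lit 4) (nat_lit 485) (nat_lit 295) (nat_lit 240)))) (XT.nd (nat_lit 156) (nat_lit 152) (nat_lit 0) (XT.nd (nat_lit 78) (nat_lit 0) (nat_lit 0) (XT.lf (nat_lit 0) (nat_lit 50824496391) (nat_lit 76) (nat_lit 11529069164) (nat_lit 76) (nat_lit 5070990826) (nat_lit 8) (nat_lit 4) (nat_lit 9) (nat_lit 5) (nat_lit 9) (nat_lit 4) (nat_lit 486) (nat_lit 295) (nat_lit 239)) (XT.lf (nat_lit 0) (nat_lit 62028480998) (nat_lit 76) (nat_lit 6886607321) (nat_lit 76) (nat_lit 384109488) (nat_lit 8) (nat_lit 4) (nat_lit 9) (nat_lit 5) (nat_lit 9) (nat_lit 4) (nat_lit 487) (nat_lit 295) (nat_lit 238))) (XT.nd (nat_lit 78) (nat_lit 0) (nat_lit 0) (XT.lf (nat_lit 0) (nat_lit 2262031802) (nat_lit 76) (nat_lit 2076714678) (nat_lit 152) (nat_lit 66890589799) (nat_lit 6) (nat_lit 5) (nat_lit 7) (nat_lit 5) (nat_lit 8) (nat_lit 4) (nat_lit 488) (nat_lit 295) (nat_lit 237)) (XT.lf (nat_lit 0) (nat_lit 9257755102) (nat_lit 152)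 (nat_lit 61095514824) (nat_lit 0) (nat_lit 2862130648) (nat_lit 6) (nat_lit 5) (nat_lit 8) (nat_lit 4) (nat_lit 6) (nat_lit 4) (nat_lit 489) (nat_lit 295) (nat_lit 236))))) (XT.nd (nat_lit 48282) (nat_lit 0) (nat_lit 2356) (XT.nd (nat_lit 78) (nat_lit 0) (nat_lit 0) (XT.lf (nat_lit 0) (nat_lit 14306429718) (nat_lit 152) (nat_lit 53083816422) (nat_lit 0) (nat_lit 7871339118) (nat_lit 6) (nat_lit 5) (nat_lit 8) (nat_lit 4) (nat_lit 6) (nat_lit 4) (nat_lit 490) (nat_lit 295) (nat_lit 235)) (XT.nd (nat_lit 78) (nat_lit 0) (nat_lit 0) (XT.lf (nat_lit 0) (nat_lit 19469219140) (nat_lit 152) (nat_lit 44905246108) (nat_lit 0) (nat_lit 12995811895) (nat_lit 6) (nat_lit 5) (nat_lit 8) (nat_lit 4) (nat_lit 6) (nat_lit 4) (nat_lit 491) (nat_lit 295) (nat_lit 234)) (XT.lf (nat_lit 0) (nat_lit 24750634543) (nat_lit 152) (nat_lit 36552657556) (nat_lit 0) (nat_lit 18240026671) (nat_lit 6) (nat_lit 5) (nat_lit 8) (nat_lit 4)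 (nat_lit 6) (nat_lit 4) (nat_lit 492) (nat_lit 295) (nat_lit 233)))) (XT.nd (nat_lit 156) (nat_lit 152) (nat_lit 0) (XT.nd (nat_lit 78) (nat_lit 152) (nat_lit 0) (XT.lf (nat_lit 0) (nat_lit 1927336759) (nat_lit 152) (nat_lit 4614453445) (nat_lit 0) (nat_lit 1927336759) (nat_lit 41) (nat_lit 5) (nat_lit 43) (nat_lit 4) (nat_lit 41) (nat_lit 4) (nat_lit 428) (nat_lit 296) (nat_lit 296)) (XT.lf (nat_lit 0) (nat_lit 2016407999) (nat_lit 152) (nat_lit 7783240943) (nat_lit 152) (nat_lit 7461380457) (nat_lit 39) (nat_lit 4) (nat_lit 41) (nat_lit 5) (nat_lit 41) (nat_lit 4) (nat_lit 429) (nat_lit 296) (nat_lit 295))) (XT.nd (nat_lit 78) (nat_lit 152) (nat_lit 0) (XT.lf (nat_lit 0) (nat_lit 13561975452) (nat_lit 152) (nat_lit 2333349549) (nat_lit 152) (nat_lit 1699003154) (nat_lit 39) (nat_lit 4) (nat_lit 41) (nat_lit 5) (nat_lit 41) (nat_lit 4) (nat_lit 430) (nat_lit 296) (nat_lit 294)) (XT.lf (nat_lit 0) (nat_lit 4137840679)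 (nat_lit 152) (nat_lit 10571623265) (nat_lit 0) (nat_lit 3227422454) (nat_lit 37) (nat_lit 5) (nat_lit 39) (nat_lit 4) (nat_lit 37) (nat_lit 4) (nat_lit 431) (nat_lit 296) (nat_lit 293)))))) (XT.nd (nat_lit 546) (nat_lit 456) (nat_lit 0) (XT.nd (nat_lit 234) (nat_lit 228) (nat_lit 0) (XT.nd (nat_lit 78) (nat_lit 152) (nat_lit 0) (XT.lf (nat_lit 0) (nat_lit 648873954) (nat_lit 152) (nat_lit 9419085012) (nat_lit 152) (nat_lit 8222697913) (nat_lit 35) (nat_lit 4) (nat_lit 37) (nat_lit 5) (nat_lit 37) (nat_lit 4) (nat_lit 432) (nat_lit 296) (nat_lit 292)) (XT.nd (nat_lit 78) (nat_lit 152) (nat_lit 0) (XT.lf (nat_lit 0) (nat_lit 12202447293) (nat_lit 152) (nat_lit 3963465690) (nat_lit 152) (nat_lit 2489438909) (nat_lit 35) (nat_lit 4) (nat_lit 37) (nat_lit 5) (nat_lit 37) (nat_lit 4) (nat_lit 433) (nat_lit 296) (nat_lit 291)) (XT.lf (nat_lit 0) (nat_lit 3297627997) (nat_lit 152) (nat_lit 14129097598) (nat_lit 0)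 (nat_lit 1604832006) (nat_lit 33) (nat_lit 5) (nat_lit 35) (nat_lit 4) (nat_lit 33) (nat_lit 4) (nat_lit 434) (nat_lit 296) (nat_lit 290)))) (XT.nd (nat_lit 156) (nat_lit 152) (nat_lit 0) (XT.nd (nat_lit 78) (nat_lit 76) (nat_lit 0) (XT.lf (nat_lit 0) (nat_lit 9199081909) (nat_lit 152) (nat_lit 2967306137) (nat_lit 0) (nat_lit 7252206278) (nat_lit 33) (nat_lit 5) (nat_lit 35) (nat_lit 4) (nat_lit 33) (nat_lit 4) (nat_lit 435) (nat_lit 296) (nat_lit 289)) (XT.lf (nat_lit 0) (nat_lit 8484771642) (nat_lit 76) (nat_lit 6763457128) (nat_lit 76) (nat_lit 4569902235) (nat_lit 32) (nat_lit 4) (nat_lit 33) (nat_lit 5) (nat_lit 33) (nat_lit 4) (nat_lit 436) (nat_lit 296) (nat_lit 288))) (XT.nd (nat_lit 78) (nat_lit 76) (nat_lit 0) (XT.lf (nat_lit 0) (nat_lit 1144305485) (nat_lit 152) (nat_lit 110109184) (nat_lit 76) (nat_lit 18977302169) (nat_lit 31) (nat_lit 5) (nat_lit 33) (nat_lit 5) (nat_lit 32) (nat_lit 4) (nat_lit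 437) (nat_lit 296) (nat_lit 287)) (XT.lf (nat_lit 0) (nat_lit 6983441668) (nat_lit 152) (nat_lit 9276046838) (nat_lit 0) (nat_lit 4395511392) (nat_lit 30) (nat_lit 5) (nat_lit 32) (nat_lit 4) (nat_lit 30) (nat_lit 4) (nat_lit 438) (nat_lit 296) (nat_lit 286))))) (XT.nd (nat_lit 234) (nat_lit 228) (nat_lit 0) (XT.nd (nat_lit 78) (nat_lit 152) (nat_lit 0) (XT.lf (nat_lit 0) (nat_lit 1945081801) (nat_lit 76) (nat_lit 10977629934) (nat_lit 76) (nat_lit 8170528329) (nat_lit 29) (nat_lit 4) (nat_lit 30) (nat_lit 5) (nat_lit 30) (nat_lit 4) (nat_lit 439) (nat_lit 296) (nat_lit 285)) (XT.nd (nat_lit 78) (nat_lit 152) (nat_lit 0) (XT.lf (nat_lit 0) (nat_lit 13490559464) (nat_lit 76) (nat_lit 5537168709) (nat_lit 76) (nat_lit 2517279405) (nat_lit 29) (nat_lit 4) (nat_lit 30) (nat_lit 5) (nat_lit 30) (nat_lit 4) (nat_lit 440) (nat_lit 296) (nat_lit 284)) (XT.lf (nat_lit 0) (nat_lit 3168175960) (nat_lit 152) (nat_lit 18807720524)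 (nat_lit 0) (nat_lit 35671783) (nat_lit 27) (nat_lit 5) (nat_lit 29) (nat_lit 4) (nat_lit 27) (nat_lit 4) (nat_lit 441) (nat_lit 296) (nat_lit 283)))) (XT.nd (nat_lit 156) (nat_lit 152) (nat_lit 0) (XT.nd (nat_lit 78) (nat_lit 76) (nat_lit 0) (XT.lf (nat_lit 0) (nat_lit 9006763356) (nat_lit 152) (nat_lit 7804098108) (nat_lit 0) (nat_lit 5679528292) (nat_lit 27) (nat_lit 5) (nat_lit 29) (nat_lit 4) (nat_lit 27) (nat_lit 4) (nat_lit 442) (nat_lit 296) (nat_lit 282)) (XT.lf (nat_lit 0) (nat_lit 3402968388) (nat_lit 76) (nat_lit 11549475010) (nat_lit 76) (nat_lit 8033180832) (nat_lit 26) (nat_lit 4) (nat_lit 27) (nat_lit 5) (nat_lit 27) (nat_lit 4) (nat_lit 443) (nat_lit 296) (nat_lit 281))) (XT.nd (nat_lit 78) (nat_lit 152) (nat_lit 0) (XT.lf (nat_lit 0) (nat_lit 14915047310) (nat_lit 76) (nat_lit 6140573764) (nat_lit 76) (nat_lit 2440727049) (nat_lit 26) (nat_lit 4) (nat_lit 27) (nat_lit 5) (nat_lit 27) (nat_lit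 4) (nat_lit 444) (nat_lit 296) (nat_lit 280)) (XT.lf (nat_lit 0) (nat_lit 2580991478) (nat_lit 76) (nat_lit 600803861) (nat_lit 152) (nat_lit 20841834859) (nat_lit 24) (nat_lit 5) (nat_lit 25) (nat_lit 5) (nat_lit 26) (nat_lit 4) (nat_lit 445) (nat_lit 296) (nat_lit 279))))))) (XT.nd (nat_lit 1092) (nat_lit 456) (nat_lit 0) (XT.nd (nat_lit 546) (nat_lit 228) (nat_lit 0) (XT.nd (nat_lit 234) (nat_lit 228) (nat_lit 0) (XT.nd (nat_lit 78) (nat_lit 76) (nat_lit 0) (XT.lf (nat_lit 0) (nat_lit 8962989335) (nat_lit 152) (nat_lit 10571937846) (nat_lit 0) (nat_lit 5029912700) (nat_lit 24) (nat_lit 5) (nat_lit 26) (nat_lit 4) (nat_lit 24) (nat_lit 4) (nat_lit 446) (nat_lit 296) (nat_lit 278)) (XT.nd (nat_lit 78) (nat_lit 0) (nat_lit 0) (XT.lf (nat_lit 0) (nat_lit 445324371) (nat_lit 76) (nat_lit 14387830800) (nat_lit 76) (nat_lit 10291670113) (nat_lit 23) (nat_lit 4) (nat_lit 24) (nat_lit 5) (nat_lit 24) (nat_lit 4) (nat_lit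 447) (nat_lit 296) (nat_lit 277)) (XT.lf (nat_lit 0) (nat_lit 11829305068) (nat_lit 76) (nat_lit 9063206344) (nat_lit 76) (nat_lit 4808711626) (nat_lit 23) (nat_lit 4) (nat_lit 24) (nat_lit 5) (nat_lit 24) (nat_lit 4) (nat_lit 448) (nat_lit 296) (nat_lit 276)))) (XT.nd (nat_lit 156) (nat_lit 76) (nat_lit 0) (XT.nd (nat_lit 78) (nat_lit 76) (nat_lit 0) (XT.lf (nat_lit 0) (nat_lit 730521201) (nat_lit 152) (nat_lit 2925259039) (nat_lit 76) (nat_lit 22641651086) (nat_lit 22) (nat_lit 5) (nat_lit 24) (nat_lit 5) (nat_lit 23) (nat_lit 4) (nat_lit 449) (nat_lit 296) (nat_lit 275)) (XT.lf (nat_lit 0) (nat_lit 6348678931) (nat_lit 152) (nat_lit 18637183095) (nat_lit 0) (nat_lit 1923958456) (nat_lit 21) (nat_lit 5) (nat_lit 23) (nat_lit 4) (nat_lit 21) (nat_lit 4) (nat_lit 450) (nat_lit 296) (nat_lit 274))) (XT.nd (nat_lit 78) (nat_lit 76) (nat_lit 0) (XT.lf (nat_lit 0) (nat_lit 12112408795) (nat_lit 152) (nat_lit 7881855868)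 (nat_lit 0) (nat_lit 7547010583) (nat_lit 21) (nat_lit 5) (nat_lit 23) (nat_lit 4) (nat_lit 21) (nat_lit 4) (nat_lit 451) (nat_lit 296) (nat_lit 273)) (XT.lf (nat_lit 0) (nat_lit 3089319713) (nat_lit 76) (nat_lit 14903019220) (nat_lit 76) (nat_lit 10201040683) (nat_lit 20) (nat_lit 4) (nat_lit 21) (nat_lit 5) (nat_lit 21) (nat_lit 4) (nat_lit 452) (nat_lit 296) (nat_lit 272))))) (XT.nd (nat_lit 234) (nat_lit 76) (nat_lit 0) (XT.nd (nat_lit 78) (nat_lit 152) (nat_lit 0) (XT.lf (nat_lit 0) (nat_lit 14385743852) (nat_lit 76) (nat_lit 9657032630) (nat_lit 76) (nat_lit 4822451834) (nat_lit 20) (nat_lit 4) (nat_lit 21) (nat_lit 5) (nat_lit 21) (nat_lit 4) (nat_lit 453) (nat_lit 296) (nat_lit 271)) (XT.nd (nat_lit 78) (nat_lit 76) (nat_lit 0) (XT.lf (nat_lit 0) (nat_lit 619675780) (nat_lit 152) (nat_lit 3705379018) (nat_lit 76) (nat_lit 25234489531) (nat_lit 19) (nat_lit 5) (nat_lit 21) (nat_lit 5) (nat_lit 20) (nat_lit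 4) (nat_lit 454) (nat_lit 296) (nat_lit 270)) (XT.lf (nat_lit 0) (nat_lit 6128875665) (nat_lit 152) (nat_lit 22955596096) (nat_lit 0) (nat_lit 1188767704) (nat_lit 18) (nat_lit 5) (nat_lit 20) (nat_lit 4) (nat_lit 18) (nat_lit 4) (nat_lit 455) (nat_lit 296) (nat_lit 269)))) (XT.nd (nat_lit 156) (nat_lit 76) (nat_lit 0) (XT.nd (nat_lit 78) (nat_lit 0) (nat_lit 0) (XT.lf (nat_lit 0) (nat_lit 11802728916) (nat_lit 152) (nat_lit 12460833635) (nat_lit 0) (nat_lit 6744805566) (nat_lit 18) (nat_lit 5) (nat_lit 20) (nat_lit 4) (nat_lit 18) (nat_lit 4) (nat_lit 456) (nat_lit 296) (nat_lit 268)) (XT.lf (nat_lit 0) (nat_lit 17567931275) (nat_lit 152) (nat_lit 1804365161) (nat_lit 0) (nat_lit 12395624051) (nat_lit 18) (nat_lit 5) (nat_lit 20) (nat_lit 4) (nat_lit 18) (nat_lit 4) (nat_lit 457) (nat_lit 296) (nat_lit 267))) (XT.nd (nat_lit 78) (nat_lit 0) (nat_lit 0) (XT.lf (nat_lit 0) (nat_lit 9202698597) (nat_lit 76) (nat_lit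 14315283668) (nat_lit 76) (nat_lit 9031924141) (nat_lit 17) (nat_lit 4) (nat_lit 18) (nat_lit 5) (nat_lit 18) (nat_lit 4) (nat_lit 458) (nat_lit 296) (nat_lit 266)) (XT.lf (nat_lit 0) (nat_lit 20429743036) (nat_lit 76) (nat_lit 9159257912) (nat_lit 76) (nat_lit 3768080614) (nat_lit 17) (nat_lit 4) (nat_lit 18) (nat_lit 5) (nat_lit 18) (nat_lit 4) (nat_lit 459) (nat_lit 296) (nat_lit 265)))))) (XT.nd (nat_lit 546) (nat_lit 228) (nat_lit 0) (XT.nd (nat_lit 234) (nat_lit 76) (nat_lit 0) (XT.nd (nat_lit 78) (nat_lit 76) (nat_lit 0) (XT.lf (nat_lit 0) (nat_lit 1547129383) (nat_lit 152) (nat_lit 2355182097) (nat_lit 76) (nat_lit 30287915431) (nat_lit 16) (nat_lit 5) (nat_lit 18) (nat_lit 5) (nat_lit 17) (nat_lit 4) (nat_lit 460) (nat_lit 296) (nat_lit 264)) (XT.nd (nat_lit 78) (nat_lit 0) (nat_lit 0) (XT.lf (nat_lit 0) (nat_lit 6970936143) (nat_lit 152) (nat_lit 26539082024) (nat_lit 0) (nat_lit 1536486303) (nat_lit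 15) (nat_lit 5) (nat_lit 17) (nat_lit 4) (nat_lit 15) (nat_lit 4) (nat_lit 461) (nat_lit 296) (nat_lit 263)) (XT.lf (nat_lit 0) (nat_lit 12548113169) (nat_lit 152) (nat_lit 16362772103) (nat_lit 0) (nat_lit 7017868636) (nat_lit 15) (nat_lit 5) (nat_lit 17) (nat_lit 4) (nat_lit 15) (nat_lit 4) (nat_lit 462) (nat_lit 296) (nat_lit 262)))) (XT.nd (nat_lit 156) (nat_lit 0) (nat_lit 0) (XT.nd (nat_lit 78) (nat_lit 76) (nat_lit 0) (XT.lf (nat_lit 0) (nat_lit 18222703684) (nat_lit 152) (nat_lit 6017412751) (nat_lit 0) (nat_lit 12599454595) (nat_lit 15) (nat_lit 5) (nat_lit 17) (nat_lit 4) (nat_lit 15) (nat_lit 4) (nat_lit 463) (nat_lit 296) (nat_lit 261)) (XT.lf (nat_lit 0) (nat_lit 4595714612) (nat_lit 76) (nat_lit 19448128276) (nat_lit 76) (nat_lit 13734583501) (nat_lit 14) (nat_lit 4) (nat_lit 15) (nat_lit 5) (nat_lit 15) (nat_lit 4) (nat_lit 464) (nat_lit 296) (nat_lit 260))) (XT.nd (nat_lit 78) (nat_lit 0) (nat_lit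 0) (XT.lf (nat_lit 0) (nat_lit 15519611926) (nat_lit 76) (nat_lit 14513620228) (nat_lit 76) (nat_lit 8712409739) (nat_lit 14) (nat_lit 4) (nat_lit 15) (nat_lit 5) (nat_lit 15) (nat_lit 4) (nat_lit 465) (nat_lit 296) (nat_lit 259)) (XT.lf (nat_lit 0) (nat_lit 26644066031) (nat_lit 76) (nat_lit 9493044657) (nat_lit 76) (nat_lit 3606721824) (nat_lit 14) (nat_lit 4) (nat_lit 15) (nat_lit 5) (nat_lit 15) (nat_lit 4) (nat_lit 466) (nat_lit 296) (nat_lit 258))))) (XT.nd (nat_lit 312) (nat_lit 76) (nat_lit 0) (XT.nd (nat_lit 156) (nat_lit 0) (nat_lit 0) (XT.nd (nat_lit 78) (nat_lit 76) (nat_lit 0) (XT.lf (nat_lit 0) (nat_lit 1555974579) (nat_lit 152) (nat_lit 2810327781) (nat_lit 76) (nat_lit 36407110453) (nat_lit 13) (nat_lit 5) (nat_lit 15) (nat_lit 5) (nat_lit 14) (nat_lit 4) (nat_lit 467) (nat_lit 296) (nat_lit 257)) (XT.lf (nat_lit 0) (nat_lit 6823127793) (nat_lit 152) (nat_lit 34058887175) (nat_lit 0) (nat_lit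 950134857) (nat_lit 12) (nat_lit 5) (nat_lit 14) (nat_lit 4) (nat_lit 12) (nat_lit 4) (nat_lit 468) (nat_lit 296) (nat_lit 256))) (XT.nd (nat_lit 78) (nat_lit 0) (nat_lit 0) (XT.lf (nat_lit 0) (nat_lit 12258217487) (nat_lit 152) (nat_lit 24354533026) (nat_lit 0) (nat_lit 6309603336) (nat_lit 12) (nat_lit 5) (nat_lit 14) (nat_lit 4) (nat_lit 12) (nat_lit 4) (nat_lit 469) (nat_lit 296) (nat_lit 255)) (XT.lf (nat_lit 0) (nat_lit 17796196170) (nat_lit 152) (nat_lit 14476711852) (nat_lit 0) (nat_lit 11774163363) (nat_lit 12) (nat_lit 5) (nat_lit 14) (nat_lit 4) (nat_lit 12) (nat_lit 4) (nat_lit 470) (nat_lit 296) (nat_lit 254)))) (XT.nd (nat_lit 156) (nat_lit 0) (nat_lit 0) (XT.nd (nat_lit 78) (nat_lit 76) (nat_lit 0) (XT.lf (nat_lit 0) (nat_lit 23441902852) (nat_lit 152) (nat_lit 4416792548) (nat_lit 0) (nat_lit 17348589798) (nat_lit 12) (nat_lit 5) (nat_lit 14) (nat_lit 4) (nat_lit 12) (nat_lit 4) (nat_lit 471)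 (nat_lit 296) (nat_lit 253)) (XT.lf (nat_lit 0) (nat_lit 5950123448) (nat_lit 76) (nat_lit 23307343455) (nat_lit 76) (nat_lit 17144826276) (nat_lit 11) (nat_lit 4) (nat_lit 12) (nat_lit 5) (nat_lit 12) (nat_lit 4) (nat_lit 472) (nat_lit 296) (nat_lit 252))) (XT.nd (nat_lit 78) (nat_lit 0) (nat_lit 0) (XT.lf (nat_lit 0) (nat_lit 16608764959) (nat_lit 76) (nat_lit 18627219875) (nat_lit 76) (nat_lit 12397514226) (nat_lit 11) (nat_lit 4) (nat_lit 12) (nat_lit 5) (nat_lit 12) (nat_lit 4) (nat_lit 473) (nat_lit 296) (nat_lit 251)) (XT.lf (nat_lit 0) (nat_lit 27480542530) (nat_lit 76) (nat_lit 13858836178) (nat_lit 76) (nat_lit 7563899004) (nat_lit 11) (nat_lit 4) (nat_lit 12) (nat_lit 5) (nat_lit 12) (nat_lit 4) (nat_lit 474) (nat_lit 296) (nat_lit 250))))))))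
noncomputable def xc19 : XT := (XT.nd (nat_lit 50076) (nat_lit 0) (nat_lit 608) (XT.nd (nat_lit 1092) (nat_lit 76) (nat_lit 0) (XT.nd (nat_lit 546) (nat_lit 152) (nat_lit 0) (XT.nd (nat_lit 234) (nat_lit 0) (nat_lit 0) (XT.nd (nat_lit 78) (nat_lit 152) (nat_lit 0) (XT.lf (nat_lit 0) (nat_lit 38574955771) (nat_lit 76) (nat_lit 8998025814) (nat_lit 76) (nat_lit 2639757063) (nat_lit 11) (nat_lit 4) (nat_lit 12) (nat_lit 5) (nat_lit 12) (nat_lit 4) (nat_lit 475) (nat_lit 296) (nat_lit 249)) (XT.nd (nat_lit 78) (nat_lit 76) (nat_lit 0) (XT.lf (nat_lit 0) (nat_lit 2332787205) (nat_lit 152) (nat_lit 1684197691) (nat_lit 76) (nat_lit 47545355047) (nat_lit 10) (nat_lit 5) (nat_lit 12) (nat_lit 5) (nat_lit 11) (nat_lit 4) (nat_lit 476) (nat_lit 296) (nat_lit 248)) (XT.lf (nat_lit 0) (nat_lit 7445194675) (nat_lit 152) (nat_lit 44350675408) (nat_lit 0) (nat_lit 1154464767) (nat_lit 9) (nat_lit 5) (nat_lit 11) (nat_lit 4)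 (nat_lit 9) (nat_lit 4) (nat_lit 477) (nat_lit 296) (nat_lit 247)))) (XT.nd (nat_lit 156) (nat_lit 0) (nat_lit 0) (XT.nd (nat_lit 78) (nat_lit 0) (nat_lit 0) (XT.lf (nat_lit 0) (nat_lit 12717638697) (nat_lit 152) (nat_lit 35291493376) (nat_lit 0) (nat_lit 6370639503) (nat_lit 9) (nat_lit 5) (nat_lit 11) (nat_lit 4) (nat_lit 9) (nat_lit 4) (nat_lit 478) (nat_lit 296) (nat_lit 246)) (XT.lf (nat_lit 0) (nat_lit 18099437320) (nat_lit 152) (nat_lit 26056312738) (nat_lit 0) (nat_lit 11697807751) (nat_lit 9) (nat_lit 5) (nat_lit 11) (nat_lit 4) (nat_lit 9) (nat_lit 4) (nat_lit 479) (nat_lit 296) (nat_lit 245))) (XT.nd (nat_lit 78) (nat_lit 0) (nat_lit 0) (XT.lf (nat_lit 0) (nat_lit 23595293087) (nat_lit 152) (nat_lit 16637063922) (nat_lit 0) (nat_lit 17140624320) (nat_lit 9) (nat_lit 5) (nat_lit 11) (nat_lit 4) (nat_lit 9) (nat_lit 4) (nat_lit 480) (nat_lit 296) (nat_lit 244)) (XT.lf (nat_lit 0) (nat_lit 29210008202)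 (nat_lit 152) (nat_lit 7025516513) (nat_lit 0) (nat_lit 22703845067) (nat_lit 9) (nat_lit 5) (nat_lit 11) (nat_lit 4) (nat_lit 9) (nat_lit 4) (nat_lit 481) (nat_lit 296) (nat_lit 243))))) (XT.nd (nat_lit 234) (nat_lit 76) (nat_lit 0) (XT.nd (nat_lit 78) (nat_lit 0) (nat_lit 0) (XT.lf (nat_lit 0) (nat_lit 2842189274) (nat_lit 76) (nat_lit 32133620315) (nat_lit 76) (nat_lit 25577462648) (nat_lit 8) (nat_lit 4) (nat_lit 9) (nat_lit 5) (nat_lit 9) (nat_lit 4) (nat_lit 482) (nat_lit 296) (nat_lit 242)) (XT.nd (nat_lit 78) (nat_lit 0) (nat_lit 0) (XT.lf (nat_lit 0) (nat_lit 13063152354) (nat_lit 76) (nat_lit 27878167526) (nat_lit 76) (nat_lit 21273471479) (nat_lit 8) (nat_lit 4) (nat_lit 9) (nat_lit 5) (nat_lit 9) (nat_lit 4) (nat_lit 483) (nat_lit 296) (nat_lit 241)) (XT.lf (nat_lit 0) (nat_lit 23506482108) (nat_lit 76) (nat_lit 23536391935) (nat_lit 76) (nat_lit 16884571246) (nat_lit 8) (nat_lit 4) (nat_lit 9) (nat_lit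 5) (nat_lit 9) (nat_lit 4) (nat_lit 484) (nat_lit 296) (nat_lit 240)))) (XT.nd (nat_lit 156) (nat_lit 76) (nat_lit 0) (XT.nd (nat_lit 78) (nat_lit 0) (nat_lit 0) (XT.lf (nat_lit 0) (nat_lit 34181303778) (nat_lit 76) (nat_lit 19104499757) (nat_lit 76) (nat_lit 12406926989) (nat_lit 8) (nat_lit 4) (nat_lit 9) (nat_lit 5) (nat_lit 9) (nat_lit 4) (nat_lit 485) (nat_lit 296) (nat_lit 239)) (XT.lf (nat_lit 0) (nat_lit 45096944876) (nat_lit 76) (nat_lit 14578618465) (nat_lit 76) (nat_lit 7836626203) (nat_lit 8) (nat_lit 4) (nat_lit 9) (nat_lit 5) (nat_lit 9) (nat_lit 4) (nat_lit 486) (nat_lit 296) (nat_lit 238))) (XT.nd (nat_lit 78) (nat_lit 76) (nat_lit 0) (XT.lf (nat_lit 0) (nat_lit 56262943342) (nat_lit 76) (nat_lit 9954793405) (nat_lit 76) (nat_lit 3169675421) (nat_lit 8) (nat_lit 4) (nat_lit 9) (nat_lit 5) (nat_lit 9) (nat_lit 4) (nat_lit 487) (nat_lit 296) (nat_lit 237)) (XT.lf (nat_lit 0) (nat_lit 1566820475)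 (nat_lit 152) (nat_lit 3646342052) (nat_lit 76) (nat_lit 66106413583) (nat_lit 7) (nat_lit 5) (nat_lit 9) (nat_lit 5) (nat_lit 8) (nat_lit 4) (nat_lit 488) (nat_lit 296) (nat_lit 236)))))) (XT.nd (nat_lit 48438) (nat_lit 0) (nat_lit 2052) (XT.nd (nat_lit 234) (nat_lit 0) (nat_lit 0) (XT.nd (nat_lit 78) (nat_lit 0) (nat_lit 0) (XT.lf (nat_lit 0) (nat_lit 6130951706) (nat_lit 76) (nat_lit 272294329) (nat_lit 152) (nat_lit 66904872518) (nat_lit 6) (nat_lit 5) (nat_lit 7) (nat_lit 5) (nat_lit 8) (nat_lit 4) (nat_lit 489) (nat_lit 296) (nat_lit 235)) (XT.nd (nat_lit 78) (nat_lit 0) (nat_lit 0) (XT.lf (nat_lit 0) (nat_lit 11430906427) (nat_lit 152) (nat_lit 59199047557) (nat_lit 0) (nat_lit 4724980319) (nat_lit 6) (nat_lit 5) (nat_lit 8) (nat_lit 4) (nat_lit 6) (nat_lit 4) (nat_lit 490) (nat_lit 296) (nat_lit 234)) (XT.lf (nat_lit 0) (nat_lit 16575834913) (nat_lit 152) (nat_lit 51055619544) (nat_lit 0) (nat_lit 9832708177)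 (nat_lit 6) (nat_lit 5) (nat_lit 8) (nat_lit 4) (nat_lit 6) (nat_lit 4) (nat_lit 491) (nat_lit 296) (nat_lit 233)))) (XT.nd (nat_lit 48048) (nat_lit 0) (nat_lit 2660) (XT.nd (nat_lit 47970) (nat_lit 0) (nat_lit 2812) (XT.lf (nat_lit 0) (nat_lit 21839909601) (nat_lit 152) (nat_lit 42737149733) (nat_lit 0) (nat_lit 15060665751) (nat_lit 6) (nat_lit 5) (nat_lit 8) (nat_lit 4) (nat_lit 6) (nat_lit 4) (nat_lit 492) (nat_lit 296) (nat_lit 232)) (XT.lf (nat_lit 0) (nat_lit 786530975) (nat_lit 152) (nat_lit 3686668561) (nat_lit 152) (nat_lit 3686668561) (nat_lit 43) (nat_lit 4) (nat_lit 45) (nat_lit 5) (nat_lit 45) (nat_lit 4) (nat_lit 426) (nat_lit 297) (nat_lit 297))) (XT.nd (nat_lit 78) (nat_lit 152) (nat_lit 0) (XT.lf (nat_lit 0) (nat_lit 12959562315) (nat_lit 152) (nat_lit 2003819487) (nat_lit 152) (nat_lit 1662357698) (nat_lit 43) (nat_lit 4) (nat_lit 45) (nat_lit 5) (nat_lit 45) (nat_lit 4) (nat_lit 427) (nat_lit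 297) (nat_lit 296)) (XT.lf (nat_lit 0) (nat_lit 4125979342) (nat_lit 152) (nat_lit 9341483701) (nat_lit 0) (nat_lit 3472602556) (nat_lit 41) (nat_lit 5) (nat_lit 43) (nat_lit 4) (nat_lit 41) (nat_lit 4) (nat_lit 428) (nat_lit 297) (nat_lit 295))))) (XT.nd (nat_lit 234) (nat_lit 304) (nat_lit 0) (XT.nd (nat_lit 78) (nat_lit 152) (nat_lit 0) (XT.lf (nat_lit 0) (nat_lit 1790117572) (nat_lit 152) (nat_lit 8220205179) (nat_lit 152) (nat_lit 7254342484) (nat_lit 39) (nat_lit 4) (nat_lit 41) (nat_lit 5) (nat_lit 41) (nat_lit 4) (nat_lit 429) (nat_lit 297) (nat_lit 294)) (XT.nd (nat_lit 78) (nat_lit 152) (nat_lit 0) (XT.lf (nat_lit 0) (nat_lit 13227458698) (nat_lit 152) (nat_lit 2820745625) (nat_lit 152) (nat_lit 1551498553) (nat_lit 39) (nat_lit 4) (nat_lit 41) (nat_lit 5) (nat_lit 41) (nat_lit 4) (nat_lit 430) (nat_lit 297) (nat_lit 293)) (XT.lf (nat_lit 0) (nat_lit 4216217292) (nat_lit 152) (nat_lit 11030023834)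 (nat_lit 0) (nat_lit 2697969708) (nat_lit 37) (nat_lit 5) (nat_lit 39) (nat_lit 4) (nat_lit 37) (nat_lit 4) (nat_lit 431) (nat_lit 297) (nat_lit 292)))) (XT.nd (nat_lit 156) (nat_lit 152) (nat_lit 0) (XT.nd (nat_lit 78) (nat_lit 0) (nat_lit 0) (XT.lf (nat_lit 0) (nat_lit 72854398) (nat_lit 152) (nat_lit 10011440020) (nat_lit 152) (nat_lit 8215552753) (nat_lit 35) (nat_lit 4) (nat_lit 37) (nat_lit 5) (nat_lit 37) (nat_lit 4) (nat_lit 432) (nat_lit 297) (nat_lit 291)) (XT.lf (nat_lit 0) (nat_lit 11521091896) (nat_lit 152) (nat_lit 4605285630) (nat_lit 152) (nat_lit 2539845273) (nat_lit 35) (nat_lit 4) (nat_lit 37) (nat_lit 5) (nat_lit 37) (nat_lit 4) (nat_lit 433) (nat_lit 297) (nat_lit 290))) (XT.nd (nat_lit 78) (nat_lit 0) (nat_lit 0) (XT.lf (nat_lit 0) (nat_lit 3178906665) (nat_lit 152) (nat_lit 14946074440) (nat_lit 0) (nat_lit 919545126) (nat_lit 33) (nat_lit 5) (nat_lit 35) (nat_lit 4) (nat_lit 33) (nat_lit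 4) (nat_lit 434) (nat_lit 297) (nat_lit 289)) (XT.lf (nat_lit 0) (nat_lit 9025724379) (nat_lit 152) (nat_lit 3887798191) (nat_lit 0) (nat_lit 6519683578) (nat_lit 33) (nat_lit 5) (nat_lit 35) (nat_lit 4) (nat_lit 33) (nat_lit 4) (nat_lit 435) (nat_lit 297) (nat_lit 288))))))) (XT.nd (nat_lit 1092) (nat_lit 684) (nat_lit 0) (XT.nd (nat_lit 546) (nat_lit 304) (nat_lit 0) (XT.nd (nat_lit 234) (nat_lit 228) (nat_lit 0) (XT.nd (nat_lit 78) (nat_lit 152) (nat_lit 0) (XT.lf (nat_lit 0) (nat_lit 7443459634) (nat_lit 76) (nat_lit 7568357026) (nat_lit 76) (nat_lit 4822821796) (nat_lit 32) (nat_lit 4) (nat_lit 33) (nat_lit 5) (nat_lit 33) (nat_lit 4) (nat_lit 436) (nat_lit 297) (nat_lit 287)) (XT.nd (nat_lit 78) (nat_lit 76) (nat_lit 0) (XT.lf (nat_lit 0) (nat_lit 843341675) (nat_lit 152) (nat_lit 1266070492) (nat_lit 76) (nat_lit 18140478206) (nat_lit 31) (nat_lit 5) (nat_lit 33) (nat_lit 5) (nat_lit 32) (nat_lit 4) (nat_lit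 437) (nat_lit 297) (nat_lit 286)) (XT.lf (nat_lit 0) (nat_lit 6609966469) (nat_lit 152) (nat_lit 10565905468) (nat_lit 0) (nat_lit 3499480486) (nat_lit 30) (nat_lit 5) (nat_lit 32) (nat_lit 4) (nat_lit 30) (nat_lit 4) (nat_lit 438) (nat_lit 297) (nat_lit 285)))) (XT.nd (nat_lit 156) (nat_lit 152) (nat_lit 0) (XT.nd (nat_lit 78) (nat_lit 0) (nat_lit 0) (XT.lf (nat_lit 0) (nat_lit 529830927) (nat_lit 76) (nat_lit 11954493130) (nat_lit 76) (nat_lit 8631219449) (nat_lit 29) (nat_lit 4) (nat_lit 30) (nat_lit 5) (nat_lit 30) (nat_lit 4) (nat_lit 439) (nat_lit 297) (nat_lit 284)) (XT.lf (nat_lit 0) (nat_lit 11978491572) (nat_lit 76) (nat_lit 6560104450) (nat_lit 76) (nat_lit 3030240771) (nat_lit 29) (nat_lit 4) (nat_lit 30) (nat_lit 5) (nat_lit 30) (nat_lit 4) (nat_lit 440) (nat_lit 297) (nat_lit 283))) (XT.nd (nat_lit 78) (nat_lit 0) (nat_lit 0) (XT.lf (nat_lit 0) (nat_lit 1545891402) (nat_lit 76) (nat_lit 1053284900)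 (nat_lit 152) (nat_lit 19438353789) (nat_lit 27) (nat_lit 5) (nat_lit 28) (nat_lit 5) (nat_lit 29) (nat_lit 4) (nat_lit 441) (nat_lit 297) (nat_lit 282)) (XT.lf (nat_lit 0) (nat_lit 8377995338) (nat_lit 152) (nat_lit 9572999220) (nat_lit 0) (nat_lit 4567153221) (nat_lit 27) (nat_lit 5) (nat_lit 29) (nat_lit 4) (nat_lit 27) (nat_lit 4) (nat_lit 442) (nat_lit 297) (nat_lit 281))))) (XT.nd (nat_lit 234) (nat_lit 76) (nat_lit 0) (XT.nd (nat_lit 78) (nat_lit 152) (nat_lit 0) (XT.lf (nat_lit 0) (nat_lit 1504687341) (nat_lit 76) (nat_lit 12752542987) (nat_lit 76) (nat_lit 8758148333) (nat_lit 26) (nat_lit 4) (nat_lit 27) (nat_lit 5) (nat_lit 27) (nat_lit 4) (nat_lit 443) (nat_lit 297) (nat_lit 280)) (XT.nd (nat_lit 78) (nat_lit 152) (nat_lit 0) (XT.lf (nat_lit 0) (nat_lit 12925333899) (nat_lit 76) (nat_lit 7387401403) (nat_lit 76) (nat_lit 3214800401) (nat_lit 26) (nat_lit 4) (nat_lit 27) (nat_lit 5) (nat_lit 27) (nat_lit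 4) (nat_lit 444) (nat_lit 297) (nat_lit 279)) (XT.lf (nat_lit 0) (nat_lit 435971892) (nat_lit 76) (nat_lit 1919490553) (nat_lit 152) (nat_lit 21701602290) (nat_lit 24) (nat_lit 5) (nat_lit 25) (nat_lit 5) (nat_lit 26) (nat_lit 4) (nat_lit 445) (nat_lit 297) (nat_lit 278)))) (XT.nd (nat_lit 156) (nat_lit 76) (nat_lit 0) (XT.nd (nat_lit 78) (nat_lit 0) (nat_lit 0) (XT.lf (nat_lit 0) (nat_lit 8077333490) (nat_lit 152) (nat_lit 12827519400) (nat_lit 0) (nat_lit 3695203930) (nat_lit 24) (nat_lit 5) (nat_lit 26) (nat_lit 4) (nat_lit 24) (nat_lit 4) (nat_lit 446) (nat_lit 297) (nat_lit 277)) (XT.lf (nat_lit 0) (nat_lit 13897930319) (nat_lit 152) (nat_lit 1906134885) (nat_lit 0) (nat_lit 9357466727) (nat_lit 24) (nat_lit 5) (nat_lit 26) (nat_lit 4) (nat_lit 24) (nat_lit 4) (nat_lit 447) (nat_lit 297) (nat_lit 276))) (XT.nd (nat_lit 78) (nat_lit 0) (nat_lit 0) (XT.lf (nat_lit 0) (nat_lit 9353576952) (nat_lit 76) (nat_lit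 10540222923) (nat_lit 76) (nat_lit 5846036971) (nat_lit 23) (nat_lit 4) (nat_lit 24) (nat_lit 5) (nat_lit 24) (nat_lit 4) (nat_lit 448) (nat_lit 297) (nat_lit 275)) (XT.lf (nat_lit 0) (nat_lit 20820002521) (nat_lit 76) (nat_lit 5180497873) (nat_lit 76) (nat_lit 337066911) (nat_lit 23) (nat_lit 4) (nat_lit 24) (nat_lit 5) (nat_lit 24) (nat_lit 4) (nat_lit 449) (nat_lit 297) (nat_lit 274)))))) (XT.nd (nat_lit 546) (nat_lit 304) (nat_lit 0) (XT.nd (nat_lit 234) (nat_lit 152) (nat_lit 0) (XT.nd (nat_lit 78) (nat_lit 76) (nat_lit 0) (XT.lf (nat_lit 0) (nat_lit 5203502787) (nat_lit 152) (nat_lit 21388613289) (nat_lit 0) (nat_lit 360464893) (nat_lit 21) (nat_lit 5) (nat_lit 23) (nat_lit 4) (nat_lit 21) (nat_lit 4) (nat_lit 450) (nat_lit 297) (nat_lit 273)) (XT.nd (nat_lit 78) (nat_lit 76) (nat_lit 0) (XT.lf (nat_lit 0) (nat_lit 10924667108) (nat_lit 152) (nat_lit 10715598977) (nat_lit 0) (nat_lit 5945048888) (nat_lit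 21) (nat_lit 5) (nat_lit 23) (nat_lit 4) (nat_lit 21) (nat_lit 4) (nat_lit 451) (nat_lit 297) (nat_lit 272)) (XT.lf (nat_lit 0) (nat_lit 117673634) (nat_lit 76) (nat_lit 16617032564) (nat_lit 76) (nat_lit 11504812085) (nat_lit 20) (nat_lit 4) (nat_lit 21) (nat_lit 5) (nat_lit 21) (nat_lit 4) (nat_lit 452) (nat_lit 297) (nat_lit 271)))) (XT.nd (nat_lit 156) (nat_lit 152) (nat_lit 0) (XT.nd (nat_lit 78) (nat_lit 0) (nat_lit 0) (XT.lf (nat_lit 0) (nat_lit 11334965806) (nat_lit 76) (nat_lit 11409295169) (nat_lit 76) (nat_lit 6168334633) (nat_lit 20) (nat_lit 4) (nat_lit 21) (nat_lit 5) (nat_lit 21) (nat_lit 4) (nat_lit 453) (nat_lit 297) (nat_lit 270)) (XT.lf (nat_lit 0) (nat_lit 22732817625) (nat_lit 76) (nat_lit 6120709989) (nat_lit 76) (nat_lit 754759107) (nat_lit 20) (nat_lit 4) (nat_lit 21) (nat_lit 5) (nat_lit 21) (nat_lit 4) (nat_lit 454) (nat_lit 297) (nat_lit 269))) (XT.nd (nat_lit 78) (nat_lit 0) (nat_lit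 0) (XT.lf (nat_lit 0) (nat_lit 4027000170) (nat_lit 76) (nat_lit 659847565) (nat_lit 152) (nat_lit 25637823373) (nat_lit 18) (nat_lit 5) (nat_lit 19) (nat_lit 5) (nat_lit 20) (nat_lit 4) (nat_lit 455) (nat_lit 297) (nat_lit 268)) (XT.lf (nat_lit 0) (nat_lit 10315507640) (nat_lit 152) (nat_lit 15872002496) (nat_lit 0) (nat_lit 4873647327) (nat_lit 18) (nat_lit 5) (nat_lit 20) (nat_lit 4) (nat_lit 18) (nat_lit 4) (nat_lit 456) (nat_lit 297) (nat_lit 267))))) (XT.nd (nat_lit 312) (nat_lit 228) (nat_lit 0) (XT.nd (nat_lit 156) (nat_lit 0) (nat_lit 0) (XT.nd (nat_lit 78) (nat_lit 76) (nat_lit 0) (XT.lf (nat_lit 0) (nat_lit 16042991080) (nat_lit 152) (nat_lit 5288773709) (nat_lit 0) (nat_lit 10490078463) (nat_lit 18) (nat_lit 5) (nat_lit 20) (nat_lit 4) (nat_lit 18) (nat_lit 4) (nat_lit 457) (nat_lit 297) (nat_lit 266)) (XT.lf (nat_lit 0) (nat_lit 5576421837) (nat_lit 76) (nat_lit 16345141933) (nat_lit 76) (nat_lit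 10684411545) (nat_lit 17) (nat_lit 4) (nat_lit 18) (nat_lit 5) (nat_lit 18) (nat_lit 4) (nat_lit 458) (nat_lit 297) (nat_lit 265))) (XT.nd (nat_lit 78) (nat_lit 0) (nat_lit 0) (XT.lf (nat_lit 0) (nat_lit 16733056906) (nat_lit 76) (nat_lit 11223295029) (nat_lit 76) (nat_lit 5457887194) (nat_lit 17) (nat_lit 4) (nat_lit 18) (nat_lit 5) (nat_lit 18) (nat_lit 4) (nat_lit 459) (nat_lit 297) (nat_lit 264)) (XT.lf (nat_lit 0) (nat_lit 28085623046) (nat_lit 76) (nat_lit 6015154922) (nat_lit 76) (nat_lit 148118497) (nat_lit 17) (nat_lit 4) (nat_lit 18) (nat_lit 5) (nat_lit 18) (nat_lit 4) (nat_lit 460) (nat_lit 297) (nat_lit 263)))) (XT.nd (nat_lit 156) (nat_lit 76) (nat_lit 0) (XT.nd (nat_lit 78) (nat_lit 0) (nat_lit 0) (XT.lf (nat_lit 0) (nat_lit 4572120135) (nat_lit 76) (nat_lit 618926708) (nat_lit 152) (nat_lit 29916797441) (nat_lit 15) (nat_lit 5) (nat_lit 16) (nat_lit 5) (nat_lit 17) (nat_lit 4) (nat_lit 461) (nat_lit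 297) (nat_lit 262)) (XT.lf (nat_lit 0) (nat_lit 10727839973) (nat_lit 152) (nat_lit 20420577962) (nat_lit 0) (nat_lit 4842888855) (nat_lit 15) (nat_lit 5) (nat_lit 17) (nat_lit 4) (nat_lit 15) (nat_lit 4) (nat_lit 462) (nat_lit 297) (nat_lit 261))) (XT.nd (nat_lit 78) (nat_lit 76) (nat_lit 0) (XT.lf (nat_lit 0) (nat_lit 16368999037) (nat_lit 152) (nat_lit 10140377089) (nat_lit 0) (nat_lit 10393752233) (nat_lit 15) (nat_lit 5) (nat_lit 17) (nat_lit 4) (nat_lit 15) (nat_lit 4) (nat_lit 463) (nat_lit 297) (nat_lit 260)) (XT.lf (nat_lit 0) (nat_lit 326175528) (nat_lit 76) (nat_lit 21790463571) (nat_lit 76) (nat_lit 15727551052) (nat_lit 14) (nat_lit 4) (nat_lit 15) (nat_lit 5) (nat_lit 15) (nat_lit 4) (nat_lit 464) (nat_lit 297) (nat_lit 259))))))))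
noncomputable def xc20 : XT := (XT.nd (nat_lit 49920) (nat_lit 0) (nat_lit 1140) (XT.nd (nat_lit 1092) (nat_lit 228) (nat_lit 0) (XT.nd (nat_lit 546) (nat_lit 228) (nat_lit 0) (XT.nd (nat_lit 234) (nat_lit 152) (nat_lit 0) (XT.nd (nat_lit 78) (nat_lit 0) (nat_lit 0) (XT.lf (nat_lit 0) (nat_lit 11187432385) (nat_lit 76) (nat_lit 16886481492) (nat_lit 76) (nat_lit 10738456630) (nat_lit 14) (nat_lit 4) (nat_lit 15) (nat_lit 5) (nat_lit 15) (nat_lit 4) (nat_lit 465) (nat_lit 297) (nat_lit 258)) (XT.nd (nat_lit 78) (nat_lit 0) (nat_lit 0) (XT.lf (nat_lit 0) (nat_lit 22251070512) (nat_lit 76) (nat_lit 11895542785) (nat_lit 76) (nat_lit 5664884579) (nat_lit 14) (nat_lit 4) (nat_lit 15) (nat_lit 5) (nat_lit 15) (nat_lit 4) (nat_lit 466) (nat_lit 297) (nat_lit 257)) (XT.lf (nat_lit 0) (nat_lit 33526757165) (nat_lit 76) (nat_lit 6813286434) (nat_lit 76) (nat_lit 502401681) (nat_lit 14) (nat_lit 4) (nat_lit 15) (nat_lit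 5) (nat_lit 15) (nat_lit 4) (nat_lit 467) (nat_lit 297) (nat_lit 256)))) (XT.nd (nat_lit 156) (nat_lit 0) (nat_lit 0) (XT.nd (nat_lit 78) (nat_lit 0) (nat_lit 0) (XT.lf (nat_lit 0) (nat_lit 3133687286) (nat_lit 76) (nat_lit 1557180640) (nat_lit 152) (nat_lit 37212971127) (nat_lit 12) (nat_lit 5) (nat_lit 13) (nat_lit 5) (nat_lit 14) (nat_lit 4) (nat_lit 468) (nat_lit 297) (nat_lit 255)) (XT.lf (nat_lit 0) (nat_lit 10081351755) (nat_lit 152) (nat_lit 29108791409) (nat_lit 0) (nat_lit 3805239309) (nat_lit 12) (nat_lit 5) (nat_lit 14) (nat_lit 4) (nat_lit 12) (nat_lit 4) (nat_lit 469) (nat_lit 297) (nat_lit 254))) (XT.nd (nat_lit 78) (nat_lit 0) (nat_lit 0) (XT.lf (nat_lit 0) (nat_lit 15590556369) (nat_lit 152) (nat_lit 19287244376) (nat_lit 0) (nat_lit 9243163675) (nat_lit 12) (nat_lit 5) (nat_lit 14) (nat_lit 4) (nat_lit 12) (nat_lit 4) (nat_lit 470) (nat_lit 297) (nat_lit 253)) (XT.lf (nat_lit 0) (nat_lit 21208327062)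 (nat_lit 152) (nat_lit 9281960158) (nat_lit 0) (nat_lit 14791730243) (nat_lit 12) (nat_lit 5) (nat_lit 14) (nat_lit 4) (nat_lit 12) (nat_lit 4) (nat_lit 471) (nat_lit 297) (nat_lit 252))))) (XT.nd (nat_lit 234) (nat_lit 152) (nat_lit 0) (XT.nd (nat_lit 78) (nat_lit 0) (nat_lit 0) (XT.lf (nat_lit 0) (nat_lit 934030013) (nat_lit 76) (nat_lit 26014521021) (nat_lit 76) (nat_lit 19530735732) (nat_lit 11) (nat_lit 4) (nat_lit 12) (nat_lit 5) (nat_lit 12) (nat_lit 4) (nat_lit 472) (nat_lit 297) (nat_lit 251)) (XT.nd (nat_lit 78) (nat_lit 0) (nat_lit 0) (XT.lf (nat_lit 0) (nat_lit 11540147787) (nat_lit 76) (nat_lit 21360083939) (nat_lit 76) (nat_lit 14811067125) (nat_lit 11) (nat_lit 4) (nat_lit 12) (nat_lit 5) (nat_lit 12) (nat_lit 4) (nat_lit 473) (nat_lit 297) (nat_lit 250)) (XT.lf (nat_lit 0) (nat_lit 22360931438) (nat_lit 76) (nat_lit 16616638588) (nat_lit 76) (nat_lit 10004290197) (nat_lit 11) (nat_lit 4) (nat_lit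 12) (nat_lit 5) (nat_lit 12) (nat_lit 4) (nat_lit 474) (nat_lit 297) (nat_lit 249)))) (XT.nd (nat_lit 156) (nat_lit 152) (nat_lit 0) (XT.nd (nat_lit 78) (nat_lit 0) (nat_lit 0) (XT.lf (nat_lit 0) (nat_lit 33405836020) (nat_lit 76) (nat_lit 11780040212) (nat_lit 76) (nat_lit 5106204853) (nat_lit 11) (nat_lit 4) (nat_lit 12) (nat_lit 5) (nat_lit 12) (nat_lit 4) (nat_lit 475) (nat_lit 297) (nat_lit 248)) (XT.lf (nat_lit 0) (nat_lit 44684512419) (nat_lit 76) (nat_lit 6846062655) (nat_lit 76) (nat_lit 112531210) (nat_lit 11) (nat_lit 4) (nat_lit 12) (nat_lit 5) (nat_lit 12) (nat_lit 4) (nat_lit 476) (nat_lit 297) (nat_lit 247))) (XT.nd (nat_lit 78) (nat_lit 0) (nat_lit 0) (XT.lf (nat_lit 0) (nat_lit 3184968337) (nat_lit 76) (nat_lit 1729542572) (nat_lit 152) (nat_lit 48119250507) (nat_lit 9) (nat_lit 5) (nat_lit 10) (nat_lit 5) (nat_lit 11) (nat_lit 4) (nat_lit 477) (nat_lit 297) (nat_lit 246)) (XT.lf (nat_lit 0)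 (nat_lit 10146280880) (nat_lit 152) (nat_lit 40820166342) (nat_lit 0) (nat_lit 3497972049) (nat_lit 9) (nat_lit 5) (nat_lit 11) (nat_lit 4) (nat_lit 9) (nat_lit 4) (nat_lit 478) (nat_lit 297) (nat_lit 245)))))) (XT.nd (nat_lit 546) (nat_lit 152) (nat_lit 0) (XT.nd (nat_lit 234) (nat_lit 76) (nat_lit 0) (XT.nd (nat_lit 78) (nat_lit 0) (nat_lit 0) (XT.lf (nat_lit 0) (nat_lit 15504731319) (nat_lit 152) (nat_lit 31630792227) (nat_lit 0) (nat_lit 8803383289) (nat_lit 9) (nat_lit 5) (nat_lit 11) (nat_lit 4) (nat_lit 9) (nat_lit 4) (nat_lit 479) (nat_lit 297) (nat_lit 244)) (XT.nd (nat_lit 78) (nat_lit 0) (nat_lit 0) (XT.lf (nat_lit 0) (nat_lit 20977918945) (nat_lit 152) (nat_lit 22256015762) (nat_lit 0) (nat_lit 14225076548) (nat_lit 9) (nat_lit 5) (nat_lit 11) (nat_lit 4) (nat_lit 9) (nat_lit 4) (nat_lit 480) (nat_lit 297) (nat_lit 243)) (XT.lf (nat_lit 0) (nat_lit 26570626157) (nat_lit 152) (nat_lit 12687645394)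 (nat_lit 0) (nat_lit 19767789228) (nat_lit 9) (nat_lit 5) (nat_lit 11) (nat_lit 4) (nat_lit 9) (nat_lit 4) (nat_lit 481) (nat_lit 297) (nat_lit 242)))) (XT.nd (nat_lit 156) (nat_lit 0) (nat_lit 0) (XT.nd (nat_lit 78) (nat_lit 76) (nat_lit 0) (XT.lf (nat_lit 0) (nat_lit 32287739786) (nat_lit 152) (nat_lit 2917320411) (nat_lit 0) (nat_lit 25436364477) (nat_lit 9) (nat_lit 5) (nat_lit 11) (nat_lit 4) (nat_lit 9) (nat_lit 4) (nat_lit 482) (nat_lit 297) (nat_lit 241)) (XT.lf (nat_lit 0) (nat_lit 7204073789) (nat_lit 76) (nat_lit 30999431542) (nat_lit 76) (nat_lit 24100931591) (nat_lit 8) (nat_lit 4) (nat_lit 9) (nat_lit 5) (nat_lit 9) (nat_lit 4) (nat_lit 483) (nat_lit 297) (nat_lit 240))) (XT.nd (nat_lit 78) (nat_lit 0) (nat_lit 0) (XT.lf (nat_lit 0) (nat_lit 17607104048) (nat_lit 76) (nat_lit 26677427715) (nat_lit 76) (nat_lit 19733175685) (nat_lit 8) (nat_lit 4) (nat_lit 9) (nat_lit 5) (nat_lit 9) (nat_lit 4)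 (nat_lit 484) (nat_lit 297) (nat_lit 239)) (XT.lf (nat_lit 0) (nat_lit 28242799992) (nat_lit 76) (nat_lit 22264731424) (nat_lit 76) (nat_lit 15276059900) (nat_lit 8) (nat_lit 4) (nat_lit 9) (nat_lit 5) (nat_lit 9) (nat_lit 4) (nat_lit 485) (nat_lit 297) (nat_lit 238))))) (XT.nd (nat_lit 234) (nat_lit 152) (nat_lit 0) (XT.nd (nat_lit 78) (nat_lit 0) (nat_lit 0) (XT.lf (nat_lit 0) (nat_lit 39120454950) (nat_lit 76) (nat_lit 17757486916) (nat_lit 76) (nat_lit 10725689670) (nat_lit 8) (nat_lit 4) (nat_lit 9) (nat_lit 5) (nat_lit 9) (nat_lit 4) (nat_lit 486) (nat_lit 297) (nat_lit 237)) (XT.nd (nat_lit 78) (nat_lit 0) (nat_lit 0) (XT.lf (nat_lit 0) (nat_lit 50249573668) (nat_lit 76) (nat_lit 13151755821) (nat_lit 76) (nat_lit 6078088941) (nat_lit 8) (nat_lit 4) (nat_lit 9) (nat_lit 5) (nat_lit 9) (nat_lit 4) (nat_lit 487) (nat_lit 297) (nat_lit 236)) (XT.lf (nat_lit 0) (nat_lit 61639880618) (nat_lit 76) (nat_lit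 8443513714) (nat_lit 76) (nat_lit 1329196705) (nat_lit 8) (nat_lit 4) (nat_lit 9) (nat_lit 5) (nat_lit 9) (nat_lit 4) (nat_lit 488) (nat_lit 297) (nat_lit 235)))) (XT.nd (nat_lit 156) (nat_lit 0) (nat_lit 0) (XT.nd (nat_lit 78) (nat_lit 76) (nat_lit 0) (XT.lf (nat_lit 0) (nat_lit 3456348444) (nat_lit 152) (nat_lit 137395810) (nat_lit 76) (nat_lit 69810077710) (nat_lit 7) (nat_lit 5) (nat_lit 9) (nat_lit 5) (nat_lit 8) (nat_lit 4) (nat_lit 489) (nat_lit 297) (nat_lit 234)) (XT.lf (nat_lit 0) (nat_lit 8432859736) (nat_lit 152) (nat_lit 65569074499) (nat_lit 0) (nat_lit 1450238571) (nat_lit 6) (nat_lit 5) (nat_lit 8) (nat_lit 4) (nat_lit 6) (nat_lit 4) (nat_lit 490) (nat_lit 297) (nat_lit 233))) (XT.nd (nat_lit 78) (nat_lit 0) (nat_lit 0) (XT.lf (nat_lit 0) (nat_lit 13560447506) (nat_lit 152) (nat_lit 57459765226) (nat_lit 0) (nat_lit 6541709228) (nat_lit 6) (nat_lit 5) (nat_lit 8) (nat_lit 4) (nat_lit 6) (nat_lit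 4) (nat_lit 491) (nat_lit 297) (nat_lit 232)) (XT.lf (nat_lit 0) (nat_lit 18807686548) (nat_lit 152) (nat_lit 49174420404) (nat_lit 0) (nat_lit 11753883111) (nat_lit 6) (nat_lit 5) (nat_lit 8) (nat_lit 4) (nat_lit 6) (nat_lit 4) (nat_lit 492) (nat_lit 297) (nat_lit 231))))))) (XT.nd (nat_lit 1092) (nat_lit 760) (nat_lit 0) (XT.nd (nat_lit 546) (nat_lit 608) (nat_lit 0) (XT.nd (nat_lit 234) (nat_lit 304) (nat_lit 0) (XT.nd (nat_lit 78) (nat_lit 304) (nat_lit 0) (XT.lf (nat_lit 0) (nat_lit 5582003103) (nat_lit 152) (nat_lit 1142582912) (nat_lit 152) (nat_lit 1142582912) (nat_lit 47) (nat_lit 4) (nat_lit 49) (nat_lit 5) (nat_lit 49) (nat_lit 4) (nat_lit 424) (nat_lit 298) (nat_lit 298)) (XT.nd (nat_lit 78) (nat_lit 152) (nat_lit 0) (XT.lf (nat_lit 0) (nat_lit 3431753132) (nat_lit 152) (nat_lit 9511594814) (nat_lit 0) (nat_lit 3080047489) (nat_lit 45) (nat_lit 5) (nat_lit 47) (nat_lit 4) (nat_lit 45) (nat_lit 4)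 (nat_lit 425) (nat_lit 298) (nat_lit 297)) (XT.lf (nat_lit 0) (nat_lit 1461892259) (nat_lit 152) (nat_lit 7776405629) (nat_lit 152) (nat_lit 7083238196) (nat_lit 43) (nat_lit 4) (nat_lit 45) (nat_lit 5) (nat_lit 45) (nat_lit 4) (nat_lit 426) (nat_lit 298) (nat_lit 296)))) (XT.nd (nat_lit 156) (nat_lit 152) (nat_lit 0) (XT.nd (nat_lit 78) (nat_lit 152) (nat_lit 0) (XT.lf (nat_lit 0) (nat_lit 12740460884) (nat_lit 152) (nat_lit 2456754852) (nat_lit 152) (nat_lit 1432071119) (nat_lit 43) (nat_lit 4) (nat_lit 45) (nat_lit 5) (nat_lit 45) (nat_lit 4) (nat_lit 427) (nat_lit 298) (nat_lit 295)) (XT.lf (nat_lit 0) (nat_lit 4286757092) (nat_lit 152) (nat_lit 9679312502) (nat_lit 0) (nat_lit 2979432608) (nat_lit 41) (nat_lit 5) (nat_lit 43) (nat_lit 4) (nat_lit 41) (nat_lit 4) (nat_lit 428) (nat_lit 298) (nat_lit 294))) (XT.nd (nat_lit 78) (nat_lit 0) (nat_lit 0) (XT.lf (nat_lit 0) (nat_lit 1337338989) (nat_lit 152) (nat_lit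 8772654979) (nat_lit 152) (nat_lit 7161946117) (nat_lit 39) (nat_lit 4) (nat_lit 41) (nat_lit 5) (nat_lit 41) (nat_lit 4) (nat_lit 429) (nat_lit 298) (nat_lit 293)) (XT.lf (nat_lit 0) (nat_lit 12669606011) (nat_lit 152) (nat_lit 3422158377) (nat_lit 152) (nat_lit 1516901576) (nat_lit 39) (nat_lit 4) (nat_lit 41) (nat_lit 5) (nat_lit 41) (nat_lit 4) (nat_lit 430) (nat_lit 298) (nat_lit 292))))) (XT.nd (nat_lit 234) (nat_lit 304) (nat_lit 0) (XT.nd (nat_lit 78) (nat_lit 152) (nat_lit 0) (XT.lf (nat_lit 0) (nat_lit 4182241865) (nat_lit 152) (nat_lit 11718125324) (nat_lit 0) (nat_lit 2054838298) (nat_lit 37) (nat_lit 5) (nat_lit 39) (nat_lit 4) (nat_lit 37) (nat_lit 4) (nat_lit 431) (nat_lit 298) (nat_lit 291)) (XT.nd (nat_lit 78) (nat_lit 152) (nat_lit 0) (XT.lf (nat_lit 0) (nat_lit 9994760314) (nat_lit 152) (nat_lit 719949102) (nat_lit 0) (nat_lit 7597803657) (nat_lit 37) (nat_lit 5) (nat_lit 39) (nat_lit 4) (nat_lit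 37) (nat_lit 4) (nat_lit 432) (nat_lit 298) (nat_lit 290)) (XT.lf (nat_lit 0) (nat_lit 10611692189) (nat_lit 152) (nat_lit 5363849306) (nat_lit 152) (nat_lit 2705190620) (nat_lit 35) (nat_lit 4) (nat_lit 37) (nat_lit 5) (nat_lit 37) (nat_lit 4) (nat_lit 433) (nat_lit 298) (nat_lit 289)))) (XT.nd (nat_lit 156) (nat_lit 152) (nat_lit 0) (XT.nd (nat_lit 78) (nat_lit 0) (nat_lit 0) (XT.lf (nat_lit 0) (nat_lit 2945712211) (nat_lit 152) (nat_lit 15997696469) (nat_lit 0) (nat_lit 117810924) (nat_lit 33) (nat_lit 5) (nat_lit 35) (nat_lit 4) (nat_lit 33) (nat_lit 4) (nat_lit 434) (nat_lit 298) (nat_lit 288)) (XT.lf (nat_lit 0) (nat_lit 8739485072) (nat_lit 152) (nat_lit 5039920426) (nat_lit 0) (nat_lit 5672089356) (nat_lit 33) (nat_lit 5) (nat_lit 35) (nat_lit 4) (nat_lit 33) (nat_lit 4) (nat_lit 435) (nat_lit 298) (nat_lit 287))) (XT.nd (nat_lit 78) (nat_lit 76) (nat_lit 0) (XT.lf (nat_lit 0) (nat_lit 6168892997) (nat_lit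 76) (nat_lit 8492932584) (nat_lit 76) (nat_lit 5193018005) (nat_lit 32) (nat_lit 4) (nat_lit 33) (nat_lit 5) (nat_lit 33) (nat_lit 4) (nat_lit 436) (nat_lit 298) (nat_lit 286)) (XT.lf (nat_lit 0) (nat_lit 428932801) (nat_lit 152) (nat_lit 2654927461) (nat_lit 76) (nat_lit 17187888742) (nat_lit 31) (nat_lit 5) (nat_lit 33) (nat_lit 5) (nat_lit 32) (nat_lit 4) (nat_lit 437) (nat_lit 298) (nat_lit 285)))))) (XT.nd (nat_lit 546) (nat_lit 380) (nat_lit 0) (XT.nd (nat_lit 234) (nat_lit 228) (nat_lit 0) (XT.nd (nat_lit 78) (nat_lit 76) (nat_lit 0) (XT.lf (nat_lit 0) (nat_lit 6121131323) (nat_lit 152) (nat_lit 12092944329) (nat_lit 0) (nat_lit 2485371733) (nat_lit 30) (nat_lit 5) (nat_lit 32) (nat_lit 4) (nat_lit 30) (nat_lit 4) (nat_lit 438) (nat_lit 298) (nat_lit 284)) (XT.nd (nat_lit 78) (nat_lit 76) (nat_lit 0) (XT.lf (nat_lit 0) (nat_lit 11940582045) (nat_lit 152) (nat_lit 1102474612) (nat_lit 0) (nat_lit 8098232457)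 (nat_lit 30) (nat_lit 5) (nat_lit 32) (nat_lit 4) (nat_lit 30) (nat_lit 4) (nat_lit 439) (nat_lit 298) (nat_lit 283)) (XT.lf (nat_lit 0) (nat_lit 10230247521) (nat_lit 76) (nat_lit 7704531436) (nat_lit 76) (nat_lit 3661609034) (nat_lit 29) (nat_lit 4) (nat_lit 30) (nat_lit 5) (nat_lit 30) (nat_lit 4) (nat_lit 440) (nat_lit 298) (nat_lit 282)))) (XT.nd (nat_lit 156) (nat_lit 76) (nat_lit 0) (XT.nd (nat_lit 78) (nat_lit 76) (nat_lit 0) (XT.lf (nat_lit 0) (nat_lit 1916959964) (nat_lit 152) (nat_lit 346224560) (nat_lit 76) (nat_lit 19803977038) (nat_lit 28) (nat_lit 5) (nat_lit 30) (nat_lit 5) (nat_lit 29) (nat_lit 4) (nat_lit 441) (nat_lit 298) (nat_lit 281)) (XT.lf (nat_lit 0) (nat_lit 7632523125) (nat_lit 152) (nat_lit 11582412764) (nat_lit 0) (nat_lit 3334744093) (nat_lit 27) (nat_lit 5) (nat_lit 29) (nat_lit 4) (nat_lit 27) (nat_lit 4) (nat_lit 442) (nat_lit 298) (nat_lit 280))) (XT.nd (nat_lit 78) (nat_lit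 76) (nat_lit 0) (XT.lf (nat_lit 0) (nat_lit 13450500341) (nat_lit 152) (nat_lit 623736261) (nat_lit 0) (nat_lit 8974514962) (nat_lit 27) (nat_lit 5) (nat_lit 29) (nat_lit 4) (nat_lit 27) (nat_lit 4) (nat_lit 443) (nat_lit 298) (nat_lit 279)) (XT.lf (nat_lit 0) (nat_lit 10695727436) (nat_lit 76) (nat_lit 8757878639) (nat_lit 76) (nat_lit 4108877388) (nat_lit 26) (nat_lit 4) (nat_lit 27) (nat_lit 5) (nat_lit 27) (nat_lit 4) (nat_lit 444) (nat_lit 298) (nat_lit 278))))) (XT.nd (nat_lit 312) (nat_lit 152) (nat_lit 0) (XT.nd (nat_lit 156) (nat_lit 76) (nat_lit 0) (XT.nd (nat_lit 78) (nat_lit 76) (nat_lit 0) (XT.lf (nat_lit 0) (nat_lit 1429257543) (nat_lit 152) (nat_lit 1915585010) (nat_lit 76) (nat_lit 20748917728) (nat_lit 25) (nat_lit 5) (nat_lit 27) (nat_lit 5) (nat_lit 26) (nat_lit 4) (nat_lit 445) (nat_lit 298) (nat_lit 277)) (XT.lf (nat_lit 0) (nat_lit 7073172766) (nat_lit 152) (nat_lit 15327759676) (nat_lit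 0) (nat_lit 2238161235) (nat_lit 24) (nat_lit 5) (nat_lit 26) (nat_lit 4) (nat_lit 24) (nat_lit 4) (nat_lit 446) (nat_lit 298) (nat_lit 276))) (XT.nd (nat_lit 78) (nat_lit 76) (nat_lit 0) (XT.lf (nat_lit 0) (nat_lit 12849800392) (nat_lit 152) (nat_lit 4491023530) (nat_lit 0) (nat_lit 7861066501) (nat_lit 24) (nat_lit 5) (nat_lit 26) (nat_lit 4) (nat_lit 24) (nat_lit 4) (nat_lit 447) (nat_lit 298) (nat_lit 275)) (XT.lf (nat_lit 0) (nat_lit 6633425471) (nat_lit 76) (nat_lit 12143408171) (nat_lit 76) (nat_lit 7005429269) (nat_lit 23) (nat_lit 4) (nat_lit 24) (nat_lit 5) (nat_lit 24) (nat_lit 4) (nat_lit 448) (nat_lit 298) (nat_lit 274)))) (XT.nd (nat_lit 156) (nat_lit 0) (nat_lit 0) (XT.nd (nat_lit 78) (nat_lit 152) (nat_lit 0) (XT.lf (nat_lit 0) (nat_lit 18018473872) (nat_lit 76) (nat_lit 6822832852) (nat_lit 76) (nat_lit 1539955882) (nat_lit 23) (nat_lit 4) (nat_lit 24) (nat_lit 5) (nat_lit 24) (nat_lit 4) (nat_lit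 449) (nat_lit 298) (nat_lit 273)) (XT.lf (nat_lit 0) (nat_lit 2596129085) (nat_lit 76) (nat_lit 1354454062) (nat_lit 152) (nat_lit 23048247385) (nat_lit 21) (nat_lit 5) (nat_lit 22) (nat_lit 5) (nat_lit 23) (nat_lit 4) (nat_lit 450) (nat_lit 298) (nat_lit 272))) (XT.nd (nat_lit 78) (nat_lit 0) (nat_lit 0) (XT.lf (nat_lit 0) (nat_lit 9617401859) (nat_lit 152) (nat_lit 13796582745) (nat_lit 0) (nat_lit 4219212507) (nat_lit 21) (nat_lit 5) (nat_lit 23) (nat_lit 4) (nat_lit 21) (nat_lit 4) (nat_lit 451) (nat_lit 298) (nat_lit 271)) (XT.lf (nat_lit 0) (nat_lit 15386187693) (nat_lit 152) (nat_lit 3043194187) (nat_lit 0) (nat_lit 9859258284) (nat_lit 21) (nat_lit 5) (nat_lit 23) (nat_lit 4) (nat_lit 21) (nat_lit 4) (nat_lit 452) (nat_lit 298) (nat_lit 270))))))))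
noncomputable def xc21 : XT := (XT.nd (nat_lit 2184) (nat_lit 228) (nat_lit 0) (XT.nd (nat_lit 1092) (nat_lit 380) (nat_lit 0) (XT.nd (nat_lit 546) (nat_lit 228) (nat_lit 0) (XT.nd (nat_lit 234) (nat_lit 76) (nat_lit 0) (XT.nd (nat_lit 78) (nat_lit 152) (nat_lit 0) (XT.lf (nat_lit 0) (nat_lit 8036705301) (nat_lit 76) (nat_lit 13289509921) (nat_lit 76) (nat_lit 7637590165) (nat_lit 20) (nat_lit 4) (nat_lit 21) (nat_lit 5) (nat_lit 21) (nat_lit 4) (nat_lit 453) (nat_lit 298) (nat_lit 269)) (XT.nd (nat_lit 78) (nat_lit 152) (nat_lit 0) (XT.lf (nat_lit 0) (nat_lit 19359967652) (nat_lit 76) (nat_lit 8036978276) (nat_lit 76) (nat_lit 2263708670) (nat_lit 20) (nat_lit 4) (nat_lit 21) (nat_lit 5) (nat_lit 21) (nat_lit 4) (nat_lit 454) (nat_lit 298) (nat_lit 268)) (XT.lf (nat_lit 0) (nat_lit 473780271) (nat_lit 76) (nat_lit 2661621337) (nat_lit 152) (nat_lit 27244232678) (nat_lit 18) (nat_lit 5) (nat_lit 19) (nat_lit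 5) (nat_lit 20) (nat_lit 4) (nat_lit 455) (nat_lit 298) (nat_lit 267)))) (XT.nd (nat_lit 156) (nat_lit 76) (nat_lit 0) (XT.nd (nat_lit 78) (nat_lit 0) (nat_lit 0) (XT.lf (nat_lit 0) (nat_lit 8707100320) (nat_lit 152) (nat_lit 19534182987) (nat_lit 0) (nat_lit 2876548020) (nat_lit 18) (nat_lit 5) (nat_lit 20) (nat_lit 4) (nat_lit 18) (nat_lit 4) (nat_lit 456) (nat_lit 298) (nat_lit 266)) (XT.lf (nat_lit 0) (nat_lit 14397963449) (nat_lit 152) (nat_lit 9022060692) (nat_lit 0) (nat_lit 8459593379) (nat_lit 18) (nat_lit 5) (nat_lit 20) (nat_lit 4) (nat_lit 18) (nat_lit 4) (nat_lit 457) (nat_lit 298) (nat_lit 265))) (XT.nd (nat_lit 78) (nat_lit 0) (nat_lit 0) (XT.lf (nat_lit 0) (nat_lit 1698425753) (nat_lit 76) (nat_lit 18505279016) (nat_lit 76) (nat_lit 12462231498) (nat_lit 17) (nat_lit 4) (nat_lit 18) (nat_lit 5) (nat_lit 18) (nat_lit 4) (nat_lit 458) (nat_lit 298) (nat_lit 264)) (XT.lf (nat_lit 0) (nat_lit 12786702211)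 (nat_lit 76) (nat_lit 13416615464) (nat_lit 76) (nat_lit 7271939356) (nat_lit 17) (nat_lit 4) (nat_lit 18) (nat_lit 5) (nat_lit 18) (nat_lit 4) (nat_lit 459) (nat_lit 298) (nat_lit 263))))) (XT.nd (nat_lit 234) (nat_lit 76) (nat_lit 0) (XT.nd (nat_lit 78) (nat_lit 152) (nat_lit 0) (XT.lf (nat_lit 0) (nat_lit 24072900767) (nat_lit 76) (nat_lit 8240692203) (nat_lit 76) (nat_lit 1997347562) (nat_lit 17) (nat_lit 4) (nat_lit 18) (nat_lit 5) (nat_lit 18) (nat_lit 4) (nat_lit 460) (nat_lit 298) (nat_lit 262)) (XT.nd (nat_lit 78) (nat_lit 0) (nat_lit 0) (XT.lf (nat_lit 0) (nat_lit 367989448) (nat_lit 76) (nat_lit 2936014878) (nat_lit 152) (nat_lit 31868635809) (nat_lit 15) (nat_lit 5) (nat_lit 16) (nat_lit 5) (nat_lit 17) (nat_lit 4) (nat_lit 461) (nat_lit 298) (nat_lit 261)) (XT.lf (nat_lit 0) (nat_lit 8785092734) (nat_lit 152) (nat_lit 24732389710) (nat_lit 0) (nat_lit 2540292841) (nat_lit 15) (nat_lit 5) (nat_lit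 17) (nat_lit 4) (nat_lit 15) (nat_lit 4) (nat_lit 462) (nat_lit 298) (nat_lit 260)))) (XT.nd (nat_lit 156) (nat_lit 76) (nat_lit 0) (XT.nd (nat_lit 78) (nat_lit 0) (nat_lit 0) (XT.lf (nat_lit 0) (nat_lit 14393794078) (nat_lit 152) (nat_lit 14515449498) (nat_lit 0) (nat_lit 8061328470) (nat_lit 15) (nat_lit 5) (nat_lit 17) (nat_lit 4) (nat_lit 15) (nat_lit 4) (nat_lit 463) (nat_lit 298) (nat_lit 259)) (XT.lf (nat_lit 0) (nat_lit 20106786391) (nat_lit 152) (nat_lit 4116679856) (nat_lit 0) (nat_lit 13689208439) (nat_lit 15) (nat_lit 5) (nat_lit 17) (nat_lit 4) (nat_lit 15) (nat_lit 4) (nat_lit 464) (nat_lit 298) (nat_lit 258))) (XT.nd (nat_lit 78) (nat_lit 0) (nat_lit 0) (XT.lf (nat_lit 0) (nat_lit 6601831021) (nat_lit 76) (nat_lit 19390691427) (nat_lit 76) (nat_lit 12890480132) (nat_lit 14) (nat_lit 4) (nat_lit 15) (nat_lit 5) (nat_lit 15) (nat_lit 4) (nat_lit 465) (nat_lit 298) (nat_lit 257)) (XT.lf (nat_lit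 0) (nat_lit 17606424509) (nat_lit 76) (nat_lit 14428526374) (nat_lit 76) (nat_lit 7848088531) (nat_lit 14) (nat_lit 4) (nat_lit 15) (nat_lit 5) (nat_lit 15) (nat_lit 4) (nat_lit 466) (nat_lit 298) (nat_lit 256)))))) (XT.nd (nat_lit 546) (nat_lit 152) (nat_lit 0) (XT.nd (nat_lit 234) (nat_lit 76) (nat_lit 0) (XT.nd (nat_lit 78) (nat_lit 152) (nat_lit 0) (XT.lf (nat_lit 0) (nat_lit 28824786271) (nat_lit 76) (nat_lit 9374205609) (nat_lit 76) (nat_lit 2715877915) (nat_lit 14) (nat_lit 4) (nat_lit 15) (nat_lit 5) (nat_lit 15) (nat_lit 4) (nat_lit 467) (nat_lit 298) (nat_lit 255)) (XT.nd (nat_lit 78) (nat_lit 76) (nat_lit 0) (XT.lf (nat_lit 0) (nat_lit 2461644618) (nat_lit 152) (nat_lit 1736810334) (nat_lit 76) (nat_lit 37780216355) (nat_lit 13) (nat_lit 5) (nat_lit 15) (nat_lit 5) (nat_lit 14) (nat_lit 4) (nat_lit 468) (nat_lit 298) (nat_lit 254)) (XT.lf (nat_lit 0) (nat_lit 7780768692) (nat_lit 152) (nat_lit 34119914048)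 (nat_lit 0) (nat_lit 1171673968) (nat_lit 12) (nat_lit 5) (nat_lit 14) (nat_lit 4) (nat_lit 12) (nat_lit 4) (nat_lit 469) (nat_lit 298) (nat_lit 253)))) (XT.nd (nat_lit 156) (nat_lit 76) (nat_lit 0) (XT.nd (nat_lit 78) (nat_lit 0) (nat_lit 0) (XT.lf (nat_lit 0) (nat_lit 13262037316) (nat_lit 152) (nat_lit 24353002102) (nat_lit 0) (nat_lit 6583738468) (nat_lit 12) (nat_lit 5) (nat_lit 14) (nat_lit 4) (nat_lit 12) (nat_lit 4) (nat_lit 470) (nat_lit 298) (nat_lit 252)) (XT.lf (nat_lit 0) (nat_lit 18852685689) (nat_lit 152) (nat_lit 14400761658) (nat_lit 0) (nat_lit 12107198371) (nat_lit 12) (nat_lit 5) (nat_lit 14) (nat_lit 4) (nat_lit 12) (nat_lit 4) (nat_lit 471) (nat_lit 298) (nat_lit 251))) (XT.nd (nat_lit 78) (nat_lit 76) (nat_lit 0) (XT.lf (nat_lit 0) (nat_lit 24557598843) (nat_lit 152) (nat_lit 4254496586) (nat_lit 0) (nat_lit 17746880001) (nat_lit 12) (nat_lit 5) (nat_lit 14) (nat_lit 4) (nat_lit 12) (nat_lit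 4) (nat_lit 472) (nat_lit 298) (nat_lit 250)) (XT.lf (nat_lit 0) (nat_lit 6215954444) (nat_lit 76) (nat_lit 24225558768) (nat_lit 76) (nat_lit 17351508348) (nat_lit 11) (nat_lit 4) (nat_lit 12) (nat_lit 5) (nat_lit 12) (nat_lit 4) (nat_lit 473) (nat_lit 298) (nat_lit 249))))) (XT.nd (nat_lit 234) (nat_lit 152) (nat_lit 0) (XT.nd (nat_lit 78) (nat_lit 0) (nat_lit 0) (XT.lf (nat_lit 0) (nat_lit 16987229435) (nat_lit 76) (nat_lit 19506325405) (nat_lit 76) (nat_lit 12570788017) (nat_lit 11) (nat_lit 4) (nat_lit 12) (nat_lit 5) (nat_lit 12) (nat_lit 4) (nat_lit 474) (nat_lit 298) (nat_lit 248)) (XT.nd (nat_lit 78) (nat_lit 0) (nat_lit 0) (XT.lf (nat_lit 0) (nat_lit 27984067356) (nat_lit 76) (nat_lit 14693233812) (nat_lit 76) (nat_lit 7698000339) (nat_lit 11) (nat_lit 4) (nat_lit 12) (nat_lit 5) (nat_lit 12) (nat_lit 4) (nat_lit 475) (nat_lit 298) (nat_lit 247)) (XT.lf (nat_lit 0) (nat_lit 39216077095) (nat_lit 76)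 (nat_lit 9782078376) (nat_lit 76) (nat_lit 2728887537) (nat_lit 11) (nat_lit 4) (nat_lit 12) (nat_lit 5) (nat_lit 12) (nat_lit 4) (nat_lit 476) (nat_lit 298) (nat_lit 246)))) (XT.nd (nat_lit 156) (nat_lit 0) (nat_lit 0) (XT.nd (nat_lit 78) (nat_lit 76) (nat_lit 0) (XT.lf (nat_lit 0) (nat_lit 2295213088) (nat_lit 152) (nat_lit 2450177554) (nat_lit 76) (nat_lit 48374682788) (nat_lit 10) (nat_lit 5) (nat_lit 12) (nat_lit 5) (nat_lit 11) (nat_lit 4) (nat_lit 477) (nat_lit 298) (nat_lit 245)) (XT.lf (nat_lit 0) (nat_lit 7450385514) (nat_lit 152) (nat_lit 46607686737) (nat_lit 0) (nat_lit 494957845) (nat_lit 9) (nat_lit 5) (nat_lit 11) (nat_lit 4) (nat_lit 9) (nat_lit 4) (nat_lit 478) (nat_lit 298) (nat_lit 244))) (XT.nd (nat_lit 78) (nat_lit 0) (nat_lit 0) (XT.lf (nat_lit 0) (nat_lit 12786167812) (nat_lit 152) (nat_lit 37462784974) (nat_lit 0) (nat_lit 5779245775) (nat_lit 9) (nat_lit 5) (nat_lit 11) (nat_lit 4)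 (nat_lit 9) (nat_lit 4) (nat_lit 479) (nat_lit 298) (nat_lit 243)) (XT.lf (nat_lit 0) (nat_lit 18237347536) (nat_lit 152) (nat_lit 28131185548) (nat_lit 0) (nat_lit 11180430967) (nat_lit 9) (nat_lit 5) (nat_lit 11) (nat_lit 4) (nat_lit 9) (nat_lit 4) (nat_lit 480) (nat_lit 298) (nat_lit 242))))))) (XT.nd (nat_lit 48672) (nat_lit 0) (nat_lit 1824) (XT.nd (nat_lit 546) (nat_lit 152) (nat_lit 0) (XT.nd (nat_lit 234) (nat_lit 0) (nat_lit 0) (XT.nd (nat_lit 78) (nat_lit 76) (nat_lit 0) (XT.lf (nat_lit 0) (nat_lit 23808687851) (nat_lit 152) (nat_lit 18604734637) (nat_lit 0) (nat_lit 16703232902) (nat_lit 9) (nat_lit 5) (nat_lit 11) (nat_lit 4) (nat_lit 9) (nat_lit 4) (nat_lit 481) (nat_lit 298) (nat_lit 241)) (XT.nd (nat_lit 78) (nat_lit 76) (nat_lit 0) (XT.lf (nat_lit 0) (nat_lit 29505056920) (nat_lit 152) (nat_lit 8875108156) (nat_lit 0) (nat_lit 22352477330) (nat_lit 9) (nat_lit 5) (nat_lit 11) (nat_lit 4) (nat_lit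 9) (nat_lit 4) (nat_lit 482) (nat_lit 298) (nat_lit 240)) (XT.lf (nat_lit 0) (nat_lit 1087414890) (nat_lit 76) (nat_lit 34254470159) (nat_lit 76) (nat_lit 27056138490) (nat_lit 8) (nat_lit 4) (nat_lit 9) (nat_lit 5) (nat_lit 9) (nat_lit 4) (nat_lit 483) (nat_lit 298) (nat_lit 239)))) (XT.nd (nat_lit 156) (nat_lit 0) (nat_lit 0) (XT.nd (nat_lit 78) (nat_lit 0) (nat_lit 0) (XT.lf (nat_lit 0) (nat_lit 11451319424) (nat_lit 76) (nat_lit 29951662219) (nat_lit 76) (nat_lit 22708911056) (nat_lit 8) (nat_lit 4) (nat_lit 9) (nat_lit 5) (nat_lit 9) (nat_lit 4) (nat_lit 484) (nat_lit 298) (nat_lit 238)) (XT.lf (nat_lit 0) (nat_lit 22049029228) (nat_lit 76) (nat_lit 25557602712) (nat_lit 76) (nat_lit 18271725826) (nat_lit 8) (nat_lit 4) (nat_lit 9) (nat_lit 5) (nat_lit 9) (nat_lit 4) (nat_lit 485) (nat_lit 298) (nat_lit 237))) (XT.nd (nat_lit 78) (nat_lit 0) (nat_lit 0) (XT.lf (nat_lit 0) (nat_lit 32889804438) (nat_lit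 76) (nat_lit 21068452168) (nat_lit 76) (nat_lit 13740705649) (nat_lit 8) (nat_lit 4) (nat_lit 9) (nat_lit 5) (nat_lit 9) (nat_lit 4) (nat_lit 486) (nat_lit 298) (nat_lit 236)) (XT.lf (nat_lit 0) (nat_lit 43983117575) (nat_lit 76) (nat_lit 16480288030) (nat_lit 76) (nat_lit 9111891381) (nat_lit 8) (nat_lit 4) (nat_lit 9) (nat_lit 5) (nat_lit 9) (nat_lit 4) (nat_lit 487) (nat_lit 298) (nat_lit 235))))) (XT.nd (nat_lit 234) (nat_lit 0) (nat_lit 0) (XT.nd (nat_lit 78) (nat_lit 152) (nat_lit 0) (XT.lf (nat_lit 0) (nat_lit 55338661826) (nat_lit 76) (nat_lit 11789101220) (nat_lit 76) (nat_lit 4381238426) (nat_lit 8) (nat_lit 4) (nat_lit 9) (nat_lit 5) (nat_lit 9) (nat_lit 4) (nat_lit 488) (nat_lit 298) (nat_lit 234)) (XT.nd (nat_lit 78) (nat_lit 76) (nat_lit 0) (XT.lf (nat_lit 0) (nat_lit 446500557) (nat_lit 152) (nat_lit 6539783307) (nat_lit 76) (nat_lit 66515350173) (nat_lit 7) (nat_lit 5) (nat_lit 9) (nat_lit 5)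 (nat_lit 8) (nat_lit 4) (nat_lit 489) (nat_lit 298) (nat_lit 233)) (XT.lf (nat_lit 0) (nat_lit 3334173230) (nat_lit 76) (nat_lit 1994670758) (nat_lit 152) (nat_lit 70223966528) (nat_lit 6) (nat_lit 5) (nat_lit 7) (nat_lit 5) (nat_lit 8) (nat_lit 4) (nat_lit 490) (nat_lit 298) (nat_lit 232)))) (XT.nd (nat_lit 47736) (nat_lit 0) (nat_lit 3268) (XT.nd (nat_lit 78) (nat_lit 0) (nat_lit 0) (XT.lf (nat_lit 0) (nat_lit 10420422117) (nat_lit 152) (nat_lit 64123279008) (nat_lit 0) (nat_lit 3119939418) (nat_lit 6) (nat_lit 5) (nat_lit 8) (nat_lit 4) (nat_lit 6) (nat_lit 4) (nat_lit 491) (nat_lit 298) (nat_lit 231)) (XT.lf (nat_lit 0) (nat_lit 15651315872) (nat_lit 152) (nat_lit 55870094371) (nat_lit 0) (nat_lit 8316789329) (nat_lit 6) (nat_lit 5) (nat_lit 8) (nat_lit 4) (nat_lit 6) (nat_lit 4) (nat_lit 492) (nat_lit 298) (nat_lit 230))) (XT.nd (nat_lit 78) (nat_lit 0) (nat_lit 0) (XT.lf (nat_lit 0) (nat_lit 1097269889)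 (nat_lit 152) (nat_lit 5395170012) (nat_lit 0) (nat_lit 1097269889) (nat_lit 49) (nat_lit 5) (nat_lit 51) (nat_lit 4) (nat_lit 49) (nat_lit 4) (nat_lit 422) (nat_lit 299) (nat_lit 299)) (XT.lf (nat_lit 0) (nat_lit 7898720679) (nat_lit 152) (nat_lit 29171779) (nat_lit 0) (nat_lit 7525596162) (nat_lit 49) (nat_lit 5) (nat_lit 51) (nat_lit 4) (nat_lit 49) (nat_lit 4) (nat_lit 423) (nat_lit 299) (nat_lit 298)))))) (XT.nd (nat_lit 546) (nat_lit 684) (nat_lit 0) (XT.nd (nat_lit 234) (nat_lit 304) (nat_lit 0) (XT.nd (nat_lit 78) (nat_lit 304) (nat_lit 0) (XT.lf (nat_lit 0) (nat_lit 11056396372) (nat_lit 152) (nat_lit 2707539828) (nat_lit 152) (nat_lit 1972158499) (nat_lit 47) (nat_lit 4) (nat_lit 49) (nat_lit 5) (nat_lit 49) (nat_lit 4) (nat_lit 424) (nat_lit 299) (nat_lit 297)) (XT.nd (nat_lit 78) (nat_lit 152) (nat_lit 0) (XT.lf (nat_lit 0) (nat_lit 3674771406) (nat_lit 152) (nat_lit 9732865565) (nat_lit 0) (nat_lit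 2619347160) (nat_lit 45) (nat_lit 5) (nat_lit 47) (nat_lit 4) (nat_lit 45) (nat_lit 4) (nat_lit 425) (nat_lit 299) (nat_lit 296)) (XT.lf (nat_lit 0) (nat_lit 1128286047) (nat_lit 152) (nat_lit 8292795913) (nat_lit 152) (nat_lit 6905855367) (nat_lit 43) (nat_lit 4) (nat_lit 45) (nat_lit 5) (nat_lit 45) (nat_lit 4) (nat_lit 426) (nat_lit 299) (nat_lit 295)))) (XT.nd (nat_lit 156) (nat_lit 152) (nat_lit 0) (XT.nd (nat_lit 78) (nat_lit 152) (nat_lit 0) (XT.lf (nat_lit 0) (nat_lit 12302066576) (nat_lit 152) (nat_lit 3021559561) (nat_lit 152) (nat_lit 1312758530) (nat_lit 43) (nat_lit 4) (nat_lit 45) (nat_lit 5) (nat_lit 45) (nat_lit 4) (nat_lit 427) (nat_lit 299) (nat_lit 294)) (XT.lf (nat_lit 0) (nat_lit 4337147253) (nat_lit 152) (nat_lit 10242688483) (nat_lit 0) (nat_lit 2374732748) (nat_lit 41) (nat_lit 5) (nat_lit 43) (nat_lit 4) (nat_lit 41) (nat_lit 4) (nat_lit 428) (nat_lit 299) (nat_lit 293))) (XT.nd (nat_lit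 78) (nat_lit 0) (nat_lit 0) (XT.lf (nat_lit 0) (nat_lit 657676617) (nat_lit 152) (nat_lit 9441073065) (nat_lit 152) (nat_lit 7184110621) (nat_lit 39) (nat_lit 4) (nat_lit 41) (nat_lit 5) (nat_lit 41) (nat_lit 4) (nat_lit 429) (nat_lit 299) (nat_lit 292)) (XT.lf (nat_lit 0) (nat_lit 11887929947) (nat_lit 152) (nat_lit 4138113311) (nat_lit 152) (nat_lit 1595181994) (nat_lit 39) (nat_lit 4) (nat_lit 41) (nat_lit 5) (nat_lit 41) (nat_lit 4) (nat_lit 430) (nat_lit 299) (nat_lit 291))))) (XT.nd (nat_lit 312) (nat_lit 228) (nat_lit 0) (XT.nd (nat_lit 156) (nat_lit 304) (nat_lit 0) (XT.nd (nat_lit 78) (nat_lit 0) (nat_lit 0) (XT.lf (nat_lit 0) (nat_lit 4035884711) (nat_lit 152) (nat_lit 12636528988) (nat_lit 0) (nat_lit 1297466264) (nat_lit 37) (nat_lit 5) (nat_lit 39) (nat_lit 4) (nat_lit 37) (nat_lit 4) (nat_lit 431) (nat_lit 299) (nat_lit 290)) (XT.lf (nat_lit 0) (nat_lit 9795142619) (nat_lit 152) (nat_lit 1738624960)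 (nat_lit 0) (nat_lit 6795022144) (nat_lit 37) (nat_lit 5) (nat_lit 39) (nat_lit 4) (nat_lit 37) (nat_lit 4) (nat_lit 432) (nat_lit 299) (nat_lit 289))) (XT.nd (nat_lit 78) (nat_lit 152) (nat_lit 0) (XT.lf (nat_lit 0) (nat_lit 9473453551) (nat_lit 152) (nat_lit 6239819540) (nat_lit 152) (nat_lit 2985619425) (nat_lit 35) (nat_lit 4) (nat_lit 37) (nat_lit 5) (nat_lit 37) (nat_lit 4) (nat_lit 433) (nat_lit 299) (nat_lit 288)) (XT.lf (nat_lit 0) (nat_lit 1788680480) (nat_lit 76) (nat_lit 817014030) (nat_lit 152) (nat_lit 16475722186) (nat_lit 33) (nat_lit 5) (nat_lit 34) (nat_lit 5) (nat_lit 35) (nat_lit 4) (nat_lit 434) (nat_lit 299) (nat_lit 287)))) (XT.nd (nat_lit 156) (nat_lit 152) (nat_lit 0) (XT.nd (nat_lit 78) (nat_lit 76) (nat_lit 0) (XT.lf (nat_lit 0) (nat_lit 8340113875) (nat_lit 152) (nat_lit 6424679550) (nat_lit 0) (nat_lit 4708682996) (nat_lit 33) (nat_lit 5) (nat_lit 35) (nat_lit 4) (nat_lit 33) (nat_lit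 4) (nat_lit 435) (nat_lit 299) (nat_lit 286)) (XT.lf (nat_lit 0) (nat_lit 4659958034) (nat_lit 76) (nat_lit 9537991683) (nat_lit 76) (nat_lit 5680814334) (nat_lit 32) (nat_lit 4) (nat_lit 33) (nat_lit 5) (nat_lit 33) (nat_lit 4) (nat_lit 436) (nat_lit 299) (nat_lit 285))) (XT.nd (nat_lit 78) (nat_lit 152) (nat_lit 0) (XT.lf (nat_lit 0) (nat_lit 16018415613) (nat_lit 76) (nat_lit 4177607849) (nat_lit 76) (nat_lit 101259171) (nat_lit 32) (nat_lit 4) (nat_lit 33) (nat_lit 5) (nat_lit 33) (nat_lit 4) (nat_lit 437) (nat_lit 299) (nat_lit 284)) (XT.lf (nat_lit 0) (nat_lit 5516509094) (nat_lit 152) (nat_lit 13858497726) (nat_lit 0) (nat_lit 1352299020) (nat_lit 30) (nat_lit 5) (nat_lit 32) (nat_lit 4) (nat_lit 30) (nat_lit 4) (nat_lit 438) (nat_lit 299) (nat_lit 283))))))))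
noncomputable def xc22 : XT := (XT.nd (nat_lit 2184) (nat_lit 608) (nat_lit 0) (XT.nd (nat_lit 1092) (nat_lit 532) (nat_lit 0) (XT.nd (nat_lit 546) (nat_lit 304) (nat_lit 0) (XT.nd (nat_lit 234) (nat_lit 228) (nat_lit 0) (XT.nd (nat_lit 78) (nat_lit 152) (nat_lit 0) (XT.lf (nat_lit 0) (nat_lit 11287596895) (nat_lit 152) (nat_lit 2960190892) (nat_lit 0) (nat_lit 6922814008) (nat_lit 30) (nat_lit 5) (nat_lit 32) (nat_lit 4) (nat_lit 30) (nat_lit 4) (nat_lit 439) (nat_lit 299) (nat_lit 282)) (XT.nd (nat_lit 78) (nat_lit 76) (nat_lit 0) (XT.lf (nat_lit 0) (nat_lit 8244299720) (nat_lit 76) (nat_lit 8971449652) (nat_lit 76) (nat_lit 4411935877) (nat_lit 29) (nat_lit 4) (nat_lit 30) (nat_lit 5) (nat_lit 30) (nat_lit 4) (nat_lit 440) (nat_lit 299) (nat_lit 281)) (XT.lf (nat_lit 0) (nat_lit 1134373449) (nat_lit 152) (nat_lit 2445794787) (nat_lit 76) (nat_lit 18519917056) (nat_lit 28) (nat_lit 5) (nat_lit 30) (nat_lit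 5) (nat_lit 29) (nat_lit 4) (nat_lit 441) (nat_lit 299) (nat_lit 280)))) (XT.nd (nat_lit 156) (nat_lit 152) (nat_lit 0) (XT.nd (nat_lit 78) (nat_lit 0) (nat_lit 0) (XT.lf (nat_lit 0) (nat_lit 6769695333) (nat_lit 152) (nat_lit 13834094538) (nat_lit 0) (nat_lit 1981224045) (nat_lit 27) (nat_lit 5) (nat_lit 29) (nat_lit 4) (nat_lit 27) (nat_lit 4) (nat_lit 442) (nat_lit 299) (nat_lit 279)) (XT.lf (nat_lit 0) (nat_lit 12542241675) (nat_lit 152) (nat_lit 2962455112) (nat_lit 0) (nat_lit 7580754517) (nat_lit 27) (nat_lit 5) (nat_lit 29) (nat_lit 4) (nat_lit 27) (nat_lit 4) (nat_lit 443) (nat_lit 299) (nat_lit 278))) (XT.nd (nat_lit 78) (nat_lit 76) (nat_lit 0) (XT.lf (nat_lit 0) (nat_lit 8224279722) (nat_lit 76) (nat_lit 10253202977) (nat_lit 76) (nat_lit 5123739244) (nat_lit 26) (nat_lit 4) (nat_lit 27) (nat_lit 5) (nat_lit 27) (nat_lit 4) (nat_lit 444) (nat_lit 299) (nat_lit 277)) (XT.lf (nat_lit 0) (nat_lit 390137406)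 (nat_lit 152) (nat_lit 4500568850) (nat_lit 76) (nat_lit 19243409661) (nat_lit 25) (nat_lit 5) (nat_lit 27) (nat_lit 5) (nat_lit 26) (nat_lit 4) (nat_lit 445) (nat_lit 299) (nat_lit 276))))) (XT.nd (nat_lit 234) (nat_lit 152) (nat_lit 0) (XT.nd (nat_lit 78) (nat_lit 76) (nat_lit 0) (XT.lf (nat_lit 0) (nat_lit 5949629740) (nat_lit 152) (nat_lit 18074843349) (nat_lit 0) (nat_lit 657511471) (nat_lit 24) (nat_lit 5) (nat_lit 26) (nat_lit 4) (nat_lit 24) (nat_lit 4) (nat_lit 446) (nat_lit 299) (nat_lit 275)) (XT.nd (nat_lit 78) (nat_lit 76) (nat_lit 0) (XT.lf (nat_lit 0) (nat_lit 11683568820) (nat_lit 152) (nat_lit 7320290086) (nat_lit 0) (nat_lit 6242205541) (nat_lit 24) (nat_lit 5) (nat_lit 26) (nat_lit 4) (nat_lit 24) (nat_lit 4) (nat_lit 447) (nat_lit 299) (nat_lit 274)) (XT.lf (nat_lit 0) (nat_lit 3666473796) (nat_lit 76) (nat_lit 13874162929) (nat_lit 76) (nat_lit 8287901582) (nat_lit 23) (nat_lit 4) (nat_lit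 24) (nat_lit 5) (nat_lit 24) (nat_lit 4) (nat_lit 448) (nat_lit 299) (nat_lit 273)))) (XT.nd (nat_lit 156) (nat_lit 76) (nat_lit 0) (XT.nd (nat_lit 78) (nat_lit 76) (nat_lit 0) (XT.lf (nat_lit 0) (nat_lit 14972515238) (nat_lit 76) (nat_lit 8591597058) (nat_lit 76) (nat_lit 2864657975) (nat_lit 23) (nat_lit 4) (nat_lit 24) (nat_lit 5) (nat_lit 24) (nat_lit 4) (nat_lit 449) (nat_lit 299) (nat_lit 272)) (XT.lf (nat_lit 0) (nat_lit 2586575452) (nat_lit 152) (nat_lit 612771241) (nat_lit 76) (nat_lit 23849330386) (nat_lit 22) (nat_lit 5) (nat_lit 24) (nat_lit 5) (nat_lit 23) (nat_lit 4) (nat_lit 450) (nat_lit 299) (nat_lit 271))) (XT.nd (nat_lit 78) (nat_lit 0) (nat_lit 0) (XT.lf (nat_lit 0) (nat_lit 8189470778) (nat_lit 152) (nat_lit 17127499295) (nat_lit 0) (nat_lit 2367993430) (nat_lit 21) (nat_lit 5) (nat_lit 23) (nat_lit 4) (nat_lit 21) (nat_lit 4) (nat_lit 451) (nat_lit 299) (nat_lit 270)) (XT.lf (nat_lit 0)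 (nat_lit 13919303111) (nat_lit 152) (nat_lit 6449438714) (nat_lit 0) (nat_lit 7972835416) (nat_lit 21) (nat_lit 5) (nat_lit 23) (nat_lit 4) (nat_lit 21) (nat_lit 4) (nat_lit 452) (nat_lit 299) (nat_lit 269)))))) (XT.nd (nat_lit 546) (nat_lit 228) (nat_lit 0) (XT.nd (nat_lit 234) (nat_lit 152) (nat_lit 0) (XT.nd (nat_lit 78) (nat_lit 76) (nat_lit 0) (XT.lf (nat_lit 0) (nat_lit 4488080361) (nat_lit 76) (nat_lit 15299319792) (nat_lit 76) (nat_lit 9231502247) (nat_lit 20) (nat_lit 4) (nat_lit 21) (nat_lit 5) (nat_lit 21) (nat_lit 4) (nat_lit 453) (nat_lit 299) (nat_lit 268)) (XT.nd (nat_lit 78) (nat_lit 76) (nat_lit 0) (XT.lf (nat_lit 0) (nat_lit 15738925753) (nat_lit 76) (nat_lit 10081791580) (nat_lit 76) (nat_lit 3896158645) (nat_lit 20) (nat_lit 4) (nat_lit 21) (nat_lit 5) (nat_lit 21) (nat_lit 4) (nat_lit 454) (nat_lit 299) (nat_lit 267)) (XT.lf (nat_lit 0) (nat_lit 1493567025) (nat_lit 152) (nat_lit 3268075745)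 (nat_lit 76) (nat_lit 25675922696) (nat_lit 19) (nat_lit 5) (nat_lit 21) (nat_lit 5) (nat_lit 20) (nat_lit 4) (nat_lit 455) (nat_lit 299) (nat_lit 266)))) (XT.nd (nat_lit 156) (nat_lit 76) (nat_lit 0) (XT.nd (nat_lit 78) (nat_lit 0) (nat_lit 0) (XT.lf (nat_lit 0) (nat_lit 6976101550) (nat_lit 152) (nat_lit 23450575071) (nat_lit 0) (nat_lit 751762607) (nat_lit 18) (nat_lit 5) (nat_lit 20) (nat_lit 4) (nat_lit 18) (nat_lit 4) (nat_lit 456) (nat_lit 299) (nat_lit 265)) (XT.lf (nat_lit 0) (nat_lit 12631410979) (nat_lit 152) (nat_lit 13007488206) (nat_lit 0) (nat_lit 6302394589) (nat_lit 18) (nat_lit 5) (nat_lit 20) (nat_lit 4) (nat_lit 18) (nat_lit 4) (nat_lit 457) (nat_lit 299) (nat_lit 264))) (XT.nd (nat_lit 78) (nat_lit 76) (nat_lit 0) (XT.lf (nat_lit 0) (nat_lit 18386307838) (nat_lit 152) (nat_lit 2387168852) (nat_lit 0) (nat_lit 11955662857) (nat_lit 18) (nat_lit 5) (nat_lit 20) (nat_lit 4) (nat_lit 18) (nat_lit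 4) (nat_lit 458) (nat_lit 299) (nat_lit 263)) (XT.lf (nat_lit 0) (nat_lit 8587230680) (nat_lit 76) (nat_lit 15741135709) (nat_lit 76) (nat_lit 9211822195) (nat_lit 17) (nat_lit 4) (nat_lit 18) (nat_lit 5) (nat_lit 18) (nat_lit 4) (nat_lit 459) (nat_lit 299) (nat_lit 262))))) (XT.nd (nat_lit 234) (nat_lit 76) (nat_lit 0) (XT.nd (nat_lit 78) (nat_lit 152) (nat_lit 0) (XT.lf (nat_lit 0) (nat_lit 19808994689) (nat_lit 76) (nat_lit 10596490940) (nat_lit 76) (nat_lit 3971382733) (nat_lit 17) (nat_lit 4) (nat_lit 18) (nat_lit 5) (nat_lit 18) (nat_lit 4) (nat_lit 460) (nat_lit 299) (nat_lit 261)) (XT.nd (nat_lit 78) (nat_lit 76) (nat_lit 0) (XT.lf (nat_lit 0) (nat_lit 1332441771) (nat_lit 152) (nat_lit 4013255966) (nat_lit 76) (nat_lit 29894522437) (nat_lit 16) (nat_lit 5) (nat_lit 18) (nat_lit 5) (nat_lit 17) (nat_lit 4) (nat_lit 461) (nat_lit 299) (nat_lit 260)) (XT.lf (nat_lit 0) (nat_lit 6718173906) (nat_lit 152)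 (nat_lit 29301974951) (nat_lit 0) (nat_lit 108068616) (nat_lit 15) (nat_lit 5) (nat_lit 17) (nat_lit 4) (nat_lit 15) (nat_lit 4) (nat_lit 462) (nat_lit 299) (nat_lit 259)))) (XT.nd (nat_lit 156) (nat_lit 76) (nat_lit 0) (XT.nd (nat_lit 78) (nat_lit 0) (nat_lit 0) (XT.lf (nat_lit 0) (nat_lit 12295362900) (nat_lit 152) (nat_lit 19146452855) (nat_lit 0) (nat_lit 5600145266) (nat_lit 15) (nat_lit 5) (nat_lit 17) (nat_lit 4) (nat_lit 15) (nat_lit 4) (nat_lit 463) (nat_lit 299) (nat_lit 258)) (XT.lf (nat_lit 0) (nat_lit 17977760700) (nat_lit 152) (nat_lit 8807312452) (nat_lit 0) (nat_lit 11199909722) (nat_lit 15) (nat_lit 5) (nat_lit 17) (nat_lit 4) (nat_lit 15) (nat_lit 4) (nat_lit 464) (nat_lit 299) (nat_lit 257))) (XT.nd (nat_lit 78) (nat_lit 0) (nat_lit 0) (XT.lf (nat_lit 0) (nat_lit 1758801000) (nat_lit 76) (nat_lit 22028438178) (nat_lit 76) (nat_lit 15170360653) (nat_lit 14) (nat_lit 4) (nat_lit 15) (nat_lit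 5) (nat_lit 15) (nat_lit 4) (nat_lit 465) (nat_lit 299) (nat_lit 256)) (XT.lf (nat_lit 0) (nat_lit 12706069595) (nat_lit 76) (nat_lit 17094208711) (nat_lit 76) (nat_lit 10158241334) (nat_lit 14) (nat_lit 4) (nat_lit 15) (nat_lit 5) (nat_lit 15) (nat_lit 4) (nat_lit 466) (nat_lit 299) (nat_lit 255))))))) (XT.nd (nat_lit 1092) (nat_lit 228) (nat_lit 0) (XT.nd (nat_lit 546) (nat_lit 152) (nat_lit 0) (XT.nd (nat_lit 234) (nat_lit 76) (nat_lit 0) (XT.nd (nat_lit 78) (nat_lit 152) (nat_lit 0) (XT.lf (nat_lit 0) (nat_lit 23868776122) (nat_lit 76) (nat_lit 12067009874) (nat_lit 76) (nat_lit 5055421282) (nat_lit 14) (nat_lit 4) (nat_lit 15) (nat_lit 5) (nat_lit 15) (nat_lit 4) (nat_lit 467) (nat_lit 299) (nat_lit 254)) (XT.nd (nat_lit 78) (nat_lit 76) (nat_lit 0) (XT.lf (nat_lit 0) (nat_lit 139776450) (nat_lit 152) (nat_lit 6801261052) (nat_lit 76) (nat_lit 35115486481) (nat_lit 13) (nat_lit 5) (nat_lit 15) (nat_lit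 5) (nat_lit 14) (nat_lit 4) (nat_lit 468) (nat_lit 299) (nat_lit 253)) (XT.lf (nat_lit 0) (nat_lit 3744974063) (nat_lit 76) (nat_lit 1625105522) (nat_lit 152) (nat_lit 37782795580) (nat_lit 12) (nat_lit 5) (nat_lit 13) (nat_lit 5) (nat_lit 14) (nat_lit 4) (nat_lit 469) (nat_lit 299) (nat_lit 252)))) (XT.nd (nat_lit 156) (nat_lit 76) (nat_lit 0) (XT.nd (nat_lit 78) (nat_lit 0) (nat_lit 0) (XT.lf (nat_lit 0) (nat_lit 10808604381) (nat_lit 152) (nat_lit 29678411421) (nat_lit 0) (nat_lit 3793563973) (nat_lit 12) (nat_lit 5) (nat_lit 14) (nat_lit 4) (nat_lit 12) (nat_lit 4) (nat_lit 470) (nat_lit 299) (nat_lit 251)) (XT.lf (nat_lit 0) (nat_lit 16372920404) (nat_lit 152) (nat_lit 19777669788) (nat_lit 0) (nat_lit 9292648472) (nat_lit 12) (nat_lit 5) (nat_lit 14) (nat_lit 4) (nat_lit 12) (nat_lit 4) (nat_lit 471) (nat_lit 299) (nat_lit 250))) (XT.nd (nat_lit 78) (nat_lit 76) (nat_lit 0) (XT.lf (nat_lit 0) (nat_lit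 22052268171) (nat_lit 152) (nat_lit 9681403560) (nat_lit 0) (nat_lit 14908664662) (nat_lit 12) (nat_lit 5) (nat_lit 14) (nat_lit 4) (nat_lit 12) (nat_lit 4) (nat_lit 472) (nat_lit 299) (nat_lit 249)) (XT.lf (nat_lit 0) (nat_lit 631532720) (nat_lit 76) (nat_lit 27226148176) (nat_lit 76) (nat_lit 20021057699) (nat_lit 11) (nat_lit 4) (nat_lit 12) (nat_lit 5) (nat_lit 12) (nat_lit 4) (nat_lit 473) (nat_lit 299) (nat_lit 248))))) (XT.nd (nat_lit 234) (nat_lit 152) (nat_lit 0) (XT.nd (nat_lit 78) (nat_lit 0) (nat_lit 0) (XT.lf (nat_lit 0) (nat_lit 11354741052) (nat_lit 76) (nat_lit 22530421597) (nat_lit 76) (nat_lit 15265635034) (nat_lit 11) (nat_lit 4) (nat_lit 12) (nat_lit 5) (nat_lit 12) (nat_lit 4) (nat_lit 474) (nat_lit 299) (nat_lit 247)) (XT.nd (nat_lit 78) (nat_lit 0) (nat_lit 0) (XT.lf (nat_lit 0) (nat_lit 22304912313) (nat_lit 76) (nat_lit 17740152125) (nat_lit 76) (nat_lit 10417408197) (nat_lit 11) (nat_lit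 4) (nat_lit 12) (nat_lit 5) (nat_lit 12) (nat_lit 4) (nat_lit 475) (nat_lit 299) (nat_lit 246)) (XT.lf (nat_lit 0) (nat_lit 33491614615) (nat_lit 76) (nat_lit 12851154086) (nat_lit 76) (nat_lit 5472140872) (nat_lit 11) (nat_lit 4) (nat_lit 12) (nat_lit 5) (nat_lit 12) (nat_lit 4) (nat_lit 476) (nat_lit 299) (nat_lit 245)))) (XT.nd (nat_lit 156) (nat_lit 0) (nat_lit 0) (XT.nd (nat_lit 78) (nat_lit 152) (nat_lit 0) (XT.lf (nat_lit 0) (nat_lit 44924622745) (nat_lit 76) (nat_lit 7859155542) (nat_lit 76) (nat_lit 425511953) (nat_lit 11) (nat_lit 4) (nat_lit 12) (nat_lit 5) (nat_lit 12) (nat_lit 4) (nat_lit 477) (nat_lit 299) (nat_lit 244)) (XT.lf (nat_lit 0) (nat_lit 1959900663) (nat_lit 76) (nat_lit 2693588721) (nat_lit 152) (nat_lit 49991415319) (nat_lit 9) (nat_lit 5) (nat_lit 10) (nat_lit 5) (nat_lit 11) (nat_lit 4) (nat_lit 478) (nat_lit 299) (nat_lit 243))) (XT.nd (nat_lit 78) (nat_lit 0) (nat_lit 0) (XT.lf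 (nat_lit 0) (nat_lit 9941371357) (nat_lit 152) (nat_lit 43557386894) (nat_lit 0) (nat_lit 2622752759) (nat_lit 9) (nat_lit 5) (nat_lit 11) (nat_lit 4) (nat_lit 9) (nat_lit 4) (nat_lit 479) (nat_lit 299) (nat_lit 242)) (XT.lf (nat_lit 0) (nat_lit 15371184184) (nat_lit 152) (nat_lit 34267706925) (nat_lit 0) (nat_lit 8004027206) (nat_lit 9) (nat_lit 5) (nat_lit 11) (nat_lit 4) (nat_lit 9) (nat_lit 4) (nat_lit 480) (nat_lit 299) (nat_lit 241)))))) (XT.nd (nat_lit 546) (nat_lit 152) (nat_lit 0) (XT.nd (nat_lit 234) (nat_lit 76) (nat_lit 0) (XT.nd (nat_lit 78) (nat_lit 0) (nat_lit 0) (XT.lf (nat_lit 0) (nat_lit 20921779940) (nat_lit 152) (nat_lit 24781954515) (nat_lit 0) (nat_lit 13507498321) (nat_lit 9) (nat_lit 5) (nat_lit 11) (nat_lit 4) (nat_lit 9) (nat_lit 4) (nat_lit 481) (nat_lit 299) (nat_lit 240)) (XT.nd (nat_lit 78) (nat_lit 0) (nat_lit 0) (XT.lf (nat_lit 0) (nat_lit 26598008660) (nat_lit 152) (nat_lit 15091841142)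 (nat_lit 0) (nat_lit 19137974962) (nat_lit 9) (nat_lit 5) (nat_lit 11) (nat_lit 4) (nat_lit 9) (nat_lit 4) (nat_lit 482) (nat_lit 299) (nat_lit 239)) (XT.lf (nat_lit 0) (nat_lit 32404830155) (nat_lit 152) (nat_lit 5188899717) (nat_lit 0) (nat_lit 24900376963) (nat_lit 9) (nat_lit 5) (nat_lit 11) (nat_lit 4) (nat_lit 9) (nat_lit 4) (nat_lit 483) (nat_lit 299) (nat_lit 238)))) (XT.nd (nat_lit 156) (nat_lit 0) (nat_lit 0) (XT.nd (nat_lit 78) (nat_lit 0) (nat_lit 0) (XT.lf (nat_lit 0) (nat_lit 5033749396) (nat_lit 76) (nat_lit 33361956429) (nat_lit 76) (nat_lit 25814377515) (nat_lit 8) (nat_lit 4) (nat_lit 9) (nat_lit 5) (nat_lit 9) (nat_lit 4) (nat_lit 484) (nat_lit 299) (nat_lit 237)) (XT.lf (nat_lit 0) (nat_lit 15594579452) (nat_lit 76) (nat_lit 28985990887) (nat_lit 76) (nat_lit 21396542339) (nat_lit 8) (nat_lit 4) (nat_lit 9) (nat_lit 5) (nat_lit 9) (nat_lit 4) (nat_lit 485) (nat_lit 299) (nat_lit 236))) (XT.nd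 (nat_lit 78) (nat_lit 0) (nat_lit 0) (XT.lf (nat_lit 0) (nat_lit 26399549081) (nat_lit 76) (nat_lit 24514407300) (nat_lit 76) (nat_lit 16884308623) (nat_lit 8) (nat_lit 4) (nat_lit 9) (nat_lit 5) (nat_lit 9) (nat_lit 4) (nat_lit 486) (nat_lit 299) (nat_lit 235)) (XT.lf (nat_lit 0) (nat_lit 37458099518) (nat_lit 76) (nat_lit 19943298458) (nat_lit 76) (nat_lit 12273733636) (nat_lit 8) (nat_lit 4) (nat_lit 9) (nat_lit 5) (nat_lit 9) (nat_lit 4) (nat_lit 487) (nat_lit 299) (nat_lit 234))))) (XT.nd (nat_lit 312) (nat_lit 0) (nat_lit 0) (XT.nd (nat_lit 156) (nat_lit 152) (nat_lit 0) (XT.nd (nat_lit 78) (nat_lit 0) (nat_lit 0) (XT.lf (nat_lit 0) (nat_lit 48779893575) (nat_lit 76) (nat_lit 15268670190) (nat_lit 76) (nat_lit 7560788722) (nat_lit 8) (nat_lit 4) (nat_lit 9) (nat_lit 5) (nat_lit 9) (nat_lit 4) (nat_lit 488) (nat_lit 299) (nat_lit 233)) (XT.lf (nat_lit 0) (nat_lit 60374824082) (nat_lit 76) (nat_lit 10486437868)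 (nat_lit 76) (nat_lit 2741355772) (nat_lit 8) (nat_lit 4) (nat_lit 9) (nat_lit 5) (nat_lit 9) (nat_lit 4) (nat_lit 489) (nat_lit 299) (nat_lit 232))) (XT.nd (nat_lit 78) (nat_lit 76) (nat_lit 0) (XT.lf (nat_lit 0) (nat_lit 2146065455) (nat_lit 152) (nat_lit 3424686334) (nat_lit 76) (nat_lit 70085286022) (nat_lit 7) (nat_lit 5) (nat_lit 9) (nat_lit 5) (nat_lit 8) (nat_lit 4) (nat_lit 490) (nat_lit 299) (nat_lit 231)) (XT.lf (nat_lit 0) (nat_lit 6713025267) (nat_lit 76) (nat_lit 444260267) (nat_lit 152) (nat_lit 70611993612) (nat_lit 6) (nat_lit 5) (nat_lit 7) (nat_lit 5) (nat_lit 8) (nat_lit 4) (nat_lit 491) (nat_lit 299) (nat_lit 230)))) (XT.nd (nat_lit 47580) (nat_lit 0) (nat_lit 3268) (XT.nd (nat_lit 47502) (nat_lit 0) (nat_lit 3572) (XT.lf (nat_lit 0) (nat_lit 12368039577) (nat_lit 152) (nat_lit 62830022221) (nat_lit 0) (nat_lit 4746381119) (nat_lit 6) (nat_lit 5) (nat_lit 8) (nat_lit 4) (nat_lit 6) (nat_lit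 4) (nat_lit 492) (nat_lit 299) (nat_lit 229)) (XT.lf (nat_lit 0) (nat_lit 3068616363) (nat_lit 152) (nat_lit 1189257800) (nat_lit 0) (nat_lit 3068616363) (nat_lit 53) (nat_lit 5) (nat_lit 55) (nat_lit 4) (nat_lit 53) (nat_lit 4) (nat_lit 420) (nat_lit 300) (nat_lit 300))) (XT.nd (nat_lit 78) (nat_lit 152) (nat_lit 0) (XT.lf (nat_lit 0) (nat_lit 8441696027) (nat_lit 152) (nat_lit 3433599960) (nat_lit 152) (nat_lit 3037752160) (nat_lit 51) (nat_lit 4) (nat_lit 53) (nat_lit 5) (nat_lit 53) (nat_lit 4) (nat_lit 421) (nat_lit 300) (nat_lit 299)) (XT.lf (nat_lit 0) (nat_lit 2519812315) (nat_lit 152) (nat_lit 10899015304) (nat_lit 0) (nat_lit 1762369546) (nat_lit 49) (nat_lit 5) (nat_lit 51) (nat_lit 4) (nat_lit 49) (nat_lit 4) (nat_lit 422) (nat_lit 300) (nat_lit 298))))))))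
noncomputable def xc23 : XT := (XT.nd (nat_lit 2262) (nat_lit 912) (nat_lit 0) (XT.nd (nat_lit 1092) (nat_lit 836) (nat_lit 0) (XT.nd (nat_lit 546) (nat_lit 684) (nat_lit 0) (XT.nd (nat_lit 234) (nat_lit 304) (nat_lit 0) (XT.nd (nat_lit 78) (nat_lit 304) (nat_lit 0) (XT.lf (nat_lit 0) (nat_lit 8166667279) (nat_lit 152) (nat_lit 243357037) (nat_lit 0) (nat_lit 7046967698) (nat_lit 49) (nat_lit 5) (nat_lit 51) (nat_lit 4) (nat_lit 49) (nat_lit 4) (nat_lit 423) (nat_lit 300) (nat_lit 297)) (XT.nd (nat_lit 78) (nat_lit 152) (nat_lit 0) (XT.lf (nat_lit 0) (nat_lit 10733472839) (nat_lit 152) (nat_lit 3239649573) (nat_lit 152) (nat_lit 1768244348) (nat_lit 47) (nat_lit 4) (nat_lit 49) (nat_lit 5) (nat_lit 49) (nat_lit 4) (nat_lit 424) (nat_lit 300) (nat_lit 296)) (XT.lf (nat_lit 0) (nat_lit 3809314656) (nat_lit 152) (nat_lit 10175600412) (nat_lit 0) (nat_lit 2049249594) (nat_lit 45) (nat_lit 5) (nat_lit 47) (nat_lit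 4) (nat_lit 45) (nat_lit 4) (nat_lit 425) (nat_lit 300) (nat_lit 295)))) (XT.nd (nat_lit 156) (nat_lit 152) (nat_lit 0) (XT.nd (nat_lit 78) (nat_lit 0) (nat_lit 0) (XT.lf (nat_lit 0) (nat_lit 571951813) (nat_lit 152) (nat_lit 8922959189) (nat_lit 152) (nat_lit 6841033640) (nat_lit 43) (nat_lit 4) (nat_lit 45) (nat_lit 5) (nat_lit 45) (nat_lit 4) (nat_lit 426) (nat_lit 300) (nat_lit 294)) (XT.lf (nat_lit 0) (nat_lit 11643996326) (nat_lit 152) (nat_lit 3698727134) (nat_lit 152) (nat_lit 1304315676) (nat_lit 43) (nat_lit 4) (nat_lit 45) (nat_lit 5) (nat_lit 45) (nat_lit 4) (nat_lit 427) (nat_lit 300) (nat_lit 293))) (XT.nd (nat_lit 78) (nat_lit 0) (nat_lit 0) (XT.lf (nat_lit 0) (nat_lit 4277193855) (nat_lit 152) (nat_lit 11032103914) (nat_lit 0) (nat_lit 1657974598) (nat_lit 41) (nat_lit 5) (nat_lit 43) (nat_lit 4) (nat_lit 41) (nat_lit 4) (nat_lit 428) (nat_lit 300) (nat_lit 292)) (XT.lf (nat_lit 0) (nat_lit 9978978067)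 (nat_lit 152) (nat_lit 244595491) (nat_lit 0) (nat_lit 7073789937) (nat_lit 41) (nat_lit 5) (nat_lit 43) (nat_lit 4) (nat_lit 41) (nat_lit 4) (nat_lit 429) (nat_lit 300) (nat_lit 291))))) (XT.nd (nat_lit 234) (nat_lit 380) (nat_lit 0) (XT.nd (nat_lit 78) (nat_lit 152) (nat_lit 0) (XT.lf (nat_lit 0) (nat_lit 10881747487) (nat_lit 152) (nat_lit 4969236017) (nat_lit 152) (nat_lit 1786408205) (nat_lit 39) (nat_lit 4) (nat_lit 41) (nat_lit 5) (nat_lit 41) (nat_lit 4) (nat_lit 430) (nat_lit 300) (nat_lit 290)) (XT.nd (nat_lit 78) (nat_lit 0) (nat_lit 0) (XT.lf (nat_lit 0) (nat_lit 3777017944) (nat_lit 152) (nat_lit 13786037316) (nat_lit 0) (nat_lit 425191826) (nat_lit 37) (nat_lit 5) (nat_lit 39) (nat_lit 4) (nat_lit 37) (nat_lit 4) (nat_lit 431) (nat_lit 300) (nat_lit 289)) (XT.lf (nat_lit 0) (nat_lit 9484566590) (nat_lit 152) (nat_lit 2985484932) (nat_lit 0) (nat_lit 5878660832) (nat_lit 37) (nat_lit 5) (nat_lit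 39) (nat_lit 4) (nat_lit 37) (nat_lit 4) (nat_lit 432) (nat_lit 300) (nat_lit 288)))) (XT.nd (nat_lit 156) (nat_lit 76) (nat_lit 0) (XT.nd (nat_lit 78) (nat_lit 152) (nat_lit 0) (XT.lf (nat_lit 0) (nat_lit 8105381404) (nat_lit 152) (nat_lit 7233961744) (nat_lit 152) (nat_lit 3381376724) (nat_lit 35) (nat_lit 4) (nat_lit 37) (nat_lit 5) (nat_lit 37) (nat_lit 4) (nat_lit 433) (nat_lit 300) (nat_lit 287)) (XT.lf (nat_lit 0) (nat_lit 278525469) (nat_lit 76) (nat_lit 1874481879) (nat_lit 152) (nat_lit 16952294278) (nat_lit 33) (nat_lit 5) (nat_lit 34) (nat_lit 5) (nat_lit 35) (nat_lit 4) (nat_lit 434) (nat_lit 300) (nat_lit 286))) (XT.nd (nat_lit 78) (nat_lit 76) (nat_lit 0) (XT.lf (nat_lit 0) (nat_lit 7827261824) (nat_lit 152) (nat_lit 8043285547) (nat_lit 0) (nat_lit 3628622686) (nat_lit 33) (nat_lit 5) (nat_lit 35) (nat_lit 4) (nat_lit 33) (nat_lit 4) (nat_lit 435) (nat_lit 300) (nat_lit 285)) (XT.lf (nat_lit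 0) (nat_lit 2915336257) (nat_lit 76) (nat_lit 10704447482) (nat_lit 76) (nat_lit 6286637015) (nat_lit 32) (nat_lit 4) (nat_lit 33) (nat_lit 5) (nat_lit 33) (nat_lit 4) (nat_lit 436) (nat_lit 300) (nat_lit 284)))))) (XT.nd (nat_lit 546) (nat_lit 456) (nat_lit 0) (XT.nd (nat_lit 234) (nat_lit 228) (nat_lit 0) (XT.nd (nat_lit 78) (nat_lit 152) (nat_lit 0) (XT.lf (nat_lit 0) (nat_lit 14182723596) (nat_lit 76) (nat_lit 5387128800) (nat_lit 76) (nat_lit 756530634) (nat_lit 32) (nat_lit 4) (nat_lit 33) (nat_lit 5) (nat_lit 33) (nat_lit 4) (nat_lit 437) (nat_lit 300) (nat_lit 283)) (XT.nd (nat_lit 78) (nat_lit 0) (nat_lit 0) (XT.lf (nat_lit 0) (nat_lit 4795571470) (nat_lit 152) (nat_lit 15864108377) (nat_lit 0) (nat_lit 99272282) (nat_lit 30) (nat_lit 5) (nat_lit 32) (nat_lit 4) (nat_lit 30) (nat_lit 4) (nat_lit 438) (nat_lit 300) (nat_lit 282)) (XT.lf (nat_lit 0) (nat_lit 10519704981) (nat_lit 152) (nat_lit 5055280069)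 (nat_lit 0) (nat_lit 5628674906) (nat_lit 30) (nat_lit 5) (nat_lit 32) (nat_lit 4) (nat_lit 30) (nat_lit 4) (nat_lit 439) (nat_lit 300) (nat_lit 281)))) (XT.nd (nat_lit 156) (nat_lit 76) (nat_lit 0) (XT.nd (nat_lit 78) (nat_lit 76) (nat_lit 0) (XT.lf (nat_lit 0) (nat_lit 6018912875) (nat_lit 76) (nat_lit 10361966113) (nat_lit 76) (nat_lit 5281876924) (nat_lit 29) (nat_lit 4) (nat_lit 30) (nat_lit 5) (nat_lit 30) (nat_lit 4) (nat_lit 440) (nat_lit 300) (nat_lit 280)) (XT.lf (nat_lit 0) (nat_lit 235872888) (nat_lit 152) (nat_lit 4784819762) (nat_lit 76) (nat_lit 17116083198) (nat_lit 28) (nat_lit 5) (nat_lit 30) (nat_lit 5) (nat_lit 29) (nat_lit 4) (nat_lit 441) (nat_lit 300) (nat_lit 279))) (XT.nd (nat_lit 78) (nat_lit 0) (nat_lit 0) (XT.lf (nat_lit 0) (nat_lit 5788758035) (nat_lit 152) (nat_lit 16330012032) (nat_lit 0) (nat_lit 505410390) (nat_lit 27) (nat_lit 5) (nat_lit 29) (nat_lit 4) (nat_lit 27) (nat_lit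 4) (nat_lit 442) (nat_lit 300) (nat_lit 278)) (XT.lf (nat_lit 0) (nat_lit 11517196733) (nat_lit 152) (nat_lit 5542874622) (nat_lit 0) (nat_lit 6065872515) (nat_lit 27) (nat_lit 5) (nat_lit 29) (nat_lit 4) (nat_lit 27) (nat_lit 4) (nat_lit 443) (nat_lit 300) (nat_lit 277))))) (XT.nd (nat_lit 312) (nat_lit 228) (nat_lit 0) (XT.nd (nat_lit 156) (nat_lit 152) (nat_lit 0) (XT.nd (nat_lit 78) (nat_lit 0) (nat_lit 0) (XT.lf (nat_lit 0) (nat_lit 5508831239) (nat_lit 76) (nat_lit 11874681011) (nat_lit 76) (nat_lit 6260272739) (nat_lit 26) (nat_lit 4) (nat_lit 27) (nat_lit 5) (nat_lit 27) (nat_lit 4) (nat_lit 444) (nat_lit 300) (nat_lit 276)) (XT.lf (nat_lit 0) (nat_lit 16840801736) (nat_lit 76) (nat_lit 6555003805) (nat_lit 76) (nat_lit 782261502) (nat_lit 26) (nat_lit 4) (nat_lit 27) (nat_lit 5) (nat_lit 27) (nat_lit 4) (nat_lit 445) (nat_lit 300) (nat_lit 275))) (XT.nd (nat_lit 78) (nat_lit 0) (nat_lit 0) (XT.lf (nat_lit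 0) (nat_lit 3647012139) (nat_lit 76) (nat_lit 1068986285) (nat_lit 152) (nat_lit 20012460249) (nat_lit 24) (nat_lit 5) (nat_lit 25) (nat_lit 5) (nat_lit 26) (nat_lit 4) (nat_lit 446) (nat_lit 300) (nat_lit 274)) (XT.lf (nat_lit 0) (nat_lit 10398216565) (nat_lit 152) (nat_lit 10396406727) (nat_lit 0) (nat_lit 4499469309) (nat_lit 24) (nat_lit 5) (nat_lit 26) (nat_lit 4) (nat_lit 24) (nat_lit 4) (nat_lit 447) (nat_lit 300) (nat_lit 273)))) (XT.nd (nat_lit 156) (nat_lit 152) (nat_lit 0) (XT.nd (nat_lit 78) (nat_lit 0) (nat_lit 0) (XT.lf (nat_lit 0) (nat_lit 450129443) (nat_lit 76) (nat_lit 15733999509) (nat_lit 76) (nat_lit 9694574517) (nat_lit 23) (nat_lit 4) (nat_lit 24) (nat_lit 5) (nat_lit 24) (nat_lit 4) (nat_lit 448) (nat_lit 300) (nat_lit 272)) (XT.lf (nat_lit 0) (nat_lit 11679465099) (nat_lit 76) (nat_lit 10488336014) (nat_lit 76) (nat_lit 4312330695) (nat_lit 23) (nat_lit 4) (nat_lit 24) (nat_lit 5) (nat_lit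 24) (nat_lit 4) (nat_lit 449) (nat_lit 300) (nat_lit 271))) (XT.nd (nat_lit 78) (nat_lit 76) (nat_lit 0) (XT.lf (nat_lit 0) (nat_lit 1128123174) (nat_lit 152) (nat_lit 4018517533) (nat_lit 76) (nat_lit 21954988397) (nat_lit 22) (nat_lit 5) (nat_lit 24) (nat_lit 5) (nat_lit 23) (nat_lit 4) (nat_lit 450) (nat_lit 300) (nat_lit 270)) (XT.lf (nat_lit 0) (nat_lit 6639626158) (nat_lit 152) (nat_lit 20711259135) (nat_lit 0) (nat_lit 389774086) (nat_lit 21) (nat_lit 5) (nat_lit 23) (nat_lit 4) (nat_lit 21) (nat_lit 4) (nat_lit 451) (nat_lit 300) (nat_lit 269))))))) (XT.nd (nat_lit 1092) (nat_lit 456) (nat_lit 0) (XT.nd (nat_lit 546) (nat_lit 228) (nat_lit 0) (XT.nd (nat_lit 234) (nat_lit 152) (nat_lit 0) (XT.nd (nat_lit 78) (nat_lit 76) (nat_lit 0) (XT.lf (nat_lit 0) (nat_lit 12331639557) (nat_lit 152) (nat_lit 10106332513) (nat_lit 0) (nat_lit 5960437635) (nat_lit 21) (nat_lit 5) (nat_lit 23) (nat_lit 4) (nat_lit 21)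 (nat_lit 4) (nat_lit 452) (nat_lit 300) (nat_lit 268)) (XT.nd (nat_lit 78) (nat_lit 0) (nat_lit 0) (XT.lf (nat_lit 0) (nat_lit 685990246) (nat_lit 76) (nat_lit 17440480927) (nat_lit 76) (nat_lit 10951463615) (nat_lit 20) (nat_lit 4) (nat_lit 21) (nat_lit 5) (nat_lit 21) (nat_lit 4) (nat_lit 453) (nat_lit 300) (nat_lit 267)) (XT.lf (nat_lit 0) (nat_lit 11866527911) (nat_lit 76) (nat_lit 12256936630) (nat_lit 76) (nat_lit 5653535445) (nat_lit 20) (nat_lit 4) (nat_lit 21) (nat_lit 5) (nat_lit 21) (nat_lit 4) (nat_lit 454) (nat_lit 300) (nat_lit 266)))) (XT.nd (nat_lit 156) (nat_lit 0) (nat_lit 0) (XT.nd (nat_lit 78) (nat_lit 152) (nat_lit 0) (XT.lf (nat_lit 0) (nat_lit 23243914049) (nat_lit 76) (nat_lit 6984864011) (nat_lit 76) (nat_lit 270410522) (nat_lit 20) (nat_lit 4) (nat_lit 21) (nat_lit 5) (nat_lit 21) (nat_lit 4) (nat_lit 455) (nat_lit 300) (nat_lit 265)) (XT.lf (nat_lit 0) (nat_lit 3603260319) (nat_lit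 76) (nat_lit 1532469522) (nat_lit 152) (nat_lit 26106862351) (nat_lit 18) (nat_lit 5) (nat_lit 19) (nat_lit 5) (nat_lit 20) (nat_lit 4) (nat_lit 456) (nat_lit 300) (nat_lit 264))) (XT.nd (nat_lit 78) (nat_lit 0) (nat_lit 0) (XT.lf (nat_lit 0) (nat_lit 10741790082) (nat_lit 152) (nat_lit 17248538663) (nat_lit 0) (nat_lit 4016597162) (nat_lit 18) (nat_lit 5) (nat_lit 20) (nat_lit 4) (nat_lit 18) (nat_lit 4) (nat_lit 457) (nat_lit 300) (nat_lit 263)) (XT.lf (nat_lit 0) (nat_lit 16463174168) (nat_lit 152) (nat_lit 6693291822) (nat_lit 0) (nat_lit 9639312715) (nat_lit 18) (nat_lit 5) (nat_lit 20) (nat_lit 4) (nat_lit 18) (nat_lit 4) (nat_lit 458) (nat_lit 300) (nat_lit 262))))) (XT.nd (nat_lit 234) (nat_lit 152) (nat_lit 0) (XT.nd (nat_lit 78) (nat_lit 0) (nat_lit 0) (XT.lf (nat_lit 0) (nat_lit 4130972872) (nat_lit 76) (nat_lit 18198886900) (nat_lit 76) (nat_lit 11279230754) (nat_lit 17) (nat_lit 4) (nat_lit 18)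 (nat_lit 5) (nat_lit 18) (nat_lit 4) (nat_lit 459) (nat_lit 300) (nat_lit 261)) (XT.nd (nat_lit 78) (nat_lit 0) (nat_lit 0) (XT.lf (nat_lit 0) (nat_lit 15290179069) (nat_lit 76) (nat_lit 13084609599) (nat_lit 76) (nat_lit 6071948896) (nat_lit 17) (nat_lit 4) (nat_lit 18) (nat_lit 5) (nat_lit 18) (nat_lit 4) (nat_lit 460) (nat_lit 300) (nat_lit 260)) (XT.lf (nat_lit 0) (nat_lit 26660867897) (nat_lit 76) (nat_lit 7876754424) (nat_lit 76) (nat_lit 773798036) (nat_lit 17) (nat_lit 4) (nat_lit 18) (nat_lit 5) (nat_lit 18) (nat_lit 4) (nat_lit 461) (nat_lit 300) (nat_lit 259)))) (XT.nd (nat_lit 156) (nat_lit 0) (nat_lit 0) (XT.nd (nat_lit 78) (nat_lit 0) (nat_lit 0) (XT.lf (nat_lit 0) (nat_lit 2044568515) (nat_lit 76) (nat_lit 2504786468) (nat_lit 152) (nat_lit 31652617596) (nat_lit 15) (nat_lit 5) (nat_lit 16) (nat_lit 5) (nat_lit 17) (nat_lit 4) (nat_lit 462) (nat_lit 300) (nat_lit 258)) (XT.lf (nat_lit 0) (nat_lit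 10071871923) (nat_lit 152) (nat_lit 24037433669) (nat_lit 0) (nat_lit 3008052072) (nat_lit 15) (nat_lit 5) (nat_lit 17) (nat_lit 4) (nat_lit 15) (nat_lit 4) (nat_lit 463) (nat_lit 300) (nat_lit 257))) (XT.nd (nat_lit 78) (nat_lit 0) (nat_lit 0) (XT.lf (nat_lit 0) (nat_lit 15724566311) (nat_lit 152) (nat_lit 13756185731) (nat_lit 0) (nat_lit 8580519913) (nat_lit 15) (nat_lit 5) (nat_lit 17) (nat_lit 4) (nat_lit 15) (nat_lit 4) (nat_lit 464) (nat_lit 300) (nat_lit 256)) (XT.lf (nat_lit 0) (nat_lit 21488299854) (nat_lit 152) (nat_lit 3280599098) (nat_lit 0) (nat_lit 14266363605) (nat_lit 15) (nat_lit 5) (nat_lit 17) (nat_lit 4) (nat_lit 15) (nat_lit 4) (nat_lit 465) (nat_lit 300) (nat_lit 255)))))) (XT.nd (nat_lit 546) (nat_lit 228) (nat_lit 0) (XT.nd (nat_lit 234) (nat_lit 152) (nat_lit 0) (XT.nd (nat_lit 78) (nat_lit 0) (nat_lit 0) (XT.lf (nat_lit 0) (nat_lit 7545723907) (nat_lit 76) (nat_lit 19894919033) (nat_lit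 76) (nat_lit 12597361567) (nat_lit 14) (nat_lit 4) (nat_lit 15) (nat_lit 5) (nat_lit 15) (nat_lit 4) (nat_lit 466) (nat_lit 300) (nat_lit 254)) (XT.nd (nat_lit 78) (nat_lit 0) (nat_lit 0) (XT.lf (nat_lit 0) (nat_lit 18654396224) (nat_lit 76) (nat_lit 14894052166) (nat_lit 76) (nat_lit 7523076045) (nat_lit 14) (nat_lit 4) (nat_lit 15) (nat_lit 5) (nat_lit 15) (nat_lit 4) (nat_lit 467) (nat_lit 300) (nat_lit 253)) (XT.lf (nat_lit 0) (nat_lit 29989834105) (nat_lit 76) (nat_lit 9795056281) (nat_lit 76) (nat_lit 2352799912) (nat_lit 14) (nat_lit 4) (nat_lit 15) (nat_lit 5) (nat_lit 15) (nat_lit 4) (nat_lit 468) (nat_lit 300) (nat_lit 252)))) (XT.nd (nat_lit 156) (nat_lit 0) (nat_lit 0) (XT.nd (nat_lit 78) (nat_lit 76) (nat_lit 0) (XT.lf (nat_lit 0) (nat_lit 2861044159) (nat_lit 152) (nat_lit 1703540850) (nat_lit 76) (nat_lit 38672007207) (nat_lit 13) (nat_lit 5) (nat_lit 15) (nat_lit 5) (nat_lit 14) (nat_lit 4) (nat_lit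 469) (nat_lit 300) (nat_lit 251)) (XT.lf (nat_lit 0) (nat_lit 8228113789) (nat_lit 152) (nat_lit 35268125604) (nat_lit 0) (nat_lit 870202174) (nat_lit 12) (nat_lit 5) (nat_lit 14) (nat_lit 4) (nat_lit 12) (nat_lit 4) (nat_lit 470) (nat_lit 300) (nat_lit 250))) (XT.nd (nat_lit 78) (nat_lit 0) (nat_lit 0) (XT.lf (nat_lit 0) (nat_lit 13766864424) (nat_lit 152) (nat_lit 25417382815) (nat_lit 0) (nat_lit 6345621232) (nat_lit 12) (nat_lit 5) (nat_lit 14) (nat_lit 4) (nat_lit 12) (nat_lit 4) (nat_lit 471) (nat_lit 300) (nat_lit 249)) (XT.lf (nat_lit 0) (nat_lit 19421391426) (nat_lit 152) (nat_lit 15369659155) (nat_lit 0) (nat_lit 11938661266) (nat_lit 12) (nat_lit 5) (nat_lit 14) (nat_lit 4) (nat_lit 12) (nat_lit 4) (nat_lit 472) (nat_lit 300) (nat_lit 248))))) (XT.nd (nat_lit 312) (nat_lit 152) (nat_lit 0) (XT.nd (nat_lit 156) (nat_lit 0) (nat_lit 0) (XT.nd (nat_lit 78) (nat_lit 76) (nat_lit 0) (XT.lf (nat_lit 0)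 (nat_lit 25196635644) (nat_lit 152) (nat_lit 5116175058) (nat_lit 0) (nat_lit 17654209398) (nat_lit 12) (nat_lit 5) (nat_lit 14) (nat_lit 4) (nat_lit 12) (nat_lit 4) (nat_lit 473) (nat_lit 300) (nat_lit 247)) (XT.lf (nat_lit 0) (nat_lit 5458544697) (nat_lit 76) (nat_lit 25691569579) (nat_lit 76) (nat_lit 18091185969) (nat_lit 11) (nat_lit 4) (nat_lit 12) (nat_lit 5) (nat_lit 12) (nat_lit 4) (nat_lit 474) (nat_lit 300) (nat_lit 246))) (XT.nd (nat_lit 78) (nat_lit 0) (nat_lit 0) (XT.lf (nat_lit 0) (nat_lit 16363408521) (nat_lit 76) (nat_lit 20923457505) (nat_lit 76) (nat_lit 13266804608) (nat_lit 11) (nat_lit 4) (nat_lit 12) (nat_lit 5) (nat_lit 12) (nat_lit 4) (nat_lit 475) (nat_lit 300) (nat_lit 245)) (XT.lf (nat_lit 0) (nat_lit 27506123020) (nat_lit 76) (nat_lit 16055971504) (nat_lit 76) (nat_lit 8344688232) (nat_lit 11) (nat_lit 4) (nat_lit 12) (nat_lit 5) (nat_lit 12) (nat_lit 4) (nat_lit 476) (nat_lit 300)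 (nat_lit 244)))) (XT.nd (nat_lit 156) (nat_lit 76) (nat_lit 0) (XT.nd (nat_lit 78) (nat_lit 76) (nat_lit 0) (XT.lf (nat_lit 0) (nat_lit 38896424546) (nat_lit 76) (nat_lit 11084858432) (nat_lit 76) (nat_lit 3320535962) (nat_lit 11) (nat_lit 4) (nat_lit 12) (nat_lit 5) (nat_lit 12) (nat_lit 4) (nat_lit 477) (nat_lit 300) (nat_lit 243)) (XT.lf (nat_lit 0) (nat_lit 1774721793) (nat_lit 152) (nat_lit 4213131596) (nat_lit 76) (nat_lit 48751622785) (nat_lit 10) (nat_lit 5) (nat_lit 12) (nat_lit 5) (nat_lit 11) (nat_lit 4) (nat_lit 478) (nat_lit 300) (nat_lit 242))) (XT.nd (nat_lit 78) (nat_lit 0) (nat_lit 0) (XT.lf (nat_lit 0) (nat_lit 6292248236) (nat_lit 76) (nat_lit 682165362) (nat_lit 152) (nat_lit 49244315397) (nat_lit 9) (nat_lit 5) (nat_lit 10) (nat_lit 5) (nat_lit 11) (nat_lit 4) (nat_lit 479) (nat_lit 300) (nat_lit 241)) (XT.lf (nat_lit 0) (nat_lit 12376924476) (nat_lit 152) (nat_lit 40670941901) (nat_lit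 0) (nat_lit 4693089766) (nat_lit 9) (nat_lit 5) (nat_lit 11) (nat_lit 4) (nat_lit 9) (nat_lit 4) (nat_lit 480) (nat_lit 300) (nat_lit 240))))))))
noncomputable def xc24 : XT := (XT.nd (nat_lit 49452) (nat_lit 0) (nat_lit 760) (XT.nd (nat_lit 48360) (nat_lit 0) (nat_lit 2204) (XT.nd (nat_lit 546) (nat_lit 152) (nat_lit 0) (XT.nd (nat_lit 234) (nat_lit 76) (nat_lit 0) (XT.nd (nat_lit 78) (nat_lit 0) (nat_lit 0) (XT.lf (nat_lit 0) (nat_lit 17907379882) (nat_lit 152) (nat_lit 31224702599) (nat_lit 0) (nat_lit 10177793094) (nat_lit 9) (nat_lit 5) (nat_lit 11) (nat_lit 4) (nat_lit 9) (nat_lit 4) (nat_lit 481) (nat_lit 300) (nat_lit 239)) (XT.nd (nat_lit 78) (nat_lit 0) (nat_lit 0) (XT.lf (nat_lit 0) (nat_lit 23564054865) (nat_lit 152) (nat_lit 21572951467) (nat_lit 0) (nat_lit 15790048583) (nat_lit 9) (nat_lit 5) (nat_lit 11) (nat_lit 4) (nat_lit 9) (nat_lit 4) (nat_lit 482) (nat_lit 300) (nat_lit 238)) (XT.lf (nat_lit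 0) (nat_lit 29351892150) (nat_lit 152) (nat_lit 11707254936) (nat_lit 0) (nat_lit 21534760145) (nat_lit 9) (nat_lit 5) (nat_lit 11) (nat_lit 4) (nat_lit 9) (nat_lit 4) (nat_lit 483) (nat_lit 300) (nat_lit 237)))) (XT.nd (nat_lit 156) (nat_lit 0) (nat_lit 0) (XT.nd (nat_lit 78) (nat_lit 76) (nat_lit 0) (XT.lf (nat_lit 0) (nat_lit 35275949070) (nat_lit 152) (nat_lit 1618992495) (nat_lit 0) (nat_lit 27416947432) (nat_lit 9) (nat_lit 5) (nat_lit 11) (nat_lit 4) (nat_lit 9) (nat_lit 4) (nat_lit 484) (nat_lit 300) (nat_lit 236)) (XT.lf (nat_lit 0) (nat_lit 8873810854) (nat_lit 76) (nat_lit 32552891629) (nat_lit 76) (nat_lit 24653239862) (nat_lit 8) (nat_lit 4) (nat_lit 9) (nat_lit 5) (nat_lit 9) (nat_lit 4) (nat_lit 485) (nat_lit 300) (nat_lit 235))) (XT.nd (nat_lit 78) (nat_lit 0) (nat_lit 0) (XT.lf (nat_lit 0) (nat_lit 19644017783) (nat_lit 76) (nat_lit 28098363339) (nat_lit 76) (nat_lit 20159245426) (nat_lit 8)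 (nat_lit 4) (nat_lit 9) (nat_lit 5) (nat_lit 9) (nat_lit 4) (nat_lit 486) (nat_lit 300) (nat_lit 234)) (XT.lf (nat_lit 0) (nat_lit 30668818027) (nat_lit 76) (nat_lit 23543813038) (nat_lit 76) (nat_lit 15566378480) (nat_lit 8) (nat_lit 4) (nat_lit 9) (nat_lit 5) (nat_lit 9) (nat_lit 4) (nat_lit 487) (nat_lit 300) (nat_lit 233))))) (XT.nd (nat_lit 234) (nat_lit 152) (nat_lit 0) (XT.nd (nat_lit 78) (nat_lit 0) (nat_lit 0) (XT.lf (nat_lit 0) (nat_lit 41957844906) (nat_lit 76) (nat_lit 18885261023) (nat_lit 76) (nat_lit 10870625838) (nat_lit 8) (nat_lit 4) (nat_lit 9) (nat_lit 5) (nat_lit 9) (nat_lit 4) (nat_lit 488) (nat_lit 300) (nat_lit 232)) (XT.nd (nat_lit 78) (nat_lit 0) (nat_lit 0) (XT.lf (nat_lit 0) (nat_lit 53520962617) (nat_lit 76) (nat_lit 14118636714) (nat_lit 76) (nat_lit 6067884415) (nat_lit 8) (nat_lit 4) (nat_lit 9) (nat_lit 5) (nat_lit 9) (nat_lit 4) (nat_lit 489) (nat_lit 300) (nat_lit 231)) (XT.lf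 (nat_lit 0) (nat_lit 65368274857) (nat_lit 76) (nat_lit 9239775099) (nat_lit 76) (nat_lit 1153957642) (nat_lit 8) (nat_lit 4) (nat_lit 9) (nat_lit 5) (nat_lit 9) (nat_lit 4) (nat_lit 490) (nat_lit 300) (nat_lit 230)))) (XT.nd (nat_lit 47424) (nat_lit 0) (nat_lit 3572) (XT.nd (nat_lit 78) (nat_lit 76) (nat_lit 0) (XT.lf (nat_lit 0) (nat_lit 3799824251) (nat_lit 152) (nat_lit 406218071) (nat_lit 76) (nat_lit 73671938621) (nat_lit 7) (nat_lit 5) (nat_lit 9) (nat_lit 5) (nat_lit 8) (nat_lit 4) (nat_lit 491) (nat_lit 300) (nat_lit 229)) (XT.lf (nat_lit 0) (nat_lit 8954988781) (nat_lit 152) (nat_lit 70060285445) (nat_lit 0) (nat_lit 1039538707) (nat_lit 6) (nat_lit 5) (nat_lit 8) (nat_lit 4) (nat_lit 6) (nat_lit 4) (nat_lit 492) (nat_lit 300) (nat_lit 228))) (XT.nd (nat_lit 78) (nat_lit 152) (nat_lit 0) (XT.lf (nat_lit 0) (nat_lit 2560682344) (nat_lit 152) (nat_lit 2258129993) (nat_lit 152) (nat_lit 2258129993) (nat_lit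 55) (nat_lit 4) (nat_lit 57) (nat_lit 5) (nat_lit 57) (nat_lit 4) (nat_lit 418) (nat_lit 301) (nat_lit 301)) (XT.lf (nat_lit 0) (nat_lit 939178824) (nat_lit 152) (nat_lit 12930912557) (nat_lit 0) (nat_lit 531455590) (nat_lit 53) (nat_lit 5) (nat_lit 55) (nat_lit 4) (nat_lit 53) (nat_lit 4) (nat_lit 419) (nat_lit 301) (nat_lit 300)))))) (XT.nd (nat_lit 546) (nat_lit 760) (nat_lit 0) (XT.nd (nat_lit 234) (nat_lit 304) (nat_lit 0) (XT.nd (nat_lit 78) (nat_lit 304) (nat_lit 0) (XT.lf (nat_lit 0) (nat_lit 6487303776) (nat_lit 152) (nat_lit 2483680690) (nat_lit 0) (nat_lit 5683732742) (nat_lit 53) (nat_lit 5) (nat_lit 55) (nat_lit 4) (nat_lit 53) (nat_lit 4) (nat_lit 420) (nat_lit 301) (nat_lit 299)) (XT.nd (nat_lit 78) (nat_lit 152) (nat_lit 0) (XT.lf (nat_lit 0) (nat_lit 8230303886) (nat_lit 152) (nat_lit 3937058127) (nat_lit 152) (nat_lit 2749168841) (nat_lit 51) (nat_lit 4) (nat_lit 53) (nat_lit 5) (nat_lit 53)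 (nat_lit 4) (nat_lit 421) (nat_lit 301) (nat_lit 298)) (XT.lf (nat_lit 0) (nat_lit 2738471376) (nat_lit 152) (nat_lit 11225136100) (nat_lit 0) (nat_lit 1222923994) (nat_lit 49) (nat_lit 5) (nat_lit 51) (nat_lit 4) (nat_lit 49) (nat_lit 4) (nat_lit 422) (nat_lit 301) (nat_lit 297)))) (XT.nd (nat_lit 156) (nat_lit 152) (nat_lit 0) (XT.nd (nat_lit 78) (nat_lit 152) (nat_lit 0) (XT.lf (nat_lit 0) (nat_lit 8329670090) (nat_lit 152) (nat_lit 671914706) (nat_lit 0) (nat_lit 6462417065) (nat_lit 49) (nat_lit 5) (nat_lit 51) (nat_lit 4) (nat_lit 49) (nat_lit 4) (nat_lit 423) (nat_lit 301) (nat_lit 296)) (XT.lf (nat_lit 0) (nat_lit 10194953442) (nat_lit 152) (nat_lit 3881960009) (nat_lit 152) (nat_lit 1673245195) (nat_lit 47) (nat_lit 4) (nat_lit 49) (nat_lit 5) (nat_lit 49) (nat_lit 4) (nat_lit 424) (nat_lit 301) (nat_lit 295))) (XT.nd (nat_lit 78) (nat_lit 0) (nat_lit 0) (XT.lf (nat_lit 0) (nat_lit 3835500446) (nat_lit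 152) (nat_lit 10840186208) (nat_lit 0) (nat_lit 1369256645) (nat_lit 45) (nat_lit 5) (nat_lit 47) (nat_lit 4) (nat_lit 45) (nat_lit 4) (nat_lit 425) (nat_lit 301) (nat_lit 294)) (XT.lf (nat_lit 0) (nat_lit 9461845070) (nat_lit 152) (nat_lit 203545602) (nat_lit 0) (nat_lit 6683115361) (nat_lit 45) (nat_lit 5) (nat_lit 47) (nat_lit 4) (nat_lit 45) (nat_lit 4) (nat_lit 426) (nat_lit 301) (nat_lit 293))))) (XT.nd (nat_lit 234) (nat_lit 456) (nat_lit 0) (XT.nd (nat_lit 78) (nat_lit 152) (nat_lit 0) (XT.lf (nat_lit 0) (nat_lit 10765675123) (nat_lit 152) (nat_lit 4488849269) (nat_lit 152) (nat_lit 1406735182) (nat_lit 43) (nat_lit 4) (nat_lit 45) (nat_lit 5) (nat_lit 45) (nat_lit 4) (nat_lit 427) (nat_lit 301) (nat_lit 292)) (XT.nd (nat_lit 78) (nat_lit 0) (nat_lit 0) (XT.lf (nat_lit 0) (nat_lit 4106844512) (nat_lit 152) (nat_lit 12048248577) (nat_lit 0) (nat_lit 828531865) (nat_lit 41) (nat_lit 5) (nat_lit 43) (nat_lit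 4) (nat_lit 41) (nat_lit 4) (nat_lit 428) (nat_lit 301) (nat_lit 291)) (XT.lf (nat_lit 0) (nat_lit 9756690638) (nat_lit 152) (nat_lit 1357849900) (nat_lit 0) (nat_lit 6200738309) (nat_lit 41) (nat_lit 5) (nat_lit 43) (nat_lit 4) (nat_lit 41) (nat_lit 4) (nat_lit 429) (nat_lit 301) (nat_lit 290)))) (XT.nd (nat_lit 156) (nat_lit 152) (nat_lit 0) (XT.nd (nat_lit 78) (nat_lit 152) (nat_lit 0) (XT.lf (nat_lit 0) (nat_lit 9650179443) (nat_lit 152) (nat_lit 5916252720) (nat_lit 152) (nat_lit 2090747302) (nat_lit 39) (nat_lit 4) (nat_lit 41) (nat_lit 5) (nat_lit 41) (nat_lit 4) (nat_lit 430) (nat_lit 301) (nat_lit 289)) (XT.lf (nat_lit 0) (nat_lit 2836985530) (nat_lit 76) (nat_lit 573946971) (nat_lit 152) (nat_lit 14599224890) (nat_lit 37) (nat_lit 5) (nat_lit 38) (nat_lit 5) (nat_lit 39) (nat_lit 4) (nat_lit 431) (nat_lit 301) (nat_lit 288))) (XT.nd (nat_lit 78) (nat_lit 152) (nat_lit 0) (XT.lf (nat_lit 0) (nat_lit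 9062760850) (nat_lit 152) (nat_lit 4461618507) (nat_lit 0) (nat_lit 4847919017) (nat_lit 37) (nat_lit 5) (nat_lit 39) (nat_lit 4) (nat_lit 37) (nat_lit 4) (nat_lit 432) (nat_lit 301) (nat_lit 287)) (XT.lf (nat_lit 0) (nat_lit 6506280346) (nat_lit 152) (nat_lit 8347144585) (nat_lit 152) (nat_lit 3892808324) (nat_lit 35) (nat_lit 4) (nat_lit 37) (nat_lit 5) (nat_lit 37) (nat_lit 4) (nat_lit 433) (nat_lit 301) (nat_lit 286))))))) (XT.nd (nat_lit 1092) (nat_lit 608) (nat_lit 0) (XT.nd (nat_lit 546) (nat_lit 380) (nat_lit 0) (XT.nd (nat_lit 234) (nat_lit 228) (nat_lit 0) (XT.nd (nat_lit 78) (nat_lit 152) (nat_lit 0) (XT.lf (nat_lit 0) (nat_lit 1600202556) (nat_lit 228) (nat_lit 1438443935) (nat_lit 76) (nat_lit 16093860354) (nat_lit 34) (nat_lit 5) (nat_lit 37) (nat_lit 5) (nat_lit 35) (nat_lit 4) (nat_lit 434) (nat_lit 301) (nat_lit 285)) (XT.nd (nat_lit 78) (nat_lit 76) (nat_lit 0) (XT.lf (nat_lit 0) (nat_lit 7200480795)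 (nat_lit 152) (nat_lit 9897152732) (nat_lit 0) (nat_lit 2430964684) (nat_lit 33) (nat_lit 5) (nat_lit 35) (nat_lit 4) (nat_lit 33) (nat_lit 4) (nat_lit 435) (nat_lit 301) (nat_lit 284)) (XT.lf (nat_lit 0) (nat_lit 933503239) (nat_lit 76) (nat_lit 11993319214) (nat_lit 76) (nat_lit 7011015405) (nat_lit 32) (nat_lit 4) (nat_lit 33) (nat_lit 5) (nat_lit 33) (nat_lit 4) (nat_lit 436) (nat_lit 301) (nat_lit 283)))) (XT.nd (nat_lit 156) (nat_lit 76) (nat_lit 0) (XT.nd (nat_lit 78) (nat_lit 152) (nat_lit 0) (XT.lf (nat_lit 0) (nat_lit 12112472870) (nat_lit 76) (nat_lit 6717811359) (nat_lit 76) (nat_lit 1528917552) (nat_lit 32) (nat_lit 4) (nat_lit 33) (nat_lit 5) (nat_lit 33) (nat_lit 4) (nat_lit 437) (nat_lit 301) (nat_lit 282)) (XT.lf (nat_lit 0) (nat_lit 2670012136) (nat_lit 76) (nat_lit 1300174443) (nat_lit 152) (nat_lit 16823852384) (nat_lit 30) (nat_lit 5) (nat_lit 31) (nat_lit 5) (nat_lit 32) (nat_lit 4) (nat_lit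 438) (nat_lit 301) (nat_lit 281))) (XT.nd (nat_lit 78) (nat_lit 76) (nat_lit 0) (XT.lf (nat_lit 0) (nat_lit 9636235327) (nat_lit 152) (nat_lit 7389572804) (nat_lit 0) (nat_lit 4214684349) (nat_lit 30) (nat_lit 5) (nat_lit 32) (nat_lit 4) (nat_lit 30) (nat_lit 4) (nat_lit 439) (nat_lit 301) (nat_lit 280)) (XT.lf (nat_lit 0) (nat_lit 3552142471) (nat_lit 76) (nat_lit 11877295834) (nat_lit 76) (nat_lit 6272192317) (nat_lit 29) (nat_lit 4) (nat_lit 30) (nat_lit 5) (nat_lit 30) (nat_lit 4) (nat_lit 440) (nat_lit 301) (nat_lit 279))))) (XT.nd (nat_lit 234) (nat_lit 228) (nat_lit 0) (XT.nd (nat_lit 78) (nat_lit 152) (nat_lit 0) (XT.lf (nat_lit 0) (nat_lit 14804052327) (nat_lit 76) (nat_lit 6578146808) (nat_lit 76) (nat_lit 794836944) (nat_lit 29) (nat_lit 4) (nat_lit 30) (nat_lit 5) (nat_lit 30) (nat_lit 4) (nat_lit 441) (nat_lit 301) (nat_lit 278)) (XT.nd (nat_lit 78) (nat_lit 0) (nat_lit 0) (XT.lf (nat_lit 0) (nat_lit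 3583820565) (nat_lit 76) (nat_lit 1115758892) (nat_lit 152) (nat_lit 17967312607) (nat_lit 27) (nat_lit 5) (nat_lit 28) (nat_lit 5) (nat_lit 29) (nat_lit 4) (nat_lit 442) (nat_lit 301) (nat_lit 277)) (XT.lf (nat_lit 0) (nat_lit 10374469844) (nat_lit 152) (nat_lit 8367249527) (nat_lit 0) (nat_lit 4428545273) (nat_lit 27) (nat_lit 5) (nat_lit 29) (nat_lit 4) (nat_lit 27) (nat_lit 4) (nat_lit 443) (nat_lit 301) (nat_lit 276)))) (XT.nd (nat_lit 156) (nat_lit 152) (nat_lit 0) (XT.nd (nat_lit 78) (nat_lit 0) (nat_lit 0) (XT.lf (nat_lit 0) (nat_lit 2547009265) (nat_lit 76) (nat_lit 13623729566) (nat_lit 76) (nat_lit 7519470963) (nat_lit 26) (nat_lit 4) (nat_lit 27) (nat_lit 5) (nat_lit 27) (nat_lit 4) (nat_lit 444) (nat_lit 301) (nat_lit 275)) (XT.lf (nat_lit 0) (nat_lit 13800109402) (nat_lit 76) (nat_lit 8341799828) (nat_lit 76) (nat_lit 2083818865) (nat_lit 26) (nat_lit 4) (nat_lit 27) (nat_lit 5) (nat_lit 27) (nat_lit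 4) (nat_lit 445) (nat_lit 301) (nat_lit 274))) (XT.nd (nat_lit 78) (nat_lit 0) (nat_lit 0) (XT.lf (nat_lit 0) (nat_lit 431036774) (nat_lit 76) (nat_lit 2937565564) (nat_lit 152) (nat_lit 21410032243) (nat_lit 24) (nat_lit 5) (nat_lit 25) (nat_lit 5) (nat_lit 26) (nat_lit 4) (nat_lit 446) (nat_lit 301) (nat_lit 273)) (XT.lf (nat_lit 0) (nat_lit 8992620503) (nat_lit 152) (nat_lit 13722061322) (nat_lit 0) (nat_lit 2631335025) (nat_lit 24) (nat_lit 5) (nat_lit 26) (nat_lit 4) (nat_lit 24) (nat_lit 4) (nat_lit 447) (nat_lit 301) (nat_lit 272)))))) (XT.nd (nat_lit 546) (nat_lit 304) (nat_lit 0) (XT.nd (nat_lit 234) (nat_lit 228) (nat_lit 0) (XT.nd (nat_lit 78) (nat_lit 76) (nat_lit 0) (XT.lf (nat_lit 0) (nat_lit 14735139905) (nat_lit 152) (nat_lit 2959517777) (nat_lit 0) (nat_lit 8237274101) (nat_lit 24) (nat_lit 5) (nat_lit 26) (nat_lit 4) (nat_lit 24) (nat_lit 4) (nat_lit 448) (nat_lit 301) (nat_lit 271)) (XT.nd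 (nat_lit 78) (nat_lit 0) (nat_lit 0) (XT.lf (nat_lit 0) (nat_lit 8136446035) (nat_lit 76) (nat_lit 12514707063) (nat_lit 76) (nat_lit 5884239001) (nat_lit 23) (nat_lit 4) (nat_lit 24) (nat_lit 5) (nat_lit 24) (nat_lit 4) (nat_lit 449) (nat_lit 301) (nat_lit 270)) (XT.lf (nat_lit 0) (nat_lit 19479181779) (nat_lit 76) (nat_lit 7219187617) (nat_lit 76) (nat_lit 459979498) (nat_lit 23) (nat_lit 4) (nat_lit 24) (nat_lit 5) (nat_lit 24) (nat_lit 4) (nat_lit 450) (nat_lit 301) (nat_lit 269)))) (XT.nd (nat_lit 156) (nat_lit 76) (nat_lit 0) (XT.nd (nat_lit 78) (nat_lit 0) (nat_lit 0) (XT.lf (nat_lit 0) (nat_lit 3231999608) (nat_lit 76) (nat_lit 1751349196) (nat_lit 152) (nat_lit 22816479550) (nat_lit 21) (nat_lit 5) (nat_lit 22) (nat_lit 5) (nat_lit 23) (nat_lit 4) (nat_lit 451) (nat_lit 301) (nat_lit 268)) (XT.lf (nat_lit 0) (nat_lit 10621809754) (nat_lit 152) (nat_lit 14017070928) (nat_lit 0) (nat_lit 3820306534) (nat_lit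 21) (nat_lit 5) (nat_lit 23) (nat_lit 4) (nat_lit 21) (nat_lit 4) (nat_lit 452) (nat_lit 301) (nat_lit 267))) (XT.nd (nat_lit 78) (nat_lit 76) (nat_lit 0) (XT.lf (nat_lit 0) (nat_lit 16374399241) (nat_lit 152) (nat_lit 3307070079) (nat_lit 0) (nat_lit 9458512147) (nat_lit 21) (nat_lit 5) (nat_lit 23) (nat_lit 4) (nat_lit 21) (nat_lit 4) (nat_lit 453) (nat_lit 301) (nat_lit 266)) (XT.lf (nat_lit 0) (nat_lit 7739390477) (nat_lit 76) (nat_lit 14564314039) (nat_lit 76) (nat_lit 7537374641) (nat_lit 20) (nat_lit 4) (nat_lit 21) (nat_lit 5) (nat_lit 21) (nat_lit 4) (nat_lit 454) (nat_lit 301) (nat_lit 265))))) (XT.nd (nat_lit 312) (nat_lit 152) (nat_lit 0) (XT.nd (nat_lit 156) (nat_lit 76) (nat_lit 0) (XT.nd (nat_lit 78) (nat_lit 76) (nat_lit 0) (XT.lf (nat_lit 0) (nat_lit 19050504839) (nat_lit 76) (nat_lit 9324274519) (nat_lit 76) (nat_lit 2189517351) (nat_lit 20) (nat_lit 4) (nat_lit 21) (nat_lit 5) (nat_lit 21)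 (nat_lit 4) (nat_lit 455) (nat_lit 301) (nat_lit 264)) (XT.lf (nat_lit 0) (nat_lit 3185862691) (nat_lit 152) (nat_lit 772133351) (nat_lit 76) (nat_lit 27352305667) (nat_lit 19) (nat_lit 5) (nat_lit 21) (nat_lit 5) (nat_lit 20) (nat_lit 4) (nat_lit 456) (nat_lit 301) (nat_lit 263))) (XT.nd (nat_lit 78) (nat_lit 0) (nat_lit 0) (XT.lf (nat_lit 0) (nat_lit 8727449630) (nat_lit 152) (nat_lit 21748917835) (nat_lit 0) (nat_lit 1600203800) (nat_lit 18) (nat_lit 5) (nat_lit 20) (nat_lit 4) (nat_lit 18) (nat_lit 4) (nat_lit 457) (nat_lit 301) (nat_lit 262)) (XT.lf (nat_lit 0) (nat_lit 14416297046) (nat_lit 152) (nat_lit 11256848192) (nat_lit 0) (nat_lit 7193256522) (nat_lit 18) (nat_lit 5) (nat_lit 20) (nat_lit 4) (nat_lit 18) (nat_lit 4) (nat_lit 458) (nat_lit 301) (nat_lit 261)))) (XT.nd (nat_lit 156) (nat_lit 76) (nat_lit 0) (XT.nd (nat_lit 78) (nat_lit 76) (nat_lit 0) (XT.lf (nat_lit 0) (nat_lit 20211684210) (nat_lit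 152) (nat_lit 574530741) (nat_lit 0) (nat_lit 12895639130) (nat_lit 18) (nat_lit 5) (nat_lit 20) (nat_lit 4) (nat_lit 18) (nat_lit 4) (nat_lit 459) (nat_lit 301) (nat_lit 260)) (XT.lf (nat_lit 0) (nat_lit 10512505425) (nat_lit 76) (nat_lit 15707222262) (nat_lit 76) (nat_lit 8300881497) (nat_lit 17) (nat_lit 4) (nat_lit 18) (nat_lit 5) (nat_lit 18) (nat_lit 4) (nat_lit 460) (nat_lit 301) (nat_lit 259))) (XT.nd (nat_lit 78) (nat_lit 76) (nat_lit 0) (XT.lf (nat_lit 0) (nat_lit 21824227515) (nat_lit 76) (nat_lit 10527991338) (nat_lit 76) (nat_lit 3033984858) (nat_lit 17) (nat_lit 4) (nat_lit 18) (nat_lit 5) (nat_lit 18) (nat_lit 4) (nat_lit 461) (nat_lit 301) (nat_lit 258)) (XT.lf (nat_lit 0) (nat_lit 2283867117) (nat_lit 152) (nat_lit 2942868575) (nat_lit 76) (nat_lit 31052155571) (nat_lit 16) (nat_lit 5) (nat_lit 18) (nat_lit 5) (nat_lit 17) (nat_lit 4) (nat_lit 462) (nat_lit 301) (nat_lit 257))))))))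
noncomputable def xc25 : XT := (XT.nd (nat_lit 2184) (nat_lit 152) (nat_lit 0) (XT.nd (nat_lit 1092) (nat_lit 228) (nat_lit 0) (XT.nd (nat_lit 546) (nat_lit 152) (nat_lit 0) (XT.nd (nat_lit 234) (nat_lit 152) (nat_lit 0) (XT.nd (nat_lit 78) (nat_lit 0) (nat_lit 0) (XT.lf (nat_lit 0) (nat_lit 7721378291) (nat_lit 152) (nat_lit 29192665612) (nat_lit 0) (nat_lit 282783954) (nat_lit 15) (nat_lit 5) (nat_lit 17) (nat_lit 4) (nat_lit 15) (nat_lit 4) (nat_lit 463) (nat_lit 301) (nat_lit 256)) (XT.nd (nat_lit 78) (nat_lit 0) (nat_lit 0) (XT.lf (nat_lit 0) (nat_lit 13345234415) (nat_lit 152) (nat_lit 18967623951) (nat_lit 0) (nat_lit 5828750226) (nat_lit 15) (nat_lit 5) (nat_lit 17) (nat_lit 4) (nat_lit 15) (nat_lit 4) (nat_lit 464) (nat_lit 301) (nat_lit 255)) (XT.lf (nat_lit 0) (nat_lit 19080969644) (nat_lit 152) (nat_lit 8546606519) (nat_lit 0) (nat_lit 11488864240) (nat_lit 15) (nat_lit 5) (nat_lit 17) (nat_lit 4)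 (nat_lit 15) (nat_lit 4) (nat_lit 465) (nat_lit 301) (nat_lit 254)))) (XT.nd (nat_lit 156) (nat_lit 76) (nat_lit 0) (XT.nd (nat_lit 78) (nat_lit 0) (nat_lit 0) (XT.lf (nat_lit 0) (nat_lit 2120878404) (nat_lit 76) (nat_lit 22833104562) (nat_lit 76) (nat_lit 15167580502) (nat_lit 14) (nat_lit 4) (nat_lit 15) (nat_lit 5) (nat_lit 15) (nat_lit 4) (nat_lit 466) (nat_lit 301) (nat_lit 253)) (XT.lf (nat_lit 0) (nat_lit 13177090324) (nat_lit 76) (nat_lit 17857802714) (nat_lit 76) (nat_lit 10120998406) (nat_lit 14) (nat_lit 4) (nat_lit 15) (nat_lit 5) (nat_lit 15) (nat_lit 4) (nat_lit 467) (nat_lit 301) (nat_lit 252))) (XT.nd (nat_lit 78) (nat_lit 76) (nat_lit 0) (XT.lf (nat_lit 0) (nat_lit 24461595781) (nat_lit 76) (nat_lit 12783627235) (nat_lit 76) (nat_lit 4977618803) (nat_lit 14) (nat_lit 4) (nat_lit 15) (nat_lit 5) (nat_lit 15) (nat_lit 4) (nat_lit 468) (nat_lit 301) (nat_lit 251)) (XT.lf (nat_lit 0) (nat_lit 261841363)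 (nat_lit 152) (nat_lit 7341658934) (nat_lit 76) (nat_lit 35719769574) (nat_lit 13) (nat_lit 5) (nat_lit 15) (nat_lit 5) (nat_lit 14) (nat_lit 4) (nat_lit 469) (nat_lit 301) (nat_lit 250))))) (XT.nd (nat_lit 234) (nat_lit 76) (nat_lit 0) (XT.nd (nat_lit 78) (nat_lit 0) (nat_lit 0) (XT.lf (nat_lit 0) (nat_lit 3307305806) (nat_lit 76) (nat_lit 2232464751) (nat_lit 152) (nat_lit 38916023932) (nat_lit 12) (nat_lit 5) (nat_lit 13) (nat_lit 5) (nat_lit 14) (nat_lit 4) (nat_lit 470) (nat_lit 301) (nat_lit 249)) (XT.nd (nat_lit 78) (nat_lit 0) (nat_lit 0) (XT.lf (nat_lit 0) (nat_lit 11032240612) (nat_lit 152) (nat_lit 31324828646) (nat_lit 0) (nat_lit 3263541579) (nat_lit 12) (nat_lit 5) (nat_lit 14) (nat_lit 4) (nat_lit 12) (nat_lit 4) (nat_lit 471) (nat_lit 301) (nat_lit 248)) (XT.lf (nat_lit 0) (nat_lit 16662669784) (nat_lit 152) (nat_lit 21324233691) (nat_lit 0) (nat_lit 8834274665) (nat_lit 12) (nat_lit 5) (nat_lit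 14) (nat_lit 4) (nat_lit 12) (nat_lit 4) (nat_lit 472) (nat_lit 301) (nat_lit 247)))) (XT.nd (nat_lit 156) (nat_lit 76) (nat_lit 0) (XT.nd (nat_lit 78) (nat_lit 0) (nat_lit 0) (XT.lf (nat_lit 0) (nat_lit 22414518050) (nat_lit 152) (nat_lit 11116505620) (nat_lit 0) (nat_lit 14528165566) (nat_lit 12) (nat_lit 5) (nat_lit 14) (nat_lit 4) (nat_lit 12) (nat_lit 4) (nat_lit 473) (nat_lit 301) (nat_lit 246)) (XT.lf (nat_lit 0) (nat_lit 28292811296) (nat_lit 152) (nat_lit 692725058) (nat_lit 0) (nat_lit 20350189526) (nat_lit 12) (nat_lit 5) (nat_lit 14) (nat_lit 4) (nat_lit 12) (nat_lit 4) (nat_lit 474) (nat_lit 301) (nat_lit 245))) (XT.nd (nat_lit 78) (nat_lit 0) (nat_lit 0) (XT.lf (nat_lit 0) (nat_lit 10154364375) (nat_lit 76) (nat_lit 24245931482) (nat_lit 76) (nat_lit 16248679337) (nat_lit 11) (nat_lit 4) (nat_lit 12) (nat_lit 5) (nat_lit 12) (nat_lit 4) (nat_lit 475) (nat_lit 301) (nat_lit 244)) (XT.lf (nat_lit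 0) (nat_lit 21254372269) (nat_lit 76) (nat_lit 19399330954) (nat_lit 76) (nat_lit 11349039610) (nat_lit 11) (nat_lit 4) (nat_lit 12) (nat_lit 5) (nat_lit 12) (nat_lit 4) (nat_lit 476) (nat_lit 301) (nat_lit 243)))))) (XT.nd (nat_lit 546) (nat_lit 76) (nat_lit 0) (XT.nd (nat_lit 234) (nat_lit 76) (nat_lit 0) (XT.nd (nat_lit 78) (nat_lit 76) (nat_lit 0) (XT.lf (nat_lit 0) (nat_lit 32603211072) (nat_lit 76) (nat_lit 14448495040) (nat_lit 76) (nat_lit 6346709329) (nat_lit 11) (nat_lit 4) (nat_lit 12) (nat_lit 5) (nat_lit 12) (nat_lit 4) (nat_lit 477) (nat_lit 301) (nat_lit 242)) (XT.nd (nat_lit 78) (nat_lit 76) (nat_lit 0) (XT.lf (nat_lit 0) (nat_lit 44210797245) (nat_lit 76) (nat_lit 9389097770) (nat_lit 76) (nat_lit 1237317527) (nat_lit 11) (nat_lit 4) (nat_lit 12) (nat_lit 5) (nat_lit 12) (nat_lit 4) (nat_lit 478) (nat_lit 301) (nat_lit 241)) (XT.lf (nat_lit 0) (nat_lit 3905865924) (nat_lit 152) (nat_lit 271410797)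 (nat_lit 76) (nat_lit 52141965828) (nat_lit 10) (nat_lit 5) (nat_lit 12) (nat_lit 5) (nat_lit 11) (nat_lit 4) (nat_lit 479) (nat_lit 301) (nat_lit 240)))) (XT.nd (nat_lit 156) (nat_lit 0) (nat_lit 0) (XT.nd (nat_lit 78) (nat_lit 0) (nat_lit 0) (XT.lf (nat_lit 0) (nat_lit 9251952067) (nat_lit 152) (nat_lit 47346485536) (nat_lit 0) (nat_lit 1244725597) (nat_lit 9) (nat_lit 5) (nat_lit 11) (nat_lit 4) (nat_lit 9) (nat_lit 4) (nat_lit 480) (nat_lit 301) (nat_lit 239)) (XT.lf (nat_lit 0) (nat_lit 14762853737) (nat_lit 152) (nat_lit 37938608475) (nat_lit 0) (nat_lit 6711207772) (nat_lit 9) (nat_lit 5) (nat_lit 11) (nat_lit 4) (nat_lit 9) (nat_lit 4) (nat_lit 481) (nat_lit 301) (nat_lit 238))) (XT.nd (nat_lit 78) (nat_lit 0) (nat_lit 0) (XT.lf (nat_lit 0) (nat_lit 20400544509) (nat_lit 152) (nat_lit 28324102237) (nat_lit 0) (nat_lit 12305772822) (nat_lit 9) (nat_lit 5) (nat_lit 11) (nat_lit 4) (nat_lit 9) (nat_lit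 4) (nat_lit 482) (nat_lit 301) (nat_lit 237)) (XT.lf (nat_lit 0) (nat_lit 26169950521) (nat_lit 152) (nat_lit 18494565798) (nat_lit 0) (nat_lit 18033309201) (nat_lit 9) (nat_lit 5) (nat_lit 11) (nat_lit 4) (nat_lit 9) (nat_lit 4) (nat_lit 483) (nat_lit 301) (nat_lit 236))))) (XT.nd (nat_lit 234) (nat_lit 0) (nat_lit 0) (XT.nd (nat_lit 78) (nat_lit 76) (nat_lit 0) (XT.lf (nat_lit 0) (nat_lit 32076113002) (nat_lit 152) (nat_lit 8441410241) (nat_lit 0) (nat_lit 23898821552) (nat_lit 9) (nat_lit 5) (nat_lit 11) (nat_lit 4) (nat_lit 9) (nat_lit 4) (nat_lit 484) (nat_lit 301) (nat_lit 235)) (XT.nd (nat_lit 78) (nat_lit 0) (nat_lit 0) (XT.lf (nat_lit 0) (nat_lit 1880850918) (nat_lit 76) (nat_lit 36261421646) (nat_lit 76) (nat_lit 28044664051) (nat_lit 8) (nat_lit 4) (nat_lit 9) (nat_lit 5) (nat_lit 9) (nat_lit 4) (nat_lit 485) (nat_lit 301) (nat_lit 234)) (XT.lf (nat_lit 0) (nat_lit 12617307653) (nat_lit 76) (nat_lit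 31823451897) (nat_lit 76) (nat_lit 23568377656) (nat_lit 8) (nat_lit 4) (nat_lit 9) (nat_lit 5) (nat_lit 9) (nat_lit 4) (nat_lit 486) (nat_lit 301) (nat_lit 233)))) (XT.nd (nat_lit 156) (nat_lit 0) (nat_lit 0) (XT.nd (nat_lit 78) (nat_lit 0) (nat_lit 0) (XT.lf (nat_lit 0) (nat_lit 23609340718) (nat_lit 76) (nat_lit 27284977850) (nat_lit 76) (nat_lit 18992702982) (nat_lit 8) (nat_lit 4) (nat_lit 9) (nat_lit 5) (nat_lit 9) (nat_lit 4) (nat_lit 487) (nat_lit 301) (nat_lit 232)) (XT.lf (nat_lit 0) (nat_lit 34866554802) (nat_lit 76) (nat_lit 22642033848) (nat_lit 76) (nat_lit 14313641867) (nat_lit 8) (nat_lit 4) (nat_lit 9) (nat_lit 5) (nat_lit 9) (nat_lit 4) (nat_lit 488) (nat_lit 301) (nat_lit 231))) (XT.nd (nat_lit 78) (nat_lit 0) (nat_lit 0) (XT.lf (nat_lit 0) (nat_lit 46398786306) (nat_lit 76) (nat_lit 17890562949) (nat_lit 76) (nat_lit 9527105809) (nat_lit 8) (nat_lit 4) (nat_lit 9) (nat_lit 5) (nat_lit 9)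 (nat_lit 4) (nat_lit 489) (nat_lit 301) (nat_lit 230)) (XT.lf (nat_lit 0) (nat_lit 58216111936) (nat_lit 76) (nat_lit 13026413384) (nat_lit 76) (nat_lit 4628912401) (nat_lit 8) (nat_lit 4) (nat_lit 9) (nat_lit 5) (nat_lit 9) (nat_lit 4) (nat_lit 490) (nat_lit 301) (nat_lit 229))))))) (XT.nd (nat_lit 48204) (nat_lit 0) (nat_lit 1596) (XT.nd (nat_lit 47658) (nat_lit 0) (nat_lit 2812) (XT.nd (nat_lit 47346) (nat_lit 0) (nat_lit 3572) (XT.nd (nat_lit 78) (nat_lit 76) (nat_lit 0) (XT.lf (nat_lit 0) (nat_lit 377701337) (nat_lit 152) (nat_lit 7663819543) (nat_lit 76) (nat_lit 69947342130) (nat_lit 7) (nat_lit 5) (nat_lit 9) (nat_lit 5) (nat_lit 8) (nat_lit 4) (nat_lit 491) (nat_lit 301) (nat_lit 228)) (XT.nd (nat_lit 47190) (nat_lit 0) (nat_lit 4104) (XT.lf (nat_lit 0) (nat_lit 2573859349) (nat_lit 76) (nat_lit 2862841239) (nat_lit 152) (nat_lit 74731879890) (nat_lit 6) (nat_lit 5) (nat_lit 7) (nat_lit 5) (nat_lit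 8) (nat_lit 4) (nat_lit 492) (nat_lit 301) (nat_lit 227)) (XT.lf (nat_lit 0) (nat_lit 5881147193) (nat_lit 152) (nat_lit 479695033) (nat_lit 152) (nat_lit 479695033) (nat_lit 60) (nat_lit 4) (nat_lit 62) (nat_lit 5) (nat_lit 62) (nat_lit 4) (nat_lit 416) (nat_lit 302) (nat_lit 302)))) (XT.nd (nat_lit 156) (nat_lit 152) (nat_lit 0) (XT.nd (nat_lit 78) (nat_lit 152) (nat_lit 0) (XT.lf (nat_lit 0) (nat_lit 4473399802) (nat_lit 228) (nat_lit 5400176542) (nat_lit 0) (nat_lit 4040846223) (nat_lit 57) (nat_lit 5) (nat_lit 60) (nat_lit 4) (nat_lit 57) (nat_lit 4) (nat_lit 417) (nat_lit 302) (nat_lit 301)) (XT.lf (nat_lit 0) (nat_lit 5017603803) (nat_lit 152) (nat_lit 4995257928) (nat_lit 152) (nat_lit 4142749418) (nat_lit 55) (nat_lit 4) (nat_lit 57) (nat_lit 5) (nat_lit 57) (nat_lit 4) (nat_lit 418) (nat_lit 302) (nat_lit 300))) (XT.nd (nat_lit 78) (nat_lit 0) (nat_lit 0) (XT.lf (nat_lit 0) (nat_lit 1242099822) (nat_lit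 152) (nat_lit 13144397691) (nat_lit 0) (nat_lit 18573857) (nat_lit 53) (nat_lit 5) (nat_lit 55) (nat_lit 4) (nat_lit 53) (nat_lit 4) (nat_lit 419) (nat_lit 302) (nat_lit 299)) (XT.lf (nat_lit 0) (nat_lit 6734251779) (nat_lit 152) (nat_lit 2799267853) (nat_lit 0) (nat_lit 5126407562) (nat_lit 53) (nat_lit 5) (nat_lit 55) (nat_lit 4) (nat_lit 53) (nat_lit 4) (nat_lit 420) (nat_lit 302) (nat_lit 298))))) (XT.nd (nat_lit 234) (nat_lit 456) (nat_lit 0) (XT.nd (nat_lit 78) (nat_lit 152) (nat_lit 0) (XT.lf (nat_lit 0) (nat_lit 7807334891) (nat_lit 152) (nat_lit 4548566576) (nat_lit 152) (nat_lit 2567597842) (nat_lit 51) (nat_lit 4) (nat_lit 53) (nat_lit 5) (nat_lit 53) (nat_lit 4) (nat_lit 421) (nat_lit 302) (nat_lit 297)) (XT.nd (nat_lit 78) (nat_lit 0) (nat_lit 0) (XT.lf (nat_lit 0) (nat_lit 2850708022) (nat_lit 152) (nat_lit 11768987372) (nat_lit 0) (nat_lit 575731763) (nat_lit 49) (nat_lit 5) (nat_lit 51) (nat_lit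 4) (nat_lit 49) (nat_lit 4) (nat_lit 422) (nat_lit 302) (nat_lit 296)) (XT.lf (nat_lit 0) (nat_lit 8387871542) (nat_lit 152) (nat_lit 1315219254) (nat_lit 0) (nat_lit 5771433494) (nat_lit 49) (nat_lit 5) (nat_lit 51) (nat_lit 4) (nat_lit 49) (nat_lit 4) (nat_lit 423) (nat_lit 302) (nat_lit 295)))) (XT.nd (nat_lit 156) (nat_lit 152) (nat_lit 0) (XT.nd (nat_lit 78) (nat_lit 152) (nat_lit 0) (XT.lf (nat_lit 0) (nat_lit 9440367630) (nat_lit 152) (nat_lit 4635032379) (nat_lit 152) (nat_lit 1687078031) (nat_lit 47) (nat_lit 4) (nat_lit 49) (nat_lit 5) (nat_lit 49) (nat_lit 4) (nat_lit 424) (nat_lit 302) (nat_lit 294)) (XT.lf (nat_lit 0) (nat_lit 3753351654) (nat_lit 152) (nat_lit 11727203661) (nat_lit 0) (nat_lit 578774145) (nat_lit 45) (nat_lit 5) (nat_lit 47) (nat_lit 4) (nat_lit 45) (nat_lit 4) (nat_lit 425) (nat_lit 302) (nat_lit 293))) (XT.nd (nat_lit 78) (nat_lit 152) (nat_lit 0) (XT.lf (nat_lit 0) (nat_lit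 9327508153) (nat_lit 152) (nat_lit 1187408472) (nat_lit 0) (nat_lit 5849546266) (nat_lit 45) (nat_lit 5) (nat_lit 47) (nat_lit 4) (nat_lit 45) (nat_lit 4) (nat_lit 426) (nat_lit 302) (nat_lit 292)) (XT.lf (nat_lit 0) (nat_lit 9666335500) (nat_lit 152) (nat_lit 5392616364) (nat_lit 152) (nat_lit 1620106538) (nat_lit 43) (nat_lit 4) (nat_lit 45) (nat_lit 5) (nat_lit 45) (nat_lit 4) (nat_lit 427) (nat_lit 302) (nat_lit 291)))))) (XT.nd (nat_lit 546) (nat_lit 532) (nat_lit 0) (XT.nd (nat_lit 234) (nat_lit 380) (nat_lit 0) (XT.nd (nat_lit 78) (nat_lit 152) (nat_lit 0) (XT.lf (nat_lit 0) (nat_lit 3710475757) (nat_lit 76) (nat_lit 116595403) (nat_lit 152) (nat_lit 13176535747) (nat_lit 41) (nat_lit 5) (nat_lit 42) (nat_lit 5) (nat_lit 43) (nat_lit 4) (nat_lit 428) (nat_lit 302) (nat_lit 290)) (XT.nd (nat_lit 78) (nat_lit 152) (nat_lit 0) (XT.lf (nat_lit 0) (nat_lit 9425371174) (nat_lit 152) (nat_lit 2695892993) (nat_lit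 0) (nat_lit 5215547503) (nat_lit 41) (nat_lit 5) (nat_lit 43) (nat_lit 4) (nat_lit 41) (nat_lit 4) (nat_lit 429) (nat_lit 302) (nat_lit 289)) (XT.lf (nat_lit 0) (nat_lit 8192149689) (nat_lit 152) (nat_lit 6979990911) (nat_lit 152) (nat_lit 2508465211) (nat_lit 39) (nat_lit 4) (nat_lit 41) (nat_lit 5) (nat_lit 41) (nat_lit 4) (nat_lit 430) (nat_lit 302) (nat_lit 288)))) (XT.nd (nat_lit 156) (nat_lit 228) (nat_lit 0) (XT.nd (nat_lit 78) (nat_lit 0) (nat_lit 0) (XT.lf (nat_lit 0) (nat_lit 1236702641) (nat_lit 76) (nat_lit 1700394886) (nat_lit 152) (nat_lit 15098538824) (nat_lit 37) (nat_lit 5) (nat_lit 38) (nat_lit 5) (nat_lit 39) (nat_lit 4) (nat_lit 431) (nat_lit 302) (nat_lit 287)) (XT.lf (nat_lit 0) (nat_lit 8529356830) (nat_lit 152) (nat_lit 6168315511) (nat_lit 0) (nat_lit 3701896051) (nat_lit 37) (nat_lit 5) (nat_lit 39) (nat_lit 4) (nat_lit 37) (nat_lit 4) (nat_lit 432) (nat_lit 302) (nat_lit 286))) (XT.nd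 (nat_lit 78) (nat_lit 76) (nat_lit 0) (XT.lf (nat_lit 0) (nat_lit 4674753103) (nat_lit 152) (nat_lit 9580340748) (nat_lit 152) (nat_lit 4520361106) (nat_lit 35) (nat_lit 4) (nat_lit 37) (nat_lit 5) (nat_lit 37) (nat_lit 4) (nat_lit 433) (nat_lit 302) (nat_lit 285)) (XT.lf (nat_lit 0) (nat_lit 937637619) (nat_lit 228) (nat_lit 3382321743) (nat_lit 76) (nat_lit 14843371546) (nat_lit 34) (nat_lit 5) (nat_lit 37) (nat_lit 5) (nat_lit 35) (nat_lit 4) (nat_lit 434) (nat_lit 302) (nat_lit 284))))) (XT.nd (nat_lit 312) (nat_lit 228) (nat_lit 0) (XT.nd (nat_lit 156) (nat_lit 228) (nat_lit 0) (XT.nd (nat_lit 78) (nat_lit 0) (nat_lit 0) (XT.lf (nat_lit 0) (nat_lit 6459223115) (nat_lit 152) (nat_lit 11987900990) (nat_lit 0) (nat_lit 1114662494) (nat_lit 33) (nat_lit 5) (nat_lit 35) (nat_lit 4) (nat_lit 33) (nat_lit 4) (nat_lit 435) (nat_lit 302) (nat_lit 283)) (XT.lf (nat_lit 0) (nat_lit 12130834414) (nat_lit 152) (nat_lit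 1262153389) (nat_lit 0) (nat_lit 6579683794) (nat_lit 33) (nat_lit 5) (nat_lit 35) (nat_lit 4) (nat_lit 33) (nat_lit 4) (nat_lit 436) (nat_lit 302) (nat_lit 282))) (XT.nd (nat_lit 78) (nat_lit 152) (nat_lit 0) (XT.lf (nat_lit 0) (nat_lit 9805854478) (nat_lit 76) (nat_lit 8170818259) (nat_lit 76) (nat_lit 2419094826) (nat_lit 32) (nat_lit 4) (nat_lit 33) (nat_lit 5) (nat_lit 33) (nat_lit 4) (nat_lit 437) (nat_lit 302) (nat_lit 281)) (XT.lf (nat_lit 0) (nat_lit 203016561) (nat_lit 76) (nat_lit 2826279439) (nat_lit 152) (nat_lit 17803611116) (nat_lit 30) (nat_lit 5) (nat_lit 31) (nat_lit 5) (nat_lit 32) (nat_lit 4) (nat_lit 438) (nat_lit 302) (nat_lit 280)))) (XT.nd (nat_lit 156) (nat_lit 152) (nat_lit 0) (XT.nd (nat_lit 78) (nat_lit 76) (nat_lit 0) (XT.lf (nat_lit 0) (nat_lit 8636415971) (nat_lit 152) (nat_lit 9965108769) (nat_lit 0) (nat_lit 2679606812) (nat_lit 30) (nat_lit 5) (nat_lit 32) (nat_lit 4) (nat_lit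 30) (nat_lit 4) (nat_lit 439) (nat_lit 302) (nat_lit 279)) (XT.lf (nat_lit 0) (nat_lit 841833080) (nat_lit 76) (nat_lit 13518762889) (nat_lit 76) (nat_lit 7383747382) (nat_lit 29) (nat_lit 4) (nat_lit 30) (nat_lit 5) (nat_lit 30) (nat_lit 4) (nat_lit 440) (nat_lit 302) (nat_lit 278))) (XT.nd (nat_lit 78) (nat_lit 152) (nat_lit 0) (XT.lf (nat_lit 0) (nat_lit 12012660208) (nat_lit 76) (nat_lit 8258198895) (nat_lit 76) (nat_lit 1950167517) (nat_lit 29) (nat_lit 4) (nat_lit 30) (nat_lit 5) (nat_lit 30) (nat_lit 4) (nat_lit 441) (nat_lit 302) (nat_lit 277)) (XT.lf (nat_lit 0) (nat_lit 622198589) (nat_lit 76) (nat_lit 2874454879) (nat_lit 152) (nat_lit 19216669227) (nat_lit 27) (nat_lit 5) (nat_lit 28) (nat_lit 5) (nat_lit 29) (nat_lit 4) (nat_lit 442) (nat_lit 302) (nat_lit 276))))))))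
noncomputable def xc26 : XT := (XT.nd (nat_lit 2184) (nat_lit 456) (nat_lit 0) (XT.nd (nat_lit 1092) (nat_lit 456) (nat_lit 0) (XT.nd (nat_lit 546) (nat_lit 304) (nat_lit 0) (XT.nd (nat_lit 234) (nat_lit 228) (nat_lit 0) (XT.nd (nat_lit 78) (nat_lit 76) (nat_lit 0) (XT.lf (nat_lit 0) (nat_lit 9113062508) (nat_lit 152) (nat_lit 11438047726) (nat_lit 0) (nat_lit 2667342116) (nat_lit 27) (nat_lit 5) (nat_lit 29) (nat_lit 4) (nat_lit 27) (nat_lit 4) (nat_lit 443) (nat_lit 302) (nat_lit 275)) (XT.nd (nat_lit 78) (nat_lit 76) (nat_lit 0) (XT.lf (nat_lit 0) (nat_lit 14844483342) (nat_lit 152) (nat_lit 650821574) (nat_lit 0) (nat_lit 8245040589) (nat_lit 27) (nat_lit 5) (nat_lit 29) (nat_lit 4) (nat_lit 27) (nat_lit 4) (nat_lit 444) (nat_lit 302) (nat_lit 274)) (XT.lf (nat_lit 0) (nat_lit 10512752771) (nat_lit 76) (nat_lit 10256595227) (nat_lit 76) (nat_lit 3507907464) (nat_lit 26) (nat_lit 4) (nat_lit 27) (nat_lit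 5) (nat_lit 27) (nat_lit 4) (nat_lit 445) (nat_lit 302) (nat_lit 273)))) (XT.nd (nat_lit 156) (nat_lit 76) (nat_lit 0) (XT.nd (nat_lit 78) (nat_lit 76) (nat_lit 0) (XT.lf (nat_lit 0) (nat_lit 1929011028) (nat_lit 152) (nat_lit 2977693444) (nat_lit 76) (nat_lit 19925169250) (nat_lit 25) (nat_lit 5) (nat_lit 27) (nat_lit 5) (nat_lit 26) (nat_lit 4) (nat_lit 446) (nat_lit 302) (nat_lit 272)) (XT.lf (nat_lit 0) (nat_lit 7465552444) (nat_lit 152) (nat_lit 17300159783) (nat_lit 0) (nat_lit 636170340) (nat_lit 24) (nat_lit 5) (nat_lit 26) (nat_lit 4) (nat_lit 24) (nat_lit 4) (nat_lit 447) (nat_lit 302) (nat_lit 271))) (XT.nd (nat_lit 78) (nat_lit 76) (nat_lit 0) (XT.lf (nat_lit 0) (nat_lit 13170143626) (nat_lit 152) (nat_lit 6610634665) (nat_lit 0) (nat_lit 6208159263) (nat_lit 24) (nat_lit 5) (nat_lit 26) (nat_lit 4) (nat_lit 24) (nat_lit 4) (nat_lit 448) (nat_lit 302) (nat_lit 270)) (XT.lf (nat_lit 0) (nat_lit 4340362202)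 (nat_lit 76) (nat_lit 14672480823) (nat_lit 76) (nat_lit 7581756403) (nat_lit 23) (nat_lit 4) (nat_lit 24) (nat_lit 5) (nat_lit 24) (nat_lit 4) (nat_lit 449) (nat_lit 302) (nat_lit 269))))) (XT.nd (nat_lit 234) (nat_lit 152) (nat_lit 0) (XT.nd (nat_lit 78) (nat_lit 152) (nat_lit 0) (XT.lf (nat_lit 0) (nat_lit 15612901286) (nat_lit 76) (nat_lit 9410732279) (nat_lit 76) (nat_lit 2195017512) (nat_lit 23) (nat_lit 4) (nat_lit 24) (nat_lit 5) (nat_lit 24) (nat_lit 4) (nat_lit 450) (nat_lit 302) (nat_lit 268)) (XT.nd (nat_lit 78) (nat_lit 76) (nat_lit 0) (XT.lf (nat_lit 0) (nat_lit 3215382733) (nat_lit 152) (nat_lit 809837669) (nat_lit 76) (nat_lit 23837415992) (nat_lit 22) (nat_lit 5) (nat_lit 24) (nat_lit 5) (nat_lit 23) (nat_lit 4) (nat_lit 451) (nat_lit 302) (nat_lit 267)) (XT.lf (nat_lit 0) (nat_lit 8788319675) (nat_lit 152) (nat_lit 18185071109) (nat_lit 0) (nat_lit 1550572095) (nat_lit 21) (nat_lit 5) (nat_lit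 23) (nat_lit 4) (nat_lit 21) (nat_lit 4) (nat_lit 452) (nat_lit 302) (nat_lit 266)))) (XT.nd (nat_lit 156) (nat_lit 76) (nat_lit 0) (XT.nd (nat_lit 78) (nat_lit 76) (nat_lit 0) (XT.lf (nat_lit 0) (nat_lit 14506299481) (nat_lit 152) (nat_lit 7541998192) (nat_lit 0) (nat_lit 7157499597) (nat_lit 21) (nat_lit 5) (nat_lit 23) (nat_lit 4) (nat_lit 21) (nat_lit 4) (nat_lit 453) (nat_lit 302) (nat_lit 265)) (XT.lf (nat_lit 0) (nat_lit 3353907214) (nat_lit 76) (nat_lit 17005939961) (nat_lit 76) (nat_lit 9549322307) (nat_lit 20) (nat_lit 4) (nat_lit 21) (nat_lit 5) (nat_lit 21) (nat_lit 4) (nat_lit 454) (nat_lit 302) (nat_lit 264))) (XT.nd (nat_lit 78) (nat_lit 76) (nat_lit 0) (XT.lf (nat_lit 0) (nat_lit 14600680046) (nat_lit 76) (nat_lit 11797000538) (nat_lit 76) (nat_lit 4235705436) (nat_lit 20) (nat_lit 4) (nat_lit 21) (nat_lit 5) (nat_lit 21) (nat_lit 4) (nat_lit 455) (nat_lit 302) (nat_lit 263)) (XT.lf (nat_lit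 0) (nat_lit 1147008673) (nat_lit 152) (nat_lit 5334496084) (nat_lit 76) (nat_lit 24899455815) (nat_lit 19) (nat_lit 5) (nat_lit 21) (nat_lit 5) (nat_lit 20) (nat_lit 4) (nat_lit 456) (nat_lit 302) (nat_lit 262)))))) (XT.nd (nat_lit 546) (nat_lit 152) (nat_lit 0) (XT.nd (nat_lit 234) (nat_lit 228) (nat_lit 0) (XT.nd (nat_lit 78) (nat_lit 0) (nat_lit 0) (XT.lf (nat_lit 0) (nat_lit 5628150615) (nat_lit 76) (nat_lit 967781818) (nat_lit 152) (nat_lit 25554079185) (nat_lit 18) (nat_lit 5) (nat_lit 19) (nat_lit 5) (nat_lit 20) (nat_lit 4) (nat_lit 457) (nat_lit 302) (nat_lit 261)) (XT.nd (nat_lit 78) (nat_lit 0) (nat_lit 0) (XT.lf (nat_lit 0) (nat_lit 12243887936) (nat_lit 152) (nat_lit 16081825534) (nat_lit 0) (nat_lit 4615356948) (nat_lit 18) (nat_lit 5) (nat_lit 20) (nat_lit 4) (nat_lit 18) (nat_lit 4) (nat_lit 458) (nat_lit 302) (nat_lit 260)) (XT.lf (nat_lit 0) (nat_lit 18008606168) (nat_lit 152) (nat_lit 5459058651)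 (nat_lit 0) (nat_lit 10289779493) (nat_lit 18) (nat_lit 5) (nat_lit 20) (nat_lit 4) (nat_lit 18) (nat_lit 4) (nat_lit 459) (nat_lit 302) (nat_lit 259)))) (XT.nd (nat_lit 156) (nat_lit 152) (nat_lit 0) (XT.nd (nat_lit 78) (nat_lit 0) (nat_lit 0) (XT.lf (nat_lit 0) (nat_lit 5471799094) (nat_lit 76) (nat_lit 18466620535) (nat_lit 76) (nat_lit 10660128146) (nat_lit 17) (nat_lit 4) (nat_lit 18) (nat_lit 5) (nat_lit 18) (nat_lit 4) (nat_lit 460) (nat_lit 302) (nat_lit 258)) (XT.lf (nat_lit 0) (nat_lit 16726271923) (nat_lit 76) (nat_lit 13315180146) (nat_lit 76) (nat_lit 5423575413) (nat_lit 17) (nat_lit 4) (nat_lit 18) (nat_lit 5) (nat_lit 18) (nat_lit 4) (nat_lit 461) (nat_lit 302) (nat_lit 257))) (XT.nd (nat_lit 78) (nat_lit 152) (nat_lit 0) (XT.lf (nat_lit 0) (nat_lit 28205547870) (nat_lit 76) (nat_lit 8063968181) (nat_lit 76) (nat_lit 89730105) (nat_lit 17) (nat_lit 4) (nat_lit 18) (nat_lit 5) (nat_lit 18) (nat_lit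 4) (nat_lit 462) (nat_lit 302) (nat_lit 256)) (XT.lf (nat_lit 0) (nat_lit 2637754629) (nat_lit 76) (nat_lit 2629348450) (nat_lit 152) (nat_lit 32012579711) (nat_lit 15) (nat_lit 5) (nat_lit 16) (nat_lit 5) (nat_lit 17) (nat_lit 4) (nat_lit 463) (nat_lit 302) (nat_lit 255))))) (XT.nd (nat_lit 234) (nat_lit 152) (nat_lit 0) (XT.nd (nat_lit 78) (nat_lit 0) (nat_lit 0) (XT.lf (nat_lit 0) (nat_lit 10837685983) (nat_lit 152) (nat_lit 24446180796) (nat_lit 0) (nat_lit 2942196202) (nat_lit 15) (nat_lit 5) (nat_lit 17) (nat_lit 4) (nat_lit 15) (nat_lit 4) (nat_lit 464) (nat_lit 302) (nat_lit 254)) (XT.nd (nat_lit 78) (nat_lit 0) (nat_lit 0) (XT.lf (nat_lit 0) (nat_lit 16546238383) (nat_lit 152) (nat_lit 14078143171) (nat_lit 0) (nat_lit 8577329946) (nat_lit 15) (nat_lit 5) (nat_lit 17) (nat_lit 4) (nat_lit 15) (nat_lit 4) (nat_lit 465) (nat_lit 302) (nat_lit 253)) (XT.lf (nat_lit 0) (nat_lit 22372473428) (nat_lit 152)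 (nat_lit 3503480929) (nat_lit 0) (nat_lit 14332284742) (nat_lit 15) (nat_lit 5) (nat_lit 17) (nat_lit 4) (nat_lit 15) (nat_lit 4) (nat_lit 466) (nat_lit 302) (nat_lit 252)))) (XT.nd (nat_lit 156) (nat_lit 76) (nat_lit 0) (XT.nd (nat_lit 78) (nat_lit 0) (nat_lit 0) (XT.lf (nat_lit 0) (nat_lit 7432072426) (nat_lit 76) (nat_lit 20960851204) (nat_lit 76) (nat_lit 12851458394) (nat_lit 14) (nat_lit 4) (nat_lit 15) (nat_lit 5) (nat_lit 15) (nat_lit 4) (nat_lit 467) (nat_lit 302) (nat_lit 251)) (XT.lf (nat_lit 0) (nat_lit 18667128927) (nat_lit 76) (nat_lit 15910773208) (nat_lit 76) (nat_lit 7734191928) (nat_lit 14) (nat_lit 4) (nat_lit 15) (nat_lit 5) (nat_lit 15) (nat_lit 4) (nat_lit 468) (nat_lit 302) (nat_lit 250))) (XT.nd (nat_lit 78) (nat_lit 76) (nat_lit 0) (XT.lf (nat_lit 0) (nat_lit 30141779473) (nat_lit 76) (nat_lit 10756685968) (nat_lit 76) (nat_lit 2514873163) (nat_lit 14) (nat_lit 4) (nat_lit 15) (nat_lit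 5) (nat_lit 15) (nat_lit 4) (nat_lit 469) (nat_lit 302) (nat_lit 249)) (XT.lf (nat_lit 0) (nat_lit 2756204593) (nat_lit 152) (nat_lit 2710049057) (nat_lit 76) (nat_lit 39082013602) (nat_lit 13) (nat_lit 5) (nat_lit 15) (nat_lit 5) (nat_lit 14) (nat_lit 4) (nat_lit 470) (nat_lit 302) (nat_lit 248))))))) (XT.nd (nat_lit 1092) (nat_lit 152) (nat_lit 0) (XT.nd (nat_lit 546) (nat_lit 152) (nat_lit 0) (XT.nd (nat_lit 234) (nat_lit 76) (nat_lit 0) (XT.nd (nat_lit 78) (nat_lit 0) (nat_lit 0) (XT.lf (nat_lit 0) (nat_lit 8166659490) (nat_lit 152) (nat_lit 37505169125) (nat_lit 0) (nat_lit 43716432) (nat_lit 12) (nat_lit 5) (nat_lit 14) (nat_lit 4) (nat_lit 12) (nat_lit 4) (nat_lit 471) (nat_lit 302) (nat_lit 247)) (XT.nd (nat_lit 78) (nat_lit 0) (nat_lit 0) (XT.lf (nat_lit 0) (nat_lit 13773692711) (nat_lit 152) (nat_lit 27550330196) (nat_lit 0) (nat_lit 5592792288) (nat_lit 12) (nat_lit 5) (nat_lit 14) (nat_lit 4) (nat_lit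 12) (nat_lit 4) (nat_lit 472) (nat_lit 302) (nat_lit 246)) (XT.lf (nat_lit 0) (nat_lit 19502826461) (nat_lit 152) (nat_lit 17387025450) (nat_lit 0) (nat_lit 11265656752) (nat_lit 12) (nat_lit 5) (nat_lit 14) (nat_lit 4) (nat_lit 12) (nat_lit 4) (nat_lit 473) (nat_lit 302) (nat_lit 245)))) (XT.nd (nat_lit 156) (nat_lit 0) (nat_lit 0) (XT.nd (nat_lit 78) (nat_lit 76) (nat_lit 0) (XT.lf (nat_lit 0) (nat_lit 25359066779) (nat_lit 152) (nat_lit 7006374331) (nat_lit 0) (nat_lit 17067266695) (nat_lit 12) (nat_lit 5) (nat_lit 14) (nat_lit 4) (nat_lit 12) (nat_lit 4) (nat_lit 474) (nat_lit 302) (nat_lit 244)) (XT.lf (nat_lit 0) (nat_lit 3672354498) (nat_lit 76) (nat_lit 27710477188) (nat_lit 76) (nat_lit 19365637906) (nat_lit 11) (nat_lit 4) (nat_lit 12) (nat_lit 5) (nat_lit 12) (nat_lit 4) (nat_lit 475) (nat_lit 302) (nat_lit 243))) (XT.nd (nat_lit 78) (nat_lit 0) (nat_lit 0) (XT.lf (nat_lit 0) (nat_lit 14730899668)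 (nat_lit 76) (nat_lit 22884153818) (nat_lit 76) (nat_lit 14487820168) (nat_lit 11) (nat_lit 4) (nat_lit 12) (nat_lit 5) (nat_lit 12) (nat_lit 4) (nat_lit 476) (nat_lit 302) (nat_lit 242)) (XT.lf (nat_lit 0) (nat_lit 26039483400) (nat_lit 76) (nat_lit 17953004466) (nat_lit 76) (nat_lit 9506676284) (nat_lit 11) (nat_lit 4) (nat_lit 12) (nat_lit 5) (nat_lit 12) (nat_lit 4) (nat_lit 477) (nat_lit 302) (nat_lit 241))))) (XT.nd (nat_lit 234) (nat_lit 0) (nat_lit 0) (XT.nd (nat_lit 78) (nat_lit 152) (nat_lit 0) (XT.lf (nat_lit 0) (nat_lit 37607986980) (nat_lit 76) (nat_lit 12912720362) (nat_lit 76) (nat_lit 4417853799) (nat_lit 11) (nat_lit 4) (nat_lit 12) (nat_lit 5) (nat_lit 12) (nat_lit 4) (nat_lit 478) (nat_lit 302) (nat_lit 240)) (XT.nd (nat_lit 78) (nat_lit 76) (nat_lit 0) (XT.lf (nat_lit 0) (nat_lit 767812849) (nat_lit 152) (nat_lit 6983331119) (nat_lit 76) (nat_lit 48670952555) (nat_lit 10) (nat_lit 5) (nat_lit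 12) (nat_lit 5) (nat_lit 11) (nat_lit 4) (nat_lit 479) (nat_lit 302) (nat_lit 239)) (XT.lf (nat_lit 0) (nat_lit 3625787368) (nat_lit 76) (nat_lit 2390730193) (nat_lit 152) (nat_lit 51932421796) (nat_lit 9) (nat_lit 5) (nat_lit 10) (nat_lit 5) (nat_lit 11) (nat_lit 4) (nat_lit 480) (nat_lit 302) (nat_lit 238)))) (XT.nd (nat_lit 156) (nat_lit 0) (nat_lit 0) (XT.nd (nat_lit 78) (nat_lit 0) (nat_lit 0) (XT.lf (nat_lit 0) (nat_lit 11485453859) (nat_lit 152) (nat_lit 44929538662) (nat_lit 0) (nat_lit 3104713300) (nat_lit 9) (nat_lit 5) (nat_lit 11) (nat_lit 4) (nat_lit 9) (nat_lit 4) (nat_lit 481) (nat_lit 302) (nat_lit 237)) (XT.lf (nat_lit 0) (nat_lit 17104713359) (nat_lit 152) (nat_lit 35351192516) (nat_lit 0) (nat_lit 8682103166) (nat_lit 9) (nat_lit 5) (nat_lit 11) (nat_lit 4) (nat_lit 9) (nat_lit 4) (nat_lit 482) (nat_lit 302) (nat_lit 236))) (XT.nd (nat_lit 78) (nat_lit 0) (nat_lit 0) (XT.lf (nat_lit 0) (nat_lit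 22856224932) (nat_lit 152) (nat_lit 25556762961) (nat_lit 0) (nat_lit 14392964609) (nat_lit 9) (nat_lit 5) (nat_lit 11) (nat_lit 4) (nat_lit 9) (nat_lit 4) (nat_lit 483) (nat_lit 302) (nat_lit 235)) (XT.lf (nat_lit 0) (nat_lit 28745014170) (nat_lit 152) (nat_lit 15537691759) (nat_lit 0) (nat_lit 20242287702) (nat_lit 9) (nat_lit 5) (nat_lit 11) (nat_lit 4) (nat_lit 9) (nat_lit 4) (nat_lit 484) (nat_lit 302) (nat_lit 234)))))) (XT.nd (nat_lit 546) (nat_lit 76) (nat_lit 0) (XT.nd (nat_lit 234) (nat_lit 0) (nat_lit 0) (XT.nd (nat_lit 78) (nat_lit 76) (nat_lit 0) (XT.lf (nat_lit 0) (nat_lit 34776226618) (nat_lit 152) (nat_lit 5285224381) (nat_lit 0) (nat_lit 26235183504) (nat_lit 9) (nat_lit 5) (nat_lit 11) (nat_lit 4) (nat_lit 9) (nat_lit 4) (nat_lit 485) (nat_lit 302) (nat_lit 233)) (XT.nd (nat_lit 78) (nat_lit 0) (nat_lit 0) (XT.lf (nat_lit 0) (nat_lit 5313278847) (nat_lit 76) (nat_lit 35692927907) (nat_lit 76)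 (nat_lit 27114684166) (nat_lit 8) (nat_lit 4) (nat_lit 9) (nat_lit 5) (nat_lit 9) (nat_lit 4) (nat_lit 486) (nat_lit 302) (nat_lit 232)) (XT.lf (nat_lit 0) (nat_lit 16273499117) (nat_lit 76) (nat_lit 31170061872) (nat_lit 76) (nat_lit 22555701018) (nat_lit 8) (nat_lit 4) (nat_lit 9) (nat_lit 5) (nat_lit 9) (nat_lit 4) (nat_lit 487) (nat_lit 302) (nat_lit 231)))) (XT.nd (nat_lit 156) (nat_lit 0) (nat_lit 0) (XT.nd (nat_lit 78) (nat_lit 0) (nat_lit 0) (XT.lf (nat_lit 0) (nat_lit 27499826993) (nat_lit 76) (nat_lit 26542271281) (nat_lit 76) (nat_lit 17892845268) (nat_lit 8) (nat_lit 4) (nat_lit 9) (nat_lit 5) (nat_lit 9) (nat_lit 4) (nat_lit 488) (nat_lit 302) (nat_lit 230)) (XT.lf (nat_lit 0) (nat_lit 39002071886) (nat_lit 76) (nat_lit 21805512432) (nat_lit 76) (nat_lit 13122042575) (nat_lit 8) (nat_lit 4) (nat_lit 9) (nat_lit 5) (nat_lit 9) (nat_lit 4) (nat_lit 489) (nat_lit 302) (nat_lit 229))) (XT.nd (nat_lit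 78) (nat_lit 0) (nat_lit 0) (XT.lf (nat_lit 0) (nat_lit 50790284302) (nat_lit 76) (nat_lit 16955646409) (nat_lit 76) (nat_lit 8239124278) (nat_lit 8) (nat_lit 4) (nat_lit 9) (nat_lit 5) (nat_lit 9) (nat_lit 4) (nat_lit 490) (nat_lit 302) (nat_lit 228)) (XT.lf (nat_lit 0) (nat_lit 62874764621) (nat_lit 76) (nat_lit 11988435466) (nat_lit 76) (nat_lit 3239823747) (nat_lit 8) (nat_lit 4) (nat_lit 9) (nat_lit 5) (nat_lit 9) (nat_lit 4) (nat_lit 491) (nat_lit 302) (nat_lit 227))))) (XT.nd (nat_lit 47268) (nat_lit 0) (nat_lit 3496) (XT.nd (nat_lit 47112) (nat_lit 0) (nat_lit 4028) (XT.nd (nat_lit 47034) (nat_lit 0) (nat_lit 4180) (XT.lf (nat_lit 0) (nat_lit 1843537328) (nat_lit 152) (nat_lit 5037385881) (nat_lit 76) (nat_lit 73403918657) (nat_lit 7) (nat_lit 5) (nat_lit 9) (nat_lit 5) (nat_lit 8) (nat_lit 4) (nat_lit 492) (nat_lit 302) (nat_lit 226)) (XT.lf (nat_lit 0) (nat_lit 1104708492) (nat_lit 228) (nat_lit 4405972014)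 (nat_lit 0) (nat_lit 1104708492) (nat_lit 62) (nat_lit 5) (nat_lit 65) (nat_lit 4) (nat_lit 62) (nat_lit 4) (nat_lit 414) (nat_lit 303) (nat_lit 303))) (XT.nd (nat_lit 78) (nat_lit 0) (nat_lit 0) (XT.lf (nat_lit 0) (nat_lit 1285078290) (nat_lit 152) (nat_lit 6313437717) (nat_lit 152) (nat_lit 5854541625) (nat_lit 60) (nat_lit 4) (nat_lit 62) (nat_lit 5) (nat_lit 62) (nat_lit 4) (nat_lit 415) (nat_lit 303) (nat_lit 302)) (XT.lf (nat_lit 0) (nat_lit 11661951564) (nat_lit 152) (nat_lit 1462618483) (nat_lit 152) (nat_lit 558192204) (nat_lit 60) (nat_lit 4) (nat_lit 62) (nat_lit 5) (nat_lit 62) (nat_lit 4) (nat_lit 416) (nat_lit 303) (nat_lit 301)))) (XT.nd (nat_lit 156) (nat_lit 152) (nat_lit 0) (XT.nd (nat_lit 78) (nat_lit 152) (nat_lit 0) (XT.lf (nat_lit 0) (nat_lit 4804602196) (nat_lit 228) (nat_lit 5606700898) (nat_lit 0) (nat_lit 3506563500) (nat_lit 57) (nat_lit 5) (nat_lit 60) (nat_lit 4) (nat_lit 57) (nat_lit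 4) (nat_lit 417) (nat_lit 303) (nat_lit 300)) (XT.lf (nat_lit 0) (nat_lit 4706230484) (nat_lit 152) (nat_lit 5580161784) (nat_lit 152) (nat_lit 3874399854) (nat_lit 55) (nat_lit 4) (nat_lit 57) (nat_lit 5) (nat_lit 57) (nat_lit 4) (nat_lit 418) (nat_lit 303) (nat_lit 299))) (XT.nd (nat_lit 78) (nat_lit 0) (nat_lit 0) (XT.lf (nat_lit 0) (nat_lit 834510786) (nat_lit 76) (nat_lit 611854000) (nat_lit 152) (nat_lit 12965582012) (nat_lit 53) (nat_lit 5) (nat_lit 54) (nat_lit 5) (nat_lit 55) (nat_lit 4) (nat_lit 419) (nat_lit 303) (nat_lit 298)) (XT.lf (nat_lit 0) (nat_lit 6878292515) (nat_lit 152) (nat_lit 3325552843) (nat_lit 0) (nat_lit 4464770202) (nat_lit 53) (nat_lit 5) (nat_lit 55) (nat_lit 4) (nat_lit 53) (nat_lit 4) (nat_lit 420) (nat_lit 303) (nat_lit 297))))))))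
noncomputable def xc27 : XT := (XT.nd (nat_lit 2184) (nat_lit 988) (nat_lit 0) (XT.nd (nat_lit 1092) (nat_lit 760) (nat_lit 0) (XT.nd (nat_lit 546) (nat_lit 684) (nat_lit 0) (XT.nd (nat_lit 234) (nat_lit 456) (nat_lit 0) (XT.nd (nat_lit 78) (nat_lit 152) (nat_lit 0) (XT.lf (nat_lit 0) (nat_lit 7172419458) (nat_lit 152) (nat_lit 5268659634) (nat_lit 152) (nat_lit 2492880508) (nat_lit 51) (nat_lit 4) (nat_lit 53) (nat_lit 5) (nat_lit 53) (nat_lit 4) (nat_lit 421) (nat_lit 303) (nat_lit 296)) (XT.nd (nat_lit 78) (nat_lit 0) (nat_lit 0) (XT.lf (nat_lit 0) (nat_lit 2675032316) (nat_lit 76) (nat_lit 183350483) (nat_lit 152) (nat_lit 12349456324) (nat_lit 49) (nat_lit 5) (nat_lit 50) (nat_lit 5) (nat_lit 51) (nat_lit 4) (nat_lit 422) (nat_lit 303) (nat_lit 295)) (XT.lf (nat_lit 0) (nat_lit 8341322490) (nat_lit 152) (nat_lit 2173832790) (nat_lit 0) (nat_lit 4973413210) (nat_lit 49) (nat_lit 5) (nat_lit 51) (nat_lit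 4) (nat_lit 49) (nat_lit 4) (nat_lit 423) (nat_lit 303) (nat_lit 294)))) (XT.nd (nat_lit 156) (nat_lit 152) (nat_lit 0) (XT.nd (nat_lit 78) (nat_lit 152) (nat_lit 0) (XT.lf (nat_lit 0) (nat_lit 8469056056) (nat_lit 152) (nat_lit 5499524708) (nat_lit 152) (nat_lit 1809754942) (nat_lit 47) (nat_lit 4) (nat_lit 49) (nat_lit 5) (nat_lit 49) (nat_lit 4) (nat_lit 424) (nat_lit 303) (nat_lit 293)) (XT.lf (nat_lit 0) (nat_lit 3236647343) (nat_lit 76) (nat_lit 329314734) (nat_lit 152) (nat_lit 12511278675) (nat_lit 45) (nat_lit 5) (nat_lit 46) (nat_lit 5) (nat_lit 47) (nat_lit 4) (nat_lit 425) (nat_lit 303) (nat_lit 292))) (XT.nd (nat_lit 78) (nat_lit 152) (nat_lit 0) (XT.lf (nat_lit 0) (nat_lit 9086284916) (nat_lit 152) (nat_lit 2391657322) (nat_lit 0) (nat_lit 4906051857) (nat_lit 45) (nat_lit 5) (nat_lit 47) (nat_lit 4) (nat_lit 45) (nat_lit 4) (nat_lit 426) (nat_lit 303) (nat_lit 291)) (XT.lf (nat_lit 0) (nat_lit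 8345016871) (nat_lit 152) (nat_lit 6410818120) (nat_lit 152) (nat_lit 1944616187) (nat_lit 43) (nat_lit 4) (nat_lit 45) (nat_lit 5) (nat_lit 45) (nat_lit 4) (nat_lit 427) (nat_lit 303) (nat_lit 290))))) (XT.nd (nat_lit 234) (nat_lit 380) (nat_lit 0) (XT.nd (nat_lit 78) (nat_lit 152) (nat_lit 0) (XT.lf (nat_lit 0) (nat_lit 2251031633) (nat_lit 76) (nat_lit 1194718735) (nat_lit 152) (nat_lit 13581241688) (nat_lit 41) (nat_lit 5) (nat_lit 42) (nat_lit 5) (nat_lit 43) (nat_lit 4) (nat_lit 428) (nat_lit 303) (nat_lit 289)) (XT.nd (nat_lit 78) (nat_lit 152) (nat_lit 0) (XT.lf (nat_lit 0) (nat_lit 8984730174) (nat_lit 152) (nat_lit 4259893935) (nat_lit 0) (nat_lit 4117356674) (nat_lit 41) (nat_lit 5) (nat_lit 43) (nat_lit 4) (nat_lit 41) (nat_lit 4) (nat_lit 429) (nat_lit 303) (nat_lit 288)) (XT.lf (nat_lit 0) (nat_lit 6506384216) (nat_lit 152) (nat_lit 8161380068) (nat_lit 152) (nat_lit 3039926929) (nat_lit 39) (nat_lit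 4) (nat_lit 41) (nat_lit 5) (nat_lit 41) (nat_lit 4) (nat_lit 430) (nat_lit 303) (nat_lit 287)))) (XT.nd (nat_lit 156) (nat_lit 228) (nat_lit 0) (XT.nd (nat_lit 78) (nat_lit 76) (nat_lit 0) (XT.lf (nat_lit 0) (nat_lit 2356657097) (nat_lit 228) (nat_lit 584118493) (nat_lit 76) (nat_lit 15123883896) (nat_lit 38) (nat_lit 5) (nat_lit 41) (nat_lit 5) (nat_lit 39) (nat_lit 4) (nat_lit 431) (nat_lit 303) (nat_lit 286)) (XT.lf (nat_lit 0) (nat_lit 7883888450) (nat_lit 152) (nat_lit 8107067233) (nat_lit 0) (nat_lit 2439590556) (nat_lit 37) (nat_lit 5) (nat_lit 39) (nat_lit 4) (nat_lit 37) (nat_lit 4) (nat_lit 432) (nat_lit 303) (nat_lit 285))) (XT.nd (nat_lit 78) (nat_lit 76) (nat_lit 0) (XT.lf (nat_lit 0) (nat_lit 2609199312) (nat_lit 152) (nat_lit 10934627781) (nat_lit 152) (nat_lit 5264583418) (nat_lit 35) (nat_lit 4) (nat_lit 37) (nat_lit 5) (nat_lit 37) (nat_lit 4) (nat_lit 433) (nat_lit 303) (nat_lit 284)) (XT.lf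 (nat_lit 0) (nat_lit 162056241) (nat_lit 228) (nat_lit 5560241522) (nat_lit 76) (nat_lit 13475583306) (nat_lit 34) (nat_lit 5) (nat_lit 37) (nat_lit 5) (nat_lit 35) (nat_lit 4) (nat_lit 434) (nat_lit 303) (nat_lit 283)))))) (XT.nd (nat_lit 546) (nat_lit 380) (nat_lit 0) (XT.nd (nat_lit 234) (nat_lit 228) (nat_lit 0) (XT.nd (nat_lit 78) (nat_lit 76) (nat_lit 0) (XT.lf (nat_lit 0) (nat_lit 5278161178) (nat_lit 76) (nat_lit 327831219) (nat_lit 152) (nat_lit 13992677283) (nat_lit 33) (nat_lit 5) (nat_lit 34) (nat_lit 5) (nat_lit 35) (nat_lit 4) (nat_lit 435) (nat_lit 303) (nat_lit 282)) (XT.nd (nat_lit 78) (nat_lit 76) (nat_lit 0) (XT.lf (nat_lit 0) (nat_lit 11230028153) (nat_lit 152) (nat_lit 3675776927) (nat_lit 0) (nat_lit 5105180203) (nat_lit 33) (nat_lit 5) (nat_lit 35) (nat_lit 4) (nat_lit 33) (nat_lit 4) (nat_lit 436) (nat_lit 303) (nat_lit 281)) (XT.lf (nat_lit 0) (nat_lit 7260852928) (nat_lit 76) (nat_lit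 9747419117) (nat_lit 76) (nat_lit 3427840280) (nat_lit 32) (nat_lit 4) (nat_lit 33) (nat_lit 5) (nat_lit 33) (nat_lit 4) (nat_lit 437) (nat_lit 303) (nat_lit 280)))) (XT.nd (nat_lit 156) (nat_lit 76) (nat_lit 0) (XT.nd (nat_lit 78) (nat_lit 76) (nat_lit 0) (XT.lf (nat_lit 0) (nat_lit 1995206003) (nat_lit 152) (nat_lit 2458369763) (nat_lit 76) (nat_lit 16421320932) (nat_lit 31) (nat_lit 5) (nat_lit 33) (nat_lit 5) (nat_lit 32) (nat_lit 4) (nat_lit 438) (nat_lit 303) (nat_lit 279)) (XT.lf (nat_lit 0) (nat_lit 7519373284) (nat_lit 152) (nat_lit 12784138434) (nat_lit 0) (nat_lit 1022100964) (nat_lit 30) (nat_lit 5) (nat_lit 32) (nat_lit 4) (nat_lit 30) (nat_lit 4) (nat_lit 439) (nat_lit 303) (nat_lit 278))) (XT.nd (nat_lit 78) (nat_lit 76) (nat_lit 0) (XT.lf (nat_lit 0) (nat_lit 13193742788) (nat_lit 152) (nat_lit 2073124292) (nat_lit 0) (nat_lit 6523454597) (nat_lit 30) (nat_lit 5) (nat_lit 32) (nat_lit 4) (nat_lit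 30) (nat_lit 4) (nat_lit 440) (nat_lit 303) (nat_lit 277)) (XT.lf (nat_lit 0) (nat_lit 8977722502) (nat_lit 76) (nat_lit 10064698772) (nat_lit 76) (nat_lit 3226434008) (nat_lit 29) (nat_lit 4) (nat_lit 30) (nat_lit 5) (nat_lit 30) (nat_lit 4) (nat_lit 441) (nat_lit 303) (nat_lit 276))))) (XT.nd (nat_lit 234) (nat_lit 228) (nat_lit 0) (XT.nd (nat_lit 78) (nat_lit 76) (nat_lit 0) (XT.lf (nat_lit 0) (nat_lit 2198853148) (nat_lit 152) (nat_lit 2537676925) (nat_lit 76) (nat_lit 18026385119) (nat_lit 28) (nat_lit 5) (nat_lit 30) (nat_lit 5) (nat_lit 29) (nat_lit 4) (nat_lit 442) (nat_lit 303) (nat_lit 275)) (XT.nd (nat_lit 78) (nat_lit 0) (nat_lit 0) (XT.lf (nat_lit 0) (nat_lit 7731872526) (nat_lit 152) (nat_lit 14757952441) (nat_lit 0) (nat_lit 780724129) (nat_lit 27) (nat_lit 5) (nat_lit 29) (nat_lit 4) (nat_lit 27) (nat_lit 4) (nat_lit 443) (nat_lit 303) (nat_lit 274)) (XT.lf (nat_lit 0) (nat_lit 13424104289) (nat_lit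 152) (nat_lit 4045805236) (nat_lit 0) (nat_lit 6323710883) (nat_lit 27) (nat_lit 5) (nat_lit 29) (nat_lit 4) (nat_lit 27) (nat_lit 4) (nat_lit 444) (nat_lit 303) (nat_lit 273)))) (XT.nd (nat_lit 156) (nat_lit 76) (nat_lit 0) (XT.nd (nat_lit 78) (nat_lit 76) (nat_lit 0) (XT.lf (nat_lit 0) (nat_lit 6975859398) (nat_lit 76) (nat_lit 12301063124) (nat_lit 76) (nat_lit 5055771649) (nat_lit 26) (nat_lit 4) (nat_lit 27) (nat_lit 5) (nat_lit 27) (nat_lit 4) (nat_lit 445) (nat_lit 303) (nat_lit 272)) (XT.lf (nat_lit 0) (nat_lit 373343073) (nat_lit 152) (nat_lit 6628082772) (nat_lit 76) (nat_lit 17887475476) (nat_lit 25) (nat_lit 5) (nat_lit 27) (nat_lit 5) (nat_lit 26) (nat_lit 4) (nat_lit 446) (nat_lit 303) (nat_lit 271))) (XT.nd (nat_lit 78) (nat_lit 0) (nat_lit 0) (XT.lf (nat_lit 0) (nat_lit 4312886422) (nat_lit 76) (nat_lit 1517377597) (nat_lit 152) (nat_lit 19631036969) (nat_lit 24) (nat_lit 5) (nat_lit 25) (nat_lit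 5) (nat_lit 26) (nat_lit 4) (nat_lit 447) (nat_lit 303) (nat_lit 270)) (XT.lf (nat_lit 0) (nat_lit 11483445724) (nat_lit 152) (nat_lit 10515195163) (nat_lit 0) (nat_lit 4051259515) (nat_lit 24) (nat_lit 5) (nat_lit 26) (nat_lit 4) (nat_lit 24) (nat_lit 4) (nat_lit 448) (nat_lit 303) (nat_lit 269))))))) (XT.nd (nat_lit 1092) (nat_lit 456) (nat_lit 0) (XT.nd (nat_lit 546) (nat_lit 228) (nat_lit 0) (XT.nd (nat_lit 234) (nat_lit 152) (nat_lit 0) (XT.nd (nat_lit 78) (nat_lit 76) (nat_lit 0) (XT.lf (nat_lit 0) (nat_lit 287896634) (nat_lit 76) (nat_lit 16963542726) (nat_lit 76) (nat_lit 9406366169) (nat_lit 23) (nat_lit 4) (nat_lit 24) (nat_lit 5) (nat_lit 24) (nat_lit 4) (nat_lit 449) (nat_lit 303) (nat_lit 268)) (XT.nd (nat_lit 78) (nat_lit 76) (nat_lit 0) (XT.lf (nat_lit 0) (nat_lit 11492283622) (nat_lit 76) (nat_lit 11734581465) (nat_lit 76) (nat_lit 4056055057) (nat_lit 23) (nat_lit 4) (nat_lit 24) (nat_lit 5)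 (nat_lit 24) (nat_lit 4) (nat_lit 450) (nat_lit 303) (nat_lit 267)) (XT.lf (nat_lit 0) (nat_lit 1355984091) (nat_lit 152) (nat_lit 5043694091) (nat_lit 76) (nat_lit 21528806165) (nat_lit 22) (nat_lit 5) (nat_lit 24) (nat_lit 5) (nat_lit 23) (nat_lit 4) (nat_lit 451) (nat_lit 303) (nat_lit 266)))) (XT.nd (nat_lit 156) (nat_lit 76) (nat_lit 0) (XT.nd (nat_lit 78) (nat_lit 0) (nat_lit 0) (XT.lf (nat_lit 0) (nat_lit 5970227402) (nat_lit 76) (nat_lit 867680515) (nat_lit 152) (nat_lit 21754635159) (nat_lit 21) (nat_lit 5) (nat_lit 22) (nat_lit 5) (nat_lit 23) (nat_lit 4) (nat_lit 452) (nat_lit 303) (nat_lit 265)) (XT.lf (nat_lit 0) (nat_lit 12513945414) (nat_lit 152) (nat_lit 12035880656) (nat_lit 0) (nat_lit 4725811460) (nat_lit 21) (nat_lit 5) (nat_lit 23) (nat_lit 4) (nat_lit 21) (nat_lit 4) (nat_lit 453) (nat_lit 303) (nat_lit 264))) (XT.nd (nat_lit 78) (nat_lit 76) (nat_lit 0) (XT.lf (nat_lit 0) (nat_lit 18302630358)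 (nat_lit 152) (nat_lit 1268508054) (nat_lit 0) (nat_lit 10409818955) (nat_lit 21) (nat_lit 5) (nat_lit 23) (nat_lit 4) (nat_lit 21) (nat_lit 4) (nat_lit 454) (nat_lit 303) (nat_lit 263)) (XT.lf (nat_lit 0) (nat_lit 9890551474) (nat_lit 76) (nat_lit 14405202701) (nat_lit 76) (nat_lit 6410762709) (nat_lit 20) (nat_lit 4) (nat_lit 21) (nat_lit 5) (nat_lit 21) (nat_lit 4) (nat_lit 455) (nat_lit 303) (nat_lit 262))))) (XT.nd (nat_lit 234) (nat_lit 76) (nat_lit 0) (XT.nd (nat_lit 78) (nat_lit 152) (nat_lit 0) (XT.lf (nat_lit 0) (nat_lit 21287270392) (nat_lit 76) (nat_lit 9130604283) (nat_lit 76) (nat_lit 1037495758) (nat_lit 20) (nat_lit 4) (nat_lit 21) (nat_lit 5) (nat_lit 21) (nat_lit 4) (nat_lit 456) (nat_lit 303) (nat_lit 261)) (XT.nd (nat_lit 78) (nat_lit 0) (nat_lit 0) (XT.lf (nat_lit 0) (nat_lit 647841311) (nat_lit 76) (nat_lit 3705234811) (nat_lit 152) (nat_lit 27874004012) (nat_lit 18) (nat_lit 5) (nat_lit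 19) (nat_lit 5) (nat_lit 20) (nat_lit 4) (nat_lit 457) (nat_lit 303) (nat_lit 260)) (XT.lf (nat_lit 0) (nat_lit 9944048619) (nat_lit 152) (nat_lit 21172439849) (nat_lit 0) (nat_lit 1903361459) (nat_lit 18) (nat_lit 5) (nat_lit 20) (nat_lit 4) (nat_lit 18) (nat_lit 4) (nat_lit 458) (nat_lit 303) (nat_lit 259)))) (XT.nd (nat_lit 156) (nat_lit 0) (nat_lit 0) (XT.nd (nat_lit 78) (nat_lit 76) (nat_lit 0) (XT.lf (nat_lit 0) (nat_lit 15678991187) (nat_lit 152) (nat_lit 10607489051) (nat_lit 0) (nat_lit 7550638312) (nat_lit 18) (nat_lit 5) (nat_lit 20) (nat_lit 4) (nat_lit 18) (nat_lit 4) (nat_lit 459) (nat_lit 303) (nat_lit 258)) (XT.lf (nat_lit 0) (nat_lit 163655573) (nat_lit 76) (nat_lit 21365215541) (nat_lit 76) (nat_lit 13151750323) (nat_lit 17) (nat_lit 4) (nat_lit 18) (nat_lit 5) (nat_lit 18) (nat_lit 4) (nat_lit 460) (nat_lit 303) (nat_lit 257))) (XT.nd (nat_lit 78) (nat_lit 0) (nat_lit 0) (XT.lf (nat_lit 0)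 (nat_lit 11362546595) (nat_lit 76) (nat_lit 16240756253) (nat_lit 76) (nat_lit 7944657691) (nat_lit 17) (nat_lit 4) (nat_lit 18) (nat_lit 5) (nat_lit 18) (nat_lit 4) (nat_lit 461) (nat_lit 303) (nat_lit 256)) (XT.lf (nat_lit 0) (nat_lit 22787859623) (nat_lit 76) (nat_lit 11015739533) (nat_lit 76) (nat_lit 2639414424) (nat_lit 17) (nat_lit 4) (nat_lit 18) (nat_lit 5) (nat_lit 18) (nat_lit 4) (nat_lit 462) (nat_lit 303) (nat_lit 255)))))) (XT.nd (nat_lit 546) (nat_lit 228) (nat_lit 0) (XT.nd (nat_lit 234) (nat_lit 76) (nat_lit 0) (XT.nd (nat_lit 78) (nat_lit 76) (nat_lit 0) (XT.lf (nat_lit 0) (nat_lit 2714589476) (nat_lit 152) (nat_lit 2943598324) (nat_lit 76) (nat_lit 31707576432) (nat_lit 16) (nat_lit 5) (nat_lit 18) (nat_lit 5) (nat_lit 17) (nat_lit 4) (nat_lit 463) (nat_lit 303) (nat_lit 254)) (XT.nd (nat_lit 78) (nat_lit 0) (nat_lit 0) (XT.lf (nat_lit 0) (nat_lit 8117240914) (nat_lit 76) (nat_lit 83289671)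 (nat_lit 152) (nat_lit 30114154313) (nat_lit 15) (nat_lit 5) (nat_lit 16) (nat_lit 5) (nat_lit 17) (nat_lit 4) (nat_lit 464) (nat_lit 303) (nat_lit 253)) (XT.lf (nat_lit 0) (nat_lit 13881891257) (nat_lit 152) (nat_lit 19880042434) (nat_lit 0) (nat_lit 5529216664) (nat_lit 15) (nat_lit 5) (nat_lit 17) (nat_lit 4) (nat_lit 15) (nat_lit 4) (nat_lit 465) (nat_lit 303) (nat_lit 252)))) (XT.nd (nat_lit 156) (nat_lit 0) (nat_lit 0) (XT.nd (nat_lit 78) (nat_lit 76) (nat_lit 0) (XT.lf (nat_lit 0) (nat_lit 19682503878) (nat_lit 152) (nat_lit 9355318742) (nat_lit 0) (nat_lit 11260625160) (nat_lit 15) (nat_lit 5) (nat_lit 17) (nat_lit 4) (nat_lit 15) (nat_lit 4) (nat_lit 466) (nat_lit 303) (nat_lit 251)) (XT.lf (nat_lit 0) (nat_lit 1414322611) (nat_lit 76) (nat_lit 24205909037) (nat_lit 76) (nat_lit 15716841849) (nat_lit 14) (nat_lit 4) (nat_lit 15) (nat_lit 5) (nat_lit 15) (nat_lit 4) (nat_lit 467) (nat_lit 303) (nat_lit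 250))) (XT.nd (nat_lit 78) (nat_lit 0) (nat_lit 0) (XT.lf (nat_lit 0) (nat_lit 12601370417) (nat_lit 76) (nat_lit 19179226655) (nat_lit 76) (nat_lit 10624927942) (nat_lit 14) (nat_lit 4) (nat_lit 15) (nat_lit 5) (nat_lit 15) (nat_lit 4) (nat_lit 468) (nat_lit 303) (nat_lit 249)) (XT.lf (nat_lit 0) (nat_lit 24029410580) (nat_lit 76) (nat_lit 14047853603) (nat_lit 76) (nat_lit 5430223313) (nat_lit 14) (nat_lit 4) (nat_lit 15) (nat_lit 5) (nat_lit 15) (nat_lit 4) (nat_lit 469) (nat_lit 303) (nat_lit 248))))) (XT.nd (nat_lit 312) (nat_lit 76) (nat_lit 0) (XT.nd (nat_lit 156) (nat_lit 0) (nat_lit 0) (XT.nd (nat_lit 78) (nat_lit 152) (nat_lit 0) (XT.lf (nat_lit 0) (nat_lit 35708428765) (nat_lit 76) (nat_lit 8807306158) (nat_lit 76) (nat_lit 128188899) (nat_lit 14) (nat_lit 4) (nat_lit 15) (nat_lit 5) (nat_lit 15) (nat_lit 4) (nat_lit 470) (nat_lit 303) (nat_lit 247)) (XT.lf (nat_lit 0) (nat_lit 1817457668) (nat_lit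 76) (nat_lit 3382675835) (nat_lit 152) (nat_lit 40613645064) (nat_lit 12) (nat_lit 5) (nat_lit 13) (nat_lit 5) (nat_lit 14) (nat_lit 4) (nat_lit 471) (nat_lit 303) (nat_lit 246))) (XT.nd (nat_lit 78) (nat_lit 0) (nat_lit 0) (XT.lf (nat_lit 0) (nat_lit 10751935858) (nat_lit 152) (nat_lit 34053388947) (nat_lit 0) (nat_lit 2211381772) (nat_lit 12) (nat_lit 5) (nat_lit 14) (nat_lit 4) (nat_lit 12) (nat_lit 4) (nat_lit 472) (nat_lit 303) (nat_lit 245)) (XT.lf (nat_lit 0) (nat_lit 16459016680) (nat_lit 152) (nat_lit 23933213644) (nat_lit 0) (nat_lit 7863832219) (nat_lit 12) (nat_lit 5) (nat_lit 14) (nat_lit 4) (nat_lit 12) (nat_lit 4) (nat_lit 473) (nat_lit 303) (nat_lit 244)))) (XT.nd (nat_lit 156) (nat_lit 76) (nat_lit 0) (XT.nd (nat_lit 78) (nat_lit 0) (nat_lit 0) (XT.lf (nat_lit 0) (nat_lit 22293846388) (nat_lit 152) (nat_lit 13594435769) (nat_lit 0) (nat_lit 13645622728) (nat_lit 12) (nat_lit 5) (nat_lit 14)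 (nat_lit 4) (nat_lit 12) (nat_lit 4) (nat_lit 474) (nat_lit 303) (nat_lit 243)) (XT.lf (nat_lit 0) (nat_lit 28261523378) (nat_lit 152) (nat_lit 3028021439) (nat_lit 0) (nat_lit 19561805350) (nat_lit 12) (nat_lit 5) (nat_lit 14) (nat_lit 4) (nat_lit 12) (nat_lit 4) (nat_lit 475) (nat_lit 303) (nat_lit 242))) (XT.nd (nat_lit 78) (nat_lit 0) (nat_lit 0) (XT.lf (nat_lit 0) (nat_lit 7930005095) (nat_lit 76) (nat_lit 26513485088) (nat_lit 76) (nat_lit 17763772529) (nat_lit 11) (nat_lit 4) (nat_lit 12) (nat_lit 5) (nat_lit 12) (nat_lit 4) (nat_lit 476) (nat_lit 303) (nat_lit 241)) (XT.lf (nat_lit 0) (nat_lit 19199506234) (nat_lit 76) (nat_lit 21601448903) (nat_lit 76) (nat_lit 12803197963) (nat_lit 11) (nat_lit 4) (nat_lit 12) (nat_lit 5) (nat_lit 12) (nat_lit 4) (nat_lit 477) (nat_lit 303) (nat_lit 240))))))))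
noncomputable def xc28 : XT := (XT.nd (nat_lit 48984) (nat_lit 0) (nat_lit 988) (XT.nd (nat_lit 1092) (nat_lit 0) (nat_lit 0) (XT.nd (nat_lit 546) (nat_lit 76) (nat_lit 0) (XT.nd (nat_lit 234) (nat_lit 76) (nat_lit 0) (XT.nd (nat_lit 78) (nat_lit 76) (nat_lit 0) (XT.lf (nat_lit 0) (nat_lit 30730065549) (nat_lit 76) (nat_lit 16579721270) (nat_lit 76) (nat_lit 7734345689) (nat_lit 11) (nat_lit 4) (nat_lit 12) (nat_lit 5) (nat_lit 12) (nat_lit 4) (nat_lit 478) (nat_lit 303) (nat_lit 239)) (XT.nd (nat_lit 78) (nat_lit 76) (nat_lit 0) (XT.lf (nat_lit 0) (nat_lit 42531758285) (nat_lit 76) (nat_lit 11443914274) (nat_lit 76) (nat_lit 2552786614) (nat_lit 11) (nat_lit 4) (nat_lit 12) (nat_lit 5) (nat_lit 12) (nat_lit 4) (nat_lit 479) (nat_lit 303) (nat_lit 238)) (XT.lf (nat_lit 0) (nat_lit 2692422355) (nat_lit 152) (nat_lit 3469929773) (nat_lit 76) (nat_lit 51895286060) (nat_lit 10) (nat_lit 5) (nat_lit 12) (nat_lit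 5) (nat_lit 11) (nat_lit 4) (nat_lit 480) (nat_lit 303) (nat_lit 237)))) (XT.nd (nat_lit 156) (nat_lit 0) (nat_lit 0) (XT.nd (nat_lit 78) (nat_lit 0) (nat_lit 0) (XT.lf (nat_lit 0) (nat_lit 7420963237) (nat_lit 76) (nat_lit 657675242) (nat_lit 152) (nat_lit 51552248475) (nat_lit 9) (nat_lit 5) (nat_lit 10) (nat_lit 5) (nat_lit 11) (nat_lit 4) (nat_lit 481) (nat_lit 303) (nat_lit 236)) (XT.lf (nat_lit 0) (nat_lit 13673681563) (nat_lit 152) (nat_lit 42660362479) (nat_lit 0) (nat_lit 4915873301) (nat_lit 9) (nat_lit 5) (nat_lit 11) (nat_lit 4) (nat_lit 9) (nat_lit 4) (nat_lit 482) (nat_lit 303) (nat_lit 235))) (XT.nd (nat_lit 78) (nat_lit 0) (nat_lit 0) (XT.lf (nat_lit 0) (nat_lit 19407819893) (nat_lit 152) (nat_lit 32900017278) (nat_lit 0) (nat_lit 10610545486) (nat_lit 9) (nat_lit 5) (nat_lit 11) (nat_lit 4) (nat_lit 9) (nat_lit 4) (nat_lit 483) (nat_lit 303) (nat_lit 234)) (XT.lf (nat_lit 0) (nat_lit 25279741906)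 (nat_lit 152) (nat_lit 22914037682) (nat_lit 0) (nat_lit 16444150853) (nat_lit 9) (nat_lit 5) (nat_lit 11) (nat_lit 4) (nat_lit 9) (nat_lit 4) (nat_lit 484) (nat_lit 303) (nat_lit 233))))) (XT.nd (nat_lit 234) (nat_lit 0) (nat_lit 0) (XT.nd (nat_lit 78) (nat_lit 76) (nat_lit 0) (XT.lf (nat_lit 0) (nat_lit 31294578407) (nat_lit 152) (nat_lit 12693698077) (nat_lit 0) (nat_lit 22421786728) (nat_lit 9) (nat_lit 5) (nat_lit 11) (nat_lit 4) (nat_lit 9) (nat_lit 4) (nat_lit 485) (nat_lit 303) (nat_lit 232)) (XT.nd (nat_lit 78) (nat_lit 76) (nat_lit 0) (XT.lf (nat_lit 0) (nat_lit 37457585079) (nat_lit 152) (nat_lit 2230068068) (nat_lit 0) (nat_lit 28548676286) (nat_lit 9) (nat_lit 5) (nat_lit 11) (nat_lit 4) (nat_lit 9) (nat_lit 4) (nat_lit 486) (nat_lit 303) (nat_lit 231)) (XT.lf (nat_lit 0) (nat_lit 8654883265) (nat_lit 76) (nat_lit 35202459839) (nat_lit 76) (nat_lit 26258485887) (nat_lit 8) (nat_lit 4) (nat_lit 9)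 (nat_lit 5) (nat_lit 9) (nat_lit 4) (nat_lit 487) (nat_lit 303) (nat_lit 230)))) (XT.nd (nat_lit 156) (nat_lit 0) (nat_lit 0) (XT.nd (nat_lit 78) (nat_lit 0) (nat_lit 0) (XT.lf (nat_lit 0) (nat_lit 19851224531) (nat_lit 76) (nat_lit 30589381297) (nat_lit 76) (nat_lit 21611363502) (nat_lit 8) (nat_lit 4) (nat_lit 9) (nat_lit 5) (nat_lit 9) (nat_lit 4) (nat_lit 488) (nat_lit 303) (nat_lit 229)) (XT.lf (nat_lit 0) (nat_lit 31324356210) (nat_lit 76) (nat_lit 25866905991) (nat_lit 76) (nat_lit 16855835920) (nat_lit 8) (nat_lit 4) (nat_lit 9) (nat_lit 5) (nat_lit 9) (nat_lit 4) (nat_lit 489) (nat_lit 303) (nat_lit 228))) (XT.nd (nat_lit 78) (nat_lit 0) (nat_lit 0) (XT.lf (nat_lit 0) (nat_lit 43084303370) (nat_lit 76) (nat_lit 21030907486) (nat_lit 76) (nat_lit 11987747827) (nat_lit 8) (nat_lit 4) (nat_lit 9) (nat_lit 5) (nat_lit 9) (nat_lit 4) (nat_lit 490) (nat_lit 303) (nat_lit 227)) (XT.lf (nat_lit 0) (nat_lit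 55141341693) (nat_lit 76) (nat_lit 16077160152) (nat_lit 76) (nat_lit 7002845554) (nat_lit 8) (nat_lit 4) (nat_lit 9) (nat_lit 5) (nat_lit 9) (nat_lit 4) (nat_lit 491) (nat_lit 303) (nat_lit 226)))))) (XT.nd (nat_lit 47346) (nat_lit 0) (nat_lit 2964) (XT.nd (nat_lit 47034) (nat_lit 0) (nat_lit 3724) (XT.nd (nat_lit 46878) (nat_lit 0) (nat_lit 4332) (XT.lf (nat_lit 0) (nat_lit 67506006455) (nat_lit 76) (nat_lit 11001335472) (nat_lit 76) (nat_lit 1896773361) (nat_lit 8) (nat_lit 4) (nat_lit 9) (nat_lit 5) (nat_lit 9) (nat_lit 4) (nat_lit 492) (nat_lit 303) (nat_lit 225)) (XT.nd (nat_lit 78) (nat_lit 152) (nat_lit 0) (XT.lf (nat_lit 0) (nat_lit 2512566921) (nat_lit 228) (nat_lit 1376436112) (nat_lit 0) (nat_lit 2512566921) (nat_lit 67) (nat_lit 5) (nat_lit 70) (nat_lit 4) (nat_lit 67) (nat_lit 4) (nat_lit 412) (nat_lit 304) (nat_lit 304)) (XT.lf (nat_lit 0) (nat_lit 7298951805) (nat_lit 152) (nat_lit 3101262571)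 (nat_lit 152) (nat_lit 2614419707) (nat_lit 65) (nat_lit 4) (nat_lit 67) (nat_lit 5) (nat_lit 67) (nat_lit 4) (nat_lit 413) (nat_lit 304) (nat_lit 303)))) (XT.nd (nat_lit 156) (nat_lit 228) (nat_lit 0) (XT.nd (nat_lit 78) (nat_lit 152) (nat_lit 0) (XT.lf (nat_lit 0) (nat_lit 2625382641) (nat_lit 228) (nat_lit 8913280343) (nat_lit 0) (nat_lit 1693823574) (nat_lit 62) (nat_lit 5) (nat_lit 65) (nat_lit 4) (nat_lit 62) (nat_lit 4) (nat_lit 414) (nat_lit 304) (nat_lit 302)) (XT.lf (nat_lit 0) (nat_lit 1081382362) (nat_lit 152) (nat_lit 6876095310) (nat_lit 152) (nat_lit 5499006057) (nat_lit 60) (nat_lit 4) (nat_lit 62) (nat_lit 5) (nat_lit 62) (nat_lit 4) (nat_lit 415) (nat_lit 304) (nat_lit 301))) (XT.nd (nat_lit 78) (nat_lit 228) (nat_lit 0) (XT.lf (nat_lit 0) (nat_lit 11360835421) (nat_lit 152) (nat_lit 2068317168) (nat_lit 152) (nat_lit 258674336) (nat_lit 60) (nat_lit 4) (nat_lit 62) (nat_lit 5) (nat_lit 62)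 (nat_lit 4) (nat_lit 416) (nat_lit 304) (nat_lit 300)) (XT.lf (nat_lit 0) (nat_lit 5034742806) (nat_lit 228) (nat_lit 6019930070) (nat_lit 0) (nat_lit 2870084784) (nat_lit 57) (nat_lit 5) (nat_lit 60) (nat_lit 4) (nat_lit 57) (nat_lit 4) (nat_lit 417) (nat_lit 304) (nat_lit 299))))) (XT.nd (nat_lit 234) (nat_lit 456) (nat_lit 0) (XT.nd (nat_lit 78) (nat_lit 152) (nat_lit 0) (XT.lf (nat_lit 0) (nat_lit 4186972656) (nat_lit 152) (nat_lit 6271482635) (nat_lit 152) (nat_lit 3710976813) (nat_lit 55) (nat_lit 4) (nat_lit 57) (nat_lit 5) (nat_lit 57) (nat_lit 4) (nat_lit 418) (nat_lit 304) (nat_lit 298)) (XT.nd (nat_lit 78) (nat_lit 0) (nat_lit 0) (XT.lf (nat_lit 0) (nat_lit 196577177) (nat_lit 76) (nat_lit 1350911123) (nat_lit 152) (nat_lit 12874830881) (nat_lit 53) (nat_lit 5) (nat_lit 54) (nat_lit 5) (nat_lit 55) (nat_lit 4) (nat_lit 419) (nat_lit 304) (nat_lit 297)) (XT.lf (nat_lit 0) (nat_lit 6919551846) (nat_lit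 152) (nat_lit 4062995522) (nat_lit 0) (nat_lit 3698242534) (nat_lit 53) (nat_lit 5) (nat_lit 55) (nat_lit 4) (nat_lit 53) (nat_lit 4) (nat_lit 420) (nat_lit 304) (nat_lit 296)))) (XT.nd (nat_lit 156) (nat_lit 152) (nat_lit 0) (XT.nd (nat_lit 78) (nat_lit 152) (nat_lit 0) (XT.lf (nat_lit 0) (nat_lit 6325002808) (nat_lit 152) (nat_lit 6097966509) (nat_lit 152) (nat_lit 2524951554) (nat_lit 51) (nat_lit 4) (nat_lit 53) (nat_lit 5) (nat_lit 53) (nat_lit 4) (nat_lit 421) (nat_lit 304) (nat_lit 295)) (XT.lf (nat_lit 0) (nat_lit 1701419163) (nat_lit 76) (nat_lit 1065032022) (nat_lit 152) (nat_lit 12457178569) (nat_lit 49) (nat_lit 5) (nat_lit 50) (nat_lit 5) (nat_lit 51) (nat_lit 4) (nat_lit 422) (nat_lit 304) (nat_lit 294))) (XT.nd (nat_lit 78) (nat_lit 152) (nat_lit 0) (XT.lf (nat_lit 0) (nat_lit 8189982261) (nat_lit 152) (nat_lit 3248505561) (nat_lit 0) (nat_lit 4067658916) (nat_lit 49) (nat_lit 5) (nat_lit 51)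 (nat_lit 4) (nat_lit 49) (nat_lit 4) (nat_lit 423) (nat_lit 304) (nat_lit 293)) (XT.lf (nat_lit 0) (nat_lit 7280170001) (nat_lit 152) (nat_lit 6476192377) (nat_lit 152) (nat_lit 2041383123) (nat_lit 47) (nat_lit 4) (nat_lit 49) (nat_lit 5) (nat_lit 49) (nat_lit 4) (nat_lit 424) (nat_lit 304) (nat_lit 292))))))) (XT.nd (nat_lit 1092) (nat_lit 760) (nat_lit 0) (XT.nd (nat_lit 546) (nat_lit 532) (nat_lit 0) (XT.nd (nat_lit 234) (nat_lit 380) (nat_lit 0) (XT.nd (nat_lit 78) (nat_lit 152) (nat_lit 0) (XT.lf (nat_lit 0) (nat_lit 1913652753) (nat_lit 76) (nat_lit 1363118864) (nat_lit 152) (nat_lit 12821813095) (nat_lit 45) (nat_lit 5) (nat_lit 46) (nat_lit 5) (nat_lit 47) (nat_lit 4) (nat_lit 425) (nat_lit 304) (nat_lit 291)) (XT.nd (nat_lit 78) (nat_lit 152) (nat_lit 0) (XT.lf (nat_lit 0) (nat_lit 8737964584) (nat_lit 152) (nat_lit 3817344409) (nat_lit 0) (nat_lit 3851807720) (nat_lit 45) (nat_lit 5) (nat_lit 47)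 (nat_lit 4) (nat_lit 45) (nat_lit 4) (nat_lit 426) (nat_lit 304) (nat_lit 290)) (XT.lf (nat_lit 0) (nat_lit 6800564683) (nat_lit 152) (nat_lit 7544344227) (nat_lit 152) (nat_lit 2380547681) (nat_lit 43) (nat_lit 4) (nat_lit 45) (nat_lit 5) (nat_lit 45) (nat_lit 4) (nat_lit 427) (nat_lit 304) (nat_lit 289)))) (XT.nd (nat_lit 156) (nat_lit 228) (nat_lit 0) (XT.nd (nat_lit 78) (nat_lit 0) (nat_lit 0) (XT.lf (nat_lit 0) (nat_lit 564135308) (nat_lit 76) (nat_lit 2390290772) (nat_lit 152) (nat_lit 14099618441) (nat_lit 41) (nat_lit 5) (nat_lit 42) (nat_lit 5) (nat_lit 43) (nat_lit 4) (nat_lit 428) (nat_lit 304) (nat_lit 288)) (XT.lf (nat_lit 0) (nat_lit 8434382611) (nat_lit 152) (nat_lit 6051219329) (nat_lit 0) (nat_lit 2905206237) (nat_lit 41) (nat_lit 5) (nat_lit 43) (nat_lit 4) (nat_lit 41) (nat_lit 4) (nat_lit 429) (nat_lit 304) (nat_lit 287))) (XT.nd (nat_lit 78) (nat_lit 76) (nat_lit 0) (XT.lf (nat_lit 0) (nat_lit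 4591410026) (nat_lit 152) (nat_lit 9461452475) (nat_lit 152) (nat_lit 3685596839) (nat_lit 39) (nat_lit 4) (nat_lit 41) (nat_lit 5) (nat_lit 41) (nat_lit 4) (nat_lit 430) (nat_lit 304) (nat_lit 286)) (XT.lf (nat_lit 0) (nat_lit 1677507404) (nat_lit 228) (nat_lit 2610010034) (nat_lit 76) (nat_lit 13809482618) (nat_lit 38) (nat_lit 5) (nat_lit 41) (nat_lit 5) (nat_lit 39) (nat_lit 4) (nat_lit 431) (nat_lit 304) (nat_lit 285))))) (XT.nd (nat_lit 234) (nat_lit 304) (nat_lit 0) (XT.nd (nat_lit 78) (nat_lit 152) (nat_lit 0) (XT.lf (nat_lit 0) (nat_lit 7125791707) (nat_lit 152) (nat_lit 10279567726) (nat_lit 0) (nat_lit 1059899544) (nat_lit 37) (nat_lit 5) (nat_lit 39) (nat_lit 4) (nat_lit 37) (nat_lit 4) (nat_lit 432) (nat_lit 304) (nat_lit 284)) (XT.nd (nat_lit 78) (nat_lit 0) (nat_lit 0) (XT.lf (nat_lit 0) (nat_lit 307814121) (nat_lit 152) (nat_lit 12411189044) (nat_lit 152) (nat_lit 6126125552) (nat_lit 35) (nat_lit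 4) (nat_lit 37) (nat_lit 5) (nat_lit 37) (nat_lit 4) (nat_lit 433) (nat_lit 304) (nat_lit 283)) (XT.lf (nat_lit 0) (nat_lit 11254737720) (nat_lit 152) (nat_lit 7239543550) (nat_lit 152) (nat_lit 741692360) (nat_lit 35) (nat_lit 4) (nat_lit 37) (nat_lit 5) (nat_lit 37) (nat_lit 4) (nat_lit 434) (nat_lit 304) (nat_lit 282)))) (XT.nd (nat_lit 156) (nat_lit 152) (nat_lit 0) (XT.nd (nat_lit 78) (nat_lit 0) (nat_lit 0) (XT.lf (nat_lit 0) (nat_lit 2733036638) (nat_lit 76) (nat_lit 1915967217) (nat_lit 152) (nat_lit 14990007005) (nat_lit 33) (nat_lit 5) (nat_lit 34) (nat_lit 5) (nat_lit 35) (nat_lit 4) (nat_lit 435) (nat_lit 304) (nat_lit 281)) (XT.lf (nat_lit 0) (nat_lit 10214643156) (nat_lit 152) (nat_lit 6327692377) (nat_lit 0) (nat_lit 3510746066) (nat_lit 33) (nat_lit 5) (nat_lit 35) (nat_lit 4) (nat_lit 33) (nat_lit 4) (nat_lit 436) (nat_lit 304) (nat_lit 280))) (XT.nd (nat_lit 78) (nat_lit 76) (nat_lit 0) (XT.lf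 (nat_lit 0) (nat_lit 4475244433) (nat_lit 76) (nat_lit 11448991546) (nat_lit 76) (nat_lit 4556035342) (nat_lit 32) (nat_lit 4) (nat_lit 33) (nat_lit 5) (nat_lit 33) (nat_lit 4) (nat_lit 437) (nat_lit 304) (nat_lit 279)) (XT.lf (nat_lit 0) (nat_lit 847203487) (nat_lit 152) (nat_lit 5356685661) (nat_lit 76) (nat_lit 14716749538) (nat_lit 31) (nat_lit 5) (nat_lit 33) (nat_lit 5) (nat_lit 32) (nat_lit 4) (nat_lit 438) (nat_lit 304) (nat_lit 278)))))) (XT.nd (nat_lit 546) (nat_lit 380) (nat_lit 0) (XT.nd (nat_lit 234) (nat_lit 228) (nat_lit 0) (XT.nd (nat_lit 78) (nat_lit 76) (nat_lit 0) (XT.lf (nat_lit 0) (nat_lit 5517182455) (nat_lit 76) (nat_lit 774392689) (nat_lit 152) (nat_lit 15082176275) (nat_lit 30) (nat_lit 5) (nat_lit 31) (nat_lit 5) (nat_lit 32) (nat_lit 4) (nat_lit 439) (nat_lit 304) (nat_lit 277)) (XT.nd (nat_lit 78) (nat_lit 76) (nat_lit 0) (XT.lf (nat_lit 0) (nat_lit 11917997528) (nat_lit 152) (nat_lit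 5215295849) (nat_lit 0) (nat_lit 4706608247) (nat_lit 30) (nat_lit 5) (nat_lit 32) (nat_lit 4) (nat_lit 30) (nat_lit 4) (nat_lit 440) (nat_lit 304) (nat_lit 276)) (XT.lf (nat_lit 0) (nat_lit 5696587322) (nat_lit 76) (nat_lit 11999224934) (nat_lit 76) (nat_lit 4624751601) (nat_lit 29) (nat_lit 4) (nat_lit 30) (nat_lit 5) (nat_lit 30) (nat_lit 4) (nat_lit 441) (nat_lit 304) (nat_lit 275)))) (XT.nd (nat_lit 156) (nat_lit 76) (nat_lit 0) (XT.nd (nat_lit 78) (nat_lit 76) (nat_lit 0) (XT.lf (nat_lit 0) (nat_lit 788542707) (nat_lit 152) (nat_lit 5932065668) (nat_lit 76) (nat_lit 16095599568) (nat_lit 28) (nat_lit 5) (nat_lit 30) (nat_lit 5) (nat_lit 29) (nat_lit 4) (nat_lit 442) (nat_lit 304) (nat_lit 274)) (XT.lf (nat_lit 0) (nat_lit 4984285393) (nat_lit 76) (nat_lit 1257495453) (nat_lit 152) (nat_lit 17084456923) (nat_lit 27) (nat_lit 5) (nat_lit 28) (nat_lit 5) (nat_lit 29) (nat_lit 4) (nat_lit 443) (nat_lit 304)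 (nat_lit 273))) (XT.nd (nat_lit 78) (nat_lit 76) (nat_lit 0) (XT.lf (nat_lit 0) (nat_lit 11883877154) (nat_lit 152) (nat_lit 7690609538) (nat_lit 0) (nat_lit 4276328866) (nat_lit 27) (nat_lit 5) (nat_lit 29) (nat_lit 4) (nat_lit 27) (nat_lit 4) (nat_lit 444) (nat_lit 304) (nat_lit 272)) (XT.lf (nat_lit 0) (nat_lit 3186338792) (nat_lit 76) (nat_lit 14476989947) (nat_lit 76) (nat_lit 6728763923) (nat_lit 26) (nat_lit 4) (nat_lit 27) (nat_lit 5) (nat_lit 27) (nat_lit 4) (nat_lit 445) (nat_lit 304) (nat_lit 271))))) (XT.nd (nat_lit 312) (nat_lit 228) (nat_lit 0) (XT.nd (nat_lit 156) (nat_lit 0) (nat_lit 0) (XT.nd (nat_lit 78) (nat_lit 152) (nat_lit 0) (XT.lf (nat_lit 0) (nat_lit 14404992682) (nat_lit 76) (nat_lit 9214660837) (nat_lit 76) (nat_lit 1329854487) (nat_lit 26) (nat_lit 4) (nat_lit 27) (nat_lit 5) (nat_lit 27) (nat_lit 4) (nat_lit 446) (nat_lit 304) (nat_lit 270)) (XT.lf (nat_lit 0) (nat_lit 261429299)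 (nat_lit 76) (nat_lit 3816815975) (nat_lit 152) (nat_lit 21446291188) (nat_lit 24) (nat_lit 5) (nat_lit 25) (nat_lit 5) (nat_lit 26) (nat_lit 4) (nat_lit 447) (nat_lit 304) (nat_lit 269))) (XT.nd (nat_lit 78) (nat_lit 0) (nat_lit 0) (XT.lf (nat_lit 0) (nat_lit 9673572386) (nat_lit 152) (nat_lit 14676611022) (nat_lit 0) (nat_lit 1764690187) (nat_lit 24) (nat_lit 5) (nat_lit 26) (nat_lit 4) (nat_lit 24) (nat_lit 4) (nat_lit 448) (nat_lit 304) (nat_lit 268)) (XT.lf (nat_lit 0) (nat_lit 15404088890) (nat_lit 152) (nat_lit 3945959328) (nat_lit 0) (nat_lit 7373856839) (nat_lit 24) (nat_lit 5) (nat_lit 26) (nat_lit 4) (nat_lit 24) (nat_lit 4) (nat_lit 449) (nat_lit 304) (nat_lit 267)))) (XT.nd (nat_lit 156) (nat_lit 152) (nat_lit 0) (XT.nd (nat_lit 78) (nat_lit 0) (nat_lit 0) (XT.lf (nat_lit 0) (nat_lit 7113728246) (nat_lit 76) (nat_lit 14192765723) (nat_lit 76) (nat_lit 6044718283) (nat_lit 23) (nat_lit 4) (nat_lit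 24) (nat_lit 5) (nat_lit 24) (nat_lit 4) (nat_lit 450) (nat_lit 304) (nat_lit 266)) (XT.lf (nat_lit 0) (nat_lit 18455687773) (nat_lit 76) (nat_lit 8902460380) (nat_lit 76) (nat_lit 640029067) (nat_lit 23) (nat_lit 4) (nat_lit 24) (nat_lit 5) (nat_lit 24) (nat_lit 4) (nat_lit 451) (nat_lit 304) (nat_lit 265))) (XT.nd (nat_lit 78) (nat_lit 0) (nat_lit 0) (XT.lf (nat_lit 0) (nat_lit 1323896612) (nat_lit 76) (nat_lit 3453137983) (nat_lit 152) (nat_lit 23887708202) (nat_lit 21) (nat_lit 5) (nat_lit 22) (nat_lit 5) (nat_lit 23) (nat_lit 4) (nat_lit 452) (nat_lit 304) (nat_lit 264)) (XT.lf (nat_lit 0) (nat_lit 10395596150) (nat_lit 152) (nat_lit 16792644164) (nat_lit 0) (nat_lit 2161322959) (nat_lit 21) (nat_lit 5) (nat_lit 23) (nat_lit 4) (nat_lit 21) (nat_lit 4) (nat_lit 453) (nat_lit 304) (nat_lit 263))))))))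
noncomputable def xc29 : XT := (XT.nd (nat_lit 2184) (nat_lit 152) (nat_lit 0) (XT.nd (nat_lit 1092) (nat_lit 380) (nat_lit 0) (XT.nd (nat_lit 546) (nat_lit 228) (nat_lit 0) (XT.nd (nat_lit 234) (nat_lit 152) (nat_lit 0) (XT.nd (nat_lit 78) (nat_lit 76) (nat_lit 0) (XT.lf (nat_lit 0) (nat_lit 16152608333) (nat_lit 152) (nat_lit 6086520101) (nat_lit 0) (nat_lit 7816706551) (nat_lit 21) (nat_lit 5) (nat_lit 23) (nat_lit 4) (nat_lit 21) (nat_lit 4) (nat_lit 454) (nat_lit 304) (nat_lit 262)) (XT.nd (nat_lit 78) (nat_lit 0) (nat_lit 0) (XT.lf (nat_lit 0) (nat_lit 4916003477) (nat_lit 76) (nat_lit 17151160022) (nat_lit 76) (nat_lit 8716589707) (nat_lit 20) (nat_lit 4) (nat_lit 21) (nat_lit 5) (nat_lit 21) (nat_lit 4) (nat_lit 455) (nat_lit 304) (nat_lit 261)) (XT.lf (nat_lit 0) (nat_lit 16253840780) (nat_lit 76) (nat_lit 11905022598) (nat_lit 76) (nat_lit 3374657589) (nat_lit 20) (nat_lit 4) (nat_lit 21) (nat_lit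 5) (nat_lit 21) (nat_lit 4) (nat_lit 456) (nat_lit 304) (nat_lit 260)))) (XT.nd (nat_lit 156) (nat_lit 0) (nat_lit 0) (XT.nd (nat_lit 78) (nat_lit 76) (nat_lit 0) (XT.lf (nat_lit 0) (nat_lit 2025464766) (nat_lit 152) (nat_lit 4511676088) (nat_lit 76) (nat_lit 25769846983) (nat_lit 19) (nat_lit 5) (nat_lit 21) (nat_lit 5) (nat_lit 20) (nat_lit 4) (nat_lit 457) (nat_lit 304) (nat_lit 259)) (XT.lf (nat_lit 0) (nat_lit 6560126223) (nat_lit 76) (nat_lit 963908985) (nat_lit 152) (nat_lit 25578495944) (nat_lit 18) (nat_lit 5) (nat_lit 19) (nat_lit 5) (nat_lit 20) (nat_lit 4) (nat_lit 458) (nat_lit 304) (nat_lit 258))) (XT.nd (nat_lit 78) (nat_lit 0) (nat_lit 0) (XT.lf (nat_lit 0) (nat_lit 13220803682) (nat_lit 152) (nat_lit 16024320570) (nat_lit 0) (nat_lit 4675822163) (nat_lit 18) (nat_lit 5) (nat_lit 20) (nat_lit 4) (nat_lit 18) (nat_lit 4) (nat_lit 459) (nat_lit 304) (nat_lit 257)) (XT.lf (nat_lit 0) (nat_lit 19041044034)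 (nat_lit 152) (nat_lit 5310866660) (nat_lit 0) (nat_lit 10413429171) (nat_lit 18) (nat_lit 5) (nat_lit 20) (nat_lit 4) (nat_lit 18) (nat_lit 4) (nat_lit 460) (nat_lit 304) (nat_lit 256))))) (XT.nd (nat_lit 234) (nat_lit 76) (nat_lit 0) (XT.nd (nat_lit 78) (nat_lit 76) (nat_lit 0) (XT.lf (nat_lit 0) (nat_lit 5728364783) (nat_lit 76) (nat_lit 19307275990) (nat_lit 76) (nat_lit 10599434581) (nat_lit 17) (nat_lit 4) (nat_lit 18) (nat_lit 5) (nat_lit 18) (nat_lit 4) (nat_lit 461) (nat_lit 304) (nat_lit 255)) (XT.nd (nat_lit 78) (nat_lit 76) (nat_lit 0) (XT.lf (nat_lit 0) (nat_lit 17101286627) (nat_lit 76) (nat_lit 14107691546) (nat_lit 76) (nat_lit 5321960284) (nat_lit 17) (nat_lit 4) (nat_lit 18) (nat_lit 5) (nat_lit 18) (nat_lit 4) (nat_lit 462) (nat_lit 304) (nat_lit 254)) (XT.lf (nat_lit 0) (nat_lit 57955670) (nat_lit 152) (nat_lit 8743702465) (nat_lit 76) (nat_lit 28653598807) (nat_lit 16) (nat_lit 5) (nat_lit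 18) (nat_lit 5) (nat_lit 17) (nat_lit 4) (nat_lit 463) (nat_lit 304) (nat_lit 253)))) (XT.nd (nat_lit 156) (nat_lit 0) (nat_lit 0) (XT.nd (nat_lit 78) (nat_lit 0) (nat_lit 0) (XT.lf (nat_lit 0) (nat_lit 2150814638) (nat_lit 76) (nat_lit 3310065051) (nat_lit 152) (nat_lit 32945789620) (nat_lit 15) (nat_lit 5) (nat_lit 16) (nat_lit 5) (nat_lit 17) (nat_lit 4) (nat_lit 464) (nat_lit 304) (nat_lit 252)) (XT.lf (nat_lit 0) (nat_lit 11085600198) (nat_lit 152) (nat_lit 25957373931) (nat_lit 0) (nat_lit 2341860994) (nat_lit 15) (nat_lit 5) (nat_lit 17) (nat_lit 4) (nat_lit 15) (nat_lit 4) (nat_lit 465) (nat_lit 304) (nat_lit 251))) (XT.nd (nat_lit 78) (nat_lit 0) (nat_lit 0) (XT.lf (nat_lit 0) (nat_lit 16861336679) (nat_lit 152) (nat_lit 15481134267) (nat_lit 0) (nat_lit 8050409005) (nat_lit 15) (nat_lit 5) (nat_lit 17) (nat_lit 4) (nat_lit 15) (nat_lit 4) (nat_lit 466) (nat_lit 304) (nat_lit 250)) (XT.lf (nat_lit 0)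 (nat_lit 22761317523) (nat_lit 152) (nat_lit 4786163313) (nat_lit 0) (nat_lit 13885158324) (nat_lit 15) (nat_lit 5) (nat_lit 17) (nat_lit 4) (nat_lit 15) (nat_lit 4) (nat_lit 467) (nat_lit 304) (nat_lit 249)))))) (XT.nd (nat_lit 546) (nat_lit 152) (nat_lit 0) (XT.nd (nat_lit 234) (nat_lit 152) (nat_lit 0) (XT.nd (nat_lit 78) (nat_lit 0) (nat_lit 0) (XT.lf (nat_lit 0) (nat_lit 6259020074) (nat_lit 76) (nat_lit 22591843507) (nat_lit 76) (nat_lit 13652352731) (nat_lit 14) (nat_lit 4) (nat_lit 15) (nat_lit 5) (nat_lit 15) (nat_lit 4) (nat_lit 468) (nat_lit 304) (nat_lit 248)) (XT.nd (nat_lit 78) (nat_lit 0) (nat_lit 0) (XT.lf (nat_lit 0) (nat_lit 17641807438) (nat_lit 76) (nat_lit 17482523065) (nat_lit 76) (nat_lit 8481545321) (nat_lit 14) (nat_lit 4) (nat_lit 15) (nat_lit 5) (nat_lit 15) (nat_lit 4) (nat_lit 469) (nat_lit 304) (nat_lit 247)) (XT.lf (nat_lit 0) (nat_lit 29276890866) (nat_lit 76) (nat_lit 12263385921)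 (nat_lit 76) (nat_lit 3202712091) (nat_lit 14) (nat_lit 4) (nat_lit 15) (nat_lit 5) (nat_lit 15) (nat_lit 4) (nat_lit 470) (nat_lit 304) (nat_lit 246)))) (XT.nd (nat_lit 156) (nat_lit 0) (nat_lit 0) (XT.nd (nat_lit 78) (nat_lit 76) (nat_lit 0) (XT.lf (nat_lit 0) (nat_lit 2146048949) (nat_lit 152) (nat_lit 4762151826) (nat_lit 76) (nat_lit 39006717101) (nat_lit 13) (nat_lit 5) (nat_lit 15) (nat_lit 5) (nat_lit 14) (nat_lit 4) (nat_lit 471) (nat_lit 304) (nat_lit 245)) (XT.lf (nat_lit 0) (nat_lit 6268589510) (nat_lit 76) (nat_lit 1339041026) (nat_lit 152) (nat_lit 39512922883) (nat_lit 12) (nat_lit 5) (nat_lit 13) (nat_lit 5) (nat_lit 14) (nat_lit 4) (nat_lit 472) (nat_lit 304) (nat_lit 244))) (XT.nd (nat_lit 78) (nat_lit 0) (nat_lit 0) (XT.lf (nat_lit 0) (nat_lit 13280429067) (nat_lit 152) (nat_lit 30760790170) (nat_lit 0) (nat_lit 4319719499) (nat_lit 12) (nat_lit 5) (nat_lit 14) (nat_lit 4) (nat_lit 12) (nat_lit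 4) (nat_lit 473) (nat_lit 304) (nat_lit 243)) (XT.lf (nat_lit 0) (nat_lit 19094471776) (nat_lit 152) (nat_lit 20462665932) (nat_lit 0) (nat_lit 10082267839) (nat_lit 12) (nat_lit 5) (nat_lit 14) (nat_lit 4) (nat_lit 12) (nat_lit 4) (nat_lit 474) (nat_lit 304) (nat_lit 242))))) (XT.nd (nat_lit 234) (nat_lit 76) (nat_lit 0) (XT.nd (nat_lit 78) (nat_lit 76) (nat_lit 0) (XT.lf (nat_lit 0) (nat_lit 25041967212) (nat_lit 152) (nat_lit 9935721152) (nat_lit 0) (nat_lit 15979768744) (nat_lit 12) (nat_lit 5) (nat_lit 14) (nat_lit 4) (nat_lit 12) (nat_lit 4) (nat_lit 475) (nat_lit 304) (nat_lit 241)) (XT.nd (nat_lit 78) (nat_lit 0) (nat_lit 0) (XT.lf (nat_lit 0) (nat_lit 845746021) (nat_lit 76) (nat_lit 30290496024) (nat_lit 76) (nat_lit 21179759175) (nat_lit 11) (nat_lit 4) (nat_lit 12) (nat_lit 5) (nat_lit 12) (nat_lit 4) (nat_lit 476) (nat_lit 304) (nat_lit 240)) (XT.lf (nat_lit 0) (nat_lit 12077302895) (nat_lit 76)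 (nat_lit 25397016311) (nat_lit 76) (nat_lit 16239154821) (nat_lit 11) (nat_lit 4) (nat_lit 12) (nat_lit 5) (nat_lit 12) (nat_lit 4) (nat_lit 477) (nat_lit 304) (nat_lit 239)))) (XT.nd (nat_lit 156) (nat_lit 76) (nat_lit 0) (XT.nd (nat_lit 78) (nat_lit 0) (nat_lit 0) (XT.lf (nat_lit 0) (nat_lit 23571023117) (nat_lit 76) (nat_lit 20393304671) (nat_lit 76) (nat_lit 11189691102) (nat_lit 11) (nat_lit 4) (nat_lit 12) (nat_lit 5) (nat_lit 12) (nat_lit 4) (nat_lit 478) (nat_lit 304) (nat_lit 238)) (XT.lf (nat_lit 0) (nat_lit 35336949744) (nat_lit 76) (nat_lit 15274988929) (nat_lit 76) (nat_lit 6026955866) (nat_lit 11) (nat_lit 4) (nat_lit 12) (nat_lit 5) (nat_lit 12) (nat_lit 4) (nat_lit 479) (nat_lit 304) (nat_lit 237))) (XT.nd (nat_lit 78) (nat_lit 76) (nat_lit 0) (XT.lf (nat_lit 0) (nat_lit 47385363683) (nat_lit 76) (nat_lit 10037596770) (nat_lit 76) (nat_lit 746437985) (nat_lit 11) (nat_lit 4) (nat_lit 12) (nat_lit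 5) (nat_lit 12) (nat_lit 4) (nat_lit 480) (nat_lit 304) (nat_lit 236)) (XT.lf (nat_lit 0) (nat_lit 4565611955) (nat_lit 152) (nat_lit 64836149) (nat_lit 76) (nat_lit 55115076990) (nat_lit 10) (nat_lit 5) (nat_lit 12) (nat_lit 5) (nat_lit 11) (nat_lit 4) (nat_lit 481) (nat_lit 304) (nat_lit 235))))))) (XT.nd (nat_lit 47736) (nat_lit 0) (nat_lit 2660) (XT.nd (nat_lit 546) (nat_lit 0) (nat_lit 0) (XT.nd (nat_lit 234) (nat_lit 76) (nat_lit 0) (XT.nd (nat_lit 78) (nat_lit 0) (nat_lit 0) (XT.lf (nat_lit 0) (nat_lit 10104451131) (nat_lit 152) (nat_lit 50257998780) (nat_lit 0) (nat_lit 1003792346) (nat_lit 9) (nat_lit 5) (nat_lit 11) (nat_lit 4) (nat_lit 9) (nat_lit 4) (nat_lit 482) (nat_lit 304) (nat_lit 234)) (XT.nd (nat_lit 78) (nat_lit 0) (nat_lit 0) (XT.lf (nat_lit 0) (nat_lit 15821722236) (nat_lit 152) (nat_lit 40530745185) (nat_lit 0) (nat_lit 6682746806) (nat_lit 9) (nat_lit 5) (nat_lit 11) (nat_lit 4) (nat_lit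 9) (nat_lit 4) (nat_lit 483) (nat_lit 304) (nat_lit 233)) (XT.lf (nat_lit 0) (nat_lit 21677268302) (nat_lit 152) (nat_lit 30576893362) (nat_lit 0) (nat_lit 12501092245) (nat_lit 9) (nat_lit 5) (nat_lit 11) (nat_lit 4) (nat_lit 9) (nat_lit 4) (nat_lit 484) (nat_lit 304) (nat_lit 232)))) (XT.nd (nat_lit 156) (nat_lit 76) (nat_lit 0) (XT.nd (nat_lit 78) (nat_lit 0) (nat_lit 0) (XT.lf (nat_lit 0) (nat_lit 27676205826) (nat_lit 152) (nat_lit 20387745769) (nat_lit 0) (nat_lit 18463912655) (nat_lit 9) (nat_lit 5) (nat_lit 11) (nat_lit 4) (nat_lit 9) (nat_lit 4) (nat_lit 485) (nat_lit 304) (nat_lit 231)) (XT.lf (nat_lit 0) (nat_lit 33823776597) (nat_lit 152) (nat_lit 9954399268) (nat_lit 0) (nat_lit 24576418267) (nat_lit 9) (nat_lit 5) (nat_lit 11) (nat_lit 4) (nat_lit 9) (nat_lit 4) (nat_lit 486) (nat_lit 304) (nat_lit 230))) (XT.nd (nat_lit 78) (nat_lit 0) (nat_lit 0) (XT.lf (nat_lit 0) (nat_lit 746836119) (nat_lit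 76) (nat_lit 39385695205) (nat_lit 76) (nat_lit 30104293032) (nat_lit 8) (nat_lit 4) (nat_lit 9) (nat_lit 5) (nat_lit 9) (nat_lit 4) (nat_lit 487) (nat_lit 304) (nat_lit 229)) (XT.lf (nat_lit 0) (nat_lit 11914064171) (nat_lit 76) (nat_lit 34786900206) (nat_lit 76) (nat_lit 25472445758) (nat_lit 8) (nat_lit 4) (nat_lit 9) (nat_lit 5) (nat_lit 9) (nat_lit 4) (nat_lit 488) (nat_lit 304) (nat_lit 228))))) (XT.nd (nat_lit 234) (nat_lit 0) (nat_lit 0) (XT.nd (nat_lit 78) (nat_lit 0) (nat_lit 0) (XT.lf (nat_lit 0) (nat_lit 23358930594) (nat_lit 76) (nat_lit 30078292417) (nat_lit 76) (nat_lit 20731748381) (nat_lit 8) (nat_lit 4) (nat_lit 9) (nat_lit 5) (nat_lit 9) (nat_lit 4) (nat_lit 489) (nat_lit 304) (nat_lit 227)) (XT.nd (nat_lit 78) (nat_lit 0) (nat_lit 0) (XT.lf (nat_lit 0) (nat_lit 35091435758) (nat_lit 76) (nat_lit 25255757521) (nat_lit 76) (nat_lit 15878058546) (nat_lit 8) (nat_lit 4) (nat_lit 9) (nat_lit 5)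 (nat_lit 9) (nat_lit 4) (nat_lit 490) (nat_lit 304) (nat_lit 226)) (XT.lf (nat_lit 0) (nat_lit 47121831366) (nat_lit 76) (nat_lit 20315081652) (nat_lit 76) (nat_lit 10907135163) (nat_lit 8) (nat_lit 4) (nat_lit 9) (nat_lit 5) (nat_lit 9) (nat_lit 4) (nat_lit 491) (nat_lit 304) (nat_lit 225)))) (XT.nd (nat_lit 46800) (nat_lit 0) (nat_lit 4484) (XT.nd (nat_lit 46722) (nat_lit 0) (nat_lit 4712) (XT.lf (nat_lit 0) (nat_lit 59460629415) (nat_lit 76) (nat_lit 15251947716) (nat_lit 76) (nat_lit 5814634708) (nat_lit 8) (nat_lit 4) (nat_lit 9) (nat_lit 5) (nat_lit 9) (nat_lit 4) (nat_lit 492) (nat_lit 304) (nat_lit 224)) (XT.lf (nat_lit 0) (nat_lit 1351405593) (nat_lit 152) (nat_lit 2423525680) (nat_lit 152) (nat_lit 2423525680) (nat_lit 70) (nat_lit 4) (nat_lit 72) (nat_lit 5) (nat_lit 72) (nat_lit 4) (nat_lit 410) (nat_lit 305) (nat_lit 305))) (XT.nd (nat_lit 78) (nat_lit 0) (nat_lit 0) (XT.lf (nat_lit 0) (nat_lit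 29975811) (nat_lit 152) (nat_lit 239219954) (nat_lit 228) (nat_lit 12329791810) (nat_lit 67) (nat_lit 5) (nat_lit 69) (nat_lit 5) (nat_lit 70) (nat_lit 4) (nat_lit 411) (nat_lit 305) (nat_lit 304)) (XT.lf (nat_lit 0) (nat_lit 5471134808) (nat_lit 228) (nat_lit 2850832826) (nat_lit 0) (nat_lit 4482843795) (nat_lit 67) (nat_lit 5) (nat_lit 70) (nat_lit 4) (nat_lit 67) (nat_lit 4) (nat_lit 412) (nat_lit 305) (nat_lit 303)))))) (XT.nd (nat_lit 546) (nat_lit 836) (nat_lit 0) (XT.nd (nat_lit 234) (nat_lit 456) (nat_lit 0) (XT.nd (nat_lit 78) (nat_lit 380) (nat_lit 0) (XT.lf (nat_lit 0) (nat_lit 7102041392) (nat_lit 152) (nat_lit 3688448911) (nat_lit 152) (nat_lit 2227494923) (nat_lit 65) (nat_lit 4) (nat_lit 67) (nat_lit 5) (nat_lit 67) (nat_lit 4) (nat_lit 413) (nat_lit 305) (nat_lit 302)) (XT.nd (nat_lit 78) (nat_lit 152) (nat_lit 0) (XT.lf (nat_lit 0) (nat_lit 2942084006) (nat_lit 228) (nat_lit 9217377835) (nat_lit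 0) (nat_lit 1078151890) (nat_lit 62) (nat_lit 5) (nat_lit 65) (nat_lit 4) (nat_lit 62) (nat_lit 4) (nat_lit 414) (nat_lit 305) (nat_lit 301)) (XT.lf (nat_lit 0) (nat_lit 673812519) (nat_lit 152) (nat_lit 7543006047) (nat_lit 152) (nat_lit 5246520352) (nat_lit 60) (nat_lit 4) (nat_lit 62) (nat_lit 5) (nat_lit 62) (nat_lit 4) (nat_lit 415) (nat_lit 305) (nat_lit 300)))) (XT.nd (nat_lit 156) (nat_lit 228) (nat_lit 0) (XT.nd (nat_lit 78) (nat_lit 228) (nat_lit 0) (XT.lf (nat_lit 0) (nat_lit 10858682845) (nat_lit 152) (nat_lit 2777015373) (nat_lit 152) (nat_lit 60574746) (nat_lit 60) (nat_lit 4) (nat_lit 62) (nat_lit 5) (nat_lit 62) (nat_lit 4) (nat_lit 416) (nat_lit 305) (nat_lit 299)) (XT.lf (nat_lit 0) (nat_lit 5164022724) (nat_lit 228) (nat_lit 6640225130) (nat_lit 0) (nat_lit 2130853928) (nat_lit 57) (nat_lit 5) (nat_lit 60) (nat_lit 4) (nat_lit 57) (nat_lit 4) (nat_lit 417) (nat_lit 305) (nat_lit 298))) (XT.nd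 (nat_lit 78) (nat_lit 76) (nat_lit 0) (XT.lf (nat_lit 0) (nat_lit 3459376600) (nat_lit 152) (nat_lit 7069824548) (nat_lit 152) (nat_lit 3652337499) (nat_lit 55) (nat_lit 4) (nat_lit 57) (nat_lit 5) (nat_lit 57) (nat_lit 4) (nat_lit 418) (nat_lit 305) (nat_lit 297)) (XT.lf (nat_lit 0) (nat_lit 1551658443) (nat_lit 228) (nat_lit 640744925) (nat_lit 76) (nat_lit 12243611226) (nat_lit 54) (nat_lit 5) (nat_lit 57) (nat_lit 5) (nat_lit 55) (nat_lit 4) (nat_lit 419) (nat_lit 305) (nat_lit 296))))) (XT.nd (nat_lit 312) (nat_lit 456) (nat_lit 0) (XT.nd (nat_lit 156) (nat_lit 152) (nat_lit 0) (XT.nd (nat_lit 78) (nat_lit 152) (nat_lit 0) (XT.lf (nat_lit 0) (nat_lit 6858065822) (nat_lit 152) (nat_lit 5012240257) (nat_lit 0) (nat_lit 2826154775) (nat_lit 53) (nat_lit 5) (nat_lit 55) (nat_lit 4) (nat_lit 53) (nat_lit 4) (nat_lit 420) (nat_lit 305) (nat_lit 295)) (XT.lf (nat_lit 0) (nat_lit 5264344477) (nat_lit 152) (nat_lit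 7037211838) (nat_lit 152) (nat_lit 2663839002) (nat_lit 51) (nat_lit 4) (nat_lit 53) (nat_lit 5) (nat_lit 53) (nat_lit 4) (nat_lit 421) (nat_lit 305) (nat_lit 294))) (XT.nd (nat_lit 78) (nat_lit 0) (nat_lit 0) (XT.lf (nat_lit 0) (nat_lit 510563359) (nat_lit 76) (nat_lit 2058625062) (nat_lit 152) (nat_lit 12673793757) (nat_lit 49) (nat_lit 5) (nat_lit 50) (nat_lit 5) (nat_lit 51) (nat_lit 4) (nat_lit 422) (nat_lit 305) (nat_lit 293)) (XT.lf (nat_lit 0) (nat_lit 7933718615) (nat_lit 152) (nat_lit 4540176600) (nat_lit 0) (nat_lit 3053379176) (nat_lit 49) (nat_lit 5) (nat_lit 51) (nat_lit 4) (nat_lit 49) (nat_lit 4) (nat_lit 423) (nat_lit 305) (nat_lit 292)))) (XT.nd (nat_lit 156) (nat_lit 152) (nat_lit 0) (XT.nd (nat_lit 78) (nat_lit 152) (nat_lit 0) (XT.lf (nat_lit 0) (nat_lit 5872670633) (nat_lit 152) (nat_lit 7565888784) (nat_lit 152) (nat_lit 2382164967) (nat_lit 47) (nat_lit 4) (nat_lit 49) (nat_lit 5) (nat_lit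 49) (nat_lit 4) (nat_lit 424) (nat_lit 305) (nat_lit 291)) (XT.lf (nat_lit 0) (nat_lit 367830501) (nat_lit 76) (nat_lit 2512022827) (nat_lit 152) (nat_lit 13243696893) (nat_lit 45) (nat_lit 5) (nat_lit 46) (nat_lit 5) (nat_lit 47) (nat_lit 4) (nat_lit 425) (nat_lit 305) (nat_lit 290))) (XT.nd (nat_lit 78) (nat_lit 152) (nat_lit 0) (XT.lf (nat_lit 0) (nat_lit 8282242799) (nat_lit 152) (nat_lit 5465715477) (nat_lit 0) (nat_lit 2685892673) (nat_lit 45) (nat_lit 5) (nat_lit 47) (nat_lit 4) (nat_lit 45) (nat_lit 4) (nat_lit 426) (nat_lit 305) (nat_lit 289)) (XT.lf (nat_lit 0) (nat_lit 5031629418) (nat_lit 152) (nat_lit 8794185144) (nat_lit 152) (nat_lit 2928281930) (nat_lit 43) (nat_lit 4) (nat_lit 45) (nat_lit 5) (nat_lit 45) (nat_lit 4) (nat_lit 427) (nat_lit 305) (nat_lit 288))))))))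
noncomputable def xc30 : XT := (XT.nd (nat_lit 2184) (nat_lit 912) (nat_lit 0) (XT.nd (nat_lit 1092) (nat_lit 608) (nat_lit 0) (XT.nd (nat_lit 546) (nat_lit 456) (nat_lit 0) (XT.nd (nat_lit 234) (nat_lit 304) (nat_lit 0) (XT.nd (nat_lit 78) (nat_lit 228) (nat_lit 0) (XT.lf (nat_lit 0) (nat_lit 2365662229) (nat_lit 228) (nat_lit 1325310917) (nat_lit 76) (nat_lit 13393424997) (nat_lit 42) (nat_lit 5) (nat_lit 45) (nat_lit 5) (nat_lit 43) (nat_lit 4) (nat_lit 428) (nat_lit 305) (nat_lit 287)) (XT.nd (nat_lit 78) (nat_lit 152) (nat_lit 0) (XT.lf (nat_lit 0) (nat_lit 7773847598) (nat_lit 152) (nat_lit 8071434411) (nat_lit 0) (nat_lit 1578037032) (nat_lit 41) (nat_lit 5) (nat_lit 43) (nat_lit 4) (nat_lit 41) (nat_lit 4) (nat_lit 429) (nat_lit 305) (nat_lit 286)) (XT.lf (nat_lit 0) (nat_lit 2445553842) (nat_lit 152) (nat_lit 10881344116) (nat_lit 152) (nat_lit 4446039120) (nat_lit 39) (nat_lit 4) (nat_lit 41) (nat_lit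 5) (nat_lit 41) (nat_lit 4) (nat_lit 430) (nat_lit 305) (nat_lit 285)))) (XT.nd (nat_lit 156) (nat_lit 152) (nat_lit 0) (XT.nd (nat_lit 78) (nat_lit 76) (nat_lit 0) (XT.lf (nat_lit 0) (nat_lit 887167072) (nat_lit 228) (nat_lit 4866874700) (nat_lit 76) (nat_lit 12379001184) (nat_lit 38) (nat_lit 5) (nat_lit 41) (nat_lit 5) (nat_lit 39) (nat_lit 4) (nat_lit 431) (nat_lit 305) (nat_lit 284)) (XT.lf (nat_lit 0) (nat_lit 5811594847) (nat_lit 76) (nat_lit 447107209) (nat_lit 152) (nat_lit 12244905952) (nat_lit 37) (nat_lit 5) (nat_lit 38) (nat_lit 5) (nat_lit 39) (nat_lit 4) (nat_lit 432) (nat_lit 305) (nat_lit 283))) (XT.nd (nat_lit 78) (nat_lit 152) (nat_lit 0) (XT.lf (nat_lit 0) (nat_lit 11801351055) (nat_lit 152) (nat_lit 2187870477) (nat_lit 0) (nat_lit 4895776631) (nat_lit 37) (nat_lit 5) (nat_lit 39) (nat_lit 4) (nat_lit 37) (nat_lit 4) (nat_lit 433) (nat_lit 305) (nat_lit 282)) (XT.lf (nat_lit 0) (nat_lit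 8634779057) (nat_lit 152) (nat_lit 8877579992) (nat_lit 152) (nat_lit 1765415570) (nat_lit 35) (nat_lit 4) (nat_lit 37) (nat_lit 5) (nat_lit 37) (nat_lit 4) (nat_lit 434) (nat_lit 305) (nat_lit 281))))) (XT.nd (nat_lit 234) (nat_lit 228) (nat_lit 0) (XT.nd (nat_lit 78) (nat_lit 152) (nat_lit 0) (XT.lf (nat_lit 0) (nat_lit 3576997458) (nat_lit 228) (nat_lit 51432394) (nat_lit 76) (nat_lit 16054728250) (nat_lit 34) (nat_lit 5) (nat_lit 37) (nat_lit 5) (nat_lit 35) (nat_lit 4) (nat_lit 435) (nat_lit 305) (nat_lit 280)) (XT.nd (nat_lit 78) (nat_lit 76) (nat_lit 0) (XT.lf (nat_lit 0) (nat_lit 9083792192) (nat_lit 152) (nat_lit 9220216946) (nat_lit 0) (nat_lit 1794988189) (nat_lit 33) (nat_lit 5) (nat_lit 35) (nat_lit 4) (nat_lit 33) (nat_lit 4) (nat_lit 436) (nat_lit 305) (nat_lit 279)) (XT.lf (nat_lit 0) (nat_lit 1446594965) (nat_lit 76) (nat_lit 13277022356) (nat_lit 76) (nat_lit 5804665814) (nat_lit 32) (nat_lit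 4) (nat_lit 33) (nat_lit 5) (nat_lit 33) (nat_lit 4) (nat_lit 437) (nat_lit 305) (nat_lit 278)))) (XT.nd (nat_lit 156) (nat_lit 76) (nat_lit 0) (XT.nd (nat_lit 78) (nat_lit 152) (nat_lit 0) (XT.lf (nat_lit 0) (nat_lit 12467588760) (nat_lit 76) (nat_lit 8076541439) (nat_lit 76) (nat_lit 425978551) (nat_lit 32) (nat_lit 4) (nat_lit 33) (nat_lit 5) (nat_lit 33) (nat_lit 4) (nat_lit 438) (nat_lit 305) (nat_lit 277)) (XT.lf (nat_lit 0) (nat_lit 2236590927) (nat_lit 76) (nat_lit 2719157687) (nat_lit 152) (nat_lit 16469727216) (nat_lit 30) (nat_lit 5) (nat_lit 31) (nat_lit 5) (nat_lit 32) (nat_lit 4) (nat_lit 439) (nat_lit 305) (nat_lit 276))) (XT.nd (nat_lit 78) (nat_lit 76) (nat_lit 0) (XT.lf (nat_lit 0) (nat_lit 10524153247) (nat_lit 152) (nat_lit 8603854373) (nat_lit 0) (nat_lit 2765361661) (nat_lit 30) (nat_lit 5) (nat_lit 32) (nat_lit 4) (nat_lit 30) (nat_lit 4) (nat_lit 440) (nat_lit 305) (nat_lit 275)) (XT.lf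 (nat_lit 0) (nat_lit 2166387657) (nat_lit 76) (nat_lit 14063467744) (nat_lit 76) (nat_lit 6146342127) (nat_lit 29) (nat_lit 4) (nat_lit 30) (nat_lit 5) (nat_lit 30) (nat_lit 4) (nat_lit 441) (nat_lit 305) (nat_lit 274)))))) (XT.nd (nat_lit 546) (nat_lit 228) (nat_lit 0) (XT.nd (nat_lit 234) (nat_lit 228) (nat_lit 0) (XT.nd (nat_lit 78) (nat_lit 152) (nat_lit 0) (XT.lf (nat_lit 0) (nat_lit 13289864392) (nat_lit 76) (nat_lit 8827096222) (nat_lit 76) (nat_lit 756248244) (nat_lit 29) (nat_lit 4) (nat_lit 30) (nat_lit 5) (nat_lit 30) (nat_lit 4) (nat_lit 442) (nat_lit 305) (nat_lit 273)) (XT.nd (nat_lit 78) (nat_lit 0) (nat_lit 0) (XT.lf (nat_lit 0) (nat_lit 1195664536) (nat_lit 76) (nat_lit 3442639663) (nat_lit 152) (nat_lit 18747358268) (nat_lit 27) (nat_lit 5) (nat_lit 28) (nat_lit 5) (nat_lit 29) (nat_lit 4) (nat_lit 443) (nat_lit 305) (nat_lit 272)) (XT.lf (nat_lit 0) (nat_lit 10222456105) (nat_lit 152) (nat_lit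 11588419258) (nat_lit 0) (nat_lit 2101105565) (nat_lit 27) (nat_lit 5) (nat_lit 29) (nat_lit 4) (nat_lit 27) (nat_lit 4) (nat_lit 444) (nat_lit 305) (nat_lit 271)))) (XT.nd (nat_lit 156) (nat_lit 152) (nat_lit 0) (XT.nd (nat_lit 78) (nat_lit 76) (nat_lit 0) (XT.lf (nat_lit 0) (nat_lit 15935415103) (nat_lit 152) (nat_lit 842355746) (nat_lit 0) (nat_lit 7677484236) (nat_lit 27) (nat_lit 5) (nat_lit 29) (nat_lit 4) (nat_lit 27) (nat_lit 4) (nat_lit 445) (nat_lit 305) (nat_lit 270)) (XT.lf (nat_lit 0) (nat_lit 10291499346) (nat_lit 76) (nat_lit 11556509179) (nat_lit 76) (nat_lit 3165976053) (nat_lit 26) (nat_lit 4) (nat_lit 27) (nat_lit 5) (nat_lit 27) (nat_lit 4) (nat_lit 446) (nat_lit 305) (nat_lit 269))) (XT.nd (nat_lit 78) (nat_lit 76) (nat_lit 0) (XT.lf (nat_lit 0) (nat_lit 2240657170) (nat_lit 152) (nat_lit 3970739125) (nat_lit 76) (nat_lit 19379267193) (nat_lit 25) (nat_lit 5) (nat_lit 27) (nat_lit 5) (nat_lit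 26) (nat_lit 4) (nat_lit 447) (nat_lit 305) (nat_lit 268)) (XT.lf (nat_lit 0) (nat_lit 7078795935) (nat_lit 76) (nat_lit 666553554) (nat_lit 152) (nat_lit 18438372198) (nat_lit 24) (nat_lit 5) (nat_lit 25) (nat_lit 5) (nat_lit 26) (nat_lit 4) (nat_lit 448) (nat_lit 305) (nat_lit 267))))) (XT.nd (nat_lit 234) (nat_lit 152) (nat_lit 0) (XT.nd (nat_lit 78) (nat_lit 76) (nat_lit 0) (XT.lf (nat_lit 0) (nat_lit 13435759940) (nat_lit 152) (nat_lit 8432742664) (nat_lit 0) (nat_lit 4925455688) (nat_lit 24) (nat_lit 5) (nat_lit 26) (nat_lit 4) (nat_lit 24) (nat_lit 4) (nat_lit 449) (nat_lit 305) (nat_lit 266)) (XT.nd (nat_lit 78) (nat_lit 0) (nat_lit 0) (XT.lf (nat_lit 0) (nat_lit 2473409236) (nat_lit 76) (nat_lit 16787432982) (nat_lit 76) (nat_lit 8162744856) (nat_lit 23) (nat_lit 4) (nat_lit 24) (nat_lit 5) (nat_lit 24) (nat_lit 4) (nat_lit 450) (nat_lit 305) (nat_lit 265)) (XT.lf (nat_lit 0) (nat_lit 13752999941) (nat_lit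 76) (nat_lit 11527132647) (nat_lit 76) (nat_lit 2791392218) (nat_lit 23) (nat_lit 4) (nat_lit 24) (nat_lit 5) (nat_lit 24) (nat_lit 4) (nat_lit 451) (nat_lit 305) (nat_lit 264)))) (XT.nd (nat_lit 156) (nat_lit 0) (nat_lit 0) (XT.nd (nat_lit 78) (nat_lit 76) (nat_lit 0) (XT.lf (nat_lit 0) (nat_lit 2623192144) (nat_lit 152) (nat_lit 3518478146) (nat_lit 76) (nat_lit 22598376046) (nat_lit 22) (nat_lit 5) (nat_lit 24) (nat_lit 5) (nat_lit 23) (nat_lit 4) (nat_lit 452) (nat_lit 305) (nat_lit 263)) (XT.lf (nat_lit 0) (nat_lit 7605759151) (nat_lit 76) (nat_lit 548918089) (nat_lit 152) (nat_lit 21272803559) (nat_lit 21) (nat_lit 5) (nat_lit 22) (nat_lit 5) (nat_lit 23) (nat_lit 4) (nat_lit 453) (nat_lit 305) (nat_lit 262))) (XT.nd (nat_lit 78) (nat_lit 0) (nat_lit 0) (XT.lf (nat_lit 0) (nat_lit 13875662633) (nat_lit 152) (nat_lit 11169785650) (nat_lit 0) (nat_lit 5089386674) (nat_lit 21) (nat_lit 5) (nat_lit 23) (nat_lit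 4) (nat_lit 21) (nat_lit 4) (nat_lit 454) (nat_lit 305) (nat_lit 261)) (XT.lf (nat_lit 0) (nat_lit 19713107552) (nat_lit 152) (nat_lit 320923628) (nat_lit 0) (nat_lit 10831036900) (nat_lit 21) (nat_lit 5) (nat_lit 23) (nat_lit 4) (nat_lit 21) (nat_lit 4) (nat_lit 455) (nat_lit 305) (nat_lit 260))))))) (XT.nd (nat_lit 1092) (nat_lit 380) (nat_lit 0) (XT.nd (nat_lit 546) (nat_lit 228) (nat_lit 0) (XT.nd (nat_lit 234) (nat_lit 76) (nat_lit 0) (XT.nd (nat_lit 78) (nat_lit 152) (nat_lit 0) (XT.lf (nat_lit 0) (nat_lit 10953360049) (nat_lit 76) (nat_lit 14818766488) (nat_lit 76) (nat_lit 5843691280) (nat_lit 20) (nat_lit 4) (nat_lit 21) (nat_lit 5) (nat_lit 21) (nat_lit 4) (nat_lit 456) (nat_lit 305) (nat_lit 259)) (XT.nd (nat_lit 78) (nat_lit 152) (nat_lit 0) (XT.lf (nat_lit 0) (nat_lit 22459782672) (nat_lit 76) (nat_lit 9498165184) (nat_lit 76) (nat_lit 432794290) (nat_lit 20) (nat_lit 4) (nat_lit 21) (nat_lit 5)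 (nat_lit 21) (nat_lit 4) (nat_lit 457) (nat_lit 305) (nat_lit 258)) (XT.lf (nat_lit 0) (nat_lit 981701967) (nat_lit 76) (nat_lit 4010780089) (nat_lit 152) (nat_lit 28196381815) (nat_lit 18) (nat_lit 5) (nat_lit 19) (nat_lit 5) (nat_lit 20) (nat_lit 4) (nat_lit 458) (nat_lit 305) (nat_lit 257)))) (XT.nd (nat_lit 156) (nat_lit 76) (nat_lit 0) (XT.nd (nat_lit 78) (nat_lit 0) (nat_lit 0) (XT.lf (nat_lit 0) (nat_lit 10631895722) (nat_lit 152) (nat_lit 21714286361) (nat_lit 0) (nat_lit 1662819070) (nat_lit 18) (nat_lit 5) (nat_lit 20) (nat_lit 4) (nat_lit 18) (nat_lit 4) (nat_lit 459) (nat_lit 305) (nat_lit 256)) (XT.lf (nat_lit 0) (nat_lit 16424887124) (nat_lit 152) (nat_lit 11053742359) (nat_lit 0) (nat_lit 7375583924) (nat_lit 18) (nat_lit 5) (nat_lit 20) (nat_lit 4) (nat_lit 18) (nat_lit 4) (nat_lit 460) (nat_lit 305) (nat_lit 255))) (XT.nd (nat_lit 78) (nat_lit 76) (nat_lit 0) (XT.lf (nat_lit 0) (nat_lit 22337964025)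 (nat_lit 152) (nat_lit 177660788) (nat_lit 0) (nat_lit 13210770974) (nat_lit 18) (nat_lit 5) (nat_lit 20) (nat_lit 4) (nat_lit 18) (nat_lit 4) (nat_lit 461) (nat_lit 305) (nat_lit 254)) (XT.lf (nat_lit 0) (nat_lit 11140860030) (nat_lit 76) (nat_lit 17342525925) (nat_lit 76) (nat_lit 8139711659) (nat_lit 17) (nat_lit 4) (nat_lit 18) (nat_lit 5) (nat_lit 18) (nat_lit 4) (nat_lit 462) (nat_lit 305) (nat_lit 253))))) (XT.nd (nat_lit 234) (nat_lit 76) (nat_lit 0) (XT.nd (nat_lit 78) (nat_lit 152) (nat_lit 0) (XT.lf (nat_lit 0) (nat_lit 22702329405) (nat_lit 76) (nat_lit 12061050113) (nat_lit 76) (nat_lit 2784817191) (nat_lit 17) (nat_lit 4) (nat_lit 18) (nat_lit 5) (nat_lit 18) (nat_lit 4) (nat_lit 463) (nat_lit 305) (nat_lit 252)) (XT.nd (nat_lit 78) (nat_lit 76) (nat_lit 0) (XT.lf (nat_lit 0) (nat_lit 2626857043) (nat_lit 152) (nat_lit 4014993372) (nat_lit 76) (nat_lit 31859930642) (nat_lit 16) (nat_lit 5) (nat_lit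 18) (nat_lit 5) (nat_lit 17) (nat_lit 4) (nat_lit 464) (nat_lit 305) (nat_lit 251)) (XT.lf (nat_lit 0) (nat_lit 7157427673) (nat_lit 76) (nat_lit 1007175758) (nat_lit 152) (nat_lit 31317953781) (nat_lit 15) (nat_lit 5) (nat_lit 16) (nat_lit 5) (nat_lit 17) (nat_lit 4) (nat_lit 465) (nat_lit 305) (nat_lit 250)))) (XT.nd (nat_lit 156) (nat_lit 76) (nat_lit 0) (XT.nd (nat_lit 78) (nat_lit 0) (nat_lit 0) (XT.lf (nat_lit 0) (nat_lit 13906506732) (nat_lit 152) (nat_lit 21886280158) (nat_lit 0) (nat_lit 4698831232) (nat_lit 15) (nat_lit 5) (nat_lit 17) (nat_lit 4) (nat_lit 15) (nat_lit 4) (nat_lit 466) (nat_lit 305) (nat_lit 249)) (XT.lf (nat_lit 0) (nat_lit 19783039428) (nat_lit 152) (nat_lit 11237010051) (nat_lit 0) (nat_lit 10512032351) (nat_lit 15) (nat_lit 5) (nat_lit 17) (nat_lit 4) (nat_lit 15) (nat_lit 4) (nat_lit 467) (nat_lit 305) (nat_lit 248))) (XT.nd (nat_lit 78) (nat_lit 76) (nat_lit 0) (XT.lf (nat_lit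 0) (nat_lit 25789654765) (nat_lit 152) (nat_lit 358332442) (nat_lit 0) (nat_lit 16457160721) (nat_lit 15) (nat_lit 5) (nat_lit 17) (nat_lit 4) (nat_lit 15) (nat_lit 4) (nat_lit 468) (nat_lit 305) (nat_lit 247)) (XT.lf (nat_lit 0) (nat_lit 10973388645) (nat_lit 76) (nat_lit 21063695522) (nat_lit 76) (nat_lit 11671505392) (nat_lit 14) (nat_lit 4) (nat_lit 15) (nat_lit 5) (nat_lit 15) (nat_lit 4) (nat_lit 469) (nat_lit 305) (nat_lit 246)))))) (XT.nd (nat_lit 546) (nat_lit 228) (nat_lit 0) (XT.nd (nat_lit 234) (nat_lit 76) (nat_lit 0) (XT.nd (nat_lit 78) (nat_lit 76) (nat_lit 0) (XT.lf (nat_lit 0) (nat_lit 22565816970) (nat_lit 76) (nat_lit 15865345077) (nat_lit 76) (nat_lit 6415197582) (nat_lit 14) (nat_lit 4) (nat_lit 15) (nat_lit 5) (nat_lit 15) (nat_lit 4) (nat_lit 470) (nat_lit 305) (nat_lit 245)) (XT.nd (nat_lit 78) (nat_lit 76) (nat_lit 0) (XT.lf (nat_lit 0) (nat_lit 34421950320) (nat_lit 76) (nat_lit 10552012081)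 (nat_lit 76) (nat_lit 1045595300) (nat_lit 14) (nat_lit 4) (nat_lit 15) (nat_lit 5) (nat_lit 15) (nat_lit 4) (nat_lit 471) (nat_lit 305) (nat_lit 244)) (XT.lf (nat_lit 0) (nat_lit 4355314051) (nat_lit 152) (nat_lit 719759631) (nat_lit 76) (nat_lit 42152854239) (nat_lit 13) (nat_lit 5) (nat_lit 15) (nat_lit 5) (nat_lit 14) (nat_lit 4) (nat_lit 472) (nat_lit 305) (nat_lit 243)))) (XT.nd (nat_lit 156) (nat_lit 0) (nat_lit 0) (XT.nd (nat_lit 78) (nat_lit 0) (nat_lit 0) (XT.lf (nat_lit 0) (nat_lit 9964286217) (nat_lit 152) (nat_lit 37875720874) (nat_lit 0) (nat_lit 630221795) (nat_lit 12) (nat_lit 5) (nat_lit 14) (nat_lit 4) (nat_lit 12) (nat_lit 4) (nat_lit 473) (nat_lit 305) (nat_lit 242)) (XT.lf (nat_lit 0) (nat_lit 15758147372) (nat_lit 152) (nat_lit 27617066185) (nat_lit 0) (nat_lit 6374088418) (nat_lit 12) (nat_lit 5) (nat_lit 14) (nat_lit 4) (nat_lit 12) (nat_lit 4) (nat_lit 474) (nat_lit 305) (nat_lit 241)))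 (XT.nd (nat_lit 78) (nat_lit 0) (nat_lit 0) (XT.lf (nat_lit 0) (nat_lit 21686049067) (nat_lit 152) (nat_lit 17128441356) (nat_lit 0) (nat_lit 12253451733) (nat_lit 12) (nat_lit 5) (nat_lit 14) (nat_lit 4) (nat_lit 12) (nat_lit 4) (nat_lit 475) (nat_lit 305) (nat_lit 240)) (XT.lf (nat_lit 0) (nat_lit 27753171023) (nat_lit 152) (nat_lit 6400681569) (nat_lit 0) (nat_lit 18273449047) (nat_lit 12) (nat_lit 5) (nat_lit 14) (nat_lit 4) (nat_lit 12) (nat_lit 4) (nat_lit 476) (nat_lit 305) (nat_lit 239))))) (XT.nd (nat_lit 312) (nat_lit 152) (nat_lit 0) (XT.nd (nat_lit 156) (nat_lit 0) (nat_lit 0) (XT.nd (nat_lit 78) (nat_lit 0) (nat_lit 0) (XT.lf (nat_lit 0) (nat_lit 4666650097) (nat_lit 76) (nat_lit 29343023206) (nat_lit 76) (nat_lit 19817549151) (nat_lit 11) (nat_lit 4) (nat_lit 12) (nat_lit 5) (nat_lit 12) (nat_lit 4) (nat_lit 477) (nat_lit 305) (nat_lit 238)) (XT.lf (nat_lit 0) (nat_lit 16124604210) (nat_lit 76)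 (nat_lit 24356802820) (nat_lit 76) (nat_lit 14786909272) (nat_lit 11) (nat_lit 4) (nat_lit 12) (nat_lit 5) (nat_lit 12) (nat_lit 4) (nat_lit 478) (nat_lit 305) (nat_lit 237))) (XT.nd (nat_lit 78) (nat_lit 0) (nat_lit 0) (XT.lf (nat_lit 0) (nat_lit 27855806459) (nat_lit 76) (nat_lit 19255468879) (nat_lit 76) (nat_lit 9642449608) (nat_lit 11) (nat_lit 4) (nat_lit 12) (nat_lit 5) (nat_lit 12) (nat_lit 4) (nat_lit 479) (nat_lit 305) (nat_lit 236)) (XT.lf (nat_lit 0) (nat_lit 39870507410) (nat_lit 76) (nat_lit 14034563906) (nat_lit 76) (nat_lit 4379675002) (nat_lit 11) (nat_lit 4) (nat_lit 12) (nat_lit 5) (nat_lit 12) (nat_lit 4) (nat_lit 480) (nat_lit 305) (nat_lit 235)))) (XT.nd (nat_lit 156) (nat_lit 0) (nat_lit 0) (XT.nd (nat_lit 78) (nat_lit 76) (nat_lit 0) (XT.lf (nat_lit 0) (nat_lit 986382150) (nat_lit 152) (nat_lit 7693183269) (nat_lit 76) (nat_lit 51182862669) (nat_lit 10) (nat_lit 5) (nat_lit 12) (nat_lit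 5) (nat_lit 11) (nat_lit 4) (nat_lit 481) (nat_lit 305) (nat_lit 234)) (XT.lf (nat_lit 0) (nat_lit 3305469958) (nat_lit 76) (nat_lit 3118409419) (nat_lit 152) (nat_lit 55062306769) (nat_lit 9) (nat_lit 5) (nat_lit 10) (nat_lit 5) (nat_lit 11) (nat_lit 4) (nat_lit 482) (nat_lit 305) (nat_lit 233))) (XT.nd (nat_lit 78) (nat_lit 0) (nat_lit 0) (XT.lf (nat_lit 0) (nat_lit 12094798477) (nat_lit 152) (nat_lit 48455614308) (nat_lit 0) (nat_lit 2606136511) (nat_lit 9) (nat_lit 5) (nat_lit 11) (nat_lit 4) (nat_lit 9) (nat_lit 4) (nat_lit 483) (nat_lit 305) (nat_lit 232)) (XT.lf (nat_lit 0) (nat_lit 17934445565) (nat_lit 152) (nat_lit 38532954497) (nat_lit 0) (nat_lit 8409666486) (nat_lit 9) (nat_lit 5) (nat_lit 11) (nat_lit 4) (nat_lit 9) (nat_lit 4) (nat_lit 484) (nat_lit 305) (nat_lit 231))))))))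
noncomputable def xc31 : XT := (XT.nd (nat_lit 48750) (nat_lit 0) (nat_lit 912) (XT.nd (nat_lit 47580) (nat_lit 0) (nat_lit 2584) (XT.nd (nat_lit 546) (nat_lit 0) (nat_lit 0) (XT.nd (nat_lit 234) (nat_lit 76) (nat_lit 0) (XT.nd (nat_lit 78) (nat_lit 0) (nat_lit 0) (XT.lf (nat_lit 0) (nat_lit 23917947188) (nat_lit 152) (nat_lit 28374090412) (nat_lit 0) (nat_lit 14358102950) (nat_lit 9) (nat_lit 5) (nat_lit 11) (nat_lit 4) (nat_lit 9) (nat_lit 4) (nat_lit 485) (nat_lit 305) (nat_lit 230)) (XT.nd (nat_lit 78) (nat_lit 0) (nat_lit 0) (XT.lf (nat_lit 0) (nat_lit 30050531648) (nat_lit 152) (nat_lit 17970145374) (nat_lit 0) (nat_lit 20456643567) (nat_lit 9) (nat_lit 5) (nat_lit 11) (nat_lit 4) (nat_lit 9) (nat_lit 4) (nat_lit 486) (nat_lit 305) (nat_lit 229)) (XT.lf (nat_lit 0) (nat_lit 36337557514) (nat_lit 152) (nat_lit 7312028559) (nat_lit 0) (nat_lit 26710617157) (nat_lit 9) (nat_lit 5) (nat_lit 11) (nat_lit 4)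 (nat_lit 9) (nat_lit 4) (nat_lit 487) (nat_lit 305) (nat_lit 228)))) (XT.nd (nat_lit 156) (nat_lit 0) (nat_lit 0) (XT.nd (nat_lit 78) (nat_lit 0) (nat_lit 0) (XT.lf (nat_lit 0) (nat_lit 3681410530) (nat_lit 76) (nat_lit 39138495742) (nat_lit 76) (nat_lit 29479465798) (nat_lit 8) (nat_lit 4) (nat_lit 9) (nat_lit 5) (nat_lit 9) (nat_lit 4) (nat_lit 488) (nat_lit 305) (nat_lit 227)) (XT.lf (nat_lit 0) (nat_lit 15098834958) (nat_lit 76) (nat_lit 34443351562) (nat_lit 76) (nat_lit 24753166679) (nat_lit 8) (nat_lit 4) (nat_lit 9) (nat_lit 5) (nat_lit 9) (nat_lit 4) (nat_lit 489) (nat_lit 305) (nat_lit 226))) (XT.nd (nat_lit 78) (nat_lit 0) (nat_lit 0) (XT.lf (nat_lit 0) (nat_lit 26804697407) (nat_lit 76) (nat_lit 29633888132) (nat_lit 76) (nat_lit 19913455734) (nat_lit 8) (nat_lit 4) (nat_lit 9) (nat_lit 5) (nat_lit 9) (nat_lit 4) (nat_lit 490) (nat_lit 305) (nat_lit 225)) (XT.lf (nat_lit 0) (nat_lit 38809226302)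 (nat_lit 76) (nat_lit 24705903006) (nat_lit 76) (nat_lit 14956104090) (nat_lit 8) (nat_lit 4) (nat_lit 9) (nat_lit 5) (nat_lit 9) (nat_lit 4) (nat_lit 491) (nat_lit 305) (nat_lit 224))))) (XT.nd (nat_lit 46722) (nat_lit 0) (nat_lit 4332) (XT.nd (nat_lit 46566) (nat_lit 0) (nat_lit 4864) (XT.lf (nat_lit 0) (nat_lit 51122911036) (nat_lit 76) (nat_lit 19655090179) (nat_lit 76) (nat_lit 9876780080) (nat_lit 8) (nat_lit 4) (nat_lit 9) (nat_lit 5) (nat_lit 9) (nat_lit 4) (nat_lit 492) (nat_lit 305) (nat_lit 223)) (XT.nd (nat_lit 78) (nat_lit 228) (nat_lit 0) (XT.lf (nat_lit 0) (nat_lit 3814266910) (nat_lit 228) (nat_lit 1095569585) (nat_lit 228) (nat_lit 1095569585) (nat_lit 75) (nat_lit 4) (nat_lit 78) (nat_lit 5) (nat_lit 78) (nat_lit 4) (nat_lit 408) (nat_lit 306) (nat_lit 306)) (XT.lf (nat_lit 0) (nat_lit 2873169861) (nat_lit 228) (nat_lit 6987512049) (nat_lit 0) (nat_lit 2341183519) (nat_lit 72) (nat_lit 5) (nat_lit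 75) (nat_lit 4) (nat_lit 72) (nat_lit 4) (nat_lit 409) (nat_lit 306) (nat_lit 305)))) (XT.nd (nat_lit 156) (nat_lit 304) (nat_lit 0) (XT.nd (nat_lit 78) (nat_lit 76) (nat_lit 0) (XT.lf (nat_lit 0) (nat_lit 2606269941) (nat_lit 152) (nat_lit 5420393039) (nat_lit 152) (nat_lit 4371915103) (nat_lit 70) (nat_lit 4) (nat_lit 72) (nat_lit 5) (nat_lit 72) (nat_lit 4) (nat_lit 410) (nat_lit 306) (nat_lit 304)) (XT.lf (nat_lit 0) (nat_lit 680655039) (nat_lit 228) (nat_lit 168196355) (nat_lit 76) (nat_lit 11753303606) (nat_lit 69) (nat_lit 5) (nat_lit 72) (nat_lit 5) (nat_lit 70) (nat_lit 4) (nat_lit 411) (nat_lit 306) (nat_lit 303))) (XT.nd (nat_lit 78) (nat_lit 152) (nat_lit 0) (XT.lf (nat_lit 0) (nat_lit 5821236404) (nat_lit 228) (nat_lit 3144800228) (nat_lit 0) (nat_lit 3843790822) (nat_lit 67) (nat_lit 5) (nat_lit 70) (nat_lit 4) (nat_lit 67) (nat_lit 4) (nat_lit 412) (nat_lit 306) (nat_lit 302)) (XT.lf (nat_lit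 0) (nat_lit 6708048508) (nat_lit 152) (nat_lit 4376491802) (nat_lit 152) (nat_lit 1940150128) (nat_lit 65) (nat_lit 4) (nat_lit 67) (nat_lit 5) (nat_lit 67) (nat_lit 4) (nat_lit 413) (nat_lit 306) (nat_lit 301)))))) (XT.nd (nat_lit 546) (nat_lit 836) (nat_lit 0) (XT.nd (nat_lit 234) (nat_lit 456) (nat_lit 0) (XT.nd (nat_lit 78) (nat_lit 228) (nat_lit 0) (XT.lf (nat_lit 0) (nat_lit 3159797811) (nat_lit 228) (nat_lit 9724502219) (nat_lit 0) (nat_lit 361863966) (nat_lit 62) (nat_lit 5) (nat_lit 65) (nat_lit 4) (nat_lit 62) (nat_lit 4) (nat_lit 414) (nat_lit 306) (nat_lit 300)) (XT.nd (nat_lit 78) (nat_lit 76) (nat_lit 0) (XT.lf (nat_lit 0) (nat_lit 62012632) (nat_lit 152) (nat_lit 8314752666) (nat_lit 152) (nat_lit 5096863890) (nat_lit 60) (nat_lit 4) (nat_lit 62) (nat_lit 5) (nat_lit 62) (nat_lit 4) (nat_lit 415) (nat_lit 306) (nat_lit 299)) (XT.lf (nat_lit 0) (nat_lit 35571714) (nat_lit 228) (nat_lit 3553401430)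 (nat_lit 76) (nat_lit 10119124142) (nat_lit 59) (nat_lit 5) (nat_lit 62) (nat_lit 5) (nat_lit 60) (nat_lit 4) (nat_lit 416) (nat_lit 306) (nat_lit 298)))) (XT.nd (nat_lit 156) (nat_lit 152) (nat_lit 0) (XT.nd (nat_lit 78) (nat_lit 152) (nat_lit 0) (XT.lf (nat_lit 0) (nat_lit 5192554915) (nat_lit 228) (nat_lit 7468128085) (nat_lit 0) (nat_lit 1288225003) (nat_lit 57) (nat_lit 5) (nat_lit 60) (nat_lit 4) (nat_lit 57) (nat_lit 4) (nat_lit 417) (nat_lit 306) (nat_lit 297)) (XT.lf (nat_lit 0) (nat_lit 2522806551) (nat_lit 152) (nat_lit 7975885104) (nat_lit 152) (nat_lit 3698430675) (nat_lit 55) (nat_lit 4) (nat_lit 57) (nat_lit 5) (nat_lit 57) (nat_lit 4) (nat_lit 418) (nat_lit 306) (nat_lit 296))) (XT.nd (nat_lit 78) (nat_lit 76) (nat_lit 0) (XT.lf (nat_lit 0) (nat_lit 1456527540) (nat_lit 228) (nat_lit 1682960335) (nat_lit 76) (nat_lit 11313627665) (nat_lit 54) (nat_lit 5) (nat_lit 57) (nat_lit 5) (nat_lit 55)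 (nat_lit 4) (nat_lit 419) (nat_lit 306) (nat_lit 295)) (XT.lf (nat_lit 0) (nat_lit 6693780718) (nat_lit 152) (nat_lit 6174116486) (nat_lit 0) (nat_lit 1847744907) (nat_lit 53) (nat_lit 5) (nat_lit 55) (nat_lit 4) (nat_lit 53) (nat_lit 4) (nat_lit 420) (nat_lit 306) (nat_lit 294))))) (XT.nd (nat_lit 312) (nat_lit 380) (nat_lit 0) (XT.nd (nat_lit 156) (nat_lit 228) (nat_lit 0) (XT.nd (nat_lit 78) (nat_lit 76) (nat_lit 0) (XT.lf (nat_lit 0) (nat_lit 3989517679) (nat_lit 152) (nat_lit 8087216321) (nat_lit 152) (nat_lit 2909664210) (nat_lit 51) (nat_lit 4) (nat_lit 53) (nat_lit 5) (nat_lit 53) (nat_lit 4) (nat_lit 421) (nat_lit 306) (nat_lit 293)) (XT.lf (nat_lit 0) (nat_lit 2275059799) (nat_lit 228) (nat_lit 881041203) (nat_lit 76) (nat_lit 12109553171) (nat_lit 50) (nat_lit 5) (nat_lit 53) (nat_lit 5) (nat_lit 51) (nat_lit 4) (nat_lit 422) (nat_lit 306) (nat_lit 292))) (XT.nd (nat_lit 78) (nat_lit 152) (nat_lit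 0) (XT.lf (nat_lit 0) (nat_lit 7572307633) (nat_lit 152) (nat_lit 6049974552) (nat_lit 0) (nat_lit 1929687724) (nat_lit 49) (nat_lit 5) (nat_lit 51) (nat_lit 4) (nat_lit 49) (nat_lit 4) (nat_lit 423) (nat_lit 306) (nat_lit 291)) (XT.lf (nat_lit 0) (nat_lit 4245328097) (nat_lit 152) (nat_lit 8769566092) (nat_lit 152) (nat_lit 2832398244) (nat_lit 47) (nat_lit 4) (nat_lit 49) (nat_lit 5) (nat_lit 49) (nat_lit 4) (nat_lit 424) (nat_lit 306) (nat_lit 290)))) (XT.nd (nat_lit 156) (nat_lit 228) (nat_lit 0) (XT.nd (nat_lit 78) (nat_lit 76) (nat_lit 0) (XT.lf (nat_lit 0) (nat_lit 2388338905) (nat_lit 228) (nat_lit 1374808742) (nat_lit 76) (nat_lit 12388607088) (nat_lit 46) (nat_lit 5) (nat_lit 49) (nat_lit 5) (nat_lit 47) (nat_lit 4) (nat_lit 425) (nat_lit 306) (nat_lit 289)) (XT.lf (nat_lit 0) (nat_lit 7718721356) (nat_lit 152) (nat_lit 7338210852) (nat_lit 0) (nat_lit 1407287954) (nat_lit 45) (nat_lit 5) (nat_lit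 47) (nat_lit 4) (nat_lit 45) (nat_lit 4) (nat_lit 426) (nat_lit 306) (nat_lit 288))) (XT.nd (nat_lit 78) (nat_lit 76) (nat_lit 0) (XT.lf (nat_lit 0) (nat_lit 3036665401) (nat_lit 152) (nat_lit 10161432967) (nat_lit 152) (nat_lit 3588297537) (nat_lit 43) (nat_lit 4) (nat_lit 45) (nat_lit 5) (nat_lit 45) (nat_lit 4) (nat_lit 427) (nat_lit 306) (nat_lit 287)) (XT.lf (nat_lit 0) (nat_lit 1673579247) (nat_lit 228) (nat_lit 3429849197) (nat_lit 76) (nat_lit 12014811953) (nat_lit 42) (nat_lit 5) (nat_lit 45) (nat_lit 5) (nat_lit 43) (nat_lit 4) (nat_lit 428) (nat_lit 306) (nat_lit 286))))))) (XT.nd (nat_lit 1092) (nat_lit 684) (nat_lit 0) (XT.nd (nat_lit 546) (nat_lit 380) (nat_lit 0) (XT.nd (nat_lit 234) (nat_lit 380) (nat_lit 0) (XT.nd (nat_lit 78) (nat_lit 152) (nat_lit 0) (XT.lf (nat_lit 0) (nat_lit 7002547970) (nat_lit 152) (nat_lit 10322304417) (nat_lit 0) (nat_lit 134689395) (nat_lit 41) (nat_lit 5) (nat_lit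 43) (nat_lit 4) (nat_lit 41) (nat_lit 4) (nat_lit 429) (nat_lit 306) (nat_lit 285)) (XT.nd (nat_lit 78) (nat_lit 0) (nat_lit 0) (XT.lf (nat_lit 0) (nat_lit 66940642) (nat_lit 152) (nat_lit 12422295673) (nat_lit 152) (nat_lit 5321918235) (nat_lit 39) (nat_lit 4) (nat_lit 41) (nat_lit 5) (nat_lit 41) (nat_lit 4) (nat_lit 430) (nat_lit 306) (nat_lit 284)) (XT.lf (nat_lit 0) (nat_lit 10815983154) (nat_lit 152) (nat_lit 7341478004) (nat_lit 152) (nat_lit 15354097) (nat_lit 39) (nat_lit 4) (nat_lit 41) (nat_lit 5) (nat_lit 41) (nat_lit 4) (nat_lit 431) (nat_lit 306) (nat_lit 283)))) (XT.nd (nat_lit 156) (nat_lit 228) (nat_lit 0) (XT.nd (nat_lit 78) (nat_lit 0) (nat_lit 0) (XT.lf (nat_lit 0) (nat_lit 3191632344) (nat_lit 76) (nat_lit 2097494542) (nat_lit 152) (nat_lit 13256281999) (nat_lit 37) (nat_lit 5) (nat_lit 38) (nat_lit 5) (nat_lit 39) (nat_lit 4) (nat_lit 432) (nat_lit 306) (nat_lit 282)) (XT.lf (nat_lit 0)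 (nat_lit 10773866990) (nat_lit 152) (nat_lit 4912925121) (nat_lit 0) (nat_lit 3241747636) (nat_lit 37) (nat_lit 5) (nat_lit 39) (nat_lit 4) (nat_lit 37) (nat_lit 4) (nat_lit 433) (nat_lit 306) (nat_lit 281))) (XT.nd (nat_lit 78) (nat_lit 76) (nat_lit 0) (XT.lf (nat_lit 0) (nat_lit 5777110725) (nat_lit 152) (nat_lit 10639474834) (nat_lit 152) (nat_lit 2906782667) (nat_lit 35) (nat_lit 4) (nat_lit 37) (nat_lit 5) (nat_lit 37) (nat_lit 4) (nat_lit 434) (nat_lit 306) (nat_lit 280)) (XT.lf (nat_lit 0) (nat_lit 2417137405) (nat_lit 228) (nat_lit 3020634121) (nat_lit 76) (nat_lit 14292535430) (nat_lit 34) (nat_lit 5) (nat_lit 37) (nat_lit 5) (nat_lit 35) (nat_lit 4) (nat_lit 435) (nat_lit 306) (nat_lit 279))))) (XT.nd (nat_lit 234) (nat_lit 228) (nat_lit 0) (XT.nd (nat_lit 78) (nat_lit 76) (nat_lit 0) (XT.lf (nat_lit 0) (nat_lit 7792454305) (nat_lit 76) (nat_lit 44460213) (nat_lit 152) (nat_lit 12311845247) (nat_lit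 33) (nat_lit 5) (nat_lit 34) (nat_lit 5) (nat_lit 35) (nat_lit 4) (nat_lit 436) (nat_lit 306) (nat_lit 278)) (XT.nd (nat_lit 78) (nat_lit 76) (nat_lit 0) (XT.lf (nat_lit 0) (nat_lit 13422936360) (nat_lit 152) (nat_lit 1792076041) (nat_lit 0) (nat_lit 5364650238) (nat_lit 33) (nat_lit 5) (nat_lit 35) (nat_lit 4) (nat_lit 33) (nat_lit 4) (nat_lit 437) (nat_lit 306) (nat_lit 277)) (XT.lf (nat_lit 0) (nat_lit 9119203488) (nat_lit 76) (nat_lit 10067643849) (nat_lit 76) (nat_lit 1836341856) (nat_lit 32) (nat_lit 4) (nat_lit 33) (nat_lit 5) (nat_lit 33) (nat_lit 4) (nat_lit 438) (nat_lit 306) (nat_lit 276)))) (XT.nd (nat_lit 156) (nat_lit 76) (nat_lit 0) (XT.nd (nat_lit 78) (nat_lit 76) (nat_lit 0) (XT.lf (nat_lit 0) (nat_lit 3513133491) (nat_lit 152) (nat_lit 1267617580) (nat_lit 76) (nat_lit 16700007826) (nat_lit 31) (nat_lit 5) (nat_lit 33) (nat_lit 5) (nat_lit 32) (nat_lit 4) (nat_lit 439) (nat_lit 306) (nat_lit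 275)) (XT.lf (nat_lit 0) (nat_lit 9010992023) (nat_lit 152) (nat_lit 12241760741) (nat_lit 0) (nat_lit 698018605) (nat_lit 30) (nat_lit 5) (nat_lit 32) (nat_lit 4) (nat_lit 30) (nat_lit 4) (nat_lit 440) (nat_lit 306) (nat_lit 274))) (XT.nd (nat_lit 78) (nat_lit 76) (nat_lit 0) (XT.lf (nat_lit 0) (nat_lit 14658803382) (nat_lit 152) (nat_lit 1584427911) (nat_lit 0) (nat_lit 6192107604) (nat_lit 30) (nat_lit 5) (nat_lit 32) (nat_lit 4) (nat_lit 30) (nat_lit 4) (nat_lit 441) (nat_lit 306) (nat_lit 273)) (XT.lf (nat_lit 0) (nat_lit 9437572927) (nat_lit 76) (nat_lit 11056143174) (nat_lit 76) (nat_lit 2440202386) (nat_lit 29) (nat_lit 4) (nat_lit 30) (nat_lit 5) (nat_lit 30) (nat_lit 4) (nat_lit 442) (nat_lit 306) (nat_lit 272)))))) (XT.nd (nat_lit 546) (nat_lit 304) (nat_lit 0) (XT.nd (nat_lit 234) (nat_lit 228) (nat_lit 0) (XT.nd (nat_lit 78) (nat_lit 76) (nat_lit 0) (XT.lf (nat_lit 0) (nat_lit 2939770704) (nat_lit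 152) (nat_lit 2793104327) (nat_lit 76) (nat_lit 17715408205) (nat_lit 28) (nat_lit 5) (nat_lit 30) (nat_lit 5) (nat_lit 29) (nat_lit 4) (nat_lit 443) (nat_lit 306) (nat_lit 271)) (XT.nd (nat_lit 78) (nat_lit 0) (nat_lit 0) (XT.lf (nat_lit 0) (nat_lit 8232471134) (nat_lit 76) (nat_lit 207916908) (nat_lit 152) (nat_lit 15536721967) (nat_lit 27) (nat_lit 5) (nat_lit 28) (nat_lit 5) (nat_lit 29) (nat_lit 4) (nat_lit 444) (nat_lit 306) (nat_lit 270)) (XT.lf (nat_lit 0) (nat_lit 14116529434) (nat_lit 152) (nat_lit 5063283411) (nat_lit 0) (nat_lit 5341678056) (nat_lit 27) (nat_lit 5) (nat_lit 29) (nat_lit 4) (nat_lit 27) (nat_lit 4) (nat_lit 445) (nat_lit 306) (nat_lit 269)))) (XT.nd (nat_lit 156) (nat_lit 76) (nat_lit 0) (XT.nd (nat_lit 78) (nat_lit 76) (nat_lit 0) (XT.lf (nat_lit 0) (nat_lit 5920514259) (nat_lit 76) (nat_lit 14032787178) (nat_lit 76) (nat_lit 5129195743) (nat_lit 26) (nat_lit 4) (nat_lit 27) (nat_lit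 5) (nat_lit 27) (nat_lit 4) (nat_lit 446) (nat_lit 306) (nat_lit 268)) (XT.lf (nat_lit 0) (nat_lit 281977197) (nat_lit 152) (nat_lit 8456168071) (nat_lit 76) (nat_lit 16922612087) (nat_lit 25) (nat_lit 5) (nat_lit 27) (nat_lit 5) (nat_lit 26) (nat_lit 4) (nat_lit 447) (nat_lit 306) (nat_lit 267))) (XT.nd (nat_lit 78) (nat_lit 0) (nat_lit 0) (XT.lf (nat_lit 0) (nat_lit 2439930555) (nat_lit 76) (nat_lit 3269361162) (nat_lit 152) (nat_lit 20546847130) (nat_lit 24) (nat_lit 5) (nat_lit 25) (nat_lit 5) (nat_lit 26) (nat_lit 4) (nat_lit 448) (nat_lit 306) (nat_lit 266)) (XT.lf (nat_lit 0) (nat_lit 11341965173) (nat_lit 152) (nat_lit 13181991762) (nat_lit 0) (nat_lit 2344152531) (nat_lit 24) (nat_lit 5) (nat_lit 26) (nat_lit 4) (nat_lit 24) (nat_lit 4) (nat_lit 449) (nat_lit 306) (nat_lit 265))))) (XT.nd (nat_lit 312) (nat_lit 76) (nat_lit 0) (XT.nd (nat_lit 156) (nat_lit 152) (nat_lit 0) (XT.nd (nat_lit 78) (nat_lit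 76) (nat_lit 0) (XT.lf (nat_lit 0) (nat_lit 17111507242) (nat_lit 152) (nat_lit 2385256767) (nat_lit 0) (nat_lit 8002642296) (nat_lit 24) (nat_lit 5) (nat_lit 26) (nat_lit 4) (nat_lit 24) (nat_lit 4) (nat_lit 450) (nat_lit 306) (nat_lit 264)) (XT.lf (nat_lit 0) (nat_lit 8786310395) (nat_lit 76) (nat_lit 14289681168) (nat_lit 76) (nat_lit 5072998451) (nat_lit 23) (nat_lit 4) (nat_lit 24) (nat_lit 5) (nat_lit 24) (nat_lit 4) (nat_lit 451) (nat_lit 306) (nat_lit 263))) (XT.nd (nat_lit 78) (nat_lit 76) (nat_lit 0) (XT.lf (nat_lit 0) (nat_lit 355298519) (nat_lit 152) (nat_lit 8600104169) (nat_lit 76) (nat_lit 19863692806) (nat_lit 22) (nat_lit 5) (nat_lit 24) (nat_lit 5) (nat_lit 23) (nat_lit 4) (nat_lit 452) (nat_lit 306) (nat_lit 262)) (XT.lf (nat_lit 0) (nat_lit 2364177729) (nat_lit 76) (nat_lit 3442308222) (nat_lit 152) (nat_lit 23702454578) (nat_lit 21) (nat_lit 5) (nat_lit 22) (nat_lit 5) (nat_lit 23) (nat_lit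 4) (nat_lit 453) (nat_lit 306) (nat_lit 261)))) (XT.nd (nat_lit 156) (nat_lit 76) (nat_lit 0) (XT.nd (nat_lit 78) (nat_lit 0) (nat_lit 0) (XT.lf (nat_lit 0) (nat_lit 11469803694) (nat_lit 152) (nat_lit 16522746388) (nat_lit 0) (nat_lit 2225476230) (nat_lit 21) (nat_lit 5) (nat_lit 23) (nat_lit 4) (nat_lit 21) (nat_lit 4) (nat_lit 454) (nat_lit 306) (nat_lit 260)) (XT.lf (nat_lit 0) (nat_lit 17278263550) (nat_lit 152) (nat_lit 5729935456) (nat_lit 0) (nat_lit 7940931529) (nat_lit 21) (nat_lit 5) (nat_lit 23) (nat_lit 4) (nat_lit 21) (nat_lit 4) (nat_lit 455) (nat_lit 306) (nat_lit 259))) (XT.nd (nat_lit 78) (nat_lit 0) (nat_lit 0) (XT.lf (nat_lit 0) (nat_lit 5381196711) (nat_lit 76) (nat_lit 17874381944) (nat_lit 76) (nat_lit 8446754238) (nat_lit 20) (nat_lit 4) (nat_lit 21) (nat_lit 5) (nat_lit 21) (nat_lit 4) (nat_lit 456) (nat_lit 306) (nat_lit 258)) (XT.lf (nat_lit 0) (nat_lit 16833734315) (nat_lit 76) (nat_lit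 12579826480) (nat_lit 76) (nat_lit 3064533060) (nat_lit 20) (nat_lit 4) (nat_lit 21) (nat_lit 5) (nat_lit 21) (nat_lit 4) (nat_lit 457) (nat_lit 306) (nat_lit 257))))))))
noncomputable def xc32 : XT := (XT.nd (nat_lit 2184) (nat_lit 76) (nat_lit 0) (XT.nd (nat_lit 1092) (nat_lit 380) (nat_lit 0) (XT.nd (nat_lit 546) (nat_lit 228) (nat_lit 0) (XT.nd (nat_lit 234) (nat_lit 76) (nat_lit 0) (XT.nd (nat_lit 78) (nat_lit 76) (nat_lit 0) (XT.lf (nat_lit 0) (nat_lit 2375363944) (nat_lit 152) (nat_lit 4778416956) (nat_lit 76) (nat_lit 26124297014) (nat_lit 19) (nat_lit 5) (nat_lit 21) (nat_lit 5) (nat_lit 20) (nat_lit 4) (nat_lit 458) (nat_lit 306) (nat_lit 256)) (XT.nd (nat_lit 78) (nat_lit 0) (nat_lit 0) (XT.lf (nat_lit 0) (nat_lit 6403945254) (nat_lit 76) (nat_lit 1520677584) (nat_lit 152) (nat_lit 26176298339) (nat_lit 18) (nat_lit 5) (nat_lit 19) (nat_lit 5) (nat_lit 20) (nat_lit 4) (nat_lit 459) (nat_lit 306) (nat_lit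 255)) (XT.lf (nat_lit 0) (nat_lit 13676541265) (nat_lit 152) (nat_lit 17073183080) (nat_lit 0) (nat_lit 4197642571) (nat_lit 18) (nat_lit 5) (nat_lit 20) (nat_lit 4) (nat_lit 18) (nat_lit 4) (nat_lit 460) (nat_lit 306) (nat_lit 254)))) (XT.nd (nat_lit 156) (nat_lit 0) (nat_lit 0) (XT.nd (nat_lit 78) (nat_lit 76) (nat_lit 0) (XT.lf (nat_lit 0) (nat_lit 19563933418) (nat_lit 152) (nat_lit 6246974172) (nat_lit 0) (nat_lit 10009413508) (nat_lit 18) (nat_lit 5) (nat_lit 20) (nat_lit 4) (nat_lit 18) (nat_lit 4) (nat_lit 461) (nat_lit 306) (nat_lit 253)) (XT.lf (nat_lit 0) (nat_lit 4901371694) (nat_lit 76) (nat_lit 20723069225) (nat_lit 76) (nat_lit 11095130660) (nat_lit 17) (nat_lit 4) (nat_lit 18) (nat_lit 5) (nat_lit 18) (nat_lit 4) (nat_lit 462) (nat_lit 306) (nat_lit 252))) (XT.nd (nat_lit 78) (nat_lit 0) (nat_lit 0) (XT.lf (nat_lit 0) (nat_lit 16414895714) (nat_lit 76) (nat_lit 15464867548) (nat_lit 76) (nat_lit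 5765648735) (nat_lit 17) (nat_lit 4) (nat_lit 18) (nat_lit 5) (nat_lit 18) (nat_lit 4) (nat_lit 463) (nat_lit 306) (nat_lit 251)) (XT.lf (nat_lit 0) (nat_lit 28179331211) (nat_lit 76) (nat_lit 10094790204) (nat_lit 76) (nat_lit 326367266) (nat_lit 17) (nat_lit 4) (nat_lit 18) (nat_lit 5) (nat_lit 18) (nat_lit 4) (nat_lit 464) (nat_lit 306) (nat_lit 250))))) (XT.nd (nat_lit 234) (nat_lit 76) (nat_lit 0) (XT.nd (nat_lit 78) (nat_lit 0) (nat_lit 0) (XT.lf (nat_lit 0) (nat_lit 580397667) (nat_lit 76) (nat_lit 4550641285) (nat_lit 152) (nat_lit 34452922352) (nat_lit 15) (nat_lit 5) (nat_lit 16) (nat_lit 5) (nat_lit 17) (nat_lit 4) (nat_lit 465) (nat_lit 306) (nat_lit 249)) (XT.nd (nat_lit 78) (nat_lit 0) (nat_lit 0) (XT.lf (nat_lit 0) (nat_lit 10815432146) (nat_lit 152) (nat_lit 28576353145) (nat_lit 0) (nat_lit 1202963280) (nat_lit 15) (nat_lit 5) (nat_lit 17) (nat_lit 4) (nat_lit 15) (nat_lit 4) (nat_lit 466) (nat_lit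 306) (nat_lit 248)) (XT.lf (nat_lit 0) (nat_lit 16669199651) (nat_lit 152) (nat_lit 17971452792) (nat_lit 0) (nat_lit 6995243816) (nat_lit 15) (nat_lit 5) (nat_lit 17) (nat_lit 4) (nat_lit 15) (nat_lit 4) (nat_lit 467) (nat_lit 306) (nat_lit 247)))) (XT.nd (nat_lit 156) (nat_lit 0) (nat_lit 0) (XT.nd (nat_lit 78) (nat_lit 76) (nat_lit 0) (XT.lf (nat_lit 0) (nat_lit 22653712860) (nat_lit 152) (nat_lit 7135852615) (nat_lit 0) (nat_lit 12920060940) (nat_lit 15) (nat_lit 5) (nat_lit 17) (nat_lit 4) (nat_lit 15) (nat_lit 4) (nat_lit 468) (nat_lit 306) (nat_lit 246)) (XT.lf (nat_lit 0) (nat_lit 4018327429) (nat_lit 76) (nat_lit 24794500153) (nat_lit 76) (nat_lit 15002890869) (nat_lit 14) (nat_lit 4) (nat_lit 15) (nat_lit 5) (nat_lit 15) (nat_lit 4) (nat_lit 469) (nat_lit 306) (nat_lit 245))) (XT.nd (nat_lit 78) (nat_lit 0) (nat_lit 0) (XT.lf (nat_lit 0) (nat_lit 15569343032) (nat_lit 76) (nat_lit 19616330970) (nat_lit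 76) (nat_lit 9768452400) (nat_lit 14) (nat_lit 4) (nat_lit 15) (nat_lit 5) (nat_lit 15) (nat_lit 4) (nat_lit 470) (nat_lit 306) (nat_lit 244)) (XT.lf (nat_lit 0) (nat_lit 27385269856) (nat_lit 76) (nat_lit 14322591432) (nat_lit 76) (nat_lit 4420082487) (nat_lit 14) (nat_lit 4) (nat_lit 15) (nat_lit 5) (nat_lit 15) (nat_lit 4) (nat_lit 471) (nat_lit 306) (nat_lit 243)))))) (XT.nd (nat_lit 546) (nat_lit 152) (nat_lit 0) (XT.nd (nat_lit 234) (nat_lit 76) (nat_lit 0) (XT.nd (nat_lit 78) (nat_lit 76) (nat_lit 0) (XT.lf (nat_lit 0) (nat_lit 1026463565) (nat_lit 152) (nat_lit 7871827106) (nat_lit 76) (nat_lit 38439603661) (nat_lit 13) (nat_lit 5) (nat_lit 15) (nat_lit 5) (nat_lit 14) (nat_lit 4) (nat_lit 472) (nat_lit 306) (nat_lit 242)) (XT.nd (nat_lit 78) (nat_lit 0) (nat_lit 0) (XT.lf (nat_lit 0) (nat_lit 3267412456) (nat_lit 76) (nat_lit 3271727922) (nat_lit 152) (nat_lit 42043944613) (nat_lit 12) (nat_lit 5) (nat_lit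 13) (nat_lit 5) (nat_lit 14) (nat_lit 4) (nat_lit 473) (nat_lit 306) (nat_lit 241)) (XT.lf (nat_lit 0) (nat_lit 12281957942) (nat_lit 152) (nat_lit 35063887947) (nat_lit 0) (nat_lit 2517844307) (nat_lit 12) (nat_lit 5) (nat_lit 14) (nat_lit 4) (nat_lit 12) (nat_lit 4) (nat_lit 474) (nat_lit 306) (nat_lit 240)))) (XT.nd (nat_lit 156) (nat_lit 76) (nat_lit 0) (XT.nd (nat_lit 78) (nat_lit 0) (nat_lit 0) (XT.lf (nat_lit 0) (nat_lit 18190836588) (nat_lit 152) (nat_lit 24612466954) (nat_lit 0) (nat_lit 8379598312) (nat_lit 12) (nat_lit 5) (nat_lit 14) (nat_lit 4) (nat_lit 12) (nat_lit 4) (nat_lit 475) (nat_lit 306) (nat_lit 239)) (XT.lf (nat_lit 0) (nat_lit 24239489563) (nat_lit 152) (nat_lit 13920827396) (nat_lit 0) (nat_lit 14382499208) (nat_lit 12) (nat_lit 5) (nat_lit 14) (nat_lit 4) (nat_lit 12) (nat_lit 4) (nat_lit 476) (nat_lit 306) (nat_lit 238))) (XT.nd (nat_lit 78) (nat_lit 76) (nat_lit 0) (XT.lf (nat_lit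 0) (nat_lit 30433202099) (nat_lit 152) (nat_lit 2979627064) (nat_lit 0) (nat_lit 20531792250) (nat_lit 12) (nat_lit 5) (nat_lit 14) (nat_lit 4) (nat_lit 12) (nat_lit 4) (nat_lit 477) (nat_lit 306) (nat_lit 237)) (XT.lf (nat_lit 0) (nat_lit 8384302249) (nat_lit 76) (nat_lit 28473678970) (nat_lit 76) (nat_lit 18529143399) (nat_lit 11) (nat_lit 4) (nat_lit 12) (nat_lit 5) (nat_lit 12) (nat_lit 4) (nat_lit 478) (nat_lit 306) (nat_lit 236))))) (XT.nd (nat_lit 234) (nat_lit 152) (nat_lit 0) (XT.nd (nat_lit 78) (nat_lit 0) (nat_lit 0) (XT.lf (nat_lit 0) (nat_lit 20081791510) (nat_lit 76) (nat_lit 23388832214) (nat_lit 76) (nat_lit 13402427009) (nat_lit 11) (nat_lit 4) (nat_lit 12) (nat_lit 5) (nat_lit 12) (nat_lit 4) (nat_lit 479) (nat_lit 306) (nat_lit 235)) (XT.nd (nat_lit 78) (nat_lit 0) (nat_lit 0) (XT.lf (nat_lit 0) (nat_lit 32063761404) (nat_lit 76) (nat_lit 18183934217) (nat_lit 76) (nat_lit 8156878882) (nat_lit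 11) (nat_lit 4) (nat_lit 12) (nat_lit 5) (nat_lit 12) (nat_lit 4) (nat_lit 480) (nat_lit 306) (nat_lit 234)) (XT.lf (nat_lit 0) (nat_lit 44340681614) (nat_lit 76) (nat_lit 12854437008) (nat_lit 76) (nat_lit 2787915529) (nat_lit 11) (nat_lit 4) (nat_lit 12) (nat_lit 5) (nat_lit 12) (nat_lit 4) (nat_lit 481) (nat_lit 306) (nat_lit 233)))) (XT.nd (nat_lit 156) (nat_lit 0) (nat_lit 0) (XT.nd (nat_lit 78) (nat_lit 76) (nat_lit 0) (XT.lf (nat_lit 0) (nat_lit 2656289017) (nat_lit 152) (nat_lit 4712571419) (nat_lit 76) (nat_lit 54240167217) (nat_lit 10) (nat_lit 5) (nat_lit 12) (nat_lit 5) (nat_lit 11) (nat_lit 4) (nat_lit 482) (nat_lit 306) (nat_lit 232)) (XT.lf (nat_lit 0) (nat_lit 6584557018) (nat_lit 76) (nat_lit 1655145331) (nat_lit 152) (nat_lit 55042314228) (nat_lit 9) (nat_lit 5) (nat_lit 10) (nat_lit 5) (nat_lit 11) (nat_lit 4) (nat_lit 483) (nat_lit 306) (nat_lit 231))) (XT.nd (nat_lit 78) (nat_lit 0) (nat_lit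 0) (XT.lf (nat_lit 0) (nat_lit 14048003268) (nat_lit 152) (nat_lit 46789172986) (nat_lit 0) (nat_lit 4166298544) (nat_lit 9) (nat_lit 5) (nat_lit 11) (nat_lit 4) (nat_lit 9) (nat_lit 4) (nat_lit 484) (nat_lit 306) (nat_lit 230)) (XT.lf (nat_lit 0) (nat_lit 20016518580) (nat_lit 152) (nat_lit 36659710364) (nat_lit 0) (nat_lit 10100770013) (nat_lit 9) (nat_lit 5) (nat_lit 11) (nat_lit 4) (nat_lit 9) (nat_lit 4) (nat_lit 485) (nat_lit 306) (nat_lit 229))))))) (XT.nd (nat_lit 47424) (nat_lit 0) (nat_lit 2660) (XT.nd (nat_lit 46878) (nat_lit 0) (nat_lit 4484) (XT.nd (nat_lit 234) (nat_lit 76) (nat_lit 0) (XT.nd (nat_lit 78) (nat_lit 0) (nat_lit 0) (XT.lf (nat_lit 0) (nat_lit 26134553223) (nat_lit 152) (nat_lit 26284310437) (nat_lit 0) (nat_lit 16185752380) (nat_lit 9) (nat_lit 5) (nat_lit 11) (nat_lit 4) (nat_lit 9) (nat_lit 4) (nat_lit 486) (nat_lit 306) (nat_lit 228)) (XT.nd (nat_lit 78) (nat_lit 0) (nat_lit 0)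 (XT.lf (nat_lit 0) (nat_lit 32407453053) (nat_lit 152) (nat_lit 15653907320) (nat_lit 0) (nat_lit 22426562623) (nat_lit 9) (nat_lit 5) (nat_lit 11) (nat_lit 4) (nat_lit 9) (nat_lit 4) (nat_lit 487) (nat_lit 306) (nat_lit 227)) (XT.lf (nat_lit 0) (nat_lit 38840699244) (nat_lit 152) (nat_lit 4759212314) (nat_lit 0) (nat_lit 28828653875) (nat_lit 9) (nat_lit 5) (nat_lit 11) (nat_lit 4) (nat_lit 9) (nat_lit 4) (nat_lit 488) (nat_lit 306) (nat_lit 226)))) (XT.nd (nat_lit 156) (nat_lit 0) (nat_lit 0) (XT.nd (nat_lit 78) (nat_lit 0) (nat_lit 0) (XT.lf (nat_lit 0) (nat_lit 6536851741) (nat_lit 76) (nat_lit 38965897557) (nat_lit 76) (nat_lit 28923604673) (nat_lit 8) (nat_lit 4) (nat_lit 9) (nat_lit 5) (nat_lit 9) (nat_lit 4) (nat_lit 489) (nat_lit 306) (nat_lit 225)) (XT.lf (nat_lit 0) (nat_lit 18216847477) (nat_lit 76) (nat_lit 34169124869) (nat_lit 76) (nat_lit 24097465467) (nat_lit 8) (nat_lit 4) (nat_lit 9) (nat_lit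 5) (nat_lit 9) (nat_lit 4) (nat_lit 490) (nat_lit 306) (nat_lit 224))) (XT.nd (nat_lit 78) (nat_lit 0) (nat_lit 0) (XT.lf (nat_lit 0) (nat_lit 30196263058) (nat_lit 76) (nat_lit 29253460853) (nat_lit 76) (nat_lit 19153290268) (nat_lit 8) (nat_lit 4) (nat_lit 9) (nat_lit 5) (nat_lit 9) (nat_lit 4) (nat_lit 491) (nat_lit 306) (nat_lit 223)) (XT.lf (nat_lit 0) (nat_lit 42485565935) (nat_lit 76) (nat_lit 24214610268) (nat_lit 76) (nat_lit 14086758923) (nat_lit 8) (nat_lit 4) (nat_lit 9) (nat_lit 5) (nat_lit 9) (nat_lit 4) (nat_lit 492) (nat_lit 306) (nat_lit 222))))) (XT.nd (nat_lit 234) (nat_lit 608) (nat_lit 0) (XT.nd (nat_lit 78) (nat_lit 228) (nat_lit 0) (XT.lf (nat_lit 0) (nat_lit 101125333) (nat_lit 228) (nat_lit 5619803850) (nat_lit 0) (nat_lit 101125333) (nat_lit 78) (nat_lit 5) (nat_lit 81) (nat_lit 4) (nat_lit 78) (nat_lit 4) (nat_lit 406) (nat_lit 307) (nat_lit 307)) (XT.nd (nat_lit 78) (nat_lit 228)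 (nat_lit 0) (XT.lf (nat_lit 0) (nat_lit 5208752906) (nat_lit 228) (nat_lit 1971899820) (nat_lit 0) (nat_lit 4644368595) (nat_lit 78) (nat_lit 5) (nat_lit 81) (nat_lit 4) (nat_lit 78) (nat_lit 4) (nat_lit 407) (nat_lit 307) (nat_lit 306)) (XT.lf (nat_lit 0) (nat_lit 7535291364) (nat_lit 228) (nat_lit 2794740463) (nat_lit 228) (nat_lit 1682410221) (nat_lit 75) (nat_lit 4) (nat_lit 78) (nat_lit 5) (nat_lit 78) (nat_lit 4) (nat_lit 408) (nat_lit 307) (nat_lit 305)))) (XT.nd (nat_lit 156) (nat_lit 228) (nat_lit 0) (XT.nd (nat_lit 78) (nat_lit 152) (nat_lit 0) (XT.lf (nat_lit 0) (nat_lit 3310972267) (nat_lit 228) (nat_lit 7179666526) (nat_lit 0) (nat_lit 1714548399) (nat_lit 72) (nat_lit 5) (nat_lit 75) (nat_lit 4) (nat_lit 72) (nat_lit 4) (nat_lit 409) (nat_lit 307) (nat_lit 304)) (XT.lf (nat_lit 0) (nat_lit 2316561848) (nat_lit 152) (nat_lit 6092441118) (nat_lit 152) (nat_lit 3994569100) (nat_lit 70) (nat_lit 4)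 (nat_lit 72) (nat_lit 5) (nat_lit 72) (nat_lit 4) (nat_lit 410) (nat_lit 307) (nat_lit 303))) (XT.nd (nat_lit 78) (nat_lit 152) (nat_lit 0) (XT.lf (nat_lit 0) (nat_lit 998096674) (nat_lit 228) (nat_lit 558578632) (nat_lit 76) (nat_lit 11051948959) (nat_lit 69) (nat_lit 5) (nat_lit 72) (nat_lit 5) (nat_lit 70) (nat_lit 4) (nat_lit 411) (nat_lit 307) (nat_lit 302)) (XT.lf (nat_lit 0) (nat_lit 6075744543) (nat_lit 228) (nat_lit 3635031293) (nat_lit 0) (nat_lit 3107416527) (nat_lit 67) (nat_lit 5) (nat_lit 70) (nat_lit 4) (nat_lit 67) (nat_lit 4) (nat_lit 412) (nat_lit 307) (nat_lit 301)))))) (XT.nd (nat_lit 546) (nat_lit 836) (nat_lit 0) (XT.nd (nat_lit 234) (nat_lit 608) (nat_lit 0) (XT.nd (nat_lit 78) (nat_lit 228) (nat_lit 0) (XT.lf (nat_lit 0) (nat_lit 6116628888) (nat_lit 152) (nat_lit 5165992447) (nat_lit 152) (nat_lit 1752134244) (nat_lit 65) (nat_lit 4) (nat_lit 67) (nat_lit 5) (nat_lit 67) (nat_lit 4)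 (nat_lit 413) (nat_lit 307) (nat_lit 300)) (XT.nd (nat_lit 78) (nat_lit 0) (nat_lit 0) (XT.lf (nat_lit 0) (nat_lit 2818446879) (nat_lit 152) (nat_lit 464734726) (nat_lit 228) (nat_lit 9974829202) (nat_lit 62) (nat_lit 5) (nat_lit 64) (nat_lit 5) (nat_lit 65) (nat_lit 4) (nat_lit 414) (nat_lit 307) (nat_lit 299)) (XT.lf (nat_lit 0) (nat_lit 8444710842) (nat_lit 228) (nat_lit 739827855) (nat_lit 0) (nat_lit 4302607237) (nat_lit 62) (nat_lit 5) (nat_lit 65) (nat_lit 4) (nat_lit 62) (nat_lit 4) (nat_lit 415) (nat_lit 307) (nat_lit 298)))) (XT.nd (nat_lit 156) (nat_lit 228) (nat_lit 0) (XT.nd (nat_lit 78) (nat_lit 152) (nat_lit 0) (XT.lf (nat_lit 0) (nat_lit 31349598) (nat_lit 228) (nat_lit 4474311718) (nat_lit 76) (nat_lit 9217671082) (nat_lit 59) (nat_lit 5) (nat_lit 62) (nat_lit 5) (nat_lit 60) (nat_lit 4) (nat_lit 416) (nat_lit 307) (nat_lit 297)) (XT.lf (nat_lit 0) (nat_lit 5120364309) (nat_lit 228) (nat_lit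 8504362344) (nat_lit 0) (nat_lit 341461730) (nat_lit 57) (nat_lit 5) (nat_lit 60) (nat_lit 4) (nat_lit 57) (nat_lit 4) (nat_lit 417) (nat_lit 307) (nat_lit 296))) (XT.nd (nat_lit 78) (nat_lit 76) (nat_lit 0) (XT.lf (nat_lit 0) (nat_lit 1376444147) (nat_lit 152) (nat_lit 8990456006) (nat_lit 152) (nat_lit 3849296615) (nat_lit 55) (nat_lit 4) (nat_lit 57) (nat_lit 5) (nat_lit 57) (nat_lit 4) (nat_lit 418) (nat_lit 307) (nat_lit 295)) (XT.lf (nat_lit 0) (nat_lit 1260122847) (nat_lit 228) (nat_lit 2934815654) (nat_lit 76) (nat_lit 10278755149) (nat_lit 54) (nat_lit 5) (nat_lit 57) (nat_lit 5) (nat_lit 55) (nat_lit 4) (nat_lit 419) (nat_lit 307) (nat_lit 294))))) (XT.nd (nat_lit 312) (nat_lit 456) (nat_lit 0) (XT.nd (nat_lit 156) (nat_lit 152) (nat_lit 0) (XT.nd (nat_lit 78) (nat_lit 152) (nat_lit 0) (XT.lf (nat_lit 0) (nat_lit 6426552985) (nat_lit 152) (nat_lit 7549639439) (nat_lit 0) (nat_lit 762158009) (nat_lit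 53) (nat_lit 5) (nat_lit 55) (nat_lit 4) (nat_lit 53) (nat_lit 4) (nat_lit 420) (nat_lit 307) (nat_lit 293)) (XT.lf (nat_lit 0) (nat_lit 2499408486) (nat_lit 152) (nat_lit 9248897438) (nat_lit 152) (nat_lit 3262641977) (nat_lit 51) (nat_lit 4) (nat_lit 53) (nat_lit 5) (nat_lit 53) (nat_lit 4) (nat_lit 421) (nat_lit 307) (nat_lit 292))) (XT.nd (nat_lit 78) (nat_lit 76) (nat_lit 0) (XT.lf (nat_lit 0) (nat_lit 1882181063) (nat_lit 228) (nat_lit 2477913810) (nat_lit 76) (nat_lit 10931619499) (nat_lit 50) (nat_lit 5) (nat_lit 53) (nat_lit 5) (nat_lit 51) (nat_lit 4) (nat_lit 422) (nat_lit 307) (nat_lit 291)) (XT.lf (nat_lit 0) (nat_lit 7105433518) (nat_lit 152) (nat_lit 7779218659) (nat_lit 0) (nat_lit 695602696) (nat_lit 49) (nat_lit 5) (nat_lit 51) (nat_lit 4) (nat_lit 49) (nat_lit 4) (nat_lit 423) (nat_lit 307) (nat_lit 290)))) (XT.nd (nat_lit 156) (nat_lit 228) (nat_lit 0) (XT.nd (nat_lit 78) (nat_lit 76) (nat_lit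 0) (XT.lf (nat_lit 0) (nat_lit 2396720445) (nat_lit 152) (nat_lit 10088276058) (nat_lit 152) (nat_lit 3392476363) (nat_lit 47) (nat_lit 4) (nat_lit 49) (nat_lit 5) (nat_lit 49) (nat_lit 4) (nat_lit 424) (nat_lit 307) (nat_lit 289)) (XT.lf (nat_lit 0) (nat_lit 1794014193) (nat_lit 228) (nat_lit 3331590565) (nat_lit 76) (nat_lit 11057851684) (nat_lit 46) (nat_lit 5) (nat_lit 49) (nat_lit 5) (nat_lit 47) (nat_lit 4) (nat_lit 425) (nat_lit 307) (nat_lit 288))) (XT.nd (nat_lit 78) (nat_lit 152) (nat_lit 0) (XT.lf (nat_lit 0) (nat_lit 7046907858) (nat_lit 152) (nat_lit 9436466695) (nat_lit 0) (nat_lit 14876336) (nat_lit 45) (nat_lit 5) (nat_lit 47) (nat_lit 4) (nat_lit 45) (nat_lit 4) (nat_lit 426) (nat_lit 307) (nat_lit 287)) (XT.lf (nat_lit 0) (nat_lit 813929463) (nat_lit 152) (nat_lit 11647282376) (nat_lit 152) (nat_lit 4361171215) (nat_lit 43) (nat_lit 4) (nat_lit 45) (nat_lit 5) (nat_lit 45) (nat_lit 4) (nat_lit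 427) (nat_lit 307) (nat_lit 286))))))))
noncomputable def xc33 : XT := (XT.nd (nat_lit 2184) (nat_lit 912) (nat_lit 0) (XT.nd (nat_lit 1092) (nat_lit 684) (nat_lit 0) (XT.nd (nat_lit 546) (nat_lit 380) (nat_lit 0) (XT.nd (nat_lit 234) (nat_lit 456) (nat_lit 0) (XT.nd (nat_lit 78) (nat_lit 76) (nat_lit 0) (XT.lf (nat_lit 0) (nat_lit 872149587) (nat_lit 228) (nat_lit 5762326760) (nat_lit 76) (nat_lit 10521287192) (nat_lit 42) (nat_lit 5) (nat_lit 45) (nat_lit 5) (nat_lit 43) (nat_lit 4) (nat_lit 428) (nat_lit 307) (nat_lit 285)) (XT.nd (nat_lit 78) (nat_lit 0) (nat_lit 0) (XT.lf (nat_lit 0) (nat_lit 4679311134) (nat_lit 76) (nat_lit 1454479992) (nat_lit 152) (nat_lit 11365297485) (nat_lit 41) (nat_lit 5) (nat_lit 42) (nat_lit 5) (nat_lit 43) (nat_lit 4) (nat_lit 429) (nat_lit 307) (nat_lit 284)) (XT.lf (nat_lit 0) (nat_lit 11563624229) (nat_lit 152) (nat_lit 2496816430) (nat_lit 0) (nat_lit 3791970136) (nat_lit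 41) (nat_lit 5) (nat_lit 43) (nat_lit 4) (nat_lit 41) (nat_lit 4) (nat_lit 430) (nat_lit 307) (nat_lit 283)))) (XT.nd (nat_lit 156) (nat_lit 152) (nat_lit 0) (XT.nd (nat_lit 78) (nat_lit 152) (nat_lit 0) (XT.lf (nat_lit 0) (nat_lit 8124349538) (nat_lit 152) (nat_lit 9041268975) (nat_lit 152) (nat_lit 1050443553) (nat_lit 39) (nat_lit 4) (nat_lit 41) (nat_lit 5) (nat_lit 41) (nat_lit 4) (nat_lit 431) (nat_lit 307) (nat_lit 282)) (XT.lf (nat_lit 0) (nat_lit 334217364) (nat_lit 76) (nat_lit 3871610460) (nat_lit 152) (nat_lit 14385182047) (nat_lit 37) (nat_lit 5) (nat_lit 38) (nat_lit 5) (nat_lit 39) (nat_lit 4) (nat_lit 432) (nat_lit 307) (nat_lit 281))) (XT.nd (nat_lit 78) (nat_lit 152) (nat_lit 0) (XT.lf (nat_lit 0) (nat_lit 9632694271) (nat_lit 152) (nat_lit 7875737486) (nat_lit 0) (nat_lit 1467448525) (nat_lit 37) (nat_lit 5) (nat_lit 39) (nat_lit 4) (nat_lit 37) (nat_lit 4) (nat_lit 433) (nat_lit 307) (nat_lit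 280)) (XT.lf (nat_lit 0) (nat_lit 2679235731) (nat_lit 152) (nat_lit 12526767595) (nat_lit 152) (nat_lit 4166790962) (nat_lit 35) (nat_lit 4) (nat_lit 37) (nat_lit 5) (nat_lit 37) (nat_lit 4) (nat_lit 434) (nat_lit 307) (nat_lit 279))))) (XT.nd (nat_lit 234) (nat_lit 228) (nat_lit 0) (XT.nd (nat_lit 78) (nat_lit 76) (nat_lit 0) (XT.lf (nat_lit 0) (nat_lit 1142138605) (nat_lit 228) (nat_lit 6230494378) (nat_lit 76) (nat_lit 12408653785) (nat_lit 34) (nat_lit 5) (nat_lit 37) (nat_lit 5) (nat_lit 35) (nat_lit 4) (nat_lit 435) (nat_lit 307) (nat_lit 278)) (XT.nd (nat_lit 78) (nat_lit 0) (nat_lit 0) (XT.lf (nat_lit 0) (nat_lit 4444772433) (nat_lit 76) (nat_lit 2046538265) (nat_lit 152) (nat_lit 13710549996) (nat_lit 33) (nat_lit 5) (nat_lit 34) (nat_lit 5) (nat_lit 35) (nat_lit 4) (nat_lit 436) (nat_lit 307) (nat_lit 277)) (XT.lf (nat_lit 0) (nat_lit 12019766611) (nat_lit 152) (nat_lit 5246217130) (nat_lit 0) (nat_lit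 3368509686) (nat_lit 33) (nat_lit 5) (nat_lit 35) (nat_lit 4) (nat_lit 33) (nat_lit 4) (nat_lit 437) (nat_lit 307) (nat_lit 276)))) (XT.nd (nat_lit 156) (nat_lit 76) (nat_lit 0) (XT.nd (nat_lit 78) (nat_lit 76) (nat_lit 0) (XT.lf (nat_lit 0) (nat_lit 5524426530) (nat_lit 76) (nat_lit 12187491270) (nat_lit 76) (nat_lit 3368257771) (nat_lit 32) (nat_lit 4) (nat_lit 33) (nat_lit 5) (nat_lit 33) (nat_lit 4) (nat_lit 438) (nat_lit 307) (nat_lit 275)) (XT.lf (nat_lit 0) (nat_lit 1973951931) (nat_lit 152) (nat_lit 4975195129) (nat_lit 76) (nat_lit 14590157388) (nat_lit 31) (nat_lit 5) (nat_lit 33) (nat_lit 5) (nat_lit 32) (nat_lit 4) (nat_lit 439) (nat_lit 307) (nat_lit 274))) (XT.nd (nat_lit 78) (nat_lit 0) (nat_lit 0) (XT.lf (nat_lit 0) (nat_lit 5864845278) (nat_lit 76) (nat_lit 1527025096) (nat_lit 152) (nat_lit 14619847308) (nat_lit 30) (nat_lit 5) (nat_lit 31) (nat_lit 5) (nat_lit 32) (nat_lit 4) (nat_lit 440)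 (nat_lit 307) (nat_lit 273)) (XT.lf (nat_lit 0) (nat_lit 12989016480) (nat_lit 152) (nat_lit 5543438715) (nat_lit 0) (nat_lit 3965352458) (nat_lit 30) (nat_lit 5) (nat_lit 32) (nat_lit 4) (nat_lit 30) (nat_lit 4) (nat_lit 441) (nat_lit 307) (nat_lit 272)))))) (XT.nd (nat_lit 546) (nat_lit 304) (nat_lit 0) (XT.nd (nat_lit 234) (nat_lit 152) (nat_lit 0) (XT.nd (nat_lit 78) (nat_lit 152) (nat_lit 0) (XT.lf (nat_lit 0) (nat_lit 5331864537) (nat_lit 76) (nat_lit 13417659679) (nat_lit 76) (nat_lit 4249097589) (nat_lit 29) (nat_lit 4) (nat_lit 30) (nat_lit 5) (nat_lit 30) (nat_lit 4) (nat_lit 442) (nat_lit 307) (nat_lit 271)) (XT.nd (nat_lit 78) (nat_lit 76) (nat_lit 0) (XT.lf (nat_lit 0) (nat_lit 1131274625) (nat_lit 152) (nat_lit 7012752336) (nat_lit 76) (nat_lit 15370530480) (nat_lit 28) (nat_lit 5) (nat_lit 30) (nat_lit 5) (nat_lit 29) (nat_lit 4) (nat_lit 443) (nat_lit 307) (nat_lit 270)) (XT.lf (nat_lit 0) (nat_lit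 3862872528) (nat_lit 76) (nat_lit 2693133718) (nat_lit 152) (nat_lit 17489656748) (nat_lit 27) (nat_lit 5) (nat_lit 28) (nat_lit 5) (nat_lit 29) (nat_lit 4) (nat_lit 444) (nat_lit 307) (nat_lit 269)))) (XT.nd (nat_lit 156) (nat_lit 76) (nat_lit 0) (XT.nd (nat_lit 78) (nat_lit 76) (nat_lit 0) (XT.lf (nat_lit 0) (nat_lit 12174453377) (nat_lit 152) (nat_lit 9542309338) (nat_lit 0) (nat_lit 2875014143) (nat_lit 27) (nat_lit 5) (nat_lit 29) (nat_lit 4) (nat_lit 27) (nat_lit 4) (nat_lit 445) (nat_lit 307) (nat_lit 268)) (XT.lf (nat_lit 0) (nat_lit 1288218114) (nat_lit 76) (nat_lit 16645658573) (nat_lit 76) (nat_lit 7221228992) (nat_lit 26) (nat_lit 4) (nat_lit 27) (nat_lit 5) (nat_lit 27) (nat_lit 4) (nat_lit 446) (nat_lit 307) (nat_lit 267))) (XT.nd (nat_lit 78) (nat_lit 76) (nat_lit 0) (XT.lf (nat_lit 0) (nat_lit 12512879565) (nat_lit 76) (nat_lit 11383662279) (nat_lit 76) (nat_lit 1837882847) (nat_lit 26) (nat_lit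 4) (nat_lit 27) (nat_lit 5) (nat_lit 27) (nat_lit 4) (nat_lit 447) (nat_lit 307) (nat_lit 266)) (XT.lf (nat_lit 0) (nat_lit 3570010034) (nat_lit 152) (nat_lit 2416474452) (nat_lit 76) (nat_lit 20345512170) (nat_lit 25) (nat_lit 5) (nat_lit 27) (nat_lit 5) (nat_lit 26) (nat_lit 4) (nat_lit 448) (nat_lit 307) (nat_lit 265))))) (XT.nd (nat_lit 234) (nat_lit 152) (nat_lit 0) (XT.nd (nat_lit 78) (nat_lit 76) (nat_lit 0) (XT.lf (nat_lit 0) (nat_lit 8744807342) (nat_lit 76) (nat_lit 379717798) (nat_lit 152) (nat_lit 17821788733) (nat_lit 24) (nat_lit 5) (nat_lit 25) (nat_lit 5) (nat_lit 26) (nat_lit 4) (nat_lit 449) (nat_lit 307) (nat_lit 264)) (XT.nd (nat_lit 78) (nat_lit 76) (nat_lit 0) (XT.lf (nat_lit 0) (nat_lit 14859578016) (nat_lit 152) (nat_lit 7460492120) (nat_lit 0) (nat_lit 5258577047) (nat_lit 24) (nat_lit 5) (nat_lit 26) (nat_lit 4) (nat_lit 24) (nat_lit 4) (nat_lit 450) (nat_lit 307) (nat_lit 263)) (XT.lf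 (nat_lit 0) (nat_lit 3551279309) (nat_lit 76) (nat_lit 17192519819) (nat_lit 76) (nat_lit 7486841402) (nat_lit 23) (nat_lit 4) (nat_lit 24) (nat_lit 5) (nat_lit 24) (nat_lit 4) (nat_lit 451) (nat_lit 307) (nat_lit 262)))) (XT.nd (nat_lit 156) (nat_lit 76) (nat_lit 0) (XT.nd (nat_lit 78) (nat_lit 76) (nat_lit 0) (XT.lf (nat_lit 0) (nat_lit 14930471750) (nat_lit 76) (nat_lit 11889287992) (nat_lit 76) (nat_lit 2081980985) (nat_lit 23) (nat_lit 4) (nat_lit 24) (nat_lit 5) (nat_lit 24) (nat_lit 4) (nat_lit 452) (nat_lit 307) (nat_lit 261)) (XT.lf (nat_lit 0) (nat_lit 3358066330) (nat_lit 152) (nat_lit 3089100888) (nat_lit 76) (nat_lit 23146573549) (nat_lit 22) (nat_lit 5) (nat_lit 24) (nat_lit 5) (nat_lit 23) (nat_lit 4) (nat_lit 453) (nat_lit 307) (nat_lit 260))) (XT.nd (nat_lit 78) (nat_lit 0) (nat_lit 0) (XT.lf (nat_lit 0) (nat_lit 8147550581) (nat_lit 76) (nat_lit 793001544) (nat_lit 152) (nat_lit 21364700933)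 (nat_lit 21) (nat_lit 5) (nat_lit 22) (nat_lit 5) (nat_lit 23) (nat_lit 4) (nat_lit 454) (nat_lit 307) (nat_lit 259)) (XT.lf (nat_lit 0) (nat_lit 14713248327) (nat_lit 152) (nat_lit 11411687262) (nat_lit 0) (nat_lit 4912496104) (nat_lit 21) (nat_lit 5) (nat_lit 23) (nat_lit 4) (nat_lit 21) (nat_lit 4) (nat_lit 455) (nat_lit 307) (nat_lit 258))))))) (XT.nd (nat_lit 1092) (nat_lit 456) (nat_lit 0) (XT.nd (nat_lit 546) (nat_lit 228) (nat_lit 0) (XT.nd (nat_lit 234) (nat_lit 152) (nat_lit 0) (XT.nd (nat_lit 78) (nat_lit 76) (nat_lit 0) (XT.lf (nat_lit 0) (nat_lit 20611514876) (nat_lit 152) (nat_lit 458395152) (nat_lit 0) (nat_lit 10723096939) (nat_lit 21) (nat_lit 5) (nat_lit 23) (nat_lit 4) (nat_lit 21) (nat_lit 4) (nat_lit 456) (nat_lit 307) (nat_lit 257)) (XT.nd (nat_lit 78) (nat_lit 0) (nat_lit 0) (XT.lf (nat_lit 0) (nat_lit 10932703937) (nat_lit 76) (nat_lit 15805270682) (nat_lit 76) (nat_lit 5831740401) (nat_lit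 20) (nat_lit 4) (nat_lit 21) (nat_lit 5) (nat_lit 21) (nat_lit 4) (nat_lit 457) (nat_lit 307) (nat_lit 256)) (XT.lf (nat_lit 0) (nat_lit 22571825300) (nat_lit 76) (nat_lit 10427762323) (nat_lit 76) (nat_lit 371598699) (nat_lit 20) (nat_lit 4) (nat_lit 21) (nat_lit 5) (nat_lit 21) (nat_lit 4) (nat_lit 458) (nat_lit 307) (nat_lit 255)))) (XT.nd (nat_lit 156) (nat_lit 0) (nat_lit 0) (XT.nd (nat_lit 78) (nat_lit 0) (nat_lit 0) (XT.lf (nat_lit 0) (nat_lit 215998282) (nat_lit 76) (nat_lit 4883700463) (nat_lit 152) (nat_lit 29096995678) (nat_lit 18) (nat_lit 5) (nat_lit 19) (nat_lit 5) (nat_lit 20) (nat_lit 4) (nat_lit 459) (nat_lit 307) (nat_lit 254)) (XT.lf (nat_lit 0) (nat_lit 10793604990) (nat_lit 152) (nat_lit 23374448529) (nat_lit 0) (nat_lit 876828268) (nat_lit 18) (nat_lit 5) (nat_lit 20) (nat_lit 4) (nat_lit 18) (nat_lit 4) (nat_lit 460) (nat_lit 307) (nat_lit 253))) (XT.nd (nat_lit 78) (nat_lit 0) (nat_lit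 0) (XT.lf (nat_lit 0) (nat_lit 16656060493) (nat_lit 152) (nat_lit 12596659682) (nat_lit 0) (nat_lit 6665865116) (nat_lit 18) (nat_lit 5) (nat_lit 20) (nat_lit 4) (nat_lit 18) (nat_lit 4) (nat_lit 461) (nat_lit 307) (nat_lit 252)) (XT.lf (nat_lit 0) (nat_lit 22645242673) (nat_lit 152) (nat_lit 1590966998) (nat_lit 0) (nat_lit 12583767048) (nat_lit 18) (nat_lit 5) (nat_lit 20) (nat_lit 4) (nat_lit 18) (nat_lit 4) (nat_lit 462) (nat_lit 307) (nat_lit 251))))) (XT.nd (nat_lit 234) (nat_lit 76) (nat_lit 0) (XT.nd (nat_lit 78) (nat_lit 76) (nat_lit 0) (XT.lf (nat_lit 0) (nat_lit 9844344770) (nat_lit 76) (nat_lit 19016669890) (nat_lit 76) (nat_lit 8885990140) (nat_lit 17) (nat_lit 4) (nat_lit 18) (nat_lit 5) (nat_lit 18) (nat_lit 4) (nat_lit 463) (nat_lit 307) (nat_lit 250)) (XT.nd (nat_lit 78) (nat_lit 76) (nat_lit 0) (XT.lf (nat_lit 0) (nat_lit 21563587172) (nat_lit 76) (nat_lit 13668530650) (nat_lit 76) (nat_lit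 3470662430) (nat_lit 17) (nat_lit 4) (nat_lit 18) (nat_lit 5) (nat_lit 18) (nat_lit 4) (nat_lit 464) (nat_lit 307) (nat_lit 249)) (XT.lf (nat_lit 0) (nat_lit 2019718909) (nat_lit 152) (nat_lit 6163070358) (nat_lit 76) (nat_lit 31505222850) (nat_lit 16) (nat_lit 5) (nat_lit 18) (nat_lit 5) (nat_lit 17) (nat_lit 4) (nat_lit 465) (nat_lit 307) (nat_lit 248)))) (XT.nd (nat_lit 156) (nat_lit 0) (nat_lit 0) (XT.nd (nat_lit 78) (nat_lit 0) (nat_lit 0) (XT.lf (nat_lit 0) (nat_lit 5120520755) (nat_lit 76) (nat_lit 2488815242) (nat_lit 152) (nat_lit 33092307694) (nat_lit 15) (nat_lit 5) (nat_lit 16) (nat_lit 5) (nat_lit 17) (nat_lit 4) (nat_lit 466) (nat_lit 307) (nat_lit 247)) (XT.lf (nat_lit 0) (nat_lit 13417077360) (nat_lit 152) (nat_lit 24995376001) (nat_lit 0) (nat_lit 3331719797) (nat_lit 15) (nat_lit 5) (nat_lit 17) (nat_lit 4) (nat_lit 15) (nat_lit 4) (nat_lit 467) (nat_lit 307) (nat_lit 246))) (XT.nd (nat_lit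 78) (nat_lit 0) (nat_lit 0) (XT.lf (nat_lit 0) (nat_lit 19380132193) (nat_lit 152) (nat_lit 14201598572) (nat_lit 0) (nat_lit 9236817265) (nat_lit 15) (nat_lit 5) (nat_lit 17) (nat_lit 4) (nat_lit 15) (nat_lit 4) (nat_lit 468) (nat_lit 307) (nat_lit 245)) (XT.lf (nat_lit 0) (nat_lit 25479786919) (nat_lit 152) (nat_lit 3166435179) (nat_lit 0) (nat_lit 15280202705) (nat_lit 15) (nat_lit 5) (nat_lit 17) (nat_lit 4) (nat_lit 15) (nat_lit 4) (nat_lit 469) (nat_lit 307) (nat_lit 244)))))) (XT.nd (nat_lit 546) (nat_lit 228) (nat_lit 0) (XT.nd (nat_lit 234) (nat_lit 152) (nat_lit 0) (XT.nd (nat_lit 78) (nat_lit 0) (nat_lit 0) (XT.lf (nat_lit 0) (nat_lit 8281355628) (nat_lit 76) (nat_lit 23519621160) (nat_lit 76) (nat_lit 13265406572) (nat_lit 14) (nat_lit 4) (nat_lit 15) (nat_lit 5) (nat_lit 15) (nat_lit 4) (nat_lit 470) (nat_lit 307) (nat_lit 243)) (XT.nd (nat_lit 78) (nat_lit 0) (nat_lit 0) (XT.lf (nat_lit 0) (nat_lit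 20058246990) (nat_lit 76) (nat_lit 18244904397) (nat_lit 76) (nat_lit 7937650609) (nat_lit 14) (nat_lit 4) (nat_lit 15) (nat_lit 5) (nat_lit 15) (nat_lit 4) (nat_lit 471) (nat_lit 307) (nat_lit 242)) (XT.lf (nat_lit 0) (nat_lit 32111511123) (nat_lit 76) (nat_lit 12849437619) (nat_lit 76) (nat_lit 2490689464) (nat_lit 14) (nat_lit 4) (nat_lit 15) (nat_lit 5) (nat_lit 15) (nat_lit 4) (nat_lit 472) (nat_lit 307) (nat_lit 241)))) (XT.nd (nat_lit 156) (nat_lit 0) (nat_lit 0) (XT.nd (nat_lit 78) (nat_lit 76) (nat_lit 0) (XT.lf (nat_lit 0) (nat_lit 3020129839) (nat_lit 152) (nat_lit 4277879112) (nat_lit 76) (nat_lit 41401052777) (nat_lit 13) (nat_lit 5) (nat_lit 15) (nat_lit 5) (nat_lit 14) (nat_lit 4) (nat_lit 473) (nat_lit 307) (nat_lit 240)) (XT.lf (nat_lit 0) (nat_lit 7157987609) (nat_lit 76) (nat_lit 1519484645) (nat_lit 152) (nat_lit 41304759719) (nat_lit 12) (nat_lit 5) (nat_lit 13) (nat_lit 5) (nat_lit 14)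 (nat_lit 4) (nat_lit 474) (nat_lit 307) (nat_lit 239))) (XT.nd (nat_lit 78) (nat_lit 0) (nat_lit 0) (XT.lf (nat_lit 0) (nat_lit 14553275704) (nat_lit 152) (nat_lit 32394337384) (nat_lit 0) (nat_lit 4354823560) (nat_lit 12) (nat_lit 5) (nat_lit 14) (nat_lit 4) (nat_lit 12) (nat_lit 4) (nat_lit 475) (nat_lit 307) (nat_lit 238)) (XT.lf (nat_lit 0) (nat_lit 20583997631) (nat_lit 152) (nat_lit 21737766010) (nat_lit 0) (nat_lit 10341125992) (nat_lit 12) (nat_lit 5) (nat_lit 14) (nat_lit 4) (nat_lit 12) (nat_lit 4) (nat_lit 476) (nat_lit 307) (nat_lit 237))))) (XT.nd (nat_lit 312) (nat_lit 152) (nat_lit 0) (XT.nd (nat_lit 156) (nat_lit 0) (nat_lit 0) (XT.nd (nat_lit 78) (nat_lit 76) (nat_lit 0) (XT.lf (nat_lit 0) (nat_lit 26760301382) (nat_lit 152) (nat_lit 10830612458) (nat_lit 0) (nat_lit 16474304021) (nat_lit 12) (nat_lit 5) (nat_lit 14) (nat_lit 4) (nat_lit 12) (nat_lit 4) (nat_lit 477) (nat_lit 307) (nat_lit 236))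 (XT.lf (nat_lit 0) (nat_lit 343353864) (nat_lit 76) (nat_lit 32747530390) (nat_lit 76) (nat_lit 22419663396) (nat_lit 11) (nat_lit 4) (nat_lit 12) (nat_lit 5) (nat_lit 12) (nat_lit 4) (nat_lit 478) (nat_lit 307) (nat_lit 235))) (XT.nd (nat_lit 78) (nat_lit 0) (nat_lit 0) (XT.lf (nat_lit 0) (nat_lit 12008112068) (nat_lit 76) (nat_lit 27678690610) (nat_lit 76) (nat_lit 17310173486) (nat_lit 11) (nat_lit 4) (nat_lit 12) (nat_lit 5) (nat_lit 12) (nat_lit 4) (nat_lit 479) (nat_lit 307) (nat_lit 234)) (XT.lf (nat_lit 0) (nat_lit 23958304238) (nat_lit 76) (nat_lit 22489333366) (nat_lit 76) (nat_lit 12081350097) (nat_lit 11) (nat_lit 4) (nat_lit 12) (nat_lit 5) (nat_lit 12) (nat_lit 4) (nat_lit 480) (nat_lit 307) (nat_lit 233)))) (XT.nd (nat_lit 156) (nat_lit 152) (nat_lit 0) (XT.nd (nat_lit 78) (nat_lit 0) (nat_lit 0) (XT.lf (nat_lit 0) (nat_lit 36204372287) (nat_lit 76) (nat_lit 17174924268) (nat_lit 76) (nat_lit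 6728624353) (nat_lit 11) (nat_lit 4) (nat_lit 12) (nat_lit 5) (nat_lit 12) (nat_lit 4) (nat_lit 481) (nat_lit 307) (nat_lit 232)) (XT.lf (nat_lit 0) (nat_lit 48757016665) (nat_lit 76) (nat_lit 11730819657) (nat_lit 76) (nat_lit 1247319116) (nat_lit 11) (nat_lit 4) (nat_lit 12) (nat_lit 5) (nat_lit 12) (nat_lit 4) (nat_lit 482) (nat_lit 307) (nat_lit 231))) (XT.nd (nat_lit 78) (nat_lit 76) (nat_lit 0) (XT.lf (nat_lit 0) (nat_lit 4282132276) (nat_lit 152) (nat_lit 1826889133) (nat_lit 76) (nat_lit 57301832285) (nat_lit 10) (nat_lit 5) (nat_lit 12) (nat_lit 5) (nat_lit 11) (nat_lit 4) (nat_lit 483) (nat_lit 307) (nat_lit 230)) (XT.lf (nat_lit 0) (nat_lit 9779476104) (nat_lit 76) (nat_lit 237350948) (nat_lit 152) (nat_lit 55117693615) (nat_lit 9) (nat_lit 5) (nat_lit 10) (nat_lit 5) (nat_lit 11) (nat_lit 4) (nat_lit 484) (nat_lit 307) (nat_lit 229))))))))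
noncomputable def xc34 : XT := (XT.nd (nat_lit 48360) (nat_lit 0) (nat_lit 1140) (XT.nd (nat_lit 47268) (nat_lit 0) (nat_lit 3116) (XT.nd (nat_lit 546) (nat_lit 0) (nat_lit 0) (XT.nd (nat_lit 234) (nat_lit 76) (nat_lit 0) (XT.nd (nat_lit 78) (nat_lit 0) (nat_lit 0) (XT.lf (nat_lit 0) (nat_lit 15968510985) (nat_lit 152) (nat_lit 45251845489) (nat_lit 0) (nat_lit 5688193842) (nat_lit 9) (nat_lit 5) (nat_lit 11) (nat_lit 4) (nat_lit 9) (nat_lit 4) (nat_lit 485) (nat_lit 307) (nat_lit 228)) (XT.nd (nat_lit 78) (nat_lit 0) (nat_lit 0) (XT.lf (nat_lit 0) (nat_lit 22072419593) (nat_lit 152) (nat_lit 34904159260) (nat_lit 0) (nat_lit 11760012862) (nat_lit 9) (nat_lit 5) (nat_lit 11) (nat_lit 4) (nat_lit 9) (nat_lit 4) (nat_lit 486) (nat_lit 307) (nat_lit 227)) (XT.lf (nat_lit 0) (nat_lit 28331604825) (nat_lit 152) (nat_lit 24300662648) (nat_lit 0) (nat_lit 17988043155) (nat_lit 9) (nat_lit 5) (nat_lit 11) (nat_lit 4)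 (nat_lit 9) (nat_lit 4) (nat_lit 487) (nat_lit 307) (nat_lit 226)))) (XT.nd (nat_lit 156) (nat_lit 76) (nat_lit 0) (XT.nd (nat_lit 78) (nat_lit 0) (nat_lit 0) (XT.lf (nat_lit 0) (nat_lit 34751535873) (nat_lit 152) (nat_lit 13432090460) (nat_lit 0) (nat_lit 24377726689) (nat_lit 9) (nat_lit 5) (nat_lit 11) (nat_lit 4) (nat_lit 9) (nat_lit 4) (nat_lit 488) (nat_lit 307) (nat_lit 225)) (XT.lf (nat_lit 0) (nat_lit 41337822385) (nat_lit 152) (nat_lit 2288945887) (nat_lit 0) (nat_lit 30934646683) (nat_lit 9) (nat_lit 5) (nat_lit 11) (nat_lit 4) (nat_lit 9) (nat_lit 4) (nat_lit 489) (nat_lit 307) (nat_lit 224))) (XT.nd (nat_lit 78) (nat_lit 0) (nat_lit 0) (XT.lf (nat_lit 0) (nat_lit 9320382022) (nat_lit 76) (nat_lit 38865430560) (nat_lit 76) (nat_lit 28433743675) (nat_lit 8) (nat_lit 4) (nat_lit 9) (nat_lit 5) (nat_lit 9) (nat_lit 4) (nat_lit 490) (nat_lit 307) (nat_lit 223)) (XT.lf (nat_lit 0) (nat_lit 21275415745)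 (nat_lit 76) (nat_lit 33961728787) (nat_lit 76) (nat_lit 23502361141) (nat_lit 8) (nat_lit 4) (nat_lit 9) (nat_lit 5) (nat_lit 9) (nat_lit 4) (nat_lit 491) (nat_lit 307) (nat_lit 222))))) (XT.nd (nat_lit 46410) (nat_lit 0) (nat_lit 4864) (XT.nd (nat_lit 46254) (nat_lit 0) (nat_lit 5548) (XT.lf (nat_lit 0) (nat_lit 33541046915) (nat_lit 76) (nat_lit 28934492030) (nat_lit 76) (nat_lit 18448249860) (nat_lit 8) (nat_lit 4) (nat_lit 9) (nat_lit 5) (nat_lit 9) (nat_lit 4) (nat_lit 492) (nat_lit 307) (nat_lit 221)) (XT.nd (nat_lit 78) (nat_lit 228) (nat_lit 0) (XT.lf (nat_lit 0) (nat_lit 1192402066) (nat_lit 228) (nat_lit 3261984295) (nat_lit 0) (nat_lit 1192402066) (nat_lit 84) (nat_lit 5) (nat_lit 87) (nat_lit 4) (nat_lit 84) (nat_lit 4) (nat_lit 404) (nat_lit 308) (nat_lit 308)) (XT.lf (nat_lit 0) (nat_lit 2603037899) (nat_lit 228) (nat_lit 4731124389) (nat_lit 228) (nat_lit 4132369074) (nat_lit 81) (nat_lit 4)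 (nat_lit 84) (nat_lit 5) (nat_lit 84) (nat_lit 4) (nat_lit 405) (nat_lit 308) (nat_lit 307)))) (XT.nd (nat_lit 156) (nat_lit 456) (nat_lit 0) (XT.nd (nat_lit 78) (nat_lit 0) (nat_lit 0) (XT.lf (nat_lit 0) (nat_lit 307777339) (nat_lit 152) (nat_lit 425152953) (nat_lit 228) (nat_lit 10912707226) (nat_lit 78) (nat_lit 5) (nat_lit 80) (nat_lit 5) (nat_lit 81) (nat_lit 4) (nat_lit 406) (nat_lit 308) (nat_lit 306)) (XT.lf (nat_lit 0) (nat_lit 5682216531) (nat_lit 228) (nat_lit 2157488427) (nat_lit 0) (nat_lit 3988570449) (nat_lit 78) (nat_lit 5) (nat_lit 81) (nat_lit 4) (nat_lit 78) (nat_lit 4) (nat_lit 407) (nat_lit 308) (nat_lit 305))) (XT.nd (nat_lit 78) (nat_lit 228) (nat_lit 0) (XT.lf (nat_lit 0) (nat_lit 7255482524) (nat_lit 228) (nat_lit 3493741517) (nat_lit 228) (nat_lit 1268109093) (nat_lit 75) (nat_lit 4) (nat_lit 78) (nat_lit 5) (nat_lit 78) (nat_lit 4) (nat_lit 408) (nat_lit 308) (nat_lit 304)) (XT.lf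 (nat_lit 0) (nat_lit 3654973283) (nat_lit 228) (nat_lit 7564143382) (nat_lit 0) (nat_lit 992716954) (nat_lit 72) (nat_lit 5) (nat_lit 75) (nat_lit 4) (nat_lit 72) (nat_lit 4) (nat_lit 409) (nat_lit 308) (nat_lit 303)))))) (XT.nd (nat_lit 546) (nat_lit 836) (nat_lit 0) (XT.nd (nat_lit 234) (nat_lit 532) (nat_lit 0) (XT.nd (nat_lit 78) (nat_lit 228) (nat_lit 0) (XT.lf (nat_lit 0) (nat_lit 1833433766) (nat_lit 152) (nat_lit 6863782824) (nat_lit 152) (nat_lit 3714683631) (nat_lit 70) (nat_lit 4) (nat_lit 72) (nat_lit 5) (nat_lit 72) (nat_lit 4) (nat_lit 410) (nat_lit 308) (nat_lit 302)) (XT.nd (nat_lit 78) (nat_lit 152) (nat_lit 0) (XT.lf (nat_lit 0) (nat_lit 1221509900) (nat_lit 228) (nat_lit 1142097068) (nat_lit 76) (nat_lit 10254802699) (nat_lit 69) (nat_lit 5) (nat_lit 72) (nat_lit 5) (nat_lit 70) (nat_lit 4) (nat_lit 411) (nat_lit 308) (nat_lit 301)) (XT.lf (nat_lit 0) (nat_lit 6234881611) (nat_lit 228) (nat_lit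 4321954381) (nat_lit 0) (nat_lit 2273077476) (nat_lit 67) (nat_lit 5) (nat_lit 70) (nat_lit 4) (nat_lit 67) (nat_lit 4) (nat_lit 412) (nat_lit 308) (nat_lit 300)))) (XT.nd (nat_lit 156) (nat_lit 152) (nat_lit 0) (XT.nd (nat_lit 78) (nat_lit 228) (nat_lit 0) (XT.lf (nat_lit 0) (nat_lit 5327265757) (nat_lit 152) (nat_lit 6057640701) (nat_lit 152) (nat_lit 1663282987) (nat_lit 65) (nat_lit 4) (nat_lit 67) (nat_lit 5) (nat_lit 67) (nat_lit 4) (nat_lit 413) (nat_lit 308) (nat_lit 299)) (XT.lf (nat_lit 0) (nat_lit 1909898417) (nat_lit 152) (nat_lit 1402520825) (nat_lit 228) (nat_lit 9960742991) (nat_lit 62) (nat_lit 5) (nat_lit 64) (nat_lit 5) (nat_lit 65) (nat_lit 4) (nat_lit 414) (nat_lit 308) (nat_lit 298))) (XT.nd (nat_lit 78) (nat_lit 152) (nat_lit 0) (XT.lf (nat_lit 0) (nat_lit 8416026299) (nat_lit 228) (nat_lit 1741926765) (nat_lit 0) (nat_lit 3346088552) (nat_lit 62) (nat_lit 5) (nat_lit 65) (nat_lit 4) (nat_lit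 62) (nat_lit 4) (nat_lit 415) (nat_lit 308) (nat_lit 297)) (XT.lf (nat_lit 0) (nat_lit 8140738008) (nat_lit 152) (nat_lit 5527752940) (nat_lit 152) (nat_lit 73496941) (nat_lit 60) (nat_lit 4) (nat_lit 62) (nat_lit 5) (nat_lit 62) (nat_lit 4) (nat_lit 416) (nat_lit 308) (nat_lit 296))))) (XT.nd (nat_lit 234) (nat_lit 380) (nat_lit 0) (XT.nd (nat_lit 78) (nat_lit 228) (nat_lit 0) (XT.lf (nat_lit 0) (nat_lit 4229952403) (nat_lit 152) (nat_lit 724398787) (nat_lit 228) (nat_lit 9032397931) (nat_lit 57) (nat_lit 5) (nat_lit 59) (nat_lit 5) (nat_lit 60) (nat_lit 4) (nat_lit 417) (nat_lit 308) (nat_lit 295)) (XT.nd (nat_lit 78) (nat_lit 76) (nat_lit 0) (XT.lf (nat_lit 0) (nat_lit 19287714) (nat_lit 152) (nat_lit 10114423773) (nat_lit 152) (nat_lit 4105067144) (nat_lit 55) (nat_lit 4) (nat_lit 57) (nat_lit 5) (nat_lit 57) (nat_lit 4) (nat_lit 418) (nat_lit 308) (nat_lit 294)) (XT.lf (nat_lit 0) (nat_lit 962272748) (nat_lit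 228) (nat_lit 4397404738) (nat_lit 76) (nat_lit 9138089421) (nat_lit 54) (nat_lit 5) (nat_lit 57) (nat_lit 5) (nat_lit 55) (nat_lit 4) (nat_lit 419) (nat_lit 308) (nat_lit 293)))) (XT.nd (nat_lit 156) (nat_lit 152) (nat_lit 0) (XT.nd (nat_lit 78) (nat_lit 152) (nat_lit 0) (XT.lf (nat_lit 0) (nat_lit 5620236778) (nat_lit 76) (nat_lit 440143269) (nat_lit 152) (nat_lit 8704098687) (nat_lit 53) (nat_lit 5) (nat_lit 54) (nat_lit 5) (nat_lit 55) (nat_lit 4) (nat_lit 420) (nat_lit 308) (nat_lit 292)) (XT.lf (nat_lit 0) (nat_lit 792714861) (nat_lit 152) (nat_lit 10523270250) (nat_lit 152) (nat_lit 3723080730) (nat_lit 51) (nat_lit 4) (nat_lit 53) (nat_lit 5) (nat_lit 53) (nat_lit 4) (nat_lit 421) (nat_lit 308) (nat_lit 291))) (XT.nd (nat_lit 78) (nat_lit 76) (nat_lit 0) (XT.lf (nat_lit 0) (nat_lit 1385301074) (nat_lit 228) (nat_lit 4291412716) (nat_lit 76) (nat_lit 9644618989) (nat_lit 50) (nat_lit 5) (nat_lit 53) (nat_lit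 5) (nat_lit 51) (nat_lit 4) (nat_lit 422) (nat_lit 308) (nat_lit 290)) (XT.lf (nat_lit 0) (nat_lit 5876170825) (nat_lit 76) (nat_lit 662889598) (nat_lit 152) (nat_lit 9072902411) (nat_lit 49) (nat_lit 5) (nat_lit 50) (nat_lit 5) (nat_lit 51) (nat_lit 4) (nat_lit 423) (nat_lit 308) (nat_lit 289))))))) (XT.nd (nat_lit 1092) (nat_lit 760) (nat_lit 0) (XT.nd (nat_lit 546) (nat_lit 608) (nat_lit 0) (XT.nd (nat_lit 234) (nat_lit 304) (nat_lit 0) (XT.nd (nat_lit 78) (nat_lit 152) (nat_lit 0) (XT.lf (nat_lit 0) (nat_lit 325232388) (nat_lit 152) (nat_lit 11523170953) (nat_lit 152) (nat_lit 4062888711) (nat_lit 47) (nat_lit 4) (nat_lit 49) (nat_lit 5) (nat_lit 49) (nat_lit 4) (nat_lit 424) (nat_lit 308) (nat_lit 288)) (XT.nd (nat_lit 78) (nat_lit 76) (nat_lit 0) (XT.lf (nat_lit 0) (nat_lit 1092824067) (nat_lit 228) (nat_lit 5511402473) (nat_lit 76) (nat_lit 9614562575) (nat_lit 46) (nat_lit 5) (nat_lit 49) (nat_lit 5)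 (nat_lit 47) (nat_lit 4) (nat_lit 425) (nat_lit 308) (nat_lit 287)) (XT.lf (nat_lit 0) (nat_lit 4758584517) (nat_lit 76) (nat_lit 1522263698) (nat_lit 152) (nat_lit 10254685664) (nat_lit 45) (nat_lit 5) (nat_lit 46) (nat_lit 5) (nat_lit 47) (nat_lit 4) (nat_lit 426) (nat_lit 308) (nat_lit 286)))) (XT.nd (nat_lit 156) (nat_lit 152) (nat_lit 0) (XT.nd (nat_lit 78) (nat_lit 152) (nat_lit 0) (XT.lf (nat_lit 0) (nat_lit 11630261555) (nat_lit 152) (nat_lit 1606547156) (nat_lit 0) (nat_lit 3624808157) (nat_lit 45) (nat_lit 5) (nat_lit 47) (nat_lit 4) (nat_lit 45) (nat_lit 4) (nat_lit 427) (nat_lit 308) (nat_lit 285)) (XT.lf (nat_lit 0) (nat_lit 8871821538) (nat_lit 152) (nat_lit 8285057539) (nat_lit 152) (nat_lit 40109712) (nat_lit 43) (nat_lit 4) (nat_lit 45) (nat_lit 5) (nat_lit 45) (nat_lit 4) (nat_lit 428) (nat_lit 308) (nat_lit 284))) (XT.nd (nat_lit 78) (nat_lit 0) (nat_lit 0) (XT.lf (nat_lit 0) (nat_lit 1987811828)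 (nat_lit 76) (nat_lit 3167497786) (nat_lit 152) (nat_lit 12387029719) (nat_lit 41) (nat_lit 5) (nat_lit 42) (nat_lit 5) (nat_lit 43) (nat_lit 4) (nat_lit 429) (nat_lit 308) (nat_lit 283)) (XT.lf (nat_lit 0) (nat_lit 10527675738) (nat_lit 152) (nat_lit 5291759214) (nat_lit 0) (nat_lit 2077954224) (nat_lit 41) (nat_lit 5) (nat_lit 43) (nat_lit 4) (nat_lit 41) (nat_lit 4) (nat_lit 430) (nat_lit 308) (nat_lit 282))))) (XT.nd (nat_lit 234) (nat_lit 304) (nat_lit 0) (XT.nd (nat_lit 78) (nat_lit 152) (nat_lit 0) (XT.lf (nat_lit 0) (nat_lit 5197874144) (nat_lit 152) (nat_lit 10863858589) (nat_lit 152) (nat_lit 2201349376) (nat_lit 39) (nat_lit 4) (nat_lit 41) (nat_lit 5) (nat_lit 41) (nat_lit 4) (nat_lit 431) (nat_lit 308) (nat_lit 281)) (XT.nd (nat_lit 78) (nat_lit 76) (nat_lit 0) (XT.lf (nat_lit 0) (nat_lit 3034419356) (nat_lit 228) (nat_lit 2709227916) (nat_lit 76) (nat_lit 12896006706) (nat_lit 38) (nat_lit 5) (nat_lit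 41) (nat_lit 5) (nat_lit 39) (nat_lit 4) (nat_lit 432) (nat_lit 308) (nat_lit 280)) (XT.lf (nat_lit 0) (nat_lit 7943835957) (nat_lit 76) (nat_lit 437202457) (nat_lit 152) (nat_lit 10645896639) (nat_lit 37) (nat_lit 5) (nat_lit 38) (nat_lit 5) (nat_lit 39) (nat_lit 4) (nat_lit 433) (nat_lit 308) (nat_lit 279)))) (XT.nd (nat_lit 156) (nat_lit 152) (nat_lit 0) (XT.nd (nat_lit 78) (nat_lit 152) (nat_lit 0) (XT.lf (nat_lit 0) (nat_lit 13885913812) (nat_lit 152) (nat_lit 648643526) (nat_lit 0) (nat_lit 4891347878) (nat_lit 37) (nat_lit 5) (nat_lit 39) (nat_lit 4) (nat_lit 37) (nat_lit 4) (nat_lit 434) (nat_lit 308) (nat_lit 278)) (XT.lf (nat_lit 0) (nat_lit 10149808632) (nat_lit 152) (nat_lit 9432189327) (nat_lit 152) (nat_lit 254070855) (nat_lit 35) (nat_lit 4) (nat_lit 37) (nat_lit 5) (nat_lit 37) (nat_lit 4) (nat_lit 435) (nat_lit 308) (nat_lit 277))) (XT.nd (nat_lit 78) (nat_lit 0) (nat_lit 0) (XT.lf (nat_lit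 0) (nat_lit 850935469) (nat_lit 76) (nat_lit 4177271568) (nat_lit 152) (nat_lit 15230667414) (nat_lit 33) (nat_lit 5) (nat_lit 34) (nat_lit 5) (nat_lit 35) (nat_lit 4) (nat_lit 436) (nat_lit 308) (nat_lit 276)) (XT.lf (nat_lit 0) (nat_lit 10498976446) (nat_lit 152) (nat_lit 8947074762) (nat_lit 0) (nat_lit 1247189368) (nat_lit 33) (nat_lit 5) (nat_lit 35) (nat_lit 4) (nat_lit 33) (nat_lit 4) (nat_lit 437) (nat_lit 308) (nat_lit 275)))))) (XT.nd (nat_lit 546) (nat_lit 380) (nat_lit 0) (XT.nd (nat_lit 234) (nat_lit 152) (nat_lit 0) (XT.nd (nat_lit 78) (nat_lit 152) (nat_lit 0) (XT.lf (nat_lit 0) (nat_lit 1680116819) (nat_lit 76) (nat_lit 14437935995) (nat_lit 76) (nat_lit 5023064865) (nat_lit 32) (nat_lit 4) (nat_lit 33) (nat_lit 5) (nat_lit 33) (nat_lit 4) (nat_lit 438) (nat_lit 308) (nat_lit 274)) (XT.nd (nat_lit 78) (nat_lit 76) (nat_lit 0) (XT.lf (nat_lit 0) (nat_lit 315359539) (nat_lit 152) (nat_lit 8933025295)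 (nat_lit 76) (nat_lit 12353423788) (nat_lit 31) (nat_lit 5) (nat_lit 33) (nat_lit 5) (nat_lit 32) (nat_lit 4) (nat_lit 439) (nat_lit 308) (nat_lit 273)) (XT.lf (nat_lit 0) (nat_lit 1760432592) (nat_lit 76) (nat_lit 3898365493) (nat_lit 152) (nat_lit 16417660653) (nat_lit 30) (nat_lit 5) (nat_lit 31) (nat_lit 5) (nat_lit 32) (nat_lit 4) (nat_lit 440) (nat_lit 308) (nat_lit 272)))) (XT.nd (nat_lit 156) (nat_lit 76) (nat_lit 0) (XT.nd (nat_lit 78) (nat_lit 76) (nat_lit 0) (XT.lf (nat_lit 0) (nat_lit 11198211014) (nat_lit 152) (nat_lit 9756378111) (nat_lit 0) (nat_lit 1609693993) (nat_lit 30) (nat_lit 5) (nat_lit 32) (nat_lit 4) (nat_lit 30) (nat_lit 4) (nat_lit 441) (nat_lit 308) (nat_lit 271)) (XT.lf (nat_lit 0) (nat_lit 969151710) (nat_lit 76) (nat_lit 15913709197) (nat_lit 76) (nat_lit 6184514440) (nat_lit 29) (nat_lit 4) (nat_lit 30) (nat_lit 5) (nat_lit 30) (nat_lit 4) (nat_lit 442) (nat_lit 308) (nat_lit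 270))) (XT.nd (nat_lit 78) (nat_lit 76) (nat_lit 0) (XT.lf (nat_lit 0) (nat_lit 12086508480) (nat_lit 76) (nat_lit 10681959516) (nat_lit 76) (nat_lit 816184432) (nat_lit 29) (nat_lit 4) (nat_lit 30) (nat_lit 5) (nat_lit 30) (nat_lit 4) (nat_lit 443) (nat_lit 308) (nat_lit 269)) (XT.lf (nat_lit 0) (nat_lit 4554445998) (nat_lit 152) (nat_lit 752851965) (nat_lit 76) (nat_lit 18810798367) (nat_lit 28) (nat_lit 5) (nat_lit 30) (nat_lit 5) (nat_lit 29) (nat_lit 4) (nat_lit 444) (nat_lit 308) (nat_lit 268))))) (XT.nd (nat_lit 312) (nat_lit 152) (nat_lit 0) (XT.nd (nat_lit 156) (nat_lit 152) (nat_lit 0) (XT.nd (nat_lit 78) (nat_lit 0) (nat_lit 0) (XT.lf (nat_lit 0) (nat_lit 10107489973) (nat_lit 152) (nat_lit 14283347237) (nat_lit 0) (nat_lit 275337159) (nat_lit 27) (nat_lit 5) (nat_lit 29) (nat_lit 4) (nat_lit 27) (nat_lit 4) (nat_lit 445) (nat_lit 308) (nat_lit 267)) (XT.lf (nat_lit 0) (nat_lit 15822665843) (nat_lit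 152) (nat_lit 3539003614) (nat_lit 0) (nat_lit 5869163177) (nat_lit 27) (nat_lit 5) (nat_lit 29) (nat_lit 4) (nat_lit 27) (nat_lit 4) (nat_lit 446) (nat_lit 308) (nat_lit 266))) (XT.nd (nat_lit 78) (nat_lit 76) (nat_lit 0) (XT.lf (nat_lit 0) (nat_lit 7554777161) (nat_lit 76) (nat_lit 14164340452) (nat_lit 76) (nat_lit 4093022397) (nat_lit 26) (nat_lit 4) (nat_lit 27) (nat_lit 5) (nat_lit 27) (nat_lit 4) (nat_lit 447) (nat_lit 308) (nat_lit 265)) (XT.lf (nat_lit 0) (nat_lit 1327972254) (nat_lit 152) (nat_lit 7489918250) (nat_lit 76) (nat_lit 17593400775) (nat_lit 25) (nat_lit 5) (nat_lit 27) (nat_lit 5) (nat_lit 26) (nat_lit 4) (nat_lit 448) (nat_lit 308) (nat_lit 264)))) (XT.nd (nat_lit 156) (nat_lit 76) (nat_lit 0) (XT.nd (nat_lit 78) (nat_lit 0) (nat_lit 0) (XT.lf (nat_lit 0) (nat_lit 3511669617) (nat_lit 76) (nat_lit 3290509618) (nat_lit 152) (nat_lit 20225840301) (nat_lit 24) (nat_lit 5) (nat_lit 25) (nat_lit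 5) (nat_lit 26) (nat_lit 4) (nat_lit 449) (nat_lit 308) (nat_lit 263)) (XT.lf (nat_lit 0) (nat_lit 12479310913) (nat_lit 152) (nat_lit 12804996616) (nat_lit 0) (nat_lit 2377784696) (nat_lit 24) (nat_lit 5) (nat_lit 26) (nat_lit 4) (nat_lit 24) (nat_lit 4) (nat_lit 450) (nat_lit 308) (nat_lit 262))) (XT.nd (nat_lit 78) (nat_lit 76) (nat_lit 0) (XT.lf (nat_lit 0) (nat_lit 18300326134) (nat_lit 152) (nat_lit 1918485981) (nat_lit 0) (nat_lit 8097171327) (nat_lit 24) (nat_lit 5) (nat_lit 26) (nat_lit 4) (nat_lit 24) (nat_lit 4) (nat_lit 451) (nat_lit 308) (nat_lit 261)) (XT.lf (nat_lit 0) (nat_lit 9367110935) (nat_lit 76) (nat_lit 14961612296) (nat_lit 76) (nat_lit 4659788956) (nat_lit 23) (nat_lit 4) (nat_lit 24) (nat_lit 5) (nat_lit 24) (nat_lit 4) (nat_lit 452) (nat_lit 308) (nat_lit 260))))))))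
noncomputable def xc35 : XT := (XT.nd (nat_lit 2184) (nat_lit 228) (nat_lit 0) (XT.nd (nat_lit 1092) (nat_lit 380) (nat_lit 0) (XT.nd (nat_lit 546) (nat_lit 228) (nat_lit 0) (XT.nd (nat_lit 234) (nat_lit 152) (nat_lit 0) (XT.nd (nat_lit 78) (nat_lit 76) (nat_lit 0) (XT.lf (nat_lit 0) (nat_lit 802365395) (nat_lit 152) (nat_lit 8768816280) (nat_lit 76) (nat_lit 20110921342) (nat_lit 22) (nat_lit 5) (nat_lit 24) (nat_lit 5) (nat_lit 23) (nat_lit 4) (nat_lit 453) (nat_lit 308) (nat_lit 259)) (XT.nd (nat_lit 78) (nat_lit 0) (nat_lit 0) (XT.lf (nat_lit 0) (nat_lit 2300968098) (nat_lit 76) (nat_lit 4000308102) (nat_lit 152) (nat_lit 24094847861) (nat_lit 21) (nat_lit 5) (nat_lit 22) (nat_lit 5) (nat_lit 23) (nat_lit 4) (nat_lit 454) (nat_lit 308) (nat_lit 258)) (XT.lf (nat_lit 0) (nat_lit 12015820608) (nat_lit 152) (nat_lit 17371143683) (nat_lit 0) (nat_lit 1743084418) (nat_lit 21) (nat_lit 5) (nat_lit 23) (nat_lit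 4) (nat_lit 21) (nat_lit 4) (nat_lit 455) (nat_lit 308) (nat_lit 257)))) (XT.nd (nat_lit 156) (nat_lit 76) (nat_lit 0) (XT.nd (nat_lit 78) (nat_lit 76) (nat_lit 0) (XT.lf (nat_lit 0) (nat_lit 17887561718) (nat_lit 152) (nat_lit 6469146261) (nat_lit 0) (nat_lit 7529713185) (nat_lit 21) (nat_lit 5) (nat_lit 23) (nat_lit 4) (nat_lit 21) (nat_lit 4) (nat_lit 456) (nat_lit 308) (nat_lit 256)) (XT.lf (nat_lit 0) (nat_lit 4751535297) (nat_lit 76) (nat_lit 19177316136) (nat_lit 76) (nat_lit 8736834259) (nat_lit 20) (nat_lit 4) (nat_lit 21) (nat_lit 5) (nat_lit 21) (nat_lit 4) (nat_lit 457) (nat_lit 308) (nat_lit 255))) (XT.nd (nat_lit 78) (nat_lit 76) (nat_lit 0) (XT.lf (nat_lit 0) (nat_lit 16341344235) (nat_lit 76) (nat_lit 13823643412) (nat_lit 76) (nat_lit 3302934988) (nat_lit 20) (nat_lit 4) (nat_lit 21) (nat_lit 5) (nat_lit 21) (nat_lit 4) (nat_lit 458) (nat_lit 308) (nat_lit 254)) (XT.lf (nat_lit 0) (nat_lit 2198506159)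 (nat_lit 152) (nat_lit 6135630772) (nat_lit 76) (nat_lit 25960952115) (nat_lit 19) (nat_lit 5) (nat_lit 21) (nat_lit 5) (nat_lit 20) (nat_lit 4) (nat_lit 459) (nat_lit 308) (nat_lit 253))))) (XT.nd (nat_lit 234) (nat_lit 152) (nat_lit 0) (XT.nd (nat_lit 78) (nat_lit 0) (nat_lit 0) (XT.lf (nat_lit 0) (nat_lit 5157647058) (nat_lit 76) (nat_lit 2641301980) (nat_lit 152) (nat_lit 27347132494) (nat_lit 18) (nat_lit 5) (nat_lit 19) (nat_lit 5) (nat_lit 20) (nat_lit 4) (nat_lit 460) (nat_lit 308) (nat_lit 252)) (XT.nd (nat_lit 78) (nat_lit 0) (nat_lit 0) (XT.lf (nat_lit 0) (nat_lit 13611804393) (nat_lit 152) (nat_lit 19232265585) (nat_lit 0) (nat_lit 3177204250) (nat_lit 18) (nat_lit 5) (nat_lit 20) (nat_lit 4) (nat_lit 18) (nat_lit 4) (nat_lit 461) (nat_lit 308) (nat_lit 251)) (XT.lf (nat_lit 0) (nat_lit 19577481389) (nat_lit 152) (nat_lit 8272213453) (nat_lit 0) (nat_lit 9073677122) (nat_lit 18) (nat_lit 5) (nat_lit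 20) (nat_lit 4) (nat_lit 18) (nat_lit 4) (nat_lit 462) (nat_lit 308) (nat_lit 250)))) (XT.nd (nat_lit 156) (nat_lit 76) (nat_lit 0) (XT.nd (nat_lit 78) (nat_lit 0) (nat_lit 0) (XT.lf (nat_lit 0) (nat_lit 2984935315) (nat_lit 76) (nat_lit 22719560654) (nat_lit 76) (nat_lit 12148567917) (nat_lit 17) (nat_lit 4) (nat_lit 18) (nat_lit 5) (nat_lit 18) (nat_lit 4) (nat_lit 463) (nat_lit 308) (nat_lit 249)) (XT.lf (nat_lit 0) (nat_lit 14660300926) (nat_lit 76) (nat_lit 17392720545) (nat_lit 76) (nat_lit 6756496283) (nat_lit 17) (nat_lit 4) (nat_lit 18) (nat_lit 5) (nat_lit 18) (nat_lit 4) (nat_lit 464) (nat_lit 308) (nat_lit 248))) (XT.nd (nat_lit 78) (nat_lit 76) (nat_lit 0) (XT.lf (nat_lit 0) (nat_lit 26599451887) (nat_lit 76) (nat_lit 11948053131) (nat_lit 76) (nat_lit 1248497292) (nat_lit 17) (nat_lit 4) (nat_lit 18) (nat_lit 5) (nat_lit 18) (nat_lit 4) (nat_lit 465) (nat_lit 308) (nat_lit 247)) (XT.lf (nat_lit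 0) (nat_lit 4294767574) (nat_lit 152) (nat_lit 2042664630) (nat_lit 76) (nat_lit 34474684161) (nat_lit 16) (nat_lit 5) (nat_lit 18) (nat_lit 5) (nat_lit 17) (nat_lit 4) (nat_lit 466) (nat_lit 308) (nat_lit 246)))))) (XT.nd (nat_lit 546) (nat_lit 228) (nat_lit 0) (XT.nd (nat_lit 234) (nat_lit 76) (nat_lit 0) (XT.nd (nat_lit 78) (nat_lit 0) (nat_lit 0) (XT.lf (nat_lit 0) (nat_lit 9537225415) (nat_lit 76) (nat_lit 491328430) (nat_lit 152) (nat_lit 31828311604) (nat_lit 15) (nat_lit 5) (nat_lit 16) (nat_lit 5) (nat_lit 17) (nat_lit 4) (nat_lit 467) (nat_lit 308) (nat_lit 245)) (XT.nd (nat_lit 78) (nat_lit 0) (nat_lit 0) (XT.lf (nat_lit 0) (nat_lit 15966052354) (nat_lit 152) (nat_lit 21561744267) (nat_lit 0) (nat_lit 5404211327) (nat_lit 15) (nat_lit 5) (nat_lit 17) (nat_lit 4) (nat_lit 15) (nat_lit 4) (nat_lit 468) (nat_lit 308) (nat_lit 244)) (XT.lf (nat_lit 0) (nat_lit 22045480501) (nat_lit 152) (nat_lit 10566002826)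 (nat_lit 0) (nat_lit 11429009100) (nat_lit 15) (nat_lit 5) (nat_lit 17) (nat_lit 4) (nat_lit 15) (nat_lit 4) (nat_lit 469) (nat_lit 308) (nat_lit 243)))) (XT.nd (nat_lit 156) (nat_lit 0) (nat_lit 0) (XT.nd (nat_lit 78) (nat_lit 0) (nat_lit 0) (XT.lf (nat_lit 0) (nat_lit 695486614) (nat_lit 76) (nat_lit 27578626289) (nat_lit 76) (nat_lit 16909115689) (nat_lit 14) (nat_lit 4) (nat_lit 15) (nat_lit 5) (nat_lit 15) (nat_lit 4) (nat_lit 470) (nat_lit 308) (nat_lit 242)) (XT.lf (nat_lit 0) (nat_lit 12434479468) (nat_lit 76) (nat_lit 22322378239) (nat_lit 76) (nat_lit 11601373272) (nat_lit 14) (nat_lit 4) (nat_lit 15) (nat_lit 5) (nat_lit 15) (nat_lit 4) (nat_lit 471) (nat_lit 308) (nat_lit 241))) (XT.nd (nat_lit 78) (nat_lit 0) (nat_lit 0) (XT.lf (nat_lit 0) (nat_lit 24450948934) (nat_lit 76) (nat_lit 16944842251) (nat_lit 76) (nat_lit 6173842752) (nat_lit 14) (nat_lit 4) (nat_lit 15) (nat_lit 5) (nat_lit 15) (nat_lit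 4) (nat_lit 472) (nat_lit 308) (nat_lit 240)) (XT.lf (nat_lit 0) (nat_lit 36755394840) (nat_lit 76) (nat_lit 11441319507) (nat_lit 76) (nat_lit 621781627) (nat_lit 14) (nat_lit 4) (nat_lit 15) (nat_lit 5) (nat_lit 15) (nat_lit 4) (nat_lit 473) (nat_lit 308) (nat_lit 239))))) (XT.nd (nat_lit 234) (nat_lit 76) (nat_lit 0) (XT.nd (nat_lit 78) (nat_lit 76) (nat_lit 0) (XT.lf (nat_lit 0) (nat_lit 4960929198) (nat_lit 152) (nat_lit 795976248) (nat_lit 76) (nat_lit 44347543787) (nat_lit 13) (nat_lit 5) (nat_lit 15) (nat_lit 5) (nat_lit 14) (nat_lit 4) (nat_lit 474) (nat_lit 308) (nat_lit 238)) (XT.nd (nat_lit 78) (nat_lit 0) (nat_lit 0) (XT.lf (nat_lit 0) (nat_lit 10770187965) (nat_lit 152) (nat_lit 40480852340) (nat_lit 0) (nat_lit 175610683) (nat_lit 12) (nat_lit 5) (nat_lit 14) (nat_lit 4) (nat_lit 12) (nat_lit 4) (nat_lit 475) (nat_lit 308) (nat_lit 237)) (XT.lf (nat_lit 0) (nat_lit 16783501107) (nat_lit 152) (nat_lit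 29858327746) (nat_lit 0) (nat_lit 6145798103) (nat_lit 12) (nat_lit 5) (nat_lit 14) (nat_lit 4) (nat_lit 12) (nat_lit 4) (nat_lit 476) (nat_lit 308) (nat_lit 236)))) (XT.nd (nat_lit 156) (nat_lit 76) (nat_lit 0) (XT.nd (nat_lit 78) (nat_lit 0) (nat_lit 0) (XT.lf (nat_lit 0) (nat_lit 22942903125) (nat_lit 152) (nat_lit 18984229320) (nat_lit 0) (nat_lit 12263330487) (nat_lit 12) (nat_lit 5) (nat_lit 14) (nat_lit 4) (nat_lit 12) (nat_lit 4) (nat_lit 477) (nat_lit 308) (nat_lit 235)) (XT.lf (nat_lit 0) (nat_lit 29253776020) (nat_lit 152) (nat_lit 7849055424) (nat_lit 0) (nat_lit 18533553253) (nat_lit 12) (nat_lit 5) (nat_lit 14) (nat_lit 4) (nat_lit 12) (nat_lit 4) (nat_lit 478) (nat_lit 308) (nat_lit 234))) (XT.nd (nat_lit 78) (nat_lit 0) (nat_lit 0) (XT.lf (nat_lit 0) (nat_lit 3627713461) (nat_lit 76) (nat_lit 32128792487) (nat_lit 76) (nat_lit 21369103575) (nat_lit 11) (nat_lit 4) (nat_lit 12) (nat_lit 5) (nat_lit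 12) (nat_lit 4) (nat_lit 479) (nat_lit 308) (nat_lit 233)) (XT.lf (nat_lit 0) (nat_lit 15547053471) (nat_lit 76) (nat_lit 26954523353) (nat_lit 76) (nat_lit 16156517795) (nat_lit 11) (nat_lit 4) (nat_lit 12) (nat_lit 5) (nat_lit 12) (nat_lit 4) (nat_lit 480) (nat_lit 308) (nat_lit 232))))))) (XT.nd (nat_lit 47112) (nat_lit 0) (nat_lit 3724) (XT.nd (nat_lit 546) (nat_lit 76) (nat_lit 0) (XT.nd (nat_lit 234) (nat_lit 76) (nat_lit 0) (XT.nd (nat_lit 78) (nat_lit 76) (nat_lit 0) (XT.lf (nat_lit 0) (nat_lit 27763167967) (nat_lit 76) (nat_lit 21654762905) (nat_lit 76) (nat_lit 10819556721) (nat_lit 11) (nat_lit 4) (nat_lit 12) (nat_lit 5) (nat_lit 12) (nat_lit 4) (nat_lit 481) (nat_lit 308) (nat_lit 231)) (XT.nd (nat_lit 78) (nat_lit 76) (nat_lit 0) (XT.lf (nat_lit 0) (nat_lit 40286731225) (nat_lit 76) (nat_lit 16224880286) (nat_lit 76) (nat_lit 5353556987) (nat_lit 11) (nat_lit 4) (nat_lit 12) (nat_lit 5) (nat_lit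 12) (nat_lit 4) (nat_lit 482) (nat_lit 308) (nat_lit 230)) (XT.lf (nat_lit 0) (nat_lit 241452149) (nat_lit 152) (nat_lit 10416240593) (nat_lit 76) (nat_lit 52884795822) (nat_lit 10) (nat_lit 5) (nat_lit 12) (nat_lit 5) (nat_lit 11) (nat_lit 4) (nat_lit 483) (nat_lit 308) (nat_lit 229)))) (XT.nd (nat_lit 156) (nat_lit 0) (nat_lit 0) (XT.nd (nat_lit 78) (nat_lit 0) (nat_lit 0) (XT.lf (nat_lit 0) (nat_lit 990934731) (nat_lit 76) (nat_lit 4886585973) (nat_lit 152) (nat_lit 59391594169) (nat_lit 9) (nat_lit 5) (nat_lit 10) (nat_lit 5) (nat_lit 11) (nat_lit 4) (nat_lit 484) (nat_lit 308) (nat_lit 228)) (XT.lf (nat_lit 0) (nat_lit 11770387311) (nat_lit 152) (nat_lit 54158003476) (nat_lit 0) (nat_lit 1116518791) (nat_lit 9) (nat_lit 5) (nat_lit 11) (nat_lit 4) (nat_lit 9) (nat_lit 4) (nat_lit 485) (nat_lit 308) (nat_lit 227))) (XT.nd (nat_lit 78) (nat_lit 0) (nat_lit 0) (XT.lf (nat_lit 0) (nat_lit 17860581320) (nat_lit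 152) (nat_lit 43837223751) (nat_lit 0) (nat_lit 7175557861) (nat_lit 9) (nat_lit 5) (nat_lit 11) (nat_lit 4) (nat_lit 9) (nat_lit 4) (nat_lit 486) (nat_lit 308) (nat_lit 226)) (XT.lf (nat_lit 0) (nat_lit 24106451409) (nat_lit 152) (nat_lit 33259849959) (nat_lit 0) (nat_lit 13391180436) (nat_lit 9) (nat_lit 5) (nat_lit 11) (nat_lit 4) (nat_lit 9) (nat_lit 4) (nat_lit 487) (nat_lit 308) (nat_lit 225))))) (XT.nd (nat_lit 234) (nat_lit 0) (nat_lit 0) (XT.nd (nat_lit 78) (nat_lit 76) (nat_lit 0) (XT.lf (nat_lit 0) (nat_lit 30513455133) (nat_lit 152) (nat_lit 22416639732) (nat_lit 0) (nat_lit 19768817641) (nat_lit 9) (nat_lit 5) (nat_lit 11) (nat_lit 4) (nat_lit 9) (nat_lit 4) (nat_lit 488) (nat_lit 308) (nat_lit 224)) (XT.nd (nat_lit 78) (nat_lit 76) (nat_lit 0) (XT.lf (nat_lit 0) (nat_lit 37087190846) (nat_lit 152) (nat_lit 11298118421) (nat_lit 0) (nat_lit 26314042171) (nat_lit 9) (nat_lit 5) (nat_lit 11) (nat_lit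 4) (nat_lit 9) (nat_lit 4) (nat_lit 489) (nat_lit 308) (nat_lit 223)) (XT.lf (nat_lit 0) (nat_lit 107527432) (nat_lit 76) (nat_lit 43726908775) (nat_lit 76) (nat_lit 32926079340) (nat_lit 8) (nat_lit 4) (nat_lit 9) (nat_lit 5) (nat_lit 9) (nat_lit 4) (nat_lit 490) (nat_lit 308) (nat_lit 222)))) (XT.nd (nat_lit 46176) (nat_lit 0) (nat_lit 6004) (XT.nd (nat_lit 78) (nat_lit 0) (nat_lit 0) (XT.lf (nat_lit 0) (nat_lit 12038889448) (nat_lit 76) (nat_lit 38834820828) (nat_lit 76) (nat_lit 28007116869) (nat_lit 8) (nat_lit 4) (nat_lit 9) (nat_lit 5) (nat_lit 9) (nat_lit 4) (nat_lit 491) (nat_lit 308) (nat_lit 221)) (XT.lf (nat_lit 0) (nat_lit 24281538378) (nat_lit 76) (nat_lit 33818859632) (nat_lit 76) (nat_lit 22965063901) (nat_lit 8) (nat_lit 4) (nat_lit 9) (nat_lit 5) (nat_lit 9) (nat_lit 4) (nat_lit 492) (nat_lit 308) (nat_lit 220))) (XT.nd (nat_lit 78) (nat_lit 228) (nat_lit 0) (XT.lf (nat_lit 0) (nat_lit 2182885918)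 (nat_lit 304) (nat_lit 1114578103) (nat_lit 0) (nat_lit 2182885918) (nat_lit 90) (nat_lit 5) (nat_lit 94) (nat_lit 4) (nat_lit 90) (nat_lit 4) (nat_lit 402) (nat_lit 309) (nat_lit 309)) (XT.lf (nat_lit 0) (nat_lit 6781728213) (nat_lit 228) (nat_lit 2489534794) (nat_lit 228) (nat_lit 1854315281) (nat_lit 87) (nat_lit 4) (nat_lit 90) (nat_lit 5) (nat_lit 90) (nat_lit 4) (nat_lit 403) (nat_lit 309) (nat_lit 308)))))) (XT.nd (nat_lit 546) (nat_lit 988) (nat_lit 0) (XT.nd (nat_lit 234) (nat_lit 608) (nat_lit 0) (XT.nd (nat_lit 78) (nat_lit 456) (nat_lit 0) (XT.lf (nat_lit 0) (nat_lit 2947899459) (nat_lit 228) (nat_lit 6614869873) (nat_lit 0) (nat_lit 1732426170) (nat_lit 84) (nat_lit 5) (nat_lit 87) (nat_lit 4) (nat_lit 84) (nat_lit 4) (nat_lit 404) (nat_lit 309) (nat_lit 307)) (XT.nd (nat_lit 78) (nat_lit 228) (nat_lit 0) (XT.lf (nat_lit 0) (nat_lit 2420317408) (nat_lit 228) (nat_lit 5423122964) (nat_lit 228) (nat_lit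 3626333835) (nat_lit 81) (nat_lit 4) (nat_lit 84) (nat_lit 5) (nat_lit 84) (nat_lit 4) (nat_lit 405) (nat_lit 309) (nat_lit 306)) (XT.lf (nat_lit 0) (nat_lit 22961372) (nat_lit 152) (nat_lit 1151489273) (nat_lit 228) (nat_lit 10475932119) (nat_lit 78) (nat_lit 5) (nat_lit 80) (nat_lit 5) (nat_lit 81) (nat_lit 4) (nat_lit 406) (nat_lit 309) (nat_lit 305)))) (XT.nd (nat_lit 156) (nat_lit 380) (nat_lit 0) (XT.nd (nat_lit 78) (nat_lit 228) (nat_lit 0) (XT.lf (nat_lit 0) (nat_lit 6065173177) (nat_lit 228) (nat_lit 2528827807) (nat_lit 0) (nat_lit 3240785438) (nat_lit 78) (nat_lit 5) (nat_lit 81) (nat_lit 4) (nat_lit 78) (nat_lit 4) (nat_lit 407) (nat_lit 309) (nat_lit 304)) (XT.lf (nat_lit 0) (nat_lit 6788862805) (nat_lit 228) (nat_lit 4288753110) (nat_lit 228) (nat_lit 947873777) (nat_lit 75) (nat_lit 4) (nat_lit 78) (nat_lit 5) (nat_lit 78) (nat_lit 4) (nat_lit 408) (nat_lit 309) (nat_lit 303))) (XT.nd (nat_lit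 78) (nat_lit 152) (nat_lit 0) (XT.lf (nat_lit 0) (nat_lit 3905473492) (nat_lit 228) (nat_lit 8141278567) (nat_lit 0) (nat_lit 175058460) (nat_lit 72) (nat_lit 5) (nat_lit 75) (nat_lit 4) (nat_lit 72) (nat_lit 4) (nat_lit 409) (nat_lit 309) (nat_lit 302)) (XT.lf (nat_lit 0) (nat_lit 1156463543) (nat_lit 152) (nat_lit 7735092144) (nat_lit 152) (nat_lit 3532014137) (nat_lit 70) (nat_lit 4) (nat_lit 72) (nat_lit 5) (nat_lit 72) (nat_lit 4) (nat_lit 410) (nat_lit 309) (nat_lit 301))))) (XT.nd (nat_lit 312) (nat_lit 380) (nat_lit 0) (XT.nd (nat_lit 156) (nat_lit 380) (nat_lit 0) (XT.nd (nat_lit 78) (nat_lit 152) (nat_lit 0) (XT.lf (nat_lit 0) (nat_lit 1351089934) (nat_lit 228) (nat_lit 1919261531) (nat_lit 76) (nat_lit 9361168293) (nat_lit 69) (nat_lit 5) (nat_lit 72) (nat_lit 5) (nat_lit 70) (nat_lit 4) (nat_lit 411) (nat_lit 309) (nat_lit 300)) (XT.lf (nat_lit 0) (nat_lit 6298786660) (nat_lit 228) (nat_lit 5206169714)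 (nat_lit 0) (nat_lit 1340044636) (nat_lit 67) (nat_lit 5) (nat_lit 70) (nat_lit 4) (nat_lit 67) (nat_lit 4) (nat_lit 412) (nat_lit 309) (nat_lit 299))) (XT.nd (nat_lit 78) (nat_lit 228) (nat_lit 0) (XT.lf (nat_lit 0) (nat_lit 4339269380) (nat_lit 152) (nat_lit 7052215673) (nat_lit 152) (nat_lit 1673518718) (nat_lit 65) (nat_lit 4) (nat_lit 67) (nat_lit 5) (nat_lit 67) (nat_lit 4) (nat_lit 413) (nat_lit 309) (nat_lit 298)) (XT.lf (nat_lit 0) (nat_lit 798876631) (nat_lit 152) (nat_lit 2445111950) (nat_lit 228) (nat_lit 10047749362) (nat_lit 62) (nat_lit 5) (nat_lit 64) (nat_lit 5) (nat_lit 65) (nat_lit 4) (nat_lit 414) (nat_lit 309) (nat_lit 297)))) (XT.nd (nat_lit 156) (nat_lit 228) (nat_lit 0) (XT.nd (nat_lit 78) (nat_lit 152) (nat_lit 0) (XT.lf (nat_lit 0) (nat_lit 8290090502) (nat_lit 228) (nat_lit 2946369805) (nat_lit 0) (nat_lit 2287888571) (nat_lit 62) (nat_lit 5) (nat_lit 65) (nat_lit 4) (nat_lit 62) (nat_lit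 4) (nat_lit 415) (nat_lit 309) (nat_lit 296)) (XT.lf (nat_lit 0) (nat_lit 6828288656) (nat_lit 152) (nat_lit 6655550320) (nat_lit 152) (nat_lit 280223873) (nat_lit 60) (nat_lit 4) (nat_lit 62) (nat_lit 5) (nat_lit 62) (nat_lit 4) (nat_lit 416) (nat_lit 309) (nat_lit 295))) (XT.nd (nat_lit 78) (nat_lit 0) (nat_lit 0) (XT.lf (nat_lit 0) (nat_lit 2786743867) (nat_lit 152) (nat_lit 1905042894) (nat_lit 228) (nat_lit 9318898936) (nat_lit 57) (nat_lit 5) (nat_lit 59) (nat_lit 5) (nat_lit 60) (nat_lit 4) (nat_lit 417) (nat_lit 309) (nat_lit 294)) (XT.lf (nat_lit 0) (nat_lit 9813819989) (nat_lit 228) (nat_lit 1519605486) (nat_lit 0) (nat_lit 2931015229) (nat_lit 57) (nat_lit 5) (nat_lit 60) (nat_lit 4) (nat_lit 57) (nat_lit 4) (nat_lit 418) (nat_lit 309) (nat_lit 293))))))))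
noncomputable def xc36 : XT := (XT.nd (nat_lit 2184) (nat_lit 1140) (nat_lit 0) (XT.nd (nat_lit 1092) (nat_lit 836) (nat_lit 0) (XT.nd (nat_lit 546) (nat_lit 608) (nat_lit 0) (XT.nd (nat_lit 234) (nat_lit 532) (nat_lit 0) (XT.nd (nat_lit 78) (nat_lit 76) (nat_lit 0) (XT.lf (nat_lit 0) (nat_lit 562716987) (nat_lit 228) (nat_lit 6072005576) (nat_lit 76) (nat_lit 7890633782) (nat_lit 54) (nat_lit 5) (nat_lit 57) (nat_lit 5) (nat_lit 55) (nat_lit 4) (nat_lit 419) (nat_lit 309) (nat_lit 292)) (XT.nd (nat_lit 78) (nat_lit 0) (nat_lit 0) (XT.lf (nat_lit 0) (nat_lit 3830295435) (nat_lit 76) (nat_lit 1768954309) (nat_lit 152) (nat_lit 9194670867) (nat_lit 53) (nat_lit 5) (nat_lit 54) (nat_lit 5) (nat_lit 55) (nat_lit 4) (nat_lit 420) (nat_lit 309) (nat_lit 291)) (XT.lf (nat_lit 0) (nat_lit 10790275806) (nat_lit 152) (nat_lit 1109964019) (nat_lit 0) (nat_lit 3170210315) (nat_lit 53) (nat_lit 5) (nat_lit 55) (nat_lit 4)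 (nat_lit 53) (nat_lit 4) (nat_lit 421) (nat_lit 309) (nat_lit 290)))) (XT.nd (nat_lit 156) (nat_lit 228) (nat_lit 0) (XT.nd (nat_lit 78) (nat_lit 76) (nat_lit 0) (XT.lf (nat_lit 0) (nat_lit 783985664) (nat_lit 228) (nat_lit 6323122532) (nat_lit 76) (nat_lit 8247427078) (nat_lit 50) (nat_lit 5) (nat_lit 53) (nat_lit 5) (nat_lit 51) (nat_lit 4) (nat_lit 422) (nat_lit 309) (nat_lit 289)) (XT.lf (nat_lit 0) (nat_lit 3724124521) (nat_lit 76) (nat_lit 2150115293) (nat_lit 152) (nat_lit 9772835293) (nat_lit 49) (nat_lit 5) (nat_lit 50) (nat_lit 5) (nat_lit 51) (nat_lit 4) (nat_lit 423) (nat_lit 309) (nat_lit 288))) (XT.nd (nat_lit 78) (nat_lit 228) (nat_lit 0) (XT.lf (nat_lit 0) (nat_lit 11123504395) (nat_lit 152) (nat_lit 1932485854) (nat_lit 0) (nat_lit 2892220914) (nat_lit 49) (nat_lit 5) (nat_lit 51) (nat_lit 4) (nat_lit 49) (nat_lit 4) (nat_lit 424) (nat_lit 309) (nat_lit 287)) (XT.lf (nat_lit 0) (nat_lit 284155838)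 (nat_lit 228) (nat_lit 7916149157) (nat_lit 76) (nat_lit 8057478633) (nat_lit 46) (nat_lit 5) (nat_lit 49) (nat_lit 5) (nat_lit 47) (nat_lit 4) (nat_lit 425) (nat_lit 309) (nat_lit 286))))) (XT.nd (nat_lit 234) (nat_lit 380) (nat_lit 0) (XT.nd (nat_lit 78) (nat_lit 152) (nat_lit 0) (XT.lf (nat_lit 0) (nat_lit 2228157823) (nat_lit 76) (nat_lit 3178355956) (nat_lit 152) (nat_lit 11169988706) (nat_lit 45) (nat_lit 5) (nat_lit 46) (nat_lit 5) (nat_lit 47) (nat_lit 4) (nat_lit 426) (nat_lit 309) (nat_lit 285)) (XT.nd (nat_lit 78) (nat_lit 152) (nat_lit 0) (XT.lf (nat_lit 0) (nat_lit 10698809959) (nat_lit 152) (nat_lit 4238473751) (nat_lit 0) (nat_lit 1967019268) (nat_lit 45) (nat_lit 5) (nat_lit 47) (nat_lit 4) (nat_lit 45) (nat_lit 4) (nat_lit 427) (nat_lit 309) (nat_lit 284)) (XT.lf (nat_lit 0) (nat_lit 6111813293) (nat_lit 152) (nat_lit 10047085446) (nat_lit 152) (nat_lit 1082775892) (nat_lit 43) (nat_lit 4) (nat_lit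 45) (nat_lit 5) (nat_lit 45) (nat_lit 4) (nat_lit 428) (nat_lit 309) (nat_lit 283)))) (XT.nd (nat_lit 156) (nat_lit 228) (nat_lit 0) (XT.nd (nat_lit 78) (nat_lit 76) (nat_lit 0) (XT.lf (nat_lit 0) (nat_lit 4073947021) (nat_lit 228) (nat_lit 919943569) (nat_lit 76) (nat_lit 12595210194) (nat_lit 42) (nat_lit 5) (nat_lit 45) (nat_lit 5) (nat_lit 43) (nat_lit 4) (nat_lit 429) (nat_lit 309) (nat_lit 282)) (XT.lf (nat_lit 0) (nat_lit 9379842170) (nat_lit 152) (nat_lit 8321636146) (nat_lit 0) (nat_lit 244669983) (nat_lit 41) (nat_lit 5) (nat_lit 43) (nat_lit 4) (nat_lit 41) (nat_lit 4) (nat_lit 430) (nat_lit 309) (nat_lit 281))) (XT.nd (nat_lit 78) (nat_lit 76) (nat_lit 0) (XT.lf (nat_lit 0) (nat_lit 2033999857) (nat_lit 152) (nat_lit 12810839398) (nat_lit 152) (nat_lit 3469077213) (nat_lit 39) (nat_lit 4) (nat_lit 41) (nat_lit 5) (nat_lit 41) (nat_lit 4) (nat_lit 431) (nat_lit 309) (nat_lit 280)) (XT.lf (nat_lit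 0) (nat_lit 1752838911) (nat_lit 228) (nat_lit 5984072008) (nat_lit 76) (nat_lit 10955103963) (nat_lit 38) (nat_lit 5) (nat_lit 41) (nat_lit 5) (nat_lit 39) (nat_lit 4) (nat_lit 432) (nat_lit 309) (nat_lit 279)))))) (XT.nd (nat_lit 546) (nat_lit 380) (nat_lit 0) (XT.nd (nat_lit 234) (nat_lit 228) (nat_lit 0) (XT.nd (nat_lit 78) (nat_lit 152) (nat_lit 0) (XT.lf (nat_lit 0) (nat_lit 4532203460) (nat_lit 76) (nat_lit 2496993261) (nat_lit 152) (nat_lit 12052210220) (nat_lit 37) (nat_lit 5) (nat_lit 38) (nat_lit 5) (nat_lit 39) (nat_lit 4) (nat_lit 433) (nat_lit 309) (nat_lit 278)) (XT.nd (nat_lit 78) (nat_lit 152) (nat_lit 0) (XT.lf (nat_lit 0) (nat_lit 12476916279) (nat_lit 152) (nat_lit 4165276842) (nat_lit 0) (nat_lit 2839901716) (nat_lit 37) (nat_lit 5) (nat_lit 39) (nat_lit 4) (nat_lit 37) (nat_lit 4) (nat_lit 434) (nat_lit 309) (nat_lit 277)) (XT.lf (nat_lit 0) (nat_lit 6493548018) (nat_lit 152) (nat_lit 11608038358)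 (nat_lit 152) (nat_lit 1792817448) (nat_lit 35) (nat_lit 4) (nat_lit 37) (nat_lit 5) (nat_lit 37) (nat_lit 4) (nat_lit 435) (nat_lit 309) (nat_lit 276)))) (XT.nd (nat_lit 156) (nat_lit 76) (nat_lit 0) (XT.nd (nat_lit 78) (nat_lit 76) (nat_lit 0) (XT.lf (nat_lit 0) (nat_lit 3475087923) (nat_lit 228) (nat_lit 2933808296) (nat_lit 76) (nat_lit 13910091749) (nat_lit 34) (nat_lit 5) (nat_lit 37) (nat_lit 5) (nat_lit 35) (nat_lit 4) (nat_lit 436) (nat_lit 309) (nat_lit 275)) (XT.lf (nat_lit 0) (nat_lit 7847962926) (nat_lit 76) (nat_lit 1021089429) (nat_lit 152) (nat_lit 11886608602) (nat_lit 33) (nat_lit 5) (nat_lit 34) (nat_lit 5) (nat_lit 35) (nat_lit 4) (nat_lit 437) (nat_lit 309) (nat_lit 274))) (XT.nd (nat_lit 78) (nat_lit 76) (nat_lit 0) (XT.lf (nat_lit 0) (nat_lit 14427094180) (nat_lit 152) (nat_lit 2369918720) (nat_lit 0) (nat_lit 4408358833) (nat_lit 33) (nat_lit 5) (nat_lit 35) (nat_lit 4) (nat_lit 33) (nat_lit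 4) (nat_lit 438) (nat_lit 309) (nat_lit 273)) (XT.lf (nat_lit 0) (nat_lit 8508975193) (nat_lit 76) (nat_lit 11665688968) (nat_lit 76) (nat_lit 1493231260) (nat_lit 32) (nat_lit 4) (nat_lit 33) (nat_lit 5) (nat_lit 33) (nat_lit 4) (nat_lit 439) (nat_lit 309) (nat_lit 272))))) (XT.nd (nat_lit 234) (nat_lit 228) (nat_lit 0) (XT.nd (nat_lit 78) (nat_lit 76) (nat_lit 0) (XT.lf (nat_lit 0) (nat_lit 3828417647) (nat_lit 152) (nat_lit 2550014893) (nat_lit 76) (nat_lit 15766073863) (nat_lit 31) (nat_lit 5) (nat_lit 33) (nat_lit 5) (nat_lit 32) (nat_lit 4) (nat_lit 440) (nat_lit 309) (nat_lit 271)) (XT.nd (nat_lit 78) (nat_lit 0) (nat_lit 0) (XT.lf (nat_lit 0) (nat_lit 8399040836) (nat_lit 76) (nat_lit 894378682) (nat_lit 152) (nat_lit 13341145939) (nat_lit 30) (nat_lit 5) (nat_lit 31) (nat_lit 5) (nat_lit 32) (nat_lit 4) (nat_lit 441) (nat_lit 309) (nat_lit 270)) (XT.lf (nat_lit 0) (nat_lit 14927223222) (nat_lit 152)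 (nat_lit 3583067564) (nat_lit 0) (nat_lit 4628894559) (nat_lit 30) (nat_lit 5) (nat_lit 32) (nat_lit 4) (nat_lit 30) (nat_lit 4) (nat_lit 442) (nat_lit 309) (nat_lit 269)))) (XT.nd (nat_lit 156) (nat_lit 76) (nat_lit 0) (XT.nd (nat_lit 78) (nat_lit 76) (nat_lit 0) (XT.lf (nat_lit 0) (nat_lit 7400835976) (nat_lit 76) (nat_lit 13344295276) (nat_lit 76) (nat_lit 2913364354) (nat_lit 29) (nat_lit 4) (nat_lit 30) (nat_lit 5) (nat_lit 30) (nat_lit 4) (nat_lit 443) (nat_lit 309) (nat_lit 268)) (XT.lf (nat_lit 0) (nat_lit 2466252139) (nat_lit 152) (nat_lit 5553179135) (nat_lit 76) (nat_lit 16174073221) (nat_lit 28) (nat_lit 5) (nat_lit 30) (nat_lit 5) (nat_lit 29) (nat_lit 4) (nat_lit 444) (nat_lit 309) (nat_lit 267))) (XT.nd (nat_lit 78) (nat_lit 0) (nat_lit 0) (XT.lf (nat_lit 0) (nat_lit 5429371295) (nat_lit 76) (nat_lit 2508575808) (nat_lit 152) (nat_lit 16806077922) (nat_lit 27) (nat_lit 5) (nat_lit 28) (nat_lit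 5) (nat_lit 29) (nat_lit 4) (nat_lit 445) (nat_lit 309) (nat_lit 266)) (XT.lf (nat_lit 0) (nat_lit 13598072793) (nat_lit 152) (nat_lit 8605464156) (nat_lit 0) (nat_lit 3106799807) (nat_lit 27) (nat_lit 5) (nat_lit 29) (nat_lit 4) (nat_lit 27) (nat_lit 4) (nat_lit 446) (nat_lit 309) (nat_lit 265))))))) (XT.nd (nat_lit 1092) (nat_lit 532) (nat_lit 0) (XT.nd (nat_lit 546) (nat_lit 304) (nat_lit 0) (XT.nd (nat_lit 234) (nat_lit 152) (nat_lit 0) (XT.nd (nat_lit 78) (nat_lit 76) (nat_lit 0) (XT.lf (nat_lit 0) (nat_lit 2328797165) (nat_lit 76) (nat_lit 17085456922) (nat_lit 76) (nat_lit 6479800063) (nat_lit 26) (nat_lit 4) (nat_lit 27) (nat_lit 5) (nat_lit 27) (nat_lit 4) (nat_lit 447) (nat_lit 309) (nat_lit 264)) (XT.nd (nat_lit 78) (nat_lit 76) (nat_lit 0) (XT.lf (nat_lit 0) (nat_lit 13651825324) (nat_lit 76) (nat_lit 11779686465) (nat_lit 76) (nat_lit 1062977302) (nat_lit 26) (nat_lit 4) (nat_lit 27) (nat_lit 5)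 (nat_lit 27) (nat_lit 4) (nat_lit 448) (nat_lit 309) (nat_lit 263)) (XT.lf (nat_lit 0) (nat_lit 4369085776) (nat_lit 152) (nat_lit 1955282807) (nat_lit 76) (nat_lit 20789043640) (nat_lit 25) (nat_lit 5) (nat_lit 27) (nat_lit 5) (nat_lit 26) (nat_lit 4) (nat_lit 449) (nat_lit 309) (nat_lit 262)))) (XT.nd (nat_lit 156) (nat_lit 76) (nat_lit 0) (XT.nd (nat_lit 78) (nat_lit 0) (nat_lit 0) (XT.lf (nat_lit 0) (nat_lit 9319888648) (nat_lit 76) (nat_lit 655034026) (nat_lit 152) (nat_lit 17774702773) (nat_lit 24) (nat_lit 5) (nat_lit 25) (nat_lit 5) (nat_lit 26) (nat_lit 4) (nat_lit 450) (nat_lit 309) (nat_lit 261)) (XT.lf (nat_lit 0) (nat_lit 15761419150) (nat_lit 152) (nat_lit 7591262144) (nat_lit 0) (nat_lit 5051872575) (nat_lit 24) (nat_lit 5) (nat_lit 26) (nat_lit 4) (nat_lit 24) (nat_lit 4) (nat_lit 451) (nat_lit 309) (nat_lit 260))) (XT.nd (nat_lit 78) (nat_lit 0) (nat_lit 0) (XT.lf (nat_lit 0) (nat_lit 3527635509)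 (nat_lit 76) (nat_lit 18178647975) (nat_lit 76) (nat_lit 7373306708) (nat_lit 23) (nat_lit 4) (nat_lit 24) (nat_lit 5) (nat_lit 24) (nat_lit 4) (nat_lit 452) (nat_lit 309) (nat_lit 259)) (XT.lf (nat_lit 0) (nat_lit 15029680721) (nat_lit 76) (nat_lit 12821448394) (nat_lit 76) (nat_lit 1923102571) (nat_lit 23) (nat_lit 4) (nat_lit 24) (nat_lit 5) (nat_lit 24) (nat_lit 4) (nat_lit 453) (nat_lit 309) (nat_lit 258))))) (XT.nd (nat_lit 234) (nat_lit 152) (nat_lit 0) (XT.nd (nat_lit 78) (nat_lit 76) (nat_lit 0) (XT.lf (nat_lit 0) (nat_lit 3564639820) (nat_lit 152) (nat_lit 3752422674) (nat_lit 76) (nat_lit 23173207129) (nat_lit 22) (nat_lit 5) (nat_lit 24) (nat_lit 5) (nat_lit 23) (nat_lit 4) (nat_lit 454) (nat_lit 309) (nat_lit 257)) (XT.nd (nat_lit 78) (nat_lit 0) (nat_lit 0) (XT.lf (nat_lit 0) (nat_lit 7597695842) (nat_lit 76) (nat_lit 1601320445) (nat_lit 152) (nat_lit 22027584439) (nat_lit 21) (nat_lit 5) (nat_lit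 22) (nat_lit 5) (nat_lit 23) (nat_lit 4) (nat_lit 455) (nat_lit 309) (nat_lit 256)) (XT.lf (nat_lit 0) (nat_lit 15029611674) (nat_lit 152) (nat_lit 12761315257) (nat_lit 0) (nat_lit 4193281997) (nat_lit 21) (nat_lit 5) (nat_lit 23) (nat_lit 4) (nat_lit 21) (nat_lit 4) (nat_lit 456) (nat_lit 309) (nat_lit 255)))) (XT.nd (nat_lit 156) (nat_lit 76) (nat_lit 0) (XT.nd (nat_lit 78) (nat_lit 76) (nat_lit 0) (XT.lf (nat_lit 0) (nat_lit 21000223956) (nat_lit 152) (nat_lit 1681703429) (nat_lit 0) (nat_lit 10083667732) (nat_lit 21) (nat_lit 5) (nat_lit 23) (nat_lit 4) (nat_lit 21) (nat_lit 4) (nat_lit 457) (nat_lit 309) (nat_lit 254)) (XT.lf (nat_lit 0) (nat_lit 9826760172) (nat_lit 76) (nat_lit 17368377960) (nat_lit 76) (nat_lit 6373931884) (nat_lit 20) (nat_lit 4) (nat_lit 21) (nat_lit 5) (nat_lit 21) (nat_lit 4) (nat_lit 458) (nat_lit 309) (nat_lit 253))) (XT.nd (nat_lit 78) (nat_lit 76) (nat_lit 0) (XT.lf (nat_lit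 0) (nat_lit 21620593122) (nat_lit 76) (nat_lit 11923539452) (nat_lit 76) (nat_lit 853472161) (nat_lit 20) (nat_lit 4) (nat_lit 21) (nat_lit 5) (nat_lit 21) (nat_lit 4) (nat_lit 459) (nat_lit 309) (nat_lit 252)) (XT.lf (nat_lit 0) (nat_lit 4690499663) (nat_lit 152) (nat_lit 1621771628) (nat_lit 76) (nat_lit 28938767001) (nat_lit 19) (nat_lit 5) (nat_lit 21) (nat_lit 5) (nat_lit 20) (nat_lit 4) (nat_lit 460) (nat_lit 309) (nat_lit 251)))))) (XT.nd (nat_lit 546) (nat_lit 228) (nat_lit 0) (XT.nd (nat_lit 234) (nat_lit 228) (nat_lit 0) (XT.nd (nat_lit 78) (nat_lit 0) (nat_lit 0) (XT.lf (nat_lit 0) (nat_lit 9964246419) (nat_lit 76) (nat_lit 468764720) (nat_lit 152) (nat_lit 25695331318) (nat_lit 18) (nat_lit 5) (nat_lit 19) (nat_lit 5) (nat_lit 20) (nat_lit 4) (nat_lit 461) (nat_lit 309) (nat_lit 250)) (XT.nd (nat_lit 78) (nat_lit 0) (nat_lit 0) (XT.lf (nat_lit 0) (nat_lit 16371361515) (nat_lit 152) (nat_lit 15243849069)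 (nat_lit 0) (nat_lit 5416050526) (nat_lit 18) (nat_lit 5) (nat_lit 20) (nat_lit 4) (nat_lit 18) (nat_lit 4) (nat_lit 462) (nat_lit 309) (nat_lit 249)) (XT.lf (nat_lit 0) (nat_lit 22447527181) (nat_lit 152) (nat_lit 4087967736) (nat_lit 0) (nat_lit 11426984667) (nat_lit 18) (nat_lit 5) (nat_lit 20) (nat_lit 4) (nat_lit 18) (nat_lit 4) (nat_lit 463) (nat_lit 309) (nat_lit 248)))) (XT.nd (nat_lit 156) (nat_lit 152) (nat_lit 0) (XT.nd (nat_lit 78) (nat_lit 0) (nat_lit 0) (XT.lf (nat_lit 0) (nat_lit 7463440474) (nat_lit 76) (nat_lit 21270614035) (nat_lit 76) (nat_lit 10186739944) (nat_lit 17) (nat_lit 4) (nat_lit 18) (nat_lit 5) (nat_lit 18) (nat_lit 4) (nat_lit 464) (nat_lit 309) (nat_lit 247)) (XT.lf (nat_lit 0) (nat_lit 19361233351) (nat_lit 76) (nat_lit 15846023095) (nat_lit 76) (nat_lit 4700662036) (nat_lit 17) (nat_lit 4) (nat_lit 18) (nat_lit 5) (nat_lit 18) (nat_lit 4) (nat_lit 465) (nat_lit 309) (nat_lit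 246))) (XT.nd (nat_lit 78) (nat_lit 76) (nat_lit 0) (XT.lf (nat_lit 0) (nat_lit 889099695) (nat_lit 152) (nat_lit 9400184763) (nat_lit 76) (nat_lit 30636370593) (nat_lit 16) (nat_lit 5) (nat_lit 18) (nat_lit 5) (nat_lit 17) (nat_lit 4) (nat_lit 466) (nat_lit 309) (nat_lit 245)) (XT.lf (nat_lit 0) (nat_lit 1993104203) (nat_lit 76) (nat_lit 4537003537) (nat_lit 152) (nat_lit 35443080678) (nat_lit 15) (nat_lit 5) (nat_lit 16) (nat_lit 5) (nat_lit 17) (nat_lit 4) (nat_lit 467) (nat_lit 309) (nat_lit 244))))) (XT.nd (nat_lit 312) (nat_lit 152) (nat_lit 0) (XT.nd (nat_lit 156) (nat_lit 76) (nat_lit 0) (XT.nd (nat_lit 78) (nat_lit 0) (nat_lit 0) (XT.lf (nat_lit 0) (nat_lit 12408490166) (nat_lit 152) (nat_lit 29222720895) (nat_lit 0) (nat_lit 1418894248) (nat_lit 15) (nat_lit 5) (nat_lit 17) (nat_lit 4) (nat_lit 15) (nat_lit 4) (nat_lit 468) (nat_lit 309) (nat_lit 243)) (XT.lf (nat_lit 0) (nat_lit 18468280859) (nat_lit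 152) (nat_lit 18265253194) (nat_lit 0) (nat_lit 7425645742) (nat_lit 15) (nat_lit 5) (nat_lit 17) (nat_lit 4) (nat_lit 15) (nat_lit 4) (nat_lit 469) (nat_lit 309) (nat_lit 242))) (XT.nd (nat_lit 78) (nat_lit 76) (nat_lit 0) (XT.lf (nat_lit 0) (nat_lit 24671162328) (nat_lit 152) (nat_lit 7054494173) (nat_lit 0) (nat_lit 13577032844) (nat_lit 15) (nat_lit 5) (nat_lit 17) (nat_lit 4) (nat_lit 15) (nat_lit 4) (nat_lit 470) (nat_lit 309) (nat_lit 241)) (XT.lf (nat_lit 0) (nat_lit 4507305747) (nat_lit 76) (nat_lit 26558575800) (nat_lit 76) (nat_lit 15414451784) (nat_lit 14) (nat_lit 4) (nat_lit 15) (nat_lit 5) (nat_lit 15) (nat_lit 4) (nat_lit 471) (nat_lit 309) (nat_lit 240)))) (XT.nd (nat_lit 156) (nat_lit 152) (nat_lit 0) (XT.nd (nat_lit 78) (nat_lit 0) (nat_lit 0) (XT.lf (nat_lit 0) (nat_lit 16488052236) (nat_lit 76) (nat_lit 21198448346) (nat_lit 76) (nat_lit 10005785949) (nat_lit 14) (nat_lit 4) (nat_lit 15)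 (nat_lit 5) (nat_lit 15) (nat_lit 4) (nat_lit 472) (nat_lit 309) (nat_lit 239)) (XT.lf (nat_lit 0) (nat_lit 28757815639) (nat_lit 76) (nat_lit 15711827091) (nat_lit 76) (nat_lit 4472040053) (nat_lit 14) (nat_lit 4) (nat_lit 15) (nat_lit 5) (nat_lit 15) (nat_lit 4) (nat_lit 473) (nat_lit 309) (nat_lit 238))) (XT.nd (nat_lit 78) (nat_lit 76) (nat_lit 0) (XT.lf (nat_lit 0) (nat_lit 1168368393) (nat_lit 152) (nat_lit 8913751277) (nat_lit 76) (nat_lit 40147150486) (nat_lit 13) (nat_lit 5) (nat_lit 15) (nat_lit 5) (nat_lit 14) (nat_lit 4) (nat_lit 474) (nat_lit 309) (nat_lit 237)) (XT.lf (nat_lit 0) (nat_lit 2634550774) (nat_lit 76) (nat_lit 4244517888) (nat_lit 152) (nat_lit 44675360722) (nat_lit 12) (nat_lit 5) (nat_lit 13) (nat_lit 5) (nat_lit 14) (nat_lit 4) (nat_lit 475) (nat_lit 309) (nat_lit 236))))))))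
noncomputable def xc37 : XT := (XT.nd (nat_lit 48126) (nat_lit 0) (nat_lit 1748) (XT.nd (nat_lit 1092) (nat_lit 76) (nat_lit 0) (XT.nd (nat_lit 546) (nat_lit 152) (nat_lit 0) (XT.nd (nat_lit 234) (nat_lit 76) (nat_lit 0) (XT.nd (nat_lit 78) (nat_lit 0) (nat_lit 0) (XT.lf (nat_lit 0) (nat_lit 12834679169) (nat_lit 152) (nat_lit 38289608240) (nat_lit 0) (nat_lit 1792849719) (nat_lit 12) (nat_lit 5) (nat_lit 14) (nat_lit 4) (nat_lit 12) (nat_lit 4) (nat_lit 476) (nat_lit 309) (nat_lit 235)) (XT.nd (nat_lit 78) (nat_lit 0) (nat_lit 0) (XT.lf (nat_lit 0) (nat_lit 18977671737) (nat_lit 152) (nat_lit 27447602170) (nat_lit 0) (nat_lit 7895192157) (nat_lit 12) (nat_lit 5) (nat_lit 14) (nat_lit 4) (nat_lit 12) (nat_lit 4) (nat_lit 477) (nat_lit 309) (nat_lit 234)) (XT.lf (nat_lit 0) (nat_lit 25272613128) (nat_lit 152) (nat_lit 16343585901) (nat_lit 0) (nat_lit 14150667403) (nat_lit 12) (nat_lit 5) (nat_lit 14) (nat_lit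 4) (nat_lit 12) (nat_lit 4) (nat_lit 478) (nat_lit 309) (nat_lit 233)))) (XT.nd (nat_lit 156) (nat_lit 0) (nat_lit 0) (XT.nd (nat_lit 78) (nat_lit 76) (nat_lit 0) (XT.lf (nat_lit 0) (nat_lit 31725003776) (nat_lit 152) (nat_lit 4967856894) (nat_lit 0) (nat_lit 20564741405) (nat_lit 12) (nat_lit 5) (nat_lit 14) (nat_lit 4) (nat_lit 12) (nat_lit 4) (nat_lit 479) (nat_lit 309) (nat_lit 232)) (XT.lf (nat_lit 0) (nat_lit 6822659468) (nat_lit 76) (nat_lit 31583405800) (nat_lit 76) (nat_lit 20385942803) (nat_lit 11) (nat_lit 4) (nat_lit 12) (nat_lit 5) (nat_lit 12) (nat_lit 4) (nat_lit 480) (nat_lit 309) (nat_lit 231))) (XT.nd (nat_lit 78) (nat_lit 0) (nat_lit 0) (XT.lf (nat_lit 0) (nat_lit 19009692845) (nat_lit 76) (nat_lit 26297867344) (nat_lit 76) (nat_lit 15064287233) (nat_lit 11) (nat_lit 4) (nat_lit 12) (nat_lit 5) (nat_lit 12) (nat_lit 4) (nat_lit 481) (nat_lit 309) (nat_lit 230)) (XT.lf (nat_lit 0) (nat_lit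 31505022006) (nat_lit 76) (nat_lit 20881792482) (nat_lit 76) (nat_lit 9613147212) (nat_lit 11) (nat_lit 4) (nat_lit 12) (nat_lit 5) (nat_lit 12) (nat_lit 4) (nat_lit 482) (nat_lit 309) (nat_lit 229))))) (XT.nd (nat_lit 234) (nat_lit 0) (nat_lit 0) (XT.nd (nat_lit 78) (nat_lit 152) (nat_lit 0) (XT.lf (nat_lit 0) (nat_lit 44319565201) (nat_lit 76) (nat_lit 15330448722) (nat_lit 76) (nat_lit 4027759609) (nat_lit 11) (nat_lit 4) (nat_lit 12) (nat_lit 5) (nat_lit 12) (nat_lit 4) (nat_lit 483) (nat_lit 309) (nat_lit 228)) (XT.nd (nat_lit 78) (nat_lit 76) (nat_lit 0) (XT.lf (nat_lit 0) (nat_lit 1663646189) (nat_lit 152) (nat_lit 7958539623) (nat_lit 76) (nat_lit 55784073848) (nat_lit 10) (nat_lit 5) (nat_lit 12) (nat_lit 5) (nat_lit 11) (nat_lit 4) (nat_lit 484) (nat_lit 309) (nat_lit 227)) (XT.lf (nat_lit 0) (nat_lit 3763692254) (nat_lit 76) (nat_lit 3690260075) (nat_lit 152) (nat_lit 59731179367) (nat_lit 9) (nat_lit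 5) (nat_lit 10) (nat_lit 5) (nat_lit 11) (nat_lit 4) (nat_lit 485) (nat_lit 309) (nat_lit 226)))) (XT.nd (nat_lit 156) (nat_lit 0) (nat_lit 0) (XT.nd (nat_lit 78) (nat_lit 0) (nat_lit 0) (XT.lf (nat_lit 0) (nat_lit 13495358158) (nat_lit 152) (nat_lit 53091309501) (nat_lit 0) (nat_lit 2428381542) (nat_lit 9) (nat_lit 5) (nat_lit 11) (nat_lit 4) (nat_lit 9) (nat_lit 4) (nat_lit 486) (nat_lit 309) (nat_lit 225)) (XT.lf (nat_lit 0) (nat_lit 19728300924) (nat_lit 152) (nat_lit 42539297668) (nat_lit 0) (nat_lit 8631957788) (nat_lit 9) (nat_lit 5) (nat_lit 11) (nat_lit 4) (nat_lit 9) (nat_lit 4) (nat_lit 487) (nat_lit 309) (nat_lit 224))) (XT.nd (nat_lit 78) (nat_lit 0) (nat_lit 0) (XT.lf (nat_lit 0) (nat_lit 26122753848) (nat_lit 152) (nat_lit 31720710704) (nat_lit 0) (nat_lit 14997899530) (nat_lit 9) (nat_lit 5) (nat_lit 11) (nat_lit 4) (nat_lit 9) (nat_lit 4) (nat_lit 488) (nat_lit 309) (nat_lit 223)) (XT.lf (nat_lit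 0) (nat_lit 32684304318) (nat_lit 152) (nat_lit 20626095474) (nat_lit 0) (nat_lit 21531769240) (nat_lit 9) (nat_lit 5) (nat_lit 11) (nat_lit 4) (nat_lit 9) (nat_lit 4) (nat_lit 489) (nat_lit 309) (nat_lit 222)))))) (XT.nd (nat_lit 46488) (nat_lit 0) (nat_lit 4636) (XT.nd (nat_lit 46176) (nat_lit 0) (nat_lit 5776) (XT.nd (nat_lit 78) (nat_lit 76) (nat_lit 0) (XT.lf (nat_lit 0) (nat_lit 39418685727) (nat_lit 152) (nat_lit 9245757654) (nat_lit 0) (nat_lit 28239276125) (nat_lit 9) (nat_lit 5) (nat_lit 11) (nat_lit 4) (nat_lit 9) (nat_lit 4) (nat_lit 490) (nat_lit 309) (nat_lit 221)) (XT.nd (nat_lit 46020) (nat_lit 0) (nat_lit 6536) (XT.lf (nat_lit 0) (nat_lit 2478613415) (nat_lit 76) (nat_lit 43876995020) (nat_lit 76) (nat_lit 32671493646) (nat_lit 8) (nat_lit 4) (nat_lit 9) (nat_lit 5) (nat_lit 9) (nat_lit 4) (nat_lit 491) (nat_lit 309) (nat_lit 220)) (XT.lf (nat_lit 0) (nat_lit 867546743) (nat_lit 228) (nat_lit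 2227228970) (nat_lit 228) (nat_lit 2227228970) (nat_lit 94) (nat_lit 4) (nat_lit 97) (nat_lit 5) (nat_lit 97) (nat_lit 4) (nat_lit 400) (nat_lit 310) (nat_lit 310)))) (XT.nd (nat_lit 156) (nat_lit 456) (nat_lit 0) (XT.nd (nat_lit 78) (nat_lit 228) (nat_lit 0) (XT.lf (nat_lit 0) (nat_lit 223533694) (nat_lit 304) (nat_lit 220130981) (nat_lit 76) (nat_lit 10357996965) (nat_lit 93) (nat_lit 5) (nat_lit 97) (nat_lit 5) (nat_lit 94) (nat_lit 4) (nat_lit 401) (nat_lit 310) (nat_lit 309)) (XT.lf (nat_lit 0) (nat_lit 4967463582) (nat_lit 304) (nat_lit 2316856433) (nat_lit 0) (nat_lit 3677967970) (nat_lit 90) (nat_lit 5) (nat_lit 94) (nat_lit 4) (nat_lit 90) (nat_lit 4) (nat_lit 402) (nat_lit 310) (nat_lit 308))) (XT.nd (nat_lit 78) (nat_lit 228) (nat_lit 0) (XT.lf (nat_lit 0) (nat_lit 6605442159) (nat_lit 228) (nat_lit 3214765256) (nat_lit 228) (nat_lit 1308551669) (nat_lit 87) (nat_lit 4) (nat_lit 90) (nat_lit 5) (nat_lit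 90) (nat_lit 4) (nat_lit 403) (nat_lit 310) (nat_lit 307)) (XT.lf (nat_lit 0) (nat_lit 3422204177) (nat_lit 228) (nat_lit 6887653152) (nat_lit 0) (nat_lit 990195534) (nat_lit 84) (nat_lit 5) (nat_lit 87) (nat_lit 4) (nat_lit 84) (nat_lit 4) (nat_lit 404) (nat_lit 310) (nat_lit 306))))) (XT.nd (nat_lit 234) (nat_lit 684) (nat_lit 0) (XT.nd (nat_lit 78) (nat_lit 228) (nat_lit 0) (XT.lf (nat_lit 0) (nat_lit 2054716766) (nat_lit 228) (nat_lit 6208969458) (nat_lit 228) (nat_lit 3212576505) (nat_lit 81) (nat_lit 4) (nat_lit 84) (nat_lit 5) (nat_lit 84) (nat_lit 4) (nat_lit 405) (nat_lit 310) (nat_lit 305)) (XT.nd (nat_lit 78) (nat_lit 152) (nat_lit 0) (XT.lf (nat_lit 0) (nat_lit 1529522594) (nat_lit 304) (nat_lit 439408018) (nat_lit 76) (nat_lit 9689348558) (nat_lit 80) (nat_lit 5) (nat_lit 84) (nat_lit 5) (nat_lit 81) (nat_lit 4) (nat_lit 406) (nat_lit 310) (nat_lit 304)) (XT.lf (nat_lit 0) (nat_lit 6357957467) (nat_lit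 228) (nat_lit 3086242431) (nat_lit 0) (nat_lit 2400360160) (nat_lit 78) (nat_lit 5) (nat_lit 81) (nat_lit 4) (nat_lit 78) (nat_lit 4) (nat_lit 407) (nat_lit 310) (nat_lit 303)))) (XT.nd (nat_lit 156) (nat_lit 228) (nat_lit 0) (XT.nd (nat_lit 78) (nat_lit 228) (nat_lit 0) (XT.lf (nat_lit 0) (nat_lit 6135024482) (nat_lit 228) (nat_lit 5180469913) (nat_lit 228) (nat_lit 721424455) (nat_lit 75) (nat_lit 4) (nat_lit 78) (nat_lit 5) (nat_lit 78) (nat_lit 4) (nat_lit 408) (nat_lit 310) (nat_lit 302)) (XT.lf (nat_lit 0) (nat_lit 3316086354) (nat_lit 152) (nat_lit 753851909) (nat_lit 228) (nat_lit 8164970952) (nat_lit 72) (nat_lit 5) (nat_lit 74) (nat_lit 5) (nat_lit 75) (nat_lit 4) (nat_lit 409) (nat_lit 310) (nat_lit 301))) (XT.nd (nat_lit 78) (nat_lit 76) (nat_lit 0) (XT.lf (nat_lit 0) (nat_lit 285059653) (nat_lit 152) (nat_lit 8707130416) (nat_lit 152) (nat_lit 3446401003) (nat_lit 70) (nat_lit 4) (nat_lit 72) (nat_lit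 5) (nat_lit 72) (nat_lit 4) (nat_lit 410) (nat_lit 310) (nat_lit 300)) (XT.lf (nat_lit 0) (nat_lit 1386950000) (nat_lit 228) (nat_lit 2890751099) (nat_lit 76) (nat_lit 8370264894) (nat_lit 69) (nat_lit 5) (nat_lit 72) (nat_lit 5) (nat_lit 70) (nat_lit 4) (nat_lit 411) (nat_lit 310) (nat_lit 299))))))) (XT.nd (nat_lit 1092) (nat_lit 1216) (nat_lit 0) (XT.nd (nat_lit 546) (nat_lit 760) (nat_lit 0) (XT.nd (nat_lit 234) (nat_lit 532) (nat_lit 0) (XT.nd (nat_lit 78) (nat_lit 228) (nat_lit 0) (XT.lf (nat_lit 0) (nat_lit 6267515529) (nat_lit 228) (nat_lit 6288449908) (nat_lit 0) (nat_lit 307502735) (nat_lit 67) (nat_lit 5) (nat_lit 70) (nat_lit 4) (nat_lit 67) (nat_lit 4) (nat_lit 412) (nat_lit 310) (nat_lit 298)) (XT.nd (nat_lit 78) (nat_lit 76) (nat_lit 0) (XT.lf (nat_lit 0) (nat_lit 3151776460) (nat_lit 152) (nat_lit 8150586411) (nat_lit 152) (nat_lit 1782850382) (nat_lit 65) (nat_lit 4) (nat_lit 67) (nat_lit 5)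 (nat_lit 67) (nat_lit 4) (nat_lit 413) (nat_lit 310) (nat_lit 297)) (XT.lf (nat_lit 0) (nat_lit 3082785989) (nat_lit 228) (nat_lit 505528270) (nat_lit 76) (nat_lit 9725291225) (nat_lit 64) (nat_lit 5) (nat_lit 67) (nat_lit 5) (nat_lit 65) (nat_lit 4) (nat_lit 414) (nat_lit 310) (nat_lit 296)))) (XT.nd (nat_lit 156) (nat_lit 228) (nat_lit 0) (XT.nd (nat_lit 78) (nat_lit 152) (nat_lit 0) (XT.lf (nat_lit 0) (nat_lit 8066793411) (nat_lit 228) (nat_lit 4354209403) (nat_lit 0) (nat_lit 1127082653) (nat_lit 62) (nat_lit 5) (nat_lit 65) (nat_lit 4) (nat_lit 62) (nat_lit 4) (nat_lit 415) (nat_lit 310) (nat_lit 295)) (XT.lf (nat_lit 0) (nat_lit 5310842393) (nat_lit 152) (nat_lit 7890355483) (nat_lit 152) (nat_lit 588387913) (nat_lit 60) (nat_lit 4) (nat_lit 62) (nat_lit 5) (nat_lit 62) (nat_lit 4) (nat_lit 416) (nat_lit 310) (nat_lit 294))) (XT.nd (nat_lit 78) (nat_lit 0) (nat_lit 0) (XT.lf (nat_lit 0) (nat_lit 1134387470)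 (nat_lit 152) (nat_lit 3194706462) (nat_lit 228) (nat_lit 9709025524) (nat_lit 57) (nat_lit 5) (nat_lit 59) (nat_lit 5) (nat_lit 60) (nat_lit 4) (nat_lit 417) (nat_lit 310) (nat_lit 293)) (XT.lf (nat_lit 0) (nat_lit 9394271299) (nat_lit 228) (nat_lit 3267310052) (nat_lit 0) (nat_lit 1632004306) (nat_lit 57) (nat_lit 5) (nat_lit 60) (nat_lit 4) (nat_lit 57) (nat_lit 4) (nat_lit 418) (nat_lit 310) (nat_lit 292))))) (XT.nd (nat_lit 234) (nat_lit 456) (nat_lit 0) (XT.nd (nat_lit 78) (nat_lit 76) (nat_lit 0) (XT.lf (nat_lit 0) (nat_lit 61106437) (nat_lit 228) (nat_lit 7960081411) (nat_lit 76) (nat_lit 6535298223) (nat_lit 54) (nat_lit 5) (nat_lit 57) (nat_lit 5) (nat_lit 55) (nat_lit 4) (nat_lit 419) (nat_lit 310) (nat_lit 291)) (XT.nd (nat_lit 78) (nat_lit 0) (nat_lit 0) (XT.lf (nat_lit 0) (nat_lit 1825019242) (nat_lit 76) (nat_lit 3210267767) (nat_lit 152) (nat_lit 9791638945) (nat_lit 53) (nat_lit 5) (nat_lit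 54) (nat_lit 5) (nat_lit 55) (nat_lit 4) (nat_lit 420) (nat_lit 310) (nat_lit 290)) (XT.lf (nat_lit 0) (nat_lit 10169559645) (nat_lit 152) (nat_lit 3212643472) (nat_lit 0) (nat_lit 1722959872) (nat_lit 53) (nat_lit 5) (nat_lit 55) (nat_lit 4) (nat_lit 53) (nat_lit 4) (nat_lit 421) (nat_lit 310) (nat_lit 289)))) (XT.nd (nat_lit 156) (nat_lit 152) (nat_lit 0) (XT.nd (nat_lit 78) (nat_lit 76) (nat_lit 0) (XT.lf (nat_lit 0) (nat_lit 77709412) (nat_lit 228) (nat_lit 8574818538) (nat_lit 76) (nat_lit 6738822918) (nat_lit 50) (nat_lit 5) (nat_lit 53) (nat_lit 5) (nat_lit 51) (nat_lit 4) (nat_lit 422) (nat_lit 310) (nat_lit 288)) (XT.lf (nat_lit 0) (nat_lit 1350041098) (nat_lit 76) (nat_lit 3753530047) (nat_lit 152) (nat_lit 10582255817) (nat_lit 49) (nat_lit 5) (nat_lit 50) (nat_lit 5) (nat_lit 51) (nat_lit 4) (nat_lit 423) (nat_lit 310) (nat_lit 287))) (XT.nd (nat_lit 78) (nat_lit 152) (nat_lit 0) (XT.lf (nat_lit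 0) (nat_lit 10296009245) (nat_lit 152) (nat_lit 4406130783) (nat_lit 0) (nat_lit 1286532141) (nat_lit 49) (nat_lit 5) (nat_lit 51) (nat_lit 4) (nat_lit 49) (nat_lit 4) (nat_lit 424) (nat_lit 310) (nat_lit 286)) (XT.lf (nat_lit 0) (nat_lit 5746153202) (nat_lit 152) (nat_lit 9908845754) (nat_lit 152) (nat_lit 645289010) (nat_lit 47) (nat_lit 4) (nat_lit 49) (nat_lit 5) (nat_lit 49) (nat_lit 4) (nat_lit 425) (nat_lit 310) (nat_lit 285)))))) (XT.nd (nat_lit 546) (nat_lit 532) (nat_lit 0) (XT.nd (nat_lit 234) (nat_lit 380) (nat_lit 0) (XT.nd (nat_lit 78) (nat_lit 228) (nat_lit 0) (XT.lf (nat_lit 0) (nat_lit 4428104371) (nat_lit 228) (nat_lit 521184131) (nat_lit 76) (nat_lit 11671755090) (nat_lit 46) (nat_lit 5) (nat_lit 49) (nat_lit 5) (nat_lit 47) (nat_lit 4) (nat_lit 426) (nat_lit 310) (nat_lit 284)) (XT.nd (nat_lit 78) (nat_lit 152) (nat_lit 0) (XT.lf (nat_lit 0) (nat_lit 9658219171) (nat_lit 152) (nat_lit 7100032758)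 (nat_lit 0) (nat_lit 192461467) (nat_lit 45) (nat_lit 5) (nat_lit 47) (nat_lit 4) (nat_lit 45) (nat_lit 4) (nat_lit 427) (nat_lit 310) (nat_lit 283)) (XT.lf (nat_lit 0) (nat_lit 3119807388) (nat_lit 152) (nat_lit 11930906705) (nat_lit 152) (nat_lit 2239402532) (nat_lit 43) (nat_lit 4) (nat_lit 45) (nat_lit 5) (nat_lit 45) (nat_lit 4) (nat_lit 428) (nat_lit 310) (nat_lit 282)))) (XT.nd (nat_lit 156) (nat_lit 228) (nat_lit 0) (XT.nd (nat_lit 78) (nat_lit 76) (nat_lit 0) (XT.lf (nat_lit 0) (nat_lit 2901118952) (nat_lit 228) (nat_lit 4021404028) (nat_lit 76) (nat_lit 10716520028) (nat_lit 42) (nat_lit 5) (nat_lit 45) (nat_lit 5) (nat_lit 43) (nat_lit 4) (nat_lit 429) (nat_lit 310) (nat_lit 281)) (XT.lf (nat_lit 0) (nat_lit 6392373636) (nat_lit 76) (nat_lit 1743506578) (nat_lit 152) (nat_lit 9862347765) (nat_lit 41) (nat_lit 5) (nat_lit 42) (nat_lit 5) (nat_lit 43) (nat_lit 4) (nat_lit 430) (nat_lit 310) (nat_lit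 280))) (XT.nd (nat_lit 78) (nat_lit 228) (nat_lit 0) (XT.lf (nat_lit 0) (nat_lit 13527044420) (nat_lit 152) (nat_lit 1343303497) (nat_lit 0) (nat_lit 3497866558) (nat_lit 41) (nat_lit 5) (nat_lit 43) (nat_lit 4) (nat_lit 41) (nat_lit 4) (nat_lit 431) (nat_lit 310) (nat_lit 279)) (XT.lf (nat_lit 0) (nat_lit 356753959) (nat_lit 228) (nat_lit 9499698211) (nat_lit 76) (nat_lit 8891782545) (nat_lit 38) (nat_lit 5) (nat_lit 41) (nat_lit 5) (nat_lit 39) (nat_lit 4) (nat_lit 432) (nat_lit 310) (nat_lit 278))))) (XT.nd (nat_lit 312) (nat_lit 228) (nat_lit 0) (XT.nd (nat_lit 156) (nat_lit 228) (nat_lit 0) (XT.nd (nat_lit 78) (nat_lit 0) (nat_lit 0) (XT.lf (nat_lit 0) (nat_lit 877082620) (nat_lit 76) (nat_lit 4684518603) (nat_lit 152) (nat_lit 13578173925) (nat_lit 37) (nat_lit 5) (nat_lit 38) (nat_lit 5) (nat_lit 39) (nat_lit 4) (nat_lit 433) (nat_lit 310) (nat_lit 277)) (XT.lf (nat_lit 0) (nat_lit 10952025112) (nat_lit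 152) (nat_lit 7926018541) (nat_lit 0) (nat_lit 664141227) (nat_lit 37) (nat_lit 5) (nat_lit 39) (nat_lit 4) (nat_lit 37) (nat_lit 4) (nat_lit 434) (nat_lit 310) (nat_lit 276))) (XT.nd (nat_lit 78) (nat_lit 76) (nat_lit 0) (XT.lf (nat_lit 0) (nat_lit 2590349116) (nat_lit 152) (nat_lit 13913614665) (nat_lit 152) (nat_lit 3452714909) (nat_lit 35) (nat_lit 4) (nat_lit 37) (nat_lit 5) (nat_lit 37) (nat_lit 4) (nat_lit 435) (nat_lit 310) (nat_lit 275)) (XT.lf (nat_lit 0) (nat_lit 1812416673) (nat_lit 228) (nat_lit 6949670483) (nat_lit 76) (nat_lit 11620712004) (nat_lit 34) (nat_lit 5) (nat_lit 37) (nat_lit 5) (nat_lit 35) (nat_lit 4) (nat_lit 436) (nat_lit 310) (nat_lit 274)))) (XT.nd (nat_lit 156) (nat_lit 152) (nat_lit 0) (XT.nd (nat_lit 78) (nat_lit 0) (nat_lit 0) (XT.lf (nat_lit 0) (nat_lit 3686483273) (nat_lit 76) (nat_lit 3445754980) (nat_lit 152) (nat_lit 13689460816) (nat_lit 33) (nat_lit 5) (nat_lit 34) (nat_lit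 5) (nat_lit 35) (nat_lit 4) (nat_lit 437) (nat_lit 310) (nat_lit 273)) (XT.lf (nat_lit 0) (nat_lit 12632925237) (nat_lit 152) (nat_lit 6638636375) (nat_lit 0) (nat_lit 2001571438) (nat_lit 33) (nat_lit 5) (nat_lit 35) (nat_lit 4) (nat_lit 33) (nat_lit 4) (nat_lit 438) (nat_lit 310) (nat_lit 272))) (XT.nd (nat_lit 78) (nat_lit 76) (nat_lit 0) (XT.lf (nat_lit 0) (nat_lit 4091426852) (nat_lit 76) (nat_lit 14213548390) (nat_lit 76) (nat_lit 3432949580) (nat_lit 32) (nat_lit 4) (nat_lit 33) (nat_lit 5) (nat_lit 33) (nat_lit 4) (nat_lit 439) (nat_lit 310) (nat_lit 271)) (XT.lf (nat_lit 0) (nat_lit 1893535069) (nat_lit 152) (nat_lit 7081620687) (nat_lit 76) (nat_lit 13240932218) (nat_lit 31) (nat_lit 5) (nat_lit 33) (nat_lit 5) (nat_lit 32) (nat_lit 4) (nat_lit 440) (nat_lit 310) (nat_lit 270))))))))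
noncomputable def xc38 : XT := (XT.nd (nat_lit 2184) (nat_lit 456) (nat_lit 0) (XT.nd (nat_lit 1092) (nat_lit 532) (nat_lit 0) (XT.nd (nat_lit 546) (nat_lit 380) (nat_lit 0) (XT.nd (nat_lit 234) (nat_lit 152) (nat_lit 0) (XT.nd (nat_lit 78) (nat_lit 76) (nat_lit 0) (XT.lf (nat_lit 0) (nat_lit 3715187840) (nat_lit 76) (nat_lit 3566271496) (nat_lit 152) (nat_lit 15427002294) (nat_lit 30) (nat_lit 5) (nat_lit 31) (nat_lit 5) (nat_lit 32) (nat_lit 4) (nat_lit 441) (nat_lit 310) (nat_lit 269)) (XT.nd (nat_lit 78) (nat_lit 76) (nat_lit 0) (XT.lf (nat_lit 0) (nat_lit 12857605585) (nat_lit 152) (nat_lit 8376063387) (nat_lit 0) (nat_lit 1981144478) (nat_lit 30) (nat_lit 5) (nat_lit 32) (nat_lit 4) (nat_lit 30) (nat_lit 4) (nat_lit 442) (nat_lit 310) (nat_lit 268)) (XT.lf (nat_lit 0) (nat_lit 2452116973) (nat_lit 76) (nat_lit 16144784209) (nat_lit 76) (nat_lit 5139583045) (nat_lit 29) (nat_lit 4) (nat_lit 30) (nat_lit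 5) (nat_lit 30) (nat_lit 4) (nat_lit 443) (nat_lit 310) (nat_lit 267)))) (XT.nd (nat_lit 156) (nat_lit 0) (nat_lit 0) (XT.nd (nat_lit 78) (nat_lit 76) (nat_lit 0) (XT.lf (nat_lit 0) (nat_lit 252467740) (nat_lit 152) (nat_lit 10617681997) (nat_lit 76) (nat_lit 13402917610) (nat_lit 28) (nat_lit 5) (nat_lit 30) (nat_lit 5) (nat_lit 29) (nat_lit 4) (nat_lit 444) (nat_lit 310) (nat_lit 266)) (XT.lf (nat_lit 0) (nat_lit 205460226) (nat_lit 76) (nat_lit 5438382920) (nat_lit 152) (nat_lit 19182156279) (nat_lit 27) (nat_lit 5) (nat_lit 28) (nat_lit 5) (nat_lit 29) (nat_lit 4) (nat_lit 445) (nat_lit 310) (nat_lit 265))) (XT.nd (nat_lit 78) (nat_lit 0) (nat_lit 0) (XT.lf (nat_lit 0) (nat_lit 11245770579) (nat_lit 152) (nat_lit 13940728289) (nat_lit 0) (nat_lit 207560141) (nat_lit 27) (nat_lit 5) (nat_lit 29) (nat_lit 4) (nat_lit 27) (nat_lit 4) (nat_lit 446) (nat_lit 310) (nat_lit 264)) (XT.lf (nat_lit 0) (nat_lit 17010405702)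 (nat_lit 152) (nat_lit 3107775975) (nat_lit 0) (nat_lit 5861142960) (nat_lit 27) (nat_lit 5) (nat_lit 29) (nat_lit 4) (nat_lit 27) (nat_lit 4) (nat_lit 447) (nat_lit 310) (nat_lit 263))))) (XT.nd (nat_lit 234) (nat_lit 152) (nat_lit 0) (XT.nd (nat_lit 78) (nat_lit 152) (nat_lit 0) (XT.lf (nat_lit 0) (nat_lit 8098083263) (nat_lit 76) (nat_lit 14870268979) (nat_lit 76) (nat_lit 3613188466) (nat_lit 26) (nat_lit 4) (nat_lit 27) (nat_lit 5) (nat_lit 27) (nat_lit 4) (nat_lit 448) (nat_lit 310) (nat_lit 262)) (XT.nd (nat_lit 78) (nat_lit 76) (nat_lit 0) (XT.lf (nat_lit 0) (nat_lit 1840356765) (nat_lit 152) (nat_lit 7625833725) (nat_lit 76) (nat_lit 17735858917) (nat_lit 25) (nat_lit 5) (nat_lit 27) (nat_lit 5) (nat_lit 26) (nat_lit 4) (nat_lit 449) (nat_lit 310) (nat_lit 261)) (XT.lf (nat_lit 0) (nat_lit 3482743290) (nat_lit 76) (nat_lit 3879882246) (nat_lit 152) (nat_lit 20478145782) (nat_lit 24) (nat_lit 5) (nat_lit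 25) (nat_lit 5) (nat_lit 26) (nat_lit 4) (nat_lit 450) (nat_lit 310) (nat_lit 260)))) (XT.nd (nat_lit 156) (nat_lit 152) (nat_lit 0) (XT.nd (nat_lit 78) (nat_lit 0) (nat_lit 0) (XT.lf (nat_lit 0) (nat_lit 13090722645) (nat_lit 152) (nat_lit 13541304223) (nat_lit 0) (nat_lit 1865426447) (nat_lit 24) (nat_lit 5) (nat_lit 26) (nat_lit 4) (nat_lit 24) (nat_lit 4) (nat_lit 451) (nat_lit 310) (nat_lit 259)) (XT.lf (nat_lit 0) (nat_lit 18975075099) (nat_lit 152) (nat_lit 2542457100) (nat_lit 0) (nat_lit 7656774345) (nat_lit 24) (nat_lit 5) (nat_lit 26) (nat_lit 4) (nat_lit 24) (nat_lit 4) (nat_lit 452) (nat_lit 310) (nat_lit 258))) (XT.nd (nat_lit 78) (nat_lit 76) (nat_lit 0) (XT.lf (nat_lit 0) (nat_lit 8858276669) (nat_lit 76) (nat_lit 16210403268) (nat_lit 76) (nat_lit 4801806828) (nat_lit 23) (nat_lit 4) (nat_lit 24) (nat_lit 5) (nat_lit 24) (nat_lit 4) (nat_lit 453) (nat_lit 310) (nat_lit 257)) (XT.lf (nat_lit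 0) (nat_lit 716306773) (nat_lit 152) (nat_lit 10042159404) (nat_lit 76) (nat_lit 19829664178) (nat_lit 22) (nat_lit 5) (nat_lit 24) (nat_lit 5) (nat_lit 23) (nat_lit 4) (nat_lit 454) (nat_lit 310) (nat_lit 256)))))) (XT.nd (nat_lit 546) (nat_lit 228) (nat_lit 0) (XT.nd (nat_lit 234) (nat_lit 228) (nat_lit 0) (XT.nd (nat_lit 78) (nat_lit 0) (nat_lit 0) (XT.lf (nat_lit 0) (nat_lit 1133519292) (nat_lit 76) (nat_lit 5129975185) (nat_lit 152) (nat_lit 25063584020) (nat_lit 21) (nat_lit 5) (nat_lit 22) (nat_lit 5) (nat_lit 23) (nat_lit 4) (nat_lit 455) (nat_lit 310) (nat_lit 255)) (XT.nd (nat_lit 78) (nat_lit 0) (nat_lit 0) (XT.lf (nat_lit 0) (nat_lit 12035167505) (nat_lit 152) (nat_lit 19340400153) (nat_lit 0) (nat_lit 710888047) (nat_lit 21) (nat_lit 5) (nat_lit 23) (nat_lit 4) (nat_lit 21) (nat_lit 4) (nat_lit 456) (nat_lit 310) (nat_lit 254)) (XT.lf (nat_lit 0) (nat_lit 17981505253) (nat_lit 152) (nat_lit 8307730229)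 (nat_lit 0) (nat_lit 6579335944) (nat_lit 21) (nat_lit 5) (nat_lit 23) (nat_lit 4) (nat_lit 21) (nat_lit 4) (nat_lit 457) (nat_lit 310) (nat_lit 253)))) (XT.nd (nat_lit 156) (nat_lit 152) (nat_lit 0) (XT.nd (nat_lit 78) (nat_lit 0) (nat_lit 0) (XT.lf (nat_lit 0) (nat_lit 3022380755) (nat_lit 76) (nat_lit 21065063308) (nat_lit 76) (nat_lit 9587272783) (nat_lit 20) (nat_lit 4) (nat_lit 21) (nat_lit 5) (nat_lit 21) (nat_lit 4) (nat_lit 458) (nat_lit 310) (nat_lit 252)) (XT.lf (nat_lit 0) (nat_lit 14771085850) (nat_lit 76) (nat_lit 15642037782) (nat_lit 76) (nat_lit 4090828602) (nat_lit 20) (nat_lit 4) (nat_lit 21) (nat_lit 5) (nat_lit 21) (nat_lit 4) (nat_lit 459) (nat_lit 310) (nat_lit 251))) (XT.nd (nat_lit 78) (nat_lit 76) (nat_lit 0) (XT.lf (nat_lit 0) (nat_lit 1493454628) (nat_lit 152) (nat_lit 8590776532) (nat_lit 76) (nat_lit 25274775200) (nat_lit 19) (nat_lit 5) (nat_lit 21) (nat_lit 5) (nat_lit 20) (nat_lit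 4) (nat_lit 460) (nat_lit 310) (nat_lit 250)) (XT.lf (nat_lit 0) (nat_lit 2812709084) (nat_lit 76) (nat_lit 4332316845) (nat_lit 152) (nat_lit 29094013919) (nat_lit 18) (nat_lit 5) (nat_lit 19) (nat_lit 5) (nat_lit 20) (nat_lit 4) (nat_lit 461) (nat_lit 310) (nat_lit 249))))) (XT.nd (nat_lit 234) (nat_lit 228) (nat_lit 0) (XT.nd (nat_lit 78) (nat_lit 0) (nat_lit 0) (XT.lf (nat_lit 0) (nat_lit 13024081589) (nat_lit 152) (nat_lit 22511965565) (nat_lit 0) (nat_lit 1607691275) (nat_lit 18) (nat_lit 5) (nat_lit 20) (nat_lit 4) (nat_lit 18) (nat_lit 4) (nat_lit 462) (nat_lit 310) (nat_lit 248)) (XT.nd (nat_lit 78) (nat_lit 0) (nat_lit 0) (XT.lf (nat_lit 0) (nat_lit 19078736682) (nat_lit 152) (nat_lit 11397851802) (nat_lit 0) (nat_lit 7599014791) (nat_lit 18) (nat_lit 5) (nat_lit 20) (nat_lit 4) (nat_lit 18) (nat_lit 4) (nat_lit 463) (nat_lit 310) (nat_lit 247)) (XT.lf (nat_lit 0) (nat_lit 25272636803) (nat_lit 152)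 (nat_lit 32633236) (nat_lit 0) (nat_lit 13731427944) (nat_lit 18) (nat_lit 5) (nat_lit 20) (nat_lit 4) (nat_lit 18) (nat_lit 4) (nat_lit 464) (nat_lit 310) (nat_lit 246)))) (XT.nd (nat_lit 156) (nat_lit 152) (nat_lit 0) (XT.nd (nat_lit 78) (nat_lit 0) (nat_lit 0) (XT.lf (nat_lit 0) (nat_lit 11824356696) (nat_lit 76) (nat_lit 19900500353) (nat_lit 76) (nat_lit 8299595408) (nat_lit 17) (nat_lit 4) (nat_lit 18) (nat_lit 5) (nat_lit 18) (nat_lit 4) (nat_lit 465) (nat_lit 310) (nat_lit 245)) (XT.lf (nat_lit 0) (nat_lit 23958587835) (nat_lit 76) (nat_lit 14371663881) (nat_lit 76) (nat_lit 2712801572) (nat_lit 17) (nat_lit 4) (nat_lit 18) (nat_lit 5) (nat_lit 18) (nat_lit 4) (nat_lit 466) (nat_lit 310) (nat_lit 244))) (XT.nd (nat_lit 78) (nat_lit 76) (nat_lit 0) (XT.lf (nat_lit 0) (nat_lit 2942314629) (nat_lit 152) (nat_lit 5742232897) (nat_lit 76) (nat_lit 33407987204) (nat_lit 16) (nat_lit 5) (nat_lit 18) (nat_lit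 5) (nat_lit 17) (nat_lit 4) (nat_lit 467) (nat_lit 310) (nat_lit 243)) (XT.lf (nat_lit 0) (nat_lit 5954227704) (nat_lit 76) (nat_lit 2776801692) (nat_lit 152) (nat_lit 34441113139) (nat_lit 15) (nat_lit 5) (nat_lit 16) (nat_lit 5) (nat_lit 17) (nat_lit 4) (nat_lit 468) (nat_lit 310) (nat_lit 242))))))) (XT.nd (nat_lit 1092) (nat_lit 152) (nat_lit 0) (XT.nd (nat_lit 546) (nat_lit 152) (nat_lit 0) (XT.nd (nat_lit 234) (nat_lit 152) (nat_lit 0) (XT.nd (nat_lit 78) (nat_lit 0) (nat_lit 0) (XT.lf (nat_lit 0) (nat_lit 14745062283) (nat_lit 152) (nat_lit 26270913784) (nat_lit 0) (nat_lit 3266614546) (nat_lit 15) (nat_lit 5) (nat_lit 17) (nat_lit 4) (nat_lit 15) (nat_lit 4) (nat_lit 469) (nat_lit 310) (nat_lit 241)) (XT.nd (nat_lit 78) (nat_lit 0) (nat_lit 0) (XT.lf (nat_lit 0) (nat_lit 20929433568) (nat_lit 152) (nat_lit 15096231433) (nat_lit 0) (nat_lit 9400991299) (nat_lit 15) (nat_lit 5) (nat_lit 17) (nat_lit 4)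 (nat_lit 15) (nat_lit 4) (nat_lit 470) (nat_lit 310) (nat_lit 240)) (XT.lf (nat_lit 0) (nat_lit 27262854755) (nat_lit 152) (nat_lit 3657411175) (nat_lit 0) (nat_lit 15685874106) (nat_lit 15) (nat_lit 5) (nat_lit 17) (nat_lit 4) (nat_lit 15) (nat_lit 4) (nat_lit 471) (nat_lit 310) (nat_lit 239)))) (XT.nd (nat_lit 156) (nat_lit 76) (nat_lit 0) (XT.nd (nat_lit 78) (nat_lit 0) (nat_lit 0) (XT.lf (nat_lit 0) (nat_lit 8215863156) (nat_lit 76) (nat_lit 25613972647) (nat_lit 76) (nat_lit 13989867356) (nat_lit 14) (nat_lit 4) (nat_lit 15) (nat_lit 5) (nat_lit 15) (nat_lit 4) (nat_lit 472) (nat_lit 310) (nat_lit 238)) (XT.lf (nat_lit 0) (nat_lit 20451954227) (nat_lit 76) (nat_lit 20143760605) (nat_lit 76) (nat_lit 8473903235) (nat_lit 14) (nat_lit 4) (nat_lit 15) (nat_lit 5) (nat_lit 15) (nat_lit 4) (nat_lit 473) (nat_lit 310) (nat_lit 237))) (XT.nd (nat_lit 78) (nat_lit 76) (nat_lit 0) (XT.lf (nat_lit 0) (nat_lit 32988764112)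 (nat_lit 76) (nat_lit 14541782689) (nat_lit 76) (nat_lit 2827505825) (nat_lit 14) (nat_lit 4) (nat_lit 15) (nat_lit 5) (nat_lit 15) (nat_lit 4) (nat_lit 474) (nat_lit 310) (nat_lit 236)) (XT.lf (nat_lit 0) (nat_lit 2896610392) (nat_lit 152) (nat_lit 5877283489) (nat_lit 76) (nat_lit 42911386828) (nat_lit 13) (nat_lit 5) (nat_lit 15) (nat_lit 5) (nat_lit 14) (nat_lit 4) (nat_lit 475) (nat_lit 310) (nat_lit 235))))) (XT.nd (nat_lit 234) (nat_lit 76) (nat_lit 0) (XT.nd (nat_lit 78) (nat_lit 0) (nat_lit 0) (XT.lf (nat_lit 0) (nat_lit 5985076640) (nat_lit 76) (nat_lit 2775686344) (nat_lit 152) (nat_lit 44289969882) (nat_lit 12) (nat_lit 5) (nat_lit 13) (nat_lit 5) (nat_lit 14) (nat_lit 4) (nat_lit 476) (nat_lit 310) (nat_lit 234)) (XT.nd (nat_lit 78) (nat_lit 0) (nat_lit 0) (XT.lf (nat_lit 0) (nat_lit 14861142453) (nat_lit 152) (nat_lit 36228126189) (nat_lit 0) (nat_lit 3366072212) (nat_lit 12) (nat_lit 5) (nat_lit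 14) (nat_lit 4) (nat_lit 12) (nat_lit 4) (nat_lit 477) (nat_lit 310) (nat_lit 233)) (XT.lf (nat_lit 0) (nat_lit 21140616364) (nat_lit 152) (nat_lit 25154360043) (nat_lit 0) (nat_lit 9607229477) (nat_lit 12) (nat_lit 5) (nat_lit 14) (nat_lit 4) (nat_lit 12) (nat_lit 4) (nat_lit 478) (nat_lit 310) (nat_lit 232)))) (XT.nd (nat_lit 156) (nat_lit 76) (nat_lit 0) (XT.nd (nat_lit 78) (nat_lit 0) (nat_lit 0) (XT.lf (nat_lit 0) (nat_lit 27577990041) (nat_lit 152) (nat_lit 13808000087) (nat_lit 0) (nat_lit 16007402527) (nat_lit 12) (nat_lit 5) (nat_lit 14) (nat_lit 4) (nat_lit 12) (nat_lit 4) (nat_lit 479) (nat_lit 310) (nat_lit 231)) (XT.lf (nat_lit 0) (nat_lit 34178888374) (nat_lit 152) (nat_lit 2179132027) (nat_lit 0) (nat_lit 22572183746) (nat_lit 12) (nat_lit 5) (nat_lit 14) (nat_lit 4) (nat_lit 12) (nat_lit 4) (nat_lit 480) (nat_lit 310) (nat_lit 230))) (XT.nd (nat_lit 78) (nat_lit 0) (nat_lit 0) (XT.lf (nat_lit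 0) (nat_lit 9936298252) (nat_lit 76) (nat_lit 31108294664) (nat_lit 76) (nat_lit 19466524877) (nat_lit 11) (nat_lit 4) (nat_lit 12) (nat_lit 5) (nat_lit 12) (nat_lit 4) (nat_lit 481) (nat_lit 310) (nat_lit 229)) (XT.lf (nat_lit 0) (nat_lit 22404215668) (nat_lit 76) (nat_lit 25705625392) (nat_lit 76) (nat_lit 14029811762) (nat_lit 11) (nat_lit 4) (nat_lit 12) (nat_lit 5) (nat_lit 12) (nat_lit 4) (nat_lit 482) (nat_lit 310) (nat_lit 228)))))) (XT.nd (nat_lit 546) (nat_lit 0) (nat_lit 0) (XT.nd (nat_lit 234) (nat_lit 76) (nat_lit 0) (XT.nd (nat_lit 78) (nat_lit 76) (nat_lit 0) (XT.lf (nat_lit 0) (nat_lit 35192145519) (nat_lit 76) (nat_lit 20167296769) (nat_lit 76) (nat_lit 8458430864) (nat_lit 11) (nat_lit 4) (nat_lit 12) (nat_lit 5) (nat_lit 12) (nat_lit 4) (nat_lit 483) (nat_lit 310) (nat_lit 227)) (XT.nd (nat_lit 78) (nat_lit 76) (nat_lit 0) (XT.lf (nat_lit 0) (nat_lit 48311261722) (nat_lit 76) (nat_lit 14488469478)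 (nat_lit 76) (nat_lit 2747513985) (nat_lit 11) (nat_lit 4) (nat_lit 12) (nat_lit 5) (nat_lit 12) (nat_lit 4) (nat_lit 484) (nat_lit 310) (nat_lit 226)) (XT.lf (nat_lit 0) (nat_lit 3047282105) (nat_lit 152) (nat_lit 5586127758) (nat_lit 76) (nat_lit 58694973905) (nat_lit 10) (nat_lit 5) (nat_lit 12) (nat_lit 5) (nat_lit 11) (nat_lit 4) (nat_lit 485) (nat_lit 310) (nat_lit 225)))) (XT.nd (nat_lit 156) (nat_lit 0) (nat_lit 0) (XT.nd (nat_lit 78) (nat_lit 0) (nat_lit 0) (XT.lf (nat_lit 0) (nat_lit 6462171388) (nat_lit 76) (nat_lit 2535133702) (nat_lit 152) (nat_lit 60163738156) (nat_lit 9) (nat_lit 5) (nat_lit 10) (nat_lit 5) (nat_lit 11) (nat_lit 4) (nat_lit 486) (nat_lit 310) (nat_lit 224)) (XT.lf (nat_lit 0) (nat_lit 15193327800) (nat_lit 152) (nat_lit 52147114033) (nat_lit 0) (nat_lit 3706216669) (nat_lit 9) (nat_lit 5) (nat_lit 11) (nat_lit 4) (nat_lit 9) (nat_lit 4) (nat_lit 487) (nat_lit 310) (nat_lit 223)))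 (XT.nd (nat_lit 78) (nat_lit 0) (nat_lit 0) (XT.lf (nat_lit 0) (nat_lit 21575595482) (nat_lit 152) (nat_lit 41352433149) (nat_lit 0) (nat_lit 10060803591) (nat_lit 9) (nat_lit 5) (nat_lit 11) (nat_lit 4) (nat_lit 9) (nat_lit 4) (nat_lit 488) (nat_lit 310) (nat_lit 222)) (XT.lf (nat_lit 0) (nat_lit 28125315620) (nat_lit 152) (nat_lit 30281027706) (nat_lit 0) (nat_lit 16583649204) (nat_lit 9) (nat_lit 5) (nat_lit 11) (nat_lit 4) (nat_lit 9) (nat_lit 4) (nat_lit 489) (nat_lit 310) (nat_lit 221))))) (XT.nd (nat_lit 46098) (nat_lit 0) (nat_lit 5928) (XT.nd (nat_lit 45942) (nat_lit 0) (nat_lit 6688) (XT.nd (nat_lit 78) (nat_lit 0) (nat_lit 0) (XT.lf (nat_lit 0) (nat_lit 34848211269) (nat_lit 152) (nat_lit 18923223659) (nat_lit 0) (nat_lit 23280453083) (nat_lit 9) (nat_lit 5) (nat_lit 11) (nat_lit 4) (nat_lit 9) (nat_lit 4) (nat_lit 490) (nat_lit 310) (nat_lit 220)) (XT.lf (nat_lit 0) (nat_lit 41750156805) (nat_lit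 152) (nat_lit 7269096714) (nat_lit 0) (nat_lit 30157066802) (nat_lit 9) (nat_lit 5) (nat_lit 11) (nat_lit 4) (nat_lit 9) (nat_lit 4) (nat_lit 491) (nat_lit 310) (nat_lit 219))) (XT.nd (nat_lit 78) (nat_lit 304) (nat_lit 0) (XT.lf (nat_lit 0) (nat_lit 2711822566) (nat_lit 228) (nat_lit 1229732648) (nat_lit 228) (nat_lit 1229732648) (nat_lit 101) (nat_lit 4) (nat_lit 104) (nat_lit 5) (nat_lit 104) (nat_lit 4) (nat_lit 398) (nat_lit 311) (nat_lit 311)) (XT.lf (nat_lit 0) (nat_lit 2148679634) (nat_lit 304) (nat_lit 6888743746) (nat_lit 0) (nat_lit 1454558120) (nat_lit 97) (nat_lit 5) (nat_lit 101) (nat_lit 4) (nat_lit 97) (nat_lit 4) (nat_lit 399) (nat_lit 311) (nat_lit 310)))) (XT.nd (nat_lit 156) (nat_lit 456) (nat_lit 0) (XT.nd (nat_lit 78) (nat_lit 76) (nat_lit 0) (XT.lf (nat_lit 0) (nat_lit 1648851901) (nat_lit 228) (nat_lit 5182383848) (nat_lit 228) (nat_lit 3814357953) (nat_lit 94) (nat_lit 4) (nat_lit 97)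 (nat_lit 5) (nat_lit 97) (nat_lit 4) (nat_lit 400) (nat_lit 311) (nat_lit 309)) (XT.lf (nat_lit 0) (nat_lit 799718393) (nat_lit 304) (nat_lit 398873655) (nat_lit 76) (nat_lit 9606022653) (nat_lit 93) (nat_lit 5) (nat_lit 97) (nat_lit 5) (nat_lit 94) (nat_lit 4) (nat_lit 401) (nat_lit 311) (nat_lit 308))) (XT.nd (nat_lit 78) (nat_lit 228) (nat_lit 0) (XT.lf (nat_lit 0) (nat_lit 5483568958) (nat_lit 304) (nat_lit 2580033746) (nat_lit 0) (nat_lit 2903450989) (nat_lit 90) (nat_lit 5) (nat_lit 94) (nat_lit 4) (nat_lit 90) (nat_lit 4) (nat_lit 402) (nat_lit 311) (nat_lit 307)) (XT.lf (nat_lit 0) (nat_lit 6252716013) (nat_lit 228) (nat_lit 4030640361) (nat_lit 228) (nat_lit 851767078) (nat_lit 87) (nat_lit 4) (nat_lit 90) (nat_lit 5) (nat_lit 90) (nat_lit 4) (nat_lit 403) (nat_lit 311) (nat_lit 306))))))))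
noncomputable def xc39 : XT := (XT.nd (nat_lit 2262) (nat_lit 1520) (nat_lit 0) (XT.nd (nat_lit 1092) (nat_lit 1520) (nat_lit 0) (XT.nd (nat_lit 546) (nat_lit 988) (nat_lit 0) (XT.nd (nat_lit 234) (nat_lit 608) (nat_lit 0) (XT.nd (nat_lit 78) (nat_lit 304) (nat_lit 0) (XT.lf (nat_lit 0) (nat_lit 3808132725) (nat_lit 228) (nat_lit 7342556780) (nat_lit 0) (nat_lit 157463674) (nat_lit 84) (nat_lit 5) (nat_lit 87) (nat_lit 4) (nat_lit 84) (nat_lit 4) (nat_lit 404) (nat_lit 311) (nat_lit 305)) (XT.nd (nat_lit 78) (nat_lit 76) (nat_lit 0) (XT.lf (nat_lit 0) (nat_lit 1505916517) (nat_lit 228) (nat_lit 7089350533) (nat_lit 228) (nat_lit 2890735549) (nat_lit 81) (nat_lit 4) (nat_lit 84) (nat_lit 5) (nat_lit 84) (nat_lit 4) (nat_lit 405) (nat_lit 311) (nat_lit 304)) (XT.lf (nat_lit 0) (nat_lit 1796160199) (nat_lit 304) (nat_lit 1084396120) (nat_lit 76) (nat_lit 8788846200) (nat_lit 80) (nat_lit 5) (nat_lit 84) (nat_lit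 5) (nat_lit 81) (nat_lit 4) (nat_lit 406) (nat_lit 311) (nat_lit 303)))) (XT.nd (nat_lit 156) (nat_lit 228) (nat_lit 0) (XT.nd (nat_lit 78) (nat_lit 228) (nat_lit 0) (XT.lf (nat_lit 0) (nat_lit 6560825231) (nat_lit 228) (nat_lit 3830219359) (nat_lit 0) (nat_lit 1466560261) (nat_lit 78) (nat_lit 5) (nat_lit 81) (nat_lit 4) (nat_lit 78) (nat_lit 4) (nat_lit 407) (nat_lit 311) (nat_lit 302)) (XT.lf (nat_lit 0) (nat_lit 5293396240) (nat_lit 228) (nat_lit 6169671094) (nat_lit 228) (nat_lit 588563260) (nat_lit 75) (nat_lit 4) (nat_lit 78) (nat_lit 5) (nat_lit 78) (nat_lit 4) (nat_lit 408) (nat_lit 311) (nat_lit 301))) (XT.nd (nat_lit 78) (nat_lit 0) (nat_lit 0) (XT.lf (nat_lit 0) (nat_lit 2358405190) (nat_lit 152) (nat_lit 1785523873) (nat_lit 228) (nat_lit 8107349556) (nat_lit 72) (nat_lit 5) (nat_lit 74) (nat_lit 5) (nat_lit 75) (nat_lit 4) (nat_lit 409) (nat_lit 311) (nat_lit 300)) (XT.lf (nat_lit 0) (nat_lit 9006720303)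 (nat_lit 228) (nat_lit 766288679) (nat_lit 0) (nat_lit 2683742729) (nat_lit 72) (nat_lit 5) (nat_lit 75) (nat_lit 4) (nat_lit 72) (nat_lit 4) (nat_lit 410) (nat_lit 311) (nat_lit 299))))) (XT.nd (nat_lit 234) (nat_lit 456) (nat_lit 0) (XT.nd (nat_lit 78) (nat_lit 304) (nat_lit 0) (XT.lf (nat_lit 0) (nat_lit 1329121432) (nat_lit 228) (nat_lit 4057414644) (nat_lit 76) (nat_lit 7281226664) (nat_lit 69) (nat_lit 5) (nat_lit 72) (nat_lit 5) (nat_lit 70) (nat_lit 4) (nat_lit 411) (nat_lit 311) (nat_lit 298)) (XT.nd (nat_lit 78) (nat_lit 152) (nat_lit 0) (XT.lf (nat_lit 0) (nat_lit 5307255015) (nat_lit 152) (nat_lit 841878530) (nat_lit 228) (nat_lit 6735954766) (nat_lit 67) (nat_lit 5) (nat_lit 69) (nat_lit 5) (nat_lit 70) (nat_lit 4) (nat_lit 412) (nat_lit 311) (nat_lit 297)) (XT.lf (nat_lit 0) (nat_lit 1763749382) (nat_lit 152) (nat_lit 9353712655) (nat_lit 152) (nat_lit 1991373512) (nat_lit 65) (nat_lit 4) (nat_lit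 67) (nat_lit 5) (nat_lit 67) (nat_lit 4) (nat_lit 413) (nat_lit 311) (nat_lit 296)))) (XT.nd (nat_lit 156) (nat_lit 228) (nat_lit 0) (XT.nd (nat_lit 78) (nat_lit 152) (nat_lit 0) (XT.lf (nat_lit 0) (nat_lit 2833356080) (nat_lit 228) (nat_lit 1994944553) (nat_lit 76) (nat_lit 8510342766) (nat_lit 64) (nat_lit 5) (nat_lit 67) (nat_lit 5) (nat_lit 65) (nat_lit 4) (nat_lit 414) (nat_lit 311) (nat_lit 295)) (XT.lf (nat_lit 0) (nat_lit 7607209512) (nat_lit 152) (nat_lit 140076903) (nat_lit 228) (nat_lit 5827945311) (nat_lit 62) (nat_lit 5) (nat_lit 64) (nat_lit 5) (nat_lit 65) (nat_lit 4) (nat_lit 415) (nat_lit 311) (nat_lit 294))) (XT.nd (nat_lit 78) (nat_lit 76) (nat_lit 0) (XT.lf (nat_lit 0) (nat_lit 3587073296) (nat_lit 152) (nat_lit 9233247384) (nat_lit 152) (nat_lit 998258331) (nat_lit 60) (nat_lit 4) (nat_lit 62) (nat_lit 5) (nat_lit 62) (nat_lit 4) (nat_lit 416) (nat_lit 311) (nat_lit 293)) (XT.lf (nat_lit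 0) (nat_lit 3872959156) (nat_lit 228) (nat_lit 714343754) (nat_lit 76) (nat_lit 9481561357) (nat_lit 59) (nat_lit 5) (nat_lit 62) (nat_lit 5) (nat_lit 60) (nat_lit 4) (nat_lit 417) (nat_lit 311) (nat_lit 292)))))) (XT.nd (nat_lit 546) (nat_lit 760) (nat_lit 0) (XT.nd (nat_lit 234) (nat_lit 380) (nat_lit 0) (XT.nd (nat_lit 78) (nat_lit 228) (nat_lit 0) (XT.lf (nat_lit 0) (nat_lit 8874513416) (nat_lit 228) (nat_lit 5225729478) (nat_lit 0) (nat_lit 226001626) (nat_lit 57) (nat_lit 5) (nat_lit 60) (nat_lit 4) (nat_lit 57) (nat_lit 4) (nat_lit 418) (nat_lit 311) (nat_lit 291)) (XT.nd (nat_lit 78) (nat_lit 76) (nat_lit 0) (XT.lf (nat_lit 0) (nat_lit 4522418060) (nat_lit 152) (nat_lit 9514801610) (nat_lit 152) (nat_lit 553803911) (nat_lit 55) (nat_lit 4) (nat_lit 57) (nat_lit 5) (nat_lit 57) (nat_lit 4) (nat_lit 419) (nat_lit 311) (nat_lit 290)) (XT.lf (nat_lit 0) (nat_lit 4371818573) (nat_lit 228) (nat_lit 389590371)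 (nat_lit 76) (nat_lit 10102000073) (nat_lit 54) (nat_lit 5) (nat_lit 57) (nat_lit 5) (nat_lit 55) (nat_lit 4) (nat_lit 420) (nat_lit 311) (nat_lit 289)))) (XT.nd (nat_lit 156) (nat_lit 152) (nat_lit 0) (XT.nd (nat_lit 78) (nat_lit 152) (nat_lit 0) (XT.lf (nat_lit 0) (nat_lit 9445674195) (nat_lit 152) (nat_lit 5532629511) (nat_lit 0) (nat_lit 165159618) (nat_lit 53) (nat_lit 5) (nat_lit 55) (nat_lit 4) (nat_lit 53) (nat_lit 4) (nat_lit 421) (nat_lit 311) (nat_lit 288)) (XT.lf (nat_lit 0) (nat_lit 4375930072) (nat_lit 152) (nat_lit 10306909997) (nat_lit 152) (nat_lit 748755737) (nat_lit 51) (nat_lit 4) (nat_lit 53) (nat_lit 5) (nat_lit 53) (nat_lit 4) (nat_lit 422) (nat_lit 311) (nat_lit 287))) (XT.nd (nat_lit 78) (nat_lit 76) (nat_lit 0) (XT.lf (nat_lit 0) (nat_lit 4238379035) (nat_lit 228) (nat_lit 1223797908) (nat_lit 76) (nat_lit 10265715377) (nat_lit 50) (nat_lit 5) (nat_lit 53) (nat_lit 5) (nat_lit 51) (nat_lit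 4) (nat_lit 423) (nat_lit 311) (nat_lit 286)) (XT.lf (nat_lit 0) (nat_lit 8924216682) (nat_lit 76) (nat_lit 442101574) (nat_lit 152) (nat_lit 6666358467) (nat_lit 49) (nat_lit 5) (nat_lit 50) (nat_lit 5) (nat_lit 51) (nat_lit 4) (nat_lit 424) (nat_lit 311) (nat_lit 285))))) (XT.nd (nat_lit 312) (nat_lit 456) (nat_lit 0) (XT.nd (nat_lit 156) (nat_lit 76) (nat_lit 0) (XT.nd (nat_lit 78) (nat_lit 76) (nat_lit 0) (XT.lf (nat_lit 0) (nat_lit 2921099560) (nat_lit 152) (nat_lit 11733766338) (nat_lit 152) (nat_lit 1691543990) (nat_lit 47) (nat_lit 4) (nat_lit 49) (nat_lit 5) (nat_lit 49) (nat_lit 4) (nat_lit 425) (nat_lit 311) (nat_lit 284)) (XT.lf (nat_lit 0) (nat_lit 3363296608) (nat_lit 228) (nat_lit 3454224661) (nat_lit 76) (nat_lit 9851118904) (nat_lit 46) (nat_lit 5) (nat_lit 49) (nat_lit 5) (nat_lit 47) (nat_lit 4) (nat_lit 426) (nat_lit 311) (nat_lit 283))) (XT.nd (nat_lit 78) (nat_lit 0) (nat_lit 0) (XT.lf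 (nat_lit 0) (nat_lit 6789993246) (nat_lit 76) (nat_lit 1734257436) (nat_lit 152) (nat_lit 8476137876) (nat_lit 45) (nat_lit 5) (nat_lit 46) (nat_lit 5) (nat_lit 47) (nat_lit 4) (nat_lit 427) (nat_lit 311) (nat_lit 282)) (XT.lf (nat_lit 0) (nat_lit 13832383551) (nat_lit 152) (nat_lit 104726291) (nat_lit 0) (nat_lit 3405216455) (nat_lit 45) (nat_lit 5) (nat_lit 47) (nat_lit 4) (nat_lit 45) (nat_lit 4) (nat_lit 428) (nat_lit 311) (nat_lit 281)))) (XT.nd (nat_lit 156) (nat_lit 152) (nat_lit 0) (XT.nd (nat_lit 78) (nat_lit 76) (nat_lit 0) (XT.lf (nat_lit 0) (nat_lit 1616692541) (nat_lit 228) (nat_lit 7358068934) (nat_lit 76) (nat_lit 8718021412) (nat_lit 42) (nat_lit 5) (nat_lit 45) (nat_lit 5) (nat_lit 43) (nat_lit 4) (nat_lit 429) (nat_lit 311) (nat_lit 280)) (XT.lf (nat_lit 0) (nat_lit 2919959256) (nat_lit 76) (nat_lit 3861569831) (nat_lit 152) (nat_lit 11272539851) (nat_lit 41) (nat_lit 5) (nat_lit 42) (nat_lit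 5) (nat_lit 43) (nat_lit 4) (nat_lit 430) (nat_lit 311) (nat_lit 279))) (XT.nd (nat_lit 78) (nat_lit 152) (nat_lit 0) (XT.lf (nat_lit 0) (nat_lit 12115904846) (nat_lit 152) (nat_lit 4919309539) (nat_lit 0) (nat_lit 1390547946) (nat_lit 41) (nat_lit 5) (nat_lit 43) (nat_lit 4) (nat_lit 41) (nat_lit 4) (nat_lit 431) (nat_lit 311) (nat_lit 278)) (XT.lf (nat_lit 0) (nat_lit 5537520378) (nat_lit 152) (nat_lit 12092459258) (nat_lit 152) (nat_lit 1178043245) (nat_lit 39) (nat_lit 4) (nat_lit 41) (nat_lit 5) (nat_lit 41) (nat_lit 4) (nat_lit 432) (nat_lit 311) (nat_lit 277))))))) (XT.nd (nat_lit 1092) (nat_lit 608) (nat_lit 0) (XT.nd (nat_lit 546) (nat_lit 456) (nat_lit 0) (XT.nd (nat_lit 234) (nat_lit 304) (nat_lit 0) (XT.nd (nat_lit 78) (nat_lit 76) (nat_lit 0) (XT.lf (nat_lit 0) (nat_lit 4006045015) (nat_lit 228) (nat_lit 2965697169) (nat_lit 76) (nat_lit 12229476224) (nat_lit 38) (nat_lit 5) (nat_lit 41) (nat_lit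 5) (nat_lit 39) (nat_lit 4) (nat_lit 433) (nat_lit 311) (nat_lit 276)) (XT.nd (nat_lit 78) (nat_lit 0) (nat_lit 0) (XT.lf (nat_lit 0) (nat_lit 7655534224) (nat_lit 76) (nat_lit 1670430860) (nat_lit 152) (nat_lit 10279781051) (nat_lit 37) (nat_lit 5) (nat_lit 38) (nat_lit 5) (nat_lit 39) (nat_lit 4) (nat_lit 434) (nat_lit 311) (nat_lit 275)) (XT.lf (nat_lit 0) (nat_lit 14802760616) (nat_lit 152) (nat_lit 1532694997) (nat_lit 0) (nat_lit 3687041423) (nat_lit 37) (nat_lit 5) (nat_lit 39) (nat_lit 4) (nat_lit 37) (nat_lit 4) (nat_lit 435) (nat_lit 311) (nat_lit 274)))) (XT.nd (nat_lit 156) (nat_lit 76) (nat_lit 0) (XT.nd (nat_lit 78) (nat_lit 0) (nat_lit 0) (XT.lf (nat_lit 0) (nat_lit 30560755) (nat_lit 228) (nat_lit 11216764913) (nat_lit 76) (nat_lit 9203283506) (nat_lit 34) (nat_lit 5) (nat_lit 37) (nat_lit 5) (nat_lit 35) (nat_lit 4) (nat_lit 436) (nat_lit 311) (nat_lit 273)) (XT.lf (nat_lit 0) (nat_lit 5281799814)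 (nat_lit 228) (nat_lit 715083653) (nat_lit 76) (nat_lit 14894685652) (nat_lit 34) (nat_lit 5) (nat_lit 37) (nat_lit 5) (nat_lit 35) (nat_lit 4) (nat_lit 437) (nat_lit 311) (nat_lit 272))) (XT.nd (nat_lit 78) (nat_lit 0) (nat_lit 0) (XT.lf (nat_lit 0) (nat_lit 10176987294) (nat_lit 76) (nat_lit 546090012) (nat_lit 152) (nat_lit 10621710564) (nat_lit 33) (nat_lit 5) (nat_lit 34) (nat_lit 5) (nat_lit 35) (nat_lit 4) (nat_lit 438) (nat_lit 311) (nat_lit 271)) (XT.lf (nat_lit 0) (nat_lit 16318455654) (nat_lit 152) (nat_lit 573130748) (nat_lit 0) (nat_lit 4920295801) (nat_lit 33) (nat_lit 5) (nat_lit 35) (nat_lit 4) (nat_lit 33) (nat_lit 4) (nat_lit 439) (nat_lit 311) (nat_lit 270))))) (XT.nd (nat_lit 234) (nat_lit 228) (nat_lit 0) (XT.nd (nat_lit 78) (nat_lit 152) (nat_lit 0) (XT.lf (nat_lit 0) (nat_lit 10417416095) (nat_lit 76) (nat_lit 11706573396) (nat_lit 76) (nat_lit 167735807) (nat_lit 32) (nat_lit 4) (nat_lit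 33) (nat_lit 5) (nat_lit 33) (nat_lit 4) (nat_lit 440) (nat_lit 311) (nat_lit 269)) (XT.nd (nat_lit 78) (nat_lit 76) (nat_lit 0) (XT.lf (nat_lit 0) (nat_lit 5156628987) (nat_lit 152) (nat_lit 1207461070) (nat_lit 76) (nat_lit 16422064455) (nat_lit 31) (nat_lit 5) (nat_lit 33) (nat_lit 5) (nat_lit 32) (nat_lit 4) (nat_lit 441) (nat_lit 311) (nat_lit 268)) (XT.lf (nat_lit 0) (nat_lit 9853579084) (nat_lit 76) (nat_lit 817159466) (nat_lit 152) (nat_lit 12623631025) (nat_lit 30) (nat_lit 5) (nat_lit 31) (nat_lit 5) (nat_lit 32) (nat_lit 4) (nat_lit 442) (nat_lit 311) (nat_lit 267)))) (XT.nd (nat_lit 156) (nat_lit 152) (nat_lit 0) (XT.nd (nat_lit 78) (nat_lit 76) (nat_lit 0) (XT.lf (nat_lit 0) (nat_lit 16348469690) (nat_lit 152) (nat_lit 2710037590) (nat_lit 0) (nat_lit 4759382087) (nat_lit 30) (nat_lit 5) (nat_lit 32) (nat_lit 4) (nat_lit 30) (nat_lit 4) (nat_lit 443) (nat_lit 311) (nat_lit 266)) (XT.lf (nat_lit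 0) (nat_lit 8384975361) (nat_lit 76) (nat_lit 13840851068) (nat_lit 76) (nat_lit 2130413614) (nat_lit 29) (nat_lit 4) (nat_lit 30) (nat_lit 5) (nat_lit 30) (nat_lit 4) (nat_lit 444) (nat_lit 311) (nat_lit 265))) (XT.nd (nat_lit 78) (nat_lit 76) (nat_lit 0) (XT.lf (nat_lit 0) (nat_lit 3271331514) (nat_lit 152) (nat_lit 5187449867) (nat_lit 76) (nat_lit 16451943079) (nat_lit 28) (nat_lit 5) (nat_lit 30) (nat_lit 5) (nat_lit 29) (nat_lit 4) (nat_lit 445) (nat_lit 311) (nat_lit 264)) (XT.lf (nat_lit 0) (nat_lit 5904026204) (nat_lit 76) (nat_lit 2887433362) (nat_lit 152) (nat_lit 16689780309) (nat_lit 27) (nat_lit 5) (nat_lit 28) (nat_lit 5) (nat_lit 29) (nat_lit 4) (nat_lit 446) (nat_lit 311) (nat_lit 263)))))) (XT.nd (nat_lit 546) (nat_lit 304) (nat_lit 0) (XT.nd (nat_lit 234) (nat_lit 228) (nat_lit 0) (XT.nd (nat_lit 78) (nat_lit 76) (nat_lit 0) (XT.lf (nat_lit 0) (nat_lit 14500027896) (nat_lit 152) (nat_lit 8770744210)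 (nat_lit 0) (nat_lit 2797417196) (nat_lit 27) (nat_lit 5) (nat_lit 29) (nat_lit 4) (nat_lit 27) (nat_lit 4) (nat_lit 447) (nat_lit 311) (nat_lit 262)) (XT.nd (nat_lit 78) (nat_lit 0) (nat_lit 0) (XT.lf (nat_lit 0) (nat_lit 2268703978) (nat_lit 76) (nat_lit 18105748472) (nat_lit 76) (nat_lit 6298460325) (nat_lit 26) (nat_lit 4) (nat_lit 27) (nat_lit 5) (nat_lit 27) (nat_lit 4) (nat_lit 448) (nat_lit 311) (nat_lit 261)) (XT.lf (nat_lit 0) (nat_lit 13713277794) (nat_lit 76) (nat_lit 12745209502) (nat_lit 76) (nat_lit 836292765) (nat_lit 26) (nat_lit 4) (nat_lit 27) (nat_lit 5) (nat_lit 27) (nat_lit 4) (nat_lit 449) (nat_lit 311) (nat_lit 260)))) (XT.nd (nat_lit 156) (nat_lit 76) (nat_lit 0) (XT.nd (nat_lit 78) (nat_lit 76) (nat_lit 0) (XT.lf (nat_lit 0) (nat_lit 4642158661) (nat_lit 152) (nat_lit 2584003187) (nat_lit 76) (nat_lit 20709386980) (nat_lit 25) (nat_lit 5) (nat_lit 27) (nat_lit 5) (nat_lit 26) (nat_lit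 4) (nat_lit 450) (nat_lit 311) (nat_lit 259)) (XT.lf (nat_lit 0) (nat_lit 8806158536) (nat_lit 76) (nat_lit 1494106734) (nat_lit 152) (nat_lit 18294066819) (nat_lit 24) (nat_lit 5) (nat_lit 25) (nat_lit 5) (nat_lit 26) (nat_lit 4) (nat_lit 451) (nat_lit 311) (nat_lit 258))) (XT.nd (nat_lit 78) (nat_lit 76) (nat_lit 0) (XT.lf (nat_lit 0) (nat_lit 16144428184) (nat_lit 152) (nat_lit 8824686158) (nat_lit 0) (nat_lit 4303278165) (nat_lit 24) (nat_lit 5) (nat_lit 26) (nat_lit 4) (nat_lit 24) (nat_lit 4) (nat_lit 452) (nat_lit 311) (nat_lit 257)) (XT.lf (nat_lit 0) (nat_lit 2401784410) (nat_lit 76) (nat_lit 19749109837) (nat_lit 76) (nat_lit 7820294104) (nat_lit 23) (nat_lit 4) (nat_lit 24) (nat_lit 5) (nat_lit 24) (nat_lit 4) (nat_lit 453) (nat_lit 311) (nat_lit 256))))) (XT.nd (nat_lit 312) (nat_lit 152) (nat_lit 0) (XT.nd (nat_lit 156) (nat_lit 76) (nat_lit 0) (XT.nd (nat_lit 78) (nat_lit 76) (nat_lit 0) (XT.lf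 (nat_lit 0) (nat_lit 14048911476) (nat_lit 76) (nat_lit 14327402381) (nat_lit 76) (nat_lit 2313474304) (nat_lit 23) (nat_lit 4) (nat_lit 24) (nat_lit 5) (nat_lit 24) (nat_lit 4) (nat_lit 454) (nat_lit 311) (nat_lit 255)) (XT.lf (nat_lit 0) (nat_lit 3243640037) (nat_lit 152) (nat_lit 5511972145) (nat_lit 76) (nat_lit 22674849141) (nat_lit 22) (nat_lit 5) (nat_lit 24) (nat_lit 5) (nat_lit 23) (nat_lit 4) (nat_lit 455) (nat_lit 311) (nat_lit 254))) (XT.nd (nat_lit 78) (nat_lit 0) (nat_lit 0) (XT.lf (nat_lit 0) (nat_lit 5951609736) (nat_lit 76) (nat_lit 2978635438) (nat_lit 152) (nat_lit 23262146691) (nat_lit 21) (nat_lit 5) (nat_lit 22) (nat_lit 5) (nat_lit 23) (nat_lit 4) (nat_lit 456) (nat_lit 311) (nat_lit 253)) (XT.lf (nat_lit 0) (nat_lit 14824382947) (nat_lit 152) (nat_lit 15225054405) (nat_lit 0) (nat_lit 2926637491) (nat_lit 21) (nat_lit 5) (nat_lit 23) (nat_lit 4) (nat_lit 21) (nat_lit 4) (nat_lit 457)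 (nat_lit 311) (nat_lit 252)))) (XT.nd (nat_lit 156) (nat_lit 76) (nat_lit 0) (XT.nd (nat_lit 78) (nat_lit 76) (nat_lit 0) (XT.lf (nat_lit 0) (nat_lit 20878387709) (nat_lit 152) (nat_lit 3998168201) (nat_lit 0) (nat_lit 8907223597) (nat_lit 21) (nat_lit 5) (nat_lit 23) (nat_lit 4) (nat_lit 21) (nat_lit 4) (nat_lit 458) (nat_lit 311) (nat_lit 251)) (XT.lf (nat_lit 0) (nat_lit 7627152055) (nat_lit 76) (nat_lit 19515081696) (nat_lit 76) (nat_lit 7472637337) (nat_lit 20) (nat_lit 4) (nat_lit 21) (nat_lit 5) (nat_lit 21) (nat_lit 4) (nat_lit 459) (nat_lit 311) (nat_lit 250))) (XT.nd (nat_lit 78) (nat_lit 76) (nat_lit 0) (XT.lf (nat_lit 0) (nat_lit 19596839665) (nat_lit 76) (nat_lit 13992916866) (nat_lit 76) (nat_lit 1881268382) (nat_lit 20) (nat_lit 4) (nat_lit 21) (nat_lit 5) (nat_lit 21) (nat_lit 4) (nat_lit 460) (nat_lit 311) (nat_lit 249)) (XT.lf (nat_lit 0) (nat_lit 3758427001) (nat_lit 152) (nat_lit 4549230142)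 (nat_lit 76) (nat_lit 28045402449) (nat_lit 19) (nat_lit 5) (nat_lit 21) (nat_lit 5) (nat_lit 20) (nat_lit 4) (nat_lit 461) (nat_lit 311) (nat_lit 248))))))))
noncomputable def xc40 : XT := (XT.nd (nat_lit 2184) (nat_lit 0) (nat_lit 0) (XT.nd (nat_lit 1092) (nat_lit 380) (nat_lit 0) (XT.nd (nat_lit 546) (nat_lit 152) (nat_lit 0) (XT.nd (nat_lit 234) (nat_lit 152) (nat_lit 0) (XT.nd (nat_lit 78) (nat_lit 0) (nat_lit 0) (XT.lf (nat_lit 0) (nat_lit 7154210340) (nat_lit 76) (nat_lit 2401592033) (nat_lit 152) (nat_lit 27704407261) (nat_lit 18) (nat_lit 5) (nat_lit 19) (nat_lit 5) (nat_lit 20) (nat_lit 4) (nat_lit 462) (nat_lit 311) (nat_lit 247)) (XT.nd (nat_lit 78) (nat_lit 0) (nat_lit 0) (XT.lf (nat_lit 0) (nat_lit 15566487843) (nat_lit 152) (nat_lit 19009350999) (nat_lit 0) (nat_lit 3617555750) (nat_lit 18) (nat_lit 5) (nat_lit 20) (nat_lit 4) (nat_lit 18) (nat_lit 4) (nat_lit 463) (nat_lit 311) (nat_lit 246))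 (XT.lf (nat_lit 0) (nat_lit 21740112187) (nat_lit 152) (nat_lit 7683502374) (nat_lit 0) (nat_lit 9731484008) (nat_lit 18) (nat_lit 5) (nat_lit 20) (nat_lit 4) (nat_lit 18) (nat_lit 4) (nat_lit 464) (nat_lit 311) (nat_lit 245)))) (XT.nd (nat_lit 156) (nat_lit 76) (nat_lit 0) (XT.nd (nat_lit 78) (nat_lit 0) (nat_lit 0) (XT.lf (nat_lit 0) (nat_lit 3982236300) (nat_lit 76) (nat_lit 24115027652) (nat_lit 76) (nat_lit 12048442109) (nat_lit 17) (nat_lit 4) (nat_lit 18) (nat_lit 5) (nat_lit 18) (nat_lit 4) (nat_lit 465) (nat_lit 311) (nat_lit 244)) (XT.lf (nat_lit 0) (nat_lit 16078618933) (nat_lit 76) (nat_lit 18604563998) (nat_lit 76) (nat_lit 6481709169) (nat_lit 17) (nat_lit 4) (nat_lit 18) (nat_lit 5) (nat_lit 18) (nat_lit 4) (nat_lit 466) (nat_lit 311) (nat_lit 243))) (XT.nd (nat_lit 78) (nat_lit 76) (nat_lit 0) (XT.lf (nat_lit 0) (nat_lit 28463298419) (nat_lit 76) (nat_lit 12964996939) (nat_lit 76) (nat_lit 787511734)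 (nat_lit 17) (nat_lit 4) (nat_lit 18) (nat_lit 5) (nat_lit 18) (nat_lit 4) (nat_lit 467) (nat_lit 311) (nat_lit 242)) (XT.lf (nat_lit 0) (nat_lit 4940794213) (nat_lit 152) (nat_lit 2200712149) (nat_lit 76) (nat_lit 36156409772) (nat_lit 16) (nat_lit 5) (nat_lit 18) (nat_lit 5) (nat_lit 17) (nat_lit 4) (nat_lit 468) (nat_lit 311) (nat_lit 241))))) (XT.nd (nat_lit 234) (nat_lit 76) (nat_lit 0) (XT.nd (nat_lit 78) (nat_lit 0) (nat_lit 0) (XT.lf (nat_lit 0) (nat_lit 9810232586) (nat_lit 76) (nat_lit 1072649855) (nat_lit 152) (nat_lit 33527640943) (nat_lit 15) (nat_lit 5) (nat_lit 16) (nat_lit 5) (nat_lit 17) (nat_lit 4) (nat_lit 469) (nat_lit 311) (nat_lit 240)) (XT.nd (nat_lit 78) (nat_lit 0) (nat_lit 0) (XT.lf (nat_lit 0) (nat_lit 17038971708) (nat_lit 152) (nat_lit 23450323374) (nat_lit 0) (nat_lit 5066143259) (nat_lit 15) (nat_lit 5) (nat_lit 17) (nat_lit 4) (nat_lit 15) (nat_lit 4) (nat_lit 470) (nat_lit 311)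 (nat_lit 239)) (XT.lf (nat_lit 0) (nat_lit 23354945271) (nat_lit 152) (nat_lit 12045508839) (nat_lit 0) (nat_lit 11334992181) (nat_lit 15) (nat_lit 5) (nat_lit 17) (nat_lit 4) (nat_lit 15) (nat_lit 4) (nat_lit 471) (nat_lit 311) (nat_lit 238)))) (XT.nd (nat_lit 156) (nat_lit 0) (nat_lit 0) (XT.nd (nat_lit 78) (nat_lit 76) (nat_lit 0) (XT.lf (nat_lit 0) (nat_lit 29826010976) (nat_lit 152) (nat_lit 365570853) (nat_lit 0) (nat_lit 17760305807) (nat_lit 15) (nat_lit 5) (nat_lit 17) (nat_lit 4) (nat_lit 15) (nat_lit 4) (nat_lit 472) (nat_lit 311) (nat_lit 237)) (XT.lf (nat_lit 0) (nat_lit 11830553055) (nat_lit 76) (nat_lit 24740992611) (nat_lit 76) (nat_lit 12630867948) (nat_lit 14) (nat_lit 4) (nat_lit 15) (nat_lit 5) (nat_lit 15) (nat_lit 4) (nat_lit 473) (nat_lit 311) (nat_lit 236))) (XT.nd (nat_lit 78) (nat_lit 0) (nat_lit 0) (XT.lf (nat_lit 0) (nat_lit 24335623537) (nat_lit 76) (nat_lit 19154481952) (nat_lit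 76) (nat_lit 7001231566) (nat_lit 14) (nat_lit 4) (nat_lit 15) (nat_lit 5) (nat_lit 15) (nat_lit 4) (nat_lit 474) (nat_lit 311) (nat_lit 235)) (XT.lf (nat_lit 0) (nat_lit 37153291776) (nat_lit 76) (nat_lit 13430859984) (nat_lit 76) (nat_lit 1235739965) (nat_lit 14) (nat_lit 4) (nat_lit 15) (nat_lit 5) (nat_lit 15) (nat_lit 4) (nat_lit 475) (nat_lit 311) (nat_lit 234)))))) (XT.nd (nat_lit 546) (nat_lit 152) (nat_lit 0) (XT.nd (nat_lit 234) (nat_lit 76) (nat_lit 0) (XT.nd (nat_lit 78) (nat_lit 76) (nat_lit 0) (XT.lf (nat_lit 0) (nat_lit 4579503563) (nat_lit 152) (nat_lit 2939377914) (nat_lit 76) (nat_lit 45669010107) (nat_lit 13) (nat_lit 5) (nat_lit 15) (nat_lit 5) (nat_lit 14) (nat_lit 4) (nat_lit 476) (nat_lit 311) (nat_lit 233)) (XT.nd (nat_lit 78) (nat_lit 0) (nat_lit 0) (XT.lf (nat_lit 0) (nat_lit 9248321411) (nat_lit 76) (nat_lit 1354416374) (nat_lit 152) (nat_lit 43992076782) (nat_lit 12) (nat_lit 5) (nat_lit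 13) (nat_lit 5) (nat_lit 14) (nat_lit 4) (nat_lit 477) (nat_lit 311) (nat_lit 232)) (XT.lf (nat_lit 0) (nat_lit 16854175246) (nat_lit 152) (nat_lit 34289076584) (nat_lit 0) (nat_lit 4899269480) (nat_lit 12) (nat_lit 5) (nat_lit 14) (nat_lit 4) (nat_lit 12) (nat_lit 4) (nat_lit 478) (nat_lit 311) (nat_lit 231)))) (XT.nd (nat_lit 156) (nat_lit 76) (nat_lit 0) (XT.nd (nat_lit 78) (nat_lit 0) (nat_lit 0) (XT.lf (nat_lit 0) (nat_lit 23276969340) (nat_lit 152) (nat_lit 22971230270) (nat_lit 0) (nat_lit 11285946460) (nat_lit 12) (nat_lit 5) (nat_lit 14) (nat_lit 4) (nat_lit 12) (nat_lit 4) (nat_lit 479) (nat_lit 311) (nat_lit 230)) (XT.lf (nat_lit 0) (nat_lit 29863712738) (nat_lit 152) (nat_lit 11370045358) (nat_lit 0) (nat_lit 17837624699) (nat_lit 12) (nat_lit 5) (nat_lit 14) (nat_lit 4) (nat_lit 12) (nat_lit 4) (nat_lit 480) (nat_lit 311) (nat_lit 229))) (XT.nd (nat_lit 78) (nat_lit 0) (nat_lit 0) (XT.lf (nat_lit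 0) (nat_lit 535055979) (nat_lit 76) (nat_lit 36090248152) (nat_lit 76) (nat_lit 24030116269) (nat_lit 11) (nat_lit 4) (nat_lit 12) (nat_lit 5) (nat_lit 12) (nat_lit 4) (nat_lit 481) (nat_lit 311) (nat_lit 228)) (XT.lf (nat_lit 0) (nat_lit 12976360052) (nat_lit 76) (nat_lit 30700594016) (nat_lit 76) (nat_lit 18607409859) (nat_lit 11) (nat_lit 4) (nat_lit 12) (nat_lit 5) (nat_lit 12) (nat_lit 4) (nat_lit 482) (nat_lit 311) (nat_lit 227))))) (XT.nd (nat_lit 234) (nat_lit 152) (nat_lit 0) (XT.nd (nat_lit 78) (nat_lit 0) (nat_lit 0) (XT.lf (nat_lit 0) (nat_lit 25738451704) (nat_lit 76) (nat_lit 25174901448) (nat_lit 76) (nat_lit 13049627703) (nat_lit 11) (nat_lit 4) (nat_lit 12) (nat_lit 5) (nat_lit 12) (nat_lit 4) (nat_lit 483) (nat_lit 311) (nat_lit 226)) (XT.nd (nat_lit 78) (nat_lit 0) (nat_lit 0) (XT.lf (nat_lit 0) (nat_lit 38832482278) (nat_lit 76) (nat_lit 19508342171) (nat_lit 76) (nat_lit 7351913487) (nat_lit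 11) (nat_lit 4) (nat_lit 12) (nat_lit 5) (nat_lit 12) (nat_lit 4) (nat_lit 484) (nat_lit 311) (nat_lit 225)) (XT.lf (nat_lit 0) (nat_lit 52269893161) (nat_lit 76) (nat_lit 13695964824) (nat_lit 76) (nat_lit 1509288625) (nat_lit 11) (nat_lit 4) (nat_lit 12) (nat_lit 5) (nat_lit 12) (nat_lit 4) (nat_lit 485) (nat_lit 311) (nat_lit 224)))) (XT.nd (nat_lit 156) (nat_lit 0) (nat_lit 0) (XT.nd (nat_lit 78) (nat_lit 76) (nat_lit 0) (XT.lf (nat_lit 0) (nat_lit 4395865739) (nat_lit 152) (nat_lit 3292435265) (nat_lit 76) (nat_lit 61622170413) (nat_lit 10) (nat_lit 5) (nat_lit 12) (nat_lit 5) (nat_lit 11) (nat_lit 4) (nat_lit 486) (nat_lit 311) (nat_lit 223)) (XT.lf (nat_lit 0) (nat_lit 9093182695) (nat_lit 76) (nat_lit 1418017597) (nat_lit 152) (nat_lit 60687307486) (nat_lit 9) (nat_lit 5) (nat_lit 10) (nat_lit 5) (nat_lit 11) (nat_lit 4) (nat_lit 487) (nat_lit 311) (nat_lit 222))) (XT.nd (nat_lit 78) (nat_lit 0) (nat_lit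 0) (XT.lf (nat_lit 0) (nat_lit 16868006790) (nat_lit 152) (nat_lit 51320223134) (nat_lit 0) (nat_lit 4953215858) (nat_lit 9) (nat_lit 5) (nat_lit 11) (nat_lit 4) (nat_lit 9) (nat_lit 4) (nat_lit 488) (nat_lit 311) (nat_lit 221)) (XT.lf (nat_lit 0) (nat_lit 23406241168) (nat_lit 152) (nat_lit 40271351464) (nat_lit 0) (nat_lit 11465358465) (nat_lit 9) (nat_lit 5) (nat_lit 11) (nat_lit 4) (nat_lit 9) (nat_lit 4) (nat_lit 489) (nat_lit 311) (nat_lit 220))))))) (XT.nd (nat_lit 46722) (nat_lit 0) (nat_lit 3192) (XT.nd (nat_lit 46176) (nat_lit 0) (nat_lit 5244) (XT.nd (nat_lit 45864) (nat_lit 0) (nat_lit 6460) (XT.nd (nat_lit 78) (nat_lit 0) (nat_lit 0) (XT.lf (nat_lit 0) (nat_lit 30117985594) (nat_lit 152) (nat_lit 28935424867) (nat_lit 0) (nat_lit 18151771074) (nat_lit 9) (nat_lit 5) (nat_lit 11) (nat_lit 4) (nat_lit 9) (nat_lit 4) (nat_lit 490) (nat_lit 311) (nat_lit 219)) (XT.nd (nat_lit 45708) (nat_lit 0) (nat_lit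 7524) (XT.lf (nat_lit 0) (nat_lit 37009104701) (nat_lit 152) (nat_lit 17302538165) (nat_lit 0) (nat_lit 25018296184) (nat_lit 9) (nat_lit 5) (nat_lit 11) (nat_lit 4) (nat_lit 9) (nat_lit 4) (nat_lit 491) (nat_lit 311) (nat_lit 218)) (XT.lf (nat_lit 0) (nat_lit 4419259840) (nat_lit 304) (nat_lit 304436723) (nat_lit 304) (nat_lit 304436723) (nat_lit 108) (nat_lit 4) (nat_lit 112) (nat_lit 5) (nat_lit 112) (nat_lit 4) (nat_lit 396) (nat_lit 312) (nat_lit 312)))) (XT.nd (nat_lit 156) (nat_lit 532) (nat_lit 0) (XT.nd (nat_lit 78) (nat_lit 228) (nat_lit 0) (XT.lf (nat_lit 0) (nat_lit 3934105759) (nat_lit 304) (nat_lit 3065842050) (nat_lit 0) (nat_lit 3197712246) (nat_lit 104) (nat_lit 5) (nat_lit 108) (nat_lit 4) (nat_lit 104) (nat_lit 4) (nat_lit 397) (nat_lit 312) (nat_lit 311)) (XT.lf (nat_lit 0) (nat_lit 5340550745) (nat_lit 228) (nat_lit 3227460173) (nat_lit 228) (nat_lit 1776121501) (nat_lit 101) (nat_lit 4)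 (nat_lit 104) (nat_lit 5) (nat_lit 104) (nat_lit 4) (nat_lit 398) (nat_lit 312) (nat_lit 310))) (XT.nd (nat_lit 78) (nat_lit 228) (nat_lit 0) (XT.lf (nat_lit 0) (nat_lit 2758860181) (nat_lit 304) (nat_lit 7060397908) (nat_lit 0) (nat_lit 675889127) (nat_lit 97) (nat_lit 5) (nat_lit 101) (nat_lit 4) (nat_lit 97) (nat_lit 4) (nat_lit 399) (nat_lit 312) (nat_lit 309)) (XT.lf (nat_lit 0) (nat_lit 1390051791) (nat_lit 228) (nat_lit 5998771728) (nat_lit 228) (nat_lit 3261524575) (nat_lit 94) (nat_lit 4) (nat_lit 97) (nat_lit 5) (nat_lit 97) (nat_lit 4) (nat_lit 400) (nat_lit 312) (nat_lit 308))))) (XT.nd (nat_lit 234) (nat_lit 684) (nat_lit 0) (XT.nd (nat_lit 78) (nat_lit 456) (nat_lit 0) (XT.lf (nat_lit 0) (nat_lit 1291837172) (nat_lit 304) (nat_lit 750037204) (nat_lit 76) (nat_lit 8768843363) (nat_lit 93) (nat_lit 5) (nat_lit 97) (nat_lit 5) (nat_lit 94) (nat_lit 4) (nat_lit 401) (nat_lit 312) (nat_lit 307)) (XT.nd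 (nat_lit 78) (nat_lit 228) (nat_lit 0) (XT.lf (nat_lit 0) (nat_lit 5914538929) (nat_lit 304) (nat_lit 3018918104) (nat_lit 0) (nat_lit 2041544133) (nat_lit 90) (nat_lit 5) (nat_lit 94) (nat_lit 4) (nat_lit 90) (nat_lit 4) (nat_lit 402) (nat_lit 312) (nat_lit 306)) (XT.lf (nat_lit 0) (nat_lit 5723241570) (nat_lit 228) (nat_lit 4937873012) (nat_lit 228) (nat_lit 483562376) (nat_lit 87) (nat_lit 4) (nat_lit 90) (nat_lit 5) (nat_lit 90) (nat_lit 4) (nat_lit 403) (nat_lit 312) (nat_lit 305)))) (XT.nd (nat_lit 156) (nat_lit 228) (nat_lit 0) (XT.nd (nat_lit 78) (nat_lit 228) (nat_lit 0) (XT.lf (nat_lit 0) (nat_lit 3331785165) (nat_lit 152) (nat_lit 781751835) (nat_lit 228) (nat_lit 7205741086) (nat_lit 84) (nat_lit 5) (nat_lit 86) (nat_lit 5) (nat_lit 87) (nat_lit 4) (nat_lit 404) (nat_lit 312) (nat_lit 304)) (XT.lf (nat_lit 0) (nat_lit 773437128) (nat_lit 228) (nat_lit 8065035453) (nat_lit 228) (nat_lit 2660529746)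 (nat_lit 81) (nat_lit 4) (nat_lit 84) (nat_lit 5) (nat_lit 84) (nat_lit 4) (nat_lit 405) (nat_lit 312) (nat_lit 303))) (XT.nd (nat_lit 78) (nat_lit 152) (nat_lit 0) (XT.lf (nat_lit 0) (nat_lit 1974375727) (nat_lit 304) (nat_lit 1913014574) (nat_lit 76) (nat_lit 7796378852) (nat_lit 80) (nat_lit 5) (nat_lit 84) (nat_lit 5) (nat_lit 81) (nat_lit 4) (nat_lit 406) (nat_lit 312) (nat_lit 302)) (XT.lf (nat_lit 0) (nat_lit 6673953733) (nat_lit 228) (nat_lit 4761408669) (nat_lit 0) (nat_lit 438569799) (nat_lit 78) (nat_lit 5) (nat_lit 81) (nat_lit 4) (nat_lit 78) (nat_lit 4) (nat_lit 407) (nat_lit 312) (nat_lit 301)))))) (XT.nd (nat_lit 546) (nat_lit 988) (nat_lit 0) (XT.nd (nat_lit 234) (nat_lit 608) (nat_lit 0) (XT.nd (nat_lit 78) (nat_lit 228) (nat_lit 0) (XT.lf (nat_lit 0) (nat_lit 4263242675) (nat_lit 228) (nat_lit 7257221006) (nat_lit 228) (nat_lit 549174098) (nat_lit 75) (nat_lit 4) (nat_lit 78) (nat_lit 5) (nat_lit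 78) (nat_lit 4) (nat_lit 408) (nat_lit 312) (nat_lit 300)) (XT.nd (nat_lit 78) (nat_lit 0) (nat_lit 0) (XT.lf (nat_lit 0) (nat_lit 1208419397) (nat_lit 152) (nat_lit 2917374886) (nat_lit 228) (nat_lit 8145190238) (nat_lit 72) (nat_lit 5) (nat_lit 74) (nat_lit 5) (nat_lit 75) (nat_lit 4) (nat_lit 409) (nat_lit 312) (nat_lit 299)) (XT.lf (nat_lit 0) (nat_lit 8932265347) (nat_lit 228) (nat_lit 2004374394) (nat_lit 0) (nat_lit 1541514681) (nat_lit 72) (nat_lit 5) (nat_lit 75) (nat_lit 4) (nat_lit 72) (nat_lit 4) (nat_lit 410) (nat_lit 312) (nat_lit 298)))) (XT.nd (nat_lit 156) (nat_lit 228) (nat_lit 0) (XT.nd (nat_lit 78) (nat_lit 152) (nat_lit 0) (XT.lf (nat_lit 0) (nat_lit 1177553701) (nat_lit 228) (nat_lit 5420271583) (nat_lit 76) (nat_lit 6093102016) (nat_lit 69) (nat_lit 5) (nat_lit 72) (nat_lit 5) (nat_lit 70) (nat_lit 4) (nat_lit 411) (nat_lit 312) (nat_lit 297)) (XT.lf (nat_lit 0) (nat_lit 3838647380) (nat_lit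 152) (nat_lit 2100799029) (nat_lit 228) (nat_lit 6970556636) (nat_lit 67) (nat_lit 5) (nat_lit 69) (nat_lit 5) (nat_lit 70) (nat_lit 4) (nat_lit 412) (nat_lit 312) (nat_lit 296))) (XT.nd (nat_lit 78) (nat_lit 76) (nat_lit 0) (XT.lf (nat_lit 0) (nat_lit 173975306) (nat_lit 152) (nat_lit 10662645681) (nat_lit 152) (nat_lit 2299270311) (nat_lit 65) (nat_lit 4) (nat_lit 67) (nat_lit 5) (nat_lit 67) (nat_lit 4) (nat_lit 413) (nat_lit 312) (nat_lit 295)) (XT.lf (nat_lit 0) (nat_lit 2487801614) (nat_lit 228) (nat_lit 3686262609) (nat_lit 76) (nat_lit 7193039722) (nat_lit 64) (nat_lit 5) (nat_lit 67) (nat_lit 5) (nat_lit 65) (nat_lit 4) (nat_lit 414) (nat_lit 312) (nat_lit 294))))) (XT.nd (nat_lit 312) (nat_lit 456) (nat_lit 0) (XT.nd (nat_lit 156) (nat_lit 228) (nat_lit 0) (XT.nd (nat_lit 78) (nat_lit 152) (nat_lit 0) (XT.lf (nat_lit 0) (nat_lit 5805542280) (nat_lit 152) (nat_lit 1536476921) (nat_lit 228) (nat_lit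 6263470310) (nat_lit 62) (nat_lit 5) (nat_lit 64) (nat_lit 5) (nat_lit 65) (nat_lit 4) (nat_lit 415) (nat_lit 312) (nat_lit 293)) (XT.lf (nat_lit 0) (nat_lit 1655475158) (nat_lit 152) (nat_lit 10685399423) (nat_lit 152) (nat_lit 1510193266) (nat_lit 60) (nat_lit 4) (nat_lit 62) (nat_lit 5) (nat_lit 62) (nat_lit 4) (nat_lit 416) (nat_lit 312) (nat_lit 292))) (XT.nd (nat_lit 78) (nat_lit 152) (nat_lit 0) (XT.lf (nat_lit 0) (nat_lit 3328918789) (nat_lit 228) (nat_lit 2749017315) (nat_lit 76) (nat_lit 8024832843) (nat_lit 59) (nat_lit 5) (nat_lit 62) (nat_lit 5) (nat_lit 60) (nat_lit 4) (nat_lit 417) (nat_lit 312) (nat_lit 291)) (XT.lf (nat_lit 0) (nat_lit 6952862315) (nat_lit 152) (nat_lit 1313859487) (nat_lit 228) (nat_lit 6095345138) (nat_lit 57) (nat_lit 5) (nat_lit 59) (nat_lit 5) (nat_lit 60) (nat_lit 4) (nat_lit 418) (nat_lit 312) (nat_lit 290)))) (XT.nd (nat_lit 156) (nat_lit 228) (nat_lit 0) (XT.nd (nat_lit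 78) (nat_lit 76) (nat_lit 0) (XT.lf (nat_lit 0) (nat_lit 2233409381) (nat_lit 152) (nat_lit 11120699580) (nat_lit 152) (nat_lit 1275001665) (nat_lit 55) (nat_lit 4) (nat_lit 57) (nat_lit 5) (nat_lit 57) (nat_lit 4) (nat_lit 419) (nat_lit 312) (nat_lit 289)) (XT.lf (nat_lit 0) (nat_lit 3624090495) (nat_lit 228) (nat_lit 2783342148) (nat_lit 76) (nat_lit 8495494262) (nat_lit 54) (nat_lit 5) (nat_lit 57) (nat_lit 5) (nat_lit 55) (nat_lit 4) (nat_lit 420) (nat_lit 312) (nat_lit 288))) (XT.nd (nat_lit 78) (nat_lit 152) (nat_lit 0) (XT.lf (nat_lit 0) (nat_lit 7098242281) (nat_lit 76) (nat_lit 1534495161) (nat_lit 152) (nat_lit 6552204653) (nat_lit 53) (nat_lit 5) (nat_lit 54) (nat_lit 5) (nat_lit 55) (nat_lit 4) (nat_lit 421) (nat_lit 312) (nat_lit 287)) (XT.lf (nat_lit 0) (nat_lit 1713035298) (nat_lit 152) (nat_lit 12077261807) (nat_lit 152) (nat_lit 1685170147) (nat_lit 51) (nat_lit 4) (nat_lit 53) (nat_lit 5) (nat_lit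 53) (nat_lit 4) (nat_lit 422) (nat_lit 312) (nat_lit 286))))))))
noncomputable def xc41 : XT := (XT.nd (nat_lit 2184) (nat_lit 988) (nat_lit 0) (XT.nd (nat_lit 1092) (nat_lit 760) (nat_lit 0) (XT.nd (nat_lit 546) (nat_lit 532) (nat_lit 0) (XT.nd (nat_lit 234) (nat_lit 532) (nat_lit 0) (XT.nd (nat_lit 78) (nat_lit 76) (nat_lit 0) (XT.lf (nat_lit 0) (nat_lit 3281052529) (nat_lit 228) (nat_lit 3993257053) (nat_lit 76) (nat_lit 8498904001) (nat_lit 50) (nat_lit 5) (nat_lit 53) (nat_lit 5) (nat_lit 51) (nat_lit 4) (nat_lit 423) (nat_lit 312) (nat_lit 285)) (XT.nd (nat_lit 78) (nat_lit 0) (nat_lit 0) (XT.lf (nat_lit 0) (nat_lit 6028648440) (nat_lit 76) (nat_lit 2314465731) (nat_lit 152) (nat_lit 7736864251) (nat_lit 49) (nat_lit 5) (nat_lit 50) (nat_lit 5) (nat_lit 51) (nat_lit 4) (nat_lit 424) (nat_lit 312) (nat_lit 284)) (XT.lf (nat_lit 0) (nat_lit 13547684911) (nat_lit 152) (nat_lit 130527770) (nat_lit 0) (nat_lit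 2718022201) (nat_lit 49) (nat_lit 5) (nat_lit 51) (nat_lit 4) (nat_lit 49) (nat_lit 4) (nat_lit 425) (nat_lit 312) (nat_lit 283)))) (XT.nd (nat_lit 156) (nat_lit 228) (nat_lit 0) (XT.nd (nat_lit 78) (nat_lit 76) (nat_lit 0) (XT.lf (nat_lit 0) (nat_lit 2189741660) (nat_lit 228) (nat_lit 6617006002) (nat_lit 76) (nat_lit 7913228708) (nat_lit 46) (nat_lit 5) (nat_lit 49) (nat_lit 5) (nat_lit 47) (nat_lit 4) (nat_lit 426) (nat_lit 312) (nat_lit 282)) (XT.lf (nat_lit 0) (nat_lit 3495123549) (nat_lit 76) (nat_lit 3787167874) (nat_lit 152) (nat_lit 9771489110) (nat_lit 45) (nat_lit 5) (nat_lit 46) (nat_lit 5) (nat_lit 47) (nat_lit 4) (nat_lit 427) (nat_lit 312) (nat_lit 281))) (XT.nd (nat_lit 78) (nat_lit 228) (nat_lit 0) (XT.lf (nat_lit 0) (nat_lit 12534086760) (nat_lit 152) (nat_lit 3501179559) (nat_lit 0) (nat_lit 1362145623) (nat_lit 45) (nat_lit 5) (nat_lit 47) (nat_lit 4) (nat_lit 45) (nat_lit 4) (nat_lit 428)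 (nat_lit 312) (nat_lit 280)) (XT.lf (nat_lit 0) (nat_lit 219545476) (nat_lit 228) (nat_lit 10932853817) (nat_lit 76) (nat_lit 6597968084) (nat_lit 42) (nat_lit 5) (nat_lit 45) (nat_lit 5) (nat_lit 43) (nat_lit 4) (nat_lit 429) (nat_lit 312) (nat_lit 279))))) (XT.nd (nat_lit 234) (nat_lit 304) (nat_lit 0) (XT.nd (nat_lit 78) (nat_lit 228) (nat_lit 0) (XT.lf (nat_lit 0) (nat_lit 5320832282) (nat_lit 228) (nat_lit 777814415) (nat_lit 76) (nat_lit 12014916466) (nat_lit 42) (nat_lit 5) (nat_lit 45) (nat_lit 5) (nat_lit 43) (nat_lit 4) (nat_lit 430) (nat_lit 312) (nat_lit 278)) (XT.nd (nat_lit 78) (nat_lit 152) (nat_lit 0) (XT.lf (nat_lit 0) (nat_lit 9741878184) (nat_lit 76) (nat_lit 856995224) (nat_lit 152) (nat_lit 7888076333) (nat_lit 41) (nat_lit 5) (nat_lit 42) (nat_lit 5) (nat_lit 43) (nat_lit 4) (nat_lit 431) (nat_lit 312) (nat_lit 277)) (XT.lf (nat_lit 0) (nat_lit 1578541399) (nat_lit 152) (nat_lit 14453775516)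 (nat_lit 152) (nat_lit 2839315371) (nat_lit 39) (nat_lit 4) (nat_lit 41) (nat_lit 5) (nat_lit 41) (nat_lit 4) (nat_lit 432) (nat_lit 312) (nat_lit 276)))) (XT.nd (nat_lit 156) (nat_lit 152) (nat_lit 0) (XT.nd (nat_lit 78) (nat_lit 76) (nat_lit 0) (XT.lf (nat_lit 0) (nat_lit 2342903093) (nat_lit 228) (nat_lit 7036573213) (nat_lit 76) (nat_lit 9886862080) (nat_lit 38) (nat_lit 5) (nat_lit 41) (nat_lit 5) (nat_lit 39) (nat_lit 4) (nat_lit 433) (nat_lit 312) (nat_lit 275)) (XT.lf (nat_lit 0) (nat_lit 3440012910) (nat_lit 76) (nat_lit 4148999540) (nat_lit 152) (nat_lit 12084070781) (nat_lit 37) (nat_lit 5) (nat_lit 38) (nat_lit 5) (nat_lit 39) (nat_lit 4) (nat_lit 434) (nat_lit 312) (nat_lit 274))) (XT.nd (nat_lit 78) (nat_lit 152) (nat_lit 0) (XT.lf (nat_lit 0) (nat_lit 13008792255) (nat_lit 152) (nat_lit 5854214205) (nat_lit 0) (nat_lit 1228540859) (nat_lit 37) (nat_lit 5) (nat_lit 39) (nat_lit 4) (nat_lit 37)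 (nat_lit 4) (nat_lit 435) (nat_lit 312) (nat_lit 273)) (XT.lf (nat_lit 0) (nat_lit 4764753247) (nat_lit 152) (nat_lit 13847879422) (nat_lit 152) (nat_lit 1909293995) (nat_lit 35) (nat_lit 4) (nat_lit 37) (nat_lit 5) (nat_lit 37) (nat_lit 4) (nat_lit 436) (nat_lit 312) (nat_lit 272)))))) (XT.nd (nat_lit 546) (nat_lit 380) (nat_lit 0) (XT.nd (nat_lit 234) (nat_lit 228) (nat_lit 0) (XT.nd (nat_lit 78) (nat_lit 76) (nat_lit 0) (XT.lf (nat_lit 0) (nat_lit 3347021889) (nat_lit 228) (nat_lit 5297853352) (nat_lit 76) (nat_lit 12319529864) (nat_lit 34) (nat_lit 5) (nat_lit 37) (nat_lit 5) (nat_lit 35) (nat_lit 4) (nat_lit 437) (nat_lit 312) (nat_lit 271)) (XT.nd (nat_lit 78) (nat_lit 0) (nat_lit 0) (XT.lf (nat_lit 0) (nat_lit 5442892238) (nat_lit 76) (nat_lit 3268657040) (nat_lit 152) (nat_lit 12708379492) (nat_lit 33) (nat_lit 5) (nat_lit 34) (nat_lit 5) (nat_lit 35) (nat_lit 4) (nat_lit 438) (nat_lit 312) (nat_lit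 270)) (XT.lf (nat_lit 0) (nat_lit 14249598386) (nat_lit 152) (nat_lit 5415229005) (nat_lit 0) (nat_lit 2223917933) (nat_lit 33) (nat_lit 5) (nat_lit 35) (nat_lit 4) (nat_lit 33) (nat_lit 4) (nat_lit 439) (nat_lit 312) (nat_lit 269)))) (XT.nd (nat_lit 156) (nat_lit 76) (nat_lit 0) (XT.nd (nat_lit 78) (nat_lit 76) (nat_lit 0) (XT.lf (nat_lit 0) (nat_lit 5420496067) (nat_lit 76) (nat_lit 14556351966) (nat_lit 76) (nat_lit 2394091186) (nat_lit 32) (nat_lit 4) (nat_lit 33) (nat_lit 5) (nat_lit 33) (nat_lit 4) (nat_lit 440) (nat_lit 312) (nat_lit 268)) (XT.lf (nat_lit 0) (nat_lit 2943504282) (nat_lit 152) (nat_lit 6319549343) (nat_lit 76) (nat_lit 13603865388) (nat_lit 31) (nat_lit 5) (nat_lit 33) (nat_lit 5) (nat_lit 32) (nat_lit 4) (nat_lit 441) (nat_lit 312) (nat_lit 267))) (XT.nd (nat_lit 78) (nat_lit 0) (nat_lit 0) (XT.lf (nat_lit 0) (nat_lit 4582957124) (nat_lit 76) (nat_lit 3794658747) (nat_lit 152) (nat_lit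 14999920228) (nat_lit 30) (nat_lit 5) (nat_lit 31) (nat_lit 5) (nat_lit 32) (nat_lit 4) (nat_lit 442) (nat_lit 312) (nat_lit 266)) (XT.lf (nat_lit 0) (nat_lit 13997465104) (nat_lit 152) (nat_lit 8090964588) (nat_lit 0) (nat_lit 1814364675) (nat_lit 30) (nat_lit 5) (nat_lit 32) (nat_lit 4) (nat_lit 30) (nat_lit 4) (nat_lit 443) (nat_lit 312) (nat_lit 265))))) (XT.nd (nat_lit 234) (nat_lit 152) (nat_lit 0) (XT.nd (nat_lit 78) (nat_lit 152) (nat_lit 0) (XT.lf (nat_lit 0) (nat_lit 2841743972) (nat_lit 76) (nat_lit 16951384821) (nat_lit 76) (nat_lit 4650469003) (nat_lit 29) (nat_lit 4) (nat_lit 30) (nat_lit 5) (nat_lit 30) (nat_lit 4) (nat_lit 444) (nat_lit 312) (nat_lit 264)) (XT.nd (nat_lit 78) (nat_lit 76) (nat_lit 0) (XT.lf (nat_lit 0) (nat_lit 772075454) (nat_lit 152) (nat_lit 10847986518) (nat_lit 76) (nat_lit 13379600102) (nat_lit 28) (nat_lit 5) (nat_lit 30) (nat_lit 5) (nat_lit 29) (nat_lit 4) (nat_lit 445)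 (nat_lit 312) (nat_lit 263)) (XT.lf (nat_lit 0) (nat_lit 77193049) (nat_lit 76) (nat_lit 6131449829) (nat_lit 152) (nat_lit 19364043223) (nat_lit 27) (nat_lit 5) (nat_lit 28) (nat_lit 5) (nat_lit 29) (nat_lit 4) (nat_lit 446) (nat_lit 312) (nat_lit 262)))) (XT.nd (nat_lit 156) (nat_lit 152) (nat_lit 0) (XT.nd (nat_lit 78) (nat_lit 0) (nat_lit 0) (XT.lf (nat_lit 0) (nat_lit 11446781991) (nat_lit 76) (nat_lit 415755820) (nat_lit 152) (nat_lit 14298739663) (nat_lit 27) (nat_lit 5) (nat_lit 28) (nat_lit 5) (nat_lit 29) (nat_lit 4) (nat_lit 447) (nat_lit 312) (nat_lit 261)) (XT.lf (nat_lit 0) (nat_lit 17684471846) (nat_lit 152) (nat_lit 3766446490) (nat_lit 0) (nat_lit 5316659018) (nat_lit 27) (nat_lit 5) (nat_lit 29) (nat_lit 4) (nat_lit 27) (nat_lit 4) (nat_lit 448) (nat_lit 312) (nat_lit 260))) (XT.nd (nat_lit 78) (nat_lit 76) (nat_lit 0) (XT.lf (nat_lit 0) (nat_lit 7552543771) (nat_lit 76) (nat_lit 16152641754)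 (nat_lit 76) (nat_lit 3686160392) (nat_lit 26) (nat_lit 4) (nat_lit 27) (nat_lit 5) (nat_lit 27) (nat_lit 4) (nat_lit 449) (nat_lit 312) (nat_lit 259)) (XT.lf (nat_lit 0) (nat_lit 1822020498) (nat_lit 152) (nat_lit 8863574442) (nat_lit 76) (nat_lit 17348119584) (nat_lit 25) (nat_lit 5) (nat_lit 27) (nat_lit 5) (nat_lit 26) (nat_lit 4) (nat_lit 450) (nat_lit 312) (nat_lit 258))))))) (XT.nd (nat_lit 1092) (nat_lit 456) (nat_lit 0) (XT.nd (nat_lit 546) (nat_lit 228) (nat_lit 0) (XT.nd (nat_lit 234) (nat_lit 228) (nat_lit 0) (XT.nd (nat_lit 78) (nat_lit 0) (nat_lit 0) (XT.lf (nat_lit 0) (nat_lit 2352432375) (nat_lit 76) (nat_lit 5040529686) (nat_lit 152) (nat_lit 21302152179) (nat_lit 24) (nat_lit 5) (nat_lit 25) (nat_lit 5) (nat_lit 26) (nat_lit 4) (nat_lit 451) (nat_lit 312) (nat_lit 257)) (XT.nd (nat_lit 78) (nat_lit 0) (nat_lit 0) (XT.lf (nat_lit 0) (nat_lit 13177959567) (nat_lit 152) (nat_lit 15393377865) (nat_lit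 0) (nat_lit 803613648) (nat_lit 24) (nat_lit 5) (nat_lit 26) (nat_lit 4) (nat_lit 24) (nat_lit 4) (nat_lit 452) (nat_lit 312) (nat_lit 256)) (XT.lf (nat_lit 0) (nat_lit 19136993529) (nat_lit 152) (nat_lit 4260642510) (nat_lit 0) (nat_lit 6677535266) (nat_lit 24) (nat_lit 5) (nat_lit 26) (nat_lit 4) (nat_lit 24) (nat_lit 4) (nat_lit 453) (nat_lit 312) (nat_lit 255)))) (XT.nd (nat_lit 156) (nat_lit 76) (nat_lit 0) (XT.nd (nat_lit 78) (nat_lit 76) (nat_lit 0) (XT.lf (nat_lit 0) (nat_lit 7255281153) (nat_lit 76) (nat_lit 18041279263) (nat_lit 76) (nat_lit 5499187656) (nat_lit 23) (nat_lit 4) (nat_lit 24) (nat_lit 5) (nat_lit 24) (nat_lit 4) (nat_lit 454) (nat_lit 312) (nat_lit 254)) (XT.lf (nat_lit 0) (nat_lit 96478321) (nat_lit 152) (nat_lit 12426467162) (nat_lit 76) (nat_lit 19015104132) (nat_lit 22) (nat_lit 5) (nat_lit 24) (nat_lit 5) (nat_lit 23) (nat_lit 4) (nat_lit 455) (nat_lit 312) (nat_lit 253))) (XT.nd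 (nat_lit 78) (nat_lit 76) (nat_lit 0) (XT.lf (nat_lit 0) (nat_lit 5702947599) (nat_lit 152) (nat_lit 1123224379) (nat_lit 76) (nat_lit 25476213513) (nat_lit 22) (nat_lit 5) (nat_lit 24) (nat_lit 5) (nat_lit 23) (nat_lit 4) (nat_lit 456) (nat_lit 312) (nat_lit 252)) (XT.lf (nat_lit 0) (nat_lit 10639616850) (nat_lit 76) (nat_lit 895085647) (nat_lit 152) (nat_lit 21553238681) (nat_lit 21) (nat_lit 5) (nat_lit 22) (nat_lit 5) (nat_lit 23) (nat_lit 4) (nat_lit 457) (nat_lit 312) (nat_lit 251))))) (XT.nd (nat_lit 234) (nat_lit 152) (nat_lit 0) (XT.nd (nat_lit 78) (nat_lit 76) (nat_lit 0) (XT.lf (nat_lit 0) (nat_lit 17557888511) (nat_lit 152) (nat_lit 11255792508) (nat_lit 0) (nat_lit 5082890573) (nat_lit 21) (nat_lit 5) (nat_lit 23) (nat_lit 4) (nat_lit 21) (nat_lit 4) (nat_lit 458) (nat_lit 312) (nat_lit 250)) (XT.nd (nat_lit 78) (nat_lit 0) (nat_lit 0) (XT.lf (nat_lit 0) (nat_lit 182549463) (nat_lit 76) (nat_lit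 23546055407) (nat_lit 76) (nat_lit 11001853345) (nat_lit 20) (nat_lit 4) (nat_lit 21) (nat_lit 5) (nat_lit 21) (nat_lit 4) (nat_lit 459) (nat_lit 312) (nat_lit 249)) (XT.lf (nat_lit 0) (nat_lit 12110938693) (nat_lit 76) (nat_lit 18043852545) (nat_lit 76) (nat_lit 5432462012) (nat_lit 20) (nat_lit 4) (nat_lit 21) (nat_lit 5) (nat_lit 21) (nat_lit 4) (nat_lit 460) (nat_lit 312) (nat_lit 248)))) (XT.nd (nat_lit 156) (nat_lit 76) (nat_lit 0) (XT.nd (nat_lit 78) (nat_lit 0) (nat_lit 0) (XT.lf (nat_lit 0) (nat_lit 255608823) (nat_lit 152) (nat_lit 12157736146) (nat_lit 76) (nat_lit 24057595736) (nat_lit 19) (nat_lit 5) (nat_lit 21) (nat_lit 5) (nat_lit 20) (nat_lit 4) (nat_lit 461) (nat_lit 312) (nat_lit 247)) (XT.lf (nat_lit 0) (nat_lit 5963901776) (nat_lit 152) (nat_lit 633233027) (nat_lit 76) (nat_lit 30783629441) (nat_lit 19) (nat_lit 5) (nat_lit 21) (nat_lit 5) (nat_lit 20) (nat_lit 4) (nat_lit 462) (nat_lit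 312) (nat_lit 246))) (XT.nd (nat_lit 78) (nat_lit 0) (nat_lit 0) (XT.lf (nat_lit 0) (nat_lit 11381580532) (nat_lit 76) (nat_lit 531237760) (nat_lit 152) (nat_lit 26402984973) (nat_lit 18) (nat_lit 5) (nat_lit 19) (nat_lit 5) (nat_lit 20) (nat_lit 4) (nat_lit 463) (nat_lit 312) (nat_lit 245)) (XT.lf (nat_lit 0) (nat_lit 18061650833) (nat_lit 152) (nat_lit 15641490769) (nat_lit 0) (nat_lit 5575110358) (nat_lit 18) (nat_lit 5) (nat_lit 20) (nat_lit 4) (nat_lit 18) (nat_lit 4) (nat_lit 464) (nat_lit 312) (nat_lit 244)))))) (XT.nd (nat_lit 546) (nat_lit 228) (nat_lit 0) (XT.nd (nat_lit 234) (nat_lit 152) (nat_lit 0) (XT.nd (nat_lit 78) (nat_lit 76) (nat_lit 0) (XT.lf (nat_lit 0) (nat_lit 24361411042) (nat_lit 152) (nat_lit 4090569814) (nat_lit 0) (nat_lit 11818601281) (nat_lit 18) (nat_lit 5) (nat_lit 20) (nat_lit 4) (nat_lit 18) (nat_lit 4) (nat_lit 465) (nat_lit 312) (nat_lit 243)) (XT.nd (nat_lit 78) (nat_lit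 0) (nat_lit 0) (XT.lf (nat_lit 0) (nat_lit 7887656337) (nat_lit 76) (nat_lit 23000661623) (nat_lit 76) (nat_lit 10403221487) (nat_lit 17) (nat_lit 4) (nat_lit 18) (nat_lit 5) (nat_lit 18) (nat_lit 4) (nat_lit 466) (nat_lit 312) (nat_lit 242)) (XT.lf (nat_lit 0) (nat_lit 20236659976) (nat_lit 76) (nat_lit 17378412705) (nat_lit 76) (nat_lit 4727933371) (nat_lit 17) (nat_lit 4) (nat_lit 18) (nat_lit 5) (nat_lit 18) (nat_lit 4) (nat_lit 467) (nat_lit 312) (nat_lit 241)))) (XT.nd (nat_lit 156) (nat_lit 0) (nat_lit 0) (XT.nd (nat_lit 78) (nat_lit 76) (nat_lit 0) (XT.lf (nat_lit 0) (nat_lit 1059264075) (nat_lit 152) (nat_lit 10551667627) (nat_lit 76) (nat_lit 31815860567) (nat_lit 16) (nat_lit 5) (nat_lit 18) (nat_lit 5) (nat_lit 17) (nat_lit 4) (nat_lit 468) (nat_lit 312) (nat_lit 240)) (XT.lf (nat_lit 0) (nat_lit 1258423997) (nat_lit 76) (nat_lit 5643247052) (nat_lit 152) (nat_lit 37640719716) (nat_lit 15) (nat_lit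 5) (nat_lit 16) (nat_lit 5) (nat_lit 17) (nat_lit 4) (nat_lit 469) (nat_lit 312) (nat_lit 239))) (XT.nd (nat_lit 78) (nat_lit 0) (nat_lit 0) (XT.lf (nat_lit 0) (nat_lit 12996377315) (nat_lit 152) (nat_lit 32124069690) (nat_lit 0) (nat_lit 568700991) (nat_lit 15) (nat_lit 5) (nat_lit 17) (nat_lit 4) (nat_lit 15) (nat_lit 4) (nat_lit 470) (nat_lit 312) (nat_lit 238)) (XT.lf (nat_lit 0) (nat_lit 19295411438) (nat_lit 152) (nat_lit 20752270418) (nat_lit 0) (nat_lit 6821983034) (nat_lit 15) (nat_lit 5) (nat_lit 17) (nat_lit 4) (nat_lit 15) (nat_lit 4) (nat_lit 471) (nat_lit 312) (nat_lit 237))))) (XT.nd (nat_lit 312) (nat_lit 152) (nat_lit 0) (XT.nd (nat_lit 156) (nat_lit 0) (nat_lit 0) (XT.nd (nat_lit 78) (nat_lit 76) (nat_lit 0) (XT.lf (nat_lit 0) (nat_lit 25750031084) (nat_lit 152) (nat_lit 9104386087) (nat_lit 0) (nat_lit 13232183187) (nat_lit 15) (nat_lit 5) (nat_lit 17) (nat_lit 4) (nat_lit 15) (nat_lit 4)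 (nat_lit 472) (nat_lit 312) (nat_lit 236)) (XT.lf (nat_lit 0) (nat_lit 2886078860) (nat_lit 76) (nat_lit 29507540109) (nat_lit 76) (nat_lit 16946566489) (nat_lit 14) (nat_lit 4) (nat_lit 15) (nat_lit 5) (nat_lit 15) (nat_lit 4) (nat_lit 473) (nat_lit 312) (nat_lit 235))) (XT.nd (nat_lit 78) (nat_lit 0) (nat_lit 0) (XT.lf (nat_lit 0) (nat_lit 15360334388) (nat_lit 76) (nat_lit 23936046204) (nat_lit 76) (nat_lit 11333202951) (nat_lit 14) (nat_lit 4) (nat_lit 15) (nat_lit 5) (nat_lit 15) (nat_lit 4) (nat_lit 474) (nat_lit 312) (nat_lit 234)) (XT.lf (nat_lit 0) (nat_lit 28148085196) (nat_lit 76) (nat_lit 18227003609) (nat_lit 76) (nat_lit 5583510226) (nat_lit 14) (nat_lit 4) (nat_lit 15) (nat_lit 5) (nat_lit 15) (nat_lit 4) (nat_lit 475) (nat_lit 312) (nat_lit 233)))) (XT.nd (nat_lit 156) (nat_lit 76) (nat_lit 0) (XT.nd (nat_lit 78) (nat_lit 0) (nat_lit 0) (XT.lf (nat_lit 0) (nat_lit 301534557) (nat_lit 152) (nat_lit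 12070844375) (nat_lit 76) (nat_lit 40955925581) (nat_lit 13) (nat_lit 5) (nat_lit 15) (nat_lit 5) (nat_lit 14) (nat_lit 4) (nat_lit 476) (nat_lit 312) (nat_lit 232)) (XT.lf (nat_lit 0) (nat_lit 6221266896) (nat_lit 152) (nat_lit 92104374) (nat_lit 76) (nat_lit 48424961902) (nat_lit 13) (nat_lit 5) (nat_lit 15) (nat_lit 5) (nat_lit 14) (nat_lit 4) (nat_lit 477) (nat_lit 312) (nat_lit 231))) (XT.nd (nat_lit 78) (nat_lit 0) (nat_lit 0) (XT.lf (nat_lit 0) (nat_lit 12409544341) (nat_lit 152) (nat_lit 43755717315) (nat_lit 0) (nat_lit 22673661) (nat_lit 12) (nat_lit 5) (nat_lit 14) (nat_lit 4) (nat_lit 12) (nat_lit 4) (nat_lit 478) (nat_lit 312) (nat_lit 230)) (XT.lf (nat_lit 0) (nat_lit 18818183499) (nat_lit 152) (nat_lit 32465554149) (nat_lit 0) (nat_lit 6396247660) (nat_lit 12) (nat_lit 5) (nat_lit 14) (nat_lit 4) (nat_lit 12) (nat_lit 4) (nat_lit 479) (nat_lit 312) (nat_lit 229))))))))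
noncomputable def xc42 : XT := (XT.nd (nat_lit 47658) (nat_lit 0) (nat_lit 1824) (XT.nd (nat_lit 46566) (nat_lit 0) (nat_lit 4940) (XT.nd (nat_lit 546) (nat_lit 152) (nat_lit 0) (XT.nd (nat_lit 234) (nat_lit 0) (nat_lit 0) (XT.nd (nat_lit 78) (nat_lit 76) (nat_lit 0) (XT.lf (nat_lit 0) (nat_lit 25391184241) (nat_lit 152) (nat_lit 20891246080) (nat_lit 0) (nat_lit 12935204559) (nat_lit 12) (nat_lit 5) (nat_lit 14) (nat_lit 4) (nat_lit 12) (nat_lit 4) (nat_lit 480) (nat_lit 312) (nat_lit 228)) (XT.nd (nat_lit 78) (nat_lit 76) (nat_lit 0) (XT.lf (nat_lit 0) (nat_lit 32134289965) (nat_lit 152) (nat_lit 9022679633) (nat_lit 0) (nat_lit 19645258008) (nat_lit 12) (nat_lit 5) (nat_lit 14) (nat_lit 4) (nat_lit 12) (nat_lit 4) (nat_lit 481) (nat_lit 312) (nat_lit 227)) (XT.lf (nat_lit 0) (nat_lit 3213217224) (nat_lit 76) (nat_lit 35871062890) (nat_lit 76) (nat_lit 23349941345) (nat_lit 11) (nat_lit 4) (nat_lit 12) (nat_lit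 5) (nat_lit 12) (nat_lit 4) (nat_lit 482) (nat_lit 312) (nat_lit 226)))) (XT.nd (nat_lit 156) (nat_lit 0) (nat_lit 0) (XT.nd (nat_lit 78) (nat_lit 0) (nat_lit 0) (XT.lf (nat_lit 0) (nat_lit 15950223247) (nat_lit 76) (nat_lit 30357638336) (nat_lit 76) (nat_lit 17805361852) (nat_lit 11) (nat_lit 4) (nat_lit 12) (nat_lit 5) (nat_lit 12) (nat_lit 4) (nat_lit 483) (nat_lit 312) (nat_lit 225)) (XT.lf (nat_lit 0) (nat_lit 29019898842) (nat_lit 76) (nat_lit 24702989753) (nat_lit 76) (nat_lit 12120465754) (nat_lit 11) (nat_lit 4) (nat_lit 12) (nat_lit 5) (nat_lit 12) (nat_lit 4) (nat_lit 484) (nat_lit 312) (nat_lit 224))) (XT.nd (nat_lit 78) (nat_lit 0) (nat_lit 0) (XT.lf (nat_lit 0) (nat_lit 42433664112) (nat_lit 76) (nat_lit 18902176185) (nat_lit 76) (nat_lit 6290285668) (nat_lit 11) (nat_lit 4) (nat_lit 12) (nat_lit 5) (nat_lit 12) (nat_lit 4) (nat_lit 485) (nat_lit 312) (nat_lit 223)) (XT.lf (nat_lit 0) (nat_lit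 56203239825) (nat_lit 76) (nat_lit 12950128962) (nat_lit 76) (nat_lit 309727262) (nat_lit 11) (nat_lit 4) (nat_lit 12) (nat_lit 5) (nat_lit 12) (nat_lit 4) (nat_lit 486) (nat_lit 312) (nat_lit 222))))) (XT.nd (nat_lit 234) (nat_lit 0) (nat_lit 0) (XT.nd (nat_lit 78) (nat_lit 76) (nat_lit 0) (XT.lf (nat_lit 0) (nat_lit 5712740459) (nat_lit 152) (nat_lit 1071219327) (nat_lit 76) (nat_lit 64570229711) (nat_lit 10) (nat_lit 5) (nat_lit 12) (nat_lit 5) (nat_lit 11) (nat_lit 4) (nat_lit 487) (nat_lit 312) (nat_lit 221)) (XT.nd (nat_lit 78) (nat_lit 0) (nat_lit 0) (XT.lf (nat_lit 0) (nat_lit 11663222182) (nat_lit 76) (nat_lit 335880855) (nat_lit 152) (nat_lit 61300138215) (nat_lit 9) (nat_lit 5) (nat_lit 10) (nat_lit 5) (nat_lit 11) (nat_lit 4) (nat_lit 488) (nat_lit 312) (nat_lit 220)) (XT.lf (nat_lit 0) (nat_lit 18522957500) (nat_lit 152) (nat_lit 50605796159) (nat_lit 0) (nat_lit 6172424727) (nat_lit 9) (nat_lit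 5) (nat_lit 11) (nat_lit 4) (nat_lit 9) (nat_lit 4) (nat_lit 489) (nat_lit 312) (nat_lit 219)))) (XT.nd (nat_lit 45630) (nat_lit 0) (nat_lit 7524) (XT.nd (nat_lit 78) (nat_lit 0) (nat_lit 0) (XT.lf (nat_lit 0) (nat_lit 25223875496) (nat_lit 152) (nat_lit 39291109805) (nat_lit 0) (nat_lit 12848748727) (nat_lit 9) (nat_lit 5) (nat_lit 11) (nat_lit 4) (nat_lit 9) (nat_lit 4) (nat_lit 490) (nat_lit 312) (nat_lit 218)) (XT.lf (nat_lit 0) (nat_lit 32104483505) (nat_lit 152) (nat_lit 27678844697) (nat_lit 0) (nat_lit 19705479069) (nat_lit 9) (nat_lit 5) (nat_lit 11) (nat_lit 4) (nat_lit 9) (nat_lit 4) (nat_lit 491) (nat_lit 312) (nat_lit 217))) (XT.nd (nat_lit 78) (nat_lit 304) (nat_lit 0) (XT.lf (nat_lit 0) (nat_lit 564816536) (nat_lit 304) (nat_lit 3761901403) (nat_lit 0) (nat_lit 564816536) (nat_lit 112) (nat_lit 5) (nat_lit 116) (nat_lit 4) (nat_lit 112) (nat_lit 4) (nat_lit 394) (nat_lit 313) (nat_lit 313)) (XT.lf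 (nat_lit 0) (nat_lit 501070139) (nat_lit 304) (nat_lit 5099082394) (nat_lit 304) (nat_lit 4317842516) (nat_lit 108) (nat_lit 4) (nat_lit 112) (nat_lit 5) (nat_lit 112) (nat_lit 4) (nat_lit 395) (nat_lit 313) (nat_lit 312)))))) (XT.nd (nat_lit 546) (nat_lit 1216) (nat_lit 0) (XT.nd (nat_lit 234) (nat_lit 836) (nat_lit 0) (XT.nd (nat_lit 78) (nat_lit 456) (nat_lit 0) (XT.lf (nat_lit 0) (nat_lit 117877579) (nat_lit 380) (nat_lit 1300433710) (nat_lit 76) (nat_lit 8639451602) (nat_lit 107) (nat_lit 5) (nat_lit 112) (nat_lit 5) (nat_lit 108) (nat_lit 4) (nat_lit 396) (nat_lit 313) (nat_lit 311)) (XT.nd (nat_lit 78) (nat_lit 228) (nat_lit 0) (XT.lf (nat_lit 0) (nat_lit 4589681709) (nat_lit 304) (nat_lit 3231232072) (nat_lit 0) (nat_lit 2379857718) (nat_lit 104) (nat_lit 5) (nat_lit 108) (nat_lit 4) (nat_lit 104) (nat_lit 4) (nat_lit 397) (nat_lit 313) (nat_lit 310)) (XT.lf (nat_lit 0) (nat_lit 5091194973) (nat_lit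 228) (nat_lit 4080777197) (nat_lit 228) (nat_lit 1176831692) (nat_lit 101) (nat_lit 4) (nat_lit 104) (nat_lit 5) (nat_lit 104) (nat_lit 4) (nat_lit 398) (nat_lit 313) (nat_lit 309)))) (XT.nd (nat_lit 156) (nat_lit 304) (nat_lit 0) (XT.nd (nat_lit 78) (nat_lit 228) (nat_lit 0) (XT.lf (nat_lit 0) (nat_lit 3095726682) (nat_lit 228) (nat_lit 191749459) (nat_lit 304) (nat_lit 7213949975) (nat_lit 97) (nat_lit 5) (nat_lit 100) (nat_lit 5) (nat_lit 101) (nat_lit 4) (nat_lit 399) (nat_lit 313) (nat_lit 308)) (XT.lf (nat_lit 0) (nat_lit 958467019) (nat_lit 228) (nat_lit 6904334929) (nat_lit 228) (nat_lit 2795474749) (nat_lit 94) (nat_lit 4) (nat_lit 97) (nat_lit 5) (nat_lit 97) (nat_lit 4) (nat_lit 400) (nat_lit 313) (nat_lit 307))) (XT.nd (nat_lit 78) (nat_lit 228) (nat_lit 0) (XT.lf (nat_lit 0) (nat_lit 1700320040) (nat_lit 304) (nat_lit 1273928472) (nat_lit 76) (nat_lit 7845727581) (nat_lit 93) (nat_lit 5) (nat_lit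 97) (nat_lit 5) (nat_lit 94) (nat_lit 4) (nat_lit 401) (nat_lit 313) (nat_lit 306)) (XT.lf (nat_lit 0) (nat_lit 6260750072) (nat_lit 304) (nat_lit 3633893000) (nat_lit 0) (nat_lit 1091494277) (nat_lit 90) (nat_lit 5) (nat_lit 94) (nat_lit 4) (nat_lit 90) (nat_lit 4) (nat_lit 402) (nat_lit 313) (nat_lit 305))))) (XT.nd (nat_lit 234) (nat_lit 760) (nat_lit 0) (XT.nd (nat_lit 78) (nat_lit 228) (nat_lit 0) (XT.lf (nat_lit 0) (nat_lit 5016556181) (nat_lit 228) (nat_lit 5937255935) (nat_lit 228) (nat_lit 203615830) (nat_lit 87) (nat_lit 4) (nat_lit 90) (nat_lit 5) (nat_lit 90) (nat_lit 4) (nat_lit 403) (nat_lit 313) (nat_lit 304)) (XT.nd (nat_lit 78) (nat_lit 0) (nat_lit 0) (XT.lf (nat_lit 0) (nat_lit 2515639614) (nat_lit 152) (nat_lit 1817969081) (nat_lit 228) (nat_lit 6999980869) (nat_lit 84) (nat_lit 5) (nat_lit 86) (nat_lit 5) (nat_lit 87) (nat_lit 4) (nat_lit 404) (nat_lit 313) (nat_lit 303)) (XT.lf (nat_lit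 0) (nat_lit 8994893405) (nat_lit 228) (nat_lit 140563935) (nat_lit 0) (nat_lit 2379774590) (nat_lit 84) (nat_lit 5) (nat_lit 87) (nat_lit 4) (nat_lit 84) (nat_lit 4) (nat_lit 405) (nat_lit 313) (nat_lit 302)))) (XT.nd (nat_lit 156) (nat_lit 304) (nat_lit 0) (XT.nd (nat_lit 78) (nat_lit 152) (nat_lit 0) (XT.lf (nat_lit 0) (nat_lit 2064324900) (nat_lit 304) (nat_lit 2925987417) (nat_lit 76) (nat_lit 6711079310) (nat_lit 80) (nat_lit 5) (nat_lit 84) (nat_lit 5) (nat_lit 81) (nat_lit 4) (nat_lit 406) (nat_lit 313) (nat_lit 301)) (XT.lf (nat_lit 0) (nat_lit 6006020151) (nat_lit 152) (nat_lit 698132547) (nat_lit 228) (nat_lit 5189202351) (nat_lit 78) (nat_lit 5) (nat_lit 80) (nat_lit 5) (nat_lit 81) (nat_lit 4) (nat_lit 407) (nat_lit 313) (nat_lit 300))) (XT.nd (nat_lit 78) (nat_lit 76) (nat_lit 0) (XT.lf (nat_lit 0) (nat_lit 3043663654) (nat_lit 228) (nat_lit 8444069934) (nat_lit 228) (nat_lit 603222552) (nat_lit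 75) (nat_lit 4) (nat_lit 78) (nat_lit 5) (nat_lit 78) (nat_lit 4) (nat_lit 408) (nat_lit 313) (nat_lit 299)) (XT.lf (nat_lit 0) (nat_lit 4016814590) (nat_lit 304) (nat_lit 132243950) (nat_lit 76) (nat_lit 8144946709) (nat_lit 74) (nat_lit 5) (nat_lit 78) (nat_lit 5) (nat_lit 75) (nat_lit 4) (nat_lit 409) (nat_lit 313) (nat_lit 298))))))) (XT.nd (nat_lit 1092) (nat_lit 1292) (nat_lit 0) (XT.nd (nat_lit 546) (nat_lit 912) (nat_lit 0) (XT.nd (nat_lit 234) (nat_lit 380) (nat_lit 0) (XT.nd (nat_lit 78) (nat_lit 380) (nat_lit 0) (XT.lf (nat_lit 0) (nat_lit 8766019976) (nat_lit 228) (nat_lit 3435841855) (nat_lit 0) (nat_lit 301038280) (nat_lit 72) (nat_lit 5) (nat_lit 75) (nat_lit 4) (nat_lit 72) (nat_lit 4) (nat_lit 410) (nat_lit 313) (nat_lit 297)) (XT.nd (nat_lit 78) (nat_lit 152) (nat_lit 0) (XT.lf (nat_lit 0) (nat_lit 932114369) (nat_lit 228) (nat_lit 6980512760) (nat_lit 76) (nat_lit 4804852784) (nat_lit 69)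 (nat_lit 5) (nat_lit 72) (nat_lit 5) (nat_lit 70) (nat_lit 4) (nat_lit 411) (nat_lit 313) (nat_lit 296)) (XT.lf (nat_lit 0) (nat_lit 2171017284) (nat_lit 152) (nat_lit 3464238880) (nat_lit 228) (nat_lit 7303068420) (nat_lit 67) (nat_lit 5) (nat_lit 69) (nat_lit 5) (nat_lit 70) (nat_lit 4) (nat_lit 412) (nat_lit 313) (nat_lit 295)))) (XT.nd (nat_lit 156) (nat_lit 152) (nat_lit 0) (XT.nd (nat_lit 78) (nat_lit 228) (nat_lit 0) (XT.lf (nat_lit 0) (nat_lit 10475156518) (nat_lit 228) (nat_lit 1587343639) (nat_lit 0) (nat_lit 1103437118) (nat_lit 67) (nat_lit 5) (nat_lit 70) (nat_lit 4) (nat_lit 67) (nat_lit 4) (nat_lit 413) (nat_lit 313) (nat_lit 294)) (XT.lf (nat_lit 0) (nat_lit 2045820651) (nat_lit 228) (nat_lit 5580960290) (nat_lit 76) (nat_lit 5772231050) (nat_lit 64) (nat_lit 5) (nat_lit 67) (nat_lit 5) (nat_lit 65) (nat_lit 4) (nat_lit 414) (nat_lit 313) (nat_lit 293))) (XT.nd (nat_lit 78) (nat_lit 0) (nat_lit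 0) (XT.lf (nat_lit 0) (nat_lit 3798681420) (nat_lit 152) (nat_lit 3040906400) (nat_lit 228) (nat_lit 6799628935) (nat_lit 62) (nat_lit 5) (nat_lit 64) (nat_lit 5) (nat_lit 65) (nat_lit 4) (nat_lit 415) (nat_lit 313) (nat_lit 292)) (XT.lf (nat_lit 0) (nat_lit 11767108914) (nat_lit 228) (nat_lit 476163242) (nat_lit 0) (nat_lit 1643668482) (nat_lit 62) (nat_lit 5) (nat_lit 65) (nat_lit 4) (nat_lit 62) (nat_lit 4) (nat_lit 416) (nat_lit 313) (nat_lit 291))))) (XT.nd (nat_lit 234) (nat_lit 532) (nat_lit 0) (XT.nd (nat_lit 78) (nat_lit 152) (nat_lit 0) (XT.lf (nat_lit 0) (nat_lit 2685593030) (nat_lit 228) (nat_lit 4993547065) (nat_lit 76) (nat_lit 6461050159) (nat_lit 59) (nat_lit 5) (nat_lit 62) (nat_lit 5) (nat_lit 60) (nat_lit 4) (nat_lit 417) (nat_lit 313) (nat_lit 290)) (XT.nd (nat_lit 78) (nat_lit 0) (nat_lit 0) (XT.lf (nat_lit 0) (nat_lit 4591072364) (nat_lit 152) (nat_lit 2969942015) (nat_lit 228) (nat_lit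 6840350369) (nat_lit 57) (nat_lit 5) (nat_lit 59) (nat_lit 5) (nat_lit 60) (nat_lit 4) (nat_lit 418) (nat_lit 313) (nat_lit 289)) (XT.lf (nat_lit 0) (nat_lit 12571512273) (nat_lit 228) (nat_lit 266696640) (nat_lit 0) (nat_lit 1832511103) (nat_lit 57) (nat_lit 5) (nat_lit 60) (nat_lit 4) (nat_lit 57) (nat_lit 4) (nat_lit 419) (nat_lit 313) (nat_lit 288)))) (XT.nd (nat_lit 156) (nat_lit 228) (nat_lit 0) (XT.nd (nat_lit 78) (nat_lit 76) (nat_lit 0) (XT.lf (nat_lit 0) (nat_lit 2773906220) (nat_lit 228) (nat_lit 5393940414) (nat_lit 76) (nat_lit 6778193810) (nat_lit 54) (nat_lit 5) (nat_lit 57) (nat_lit 5) (nat_lit 55) (nat_lit 4) (nat_lit 420) (nat_lit 313) (nat_lit 287)) (XT.lf (nat_lit 0) (nat_lit 4364943146) (nat_lit 76) (nat_lit 3353063193) (nat_lit 152) (nat_lit 7511990187) (nat_lit 53) (nat_lit 5) (nat_lit 54) (nat_lit 5) (nat_lit 55) (nat_lit 4) (nat_lit 421) (nat_lit 313) (nat_lit 286))) (XT.nd (nat_lit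 78) (nat_lit 228) (nat_lit 0) (XT.lf (nat_lit 0) (nat_lit 12803503186) (nat_lit 152) (nat_lit 1150791082) (nat_lit 0) (nat_lit 1568393657) (nat_lit 53) (nat_lit 5) (nat_lit 55) (nat_lit 4) (nat_lit 53) (nat_lit 4) (nat_lit 422) (nat_lit 313) (nat_lit 285)) (XT.lf (nat_lit 0) (nat_lit 2217777708) (nat_lit 228) (nat_lit 6987100419) (nat_lit 76) (nat_lit 6617341552) (nat_lit 50) (nat_lit 5) (nat_lit 53) (nat_lit 5) (nat_lit 51) (nat_lit 4) (nat_lit 423) (nat_lit 313) (nat_lit 284)))))) (XT.nd (nat_lit 546) (nat_lit 684) (nat_lit 0) (XT.nd (nat_lit 234) (nat_lit 304) (nat_lit 0) (XT.nd (nat_lit 78) (nat_lit 228) (nat_lit 0) (XT.lf (nat_lit 0) (nat_lit 2906298004) (nat_lit 76) (nat_lit 4306591864) (nat_lit 152) (nat_lit 8918107121) (nat_lit 49) (nat_lit 5) (nat_lit 50) (nat_lit 5) (nat_lit 51) (nat_lit 4) (nat_lit 424) (nat_lit 313) (nat_lit 283)) (XT.nd (nat_lit 78) (nat_lit 228) (nat_lit 0) (XT.lf (nat_lit 0) (nat_lit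 12361515735) (nat_lit 152) (nat_lit 3352470080) (nat_lit 0) (nat_lit 734949852) (nat_lit 49) (nat_lit 5) (nat_lit 51) (nat_lit 4) (nat_lit 49) (nat_lit 4) (nat_lit 425) (nat_lit 313) (nat_lit 282)) (XT.lf (nat_lit 0) (nat_lit 906414089) (nat_lit 228) (nat_lit 10012291750) (nat_lit 76) (nat_lit 5856391201) (nat_lit 46) (nat_lit 5) (nat_lit 49) (nat_lit 5) (nat_lit 47) (nat_lit 4) (nat_lit 426) (nat_lit 313) (nat_lit 281)))) (XT.nd (nat_lit 156) (nat_lit 228) (nat_lit 0) (XT.nd (nat_lit 78) (nat_lit 76) (nat_lit 0) (XT.lf (nat_lit 0) (nat_lit 5929704445) (nat_lit 228) (nat_lit 34183656) (nat_lit 76) (nat_lit 11147094428) (nat_lit 46) (nat_lit 5) (nat_lit 49) (nat_lit 5) (nat_lit 47) (nat_lit 4) (nat_lit 427) (nat_lit 313) (nat_lit 280)) (XT.lf (nat_lit 0) (nat_lit 10314826129) (nat_lit 76) (nat_lit 817734219) (nat_lit 152) (nat_lit 6323525211) (nat_lit 45) (nat_lit 5) (nat_lit 46) (nat_lit 5) (nat_lit 47) (nat_lit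 4) (nat_lit 428) (nat_lit 313) (nat_lit 279))) (XT.nd (nat_lit 78) (nat_lit 76) (nat_lit 0) (XT.lf (nat_lit 0) (nat_lit 3049922466) (nat_lit 152) (nat_lit 13444297172) (nat_lit 152) (nat_lit 1317247291) (nat_lit 43) (nat_lit 4) (nat_lit 45) (nat_lit 5) (nat_lit 45) (nat_lit 4) (nat_lit 429) (nat_lit 313) (nat_lit 278)) (XT.lf (nat_lit 0) (nat_lit 3775295883) (nat_lit 228) (nat_lit 4657930124) (nat_lit 76) (nat_lit 9742853157) (nat_lit 42) (nat_lit 5) (nat_lit 45) (nat_lit 5) (nat_lit 43) (nat_lit 4) (nat_lit 430) (nat_lit 313) (nat_lit 277))))) (XT.nd (nat_lit 312) (nat_lit 380) (nat_lit 0) (XT.nd (nat_lit 156) (nat_lit 228) (nat_lit 0) (XT.nd (nat_lit 78) (nat_lit 0) (nat_lit 0) (XT.lf (nat_lit 0) (nat_lit 5721081621) (nat_lit 76) (nat_lit 3260160498) (nat_lit 152) (nat_lit 9570389527) (nat_lit 41) (nat_lit 5) (nat_lit 42) (nat_lit 5) (nat_lit 43) (nat_lit 4) (nat_lit 431) (nat_lit 313) (nat_lit 276)) (XT.lf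 (nat_lit 0) (nat_lit 14343073946) (nat_lit 152) (nat_lit 2576970451) (nat_lit 0) (nat_lit 2018421111) (nat_lit 41) (nat_lit 5) (nat_lit 43) (nat_lit 4) (nat_lit 41) (nat_lit 4) (nat_lit 432) (nat_lit 313) (nat_lit 275))) (XT.nd (nat_lit 78) (nat_lit 0) (nat_lit 0) (XT.lf (nat_lit 0) (nat_lit 562291171) (nat_lit 228) (nat_lit 11356217628) (nat_lit 76) (nat_lit 7416936113) (nat_lit 38) (nat_lit 5) (nat_lit 41) (nat_lit 5) (nat_lit 39) (nat_lit 4) (nat_lit 433) (nat_lit 313) (nat_lit 274)) (XT.lf (nat_lit 0) (nat_lit 5743014045) (nat_lit 228) (nat_lit 1007326766) (nat_lit 76) (nat_lit 12993813255) (nat_lit 38) (nat_lit 5) (nat_lit 41) (nat_lit 5) (nat_lit 39) (nat_lit 4) (nat_lit 434) (nat_lit 313) (nat_lit 273)))) (XT.nd (nat_lit 156) (nat_lit 152) (nat_lit 0) (XT.nd (nat_lit 78) (nat_lit 152) (nat_lit 0) (XT.lf (nat_lit 0) (nat_lit 9722377100) (nat_lit 76) (nat_lit 1386542324) (nat_lit 152) (nat_lit 9055317599)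 (nat_lit 37) (nat_lit 5) (nat_lit 38) (nat_lit 5) (nat_lit 39) (nat_lit 4) (nat_lit 435) (nat_lit 313) (nat_lit 272)) (XT.lf (nat_lit 0) (nat_lit 39326377) (nat_lit 152) (nat_lit 16583396521) (nat_lit 152) (nat_lit 3974597138) (nat_lit 35) (nat_lit 4) (nat_lit 37) (nat_lit 5) (nat_lit 37) (nat_lit 4) (nat_lit 436) (nat_lit 313) (nat_lit 271))) (XT.nd (nat_lit 78) (nat_lit 76) (nat_lit 0) (XT.lf (nat_lit 0) (nat_lit 1290777163) (nat_lit 228) (nat_lit 10137766749) (nat_lit 76) (nat_lit 9612789858) (nat_lit 34) (nat_lit 5) (nat_lit 37) (nat_lit 5) (nat_lit 35) (nat_lit 4) (nat_lit 437) (nat_lit 313) (nat_lit 270)) (XT.lf (nat_lit 0) (nat_lit 448286864) (nat_lit 76) (nat_lit 6128673394) (nat_lit 152) (nat_lit 14922249850) (nat_lit 33) (nat_lit 5) (nat_lit 34) (nat_lit 5) (nat_lit 35) (nat_lit 4) (nat_lit 438) (nat_lit 313) (nat_lit 269))))))))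
noncomputable def xc43 : XT := (XT.nd (nat_lit 2184) (nat_lit 684) (nat_lit 0) (XT.nd (nat_lit 1092) (nat_lit 456) (nat_lit 0) (XT.nd (nat_lit 546) (nat_lit 380) (nat_lit 0) (XT.nd (nat_lit 234) (nat_lit 152) (nat_lit 0) (XT.nd (nat_lit 78) (nat_lit 152) (nat_lit 0) (XT.lf (nat_lit 0) (nat_lit 11444699992) (nat_lit 76) (nat_lit 618511923) (nat_lit 152) (nat_lit 9906370944) (nat_lit 33) (nat_lit 5) (nat_lit 34) (nat_lit 5) (nat_lit 35) (nat_lit 4) (nat_lit 439) (nat_lit 313) (nat_lit 268)) (XT.nd (nat_lit 78) (nat_lit 76) (nat_lit 0) (XT.lf (nat_lit 0) (nat_lit 158461953) (nat_lit 76) (nat_lit 17546102553) (nat_lit 76) (nat_lit 4749791366) (nat_lit 32) (nat_lit 4) (nat_lit 33) (nat_lit 5) (nat_lit 33) (nat_lit 4) (nat_lit 440) (nat_lit 313) (nat_lit 267)) (XT.lf (nat_lit 0) (nat_lit 604438766) (nat_lit 152) (nat_lit 11698040548) (nat_lit 76) (nat_lit 10649417774) (nat_lit 31) (nat_lit 5) (nat_lit 33) (nat_lit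 5) (nat_lit 32) (nat_lit 4) (nat_lit 441) (nat_lit 313) (nat_lit 266)))) (XT.nd (nat_lit 156) (nat_lit 76) (nat_lit 0) (XT.nd (nat_lit 78) (nat_lit 76) (nat_lit 0) (XT.lf (nat_lit 0) (nat_lit 5966017009) (nat_lit 152) (nat_lit 939027060) (nat_lit 76) (nat_lit 16559648123) (nat_lit 31) (nat_lit 5) (nat_lit 33) (nat_lit 5) (nat_lit 32) (nat_lit 4) (nat_lit 442) (nat_lit 313) (nat_lit 265)) (XT.lf (nat_lit 0) (nat_lit 10235945691) (nat_lit 76) (nat_lit 1294762256) (nat_lit 152) (nat_lit 12460899226) (nat_lit 30) (nat_lit 5) (nat_lit 31) (nat_lit 5) (nat_lit 32) (nat_lit 4) (nat_lit 443) (nat_lit 313) (nat_lit 264))) (XT.nd (nat_lit 78) (nat_lit 76) (nat_lit 0) (XT.lf (nat_lit 0) (nat_lit 17259028311) (nat_lit 152) (nat_lit 2918518738) (nat_lit 0) (nat_lit 4356885756) (nat_lit 30) (nat_lit 5) (nat_lit 32) (nat_lit 4) (nat_lit 30) (nat_lit 4) (nat_lit 444) (nat_lit 313) (nat_lit 263)) (XT.lf (nat_lit 0) (nat_lit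 8289081129) (nat_lit 76) (nat_lit 14908258230) (nat_lit 76) (nat_lit 1895063371) (nat_lit 29) (nat_lit 4) (nat_lit 30) (nat_lit 5) (nat_lit 30) (nat_lit 4) (nat_lit 445) (nat_lit 313) (nat_lit 262))))) (XT.nd (nat_lit 234) (nat_lit 228) (nat_lit 0) (XT.nd (nat_lit 78) (nat_lit 76) (nat_lit 0) (XT.lf (nat_lit 0) (nat_lit 3550994409) (nat_lit 152) (nat_lit 5912493978) (nat_lit 76) (nat_lit 16203311284) (nat_lit 28) (nat_lit 5) (nat_lit 30) (nat_lit 5) (nat_lit 29) (nat_lit 4) (nat_lit 446) (nat_lit 313) (nat_lit 261)) (XT.nd (nat_lit 78) (nat_lit 0) (nat_lit 0) (XT.lf (nat_lit 0) (nat_lit 5288863210) (nat_lit 76) (nat_lit 3831606389) (nat_lit 152) (nat_lit 17137455729) (nat_lit 27) (nat_lit 5) (nat_lit 28) (nat_lit 5) (nat_lit 29) (nat_lit 4) (nat_lit 447) (nat_lit 313) (nat_lit 260)) (XT.lf (nat_lit 0) (nat_lit 14883659797) (nat_lit 152) (nat_lit 10037813909) (nat_lit 0) (nat_lit 1944515460) (nat_lit 27) (nat_lit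 5) (nat_lit 29) (nat_lit 4) (nat_lit 27) (nat_lit 4) (nat_lit 448) (nat_lit 313) (nat_lit 259)))) (XT.nd (nat_lit 156) (nat_lit 152) (nat_lit 0) (XT.nd (nat_lit 78) (nat_lit 0) (nat_lit 0) (XT.lf (nat_lit 0) (nat_lit 1107214443) (nat_lit 76) (nat_lit 19710048612) (nat_lit 76) (nat_lit 6675109582) (nat_lit 26) (nat_lit 4) (nat_lit 27) (nat_lit 5) (nat_lit 27) (nat_lit 4) (nat_lit 449) (nat_lit 313) (nat_lit 258)) (XT.lf (nat_lit 0) (nat_lit 12695491725) (nat_lit 76) (nat_lit 14284238471) (nat_lit 76) (nat_lit 1156294886) (nat_lit 26) (nat_lit 4) (nat_lit 27) (nat_lit 5) (nat_lit 27) (nat_lit 4) (nat_lit 450) (nat_lit 313) (nat_lit 257))) (XT.nd (nat_lit 78) (nat_lit 76) (nat_lit 0) (XT.lf (nat_lit 0) (nat_lit 4390201135) (nat_lit 152) (nat_lit 4306130966) (nat_lit 76) (nat_lit 20102837877) (nat_lit 25) (nat_lit 5) (nat_lit 27) (nat_lit 5) (nat_lit 26) (nat_lit 4) (nat_lit 451) (nat_lit 313) (nat_lit 256)) (XT.lf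 (nat_lit 0) (nat_lit 7199068304) (nat_lit 76) (nat_lit 2901903759) (nat_lit 152) (nat_lit 19380262968) (nat_lit 24) (nat_lit 5) (nat_lit 25) (nat_lit 5) (nat_lit 26) (nat_lit 4) (nat_lit 452) (nat_lit 313) (nat_lit 255)))))) (XT.nd (nat_lit 546) (nat_lit 228) (nat_lit 0) (XT.nd (nat_lit 234) (nat_lit 152) (nat_lit 0) (XT.nd (nat_lit 78) (nat_lit 76) (nat_lit 0) (XT.lf (nat_lit 0) (nat_lit 16008475538) (nat_lit 152) (nat_lit 11167039169) (nat_lit 0) (nat_lit 3007487840) (nat_lit 24) (nat_lit 5) (nat_lit 26) (nat_lit 4) (nat_lit 24) (nat_lit 4) (nat_lit 453) (nat_lit 313) (nat_lit 254)) (XT.nd (nat_lit 78) (nat_lit 0) (nat_lit 0) (XT.lf (nat_lit 0) (nat_lit 166377094) (nat_lit 76) (nat_lit 21910575252) (nat_lit 76) (nat_lit 8829361006) (nat_lit 23) (nat_lit 4) (nat_lit 24) (nat_lit 5) (nat_lit 24) (nat_lit 4) (nat_lit 454) (nat_lit 313) (nat_lit 253)) (XT.lf (nat_lit 0) (nat_lit 11979908398) (nat_lit 76) (nat_lit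 16414260624) (nat_lit 76) (nat_lit 3255156526) (nat_lit 23) (nat_lit 4) (nat_lit 24) (nat_lit 5) (nat_lit 24) (nat_lit 4) (nat_lit 455) (nat_lit 313) (nat_lit 252)))) (XT.nd (nat_lit 156) (nat_lit 0) (nat_lit 0) (XT.nd (nat_lit 78) (nat_lit 76) (nat_lit 0) (XT.lf (nat_lit 0) (nat_lit 2392574962) (nat_lit 152) (nat_lit 8377798138) (nat_lit 76) (nat_lit 21644895991) (nat_lit 22) (nat_lit 5) (nat_lit 24) (nat_lit 5) (nat_lit 23) (nat_lit 4) (nat_lit 456) (nat_lit 313) (nat_lit 251)) (XT.lf (nat_lit 0) (nat_lit 3198169251) (nat_lit 76) (nat_lit 4933019526) (nat_lit 152) (nat_lit 25072431421) (nat_lit 21) (nat_lit 5) (nat_lit 22) (nat_lit 5) (nat_lit 23) (nat_lit 4) (nat_lit 457) (nat_lit 313) (nat_lit 250))) (XT.nd (nat_lit 78) (nat_lit 0) (nat_lit 0) (XT.lf (nat_lit 0) (nat_lit 14093992092) (nat_lit 152) (nat_lit 18815811311) (nat_lit 0) (nat_lit 1104259843) (nat_lit 21) (nat_lit 5) (nat_lit 23) (nat_lit 4) (nat_lit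 21) (nat_lit 4) (nat_lit 458) (nat_lit 313) (nat_lit 249)) (XT.lf (nat_lit 0) (nat_lit 20242014247) (nat_lit 152) (nat_lit 7421524037) (nat_lit 0) (nat_lit 7185093528) (nat_lit 21) (nat_lit 5) (nat_lit 23) (nat_lit 4) (nat_lit 21) (nat_lit 4) (nat_lit 459) (nat_lit 313) (nat_lit 248))))) (XT.nd (nat_lit 234) (nat_lit 76) (nat_lit 0) (XT.nd (nat_lit 78) (nat_lit 76) (nat_lit 0) (XT.lf (nat_lit 0) (nat_lit 4319066798) (nat_lit 76) (nat_lit 22255658815) (nat_lit 76) (nat_lit 9133506571) (nat_lit 20) (nat_lit 4) (nat_lit 21) (nat_lit 5) (nat_lit 21) (nat_lit 4) (nat_lit 460) (nat_lit 313) (nat_lit 247)) (XT.nd (nat_lit 78) (nat_lit 76) (nat_lit 0) (XT.lf (nat_lit 0) (nat_lit 16484986128) (nat_lit 76) (nat_lit 16646548457) (nat_lit 76) (nat_lit 3461064636) (nat_lit 20) (nat_lit 4) (nat_lit 21) (nat_lit 5) (nat_lit 21) (nat_lit 4) (nat_lit 461) (nat_lit 313) (nat_lit 246)) (XT.lf (nat_lit 0) (nat_lit 2295045986) (nat_lit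 152) (nat_lit 8588027436) (nat_lit 76) (nat_lit 26620940034) (nat_lit 19) (nat_lit 5) (nat_lit 21) (nat_lit 5) (nat_lit 20) (nat_lit 4) (nat_lit 462) (nat_lit 313) (nat_lit 245)))) (XT.nd (nat_lit 156) (nat_lit 0) (nat_lit 0) (XT.nd (nat_lit 78) (nat_lit 0) (nat_lit 0) (XT.lf (nat_lit 0) (nat_lit 3230657171) (nat_lit 76) (nat_lit 4915807875) (nat_lit 152) (nat_lit 30295513319) (nat_lit 18) (nat_lit 5) (nat_lit 19) (nat_lit 5) (nat_lit 20) (nat_lit 4) (nat_lit 463) (nat_lit 313) (nat_lit 244)) (XT.lf (nat_lit 0) (nat_lit 14234038551) (nat_lit 152) (nat_lit 23913552005) (nat_lit 0) (nat_lit 1258675212) (nat_lit 18) (nat_lit 5) (nat_lit 20) (nat_lit 4) (nat_lit 18) (nat_lit 4) (nat_lit 464) (nat_lit 313) (nat_lit 243))) (XT.nd (nat_lit 78) (nat_lit 0) (nat_lit 0) (XT.lf (nat_lit 0) (nat_lit 20515243551) (nat_lit 152) (nat_lit 12398660122) (nat_lit 0) (nat_lit 7485249837) (nat_lit 18) (nat_lit 5) (nat_lit 20) (nat_lit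 4) (nat_lit 18) (nat_lit 4) (nat_lit 465) (nat_lit 313) (nat_lit 242)) (XT.lf (nat_lit 0) (nat_lit 26948314726) (nat_lit 152) (nat_lit 609330238) (nat_lit 0) (nat_lit 13865281813) (nat_lit 18) (nat_lit 5) (nat_lit 20) (nat_lit 4) (nat_lit 18) (nat_lit 4) (nat_lit 466) (nat_lit 313) (nat_lit 241))))))) (XT.nd (nat_lit 1092) (nat_lit 228) (nat_lit 0) (XT.nd (nat_lit 546) (nat_lit 228) (nat_lit 0) (XT.nd (nat_lit 234) (nat_lit 76) (nat_lit 0) (XT.nd (nat_lit 78) (nat_lit 76) (nat_lit 0) (XT.lf (nat_lit 0) (nat_lit 11692909789) (nat_lit 76) (nat_lit 21958362818) (nat_lit 76) (nat_lit 8823835537) (nat_lit 17) (nat_lit 4) (nat_lit 18) (nat_lit 5) (nat_lit 18) (nat_lit 4) (nat_lit 467) (nat_lit 313) (nat_lit 240)) (XT.nd (nat_lit 78) (nat_lit 76) (nat_lit 0) (XT.lf (nat_lit 0) (nat_lit 24308443039) (nat_lit 76) (nat_lit 16217902316) (nat_lit 76) (nat_lit 3033380504) (nat_lit 17) (nat_lit 4) (nat_lit 18) (nat_lit 5)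 (nat_lit 18) (nat_lit 4) (nat_lit 468) (nat_lit 313) (nat_lit 239)) (XT.lf (nat_lit 0) (nat_lit 2839154880) (nat_lit 152) (nat_lit 7469575786) (nat_lit 76) (nat_lit 34368341148) (nat_lit 16) (nat_lit 5) (nat_lit 18) (nat_lit 5) (nat_lit 17) (nat_lit 4) (nat_lit 469) (nat_lit 313) (nat_lit 238)))) (XT.nd (nat_lit 156) (nat_lit 0) (nat_lit 0) (XT.nd (nat_lit 78) (nat_lit 0) (nat_lit 0) (XT.lf (nat_lit 0) (nat_lit 4661498569) (nat_lit 76) (nat_lit 4176769116) (nat_lit 152) (nat_lit 36988429924) (nat_lit 15) (nat_lit 5) (nat_lit 16) (nat_lit 5) (nat_lit 17) (nat_lit 4) (nat_lit 470) (nat_lit 313) (nat_lit 237)) (XT.lf (nat_lit 0) (nat_lit 15080706090) (nat_lit 152) (nat_lit 29785303764) (nat_lit 0) (nat_lit 2142903262) (nat_lit 15) (nat_lit 5) (nat_lit 17) (nat_lit 4) (nat_lit 15) (nat_lit 4) (nat_lit 471) (nat_lit 313) (nat_lit 236))) (XT.nd (nat_lit 78) (nat_lit 0) (nat_lit 0) (XT.lf (nat_lit 0) (nat_lit 21519358689)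 (nat_lit 152) (nat_lit 18168539485) (nat_lit 0) (nat_lit 8538430138) (nat_lit 15) (nat_lit 5) (nat_lit 17) (nat_lit 4) (nat_lit 15) (nat_lit 4) (nat_lit 472) (nat_lit 313) (nat_lit 235)) (XT.lf (nat_lit 0) (nat_lit 28119701830) (nat_lit 152) (nat_lit 6264605975) (nat_lit 0) (nat_lit 15096903646) (nat_lit 15) (nat_lit 5) (nat_lit 17) (nat_lit 4) (nat_lit 15) (nat_lit 4) (nat_lit 473) (nat_lit 313) (nat_lit 234))))) (XT.nd (nat_lit 234) (nat_lit 152) (nat_lit 0) (XT.nd (nat_lit 78) (nat_lit 0) (nat_lit 0) (XT.lf (nat_lit 0) (nat_lit 6055054178) (nat_lit 76) (nat_lit 28890653510) (nat_lit 76) (nat_lit 15827205197) (nat_lit 14) (nat_lit 4) (nat_lit 15) (nat_lit 5) (nat_lit 15) (nat_lit 4) (nat_lit 474) (nat_lit 313) (nat_lit 233)) (XT.nd (nat_lit 78) (nat_lit 0) (nat_lit 0) (XT.lf (nat_lit 0) (nat_lit 18813758936) (nat_lit 76) (nat_lit 23195765647) (nat_lit 76) (nat_lit 10092851188) (nat_lit 14) (nat_lit 4) (nat_lit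 15) (nat_lit 5) (nat_lit 15) (nat_lit 4) (nat_lit 475) (nat_lit 313) (nat_lit 232)) (XT.lf (nat_lit 0) (nat_lit 31897978739) (nat_lit 76) (nat_lit 17357928335) (nat_lit 76) (nat_lit 4216697231) (nat_lit 14) (nat_lit 4) (nat_lit 15) (nat_lit 5) (nat_lit 15) (nat_lit 4) (nat_lit 476) (nat_lit 313) (nat_lit 231)))) (XT.nd (nat_lit 156) (nat_lit 0) (nat_lit 0) (XT.nd (nat_lit 78) (nat_lit 76) (nat_lit 0) (XT.lf (nat_lit 0) (nat_lit 1771141978) (nat_lit 152) (nat_lit 9583013514) (nat_lit 76) (nat_lit 43530119359) (nat_lit 13) (nat_lit 5) (nat_lit 15) (nat_lit 5) (nat_lit 14) (nat_lit 4) (nat_lit 477) (nat_lit 313) (nat_lit 230)) (XT.lf (nat_lit 0) (nat_lit 2725259890) (nat_lit 76) (nat_lit 5126862639) (nat_lit 152) (nat_lit 48484973958) (nat_lit 12) (nat_lit 5) (nat_lit 13) (nat_lit 5) (nat_lit 14) (nat_lit 4) (nat_lit 478) (nat_lit 313) (nat_lit 229))) (XT.nd (nat_lit 78) (nat_lit 0) (nat_lit 0) (XT.lf (nat_lit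 0) (nat_lit 14197736492) (nat_lit 152) (nat_lit 42299267735) (nat_lit 0) (nat_lit 1334033575) (nat_lit 12) (nat_lit 5) (nat_lit 14) (nat_lit 4) (nat_lit 12) (nat_lit 4) (nat_lit 479) (nat_lit 313) (nat_lit 228)) (XT.lf (nat_lit 0) (nat_lit 20757394849) (nat_lit 152) (nat_lit 30751053688) (nat_lit 0) (nat_lit 7860639658) (nat_lit 12) (nat_lit 5) (nat_lit 14) (nat_lit 4) (nat_lit 12) (nat_lit 4) (nat_lit 480) (nat_lit 313) (nat_lit 227)))))) (XT.nd (nat_lit 546) (nat_lit 76) (nat_lit 0) (XT.nd (nat_lit 234) (nat_lit 76) (nat_lit 0) (XT.nd (nat_lit 78) (nat_lit 76) (nat_lit 0) (XT.lf (nat_lit 0) (nat_lit 27487546802) (nat_lit 152) (nat_lit 18907821242) (nat_lit 0) (nat_lit 14558702023) (nat_lit 12) (nat_lit 5) (nat_lit 14) (nat_lit 4) (nat_lit 12) (nat_lit 4) (nat_lit 481) (nat_lit 313) (nat_lit 226)) (XT.nd (nat_lit 78) (nat_lit 76) (nat_lit 0) (XT.lf (nat_lit 0) (nat_lit 34394073066) (nat_lit 152) (nat_lit 6759221944)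 (nat_lit 0) (nat_lit 21434073348) (nat_lit 12) (nat_lit 5) (nat_lit 14) (nat_lit 4) (nat_lit 12) (nat_lit 4) (nat_lit 482) (nat_lit 313) (nat_lit 225)) (XT.lf (nat_lit 0) (nat_lit 5818907328) (nat_lit 76) (nat_lit 35720036038) (nat_lit 76) (nat_lit 22729788806) (nat_lit 11) (nat_lit 4) (nat_lit 12) (nat_lit 5) (nat_lit 12) (nat_lit 4) (nat_lit 483) (nat_lit 313) (nat_lit 224)))) (XT.nd (nat_lit 156) (nat_lit 76) (nat_lit 0) (XT.nd (nat_lit 78) (nat_lit 0) (nat_lit 0) (XT.lf (nat_lit 0) (nat_lit 18864937310) (nat_lit 76) (nat_lit 30076951235) (nat_lit 76) (nat_lit 17057337484) (nat_lit 11) (nat_lit 4) (nat_lit 12) (nat_lit 5) (nat_lit 12) (nat_lit 4) (nat_lit 484) (nat_lit 313) (nat_lit 223)) (XT.lf (nat_lit 0) (nat_lit 32255745676) (nat_lit 76) (nat_lit 24287364638) (nat_lit 76) (nat_lit 11239239705) (nat_lit 11) (nat_lit 4) (nat_lit 12) (nat_lit 5) (nat_lit 12) (nat_lit 4) (nat_lit 485) (nat_lit 313) (nat_lit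 222))) (XT.nd (nat_lit 78) (nat_lit 76) (nat_lit 0) (XT.lf (nat_lit 0) (nat_lit 46003033132) (nat_lit 76) (nat_lit 18346217386) (nat_lit 76) (nat_lit 5270411692) (nat_lit 11) (nat_lit 4) (nat_lit 12) (nat_lit 5) (nat_lit 12) (nat_lit 4) (nat_lit 486) (nat_lit 313) (nat_lit 221)) (XT.lf (nat_lit 0) (nat_lit 837690351) (nat_lit 152) (nat_lit 11402168803) (nat_lit 76) (nat_lit 59272662488) (nat_lit 10) (nat_lit 5) (nat_lit 12) (nat_lit 5) (nat_lit 11) (nat_lit 4) (nat_lit 487) (nat_lit 313) (nat_lit 220))))) (XT.nd (nat_lit 45630) (nat_lit 0) (nat_lit 7524) (XT.nd (nat_lit 156) (nat_lit 0) (nat_lit 0) (XT.nd (nat_lit 78) (nat_lit 0) (nat_lit 0) (XT.lf (nat_lit 0) (nat_lit 1105019132) (nat_lit 76) (nat_lit 5906700632) (nat_lit 152) (nat_lit 66449224052) (nat_lit 9) (nat_lit 5) (nat_lit 10) (nat_lit 5) (nat_lit 11) (nat_lit 4) (nat_lit 488) (nat_lit 313) (nat_lit 219)) (XT.lf (nat_lit 0) (nat_lit 13471197669) (nat_lit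 152) (nat_lit 61293391887) (nat_lit 0) (nat_lit 700223100) (nat_lit 9) (nat_lit 5) (nat_lit 11) (nat_lit 4) (nat_lit 9) (nat_lit 4) (nat_lit 489) (nat_lit 313) (nat_lit 218))) (XT.nd (nat_lit 78) (nat_lit 0) (nat_lit 0) (XT.lf (nat_lit 0) (nat_lit 20161604568) (nat_lit 152) (nat_lit 49999327127) (nat_lit 0) (nat_lit 7366752332) (nat_lit 9) (nat_lit 5) (nat_lit 11) (nat_lit 4) (nat_lit 9) (nat_lit 4) (nat_lit 490) (nat_lit 313) (nat_lit 217)) (XT.lf (nat_lit 0) (nat_lit 27032007628) (nat_lit 152) (nat_lit 38407082986) (nat_lit 0) (nat_lit 14213973191) (nat_lit 9) (nat_lit 5) (nat_lit 11) (nat_lit 4) (nat_lit 9) (nat_lit 4) (nat_lit 491) (nat_lit 313) (nat_lit 216)))) (XT.nd (nat_lit 156) (nat_lit 608) (nat_lit 0) (XT.nd (nat_lit 78) (nat_lit 304) (nat_lit 0) (XT.lf (nat_lit 0) (nat_lit 1384576034) (nat_lit 380) (nat_lit 1992385370) (nat_lit 0) (nat_lit 1384576034) (nat_lit 120) (nat_lit 5) (nat_lit 125) (nat_lit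 4) (nat_lit 120) (nat_lit 4) (nat_lit 392) (nat_lit 314) (nat_lit 314)) (XT.lf (nat_lit 0) (nat_lit 3898897030) (nat_lit 304) (nat_lit 3290773088) (nat_lit 304) (nat_lit 2461955701) (nat_lit 116) (nat_lit 4) (nat_lit 120) (nat_lit 5) (nat_lit 120) (nat_lit 4) (nat_lit 393) (nat_lit 314) (nat_lit 313))) (XT.nd (nat_lit 78) (nat_lit 304) (nat_lit 0) (XT.lf (nat_lit 0) (nat_lit 1882972000) (nat_lit 304) (nat_lit 7604595054) (nat_lit 0) (nat_lit 297055047) (nat_lit 112) (nat_lit 5) (nat_lit 116) (nat_lit 4) (nat_lit 112) (nat_lit 4) (nat_lit 394) (nat_lit 314) (nat_lit 312)) (XT.lf (nat_lit 0) (nat_lit 338669799) (nat_lit 304) (nat_lit 5963417711) (nat_lit 304) (nat_lit 3619015439) (nat_lit 108) (nat_lit 4) (nat_lit 112) (nat_lit 5) (nat_lit 112) (nat_lit 4) (nat_lit 395) (nat_lit 314) (nat_lit 311))))))))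
noncomputable def xc44 : XT := (XT.nd (nat_lit 2184) (nat_lit 1976) (nat_lit 0) (XT.nd (nat_lit 1092) (nat_lit 1824) (nat_lit 0) (XT.nd (nat_lit 546) (nat_lit 1216) (nat_lit 0) (XT.nd (nat_lit 234) (nat_lit 836) (nat_lit 0) (XT.nd (nat_lit 78) (nat_lit 456) (nat_lit 0) (XT.lf (nat_lit 0) (nat_lit 753431750) (nat_lit 380) (nat_lit 1551329330) (nat_lit 76) (nat_lit 7757409173) (nat_lit 107) (nat_lit 5) (nat_lit 112) (nat_lit 5) (nat_lit 108) (nat_lit 4) (nat_lit 396) (nat_lit 314) (nat_lit 310)) (XT.nd (nat_lit 78) (nat_lit 228) (nat_lit 0) (XT.lf (nat_lit 0) (nat_lit 5165012930) (nat_lit 304) (nat_lit 3562156633) (nat_lit 0) (nat_lit 1479827547) (nat_lit 104) (nat_lit 5) (nat_lit 108) (nat_lit 4) (nat_lit 104) (nat_lit 4) (nat_lit 397) (nat_lit 314) (nat_lit 309)) (XT.lf (nat_lit 0) (nat_lit 4675359935) (nat_lit 228) (nat_lit 5020161983) (nat_lit 228) (nat_lit 661072218) (nat_lit 101) (nat_lit 4) (nat_lit 104)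 (nat_lit 5) (nat_lit 104) (nat_lit 4) (nat_lit 398) (nat_lit 314) (nat_lit 308)))) (XT.nd (nat_lit 156) (nat_lit 304) (nat_lit 0) (XT.nd (nat_lit 78) (nat_lit 228) (nat_lit 0) (XT.lf (nat_lit 0) (nat_lit 2580080400) (nat_lit 228) (nat_lit 1160533522) (nat_lit 304) (nat_lit 6770041031) (nat_lit 97) (nat_lit 5) (nat_lit 100) (nat_lit 5) (nat_lit 101) (nat_lit 4) (nat_lit 399) (nat_lit 314) (nat_lit 307)) (XT.lf (nat_lit 0) (nat_lit 353720472) (nat_lit 228) (nat_lit 7899864719) (nat_lit 228) (nat_lit 2415801247) (nat_lit 94) (nat_lit 4) (nat_lit 97) (nat_lit 5) (nat_lit 97) (nat_lit 4) (nat_lit 400) (nat_lit 314) (nat_lit 306))) (XT.nd (nat_lit 78) (nat_lit 228) (nat_lit 0) (XT.lf (nat_lit 0) (nat_lit 2025523921) (nat_lit 304) (nat_lit 1971005226) (nat_lit 76) (nat_lit 6835868700) (nat_lit 93) (nat_lit 5) (nat_lit 97) (nat_lit 5) (nat_lit 94) (nat_lit 4) (nat_lit 401) (nat_lit 314) (nat_lit 305)) (XT.lf (nat_lit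 0) (nat_lit 6522504900) (nat_lit 304) (nat_lit 4425495791) (nat_lit 0) (nat_lit 52471281) (nat_lit 90) (nat_lit 5) (nat_lit 94) (nat_lit 4) (nat_lit 90) (nat_lit 4) (nat_lit 402) (nat_lit 314) (nat_lit 304))))) (XT.nd (nat_lit 234) (nat_lit 760) (nat_lit 0) (XT.nd (nat_lit 78) (nat_lit 228) (nat_lit 0) (XT.lf (nat_lit 0) (nat_lit 4132042353) (nat_lit 228) (nat_lit 7029662377) (nat_lit 228) (nat_lit 11682826) (nat_lit 87) (nat_lit 4) (nat_lit 90) (nat_lit 5) (nat_lit 90) (nat_lit 4) (nat_lit 403) (nat_lit 314) (nat_lit 303)) (XT.nd (nat_lit 78) (nat_lit 0) (nat_lit 0) (XT.lf (nat_lit 0) (nat_lit 1518036684) (nat_lit 152) (nat_lit 2948959659) (nat_lit 228) (nat_lit 6884150085) (nat_lit 84) (nat_lit 5) (nat_lit 86) (nat_lit 5) (nat_lit 87) (nat_lit 4) (nat_lit 404) (nat_lit 314) (nat_lit 302)) (XT.lf (nat_lit 0) (nat_lit 9072501157) (nat_lit 228) (nat_lit 1220980349) (nat_lit 0) (nat_lit 1240989033) (nat_lit 84)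 (nat_lit 5) (nat_lit 87) (nat_lit 4) (nat_lit 84) (nat_lit 4) (nat_lit 405) (nat_lit 314) (nat_lit 301)))) (XT.nd (nat_lit 156) (nat_lit 304) (nat_lit 0) (XT.nd (nat_lit 78) (nat_lit 152) (nat_lit 0) (XT.lf (nat_lit 0) (nat_lit 2066086314) (nat_lit 304) (nat_lit 4124199769) (nat_lit 76) (nat_lit 5531999252) (nat_lit 80) (nat_lit 5) (nat_lit 84) (nat_lit 5) (nat_lit 81) (nat_lit 4) (nat_lit 406) (nat_lit 314) (nat_lit 300)) (XT.lf (nat_lit 0) (nat_lit 4708427928) (nat_lit 152) (nat_lit 1941545416) (nat_lit 228) (nat_lit 5265961279) (nat_lit 78) (nat_lit 5) (nat_lit 80) (nat_lit 5) (nat_lit 81) (nat_lit 4) (nat_lit 407) (nat_lit 314) (nat_lit 299))) (XT.nd (nat_lit 78) (nat_lit 76) (nat_lit 0) (XT.lf (nat_lit 0) (nat_lit 1633593524) (nat_lit 228) (nat_lit 9731254930) (nat_lit 228) (nat_lit 750755849) (nat_lit 75) (nat_lit 4) (nat_lit 78) (nat_lit 5) (nat_lit 78) (nat_lit 4) (nat_lit 408) (nat_lit 314) (nat_lit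 298)) (XT.lf (nat_lit 0) (nat_lit 3829082670) (nat_lit 304) (nat_lit 1640014838) (nat_lit 76) (nat_lit 6850897767) (nat_lit 74) (nat_lit 5) (nat_lit 78) (nat_lit 5) (nat_lit 75) (nat_lit 4) (nat_lit 409) (nat_lit 314) (nat_lit 297)))))) (XT.nd (nat_lit 546) (nat_lit 912) (nat_lit 0) (XT.nd (nat_lit 234) (nat_lit 380) (nat_lit 0) (XT.nd (nat_lit 78) (nat_lit 380) (nat_lit 0) (XT.lf (nat_lit 0) (nat_lit 7458578999) (nat_lit 152) (nat_lit 1059443951) (nat_lit 228) (nat_lit 4012681929) (nat_lit 72) (nat_lit 5) (nat_lit 74) (nat_lit 5) (nat_lit 75) (nat_lit 4) (nat_lit 410) (nat_lit 314) (nat_lit 296)) (XT.nd (nat_lit 78) (nat_lit 152) (nat_lit 0) (XT.lf (nat_lit 0) (nat_lit 592588974) (nat_lit 228) (nat_lit 8739501494) (nat_lit 76) (nat_lit 3415353313) (nat_lit 69) (nat_lit 5) (nat_lit 72) (nat_lit 5) (nat_lit 70) (nat_lit 4) (nat_lit 411) (nat_lit 314) (nat_lit 295)) (XT.lf (nat_lit 0) (nat_lit 302907575) (nat_lit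 152) (nat_lit 4933389439) (nat_lit 228) (nat_lit 7733780662) (nat_lit 67) (nat_lit 5) (nat_lit 69) (nat_lit 5) (nat_lit 70) (nat_lit 4) (nat_lit 412) (nat_lit 314) (nat_lit 294)))) (XT.nd (nat_lit 156) (nat_lit 152) (nat_lit 0) (XT.nd (nat_lit 78) (nat_lit 228) (nat_lit 0) (XT.lf (nat_lit 0) (nat_lit 9649671479) (nat_lit 152) (nat_lit 374747909) (nat_lit 228) (nat_lit 3174830350) (nat_lit 67) (nat_lit 5) (nat_lit 69) (nat_lit 5) (nat_lit 70) (nat_lit 4) (nat_lit 413) (nat_lit 314) (nat_lit 293)) (XT.lf (nat_lit 0) (nat_lit 1507026994) (nat_lit 228) (nat_lit 7680693156) (nat_lit 76) (nat_lit 4246675267) (nat_lit 64) (nat_lit 5) (nat_lit 67) (nat_lit 5) (nat_lit 65) (nat_lit 4) (nat_lit 414) (nat_lit 314) (nat_lit 292))) (XT.nd (nat_lit 78) (nat_lit 0) (nat_lit 0) (XT.lf (nat_lit 0) (nat_lit 1584873363) (nat_lit 152) (nat_lit 4654679891) (nat_lit 228) (nat_lit 7436889673) (nat_lit 62) (nat_lit 5) (nat_lit 64)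 (nat_lit 5) (nat_lit 65) (nat_lit 4) (nat_lit 415) (nat_lit 314) (nat_lit 291)) (XT.lf (nat_lit 0) (nat_lit 11111795412) (nat_lit 228) (nat_lit 2782760146) (nat_lit 0) (nat_lit 31274980) (nat_lit 62) (nat_lit 5) (nat_lit 65) (nat_lit 4) (nat_lit 62) (nat_lit 4) (nat_lit 416) (nat_lit 314) (nat_lit 290))))) (XT.nd (nat_lit 234) (nat_lit 532) (nat_lit 0) (XT.nd (nat_lit 78) (nat_lit 152) (nat_lit 0) (XT.lf (nat_lit 0) (nat_lit 1942419750) (nat_lit 228) (nat_lit 7449894247) (nat_lit 76) (nat_lit 4788846891) (nat_lit 59) (nat_lit 5) (nat_lit 62) (nat_lit 5) (nat_lit 60) (nat_lit 4) (nat_lit 417) (nat_lit 314) (nat_lit 289)) (XT.nd (nat_lit 78) (nat_lit 0) (nat_lit 0) (XT.lf (nat_lit 0) (nat_lit 2015363663) (nat_lit 152) (nat_lit 4739195145) (nat_lit 228) (nat_lit 7689679947) (nat_lit 57) (nat_lit 5) (nat_lit 59) (nat_lit 5) (nat_lit 60) (nat_lit 4) (nat_lit 418) (nat_lit 314) (nat_lit 288)) (XT.lf (nat_lit 0) (nat_lit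 11709698984) (nat_lit 228) (nat_lit 2937549562) (nat_lit 0) (nat_lit 68010968) (nat_lit 57) (nat_lit 5) (nat_lit 60) (nat_lit 4) (nat_lit 57) (nat_lit 4) (nat_lit 419) (nat_lit 314) (nat_lit 287)))) (XT.nd (nat_lit 156) (nat_lit 228) (nat_lit 0) (XT.nd (nat_lit 78) (nat_lit 76) (nat_lit 0) (XT.lf (nat_lit 0) (nat_lit 1820522869) (nat_lit 228) (nat_lit 8223666274) (nat_lit 76) (nat_lit 4948598163) (nat_lit 54) (nat_lit 5) (nat_lit 57) (nat_lit 5) (nat_lit 55) (nat_lit 4) (nat_lit 420) (nat_lit 314) (nat_lit 286)) (XT.lf (nat_lit 0) (nat_lit 1410215877) (nat_lit 76) (nat_lit 5288846519) (nat_lit 152) (nat_lit 8579652167) (nat_lit 53) (nat_lit 5) (nat_lit 54) (nat_lit 5) (nat_lit 55) (nat_lit 4) (nat_lit 421) (nat_lit 314) (nat_lit 285))) (XT.nd (nat_lit 78) (nat_lit 228) (nat_lit 0) (XT.lf (nat_lit 0) (nat_lit 11366323474) (nat_lit 76) (nat_lit 366142679) (nat_lit 152) (nat_lit 3840506832) (nat_lit 53) (nat_lit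 5) (nat_lit 54) (nat_lit 5) (nat_lit 55) (nat_lit 4) (nat_lit 422) (nat_lit 314) (nat_lit 284)) (XT.lf (nat_lit 0) (nat_lit 1047625498) (nat_lit 228) (nat_lit 10207943984) (nat_lit 76) (nat_lit 4619383945) (nat_lit 50) (nat_lit 5) (nat_lit 53) (nat_lit 5) (nat_lit 51) (nat_lit 4) (nat_lit 423) (nat_lit 314) (nat_lit 283))))))) (XT.nd (nat_lit 1092) (nat_lit 836) (nat_lit 0) (XT.nd (nat_lit 546) (nat_lit 532) (nat_lit 0) (XT.nd (nat_lit 234) (nat_lit 380) (nat_lit 0) (XT.nd (nat_lit 78) (nat_lit 228) (nat_lit 0) (XT.lf (nat_lit 0) (nat_lit 5978940796) (nat_lit 228) (nat_lit 436868356) (nat_lit 76) (nat_lit 9769839361) (nat_lit 50) (nat_lit 5) (nat_lit 53) (nat_lit 5) (nat_lit 51) (nat_lit 4) (nat_lit 424) (nat_lit 314) (nat_lit 282)) (XT.nd (nat_lit 78) (nat_lit 152) (nat_lit 0) (XT.lf (nat_lit 0) (nat_lit 9687059028) (nat_lit 76) (nat_lit 1393579427) (nat_lit 152) (nat_lit 5424360341) (nat_lit 49) (nat_lit 5)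 (nat_lit 50) (nat_lit 5) (nat_lit 51) (nat_lit 4) (nat_lit 425) (nat_lit 314) (nat_lit 281)) (XT.lf (nat_lit 0) (nat_lit 3186075788) (nat_lit 152) (nat_lit 13150315303) (nat_lit 152) (nat_lit 497515782) (nat_lit 47) (nat_lit 4) (nat_lit 49) (nat_lit 5) (nat_lit 49) (nat_lit 4) (nat_lit 426) (nat_lit 314) (nat_lit 280)))) (XT.nd (nat_lit 156) (nat_lit 228) (nat_lit 0) (XT.nd (nat_lit 78) (nat_lit 76) (nat_lit 0) (XT.lf (nat_lit 0) (nat_lit 4500859458) (nat_lit 228) (nat_lit 3728842517) (nat_lit 76) (nat_lit 8941276003) (nat_lit 46) (nat_lit 5) (nat_lit 49) (nat_lit 5) (nat_lit 47) (nat_lit 4) (nat_lit 427) (nat_lit 314) (nat_lit 279)) (XT.lf (nat_lit 0) (nat_lit 6483360852) (nat_lit 76) (nat_lit 3149909132) (nat_lit 152) (nat_lit 7884927725) (nat_lit 45) (nat_lit 5) (nat_lit 46) (nat_lit 5) (nat_lit 47) (nat_lit 4) (nat_lit 428) (nat_lit 314) (nat_lit 278))) (XT.nd (nat_lit 78) (nat_lit 228) (nat_lit 0) (XT.lf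 (nat_lit 0) (nat_lit 14909695689) (nat_lit 152) (nat_lit 942913029) (nat_lit 0) (nat_lit 2023530611) (nat_lit 45) (nat_lit 5) (nat_lit 47) (nat_lit 4) (nat_lit 45) (nat_lit 4) (nat_lit 429) (nat_lit 314) (nat_lit 277)) (XT.lf (nat_lit 0) (nat_lit 2115500989) (nat_lit 228) (nat_lit 8780757184) (nat_lit 76) (nat_lit 7346255449) (nat_lit 42) (nat_lit 5) (nat_lit 45) (nat_lit 5) (nat_lit 43) (nat_lit 4) (nat_lit 430) (nat_lit 314) (nat_lit 276))))) (XT.nd (nat_lit 234) (nat_lit 304) (nat_lit 0) (XT.nd (nat_lit 78) (nat_lit 152) (nat_lit 0) (XT.lf (nat_lit 0) (nat_lit 1454591594) (nat_lit 76) (nat_lit 5793373097) (nat_lit 152) (nat_lit 11372308855) (nat_lit 41) (nat_lit 5) (nat_lit 42) (nat_lit 5) (nat_lit 43) (nat_lit 4) (nat_lit 431) (nat_lit 314) (nat_lit 275)) (XT.nd (nat_lit 78) (nat_lit 152) (nat_lit 0) (XT.lf (nat_lit 0) (nat_lit 12055570986) (nat_lit 76) (nat_lit 502337419) (nat_lit 152) (nat_lit 6450758528)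 (nat_lit 41) (nat_lit 5) (nat_lit 42) (nat_lit 5) (nat_lit 43) (nat_lit 4) (nat_lit 432) (nat_lit 314) (nat_lit 274)) (XT.lf (nat_lit 0) (nat_lit 3466688931) (nat_lit 152) (nat_lit 14577553657) (nat_lit 152) (nat_lit 1363962445) (nat_lit 39) (nat_lit 4) (nat_lit 41) (nat_lit 5) (nat_lit 41) (nat_lit 4) (nat_lit 433) (nat_lit 314) (nat_lit 273)))) (XT.nd (nat_lit 156) (nat_lit 152) (nat_lit 0) (XT.nd (nat_lit 78) (nat_lit 76) (nat_lit 0) (XT.lf (nat_lit 0) (nat_lit 3811998605) (nat_lit 228) (nat_lit 5638318096) (nat_lit 76) (nat_lit 10367934791) (nat_lit 38) (nat_lit 5) (nat_lit 41) (nat_lit 5) (nat_lit 39) (nat_lit 4) (nat_lit 434) (nat_lit 314) (nat_lit 272)) (XT.lf (nat_lit 0) (nat_lit 4940992377) (nat_lit 76) (nat_lit 4160486279) (nat_lit 152) (nat_lit 11139151111) (nat_lit 37) (nat_lit 5) (nat_lit 38) (nat_lit 5) (nat_lit 39) (nat_lit 4) (nat_lit 435) (nat_lit 314) (nat_lit 271))) (XT.nd (nat_lit 78) (nat_lit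 152) (nat_lit 0) (XT.lf (nat_lit 0) (nat_lit 14557865513) (nat_lit 152) (nat_lit 4849737473) (nat_lit 0) (nat_lit 1267834778) (nat_lit 37) (nat_lit 5) (nat_lit 39) (nat_lit 4) (nat_lit 37) (nat_lit 4) (nat_lit 436) (nat_lit 314) (nat_lit 270)) (XT.lf (nat_lit 0) (nat_lit 5874394999) (nat_lit 152) (nat_lit 14341347375) (nat_lit 152) (nat_lit 906418572) (nat_lit 35) (nat_lit 4) (nat_lit 37) (nat_lit 5) (nat_lit 37) (nat_lit 4) (nat_lit 437) (nat_lit 314) (nat_lit 269)))))) (XT.nd (nat_lit 546) (nat_lit 456) (nat_lit 0) (XT.nd (nat_lit 234) (nat_lit 228) (nat_lit 0) (XT.nd (nat_lit 78) (nat_lit 76) (nat_lit 0) (XT.lf (nat_lit 0) (nat_lit 4363693201) (nat_lit 228) (nat_lit 4717309339) (nat_lit 76) (nat_lit 12500311172) (nat_lit 34) (nat_lit 5) (nat_lit 37) (nat_lit 5) (nat_lit 35) (nat_lit 4) (nat_lit 438) (nat_lit 314) (nat_lit 268)) (XT.nd (nat_lit 78) (nat_lit 0) (nat_lit 0) (XT.lf (nat_lit 0) (nat_lit 6130202448)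 (nat_lit 76) (nat_lit 3644373568) (nat_lit 152) (nat_lit 12279373721) (nat_lit 33) (nat_lit 5) (nat_lit 34) (nat_lit 5) (nat_lit 35) (nat_lit 4) (nat_lit 439) (nat_lit 314) (nat_lit 267)) (XT.lf (nat_lit 0) (nat_lit 15356804719) (nat_lit 152) (nat_lit 5268432011) (nat_lit 0) (nat_lit 1915261880) (nat_lit 33) (nat_lit 5) (nat_lit 35) (nat_lit 4) (nat_lit 33) (nat_lit 4) (nat_lit 440) (nat_lit 314) (nat_lit 266)))) (XT.nd (nat_lit 156) (nat_lit 76) (nat_lit 0) (XT.nd (nat_lit 78) (nat_lit 76) (nat_lit 0) (XT.lf (nat_lit 0) (nat_lit 5674719927) (nat_lit 76) (nat_lit 15466214209) (nat_lit 76) (nat_lit 1899681024) (nat_lit 32) (nat_lit 4) (nat_lit 33) (nat_lit 5) (nat_lit 33) (nat_lit 4) (nat_lit 441) (nat_lit 314) (nat_lit 265)) (XT.lf (nat_lit 0) (nat_lit 3471317170) (nat_lit 152) (nat_lit 6641109179) (nat_lit 76) (nat_lit 13442363193) (nat_lit 31) (nat_lit 5) (nat_lit 33) (nat_lit 5) (nat_lit 32) (nat_lit 4) (nat_lit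 442) (nat_lit 314) (nat_lit 264))) (XT.nd (nat_lit 78) (nat_lit 0) (nat_lit 0) (XT.lf (nat_lit 0) (nat_lit 4368407219) (nat_lit 76) (nat_lit 4584354181) (nat_lit 152) (nat_lit 15131442427) (nat_lit 30) (nat_lit 5) (nat_lit 31) (nat_lit 5) (nat_lit 32) (nat_lit 4) (nat_lit 443) (nat_lit 314) (nat_lit 263)) (XT.lf (nat_lit 0) (nat_lit 14622682819) (nat_lit 152) (nat_lit 8898060649) (nat_lit 0) (nat_lit 1108039811) (nat_lit 30) (nat_lit 5) (nat_lit 32) (nat_lit 4) (nat_lit 30) (nat_lit 4) (nat_lit 444) (nat_lit 314) (nat_lit 262))))) (XT.nd (nat_lit 312) (nat_lit 228) (nat_lit 0) (XT.nd (nat_lit 156) (nat_lit 76) (nat_lit 0) (XT.nd (nat_lit 78) (nat_lit 76) (nat_lit 0) (XT.lf (nat_lit 0) (nat_lit 2140006535) (nat_lit 76) (nat_lit 18335881213) (nat_lit 76) (nat_lit 4713420434) (nat_lit 29) (nat_lit 4) (nat_lit 30) (nat_lit 5) (nat_lit 30) (nat_lit 4) (nat_lit 445) (nat_lit 314) (nat_lit 261)) (XT.lf (nat_lit 0)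 (nat_lit 761665557) (nat_lit 152) (nat_lit 12180957144) (nat_lit 76) (nat_lit 12822675909) (nat_lit 28) (nat_lit 5) (nat_lit 30) (nat_lit 5) (nat_lit 29) (nat_lit 4) (nat_lit 446) (nat_lit 314) (nat_lit 260))) (XT.nd (nat_lit 78) (nat_lit 76) (nat_lit 0) (XT.lf (nat_lit 0) (nat_lit 6255089225) (nat_lit 152) (nat_lit 1130935689) (nat_lit 76) (nat_lit 18972682542) (nat_lit 28) (nat_lit 5) (nat_lit 30) (nat_lit 5) (nat_lit 29) (nat_lit 4) (nat_lit 447) (nat_lit 314) (nat_lit 259)) (XT.lf (nat_lit 0) (nat_lit 10357845224) (nat_lit 76) (nat_lit 1605347177) (nat_lit 152) (nat_lit 15005233100) (nat_lit 27) (nat_lit 5) (nat_lit 28) (nat_lit 5) (nat_lit 29) (nat_lit 4) (nat_lit 448) (nat_lit 314) (nat_lit 258)))) (XT.nd (nat_lit 156) (nat_lit 152) (nat_lit 0) (XT.nd (nat_lit 78) (nat_lit 76) (nat_lit 0) (XT.lf (nat_lit 0) (nat_lit 17846299524) (nat_lit 152) (nat_lit 5518512804) (nat_lit 0) (nat_lit 4231513075) (nat_lit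 27) (nat_lit 5) (nat_lit 29) (nat_lit 4) (nat_lit 27) (nat_lit 4) (nat_lit 449) (nat_lit 314) (nat_lit 257)) (XT.lf (nat_lit 0) (nat_lit 5913607227) (nat_lit 76) (nat_lit 18016901006) (nat_lit 76) (nat_lit 4311818871) (nat_lit 26) (nat_lit 4) (nat_lit 27) (nat_lit 5) (nat_lit 27) (nat_lit 4) (nat_lit 450) (nat_lit 314) (nat_lit 256))) (XT.nd (nat_lit 78) (nat_lit 76) (nat_lit 0) (XT.lf (nat_lit 0) (nat_lit 1272567350) (nat_lit 152) (nat_lit 11209436128) (nat_lit 76) (nat_lit 16425090487) (nat_lit 25) (nat_lit 5) (nat_lit 27) (nat_lit 5) (nat_lit 26) (nat_lit 4) (nat_lit 451) (nat_lit 314) (nat_lit 255)) (XT.lf (nat_lit 0) (nat_lit 113367968) (nat_lit 76) (nat_lit 6778862653) (nat_lit 152) (nat_lit 22699663004) (nat_lit 24) (nat_lit 5) (nat_lit 25) (nat_lit 5) (nat_lit 26) (nat_lit 4) (nat_lit 452) (nat_lit 314) (nat_lit 254))))))))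
noncomputable def xc45 : XT := (XT.nd (nat_lit 2184) (nat_lit 228) (nat_lit 0) (XT.nd (nat_lit 1092) (nat_lit 456) (nat_lit 0) (XT.nd (nat_lit 546) (nat_lit 228) (nat_lit 0) (XT.nd (nat_lit 234) (nat_lit 152) (nat_lit 0) (XT.nd (nat_lit 78) (nat_lit 76) (nat_lit 0) (XT.lf (nat_lit 0) (nat_lit 11916937758) (nat_lit 76) (nat_lit 830565343) (nat_lit 152) (nat_lit 17547726305) (nat_lit 24) (nat_lit 5) (nat_lit 25) (nat_lit 5) (nat_lit 26) (nat_lit 4) (nat_lit 453) (nat_lit 314) (nat_lit 253)) (XT.nd (nat_lit 78) (nat_lit 76) (nat_lit 0) (XT.lf (nat_lit 0) (nat_lit 18784117856) (nat_lit 152) (nat_lit 7083028729) (nat_lit 0) (nat_lit 5152350784) (nat_lit 24) (nat_lit 5) (nat_lit 26) (nat_lit 4) (nat_lit 24) (nat_lit 4) (nat_lit 454) (nat_lit 314) (nat_lit 252)) (XT.lf (nat_lit 0) (nat_lit 4547066281) (nat_lit 76) (nat_lit 20462788610) (nat_lit 76) (nat_lit 6755400322) (nat_lit 23) (nat_lit 4) (nat_lit 24) (nat_lit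 5) (nat_lit 24) (nat_lit 4) (nat_lit 455) (nat_lit 314) (nat_lit 251)))) (XT.nd (nat_lit 156) (nat_lit 76) (nat_lit 0) (XT.nd (nat_lit 78) (nat_lit 76) (nat_lit 0) (XT.lf (nat_lit 0) (nat_lit 16587556013) (nat_lit 76) (nat_lit 14862898248) (nat_lit 76) (nat_lit 1082091305) (nat_lit 23) (nat_lit 4) (nat_lit 24) (nat_lit 5) (nat_lit 24) (nat_lit 4) (nat_lit 456) (nat_lit 314) (nat_lit 250)) (XT.lf (nat_lit 0) (nat_lit 4625915310) (nat_lit 152) (nat_lit 4461479110) (nat_lit 76) (nat_lit 24235367139) (nat_lit 22) (nat_lit 5) (nat_lit 24) (nat_lit 5) (nat_lit 23) (nat_lit 4) (nat_lit 457) (nat_lit 314) (nat_lit 249))) (XT.nd (nat_lit 78) (nat_lit 0) (nat_lit 0) (XT.lf (nat_lit 0) (nat_lit 7420907959) (nat_lit 76) (nat_lit 3092490698) (nat_lit 152) (nat_lit 23622066667) (nat_lit 21) (nat_lit 5) (nat_lit 22) (nat_lit 5) (nat_lit 23) (nat_lit 4) (nat_lit 458) (nat_lit 314) (nat_lit 248)) (XT.lf (nat_lit 0) (nat_lit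 16611364360) (nat_lit 152) (nat_lit 15329856285) (nat_lit 0) (nat_lit 3030316024) (nat_lit 21) (nat_lit 5) (nat_lit 23) (nat_lit 4) (nat_lit 21) (nat_lit 4) (nat_lit 459) (nat_lit 314) (nat_lit 247))))) (XT.nd (nat_lit 234) (nat_lit 152) (nat_lit 0) (XT.nd (nat_lit 78) (nat_lit 76) (nat_lit 0) (XT.lf (nat_lit 0) (nat_lit 22882820797) (nat_lit 152) (nat_lit 3711714064) (nat_lit 0) (nat_lit 9238440884) (nat_lit 21) (nat_lit 5) (nat_lit 23) (nat_lit 4) (nat_lit 21) (nat_lit 4) (nat_lit 460) (nat_lit 314) (nat_lit 246)) (XT.nd (nat_lit 78) (nat_lit 0) (nat_lit 0) (XT.lf (nat_lit 0) (nat_lit 8342541009) (nat_lit 76) (nat_lit 21041173566) (nat_lit 76) (nat_lit 7335306685) (nat_lit 20) (nat_lit 4) (nat_lit 21) (nat_lit 5) (nat_lit 21) (nat_lit 4) (nat_lit 461) (nat_lit 314) (nat_lit 245)) (XT.lf (nat_lit 0) (nat_lit 20760023291) (nat_lit 76) (nat_lit 15318609946) (nat_lit 76) (nat_lit 1553046979) (nat_lit 20) (nat_lit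 4) (nat_lit 21) (nat_lit 5) (nat_lit 21) (nat_lit 4) (nat_lit 462) (nat_lit 314) (nat_lit 244)))) (XT.nd (nat_lit 156) (nat_lit 0) (nat_lit 0) (XT.nd (nat_lit 78) (nat_lit 76) (nat_lit 0) (XT.lf (nat_lit 0) (nat_lit 4279034418) (nat_lit 152) (nat_lit 5137080461) (nat_lit 76) (nat_lit 29155468345) (nat_lit 19) (nat_lit 5) (nat_lit 21) (nat_lit 5) (nat_lit 20) (nat_lit 4) (nat_lit 463) (nat_lit 314) (nat_lit 243)) (XT.lf (nat_lit 0) (nat_lit 6999805980) (nat_lit 76) (nat_lit 3285709092) (nat_lit 152) (nat_lit 29252789249) (nat_lit 18) (nat_lit 5) (nat_lit 19) (nat_lit 5) (nat_lit 20) (nat_lit 4) (nat_lit 464) (nat_lit 314) (nat_lit 242))) (XT.nd (nat_lit 78) (nat_lit 0) (nat_lit 0) (XT.lf (nat_lit 0) (nat_lit 16517121060) (nat_lit 152) (nat_lit 21027001895) (nat_lit 0) (nat_lit 2988557961) (nat_lit 18) (nat_lit 5) (nat_lit 20) (nat_lit 4) (nat_lit 18) (nat_lit 4) (nat_lit 465) (nat_lit 314) (nat_lit 241)) (XT.lf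 (nat_lit 0) (nat_lit 22932702171) (nat_lit 152) (nat_lit 9271632868) (nat_lit 0) (nat_lit 9352644704) (nat_lit 18) (nat_lit 5) (nat_lit 20) (nat_lit 4) (nat_lit 18) (nat_lit 4) (nat_lit 466) (nat_lit 314) (nat_lit 240)))))) (XT.nd (nat_lit 546) (nat_lit 228) (nat_lit 0) (XT.nd (nat_lit 234) (nat_lit 152) (nat_lit 0) (XT.nd (nat_lit 78) (nat_lit 0) (nat_lit 0) (XT.lf (nat_lit 0) (nat_lit 2824582445) (nat_lit 76) (nat_lit 26708849175) (nat_lit 76) (nat_lit 13078797176) (nat_lit 17) (nat_lit 4) (nat_lit 18) (nat_lit 5) (nat_lit 18) (nat_lit 4) (nat_lit 467) (nat_lit 314) (nat_lit 239)) (XT.nd (nat_lit 78) (nat_lit 0) (nat_lit 0) (XT.lf (nat_lit 0) (nat_lit 15407467241) (nat_lit 76) (nat_lit 20984237227) (nat_lit 76) (nat_lit 7305646847) (nat_lit 17) (nat_lit 4) (nat_lit 18) (nat_lit 5) (nat_lit 18) (nat_lit 4) (nat_lit 468) (nat_lit 314) (nat_lit 238)) (XT.lf (nat_lit 0) (nat_lit 28303492601) (nat_lit 76) (nat_lit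 15119122419) (nat_lit 76) (nat_lit 1393407398) (nat_lit 17) (nat_lit 4) (nat_lit 18) (nat_lit 5) (nat_lit 18) (nat_lit 4) (nat_lit 469) (nat_lit 314) (nat_lit 237)))) (XT.nd (nat_lit 156) (nat_lit 0) (nat_lit 0) (XT.nd (nat_lit 78) (nat_lit 76) (nat_lit 0) (XT.lf (nat_lit 0) (nat_lit 4572093578) (nat_lit 152) (nat_lit 4490117135) (nat_lit 76) (nat_lit 36905664136) (nat_lit 16) (nat_lit 5) (nat_lit 18) (nat_lit 5) (nat_lit 17) (nat_lit 4) (nat_lit 470) (nat_lit 314) (nat_lit 236)) (XT.lf (nat_lit 0) (nat_lit 7973482137) (nat_lit 76) (nat_lit 2760197040) (nat_lit 152) (nat_lit 36418837479) (nat_lit 15) (nat_lit 5) (nat_lit 16) (nat_lit 5) (nat_lit 17) (nat_lit 4) (nat_lit 471) (nat_lit 314) (nat_lit 235))) (XT.nd (nat_lit 78) (nat_lit 0) (nat_lit 0) (XT.lf (nat_lit 0) (nat_lit 17130297086) (nat_lit 152) (nat_lit 27565951182) (nat_lit 0) (nat_lit 3674945323) (nat_lit 15) (nat_lit 5) (nat_lit 17) (nat_lit 4) (nat_lit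 15) (nat_lit 4) (nat_lit 472) (nat_lit 314) (nat_lit 234)) (XT.lf (nat_lit 0) (nat_lit 23715589754) (nat_lit 152) (nat_lit 15691351306) (nat_lit 0) (nat_lit 10219587861) (nat_lit 15) (nat_lit 5) (nat_lit 17) (nat_lit 4) (nat_lit 15) (nat_lit 4) (nat_lit 473) (nat_lit 314) (nat_lit 233))))) (XT.nd (nat_lit 234) (nat_lit 152) (nat_lit 0) (XT.nd (nat_lit 78) (nat_lit 76) (nat_lit 0) (XT.lf (nat_lit 0) (nat_lit 30468778617) (nat_lit 152) (nat_lit 3518326326) (nat_lit 0) (nat_lit 16933310580) (nat_lit 15) (nat_lit 5) (nat_lit 17) (nat_lit 4) (nat_lit 15) (nat_lit 4) (nat_lit 474) (nat_lit 314) (nat_lit 232)) (XT.nd (nat_lit 78) (nat_lit 0) (nat_lit 0) (XT.lf (nat_lit 0) (nat_lit 9142156791) (nat_lit 76) (nat_lit 28341487734) (nat_lit 76) (nat_lit 14767703051) (nat_lit 14) (nat_lit 4) (nat_lit 15) (nat_lit 5) (nat_lit 15) (nat_lit 4) (nat_lit 475) (nat_lit 314) (nat_lit 231)) (XT.lf (nat_lit 0) (nat_lit 22198997906)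 (nat_lit 76) (nat_lit 22516992614) (nat_lit 76) (nat_lit 8906007304) (nat_lit 14) (nat_lit 4) (nat_lit 15) (nat_lit 5) (nat_lit 15) (nat_lit 4) (nat_lit 476) (nat_lit 314) (nat_lit 230)))) (XT.nd (nat_lit 156) (nat_lit 76) (nat_lit 0) (XT.nd (nat_lit 78) (nat_lit 76) (nat_lit 0) (XT.lf (nat_lit 0) (nat_lit 35593584316) (nat_lit 76) (nat_lit 16544058417) (nat_lit 76) (nat_lit 2896955993) (nat_lit 14) (nat_lit 4) (nat_lit 15) (nat_lit 5) (nat_lit 15) (nat_lit 4) (nat_lit 477) (nat_lit 314) (nat_lit 229)) (XT.lf (nat_lit 0) (nat_lit 3200995423) (nat_lit 152) (nat_lit 7184146871) (nat_lit 76) (nat_lit 46104300828) (nat_lit 13) (nat_lit 5) (nat_lit 15) (nat_lit 5) (nat_lit 14) (nat_lit 4) (nat_lit 478) (nat_lit 314) (nat_lit 228))) (XT.nd (nat_lit 78) (nat_lit 0) (nat_lit 0) (XT.lf (nat_lit 0) (nat_lit 5467037900) (nat_lit 76) (nat_lit 3982838614) (nat_lit 152) (nat_lit 48536410460) (nat_lit 12) (nat_lit 5) (nat_lit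 13) (nat_lit 5) (nat_lit 14) (nat_lit 4) (nat_lit 479) (nat_lit 314) (nat_lit 227)) (XT.lf (nat_lit 0) (nat_lit 15958295620) (nat_lit 152) (nat_lit 40958083548) (nat_lit 0) (nat_lit 2609495911) (nat_lit 12) (nat_lit 5) (nat_lit 14) (nat_lit 4) (nat_lit 12) (nat_lit 4) (nat_lit 480) (nat_lit 314) (nat_lit 226))))))) (XT.nd (nat_lit 46254) (nat_lit 0) (nat_lit 5244) (XT.nd (nat_lit 546) (nat_lit 152) (nat_lit 0) (XT.nd (nat_lit 234) (nat_lit 76) (nat_lit 0) (XT.nd (nat_lit 78) (nat_lit 0) (nat_lit 0) (XT.lf (nat_lit 0) (nat_lit 22675871097) (nat_lit 152) (nat_lit 29139447221) (nat_lit 0) (nat_lit 9295916447) (nat_lit 12) (nat_lit 5) (nat_lit 14) (nat_lit 4) (nat_lit 12) (nat_lit 4) (nat_lit 481) (nat_lit 314) (nat_lit 225)) (XT.nd (nat_lit 78) (nat_lit 0) (nat_lit 0) (XT.lf (nat_lit 0) (nat_lit 29570187189) (nat_lit 152) (nat_lit 17014727649) (nat_lit 0) (nat_lit 16159985026) (nat_lit 12) (nat_lit 5) (nat_lit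 14) (nat_lit 4) (nat_lit 12) (nat_lit 4) (nat_lit 482) (nat_lit 314) (nat_lit 224)) (XT.lf (nat_lit 0) (nat_lit 36647268057) (nat_lit 152) (nat_lit 4573330418) (nat_lit 0) (nat_lit 23207699375) (nat_lit 12) (nat_lit 5) (nat_lit 14) (nat_lit 4) (nat_lit 12) (nat_lit 4) (nat_lit 483) (nat_lit 314) (nat_lit 223)))) (XT.nd (nat_lit 156) (nat_lit 0) (nat_lit 0) (XT.nd (nat_lit 78) (nat_lit 0) (nat_lit 0) (XT.lf (nat_lit 0) (nat_lit 8358724417) (nat_lit 76) (nat_lit 35634922312) (nat_lit 76) (nat_lit 22166842448) (nat_lit 11) (nat_lit 4) (nat_lit 12) (nat_lit 5) (nat_lit 12) (nat_lit 4) (nat_lit 484) (nat_lit 314) (nat_lit 222)) (XT.lf (nat_lit 0) (nat_lit 21727244526) (nat_lit 76) (nat_lit 29856235687) (nat_lit 76) (nat_lit 16360475063) (nat_lit 11) (nat_lit 4) (nat_lit 12) (nat_lit 5) (nat_lit 12) (nat_lit 4) (nat_lit 485) (nat_lit 314) (nat_lit 221))) (XT.nd (nat_lit 78) (nat_lit 0) (nat_lit 0) (XT.lf (nat_lit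 0) (nat_lit 35452892898) (nat_lit 76) (nat_lit 23925670932) (nat_lit 76) (nat_lit 10403035783) (nat_lit 11) (nat_lit 4) (nat_lit 12) (nat_lit 5) (nat_lit 12) (nat_lit 4) (nat_lit 486) (nat_lit 314) (nat_lit 220)) (XT.lf (nat_lit 0) (nat_lit 49547662816) (nat_lit 76) (nat_lit 17838046000) (nat_lit 76) (nat_lit 4289319079) (nat_lit 11) (nat_lit 4) (nat_lit 12) (nat_lit 5) (nat_lit 12) (nat_lit 4) (nat_lit 487) (nat_lit 314) (nat_lit 219))))) (XT.nd (nat_lit 234) (nat_lit 0) (nat_lit 0) (XT.nd (nat_lit 78) (nat_lit 76) (nat_lit 0) (XT.lf (nat_lit 0) (nat_lit 1947262782) (nat_lit 152) (nat_lit 9621115288) (nat_lit 76) (nat_lit 62056943782) (nat_lit 10) (nat_lit 5) (nat_lit 12) (nat_lit 5) (nat_lit 11) (nat_lit 4) (nat_lit 488) (nat_lit 314) (nat_lit 218)) (XT.nd (nat_lit 78) (nat_lit 0) (nat_lit 0) (XT.lf (nat_lit 0) (nat_lit 3240473397) (nat_lit 76) (nat_lit 5054662628) (nat_lit 152) (nat_lit 67337403205) (nat_lit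 9) (nat_lit 5) (nat_lit 10) (nat_lit 5) (nat_lit 11) (nat_lit 4) (nat_lit 489) (nat_lit 314) (nat_lit 217)) (XT.lf (nat_lit 0) (nat_lit 14926749466) (nat_lit 152) (nat_lit 61069433531) (nat_lit 0) (nat_lit 1700991795) (nat_lit 9) (nat_lit 5) (nat_lit 11) (nat_lit 4) (nat_lit 9) (nat_lit 4) (nat_lit 490) (nat_lit 314) (nat_lit 216)))) (XT.nd (nat_lit 45318) (nat_lit 0) (nat_lit 8436) (XT.nd (nat_lit 45240) (nat_lit 0) (nat_lit 9120) (XT.lf (nat_lit 0) (nat_lit 21787244809) (nat_lit 152) (nat_lit 49496627220) (nat_lit 0) (nat_lit 8538980147) (nat_lit 9) (nat_lit 5) (nat_lit 11) (nat_lit 4) (nat_lit 9) (nat_lit 4) (nat_lit 491) (nat_lit 314) (nat_lit 215)) (XT.lf (nat_lit 0) (nat_lit 2160591499) (nat_lit 380) (nat_lit 317027226) (nat_lit 0) (nat_lit 2160591499) (nat_lit 129) (nat_lit 5) (nat_lit 134) (nat_lit 4) (nat_lit 129) (nat_lit 4) (nat_lit 390) (nat_lit 315) (nat_lit 315))) (XT.nd (nat_lit 78) (nat_lit 380)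 (nat_lit 0) (XT.lf (nat_lit 0) (nat_lit 7103641574) (nat_lit 304) (nat_lit 1587249146) (nat_lit 304) (nat_lit 707956780) (nat_lit 125) (nat_lit 4) (nat_lit 129) (nat_lit 5) (nat_lit 129) (nat_lit 4) (nat_lit 391) (nat_lit 315) (nat_lit 314)) (XT.lf (nat_lit 0) (nat_lit 3572308028) (nat_lit 380) (nat_lit 4062487695) (nat_lit 0) (nat_lit 1889808732) (nat_lit 120) (nat_lit 5) (nat_lit 125) (nat_lit 4) (nat_lit 120) (nat_lit 4) (nat_lit 392) (nat_lit 315) (nat_lit 313)))))) (XT.nd (nat_lit 546) (nat_lit 1444) (nat_lit 0) (XT.nd (nat_lit 234) (nat_lit 836) (nat_lit 0) (XT.nd (nat_lit 78) (nat_lit 608) (nat_lit 0) (XT.lf (nat_lit 0) (nat_lit 3742678332) (nat_lit 304) (nat_lit 4199591757) (nat_lit 304) (nat_lit 1712415386) (nat_lit 116) (nat_lit 4) (nat_lit 120) (nat_lit 5) (nat_lit 120) (nat_lit 4) (nat_lit 393) (nat_lit 315) (nat_lit 312)) (XT.nd (nat_lit 78) (nat_lit 304) (nat_lit 0) (XT.lf (nat_lit 0) (nat_lit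 1936025282) (nat_lit 228) (nat_lit 627739018) (nat_lit 304) (nat_lit 7225337587) (nat_lit 112) (nat_lit 5) (nat_lit 115) (nat_lit 5) (nat_lit 116) (nat_lit 4) (nat_lit 394) (nat_lit 315) (nat_lit 311)) (XT.lf (nat_lit 0) (nat_lit 13727215) (nat_lit 304) (nat_lit 6911603709) (nat_lit 304) (nat_lit 3001990537) (nat_lit 108) (nat_lit 4) (nat_lit 112) (nat_lit 5) (nat_lit 112) (nat_lit 4) (nat_lit 395) (nat_lit 315) (nat_lit 310)))) (XT.nd (nat_lit 156) (nat_lit 532) (nat_lit 0) (XT.nd (nat_lit 78) (nat_lit 228) (nat_lit 0) (XT.lf (nat_lit 0) (nat_lit 1310225718) (nat_lit 380) (nat_lit 1964800122) (nat_lit 76) (nat_lit 6794642264) (nat_lit 107) (nat_lit 5) (nat_lit 112) (nat_lit 5) (nat_lit 108) (nat_lit 4) (nat_lit 396) (nat_lit 315) (nat_lit 309)) (XT.lf (nat_lit 0) (nat_lit 5660602137) (nat_lit 304) (nat_lit 4058904888) (nat_lit 0) (nat_lit 496835298) (nat_lit 104) (nat_lit 5) (nat_lit 108) (nat_lit 4) (nat_lit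 104) (nat_lit 4) (nat_lit 397) (nat_lit 315) (nat_lit 308))) (XT.nd (nat_lit 78) (nat_lit 304) (nat_lit 0) (XT.lf (nat_lit 0) (nat_lit 4092682279) (nat_lit 228) (nat_lit 6046435353) (nat_lit 228) (nat_lit 228392415) (nat_lit 101) (nat_lit 4) (nat_lit 104) (nat_lit 5) (nat_lit 104) (nat_lit 4) (nat_lit 398) (nat_lit 315) (nat_lit 307)) (XT.lf (nat_lit 0) (nat_lit 1894185051) (nat_lit 228) (nat_lit 2217858053) (nat_lit 304) (nat_lit 6410997477) (nat_lit 97) (nat_lit 5) (nat_lit 100) (nat_lit 5) (nat_lit 101) (nat_lit 4) (nat_lit 399) (nat_lit 315) (nat_lit 306))))) (XT.nd (nat_lit 312) (nat_lit 608) (nat_lit 0) (XT.nd (nat_lit 156) (nat_lit 532) (nat_lit 0) (XT.nd (nat_lit 78) (nat_lit 304) (nat_lit 0) (XT.lf (nat_lit 0) (nat_lit 8565597344) (nat_lit 304) (nat_lit 416428524) (nat_lit 0) (nat_lit 1701538678) (nat_lit 97) (nat_lit 5) (nat_lit 101) (nat_lit 4) (nat_lit 97) (nat_lit 4) (nat_lit 400) (nat_lit 315)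 (nat_lit 305)) (XT.lf (nat_lit 0) (nat_lit 2267732976) (nat_lit 304) (nat_lit 2841876562) (nat_lit 76) (nat_lit 5738384320) (nat_lit 93) (nat_lit 5) (nat_lit 97) (nat_lit 5) (nat_lit 94) (nat_lit 4) (nat_lit 401) (nat_lit 315) (nat_lit 304))) (XT.nd (nat_lit 78) (nat_lit 304) (nat_lit 0) (XT.lf (nat_lit 0) (nat_lit 5612729534) (nat_lit 228) (nat_lit 1097855859) (nat_lit 304) (nat_lit 4307115569) (nat_lit 90) (nat_lit 5) (nat_lit 93) (nat_lit 5) (nat_lit 94) (nat_lit 4) (nat_lit 402) (nat_lit 315) (nat_lit 303)) (XT.lf (nat_lit 0) (nat_lit 90601200) (nat_lit 304) (nat_lit 8124530775) (nat_lit 76) (nat_lit 2977411118) (nat_lit 86) (nat_lit 5) (nat_lit 90) (nat_lit 5) (nat_lit 87) (nat_lit 4) (nat_lit 403) (nat_lit 315) (nat_lit 302)))) (XT.nd (nat_lit 156) (nat_lit 456) (nat_lit 0) (XT.nd (nat_lit 78) (nat_lit 0) (nat_lit 0) (XT.lf (nat_lit 0) (nat_lit 338104683) (nat_lit 152) (nat_lit 4175711813) (nat_lit 228)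 (nat_lit 6858147523) (nat_lit 84) (nat_lit 5) (nat_lit 86) (nat_lit 5) (nat_lit 87) (nat_lit 4) (nat_lit 404) (nat_lit 315) (nat_lit 301)) (XT.lf (nat_lit 0) (nat_lit 9063928899) (nat_lit 228) (nat_lit 2483848711) (nat_lit 0) (nat_lit 9180398) (nat_lit 84) (nat_lit 5) (nat_lit 87) (nat_lit 4) (nat_lit 84) (nat_lit 4) (nat_lit 405) (nat_lit 315) (nat_lit 300))) (XT.nd (nat_lit 78) (nat_lit 152) (nat_lit 0) (XT.lf (nat_lit 0) (nat_lit 1979661508) (nat_lit 304) (nat_lit 5508698612) (nat_lit 76) (nat_lit 4258108417) (nat_lit 80) (nat_lit 5) (nat_lit 84) (nat_lit 5) (nat_lit 81) (nat_lit 4) (nat_lit 406) (nat_lit 315) (nat_lit 299)) (XT.lf (nat_lit 0) (nat_lit 3223041740) (nat_lit 152) (nat_lit 3284026883) (nat_lit 228) (nat_lit 5434751017) (nat_lit 78) (nat_lit 5) (nat_lit 80) (nat_lit 5) (nat_lit 81) (nat_lit 4) (nat_lit 407) (nat_lit 315) (nat_lit 298))))))))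
noncomputable def xc46 : XT := (XT.nd (nat_lit 2184) (nat_lit 1444) (nat_lit 0) (XT.nd (nat_lit 1092) (nat_lit 1216) (nat_lit 0) (XT.nd (nat_lit 546) (nat_lit 760) (nat_lit 0) (XT.nd (nat_lit 234) (nat_lit 608) (nat_lit 0) (XT.nd (nat_lit 78) (nat_lit 228) (nat_lit 0) (XT.lf (nat_lit 0) (nat_lit 31800186) (nat_lit 228) (nat_lit 11119900720) (nat_lit 228) (nat_lit 991902901) (nat_lit 75) (nat_lit 4) (nat_lit 78) (nat_lit 5) (nat_lit 78) (nat_lit 4) (nat_lit 408) (nat_lit 315) (nat_lit 297)) (XT.nd (nat_lit 78) (nat_lit 152) (nat_lit 0) (XT.lf (nat_lit 0) (nat_lit 3550818423) (nat_lit 304) (nat_lit 3339791350) (nat_lit 76) (nat_lit 5458716022) (nat_lit 74) (nat_lit 5) (nat_lit 78) (nat_lit 5) (nat_lit 75) (nat_lit 4) (nat_lit 409) (nat_lit 315) (nat_lit 296)) (XT.lf (nat_lit 0) (nat_lit 5653380718) (nat_lit 152) (nat_lit 2528420612) (nat_lit 228) (nat_lit 4379979380) (nat_lit 72) (nat_lit 5) (nat_lit 74) (nat_lit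 5) (nat_lit 75) (nat_lit 4) (nat_lit 410) (nat_lit 315) (nat_lit 295)))) (XT.nd (nat_lit 156) (nat_lit 380) (nat_lit 0) (XT.nd (nat_lit 78) (nat_lit 0) (nat_lit 0) (XT.lf (nat_lit 0) (nat_lit 158680843) (nat_lit 228) (nat_lit 10698774764) (nat_lit 76) (nat_lit 1923389476) (nat_lit 69) (nat_lit 5) (nat_lit 72) (nat_lit 5) (nat_lit 70) (nat_lit 4) (nat_lit 411) (nat_lit 315) (nat_lit 294)) (XT.lf (nat_lit 0) (nat_lit 4759208858) (nat_lit 228) (nat_lit 1732827411) (nat_lit 76) (nat_lit 6512744142) (nat_lit 69) (nat_lit 5) (nat_lit 72) (nat_lit 5) (nat_lit 70) (nat_lit 4) (nat_lit 412) (nat_lit 315) (nat_lit 293))) (XT.nd (nat_lit 78) (nat_lit 228) (nat_lit 0) (XT.lf (nat_lit 0) (nat_lit 7509590605) (nat_lit 152) (nat_lit 1980985164) (nat_lit 228) (nat_lit 3745085225) (nat_lit 67) (nat_lit 5) (nat_lit 69) (nat_lit 5) (nat_lit 70) (nat_lit 4) (nat_lit 413) (nat_lit 315) (nat_lit 292)) (XT.lf (nat_lit 0) (nat_lit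 870949852) (nat_lit 228) (nat_lit 9987295925) (nat_lit 76) (nat_lit 2615039364) (nat_lit 64) (nat_lit 5) (nat_lit 67) (nat_lit 5) (nat_lit 65) (nat_lit 4) (nat_lit 414) (nat_lit 315) (nat_lit 291))))) (XT.nd (nat_lit 234) (nat_lit 380) (nat_lit 0) (XT.nd (nat_lit 78) (nat_lit 380) (nat_lit 0) (XT.lf (nat_lit 0) (nat_lit 5549444806) (nat_lit 228) (nat_lit 821467470) (nat_lit 76) (nat_lit 7346046674) (nat_lit 64) (nat_lit 5) (nat_lit 67) (nat_lit 5) (nat_lit 65) (nat_lit 4) (nat_lit 415) (nat_lit 315) (nat_lit 290)) (XT.nd (nat_lit 78) (nat_lit 228) (nat_lit 0) (XT.lf (nat_lit 0) (nat_lit 8652559707) (nat_lit 152) (nat_lit 1722445524) (nat_lit 228) (nat_lit 3592746985) (nat_lit 62) (nat_lit 5) (nat_lit 64) (nat_lit 5) (nat_lit 65) (nat_lit 4) (nat_lit 416) (nat_lit 315) (nat_lit 289)) (XT.lf (nat_lit 0) (nat_lit 1098749574) (nat_lit 228) (nat_lit 10120205181) (nat_lit 76) (nat_lit 3006761891) (nat_lit 59) (nat_lit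 5) (nat_lit 62) (nat_lit 5) (nat_lit 60) (nat_lit 4) (nat_lit 417) (nat_lit 315) (nat_lit 288)))) (XT.nd (nat_lit 156) (nat_lit 228) (nat_lit 0) (XT.nd (nat_lit 78) (nat_lit 152) (nat_lit 0) (XT.lf (nat_lit 0) (nat_lit 5854114749) (nat_lit 228) (nat_lit 761361815) (nat_lit 76) (nat_lit 7875025927) (nat_lit 59) (nat_lit 5) (nat_lit 62) (nat_lit 5) (nat_lit 60) (nat_lit 4) (nat_lit 418) (nat_lit 315) (nat_lit 287)) (XT.lf (nat_lit 0) (nat_lit 8920088839) (nat_lit 152) (nat_lit 1844084790) (nat_lit 228) (nat_lit 3998706683) (nat_lit 57) (nat_lit 5) (nat_lit 59) (nat_lit 5) (nat_lit 60) (nat_lit 4) (nat_lit 419) (nat_lit 315) (nat_lit 286))) (XT.nd (nat_lit 78) (nat_lit 0) (nat_lit 0) (XT.lf (nat_lit 0) (nat_lit 763107387) (nat_lit 228) (nat_lit 11274992305) (nat_lit 76) (nat_lit 3005108646) (nat_lit 54) (nat_lit 5) (nat_lit 57) (nat_lit 5) (nat_lit 55) (nat_lit 4) (nat_lit 420) (nat_lit 315) (nat_lit 285)) (XT.lf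 (nat_lit 0) (nat_lit 5592015382) (nat_lit 228) (nat_lit 1734011104) (nat_lit 76) (nat_lit 8004602286) (nat_lit 54) (nat_lit 5) (nat_lit 57) (nat_lit 5) (nat_lit 55) (nat_lit 4) (nat_lit 421) (nat_lit 315) (nat_lit 284)))))) (XT.nd (nat_lit 546) (nat_lit 532) (nat_lit 0) (XT.nd (nat_lit 234) (nat_lit 380) (nat_lit 0) (XT.nd (nat_lit 78) (nat_lit 228) (nat_lit 0) (XT.lf (nat_lit 0) (nat_lit 8122844716) (nat_lit 76) (nat_lit 2449927050) (nat_lit 152) (nat_lit 5053698955) (nat_lit 53) (nat_lit 5) (nat_lit 54) (nat_lit 5) (nat_lit 55) (nat_lit 4) (nat_lit 422) (nat_lit 315) (nat_lit 283)) (XT.nd (nat_lit 78) (nat_lit 76) (nat_lit 0) (XT.lf (nat_lit 0) (nat_lit 2270531970) (nat_lit 152) (nat_lit 13425848654) (nat_lit 152) (nat_lit 235012506) (nat_lit 51) (nat_lit 4) (nat_lit 53) (nat_lit 5) (nat_lit 53) (nat_lit 4) (nat_lit 423) (nat_lit 315) (nat_lit 282)) (XT.lf (nat_lit 0) (nat_lit 4666073444) (nat_lit 228) (nat_lit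 3951225919) (nat_lit 76) (nat_lit 7625904845) (nat_lit 50) (nat_lit 5) (nat_lit 53) (nat_lit 5) (nat_lit 51) (nat_lit 4) (nat_lit 424) (nat_lit 315) (nat_lit 281)))) (XT.nd (nat_lit 156) (nat_lit 304) (nat_lit 0) (XT.nd (nat_lit 78) (nat_lit 0) (nat_lit 0) (XT.lf (nat_lit 0) (nat_lit 6039683893) (nat_lit 76) (nat_lit 3659225157) (nat_lit 152) (nat_lit 6865714951) (nat_lit 49) (nat_lit 5) (nat_lit 50) (nat_lit 5) (nat_lit 51) (nat_lit 4) (nat_lit 425) (nat_lit 315) (nat_lit 280)) (XT.lf (nat_lit 0) (nat_lit 14868583458) (nat_lit 152) (nat_lit 623293585) (nat_lit 0) (nat_lit 1404240925) (nat_lit 49) (nat_lit 5) (nat_lit 51) (nat_lit 4) (nat_lit 49) (nat_lit 4) (nat_lit 426) (nat_lit 315) (nat_lit 279))) (XT.nd (nat_lit 78) (nat_lit 76) (nat_lit 0) (XT.lf (nat_lit 0) (nat_lit 2960910694) (nat_lit 228) (nat_lit 7660283822) (nat_lit 76) (nat_lit 6613632707) (nat_lit 46) (nat_lit 5) (nat_lit 49) (nat_lit 5) (nat_lit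 47) (nat_lit 4) (nat_lit 427) (nat_lit 315) (nat_lit 278)) (XT.lf (nat_lit 0) (nat_lit 2412243670) (nat_lit 76) (nat_lit 5609307569) (nat_lit 152) (nat_lit 9562652057) (nat_lit 45) (nat_lit 5) (nat_lit 46) (nat_lit 5) (nat_lit 47) (nat_lit 4) (nat_lit 428) (nat_lit 315) (nat_lit 277))))) (XT.nd (nat_lit 234) (nat_lit 304) (nat_lit 0) (XT.nd (nat_lit 78) (nat_lit 228) (nat_lit 0) (XT.lf (nat_lit 0) (nat_lit 12822899618) (nat_lit 76) (nat_lit 422980111) (nat_lit 152) (nat_lit 4697831250) (nat_lit 45) (nat_lit 5) (nat_lit 46) (nat_lit 5) (nat_lit 47) (nat_lit 4) (nat_lit 429) (nat_lit 315) (nat_lit 276)) (XT.nd (nat_lit 78) (nat_lit 0) (nat_lit 0) (XT.lf (nat_lit 0) (nat_lit 339997292) (nat_lit 228) (nat_lit 13149898066) (nat_lit 76) (nat_lit 4823029228) (nat_lit 42) (nat_lit 5) (nat_lit 45) (nat_lit 5) (nat_lit 43) (nat_lit 4) (nat_lit 430) (nat_lit 315) (nat_lit 275)) (XT.lf (nat_lit 0) (nat_lit 5426953890) (nat_lit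 228) (nat_lit 3001582519) (nat_lit 76) (nat_lit 10263516194) (nat_lit 42) (nat_lit 5) (nat_lit 45) (nat_lit 5) (nat_lit 43) (nat_lit 4) (nat_lit 431) (nat_lit 315) (nat_lit 274)))) (XT.nd (nat_lit 156) (nat_lit 228) (nat_lit 0) (XT.nd (nat_lit 78) (nat_lit 0) (nat_lit 0) (XT.lf (nat_lit 0) (nat_lit 7481585571) (nat_lit 76) (nat_lit 3194720024) (nat_lit 152) (nat_lit 8405960951) (nat_lit 41) (nat_lit 5) (nat_lit 42) (nat_lit 5) (nat_lit 43) (nat_lit 4) (nat_lit 432) (nat_lit 315) (nat_lit 273)) (XT.lf (nat_lit 0) (nat_lit 16072926864) (nat_lit 152) (nat_lit 1279704596) (nat_lit 0) (nat_lit 2131867289) (nat_lit 41) (nat_lit 5) (nat_lit 43) (nat_lit 4) (nat_lit 41) (nat_lit 4) (nat_lit 433) (nat_lit 315) (nat_lit 272))) (XT.nd (nat_lit 78) (nat_lit 0) (nat_lit 0) (XT.lf (nat_lit 0) (nat_lit 1761211324) (nat_lit 228) (nat_lit 10524134617) (nat_lit 76) (nat_lit 7611086334) (nat_lit 38) (nat_lit 5) (nat_lit 41) (nat_lit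 5) (nat_lit 39) (nat_lit 4) (nat_lit 434) (nat_lit 315) (nat_lit 271)) (XT.lf (nat_lit 0) (nat_lit 6973619095) (nat_lit 228) (nat_lit 96669202) (nat_lit 76) (nat_lit 13250836908) (nat_lit 38) (nat_lit 5) (nat_lit 41) (nat_lit 5) (nat_lit 39) (nat_lit 4) (nat_lit 435) (nat_lit 315) (nat_lit 270))))))) (XT.nd (nat_lit 1092) (nat_lit 608) (nat_lit 0) (XT.nd (nat_lit 546) (nat_lit 304) (nat_lit 0) (XT.nd (nat_lit 234) (nat_lit 228) (nat_lit 0) (XT.nd (nat_lit 78) (nat_lit 228) (nat_lit 0) (XT.lf (nat_lit 0) (nat_lit 10744032365) (nat_lit 76) (nat_lit 1643353517) (nat_lit 152) (nat_lit 8369828334) (nat_lit 37) (nat_lit 5) (nat_lit 38) (nat_lit 5) (nat_lit 39) (nat_lit 4) (nat_lit 436) (nat_lit 315) (nat_lit 269)) (XT.nd (nat_lit 78) (nat_lit 76) (nat_lit 0) (XT.lf (nat_lit 0) (nat_lit 569325277) (nat_lit 152) (nat_lit 17380514807) (nat_lit 152) (nat_lit 3256962336) (nat_lit 35) (nat_lit 4) (nat_lit 37) (nat_lit 5)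 (nat_lit 37) (nat_lit 4) (nat_lit 437) (nat_lit 315) (nat_lit 268)) (XT.lf (nat_lit 0) (nat_lit 2030425164) (nat_lit 228) (nat_lit 10138369714) (nat_lit 76) (nat_lit 9498698118) (nat_lit 34) (nat_lit 5) (nat_lit 37) (nat_lit 5) (nat_lit 35) (nat_lit 4) (nat_lit 438) (nat_lit 315) (nat_lit 267)))) (XT.nd (nat_lit 156) (nat_lit 152) (nat_lit 0) (XT.nd (nat_lit 78) (nat_lit 0) (nat_lit 0) (XT.lf (nat_lit 0) (nat_lit 547837162) (nat_lit 76) (nat_lit 6812050630) (nat_lit 152) (nat_lit 14782685977) (nat_lit 33) (nat_lit 5) (nat_lit 34) (nat_lit 5) (nat_lit 35) (nat_lit 4) (nat_lit 439) (nat_lit 315) (nat_lit 266)) (XT.lf (nat_lit 0) (nat_lit 11657182305) (nat_lit 76) (nat_lit 1238708048) (nat_lit 152) (nat_lit 9734621155) (nat_lit 33) (nat_lit 5) (nat_lit 34) (nat_lit 5) (nat_lit 35) (nat_lit 4) (nat_lit 440) (nat_lit 315) (nat_lit 265))) (XT.nd (nat_lit 78) (nat_lit 152) (nat_lit 0) (XT.lf (nat_lit 0) (nat_lit 18586686282)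 (nat_lit 152) (nat_lit 179926896) (nat_lit 0) (nat_lit 4366816904) (nat_lit 33) (nat_lit 5) (nat_lit 35) (nat_lit 4) (nat_lit 33) (nat_lit 4) (nat_lit 441) (nat_lit 315) (nat_lit 264)) (XT.lf (nat_lit 0) (nat_lit 847282331) (nat_lit 152) (nat_lit 12617701634) (nat_lit 76) (nat_lit 10184244534) (nat_lit 31) (nat_lit 5) (nat_lit 33) (nat_lit 5) (nat_lit 32) (nat_lit 4) (nat_lit 442) (nat_lit 315) (nat_lit 263))))) (XT.nd (nat_lit 234) (nat_lit 228) (nat_lit 0) (XT.nd (nat_lit 78) (nat_lit 76) (nat_lit 0) (XT.lf (nat_lit 0) (nat_lit 6260672296) (nat_lit 152) (nat_lit 1742903878) (nat_lit 76) (nat_lit 16177110087) (nat_lit 31) (nat_lit 5) (nat_lit 33) (nat_lit 5) (nat_lit 32) (nat_lit 4) (nat_lit 443) (nat_lit 315) (nat_lit 262)) (XT.nd (nat_lit 78) (nat_lit 0) (nat_lit 0) (XT.lf (nat_lit 0) (nat_lit 9546923124) (nat_lit 76) (nat_lit 2329945875) (nat_lit 152) (nat_lit 12850010251) (nat_lit 30) (nat_lit 5) (nat_lit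 31) (nat_lit 5) (nat_lit 32) (nat_lit 4) (nat_lit 444) (nat_lit 315) (nat_lit 261)) (XT.lf (nat_lit 0) (nat_lit 17661865766) (nat_lit 152) (nat_lit 4209350428) (nat_lit 0) (nat_lit 3418235945) (nat_lit 30) (nat_lit 5) (nat_lit 32) (nat_lit 4) (nat_lit 30) (nat_lit 4) (nat_lit 445) (nat_lit 315) (nat_lit 260)))) (XT.nd (nat_lit 156) (nat_lit 76) (nat_lit 0) (XT.nd (nat_lit 78) (nat_lit 76) (nat_lit 0) (XT.lf (nat_lit 0) (nat_lit 7111273947) (nat_lit 76) (nat_lit 16550819837) (nat_lit 76) (nat_lit 2205561427) (nat_lit 29) (nat_lit 4) (nat_lit 30) (nat_lit 5) (nat_lit 30) (nat_lit 4) (nat_lit 446) (nat_lit 315) (nat_lit 259)) (XT.lf (nat_lit 0) (nat_lit 3306423275) (nat_lit 152) (nat_lit 7731887694) (nat_lit 76) (nat_lit 15424125040) (nat_lit 28) (nat_lit 5) (nat_lit 30) (nat_lit 5) (nat_lit 29) (nat_lit 4) (nat_lit 447) (nat_lit 315) (nat_lit 258))) (XT.nd (nat_lit 78) (nat_lit 0) (nat_lit 0) (XT.lf (nat_lit 0)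 (nat_lit 3579250368) (nat_lit 76) (nat_lit 5346351604) (nat_lit 152) (nat_lit 18149221364) (nat_lit 27) (nat_lit 5) (nat_lit 28) (nat_lit 5) (nat_lit 29) (nat_lit 4) (nat_lit 448) (nat_lit 315) (nat_lit 257)) (XT.lf (nat_lit 0) (nat_lit 14749038242) (nat_lit 152) (nat_lit 12412968671) (nat_lit 0) (nat_lit 542507956) (nat_lit 27) (nat_lit 5) (nat_lit 29) (nat_lit 4) (nat_lit 27) (nat_lit 4) (nat_lit 449) (nat_lit 315) (nat_lit 256)))))) (XT.nd (nat_lit 546) (nat_lit 304) (nat_lit 0) (XT.nd (nat_lit 234) (nat_lit 152) (nat_lit 0) (XT.nd (nat_lit 78) (nat_lit 152) (nat_lit 0) (XT.lf (nat_lit 0) (nat_lit 20753382292) (nat_lit 152) (nat_lit 1140345385) (nat_lit 0) (nat_lit 6459186293) (nat_lit 27) (nat_lit 5) (nat_lit 29) (nat_lit 4) (nat_lit 27) (nat_lit 4) (nat_lit 450) (nat_lit 315) (nat_lit 255)) (XT.nd (nat_lit 78) (nat_lit 76) (nat_lit 0) (XT.lf (nat_lit 0) (nat_lit 10590191945) (nat_lit 76) (nat_lit 16404095695)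 (nat_lit 76) (nat_lit 2024787351) (nat_lit 26) (nat_lit 4) (nat_lit 27) (nat_lit 5) (nat_lit 27) (nat_lit 4) (nat_lit 451) (nat_lit 315) (nat_lit 254)) (XT.lf (nat_lit 0) (nat_lit 3610971254) (nat_lit 152) (nat_lit 7131670041) (nat_lit 76) (nat_lit 18962521063) (nat_lit 25) (nat_lit 5) (nat_lit 27) (nat_lit 5) (nat_lit 26) (nat_lit 4) (nat_lit 452) (nat_lit 315) (nat_lit 253)))) (XT.nd (nat_lit 156) (nat_lit 76) (nat_lit 0) (XT.nd (nat_lit 78) (nat_lit 0) (nat_lit 0) (XT.lf (nat_lit 0) (nat_lit 4487543186) (nat_lit 76) (nat_lit 4886698892) (nat_lit 152) (nat_lit 21037017406) (nat_lit 24) (nat_lit 5) (nat_lit 25) (nat_lit 5) (nat_lit 26) (nat_lit 4) (nat_lit 453) (nat_lit 315) (nat_lit 252)) (XT.lf (nat_lit 0) (nat_lit 15350236864) (nat_lit 152) (nat_lit 14631104731) (nat_lit 0) (nat_lit 1156005712) (nat_lit 24) (nat_lit 5) (nat_lit 26) (nat_lit 4) (nat_lit 24) (nat_lit 4) (nat_lit 454) (nat_lit 315) (nat_lit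 251))) (XT.nd (nat_lit 78) (nat_lit 76) (nat_lit 0) (XT.lf (nat_lit 0) (nat_lit 21511264780) (nat_lit 152) (nat_lit 3130167894) (nat_lit 0) (nat_lit 7243614973) (nat_lit 24) (nat_lit 5) (nat_lit 26) (nat_lit 4) (nat_lit 24) (nat_lit 4) (nat_lit 455) (nat_lit 315) (nat_lit 250)) (XT.lf (nat_lit 0) (nat_lit 8807993185) (nat_lit 76) (nat_lit 19092409944) (nat_lit 76) (nat_lit 4753479889) (nat_lit 23) (nat_lit 4) (nat_lit 24) (nat_lit 5) (nat_lit 24) (nat_lit 4) (nat_lit 456) (nat_lit 315) (nat_lit 249))))) (XT.nd (nat_lit 312) (nat_lit 152) (nat_lit 0) (XT.nd (nat_lit 156) (nat_lit 76) (nat_lit 0) (XT.nd (nat_lit 78) (nat_lit 0) (nat_lit 0) (XT.lf (nat_lit 0) (nat_lit 1005799869) (nat_lit 152) (nat_lit 12366360444) (nat_lit 76) (nat_lit 20073609631) (nat_lit 22) (nat_lit 5) (nat_lit 24) (nat_lit 5) (nat_lit 23) (nat_lit 4) (nat_lit 457) (nat_lit 315) (nat_lit 248)) (XT.lf (nat_lit 0) (nat_lit 6802173304) (nat_lit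 152) (nat_lit 666910841) (nat_lit 76) (nat_lit 26792123946) (nat_lit 22) (nat_lit 5) (nat_lit 24) (nat_lit 5) (nat_lit 23) (nat_lit 4) (nat_lit 458) (nat_lit 315) (nat_lit 247))) (XT.nd (nat_lit 78) (nat_lit 0) (nat_lit 0) (XT.lf (nat_lit 0) (nat_lit 11533433990) (nat_lit 76) (nat_lit 1310895154) (nat_lit 152) (nat_lit 22254625644) (nat_lit 21) (nat_lit 5) (nat_lit 22) (nat_lit 5) (nat_lit 23) (nat_lit 4) (nat_lit 459) (nat_lit 315) (nat_lit 246)) (XT.lf (nat_lit 0) (nat_lit 19084021914) (nat_lit 152) (nat_lit 11971833824) (nat_lit 0) (nat_lit 4905492058) (nat_lit 21) (nat_lit 5) (nat_lit 23) (nat_lit 4) (nat_lit 21) (nat_lit 4) (nat_lit 460) (nat_lit 315) (nat_lit 245)))) (XT.nd (nat_lit 156) (nat_lit 76) (nat_lit 0) (XT.nd (nat_lit 78) (nat_lit 76) (nat_lit 0) (XT.lf (nat_lit 0) (nat_lit 25486117676) (nat_lit 152) (nat_lit 116348835) (nat_lit 0) (nat_lit 11247891735) (nat_lit 21) (nat_lit 5) (nat_lit 23) (nat_lit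 4) (nat_lit 21) (nat_lit 4) (nat_lit 461) (nat_lit 315) (nat_lit 244)) (XT.lf (nat_lit 0) (nat_lit 12263193531) (nat_lit 76) (nat_lit 19898297156) (nat_lit 76) (nat_lit 5602113850) (nat_lit 20) (nat_lit 4) (nat_lit 21) (nat_lit 5) (nat_lit 21) (nat_lit 4) (nat_lit 462) (nat_lit 315) (nat_lit 243))) (XT.nd (nat_lit 78) (nat_lit 0) (nat_lit 0) (XT.lf (nat_lit 0) (nat_lit 290932679) (nat_lit 152) (nat_lit 13761859253) (nat_lit 76) (nat_lit 24652425588) (nat_lit 19) (nat_lit 5) (nat_lit 21) (nat_lit 5) (nat_lit 20) (nat_lit 4) (nat_lit 463) (nat_lit 315) (nat_lit 242)) (XT.lf (nat_lit 0) (nat_lit 6212605802) (nat_lit 152) (nat_lit 1795493187) (nat_lit 76) (nat_lit 31666384737) (nat_lit 19) (nat_lit 5) (nat_lit 21) (nat_lit 5) (nat_lit 20) (nat_lit 4) (nat_lit 464) (nat_lit 315) (nat_lit 241))))))))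
noncomputable def xc47 : XT := (XT.nd (nat_lit 47268) (nat_lit 0) (nat_lit 3800) (XT.nd (nat_lit 1092) (nat_lit 380) (nat_lit 0) (XT.nd (nat_lit 546) (nat_lit 152) (nat_lit 0) (XT.nd (nat_lit 234) (nat_lit 152) (nat_lit 0) (XT.nd (nat_lit 78) (nat_lit 0) (nat_lit 0) (XT.lf (nat_lit 0) (nat_lit 10671228281) (nat_lit 76) (nat_lit 1708747308) (nat_lit 152) (nat_lit 28290812676) (nat_lit 18) (nat_lit 5) (nat_lit 19) (nat_lit 5) (nat_lit 20) (nat_lit 4) (nat_lit 465) (nat_lit 315) (nat_lit 240)) (XT.nd (nat_lit 78) (nat_lit 0) (nat_lit 0) (XT.lf (nat_lit 0) (nat_lit 18762150531) (nat_lit 152) (nat_lit 18260737138) (nat_lit 0) (nat_lit 4673202440) (nat_lit 18) (nat_lit 5) (nat_lit 20) (nat_lit 4) (nat_lit 18) (nat_lit 4) (nat_lit 466) (nat_lit 315) (nat_lit 239)) (XT.lf (nat_lit 0) (nat_lit 25319242302) (nat_lit 152) (nat_lit 6251650966) (nat_lit 0) (nat_lit 11181755831) (nat_lit 18) (nat_lit 5) (nat_lit 20) (nat_lit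 4) (nat_lit 18) (nat_lit 4) (nat_lit 467) (nat_lit 315) (nat_lit 238)))) (XT.nd (nat_lit 156) (nat_lit 76) (nat_lit 0) (XT.nd (nat_lit 78) (nat_lit 0) (nat_lit 0) (XT.lf (nat_lit 0) (nat_lit 6175116189) (nat_lit 76) (nat_lit 25924797683) (nat_lit 76) (nat_lit 11740186571) (nat_lit 17) (nat_lit 4) (nat_lit 18) (nat_lit 5) (nat_lit 18) (nat_lit 4) (nat_lit 468) (nat_lit 315) (nat_lit 237)) (XT.lf (nat_lit 0) (nat_lit 19040367250) (nat_lit 76) (nat_lit 20074621657) (nat_lit 76) (nat_lit 5844258466) (nat_lit 17) (nat_lit 4) (nat_lit 18) (nat_lit 5) (nat_lit 18) (nat_lit 4) (nat_lit 469) (nat_lit 315) (nat_lit 236))) (XT.nd (nat_lit 78) (nat_lit 0) (nat_lit 0) (XT.lf (nat_lit 0) (nat_lit 192567412) (nat_lit 152) (nat_lit 13883870838) (nat_lit 76) (nat_lit 32036411618) (nat_lit 16) (nat_lit 5) (nat_lit 18) (nat_lit 5) (nat_lit 17) (nat_lit 4) (nat_lit 470) (nat_lit 315) (nat_lit 235)) (XT.lf (nat_lit 0) (nat_lit 6262432039)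 (nat_lit 152) (nat_lit 1605171367) (nat_lit 76) (nat_lit 39432640596) (nat_lit 16) (nat_lit 5) (nat_lit 18) (nat_lit 5) (nat_lit 17) (nat_lit 4) (nat_lit 471) (nat_lit 315) (nat_lit 234))))) (XT.nd (nat_lit 234) (nat_lit 76) (nat_lit 0) (XT.nd (nat_lit 78) (nat_lit 0) (nat_lit 0) (XT.lf (nat_lit 0) (nat_lit 11202731479) (nat_lit 76) (nat_lit 1389637742) (nat_lit 152) (nat_lit 35928552814) (nat_lit 15) (nat_lit 5) (nat_lit 16) (nat_lit 5) (nat_lit 17) (nat_lit 4) (nat_lit 472) (nat_lit 315) (nat_lit 233)) (XT.nd (nat_lit 78) (nat_lit 0) (nat_lit 0) (XT.lf (nat_lit 0) (nat_lit 19149691731) (nat_lit 152) (nat_lit 25458711889) (nat_lit 0) (nat_lit 5168693507) (nat_lit 15) (nat_lit 5) (nat_lit 17) (nat_lit 4) (nat_lit 15) (nat_lit 4) (nat_lit 473) (nat_lit 315) (nat_lit 232)) (XT.lf (nat_lit 0) (nat_lit 25888694079) (nat_lit 152) (nat_lit 13313336672) (nat_lit 0) (nat_lit 11869379210) (nat_lit 15) (nat_lit 5) (nat_lit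 17) (nat_lit 4) (nat_lit 15) (nat_lit 4) (nat_lit 474) (nat_lit 315) (nat_lit 231)))) (XT.nd (nat_lit 156) (nat_lit 0) (nat_lit 0) (XT.nd (nat_lit 78) (nat_lit 76) (nat_lit 0) (XT.lf (nat_lit 0) (nat_lit 32801906668) (nat_lit 152) (nat_lit 858094393) (nat_lit 0) (nat_lit 18745391172) (nat_lit 15) (nat_lit 5) (nat_lit 17) (nat_lit 4) (nat_lit 15) (nat_lit 4) (nat_lit 475) (nat_lit 315) (nat_lit 230)) (XT.lf (nat_lit 0) (nat_lit 12155087709) (nat_lit 76) (nat_lit 27857124597) (nat_lit 76) (nat_lit 13764491987) (nat_lit 14) (nat_lit 4) (nat_lit 15) (nat_lit 5) (nat_lit 15) (nat_lit 4) (nat_lit 476) (nat_lit 315) (nat_lit 229))) (XT.nd (nat_lit 78) (nat_lit 0) (nat_lit 0) (XT.lf (nat_lit 0) (nat_lit 25523867080) (nat_lit 76) (nat_lit 21896766695) (nat_lit 76) (nat_lit 7769068926) (nat_lit 14) (nat_lit 4) (nat_lit 15) (nat_lit 5) (nat_lit 15) (nat_lit 4) (nat_lit 477) (nat_lit 315) (nat_lit 228)) (XT.lf (nat_lit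 0) (nat_lit 39242847416) (nat_lit 76) (nat_lit 15782384346) (nat_lit 76) (nat_lit 1620642734) (nat_lit 14) (nat_lit 4) (nat_lit 15) (nat_lit 5) (nat_lit 15) (nat_lit 4) (nat_lit 478) (nat_lit 315) (nat_lit 227)))))) (XT.nd (nat_lit 546) (nat_lit 152) (nat_lit 0) (XT.nd (nat_lit 234) (nat_lit 76) (nat_lit 0) (XT.nd (nat_lit 78) (nat_lit 76) (nat_lit 0) (XT.lf (nat_lit 0) (nat_lit 4594715159) (nat_lit 152) (nat_lit 4867522114) (nat_lit 76) (nat_lit 48682903401) (nat_lit 13) (nat_lit 5) (nat_lit 15) (nat_lit 5) (nat_lit 14) (nat_lit 4) (nat_lit 479) (nat_lit 315) (nat_lit 226)) (XT.nd (nat_lit 78) (nat_lit 0) (nat_lit 0) (XT.lf (nat_lit 0) (nat_lit 8138373209) (nat_lit 76) (nat_lit 2878994615) (nat_lit 152) (nat_lit 48669934466) (nat_lit 12) (nat_lit 5) (nat_lit 13) (nat_lit 5) (nat_lit 14) (nat_lit 4) (nat_lit 480) (nat_lit 315) (nat_lit 225)) (XT.lf (nat_lit 0) (nat_lit 17695058472) (nat_lit 152) (nat_lit 39726497823)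 (nat_lit 0) (nat_lit 3852302730) (nat_lit 12) (nat_lit 5) (nat_lit 14) (nat_lit 4) (nat_lit 12) (nat_lit 4) (nat_lit 481) (nat_lit 315) (nat_lit 224)))) (XT.nd (nat_lit 156) (nat_lit 76) (nat_lit 0) (XT.nd (nat_lit 78) (nat_lit 0) (nat_lit 0) (XT.lf (nat_lit 0) (nat_lit 24577520028) (nat_lit 152) (nat_lit 27624962453) (nat_lit 0) (nat_lit 10705397768) (nat_lit 12) (nat_lit 5) (nat_lit 14) (nat_lit 4) (nat_lit 12) (nat_lit 4) (nat_lit 482) (nat_lit 315) (nat_lit 223)) (XT.lf (nat_lit 0) (nat_lit 31643091638) (nat_lit 152) (nat_lit 15206074154) (nat_lit 0) (nat_lit 17742458195) (nat_lit 12) (nat_lit 5) (nat_lit 14) (nat_lit 4) (nat_lit 12) (nat_lit 4) (nat_lit 483) (nat_lit 315) (nat_lit 222))) (XT.nd (nat_lit 78) (nat_lit 76) (nat_lit 0) (XT.lf (nat_lit 0) (nat_lit 38897947102) (nat_lit 152) (nat_lit 2458981471) (nat_lit 0) (nat_lit 24969632898) (nat_lit 12) (nat_lit 5) (nat_lit 14) (nat_lit 4) (nat_lit 12) (nat_lit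 4) (nat_lit 484) (nat_lit 315) (nat_lit 221)) (XT.lf (nat_lit 0) (nat_lit 10838961000) (nat_lit 76) (nat_lit 35613655337) (nat_lit 76) (nat_lit 21658466609) (nat_lit 11) (nat_lit 4) (nat_lit 12) (nat_lit 5) (nat_lit 12) (nat_lit 4) (nat_lit 485) (nat_lit 315) (nat_lit 220))))) (XT.nd (nat_lit 312) (nat_lit 76) (nat_lit 0) (XT.nd (nat_lit 156) (nat_lit 76) (nat_lit 0) (XT.nd (nat_lit 78) (nat_lit 0) (nat_lit 0) (XT.lf (nat_lit 0) (nat_lit 24543600552) (nat_lit 76) (nat_lit 29693364850) (nat_lit 76) (nat_lit 15712084351) (nat_lit 11) (nat_lit 4) (nat_lit 12) (nat_lit 5) (nat_lit 12) (nat_lit 4) (nat_lit 486) (nat_lit 315) (nat_lit 219)) (XT.lf (nat_lit 0) (nat_lit 38617973559) (nat_lit 76) (nat_lit 23615714936) (nat_lit 76) (nat_lit 9609102620) (nat_lit 11) (nat_lit 4) (nat_lit 12) (nat_lit 5) (nat_lit 12) (nat_lit 4) (nat_lit 487) (nat_lit 315) (nat_lit 218))) (XT.nd (nat_lit 78) (nat_lit 76) (nat_lit 0) (XT.lf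 (nat_lit 0) (nat_lit 53074378015) (nat_lit 76) (nat_lit 17375395026) (nat_lit 76) (nat_lit 3344188713) (nat_lit 11) (nat_lit 4) (nat_lit 12) (nat_lit 5) (nat_lit 12) (nat_lit 4) (nat_lit 488) (nat_lit 315) (nat_lit 217)) (XT.lf (nat_lit 0) (nat_lit 3027870995) (nat_lit 152) (nat_lit 7908505859) (nat_lit 76) (nat_lit 64866999177) (nat_lit 10) (nat_lit 5) (nat_lit 12) (nat_lit 5) (nat_lit 11) (nat_lit 4) (nat_lit 489) (nat_lit 315) (nat_lit 216)))) (XT.nd (nat_lit 45162) (nat_lit 0) (nat_lit 9120) (XT.nd (nat_lit 78) (nat_lit 0) (nat_lit 0) (XT.lf (nat_lit 0) (nat_lit 5319310458) (nat_lit 76) (nat_lit 4236146014) (nat_lit 152) (nat_lit 68315676336) (nat_lit 9) (nat_lit 5) (nat_lit 10) (nat_lit 5) (nat_lit 11) (nat_lit 4) (nat_lit 490) (nat_lit 315) (nat_lit 215)) (XT.lf (nat_lit 0) (nat_lit 16365612245) (nat_lit 152) (nat_lit 60957167293) (nat_lit 0) (nat_lit 2675541205) (nat_lit 9) (nat_lit 5) (nat_lit 11) (nat_lit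 4) (nat_lit 9) (nat_lit 4) (nat_lit 491) (nat_lit 315) (nat_lit 214))) (XT.nd (nat_lit 78) (nat_lit 380) (nat_lit 0) (XT.lf (nat_lit 0) (nat_lit 1305826853) (nat_lit 380) (nat_lit 1607546957) (nat_lit 380) (nat_lit 1607546957) (nat_lit 134) (nat_lit 4) (nat_lit 139) (nat_lit 5) (nat_lit 139) (nat_lit 4) (nat_lit 388) (nat_lit 316) (nat_lit 316)) (XT.lf (nat_lit 0) (nat_lit 952606989) (nat_lit 380) (nat_lit 8158999618) (nat_lit 0) (nat_lit 46935852) (nat_lit 129) (nat_lit 5) (nat_lit 134) (nat_lit 4) (nat_lit 129) (nat_lit 4) (nat_lit 389) (nat_lit 316) (nat_lit 315))))))) (XT.nd (nat_lit 1092) (nat_lit 2052) (nat_lit 0) (XT.nd (nat_lit 546) (nat_lit 1596) (nat_lit 0) (XT.nd (nat_lit 234) (nat_lit 988) (nat_lit 0) (XT.nd (nat_lit 78) (nat_lit 684) (nat_lit 0) (XT.lf (nat_lit 0) (nat_lit 5177075127) (nat_lit 380) (nat_lit 708741707) (nat_lit 0) (nat_lit 3392111624) (nat_lit 129) (nat_lit 5) (nat_lit 134) (nat_lit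 4) (nat_lit 129) (nat_lit 4) (nat_lit 390) (nat_lit 316) (nat_lit 314)) (XT.nd (nat_lit 78) (nat_lit 304) (nat_lit 0) (XT.lf (nat_lit 0) (nat_lit 93291019) (nat_lit 380) (nat_lit 2449264641) (nat_lit 76) (nat_lit 6859279793) (nat_lit 124) (nat_lit 5) (nat_lit 129) (nat_lit 5) (nat_lit 125) (nat_lit 4) (nat_lit 391) (nat_lit 316) (nat_lit 313)) (XT.lf (nat_lit 0) (nat_lit 4299978397) (nat_lit 380) (nat_lit 4295706467) (nat_lit 0) (nat_lit 933509661) (nat_lit 120) (nat_lit 5) (nat_lit 125) (nat_lit 4) (nat_lit 120) (nat_lit 4) (nat_lit 392) (nat_lit 316) (nat_lit 312)))) (XT.nd (nat_lit 156) (nat_lit 380) (nat_lit 0) (XT.nd (nat_lit 78) (nat_lit 304) (nat_lit 0) (XT.lf (nat_lit 0) (nat_lit 3430104434) (nat_lit 304) (nat_lit 5189205819) (nat_lit 304) (nat_lit 1041497205) (nat_lit 116) (nat_lit 4) (nat_lit 120) (nat_lit 5) (nat_lit 120) (nat_lit 4) (nat_lit 393) (nat_lit 316) (nat_lit 311)) (XT.lf (nat_lit 0) (nat_lit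 1529453078) (nat_lit 228) (nat_lit 1640816385) (nat_lit 304) (nat_lit 6626312820) (nat_lit 112) (nat_lit 5) (nat_lit 115) (nat_lit 5) (nat_lit 116) (nat_lit 4) (nat_lit 394) (nat_lit 316) (nat_lit 310))) (XT.nd (nat_lit 78) (nat_lit 380) (nat_lit 0) (XT.lf (nat_lit 0) (nat_lit 7474984137) (nat_lit 304) (nat_lit 464791284) (nat_lit 0) (nat_lit 1996743897) (nat_lit 112) (nat_lit 5) (nat_lit 116) (nat_lit 4) (nat_lit 112) (nat_lit 4) (nat_lit 395) (nat_lit 316) (nat_lit 309)) (XT.lf (nat_lit 0) (nat_lit 1788746001) (nat_lit 380) (nat_lit 2541207370) (nat_lit 76) (nat_lit 5750309621) (nat_lit 107) (nat_lit 5) (nat_lit 112) (nat_lit 5) (nat_lit 108) (nat_lit 4) (nat_lit 396) (nat_lit 316) (nat_lit 308))))) (XT.nd (nat_lit 234) (nat_lit 836) (nat_lit 0) (XT.nd (nat_lit 78) (nat_lit 532) (nat_lit 0) (XT.lf (nat_lit 0) (nat_lit 5501148755) (nat_lit 228) (nat_lit 581321633) (nat_lit 304) (nat_lit 4146177276) (nat_lit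 104) (nat_lit 5) (nat_lit 107) (nat_lit 5) (nat_lit 108) (nat_lit 4) (nat_lit 397) (nat_lit 316) (nat_lit 307)) (XT.nd (nat_lit 78) (nat_lit 228) (nat_lit 0) (XT.lf (nat_lit 0) (nat_lit 119213210) (nat_lit 304) (nat_lit 7040077021) (nat_lit 76) (nat_lit 3222235840) (nat_lit 100) (nat_lit 5) (nat_lit 104) (nat_lit 5) (nat_lit 101) (nat_lit 4) (nat_lit 398) (nat_lit 316) (nat_lit 306)) (XT.lf (nat_lit 0) (nat_lit 1037441311) (nat_lit 228) (nat_lit 3364646926) (nat_lit 304) (nat_lit 6136505585) (nat_lit 97) (nat_lit 5) (nat_lit 100) (nat_lit 5) (nat_lit 101) (nat_lit 4) (nat_lit 399) (nat_lit 316) (nat_lit 305)))) (XT.nd (nat_lit 156) (nat_lit 532) (nat_lit 0) (XT.nd (nat_lit 78) (nat_lit 304) (nat_lit 0) (XT.lf (nat_lit 0) (nat_lit 8800101169) (nat_lit 304) (nat_lit 1350642947) (nat_lit 0) (nat_lit 550049589) (nat_lit 97) (nat_lit 5) (nat_lit 101) (nat_lit 4) (nat_lit 97) (nat_lit 4) (nat_lit 400) (nat_lit 316)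 (nat_lit 304)) (XT.lf (nat_lit 0) (nat_lit 2427158843) (nat_lit 304) (nat_lit 3887303437) (nat_lit 76) (nat_lit 4552315473) (nat_lit 93) (nat_lit 5) (nat_lit 97) (nat_lit 5) (nat_lit 94) (nat_lit 4) (nat_lit 401) (nat_lit 316) (nat_lit 303))) (XT.nd (nat_lit 78) (nat_lit 304) (nat_lit 0) (XT.lf (nat_lit 0) (nat_lit 4474095527) (nat_lit 228) (nat_lit 2341903167) (nat_lit 304) (nat_lit 4222115398) (nat_lit 90) (nat_lit 5) (nat_lit 93) (nat_lit 5) (nat_lit 94) (nat_lit 4) (nat_lit 402) (nat_lit 316) (nat_lit 302)) (XT.lf (nat_lit 0) (nat_lit 106614782) (nat_lit 304) (nat_lit 9389754675) (nat_lit 76) (nat_lit 1718590439) (nat_lit 86) (nat_lit 5) (nat_lit 90) (nat_lit 5) (nat_lit 87) (nat_lit 4) (nat_lit 403) (nat_lit 316) (nat_lit 301)))))) (XT.nd (nat_lit 546) (nat_lit 988) (nat_lit 0) (XT.nd (nat_lit 234) (nat_lit 608) (nat_lit 0) (XT.nd (nat_lit 78) (nat_lit 456) (nat_lit 0) (XT.lf (nat_lit 0) (nat_lit 4483964796)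 (nat_lit 304) (nat_lit 1005182297) (nat_lit 76) (nat_lit 5906617794) (nat_lit 86) (nat_lit 5) (nat_lit 90) (nat_lit 5) (nat_lit 87) (nat_lit 4) (nat_lit 404) (nat_lit 316) (nat_lit 300)) (XT.nd (nat_lit 78) (nat_lit 304) (nat_lit 0) (XT.lf (nat_lit 0) (nat_lit 7639145122) (nat_lit 152) (nat_lit 1342933114) (nat_lit 228) (nat_lit 2600248479) (nat_lit 84) (nat_lit 5) (nat_lit 86) (nat_lit 5) (nat_lit 87) (nat_lit 4) (nat_lit 405) (nat_lit 316) (nat_lit 299)) (XT.lf (nat_lit 0) (nat_lit 1804974966) (nat_lit 304) (nat_lit 7080693704) (nat_lit 76) (nat_lit 2888293694) (nat_lit 80) (nat_lit 5) (nat_lit 84) (nat_lit 5) (nat_lit 81) (nat_lit 4) (nat_lit 406) (nat_lit 316) (nat_lit 298)))) (XT.nd (nat_lit 156) (nat_lit 456) (nat_lit 0) (XT.nd (nat_lit 78) (nat_lit 0) (nat_lit 0) (XT.lf (nat_lit 0) (nat_lit 1548563677) (nat_lit 152) (nat_lit 4726749992) (nat_lit 228) (nat_lit 5695719052) (nat_lit 78) (nat_lit 5) (nat_lit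 80) (nat_lit 5) (nat_lit 81) (nat_lit 4) (nat_lit 407) (nat_lit 316) (nat_lit 297)) (XT.lf (nat_lit 0) (nat_lit 10441525391) (nat_lit 152) (nat_lit 427638176) (nat_lit 228) (nat_lit 1305183785) (nat_lit 78) (nat_lit 5) (nat_lit 80) (nat_lit 5) (nat_lit 81) (nat_lit 4) (nat_lit 408) (nat_lit 316) (nat_lit 296))) (XT.nd (nat_lit 78) (nat_lit 152) (nat_lit 0) (XT.lf (nat_lit 0) (nat_lit 3181778703) (nat_lit 304) (nat_lit 5233058728) (nat_lit 76) (nat_lit 3967185004) (nat_lit 74) (nat_lit 5) (nat_lit 78) (nat_lit 5) (nat_lit 75) (nat_lit 4) (nat_lit 409) (nat_lit 316) (nat_lit 295)) (XT.lf (nat_lit 0) (nat_lit 3652925954) (nat_lit 152) (nat_lit 4101184021) (nat_lit 228) (nat_lit 4842133324) (nat_lit 72) (nat_lit 5) (nat_lit 74) (nat_lit 5) (nat_lit 75) (nat_lit 4) (nat_lit 410) (nat_lit 316) (nat_lit 294))))) (XT.nd (nat_lit 312) (nat_lit 380) (nat_lit 0) (XT.nd (nat_lit 156) (nat_lit 380) (nat_lit 0) (XT.nd (nat_lit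 78) (nat_lit 228) (nat_lit 0) (XT.lf (nat_lit 0) (nat_lit 12440694346) (nat_lit 228) (nat_lit 45168765) (nat_lit 0) (nat_lit 331727793) (nat_lit 72) (nat_lit 5) (nat_lit 75) (nat_lit 4) (nat_lit 72) (nat_lit 4) (nat_lit 411) (nat_lit 316) (nat_lit 293)) (XT.lf (nat_lit 0) (nat_lit 4191443419) (nat_lit 228) (nat_lit 3962593224) (nat_lit 76) (nat_lit 4888790413) (nat_lit 69) (nat_lit 5) (nat_lit 72) (nat_lit 5) (nat_lit 70) (nat_lit 4) (nat_lit 412) (nat_lit 316) (nat_lit 292))) (XT.nd (nat_lit 78) (nat_lit 228) (nat_lit 0) (XT.lf (nat_lit 0) (nat_lit 5167623592) (nat_lit 152) (nat_lit 3694717590) (nat_lit 228) (nat_lit 4413186216) (nat_lit 67) (nat_lit 5) (nat_lit 69) (nat_lit 5) (nat_lit 70) (nat_lit 4) (nat_lit 413) (nat_lit 316) (nat_lit 291)) (XT.lf (nat_lit 0) (nat_lit 137033430) (nat_lit 228) (nat_lit 12502784076) (nat_lit 76) (nat_lit 875897638) (nat_lit 64) (nat_lit 5) (nat_lit 67) (nat_lit 5) (nat_lit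 65) (nat_lit 4) (nat_lit 414) (nat_lit 316) (nat_lit 290)))) (XT.nd (nat_lit 156) (nat_lit 228) (nat_lit 0) (XT.nd (nat_lit 78) (nat_lit 152) (nat_lit 0) (XT.lf (nat_lit 0) (nat_lit 4777861845) (nat_lit 228) (nat_lit 3403762880) (nat_lit 76) (nat_lit 5578899427) (nat_lit 64) (nat_lit 5) (nat_lit 67) (nat_lit 5) (nat_lit 65) (nat_lit 4) (nat_lit 415) (nat_lit 316) (nat_lit 289)) (XT.lf (nat_lit 0) (nat_lit 5952719269) (nat_lit 152) (nat_lit 3588181028) (nat_lit 228) (nat_lit 4472297831) (nat_lit 62) (nat_lit 5) (nat_lit 64) (nat_lit 5) (nat_lit 65) (nat_lit 4) (nat_lit 416) (nat_lit 316) (nat_lit 288))) (XT.nd (nat_lit 78) (nat_lit 0) (nat_lit 0) (XT.lf (nat_lit 0) (nat_lit 153845314) (nat_lit 228) (nat_lit 13006813150) (nat_lit 76) (nat_lit 1113237998) (nat_lit 59) (nat_lit 5) (nat_lit 62) (nat_lit 5) (nat_lit 60) (nat_lit 4) (nat_lit 417) (nat_lit 316) (nat_lit 287)) (XT.lf (nat_lit 0) (nat_lit 4872898863)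 (nat_lit 228) (nat_lit 3713103317) (nat_lit 76) (nat_lit 5953774097) (nat_lit 59) (nat_lit 5) (nat_lit 62) (nat_lit 5) (nat_lit 60) (nat_lit 4) (nat_lit 418) (nat_lit 316) (nat_lit 286))))))))
noncomputable def xc48 : XT := (XT.nd (nat_lit 2184) (nat_lit 1064) (nat_lit 0) (XT.nd (nat_lit 1092) (nat_lit 912) (nat_lit 0) (XT.nd (nat_lit 546) (nat_lit 608) (nat_lit 0) (XT.nd (nat_lit 234) (nat_lit 380) (nat_lit 0) (XT.nd (nat_lit 78) (nat_lit 228) (nat_lit 0) (XT.lf (nat_lit 0) (nat_lit 5845106923) (nat_lit 152) (nat_lit 3873038207) (nat_lit 228) (nat_lit 5095957835) (nat_lit 57) (nat_lit 5) (nat_lit 59) (nat_lit 5) (nat_lit 60) (nat_lit 4) (nat_lit 419) (nat_lit 316) (nat_lit 285)) (XT.nd (nat_lit 78) (nat_lit 76) (nat_lit 0) (XT.lf (nat_lit 0) (nat_lit 542731098) (nat_lit 152) (nat_lit 14147288749) (nat_lit 152) (nat_lit 407210319) (nat_lit 55) (nat_lit 4) (nat_lit 57) (nat_lit 5) (nat_lit 57) (nat_lit 4) (nat_lit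 420) (nat_lit 316) (nat_lit 284)) (XT.lf (nat_lit 0) (nat_lit 4394618887) (nat_lit 228) (nat_lit 5073081727) (nat_lit 76) (nat_lit 5918122272) (nat_lit 54) (nat_lit 5) (nat_lit 57) (nat_lit 5) (nat_lit 55) (nat_lit 4) (nat_lit 421) (nat_lit 316) (nat_lit 283)))) (XT.nd (nat_lit 156) (nat_lit 304) (nat_lit 0) (XT.nd (nat_lit 78) (nat_lit 0) (nat_lit 0) (XT.lf (nat_lit 0) (nat_lit 4654464163) (nat_lit 76) (nat_lit 4653566129) (nat_lit 152) (nat_lit 6375658880) (nat_lit 53) (nat_lit 5) (nat_lit 54) (nat_lit 5) (nat_lit 55) (nat_lit 4) (nat_lit 422) (nat_lit 316) (nat_lit 282)) (XT.lf (nat_lit 0) (nat_lit 14354766100) (nat_lit 152) (nat_lit 1339963970) (nat_lit 0) (nat_lit 296191575) (nat_lit 53) (nat_lit 5) (nat_lit 55) (nat_lit 4) (nat_lit 53) (nat_lit 4) (nat_lit 423) (nat_lit 316) (nat_lit 281))) (XT.nd (nat_lit 78) (nat_lit 76) (nat_lit 0) (XT.lf (nat_lit 0) (nat_lit 3245203531) (nat_lit 228) (nat_lit 7696557825)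 (nat_lit 76) (nat_lit 5362791121) (nat_lit 50) (nat_lit 5) (nat_lit 53) (nat_lit 5) (nat_lit 51) (nat_lit 4) (nat_lit 424) (nat_lit 316) (nat_lit 280)) (XT.lf (nat_lit 0) (nat_lit 2158574709) (nat_lit 76) (nat_lit 6049340084) (nat_lit 152) (nat_lit 8420164750) (nat_lit 49) (nat_lit 5) (nat_lit 50) (nat_lit 5) (nat_lit 51) (nat_lit 4) (nat_lit 425) (nat_lit 316) (nat_lit 279))))) (XT.nd (nat_lit 234) (nat_lit 380) (nat_lit 0) (XT.nd (nat_lit 78) (nat_lit 228) (nat_lit 0) (XT.lf (nat_lit 0) (nat_lit 12346441075) (nat_lit 76) (nat_lit 984948627) (nat_lit 152) (nat_lit 3629573233) (nat_lit 49) (nat_lit 5) (nat_lit 50) (nat_lit 5) (nat_lit 51) (nat_lit 4) (nat_lit 426) (nat_lit 316) (nat_lit 278)) (XT.nd (nat_lit 78) (nat_lit 0) (nat_lit 0) (XT.lf (nat_lit 0) (nat_lit 1308512564) (nat_lit 228) (nat_lit 11831942814) (nat_lit 76) (nat_lit 4162130676) (nat_lit 46) (nat_lit 5) (nat_lit 49) (nat_lit 5) (nat_lit 47) (nat_lit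 4) (nat_lit 427) (nat_lit 316) (nat_lit 277)) (XT.lf (nat_lit 0) (nat_lit 6314279796) (nat_lit 228) (nat_lit 1864966220) (nat_lit 76) (nat_lit 9474365457) (nat_lit 46) (nat_lit 5) (nat_lit 49) (nat_lit 5) (nat_lit 47) (nat_lit 4) (nat_lit 428) (nat_lit 316) (nat_lit 276)))) (XT.nd (nat_lit 156) (nat_lit 152) (nat_lit 0) (XT.nd (nat_lit 78) (nat_lit 152) (nat_lit 0) (XT.lf (nat_lit 0) (nat_lit 8450667233) (nat_lit 76) (nat_lit 3038337966) (nat_lit 152) (nat_lit 6525605108) (nat_lit 45) (nat_lit 5) (nat_lit 46) (nat_lit 5) (nat_lit 47) (nat_lit 4) (nat_lit 429) (nat_lit 316) (nat_lit 275)) (XT.lf (nat_lit 0) (nat_lit 602523215) (nat_lit 152) (nat_lit 16200723949) (nat_lit 152) (nat_lit 1583669717) (nat_lit 43) (nat_lit 4) (nat_lit 45) (nat_lit 5) (nat_lit 45) (nat_lit 4) (nat_lit 430) (nat_lit 316) (nat_lit 274))) (XT.nd (nat_lit 78) (nat_lit 76) (nat_lit 0) (XT.lf (nat_lit 0) (nat_lit 3503583494) (nat_lit 228)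 (nat_lit 7677795609) (nat_lit 76) (nat_lit 7586043484) (nat_lit 42) (nat_lit 5) (nat_lit 45) (nat_lit 5) (nat_lit 43) (nat_lit 4) (nat_lit 431) (nat_lit 316) (nat_lit 273)) (XT.lf (nat_lit 0) (nat_lit 2655924223) (nat_lit 76) (nat_lit 6020908732) (nat_lit 152) (nat_lit 10483089358) (nat_lit 41) (nat_lit 5) (nat_lit 42) (nat_lit 5) (nat_lit 43) (nat_lit 4) (nat_lit 432) (nat_lit 316) (nat_lit 272)))))) (XT.nd (nat_lit 546) (nat_lit 380) (nat_lit 0) (XT.nd (nat_lit 234) (nat_lit 304) (nat_lit 0) (XT.nd (nat_lit 78) (nat_lit 228) (nat_lit 0) (XT.lf (nat_lit 0) (nat_lit 13345920243) (nat_lit 76) (nat_lit 677257575) (nat_lit 152) (nat_lit 5540487626) (nat_lit 41) (nat_lit 5) (nat_lit 42) (nat_lit 5) (nat_lit 43) (nat_lit 4) (nat_lit 433) (nat_lit 316) (nat_lit 271)) (XT.nd (nat_lit 78) (nat_lit 76) (nat_lit 0) (XT.lf (nat_lit 0) (nat_lit 4305567537) (nat_lit 152) (nat_lit 15253754039) (nat_lit 152) (nat_lit 419322233)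 (nat_lit 39) (nat_lit 4) (nat_lit 41) (nat_lit 5) (nat_lit 41) (nat_lit 4) (nat_lit 434) (nat_lit 316) (nat_lit 270)) (XT.lf (nat_lit 0) (nat_lit 4772553035) (nat_lit 228) (nat_lit 5295394154) (nat_lit 76) (nat_lit 10336374335) (nat_lit 38) (nat_lit 5) (nat_lit 41) (nat_lit 5) (nat_lit 39) (nat_lit 4) (nat_lit 435) (nat_lit 316) (nat_lit 269)))) (XT.nd (nat_lit 156) (nat_lit 228) (nat_lit 0) (XT.nd (nat_lit 78) (nat_lit 0) (nat_lit 0) (XT.lf (nat_lit 0) (nat_lit 5388556104) (nat_lit 76) (nat_lit 4718404974) (nat_lit 152) (nat_lit 10735832563) (nat_lit 37) (nat_lit 5) (nat_lit 38) (nat_lit 5) (nat_lit 39) (nat_lit 4) (nat_lit 436) (nat_lit 316) (nat_lit 268)) (XT.lf (nat_lit 0) (nat_lit 15606587024) (nat_lit 152) (nat_lit 4905612025) (nat_lit 0) (nat_lit 782069916) (nat_lit 37) (nat_lit 5) (nat_lit 39) (nat_lit 4) (nat_lit 37) (nat_lit 4) (nat_lit 437) (nat_lit 316) (nat_lit 267))) (XT.nd (nat_lit 78) (nat_lit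 76) (nat_lit 0) (XT.lf (nat_lit 0) (nat_lit 5925239740) (nat_lit 152) (nat_lit 15394852965) (nat_lit 152) (nat_lit 437733598) (nat_lit 35) (nat_lit 4) (nat_lit 37) (nat_lit 5) (nat_lit 37) (nat_lit 4) (nat_lit 438) (nat_lit 316) (nat_lit 266)) (XT.lf (nat_lit 0) (nat_lit 4868054082) (nat_lit 228) (nat_lit 5203709635) (nat_lit 76) (nat_lit 12162238174) (nat_lit 34) (nat_lit 5) (nat_lit 37) (nat_lit 5) (nat_lit 35) (nat_lit 4) (nat_lit 439) (nat_lit 316) (nat_lit 265))))) (XT.nd (nat_lit 234) (nat_lit 228) (nat_lit 0) (XT.nd (nat_lit 78) (nat_lit 76) (nat_lit 0) (XT.lf (nat_lit 0) (nat_lit 5751722553) (nat_lit 76) (nat_lit 4574667753) (nat_lit 152) (nat_lit 12397881336) (nat_lit 33) (nat_lit 5) (nat_lit 34) (nat_lit 5) (nat_lit 35) (nat_lit 4) (nat_lit 440) (nat_lit 316) (nat_lit 264)) (XT.nd (nat_lit 78) (nat_lit 76) (nat_lit 0) (XT.lf (nat_lit 0) (nat_lit 15959024397) (nat_lit 152) (nat_lit 6196518939) (nat_lit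 0) (nat_lit 1073393697) (nat_lit 33) (nat_lit 5) (nat_lit 35) (nat_lit 4) (nat_lit 33) (nat_lit 4) (nat_lit 441) (nat_lit 316) (nat_lit 263)) (XT.lf (nat_lit 0) (nat_lit 4854793992) (nat_lit 76) (nat_lit 16946375437) (nat_lit 76) (nat_lit 1946360864) (nat_lit 32) (nat_lit 4) (nat_lit 33) (nat_lit 5) (nat_lit 33) (nat_lit 4) (nat_lit 442) (nat_lit 316) (nat_lit 262)))) (XT.nd (nat_lit 156) (nat_lit 76) (nat_lit 0) (XT.nd (nat_lit 78) (nat_lit 76) (nat_lit 0) (XT.lf (nat_lit 0) (nat_lit 3479706248) (nat_lit 152) (nat_lit 8047263192) (nat_lit 76) (nat_lit 12753340800) (nat_lit 31) (nat_lit 5) (nat_lit 33) (nat_lit 5) (nat_lit 32) (nat_lit 4) (nat_lit 443) (nat_lit 316) (nat_lit 261)) (XT.lf (nat_lit 0) (nat_lit 3069531366) (nat_lit 76) (nat_lit 5939540561) (nat_lit 152) (nat_lit 15820037974) (nat_lit 30) (nat_lit 5) (nat_lit 31) (nat_lit 5) (nat_lit 32) (nat_lit 4) (nat_lit 444) (nat_lit 316) (nat_lit 260))) (XT.nd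 (nat_lit 78) (nat_lit 76) (nat_lit 0) (XT.lf (nat_lit 0) (nat_lit 14591049442) (nat_lit 76) (nat_lit 145212399) (nat_lit 152) (nat_lit 10657156850) (nat_lit 30) (nat_lit 5) (nat_lit 31) (nat_lit 5) (nat_lit 32) (nat_lit 4) (nat_lit 445) (nat_lit 316) (nat_lit 259)) (XT.lf (nat_lit 0) (nat_lit 342224429) (nat_lit 76) (nat_lit 20304009963) (nat_lit 76) (nat_lit 5328096676) (nat_lit 29) (nat_lit 4) (nat_lit 30) (nat_lit 5) (nat_lit 30) (nat_lit 4) (nat_lit 446) (nat_lit 316) (nat_lit 258))))))) (XT.nd (nat_lit 1092) (nat_lit 456) (nat_lit 0) (XT.nd (nat_lit 546) (nat_lit 304) (nat_lit 0) (XT.nd (nat_lit 234) (nat_lit 152) (nat_lit 0) (XT.nd (nat_lit 78) (nat_lit 76) (nat_lit 0) (XT.lf (nat_lit 0) (nat_lit 221055458) (nat_lit 152) (nat_lit 14622965399) (nat_lit 76) (nat_lit 11726705965) (nat_lit 28) (nat_lit 5) (nat_lit 30) (nat_lit 5) (nat_lit 29) (nat_lit 4) (nat_lit 447) (nat_lit 316) (nat_lit 257)) (XT.nd (nat_lit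 78) (nat_lit 76) (nat_lit 0) (XT.lf (nat_lit 0) (nat_lit 5782755903) (nat_lit 152) (nat_lit 3425718051) (nat_lit 76) (nat_lit 17976366045) (nat_lit 28) (nat_lit 5) (nat_lit 30) (nat_lit 5) (nat_lit 29) (nat_lit 4) (nat_lit 448) (nat_lit 316) (nat_lit 256)) (XT.lf (nat_lit 0) (nat_lit 8180262719) (nat_lit 76) (nat_lit 3364205724) (nat_lit 152) (nat_lit 16271916260) (nat_lit 27) (nat_lit 5) (nat_lit 28) (nat_lit 5) (nat_lit 29) (nat_lit 4) (nat_lit 449) (nat_lit 316) (nat_lit 255)))) (XT.nd (nat_lit 156) (nat_lit 76) (nat_lit 0) (XT.nd (nat_lit 78) (nat_lit 76) (nat_lit 0) (XT.lf (nat_lit 0) (nat_lit 17494124711) (nat_lit 152) (nat_lit 8373976369) (nat_lit 0) (nat_lit 2598324774) (nat_lit 27) (nat_lit 5) (nat_lit 29) (nat_lit 4) (nat_lit 27) (nat_lit 4) (nat_lit 450) (nat_lit 316) (nat_lit 254)) (XT.lf (nat_lit 0) (nat_lit 3170200815) (nat_lit 76) (nat_lit 20471805711) (nat_lit 76) (nat_lit 5493372430) (nat_lit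 26) (nat_lit 4) (nat_lit 27) (nat_lit 5) (nat_lit 27) (nat_lit 4) (nat_lit 451) (nat_lit 316) (nat_lit 253))) (XT.nd (nat_lit 78) (nat_lit 0) (nat_lit 0) (XT.lf (nat_lit 0) (nat_lit 188395232) (nat_lit 152) (nat_lit 14676217506) (nat_lit 76) (nat_lit 14958505413) (nat_lit 25) (nat_lit 5) (nat_lit 27) (nat_lit 5) (nat_lit 26) (nat_lit 4) (nat_lit 452) (nat_lit 316) (nat_lit 252)) (XT.lf (nat_lit 0) (nat_lit 5887484842) (nat_lit 152) (nat_lit 3184955450) (nat_lit 76) (nat_lit 21458701682) (nat_lit 25) (nat_lit 5) (nat_lit 27) (nat_lit 5) (nat_lit 26) (nat_lit 4) (nat_lit 453) (nat_lit 316) (nat_lit 251))))) (XT.nd (nat_lit 234) (nat_lit 152) (nat_lit 0) (XT.nd (nat_lit 78) (nat_lit 76) (nat_lit 0) (XT.lf (nat_lit 0) (nat_lit 8742043343) (nat_lit 76) (nat_lit 3058062192) (nat_lit 152) (nat_lit 19459026705) (nat_lit 24) (nat_lit 5) (nat_lit 25) (nat_lit 5) (nat_lit 26) (nat_lit 4) (nat_lit 454) (nat_lit 316) (nat_lit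 250)) (XT.nd (nat_lit 78) (nat_lit 76) (nat_lit 0) (XT.lf (nat_lit 0) (nat_lit 17911349200) (nat_lit 152) (nat_lit 11026007099) (nat_lit 0) (nat_lit 3070970996) (nat_lit 24) (nat_lit 5) (nat_lit 26) (nat_lit 4) (nat_lit 24) (nat_lit 4) (nat_lit 455) (nat_lit 316) (nat_lit 249)) (XT.lf (nat_lit 0) (nat_lit 716145109) (nat_lit 76) (nat_lit 23486764193) (nat_lit 76) (nat_lit 8577181864) (nat_lit 23) (nat_lit 4) (nat_lit 24) (nat_lit 5) (nat_lit 24) (nat_lit 4) (nat_lit 456) (nat_lit 316) (nat_lit 248)))) (XT.nd (nat_lit 156) (nat_lit 76) (nat_lit 0) (XT.nd (nat_lit 78) (nat_lit 76) (nat_lit 0) (XT.lf (nat_lit 0) (nat_lit 12959983867) (nat_lit 76) (nat_lit 17794824693) (nat_lit 76) (nat_lit 2818053893) (nat_lit 23) (nat_lit 4) (nat_lit 24) (nat_lit 5) (nat_lit 24) (nat_lit 4) (nat_lit 457) (nat_lit 316) (nat_lit 247)) (XT.lf (nat_lit 0) (nat_lit 3014110306) (nat_lit 152) (nat_lit 8923358400) (nat_lit 76) (nat_lit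 22452221603) (nat_lit 22) (nat_lit 5) (nat_lit 24) (nat_lit 5) (nat_lit 23) (nat_lit 4) (nat_lit 458) (nat_lit 316) (nat_lit 246))) (XT.nd (nat_lit 78) (nat_lit 0) (nat_lit 0) (XT.lf (nat_lit 0) (nat_lit 3076011585) (nat_lit 76) (nat_lit 5880316240) (nat_lit 152) (nat_lit 26274108355) (nat_lit 21) (nat_lit 5) (nat_lit 22) (nat_lit 5) (nat_lit 23) (nat_lit 4) (nat_lit 459) (nat_lit 316) (nat_lit 245)) (XT.lf (nat_lit 0) (nat_lit 15133492115) (nat_lit 152) (nat_lit 20552790612) (nat_lit 0) (nat_lit 408423310) (nat_lit 21) (nat_lit 5) (nat_lit 23) (nat_lit 4) (nat_lit 21) (nat_lit 4) (nat_lit 460) (nat_lit 316) (nat_lit 244)))))) (XT.nd (nat_lit 546) (nat_lit 228) (nat_lit 0) (XT.nd (nat_lit 234) (nat_lit 152) (nat_lit 0) (XT.nd (nat_lit 78) (nat_lit 76) (nat_lit 0) (XT.lf (nat_lit 0) (nat_lit 21517525344) (nat_lit 152) (nat_lit 8732234809) (nat_lit 0) (nat_lit 6734499174) (nat_lit 21) (nat_lit 5) (nat_lit 23)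 (nat_lit 4) (nat_lit 21) (nat_lit 4) (nat_lit 461) (nat_lit 316) (nat_lit 243)) (XT.nd (nat_lit 78) (nat_lit 0) (nat_lit 0) (XT.lf (nat_lit 0) (nat_lit 3441247789) (nat_lit 76) (nat_lit 24649312186) (nat_lit 76) (nat_lit 9810016731) (nat_lit 20) (nat_lit 4) (nat_lit 21) (nat_lit 5) (nat_lit 21) (nat_lit 4) (nat_lit 462) (nat_lit 316) (nat_lit 242)) (XT.lf (nat_lit 0) (nat_lit 16090771014) (nat_lit 76) (nat_lit 18822975719) (nat_lit 76) (nat_lit 3929049888) (nat_lit 20) (nat_lit 4) (nat_lit 21) (nat_lit 5) (nat_lit 21) (nat_lit 4) (nat_lit 463) (nat_lit 316) (nat_lit 241)))) (XT.nd (nat_lit 156) (nat_lit 0) (nat_lit 0) (XT.nd (nat_lit 78) (nat_lit 76) (nat_lit 0) (XT.lf (nat_lit 0) (nat_lit 2052282359) (nat_lit 152) (nat_lit 10780831839) (nat_lit 76) (nat_lit 26980592863) (nat_lit 19) (nat_lit 5) (nat_lit 21) (nat_lit 5) (nat_lit 20) (nat_lit 4) (nat_lit 464) (nat_lit 316) (nat_lit 240)) (XT.lf (nat_lit 0) (nat_lit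 1474445993) (nat_lit 76) (nat_lit 6640285726) (nat_lit 152) (nat_lit 32698428327) (nat_lit 18) (nat_lit 5) (nat_lit 19) (nat_lit 5) (nat_lit 20) (nat_lit 4) (nat_lit 465) (nat_lit 316) (nat_lit 239))) (XT.nd (nat_lit 78) (nat_lit 0) (nat_lit 0) (XT.lf (nat_lit 0) (nat_lit 14254093117) (nat_lit 76) (nat_lit 180659122) (nat_lit 152) (nat_lit 27405575090) (nat_lit 18) (nat_lit 5) (nat_lit 19) (nat_lit 5) (nat_lit 20) (nat_lit 4) (nat_lit 466) (nat_lit 316) (nat_lit 238)) (XT.lf (nat_lit 0) (nat_lit 20974101519) (nat_lit 152) (nat_lit 15606490430) (nat_lit 0) (nat_lit 6316827432) (nat_lit 18) (nat_lit 5) (nat_lit 20) (nat_lit 4) (nat_lit 18) (nat_lit 4) (nat_lit 467) (nat_lit 316) (nat_lit 237))))) (XT.nd (nat_lit 312) (nat_lit 76) (nat_lit 0) (XT.nd (nat_lit 156) (nat_lit 76) (nat_lit 0) (XT.nd (nat_lit 78) (nat_lit 76) (nat_lit 0) (XT.lf (nat_lit 0) (nat_lit 27679874399) (nat_lit 152) (nat_lit 3330395813) (nat_lit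 0) (nat_lit 12976848233) (nat_lit 18) (nat_lit 5) (nat_lit 20) (nat_lit 4) (nat_lit 18) (nat_lit 4) (nat_lit 468) (nat_lit 316) (nat_lit 236)) (XT.lf (nat_lit 0) (nat_lit 9438695880) (nat_lit 76) (nat_lit 25208228326) (nat_lit 76) (nat_lit 10460782666) (nat_lit 17) (nat_lit 4) (nat_lit 18) (nat_lit 5) (nat_lit 18) (nat_lit 4) (nat_lit 469) (nat_lit 316) (nat_lit 235))) (XT.nd (nat_lit 78) (nat_lit 76) (nat_lit 0) (XT.lf (nat_lit 0) (nat_lit 22600244485) (nat_lit 76) (nat_lit 19226070707) (nat_lit 76) (nat_lit 4435499325) (nat_lit 17) (nat_lit 4) (nat_lit 18) (nat_lit 5) (nat_lit 18) (nat_lit 4) (nat_lit 470) (nat_lit 316) (nat_lit 234)) (XT.lf (nat_lit 0) (nat_lit 1706281962) (nat_lit 152) (nat_lit 11368688631) (nat_lit 76) (nat_lit 34375956914) (nat_lit 16) (nat_lit 5) (nat_lit 18) (nat_lit 5) (nat_lit 17) (nat_lit 4) (nat_lit 471) (nat_lit 316) (nat_lit 233)))) (XT.nd (nat_lit 156) (nat_lit 0) (nat_lit 0)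 (XT.nd (nat_lit 78) (nat_lit 0) (nat_lit 0) (XT.lf (nat_lit 0) (nat_lit 1216725244) (nat_lit 76) (nat_lit 6709292681) (nat_lit 152) (nat_lit 40748894309) (nat_lit 15) (nat_lit 5) (nat_lit 16) (nat_lit 5) (nat_lit 17) (nat_lit 4) (nat_lit 472) (nat_lit 316) (nat_lit 232)) (XT.lf (nat_lit 0) (nat_lit 14357217494) (nat_lit 76) (nat_lit 61390774) (nat_lit 152) (nat_lit 35514421661) (nat_lit 15) (nat_lit 5) (nat_lit 16) (nat_lit 5) (nat_lit 17) (nat_lit 4) (nat_lit 473) (nat_lit 316) (nat_lit 231))) (XT.nd (nat_lit 78) (nat_lit 0) (nat_lit 0) (XT.lf (nat_lit 0) (nat_lit 21143247175) (nat_lit 152) (nat_lit 23456691524) (nat_lit 0) (nat_lit 6627835587) (nat_lit 15) (nat_lit 5) (nat_lit 17) (nat_lit 4) (nat_lit 15) (nat_lit 4) (nat_lit 474) (nat_lit 316) (nat_lit 230)) (XT.lf (nat_lit 0) (nat_lit 28043087613) (nat_lit 152) (nat_lit 11027511799) (nat_lit 0) (nat_lit 13491558911) (nat_lit 15) (nat_lit 5) (nat_lit 17)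 (nat_lit 4) (nat_lit 15) (nat_lit 4) (nat_lit 475) (nat_lit 316) (nat_lit 229))))))))
noncomputable def xc49 : XT := (XT.nd (nat_lit 47034) (nat_lit 0) (nat_lit 3040) (XT.nd (nat_lit 1092) (nat_lit 152) (nat_lit 0) (XT.nd (nat_lit 546) (nat_lit 76) (nat_lit 0) (XT.nd (nat_lit 234) (nat_lit 152) (nat_lit 0) (XT.nd (nat_lit 78) (nat_lit 0) (nat_lit 0) (XT.lf (nat_lit 0) (nat_lit 1757471918) (nat_lit 76) (nat_lit 33382990419) (nat_lit 76) (nat_lit 18796396559) (nat_lit 14) (nat_lit 4) (nat_lit 15) (nat_lit 5) (nat_lit 15) (nat_lit 4) (nat_lit 476) (nat_lit 316) (nat_lit 228)) (XT.nd (nat_lit 78) (nat_lit 0) (nat_lit 0) (XT.lf (nat_lit 0) (nat_lit 15101195911) (nat_lit 76) (nat_lit 27434842512) (nat_lit 76) (nat_lit 12814204808) (nat_lit 14) (nat_lit 4) (nat_lit 15) (nat_lit 5) (nat_lit 15) (nat_lit 4) (nat_lit 477) (nat_lit 316) (nat_lit 227)) (XT.lf (nat_lit 0) (nat_lit 28795850637) (nat_lit 76) (nat_lit 21332314528)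 (nat_lit 76) (nat_lit 6678624549) (nat_lit 14) (nat_lit 4) (nat_lit 15) (nat_lit 5) (nat_lit 15) (nat_lit 4) (nat_lit 478) (nat_lit 316) (nat_lit 226)))) (XT.nd (nat_lit 156) (nat_lit 76) (nat_lit 0) (XT.nd (nat_lit 78) (nat_lit 76) (nat_lit 0) (XT.lf (nat_lit 0) (nat_lit 42853402299) (nat_lit 76) (nat_lit 15070074160) (nat_lit 76) (nat_lit 384294593) (nat_lit 14) (nat_lit 4) (nat_lit 15) (nat_lit 5) (nat_lit 15) (nat_lit 4) (nat_lit 479) (nat_lit 316) (nat_lit 225)) (XT.lf (nat_lit 0) (nat_lit 5955753779) (nat_lit 152) (nat_lit 2626754334) (nat_lit 76) (nat_lit 51270238979) (nat_lit 13) (nat_lit 5) (nat_lit 15) (nat_lit 5) (nat_lit 14) (nat_lit 4) (nat_lit 480) (nat_lit 316) (nat_lit 224))) (XT.nd (nat_lit 78) (nat_lit 0) (nat_lit 0) (XT.lf (nat_lit 0) (nat_lit 10745917913) (nat_lit 76) (nat_lit 1812259393) (nat_lit 152) (nat_lit 48883385024) (nat_lit 12) (nat_lit 5) (nat_lit 13) (nat_lit 5) (nat_lit 14) (nat_lit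 4) (nat_lit 481) (nat_lit 316) (nat_lit 223)) (XT.lf (nat_lit 0) (nat_lit 19411709060) (nat_lit 152) (nat_lit 38599197433) (nat_lit 0) (nat_lit 5065545430) (nat_lit 12) (nat_lit 5) (nat_lit 14) (nat_lit 4) (nat_lit 12) (nat_lit 4) (nat_lit 482) (nat_lit 316) (nat_lit 222))))) (XT.nd (nat_lit 234) (nat_lit 76) (nat_lit 0) (XT.nd (nat_lit 78) (nat_lit 0) (nat_lit 0) (XT.lf (nat_lit 0) (nat_lit 26466106633) (nat_lit 152) (nat_lit 26202162467) (nat_lit 0) (nat_lit 12092262243) (nat_lit 12) (nat_lit 5) (nat_lit 14) (nat_lit 4) (nat_lit 12) (nat_lit 4) (nat_lit 483) (nat_lit 316) (nat_lit 221)) (XT.nd (nat_lit 78) (nat_lit 0) (nat_lit 0) (XT.lf (nat_lit 0) (nat_lit 33710113517) (nat_lit 152) (nat_lit 13476286612) (nat_lit 0) (nat_lit 19309394603) (nat_lit 12) (nat_lit 5) (nat_lit 14) (nat_lit 4) (nat_lit 12) (nat_lit 4) (nat_lit 484) (nat_lit 316) (nat_lit 220)) (XT.lf (nat_lit 0) (nat_lit 41150059427) (nat_lit 152)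 (nat_lit 410450171) (nat_lit 0) (nat_lit 26723248742) (nat_lit 12) (nat_lit 5) (nat_lit 14) (nat_lit 4) (nat_lit 12) (nat_lit 4) (nat_lit 485) (nat_lit 316) (nat_lit 219)))) (XT.nd (nat_lit 156) (nat_lit 0) (nat_lit 0) (XT.nd (nat_lit 78) (nat_lit 0) (nat_lit 0) (XT.lf (nat_lit 0) (nat_lit 13265623704) (nat_lit 76) (nat_lit 35654338873) (nat_lit 76) (nat_lit 21202196370) (nat_lit 11) (nat_lit 4) (nat_lit 12) (nat_lit 5) (nat_lit 12) (nat_lit 4) (nat_lit 486) (nat_lit 316) (nat_lit 218)) (XT.lf (nat_lit 0) (nat_lit 27320193883) (nat_lit 76) (nat_lit 29586373442) (nat_lit 76) (nat_lit 15109636943) (nat_lit 11) (nat_lit 4) (nat_lit 12) (nat_lit 5) (nat_lit 12) (nat_lit 4) (nat_lit 487) (nat_lit 316) (nat_lit 217))) (XT.nd (nat_lit 78) (nat_lit 0) (nat_lit 0) (XT.lf (nat_lit 0) (nat_lit 41757372294) (nat_lit 76) (nat_lit 23355455944) (nat_lit 76) (nat_lit 8854841778) (nat_lit 11) (nat_lit 4) (nat_lit 12) (nat_lit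 5) (nat_lit 12) (nat_lit 4) (nat_lit 488) (nat_lit 316) (nat_lit 216)) (XT.lf (nat_lit 0) (nat_lit 56589773947) (nat_lit 76) (nat_lit 16956141887) (nat_lit 76) (nat_lit 2432345520) (nat_lit 11) (nat_lit 4) (nat_lit 12) (nat_lit 5) (nat_lit 12) (nat_lit 4) (nat_lit 489) (nat_lit 316) (nat_lit 215)))))) (XT.nd (nat_lit 45396) (nat_lit 0) (nat_lit 7220) (XT.nd (nat_lit 45084) (nat_lit 0) (nat_lit 9120) (XT.nd (nat_lit 78) (nat_lit 76) (nat_lit 0) (XT.lf (nat_lit 0) (nat_lit 4082219547) (nat_lit 152) (nat_lit 6259397676) (nat_lit 76) (nat_lit 67706917232) (nat_lit 10) (nat_lit 5) (nat_lit 12) (nat_lit 5) (nat_lit 11) (nat_lit 4) (nat_lit 490) (nat_lit 316) (nat_lit 214)) (XT.nd (nat_lit 44928) (nat_lit 0) (nat_lit 10260) (XT.lf (nat_lit 0) (nat_lit 7346759372) (nat_lit 76) (nat_lit 3448764853) (nat_lit 152) (nat_lit 69383104053) (nat_lit 9) (nat_lit 5) (nat_lit 10) (nat_lit 5) (nat_lit 11) (nat_lit 4) (nat_lit 491)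 (nat_lit 316) (nat_lit 213)) (XT.lf (nat_lit 0) (nat_lit 2870478323) (nat_lit 380) (nat_lit 769633657) (nat_lit 380) (nat_lit 769633657) (nat_lit 144) (nat_lit 4) (nat_lit 149) (nat_lit 5) (nat_lit 149) (nat_lit 4) (nat_lit 386) (nat_lit 317) (nat_lit 317)))) (XT.nd (nat_lit 156) (nat_lit 380) (nat_lit 0) (XT.nd (nat_lit 78) (nat_lit 380) (nat_lit 0) (XT.lf (nat_lit 0) (nat_lit 2567437143) (nat_lit 380) (nat_lit 4755505836) (nat_lit 0) (nat_lit 1606610634) (nat_lit 139) (nat_lit 5) (nat_lit 144) (nat_lit 4) (nat_lit 139) (nat_lit 4) (nat_lit 387) (nat_lit 317) (nat_lit 316)) (XT.lf (nat_lit 0) (nat_lit 2538527610) (nat_lit 380) (nat_lit 4199245633) (nat_lit 380) (nat_lit 2305577853) (nat_lit 134) (nat_lit 4) (nat_lit 139) (nat_lit 5) (nat_lit 139) (nat_lit 4) (nat_lit 388) (nat_lit 317) (nat_lit 315))) (XT.nd (nat_lit 78) (nat_lit 0) (nat_lit 0) (XT.lf (nat_lit 0) (nat_lit 841563385) (nat_lit 304) (nat_lit 951984546)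 (nat_lit 380) (nat_lit 7367781258) (nat_lit 129) (nat_lit 5) (nat_lit 133) (nat_lit 5) (nat_lit 134) (nat_lit 4) (nat_lit 389) (nat_lit 317) (nat_lit 314)) (XT.lf (nat_lit 0) (nat_lit 5960535878) (nat_lit 380) (nat_lit 932868733) (nat_lit 0) (nat_lit 2389049195) (nat_lit 129) (nat_lit 5) (nat_lit 134) (nat_lit 4) (nat_lit 129) (nat_lit 4) (nat_lit 390) (nat_lit 317) (nat_lit 313))))) (XT.nd (nat_lit 234) (nat_lit 912) (nat_lit 0) (XT.nd (nat_lit 78) (nat_lit 608) (nat_lit 0) (XT.lf (nat_lit 0) (nat_lit 806710890) (nat_lit 380) (nat_lit 2762680962) (nat_lit 76) (nat_lit 5838267189) (nat_lit 124) (nat_lit 5) (nat_lit 129) (nat_lit 5) (nat_lit 125) (nat_lit 4) (nat_lit 391) (nat_lit 317) (nat_lit 312)) (XT.nd (nat_lit 78) (nat_lit 304) (nat_lit 0) (XT.lf (nat_lit 0) (nat_lit 4851202592) (nat_lit 304) (nat_lit 102582499) (nat_lit 380) (nat_lit 4583034425) (nat_lit 120) (nat_lit 5) (nat_lit 124) (nat_lit 5) (nat_lit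 125) (nat_lit 4) (nat_lit 392) (nat_lit 317) (nat_lit 311)) (XT.lf (nat_lit 0) (nat_lit 2960902214) (nat_lit 304) (nat_lit 6260479988) (nat_lit 304) (nat_lit 448614918) (nat_lit 116) (nat_lit 4) (nat_lit 120) (nat_lit 5) (nat_lit 120) (nat_lit 4) (nat_lit 393) (nat_lit 317) (nat_lit 310)))) (XT.nd (nat_lit 156) (nat_lit 608) (nat_lit 0) (XT.nd (nat_lit 78) (nat_lit 0) (nat_lit 0) (XT.lf (nat_lit 0) (nat_lit 962954853) (nat_lit 228) (nat_lit 2737150288) (nat_lit 304) (nat_lit 6107052053) (nat_lit 112) (nat_lit 5) (nat_lit 115) (nat_lit 5) (nat_lit 116) (nat_lit 4) (nat_lit 394) (nat_lit 317) (nat_lit 309)) (XT.lf (nat_lit 0) (nat_lit 7948667904) (nat_lit 304) (nat_lit 1103108654) (nat_lit 0) (nat_lit 897013785) (nat_lit 112) (nat_lit 5) (nat_lit 116) (nat_lit 4) (nat_lit 112) (nat_lit 4) (nat_lit 395) (nat_lit 317) (nat_lit 308))) (XT.nd (nat_lit 78) (nat_lit 228) (nat_lit 0) (XT.lf (nat_lit 0) (nat_lit 2189410723)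 (nat_lit 380) (nat_lit 3281054731) (nat_lit 76) (nat_lit 4623498720) (nat_lit 107) (nat_lit 5) (nat_lit 112) (nat_lit 5) (nat_lit 108) (nat_lit 4) (nat_lit 396) (nat_lit 317) (nat_lit 307)) (XT.lf (nat_lit 0) (nat_lit 4675288768) (nat_lit 228) (nat_lit 1755806486) (nat_lit 304) (nat_lit 3812825364) (nat_lit 104) (nat_lit 5) (nat_lit 107) (nat_lit 5) (nat_lit 108) (nat_lit 4) (nat_lit 397) (nat_lit 317) (nat_lit 306))))))) (XT.nd (nat_lit 1092) (nat_lit 1748) (nat_lit 0) (XT.nd (nat_lit 546) (nat_lit 1064) (nat_lit 0) (XT.nd (nat_lit 234) (nat_lit 836) (nat_lit 0) (XT.nd (nat_lit 78) (nat_lit 228) (nat_lit 0) (XT.lf (nat_lit 0) (nat_lit 381574120) (nat_lit 304) (nat_lit 7977884256) (nat_lit 76) (nat_lit 2039189070) (nat_lit 100) (nat_lit 5) (nat_lit 104) (nat_lit 5) (nat_lit 101) (nat_lit 4) (nat_lit 398) (nat_lit 317) (nat_lit 305)) (XT.nd (nat_lit 78) (nat_lit 0) (nat_lit 0) (XT.lf (nat_lit 0) (nat_lit 9100568)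 (nat_lit 228) (nat_lit 4601902192) (nat_lit 304) (nat_lit 5946325508) (nat_lit 97) (nat_lit 5) (nat_lit 100) (nat_lit 5) (nat_lit 101) (nat_lit 4) (nat_lit 399) (nat_lit 317) (nat_lit 304)) (XT.lf (nat_lit 0) (nat_lit 8257588412) (nat_lit 228) (nat_lit 703071335) (nat_lit 304) (nat_lit 1760328478) (nat_lit 97) (nat_lit 5) (nat_lit 100) (nat_lit 5) (nat_lit 101) (nat_lit 4) (nat_lit 400) (nat_lit 317) (nat_lit 303)))) (XT.nd (nat_lit 156) (nat_lit 304) (nat_lit 0) (XT.nd (nat_lit 78) (nat_lit 228) (nat_lit 0) (XT.lf (nat_lit 0) (nat_lit 2503940826) (nat_lit 304) (nat_lit 5108199331) (nat_lit 76) (nat_lit 3276625788) (nat_lit 93) (nat_lit 5) (nat_lit 97) (nat_lit 5) (nat_lit 94) (nat_lit 4) (nat_lit 401) (nat_lit 317) (nat_lit 302)) (XT.lf (nat_lit 0) (nat_lit 3158609093) (nat_lit 228) (nat_lit 3679713391) (nat_lit 304) (nat_lit 4223422144) (nat_lit 90) (nat_lit 5) (nat_lit 93) (nat_lit 5) (nat_lit 94) (nat_lit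 4) (nat_lit 402) (nat_lit 317) (nat_lit 301))) (XT.nd (nat_lit 78) (nat_lit 0) (nat_lit 0) (XT.lf (nat_lit 0) (nat_lit 36599887) (nat_lit 304) (nat_lit 10838010137) (nat_lit 76) (nat_lit 366050901) (nat_lit 86) (nat_lit 5) (nat_lit 90) (nat_lit 5) (nat_lit 87) (nat_lit 4) (nat_lit 403) (nat_lit 317) (nat_lit 300)) (XT.lf (nat_lit 0) (nat_lit 4372575905) (nat_lit 304) (nat_lit 2522821683) (nat_lit 76) (nat_lit 4527317417) (nat_lit 86) (nat_lit 5) (nat_lit 90) (nat_lit 5) (nat_lit 87) (nat_lit 4) (nat_lit 404) (nat_lit 317) (nat_lit 299))))) (XT.nd (nat_lit 234) (nat_lit 608) (nat_lit 0) (XT.nd (nat_lit 78) (nat_lit 304) (nat_lit 0) (XT.lf (nat_lit 0) (nat_lit 6022598048) (nat_lit 152) (nat_lit 2792383131) (nat_lit 228) (nat_lit 2795974540) (nat_lit 84) (nat_lit 5) (nat_lit 86) (nat_lit 5) (nat_lit 87) (nat_lit 4) (nat_lit 405) (nat_lit 317) (nat_lit 298)) (XT.nd (nat_lit 78) (nat_lit 0) (nat_lit 0) (XT.lf (nat_lit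 0) (nat_lit 1541874048) (nat_lit 304) (nat_lit 8841558631) (nat_lit 76) (nat_lit 1421358159) (nat_lit 80) (nat_lit 5) (nat_lit 84) (nat_lit 5) (nat_lit 81) (nat_lit 4) (nat_lit 406) (nat_lit 317) (nat_lit 297)) (XT.lf (nat_lit 0) (nat_lit 5957548074) (nat_lit 304) (nat_lit 310293938) (nat_lit 76) (nat_lit 5735666115) (nat_lit 80) (nat_lit 5) (nat_lit 84) (nat_lit 5) (nat_lit 81) (nat_lit 4) (nat_lit 407) (nat_lit 317) (nat_lit 296)))) (XT.nd (nat_lit 156) (nat_lit 152) (nat_lit 0) (XT.nd (nat_lit 78) (nat_lit 304) (nat_lit 0) (XT.lf (nat_lit 0) (nat_lit 8509382139) (nat_lit 152) (nat_lit 1999708303) (nat_lit 228) (nat_lit 1699008330) (nat_lit 78) (nat_lit 5) (nat_lit 80) (nat_lit 5) (nat_lit 81) (nat_lit 4) (nat_lit 408) (nat_lit 317) (nat_lit 295)) (XT.lf (nat_lit 0) (nat_lit 2721641050) (nat_lit 304) (nat_lit 7321471284) (nat_lit 76) (nat_lit 2375001433) (nat_lit 74) (nat_lit 5) (nat_lit 78) (nat_lit 5) (nat_lit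 75) (nat_lit 4) (nat_lit 409) (nat_lit 317) (nat_lit 294))) (XT.nd (nat_lit 78) (nat_lit 0) (nat_lit 0) (XT.lf (nat_lit 0) (nat_lit 1455466735) (nat_lit 152) (nat_lit 5779108438) (nat_lit 228) (nat_lit 5399547583) (nat_lit 72) (nat_lit 5) (nat_lit 74) (nat_lit 5) (nat_lit 75) (nat_lit 4) (nat_lit 410) (nat_lit 317) (nat_lit 293)) (XT.lf (nat_lit 0) (nat_lit 10512795091) (nat_lit 152) (nat_lit 1367323369) (nat_lit 228) (nat_lit 976589166) (nat_lit 72) (nat_lit 5) (nat_lit 74) (nat_lit 5) (nat_lit 75) (nat_lit 4) (nat_lit 411) (nat_lit 317) (nat_lit 292)))))) (XT.nd (nat_lit 546) (nat_lit 760) (nat_lit 0) (XT.nd (nat_lit 234) (nat_lit 608) (nat_lit 0) (XT.nd (nat_lit 78) (nat_lit 152) (nat_lit 0) (XT.lf (nat_lit 0) (nat_lit 3529592859) (nat_lit 228) (nat_lit 6394249017) (nat_lit 76) (nat_lit 3160496328) (nat_lit 69) (nat_lit 5) (nat_lit 72) (nat_lit 5) (nat_lit 70) (nat_lit 4) (nat_lit 412) (nat_lit 317) (nat_lit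 291)) (XT.nd (nat_lit 78) (nat_lit 0) (nat_lit 0) (XT.lf (nat_lit 0) (nat_lit 2621724062) (nat_lit 152) (nat_lit 5517442624) (nat_lit 228) (nat_lit 5179717099) (nat_lit 67) (nat_lit 5) (nat_lit 69) (nat_lit 5) (nat_lit 70) (nat_lit 4) (nat_lit 413) (nat_lit 317) (nat_lit 290)) (XT.lf (nat_lit 0) (nat_lit 11909472066) (nat_lit 152) (nat_lit 968248464) (nat_lit 228) (nat_lit 683035296) (nat_lit 67) (nat_lit 5) (nat_lit 69) (nat_lit 5) (nat_lit 70) (nat_lit 4) (nat_lit 414) (nat_lit 317) (nat_lit 289)))) (XT.nd (nat_lit 156) (nat_lit 228) (nat_lit 0) (XT.nd (nat_lit 78) (nat_lit 152) (nat_lit 0) (XT.lf (nat_lit 0) (nat_lit 3908895401) (nat_lit 228) (nat_lit 6195195828) (nat_lit 76) (nat_lit 3703542414) (nat_lit 64) (nat_lit 5) (nat_lit 67) (nat_lit 5) (nat_lit 65) (nat_lit 4) (nat_lit 415) (nat_lit 317) (nat_lit 288)) (XT.lf (nat_lit 0) (nat_lit 3041505811) (nat_lit 152) (nat_lit 5566939352) (nat_lit 228) (nat_lit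 5453772022) (nat_lit 62) (nat_lit 5) (nat_lit 64) (nat_lit 5) (nat_lit 65) (nat_lit 4) (nat_lit 416) (nat_lit 317) (nat_lit 287))) (XT.nd (nat_lit 78) (nat_lit 228) (nat_lit 0) (XT.lf (nat_lit 0) (nat_lit 12555723546) (nat_lit 152) (nat_lit 884625890) (nat_lit 228) (nat_lit 884357421) (nat_lit 62) (nat_lit 5) (nat_lit 64) (nat_lit 5) (nat_lit 65) (nat_lit 4) (nat_lit 417) (nat_lit 317) (nat_lit 286)) (XT.lf (nat_lit 0) (nat_lit 3790680869) (nat_lit 228) (nat_lit 6881767040) (nat_lit 76) (nat_lit 3920236448) (nat_lit 59) (nat_lit 5) (nat_lit 62) (nat_lit 5) (nat_lit 60) (nat_lit 4) (nat_lit 418) (nat_lit 317) (nat_lit 285))))) (XT.nd (nat_lit 312) (nat_lit 304) (nat_lit 0) (XT.nd (nat_lit 156) (nat_lit 304) (nat_lit 0) (XT.nd (nat_lit 78) (nat_lit 0) (nat_lit 0) (XT.lf (nat_lit 0) (nat_lit 2550764103) (nat_lit 152) (nat_lit 6019268605) (nat_lit 228) (nat_lit 6298959527) (nat_lit 57) (nat_lit 5) (nat_lit 59) (nat_lit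 5) (nat_lit 60) (nat_lit 4) (nat_lit 419) (nat_lit 317) (nat_lit 284)) (XT.lf (nat_lit 0) (nat_lit 12283931489) (nat_lit 152) (nat_lit 1209682212) (nat_lit 228) (nat_lit 1659958778) (nat_lit 57) (nat_lit 5) (nat_lit 59) (nat_lit 5) (nat_lit 60) (nat_lit 4) (nat_lit 420) (nat_lit 317) (nat_lit 283))) (XT.nd (nat_lit 78) (nat_lit 76) (nat_lit 0) (XT.lf (nat_lit 0) (nat_lit 3092270787) (nat_lit 228) (nat_lit 8637432015) (nat_lit 76) (nat_lit 3715049008) (nat_lit 54) (nat_lit 5) (nat_lit 57) (nat_lit 5) (nat_lit 55) (nat_lit 4) (nat_lit 421) (nat_lit 317) (nat_lit 282)) (XT.lf (nat_lit 0) (nat_lit 958151190) (nat_lit 76) (nat_lit 6978985426) (nat_lit 152) (nat_lit 7807541718) (nat_lit 53) (nat_lit 5) (nat_lit 54) (nat_lit 5) (nat_lit 55) (nat_lit 4) (nat_lit 422) (nat_lit 317) (nat_lit 281)))) (XT.nd (nat_lit 156) (nat_lit 76) (nat_lit 0) (XT.nd (nat_lit 78) (nat_lit 228) (nat_lit 0) (XT.lf (nat_lit 0) (nat_lit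 10898387963) (nat_lit 76) (nat_lit 2049958326) (nat_lit 152) (nat_lit 3104634060) (nat_lit 53) (nat_lit 5) (nat_lit 54) (nat_lit 5) (nat_lit 55) (nat_lit 4) (nat_lit 423) (nat_lit 317) (nat_lit 280)) (XT.lf (nat_lit 0) (nat_lit 1715089521) (nat_lit 228) (nat_lit 11676136693) (nat_lit 76) (nat_lit 2978520712) (nat_lit 50) (nat_lit 5) (nat_lit 53) (nat_lit 5) (nat_lit 51) (nat_lit 4) (nat_lit 424) (nat_lit 317) (nat_lit 279))) (XT.nd (nat_lit 78) (nat_lit 76) (nat_lit 0) (XT.lf (nat_lit 0) (nat_lit 6625190322) (nat_lit 228) (nat_lit 1921419764) (nat_lit 76) (nat_lit 8148245659) (nat_lit 50) (nat_lit 5) (nat_lit 53) (nat_lit 5) (nat_lit 51) (nat_lit 4) (nat_lit 425) (nat_lit 317) (nat_lit 278)) (XT.lf (nat_lit 0) (nat_lit 8170484052) (nat_lit 76) (nat_lit 3527855933) (nat_lit 152) (nat_lit 5330912250) (nat_lit 49) (nat_lit 5) (nat_lit 50) (nat_lit 5) (nat_lit 51) (nat_lit 4) (nat_lit 426) (nat_lit 317) (nat_lit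 277))))))))
noncomputable def xc50 : XT := (XT.nd (nat_lit 2184) (nat_lit 912) (nat_lit 0) (XT.nd (nat_lit 1092) (nat_lit 760) (nat_lit 0) (XT.nd (nat_lit 546) (nat_lit 532) (nat_lit 0) (XT.nd (nat_lit 234) (nat_lit 304) (nat_lit 0) (XT.nd (nat_lit 78) (nat_lit 152) (nat_lit 0) (XT.lf (nat_lit 0) (nat_lit 1122226380) (nat_lit 152) (nat_lit 15785063188) (nat_lit 152) (nat_lit 466889468) (nat_lit 47) (nat_lit 4) (nat_lit 49) (nat_lit 5) (nat_lit 49) (nat_lit 4) (nat_lit 427) (nat_lit 317) (nat_lit 276)) (XT.nd (nat_lit 78) (nat_lit 76) (nat_lit 0) (XT.lf (nat_lit 0) (nat_lit 4517225981) (nat_lit 228) (nat_lit 6337264091) (nat_lit 76) (nat_lit 6871774955) (nat_lit 46) (nat_lit 5) (nat_lit 49) (nat_lit 5) (nat_lit 47) (nat_lit 4) (nat_lit 428) (nat_lit 317) (nat_lit 275)) (XT.lf (nat_lit 0) (nat_lit 3833142437) (nat_lit 76) (nat_lit 5784555990) (nat_lit 152) (nat_lit 8471795988) (nat_lit 45) (nat_lit 5) (nat_lit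 46) (nat_lit 5) (nat_lit 47) (nat_lit 4) (nat_lit 429) (nat_lit 317) (nat_lit 274)))) (XT.nd (nat_lit 156) (nat_lit 76) (nat_lit 0) (XT.nd (nat_lit 78) (nat_lit 228) (nat_lit 0) (XT.lf (nat_lit 0) (nat_lit 14327767467) (nat_lit 76) (nat_lit 547483363) (nat_lit 152) (nat_lit 3588253729) (nat_lit 45) (nat_lit 5) (nat_lit 46) (nat_lit 5) (nat_lit 47) (nat_lit 4) (nat_lit 430) (nat_lit 317) (nat_lit 273)) (XT.lf (nat_lit 0) (nat_lit 1462190464) (nat_lit 228) (nat_lit 12606518008) (nat_lit 76) (nat_lit 4778160357) (nat_lit 42) (nat_lit 5) (nat_lit 45) (nat_lit 5) (nat_lit 43) (nat_lit 4) (nat_lit 431) (nat_lit 317) (nat_lit 272))) (XT.nd (nat_lit 78) (nat_lit 76) (nat_lit 0) (XT.lf (nat_lit 0) (nat_lit 6581060009) (nat_lit 228) (nat_lit 2378296884) (nat_lit 76) (nat_lit 10281645695) (nat_lit 42) (nat_lit 5) (nat_lit 45) (nat_lit 5) (nat_lit 43) (nat_lit 4) (nat_lit 432) (nat_lit 317) (nat_lit 271)) (XT.lf (nat_lit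 0) (nat_lit 8211220498) (nat_lit 76) (nat_lit 3664347596) (nat_lit 152) (nat_lit 7770735288) (nat_lit 41) (nat_lit 5) (nat_lit 42) (nat_lit 5) (nat_lit 43) (nat_lit 4) (nat_lit 433) (nat_lit 317) (nat_lit 270))))) (XT.nd (nat_lit 234) (nat_lit 304) (nat_lit 0) (XT.nd (nat_lit 78) (nat_lit 228) (nat_lit 0) (XT.lf (nat_lit 0) (nat_lit 17313691087) (nat_lit 152) (nat_lit 1019274813) (nat_lit 0) (nat_lit 1731258955) (nat_lit 41) (nat_lit 5) (nat_lit 43) (nat_lit 4) (nat_lit 41) (nat_lit 4) (nat_lit 434) (nat_lit 317) (nat_lit 269)) (XT.nd (nat_lit 78) (nat_lit 0) (nat_lit 0) (XT.lf (nat_lit 0) (nat_lit 2448861373) (nat_lit 228) (nat_lit 10756141612) (nat_lit 76) (nat_lit 7286713312) (nat_lit 38) (nat_lit 5) (nat_lit 41) (nat_lit 5) (nat_lit 39) (nat_lit 4) (nat_lit 435) (nat_lit 317) (nat_lit 268)) (XT.lf (nat_lit 0) (nat_lit 7704404686) (nat_lit 228) (nat_lit 228066421) (nat_lit 76) (nat_lit 13000085520) (nat_lit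 38) (nat_lit 5) (nat_lit 41) (nat_lit 5) (nat_lit 39) (nat_lit 4) (nat_lit 436) (nat_lit 317) (nat_lit 267)))) (XT.nd (nat_lit 156) (nat_lit 76) (nat_lit 0) (XT.nd (nat_lit 78) (nat_lit 152) (nat_lit 0) (XT.lf (nat_lit 0) (nat_lit 10725165192) (nat_lit 76) (nat_lit 2442201041) (nat_lit 152) (nat_lit 8217767861) (nat_lit 37) (nat_lit 5) (nat_lit 38) (nat_lit 5) (nat_lit 39) (nat_lit 4) (nat_lit 437) (nat_lit 317) (nat_lit 266)) (XT.lf (nat_lit 0) (nat_lit 29994041) (nat_lit 152) (nat_lit 18744532578) (nat_lit 152) (nat_lit 3077357315) (nat_lit 35) (nat_lit 4) (nat_lit 37) (nat_lit 5) (nat_lit 37) (nat_lit 4) (nat_lit 438) (nat_lit 317) (nat_lit 265))) (XT.nd (nat_lit 78) (nat_lit 0) (nat_lit 0) (XT.lf (nat_lit 0) (nat_lit 2253773340) (nat_lit 228) (nat_lit 11217005728) (nat_lit 76) (nat_lit 8858828653) (nat_lit 34) (nat_lit 5) (nat_lit 37) (nat_lit 5) (nat_lit 35) (nat_lit 4) (nat_lit 439) (nat_lit 317) (nat_lit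 264)) (XT.lf (nat_lit 0) (nat_lit 7631417001) (nat_lit 228) (nat_lit 421738947) (nat_lit 76) (nat_lit 14769144261) (nat_lit 34) (nat_lit 5) (nat_lit 37) (nat_lit 5) (nat_lit 35) (nat_lit 4) (nat_lit 440) (nat_lit 317) (nat_lit 263)))))) (XT.nd (nat_lit 546) (nat_lit 380) (nat_lit 0) (XT.nd (nat_lit 234) (nat_lit 152) (nat_lit 0) (XT.nd (nat_lit 78) (nat_lit 152) (nat_lit 0) (XT.lf (nat_lit 0) (nat_lit 10813943638) (nat_lit 76) (nat_lit 2410329508) (nat_lit 152) (nat_lit 10103887697) (nat_lit 33) (nat_lit 5) (nat_lit 34) (nat_lit 5) (nat_lit 35) (nat_lit 4) (nat_lit 441) (nat_lit 317) (nat_lit 262)) (XT.nd (nat_lit 78) (nat_lit 152) (nat_lit 0) (XT.lf (nat_lit 0) (nat_lit 18971984750) (nat_lit 152) (nat_lit 1581070644) (nat_lit 0) (nat_lit 3296533562) (nat_lit 33) (nat_lit 5) (nat_lit 35) (nat_lit 4) (nat_lit 33) (nat_lit 4) (nat_lit 442) (nat_lit 317) (nat_lit 261)) (XT.lf (nat_lit 0) (nat_lit 565441485) (nat_lit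 152) (nat_lit 14635422742) (nat_lit 76) (nat_lit 9183558341) (nat_lit 31) (nat_lit 5) (nat_lit 33) (nat_lit 5) (nat_lit 32) (nat_lit 4) (nat_lit 443) (nat_lit 317) (nat_lit 260)))) (XT.nd (nat_lit 156) (nat_lit 76) (nat_lit 0) (XT.nd (nat_lit 78) (nat_lit 76) (nat_lit 0) (XT.lf (nat_lit 0) (nat_lit 6041450105) (nat_lit 152) (nat_lit 3623802690) (nat_lit 76) (nat_lit 15269571838) (nat_lit 31) (nat_lit 5) (nat_lit 33) (nat_lit 5) (nat_lit 32) (nat_lit 4) (nat_lit 444) (nat_lit 317) (nat_lit 259)) (XT.lf (nat_lit 0) (nat_lit 7780761602) (nat_lit 76) (nat_lit 3928763815) (nat_lit 152) (nat_lit 13791383086) (nat_lit 30) (nat_lit 5) (nat_lit 31) (nat_lit 5) (nat_lit 32) (nat_lit 4) (nat_lit 445) (nat_lit 317) (nat_lit 258))) (XT.nd (nat_lit 78) (nat_lit 76) (nat_lit 0) (XT.lf (nat_lit 0) (nat_lit 17556740088) (nat_lit 152) (nat_lit 6589878948) (nat_lit 0) (nat_lit 1937086176) (nat_lit 30) (nat_lit 5) (nat_lit 32)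 (nat_lit 4) (nat_lit 30) (nat_lit 4) (nat_lit 446) (nat_lit 317) (nat_lit 257)) (XT.lf (nat_lit 0) (nat_lit 4843152797) (nat_lit 76) (nat_lit 18776148370) (nat_lit 76) (nat_lit 3063489901) (nat_lit 29) (nat_lit 4) (nat_lit 30) (nat_lit 5) (nat_lit 30) (nat_lit 4) (nat_lit 447) (nat_lit 317) (nat_lit 256))))) (XT.nd (nat_lit 234) (nat_lit 228) (nat_lit 0) (XT.nd (nat_lit 78) (nat_lit 76) (nat_lit 0) (XT.lf (nat_lit 0) (nat_lit 2535589966) (nat_lit 152) (nat_lit 10655706522) (nat_lit 76) (nat_lit 14107164671) (nat_lit 28) (nat_lit 5) (nat_lit 30) (nat_lit 5) (nat_lit 29) (nat_lit 4) (nat_lit 448) (nat_lit 317) (nat_lit 255)) (XT.nd (nat_lit 78) (nat_lit 0) (nat_lit 0) (XT.lf (nat_lit 0) (nat_lit 764038816) (nat_lit 76) (nat_lit 7440226545) (nat_lit 152) (nat_lit 19728533033) (nat_lit 27) (nat_lit 5) (nat_lit 28) (nat_lit 5) (nat_lit 29) (nat_lit 4) (nat_lit 449) (nat_lit 317) (nat_lit 254)) (XT.lf (nat_lit 0)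 (nat_lit 12661352418) (nat_lit 76) (nat_lit 1445585823) (nat_lit 152) (nat_lit 14477312182) (nat_lit 27) (nat_lit 5) (nat_lit 28) (nat_lit 5) (nat_lit 29) (nat_lit 4) (nat_lit 450) (nat_lit 317) (nat_lit 253)))) (XT.nd (nat_lit 156) (nat_lit 152) (nat_lit 0) (XT.nd (nat_lit 78) (nat_lit 76) (nat_lit 0) (XT.lf (nat_lit 0) (nat_lit 20189384236) (nat_lit 152) (nat_lit 4467045635) (nat_lit 0) (nat_lit 4598738065) (nat_lit 27) (nat_lit 5) (nat_lit 29) (nat_lit 4) (nat_lit 27) (nat_lit 4) (nat_lit 451) (nat_lit 317) (nat_lit 252)) (XT.lf (nat_lit 0) (nat_lit 7382690689) (nat_lit 76) (nat_lit 19115374053) (nat_lit 76) (nat_lit 3446838031) (nat_lit 26) (nat_lit 4) (nat_lit 27) (nat_lit 5) (nat_lit 27) (nat_lit 4) (nat_lit 452) (nat_lit 317) (nat_lit 251))) (XT.nd (nat_lit 78) (nat_lit 76) (nat_lit 0) (XT.lf (nat_lit 0) (nat_lit 2299080536) (nat_lit 152) (nat_lit 11077023748) (nat_lit 76) (nat_lit 17278430465) (nat_lit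 25) (nat_lit 5) (nat_lit 27) (nat_lit 5) (nat_lit 26) (nat_lit 4) (nat_lit 453) (nat_lit 317) (nat_lit 250)) (XT.lf (nat_lit 0) (nat_lit 654084956) (nat_lit 76) (nat_lit 7460033688) (nat_lit 152) (nat_lit 23271335037) (nat_lit 24) (nat_lit 5) (nat_lit 25) (nat_lit 5) (nat_lit 26) (nat_lit 4) (nat_lit 454) (nat_lit 317) (nat_lit 249))))))) (XT.nd (nat_lit 1092) (nat_lit 456) (nat_lit 0) (XT.nd (nat_lit 546) (nat_lit 228) (nat_lit 0) (XT.nd (nat_lit 234) (nat_lit 152) (nat_lit 0) (XT.nd (nat_lit 78) (nat_lit 76) (nat_lit 0) (XT.lf (nat_lit 0) (nat_lit 12887680891) (nat_lit 76) (nat_lit 1287953114) (nat_lit 152) (nat_lit 17960507731) (nat_lit 24) (nat_lit 5) (nat_lit 25) (nat_lit 5) (nat_lit 26) (nat_lit 4) (nat_lit 455) (nat_lit 317) (nat_lit 248)) (XT.nd (nat_lit 78) (nat_lit 76) (nat_lit 0) (XT.lf (nat_lit 0) (nat_lit 20428711573) (nat_lit 152) (nat_lit 7544900448) (nat_lit 0) (nat_lit 4935449180) (nat_lit 24)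 (nat_lit 5) (nat_lit 26) (nat_lit 4) (nat_lit 24) (nat_lit 4) (nat_lit 456) (nat_lit 317) (nat_lit 247)) (XT.lf (nat_lit 0) (nat_lit 4512144886) (nat_lit 76) (nat_lit 22375486003) (nat_lit 76) (nat_lit 6816992085) (nat_lit 23) (nat_lit 4) (nat_lit 24) (nat_lit 5) (nat_lit 24) (nat_lit 4) (nat_lit 457) (nat_lit 317) (nat_lit 246)))) (XT.nd (nat_lit 156) (nat_lit 76) (nat_lit 0) (XT.nd (nat_lit 78) (nat_lit 76) (nat_lit 0) (XT.lf (nat_lit 0) (nat_lit 17013361464) (nat_lit 76) (nat_lit 16565678059) (nat_lit 76) (nat_lit 943852563) (nat_lit 23) (nat_lit 4) (nat_lit 24) (nat_lit 5) (nat_lit 24) (nat_lit 4) (nat_lit 458) (nat_lit 317) (nat_lit 245)) (XT.lf (nat_lit 0) (nat_lit 4969116933) (nat_lit 152) (nat_lit 5596005088) (nat_lit 76) (nat_lit 24800219095) (nat_lit 22) (nat_lit 5) (nat_lit 24) (nat_lit 5) (nat_lit 23) (nat_lit 4) (nat_lit 459) (nat_lit 317) (nat_lit 244))) (XT.nd (nat_lit 78) (nat_lit 0) (nat_lit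 0) (XT.lf (nat_lit 0) (nat_lit 6728100369) (nat_lit 76) (nat_lit 4341411413) (nat_lit 152) (nat_lit 25162403240) (nat_lit 21) (nat_lit 5) (nat_lit 22) (nat_lit 5) (nat_lit 23) (nat_lit 4) (nat_lit 460) (nat_lit 317) (nat_lit 243)) (XT.lf (nat_lit 0) (nat_lit 17394276269) (nat_lit 152) (nat_lit 17675438379) (nat_lit 0) (nat_lit 2053532663) (nat_lit 21) (nat_lit 5) (nat_lit 23) (nat_lit 4) (nat_lit 21) (nat_lit 4) (nat_lit 461) (nat_lit 317) (nat_lit 242))))) (XT.nd (nat_lit 234) (nat_lit 152) (nat_lit 0) (XT.nd (nat_lit 78) (nat_lit 76) (nat_lit 0) (XT.lf (nat_lit 0) (nat_lit 23917205852) (nat_lit 152) (nat_lit 5602031027) (nat_lit 0) (nat_lit 8521831872) (nat_lit 21) (nat_lit 5) (nat_lit 23) (nat_lit 4) (nat_lit 21) (nat_lit 4) (nat_lit 462) (nat_lit 317) (nat_lit 241)) (XT.nd (nat_lit 78) (nat_lit 0) (nat_lit 0) (XT.lf (nat_lit 0) (nat_lit 6903399472) (nat_lit 76) (nat_lit 23765228103) (nat_lit 76) (nat_lit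 8316814924) (nat_lit 20) (nat_lit 4) (nat_lit 21) (nat_lit 5) (nat_lit 21) (nat_lit 4) (nat_lit 463) (nat_lit 317) (nat_lit 240)) (XT.lf (nat_lit 0) (nat_lit 19834575940) (nat_lit 76) (nat_lit 17811389797) (nat_lit 76) (nat_lit 2311482250) (nat_lit 20) (nat_lit 4) (nat_lit 21) (nat_lit 5) (nat_lit 21) (nat_lit 4) (nat_lit 464) (nat_lit 317) (nat_lit 239)))) (XT.nd (nat_lit 156) (nat_lit 0) (nat_lit 0) (XT.nd (nat_lit 78) (nat_lit 76) (nat_lit 0) (XT.lf (nat_lit 0) (nat_lit 3765864875) (nat_lit 152) (nat_lit 7905196382) (nat_lit 76) (nat_lit 29287413332) (nat_lit 19) (nat_lit 5) (nat_lit 21) (nat_lit 5) (nat_lit 20) (nat_lit 4) (nat_lit 465) (nat_lit 317) (nat_lit 238)) (XT.lf (nat_lit 0) (nat_lit 4686376447) (nat_lit 76) (nat_lit 5306144196) (nat_lit 152) (nat_lit 31995922957) (nat_lit 18) (nat_lit 5) (nat_lit 19) (nat_lit 5) (nat_lit 20) (nat_lit 4) (nat_lit 466) (nat_lit 317) (nat_lit 237))) (XT.nd (nat_lit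 78) (nat_lit 0) (nat_lit 0) (XT.lf (nat_lit 0) (nat_lit 16467060929) (nat_lit 152) (nat_lit 25303227853) (nat_lit 0) (nat_lit 1277191900) (nat_lit 18) (nat_lit 5) (nat_lit 20) (nat_lit 4) (nat_lit 18) (nat_lit 4) (nat_lit 467) (nat_lit 317) (nat_lit 236)) (XT.lf (nat_lit 0) (nat_lit 23157746727) (nat_lit 152) (nat_lit 13056428170) (nat_lit 0) (nat_lit 7923458203) (nat_lit 18) (nat_lit 5) (nat_lit 20) (nat_lit 4) (nat_lit 18) (nat_lit 4) (nat_lit 468) (nat_lit 317) (nat_lit 235)))))) (XT.nd (nat_lit 546) (nat_lit 228) (nat_lit 0) (XT.nd (nat_lit 234) (nat_lit 152) (nat_lit 0) (XT.nd (nat_lit 78) (nat_lit 76) (nat_lit 0) (XT.lf (nat_lit 0) (nat_lit 30019418361) (nat_lit 152) (nat_lit 499961112) (nat_lit 0) (nat_lit 14742004115) (nat_lit 18) (nat_lit 5) (nat_lit 20) (nat_lit 4) (nat_lit 18) (nat_lit 4) (nat_lit 469) (nat_lit 317) (nat_lit 234)) (XT.nd (nat_lit 78) (nat_lit 0) (nat_lit 0) (XT.lf (nat_lit 0) (nat_lit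 12623474444) (nat_lit 76) (nat_lit 24555941583) (nat_lit 76) (nat_lit 9236657704) (nat_lit 17) (nat_lit 4) (nat_lit 18) (nat_lit 5) (nat_lit 18) (nat_lit 4) (nat_lit 470) (nat_lit 317) (nat_lit 233)) (XT.lf (nat_lit 0) (nat_lit 26095356371) (nat_lit 76) (nat_lit 18435344486) (nat_lit 76) (nat_lit 3075410477) (nat_lit 17) (nat_lit 4) (nat_lit 18) (nat_lit 5) (nat_lit 18) (nat_lit 4) (nat_lit 471) (nat_lit 317) (nat_lit 232)))) (XT.nd (nat_lit 156) (nat_lit 0) (nat_lit 0) (XT.nd (nat_lit 78) (nat_lit 76) (nat_lit 0) (XT.lf (nat_lit 0) (nat_lit 3178846166) (nat_lit 152) (nat_lit 8946342435) (nat_lit 76) (nat_lit 36706559730) (nat_lit 16) (nat_lit 5) (nat_lit 18) (nat_lit 5) (nat_lit 17) (nat_lit 4) (nat_lit 472) (nat_lit 317) (nat_lit 231)) (XT.lf (nat_lit 0) (nat_lit 3989541632) (nat_lit 76) (nat_lit 5580536413) (nat_lit 152) (nat_lit 40522829355) (nat_lit 15) (nat_lit 5) (nat_lit 16) (nat_lit 5) (nat_lit 17)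 (nat_lit 4) (nat_lit 473) (nat_lit 317) (nat_lit 230))) (XT.nd (nat_lit 78) (nat_lit 0) (nat_lit 0) (XT.lf (nat_lit 0) (nat_lit 16228291397) (nat_lit 152) (nat_lit 33957254006) (nat_lit 0) (nat_lit 1204099721) (nat_lit 15) (nat_lit 5) (nat_lit 17) (nat_lit 4) (nat_lit 15) (nat_lit 4) (nat_lit 474) (nat_lit 317) (nat_lit 229)) (XT.lf (nat_lit 0) (nat_lit 23115149164) (nat_lit 152) (nat_lit 21553377733) (nat_lit 0) (nat_lit 8055892329) (nat_lit 15) (nat_lit 5) (nat_lit 17) (nat_lit 4) (nat_lit 15) (nat_lit 4) (nat_lit 475) (nat_lit 317) (nat_lit 228))))) (XT.nd (nat_lit 312) (nat_lit 152) (nat_lit 0) (XT.nd (nat_lit 156) (nat_lit 0) (nat_lit 0) (XT.nd (nat_lit 78) (nat_lit 76) (nat_lit 0) (XT.lf (nat_lit 0) (nat_lit 30183025459) (nat_lit 152) (nat_lit 8827255079) (nat_lit 0) (nat_lit 15089724780) (nat_lit 15) (nat_lit 5) (nat_lit 17) (nat_lit 4) (nat_lit 15) (nat_lit 4) (nat_lit 476) (nat_lit 317) (nat_lit 227))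 (XT.lf (nat_lit 0) (nat_lit 4316463619) (nat_lit 76) (nat_lit 33163124964) (nat_lit 76) (nat_lit 18036772010) (nat_lit 14) (nat_lit 4) (nat_lit 15) (nat_lit 5) (nat_lit 15) (nat_lit 4) (nat_lit 477) (nat_lit 317) (nat_lit 226))) (XT.nd (nat_lit 78) (nat_lit 0) (nat_lit 0) (XT.lf (nat_lit 0) (nat_lit 17987501249) (nat_lit 76) (nat_lit 27072106071) (nat_lit 76) (nat_lit 11913663530) (nat_lit 14) (nat_lit 4) (nat_lit 15) (nat_lit 5) (nat_lit 15) (nat_lit 4) (nat_lit 478) (nat_lit 317) (nat_lit 225)) (XT.lf (nat_lit 0) (nat_lit 32022123691) (nat_lit 76) (nat_lit 20821039579) (nat_lit 76) (nat_lit 5631442098) (nat_lit 14) (nat_lit 4) (nat_lit 15) (nat_lit 5) (nat_lit 15) (nat_lit 4) (nat_lit 479) (nat_lit 317) (nat_lit 224)))) (XT.nd (nat_lit 156) (nat_lit 76) (nat_lit 0) (XT.nd (nat_lit 78) (nat_lit 0) (nat_lit 0) (XT.lf (nat_lit 0) (nat_lit 799470572) (nat_lit 152) (nat_lit 13596919732) (nat_lit 76) (nat_lit 45625050549)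 (nat_lit 13) (nat_lit 5) (nat_lit 15) (nat_lit 5) (nat_lit 14) (nat_lit 4) (nat_lit 480) (nat_lit 317) (nat_lit 223)) (XT.lf (nat_lit 0) (nat_lit 7287407036) (nat_lit 152) (nat_lit 455775229) (nat_lit 76) (nat_lit 53870508913) (nat_lit 13) (nat_lit 5) (nat_lit 15) (nat_lit 5) (nat_lit 14) (nat_lit 4) (nat_lit 481) (nat_lit 317) (nat_lit 222))) (XT.nd (nat_lit 78) (nat_lit 0) (nat_lit 0) (XT.lf (nat_lit 0) (nat_lit 13296020502) (nat_lit 76) (nat_lit 779715063) (nat_lit 152) (nat_lit 49174801763) (nat_lit 12) (nat_lit 5) (nat_lit 13) (nat_lit 5) (nat_lit 14) (nat_lit 4) (nat_lit 482) (nat_lit 317) (nat_lit 221)) (XT.lf (nat_lit 0) (nat_lit 21111789461) (nat_lit 152) (nat_lit 37571203590) (nat_lit 0) (nat_lit 6252174455) (nat_lit 12) (nat_lit 5) (nat_lit 14) (nat_lit 4) (nat_lit 12) (nat_lit 4) (nat_lit 483) (nat_lit 317) (nat_lit 220))))))))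
noncomputable def xc51 : XT := (XT.nd (nat_lit 46878) (nat_lit 0) (nat_lit 2432) (XT.nd (nat_lit 45786) (nat_lit 0) (nat_lit 6080) (XT.nd (nat_lit 546) (nat_lit 76) (nat_lit 0) (XT.nd (nat_lit 234) (nat_lit 0) (nat_lit 0) (XT.nd (nat_lit 78) (nat_lit 76) (nat_lit 0) (XT.lf (nat_lit 0) (nat_lit 28345263744) (nat_lit 152) (nat_lit 24865926597) (nat_lit 0) (nat_lit 13459556967) (nat_lit 12) (nat_lit 5) (nat_lit 14) (nat_lit 4) (nat_lit 12) (nat_lit 4) (nat_lit 484) (nat_lit 317) (nat_lit 219)) (XT.nd (nat_lit 78) (nat_lit 76) (nat_lit 0) (XT.lf (nat_lit 0) (nat_lit 35774983828) (nat_lit 152) (nat_lit 11820089051) (nat_lit 0) (nat_lit 20863945234) (nat_lit 12) (nat_lit 5) (nat_lit 14) (nat_lit 4) (nat_lit 12) (nat_lit 4) (nat_lit 485) (nat_lit 317) (nat_lit 218)) (XT.lf (nat_lit 0) (nat_lit 1609107811) (nat_lit 76) (nat_lit 41813801618) (nat_lit 76) (nat_lit 26878169026) (nat_lit 11) (nat_lit 4) (nat_lit 12) (nat_lit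 5) (nat_lit 12) (nat_lit 4) (nat_lit 486) (nat_lit 317) (nat_lit 217)))) (XT.nd (nat_lit 156) (nat_lit 0) (nat_lit 0) (XT.nd (nat_lit 78) (nat_lit 0) (nat_lit 0) (XT.lf (nat_lit 0) (nat_lit 15644451944) (nat_lit 76) (nat_lit 35755238598) (nat_lit 76) (nat_lit 20795728340) (nat_lit 11) (nat_lit 4) (nat_lit 12) (nat_lit 5) (nat_lit 12) (nat_lit 4) (nat_lit 487) (nat_lit 317) (nat_lit 216)) (XT.lf (nat_lit 0) (nat_lit 30062964291) (nat_lit 76) (nat_lit 29533449655) (nat_lit 76) (nat_lit 14550757196) (nat_lit 11) (nat_lit 4) (nat_lit 12) (nat_lit 5) (nat_lit 12) (nat_lit 4) (nat_lit 488) (nat_lit 317) (nat_lit 215))) (XT.nd (nat_lit 78) (nat_lit 0) (nat_lit 0) (XT.lf (nat_lit 0) (nat_lit 44877243551) (nat_lit 76) (nat_lit 23142998272) (nat_lit 76) (nat_lit 8137798822) (nat_lit 11) (nat_lit 4) (nat_lit 12) (nat_lit 5) (nat_lit 12) (nat_lit 4) (nat_lit 489) (nat_lit 317) (nat_lit 214)) (XT.lf (nat_lit 0) (nat_lit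 60100234241) (nat_lit 76) (nat_lit 16578300561) (nat_lit 76) (nat_lit 1551249663) (nat_lit 11) (nat_lit 4) (nat_lit 12) (nat_lit 5) (nat_lit 12) (nat_lit 4) (nat_lit 490) (nat_lit 317) (nat_lit 213))))) (XT.nd (nat_lit 44928) (nat_lit 0) (nat_lit 9044) (XT.nd (nat_lit 44772) (nat_lit 0) (nat_lit 10564) (XT.lf (nat_lit 0) (nat_lit 5112889001) (nat_lit 152) (nat_lit 4669101222) (nat_lit 76) (nat_lit 70580718848) (nat_lit 10) (nat_lit 5) (nat_lit 12) (nat_lit 5) (nat_lit 11) (nat_lit 4) (nat_lit 491) (nat_lit 317) (nat_lit 212)) (XT.nd (nat_lit 78) (nat_lit 0) (nat_lit 0) (XT.lf (nat_lit 0) (nat_lit 40286819) (nat_lit 456) (nat_lit 4223956079) (nat_lit 0) (nat_lit 40286819) (nat_lit 149) (nat_lit 5) (nat_lit 155) (nat_lit 4) (nat_lit 149) (nat_lit 4) (nat_lit 384) (nat_lit 318) (nat_lit 318)) (XT.lf (nat_lit 0) (nat_lit 4126752775) (nat_lit 456) (nat_lit 1478624922) (nat_lit 0) (nat_lit 3107411931) (nat_lit 149)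 (nat_lit 5) (nat_lit 155) (nat_lit 4) (nat_lit 149) (nat_lit 4) (nat_lit 385) (nat_lit 318) (nat_lit 317)))) (XT.nd (nat_lit 156) (nat_lit 760) (nat_lit 0) (XT.nd (nat_lit 78) (nat_lit 380) (nat_lit 0) (XT.lf (nat_lit 0) (nat_lit 5670839847) (nat_lit 380) (nat_lit 2579567390) (nat_lit 380) (nat_lit 570575242) (nat_lit 144) (nat_lit 4) (nat_lit 149) (nat_lit 5) (nat_lit 149) (nat_lit 4) (nat_lit 386) (nat_lit 318) (nat_lit 316)) (XT.lf (nat_lit 0) (nat_lit 3457419597) (nat_lit 380) (nat_lit 4901055099) (nat_lit 0) (nat_lit 574100512) (nat_lit 139) (nat_lit 5) (nat_lit 144) (nat_lit 4) (nat_lit 139) (nat_lit 4) (nat_lit 387) (nat_lit 318) (nat_lit 315))) (XT.nd (nat_lit 78) (nat_lit 380) (nat_lit 0) (XT.lf (nat_lit 0) (nat_lit 2319085421) (nat_lit 380) (nat_lit 5258892945) (nat_lit 380) (nat_lit 1469902724) (nat_lit 134) (nat_lit 4) (nat_lit 139) (nat_lit 5) (nat_lit 139) (nat_lit 4) (nat_lit 388) (nat_lit 318)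 (nat_lit 314)) (XT.lf (nat_lit 0) (nat_lit 533663599) (nat_lit 304) (nat_lit 2028871467) (nat_lit 380) (nat_lit 6604608767) (nat_lit 129) (nat_lit 5) (nat_lit 133) (nat_lit 5) (nat_lit 134) (nat_lit 4) (nat_lit 389) (nat_lit 318) (nat_lit 313)))))) (XT.nd (nat_lit 546) (nat_lit 1292) (nat_lit 0) (XT.nd (nat_lit 234) (nat_lit 988) (nat_lit 0) (XT.nd (nat_lit 78) (nat_lit 684) (nat_lit 0) (XT.lf (nat_lit 0) (nat_lit 6672249827) (nat_lit 380) (nat_lit 1306631370) (nat_lit 0) (nat_lit 1311119249) (nat_lit 129) (nat_lit 5) (nat_lit 134) (nat_lit 4) (nat_lit 129) (nat_lit 4) (nat_lit 390) (nat_lit 318) (nat_lit 312)) (XT.nd (nat_lit 78) (nat_lit 304) (nat_lit 0) (XT.lf (nat_lit 0) (nat_lit 1446740994) (nat_lit 380) (nat_lit 3228923434) (nat_lit 76) (nat_lit 4740863084) (nat_lit 124) (nat_lit 5) (nat_lit 129) (nat_lit 5) (nat_lit 125) (nat_lit 4) (nat_lit 391) (nat_lit 318) (nat_lit 311)) (XT.lf (nat_lit 0) (nat_lit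 4305721597) (nat_lit 304) (nat_lit 1237514426) (nat_lit 380) (nat_lit 4003981968) (nat_lit 120) (nat_lit 5) (nat_lit 124) (nat_lit 5) (nat_lit 125) (nat_lit 4) (nat_lit 392) (nat_lit 318) (nat_lit 310)))) (XT.nd (nat_lit 156) (nat_lit 380) (nat_lit 0) (XT.nd (nat_lit 78) (nat_lit 228) (nat_lit 0) (XT.lf (nat_lit 0) (nat_lit 65447002) (nat_lit 380) (nat_lit 7348242439) (nat_lit 76) (nat_lit 2268553799) (nat_lit 115) (nat_lit 5) (nat_lit 120) (nat_lit 5) (nat_lit 116) (nat_lit 4) (nat_lit 393) (nat_lit 318) (nat_lit 309)) (XT.lf (nat_lit 0) (nat_lit 236035608) (nat_lit 228) (nat_lit 3917698688) (nat_lit 304) (nat_lit 5667101564) (nat_lit 112) (nat_lit 5) (nat_lit 115) (nat_lit 5) (nat_lit 116) (nat_lit 4) (nat_lit 394) (nat_lit 318) (nat_lit 308))) (XT.nd (nat_lit 78) (nat_lit 380) (nat_lit 0) (XT.lf (nat_lit 0) (nat_lit 8059225149) (nat_lit 228) (nat_lit 290228878) (nat_lit 304) (nat_lit 1614611494) (nat_lit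 112) (nat_lit 5) (nat_lit 115) (nat_lit 5) (nat_lit 116) (nat_lit 4) (nat_lit 395) (nat_lit 318) (nat_lit 307)) (XT.lf (nat_lit 0) (nat_lit 2512569981) (nat_lit 380) (nat_lit 4184988673) (nat_lit 76) (nat_lit 3413224970) (nat_lit 107) (nat_lit 5) (nat_lit 112) (nat_lit 5) (nat_lit 108) (nat_lit 4) (nat_lit 396) (nat_lit 318) (nat_lit 306))))) (XT.nd (nat_lit 234) (nat_lit 760) (nat_lit 0) (XT.nd (nat_lit 78) (nat_lit 304) (nat_lit 0) (XT.lf (nat_lit 0) (nat_lit 3684152910) (nat_lit 228) (nat_lit 3017757513) (nat_lit 304) (nat_lit 3560410236) (nat_lit 104) (nat_lit 5) (nat_lit 107) (nat_lit 5) (nat_lit 108) (nat_lit 4) (nat_lit 397) (nat_lit 318) (nat_lit 305)) (XT.nd (nat_lit 78) (nat_lit 0) (nat_lit 0) (XT.lf (nat_lit 0) (nat_lit 563376322) (nat_lit 304) (nat_lit 9086873467) (nat_lit 76) (nat_lit 768705207) (nat_lit 100) (nat_lit 5) (nat_lit 104) (nat_lit 5) (nat_lit 101) (nat_lit 4) (nat_lit 398) (nat_lit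 318) (nat_lit 304)) (XT.lf (nat_lit 0) (nat_lit 4750424911) (nat_lit 304) (nat_lit 1168480671) (nat_lit 76) (nat_lit 4660011035) (nat_lit 100) (nat_lit 5) (nat_lit 104) (nat_lit 5) (nat_lit 101) (nat_lit 4) (nat_lit 399) (nat_lit 318) (nat_lit 303)))) (XT.nd (nat_lit 156) (nat_lit 228) (nat_lit 0) (XT.nd (nat_lit 78) (nat_lit 304) (nat_lit 0) (XT.lf (nat_lit 0) (nat_lit 6989008403) (nat_lit 228) (nat_lit 2057905860) (nat_lit 304) (nat_lit 1697266464) (nat_lit 97) (nat_lit 5) (nat_lit 100) (nat_lit 5) (nat_lit 101) (nat_lit 4) (nat_lit 400) (nat_lit 318) (nat_lit 302)) (XT.lf (nat_lit 0) (nat_lit 2498146017) (nat_lit 304) (nat_lit 6505631045) (nat_lit 76) (nat_lit 1910200585) (nat_lit 93) (nat_lit 5) (nat_lit 97) (nat_lit 5) (nat_lit 94) (nat_lit 4) (nat_lit 401) (nat_lit 318) (nat_lit 301))) (XT.nd (nat_lit 78) (nat_lit 0) (nat_lit 0) (XT.lf (nat_lit 0) (nat_lit 1665120779) (nat_lit 228) (nat_lit 5112455493)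 (nat_lit 304) (nat_lit 4311036950) (nat_lit 90) (nat_lit 5) (nat_lit 93) (nat_lit 5) (nat_lit 94) (nat_lit 4) (nat_lit 402) (nat_lit 318) (nat_lit 300)) (XT.lf (nat_lit 0) (nat_lit 10079851996) (nat_lit 228) (nat_lit 1089930861) (nat_lit 304) (nat_lit 99189659) (nat_lit 90) (nat_lit 5) (nat_lit 93) (nat_lit 5) (nat_lit 94) (nat_lit 4) (nat_lit 403) (nat_lit 318) (nat_lit 299))))))) (XT.nd (nat_lit 1092) (nat_lit 1520) (nat_lit 0) (XT.nd (nat_lit 546) (nat_lit 912) (nat_lit 0) (XT.nd (nat_lit 234) (nat_lit 456) (nat_lit 0) (XT.nd (nat_lit 78) (nat_lit 456) (nat_lit 0) (XT.lf (nat_lit 0) (nat_lit 4176302427) (nat_lit 304) (nat_lit 4222737207) (nat_lit 76) (nat_lit 3053895792) (nat_lit 86) (nat_lit 5) (nat_lit 90) (nat_lit 5) (nat_lit 87) (nat_lit 4) (nat_lit 404) (nat_lit 318) (nat_lit 298)) (XT.nd (nat_lit 78) (nat_lit 304) (nat_lit 0) (XT.lf (nat_lit 0) (nat_lit 4222148262) (nat_lit 152) (nat_lit 4340253456)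 (nat_lit 228) (nat_lit 3080471019) (nat_lit 84) (nat_lit 5) (nat_lit 86) (nat_lit 5) (nat_lit 87) (nat_lit 4) (nat_lit 405) (nat_lit 318) (nat_lit 297)) (XT.lf (nat_lit 0) (nat_lit 1044694969) (nat_lit 228) (nat_lit 146845461) (nat_lit 304) (nat_lit 10647398121) (nat_lit 80) (nat_lit 5) (nat_lit 83) (nat_lit 5) (nat_lit 84) (nat_lit 5) (nat_lit 406) (nat_lit 318) (nat_lit 296)))) (XT.nd (nat_lit 156) (nat_lit 304) (nat_lit 0) (XT.nd (nat_lit 78) (nat_lit 152) (nat_lit 0) (XT.lf (nat_lit 0) (nat_lit 5567182560) (nat_lit 304) (nat_lit 2327367936) (nat_lit 76) (nat_lit 4144313088) (nat_lit 80) (nat_lit 5) (nat_lit 84) (nat_lit 5) (nat_lit 81) (nat_lit 4) (nat_lit 407) (nat_lit 318) (nat_lit 295)) (XT.lf (nat_lit 0) (nat_lit 6387008902) (nat_lit 152) (nat_lit 3673819014) (nat_lit 228) (nat_lit 2184369815) (nat_lit 78) (nat_lit 5) (nat_lit 80) (nat_lit 5) (nat_lit 81) (nat_lit 4) (nat_lit 408) (nat_lit 318) (nat_lit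 294))) (XT.nd (nat_lit 78) (nat_lit 0) (nat_lit 0) (XT.lf (nat_lit 0) (nat_lit 2170003400) (nat_lit 304) (nat_lit 9606853844) (nat_lit 76) (nat_lit 680774082) (nat_lit 74) (nat_lit 5) (nat_lit 78) (nat_lit 5) (nat_lit 75) (nat_lit 4) (nat_lit 409) (nat_lit 318) (nat_lit 293)) (XT.lf (nat_lit 0) (nat_lit 6631787633) (nat_lit 304) (nat_lit 922556367) (nat_lit 76) (nat_lit 5120836843) (nat_lit 74) (nat_lit 5) (nat_lit 78) (nat_lit 5) (nat_lit 75) (nat_lit 4) (nat_lit 410) (nat_lit 318) (nat_lit 292))))) (XT.nd (nat_lit 234) (nat_lit 532) (nat_lit 0) (XT.nd (nat_lit 78) (nat_lit 228) (nat_lit 0) (XT.lf (nat_lit 0) (nat_lit 8052801959) (nat_lit 152) (nat_lit 3178796087) (nat_lit 228) (nat_lit 1667545508) (nat_lit 72) (nat_lit 5) (nat_lit 74) (nat_lit 5) (nat_lit 75) (nat_lit 4) (nat_lit 411) (nat_lit 318) (nat_lit 291)) (XT.nd (nat_lit 78) (nat_lit 0) (nat_lit 0) (XT.lf (nat_lit 0) (nat_lit 2773078861) (nat_lit 228)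 (nat_lit 9029919541) (nat_lit 76) (nat_lit 1326351729) (nat_lit 69) (nat_lit 5) (nat_lit 72) (nat_lit 5) (nat_lit 70) (nat_lit 4) (nat_lit 412) (nat_lit 318) (nat_lit 290)) (XT.lf (nat_lit 0) (nat_lit 7321673216) (nat_lit 228) (nat_lit 127789300) (nat_lit 76) (nat_lit 5916267937) (nat_lit 69) (nat_lit 5) (nat_lit 72) (nat_lit 5) (nat_lit 70) (nat_lit 4) (nat_lit 413) (nat_lit 318) (nat_lit 289)))) (XT.nd (nat_lit 156) (nat_lit 152) (nat_lit 0) (XT.nd (nat_lit 78) (nat_lit 228) (nat_lit 0) (XT.lf (nat_lit 0) (nat_lit 9095346430) (nat_lit 152) (nat_lit 2928295366) (nat_lit 228) (nat_lit 1585063460) (nat_lit 67) (nat_lit 5) (nat_lit 69) (nat_lit 5) (nat_lit 70) (nat_lit 4) (nat_lit 414) (nat_lit 318) (nat_lit 288)) (XT.lf (nat_lit 0) (nat_lit 2941786183) (nat_lit 228) (nat_lit 9198205431) (nat_lit 76) (nat_lit 1718336974) (nat_lit 64) (nat_lit 5) (nat_lit 67) (nat_lit 5) (nat_lit 65) (nat_lit 4) (nat_lit 415) (nat_lit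 318) (nat_lit 287))) (XT.nd (nat_lit 78) (nat_lit 152) (nat_lit 0) (XT.lf (nat_lit 0) (nat_lit 7577628912) (nat_lit 228) (nat_lit 81992631) (nat_lit 76) (nat_lit 6455206559) (nat_lit 64) (nat_lit 5) (nat_lit 67) (nat_lit 5) (nat_lit 65) (nat_lit 4) (nat_lit 416) (nat_lit 318) (nat_lit 286)) (XT.lf (nat_lit 0) (nat_lit 9370054576) (nat_lit 152) (nat_lit 3004626592) (nat_lit 228) (nat_lit 2003686789) (nat_lit 62) (nat_lit 5) (nat_lit 64) (nat_lit 5) (nat_lit 65) (nat_lit 4) (nat_lit 417) (nat_lit 318) (nat_lit 285)))))) (XT.nd (nat_lit 546) (nat_lit 608) (nat_lit 0) (XT.nd (nat_lit 234) (nat_lit 532) (nat_lit 0) (XT.nd (nat_lit 78) (nat_lit 152) (nat_lit 0) (XT.lf (nat_lit 0) (nat_lit 2606515140) (nat_lit 228) (nat_lit 10270121719) (nat_lit 76) (nat_lit 1772636102) (nat_lit 59) (nat_lit 5) (nat_lit 62) (nat_lit 5) (nat_lit 60) (nat_lit 4) (nat_lit 418) (nat_lit 318) (nat_lit 284)) (XT.nd (nat_lit 78) (nat_lit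 152) (nat_lit 0) (XT.lf (nat_lit 0) (nat_lit 7328117193) (nat_lit 228) (nat_lit 946971580) (nat_lit 76) (nat_lit 6652228789) (nat_lit 59) (nat_lit 5) (nat_lit 62) (nat_lit 5) (nat_lit 60) (nat_lit 4) (nat_lit 419) (nat_lit 318) (nat_lit 283)) (XT.lf (nat_lit 0) (nat_lit 8708327179) (nat_lit 152) (nat_lit 3501257206) (nat_lit 228) (nat_lit 3003580942) (nat_lit 57) (nat_lit 5) (nat_lit 59) (nat_lit 5) (nat_lit 60) (nat_lit 4) (nat_lit 420) (nat_lit 318) (nat_lit 282)))) (XT.nd (nat_lit 156) (nat_lit 304) (nat_lit 0) (XT.nd (nat_lit 78) (nat_lit 0) (nat_lit 0) (XT.lf (nat_lit 0) (nat_lit 1683833105) (nat_lit 228) (nat_lit 12430176450) (nat_lit 76) (nat_lit 1393457478) (nat_lit 54) (nat_lit 5) (nat_lit 57) (nat_lit 5) (nat_lit 55) (nat_lit 4) (nat_lit 421) (nat_lit 318) (nat_lit 281)) (XT.lf (nat_lit 0) (nat_lit 6487435830) (nat_lit 228) (nat_lit 2911381782) (nat_lit 76) (nat_lit 6409817598) (nat_lit 54) (nat_lit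 5) (nat_lit 57) (nat_lit 5) (nat_lit 55) (nat_lit 4) (nat_lit 422) (nat_lit 318) (nat_lit 280))) (XT.nd (nat_lit 78) (nat_lit 228) (nat_lit 0) (XT.lf (nat_lit 0) (nat_lit 6913390751) (nat_lit 76) (nat_lit 4525039662) (nat_lit 152) (nat_lit 4680316914) (nat_lit 53) (nat_lit 5) (nat_lit 54) (nat_lit 5) (nat_lit 55) (nat_lit 4) (nat_lit 423) (nat_lit 318) (nat_lit 279)) (XT.lf (nat_lit 0) (nat_lit 74394421) (nat_lit 228) (nat_lit 15893439825) (nat_lit 76) (nat_lit 471010274) (nat_lit 50) (nat_lit 5) (nat_lit 53) (nat_lit 5) (nat_lit 51) (nat_lit 4) (nat_lit 424) (nat_lit 318) (nat_lit 278))))) (XT.nd (nat_lit 312) (nat_lit 304) (nat_lit 0) (XT.nd (nat_lit 156) (nat_lit 228) (nat_lit 0) (XT.nd (nat_lit 78) (nat_lit 76) (nat_lit 0) (XT.lf (nat_lit 0) (nat_lit 4953562290) (nat_lit 228) (nat_lit 6195319050) (nat_lit 76) (nat_lit 5616003327) (nat_lit 50) (nat_lit 5) (nat_lit 53) (nat_lit 5) (nat_lit 51) (nat_lit 4)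 (nat_lit 425) (nat_lit 318) (nat_lit 277)) (XT.lf (nat_lit 0) (nat_lit 3755484500) (nat_lit 76) (nat_lit 6198755802) (nat_lit 152) (nat_lit 7147218246) (nat_lit 49) (nat_lit 5) (nat_lit 50) (nat_lit 5) (nat_lit 51) (nat_lit 4) (nat_lit 426) (nat_lit 318) (nat_lit 276))) (XT.nd (nat_lit 78) (nat_lit 228) (nat_lit 0) (XT.lf (nat_lit 0) (nat_lit 14021359815) (nat_lit 76) (nat_lit 1085888468) (nat_lit 152) (nat_lit 2340818463) (nat_lit 49) (nat_lit 5) (nat_lit 50) (nat_lit 5) (nat_lit 51) (nat_lit 4) (nat_lit 427) (nat_lit 318) (nat_lit 275)) (XT.lf (nat_lit 0) (nat_lit 2605631592) (nat_lit 228) (nat_lit 11055629338) (nat_lit 76) (nat_lit 4141662150) (nat_lit 46) (nat_lit 5) (nat_lit 49) (nat_lit 5) (nat_lit 47) (nat_lit 4) (nat_lit 428) (nat_lit 318) (nat_lit 274)))) (XT.nd (nat_lit 156) (nat_lit 228) (nat_lit 0) (XT.nd (nat_lit 78) (nat_lit 76) (nat_lit 0) (XT.lf (nat_lit 0) (nat_lit 7640260943) (nat_lit 228)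 (nat_lit 1013538102) (nat_lit 76) (nat_lit 9514331596) (nat_lit 46) (nat_lit 5) (nat_lit 49) (nat_lit 5) (nat_lit 47) (nat_lit 4) (nat_lit 429) (nat_lit 318) (nat_lit 273)) (XT.lf (nat_lit 0) (nat_lit 9407923329) (nat_lit 76) (nat_lit 3451291950) (nat_lit 152) (nat_lit 5684086244) (nat_lit 45) (nat_lit 5) (nat_lit 46) (nat_lit 5) (nat_lit 47) (nat_lit 4) (nat_lit 430) (nat_lit 318) (nat_lit 272))) (XT.nd (nat_lit 78) (nat_lit 76) (nat_lit 0) (XT.lf (nat_lit 0) (nat_lit 1131345762) (nat_lit 152) (nat_lit 17085988805) (nat_lit 152) (nat_lit 712920588) (nat_lit 43) (nat_lit 4) (nat_lit 45) (nat_lit 5) (nat_lit 45) (nat_lit 4) (nat_lit 431) (nat_lit 318) (nat_lit 271)) (XT.lf (nat_lit 0) (nat_lit 4391851334) (nat_lit 228) (nat_lit 7615944040) (nat_lit 76) (nat_lit 7317641969) (nat_lit 42) (nat_lit 5) (nat_lit 45) (nat_lit 5) (nat_lit 43) (nat_lit 4) (nat_lit 432) (nat_lit 318) (nat_lit 270))))))))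
noncomputable def xc52 : XT := (XT.nd (nat_lit 2184) (nat_lit 836) (nat_lit 0) (XT.nd (nat_lit 1092) (nat_lit 608) (nat_lit 0) (XT.nd (nat_lit 546) (nat_lit 380) (nat_lit 0) (XT.nd (nat_lit 234) (nat_lit 228) (nat_lit 0) (XT.nd (nat_lit 78) (nat_lit 228) (nat_lit 0) (XT.lf (nat_lit 0) (nat_lit 2817735967) (nat_lit 76) (nat_lit 6789584513) (nat_lit 152) (nat_lit 10125791310) (nat_lit 41) (nat_lit 5) (nat_lit 42) (nat_lit 5) (nat_lit 43) (nat_lit 4) (nat_lit 433) (nat_lit 318) (nat_lit 269)) (XT.nd (nat_lit 78) (nat_lit 228) (nat_lit 0) (XT.lf (nat_lit 0) (nat_lit 13618852757) (nat_lit 76) (nat_lit 1382734620) (nat_lit 152) (nat_lit 5150763982) (nat_lit 41) (nat_lit 5) (nat_lit 42) (nat_lit 5) (nat_lit 43) (nat_lit 4) (nat_lit 434) (nat_lit 318) (nat_lit 268)) (XT.lf (nat_lit 0) (nat_lit 513698) (nat_lit 228) (nat_lit 16483683101) (nat_lit 76) (nat_lit 4099189087) (nat_lit 38) (nat_lit 5) (nat_lit 41) (nat_lit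 5) (nat_lit 39) (nat_lit 4) (nat_lit 435) (nat_lit 318) (nat_lit 267)))) (XT.nd (nat_lit 156) (nat_lit 152) (nat_lit 0) (XT.nd (nat_lit 78) (nat_lit 76) (nat_lit 0) (XT.lf (nat_lit 0) (nat_lit 5229778729) (nat_lit 228) (nat_lit 6004855416) (nat_lit 76) (nat_lit 9790382630) (nat_lit 38) (nat_lit 5) (nat_lit 41) (nat_lit 5) (nat_lit 39) (nat_lit 4) (nat_lit 436) (nat_lit 318) (nat_lit 266)) (XT.lf (nat_lit 0) (nat_lit 4784642083) (nat_lit 76) (nat_lit 5825481354) (nat_lit 152) (nat_lit 10869951451) (nat_lit 37) (nat_lit 5) (nat_lit 38) (nat_lit 5) (nat_lit 39) (nat_lit 4) (nat_lit 437) (nat_lit 318) (nat_lit 265))) (XT.nd (nat_lit 78) (nat_lit 152) (nat_lit 0) (XT.lf (nat_lit 0) (nat_lit 15924809114) (nat_lit 76) (nat_lit 236500080) (nat_lit 152) (nat_lit 5787196854) (nat_lit 37) (nat_lit 5) (nat_lit 38) (nat_lit 5) (nat_lit 39) (nat_lit 4) (nat_lit 438) (nat_lit 318) (nat_lit 264)) (XT.lf (nat_lit 0) (nat_lit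 4916683913) (nat_lit 152) (nat_lit 17012537687) (nat_lit 152) (nat_lit 500266912) (nat_lit 35) (nat_lit 4) (nat_lit 37) (nat_lit 5) (nat_lit 37) (nat_lit 4) (nat_lit 439) (nat_lit 318) (nat_lit 263))))) (XT.nd (nat_lit 234) (nat_lit 228) (nat_lit 0) (XT.nd (nat_lit 78) (nat_lit 76) (nat_lit 0) (XT.lf (nat_lit 0) (nat_lit 4862475178) (nat_lit 228) (nat_lit 6759261552) (nat_lit 76) (nat_lit 11301330349) (nat_lit 34) (nat_lit 5) (nat_lit 37) (nat_lit 5) (nat_lit 35) (nat_lit 4) (nat_lit 440) (nat_lit 318) (nat_lit 262)) (XT.nd (nat_lit 78) (nat_lit 0) (nat_lit 0) (XT.lf (nat_lit 0) (nat_lit 4304215503) (nat_lit 76) (nat_lit 6064595108) (nat_lit 152) (nat_lit 13062714573) (nat_lit 33) (nat_lit 5) (nat_lit 34) (nat_lit 5) (nat_lit 35) (nat_lit 4) (nat_lit 441) (nat_lit 318) (nat_lit 261)) (XT.lf (nat_lit 0) (nat_lit 15747344329) (nat_lit 76) (nat_lit 313181124) (nat_lit 152) (nat_lit 7894109541) (nat_lit 33) (nat_lit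 5) (nat_lit 34) (nat_lit 5) (nat_lit 35) (nat_lit 4) (nat_lit 442) (nat_lit 318) (nat_lit 260)))) (XT.nd (nat_lit 156) (nat_lit 76) (nat_lit 0) (XT.nd (nat_lit 78) (nat_lit 76) (nat_lit 0) (XT.lf (nat_lit 0) (nat_lit 2954884764) (nat_lit 76) (nat_lit 19003380457) (nat_lit 76) (nat_lit 2534118211) (nat_lit 32) (nat_lit 4) (nat_lit 33) (nat_lit 5) (nat_lit 33) (nat_lit 4) (nat_lit 443) (nat_lit 318) (nat_lit 259)) (XT.lf (nat_lit 0) (nat_lit 2968184020) (nat_lit 152) (nat_lit 10545477272) (nat_lit 76) (nat_lit 11530551318) (nat_lit 31) (nat_lit 5) (nat_lit 33) (nat_lit 5) (nat_lit 32) (nat_lit 4) (nat_lit 444) (nat_lit 318) (nat_lit 258))) (XT.nd (nat_lit 78) (nat_lit 0) (nat_lit 0) (XT.lf (nat_lit 0) (nat_lit 677804937) (nat_lit 76) (nat_lit 7867694720) (nat_lit 152) (nat_lit 17067521207) (nat_lit 30) (nat_lit 5) (nat_lit 31) (nat_lit 5) (nat_lit 32) (nat_lit 4) (nat_lit 445) (nat_lit 318) (nat_lit 257)) (XT.lf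 (nat_lit 0) (nat_lit 12368170966) (nat_lit 76) (nat_lit 1983319195) (nat_lit 152) (nat_lit 11845565687) (nat_lit 30) (nat_lit 5) (nat_lit 31) (nat_lit 5) (nat_lit 32) (nat_lit 4) (nat_lit 446) (nat_lit 318) (nat_lit 256)))))) (XT.nd (nat_lit 546) (nat_lit 304) (nat_lit 0) (XT.nd (nat_lit 234) (nat_lit 152) (nat_lit 0) (XT.nd (nat_lit 78) (nat_lit 152) (nat_lit 0) (XT.lf (nat_lit 0) (nat_lit 20326658558) (nat_lit 152) (nat_lit 2512786335) (nat_lit 0) (nat_lit 3959320094) (nat_lit 30) (nat_lit 5) (nat_lit 32) (nat_lit 4) (nat_lit 30) (nat_lit 4) (nat_lit 447) (nat_lit 318) (nat_lit 255)) (XT.nd (nat_lit 78) (nat_lit 76) (nat_lit 0) (XT.lf (nat_lit 0) (nat_lit 9221326667) (nat_lit 76) (nat_lit 17325122431) (nat_lit 76) (nat_lit 870118253) (nat_lit 29) (nat_lit 4) (nat_lit 30) (nat_lit 5) (nat_lit 30) (nat_lit 4) (nat_lit 448) (nat_lit 318) (nat_lit 254)) (XT.lf (nat_lit 0) (nat_lit 4787077444) (nat_lit 152) (nat_lit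 6822349309) (nat_lit 76) (nat_lit 16442583897) (nat_lit 28) (nat_lit 5) (nat_lit 30) (nat_lit 5) (nat_lit 29) (nat_lit 4) (nat_lit 449) (nat_lit 318) (nat_lit 253)))) (XT.nd (nat_lit 156) (nat_lit 76) (nat_lit 0) (XT.nd (nat_lit 78) (nat_lit 0) (nat_lit 0) (XT.lf (nat_lit 0) (nat_lit 4899272425) (nat_lit 76) (nat_lit 5702708999) (nat_lit 152) (nat_lit 18104115659) (nat_lit 27) (nat_lit 5) (nat_lit 28) (nat_lit 5) (nat_lit 29) (nat_lit 4) (nat_lit 450) (nat_lit 318) (nat_lit 252)) (XT.lf (nat_lit 0) (nat_lit 16623052864) (nat_lit 152) (nat_lit 12349233354) (nat_lit 0) (nat_lit 406570910) (nat_lit 27) (nat_lit 5) (nat_lit 29) (nat_lit 4) (nat_lit 27) (nat_lit 4) (nat_lit 451) (nat_lit 318) (nat_lit 251))) (XT.nd (nat_lit 78) (nat_lit 76) (nat_lit 0) (XT.lf (nat_lit 0) (nat_lit 22840909653) (nat_lit 152) (nat_lit 681601800) (nat_lit 0) (nat_lit 6548806483) (nat_lit 27) (nat_lit 5) (nat_lit 29) (nat_lit 4) (nat_lit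 27) (nat_lit 4) (nat_lit 452) (nat_lit 318) (nat_lit 250)) (XT.lf (nat_lit 0) (nat_lit 11485200582) (nat_lit 76) (nat_lit 17831369133) (nat_lit 76) (nat_lit 1465847308) (nat_lit 26) (nat_lit 4) (nat_lit 27) (nat_lit 5) (nat_lit 27) (nat_lit 4) (nat_lit 453) (nat_lit 318) (nat_lit 249))))) (XT.nd (nat_lit 234) (nat_lit 152) (nat_lit 0) (XT.nd (nat_lit 78) (nat_lit 76) (nat_lit 0) (XT.lf (nat_lit 0) (nat_lit 4352248868) (nat_lit 152) (nat_lit 7601736871) (nat_lit 76) (nat_lit 19560540463) (nat_lit 25) (nat_lit 5) (nat_lit 27) (nat_lit 5) (nat_lit 26) (nat_lit 4) (nat_lit 454) (nat_lit 318) (nat_lit 248)) (XT.nd (nat_lit 78) (nat_lit 0) (nat_lit 0) (XT.lf (nat_lit 0) (nat_lit 4443975707) (nat_lit 76) (nat_lit 5876212423) (nat_lit 152) (nat_lit 21947834529) (nat_lit 24) (nat_lit 5) (nat_lit 25) (nat_lit 5) (nat_lit 26) (nat_lit 4) (nat_lit 455) (nat_lit 318) (nat_lit 247)) (XT.lf (nat_lit 0) (nat_lit 16510502371)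 (nat_lit 152) (nat_lit 16112301627) (nat_lit 0) (nat_lit 420022111) (nat_lit 24) (nat_lit 5) (nat_lit 26) (nat_lit 4) (nat_lit 24) (nat_lit 4) (nat_lit 456) (nat_lit 318) (nat_lit 246)))) (XT.nd (nat_lit 156) (nat_lit 76) (nat_lit 0) (XT.nd (nat_lit 78) (nat_lit 76) (nat_lit 0) (XT.lf (nat_lit 0) (nat_lit 22907933461) (nat_lit 152) (nat_lit 4178178498) (nat_lit 0) (nat_lit 6754121623) (nat_lit 24) (nat_lit 5) (nat_lit 26) (nat_lit 4) (nat_lit 24) (nat_lit 4) (nat_lit 457) (nat_lit 318) (nat_lit 245)) (XT.lf (nat_lit 0) (nat_lit 8205352030) (nat_lit 76) (nat_lit 21335108471) (nat_lit 76) (nat_lit 5119809666) (nat_lit 23) (nat_lit 4) (nat_lit 24) (nat_lit 5) (nat_lit 24) (nat_lit 4) (nat_lit 458) (nat_lit 318) (nat_lit 244))) (XT.nd (nat_lit 78) (nat_lit 0) (nat_lit 0) (XT.lf (nat_lit 0) (nat_lit 857077426) (nat_lit 152) (nat_lit 14535127714) (nat_lit 76) (nat_lit 20112246388) (nat_lit 22) (nat_lit 5) (nat_lit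 24) (nat_lit 5) (nat_lit 23) (nat_lit 4) (nat_lit 459) (nat_lit 318) (nat_lit 243)) (XT.lf (nat_lit 0) (nat_lit 6875739048) (nat_lit 152) (nat_lit 2375201986) (nat_lit 76) (nat_lit 27122537333) (nat_lit 22) (nat_lit 5) (nat_lit 24) (nat_lit 5) (nat_lit 23) (nat_lit 4) (nat_lit 460) (nat_lit 318) (nat_lit 242))))))) (XT.nd (nat_lit 1092) (nat_lit 304) (nat_lit 0) (XT.nd (nat_lit 546) (nat_lit 228) (nat_lit 0) (XT.nd (nat_lit 234) (nat_lit 228) (nat_lit 0) (XT.nd (nat_lit 78) (nat_lit 0) (nat_lit 0) (XT.lf (nat_lit 0) (nat_lit 10285404249) (nat_lit 76) (nat_lit 2854805499) (nat_lit 152) (nat_lit 24126410632) (nat_lit 21) (nat_lit 5) (nat_lit 22) (nat_lit 5) (nat_lit 23) (nat_lit 4) (nat_lit 461) (nat_lit 318) (nat_lit 241)) (XT.nd (nat_lit 78) (nat_lit 0) (nat_lit 0) (XT.lf (nat_lit 0) (nat_lit 19619167419) (nat_lit 152) (nat_lit 14912331796) (nat_lit 0) (nat_lit 3654262646) (nat_lit 21) (nat_lit 5) (nat_lit 23)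 (nat_lit 4) (nat_lit 21) (nat_lit 4) (nat_lit 462) (nat_lit 318) (nat_lit 240)) (XT.lf (nat_lit 0) (nat_lit 26288181117) (nat_lit 152) (nat_lit 2572645614) (nat_lit 0) (nat_lit 10271781976) (nat_lit 21) (nat_lit 5) (nat_lit 23) (nat_lit 4) (nat_lit 21) (nat_lit 4) (nat_lit 463) (nat_lit 318) (nat_lit 239)))) (XT.nd (nat_lit 156) (nat_lit 152) (nat_lit 0) (XT.nd (nat_lit 78) (nat_lit 0) (nat_lit 0) (XT.lf (nat_lit 0) (nat_lit 10276600287) (nat_lit 76) (nat_lit 22947820681) (nat_lit 76) (nat_lit 6881427008) (nat_lit 20) (nat_lit 4) (nat_lit 21) (nat_lit 5) (nat_lit 21) (nat_lit 4) (nat_lit 464) (nat_lit 318) (nat_lit 238)) (XT.lf (nat_lit 0) (nat_lit 23503495578) (nat_lit 76) (nat_lit 16859940943) (nat_lit 76) (nat_lit 745008889) (nat_lit 20) (nat_lit 4) (nat_lit 21) (nat_lit 5) (nat_lit 21) (nat_lit 4) (nat_lit 465) (nat_lit 318) (nat_lit 237))) (XT.nd (nat_lit 78) (nat_lit 76) (nat_lit 0) (XT.lf (nat_lit 0)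 (nat_lit 5436022501) (nat_lit 152) (nat_lit 5126931016) (nat_lit 76) (nat_lit 31577481376) (nat_lit 19) (nat_lit 5) (nat_lit 21) (nat_lit 5) (nat_lit 20) (nat_lit 4) (nat_lit 466) (nat_lit 318) (nat_lit 236)) (XT.lf (nat_lit 0) (nat_lit 7812826045) (nat_lit 76) (nat_lit 4019998988) (nat_lit 152) (nat_lit 31368979814) (nat_lit 18) (nat_lit 5) (nat_lit 19) (nat_lit 5) (nat_lit 20) (nat_lit 4) (nat_lit 467) (nat_lit 318) (nat_lit 235))))) (XT.nd (nat_lit 234) (nat_lit 152) (nat_lit 0) (XT.nd (nat_lit 78) (nat_lit 76) (nat_lit 0) (XT.lf (nat_lit 0) (nat_lit 18470220488) (nat_lit 152) (nat_lit 23131978113) (nat_lit 0) (nat_lit 2691358092) (nat_lit 18) (nat_lit 5) (nat_lit 20) (nat_lit 4) (nat_lit 18) (nat_lit 4) (nat_lit 468) (nat_lit 318) (nat_lit 234)) (XT.nd (nat_lit 78) (nat_lit 76) (nat_lit 0) (XT.lf (nat_lit 0) (nat_lit 25317671100) (nat_lit 152) (nat_lit 10603124339) (nat_lit 0) (nat_lit 9496939071) (nat_lit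 18) (nat_lit 5) (nat_lit 20) (nat_lit 4) (nat_lit 18) (nat_lit 4) (nat_lit 469) (nat_lit 318) (nat_lit 233)) (XT.lf (nat_lit 0) (nat_lit 2291895892) (nat_lit 76) (nat_lit 30072652602) (nat_lit 76) (nat_lit 14211270443) (nat_lit 17) (nat_lit 4) (nat_lit 18) (nat_lit 5) (nat_lit 18) (nat_lit 4) (nat_lit 470) (nat_lit 318) (nat_lit 232)))) (XT.nd (nat_lit 156) (nat_lit 152) (nat_lit 0) (XT.nd (nat_lit 78) (nat_lit 0) (nat_lit 0) (XT.lf (nat_lit 0) (nat_lit 15737231639) (nat_lit 76) (nat_lit 23964941829) (nat_lit 76) (nat_lit 8064093525) (nat_lit 17) (nat_lit 4) (nat_lit 18) (nat_lit 5) (nat_lit 18) (nat_lit 4) (nat_lit 471) (nat_lit 318) (nat_lit 231)) (XT.lf (nat_lit 0) (nat_lit 29533608288) (nat_lit 76) (nat_lit 17699397052) (nat_lit 76) (nat_lit 1760232103) (nat_lit 17) (nat_lit 4) (nat_lit 18) (nat_lit 5) (nat_lit 18) (nat_lit 4) (nat_lit 472) (nat_lit 318) (nat_lit 230))) (XT.nd (nat_lit 78) (nat_lit 76) (nat_lit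 0) (XT.lf (nat_lit 0) (nat_lit 4613994514) (nat_lit 152) (nat_lit 6609956711) (nat_lit 76) (nat_lit 39032494112) (nat_lit 16) (nat_lit 5) (nat_lit 18) (nat_lit 5) (nat_lit 17) (nat_lit 4) (nat_lit 473) (nat_lit 318) (nat_lit 229)) (XT.lf (nat_lit 0) (nat_lit 6688466858) (nat_lit 76) (nat_lit 4494266909) (nat_lit 152) (nat_lit 40373134102) (nat_lit 15) (nat_lit 5) (nat_lit 16) (nat_lit 5) (nat_lit 17) (nat_lit 4) (nat_lit 474) (nat_lit 318) (nat_lit 228)))))) (XT.nd (nat_lit 546) (nat_lit 152) (nat_lit 0) (XT.nd (nat_lit 234) (nat_lit 152) (nat_lit 0) (XT.nd (nat_lit 78) (nat_lit 0) (nat_lit 0) (XT.lf (nat_lit 0) (nat_lit 18013785357) (nat_lit 152) (nat_lit 32444889552) (nat_lit 0) (nat_lit 2433641814) (nat_lit 15) (nat_lit 5) (nat_lit 17) (nat_lit 4) (nat_lit 15) (nat_lit 4) (nat_lit 475) (nat_lit 318) (nat_lit 227)) (XT.nd (nat_lit 78) (nat_lit 0) (nat_lit 0) (XT.lf (nat_lit 0) (nat_lit 25069424239) (nat_lit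 152) (nat_lit 19742617828) (nat_lit 0) (nat_lit 9456228421) (nat_lit 15) (nat_lit 5) (nat_lit 17) (nat_lit 4) (nat_lit 15) (nat_lit 4) (nat_lit 476) (nat_lit 318) (nat_lit 226)) (XT.lf (nat_lit 0) (nat_lit 32312613892) (nat_lit 152) (nat_lit 6706285122) (nat_lit 0) (nat_lit 16667328487) (nat_lit 15) (nat_lit 5) (nat_lit 17) (nat_lit 4) (nat_lit 15) (nat_lit 4) (nat_lit 477) (nat_lit 318) (nat_lit 225)))) (XT.nd (nat_lit 156) (nat_lit 76) (nat_lit 0) (XT.nd (nat_lit 78) (nat_lit 0) (nat_lit 0) (XT.lf (nat_lit 0) (nat_lit 6808355062) (nat_lit 76) (nat_lit 33006774328) (nat_lit 76) (nat_lit 17330333983) (nat_lit 14) (nat_lit 4) (nat_lit 15) (nat_lit 5) (nat_lit 15) (nat_lit 4) (nat_lit 478) (nat_lit 318) (nat_lit 224)) (XT.lf (nat_lit 0) (nat_lit 20820716126) (nat_lit 76) (nat_lit 26766556258) (nat_lit 76) (nat_lit 11059868399) (nat_lit 14) (nat_lit 4) (nat_lit 15) (nat_lit 5) (nat_lit 15) (nat_lit 4) (nat_lit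 479) (nat_lit 318) (nat_lit 223))) (XT.nd (nat_lit 78) (nat_lit 76) (nat_lit 0) (XT.lf (nat_lit 0) (nat_lit 35209573653) (nat_lit 76) (nat_lit 20360512519) (nat_lit 76) (nat_lit 4624458141) (nat_lit 14) (nat_lit 4) (nat_lit 15) (nat_lit 5) (nat_lit 15) (nat_lit 4) (nat_lit 480) (nat_lit 318) (nat_lit 222)) (XT.lf (nat_lit 0) (nat_lit 1942853373) (nat_lit 152) (nat_lit 11820573212) (nat_lit 76) (nat_lit 48025028050) (nat_lit 13) (nat_lit 5) (nat_lit 15) (nat_lit 5) (nat_lit 14) (nat_lit 4) (nat_lit 481) (nat_lit 318) (nat_lit 221))))) (XT.nd (nat_lit 312) (nat_lit 76) (nat_lit 0) (XT.nd (nat_lit 156) (nat_lit 0) (nat_lit 0) (XT.nd (nat_lit 78) (nat_lit 0) (nat_lit 0) (XT.lf (nat_lit 0) (nat_lit 1684048424) (nat_lit 76) (nat_lit 6924963765) (nat_lit 152) (nat_lit 54819954136) (nat_lit 12) (nat_lit 5) (nat_lit 13) (nat_lit 5) (nat_lit 14) (nat_lit 4) (nat_lit 482) (nat_lit 318) (nat_lit 220)) (XT.lf (nat_lit 0)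 (nat_lit 15575461594) (nat_lit 152) (nat_lit 49323131636) (nat_lit 0) (nat_lit 217091841) (nat_lit 12) (nat_lit 5) (nat_lit 14) (nat_lit 4) (nat_lit 12) (nat_lit 4) (nat_lit 483) (nat_lit 318) (nat_lit 219))) (XT.nd (nat_lit 78) (nat_lit 0) (nat_lit 0) (XT.lf (nat_lit 0) (nat_lit 22798710050) (nat_lit 152) (nat_lit 36637853538) (nat_lit 0) (nat_lit 7415008481) (nat_lit 12) (nat_lit 5) (nat_lit 14) (nat_lit 4) (nat_lit 12) (nat_lit 4) (nat_lit 484) (nat_lit 318) (nat_lit 218)) (XT.lf (nat_lit 0) (nat_lit 30218502147) (nat_lit 152) (nat_lit 23611432395) (nat_lit 0) (nat_lit 14810206581) (nat_lit 12) (nat_lit 5) (nat_lit 14) (nat_lit 4) (nat_lit 12) (nat_lit 4) (nat_lit 485) (nat_lit 318) (nat_lit 217)))) (XT.nd (nat_lit 156) (nat_lit 0) (nat_lit 0) (XT.nd (nat_lit 78) (nat_lit 76) (nat_lit 0) (XT.lf (nat_lit 0) (nat_lit 37841321198) (nat_lit 152) (nat_lit 10232485898) (nat_lit 0) (nat_lit 22409147965) (nat_lit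 12) (nat_lit 5) (nat_lit 14) (nat_lit 4) (nat_lit 12) (nat_lit 4) (nat_lit 486) (nat_lit 318) (nat_lit 216)) (XT.lf (nat_lit 0) (nat_lit 3580545637) (nat_lit 76) (nat_lit 42127700675) (nat_lit 76) (nat_lit 26672345242) (nat_lit 11) (nat_lit 4) (nat_lit 12) (nat_lit 5) (nat_lit 12) (nat_lit 4) (nat_lit 487) (nat_lit 318) (nat_lit 215))) (XT.nd (nat_lit 78) (nat_lit 0) (nat_lit 0) (XT.lf (nat_lit 0) (nat_lit 17980935591) (nat_lit 76) (nat_lit 35914774406) (nat_lit 76) (nat_lit 20436911982) (nat_lit 11) (nat_lit 4) (nat_lit 12) (nat_lit 5) (nat_lit 12) (nat_lit 4) (nat_lit 488) (nat_lit 318) (nat_lit 214)) (XT.lf (nat_lit 0) (nat_lit 32777620296) (nat_lit 76) (nat_lit 29532927562) (nat_lit 76) (nat_lit 14033213690) (nat_lit 11) (nat_lit 4) (nat_lit 12) (nat_lit 5) (nat_lit 12) (nat_lit 4) (nat_lit 489) (nat_lit 318) (nat_lit 213))))))))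
noncomputable def xc53 : XT := (XT.nd (nat_lit 46722) (nat_lit 0) (nat_lit 2052) (XT.nd (nat_lit 45630) (nat_lit 0) (nat_lit 5244) (XT.nd (nat_lit 45084) (nat_lit 0) (nat_lit 7904) (XT.nd (nat_lit 44772) (nat_lit 0) (nat_lit 10032) (XT.nd (nat_lit 78) (nat_lit 0) (nat_lit 0) (XT.lf (nat_lit 0) (nat_lit 47983528893) (nat_lit 76) (nat_lit 22976583771) (nat_lit 76) (nat_lit 7455654901) (nat_lit 11) (nat_lit 4) (nat_lit 12) (nat_lit 5) (nat_lit 12) (nat_lit 4) (nat_lit 490) (nat_lit 318) (nat_lit 212)) (XT.nd (nat_lit 44616) (nat_lit 0) (nat_lit 11324) (XT.lf (nat_lit 0) (nat_lit 63611948099) (nat_lit 76) (nat_lit 16240014190) (nat_lit 76) (nat_lit 698488235) (nat_lit 11) (nat_lit 4) (nat_lit 12) (nat_lit 5) (nat_lit 12) (nat_lit 4) (nat_lit 491) (nat_lit 318) (nat_lit 211)) (XT.lf (nat_lit 0) (nat_lit 835622754) (nat_lit 456) (nat_lit 2533023063) (nat_lit 0) (nat_lit 835622754) (nat_lit 160) (nat_lit 5) (nat_lit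 166) (nat_lit 4) (nat_lit 160) (nat_lit 4) (nat_lit 382) (nat_lit 319) (nat_lit 319)))) (XT.nd (nat_lit 156) (nat_lit 456) (nat_lit 0) (XT.nd (nat_lit 78) (nat_lit 456) (nat_lit 0) (XT.lf (nat_lit 0) (nat_lit 1732019507) (nat_lit 380) (nat_lit 3928384726) (nat_lit 380) (nat_lit 2846966026) (nat_lit 155) (nat_lit 4) (nat_lit 160) (nat_lit 5) (nat_lit 160) (nat_lit 4) (nat_lit 383) (nat_lit 319) (nat_lit 318)) (XT.lf (nat_lit 0) (nat_lit 81867380) (nat_lit 380) (nat_lit 1008382447) (nat_lit 456) (nat_lit 7520033925) (nat_lit 149) (nat_lit 5) (nat_lit 154) (nat_lit 5) (nat_lit 155) (nat_lit 4) (nat_lit 384) (nat_lit 319) (nat_lit 317))) (XT.nd (nat_lit 78) (nat_lit 456) (nat_lit 0) (XT.lf (nat_lit 0) (nat_lit 5078252213) (nat_lit 456) (nat_lit 1618184516) (nat_lit 0) (nat_lit 2019338997) (nat_lit 149) (nat_lit 5) (nat_lit 155) (nat_lit 4) (nat_lit 149) (nat_lit 4) (nat_lit 385) (nat_lit 319) (nat_lit 316)) (XT.lf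 (nat_lit 0) (nat_lit 320967375) (nat_lit 456) (nat_lit 3368175954) (nat_lit 76) (nat_lit 5136219664) (nat_lit 143) (nat_lit 5) (nat_lit 149) (nat_lit 5) (nat_lit 144) (nat_lit 4) (nat_lit 386) (nat_lit 319) (nat_lit 315))))) (XT.nd (nat_lit 234) (nat_lit 1064) (nat_lit 0) (XT.nd (nat_lit 78) (nat_lit 760) (nat_lit 0) (XT.lf (nat_lit 0) (nat_lit 3740978222) (nat_lit 304) (nat_lit 541563264) (nat_lit 380) (nat_lit 4655923375) (nat_lit 139) (nat_lit 5) (nat_lit 143) (nat_lit 5) (nat_lit 144) (nat_lit 4) (nat_lit 387) (nat_lit 319) (nat_lit 314)) (XT.nd (nat_lit 78) (nat_lit 380) (nat_lit 0) (XT.lf (nat_lit 0) (nat_lit 1953135394) (nat_lit 380) (nat_lit 6394961756) (nat_lit 380) (nat_lit 707338325) (nat_lit 134) (nat_lit 4) (nat_lit 139) (nat_lit 5) (nat_lit 139) (nat_lit 4) (nat_lit 388) (nat_lit 319) (nat_lit 313)) (XT.lf (nat_lit 0) (nat_lit 76048405) (nat_lit 304) (nat_lit 3183731764) (nat_lit 380) (nat_lit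 5916225111) (nat_lit 129) (nat_lit 5) (nat_lit 133) (nat_lit 5) (nat_lit 134) (nat_lit 4) (nat_lit 389) (nat_lit 319) (nat_lit 312)))) (XT.nd (nat_lit 156) (nat_lit 684) (nat_lit 0) (XT.nd (nat_lit 78) (nat_lit 380) (nat_lit 0) (XT.lf (nat_lit 0) (nat_lit 7312838862) (nat_lit 380) (nat_lit 1830356205) (nat_lit 0) (nat_lit 157379905) (nat_lit 129) (nat_lit 5) (nat_lit 134) (nat_lit 4) (nat_lit 129) (nat_lit 4) (nat_lit 390) (nat_lit 319) (nat_lit 311)) (XT.lf (nat_lit 0) (nat_lit 2013940581) (nat_lit 380) (nat_lit 3848399454) (nat_lit 76) (nat_lit 3566108581) (nat_lit 124) (nat_lit 5) (nat_lit 129) (nat_lit 5) (nat_lit 125) (nat_lit 4) (nat_lit 391) (nat_lit 319) (nat_lit 310))) (XT.nd (nat_lit 78) (nat_lit 380) (nat_lit 0) (XT.lf (nat_lit 0) (nat_lit 3605995058) (nat_lit 304) (nat_lit 2453699135) (nat_lit 380) (nat_lit 3500979405) (nat_lit 120) (nat_lit 5) (nat_lit 124) (nat_lit 5) (nat_lit 125) (nat_lit 4)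 (nat_lit 392) (nat_lit 319) (nat_lit 309)) (XT.lf (nat_lit 0) (nat_lit 495191172) (nat_lit 380) (nat_lit 8151633443) (nat_lit 76) (nat_lit 1050644025) (nat_lit 115) (nat_lit 5) (nat_lit 120) (nat_lit 5) (nat_lit 116) (nat_lit 4) (nat_lit 393) (nat_lit 319) (nat_lit 308)))))) (XT.nd (nat_lit 546) (nat_lit 1292) (nat_lit 0) (XT.nd (nat_lit 234) (nat_lit 760) (nat_lit 0) (XT.nd (nat_lit 78) (nat_lit 608) (nat_lit 0) (XT.lf (nat_lit 0) (nat_lit 4537820148) (nat_lit 380) (nat_lit 639218133) (nat_lit 76) (nat_lit 4660403947) (nat_lit 115) (nat_lit 5) (nat_lit 120) (nat_lit 5) (nat_lit 116) (nat_lit 4) (nat_lit 394) (nat_lit 319) (nat_lit 307)) (XT.nd (nat_lit 78) (nat_lit 380) (nat_lit 0) (XT.lf (nat_lit 0) (nat_lit 7104652260) (nat_lit 228) (nat_lit 1579854970) (nat_lit 304) (nat_lit 1297646533) (nat_lit 112) (nat_lit 5) (nat_lit 115) (nat_lit 5) (nat_lit 116) (nat_lit 4) (nat_lit 395) (nat_lit 319) (nat_lit 306))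 (XT.lf (nat_lit 0) (nat_lit 2758506146) (nat_lit 380) (nat_lit 5253799043) (nat_lit 76) (nat_lit 2118430849) (nat_lit 107) (nat_lit 5) (nat_lit 112) (nat_lit 5) (nat_lit 108) (nat_lit 4) (nat_lit 396) (nat_lit 319) (nat_lit 305)))) (XT.nd (nat_lit 156) (nat_lit 228) (nat_lit 0) (XT.nd (nat_lit 78) (nat_lit 304) (nat_lit 0) (XT.lf (nat_lit 0) (nat_lit 2526875140) (nat_lit 228) (nat_lit 4368277389) (nat_lit 304) (nat_lit 3388711335) (nat_lit 104) (nat_lit 5) (nat_lit 107) (nat_lit 5) (nat_lit 108) (nat_lit 4) (nat_lit 397) (nat_lit 319) (nat_lit 304)) (XT.lf (nat_lit 0) (nat_lit 68491658) (nat_lit 228) (nat_lit 602074522) (nat_lit 304) (nat_lit 9771726662) (nat_lit 100) (nat_lit 5) (nat_lit 103) (nat_lit 5) (nat_lit 104) (nat_lit 5) (nat_lit 398) (nat_lit 319) (nat_lit 303))) (XT.nd (nat_lit 78) (nat_lit 228) (nat_lit 0) (XT.lf (nat_lit 0) (nat_lit 4810766512) (nat_lit 304) (nat_lit 2516042668) (nat_lit 76) (nat_lit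 3276859851) (nat_lit 100) (nat_lit 5) (nat_lit 104) (nat_lit 5) (nat_lit 101) (nat_lit 4) (nat_lit 399) (nat_lit 319) (nat_lit 302)) (XT.lf (nat_lit 0) (nat_lit 5548856683) (nat_lit 228) (nat_lit 3504690757) (nat_lit 304) (nat_lit 1717005812) (nat_lit 97) (nat_lit 5) (nat_lit 100) (nat_lit 5) (nat_lit 101) (nat_lit 4) (nat_lit 400) (nat_lit 319) (nat_lit 301))))) (XT.nd (nat_lit 234) (nat_lit 760) (nat_lit 0) (XT.nd (nat_lit 78) (nat_lit 228) (nat_lit 0) (XT.lf (nat_lit 0) (nat_lit 2409769352) (nat_lit 304) (nat_lit 8080819636) (nat_lit 76) (nat_lit 451845901) (nat_lit 93) (nat_lit 5) (nat_lit 97) (nat_lit 5) (nat_lit 94) (nat_lit 4) (nat_lit 401) (nat_lit 319) (nat_lit 300)) (XT.nd (nat_lit 78) (nat_lit 228) (nat_lit 0) (XT.lf (nat_lit 0) (nat_lit 6633780749) (nat_lit 304) (nat_lit 7524649) (nat_lit 76) (nat_lit 4477435737) (nat_lit 93) (nat_lit 5) (nat_lit 97) (nat_lit 5) (nat_lit 94) (nat_lit 4) (nat_lit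 402) (nat_lit 319) (nat_lit 299)) (XT.lf (nat_lit 0) (nat_lit 8342729383) (nat_lit 228) (nat_lit 2644301068) (nat_lit 304) (nat_lit 313246554) (nat_lit 90) (nat_lit 5) (nat_lit 93) (nat_lit 5) (nat_lit 94) (nat_lit 4) (nat_lit 403) (nat_lit 319) (nat_lit 298)))) (XT.nd (nat_lit 156) (nat_lit 304) (nat_lit 0) (XT.nd (nat_lit 78) (nat_lit 152) (nat_lit 0) (XT.lf (nat_lit 0) (nat_lit 3894972858) (nat_lit 304) (nat_lit 6106414231) (nat_lit 76) (nat_lit 1485065463) (nat_lit 86) (nat_lit 5) (nat_lit 90) (nat_lit 5) (nat_lit 87) (nat_lit 4) (nat_lit 404) (nat_lit 319) (nat_lit 297)) (XT.lf (nat_lit 0) (nat_lit 2236222555) (nat_lit 152) (nat_lit 5987896595) (nat_lit 228) (nat_lit 3453986505) (nat_lit 84) (nat_lit 5) (nat_lit 86) (nat_lit 5) (nat_lit 87) (nat_lit 4) (nat_lit 405) (nat_lit 319) (nat_lit 296))) (XT.nd (nat_lit 78) (nat_lit 228) (nat_lit 0) (XT.lf (nat_lit 0) (nat_lit 777529889) (nat_lit 228) (nat_lit 1056890483)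 (nat_lit 76) (nat_lit 10041299111) (nat_lit 83) (nat_lit 5) (nat_lit 86) (nat_lit 5) (nat_lit 84) (nat_lit 5) (nat_lit 406) (nat_lit 319) (nat_lit 295)) (XT.lf (nat_lit 0) (nat_lit 5088990291) (nat_lit 304) (nat_lit 4534638864) (nat_lit 76) (nat_lit 2453947404) (nat_lit 80) (nat_lit 5) (nat_lit 84) (nat_lit 5) (nat_lit 81) (nat_lit 4) (nat_lit 407) (nat_lit 319) (nat_lit 294))))))) (XT.nd (nat_lit 1092) (nat_lit 1368) (nat_lit 0) (XT.nd (nat_lit 546) (nat_lit 836) (nat_lit 0) (XT.nd (nat_lit 234) (nat_lit 532) (nat_lit 0) (XT.nd (nat_lit 78) (nat_lit 304) (nat_lit 0) (XT.lf (nat_lit 0) (nat_lit 4072551176) (nat_lit 152) (nat_lit 5451433125) (nat_lit 228) (nat_lit 2761692344) (nat_lit 78) (nat_lit 5) (nat_lit 80) (nat_lit 5) (nat_lit 81) (nat_lit 4) (nat_lit 408) (nat_lit 319) (nat_lit 293)) (XT.nd (nat_lit 78) (nat_lit 0) (nat_lit 0) (XT.lf (nat_lit 0) (nat_lit 398127016) (nat_lit 228) (nat_lit 1139207484) (nat_lit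 304) (nat_lit 10962946618) (nat_lit 74) (nat_lit 5) (nat_lit 77) (nat_lit 5) (nat_lit 78) (nat_lit 5) (nat_lit 409) (nat_lit 319) (nat_lit 292)) (XT.lf (nat_lit 0) (nat_lit 5952091223) (nat_lit 304) (nat_lit 3469273968) (nat_lit 76) (nat_lit 3297882127) (nat_lit 74) (nat_lit 5) (nat_lit 78) (nat_lit 5) (nat_lit 75) (nat_lit 4) (nat_lit 410) (nat_lit 319) (nat_lit 291)))) (XT.nd (nat_lit 156) (nat_lit 152) (nat_lit 0) (XT.nd (nat_lit 78) (nat_lit 228) (nat_lit 0) (XT.lf (nat_lit 0) (nat_lit 5393643035) (nat_lit 152) (nat_lit 5097671166) (nat_lit 228) (nat_lit 2453719136) (nat_lit 72) (nat_lit 5) (nat_lit 74) (nat_lit 5) (nat_lit 75) (nat_lit 4) (nat_lit 411) (nat_lit 319) (nat_lit 290)) (XT.lf (nat_lit 0) (nat_lit 1299781580) (nat_lit 152) (nat_lit 627490639) (nat_lit 228) (nat_lit 11250448991) (nat_lit 69) (nat_lit 5) (nat_lit 71) (nat_lit 5) (nat_lit 72) (nat_lit 5) (nat_lit 412) (nat_lit 319) (nat_lit 289)))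 (XT.nd (nat_lit 78) (nat_lit 152) (nat_lit 0) (XT.lf (nat_lit 0) (nat_lit 6435098967) (nat_lit 228) (nat_lit 3030635391) (nat_lit 76) (nat_lit 3949595405) (nat_lit 69) (nat_lit 5) (nat_lit 72) (nat_lit 5) (nat_lit 70) (nat_lit 4) (nat_lit 413) (nat_lit 319) (nat_lit 288)) (XT.lf (nat_lit 0) (nat_lit 6074466830) (nat_lit 152) (nat_lit 4999838112) (nat_lit 228) (nat_lit 2585887553) (nat_lit 67) (nat_lit 5) (nat_lit 69) (nat_lit 5) (nat_lit 70) (nat_lit 4) (nat_lit 414) (nat_lit 319) (nat_lit 287))))) (XT.nd (nat_lit 234) (nat_lit 456) (nat_lit 0) (XT.nd (nat_lit 78) (nat_lit 152) (nat_lit 0) (XT.lf (nat_lit 0) (nat_lit 1493415988) (nat_lit 152) (nat_lit 385983465) (nat_lit 228) (nat_lit 12033142522) (nat_lit 64) (nat_lit 5) (nat_lit 66) (nat_lit 5) (nat_lit 67) (nat_lit 5) (nat_lit 415) (nat_lit 319) (nat_lit 286)) (XT.nd (nat_lit 78) (nat_lit 152) (nat_lit 0) (XT.lf (nat_lit 0) (nat_lit 6478065641) (nat_lit 228)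 (nat_lit 3358560262) (nat_lit 76) (nat_lit 4333535503) (nat_lit 64) (nat_lit 5) (nat_lit 67) (nat_lit 5) (nat_lit 65) (nat_lit 4) (nat_lit 416) (nat_lit 319) (nat_lit 285)) (XT.lf (nat_lit 0) (nat_lit 5969501375) (nat_lit 152) (nat_lit 5240436837) (nat_lit 228) (nat_lit 3225722927) (nat_lit 62) (nat_lit 5) (nat_lit 64) (nat_lit 5) (nat_lit 65) (nat_lit 4) (nat_lit 417) (nat_lit 319) (nat_lit 284)))) (XT.nd (nat_lit 156) (nat_lit 228) (nat_lit 0) (XT.nd (nat_lit 78) (nat_lit 0) (nat_lit 0) (XT.lf (nat_lit 0) (nat_lit 823506321) (nat_lit 152) (nat_lit 500673426) (nat_lit 228) (nat_lit 13385267404) (nat_lit 59) (nat_lit 5) (nat_lit 61) (nat_lit 5) (nat_lit 62) (nat_lit 5) (nat_lit 418) (nat_lit 319) (nat_lit 283)) (XT.lf (nat_lit 0) (nat_lit 6008706612) (nat_lit 228) (nat_lit 4615848213) (nat_lit 76) (nat_lit 4364053290) (nat_lit 59) (nat_lit 5) (nat_lit 62) (nat_lit 5) (nat_lit 60) (nat_lit 4) (nat_lit 419) (nat_lit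 319) (nat_lit 282))) (XT.nd (nat_lit 78) (nat_lit 76) (nat_lit 0) (XT.lf (nat_lit 0) (nat_lit 4909129762) (nat_lit 152) (nat_lit 5913201105) (nat_lit 228) (nat_lit 4454164289) (nat_lit 57) (nat_lit 5) (nat_lit 59) (nat_lit 5) (nat_lit 60) (nat_lit 4) (nat_lit 420) (nat_lit 319) (nat_lit 281)) (XT.lf (nat_lit 0) (nat_lit 186923070) (nat_lit 228) (nat_lit 873804911) (nat_lit 76) (nat_lit 14512729939) (nat_lit 56) (nat_lit 5) (nat_lit 59) (nat_lit 5) (nat_lit 57) (nat_lit 5) (nat_lit 421) (nat_lit 319) (nat_lit 280)))))) (XT.nd (nat_lit 546) (nat_lit 608) (nat_lit 0) (XT.nd (nat_lit 234) (nat_lit 532) (nat_lit 0) (XT.nd (nat_lit 78) (nat_lit 76) (nat_lit 0) (XT.lf (nat_lit 0) (nat_lit 4940558700) (nat_lit 228) (nat_lit 6992233983) (nat_lit 76) (nat_lit 3943336076) (nat_lit 54) (nat_lit 5) (nat_lit 57) (nat_lit 5) (nat_lit 55) (nat_lit 4) (nat_lit 422) (nat_lit 319) (nat_lit 279)) (XT.nd (nat_lit 78) (nat_lit 0)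 (nat_lit 0) (XT.lf (nat_lit 0) (nat_lit 2695474955) (nat_lit 76) (nat_lit 7125320330) (nat_lit 152) (nat_lit 6367571873) (nat_lit 53) (nat_lit 5) (nat_lit 54) (nat_lit 5) (nat_lit 55) (nat_lit 4) (nat_lit 423) (nat_lit 319) (nat_lit 278)) (XT.lf (nat_lit 0) (nat_lit 12707082439) (nat_lit 76) (nat_lit 2150360720) (nat_lit 152) (nat_lit 1652236408) (nat_lit 53) (nat_lit 5) (nat_lit 54) (nat_lit 5) (nat_lit 55) (nat_lit 4) (nat_lit 424) (nat_lit 319) (nat_lit 277)))) (XT.nd (nat_lit 156) (nat_lit 304) (nat_lit 0) (XT.nd (nat_lit 78) (nat_lit 0) (nat_lit 0) (XT.lf (nat_lit 0) (nat_lit 3170820510) (nat_lit 228) (nat_lit 10708979192) (nat_lit 76) (nat_lit 2959050285) (nat_lit 50) (nat_lit 5) (nat_lit 53) (nat_lit 5) (nat_lit 51) (nat_lit 4) (nat_lit 425) (nat_lit 319) (nat_lit 276)) (XT.lf (nat_lit 0) (nat_lit 8106241251) (nat_lit 228) (nat_lit 884805973) (nat_lit 76) (nat_lit 8186337508) (nat_lit 50) (nat_lit 5)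 (nat_lit 53) (nat_lit 5) (nat_lit 51) (nat_lit 4) (nat_lit 426) (nat_lit 319) (nat_lit 275))) (XT.nd (nat_lit 78) (nat_lit 228) (nat_lit 0) (XT.lf (nat_lit 0) (nat_lit 9310635677) (nat_lit 76) (nat_lit 3911123192) (nat_lit 152) (nat_lit 4303361828) (nat_lit 49) (nat_lit 5) (nat_lit 50) (nat_lit 5) (nat_lit 51) (nat_lit 4) (nat_lit 427) (nat_lit 319) (nat_lit 274)) (XT.lf (nat_lit 0) (nat_lit 577826303) (nat_lit 228) (nat_lit 16024184804) (nat_lit 76) (nat_lit 1281641506) (nat_lit 46) (nat_lit 5) (nat_lit 49) (nat_lit 5) (nat_lit 47) (nat_lit 4) (nat_lit 428) (nat_lit 319) (nat_lit 273))))) (XT.nd (nat_lit 312) (nat_lit 304) (nat_lit 0) (XT.nd (nat_lit 156) (nat_lit 228) (nat_lit 0) (XT.nd (nat_lit 78) (nat_lit 76) (nat_lit 0) (XT.lf (nat_lit 0) (nat_lit 5584303630) (nat_lit 228) (nat_lit 6034051702) (nat_lit 76) (nat_lit 6631352201) (nat_lit 46) (nat_lit 5) (nat_lit 49) (nat_lit 5) (nat_lit 47) (nat_lit 4) (nat_lit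 429) (nat_lit 319) (nat_lit 272)) (XT.lf (nat_lit 0) (nat_lit 4236042924) (nat_lit 76) (nat_lit 6490167700) (nat_lit 152) (nat_lit 7900981925) (nat_lit 45) (nat_lit 5) (nat_lit 46) (nat_lit 5) (nat_lit 47) (nat_lit 4) (nat_lit 430) (nat_lit 319) (nat_lit 271))) (XT.nd (nat_lit 78) (nat_lit 228) (nat_lit 0) (XT.lf (nat_lit 0) (nat_lit 14836533561) (nat_lit 76) (nat_lit 1191930605) (nat_lit 152) (nat_lit 2987360624) (nat_lit 45) (nat_lit 5) (nat_lit 46) (nat_lit 5) (nat_lit 47) (nat_lit 4) (nat_lit 431) (nat_lit 319) (nat_lit 270)) (XT.lf (nat_lit 0) (nat_lit 2081763661) (nat_lit 228) (nat_lit 13113420474) (nat_lit 76) (nat_lit 4218882131) (nat_lit 42) (nat_lit 5) (nat_lit 45) (nat_lit 5) (nat_lit 43) (nat_lit 4) (nat_lit 432) (nat_lit 319) (nat_lit 269)))) (XT.nd (nat_lit 156) (nat_lit 228) (nat_lit 0) (XT.nd (nat_lit 78) (nat_lit 76) (nat_lit 0) (XT.lf (nat_lit 0) (nat_lit 7243745582) (nat_lit 228) (nat_lit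 2783842185) (nat_lit 76) (nat_lit 9795759976) (nat_lit 42) (nat_lit 5) (nat_lit 45) (nat_lit 5) (nat_lit 43) (nat_lit 4) (nat_lit 433) (nat_lit 319) (nat_lit 268)) (XT.lf (nat_lit 0) (nat_lit 7913234690) (nat_lit 76) (nat_lit 4671385248) (nat_lit 152) (nat_lit 7659571491) (nat_lit 41) (nat_lit 5) (nat_lit 42) (nat_lit 5) (nat_lit 43) (nat_lit 4) (nat_lit 434) (nat_lit 319) (nat_lit 267))) (XT.nd (nat_lit 78) (nat_lit 228) (nat_lit 0) (XT.lf (nat_lit 0) (nat_lit 18070371004) (nat_lit 152) (nat_lit 1793909272) (nat_lit 0) (nat_lit 813845253) (nat_lit 41) (nat_lit 5) (nat_lit 43) (nat_lit 4) (nat_lit 41) (nat_lit 4) (nat_lit 435) (nat_lit 319) (nat_lit 266)) (XT.lf (nat_lit 0) (nat_lit 2629122813) (nat_lit 228) (nat_lit 12052008697) (nat_lit 76) (nat_lit 6440677301) (nat_lit 38) (nat_lit 5) (nat_lit 41) (nat_lit 5) (nat_lit 39) (nat_lit 4) (nat_lit 436) (nat_lit 319) (nat_lit 265))))))))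
noncomputable def xc54 : XT := (XT.nd (nat_lit 2184) (nat_lit 684) (nat_lit 0) (XT.nd (nat_lit 1092) (nat_lit 608) (nat_lit 0) (XT.nd (nat_lit 546) (nat_lit 380) (nat_lit 0) (XT.nd (nat_lit 234) (nat_lit 304) (nat_lit 0) (XT.nd (nat_lit 78) (nat_lit 76) (nat_lit 0) (XT.lf (nat_lit 0) (nat_lit 7938704813) (nat_lit 228) (nat_lit 1402297295) (nat_lit 76) (nat_lit 12237989780) (nat_lit 38) (nat_lit 5) (nat_lit 41) (nat_lit 5) (nat_lit 39) (nat_lit 4) (nat_lit 437) (nat_lit 319) (nat_lit 264)) (XT.nd (nat_lit 78) (nat_lit 0) (nat_lit 0) (XT.lf (nat_lit 0) (nat_lit 9663995876) (nat_lit 76) (nat_lit 3787656482) (nat_lit 152) (nat_lit 8596919856) (nat_lit 37) (nat_lit 5) (nat_lit 38) (nat_lit 5) (nat_lit 39) (nat_lit 4) (nat_lit 438) (nat_lit 319) (nat_lit 263)) (XT.lf (nat_lit 0) (nat_lit 19114189391) (nat_lit 152) (nat_lit 1551143258) (nat_lit 0) (nat_lit 1867385252) (nat_lit 37) (nat_lit 5) (nat_lit 39) (nat_lit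 4) (nat_lit 37) (nat_lit 4) (nat_lit 439) (nat_lit 319) (nat_lit 262)))) (XT.nd (nat_lit 156) (nat_lit 76) (nat_lit 0) (XT.nd (nat_lit 78) (nat_lit 0) (nat_lit 0) (XT.lf (nat_lit 0) (nat_lit 1961856296) (nat_lit 228) (nat_lit 13378619729) (nat_lit 76) (nat_lit 7687842947) (nat_lit 34) (nat_lit 5) (nat_lit 37) (nat_lit 5) (nat_lit 35) (nat_lit 4) (nat_lit 440) (nat_lit 319) (nat_lit 261)) (XT.lf (nat_lit 0) (nat_lit 7403569187) (nat_lit 228) (nat_lit 2442994864) (nat_lit 76) (nat_lit 13692153496) (nat_lit 34) (nat_lit 5) (nat_lit 37) (nat_lit 5) (nat_lit 35) (nat_lit 4) (nat_lit 441) (nat_lit 319) (nat_lit 260))) (XT.nd (nat_lit 78) (nat_lit 0) (nat_lit 0) (XT.lf (nat_lit 0) (nat_lit 8908082144) (nat_lit 76) (nat_lit 4140262796) (nat_lit 152) (nat_lit 11014892333) (nat_lit 33) (nat_lit 5) (nat_lit 34) (nat_lit 5) (nat_lit 35) (nat_lit 4) (nat_lit 442) (nat_lit 319) (nat_lit 259)) (XT.lf (nat_lit 0) (nat_lit 18858382909)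 (nat_lit 152) (nat_lit 4056498792) (nat_lit 0) (nat_lit 1688736759) (nat_lit 33) (nat_lit 5) (nat_lit 35) (nat_lit 4) (nat_lit 33) (nat_lit 4) (nat_lit 443) (nat_lit 319) (nat_lit 258))))) (XT.nd (nat_lit 234) (nat_lit 152) (nat_lit 0) (XT.nd (nat_lit 78) (nat_lit 152) (nat_lit 0) (XT.lf (nat_lit 0) (nat_lit 7394363550) (nat_lit 76) (nat_lit 17516067144) (nat_lit 76) (nat_lit 247752460) (nat_lit 32) (nat_lit 4) (nat_lit 33) (nat_lit 5) (nat_lit 33) (nat_lit 4) (nat_lit 444) (nat_lit 319) (nat_lit 257)) (XT.nd (nat_lit 78) (nat_lit 76) (nat_lit 0) (XT.lf (nat_lit 0) (nat_lit 5306055341) (nat_lit 152) (nat_lit 6592817033) (nat_lit 76) (nat_lit 13829042300) (nat_lit 31) (nat_lit 5) (nat_lit 33) (nat_lit 5) (nat_lit 32) (nat_lit 4) (nat_lit 445) (nat_lit 319) (nat_lit 256)) (XT.lf (nat_lit 0) (nat_lit 4925310460) (nat_lit 76) (nat_lit 6100514363) (nat_lit 152) (nat_lit 15288712968) (nat_lit 30) (nat_lit 5) (nat_lit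 31) (nat_lit 5) (nat_lit 32) (nat_lit 4) (nat_lit 446) (nat_lit 319) (nat_lit 255)))) (XT.nd (nat_lit 156) (nat_lit 76) (nat_lit 0) (XT.nd (nat_lit 78) (nat_lit 76) (nat_lit 0) (XT.lf (nat_lit 0) (nat_lit 16843265974) (nat_lit 76) (nat_lit 97953529) (nat_lit 152) (nat_lit 9976822099) (nat_lit 30) (nat_lit 5) (nat_lit 31) (nat_lit 5) (nat_lit 32) (nat_lit 4) (nat_lit 447) (nat_lit 319) (nat_lit 254)) (XT.lf (nat_lit 0) (nat_lit 1469911958) (nat_lit 76) (nat_lit 21595122527) (nat_lit 76) (nat_lit 4473690165) (nat_lit 29) (nat_lit 4) (nat_lit 30) (nat_lit 5) (nat_lit 30) (nat_lit 4) (nat_lit 448) (nat_lit 319) (nat_lit 253))) (XT.nd (nat_lit 78) (nat_lit 0) (nat_lit 0) (XT.lf (nat_lit 0) (nat_lit 1233324752) (nat_lit 152) (nat_lit 14700416457) (nat_lit 76) (nat_lit 12242082251) (nat_lit 28) (nat_lit 5) (nat_lit 30) (nat_lit 5) (nat_lit 29) (nat_lit 4) (nat_lit 449) (nat_lit 319) (nat_lit 252)) (XT.lf (nat_lit 0)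 (nat_lit 6981231552) (nat_lit 152) (nat_lit 3112392200) (nat_lit 76) (nat_lit 18738297352) (nat_lit 28) (nat_lit 5) (nat_lit 30) (nat_lit 5) (nat_lit 29) (nat_lit 4) (nat_lit 450) (nat_lit 319) (nat_lit 251)))))) (XT.nd (nat_lit 546) (nat_lit 304) (nat_lit 0) (XT.nd (nat_lit 234) (nat_lit 152) (nat_lit 0) (XT.nd (nat_lit 78) (nat_lit 76) (nat_lit 0) (XT.lf (nat_lit 0) (nat_lit 8922499484) (nat_lit 76) (nat_lit 4025619524) (nat_lit 152) (nat_lit 16558188921) (nat_lit 27) (nat_lit 5) (nat_lit 28) (nat_lit 5) (nat_lit 29) (nat_lit 4) (nat_lit 451) (nat_lit 319) (nat_lit 250)) (XT.nd (nat_lit 78) (nat_lit 76) (nat_lit 0) (XT.lf (nat_lit 0) (nat_lit 19108000654) (nat_lit 152) (nat_lit 8914414041) (nat_lit 0) (nat_lit 2178094519) (nat_lit 27) (nat_lit 5) (nat_lit 29) (nat_lit 4) (nat_lit 27) (nat_lit 4) (nat_lit 452) (nat_lit 319) (nat_lit 249)) (XT.lf (nat_lit 0) (nat_lit 3051967464) (nat_lit 76) (nat_lit 22431910938)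 (nat_lit 76) (nat_lit 5430724554) (nat_lit 26) (nat_lit 4) (nat_lit 27) (nat_lit 5) (nat_lit 27) (nat_lit 4) (nat_lit 453) (nat_lit 319) (nat_lit 248)))) (XT.nd (nat_lit 156) (nat_lit 76) (nat_lit 0) (XT.nd (nat_lit 78) (nat_lit 0) (nat_lit 0) (XT.lf (nat_lit 0) (nat_lit 446043153) (nat_lit 152) (nat_lit 16164922905) (nat_lit 76) (nat_lit 15037451505) (nat_lit 25) (nat_lit 5) (nat_lit 27) (nat_lit 5) (nat_lit 26) (nat_lit 4) (nat_lit 454) (nat_lit 319) (nat_lit 247)) (XT.lf (nat_lit 0) (nat_lit 6353111287) (nat_lit 152) (nat_lit 4240763065) (nat_lit 76) (nat_lit 21809866889) (nat_lit 25) (nat_lit 5) (nat_lit 27) (nat_lit 5) (nat_lit 26) (nat_lit 4) (nat_lit 455) (nat_lit 319) (nat_lit 246))) (XT.nd (nat_lit 78) (nat_lit 0) (nat_lit 0) (XT.lf (nat_lit 0) (nat_lit 8131134361) (nat_lit 76) (nat_lit 4348641433) (nat_lit 152) (nat_lit 20700679444) (nat_lit 24) (nat_lit 5) (nat_lit 25) (nat_lit 5) (nat_lit 26) (nat_lit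 4) (nat_lit 456) (nat_lit 319) (nat_lit 245)) (XT.lf (nat_lit 0) (nat_lit 18817817967) (nat_lit 152) (nat_lit 13107254206) (nat_lit 0) (nat_lit 2054573229) (nat_lit 24) (nat_lit 5) (nat_lit 26) (nat_lit 4) (nat_lit 24) (nat_lit 4) (nat_lit 457) (nat_lit 319) (nat_lit 244))))) (XT.nd (nat_lit 234) (nat_lit 152) (nat_lit 0) (XT.nd (nat_lit 78) (nat_lit 152) (nat_lit 0) (XT.lf (nat_lit 0) (nat_lit 25354395275) (nat_lit 152) (nat_lit 916711746) (nat_lit 0) (nat_lit 8531454451) (nat_lit 24) (nat_lit 5) (nat_lit 26) (nat_lit 4) (nat_lit 24) (nat_lit 4) (nat_lit 458) (nat_lit 319) (nat_lit 243)) (XT.nd (nat_lit 78) (nat_lit 76) (nat_lit 0) (XT.lf (nat_lit 0) (nat_lit 11805120657) (nat_lit 76) (nat_lit 20361774873) (nat_lit 76) (nat_lit 3480876685) (nat_lit 23) (nat_lit 4) (nat_lit 24) (nat_lit 5) (nat_lit 24) (nat_lit 4) (nat_lit 459) (nat_lit 319) (nat_lit 242)) (XT.lf (nat_lit 0) (nat_lit 2589147620) (nat_lit 152)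 (nat_lit 11681197804) (nat_lit 76) (nat_lit 22247955201) (nat_lit 22) (nat_lit 5) (nat_lit 24) (nat_lit 5) (nat_lit 23) (nat_lit 4) (nat_lit 460) (nat_lit 319) (nat_lit 241)))) (XT.nd (nat_lit 156) (nat_lit 76) (nat_lit 0) (XT.nd (nat_lit 78) (nat_lit 0) (nat_lit 0) (XT.lf (nat_lit 0) (nat_lit 762581640) (nat_lit 76) (nat_lit 7983418107) (nat_lit 152) (nat_lit 28668672331) (nat_lit 21) (nat_lit 5) (nat_lit 22) (nat_lit 5) (nat_lit 23) (nat_lit 4) (nat_lit 461) (nat_lit 319) (nat_lit 240)) (XT.lf (nat_lit 0) (nat_lit 13756810065) (nat_lit 76) (nat_lit 1416415113) (nat_lit 152) (nat_lit 23162141206) (nat_lit 21) (nat_lit 5) (nat_lit 22) (nat_lit 5) (nat_lit 23) (nat_lit 4) (nat_lit 462) (nat_lit 319) (nat_lit 239))) (XT.nd (nat_lit 78) (nat_lit 76) (nat_lit 0) (XT.lf (nat_lit 0) (nat_lit 21813042529) (nat_lit 152) (nat_lit 12255384911) (nat_lit 0) (nat_lit 5214662513) (nat_lit 21) (nat_lit 5) (nat_lit 23) (nat_lit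 4) (nat_lit 21) (nat_lit 4) (nat_lit 463) (nat_lit 319) (nat_lit 238)) (XT.lf (nat_lit 0) (nat_lit 371320664) (nat_lit 76) (nat_lit 28267619022) (nat_lit 76) (nat_lit 11620700626) (nat_lit 20) (nat_lit 4) (nat_lit 21) (nat_lit 5) (nat_lit 21) (nat_lit 4) (nat_lit 464) (nat_lit 319) (nat_lit 237))))))) (XT.nd (nat_lit 1092) (nat_lit 304) (nat_lit 0) (XT.nd (nat_lit 546) (nat_lit 152) (nat_lit 0) (XT.nd (nat_lit 234) (nat_lit 152) (nat_lit 0) (XT.nd (nat_lit 78) (nat_lit 76) (nat_lit 0) (XT.lf (nat_lit 0) (nat_lit 13569250101) (nat_lit 76) (nat_lit 22193740206) (nat_lit 76) (nat_lit 5499697169) (nat_lit 20) (nat_lit 4) (nat_lit 21) (nat_lit 5) (nat_lit 21) (nat_lit 4) (nat_lit 465) (nat_lit 319) (nat_lit 236)) (XT.nd (nat_lit 78) (nat_lit 0) (nat_lit 0) (XT.lf (nat_lit 0) (nat_lit 759441658) (nat_lit 152) (nat_lit 15198128548) (nat_lit 76) (nat_lit 26338918852) (nat_lit 19) (nat_lit 5) (nat_lit 21) (nat_lit 5)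 (nat_lit 20) (nat_lit 4) (nat_lit 466) (nat_lit 319) (nat_lit 235)) (XT.lf (nat_lit 0) (nat_lit 7066896258) (nat_lit 152) (nat_lit 2438415204) (nat_lit 76) (nat_lit 33855228707) (nat_lit 19) (nat_lit 5) (nat_lit 21) (nat_lit 5) (nat_lit 20) (nat_lit 4) (nat_lit 467) (nat_lit 319) (nat_lit 234)))) (XT.nd (nat_lit 156) (nat_lit 76) (nat_lit 0) (XT.nd (nat_lit 78) (nat_lit 0) (nat_lit 0) (XT.lf (nat_lit 0) (nat_lit 10861668649) (nat_lit 76) (nat_lit 2778237252) (nat_lit 152) (nat_lit 30814318385) (nat_lit 18) (nat_lit 5) (nat_lit 19) (nat_lit 5) (nat_lit 20) (nat_lit 4) (nat_lit 468) (nat_lit 319) (nat_lit 233)) (XT.lf (nat_lit 0) (nat_lit 20446843580) (nat_lit 152) (nat_lit 21063804762) (nat_lit 0) (nat_lit 4068969827) (nat_lit 18) (nat_lit 5) (nat_lit 20) (nat_lit 4) (nat_lit 18) (nat_lit 4) (nat_lit 469) (nat_lit 319) (nat_lit 232))) (XT.nd (nat_lit 78) (nat_lit 76) (nat_lit 0) (XT.lf (nat_lit 0) (nat_lit 27458285191)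 (nat_lit 152) (nat_lit 8239535842) (nat_lit 0) (nat_lit 11040945293) (nat_lit 18) (nat_lit 5) (nat_lit 20) (nat_lit 4) (nat_lit 18) (nat_lit 4) (nat_lit 470) (nat_lit 319) (nat_lit 231)) (XT.lf (nat_lit 0) (nat_lit 5016043994) (nat_lit 76) (nat_lit 29685824411) (nat_lit 76) (nat_lit 13230167868) (nat_lit 17) (nat_lit 4) (nat_lit 18) (nat_lit 5) (nat_lit 18) (nat_lit 4) (nat_lit 471) (nat_lit 319) (nat_lit 230))))) (XT.nd (nat_lit 234) (nat_lit 76) (nat_lit 0) (XT.nd (nat_lit 78) (nat_lit 76) (nat_lit 0) (XT.lf (nat_lit 0) (nat_lit 18787398322) (nat_lit 76) (nat_lit 23432426231) (nat_lit 76) (nat_lit 6939569060) (nat_lit 17) (nat_lit 4) (nat_lit 18) (nat_lit 5) (nat_lit 18) (nat_lit 4) (nat_lit 472) (nat_lit 319) (nat_lit 229)) (XT.nd (nat_lit 78) (nat_lit 76) (nat_lit 0) (XT.lf (nat_lit 0) (nat_lit 32922577443) (nat_lit 76) (nat_lit 17015365514) (nat_lit 76) (nat_lit 486391230) (nat_lit 17) (nat_lit 4) (nat_lit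 18) (nat_lit 5) (nat_lit 18) (nat_lit 4) (nat_lit 473) (nat_lit 319) (nat_lit 228)) (XT.lf (nat_lit 0) (nat_lit 6015288290) (nat_lit 152) (nat_lit 4353004213) (nat_lit 76) (nat_lit 41357901577) (nat_lit 16) (nat_lit 5) (nat_lit 18) (nat_lit 5) (nat_lit 17) (nat_lit 4) (nat_lit 474) (nat_lit 319) (nat_lit 227)))) (XT.nd (nat_lit 156) (nat_lit 0) (nat_lit 0) (XT.nd (nat_lit 78) (nat_lit 0) (nat_lit 0) (XT.lf (nat_lit 0) (nat_lit 9320300972) (nat_lit 76) (nat_lit 3447376002) (nat_lit 152) (nat_lit 40297326397) (nat_lit 15) (nat_lit 5) (nat_lit 16) (nat_lit 5) (nat_lit 17) (nat_lit 4) (nat_lit 475) (nat_lit 319) (nat_lit 226)) (XT.lf (nat_lit 0) (nat_lit 19778296587) (nat_lit 152) (nat_lit 31032448630) (nat_lit 0) (nat_lit 3631563032) (nat_lit 15) (nat_lit 5) (nat_lit 17) (nat_lit 4) (nat_lit 15) (nat_lit 4) (nat_lit 476) (nat_lit 319) (nat_lit 225))) (XT.nd (nat_lit 78) (nat_lit 0) (nat_lit 0) (XT.lf (nat_lit 0)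 (nat_lit 27009951305) (nat_lit 152) (nat_lit 18018597713) (nat_lit 0) (nat_lit 10832062811) (nat_lit 15) (nat_lit 5) (nat_lit 17) (nat_lit 4) (nat_lit 15) (nat_lit 4) (nat_lit 477) (nat_lit 319) (nat_lit 224)) (XT.lf (nat_lit 0) (nat_lit 34435821764) (nat_lit 152) (nat_lit 4658640036) (nat_lit 0) (nat_lit 18227685756) (nat_lit 15) (nat_lit 5) (nat_lit 17) (nat_lit 4) (nat_lit 15) (nat_lit 4) (nat_lit 478) (nat_lit 319) (nat_lit 223)))))) (XT.nd (nat_lit 546) (nat_lit 76) (nat_lit 0) (XT.nd (nat_lit 234) (nat_lit 152) (nat_lit 0) (XT.nd (nat_lit 78) (nat_lit 0) (nat_lit 0) (XT.lf (nat_lit 0) (nat_lit 9239391966) (nat_lit 76) (nat_lit 32911819310) (nat_lit 76) (nat_lit 16674316783) (nat_lit 14) (nat_lit 4) (nat_lit 15) (nat_lit 5) (nat_lit 15) (nat_lit 4) (nat_lit 479) (nat_lit 319) (nat_lit 222)) (XT.nd (nat_lit 78) (nat_lit 0) (nat_lit 0) (XT.lf (nat_lit 0) (nat_lit 23607266009) (nat_lit 76) (nat_lit 26516001249)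 (nat_lit 76) (nat_lit 10249987539) (nat_lit 14) (nat_lit 4) (nat_lit 15) (nat_lit 5) (nat_lit 15) (nat_lit 4) (nat_lit 480) (nat_lit 319) (nat_lit 221)) (XT.lf (nat_lit 0) (nat_lit 38364820474) (nat_lit 76) (nat_lit 19948462169) (nat_lit 76) (nat_lit 3654767699) (nat_lit 14) (nat_lit 4) (nat_lit 15) (nat_lit 5) (nat_lit 15) (nat_lit 4) (nat_lit 481) (nat_lit 319) (nat_lit 220)))) (XT.nd (nat_lit 156) (nat_lit 0) (nat_lit 0) (XT.nd (nat_lit 78) (nat_lit 76) (nat_lit 0) (XT.lf (nat_lit 0) (nat_lit 3056279594) (nat_lit 152) (nat_lit 10116321418) (nat_lit 76) (nat_lit 50437808286) (nat_lit 13) (nat_lit 5) (nat_lit 15) (nat_lit 5) (nat_lit 14) (nat_lit 4) (nat_lit 482) (nat_lit 319) (nat_lit 219)) (XT.lf (nat_lit 0) (nat_lit 3773253877) (nat_lit 76) (nat_lit 6138034124) (nat_lit 152) (nat_lit 55389183696) (nat_lit 12) (nat_lit 5) (nat_lit 13) (nat_lit 5) (nat_lit 14) (nat_lit 4) (nat_lit 483) (nat_lit 319) (nat_lit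 218))) (XT.nd (nat_lit 78) (nat_lit 0) (nat_lit 0) (XT.lf (nat_lit 0) (nat_lit 17065605932) (nat_lit 152) (nat_lit 48802353586) (nat_lit 0) (nat_lit 1170467502) (nat_lit 12) (nat_lit 5) (nat_lit 14) (nat_lit 4) (nat_lit 12) (nat_lit 4) (nat_lit 484) (nat_lit 319) (nat_lit 217)) (XT.lf (nat_lit 0) (nat_lit 24475759206) (nat_lit 152) (nat_lit 35794783320) (nat_lit 0) (nat_lit 8556743110) (nat_lit 12) (nat_lit 5) (nat_lit 14) (nat_lit 4) (nat_lit 12) (nat_lit 4) (nat_lit 485) (nat_lit 319) (nat_lit 216))))) (XT.nd (nat_lit 312) (nat_lit 0) (nat_lit 0) (XT.nd (nat_lit 156) (nat_lit 76) (nat_lit 0) (XT.nd (nat_lit 78) (nat_lit 0) (nat_lit 0) (XT.lf (nat_lit 0) (nat_lit 32089220177) (nat_lit 152) (nat_lit 22434138644) (nat_lit 0) (nat_lit 16147021880) (nat_lit 12) (nat_lit 5) (nat_lit 14) (nat_lit 4) (nat_lit 12) (nat_lit 4) (nat_lit 486) (nat_lit 319) (nat_lit 215)) (XT.lf (nat_lit 0) (nat_lit 39912641383) (nat_lit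 152) (nat_lit 8708745210) (nat_lit 0) (nat_lit 23947936095) (nat_lit 12) (nat_lit 5) (nat_lit 14) (nat_lit 4) (nat_lit 12) (nat_lit 4) (nat_lit 487) (nat_lit 319) (nat_lit 214))) (XT.nd (nat_lit 78) (nat_lit 0) (nat_lit 0) (XT.lf (nat_lit 0) (nat_lit 5500729082) (nat_lit 76) (nat_lit 42505006113) (nat_lit 76) (nat_lit 26518449377) (nat_lit 11) (nat_lit 4) (nat_lit 12) (nat_lit 5) (nat_lit 12) (nat_lit 4) (nat_lit 488) (nat_lit 319) (nat_lit 213)) (XT.lf (nat_lit 0) (nat_lit 20280331694) (nat_lit 76) (nat_lit 36131513189) (nat_lit 76) (nat_lit 20123741456) (nat_lit 11) (nat_lit 4) (nat_lit 12) (nat_lit 5) (nat_lit 12) (nat_lit 4) (nat_lit 489) (nat_lit 319) (nat_lit 212)))) (XT.nd (nat_lit 44538) (nat_lit 0) (nat_lit 11780) (XT.nd (nat_lit 78) (nat_lit 0) (nat_lit 0) (XT.lf (nat_lit 0) (nat_lit 35469655735) (nat_lit 76) (nat_lit 29583280001) (nat_lit 76) (nat_lit 13554911182) (nat_lit 11) (nat_lit 4) (nat_lit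 12) (nat_lit 5) (nat_lit 12) (nat_lit 4) (nat_lit 490) (nat_lit 319) (nat_lit 211)) (XT.lf (nat_lit 0) (nat_lit 51081973430) (nat_lit 76) (nat_lit 22854584791) (nat_lit 76) (nat_lit 6806218803) (nat_lit 11) (nat_lit 4) (nat_lit 12) (nat_lit 5) (nat_lit 12) (nat_lit 4) (nat_lit 491) (nat_lit 319) (nat_lit 210))) (XT.nd (nat_lit 78) (nat_lit 456) (nat_lit 0) (XT.lf (nat_lit 0) (nat_lit 1614717699) (nat_lit 456) (nat_lit 880269169) (nat_lit 0) (nat_lit 1614717699) (nat_lit 172) (nat_lit 5) (nat_lit 178) (nat_lit 4) (nat_lit 172) (nat_lit 4) (nat_lit 380) (nat_lit 320) (nat_lit 320)) (XT.lf (nat_lit 0) (nat_lit 4895012069) (nat_lit 456) (nat_lit 2282658327) (nat_lit 456) (nat_lit 1135381227) (nat_lit 166) (nat_lit 4) (nat_lit 172) (nat_lit 5) (nat_lit 172) (nat_lit 4) (nat_lit 381) (nat_lit 320) (nat_lit 319))))))))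
noncomputable def xc55 : XT := (XT.nd (nat_lit 2262) (nat_lit 2812) (nat_lit 0) (XT.nd (nat_lit 1092) (nat_lit 2888) (nat_lit 0) (XT.nd (nat_lit 546) (nat_lit 1672) (nat_lit 0) (XT.nd (nat_lit 234) (nat_lit 1520) (nat_lit 0) (XT.nd (nat_lit 78) (nat_lit 456) (nat_lit 0) (XT.lf (nat_lit 0) (nat_lit 2735731934) (nat_lit 456) (nat_lit 5133852491) (nat_lit 0) (nat_lit 540451971) (nat_lit 160) (nat_lit 5) (nat_lit 166) (nat_lit 4) (nat_lit 160) (nat_lit 4) (nat_lit 382) (nat_lit 320) (nat_lit 318)) (XT.nd (nat_lit 78) (nat_lit 76) (nat_lit 0) (XT.lf (nat_lit 0) (nat_lit 1595722069) (nat_lit 380) (nat_lit 5079921680) (nat_lit 380) (nat_lit 1834720648) (nat_lit 155) (nat_lit 4) (nat_lit 160) (nat_lit 5) (nat_lit 160) (nat_lit 4) (nat_lit 383) (nat_lit 320) (nat_lit 317)) (XT.lf (nat_lit 0) (nat_lit 2034304922) (nat_lit 456) (nat_lit 134902881) (nat_lit 76) (nat_lit 6445247786) (nat_lit 154) (nat_lit 5) (nat_lit 160)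 (nat_lit 5) (nat_lit 155) (nat_lit 4) (nat_lit 384) (nat_lit 320) (nat_lit 316)))) (XT.nd (nat_lit 156) (nat_lit 684) (nat_lit 0) (XT.nd (nat_lit 78) (nat_lit 456) (nat_lit 0) (XT.lf (nat_lit 0) (nat_lit 5962741654) (nat_lit 456) (nat_lit 1897425649) (nat_lit 0) (nat_lit 861583227) (nat_lit 149) (nat_lit 5) (nat_lit 155) (nat_lit 4) (nat_lit 149) (nat_lit 4) (nat_lit 385) (nat_lit 320) (nat_lit 315)) (XT.lf (nat_lit 0) (nat_lit 1132764543) (nat_lit 456) (nat_lit 3734487675) (nat_lit 76) (nat_lit 3965334549) (nat_lit 143) (nat_lit 5) (nat_lit 149) (nat_lit 5) (nat_lit 144) (nat_lit 4) (nat_lit 386) (nat_lit 320) (nat_lit 314))) (XT.nd (nat_lit 78) (nat_lit 380) (nat_lit 0) (XT.lf (nat_lit 0) (nat_lit 3300994927) (nat_lit 304) (nat_lit 1743668009) (nat_lit 380) (nat_lit 3902530610) (nat_lit 139) (nat_lit 5) (nat_lit 143) (nat_lit 5) (nat_lit 144) (nat_lit 4) (nat_lit 387) (nat_lit 320) (nat_lit 313)) (XT.lf (nat_lit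 0) (nat_lit 1440357768) (nat_lit 380) (nat_lit 7608444748) (nat_lit 380) (nat_lit 17218340) (nat_lit 134) (nat_lit 4) (nat_lit 139) (nat_lit 5) (nat_lit 139) (nat_lit 4) (nat_lit 388) (nat_lit 320) (nat_lit 312))))) (XT.nd (nat_lit 234) (nat_lit 912) (nat_lit 0) (XT.nd (nat_lit 78) (nat_lit 684) (nat_lit 0) (XT.lf (nat_lit 0) (nat_lit 3891003336) (nat_lit 456) (nat_lit 521307022) (nat_lit 76) (nat_lit 4775457588) (nat_lit 133) (nat_lit 5) (nat_lit 139) (nat_lit 5) (nat_lit 134) (nat_lit 4) (nat_lit 389) (nat_lit 320) (nat_lit 311)) (XT.nd (nat_lit 78) (nat_lit 380) (nat_lit 0) (XT.lf (nat_lit 0) (nat_lit 6798848778) (nat_lit 304) (nat_lit 1094535284) (nat_lit 380) (nat_lit 1420486921) (nat_lit 129) (nat_lit 5) (nat_lit 133) (nat_lit 5) (nat_lit 134) (nat_lit 4) (nat_lit 390) (nat_lit 320) (nat_lit 310)) (XT.lf (nat_lit 0) (nat_lit 2508805263) (nat_lit 380) (nat_lit 4621650312) (nat_lit 76) (nat_lit 2312977193)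 (nat_lit 124) (nat_lit 5) (nat_lit 129) (nat_lit 5) (nat_lit 125) (nat_lit 4) (nat_lit 391) (nat_lit 320) (nat_lit 309)))) (XT.nd (nat_lit 156) (nat_lit 228) (nat_lit 0) (XT.nd (nat_lit 78) (nat_lit 380) (nat_lit 0) (XT.lf (nat_lit 0) (nat_lit 2751411563) (nat_lit 304) (nat_lit 3752199310) (nat_lit 380) (nat_lit 3073587220) (nat_lit 120) (nat_lit 5) (nat_lit 124) (nat_lit 5) (nat_lit 125) (nat_lit 4) (nat_lit 392) (nat_lit 320) (nat_lit 308)) (XT.lf (nat_lit 0) (nat_lit 597638086) (nat_lit 304) (nat_lit 254556049) (nat_lit 380) (nat_lit 8863548448) (nat_lit 115) (nat_lit 5) (nat_lit 119) (nat_lit 5) (nat_lit 120) (nat_lit 5) (nat_lit 393) (nat_lit 320) (nat_lit 307))) (XT.nd (nat_lit 78) (nat_lit 228) (nat_lit 0) (XT.lf (nat_lit 0) (nat_lit 4850250534) (nat_lit 380) (nat_lit 1668540136) (nat_lit 76) (nat_lit 3338273573) (nat_lit 115) (nat_lit 5) (nat_lit 120) (nat_lit 5) (nat_lit 116) (nat_lit 4) (nat_lit 394)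 (nat_lit 320) (nat_lit 306)) (XT.lf (nat_lit 0) (nat_lit 5990187009) (nat_lit 228) (nat_lit 2955139015) (nat_lit 304) (nat_lit 1058008677) (nat_lit 112) (nat_lit 5) (nat_lit 115) (nat_lit 5) (nat_lit 116) (nat_lit 4) (nat_lit 395) (nat_lit 320) (nat_lit 305)))))) (XT.nd (nat_lit 546) (nat_lit 1444) (nat_lit 0) (XT.nd (nat_lit 234) (nat_lit 760) (nat_lit 0) (XT.nd (nat_lit 78) (nat_lit 304) (nat_lit 0) (XT.lf (nat_lit 0) (nat_lit 2927434114) (nat_lit 380) (nat_lit 6488419751) (nat_lit 76) (nat_lit 737984985) (nat_lit 107) (nat_lit 5) (nat_lit 112) (nat_lit 5) (nat_lit 108) (nat_lit 4) (nat_lit 396) (nat_lit 320) (nat_lit 304)) (XT.nd (nat_lit 78) (nat_lit 76) (nat_lit 0) (XT.lf (nat_lit 0) (nat_lit 1202444246) (nat_lit 228) (nat_lit 5808546180) (nat_lit 304) (nat_lit 3297578631) (nat_lit 104) (nat_lit 5) (nat_lit 107) (nat_lit 5) (nat_lit 108) (nat_lit 4) (nat_lit 397) (nat_lit 320) (nat_lit 303)) (XT.lf (nat_lit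 0) (nat_lit 719066795) (nat_lit 304) (nat_lit 1347004715) (nat_lit 76) (nat_lit 8402134978) (nat_lit 103) (nat_lit 5) (nat_lit 107) (nat_lit 5) (nat_lit 104) (nat_lit 5) (nat_lit 398) (nat_lit 320) (nat_lit 302)))) (XT.nd (nat_lit 156) (nat_lit 304) (nat_lit 0) (XT.nd (nat_lit 78) (nat_lit 228) (nat_lit 0) (XT.lf (nat_lit 0) (nat_lit 4791992808) (nat_lit 304) (nat_lit 4034940491) (nat_lit 76) (nat_lit 1804676468) (nat_lit 100) (nat_lit 5) (nat_lit 104) (nat_lit 5) (nat_lit 101) (nat_lit 4) (nat_lit 399) (nat_lit 320) (nat_lit 301)) (XT.lf (nat_lit 0) (nat_lit 3935874869) (nat_lit 228) (nat_lit 5044690206) (nat_lit 304) (nat_lit 1819563771) (nat_lit 97) (nat_lit 5) (nat_lit 100) (nat_lit 5) (nat_lit 101) (nat_lit 4) (nat_lit 400) (nat_lit 320) (nat_lit 300))) (XT.nd (nat_lit 78) (nat_lit 0) (nat_lit 0) (XT.lf (nat_lit 0) (nat_lit 1127916113) (nat_lit 228) (nat_lit 1121598990) (nat_lit 304) (nat_lit 8724323988)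 (nat_lit 93) (nat_lit 5) (nat_lit 96) (nat_lit 5) (nat_lit 97) (nat_lit 5) (nat_lit 401) (nat_lit 320) (nat_lit 299)) (XT.lf (nat_lit 0) (nat_lit 6424480249) (nat_lit 304) (nat_lit 1824918665) (nat_lit 76) (nat_lit 2902225680) (nat_lit 93) (nat_lit 5) (nat_lit 97) (nat_lit 5) (nat_lit 94) (nat_lit 4) (nat_lit 402) (nat_lit 320) (nat_lit 298))))) (XT.nd (nat_lit 312) (nat_lit 684) (nat_lit 0) (XT.nd (nat_lit 156) (nat_lit 228) (nat_lit 0) (XT.nd (nat_lit 78) (nat_lit 304) (nat_lit 0) (XT.lf (nat_lit 0) (nat_lit 6426711849) (nat_lit 228) (nat_lit 4295449921) (nat_lit 304) (nat_lit 612673380) (nat_lit 90) (nat_lit 5) (nat_lit 93) (nat_lit 5) (nat_lit 94) (nat_lit 4) (nat_lit 403) (nat_lit 320) (nat_lit 297)) (XT.lf (nat_lit 0) (nat_lit 3345973843) (nat_lit 228) (nat_lit 184137578) (nat_lit 304) (nat_lit 7993131151) (nat_lit 86) (nat_lit 5) (nat_lit 89) (nat_lit 5) (nat_lit 90) (nat_lit 5) (nat_lit 404) (nat_lit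 320) (nat_lit 296))) (XT.nd (nat_lit 78) (nat_lit 76) (nat_lit 0) (XT.lf (nat_lit 0) (nat_lit 63085653) (nat_lit 152) (nat_lit 7736752237) (nat_lit 228) (nat_lit 3916847372) (nat_lit 84) (nat_lit 5) (nat_lit 86) (nat_lit 5) (nat_lit 87) (nat_lit 4) (nat_lit 405) (nat_lit 320) (nat_lit 295)) (XT.lf (nat_lit 0) (nat_lit 287058930) (nat_lit 228) (nat_lit 3325935869) (nat_lit 76) (nat_lit 8302543625) (nat_lit 83) (nat_lit 5) (nat_lit 86) (nat_lit 5) (nat_lit 84) (nat_lit 5) (nat_lit 406) (nat_lit 320) (nat_lit 294)))) (XT.nd (nat_lit 156) (nat_lit 304) (nat_lit 0) (XT.nd (nat_lit 78) (nat_lit 152) (nat_lit 0) (XT.lf (nat_lit 0) (nat_lit 4522553428) (nat_lit 304) (nat_lit 6934035403) (nat_lit 76) (nat_lit 663092045) (nat_lit 80) (nat_lit 5) (nat_lit 84) (nat_lit 5) (nat_lit 81) (nat_lit 4) (nat_lit 407) (nat_lit 320) (nat_lit 293)) (XT.lf (nat_lit 0) (nat_lit 1563986622) (nat_lit 152) (nat_lit 7334103889) (nat_lit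 228) (nat_lit 3431480371) (nat_lit 78) (nat_lit 5) (nat_lit 80) (nat_lit 5) (nat_lit 81) (nat_lit 4) (nat_lit 408) (nat_lit 320) (nat_lit 292))) (XT.nd (nat_lit 78) (nat_lit 228) (nat_lit 0) (XT.lf (nat_lit 0) (nat_lit 841551254) (nat_lit 228) (nat_lit 2215995943) (nat_lit 76) (nat_lit 9487999123) (nat_lit 77) (nat_lit 5) (nat_lit 80) (nat_lit 5) (nat_lit 78) (nat_lit 5) (nat_lit 409) (nat_lit 320) (nat_lit 291)) (XT.lf (nat_lit 0) (nat_lit 5180901195) (nat_lit 304) (nat_lit 6215312753) (nat_lit 76) (nat_lit 1370566459) (nat_lit 74) (nat_lit 5) (nat_lit 78) (nat_lit 5) (nat_lit 75) (nat_lit 4) (nat_lit 410) (nat_lit 320) (nat_lit 290))))))) (XT.nd (nat_lit 1092) (nat_lit 1216) (nat_lit 0) (XT.nd (nat_lit 546) (nat_lit 684) (nat_lit 0) (XT.nd (nat_lit 234) (nat_lit 532) (nat_lit 0) (XT.nd (nat_lit 78) (nat_lit 228) (nat_lit 0) (XT.lf (nat_lit 0) (nat_lit 2532994781) (nat_lit 152) (nat_lit 7125625293) (nat_lit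 228) (nat_lit 3335796995) (nat_lit 72) (nat_lit 5) (nat_lit 74) (nat_lit 5) (nat_lit 75) (nat_lit 4) (nat_lit 411) (nat_lit 320) (nat_lit 289)) (XT.nd (nat_lit 78) (nat_lit 152) (nat_lit 0) (XT.lf (nat_lit 0) (nat_lit 1015999997) (nat_lit 228) (nat_lit 1686026449) (nat_lit 76) (nat_lit 10526730277) (nat_lit 71) (nat_lit 5) (nat_lit 74) (nat_lit 5) (nat_lit 72) (nat_lit 5) (nat_lit 412) (nat_lit 320) (nat_lit 288)) (XT.lf (nat_lit 0) (nat_lit 5453467645) (nat_lit 228) (nat_lit 6140509957) (nat_lit 76) (nat_lit 1874503499) (nat_lit 69) (nat_lit 5) (nat_lit 72) (nat_lit 5) (nat_lit 70) (nat_lit 4) (nat_lit 413) (nat_lit 320) (nat_lit 287)))) (XT.nd (nat_lit 156) (nat_lit 304) (nat_lit 0) (XT.nd (nat_lit 78) (nat_lit 76) (nat_lit 0) (XT.lf (nat_lit 0) (nat_lit 2844193663) (nat_lit 152) (nat_lit 7184686789) (nat_lit 228) (nat_lit 3686382081) (nat_lit 67) (nat_lit 5) (nat_lit 69) (nat_lit 5) (nat_lit 70) (nat_lit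 4) (nat_lit 414) (nat_lit 320) (nat_lit 286)) (XT.lf (nat_lit 0) (nat_lit 753364923) (nat_lit 228) (nat_lit 1867947057) (nat_lit 76) (nat_lit 11348032452) (nat_lit 66) (nat_lit 5) (nat_lit 69) (nat_lit 5) (nat_lit 67) (nat_lit 5) (nat_lit 415) (nat_lit 320) (nat_lit 285))) (XT.nd (nat_lit 78) (nat_lit 152) (nat_lit 0) (XT.lf (nat_lit 0) (nat_lit 5279557753) (nat_lit 228) (nat_lit 6850410835) (nat_lit 76) (nat_lit 2099173964) (nat_lit 64) (nat_lit 5) (nat_lit 67) (nat_lit 5) (nat_lit 65) (nat_lit 4) (nat_lit 416) (nat_lit 320) (nat_lit 284)) (XT.lf (nat_lit 0) (nat_lit 2351092586) (nat_lit 152) (nat_lit 7594010247) (nat_lit 228) (nat_lit 4551533635) (nat_lit 62) (nat_lit 5) (nat_lit 64) (nat_lit 5) (nat_lit 65) (nat_lit 4) (nat_lit 417) (nat_lit 320) (nat_lit 283))))) (XT.nd (nat_lit 234) (nat_lit 304) (nat_lit 0) (XT.nd (nat_lit 78) (nat_lit 380) (nat_lit 0) (XT.lf (nat_lit 0) (nat_lit 11856602775) (nat_lit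 152) (nat_lit 2899934648) (nat_lit 228) (nat_lit 15448671) (nat_lit 62) (nat_lit 5) (nat_lit 64) (nat_lit 5) (nat_lit 65) (nat_lit 4) (nat_lit 418) (nat_lit 320) (nat_lit 282)) (XT.nd (nat_lit 78) (nat_lit 152) (nat_lit 0) (XT.lf (nat_lit 0) (nat_lit 4586128577) (nat_lit 228) (nat_lit 8508846206) (nat_lit 76) (nat_lit 1958678250) (nat_lit 59) (nat_lit 5) (nat_lit 62) (nat_lit 5) (nat_lit 60) (nat_lit 4) (nat_lit 419) (nat_lit 320) (nat_lit 281)) (XT.lf (nat_lit 0) (nat_lit 883019548) (nat_lit 152) (nat_lit 8447621434) (nat_lit 228) (nat_lit 6012976318) (nat_lit 57) (nat_lit 5) (nat_lit 59) (nat_lit 5) (nat_lit 60) (nat_lit 4) (nat_lit 420) (nat_lit 320) (nat_lit 280)))) (XT.nd (nat_lit 156) (nat_lit 76) (nat_lit 0) (XT.nd (nat_lit 78) (nat_lit 228) (nat_lit 0) (XT.lf (nat_lit 0) (nat_lit 10621416831) (nat_lit 152) (nat_lit 3621005504) (nat_lit 228) (nat_lit 1399117783) (nat_lit 57) (nat_lit 5) (nat_lit 59) (nat_lit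 5) (nat_lit 60) (nat_lit 4) (nat_lit 421) (nat_lit 320) (nat_lit 279)) (XT.lf (nat_lit 0) (nat_lit 3285943252) (nat_lit 228) (nat_lit 11306668186) (nat_lit 76) (nat_lit 1354882829) (nat_lit 54) (nat_lit 5) (nat_lit 57) (nat_lit 5) (nat_lit 55) (nat_lit 4) (nat_lit 422) (nat_lit 320) (nat_lit 278))) (XT.nd (nat_lit 78) (nat_lit 76) (nat_lit 0) (XT.lf (nat_lit 0) (nat_lit 8110936458) (nat_lit 228) (nat_lit 1724719675) (nat_lit 76) (nat_lit 6425737274) (nat_lit 54) (nat_lit 5) (nat_lit 57) (nat_lit 5) (nat_lit 55) (nat_lit 4) (nat_lit 423) (nat_lit 320) (nat_lit 277)) (XT.lf (nat_lit 0) (nat_lit 8199921695) (nat_lit 76) (nat_lit 4901769132) (nat_lit 152) (nat_lit 3482395133) (nat_lit 53) (nat_lit 5) (nat_lit 54) (nat_lit 5) (nat_lit 55) (nat_lit 4) (nat_lit 424) (nat_lit 320) (nat_lit 276)))))) (XT.nd (nat_lit 546) (nat_lit 608) (nat_lit 0) (XT.nd (nat_lit 234) (nat_lit 304) (nat_lit 0) (XT.nd (nat_lit 78) (nat_lit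 76) (nat_lit 0) (XT.lf (nat_lit 0) (nat_lit 1275407246) (nat_lit 228) (nat_lit 15466344162) (nat_lit 76) (nat_lit 175064923) (nat_lit 50) (nat_lit 5) (nat_lit 53) (nat_lit 5) (nat_lit 51) (nat_lit 4) (nat_lit 425) (nat_lit 320) (nat_lit 275)) (XT.nd (nat_lit 78) (nat_lit 76) (nat_lit 0) (XT.lf (nat_lit 0) (nat_lit 6182519972) (nat_lit 228) (nat_lit 5693964442) (nat_lit 76) (nat_lit 5379718960) (nat_lit 50) (nat_lit 5) (nat_lit 53) (nat_lit 5) (nat_lit 51) (nat_lit 4) (nat_lit 426) (nat_lit 320) (nat_lit 274)) (XT.lf (nat_lit 0) (nat_lit 4354479806) (nat_lit 76) (nat_lit 6868432672) (nat_lit 152) (nat_lit 6383283582) (nat_lit 49) (nat_lit 5) (nat_lit 50) (nat_lit 5) (nat_lit 51) (nat_lit 4) (nat_lit 427) (nat_lit 320) (nat_lit 273)))) (XT.nd (nat_lit 156) (nat_lit 76) (nat_lit 0) (XT.nd (nat_lit 78) (nat_lit 228) (nat_lit 0) (XT.lf (nat_lit 0) (nat_lit 14720020392) (nat_lit 76) (nat_lit 1696856092) (nat_lit 152)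 (nat_lit 1549747097) (nat_lit 49) (nat_lit 5) (nat_lit 50) (nat_lit 5) (nat_lit 51) (nat_lit 4) (nat_lit 428) (nat_lit 320) (nat_lit 272)) (XT.lf (nat_lit 0) (nat_lit 3411183509) (nat_lit 228) (nat_lit 11307583633) (nat_lit 76) (nat_lit 3616634622) (nat_lit 46) (nat_lit 5) (nat_lit 49) (nat_lit 5) (nat_lit 47) (nat_lit 4) (nat_lit 429) (nat_lit 320) (nat_lit 271))) (XT.nd (nat_lit 78) (nat_lit 76) (nat_lit 0) (XT.lf (nat_lit 0) (nat_lit 8485835086) (nat_lit 228) (nat_lit 1169124985) (nat_lit 76) (nat_lit 9059947010) (nat_lit 46) (nat_lit 5) (nat_lit 49) (nat_lit 5) (nat_lit 47) (nat_lit 4) (nat_lit 430) (nat_lit 320) (nat_lit 270)) (XT.lf (nat_lit 0) (nat_lit 9359602398) (nat_lit 76) (nat_lit 4390794961) (nat_lit 152) (nat_lit 5354275259) (nat_lit 45) (nat_lit 5) (nat_lit 46) (nat_lit 5) (nat_lit 47) (nat_lit 4) (nat_lit 431) (nat_lit 320) (nat_lit 269))))) (XT.nd (nat_lit 312) (nat_lit 304) (nat_lit 0) (XT.nd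 (nat_lit 156) (nat_lit 76) (nat_lit 0) (XT.nd (nat_lit 78) (nat_lit 76) (nat_lit 0) (XT.lf (nat_lit 0) (nat_lit 627890345) (nat_lit 152) (nat_lit 18520761629) (nat_lit 152) (nat_lit 358211528) (nat_lit 43) (nat_lit 4) (nat_lit 45) (nat_lit 5) (nat_lit 45) (nat_lit 4) (nat_lit 432) (nat_lit 320) (nat_lit 268)) (XT.lf (nat_lit 0) (nat_lit 4785127938) (nat_lit 228) (nat_lit 8593638452) (nat_lit 76) (nat_lit 6538253204) (nat_lit 42) (nat_lit 5) (nat_lit 45) (nat_lit 5) (nat_lit 43) (nat_lit 4) (nat_lit 433) (nat_lit 320) (nat_lit 267))) (XT.nd (nat_lit 78) (nat_lit 0) (nat_lit 0) (XT.lf (nat_lit 0) (nat_lit 1940592672) (nat_lit 76) (nat_lit 8103111059) (nat_lit 152) (nat_lit 10296630781) (nat_lit 41) (nat_lit 5) (nat_lit 42) (nat_lit 5) (nat_lit 43) (nat_lit 4) (nat_lit 434) (nat_lit 320) (nat_lit 266)) (XT.lf (nat_lit 0) (nat_lit 12873948390) (nat_lit 76) (nat_lit 2622925807) (nat_lit 152) (nat_lit 5278374040)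 (nat_lit 41) (nat_lit 5) (nat_lit 42) (nat_lit 5) (nat_lit 43) (nat_lit 4) (nat_lit 435) (nat_lit 320) (nat_lit 265)))) (XT.nd (nat_lit 156) (nat_lit 76) (nat_lit 0) (XT.nd (nat_lit 78) (nat_lit 76) (nat_lit 0) (XT.lf (nat_lit 0) (nat_lit 2847198988) (nat_lit 152) (nat_lit 18273966564) (nat_lit 152) (nat_lit 101822399) (nat_lit 39) (nat_lit 4) (nat_lit 41) (nat_lit 5) (nat_lit 41) (nat_lit 4) (nat_lit 436) (nat_lit 320) (nat_lit 264)) (XT.lf (nat_lit 0) (nat_lit 5185698169) (nat_lit 228) (nat_lit 7770167226) (nat_lit 76) (nat_lit 8725058466) (nat_lit 38) (nat_lit 5) (nat_lit 41) (nat_lit 5) (nat_lit 39) (nat_lit 4) (nat_lit 437) (nat_lit 320) (nat_lit 263))) (XT.nd (nat_lit 78) (nat_lit 0) (nat_lit 0) (XT.lf (nat_lit 0) (nat_lit 3124766251) (nat_lit 76) (nat_lit 7487672474) (nat_lit 152) (nat_lit 11540653635) (nat_lit 37) (nat_lit 5) (nat_lit 38) (nat_lit 5) (nat_lit 39) (nat_lit 4) (nat_lit 438) (nat_lit 320)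 (nat_lit 262)) (XT.lf (nat_lit 0) (nat_lit 14417875156) (nat_lit 76) (nat_lit 1815708542) (nat_lit 152) (nat_lit 6404898016) (nat_lit 37) (nat_lit 5) (nat_lit 38) (nat_lit 5) (nat_lit 39) (nat_lit 4) (nat_lit 439) (nat_lit 320) (nat_lit 261))))))))
noncomputable def xc56 : XT := (XT.nd (nat_lit 2184) (nat_lit 608) (nat_lit 0) (XT.nd (nat_lit 1092) (nat_lit 608) (nat_lit 0) (XT.nd (nat_lit 546) (nat_lit 304) (nat_lit 0) (XT.nd (nat_lit 234) (nat_lit 152) (nat_lit 0) (XT.nd (nat_lit 78) (nat_lit 152) (nat_lit 0) (XT.lf (nat_lit 0) (nat_lit 2841715541) (nat_lit 152) (nat_lit 19201788282) (nat_lit 152) (nat_lit 1094328453) (nat_lit 35) (nat_lit 4) (nat_lit 37) (nat_lit 5) (nat_lit 37) (nat_lit 4) (nat_lit 440) (nat_lit 320) (nat_lit 260)) (XT.nd (nat_lit 78) (nat_lit 76) (nat_lit 0) (XT.lf (nat_lit 0) (nat_lit 4346168057) (nat_lit 228) (nat_lit 9392556442) (nat_lit 76) (nat_lit 9910500796) (nat_lit 34) (nat_lit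 5) (nat_lit 37) (nat_lit 5) (nat_lit 35) (nat_lit 4) (nat_lit 441) (nat_lit 320) (nat_lit 259)) (XT.lf (nat_lit 0) (nat_lit 1778044228) (nat_lit 76) (nat_lit 8122448025) (nat_lit 152) (nat_lit 14275968007) (nat_lit 33) (nat_lit 5) (nat_lit 34) (nat_lit 5) (nat_lit 35) (nat_lit 4) (nat_lit 442) (nat_lit 320) (nat_lit 258)))) (XT.nd (nat_lit 156) (nat_lit 152) (nat_lit 0) (XT.nd (nat_lit 78) (nat_lit 0) (nat_lit 0) (XT.lf (nat_lit 0) (nat_lit 13393196394) (nat_lit 76) (nat_lit 2279109040) (nat_lit 152) (nat_lit 9045684399) (nat_lit 33) (nat_lit 5) (nat_lit 34) (nat_lit 5) (nat_lit 35) (nat_lit 4) (nat_lit 443) (nat_lit 320) (nat_lit 257)) (XT.lf (nat_lit 0) (nat_lit 21610148624) (nat_lit 152) (nat_lit 36512362) (nat_lit 0) (nat_lit 3629321273) (nat_lit 33) (nat_lit 5) (nat_lit 35) (nat_lit 4) (nat_lit 33) (nat_lit 4) (nat_lit 444) (nat_lit 320) (nat_lit 256))) (XT.nd (nat_lit 78) (nat_lit 0) (nat_lit 0) (XT.lf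 (nat_lit 0) (nat_lit 1933120563) (nat_lit 152) (nat_lit 14149597162) (nat_lit 76) (nat_lit 9764629839) (nat_lit 31) (nat_lit 5) (nat_lit 33) (nat_lit 5) (nat_lit 32) (nat_lit 4) (nat_lit 445) (nat_lit 320) (nat_lit 255)) (XT.lf (nat_lit 0) (nat_lit 7584971000) (nat_lit 152) (nat_lit 2766636461) (nat_lit 76) (nat_lit 16084402252) (nat_lit 31) (nat_lit 5) (nat_lit 33) (nat_lit 5) (nat_lit 32) (nat_lit 4) (nat_lit 446) (nat_lit 320) (nat_lit 254))))) (XT.nd (nat_lit 234) (nat_lit 152) (nat_lit 0) (XT.nd (nat_lit 78) (nat_lit 76) (nat_lit 0) (XT.lf (nat_lit 0) (nat_lit 9057584219) (nat_lit 76) (nat_lit 4395311113) (nat_lit 152) (nat_lit 13588043718) (nat_lit 30) (nat_lit 5) (nat_lit 31) (nat_lit 5) (nat_lit 32) (nat_lit 4) (nat_lit 447) (nat_lit 320) (nat_lit 253)) (XT.nd (nat_lit 78) (nat_lit 76) (nat_lit 0) (XT.lf (nat_lit 0) (nat_lit 19501346909) (nat_lit 152) (nat_lit 6464011578) (nat_lit 0) (nat_lit 1698525889)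 (nat_lit 30) (nat_lit 5) (nat_lit 32) (nat_lit 4) (nat_lit 30) (nat_lit 4) (nat_lit 448) (nat_lit 320) (nat_lit 252)) (XT.lf (nat_lit 0) (nat_lit 5387693490) (nat_lit 76) (nat_lit 20399596851) (nat_lit 76) (nat_lit 2516549283) (nat_lit 29) (nat_lit 4) (nat_lit 30) (nat_lit 5) (nat_lit 30) (nat_lit 4) (nat_lit 449) (nat_lit 320) (nat_lit 251)))) (XT.nd (nat_lit 156) (nat_lit 0) (nat_lit 0) (XT.nd (nat_lit 78) (nat_lit 76) (nat_lit 0) (XT.lf (nat_lit 0) (nat_lit 3261141762) (nat_lit 152) (nat_lit 11340819642) (nat_lit 76) (nat_lit 14359282523) (nat_lit 28) (nat_lit 5) (nat_lit 30) (nat_lit 5) (nat_lit 29) (nat_lit 4) (nat_lit 450) (nat_lit 320) (nat_lit 250)) (XT.lf (nat_lit 0) (nat_lit 493783478) (nat_lit 76) (nat_lit 8634463867) (nat_lit 152) (nat_lit 20510378084) (nat_lit 27) (nat_lit 5) (nat_lit 28) (nat_lit 5) (nat_lit 29) (nat_lit 4) (nat_lit 451) (nat_lit 320) (nat_lit 249))) (XT.nd (nat_lit 78) (nat_lit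 0) (nat_lit 0) (XT.lf (nat_lit 0) (nat_lit 12843910812) (nat_lit 76) (nat_lit 2404309927) (nat_lit 152) (nat_lit 15085804409) (nat_lit 27) (nat_lit 5) (nat_lit 28) (nat_lit 5) (nat_lit 29) (nat_lit 4) (nat_lit 452) (nat_lit 320) (nat_lit 248)) (XT.lf (nat_lit 0) (nat_lit 21553477646) (nat_lit 152) (nat_lit 5594989723) (nat_lit 0) (nat_lit 3901771299) (nat_lit 27) (nat_lit 5) (nat_lit 29) (nat_lit 4) (nat_lit 27) (nat_lit 4) (nat_lit 453) (nat_lit 320) (nat_lit 247)))))) (XT.nd (nat_lit 546) (nat_lit 304) (nat_lit 0) (XT.nd (nat_lit 234) (nat_lit 152) (nat_lit 0) (XT.nd (nat_lit 78) (nat_lit 76) (nat_lit 0) (XT.lf (nat_lit 0) (nat_lit 6695217965) (nat_lit 76) (nat_lit 21405023619) (nat_lit 76) (nat_lit 3686128801) (nat_lit 26) (nat_lit 4) (nat_lit 27) (nat_lit 5) (nat_lit 27) (nat_lit 4) (nat_lit 454) (nat_lit 320) (nat_lit 246)) (XT.nd (nat_lit 78) (nat_lit 0) (nat_lit 0) (XT.lf (nat_lit 0) (nat_lit 2275244791)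 (nat_lit 152) (nat_lit 13165379416) (nat_lit 76) (nat_lit 17102662635) (nat_lit 25) (nat_lit 5) (nat_lit 27) (nat_lit 5) (nat_lit 26) (nat_lit 4) (nat_lit 455) (nat_lit 320) (nat_lit 245)) (XT.lf (nat_lit 0) (nat_lit 8306636997) (nat_lit 152) (nat_lit 984984814) (nat_lit 76) (nat_lit 24031238220) (nat_lit 25) (nat_lit 5) (nat_lit 27) (nat_lit 5) (nat_lit 26) (nat_lit 4) (nat_lit 456) (nat_lit 320) (nat_lit 244)))) (XT.nd (nat_lit 156) (nat_lit 76) (nat_lit 0) (XT.nd (nat_lit 78) (nat_lit 0) (nat_lit 0) (XT.lf (nat_lit 0) (nat_lit 11724902857) (nat_lit 76) (nat_lit 2873051696) (nat_lit 152) (nat_lit 19525498375) (nat_lit 24) (nat_lit 5) (nat_lit 25) (nat_lit 5) (nat_lit 26) (nat_lit 4) (nat_lit 457) (nat_lit 320) (nat_lit 243)) (XT.lf (nat_lit 0) (nat_lit 21090336788) (nat_lit 152) (nat_lit 10212304739) (nat_lit 0) (nat_lit 3645054289) (nat_lit 24) (nat_lit 5) (nat_lit 26) (nat_lit 4) (nat_lit 24) (nat_lit 4)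 (nat_lit 458) (nat_lit 320) (nat_lit 242))) (XT.nd (nat_lit 78) (nat_lit 0) (nat_lit 0) (XT.lf (nat_lit 0) (nat_lit 2292925369) (nat_lit 76) (nat_lit 25502379931) (nat_lit 76) (nat_lit 8000828147) (nat_lit 23) (nat_lit 4) (nat_lit 24) (nat_lit 5) (nat_lit 24) (nat_lit 4) (nat_lit 459) (nat_lit 320) (nat_lit 241)) (XT.lf (nat_lit 0) (nat_lit 15320371521) (nat_lit 76) (nat_lit 19451856273) (nat_lit 76) (nat_lit 1895674113) (nat_lit 23) (nat_lit 4) (nat_lit 24) (nat_lit 5) (nat_lit 24) (nat_lit 4) (nat_lit 460) (nat_lit 320) (nat_lit 240))))) (XT.nd (nat_lit 234) (nat_lit 152) (nat_lit 0) (XT.nd (nat_lit 78) (nat_lit 76) (nat_lit 0) (XT.lf (nat_lit 0) (nat_lit 4275227997) (nat_lit 152) (nat_lit 8930508522) (nat_lit 76) (nat_lit 24359772613) (nat_lit 22) (nat_lit 5) (nat_lit 24) (nat_lit 5) (nat_lit 23) (nat_lit 4) (nat_lit 461) (nat_lit 320) (nat_lit 239)) (XT.nd (nat_lit 78) (nat_lit 0) (nat_lit 0) (XT.lf (nat_lit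 0) (nat_lit 3856181117) (nat_lit 76) (nat_lit 6743275455) (nat_lit 152) (nat_lit 27889837603) (nat_lit 21) (nat_lit 5) (nat_lit 22) (nat_lit 5) (nat_lit 23) (nat_lit 4) (nat_lit 462) (nat_lit 320) (nat_lit 238)) (XT.lf (nat_lit 0) (nat_lit 17150797889) (nat_lit 76) (nat_lit 22358833) (nat_lit 152) (nat_lit 22265845347) (nat_lit 21) (nat_lit 5) (nat_lit 22) (nat_lit 5) (nat_lit 23) (nat_lit 4) (nat_lit 463) (nat_lit 320) (nat_lit 237)))) (XT.nd (nat_lit 156) (nat_lit 76) (nat_lit 0) (XT.nd (nat_lit 78) (nat_lit 76) (nat_lit 0) (XT.lf (nat_lit 0) (nat_lit 23980583099) (nat_lit 152) (nat_lit 9696930106) (nat_lit 0) (nat_lit 6738594130) (nat_lit 21) (nat_lit 5) (nat_lit 23) (nat_lit 4) (nat_lit 21) (nat_lit 4) (nat_lit 464) (nat_lit 320) (nat_lit 236)) (XT.lf (nat_lit 0) (nat_lit 3279889221) (nat_lit 76) (nat_lit 27715147500) (nat_lit 76) (nat_lit 10427406452) (nat_lit 20) (nat_lit 4) (nat_lit 21) (nat_lit 5) (nat_lit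 21) (nat_lit 4) (nat_lit 465) (nat_lit 320) (nat_lit 235))) (XT.nd (nat_lit 78) (nat_lit 76) (nat_lit 0) (XT.lf (nat_lit 0) (nat_lit 16789365408) (nat_lit 76) (nat_lit 21499843585) (nat_lit 76) (nat_lit 4167683043) (nat_lit 20) (nat_lit 4) (nat_lit 21) (nat_lit 5) (nat_lit 21) (nat_lit 4) (nat_lit 466) (nat_lit 320) (nat_lit 234)) (XT.lf (nat_lit 0) (nat_lit 2207266735) (nat_lit 152) (nat_lit 12894534791) (nat_lit 76) (nat_lit 28420759126) (nat_lit 19) (nat_lit 5) (nat_lit 21) (nat_lit 5) (nat_lit 20) (nat_lit 4) (nat_lit 467) (nat_lit 320) (nat_lit 233))))))) (XT.nd (nat_lit 1092) (nat_lit 228) (nat_lit 0) (XT.nd (nat_lit 546) (nat_lit 152) (nat_lit 0) (XT.nd (nat_lit 234) (nat_lit 152) (nat_lit 0) (XT.nd (nat_lit 78) (nat_lit 0) (nat_lit 0) (XT.lf (nat_lit 0) (nat_lit 170930541) (nat_lit 76) (nat_lit 8493151448) (nat_lit 152) (nat_lit 35955649289) (nat_lit 18) (nat_lit 5) (nat_lit 19) (nat_lit 5) (nat_lit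 20) (nat_lit 4) (nat_lit 468) (nat_lit 320) (nat_lit 232)) (XT.nd (nat_lit 78) (nat_lit 0) (nat_lit 0) (XT.lf (nat_lit 0) (nat_lit 13840415139) (nat_lit 76) (nat_lit 1577427799) (nat_lit 152) (nat_lit 30328878180) (nat_lit 18) (nat_lit 5) (nat_lit 19) (nat_lit 5) (nat_lit 20) (nat_lit 4) (nat_lit 469) (nat_lit 320) (nat_lit 231)) (XT.lf (nat_lit 0) (nat_lit 22401107099) (nat_lit 152) (nat_lit 19092143926) (nat_lit 0) (nat_lit 5413464213) (nat_lit 18) (nat_lit 5) (nat_lit 20) (nat_lit 4) (nat_lit 18) (nat_lit 4) (nat_lit 470) (nat_lit 320) (nat_lit 230)))) (XT.nd (nat_lit 156) (nat_lit 76) (nat_lit 0) (XT.nd (nat_lit 78) (nat_lit 76) (nat_lit 0) (XT.lf (nat_lit 0) (nat_lit 29583837836) (nat_lit 152) (nat_lit 5958979220) (nat_lit 0) (nat_lit 12558994323) (nat_lit 18) (nat_lit 5) (nat_lit 20) (nat_lit 4) (nat_lit 18) (nat_lit 4) (nat_lit 471) (nat_lit 320) (nat_lit 229)) (XT.lf (nat_lit 0) (nat_lit 7669486220)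 (nat_lit 76) (nat_lit 29361385694) (nat_lit 76) (nat_lit 12300425068) (nat_lit 17) (nat_lit 4) (nat_lit 18) (nat_lit 5) (nat_lit 18) (nat_lit 4) (nat_lit 472) (nat_lit 320) (nat_lit 228))) (XT.nd (nat_lit 78) (nat_lit 76) (nat_lit 0) (XT.lf (nat_lit 0) (nat_lit 21781079404) (nat_lit 76) (nat_lit 22955774310) (nat_lit 76) (nat_lit 5859748525) (nat_lit 17) (nat_lit 4) (nat_lit 18) (nat_lit 5) (nat_lit 18) (nat_lit 4) (nat_lit 473) (nat_lit 320) (nat_lit 227)) (XT.lf (nat_lit 0) (nat_lit 734884218) (nat_lit 152) (nat_lit 15638254665) (nat_lit 76) (nat_lit 35527230369) (nat_lit 16) (nat_lit 5) (nat_lit 18) (nat_lit 5) (nat_lit 17) (nat_lit 4) (nat_lit 474) (nat_lit 320) (nat_lit 226))))) (XT.nd (nat_lit 234) (nat_lit 76) (nat_lit 0) (XT.nd (nat_lit 78) (nat_lit 76) (nat_lit 0) (XT.lf (nat_lit 0) (nat_lit 7386126748) (nat_lit 152) (nat_lit 2169284604) (nat_lit 76) (nat_lit 43686802110) (nat_lit 16) (nat_lit 5) (nat_lit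 18) (nat_lit 5) (nat_lit 17) (nat_lit 4) (nat_lit 475) (nat_lit 320) (nat_lit 225)) (XT.nd (nat_lit 78) (nat_lit 0) (nat_lit 0) (XT.lf (nat_lit 0) (nat_lit 11891530426) (nat_lit 76) (nat_lit 2436913867) (nat_lit 152) (nat_lit 40293123625) (nat_lit 15) (nat_lit 5) (nat_lit 16) (nat_lit 5) (nat_lit 17) (nat_lit 4) (nat_lit 476) (nat_lit 320) (nat_lit 224)) (XT.lf (nat_lit 0) (nat_lit 21525474940) (nat_lit 152) (nat_lit 29714588448) (nat_lit 0) (nat_lit 4800847337) (nat_lit 15) (nat_lit 5) (nat_lit 17) (nat_lit 4) (nat_lit 15) (nat_lit 4) (nat_lit 477) (nat_lit 320) (nat_lit 223)))) (XT.nd (nat_lit 156) (nat_lit 76) (nat_lit 0) (XT.nd (nat_lit 78) (nat_lit 0) (nat_lit 0) (XT.lf (nat_lit 0) (nat_lit 28940472616) (nat_lit 152) (nat_lit 16375822013) (nat_lit 0) (nat_lit 12186478495) (nat_lit 15) (nat_lit 5) (nat_lit 17) (nat_lit 4) (nat_lit 15) (nat_lit 4) (nat_lit 478) (nat_lit 320) (nat_lit 222)) (XT.lf (nat_lit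 0) (nat_lit 36556491342) (nat_lit 152) (nat_lit 2678657847) (nat_lit 0) (nat_lit 19773986038) (nat_lit 15) (nat_lit 5) (nat_lit 17) (nat_lit 4) (nat_lit 15) (nat_lit 4) (nat_lit 479) (nat_lit 320) (nat_lit 221))) (XT.nd (nat_lit 78) (nat_lit 0) (nat_lit 0) (XT.lf (nat_lit 0) (nat_lit 11615533336) (nat_lit 76) (nat_lit 32876308164) (nat_lit 76) (nat_lit 16066122100) (nat_lit 14) (nat_lit 4) (nat_lit 15) (nat_lit 5) (nat_lit 15) (nat_lit 4) (nat_lit 480) (nat_lit 320) (nat_lit 220)) (XT.lf (nat_lit 0) (nat_lit 26353308855) (nat_lit 76) (nat_lit 26318407767) (nat_lit 76) (nat_lit 9481347179) (nat_lit 14) (nat_lit 4) (nat_lit 15) (nat_lit 5) (nat_lit 15) (nat_lit 4) (nat_lit 481) (nat_lit 320) (nat_lit 219)))))) (XT.nd (nat_lit 546) (nat_lit 76) (nat_lit 0) (XT.nd (nat_lit 234) (nat_lit 0) (nat_lit 0) (XT.nd (nat_lit 78) (nat_lit 152) (nat_lit 0) (XT.lf (nat_lit 0) (nat_lit 41494235831) (nat_lit 76) (nat_lit 19582766986)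 (nat_lit 76) (nat_lit 2719614626) (nat_lit 14) (nat_lit 4) (nat_lit 15) (nat_lit 5) (nat_lit 15) (nat_lit 4) (nat_lit 482) (nat_lit 320) (nat_lit 218)) (XT.nd (nat_lit 78) (nat_lit 76) (nat_lit 0) (XT.lf (nat_lit 0) (nat_lit 4142539213) (nat_lit 152) (nat_lit 8479129573) (nat_lit 76) (nat_lit 52867173465) (nat_lit 13) (nat_lit 5) (nat_lit 15) (nat_lit 5) (nat_lit 14) (nat_lit 4) (nat_lit 483) (nat_lit 320) (nat_lit 217)) (XT.lf (nat_lit 0) (nat_lit 5808106692) (nat_lit 76) (nat_lit 5384595211) (nat_lit 152) (nat_lit 56037220726) (nat_lit 12) (nat_lit 5) (nat_lit 13) (nat_lit 5) (nat_lit 14) (nat_lit 4) (nat_lit 484) (nat_lit 320) (nat_lit 216)))) (XT.nd (nat_lit 156) (nat_lit 0) (nat_lit 0) (XT.nd (nat_lit 78) (nat_lit 0) (nat_lit 0) (XT.lf (nat_lit 0) (nat_lit 18541737076) (nat_lit 152) (nat_lit 48380787471) (nat_lit 0) (nat_lit 2098090629) (nat_lit 12) (nat_lit 5) (nat_lit 14) (nat_lit 4) (nat_lit 12) (nat_lit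 4) (nat_lit 485) (nat_lit 320) (nat_lit 215)) (XT.lf (nat_lit 0) (nat_lit 26146112532) (nat_lit 152) (nat_lit 35037911554) (nat_lit 0) (nat_lit 9679959094) (nat_lit 12) (nat_lit 5) (nat_lit 14) (nat_lit 4) (nat_lit 12) (nat_lit 4) (nat_lit 486) (nat_lit 320) (nat_lit 214))) (XT.nd (nat_lit 78) (nat_lit 0) (nat_lit 0) (XT.lf (nat_lit 0) (nat_lit 33960712850) (nat_lit 152) (nat_lit 21329769343) (nat_lit 0) (nat_lit 17472707964) (nat_lit 12) (nat_lit 5) (nat_lit 14) (nat_lit 4) (nat_lit 12) (nat_lit 4) (nat_lit 487) (nat_lit 320) (nat_lit 213)) (XT.lf (nat_lit 0) (nat_lit 41992366321) (nat_lit 152) (nat_lit 7244382847) (nat_lit 0) (nat_lit 25483146437) (nat_lit 12) (nat_lit 5) (nat_lit 14) (nat_lit 4) (nat_lit 12) (nat_lit 4) (nat_lit 488) (nat_lit 320) (nat_lit 212))))) (XT.nd (nat_lit 44538) (nat_lit 0) (nat_lit 11324) (XT.nd (nat_lit 156) (nat_lit 0) (nat_lit 0) (XT.nd (nat_lit 78) (nat_lit 0) (nat_lit 0) (XT.lf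 (nat_lit 0) (nat_lit 7374457784) (nat_lit 76) (nat_lit 42944520909) (nat_lit 76) (nat_lit 26414703940) (nat_lit 11) (nat_lit 4) (nat_lit 12) (nat_lit 5) (nat_lit 12) (nat_lit 4) (nat_lit 489) (nat_lit 320) (nat_lit 211)) (XT.lf (nat_lit 0) (nat_lit 22547680314) (nat_lit 76) (nat_lit 36404162092) (nat_lit 76) (nat_lit 19854347954) (nat_lit 11) (nat_lit 4) (nat_lit 12) (nat_lit 5) (nat_lit 12) (nat_lit 4) (nat_lit 490) (nat_lit 320) (nat_lit 210))) (XT.nd (nat_lit 44304) (nat_lit 0) (nat_lit 12692) (XT.lf (nat_lit 0) (nat_lit 38144365475) (nat_lit 76) (nat_lit 29683111903) (nat_lit 76) (nat_lit 13113883036) (nat_lit 11) (nat_lit 4) (nat_lit 12) (nat_lit 5) (nat_lit 12) (nat_lit 4) (nat_lit 491) (nat_lit 320) (nat_lit 209)) (XT.lf (nat_lit 0) (nat_lit 760342137) (nat_lit 456) (nat_lit 1630070182) (nat_lit 456) (nat_lit 1630070182) (nat_lit 178) (nat_lit 4) (nat_lit 184) (nat_lit 5) (nat_lit 184) (nat_lit 4) (nat_lit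 378) (nat_lit 321) (nat_lit 321)))) (XT.nd (nat_lit 156) (nat_lit 912) (nat_lit 0) (XT.nd (nat_lit 78) (nat_lit 380) (nat_lit 0) (XT.lf (nat_lit 0) (nat_lit 534938237) (nat_lit 532) (nat_lit 131221653) (nat_lit 76) (nat_lit 7463660499) (nat_lit 177) (nat_lit 5) (nat_lit 184) (nat_lit 5) (nat_lit 178) (nat_lit 4) (nat_lit 379) (nat_lit 321) (nat_lit 320)) (XT.lf (nat_lit 0) (nat_lit 4362248522) (nat_lit 456) (nat_lit 1825370175) (nat_lit 0) (nat_lit 2033276009) (nat_lit 172) (nat_lit 5) (nat_lit 178) (nat_lit 4) (nat_lit 172) (nat_lit 4) (nat_lit 380) (nat_lit 321) (nat_lit 319))) (XT.nd (nat_lit 78) (nat_lit 456) (nat_lit 0) (XT.lf (nat_lit 0) (nat_lit 4764693723) (nat_lit 456) (nat_lit 3497078563) (nat_lit 456) (nat_lit 54244789) (nat_lit 166) (nat_lit 4) (nat_lit 172) (nat_lit 5) (nat_lit 172) (nat_lit 4) (nat_lit 381) (nat_lit 321) (nat_lit 318)) (XT.lf (nat_lit 0) (nat_lit 3070563786) (nat_lit 380) (nat_lit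 670725012) (nat_lit 456) (nat_lit 4673053236) (nat_lit 160) (nat_lit 5) (nat_lit 165) (nat_lit 5) (nat_lit 166) (nat_lit 4) (nat_lit 382) (nat_lit 321) (nat_lit 317))))))))
noncomputable def xc57 : XT := (XT.nd (nat_lit 2184) (nat_lit 2812) (nat_lit 0) (XT.nd (nat_lit 1092) (nat_lit 2508) (nat_lit 0) (XT.nd (nat_lit 546) (nat_lit 1976) (nat_lit 0) (XT.nd (nat_lit 234) (nat_lit 1216) (nat_lit 0) (XT.nd (nat_lit 78) (nat_lit 456) (nat_lit 0) (XT.lf (nat_lit 0) (nat_lit 1323008097) (nat_lit 380) (nat_lit 6302583084) (nat_lit 380) (nat_lit 890764109) (nat_lit 155) (nat_lit 4) (nat_lit 160) (nat_lit 5) (nat_lit 160) (nat_lit 4) (nat_lit 383) (nat_lit 321) (nat_lit 316)) (XT.nd (nat_lit 78) (nat_lit 380) (nat_lit 0) (XT.lf (nat_lit 0) (nat_lit 2913578587) (nat_lit 456) (nat_lit 486905745) (nat_lit 76) (nat_lit 5221093816) (nat_lit 154) (nat_lit 5) (nat_lit 160) (nat_lit 5) (nat_lit 155) (nat_lit 4) (nat_lit 384) (nat_lit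 321) (nat_lit 315)) (XT.lf (nat_lit 0) (nat_lit 6410422307) (nat_lit 380) (nat_lit 374168379) (nat_lit 456) (nat_lit 1946020674) (nat_lit 149) (nat_lit 5) (nat_lit 154) (nat_lit 5) (nat_lit 155) (nat_lit 4) (nat_lit 385) (nat_lit 321) (nat_lit 314)))) (XT.nd (nat_lit 156) (nat_lit 456) (nat_lit 0) (XT.nd (nat_lit 78) (nat_lit 304) (nat_lit 0) (XT.lf (nat_lit 0) (nat_lit 1876659576) (nat_lit 456) (nat_lit 4243913155) (nat_lit 76) (nat_lit 2722251922) (nat_lit 143) (nat_lit 5) (nat_lit 149) (nat_lit 5) (nat_lit 144) (nat_lit 4) (nat_lit 386) (nat_lit 321) (nat_lit 313)) (XT.lf (nat_lit 0) (nat_lit 2716983062) (nat_lit 304) (nat_lit 3021838378) (nat_lit 380) (nat_lit 3220116303) (nat_lit 139) (nat_lit 5) (nat_lit 143) (nat_lit 5) (nat_lit 144) (nat_lit 4) (nat_lit 387) (nat_lit 321) (nat_lit 312))) (XT.nd (nat_lit 78) (nat_lit 0) (nat_lit 0) (XT.lf (nat_lit 0) (nat_lit 589331399) (nat_lit 456) (nat_lit 8305119755)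 (nat_lit 76) (nat_lit 185021994) (nat_lit 133) (nat_lit 5) (nat_lit 139) (nat_lit 5) (nat_lit 134) (nat_lit 4) (nat_lit 388) (nat_lit 321) (nat_lit 311)) (XT.lf (nat_lit 0) (nat_lit 4453819930) (nat_lit 456) (nat_lit 1264885112) (nat_lit 76) (nat_lit 3483825152) (nat_lit 133) (nat_lit 5) (nat_lit 139) (nat_lit 5) (nat_lit 134) (nat_lit 4) (nat_lit 389) (nat_lit 321) (nat_lit 310))))) (XT.nd (nat_lit 234) (nat_lit 988) (nat_lit 0) (XT.nd (nat_lit 78) (nat_lit 684) (nat_lit 0) (XT.lf (nat_lit 0) (nat_lit 5977143135) (nat_lit 304) (nat_lit 2429025625) (nat_lit 380) (nat_lit 923978057) (nat_lit 129) (nat_lit 5) (nat_lit 133) (nat_lit 5) (nat_lit 134) (nat_lit 4) (nat_lit 390) (nat_lit 321) (nat_lit 309)) (XT.nd (nat_lit 78) (nat_lit 304) (nat_lit 0) (XT.lf (nat_lit 0) (nat_lit 2931767446) (nat_lit 380) (nat_lit 5549351664) (nat_lit 76) (nat_lit 980373954) (nat_lit 124) (nat_lit 5) (nat_lit 129) (nat_lit 5) (nat_lit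 125) (nat_lit 4) (nat_lit 391) (nat_lit 321) (nat_lit 308)) (XT.lf (nat_lit 0) (nat_lit 1741224390) (nat_lit 304) (nat_lit 5134149565) (nat_lit 380) (nat_lit 2721431964) (nat_lit 120) (nat_lit 5) (nat_lit 124) (nat_lit 5) (nat_lit 125) (nat_lit 4) (nat_lit 392) (nat_lit 321) (nat_lit 307)))) (XT.nd (nat_lit 156) (nat_lit 608) (nat_lit 0) (XT.nd (nat_lit 78) (nat_lit 304) (nat_lit 0) (XT.lf (nat_lit 0) (nat_lit 1150439320) (nat_lit 380) (nat_lit 510194833) (nat_lit 76) (nat_lit 8076036741) (nat_lit 119) (nat_lit 5) (nat_lit 124) (nat_lit 5) (nat_lit 120) (nat_lit 5) (nat_lit 393) (nat_lit 321) (nat_lit 306)) (XT.lf (nat_lit 0) (nat_lit 5089029532) (nat_lit 380) (nat_lit 2857435713) (nat_lit 76) (nat_lit 1933321872) (nat_lit 115) (nat_lit 5) (nat_lit 120) (nat_lit 5) (nat_lit 116) (nat_lit 4) (nat_lit 394) (nat_lit 321) (nat_lit 305))) (XT.nd (nat_lit 78) (nat_lit 380) (nat_lit 0) (XT.lf (nat_lit 0) (nat_lit 4714855593)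 (nat_lit 228) (nat_lit 4417282717) (nat_lit 304) (nat_lit 895488533) (nat_lit 112) (nat_lit 5) (nat_lit 115) (nat_lit 5) (nat_lit 116) (nat_lit 4) (nat_lit 395) (nat_lit 321) (nat_lit 304)) (XT.lf (nat_lit 0) (nat_lit 2282817964) (nat_lit 304) (nat_lit 743833712) (nat_lit 380) (nat_lit 7153246064) (nat_lit 107) (nat_lit 5) (nat_lit 111) (nat_lit 5) (nat_lit 112) (nat_lit 5) (nat_lit 396) (nat_lit 321) (nat_lit 303)))))) (XT.nd (nat_lit 546) (nat_lit 1216) (nat_lit 0) (XT.nd (nat_lit 234) (nat_lit 760) (nat_lit 0) (XT.nd (nat_lit 78) (nat_lit 532) (nat_lit 0) (XT.lf (nat_lit 0) (nat_lit 7052315842) (nat_lit 380) (nat_lit 284632302) (nat_lit 76) (nat_lit 2999425964) (nat_lit 107) (nat_lit 5) (nat_lit 112) (nat_lit 5) (nat_lit 108) (nat_lit 4) (nat_lit 397) (nat_lit 321) (nat_lit 302)) (XT.nd (nat_lit 78) (nat_lit 228) (nat_lit 0) (XT.lf (nat_lit 0) (nat_lit 690480548) (nat_lit 304) (nat_lit 2930016472) (nat_lit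 76) (nat_lit 6876774761) (nat_lit 103) (nat_lit 5) (nat_lit 107) (nat_lit 5) (nat_lit 104) (nat_lit 5) (nat_lit 398) (nat_lit 321) (nat_lit 301)) (XT.lf (nat_lit 0) (nat_lit 4694087395) (nat_lit 304) (nat_lit 5726501329) (nat_lit 76) (nat_lit 242174510) (nat_lit 100) (nat_lit 5) (nat_lit 104) (nat_lit 5) (nat_lit 101) (nat_lit 4) (nat_lit 399) (nat_lit 321) (nat_lit 300)))) (XT.nd (nat_lit 156) (nat_lit 456) (nat_lit 0) (XT.nd (nat_lit 78) (nat_lit 76) (nat_lit 0) (XT.lf (nat_lit 0) (nat_lit 2148653558) (nat_lit 228) (nat_lit 6679249838) (nat_lit 304) (nat_lit 2005029954) (nat_lit 97) (nat_lit 5) (nat_lit 100) (nat_lit 5) (nat_lit 101) (nat_lit 4) (nat_lit 400) (nat_lit 321) (nat_lit 299)) (XT.lf (nat_lit 0) (nat_lit 2019390409) (nat_lit 304) (nat_lit 773278913) (nat_lit 76) (nat_lit 8215483956) (nat_lit 96) (nat_lit 5) (nat_lit 100) (nat_lit 5) (nat_lit 97) (nat_lit 5) (nat_lit 401) (nat_lit 321) (nat_lit 298)))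 (XT.nd (nat_lit 78) (nat_lit 228) (nat_lit 0) (XT.lf (nat_lit 0) (nat_lit 6133485729) (nat_lit 304) (nat_lit 3821141785) (nat_lit 76) (nat_lit 1233145003) (nat_lit 93) (nat_lit 5) (nat_lit 97) (nat_lit 5) (nat_lit 94) (nat_lit 4) (nat_lit 402) (nat_lit 321) (nat_lit 297)) (XT.lf (nat_lit 0) (nat_lit 4330125203) (nat_lit 228) (nat_lit 6044820171) (nat_lit 304) (nat_lit 997731772) (nat_lit 90) (nat_lit 5) (nat_lit 93) (nat_lit 5) (nat_lit 94) (nat_lit 4) (nat_lit 403) (nat_lit 321) (nat_lit 296))))) (XT.nd (nat_lit 234) (nat_lit 760) (nat_lit 0) (XT.nd (nat_lit 78) (nat_lit 152) (nat_lit 0) (XT.lf (nat_lit 0) (nat_lit 1112063952) (nat_lit 228) (nat_lit 1983086316) (nat_lit 304) (nat_lit 8467774835) (nat_lit 86) (nat_lit 5) (nat_lit 89) (nat_lit 5) (nat_lit 90) (nat_lit 5) (nat_lit 404) (nat_lit 321) (nat_lit 295)) (XT.nd (nat_lit 78) (nat_lit 152) (nat_lit 0) (XT.lf (nat_lit 0) (nat_lit 7311288153) (nat_lit 304)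 (nat_lit 2254296382) (nat_lit 76) (nat_lit 2192397704) (nat_lit 86) (nat_lit 5) (nat_lit 90) (nat_lit 5) (nat_lit 87) (nat_lit 4) (nat_lit 405) (nat_lit 321) (nat_lit 294)) (XT.lf (nat_lit 0) (nat_lit 6170989928) (nat_lit 152) (nat_lit 5491534453) (nat_lit 228) (nat_lit 296121660) (nat_lit 84) (nat_lit 5) (nat_lit 86) (nat_lit 5) (nat_lit 87) (nat_lit 4) (nat_lit 406) (nat_lit 321) (nat_lit 293)))) (XT.nd (nat_lit 156) (nat_lit 456) (nat_lit 0) (XT.nd (nat_lit 78) (nat_lit 0) (nat_lit 0) (XT.lf (nat_lit 0) (nat_lit 2625140465) (nat_lit 228) (nat_lit 1254293600) (nat_lit 304) (nat_lit 8285417553) (nat_lit 80) (nat_lit 5) (nat_lit 83) (nat_lit 5) (nat_lit 84) (nat_lit 5) (nat_lit 407) (nat_lit 321) (nat_lit 292)) (XT.lf (nat_lit 0) (nat_lit 8193566454) (nat_lit 304) (nat_lit 1118614096) (nat_lit 76) (nat_lit 3064409244) (nat_lit 80) (nat_lit 5) (nat_lit 84) (nat_lit 5) (nat_lit 81) (nat_lit 4) (nat_lit 408) (nat_lit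 321) (nat_lit 291))) (XT.nd (nat_lit 78) (nat_lit 228) (nat_lit 0) (XT.lf (nat_lit 0) (nat_lit 59386407) (nat_lit 228) (nat_lit 5019450715) (nat_lit 76) (nat_lit 7515309140) (nat_lit 77) (nat_lit 5) (nat_lit 80) (nat_lit 5) (nat_lit 78) (nat_lit 5) (nat_lit 409) (nat_lit 321) (nat_lit 290)) (XT.lf (nat_lit 0) (nat_lit 3648056553) (nat_lit 228) (nat_lit 675985126) (nat_lit 304) (nat_lit 8493585030) (nat_lit 74) (nat_lit 5) (nat_lit 77) (nat_lit 5) (nat_lit 78) (nat_lit 5) (nat_lit 410) (nat_lit 321) (nat_lit 289))))))) (XT.nd (nat_lit 1092) (nat_lit 1216) (nat_lit 0) (XT.nd (nat_lit 546) (nat_lit 836) (nat_lit 0) (XT.nd (nat_lit 234) (nat_lit 380) (nat_lit 0) (XT.nd (nat_lit 78) (nat_lit 380) (nat_lit 0) (XT.lf (nat_lit 0) (nat_lit 8737898542) (nat_lit 304) (nat_lit 521268139) (nat_lit 76) (nat_lit 3788017910) (nat_lit 74) (nat_lit 5) (nat_lit 78) (nat_lit 5) (nat_lit 75) (nat_lit 4) (nat_lit 411) (nat_lit 321)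 (nat_lit 288)) (XT.nd (nat_lit 78) (nat_lit 152) (nat_lit 0) (XT.lf (nat_lit 0) (nat_lit 23421313) (nat_lit 228) (nat_lit 4851352494) (nat_lit 76) (nat_lit 8408178798) (nat_lit 71) (nat_lit 5) (nat_lit 74) (nat_lit 5) (nat_lit 72) (nat_lit 5) (nat_lit 412) (nat_lit 321) (nat_lit 287)) (XT.lf (nat_lit 0) (nat_lit 4061961865) (nat_lit 152) (nat_lit 317006915) (nat_lit 228) (nat_lit 9146170714) (nat_lit 69) (nat_lit 5) (nat_lit 71) (nat_lit 5) (nat_lit 72) (nat_lit 5) (nat_lit 413) (nat_lit 321) (nat_lit 286)))) (XT.nd (nat_lit 156) (nat_lit 228) (nat_lit 0) (XT.nd (nat_lit 78) (nat_lit 152) (nat_lit 0) (XT.lf (nat_lit 0) (nat_lit 8892206031) (nat_lit 228) (nat_lit 586620738) (nat_lit 76) (nat_lit 4294964184) (nat_lit 69) (nat_lit 5) (nat_lit 72) (nat_lit 5) (nat_lit 70) (nat_lit 4) (nat_lit 414) (nat_lit 321) (nat_lit 285)) (XT.lf (nat_lit 0) (nat_lit 8611368064) (nat_lit 152) (nat_lit 4952738299) (nat_lit 228)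 (nat_lit 465106997) (nat_lit 67) (nat_lit 5) (nat_lit 69) (nat_lit 5) (nat_lit 70) (nat_lit 4) (nat_lit 415) (nat_lit 321) (nat_lit 284))) (XT.nd (nat_lit 78) (nat_lit 0) (nat_lit 0) (XT.lf (nat_lit 0) (nat_lit 3728704798) (nat_lit 152) (nat_lit 254802528) (nat_lit 228) (nat_lit 10308242271) (nat_lit 64) (nat_lit 5) (nat_lit 66) (nat_lit 5) (nat_lit 67) (nat_lit 5) (nat_lit 416) (nat_lit 321) (nat_lit 283)) (XT.lf (nat_lit 0) (nat_lit 8593376605) (nat_lit 228) (nat_lit 1459290760) (nat_lit 76) (nat_lit 4508250652) (nat_lit 64) (nat_lit 5) (nat_lit 67) (nat_lit 5) (nat_lit 65) (nat_lit 4) (nat_lit 417) (nat_lit 321) (nat_lit 282))))) (XT.nd (nat_lit 234) (nat_lit 456) (nat_lit 0) (XT.nd (nat_lit 78) (nat_lit 228) (nat_lit 0) (XT.lf (nat_lit 0) (nat_lit 7963388818) (nat_lit 152) (nat_lit 5396864249) (nat_lit 228) (nat_lit 1477355427) (nat_lit 62) (nat_lit 5) (nat_lit 64) (nat_lit 5) (nat_lit 65) (nat_lit 4) (nat_lit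 418) (nat_lit 321) (nat_lit 281)) (XT.nd (nat_lit 78) (nat_lit 0) (nat_lit 0) (XT.lf (nat_lit 0) (nat_lit 2487426474) (nat_lit 152) (nat_lit 577262584) (nat_lit 228) (nat_lit 12057653622) (nat_lit 59) (nat_lit 5) (nat_lit 61) (nat_lit 5) (nat_lit 62) (nat_lit 5) (nat_lit 419) (nat_lit 321) (nat_lit 280)) (XT.lf (nat_lit 0) (nat_lit 7765639665) (nat_lit 228) (nat_lit 3307691867) (nat_lit 76) (nat_lit 4340286029) (nat_lit 59) (nat_lit 5) (nat_lit 62) (nat_lit 5) (nat_lit 60) (nat_lit 4) (nat_lit 420) (nat_lit 321) (nat_lit 279)))) (XT.nd (nat_lit 156) (nat_lit 76) (nat_lit 0) (XT.nd (nat_lit 78) (nat_lit 228) (nat_lit 0) (XT.lf (nat_lit 0) (nat_lit 6312435549) (nat_lit 152) (nat_lit 6303388296) (nat_lit 228) (nat_lit 3097568098) (nat_lit 57) (nat_lit 5) (nat_lit 59) (nat_lit 5) (nat_lit 60) (nat_lit 4) (nat_lit 421) (nat_lit 321) (nat_lit 278)) (XT.lf (nat_lit 0) (nat_lit 150628652) (nat_lit 152) (nat_lit 1384826855)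 (nat_lit 228) (nat_lit 14486939230) (nat_lit 54) (nat_lit 5) (nat_lit 56) (nat_lit 5) (nat_lit 57) (nat_lit 5) (nat_lit 422) (nat_lit 321) (nat_lit 277))) (XT.nd (nat_lit 78) (nat_lit 76) (nat_lit 0) (XT.lf (nat_lit 0) (nat_lit 6318658440) (nat_lit 228) (nat_lit 6328119370) (nat_lit 76) (nat_lit 3690773116) (nat_lit 54) (nat_lit 5) (nat_lit 57) (nat_lit 5) (nat_lit 55) (nat_lit 4) (nat_lit 423) (nat_lit 321) (nat_lit 276)) (XT.lf (nat_lit 0) (nat_lit 3453797740) (nat_lit 76) (nat_lit 7782343421) (nat_lit 152) (nat_lit 5426303709) (nat_lit 53) (nat_lit 5) (nat_lit 54) (nat_lit 5) (nat_lit 55) (nat_lit 4) (nat_lit 424) (nat_lit 321) (nat_lit 275)))))) (XT.nd (nat_lit 546) (nat_lit 608) (nat_lit 0) (XT.nd (nat_lit 234) (nat_lit 380) (nat_lit 0) (XT.nd (nat_lit 78) (nat_lit 228) (nat_lit 0) (XT.lf (nat_lit 0) (nat_lit 13558166015) (nat_lit 76) (nat_lit 2751423009) (nat_lit 152) (nat_lit 687249778) (nat_lit 53) (nat_lit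 5) (nat_lit 54) (nat_lit 5) (nat_lit 55) (nat_lit 4) (nat_lit 425) (nat_lit 321) (nat_lit 274)) (XT.nd (nat_lit 78) (nat_lit 0) (nat_lit 0) (XT.lf (nat_lit 0) (nat_lit 4145295529) (nat_lit 228) (nat_lit 10749476113) (nat_lit 76) (nat_lit 2444294702) (nat_lit 50) (nat_lit 5) (nat_lit 53) (nat_lit 5) (nat_lit 51) (nat_lit 4) (nat_lit 426) (nat_lit 321) (nat_lit 273)) (XT.lf (nat_lit 0) (nat_lit 9117147091) (nat_lit 228) (nat_lit 834823789) (nat_lit 76) (nat_lit 7739147258) (nat_lit 50) (nat_lit 5) (nat_lit 53) (nat_lit 5) (nat_lit 51) (nat_lit 4) (nat_lit 427) (nat_lit 321) (nat_lit 272)))) (XT.nd (nat_lit 156) (nat_lit 76) (nat_lit 0) (XT.nd (nat_lit 78) (nat_lit 228) (nat_lit 0) (XT.lf (nat_lit 0) (nat_lit 9465760457) (nat_lit 76) (nat_lit 4810795559) (nat_lit 152) (nat_lit 3776029093) (nat_lit 49) (nat_lit 5) (nat_lit 50) (nat_lit 5) (nat_lit 51) (nat_lit 4) (nat_lit 428) (nat_lit 321) (nat_lit 271)) (XT.lf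 (nat_lit 0) (nat_lit 1119001740) (nat_lit 228) (nat_lit 16838741837) (nat_lit 76) (nat_lit 467544640) (nat_lit 46) (nat_lit 5) (nat_lit 49) (nat_lit 5) (nat_lit 47) (nat_lit 4) (nat_lit 429) (nat_lit 321) (nat_lit 270))) (XT.nd (nat_lit 78) (nat_lit 76) (nat_lit 0) (XT.lf (nat_lit 0) (nat_lit 6167890225) (nat_lit 228) (nat_lit 6747832242) (nat_lit 76) (nat_lit 5889846518) (nat_lit 46) (nat_lit 5) (nat_lit 49) (nat_lit 5) (nat_lit 47) (nat_lit 4) (nat_lit 430) (nat_lit 321) (nat_lit 269)) (XT.lf (nat_lit 0) (nat_lit 3622785043) (nat_lit 76) (nat_lit 7729508949) (nat_lit 152) (nat_lit 7845447771) (nat_lit 45) (nat_lit 5) (nat_lit 46) (nat_lit 5) (nat_lit 47) (nat_lit 4) (nat_lit 431) (nat_lit 321) (nat_lit 268))))) (XT.nd (nat_lit 312) (nat_lit 304) (nat_lit 0) (XT.nd (nat_lit 156) (nat_lit 76) (nat_lit 0) (XT.nd (nat_lit 78) (nat_lit 228) (nat_lit 0) (XT.lf (nat_lit 0) (nat_lit 14350050369) (nat_lit 76) (nat_lit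 2360130488) (nat_lit 152) (nat_lit 2890965235) (nat_lit 45) (nat_lit 5) (nat_lit 46) (nat_lit 5) (nat_lit 47) (nat_lit 4) (nat_lit 432) (nat_lit 321) (nat_lit 267)) (XT.lf (nat_lit 0) (nat_lit 2202233440) (nat_lit 228) (nat_lit 14671713532) (nat_lit 76) (nat_lit 3141074795) (nat_lit 42) (nat_lit 5) (nat_lit 45) (nat_lit 5) (nat_lit 43) (nat_lit 4) (nat_lit 433) (nat_lit 321) (nat_lit 266))) (XT.nd (nat_lit 78) (nat_lit 76) (nat_lit 0) (XT.lf (nat_lit 0) (nat_lit 7417994027) (nat_lit 228) (nat_lit 4220299867) (nat_lit 76) (nat_lit 8801329455) (nat_lit 42) (nat_lit 5) (nat_lit 45) (nat_lit 5) (nat_lit 43) (nat_lit 4) (nat_lit 434) (nat_lit 321) (nat_lit 265)) (XT.lf (nat_lit 0) (nat_lit 6584554782) (nat_lit 76) (nat_lit 6221349052) (nat_lit 152) (nat_lit 8070593203) (nat_lit 41) (nat_lit 5) (nat_lit 42) (nat_lit 5) (nat_lit 43) (nat_lit 4) (nat_lit 435) (nat_lit 321) (nat_lit 264)))) (XT.nd (nat_lit 156) (nat_lit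 76) (nat_lit 0) (XT.nd (nat_lit 78) (nat_lit 228) (nat_lit 0) (XT.lf (nat_lit 0) (nat_lit 17712345803) (nat_lit 76) (nat_lit 638647232) (nat_lit 152) (nat_lit 2975621862) (nat_lit 41) (nat_lit 5) (nat_lit 42) (nat_lit 5) (nat_lit 43) (nat_lit 4) (nat_lit 436) (nat_lit 321) (nat_lit 263)) (XT.lf (nat_lit 0) (nat_lit 2302705061) (nat_lit 228) (nat_lit 14417897469) (nat_lit 76) (nat_lit 5066737135) (nat_lit 38) (nat_lit 5) (nat_lit 41) (nat_lit 5) (nat_lit 39) (nat_lit 4) (nat_lit 437) (nat_lit 321) (nat_lit 262))) (XT.nd (nat_lit 78) (nat_lit 76) (nat_lit 0) (XT.lf (nat_lit 0) (nat_lit 7676740574) (nat_lit 228) (nat_lit 3626420766) (nat_lit 76) (nat_lit 10957929879) (nat_lit 38) (nat_lit 5) (nat_lit 41) (nat_lit 5) (nat_lit 39) (nat_lit 4) (nat_lit 438) (nat_lit 321) (nat_lit 261)) (XT.lf (nat_lit 0) (nat_lit 7552450407) (nat_lit 76) (nat_lit 5687469993) (nat_lit 152) (nat_lit 9508300976) (nat_lit 37) (nat_lit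 5) (nat_lit 38) (nat_lit 5) (nat_lit 39) (nat_lit 4) (nat_lit 439) (nat_lit 321) (nat_lit 260))))))))
noncomputable def xc58 : XT := (XT.nd (nat_lit 2184) (nat_lit 684) (nat_lit 0) (XT.nd (nat_lit 1092) (nat_lit 532) (nat_lit 0) (XT.nd (nat_lit 546) (nat_lit 304) (nat_lit 0) (XT.nd (nat_lit 234) (nat_lit 228) (nat_lit 0) (XT.nd (nat_lit 78) (nat_lit 228) (nat_lit 0) (XT.lf (nat_lit 0) (nat_lit 18963363841) (nat_lit 152) (nat_lit 4192994051) (nat_lit 0) (nat_lit 93810142) (nat_lit 37) (nat_lit 5) (nat_lit 39) (nat_lit 4) (nat_lit 37) (nat_lit 4) (nat_lit 440) (nat_lit 321) (nat_lit 259)) (XT.nd (nat_lit 78) (nat_lit 0) (nat_lit 0) (XT.lf (nat_lit 0) (nat_lit 1152560953) (nat_lit 228) (nat_lit 16634532411) (nat_lit 76) (nat_lit 5977292865) (nat_lit 34) (nat_lit 5) (nat_lit 37) (nat_lit 5) (nat_lit 35) (nat_lit 4) (nat_lit 441) (nat_lit 321) (nat_lit 258)) (XT.lf (nat_lit 0) (nat_lit 6668518480) (nat_lit 228) (nat_lit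 5538767221) (nat_lit 76) (nat_lit 12085488136) (nat_lit 34) (nat_lit 5) (nat_lit 37) (nat_lit 5) (nat_lit 35) (nat_lit 4) (nat_lit 442) (nat_lit 321) (nat_lit 257)))) (XT.nd (nat_lit 156) (nat_lit 152) (nat_lit 0) (XT.nd (nat_lit 78) (nat_lit 0) (nat_lit 0) (XT.lf (nat_lit 0) (nat_lit 5926406705) (nat_lit 76) (nat_lit 6438585893) (nat_lit 152) (nat_lit 12471572577) (nat_lit 33) (nat_lit 5) (nat_lit 34) (nat_lit 5) (nat_lit 35) (nat_lit 4) (nat_lit 443) (nat_lit 321) (nat_lit 256)) (XT.lf (nat_lit 0) (nat_lit 17770740975) (nat_lit 76) (nat_lit 476088550) (nat_lit 152) (nat_lit 7149409813) (nat_lit 33) (nat_lit 5) (nat_lit 34) (nat_lit 5) (nat_lit 35) (nat_lit 4) (nat_lit 444) (nat_lit 321) (nat_lit 255))) (XT.nd (nat_lit 78) (nat_lit 76) (nat_lit 0) (XT.lf (nat_lit 0) (nat_lit 3943271637) (nat_lit 76) (nat_lit 20413614654) (nat_lit 76) (nat_lit 1614267548) (nat_lit 32) (nat_lit 4) (nat_lit 33) (nat_lit 5) (nat_lit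 33) (nat_lit 4) (nat_lit 445) (nat_lit 321) (nat_lit 254)) (XT.lf (nat_lit 0) (nat_lit 4049108354) (nat_lit 152) (nat_lit 10667322860) (nat_lit 76) (nat_lit 11844450950) (nat_lit 31) (nat_lit 5) (nat_lit 33) (nat_lit 5) (nat_lit 32) (nat_lit 4) (nat_lit 446) (nat_lit 321) (nat_lit 253))))) (XT.nd (nat_lit 234) (nat_lit 228) (nat_lit 0) (XT.nd (nat_lit 78) (nat_lit 0) (nat_lit 0) (XT.lf (nat_lit 0) (nat_lit 962111735) (nat_lit 76) (nat_lit 8857709397) (nat_lit 152) (nat_lit 17348908093) (nat_lit 30) (nat_lit 5) (nat_lit 31) (nat_lit 5) (nat_lit 32) (nat_lit 4) (nat_lit 447) (nat_lit 321) (nat_lit 252)) (XT.nd (nat_lit 78) (nat_lit 0) (nat_lit 0) (XT.lf (nat_lit 0) (nat_lit 13085098762) (nat_lit 76) (nat_lit 2747343242) (nat_lit 152) (nat_lit 11960308803) (nat_lit 30) (nat_lit 5) (nat_lit 31) (nat_lit 5) (nat_lit 32) (nat_lit 4) (nat_lit 448) (nat_lit 321) (nat_lit 251)) (XT.lf (nat_lit 0) (nat_lit 22021405374)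 (nat_lit 152) (nat_lit 2970461398) (nat_lit 0) (nat_lit 3443749981) (nat_lit 30) (nat_lit 5) (nat_lit 32) (nat_lit 4) (nat_lit 30) (nat_lit 4) (nat_lit 449) (nat_lit 321) (nat_lit 250)))) (XT.nd (nat_lit 156) (nat_lit 76) (nat_lit 0) (XT.nd (nat_lit 78) (nat_lit 76) (nat_lit 0) (XT.lf (nat_lit 0) (nat_lit 9200643151) (nat_lit 76) (nat_lit 19274022920) (nat_lit 76) (nat_lit 620746311) (nat_lit 29) (nat_lit 4) (nat_lit 30) (nat_lit 5) (nat_lit 30) (nat_lit 4) (nat_lit 450) (nat_lit 321) (nat_lit 249)) (XT.lf (nat_lit 0) (nat_lit 5235512226) (nat_lit 152) (nat_lit 8098605444) (nat_lit 76) (nat_lit 16439545213) (nat_lit 28) (nat_lit 5) (nat_lit 30) (nat_lit 5) (nat_lit 29) (nat_lit 4) (nat_lit 451) (nat_lit 321) (nat_lit 248))) (XT.nd (nat_lit 78) (nat_lit 0) (nat_lit 0) (XT.lf (nat_lit 0) (nat_lit 4055913820) (nat_lit 76) (nat_lit 7202159742) (nat_lit 152) (nat_lit 19213912554) (nat_lit 27) (nat_lit 5) (nat_lit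 28) (nat_lit 5) (nat_lit 29) (nat_lit 4) (nat_lit 452) (nat_lit 321) (nat_lit 247)) (XT.lf (nat_lit 0) (nat_lit 16673225066) (nat_lit 76) (nat_lit 834363457) (nat_lit 152) (nat_lit 13682284490) (nat_lit 27) (nat_lit 5) (nat_lit 28) (nat_lit 5) (nat_lit 29) (nat_lit 4) (nat_lit 453) (nat_lit 321) (nat_lit 246)))))) (XT.nd (nat_lit 546) (nat_lit 228) (nat_lit 0) (XT.nd (nat_lit 234) (nat_lit 152) (nat_lit 0) (XT.nd (nat_lit 78) (nat_lit 152) (nat_lit 0) (XT.lf (nat_lit 0) (nat_lit 23964844887) (nat_lit 152) (nat_lit 2381882926) (nat_lit 0) (nat_lit 5581963230) (nat_lit 27) (nat_lit 5) (nat_lit 29) (nat_lit 4) (nat_lit 27) (nat_lit 4) (nat_lit 454) (nat_lit 321) (nat_lit 245)) (XT.nd (nat_lit 78) (nat_lit 76) (nat_lit 0) (XT.lf (nat_lit 0) (nat_lit 10243884361) (nat_lit 76) (nat_lit 20444907717) (nat_lit 76) (nat_lit 1998694482) (nat_lit 26) (nat_lit 4) (nat_lit 27) (nat_lit 5) (nat_lit 27) (nat_lit 4) (nat_lit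 455) (nat_lit 321) (nat_lit 244)) (XT.lf (nat_lit 0) (nat_lit 4055086961) (nat_lit 152) (nat_lit 10275873670) (nat_lit 76) (nat_lit 19137174868) (nat_lit 25) (nat_lit 5) (nat_lit 27) (nat_lit 5) (nat_lit 26) (nat_lit 4) (nat_lit 456) (nat_lit 321) (nat_lit 243)))) (XT.nd (nat_lit 156) (nat_lit 76) (nat_lit 0) (XT.nd (nat_lit 78) (nat_lit 0) (nat_lit 0) (XT.lf (nat_lit 0) (nat_lit 2217540887) (nat_lit 76) (nat_lit 8021344420) (nat_lit 152) (nat_lit 24033069629) (nat_lit 24) (nat_lit 5) (nat_lit 25) (nat_lit 5) (nat_lit 26) (nat_lit 4) (nat_lit 457) (nat_lit 321) (nat_lit 242)) (XT.lf (nat_lit 0) (nat_lit 15234190205) (nat_lit 76) (nat_lit 1445388049) (nat_lit 152) (nat_lit 18418171185) (nat_lit 24) (nat_lit 5) (nat_lit 25) (nat_lit 5) (nat_lit 26) (nat_lit 4) (nat_lit 458) (nat_lit 321) (nat_lit 241))) (XT.nd (nat_lit 78) (nat_lit 76) (nat_lit 0) (XT.lf (nat_lit 0) (nat_lit 23332985888) (nat_lit 152) (nat_lit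 7419261030) (nat_lit 0) (nat_lit 5195487889) (nat_lit 24) (nat_lit 5) (nat_lit 26) (nat_lit 4) (nat_lit 24) (nat_lit 4) (nat_lit 459) (nat_lit 321) (nat_lit 240)) (XT.lf (nat_lit 0) (nat_lit 5430739581) (nat_lit 76) (nat_lit 24790973808) (nat_lit 76) (nat_lit 6600436610) (nat_lit 23) (nat_lit 4) (nat_lit 24) (nat_lit 5) (nat_lit 24) (nat_lit 4) (nat_lit 460) (nat_lit 321) (nat_lit 239))))) (XT.nd (nat_lit 234) (nat_lit 76) (nat_lit 0) (XT.nd (nat_lit 78) (nat_lit 152) (nat_lit 0) (XT.lf (nat_lit 0) (nat_lit 18759619997) (nat_lit 76) (nat_lit 18601938639) (nat_lit 76) (nat_lit 359907074) (nat_lit 23) (nat_lit 4) (nat_lit 24) (nat_lit 5) (nat_lit 24) (nat_lit 4) (nat_lit 461) (nat_lit 321) (nat_lit 238)) (XT.nd (nat_lit 78) (nat_lit 76) (nat_lit 0) (XT.lf (nat_lit 0) (nat_lit 5919561705) (nat_lit 152) (nat_lit 6275315835) (nat_lit 76) (nat_lit 26452031298) (nat_lit 22) (nat_lit 5) (nat_lit 24) (nat_lit 5) (nat_lit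 23) (nat_lit 4) (nat_lit 462) (nat_lit 321) (nat_lit 237)) (XT.lf (nat_lit 0) (nat_lit 6866316572) (nat_lit 76) (nat_lit 5550866210) (nat_lit 152) (nat_lit 27181717105) (nat_lit 21) (nat_lit 5) (nat_lit 22) (nat_lit 5) (nat_lit 23) (nat_lit 4) (nat_lit 463) (nat_lit 321) (nat_lit 236)))) (XT.nd (nat_lit 156) (nat_lit 76) (nat_lit 0) (XT.nd (nat_lit 78) (nat_lit 0) (nat_lit 0) (XT.lf (nat_lit 0) (nat_lit 19157207035) (nat_lit 152) (nat_lit 20115739268) (nat_lit 0) (nat_lit 1305081676) (nat_lit 21) (nat_lit 5) (nat_lit 23) (nat_lit 4) (nat_lit 21) (nat_lit 4) (nat_lit 464) (nat_lit 321) (nat_lit 235)) (XT.lf (nat_lit 0) (nat_lit 26126288928) (nat_lit 152) (nat_lit 7229692705) (nat_lit 0) (nat_lit 8229744075) (nat_lit 21) (nat_lit 5) (nat_lit 23) (nat_lit 4) (nat_lit 21) (nat_lit 4) (nat_lit 465) (nat_lit 321) (nat_lit 234))) (XT.nd (nat_lit 78) (nat_lit 0) (nat_lit 0) (XT.lf (nat_lit 0) (nat_lit 6109390561) (nat_lit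 76) (nat_lit 27226496267) (nat_lit 76) (nat_lit 9286825692) (nat_lit 20) (nat_lit 4) (nat_lit 21) (nat_lit 5) (nat_lit 21) (nat_lit 4) (nat_lit 466) (nat_lit 321) (nat_lit 233)) (XT.lf (nat_lit 0) (nat_lit 19944604296) (nat_lit 76) (nat_lit 20863182913) (nat_lit 76) (nat_lit 2881642705) (nat_lit 20) (nat_lit 4) (nat_lit 21) (nat_lit 5) (nat_lit 21) (nat_lit 4) (nat_lit 467) (nat_lit 321) (nat_lit 232))))))) (XT.nd (nat_lit 1092) (nat_lit 228) (nat_lit 0) (XT.nd (nat_lit 546) (nat_lit 228) (nat_lit 0) (XT.nd (nat_lit 234) (nat_lit 76) (nat_lit 0) (XT.nd (nat_lit 78) (nat_lit 76) (nat_lit 0) (XT.lf (nat_lit 0) (nat_lit 3616723333) (nat_lit 152) (nat_lit 10680241969) (nat_lit 76) (nat_lit 30490907311) (nat_lit 19) (nat_lit 5) (nat_lit 21) (nat_lit 5) (nat_lit 20) (nat_lit 4) (nat_lit 468) (nat_lit 321) (nat_lit 231)) (XT.nd (nat_lit 78) (nat_lit 0) (nat_lit 0) (XT.lf (nat_lit 0) (nat_lit 2751686059) (nat_lit 76)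 (nat_lit 7501192040) (nat_lit 152) (nat_lit 35665513179) (nat_lit 18) (nat_lit 5) (nat_lit 19) (nat_lit 5) (nat_lit 20) (nat_lit 4) (nat_lit 469) (nat_lit 321) (nat_lit 230)) (XT.lf (nat_lit 0) (nat_lit 16756236915) (nat_lit 76) (nat_lit 414309904) (nat_lit 152) (nat_lit 29909807061) (nat_lit 18) (nat_lit 5) (nat_lit 19) (nat_lit 5) (nat_lit 20) (nat_lit 4) (nat_lit 470) (nat_lit 321) (nat_lit 229)))) (XT.nd (nat_lit 156) (nat_lit 76) (nat_lit 0) (XT.nd (nat_lit 78) (nat_lit 0) (nat_lit 0) (XT.lf (nat_lit 0) (nat_lit 24337027777) (nat_lit 152) (nat_lit 17210789120) (nat_lit 0) (nat_lit 6728121219) (nat_lit 18) (nat_lit 5) (nat_lit 20) (nat_lit 4) (nat_lit 18) (nat_lit 4) (nat_lit 471) (nat_lit 321) (nat_lit 228)) (XT.lf (nat_lit 0) (nat_lit 31698428180) (nat_lit 152) (nat_lit 3755108670) (nat_lit 0) (nat_lit 14054456463) (nat_lit 18) (nat_lit 5) (nat_lit 20) (nat_lit 4) (nat_lit 18) (nat_lit 4) (nat_lit 472)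 (nat_lit 321) (nat_lit 227))) (XT.nd (nat_lit 78) (nat_lit 0) (nat_lit 0) (XT.lf (nat_lit 0) (nat_lit 10258851518) (nat_lit 76) (nat_lit 29096960558) (nat_lit 76) (nat_lit 11418944997) (nat_lit 17) (nat_lit 4) (nat_lit 18) (nat_lit 5) (nat_lit 18) (nat_lit 4) (nat_lit 473) (nat_lit 321) (nat_lit 226)) (XT.lf (nat_lit 0) (nat_lit 24725075583) (nat_lit 76) (nat_lit 22532538115) (nat_lit 76) (nat_lit 4821470279) (nat_lit 17) (nat_lit 4) (nat_lit 18) (nat_lit 5) (nat_lit 18) (nat_lit 4) (nat_lit 474) (nat_lit 321) (nat_lit 225))))) (XT.nd (nat_lit 234) (nat_lit 76) (nat_lit 0) (XT.nd (nat_lit 78) (nat_lit 76) (nat_lit 0) (XT.lf (nat_lit 0) (nat_lit 1912639297) (nat_lit 152) (nat_lit 13860499648) (nat_lit 76) (nat_lit 37649516683) (nat_lit 16) (nat_lit 5) (nat_lit 18) (nat_lit 5) (nat_lit 17) (nat_lit 4) (nat_lit 475) (nat_lit 321) (nat_lit 224)) (XT.nd (nat_lit 78) (nat_lit 76) (nat_lit 0) (XT.lf (nat_lit 0) (nat_lit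 8729757689) (nat_lit 152) (nat_lit 52904253) (nat_lit 76) (nat_lit 46023104623) (nat_lit 16) (nat_lit 5) (nat_lit 18) (nat_lit 5) (nat_lit 17) (nat_lit 4) (nat_lit 476) (nat_lit 321) (nat_lit 223)) (XT.lf (nat_lit 0) (nat_lit 14408348377) (nat_lit 76) (nat_lit 1460079334) (nat_lit 152) (nat_lit 40358432968) (nat_lit 15) (nat_lit 5) (nat_lit 16) (nat_lit 5) (nat_lit 17) (nat_lit 4) (nat_lit 477) (nat_lit 321) (nat_lit 222)))) (XT.nd (nat_lit 156) (nat_lit 76) (nat_lit 0) (XT.nd (nat_lit 78) (nat_lit 0) (nat_lit 0) (XT.lf (nat_lit 0) (nat_lit 23258834113) (nat_lit 152) (nat_lit 28486284712) (nat_lit 0) (nat_lit 5944342466) (nat_lit 15) (nat_lit 5) (nat_lit 17) (nat_lit 4) (nat_lit 15) (nat_lit 4) (nat_lit 478) (nat_lit 321) (nat_lit 221)) (XT.lf (nat_lit 0) (nat_lit 30864604198) (nat_lit 152) (nat_lit 14809095324) (nat_lit 0) (nat_lit 13522431791) (nat_lit 15) (nat_lit 5) (nat_lit 17) (nat_lit 4) (nat_lit 15)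 (nat_lit 4) (nat_lit 479) (nat_lit 321) (nat_lit 220))) (XT.nd (nat_lit 78) (nat_lit 76) (nat_lit 0) (XT.lf (nat_lit 0) (nat_lit 38678348609) (nat_lit 152) (nat_lit 760958020) (nat_lit 0) (nat_lit 21309301678) (nat_lit 15) (nat_lit 5) (nat_lit 17) (nat_lit 4) (nat_lit 15) (nat_lit 4) (nat_lit 480) (nat_lit 321) (nat_lit 219)) (XT.lf (nat_lit 0) (nat_lit 13942470080) (nat_lit 76) (nat_lit 32898448361) (nat_lit 76) (nat_lit 15503309659) (nat_lit 14) (nat_lit 4) (nat_lit 15) (nat_lit 5) (nat_lit 15) (nat_lit 4) (nat_lit 481) (nat_lit 321) (nat_lit 218)))))) (XT.nd (nat_lit 546) (nat_lit 76) (nat_lit 0) (XT.nd (nat_lit 234) (nat_lit 76) (nat_lit 0) (XT.nd (nat_lit 78) (nat_lit 76) (nat_lit 0) (XT.lf (nat_lit 0) (nat_lit 29064753502) (nat_lit 76) (nat_lit 26171892963) (nat_lit 76) (nat_lit 8751422445) (nat_lit 14) (nat_lit 4) (nat_lit 15) (nat_lit 5) (nat_lit 15) (nat_lit 4) (nat_lit 482) (nat_lit 321) (nat_lit 217))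 (XT.nd (nat_lit 78) (nat_lit 76) (nat_lit 0) (XT.lf (nat_lit 0) (nat_lit 44603961335) (nat_lit 76) (nat_lit 19261447047) (nat_lit 76) (nat_lit 1816382532) (nat_lit 14) (nat_lit 4) (nat_lit 15) (nat_lit 5) (nat_lit 15) (nat_lit 4) (nat_lit 483) (nat_lit 321) (nat_lit 216)) (XT.lf (nat_lit 0) (nat_lit 5204294164) (nat_lit 152) (nat_lit 6904225029) (nat_lit 76) (nat_lit 55316824196) (nat_lit 13) (nat_lit 5) (nat_lit 15) (nat_lit 5) (nat_lit 14) (nat_lit 4) (nat_lit 484) (nat_lit 321) (nat_lit 215)))) (XT.nd (nat_lit 156) (nat_lit 0) (nat_lit 0) (XT.nd (nat_lit 78) (nat_lit 0) (nat_lit 0) (XT.lf (nat_lit 0) (nat_lit 7793694222) (nat_lit 76) (nat_lit 4662374056) (nat_lit 152) (nat_lit 56762885863) (nat_lit 12) (nat_lit 5) (nat_lit 13) (nat_lit 5) (nat_lit 14) (nat_lit 4) (nat_lit 485) (nat_lit 321) (nat_lit 214)) (XT.lf (nat_lit 0) (nat_lit 20006805255) (nat_lit 152) (nat_lit 48054817634) (nat_lit 0) (nat_lit 3002308775)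 (nat_lit 12) (nat_lit 5) (nat_lit 14) (nat_lit 4) (nat_lit 12) (nat_lit 4) (nat_lit 486) (nat_lit 321) (nat_lit 213))) (XT.nd (nat_lit 78) (nat_lit 0) (nat_lit 0) (XT.lf (nat_lit 0) (nat_lit 27812841604) (nat_lit 152) (nat_lit 34363424182) (nat_lit 0) (nat_lit 10787130127) (nat_lit 12) (nat_lit 5) (nat_lit 14) (nat_lit 4) (nat_lit 12) (nat_lit 4) (nat_lit 487) (nat_lit 321) (nat_lit 212)) (XT.lf (nat_lit 0) (nat_lit 35836180543) (nat_lit 152) (nat_lit 20294298617) (nat_lit 0) (nat_lit 18789871980) (nat_lit 12) (nat_lit 5) (nat_lit 14) (nat_lit 4) (nat_lit 12) (nat_lit 4) (nat_lit 488) (nat_lit 321) (nat_lit 211))))) (XT.nd (nat_lit 44382) (nat_lit 0) (nat_lit 12236) (XT.nd (nat_lit 156) (nat_lit 0) (nat_lit 0) (XT.nd (nat_lit 78) (nat_lit 76) (nat_lit 0) (XT.lf (nat_lit 0) (nat_lit 44083832754) (nat_lit 152) (nat_lit 5835147531) (nat_lit 0) (nat_lit 27017527021) (nat_lit 12) (nat_lit 5) (nat_lit 14) (nat_lit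 4) (nat_lit 12) (nat_lit 4) (nat_lit 489) (nat_lit 321) (nat_lit 210)) (XT.lf (nat_lit 0) (nat_lit 9206311586) (nat_lit 76) (nat_lit 43445190038) (nat_lit 76) (nat_lit 26359469577) (nat_lit 11) (nat_lit 4) (nat_lit 12) (nat_lit 5) (nat_lit 12) (nat_lit 4) (nat_lit 490) (nat_lit 321) (nat_lit 209))) (XT.nd (nat_lit 44148) (nat_lit 0) (nat_lit 13680) (XT.lf (nat_lit 0) (nat_lit 24787819528) (nat_lit 76) (nat_lit 36731562200) (nat_lit 76) (nat_lit 19626992488) (nat_lit 11) (nat_lit 4) (nat_lit 12) (nat_lit 5) (nat_lit 12) (nat_lit 4) (nat_lit 491) (nat_lit 321) (nat_lit 208)) (XT.lf (nat_lit 0) (nat_lit 2401601664) (nat_lit 532) (nat_lit 767425650) (nat_lit 532) (nat_lit 767425650) (nat_lit 191) (nat_lit 4) (nat_lit 198) (nat_lit 5) (nat_lit 198) (nat_lit 4) (nat_lit 376) (nat_lit 322) (nat_lit 322)))) (XT.nd (nat_lit 156) (nat_lit 456) (nat_lit 0) (XT.nd (nat_lit 78) (nat_lit 456) (nat_lit 0) (XT.lf (nat_lit 0)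 (nat_lit 2203563444) (nat_lit 532) (nat_lit 4802607295) (nat_lit 0) (nat_lit 949902780) (nat_lit 184) (nat_lit 5) (nat_lit 191) (nat_lit 4) (nat_lit 184) (nat_lit 4) (nat_lit 377) (nat_lit 322) (nat_lit 321)) (XT.lf (nat_lit 0) (nat_lit 1457569610) (nat_lit 456) (nat_lit 4527847323) (nat_lit 456) (nat_lit 2057040385) (nat_lit 178) (nat_lit 4) (nat_lit 184) (nat_lit 5) (nat_lit 184) (nat_lit 4) (nat_lit 378) (nat_lit 322) (nat_lit 320))) (XT.nd (nat_lit 78) (nat_lit 380) (nat_lit 0) (XT.lf (nat_lit 0) (nat_lit 1666431244) (nat_lit 532) (nat_lit 269646925) (nat_lit 76) (nat_lit 6196350594) (nat_lit 177) (nat_lit 5) (nat_lit 184) (nat_lit 5) (nat_lit 178) (nat_lit 4) (nat_lit 379) (nat_lit 322) (nat_lit 319)) (XT.lf (nat_lit 0) (nat_lit 5432705217) (nat_lit 456) (nat_lit 2019922331) (nat_lit 0) (nat_lit 772725167) (nat_lit 172) (nat_lit 5) (nat_lit 178) (nat_lit 4) (nat_lit 172) (nat_lit 4) (nat_lit 380) (nat_lit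 322) (nat_lit 318))))))))
noncomputable def xc59 : XT := (XT.nd (nat_lit 2184) (nat_lit 3116) (nat_lit 0) (XT.nd (nat_lit 1092) (nat_lit 2660) (nat_lit 0) (XT.nd (nat_lit 546) (nat_lit 1824) (nat_lit 0) (XT.nd (nat_lit 234) (nat_lit 1216) (nat_lit 0) (XT.nd (nat_lit 78) (nat_lit 760) (nat_lit 0) (XT.lf (nat_lit 0) (nat_lit 942929522) (nat_lit 532) (nat_lit 3827251818) (nat_lit 76) (nat_lit 3551491899) (nat_lit 165) (nat_lit 5) (nat_lit 172) (nat_lit 5) (nat_lit 166) (nat_lit 4) (nat_lit 381) (nat_lit 322) (nat_lit 317)) (XT.nd (nat_lit 78) (nat_lit 380) (nat_lit 0) (XT.lf (nat_lit 0) (nat_lit 2725950010) (nat_lit 380) (nat_lit 1962360250) (nat_lit 456) (nat_lit 3733162097) (nat_lit 160) (nat_lit 5) (nat_lit 165) (nat_lit 5) (nat_lit 166) (nat_lit 4) (nat_lit 382) (nat_lit 322) (nat_lit 316)) (XT.lf (nat_lit 0) (nat_lit 913639299) (nat_lit 380) (nat_lit 7597437283) (nat_lit 380) (nat_lit 14271591) (nat_lit 155)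 (nat_lit 4) (nat_lit 160) (nat_lit 5) (nat_lit 160) (nat_lit 4) (nat_lit 383) (nat_lit 322) (nat_lit 315)))) (XT.nd (nat_lit 156) (nat_lit 760) (nat_lit 0) (XT.nd (nat_lit 78) (nat_lit 380) (nat_lit 0) (XT.lf (nat_lit 0) (nat_lit 3728052160) (nat_lit 456) (nat_lit 976046315) (nat_lit 76) (nat_lit 3927582788) (nat_lit 154) (nat_lit 5) (nat_lit 160) (nat_lit 5) (nat_lit 155) (nat_lit 4) (nat_lit 384) (nat_lit 322) (nat_lit 314)) (XT.lf (nat_lit 0) (nat_lit 5849804683) (nat_lit 380) (nat_lit 1700263373) (nat_lit 456) (nat_lit 1192131384) (nat_lit 149) (nat_lit 5) (nat_lit 154) (nat_lit 5) (nat_lit 155) (nat_lit 4) (nat_lit 385) (nat_lit 322) (nat_lit 313))) (XT.nd (nat_lit 78) (nat_lit 304) (nat_lit 0) (XT.lf (nat_lit 0) (nat_lit 2553302481) (nat_lit 456) (nat_lit 4896897525) (nat_lit 76) (nat_lit 1405885594) (nat_lit 143) (nat_lit 5) (nat_lit 149) (nat_lit 5) (nat_lit 144) (nat_lit 4) (nat_lit 386) (nat_lit 322)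 (nat_lit 312)) (XT.lf (nat_lit 0) (nat_lit 1988432326) (nat_lit 304) (nat_lit 4377191218) (nat_lit 380) (nat_lit 2608084168) (nat_lit 139) (nat_lit 5) (nat_lit 143) (nat_lit 5) (nat_lit 144) (nat_lit 4) (nat_lit 387) (nat_lit 322) (nat_lit 311))))) (XT.nd (nat_lit 234) (nat_lit 1064) (nat_lit 0) (XT.nd (nat_lit 78) (nat_lit 684) (nat_lit 0) (XT.lf (nat_lit 0) (nat_lit 1137540645) (nat_lit 380) (nat_lit 49738232) (nat_lit 76) (nat_lit 7908357149) (nat_lit 138) (nat_lit 5) (nat_lit 143) (nat_lit 5) (nat_lit 139) (nat_lit 5) (nat_lit 388) (nat_lit 322) (nat_lit 310)) (XT.nd (nat_lit 78) (nat_lit 304) (nat_lit 0) (XT.lf (nat_lit 0) (nat_lit 4947990709) (nat_lit 456) (nat_lit 2156819570) (nat_lit 76) (nat_lit 2115516575) (nat_lit 133) (nat_lit 5) (nat_lit 139) (nat_lit 5) (nat_lit 134) (nat_lit 4) (nat_lit 389) (nat_lit 322) (nat_lit 309)) (XT.lf (nat_lit 0) (nat_lit 5005973072) (nat_lit 304) (nat_lit 3844125007)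 (nat_lit 380) (nat_lit 499364903) (nat_lit 129) (nat_lit 5) (nat_lit 133) (nat_lit 5) (nat_lit 134) (nat_lit 4) (nat_lit 390) (nat_lit 322) (nat_lit 308)))) (XT.nd (nat_lit 156) (nat_lit 380) (nat_lit 0) (XT.nd (nat_lit 78) (nat_lit 304) (nat_lit 0) (XT.lf (nat_lit 0) (nat_lit 2845960066) (nat_lit 304) (nat_lit 441480421) (nat_lit 380) (nat_lit 6195077481) (nat_lit 124) (nat_lit 5) (nat_lit 128) (nat_lit 5) (nat_lit 129) (nat_lit 5) (nat_lit 391) (nat_lit 322) (nat_lit 307)) (XT.lf (nat_lit 0) (nat_lit 574550849) (nat_lit 304) (nat_lit 6600757427) (nat_lit 380) (nat_lit 2444205928) (nat_lit 120) (nat_lit 5) (nat_lit 124) (nat_lit 5) (nat_lit 125) (nat_lit 4) (nat_lit 392) (nat_lit 322) (nat_lit 306))) (XT.nd (nat_lit 78) (nat_lit 304) (nat_lit 0) (XT.lf (nat_lit 0) (nat_lit 1382165007) (nat_lit 380) (nat_lit 1763397563) (nat_lit 76) (nat_lit 6614949960) (nat_lit 119) (nat_lit 5) (nat_lit 124) (nat_lit 5) (nat_lit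 120) (nat_lit 5) (nat_lit 393) (nat_lit 322) (nat_lit 305)) (XT.lf (nat_lit 0) (nat_lit 5254365784) (nat_lit 380) (nat_lit 4206943703) (nat_lit 76) (nat_lit 444321216) (nat_lit 115) (nat_lit 5) (nat_lit 120) (nat_lit 5) (nat_lit 116) (nat_lit 4) (nat_lit 394) (nat_lit 322) (nat_lit 304)))))) (XT.nd (nat_lit 546) (nat_lit 1216) (nat_lit 0) (XT.nd (nat_lit 234) (nat_lit 836) (nat_lit 0) (XT.nd (nat_lit 78) (nat_lit 380) (nat_lit 0) (XT.lf (nat_lit 0) (nat_lit 3277543644) (nat_lit 228) (nat_lit 5967563678) (nat_lit 304) (nat_lit 809944095) (nat_lit 112) (nat_lit 5) (nat_lit 115) (nat_lit 5) (nat_lit 116) (nat_lit 4) (nat_lit 395) (nat_lit 322) (nat_lit 303)) (XT.nd (nat_lit 78) (nat_lit 0) (nat_lit 0) (XT.lf (nat_lit 0) (nat_lit 726954374) (nat_lit 304) (nat_lit 2330233988) (nat_lit 380) (nat_lit 7151718834) (nat_lit 107) (nat_lit 5) (nat_lit 111) (nat_lit 5) (nat_lit 112) (nat_lit 5) (nat_lit 396) (nat_lit 322)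 (nat_lit 302)) (XT.lf (nat_lit 0) (nat_lit 7029561008) (nat_lit 380) (nat_lit 1914549770) (nat_lit 76) (nat_lit 1422880654) (nat_lit 107) (nat_lit 5) (nat_lit 112) (nat_lit 5) (nat_lit 108) (nat_lit 4) (nat_lit 397) (nat_lit 322) (nat_lit 301)))) (XT.nd (nat_lit 156) (nat_lit 304) (nat_lit 0) (XT.nd (nat_lit 78) (nat_lit 228) (nat_lit 0) (XT.lf (nat_lit 0) (nat_lit 584124078) (nat_lit 304) (nat_lit 4683263347) (nat_lit 76) (nat_lit 5262146445) (nat_lit 103) (nat_lit 5) (nat_lit 107) (nat_lit 5) (nat_lit 104) (nat_lit 5) (nat_lit 398) (nat_lit 322) (nat_lit 300)) (XT.lf (nat_lit 0) (nat_lit 3090694865) (nat_lit 228) (nat_lit 1440113108) (nat_lit 304) (nat_lit 6165933387) (nat_lit 100) (nat_lit 5) (nat_lit 103) (nat_lit 5) (nat_lit 104) (nat_lit 5) (nat_lit 399) (nat_lit 322) (nat_lit 299))) (XT.nd (nat_lit 78) (nat_lit 76) (nat_lit 0) (XT.lf (nat_lit 0) (nat_lit 185631101) (nat_lit 228) (nat_lit 8409797909) (nat_lit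 304) (nat_lit 2273566420) (nat_lit 97) (nat_lit 5) (nat_lit 100) (nat_lit 5) (nat_lit 101) (nat_lit 4) (nat_lit 400) (nat_lit 322) (nat_lit 298)) (XT.lf (nat_lit 0) (nat_lit 1719749005) (nat_lit 304) (nat_lit 2828949414) (nat_lit 76) (nat_lit 6496692372) (nat_lit 96) (nat_lit 5) (nat_lit 100) (nat_lit 5) (nat_lit 97) (nat_lit 5) (nat_lit 401) (nat_lit 322) (nat_lit 297))))) (XT.nd (nat_lit 234) (nat_lit 684) (nat_lit 0) (XT.nd (nat_lit 78) (nat_lit 304) (nat_lit 0) (XT.lf (nat_lit 0) (nat_lit 5223913475) (nat_lit 228) (nat_lit 541837925) (nat_lit 304) (nat_lit 5461308835) (nat_lit 93) (nat_lit 5) (nat_lit 96) (nat_lit 5) (nat_lit 97) (nat_lit 5) (nat_lit 402) (nat_lit 322) (nat_lit 296)) (XT.nd (nat_lit 78) (nat_lit 76) (nat_lit 0) (XT.lf (nat_lit 0) (nat_lit 2051137477) (nat_lit 228) (nat_lit 7893940395) (nat_lit 304) (nat_lit 1468758190) (nat_lit 90) (nat_lit 5) (nat_lit 93) (nat_lit 5) (nat_lit 94) (nat_lit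 4) (nat_lit 403) (nat_lit 322) (nat_lit 295)) (XT.lf (nat_lit 0) (nat_lit 2587729387) (nat_lit 304) (nat_lit 1283110643) (nat_lit 76) (nat_lit 7734754187) (nat_lit 89) (nat_lit 5) (nat_lit 93) (nat_lit 5) (nat_lit 90) (nat_lit 5) (nat_lit 404) (nat_lit 322) (nat_lit 294)))) (XT.nd (nat_lit 156) (nat_lit 304) (nat_lit 0) (XT.nd (nat_lit 78) (nat_lit 152) (nat_lit 0) (XT.lf (nat_lit 0) (nat_lit 6738366893) (nat_lit 304) (nat_lit 4757891045) (nat_lit 76) (nat_lit 306365017) (nat_lit 86) (nat_lit 5) (nat_lit 90) (nat_lit 5) (nat_lit 87) (nat_lit 4) (nat_lit 405) (nat_lit 322) (nat_lit 293)) (XT.lf (nat_lit 0) (nat_lit 3560030564) (nat_lit 152) (nat_lit 7470833575) (nat_lit 228) (nat_lit 974191187) (nat_lit 84) (nat_lit 5) (nat_lit 86) (nat_lit 5) (nat_lit 87) (nat_lit 4) (nat_lit 406) (nat_lit 322) (nat_lit 292))) (XT.nd (nat_lit 78) (nat_lit 228) (nat_lit 0) (XT.lf (nat_lit 0) (nat_lit 3155828880) (nat_lit 228)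 (nat_lit 133471895) (nat_lit 76) (nat_lit 8923924716) (nat_lit 83) (nat_lit 5) (nat_lit 86) (nat_lit 5) (nat_lit 84) (nat_lit 5) (nat_lit 407) (nat_lit 322) (nat_lit 291)) (XT.lf (nat_lit 0) (nat_lit 7415763798) (nat_lit 304) (nat_lit 3965481439) (nat_lit 76) (nat_lit 1045350212) (nat_lit 80) (nat_lit 5) (nat_lit 84) (nat_lit 5) (nat_lit 81) (nat_lit 4) (nat_lit 408) (nat_lit 322) (nat_lit 290))))))) (XT.nd (nat_lit 1092) (nat_lit 1368) (nat_lit 0) (XT.nd (nat_lit 546) (nat_lit 760) (nat_lit 0) (XT.nd (nat_lit 234) (nat_lit 532) (nat_lit 0) (XT.nd (nat_lit 78) (nat_lit 304) (nat_lit 0) (XT.lf (nat_lit 0) (nat_lit 4615565932) (nat_lit 152) (nat_lit 7200568808) (nat_lit 228) (nat_lit 829864165) (nat_lit 78) (nat_lit 5) (nat_lit 80) (nat_lit 5) (nat_lit 81) (nat_lit 4) (nat_lit 409) (nat_lit 322) (nat_lit 289)) (XT.nd (nat_lit 78) (nat_lit 0) (nat_lit 0) (XT.lf (nat_lit 0) (nat_lit 528973031) (nat_lit 228) (nat_lit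 2859781272) (nat_lit 304) (nat_lit 9482836638) (nat_lit 74) (nat_lit 5) (nat_lit 77) (nat_lit 5) (nat_lit 78) (nat_lit 5) (nat_lit 410) (nat_lit 322) (nat_lit 288)) (XT.lf (nat_lit 0) (nat_lit 7749565454) (nat_lit 304) (nat_lit 3728737158) (nat_lit 76) (nat_lit 1624442783) (nat_lit 74) (nat_lit 5) (nat_lit 78) (nat_lit 5) (nat_lit 75) (nat_lit 4) (nat_lit 411) (nat_lit 322) (nat_lit 287)))) (XT.nd (nat_lit 156) (nat_lit 152) (nat_lit 0) (XT.nd (nat_lit 78) (nat_lit 228) (nat_lit 0) (XT.lf (nat_lit 0) (nat_lit 5105662696) (nat_lit 152) (nat_lit 7149757813) (nat_lit 228) (nat_lit 1084997641) (nat_lit 72) (nat_lit 5) (nat_lit 74) (nat_lit 5) (nat_lit 75) (nat_lit 4) (nat_lit 412) (nat_lit 322) (nat_lit 286)) (XT.lf (nat_lit 0) (nat_lit 566892938) (nat_lit 152) (nat_lit 2660197540) (nat_lit 228) (nat_lit 10357771159) (nat_lit 69) (nat_lit 5) (nat_lit 71) (nat_lit 5) (nat_lit 72) (nat_lit 5) (nat_lit 413) (nat_lit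 322) (nat_lit 285))) (XT.nd (nat_lit 78) (nat_lit 152) (nat_lit 0) (XT.lf (nat_lit 0) (nat_lit 7686941255) (nat_lit 228) (nat_lit 4172959015) (nat_lit 76) (nat_lit 1975219042) (nat_lit 69) (nat_lit 5) (nat_lit 72) (nat_lit 5) (nat_lit 70) (nat_lit 4) (nat_lit 414) (nat_lit 322) (nat_lit 284)) (XT.lf (nat_lit 0) (nat_lit 4900113345) (nat_lit 152) (nat_lit 7393090000) (nat_lit 228) (nat_lit 1799312011) (nat_lit 67) (nat_lit 5) (nat_lit 69) (nat_lit 5) (nat_lit 70) (nat_lit 4) (nat_lit 415) (nat_lit 322) (nat_lit 283))))) (XT.nd (nat_lit 234) (nat_lit 380) (nat_lit 0) (XT.nd (nat_lit 78) (nat_lit 304) (nat_lit 0) (XT.lf (nat_lit 0) (nat_lit 2609607267) (nat_lit 228) (nat_lit 158368057) (nat_lit 76) (nat_lit 11589437160) (nat_lit 66) (nat_lit 5) (nat_lit 69) (nat_lit 5) (nat_lit 67) (nat_lit 5) (nat_lit 416) (nat_lit 322) (nat_lit 282)) (XT.nd (nat_lit 78) (nat_lit 152) (nat_lit 0) (XT.lf (nat_lit 0) (nat_lit 7164016077)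 (nat_lit 228) (nat_lit 5443789657) (nat_lit 76) (nat_lit 2020443090) (nat_lit 64) (nat_lit 5) (nat_lit 67) (nat_lit 5) (nat_lit 65) (nat_lit 4) (nat_lit 417) (nat_lit 322) (nat_lit 281)) (XT.lf (nat_lit 0) (nat_lit 3847369355) (nat_lit 152) (nat_lit 8015089222) (nat_lit 228) (nat_lit 3044537731) (nat_lit 62) (nat_lit 5) (nat_lit 64) (nat_lit 5) (nat_lit 65) (nat_lit 4) (nat_lit 418) (nat_lit 322) (nat_lit 280)))) (XT.nd (nat_lit 156) (nat_lit 152) (nat_lit 0) (XT.nd (nat_lit 78) (nat_lit 152) (nat_lit 0) (XT.lf (nat_lit 0) (nat_lit 1475376537) (nat_lit 228) (nat_lit 1782731910) (nat_lit 76) (nat_lit 11935659097) (nat_lit 61) (nat_lit 5) (nat_lit 64) (nat_lit 5) (nat_lit 62) (nat_lit 5) (nat_lit 419) (nat_lit 322) (nat_lit 279)) (XT.lf (nat_lit 0) (nat_lit 6104241669) (nat_lit 228) (nat_lit 7710753343) (nat_lit 76) (nat_lit 1672213624) (nat_lit 59) (nat_lit 5) (nat_lit 62) (nat_lit 5) (nat_lit 60) (nat_lit 4)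 (nat_lit 420) (nat_lit 322) (nat_lit 278))) (XT.nd (nat_lit 78) (nat_lit 0) (nat_lit 0) (XT.lf (nat_lit 0) (nat_lit 1770831590) (nat_lit 152) (nat_lit 9112107745) (nat_lit 228) (nat_lit 4906191822) (nat_lit 57) (nat_lit 5) (nat_lit 59) (nat_lit 5) (nat_lit 60) (nat_lit 4) (nat_lit 421) (nat_lit 322) (nat_lit 277)) (XT.lf (nat_lit 0) (nat_lit 11594584008) (nat_lit 152) (nat_lit 4232463759) (nat_lit 228) (nat_lit 272409074) (nat_lit 57) (nat_lit 5) (nat_lit 59) (nat_lit 5) (nat_lit 60) (nat_lit 4) (nat_lit 422) (nat_lit 322) (nat_lit 276)))))) (XT.nd (nat_lit 546) (nat_lit 760) (nat_lit 0) (XT.nd (nat_lit 234) (nat_lit 304) (nat_lit 0) (XT.nd (nat_lit 78) (nat_lit 76) (nat_lit 0) (XT.lf (nat_lit 0) (nat_lit 4416484609) (nat_lit 228) (nat_lit 11171344939) (nat_lit 76) (nat_lit 829854027) (nat_lit 54) (nat_lit 5) (nat_lit 57) (nat_lit 5) (nat_lit 55) (nat_lit 4) (nat_lit 423) (nat_lit 322) (nat_lit 275)) (XT.nd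 (nat_lit 78) (nat_lit 76) (nat_lit 0) (XT.lf (nat_lit 0) (nat_lit 9273923623) (nat_lit 228) (nat_lit 1505474628) (nat_lit 76) (nat_lit 5964983727) (nat_lit 54) (nat_lit 5) (nat_lit 57) (nat_lit 5) (nat_lit 55) (nat_lit 4) (nat_lit 424) (nat_lit 322) (nat_lit 274)) (XT.lf (nat_lit 0) (nat_lit 8520757952) (nat_lit 76) (nat_lit 5785329067) (nat_lit 152) (nat_lit 2773930482) (nat_lit 53) (nat_lit 5) (nat_lit 54) (nat_lit 5) (nat_lit 55) (nat_lit 4) (nat_lit 425) (nat_lit 322) (nat_lit 273)))) (XT.nd (nat_lit 156) (nat_lit 76) (nat_lit 0) (XT.nd (nat_lit 78) (nat_lit 0) (nat_lit 0) (XT.lf (nat_lit 0) (nat_lit 1364001592) (nat_lit 152) (nat_lit 634889173) (nat_lit 228) (nat_lit 15426972194) (nat_lit 50) (nat_lit 5) (nat_lit 52) (nat_lit 5) (nat_lit 53) (nat_lit 5) (nat_lit 426) (nat_lit 322) (nat_lit 272)) (XT.lf (nat_lit 0) (nat_lit 6938733540) (nat_lit 228) (nat_lit 6188504488) (nat_lit 76) (nat_lit 4651639785)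 (nat_lit 50) (nat_lit 5) (nat_lit 53) (nat_lit 5) (nat_lit 51) (nat_lit 4) (nat_lit 427) (nat_lit 322) (nat_lit 271))) (XT.nd (nat_lit 78) (nat_lit 0) (nat_lit 0) (XT.lf (nat_lit 0) (nat_lit 3958597317) (nat_lit 76) (nat_lit 8061455621) (nat_lit 152) (nat_lit 6122637246) (nat_lit 49) (nat_lit 5) (nat_lit 50) (nat_lit 5) (nat_lit 51) (nat_lit 4) (nat_lit 428) (nat_lit 322) (nat_lit 270)) (XT.lf (nat_lit 0) (nat_lit 14444470057) (nat_lit 76) (nat_lit 2821374405) (nat_lit 152) (nat_lit 1251216841) (nat_lit 49) (nat_lit 5) (nat_lit 50) (nat_lit 5) (nat_lit 51) (nat_lit 4) (nat_lit 429) (nat_lit 322) (nat_lit 269))))) (XT.nd (nat_lit 312) (nat_lit 456) (nat_lit 0) (XT.nd (nat_lit 156) (nat_lit 76) (nat_lit 0) (XT.nd (nat_lit 78) (nat_lit 0) (nat_lit 0) (XT.lf (nat_lit 0) (nat_lit 3729631220) (nat_lit 228) (nat_lit 12587613898) (nat_lit 76) (nat_lit 2583233948) (nat_lit 46) (nat_lit 5) (nat_lit 49) (nat_lit 5) (nat_lit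 47) (nat_lit 4) (nat_lit 430) (nat_lit 322) (nat_lit 268)) (XT.lf (nat_lit 0) (nat_lit 8854926377) (nat_lit 228) (nat_lit 2332509739) (nat_lit 76) (nat_lit 8106991398) (nat_lit 46) (nat_lit 5) (nat_lit 49) (nat_lit 5) (nat_lit 47) (nat_lit 4) (nat_lit 431) (nat_lit 322) (nat_lit 267))) (XT.nd (nat_lit 78) (nat_lit 0) (nat_lit 0) (XT.lf (nat_lit 0) (nat_lit 8303953933) (nat_lit 76) (nat_lit 5861988079) (nat_lit 152) (nat_lit 5533298309) (nat_lit 45) (nat_lit 5) (nat_lit 46) (nat_lit 5) (nat_lit 47) (nat_lit 4) (nat_lit 432) (nat_lit 322) (nat_lit 266)) (XT.lf (nat_lit 0) (nat_lit 19219858034) (nat_lit 76) (nat_lit 392676017) (nat_lit 152) (nat_lit 504380701) (nat_lit 45) (nat_lit 5) (nat_lit 46) (nat_lit 5) (nat_lit 47) (nat_lit 4) (nat_lit 433) (nat_lit 322) (nat_lit 265)))) (XT.nd (nat_lit 156) (nat_lit 152) (nat_lit 0) (XT.nd (nat_lit 78) (nat_lit 76) (nat_lit 0) (XT.lf (nat_lit 0) (nat_lit 4685108454) (nat_lit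 228) (nat_lit 10615604997) (nat_lit 76) (nat_lit 5242033888) (nat_lit 42) (nat_lit 5) (nat_lit 45) (nat_lit 5) (nat_lit 43) (nat_lit 4) (nat_lit 434) (nat_lit 322) (nat_lit 264)) (XT.lf (nat_lit 0) (nat_lit 18758087) (nat_lit 76) (nat_lit 9968371619) (nat_lit 152) (nat_lit 10995070059) (nat_lit 41) (nat_lit 5) (nat_lit 42) (nat_lit 5) (nat_lit 43) (nat_lit 4) (nat_lit 435) (nat_lit 322) (nat_lit 263))) (XT.nd (nat_lit 78) (nat_lit 152) (nat_lit 0) (XT.lf (nat_lit 0) (nat_lit 11104595271) (nat_lit 76) (nat_lit 4405109573) (nat_lit 152) (nat_lit 5923290223) (nat_lit 41) (nat_lit 5) (nat_lit 42) (nat_lit 5) (nat_lit 43) (nat_lit 4) (nat_lit 436) (nat_lit 322) (nat_lit 262)) (XT.lf (nat_lit 0) (nat_lit 539837745) (nat_lit 152) (nat_lit 20631305270) (nat_lit 152) (nat_lit 726979623) (nat_lit 39) (nat_lit 4) (nat_lit 41) (nat_lit 5) (nat_lit 41) (nat_lit 4) (nat_lit 437) (nat_lit 322) (nat_lit 261))))))))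
noncomputable def xc60 : XT := (XT.nd (nat_lit 2184) (nat_lit 760) (nat_lit 0) (XT.nd (nat_lit 1092) (nat_lit 532) (nat_lit 0) (XT.nd (nat_lit 546) (nat_lit 380) (nat_lit 0) (XT.nd (nat_lit 234) (nat_lit 304) (nat_lit 0) (XT.nd (nat_lit 78) (nat_lit 76) (nat_lit 0) (XT.lf (nat_lit 0) (nat_lit 4639234232) (nat_lit 228) (nat_lit 10601064027) (nat_lit 76) (nat_lit 7132447656) (nat_lit 38) (nat_lit 5) (nat_lit 41) (nat_lit 5) (nat_lit 39) (nat_lit 4) (nat_lit 438) (nat_lit 322) (nat_lit 260)) (XT.nd (nat_lit 78) (nat_lit 0) (nat_lit 0) (XT.lf (nat_lit 0) (nat_lit 398158412) (nat_lit 76) (nat_lit 9714117565) (nat_lit 152) (nat_lit 12750306032) (nat_lit 37) (nat_lit 5) (nat_lit 38) (nat_lit 5) (nat_lit 39) (nat_lit 4) (nat_lit 439) (nat_lit 322) (nat_lit 259)) (XT.lf (nat_lit 0) (nat_lit 11864179135) (nat_lit 76) (nat_lit 3949495115) (nat_lit 152) (nat_lit 7551517516) (nat_lit 37) (nat_lit 5) (nat_lit 38) (nat_lit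 5) (nat_lit 39) (nat_lit 4) (nat_lit 440) (nat_lit 322) (nat_lit 258)))) (XT.nd (nat_lit 156) (nat_lit 76) (nat_lit 0) (XT.nd (nat_lit 78) (nat_lit 228) (nat_lit 0) (XT.lf (nat_lit 0) (nat_lit 21663238406) (nat_lit 152) (nat_lit 306856838) (nat_lit 0) (nat_lit 1913474288) (nat_lit 37) (nat_lit 5) (nat_lit 39) (nat_lit 4) (nat_lit 37) (nat_lit 4) (nat_lit 441) (nat_lit 322) (nat_lit 257)) (XT.lf (nat_lit 0) (nat_lit 3315259510) (nat_lit 228) (nat_lit 13118455845) (nat_lit 76) (nat_lit 7979594482) (nat_lit 34) (nat_lit 5) (nat_lit 37) (nat_lit 5) (nat_lit 35) (nat_lit 4) (nat_lit 442) (nat_lit 322) (nat_lit 256))) (XT.nd (nat_lit 78) (nat_lit 76) (nat_lit 0) (XT.lf (nat_lit 0) (nat_lit 8934711635) (nat_lit 228) (nat_lit 1806762725) (nat_lit 76) (nat_lit 14217939024) (nat_lit 34) (nat_lit 5) (nat_lit 37) (nat_lit 5) (nat_lit 35) (nat_lit 4) (nat_lit 443) (nat_lit 322) (nat_lit 255)) (XT.lf (nat_lit 0) (nat_lit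 9964149091) (nat_lit 76) (nat_lit 4814856323) (nat_lit 152) (nat_lit 10741209932) (nat_lit 33) (nat_lit 5) (nat_lit 34) (nat_lit 5) (nat_lit 35) (nat_lit 4) (nat_lit 444) (nat_lit 322) (nat_lit 254))))) (XT.nd (nat_lit 234) (nat_lit 228) (nat_lit 0) (XT.nd (nat_lit 78) (nat_lit 152) (nat_lit 0) (XT.lf (nat_lit 0) (nat_lit 20790033352) (nat_lit 152) (nat_lit 4059324384) (nat_lit 0) (nat_lit 1248744433) (nat_lit 33) (nat_lit 5) (nat_lit 35) (nat_lit 4) (nat_lit 33) (nat_lit 4) (nat_lit 445) (nat_lit 322) (nat_lit 253)) (XT.nd (nat_lit 78) (nat_lit 0) (nat_lit 0) (XT.lf (nat_lit 0) (nat_lit 367802200) (nat_lit 152) (nat_lit 18879762795) (nat_lit 76) (nat_lit 7443119616) (nat_lit 31) (nat_lit 5) (nat_lit 33) (nat_lit 5) (nat_lit 32) (nat_lit 4) (nat_lit 446) (nat_lit 322) (nat_lit 252)) (XT.lf (nat_lit 0) (nat_lit 6110438494) (nat_lit 152) (nat_lit 7304844462) (nat_lit 76) (nat_lit 13884092345) (nat_lit 31) (nat_lit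 5) (nat_lit 33) (nat_lit 5) (nat_lit 32) (nat_lit 4) (nat_lit 447) (nat_lit 322) (nat_lit 251)))) (XT.nd (nat_lit 156) (nat_lit 152) (nat_lit 0) (XT.nd (nat_lit 78) (nat_lit 0) (nat_lit 0) (XT.lf (nat_lit 0) (nat_lit 4637370249) (nat_lit 76) (nat_lit 7395453102) (nat_lit 152) (nat_lit 15893281911) (nat_lit 30) (nat_lit 5) (nat_lit 31) (nat_lit 5) (nat_lit 32) (nat_lit 4) (nat_lit 448) (nat_lit 322) (nat_lit 250)) (XT.lf (nat_lit 0) (nat_lit 17017841201) (nat_lit 76) (nat_lit 1152105698) (nat_lit 152) (nat_lit 10400580762) (nat_lit 30) (nat_lit 5) (nat_lit 31) (nat_lit 5) (nat_lit 32) (nat_lit 4) (nat_lit 449) (nat_lit 322) (nat_lit 249))) (XT.nd (nat_lit 78) (nat_lit 76) (nat_lit 0) (XT.lf (nat_lit 0) (nat_lit 424502975) (nat_lit 76) (nat_lit 24085565248) (nat_lit 76) (nat_lit 4723650470) (nat_lit 29) (nat_lit 4) (nat_lit 30) (nat_lit 5) (nat_lit 30) (nat_lit 4) (nat_lit 450) (nat_lit 322) (nat_lit 248)) (XT.lf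 (nat_lit 0) (nat_lit 1194987502) (nat_lit 152) (nat_lit 17007370396) (nat_lit 76) (nat_lit 11711326128) (nat_lit 28) (nat_lit 5) (nat_lit 30) (nat_lit 5) (nat_lit 29) (nat_lit 4) (nat_lit 451) (nat_lit 322) (nat_lit 247)))))) (XT.nd (nat_lit 546) (nat_lit 228) (nat_lit 0) (XT.nd (nat_lit 234) (nat_lit 228) (nat_lit 0) (XT.nd (nat_lit 78) (nat_lit 76) (nat_lit 0) (XT.lf (nat_lit 0) (nat_lit 7161392949) (nat_lit 152) (nat_lit 4964771462) (nat_lit 76) (nat_lit 18487528643) (nat_lit 28) (nat_lit 5) (nat_lit 30) (nat_lit 5) (nat_lit 29) (nat_lit 4) (nat_lit 452) (nat_lit 322) (nat_lit 246)) (XT.nd (nat_lit 78) (nat_lit 0) (nat_lit 0) (XT.lf (nat_lit 0) (nat_lit 7521277575) (nat_lit 76) (nat_lit 5823976215) (nat_lit 152) (nat_lit 17988296870) (nat_lit 27) (nat_lit 5) (nat_lit 28) (nat_lit 5) (nat_lit 29) (nat_lit 4) (nat_lit 453) (nat_lit 322) (nat_lit 245)) (XT.lf (nat_lit 0) (nat_lit 19737917204) (nat_lit 152) (nat_lit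 11661404333) (nat_lit 0) (nat_lit 674985996) (nat_lit 27) (nat_lit 5) (nat_lit 29) (nat_lit 4) (nat_lit 27) (nat_lit 4) (nat_lit 454) (nat_lit 322) (nat_lit 244)))) (XT.nd (nat_lit 156) (nat_lit 152) (nat_lit 0) (XT.nd (nat_lit 78) (nat_lit 0) (nat_lit 0) (XT.lf (nat_lit 0) (nat_lit 748135152) (nat_lit 76) (nat_lit 25606304914) (nat_lit 76) (nat_lit 6481886737) (nat_lit 26) (nat_lit 4) (nat_lit 27) (nat_lit 5) (nat_lit 27) (nat_lit 4) (nat_lit 455) (nat_lit 322) (nat_lit 243)) (XT.lf (nat_lit 0) (nat_lit 13706832767) (nat_lit 76) (nat_lit 19547964996) (nat_lit 76) (nat_lit 363850733) (nat_lit 26) (nat_lit 4) (nat_lit 27) (nat_lit 5) (nat_lit 27) (nat_lit 4) (nat_lit 456) (nat_lit 322) (nat_lit 242))) (XT.nd (nat_lit 78) (nat_lit 76) (nat_lit 0) (XT.lf (nat_lit 0) (nat_lit 5790072426) (nat_lit 152) (nat_lit 7488224601) (nat_lit 76) (nat_lit 21145386027) (nat_lit 25) (nat_lit 5) (nat_lit 27) (nat_lit 5) (nat_lit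 26) (nat_lit 4) (nat_lit 457) (nat_lit 322) (nat_lit 241)) (XT.lf (nat_lit 0) (nat_lit 5349640184) (nat_lit 76) (nat_lit 6792222424) (nat_lit 152) (nat_lit 23110282941) (nat_lit 24) (nat_lit 5) (nat_lit 25) (nat_lit 5) (nat_lit 26) (nat_lit 4) (nat_lit 458) (nat_lit 322) (nat_lit 240))))) (XT.nd (nat_lit 234) (nat_lit 152) (nat_lit 0) (XT.nd (nat_lit 78) (nat_lit 76) (nat_lit 0) (XT.lf (nat_lit 0) (nat_lit 18667500445) (nat_lit 76) (nat_lit 61795974) (nat_lit 152) (nat_lit 17374814595) (nat_lit 24) (nat_lit 5) (nat_lit 25) (nat_lit 5) (nat_lit 26) (nat_lit 4) (nat_lit 459) (nat_lit 322) (nat_lit 239)) (XT.nd (nat_lit 78) (nat_lit 76) (nat_lit 0) (XT.lf (nat_lit 0) (nat_lit 25550497377) (nat_lit 152) (nat_lit 4720344986) (nat_lit 0) (nat_lit 6709710497) (nat_lit 24) (nat_lit 5) (nat_lit 26) (nat_lit 4) (nat_lit 24) (nat_lit 4) (nat_lit 460) (nat_lit 322) (nat_lit 238)) (XT.lf (nat_lit 0) (nat_lit 8486513546)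 (nat_lit 76) (nat_lit 24142981351) (nat_lit 76) (nat_lit 5252199939) (nat_lit 23) (nat_lit 4) (nat_lit 24) (nat_lit 5) (nat_lit 24) (nat_lit 4) (nat_lit 461) (nat_lit 322) (nat_lit 237)))) (XT.nd (nat_lit 156) (nat_lit 76) (nat_lit 0) (XT.nd (nat_lit 78) (nat_lit 0) (nat_lit 0) (XT.lf (nat_lit 0) (nat_lit 1108448778) (nat_lit 152) (nat_lit 16689168773) (nat_lit 76) (nat_lit 21011360618) (nat_lit 22) (nat_lit 5) (nat_lit 24) (nat_lit 5) (nat_lit 23) (nat_lit 4) (nat_lit 462) (nat_lit 322) (nat_lit 236)) (XT.lf (nat_lit 0) (nat_lit 7526196409) (nat_lit 152) (nat_lit 3708265721) (nat_lit 76) (nat_lit 28528904053) (nat_lit 22) (nat_lit 5) (nat_lit 24) (nat_lit 5) (nat_lit 23) (nat_lit 4) (nat_lit 463) (nat_lit 322) (nat_lit 235))) (XT.nd (nat_lit 78) (nat_lit 0) (nat_lit 0) (XT.lf (nat_lit 0) (nat_lit 9800602819) (nat_lit 76) (nat_lit 4402746605) (nat_lit 152) (nat_lit 26541031729) (nat_lit 21) (nat_lit 5) (nat_lit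 22) (nat_lit 5) (nat_lit 23) (nat_lit 4) (nat_lit 464) (nat_lit 322) (nat_lit 234)) (XT.lf (nat_lit 0) (nat_lit 21116669202) (nat_lit 152) (nat_lit 18041400472) (nat_lit 0) (nat_lit 2595682788) (nat_lit 21) (nat_lit 5) (nat_lit 23) (nat_lit 4) (nat_lit 21) (nat_lit 4) (nat_lit 465) (nat_lit 322) (nat_lit 233))))))) (XT.nd (nat_lit 1092) (nat_lit 304) (nat_lit 0) (XT.nd (nat_lit 546) (nat_lit 228) (nat_lit 0) (XT.nd (nat_lit 234) (nat_lit 152) (nat_lit 0) (XT.nd (nat_lit 78) (nat_lit 76) (nat_lit 0) (XT.lf (nat_lit 0) (nat_lit 28254491146) (nat_lit 152) (nat_lit 4846767006) (nat_lit 0) (nat_lit 9691635098) (nat_lit 21) (nat_lit 5) (nat_lit 23) (nat_lit 4) (nat_lit 21) (nat_lit 4) (nat_lit 466) (nat_lit 322) (nat_lit 232)) (XT.nd (nat_lit 78) (nat_lit 0) (nat_lit 0) (XT.lf (nat_lit 0) (nat_lit 8867000362) (nat_lit 76) (nat_lit 26798964962) (nat_lit 76) (nat_lit 8195458784) (nat_lit 20) (nat_lit 4) (nat_lit 21)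 (nat_lit 5) (nat_lit 21) (nat_lit 4) (nat_lit 467) (nat_lit 322) (nat_lit 231)) (XT.lf (nat_lit 0) (nat_lit 23042290079) (nat_lit 76) (nat_lit 20280994718) (nat_lit 76) (nat_lit 1638022396) (nat_lit 20) (nat_lit 4) (nat_lit 21) (nat_lit 5) (nat_lit 21) (nat_lit 4) (nat_lit 468) (nat_lit 322) (nat_lit 230)))) (XT.nd (nat_lit 156) (nat_lit 0) (nat_lit 0) (XT.nd (nat_lit 78) (nat_lit 76) (nat_lit 0) (XT.lf (nat_lit 0) (nat_lit 4991356239) (nat_lit 152) (nat_lit 8548835801) (nat_lit 76) (nat_lit 32553269002) (nat_lit 19) (nat_lit 5) (nat_lit 21) (nat_lit 5) (nat_lit 20) (nat_lit 4) (nat_lit 469) (nat_lit 322) (nat_lit 229)) (XT.lf (nat_lit 0) (nat_lit 5262012682) (nat_lit 76) (nat_lit 6551042626) (nat_lit 152) (nat_lit 35445248027) (nat_lit 18) (nat_lit 5) (nat_lit 19) (nat_lit 5) (nat_lit 20) (nat_lit 4) (nat_lit 470) (nat_lit 322) (nat_lit 228))) (XT.nd (nat_lit 78) (nat_lit 0) (nat_lit 0) (XT.lf (nat_lit 0) (nat_lit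 18908636355) (nat_lit 152) (nat_lit 28847098470) (nat_lit 0) (nat_lit 700280327) (nat_lit 18) (nat_lit 5) (nat_lit 20) (nat_lit 4) (nat_lit 18) (nat_lit 4) (nat_lit 471) (nat_lit 322) (nat_lit 227)) (XT.lf (nat_lit 0) (nat_lit 26258473765) (nat_lit 152) (nat_lit 15413870147) (nat_lit 0) (nat_lit 8016073894) (nat_lit 18) (nat_lit 5) (nat_lit 20) (nat_lit 4) (nat_lit 18) (nat_lit 4) (nat_lit 472) (nat_lit 322) (nat_lit 226))))) (XT.nd (nat_lit 234) (nat_lit 152) (nat_lit 0) (XT.nd (nat_lit 78) (nat_lit 76) (nat_lit 0) (XT.lf (nat_lit 0) (nat_lit 33806017098) (nat_lit 152) (nat_lit 1621895283) (nat_lit 0) (nat_lit 15530564951) (nat_lit 18) (nat_lit 5) (nat_lit 20) (nat_lit 4) (nat_lit 18) (nat_lit 4) (nat_lit 473) (nat_lit 322) (nat_lit 225)) (XT.nd (nat_lit 78) (nat_lit 0) (nat_lit 0) (XT.lf (nat_lit 0) (nat_lit 12790465410) (nat_lit 76) (nat_lit 28890345662) (nat_lit 76) (nat_lit 10582803928) (nat_lit 17) (nat_lit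 4) (nat_lit 18) (nat_lit 5) (nat_lit 18) (nat_lit 4) (nat_lit 474) (nat_lit 322) (nat_lit 224)) (XT.lf (nat_lit 0) (nat_lit 27625903915) (nat_lit 76) (nat_lit 22160432983) (nat_lit 76) (nat_lit 3821736310) (nat_lit 17) (nat_lit 4) (nat_lit 18) (nat_lit 5) (nat_lit 18) (nat_lit 4) (nat_lit 475) (nat_lit 322) (nat_lit 223)))) (XT.nd (nat_lit 156) (nat_lit 0) (nat_lit 0) (XT.nd (nat_lit 78) (nat_lit 76) (nat_lit 0) (XT.lf (nat_lit 0) (nat_lit 3059384631) (nat_lit 152) (nat_lit 12158393386) (nat_lit 76) (nat_lit 39774825922) (nat_lit 16) (nat_lit 5) (nat_lit 18) (nat_lit 5) (nat_lit 17) (nat_lit 4) (nat_lit 476) (nat_lit 322) (nat_lit 222)) (XT.lf (nat_lit 0) (nat_lit 2041581452) (nat_lit 76) (nat_lit 8027330940) (nat_lit 152) (nat_lit 46348660402) (nat_lit 15) (nat_lit 5) (nat_lit 16) (nat_lit 5) (nat_lit 17) (nat_lit 4) (nat_lit 477) (nat_lit 322) (nat_lit 221))) (XT.nd (nat_lit 78) (nat_lit 0) (nat_lit 0) (XT.lf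 (nat_lit 0) (nat_lit 16876673894) (nat_lit 76) (nat_lit 514210727) (nat_lit 152) (nat_lit 40491342271) (nat_lit 15) (nat_lit 5) (nat_lit 16) (nat_lit 5) (nat_lit 17) (nat_lit 4) (nat_lit 478) (nat_lit 322) (nat_lit 220)) (XT.lf (nat_lit 0) (nat_lit 24981761663) (nat_lit 152) (nat_lit 27342813691) (nat_lit 0) (nat_lit 7064768800) (nat_lit 15) (nat_lit 5) (nat_lit 17) (nat_lit 4) (nat_lit 15) (nat_lit 4) (nat_lit 479) (nat_lit 322) (nat_lit 219)))))) (XT.nd (nat_lit 546) (nat_lit 76) (nat_lit 0) (XT.nd (nat_lit 234) (nat_lit 152) (nat_lit 0) (XT.nd (nat_lit 78) (nat_lit 76) (nat_lit 0) (XT.lf (nat_lit 0) (nat_lit 32785845747) (nat_lit 152) (nat_lit 13313504531) (nat_lit 0) (nat_lit 14842761113) (nat_lit 15) (nat_lit 5) (nat_lit 17) (nat_lit 4) (nat_lit 15) (nat_lit 4) (nat_lit 480) (nat_lit 322) (nat_lit 218)) (XT.nd (nat_lit 78) (nat_lit 0) (nat_lit 0) (XT.lf (nat_lit 0) (nat_lit 1121459726) (nat_lit 76) (nat_lit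 39694333501) (nat_lit 76) (nat_lit 21725917050) (nat_lit 14) (nat_lit 4) (nat_lit 15) (nat_lit 5) (nat_lit 15) (nat_lit 4) (nat_lit 481) (nat_lit 322) (nat_lit 217)) (XT.lf (nat_lit 0) (nat_lit 16225642611) (nat_lit 76) (nat_lit 32976598864) (nat_lit 76) (nat_lit 14983588416) (nat_lit 14) (nat_lit 4) (nat_lit 15) (nat_lit 5) (nat_lit 15) (nat_lit 4) (nat_lit 482) (nat_lit 322) (nat_lit 216)))) (XT.nd (nat_lit 156) (nat_lit 152) (nat_lit 0) (XT.nd (nat_lit 78) (nat_lit 0) (nat_lit 0) (XT.lf (nat_lit 0) (nat_lit 31747277106) (nat_lit 76) (nat_lit 26074716793) (nat_lit 76) (nat_lit 8057828678) (nat_lit 14) (nat_lit 4) (nat_lit 15) (nat_lit 5) (nat_lit 15) (nat_lit 4) (nat_lit 483) (nat_lit 322) (nat_lit 215)) (XT.lf (nat_lit 0) (nat_lit 47699925805) (nat_lit 76) (nat_lit 18982656517) (nat_lit 76) (nat_lit 942586202) (nat_lit 14) (nat_lit 4) (nat_lit 15) (nat_lit 5) (nat_lit 15) (nat_lit 4) (nat_lit 484) (nat_lit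 322) (nat_lit 214))) (XT.nd (nat_lit 78) (nat_lit 76) (nat_lit 0) (XT.lf (nat_lit 0) (nat_lit 6244086646) (nat_lit 152) (nat_lit 5387081413) (nat_lit 76) (nat_lit 57790388237) (nat_lit 13) (nat_lit 5) (nat_lit 15) (nat_lit 5) (nat_lit 14) (nat_lit 4) (nat_lit 485) (nat_lit 322) (nat_lit 213)) (XT.lf (nat_lit 0) (nat_lit 9734870803) (nat_lit 76) (nat_lit 3969217648) (nat_lit 152) (nat_lit 57565167777) (nat_lit 12) (nat_lit 5) (nat_lit 13) (nat_lit 5) (nat_lit 14) (nat_lit 4) (nat_lit 486) (nat_lit 322) (nat_lit 212))))) (XT.nd (nat_lit 312) (nat_lit 76) (nat_lit 0) (XT.nd (nat_lit 156) (nat_lit 0) (nat_lit 0) (XT.nd (nat_lit 78) (nat_lit 0) (nat_lit 0) (XT.lf (nat_lit 0) (nat_lit 21463655720) (nat_lit 152) (nat_lit 47821098357) (nat_lit 0) (nat_lit 3885360815) (nat_lit 12) (nat_lit 5) (nat_lit 14) (nat_lit 4) (nat_lit 12) (nat_lit 4) (nat_lit 487) (nat_lit 322) (nat_lit 211)) (XT.lf (nat_lit 0) (nat_lit 29478922296)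 (nat_lit 152) (nat_lit 33767760106) (nat_lit 0) (nat_lit 11880630221) (nat_lit 12) (nat_lit 5) (nat_lit 14) (nat_lit 4) (nat_lit 12) (nat_lit 4) (nat_lit 488) (nat_lit 322) (nat_lit 210))) (XT.nd (nat_lit 78) (nat_lit 0) (nat_lit 0) (XT.lf (nat_lit 0) (nat_lit 37718737264) (nat_lit 152) (nat_lit 19323936507) (nat_lit 0) (nat_lit 20101030460) (nat_lit 12) (nat_lit 5) (nat_lit 14) (nat_lit 4) (nat_lit 12) (nat_lit 4) (nat_lit 489) (nat_lit 322) (nat_lit 209)) (XT.lf (nat_lit 0) (nat_lit 46190300460) (nat_lit 152) (nat_lit 4477006744) (nat_lit 0) (nat_lit 28553744406) (nat_lit 12) (nat_lit 5) (nat_lit 14) (nat_lit 4) (nat_lit 12) (nat_lit 4) (nat_lit 490) (nat_lit 322) (nat_lit 208)))) (XT.nd (nat_lit 44070) (nat_lit 0) (nat_lit 13680) (XT.nd (nat_lit 43992) (nat_lit 0) (nat_lit 14212) (XT.lf (nat_lit 0) (nat_lit 11000664821) (nat_lit 76) (nat_lit 44006094521) (nat_lit 76) (nat_lit 26351238224) (nat_lit 11) (nat_lit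 4) (nat_lit 12) (nat_lit 5) (nat_lit 12) (nat_lit 4) (nat_lit 491) (nat_lit 322) (nat_lit 207)) (XT.lf (nat_lit 0) (nat_lit 89980612) (nat_lit 532) (nat_lit 3677711813) (nat_lit 0) (nat_lit 89980612) (nat_lit 198) (nat_lit 5) (nat_lit 205) (nat_lit 4) (nat_lit 198) (nat_lit 4) (nat_lit 374) (nat_lit 323) (nat_lit 323))) (XT.nd (nat_lit 78) (nat_lit 532) (nat_lit 0) (XT.lf (nat_lit 0) (nat_lit 3870349649) (nat_lit 532) (nat_lit 1382210111) (nat_lit 0) (nat_lit 2540341052) (nat_lit 198) (nat_lit 5) (nat_lit 205) (nat_lit 4) (nat_lit 198) (nat_lit 4) (nat_lit 375) (nat_lit 323) (nat_lit 322)) (XT.lf (nat_lit 0) (nat_lit 4743074388) (nat_lit 532) (nat_lit 2876296447) (nat_lit 532) (nat_lit 255017366) (nat_lit 191) (nat_lit 4) (nat_lit 198) (nat_lit 5) (nat_lit 198) (nat_lit 4) (nat_lit 376) (nat_lit 323) (nat_lit 321))))))))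
noncomputable def xc61 : XT := (XT.nd (nat_lit 2184) (nat_lit 3344) (nat_lit 0) (XT.nd (nat_lit 1092) (nat_lit 3040) (nat_lit 0) (XT.nd (nat_lit 546) (nat_lit 1900) (nat_lit 0) (XT.nd (nat_lit 234) (nat_lit 1748) (nat_lit 0) (XT.nd (nat_lit 78) (nat_lit 532) (nat_lit 0) (XT.lf (nat_lit 0) (nat_lit 3027143994) (nat_lit 456) (nat_lit 372897256) (nat_lit 532) (nat_lit 4558917188) (nat_lit 184) (nat_lit 5) (nat_lit 190) (nat_lit 5) (nat_lit 191) (nat_lit 4) (nat_lit 377) (nat_lit 323) (nat_lit 320)) (XT.nd (nat_lit 78) (nat_lit 76) (nat_lit 0) (XT.lf (nat_lit 0) (nat_lit 1268170468) (nat_lit 456) (nat_lit 5861268968) (nat_lit 456) (nat_lit 917496134) (nat_lit 178) (nat_lit 4) (nat_lit 184) (nat_lit 5) (nat_lit 184) (nat_lit 4) (nat_lit 378) (nat_lit 323) (nat_lit 319)) (XT.lf (nat_lit 0) (nat_lit 2737010573) (nat_lit 532) (nat_lit 534918470) (nat_lit 76) (nat_lit 4866069746) (nat_lit 177) (nat_lit 5) (nat_lit 184)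 (nat_lit 5) (nat_lit 178) (nat_lit 4) (nat_lit 379) (nat_lit 323) (nat_lit 318)))) (XT.nd (nat_lit 156) (nat_lit 836) (nat_lit 0) (XT.nd (nat_lit 78) (nat_lit 532) (nat_lit 0) (XT.lf (nat_lit 0) (nat_lit 5882834821) (nat_lit 380) (nat_lit 564330704) (nat_lit 456) (nat_lit 1785458793) (nat_lit 172) (nat_lit 5) (nat_lit 177) (nat_lit 5) (nat_lit 178) (nat_lit 4) (nat_lit 380) (nat_lit 323) (nat_lit 317)) (XT.lf (nat_lit 0) (nat_lit 1875991945) (nat_lit 532) (nat_lit 4236716832) (nat_lit 76) (nat_lit 2217596757) (nat_lit 165) (nat_lit 5) (nat_lit 172) (nat_lit 5) (nat_lit 166) (nat_lit 4) (nat_lit 381) (nat_lit 323) (nat_lit 316))) (XT.nd (nat_lit 78) (nat_lit 456) (nat_lit 0) (XT.lf (nat_lit 0) (nat_lit 2247498964) (nat_lit 380) (nat_lit 3324826301) (nat_lit 456) (nat_lit 2859267286) (nat_lit 160) (nat_lit 5) (nat_lit 165) (nat_lit 5) (nat_lit 166) (nat_lit 4) (nat_lit 382) (nat_lit 323) (nat_lit 315)) (XT.lf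 (nat_lit 0) (nat_lit 355134095) (nat_lit 380) (nat_lit 428988866) (nat_lit 456) (nat_lit 7752874818) (nat_lit 154) (nat_lit 5) (nat_lit 159) (nat_lit 5) (nat_lit 160) (nat_lit 5) (nat_lit 383) (nat_lit 323) (nat_lit 314))))) (XT.nd (nat_lit 234) (nat_lit 1064) (nat_lit 0) (XT.nd (nat_lit 78) (nat_lit 836) (nat_lit 0) (XT.lf (nat_lit 0) (nat_lit 4478437315) (nat_lit 456) (nat_lit 1602751995) (nat_lit 76) (nat_lit 2563584449) (nat_lit 154) (nat_lit 5) (nat_lit 160) (nat_lit 5) (nat_lit 155) (nat_lit 4) (nat_lit 384) (nat_lit 323) (nat_lit 313)) (XT.nd (nat_lit 78) (nat_lit 456) (nat_lit 0) (XT.lf (nat_lit 0) (nat_lit 5150682449) (nat_lit 380) (nat_lit 3100713281) (nat_lit 456) (nat_lit 505382572) (nat_lit 149) (nat_lit 5) (nat_lit 154) (nat_lit 5) (nat_lit 155) (nat_lit 4) (nat_lit 385) (nat_lit 323) (nat_lit 312)) (XT.lf (nat_lit 0) (nat_lit 3163284497) (nat_lit 456) (nat_lit 5694011352) (nat_lit 76) (nat_lit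 15085342) (nat_lit 143) (nat_lit 5) (nat_lit 149) (nat_lit 5) (nat_lit 144) (nat_lit 4) (nat_lit 386) (nat_lit 323) (nat_lit 311)))) (XT.nd (nat_lit 156) (nat_lit 684) (nat_lit 0) (XT.nd (nat_lit 78) (nat_lit 76) (nat_lit 0) (XT.lf (nat_lit 0) (nat_lit 1114706121) (nat_lit 304) (nat_lit 5810910820) (nat_lit 380) (nat_lit 2065899420) (nat_lit 139) (nat_lit 5) (nat_lit 143) (nat_lit 5) (nat_lit 144) (nat_lit 4) (nat_lit 387) (nat_lit 323) (nat_lit 310)) (XT.lf (nat_lit 0) (nat_lit 1627781845) (nat_lit 380) (nat_lit 1006299625) (nat_lit 76) (nat_lit 6480460386) (nat_lit 138) (nat_lit 5) (nat_lit 143) (nat_lit 5) (nat_lit 139) (nat_lit 5) (nat_lit 388) (nat_lit 323) (nat_lit 309))) (XT.nd (nat_lit 78) (nat_lit 304) (nat_lit 0) (XT.lf (nat_lit 0) (nat_lit 5373947473) (nat_lit 456) (nat_lit 3197889758) (nat_lit 76) (nat_lit 669336247) (nat_lit 133) (nat_lit 5) (nat_lit 139) (nat_lit 5) (nat_lit 134) (nat_lit 4) (nat_lit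 389) (nat_lit 323) (nat_lit 308)) (XT.lf (nat_lit 0) (nat_lit 3884489992) (nat_lit 304) (nat_lit 5341069926) (nat_lit 380) (nat_lit 146276439) (nat_lit 129) (nat_lit 5) (nat_lit 133) (nat_lit 5) (nat_lit 134) (nat_lit 4) (nat_lit 390) (nat_lit 323) (nat_lit 307)))))) (XT.nd (nat_lit 546) (nat_lit 1368) (nat_lit 0) (XT.nd (nat_lit 234) (nat_lit 912) (nat_lit 0) (XT.nd (nat_lit 78) (nat_lit 380) (nat_lit 0) (XT.lf (nat_lit 0) (nat_lit 1615955160) (nat_lit 304) (nat_lit 1966346689) (nat_lit 380) (nat_lit 5924039003) (nat_lit 124) (nat_lit 5) (nat_lit 128) (nat_lit 5) (nat_lit 129) (nat_lit 5) (nat_lit 391) (nat_lit 323) (nat_lit 306)) (XT.nd (nat_lit 78) (nat_lit 380) (nat_lit 0) (XT.lf (nat_lit 0) (nat_lit 7410881806) (nat_lit 380) (nat_lit 735000529) (nat_lit 76) (nat_lit 1499244282) (nat_lit 124) (nat_lit 5) (nat_lit 129) (nat_lit 5) (nat_lit 125) (nat_lit 4) (nat_lit 392) (nat_lit 323) (nat_lit 305)) (XT.lf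 (nat_lit 0) (nat_lit 1541828811) (nat_lit 380) (nat_lit 3174727207) (nat_lit 76) (nat_lit 5070904652) (nat_lit 119) (nat_lit 5) (nat_lit 124) (nat_lit 5) (nat_lit 120) (nat_lit 5) (nat_lit 393) (nat_lit 323) (nat_lit 304)))) (XT.nd (nat_lit 156) (nat_lit 380) (nat_lit 0) (XT.nd (nat_lit 78) (nat_lit 228) (nat_lit 0) (XT.lf (nat_lit 0) (nat_lit 4204963216) (nat_lit 304) (nat_lit 1152519263) (nat_lit 380) (nat_lit 4576802746) (nat_lit 115) (nat_lit 5) (nat_lit 119) (nat_lit 5) (nat_lit 120) (nat_lit 5) (nat_lit 394) (nat_lit 323) (nat_lit 303)) (XT.lf (nat_lit 0) (nat_lit 1676995258) (nat_lit 228) (nat_lit 7607336512) (nat_lit 304) (nat_lit 801300614) (nat_lit 112) (nat_lit 5) (nat_lit 115) (nat_lit 5) (nat_lit 116) (nat_lit 4) (nat_lit 395) (nat_lit 323) (nat_lit 302))) (XT.nd (nat_lit 78) (nat_lit 304) (nat_lit 0) (XT.lf (nat_lit 0) (nat_lit 3021410626) (nat_lit 304) (nat_lit 976641872) (nat_lit 76) (nat_lit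 6242769872) (nat_lit 111) (nat_lit 5) (nat_lit 115) (nat_lit 5) (nat_lit 112) (nat_lit 5) (nat_lit 396) (nat_lit 323) (nat_lit 301)) (XT.lf (nat_lit 0) (nat_lit 6686148893) (nat_lit 304) (nat_lit 247376450) (nat_lit 380) (nat_lit 3467197859) (nat_lit 107) (nat_lit 5) (nat_lit 111) (nat_lit 5) (nat_lit 112) (nat_lit 5) (nat_lit 397) (nat_lit 323) (nat_lit 300))))) (XT.nd (nat_lit 234) (nat_lit 836) (nat_lit 0) (XT.nd (nat_lit 78) (nat_lit 228) (nat_lit 0) (XT.lf (nat_lit 0) (nat_lit 399904451) (nat_lit 304) (nat_lit 6608277302) (nat_lit 76) (nat_lit 3556839191) (nat_lit 103) (nat_lit 5) (nat_lit 107) (nat_lit 5) (nat_lit 104) (nat_lit 5) (nat_lit 398) (nat_lit 323) (nat_lit 299)) (XT.nd (nat_lit 78) (nat_lit 0) (nat_lit 0) (XT.lf (nat_lit 0) (nat_lit 1069240617) (nat_lit 228) (nat_lit 3222203202) (nat_lit 304) (nat_lit 6442447056) (nat_lit 100) (nat_lit 5) (nat_lit 103) (nat_lit 5) (nat_lit 104) (nat_lit 5) (nat_lit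 399) (nat_lit 323) (nat_lit 298)) (XT.lf (nat_lit 0) (nat_lit 8301730555) (nat_lit 304) (nat_lit 1916760471) (nat_lit 76) (nat_lit 689291818) (nat_lit 100) (nat_lit 5) (nat_lit 104) (nat_lit 5) (nat_lit 101) (nat_lit 4) (nat_lit 400) (nat_lit 323) (nat_lit 297)))) (XT.nd (nat_lit 156) (nat_lit 304) (nat_lit 0) (XT.nd (nat_lit 78) (nat_lit 228) (nat_lit 0) (XT.lf (nat_lit 0) (nat_lit 1339486847) (nat_lit 304) (nat_lit 5062901312) (nat_lit 76) (nat_lit 4683521273) (nat_lit 96) (nat_lit 5) (nat_lit 100) (nat_lit 5) (nat_lit 97) (nat_lit 5) (nat_lit 401) (nat_lit 323) (nat_lit 296)) (XT.lf (nat_lit 0) (nat_lit 2888620749) (nat_lit 228) (nat_lit 2440161533) (nat_lit 304) (nat_lit 5940505005) (nat_lit 93) (nat_lit 5) (nat_lit 96) (nat_lit 5) (nat_lit 97) (nat_lit 5) (nat_lit 402) (nat_lit 323) (nat_lit 295))) (XT.nd (nat_lit 78) (nat_lit 304) (nat_lit 0) (XT.lf (nat_lit 0) (nat_lit 9436146378) (nat_lit 304) (nat_lit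 404198338) (nat_lit 76) (nat_lit 1617884261) (nat_lit 93) (nat_lit 5) (nat_lit 97) (nat_lit 5) (nat_lit 94) (nat_lit 4) (nat_lit 403) (nat_lit 323) (nat_lit 294)) (XT.lf (nat_lit 0) (nat_lit 2007320709) (nat_lit 304) (nat_lit 3841814735) (nat_lit 76) (nat_lit 5802154295) (nat_lit 89) (nat_lit 5) (nat_lit 93) (nat_lit 5) (nat_lit 90) (nat_lit 5) (nat_lit 404) (nat_lit 323) (nat_lit 293))))))) (XT.nd (nat_lit 1092) (nat_lit 1444) (nat_lit 0) (XT.nd (nat_lit 546) (nat_lit 760) (nat_lit 0) (XT.nd (nat_lit 234) (nat_lit 684) (nat_lit 0) (XT.nd (nat_lit 78) (nat_lit 228) (nat_lit 0) (XT.lf (nat_lit 0) (nat_lit 4382578697) (nat_lit 228) (nat_lit 1713863084) (nat_lit 304) (nat_lit 5753728587) (nat_lit 86) (nat_lit 5) (nat_lit 89) (nat_lit 5) (nat_lit 90) (nat_lit 5) (nat_lit 405) (nat_lit 323) (nat_lit 292)) (XT.nd (nat_lit 78) (nat_lit 76) (nat_lit 0) (XT.lf (nat_lit 0) (nat_lit 757341775) (nat_lit 152) (nat_lit 9555520379)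 (nat_lit 228) (nat_lit 1742029103) (nat_lit 84) (nat_lit 5) (nat_lit 86) (nat_lit 5) (nat_lit 87) (nat_lit 4) (nat_lit 406) (nat_lit 323) (nat_lit 291)) (XT.lf (nat_lit 0) (nat_lit 2370418149) (nat_lit 228) (nat_lit 3033504800) (nat_lit 76) (nat_lit 6860342439) (nat_lit 83) (nat_lit 5) (nat_lit 86) (nat_lit 5) (nat_lit 84) (nat_lit 5) (nat_lit 407) (nat_lit 323) (nat_lit 290)))) (XT.nd (nat_lit 156) (nat_lit 304) (nat_lit 0) (XT.nd (nat_lit 78) (nat_lit 152) (nat_lit 0) (XT.lf (nat_lit 0) (nat_lit 5459569767) (nat_lit 228) (nat_lit 1099972756) (nat_lit 304) (nat_lit 5920222825) (nat_lit 80) (nat_lit 5) (nat_lit 83) (nat_lit 5) (nat_lit 84) (nat_lit 5) (nat_lit 408) (nat_lit 323) (nat_lit 289)) (XT.lf (nat_lit 0) (nat_lit 1456274320) (nat_lit 152) (nat_lit 9431294632) (nat_lit 228) (nat_lit 1813775709) (nat_lit 78) (nat_lit 5) (nat_lit 80) (nat_lit 5) (nat_lit 81) (nat_lit 4) (nat_lit 409) (nat_lit 323) (nat_lit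 288))) (XT.nd (nat_lit 78) (nat_lit 228) (nat_lit 0) (XT.lf (nat_lit 0) (nat_lit 2387648960) (nat_lit 228) (nat_lit 2740134245) (nat_lit 76) (nat_lit 7800534235) (nat_lit 77) (nat_lit 5) (nat_lit 80) (nat_lit 5) (nat_lit 78) (nat_lit 5) (nat_lit 410) (nat_lit 323) (nat_lit 287)) (XT.lf (nat_lit 0) (nat_lit 6013690451) (nat_lit 228) (nat_lit 661072709) (nat_lit 304) (nat_lit 6486924696) (nat_lit 74) (nat_lit 5) (nat_lit 77) (nat_lit 5) (nat_lit 78) (nat_lit 5) (nat_lit 411) (nat_lit 323) (nat_lit 286))))) (XT.nd (nat_lit 234) (nat_lit 380) (nat_lit 0) (XT.nd (nat_lit 78) (nat_lit 228) (nat_lit 0) (XT.lf (nat_lit 0) (nat_lit 1571561742) (nat_lit 152) (nat_lit 9538516186) (nat_lit 228) (nat_lit 2291403795) (nat_lit 72) (nat_lit 5) (nat_lit 74) (nat_lit 5) (nat_lit 75) (nat_lit 4) (nat_lit 412) (nat_lit 323) (nat_lit 285)) (XT.nd (nat_lit 78) (nat_lit 152) (nat_lit 0) (XT.lf (nat_lit 0) (nat_lit 2008645442) (nat_lit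 228) (nat_lit 3080061505) (nat_lit 76) (nat_lit 8558638193) (nat_lit 71) (nat_lit 5) (nat_lit 74) (nat_lit 5) (nat_lit 72) (nat_lit 5) (nat_lit 413) (nat_lit 323) (nat_lit 284)) (XT.lf (nat_lit 0) (nat_lit 5922040907) (nat_lit 152) (nat_lit 467142401) (nat_lit 228) (nat_lit 7510803383) (nat_lit 69) (nat_lit 5) (nat_lit 71) (nat_lit 5) (nat_lit 72) (nat_lit 5) (nat_lit 414) (nat_lit 323) (nat_lit 283)))) (XT.nd (nat_lit 156) (nat_lit 152) (nat_lit 0) (XT.nd (nat_lit 78) (nat_lit 76) (nat_lit 0) (XT.lf (nat_lit 0) (nat_lit 971997883) (nat_lit 152) (nat_lit 9952106936) (nat_lit 228) (nat_lit 3235422489) (nat_lit 67) (nat_lit 5) (nat_lit 69) (nat_lit 5) (nat_lit 70) (nat_lit 4) (nat_lit 415) (nat_lit 323) (nat_lit 282)) (XT.lf (nat_lit 0) (nat_lit 1172503392) (nat_lit 228) (nat_lit 4190740092) (nat_lit 76) (nat_lit 9062469716) (nat_lit 66) (nat_lit 5) (nat_lit 69) (nat_lit 5) (nat_lit 67) (nat_lit 5) (nat_lit 416)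 (nat_lit 323) (nat_lit 281))) (XT.nd (nat_lit 78) (nat_lit 0) (nat_lit 0) (XT.lf (nat_lit 0) (nat_lit 5041688627) (nat_lit 152) (nat_lit 597224414) (nat_lit 228) (nat_lit 9060280462) (nat_lit 64) (nat_lit 5) (nat_lit 66) (nat_lit 5) (nat_lit 67) (nat_lit 5) (nat_lit 417) (nat_lit 323) (nat_lit 280)) (XT.lf (nat_lit 0) (nat_lit 10266603945) (nat_lit 228) (nat_lit 485391886) (nat_lit 76) (nat_lit 4228071574) (nat_lit 64) (nat_lit 5) (nat_lit 67) (nat_lit 5) (nat_lit 65) (nat_lit 4) (nat_lit 418) (nat_lit 323) (nat_lit 279)))))) (XT.nd (nat_lit 546) (nat_lit 608) (nat_lit 0) (XT.nd (nat_lit 234) (nat_lit 456) (nat_lit 0) (XT.nd (nat_lit 78) (nat_lit 228) (nat_lit 0) (XT.lf (nat_lit 0) (nat_lit 9034289039) (nat_lit 152) (nat_lit 6036354210) (nat_lit 228) (nat_lit 197606375) (nat_lit 62) (nat_lit 5) (nat_lit 64) (nat_lit 5) (nat_lit 65) (nat_lit 4) (nat_lit 419) (nat_lit 323) (nat_lit 278)) (XT.nd (nat_lit 78) (nat_lit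 0) (nat_lit 0) (XT.lf (nat_lit 0) (nat_lit 3206166248) (nat_lit 152) (nat_lit 1141311902) (nat_lit 228) (nat_lit 11216902194) (nat_lit 59) (nat_lit 5) (nat_lit 61) (nat_lit 5) (nat_lit 62) (nat_lit 5) (nat_lit 420) (nat_lit 323) (nat_lit 277)) (XT.lf (nat_lit 0) (nat_lit 9071163253) (nat_lit 228) (nat_lit 2948678942) (nat_lit 76) (nat_lit 3848114486) (nat_lit 59) (nat_lit 5) (nat_lit 62) (nat_lit 5) (nat_lit 60) (nat_lit 4) (nat_lit 421) (nat_lit 323) (nat_lit 276)))) (XT.nd (nat_lit 156) (nat_lit 76) (nat_lit 0) (XT.nd (nat_lit 78) (nat_lit 228) (nat_lit 0) (XT.lf (nat_lit 0) (nat_lit 6768398667) (nat_lit 152) (nat_lit 7191270796) (nat_lit 228) (nat_lit 2220284307) (nat_lit 57) (nat_lit 5) (nat_lit 59) (nat_lit 5) (nat_lit 60) (nat_lit 4) (nat_lit 422) (nat_lit 323) (nat_lit 275)) (XT.lf (nat_lit 0) (nat_lit 221426130) (nat_lit 152) (nat_lit 2202498503) (nat_lit 228) (nat_lit 14077301588) (nat_lit 54) (nat_lit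 5) (nat_lit 56) (nat_lit 5) (nat_lit 57) (nat_lit 5) (nat_lit 423) (nat_lit 323) (nat_lit 274))) (XT.nd (nat_lit 78) (nat_lit 76) (nat_lit 0) (XT.lf (nat_lit 0) (nat_lit 7234130050) (nat_lit 228) (nat_lit 6639991770) (nat_lit 76) (nat_lit 2955222869) (nat_lit 54) (nat_lit 5) (nat_lit 57) (nat_lit 5) (nat_lit 55) (nat_lit 4) (nat_lit 424) (nat_lit 323) (nat_lit 273)) (XT.lf (nat_lit 0) (nat_lit 3237283175) (nat_lit 76) (nat_lit 8952919527) (nat_lit 152) (nat_lit 4977063200) (nat_lit 53) (nat_lit 5) (nat_lit 54) (nat_lit 5) (nat_lit 55) (nat_lit 4) (nat_lit 425) (nat_lit 323) (nat_lit 272))))) (XT.nd (nat_lit 312) (nat_lit 304) (nat_lit 0) (XT.nd (nat_lit 156) (nat_lit 76) (nat_lit 0) (XT.nd (nat_lit 78) (nat_lit 228) (nat_lit 0) (XT.lf (nat_lit 0) (nat_lit 13454810590) (nat_lit 76) (nat_lit 3856443226) (nat_lit 152) (nat_lit 203587893) (nat_lit 53) (nat_lit 5) (nat_lit 54) (nat_lit 5) (nat_lit 55) (nat_lit 4)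 (nat_lit 426) (nat_lit 323) (nat_lit 271)) (XT.lf (nat_lit 0) (nat_lit 4643910433) (nat_lit 228) (nat_lit 11796211848) (nat_lit 76) (nat_lit 1430685223) (nat_lit 50) (nat_lit 5) (nat_lit 53) (nat_lit 5) (nat_lit 51) (nat_lit 4) (nat_lit 427) (nat_lit 323) (nat_lit 270))) (XT.nd (nat_lit 78) (nat_lit 76) (nat_lit 0) (XT.lf (nat_lit 0) (nat_lit 9662758630) (nat_lit 228) (nat_lit 1771034060) (nat_lit 76) (nat_lit 6802703958) (nat_lit 50) (nat_lit 5) (nat_lit 53) (nat_lit 5) (nat_lit 51) (nat_lit 4) (nat_lit 428) (nat_lit 323) (nat_lit 269)) (XT.lf (nat_lit 0) (nat_lit 8635352117) (nat_lit 76) (nat_lit 6231702182) (nat_lit 152) (nat_lit 3745060902) (nat_lit 49) (nat_lit 5) (nat_lit 50) (nat_lit 5) (nat_lit 51) (nat_lit 4) (nat_lit 429) (nat_lit 323) (nat_lit 268)))) (XT.nd (nat_lit 156) (nat_lit 76) (nat_lit 0) (XT.nd (nat_lit 78) (nat_lit 0) (nat_lit 0) (XT.lf (nat_lit 0) (nat_lit 297435192) (nat_lit 152) (nat_lit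 879950986) (nat_lit 228) (nat_lit 17822080315) (nat_lit 46) (nat_lit 5) (nat_lit 48) (nat_lit 5) (nat_lit 49) (nat_lit 5) (nat_lit 430) (nat_lit 323) (nat_lit 267)) (XT.lf (nat_lit 0) (nat_lit 6270645831) (nat_lit 228) (nat_lit 8481982635) (nat_lit 76) (nat_lit 4641749883) (nat_lit 46) (nat_lit 5) (nat_lit 49) (nat_lit 5) (nat_lit 47) (nat_lit 4) (nat_lit 431) (nat_lit 323) (nat_lit 266))) (XT.nd (nat_lit 78) (nat_lit 0) (nat_lit 0) (XT.lf (nat_lit 0) (nat_lit 1989006959) (nat_lit 76) (nat_lit 9509061202) (nat_lit 152) (nat_lit 8303633068) (nat_lit 45) (nat_lit 5) (nat_lit 46) (nat_lit 5) (nat_lit 47) (nat_lit 4) (nat_lit 432) (nat_lit 323) (nat_lit 265)) (XT.lf (nat_lit 0) (nat_lit 12863078526) (nat_lit 76) (nat_lit 4058956085) (nat_lit 152) (nat_lit 3298022024) (nat_lit 45) (nat_lit 5) (nat_lit 46) (nat_lit 5) (nat_lit 47) (nat_lit 4) (nat_lit 433) (nat_lit 323) (nat_lit 264))))))))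
noncomputable def xc62 : XT := (XT.nd (nat_lit 2184) (nat_lit 912) (nat_lit 0) (XT.nd (nat_lit 1092) (nat_lit 532) (nat_lit 0) (XT.nd (nat_lit 546) (nat_lit 456) (nat_lit 0) (XT.nd (nat_lit 234) (nat_lit 304) (nat_lit 0) (XT.nd (nat_lit 78) (nat_lit 76) (nat_lit 0) (XT.lf (nat_lit 0) (nat_lit 1824004891) (nat_lit 228) (nat_lit 17288778802) (nat_lit 76) (nat_lit 1537572524) (nat_lit 42) (nat_lit 5) (nat_lit 45) (nat_lit 5) (nat_lit 43) (nat_lit 4) (nat_lit 434) (nat_lit 323) (nat_lit 263)) (XT.nd (nat_lit 78) (nat_lit 76) (nat_lit 0) (XT.lf (nat_lit 0) (nat_lit 7103735052) (nat_lit 228) (nat_lit 6695916921) (nat_lit 76) (nat_lit 7290827423) (nat_lit 42) (nat_lit 5) (nat_lit 45) (nat_lit 5) (nat_lit 43) (nat_lit 4) (nat_lit 435) (nat_lit 323) (nat_lit 262)) (XT.lf (nat_lit 0) (nat_lit 4215926505) (nat_lit 76) (nat_lit 8322879127) (nat_lit 152) (nat_lit 9005096164) (nat_lit 41) (nat_lit 5) (nat_lit 42) (nat_lit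 5) (nat_lit 43) (nat_lit 4) (nat_lit 436) (nat_lit 323) (nat_lit 261)))) (XT.nd (nat_lit 156) (nat_lit 76) (nat_lit 0) (XT.nd (nat_lit 78) (nat_lit 228) (nat_lit 0) (XT.lf (nat_lit 0) (nat_lit 15512107571) (nat_lit 76) (nat_lit 2649356413) (nat_lit 152) (nat_lit 3848730681) (nat_lit 41) (nat_lit 5) (nat_lit 42) (nat_lit 5) (nat_lit 43) (nat_lit 4) (nat_lit 437) (nat_lit 323) (nat_lit 260)) (XT.lf (nat_lit 0) (nat_lit 1467228402) (nat_lit 228) (nat_lit 17866233325) (nat_lit 76) (nat_lit 3155593398) (nat_lit 38) (nat_lit 5) (nat_lit 41) (nat_lit 5) (nat_lit 39) (nat_lit 4) (nat_lit 438) (nat_lit 323) (nat_lit 259))) (XT.nd (nat_lit 78) (nat_lit 76) (nat_lit 0) (XT.lf (nat_lit 0) (nat_lit 6915698486) (nat_lit 228) (nat_lit 6913656825) (nat_lit 76) (nat_lit 9150274801) (nat_lit 38) (nat_lit 5) (nat_lit 41) (nat_lit 5) (nat_lit 39) (nat_lit 4) (nat_lit 439) (nat_lit 323) (nat_lit 258)) (XT.lf (nat_lit 0) (nat_lit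 4376273276) (nat_lit 76) (nat_lit 8152532377) (nat_lit 152) (nat_lit 10956084641) (nat_lit 37) (nat_lit 5) (nat_lit 38) (nat_lit 5) (nat_lit 39) (nat_lit 4) (nat_lit 440) (nat_lit 323) (nat_lit 257))))) (XT.nd (nat_lit 234) (nat_lit 228) (nat_lit 0) (XT.nd (nat_lit 78) (nat_lit 228) (nat_lit 0) (XT.lf (nat_lit 0) (nat_lit 16070755103) (nat_lit 76) (nat_lit 2268942380) (nat_lit 152) (nat_lit 5664732389) (nat_lit 37) (nat_lit 5) (nat_lit 38) (nat_lit 5) (nat_lit 39) (nat_lit 4) (nat_lit 441) (nat_lit 323) (nat_lit 256)) (XT.nd (nat_lit 78) (nat_lit 76) (nat_lit 0) (XT.lf (nat_lit 0) (nat_lit 3534534974) (nat_lit 152) (nat_lit 20821223741) (nat_lit 152) (nat_lit 182874883) (nat_lit 35) (nat_lit 4) (nat_lit 37) (nat_lit 5) (nat_lit 37) (nat_lit 4) (nat_lit 442) (nat_lit 323) (nat_lit 255)) (XT.lf (nat_lit 0) (nat_lit 5420676131) (nat_lit 228) (nat_lit 9727380867) (nat_lit 76) (nat_lit 9937318476) (nat_lit 34) (nat_lit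 5) (nat_lit 37) (nat_lit 5) (nat_lit 35) (nat_lit 4) (nat_lit 443) (nat_lit 323) (nat_lit 254)))) (XT.nd (nat_lit 156) (nat_lit 152) (nat_lit 0) (XT.nd (nat_lit 78) (nat_lit 0) (nat_lit 0) (XT.lf (nat_lit 0) (nat_lit 1849521979) (nat_lit 76) (nat_lit 9318542592) (nat_lit 152) (nat_lit 14481021486) (nat_lit 33) (nat_lit 5) (nat_lit 34) (nat_lit 5) (nat_lit 35) (nat_lit 4) (nat_lit 444) (nat_lit 323) (nat_lit 253)) (XT.lf (nat_lit 0) (nat_lit 13901446817) (nat_lit 76) (nat_lit 3246711622) (nat_lit 152) (nat_lit 9079743880) (nat_lit 33) (nat_lit 5) (nat_lit 34) (nat_lit 5) (nat_lit 35) (nat_lit 4) (nat_lit 445) (nat_lit 323) (nat_lit 252))) (XT.nd (nat_lit 78) (nat_lit 152) (nat_lit 0) (XT.lf (nat_lit 0) (nat_lit 23299409429) (nat_lit 152) (nat_lit 608453364) (nat_lit 0) (nat_lit 2916470440) (nat_lit 33) (nat_lit 5) (nat_lit 35) (nat_lit 4) (nat_lit 33) (nat_lit 4) (nat_lit 446) (nat_lit 323) (nat_lit 251)) (XT.lf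 (nat_lit 0) (nat_lit 2262192470) (nat_lit 152) (nat_lit 15870914821) (nat_lit 76) (nat_lit 9301663560) (nat_lit 31) (nat_lit 5) (nat_lit 33) (nat_lit 5) (nat_lit 32) (nat_lit 4) (nat_lit 447) (nat_lit 323) (nat_lit 250)))))) (XT.nd (nat_lit 546) (nat_lit 228) (nat_lit 0) (XT.nd (nat_lit 234) (nat_lit 228) (nat_lit 0) (XT.nd (nat_lit 78) (nat_lit 76) (nat_lit 0) (XT.lf (nat_lit 0) (nat_lit 8122252817) (nat_lit 152) (nat_lit 4052882167) (nat_lit 76) (nat_lit 15888236821) (nat_lit 31) (nat_lit 5) (nat_lit 33) (nat_lit 5) (nat_lit 32) (nat_lit 4) (nat_lit 448) (nat_lit 323) (nat_lit 249)) (XT.nd (nat_lit 78) (nat_lit 0) (nat_lit 0) (XT.lf (nat_lit 0) (nat_lit 8213568518) (nat_lit 76) (nat_lit 5988522674) (nat_lit 152) (nat_lit 14507422791) (nat_lit 30) (nat_lit 5) (nat_lit 31) (nat_lit 5) (nat_lit 32) (nat_lit 4) (nat_lit 449) (nat_lit 323) (nat_lit 248)) (XT.lf (nat_lit 0) (nat_lit 20474453956) (nat_lit 152) (nat_lit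 8513302170) (nat_lit 0) (nat_lit 386982831) (nat_lit 30) (nat_lit 5) (nat_lit 32) (nat_lit 4) (nat_lit 30) (nat_lit 4) (nat_lit 450) (nat_lit 323) (nat_lit 247)))) (XT.nd (nat_lit 156) (nat_lit 76) (nat_lit 0) (XT.nd (nat_lit 78) (nat_lit 76) (nat_lit 0) (XT.lf (nat_lit 0) (nat_lit 3778712060) (nat_lit 76) (nat_lit 23218016983) (nat_lit 76) (nat_lit 3061341734) (nat_lit 29) (nat_lit 4) (nat_lit 30) (nat_lit 5) (nat_lit 30) (nat_lit 4) (nat_lit 451) (nat_lit 323) (nat_lit 246)) (XT.lf (nat_lit 0) (nat_lit 2948133589) (nat_lit 152) (nat_lit 14239152531) (nat_lit 76) (nat_lit 13572177634) (nat_lit 28) (nat_lit 5) (nat_lit 30) (nat_lit 5) (nat_lit 29) (nat_lit 4) (nat_lit 452) (nat_lit 323) (nat_lit 245))) (XT.nd (nat_lit 78) (nat_lit 76) (nat_lit 0) (XT.lf (nat_lit 0) (nat_lit 9043512857) (nat_lit 152) (nat_lit 1930764143) (nat_lit 76) (nat_lit 20507699863) (nat_lit 28) (nat_lit 5) (nat_lit 30) (nat_lit 5) (nat_lit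 29) (nat_lit 4) (nat_lit 453) (nat_lit 323) (nat_lit 244)) (XT.lf (nat_lit 0) (nat_lit 10898660967) (nat_lit 76) (nat_lit 4495963558) (nat_lit 152) (nat_lit 16829356786) (nat_lit 27) (nat_lit 5) (nat_lit 28) (nat_lit 5) (nat_lit 29) (nat_lit 4) (nat_lit 454) (nat_lit 323) (nat_lit 243))))) (XT.nd (nat_lit 234) (nat_lit 76) (nat_lit 0) (XT.nd (nat_lit 78) (nat_lit 152) (nat_lit 0) (XT.lf (nat_lit 0) (nat_lit 21945062779) (nat_lit 152) (nat_lit 8917192332) (nat_lit 0) (nat_lit 2125729004) (nat_lit 27) (nat_lit 5) (nat_lit 29) (nat_lit 4) (nat_lit 27) (nat_lit 4) (nat_lit 455) (nat_lit 323) (nat_lit 242)) (XT.nd (nat_lit 78) (nat_lit 76) (nat_lit 0) (XT.lf (nat_lit 0) (nat_lit 3834299474) (nat_lit 76) (nat_lit 24908193137) (nat_lit 76) (nat_lit 5030901997) (nat_lit 26) (nat_lit 4) (nat_lit 27) (nat_lit 5) (nat_lit 27) (nat_lit 4) (nat_lit 456) (nat_lit 323) (nat_lit 241)) (XT.lf (nat_lit 0) (nat_lit 1198889362)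 (nat_lit 152) (nat_lit 17499815021) (nat_lit 76) (nat_lit 15881527652) (nat_lit 25) (nat_lit 5) (nat_lit 27) (nat_lit 5) (nat_lit 26) (nat_lit 4) (nat_lit 457) (nat_lit 323) (nat_lit 240)))) (XT.nd (nat_lit 156) (nat_lit 0) (nat_lit 0) (XT.nd (nat_lit 78) (nat_lit 76) (nat_lit 0) (XT.lf (nat_lit 0) (nat_lit 7484495549) (nat_lit 152) (nat_lit 4794664836) (nat_lit 76) (nat_lit 23131520549) (nat_lit 25) (nat_lit 5) (nat_lit 27) (nat_lit 5) (nat_lit 26) (nat_lit 4) (nat_lit 458) (nat_lit 323) (nat_lit 239)) (XT.lf (nat_lit 0) (nat_lit 8399726025) (nat_lit 76) (nat_lit 5610597139) (nat_lit 152) (nat_lit 22254172278) (nat_lit 24) (nat_lit 5) (nat_lit 25) (nat_lit 5) (nat_lit 26) (nat_lit 4) (nat_lit 459) (nat_lit 323) (nat_lit 238))) (XT.nd (nat_lit 78) (nat_lit 0) (nat_lit 0) (XT.lf (nat_lit 0) (nat_lit 20763885716) (nat_lit 152) (nat_lit 15122695226) (nat_lit 0) (nat_lit 1256386330) (nat_lit 24) (nat_lit 5) (nat_lit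 26) (nat_lit 4) (nat_lit 24) (nat_lit 4) (nat_lit 460) (nat_lit 323) (nat_lit 237)) (XT.lf (nat_lit 0) (nat_lit 27747422245) (nat_lit 152) (nat_lit 2108167162) (nat_lit 0) (nat_lit 8191384478) (nat_lit 24) (nat_lit 5) (nat_lit 26) (nat_lit 4) (nat_lit 24) (nat_lit 4) (nat_lit 461) (nat_lit 323) (nat_lit 236))))))) (XT.nd (nat_lit 1092) (nat_lit 380) (nat_lit 0) (XT.nd (nat_lit 546) (nat_lit 228) (nat_lit 0) (XT.nd (nat_lit 234) (nat_lit 152) (nat_lit 0) (XT.nd (nat_lit 78) (nat_lit 76) (nat_lit 0) (XT.lf (nat_lit 0) (nat_lit 11467899203) (nat_lit 76) (nat_lit 23555439637) (nat_lit 76) (nat_lit 3952277229) (nat_lit 23) (nat_lit 4) (nat_lit 24) (nat_lit 5) (nat_lit 24) (nat_lit 4) (nat_lit 462) (nat_lit 323) (nat_lit 235)) (XT.nd (nat_lit 78) (nat_lit 0) (nat_lit 0) (XT.lf (nat_lit 0) (nat_lit 2529127341) (nat_lit 152) (nat_lit 14514785983) (nat_lit 76) (nat_lit 22887635239) (nat_lit 22) (nat_lit 5) (nat_lit 24)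 (nat_lit 5) (nat_lit 23) (nat_lit 4) (nat_lit 463) (nat_lit 323) (nat_lit 234)) (XT.lf (nat_lit 0) (nat_lit 9098996962) (nat_lit 152) (nat_lit 1222370147) (nat_lit 76) (nat_lit 30594415643) (nat_lit 22) (nat_lit 5) (nat_lit 24) (nat_lit 5) (nat_lit 23) (nat_lit 4) (nat_lit 464) (nat_lit 323) (nat_lit 233)))) (XT.nd (nat_lit 156) (nat_lit 76) (nat_lit 0) (XT.nd (nat_lit 78) (nat_lit 0) (nat_lit 0) (XT.lf (nat_lit 0) (nat_lit 12666302258) (nat_lit 76) (nat_lit 3295649446) (nat_lit 152) (nat_lit 25964714005) (nat_lit 21) (nat_lit 5) (nat_lit 22) (nat_lit 5) (nat_lit 23) (nat_lit 4) (nat_lit 465) (nat_lit 323) (nat_lit 232)) (XT.lf (nat_lit 0) (nat_lit 23055425152) (nat_lit 152) (nat_lit 16058548816) (nat_lit 0) (nat_lit 3853163660) (nat_lit 21) (nat_lit 5) (nat_lit 23) (nat_lit 4) (nat_lit 21) (nat_lit 4) (nat_lit 466) (nat_lit 323) (nat_lit 231))) (XT.nd (nat_lit 78) (nat_lit 76) (nat_lit 0) (XT.lf (nat_lit 0)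 (nat_lit 30369364593) (nat_lit 152) (nat_lit 2541593638) (nat_lit 0) (nat_lit 11127636955) (nat_lit 21) (nat_lit 5) (nat_lit 23) (nat_lit 4) (nat_lit 21) (nat_lit 4) (nat_lit 467) (nat_lit 323) (nat_lit 230)) (XT.lf (nat_lit 0) (nat_lit 11559561492) (nat_lit 76) (nat_lit 26430037131) (nat_lit 76) (nat_lit 7149992848) (nat_lit 20) (nat_lit 4) (nat_lit 21) (nat_lit 5) (nat_lit 21) (nat_lit 4) (nat_lit 468) (nat_lit 323) (nat_lit 229))))) (XT.nd (nat_lit 234) (nat_lit 76) (nat_lit 0) (XT.nd (nat_lit 78) (nat_lit 152) (nat_lit 0) (XT.lf (nat_lit 0) (nat_lit 26089433655) (nat_lit 76) (nat_lit 19750689823) (nat_lit 76) (nat_lit 433444913) (nat_lit 20) (nat_lit 4) (nat_lit 21) (nat_lit 5) (nat_lit 21) (nat_lit 4) (nat_lit 469) (nat_lit 323) (nat_lit 228)) (XT.nd (nat_lit 78) (nat_lit 76) (nat_lit 0) (XT.lf (nat_lit 0) (nat_lit 6334547022) (nat_lit 152) (nat_lit 6494231568) (nat_lit 76) (nat_lit 34611622630) (nat_lit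 19) (nat_lit 5) (nat_lit 21) (nat_lit 5) (nat_lit 20) (nat_lit 4) (nat_lit 470) (nat_lit 323) (nat_lit 227)) (XT.lf (nat_lit 0) (nat_lit 7708284827) (nat_lit 76) (nat_lit 5639849167) (nat_lit 152) (nat_lit 35292439432) (nat_lit 18) (nat_lit 5) (nat_lit 19) (nat_lit 5) (nat_lit 20) (nat_lit 4) (nat_lit 471) (nat_lit 323) (nat_lit 226)))) (XT.nd (nat_lit 156) (nat_lit 76) (nat_lit 0) (XT.nd (nat_lit 78) (nat_lit 0) (nat_lit 0) (XT.lf (nat_lit 0) (nat_lit 20632531518) (nat_lit 152) (nat_lit 27466644777) (nat_lit 0) (nat_lit 1775763532) (nat_lit 18) (nat_lit 5) (nat_lit 20) (nat_lit 4) (nat_lit 18) (nat_lit 4) (nat_lit 472) (nat_lit 323) (nat_lit 225)) (XT.lf (nat_lit 0) (nat_lit 28169175621) (nat_lit 152) (nat_lit 13695833196) (nat_lit 0) (nat_lit 9280318047) (nat_lit 18) (nat_lit 5) (nat_lit 20) (nat_lit 4) (nat_lit 18) (nat_lit 4) (nat_lit 473) (nat_lit 323) (nat_lit 224))) (XT.nd (nat_lit 78) (nat_lit 0) (nat_lit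 0) (XT.lf (nat_lit 0) (nat_lit 455276659) (nat_lit 76) (nat_lit 35459537780) (nat_lit 76) (nat_lit 16539525267) (nat_lit 17) (nat_lit 4) (nat_lit 18) (nat_lit 5) (nat_lit 18) (nat_lit 4) (nat_lit 474) (nat_lit 323) (nat_lit 223)) (XT.lf (nat_lit 0) (nat_lit 15270369727) (nat_lit 76) (nat_lit 28739501396) (nat_lit 76) (nat_lit 9789241369) (nat_lit 17) (nat_lit 4) (nat_lit 18) (nat_lit 5) (nat_lit 18) (nat_lit 4) (nat_lit 475) (nat_lit 323) (nat_lit 222)))))) (XT.nd (nat_lit 546) (nat_lit 152) (nat_lit 0) (XT.nd (nat_lit 234) (nat_lit 76) (nat_lit 0) (XT.nd (nat_lit 78) (nat_lit 152) (nat_lit 0) (XT.lf (nat_lit 0) (nat_lit 30489817299) (nat_lit 76) (nat_lit 21837328851) (nat_lit 76) (nat_lit 2857702306) (nat_lit 17) (nat_lit 4) (nat_lit 18) (nat_lit 5) (nat_lit 18) (nat_lit 4) (nat_lit 476) (nat_lit 323) (nat_lit 221)) (XT.nd (nat_lit 78) (nat_lit 76) (nat_lit 0) (XT.lf (nat_lit 0) (nat_lit 4177998250) (nat_lit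 152) (nat_lit 10526801279) (nat_lit 76) (nat_lit 41906730081) (nat_lit 16) (nat_lit 5) (nat_lit 18) (nat_lit 5) (nat_lit 17) (nat_lit 4) (nat_lit 477) (nat_lit 323) (nat_lit 220)) (XT.lf (nat_lit 0) (nat_lit 4079600804) (nat_lit 76) (nat_lit 7307305251) (nat_lit 152) (nat_lit 46692670034) (nat_lit 15) (nat_lit 5) (nat_lit 16) (nat_lit 5) (nat_lit 17) (nat_lit 4) (nat_lit 478) (nat_lit 323) (nat_lit 219)))) (XT.nd (nat_lit 156) (nat_lit 76) (nat_lit 0) (XT.nd (nat_lit 78) (nat_lit 0) (nat_lit 0) (XT.lf (nat_lit 0) (nat_lit 18902823389) (nat_lit 152) (nat_lit 40290764741) (nat_lit 0) (nat_lit 395354445) (nat_lit 15) (nat_lit 5) (nat_lit 17) (nat_lit 4) (nat_lit 15) (nat_lit 4) (nat_lit 479) (nat_lit 323) (nat_lit 218)) (XT.lf (nat_lit 0) (nat_lit 26697528516) (nat_lit 152) (nat_lit 26279735332) (nat_lit 0) (nat_lit 8164727755) (nat_lit 15) (nat_lit 5) (nat_lit 17) (nat_lit 4) (nat_lit 15) (nat_lit 4) (nat_lit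 480) (nat_lit 323) (nat_lit 217))) (XT.nd (nat_lit 78) (nat_lit 76) (nat_lit 0) (XT.lf (nat_lit 0) (nat_lit 34707590056) (nat_lit 152) (nat_lit 11884402124) (nat_lit 0) (nat_lit 16150195297) (nat_lit 15) (nat_lit 5) (nat_lit 17) (nat_lit 4) (nat_lit 15) (nat_lit 4) (nat_lit 481) (nat_lit 323) (nat_lit 216)) (XT.lf (nat_lit 0) (nat_lit 2965684517) (nat_lit 76) (nat_lit 40002830546) (nat_lit 76) (nat_lit 21421558121) (nat_lit 14) (nat_lit 4) (nat_lit 15) (nat_lit 5) (nat_lit 15) (nat_lit 4) (nat_lit 482) (nat_lit 323) (nat_lit 215))))) (XT.nd (nat_lit 312) (nat_lit 76) (nat_lit 0) (XT.nd (nat_lit 156) (nat_lit 76) (nat_lit 0) (XT.nd (nat_lit 78) (nat_lit 0) (nat_lit 0) (XT.lf (nat_lit 0) (nat_lit 18470257519) (nat_lit 76) (nat_lit 33109262888) (nat_lit 76) (nat_lit 14504808262) (nat_lit 14) (nat_lit 4) (nat_lit 15) (nat_lit 5) (nat_lit 15) (nat_lit 4) (nat_lit 483) (nat_lit 323) (nat_lit 214)) (XT.lf (nat_lit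 0) (nat_lit 34406341662) (nat_lit 76) (nat_lit 26025274858) (nat_lit 76) (nat_lit 7398313241) (nat_lit 14) (nat_lit 4) (nat_lit 15) (nat_lit 5) (nat_lit 15) (nat_lit 4) (nat_lit 484) (nat_lit 323) (nat_lit 213))) (XT.nd (nat_lit 78) (nat_lit 76) (nat_lit 0) (XT.lf (nat_lit 0) (nat_lit 50787861679) (nat_lit 76) (nat_lit 18744676564) (nat_lit 76) (nat_lit 95863499) (nat_lit 14) (nat_lit 4) (nat_lit 15) (nat_lit 5) (nat_lit 15) (nat_lit 4) (nat_lit 485) (nat_lit 323) (nat_lit 212)) (XT.lf (nat_lit 0) (nat_lit 7264346994) (nat_lit 152) (nat_lit 3923403662) (nat_lit 76) (nat_lit 60291428864) (nat_lit 13) (nat_lit 5) (nat_lit 15) (nat_lit 5) (nat_lit 14) (nat_lit 4) (nat_lit 486) (nat_lit 323) (nat_lit 211)))) (XT.nd (nat_lit 156) (nat_lit 0) (nat_lit 0) (XT.nd (nat_lit 78) (nat_lit 0) (nat_lit 0) (XT.lf (nat_lit 0) (nat_lit 11636272903) (nat_lit 76) (nat_lit 3303085742) (nat_lit 152) (nat_lit 58443216541) (nat_lit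 12) (nat_lit 5) (nat_lit 13) (nat_lit 5) (nat_lit 14) (nat_lit 4) (nat_lit 487) (nat_lit 323) (nat_lit 210)) (XT.lf (nat_lit 0) (nat_lit 22915036696) (nat_lit 152) (nat_lit 47676540239) (nat_lit 0) (nat_lit 4749383961) (nat_lit 12) (nat_lit 5) (nat_lit 14) (nat_lit 4) (nat_lit 12) (nat_lit 4) (nat_lit 488) (nat_lit 323) (nat_lit 209))) (XT.nd (nat_lit 78) (nat_lit 0) (nat_lit 0) (XT.lf (nat_lit 0) (nat_lit 31147242688) (nat_lit 152) (nat_lit 33247597696) (nat_lit 0) (nat_lit 12962740702) (nat_lit 12) (nat_lit 5) (nat_lit 14) (nat_lit 4) (nat_lit 12) (nat_lit 4) (nat_lit 489) (nat_lit 323) (nat_lit 208)) (XT.lf (nat_lit 0) (nat_lit 39611418530) (nat_lit 152) (nat_lit 18415115560) (nat_lit 0) (nat_lit 21408616300) (nat_lit 12) (nat_lit 5) (nat_lit 14) (nat_lit 4) (nat_lit 12) (nat_lit 4) (nat_lit 490) (nat_lit 323) (nat_lit 207))))))))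
noncomputable def xc63 : XT := (XT.nd (nat_lit 46020) (nat_lit 0) (nat_lit 2888) (XT.nd (nat_lit 44850) (nat_lit 0) (nat_lit 6916) (XT.nd (nat_lit 44304) (nat_lit 0) (nat_lit 10792) (XT.nd (nat_lit 43992) (nat_lit 0) (nat_lit 13072) (XT.nd (nat_lit 43836) (nat_lit 0) (nat_lit 14668) (XT.lf (nat_lit 0) (nat_lit 48314960104) (nat_lit 152) (nat_lit 3166133411) (nat_lit 0) (nat_lit 30094390647) (nat_lit 12) (nat_lit 5) (nat_lit 14) (nat_lit 4) (nat_lit 12) (nat_lit 4) (nat_lit 491) (nat_lit 323) (nat_lit 206)) (XT.nd (nat_lit 78) (nat_lit 532) (nat_lit 0) (XT.lf (nat_lit 0) (nat_lit 953603440) (nat_lit 608) (nat_lit 1876064791) (nat_lit 0) (nat_lit 953603440) (nat_lit 212) (nat_lit 5) (nat_lit 220) (nat_lit 4) (nat_lit 212) (nat_lit 4) (nat_lit 372) (nat_lit 324) (nat_lit 324)) (XT.lf (nat_lit 0) (nat_lit 2063652793) (nat_lit 532) (nat_lit 3493556526) (nat_lit 532) (nat_lit 2082550404) (nat_lit 205) (nat_lit 4)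 (nat_lit 212) (nat_lit 5) (nat_lit 212) (nat_lit 4) (nat_lit 373) (nat_lit 324) (nat_lit 323)))) (XT.nd (nat_lit 156) (nat_lit 1064) (nat_lit 0) (XT.nd (nat_lit 78) (nat_lit 0) (nat_lit 0) (XT.lf (nat_lit 0) (nat_lit 288593390) (nat_lit 456) (nat_lit 1223479696) (nat_lit 532) (nat_lit 6204429041) (nat_lit 198) (nat_lit 5) (nat_lit 204) (nat_lit 5) (nat_lit 205) (nat_lit 4) (nat_lit 374) (nat_lit 324) (nat_lit 322)) (XT.lf (nat_lit 0) (nat_lit 5142586281) (nat_lit 532) (nat_lit 1501889996) (nat_lit 0) (nat_lit 1151398344) (nat_lit 198) (nat_lit 5) (nat_lit 205) (nat_lit 4) (nat_lit 198) (nat_lit 4) (nat_lit 375) (nat_lit 324) (nat_lit 321))) (XT.nd (nat_lit 78) (nat_lit 456) (nat_lit 0) (XT.lf (nat_lit 0) (nat_lit 945506230) (nat_lit 608) (nat_lit 3325470952) (nat_lit 76) (nat_lit 3607581037) (nat_lit 190) (nat_lit 5) (nat_lit 198) (nat_lit 5) (nat_lit 191) (nat_lit 4) (nat_lit 376) (nat_lit 324) (nat_lit 320))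 (XT.lf (nat_lit 0) (nat_lit 2767855977) (nat_lit 456) (nat_lit 1778868580) (nat_lit 532) (nat_lit 3417815951) (nat_lit 184) (nat_lit 5) (nat_lit 190) (nat_lit 5) (nat_lit 191) (nat_lit 4) (nat_lit 377) (nat_lit 324) (nat_lit 319))))) (XT.nd (nat_lit 234) (nat_lit 1368) (nat_lit 0) (XT.nd (nat_lit 78) (nat_lit 380) (nat_lit 0) (XT.lf (nat_lit 0) (nat_lit 156375919) (nat_lit 532) (nat_lit 7103615414) (nat_lit 76) (nat_lit 794366344) (nat_lit 177) (nat_lit 5) (nat_lit 184) (nat_lit 5) (nat_lit 178) (nat_lit 4) (nat_lit 378) (nat_lit 324) (nat_lit 318)) (XT.nd (nat_lit 78) (nat_lit 380) (nat_lit 0) (XT.lf (nat_lit 0) (nat_lit 3747611682) (nat_lit 532) (nat_lit 927268077) (nat_lit 76) (nat_lit 3471655575) (nat_lit 177) (nat_lit 5) (nat_lit 184) (nat_lit 5) (nat_lit 178) (nat_lit 4) (nat_lit 379) (nat_lit 324) (nat_lit 317)) (XT.lf (nat_lit 0) (nat_lit 5424572217) (nat_lit 380) (nat_lit 1984743404) (nat_lit 456) (nat_lit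 833316254) (nat_lit 172) (nat_lit 5) (nat_lit 177) (nat_lit 5) (nat_lit 178) (nat_lit 4) (nat_lit 380) (nat_lit 324) (nat_lit 316)))) (XT.nd (nat_lit 156) (nat_lit 456) (nat_lit 0) (XT.nd (nat_lit 78) (nat_lit 380) (nat_lit 0) (XT.lf (nat_lit 0) (nat_lit 2746816287) (nat_lit 532) (nat_lit 4779554746) (nat_lit 76) (nat_lit 815566112) (nat_lit 165) (nat_lit 5) (nat_lit 172) (nat_lit 5) (nat_lit 166) (nat_lit 4) (nat_lit 381) (nat_lit 324) (nat_lit 315)) (XT.lf (nat_lit 0) (nat_lit 1634792584) (nat_lit 380) (nat_lit 4759313670) (nat_lit 456) (nat_lit 2050605206) (nat_lit 160) (nat_lit 5) (nat_lit 165) (nat_lit 5) (nat_lit 166) (nat_lit 4) (nat_lit 382) (nat_lit 324) (nat_lit 314))) (XT.nd (nat_lit 78) (nat_lit 380) (nat_lit 0) (XT.lf (nat_lit 0) (nat_lit 1530707888) (nat_lit 456) (nat_lit 343607627) (nat_lit 76) (nat_lit 6676971968) (nat_lit 159) (nat_lit 5) (nat_lit 165) (nat_lit 5) (nat_lit 160) (nat_lit 5) (nat_lit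 383) (nat_lit 324) (nat_lit 313)) (XT.lf (nat_lit 0) (nat_lit 5165389731) (nat_lit 456) (nat_lit 2367570392) (nat_lit 76) (nat_lit 1127906957) (nat_lit 154) (nat_lit 5) (nat_lit 160) (nat_lit 5) (nat_lit 155) (nat_lit 4) (nat_lit 384) (nat_lit 324) (nat_lit 312)))))) (XT.nd (nat_lit 546) (nat_lit 1596) (nat_lit 0) (XT.nd (nat_lit 234) (nat_lit 1140) (nat_lit 0) (XT.nd (nat_lit 78) (nat_lit 684) (nat_lit 0) (XT.lf (nat_lit 0) (nat_lit 112585170) (nat_lit 456) (nat_lit 4463019737) (nat_lit 76) (nat_lit 4198722663) (nat_lit 148) (nat_lit 5) (nat_lit 154) (nat_lit 5) (nat_lit 149) (nat_lit 5) (nat_lit 385) (nat_lit 324) (nat_lit 311)) (XT.nd (nat_lit 78) (nat_lit 304) (nat_lit 0) (XT.lf (nat_lit 0) (nat_lit 2241118594) (nat_lit 380) (nat_lit 1480249085) (nat_lit 456) (nat_lit 5169931119) (nat_lit 143) (nat_lit 5) (nat_lit 148) (nat_lit 5) (nat_lit 149) (nat_lit 5) (nat_lit 386) (nat_lit 324) (nat_lit 310)) (XT.lf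 (nat_lit 0) (nat_lit 95040996) (nat_lit 304) (nat_lit 7324249947) (nat_lit 380) (nat_lit 1593088307) (nat_lit 139) (nat_lit 5) (nat_lit 143) (nat_lit 5) (nat_lit 144) (nat_lit 4) (nat_lit 387) (nat_lit 324) (nat_lit 309)))) (XT.nd (nat_lit 156) (nat_lit 684) (nat_lit 0) (XT.nd (nat_lit 78) (nat_lit 380) (nat_lit 0) (XT.lf (nat_lit 0) (nat_lit 2051207905) (nat_lit 380) (nat_lit 2109445139) (nat_lit 76) (nat_lit 4975832377) (nat_lit 138) (nat_lit 5) (nat_lit 143) (nat_lit 5) (nat_lit 139) (nat_lit 5) (nat_lit 388) (nat_lit 324) (nat_lit 308)) (XT.lf (nat_lit 0) (nat_lit 4867439218) (nat_lit 380) (nat_lit 873015154) (nat_lit 456) (nat_lit 3524382149) (nat_lit 133) (nat_lit 5) (nat_lit 138) (nat_lit 5) (nat_lit 139) (nat_lit 5) (nat_lit 389) (nat_lit 324) (nat_lit 307))) (XT.nd (nat_lit 78) (nat_lit 304) (nat_lit 0) (XT.lf (nat_lit 0) (nat_lit 132949895) (nat_lit 380) (nat_lit 6786875962) (nat_lit 76) (nat_lit 2477421531)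 (nat_lit 128) (nat_lit 5) (nat_lit 133) (nat_lit 5) (nat_lit 129) (nat_lit 5) (nat_lit 390) (nat_lit 324) (nat_lit 306)) (XT.lf (nat_lit 0) (nat_lit 230951776) (nat_lit 304) (nat_lit 3576045893) (nat_lit 380) (nat_lit 5726273209) (nat_lit 124) (nat_lit 5) (nat_lit 128) (nat_lit 5) (nat_lit 129) (nat_lit 5) (nat_lit 391) (nat_lit 324) (nat_lit 305))))) (XT.nd (nat_lit 312) (nat_lit 912) (nat_lit 0) (XT.nd (nat_lit 156) (nat_lit 304) (nat_lit 0) (XT.nd (nat_lit 78) (nat_lit 380) (nat_lit 0) (XT.lf (nat_lit 0) (nat_lit 7483780076) (nat_lit 304) (nat_lit 99310859) (nat_lit 380) (nat_lit 2090550885) (nat_lit 124) (nat_lit 5) (nat_lit 128) (nat_lit 5) (nat_lit 129) (nat_lit 5) (nat_lit 392) (nat_lit 324) (nat_lit 304)) (XT.lf (nat_lit 0) (nat_lit 1629570245) (nat_lit 380) (nat_lit 4745416963) (nat_lit 76) (nat_lit 3442551649) (nat_lit 119) (nat_lit 5) (nat_lit 124) (nat_lit 5) (nat_lit 120) (nat_lit 5) (nat_lit 393)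 (nat_lit 324) (nat_lit 303))) (XT.nd (nat_lit 78) (nat_lit 0) (nat_lit 0) (XT.lf (nat_lit 0) (nat_lit 2545933374) (nat_lit 304) (nat_lit 2846654286) (nat_lit 380) (nat_lit 4573364519) (nat_lit 115) (nat_lit 5) (nat_lit 119) (nat_lit 5) (nat_lit 120) (nat_lit 5) (nat_lit 394) (nat_lit 324) (nat_lit 302)) (XT.lf (nat_lit 0) (nat_lit 9250693647) (nat_lit 380) (nat_lit 86467233) (nat_lit 76) (nat_lit 782210155) (nat_lit 115) (nat_lit 5) (nat_lit 120) (nat_lit 5) (nat_lit 116) (nat_lit 4) (nat_lit 395) (nat_lit 324) (nat_lit 301)))) (XT.nd (nat_lit 156) (nat_lit 304) (nat_lit 0) (XT.nd (nat_lit 78) (nat_lit 304) (nat_lit 0) (XT.lf (nat_lit 0) (nat_lit 2918313260) (nat_lit 304) (nat_lit 2831436468) (nat_lit 76) (nat_lit 4525950641) (nat_lit 111) (nat_lit 5) (nat_lit 115) (nat_lit 5) (nat_lit 112) (nat_lit 5) (nat_lit 396) (nat_lit 324) (nat_lit 300)) (XT.lf (nat_lit 0) (nat_lit 4738490987) (nat_lit 304) (nat_lit 2038089430)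 (nat_lit 380) (nat_lit 3660644809) (nat_lit 107) (nat_lit 5) (nat_lit 111) (nat_lit 5) (nat_lit 112) (nat_lit 5) (nat_lit 397) (nat_lit 324) (nat_lit 299))) (XT.nd (nat_lit 78) (nat_lit 0) (nat_lit 0) (XT.lf (nat_lit 0) (nat_lit 137660699) (nat_lit 304) (nat_lit 8706740388) (nat_lit 76) (nat_lit 1759362923) (nat_lit 103) (nat_lit 5) (nat_lit 107) (nat_lit 5) (nat_lit 104) (nat_lit 5) (nat_lit 398) (nat_lit 324) (nat_lit 298)) (XT.lf (nat_lit 0) (nat_lit 3984248987) (nat_lit 304) (nat_lit 1105421611) (nat_lit 76) (nat_lit 5684319745) (nat_lit 103) (nat_lit 5) (nat_lit 107) (nat_lit 5) (nat_lit 104) (nat_lit 5) (nat_lit 399) (nat_lit 324) (nat_lit 297))))))) (XT.nd (nat_lit 1092) (nat_lit 1596) (nat_lit 0) (XT.nd (nat_lit 546) (nat_lit 1140) (nat_lit 0) (XT.nd (nat_lit 234) (nat_lit 532) (nat_lit 0) (XT.nd (nat_lit 78) (nat_lit 532) (nat_lit 0) (XT.lf (nat_lit 0) (nat_lit 6746528669) (nat_lit 228) (nat_lit 1196222134)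 (nat_lit 304) (nat_lit 3006692697) (nat_lit 100) (nat_lit 5) (nat_lit 103) (nat_lit 5) (nat_lit 104) (nat_lit 5) (nat_lit 400) (nat_lit 324) (nat_lit 296)) (XT.nd (nat_lit 78) (nat_lit 228) (nat_lit 0) (XT.lf (nat_lit 0) (nat_lit 878271669) (nat_lit 304) (nat_lit 7477086604) (nat_lit 76) (nat_lit 2774386335) (nat_lit 96) (nat_lit 5) (nat_lit 100) (nat_lit 5) (nat_lit 97) (nat_lit 5) (nat_lit 401) (nat_lit 324) (nat_lit 295)) (XT.lf (nat_lit 0) (nat_lit 371164354) (nat_lit 228) (nat_lit 4438942548) (nat_lit 304) (nat_lit 6504746359) (nat_lit 93) (nat_lit 5) (nat_lit 96) (nat_lit 5) (nat_lit 97) (nat_lit 5) (nat_lit 402) (nat_lit 324) (nat_lit 294)))) (XT.nd (nat_lit 156) (nat_lit 228) (nat_lit 0) (XT.nd (nat_lit 78) (nat_lit 304) (nat_lit 0) (XT.lf (nat_lit 0) (nat_lit 8499296089) (nat_lit 228) (nat_lit 369505803) (nat_lit 304) (nat_lit 2636459920) (nat_lit 93) (nat_lit 5) (nat_lit 96) (nat_lit 5) (nat_lit 97)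 (nat_lit 5) (nat_lit 403) (nat_lit 324) (nat_lit 293)) (XT.lf (nat_lit 0) (nat_lit 1342727243) (nat_lit 304) (nat_lit 6587984458) (nat_lit 76) (nat_lit 3769660591) (nat_lit 89) (nat_lit 5) (nat_lit 93) (nat_lit 5) (nat_lit 90) (nat_lit 5) (nat_lit 404) (nat_lit 324) (nat_lit 292))) (XT.nd (nat_lit 78) (nat_lit 0) (nat_lit 0) (XT.lf (nat_lit 0) (nat_lit 1527755222) (nat_lit 228) (nat_lit 3844715958) (nat_lit 304) (nat_lit 6528569267) (nat_lit 86) (nat_lit 5) (nat_lit 89) (nat_lit 5) (nat_lit 90) (nat_lit 5) (nat_lit 405) (nat_lit 324) (nat_lit 291)) (XT.lf (nat_lit 0) (nat_lit 9529418737) (nat_lit 304) (nat_lit 2195824183) (nat_lit 76) (nat_lit 382308632) (nat_lit 86) (nat_lit 5) (nat_lit 90) (nat_lit 5) (nat_lit 87) (nat_lit 4) (nat_lit 406) (nat_lit 324) (nat_lit 290))))) (XT.nd (nat_lit 234) (nat_lit 684) (nat_lit 0) (XT.nd (nat_lit 78) (nat_lit 228) (nat_lit 0) (XT.lf (nat_lit 0) (nat_lit 1497281136) (nat_lit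 228) (nat_lit 6128718206) (nat_lit 76) (nat_lit 4692773602) (nat_lit 83) (nat_lit 5) (nat_lit 86) (nat_lit 5) (nat_lit 84) (nat_lit 5) (nat_lit 407) (nat_lit 324) (nat_lit 289)) (XT.nd (nat_lit 78) (nat_lit 0) (nat_lit 0) (XT.lf (nat_lit 0) (nat_lit 2249987600) (nat_lit 228) (nat_lit 3374878197) (nat_lit 304) (nat_lit 6911258816) (nat_lit 80) (nat_lit 5) (nat_lit 83) (nat_lit 5) (nat_lit 84) (nat_lit 5) (nat_lit 408) (nat_lit 324) (nat_lit 288)) (XT.lf (nat_lit 0) (nat_lit 9886538601) (nat_lit 304) (nat_lit 1868160100) (nat_lit 76) (nat_lit 1005001192) (nat_lit 80) (nat_lit 5) (nat_lit 84) (nat_lit 5) (nat_lit 81) (nat_lit 4) (nat_lit 409) (nat_lit 324) (nat_lit 287)))) (XT.nd (nat_lit 156) (nat_lit 228) (nat_lit 0) (XT.nd (nat_lit 78) (nat_lit 228) (nat_lit 0) (XT.lf (nat_lit 0) (nat_lit 1300042428) (nat_lit 228) (nat_lit 6202332974) (nat_lit 76) (nat_lit 5486074628) (nat_lit 77) (nat_lit 5) (nat_lit 80) (nat_lit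 5) (nat_lit 78) (nat_lit 5) (nat_lit 410) (nat_lit 324) (nat_lit 286)) (XT.lf (nat_lit 0) (nat_lit 2431053048) (nat_lit 228) (nat_lit 3092153677) (nat_lit 304) (nat_lit 7700537121) (nat_lit 74) (nat_lit 5) (nat_lit 77) (nat_lit 5) (nat_lit 78) (nat_lit 5) (nat_lit 411) (nat_lit 324) (nat_lit 285))) (XT.nd (nat_lit 78) (nat_lit 228) (nat_lit 0) (XT.lf (nat_lit 0) (nat_lit 9890711944) (nat_lit 304) (nat_lit 2131140416) (nat_lit 76) (nat_lit 1443724402) (nat_lit 74) (nat_lit 5) (nat_lit 78) (nat_lit 5) (nat_lit 75) (nat_lit 4) (nat_lit 412) (nat_lit 324) (nat_lit 284)) (XT.lf (nat_lit 0) (nat_lit 699875674) (nat_lit 228) (nat_lit 6928155596) (nat_lit 76) (nat_lit 6085294129) (nat_lit 71) (nat_lit 5) (nat_lit 74) (nat_lit 5) (nat_lit 72) (nat_lit 5) (nat_lit 413) (nat_lit 324) (nat_lit 283)))))) (XT.nd (nat_lit 546) (nat_lit 836) (nat_lit 0) (XT.nd (nat_lit 234) (nat_lit 456) (nat_lit 0) (XT.nd (nat_lit 78) (nat_lit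 152) (nat_lit 0) (XT.lf (nat_lit 0) (nat_lit 1947059748) (nat_lit 152) (nat_lit 3066742586) (nat_lit 228) (nat_lit 8954167309) (nat_lit 69) (nat_lit 5) (nat_lit 71) (nat_lit 5) (nat_lit 72) (nat_lit 5) (nat_lit 414) (nat_lit 324) (nat_lit 282)) (XT.nd (nat_lit 78) (nat_lit 152) (nat_lit 0) (XT.lf (nat_lit 0) (nat_lit 9486148091) (nat_lit 228) (nat_lit 3114427441) (nat_lit 76) (nat_lit 1628816232) (nat_lit 69) (nat_lit 5) (nat_lit 72) (nat_lit 5) (nat_lit 70) (nat_lit 4) (nat_lit 415) (nat_lit 324) (nat_lit 281)) (XT.lf (nat_lit 0) (nat_lit 6049406701) (nat_lit 152) (nat_lit 8076107785) (nat_lit 228) (nat_lit 372164891) (nat_lit 67) (nat_lit 5) (nat_lit 69) (nat_lit 5) (nat_lit 70) (nat_lit 4) (nat_lit 416) (nat_lit 324) (nat_lit 280)))) (XT.nd (nat_lit 156) (nat_lit 228) (nat_lit 0) (XT.nd (nat_lit 78) (nat_lit 0) (nat_lit 0) (XT.lf (nat_lit 0) (nat_lit 653994860) (nat_lit 152) (nat_lit 3377983591) (nat_lit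 228) (nat_lit 10741378282) (nat_lit 64) (nat_lit 5) (nat_lit 66) (nat_lit 5) (nat_lit 67) (nat_lit 5) (nat_lit 417) (nat_lit 324) (nat_lit 279)) (XT.lf (nat_lit 0) (nat_lit 8605727888) (nat_lit 228) (nat_lit 4968781511) (nat_lit 76) (nat_lit 1481343240) (nat_lit 64) (nat_lit 5) (nat_lit 67) (nat_lit 5) (nat_lit 65) (nat_lit 4) (nat_lit 418) (nat_lit 324) (nat_lit 278))) (XT.nd (nat_lit 78) (nat_lit 76) (nat_lit 0) (XT.lf (nat_lit 0) (nat_lit 4413881351) (nat_lit 152) (nat_lit 8925053104) (nat_lit 228) (nat_lit 2007229034) (nat_lit 62) (nat_lit 5) (nat_lit 64) (nat_lit 5) (nat_lit 65) (nat_lit 4) (nat_lit 419) (nat_lit 324) (nat_lit 277)) (XT.lf (nat_lit 0) (nat_lit 2515991190) (nat_lit 228) (nat_lit 1584249832) (nat_lit 76) (nat_lit 11544293779) (nat_lit 61) (nat_lit 5) (nat_lit 64) (nat_lit 5) (nat_lit 62) (nat_lit 5) (nat_lit 420) (nat_lit 324) (nat_lit 276))))) (XT.nd (nat_lit 312) (nat_lit 304) (nat_lit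 0) (XT.nd (nat_lit 156) (nat_lit 228) (nat_lit 0) (XT.nd (nat_lit 78) (nat_lit 152) (nat_lit 0) (XT.lf (nat_lit 0) (nat_lit 7169315322) (nat_lit 228) (nat_lit 7869702148) (nat_lit 76) (nat_lit 911207836) (nat_lit 59) (nat_lit 5) (nat_lit 62) (nat_lit 5) (nat_lit 60) (nat_lit 4) (nat_lit 421) (nat_lit 324) (nat_lit 275)) (XT.lf (nat_lit 0) (nat_lit 1702844912) (nat_lit 152) (nat_lit 10280815175) (nat_lit 228) (nat_lit 4280790394) (nat_lit 57) (nat_lit 5) (nat_lit 59) (nat_lit 5) (nat_lit 60) (nat_lit 4) (nat_lit 422) (nat_lit 324) (nat_lit 274))) (XT.nd (nat_lit 78) (nat_lit 152) (nat_lit 0) (XT.lf (nat_lit 0) (nat_lit 376084470) (nat_lit 228) (nat_lit 4958882619) (nat_lit 76) (nat_lit 11252179364) (nat_lit 56) (nat_lit 5) (nat_lit 59) (nat_lit 5) (nat_lit 57) (nat_lit 5) (nat_lit 423) (nat_lit 324) (nat_lit 273)) (XT.lf (nat_lit 0) (nat_lit 4894898802) (nat_lit 152) (nat_lit 188693112) (nat_lit 228) (nat_lit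 11834756913) (nat_lit 54) (nat_lit 5) (nat_lit 56) (nat_lit 5) (nat_lit 57) (nat_lit 5) (nat_lit 424) (nat_lit 324) (nat_lit 272)))) (XT.nd (nat_lit 156) (nat_lit 228) (nat_lit 0) (XT.nd (nat_lit 78) (nat_lit 76) (nat_lit 0) (XT.lf (nat_lit 0) (nat_lit 9982166207) (nat_lit 228) (nat_lit 2252054642) (nat_lit 76) (nat_lit 5023777021) (nat_lit 54) (nat_lit 5) (nat_lit 57) (nat_lit 5) (nat_lit 55) (nat_lit 4) (nat_lit 425) (nat_lit 324) (nat_lit 271)) (XT.lf (nat_lit 0) (nat_lit 7876566621) (nat_lit 76) (nat_lit 7180297682) (nat_lit 152) (nat_lit 2550102762) (nat_lit 53) (nat_lit 5) (nat_lit 54) (nat_lit 5) (nat_lit 55) (nat_lit 4) (nat_lit 426) (nat_lit 324) (nat_lit 270))) (XT.nd (nat_lit 78) (nat_lit 0) (nat_lit 0) (XT.lf (nat_lit 0) (nat_lit 284687548) (nat_lit 152) (nat_lit 1964872593) (nat_lit 228) (nat_lit 15716860771) (nat_lit 50) (nat_lit 5) (nat_lit 52) (nat_lit 5) (nat_lit 53) (nat_lit 5) (nat_lit 427)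 (nat_lit 324) (nat_lit 269)) (XT.lf (nat_lit 0) (nat_lit 7225813264) (nat_lit 228) (nat_lit 7681044259) (nat_lit 76) (nat_lit 3426532945) (nat_lit 50) (nat_lit 5) (nat_lit 53) (nat_lit 5) (nat_lit 51) (nat_lit 4) (nat_lit 428) (nat_lit 324) (nat_lit 268))))))))
noncomputable def xc64 : XT := (XT.nd (nat_lit 2184) (nat_lit 988) (nat_lit 0) (XT.nd (nat_lit 1092) (nat_lit 760) (nat_lit 0) (XT.nd (nat_lit 546) (nat_lit 380) (nat_lit 0) (XT.nd (nat_lit 234) (nat_lit 304) (nat_lit 0) (XT.nd (nat_lit 78) (nat_lit 228) (nat_lit 0) (XT.lf (nat_lit 0) (nat_lit 2564770145) (nat_lit 76) (nat_lit 9783967634) (nat_lit 152) (nat_lit 6362714862) (nat_lit 49) (nat_lit 5) (nat_lit 50) (nat_lit 5) (nat_lit 51) (nat_lit 4) (nat_lit 429) (nat_lit 324) (nat_lit 267)) (XT.nd (nat_lit 78) (nat_lit 228) (nat_lit 0) (XT.lf (nat_lit 0) (nat_lit 13190761894) (nat_lit 76) (nat_lit 4465974288) (nat_lit 152) (nat_lit 1443183809) (nat_lit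 49) (nat_lit 5) (nat_lit 50) (nat_lit 5) (nat_lit 51) (nat_lit 4) (nat_lit 430) (nat_lit 324) (nat_lit 266)) (XT.lf (nat_lit 0) (nat_lit 3562369819) (nat_lit 228) (nat_lit 14901700554) (nat_lit 76) (nat_lit 1034655964) (nat_lit 46) (nat_lit 5) (nat_lit 49) (nat_lit 5) (nat_lit 47) (nat_lit 4) (nat_lit 431) (nat_lit 324) (nat_lit 265)))) (XT.nd (nat_lit 156) (nat_lit 228) (nat_lit 0) (XT.nd (nat_lit 78) (nat_lit 76) (nat_lit 0) (XT.lf (nat_lit 0) (nat_lit 8748449129) (nat_lit 228) (nat_lit 4510539880) (nat_lit 76) (nat_lit 6648302706) (nat_lit 46) (nat_lit 5) (nat_lit 49) (nat_lit 5) (nat_lit 47) (nat_lit 4) (nat_lit 432) (nat_lit 324) (nat_lit 264)) (XT.lf (nat_lit 0) (nat_lit 6233148988) (nat_lit 76) (nat_lit 7873079021) (nat_lit 152) (nat_lit 6221406882) (nat_lit 45) (nat_lit 5) (nat_lit 46) (nat_lit 5) (nat_lit 47) (nat_lit 4) (nat_lit 433) (nat_lit 324) (nat_lit 263))) (XT.nd (nat_lit 78) (nat_lit 228) (nat_lit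 0) (XT.lf (nat_lit 0) (nat_lit 17311564881) (nat_lit 76) (nat_lit 2315429606) (nat_lit 152) (nat_lit 1133530473) (nat_lit 45) (nat_lit 5) (nat_lit 46) (nat_lit 5) (nat_lit 47) (nat_lit 4) (nat_lit 434) (nat_lit 324) (nat_lit 262)) (XT.lf (nat_lit 0) (nat_lit 4090446731) (nat_lit 228) (nat_lit 13692727383) (nat_lit 76) (nat_lit 3420139038) (nat_lit 42) (nat_lit 5) (nat_lit 45) (nat_lit 5) (nat_lit 43) (nat_lit 4) (nat_lit 435) (nat_lit 324) (nat_lit 261))))) (XT.nd (nat_lit 234) (nat_lit 304) (nat_lit 0) (XT.nd (nat_lit 78) (nat_lit 76) (nat_lit 0) (XT.lf (nat_lit 0) (nat_lit 9464149719) (nat_lit 228) (nat_lit 2901925707) (nat_lit 76) (nat_lit 9292503059) (nat_lit 42) (nat_lit 5) (nat_lit 45) (nat_lit 5) (nat_lit 43) (nat_lit 4) (nat_lit 436) (nat_lit 324) (nat_lit 260)) (XT.nd (nat_lit 78) (nat_lit 0) (nat_lit 0) (XT.lf (nat_lit 0) (nat_lit 8298107642) (nat_lit 76) (nat_lit 6739646619) (nat_lit 152) (nat_lit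 7088590555) (nat_lit 41) (nat_lit 5) (nat_lit 42) (nat_lit 5) (nat_lit 43) (nat_lit 4) (nat_lit 437) (nat_lit 324) (nat_lit 259)) (XT.lf (nat_lit 0) (nat_lit 19817959480) (nat_lit 76) (nat_lit 949304211) (nat_lit 152) (nat_lit 1841223190) (nat_lit 41) (nat_lit 5) (nat_lit 42) (nat_lit 5) (nat_lit 43) (nat_lit 4) (nat_lit 438) (nat_lit 324) (nat_lit 258)))) (XT.nd (nat_lit 156) (nat_lit 76) (nat_lit 0) (XT.nd (nat_lit 78) (nat_lit 0) (nat_lit 0) (XT.lf (nat_lit 0) (nat_lit 3586281397) (nat_lit 228) (nat_lit 14513444477) (nat_lit 76) (nat_lit 5001575487) (nat_lit 38) (nat_lit 5) (nat_lit 41) (nat_lit 5) (nat_lit 39) (nat_lit 4) (nat_lit 439) (nat_lit 324) (nat_lit 257)) (XT.lf (nat_lit 0) (nat_lit 9137767638) (nat_lit 228) (nat_lit 3345555998) (nat_lit 76) (nat_lit 11125088178) (nat_lit 38) (nat_lit 5) (nat_lit 41) (nat_lit 5) (nat_lit 39) (nat_lit 4) (nat_lit 440) (nat_lit 324) (nat_lit 256))) (XT.nd (nat_lit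 78) (nat_lit 0) (nat_lit 0) (XT.lf (nat_lit 0) (nat_lit 8246057197) (nat_lit 76) (nat_lit 6650469913) (nat_lit 152) (nat_lit 9232989848) (nat_lit 37) (nat_lit 5) (nat_lit 38) (nat_lit 5) (nat_lit 39) (nat_lit 4) (nat_lit 441) (nat_lit 324) (nat_lit 255)) (XT.lf (nat_lit 0) (nat_lit 20182485254) (nat_lit 76) (nat_lit 641245181) (nat_lit 152) (nat_lit 3842657533) (nat_lit 37) (nat_lit 5) (nat_lit 38) (nat_lit 5) (nat_lit 39) (nat_lit 4) (nat_lit 442) (nat_lit 324) (nat_lit 254)))))) (XT.nd (nat_lit 546) (nat_lit 304) (nat_lit 0) (XT.nd (nat_lit 234) (nat_lit 152) (nat_lit 0) (XT.nd (nat_lit 78) (nat_lit 76) (nat_lit 0) (XT.lf (nat_lit 0) (nat_lit 1762847324) (nat_lit 228) (nat_lit 17958014189) (nat_lit 76) (nat_lit 5495409044) (nat_lit 34) (nat_lit 5) (nat_lit 37) (nat_lit 5) (nat_lit 35) (nat_lit 4) (nat_lit 443) (nat_lit 324) (nat_lit 253)) (XT.nd (nat_lit 78) (nat_lit 76) (nat_lit 0) (XT.lf (nat_lit 0) (nat_lit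 7474105007) (nat_lit 228) (nat_lit 6451826807) (nat_lit 76) (nat_lit 11855134665) (nat_lit 34) (nat_lit 5) (nat_lit 37) (nat_lit 5) (nat_lit 35) (nat_lit 4) (nat_lit 444) (nat_lit 324) (nat_lit 252)) (XT.lf (nat_lit 0) (nat_lit 5437408855) (nat_lit 76) (nat_lit 7935389751) (nat_lit 152) (nat_lit 12989527519) (nat_lit 33) (nat_lit 5) (nat_lit 34) (nat_lit 5) (nat_lit 35) (nat_lit 4) (nat_lit 445) (nat_lit 324) (nat_lit 251)))) (XT.nd (nat_lit 156) (nat_lit 76) (nat_lit 0) (XT.nd (nat_lit 78) (nat_lit 76) (nat_lit 0) (XT.lf (nat_lit 0) (nat_lit 17748005965) (nat_lit 76) (nat_lit 1729832273) (nat_lit 152) (nat_lit 7482306477) (nat_lit 33) (nat_lit 5) (nat_lit 34) (nat_lit 5) (nat_lit 35) (nat_lit 4) (nat_lit 446) (nat_lit 324) (nat_lit 250)) (XT.lf (nat_lit 0) (nat_lit 2795407486) (nat_lit 76) (nat_lit 23007285004) (nat_lit 76) (nat_lit 1772108103) (nat_lit 32) (nat_lit 4) (nat_lit 33) (nat_lit 5) (nat_lit 33)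 (nat_lit 4) (nat_lit 447) (nat_lit 324) (nat_lit 249))) (XT.nd (nat_lit 78) (nat_lit 0) (nat_lit 0) (XT.lf (nat_lit 0) (nat_lit 4105302096) (nat_lit 152) (nat_lit 12977034859) (nat_lit 76) (nat_lit 11122093763) (nat_lit 31) (nat_lit 5) (nat_lit 33) (nat_lit 5) (nat_lit 32) (nat_lit 4) (nat_lit 448) (nat_lit 324) (nat_lit 248)) (XT.lf (nat_lit 0) (nat_lit 10089458123) (nat_lit 152) (nat_lit 902616781) (nat_lit 76) (nat_lit 17861369650) (nat_lit 31) (nat_lit 5) (nat_lit 33) (nat_lit 5) (nat_lit 32) (nat_lit 4) (nat_lit 449) (nat_lit 324) (nat_lit 247))))) (XT.nd (nat_lit 234) (nat_lit 152) (nat_lit 0) (XT.nd (nat_lit 78) (nat_lit 76) (nat_lit 0) (XT.lf (nat_lit 0) (nat_lit 11699750446) (nat_lit 76) (nat_lit 4632883773) (nat_lit 152) (nat_lit 13186912062) (nat_lit 30) (nat_lit 5) (nat_lit 31) (nat_lit 5) (nat_lit 32) (nat_lit 4) (nat_lit 450) (nat_lit 324) (nat_lit 246)) (XT.nd (nat_lit 78) (nat_lit 76) (nat_lit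 0) (XT.lf (nat_lit 0) (nat_lit 22757851149) (nat_lit 152) (nat_lit 5587856766) (nat_lit 0) (nat_lit 1860083048) (nat_lit 30) (nat_lit 5) (nat_lit 32) (nat_lit 4) (nat_lit 30) (nat_lit 4) (nat_lit 451) (nat_lit 324) (nat_lit 245)) (XT.lf (nat_lit 0) (nat_lit 7041733141) (nat_lit 76) (nat_lit 22415721389) (nat_lit 76) (nat_lit 1452721764) (nat_lit 29) (nat_lit 4) (nat_lit 30) (nat_lit 5) (nat_lit 30) (nat_lit 4) (nat_lit 452) (nat_lit 324) (nat_lit 244)))) (XT.nd (nat_lit 156) (nat_lit 0) (nat_lit 0) (XT.nd (nat_lit 78) (nat_lit 76) (nat_lit 0) (XT.lf (nat_lit 0) (nat_lit 4655294217) (nat_lit 152) (nat_lit 11576083940) (nat_lit 76) (nat_lit 15402202536) (nat_lit 28) (nat_lit 5) (nat_lit 30) (nat_lit 5) (nat_lit 29) (nat_lit 4) (nat_lit 453) (nat_lit 324) (nat_lit 243)) (XT.lf (nat_lit 0) (nat_lit 1031680825) (nat_lit 76) (nat_lit 9864624099) (nat_lit 152) (nat_lit 21482584242) (nat_lit 27) (nat_lit 5) (nat_lit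 28) (nat_lit 5) (nat_lit 29) (nat_lit 4) (nat_lit 454) (nat_lit 324) (nat_lit 242))) (XT.nd (nat_lit 78) (nat_lit 0) (nat_lit 0) (XT.lf (nat_lit 0) (nat_lit 14196442802) (nat_lit 76) (nat_lit 3214373482) (nat_lit 152) (nat_lit 15733154456) (nat_lit 27) (nat_lit 5) (nat_lit 28) (nat_lit 5) (nat_lit 29) (nat_lit 4) (nat_lit 455) (nat_lit 324) (nat_lit 241)) (XT.lf (nat_lit 0) (nat_lit 24125714652) (nat_lit 152) (nat_lit 6268265335) (nat_lit 0) (nat_lit 3537878127) (nat_lit 27) (nat_lit 5) (nat_lit 29) (nat_lit 4) (nat_lit 27) (nat_lit 4) (nat_lit 456) (nat_lit 324) (nat_lit 240))))))) (XT.nd (nat_lit 1092) (nat_lit 380) (nat_lit 0) (XT.nd (nat_lit 546) (nat_lit 304) (nat_lit 0) (XT.nd (nat_lit 234) (nat_lit 152) (nat_lit 0) (XT.nd (nat_lit 78) (nat_lit 76) (nat_lit 0) (XT.lf (nat_lit 0) (nat_lit 6837178649) (nat_lit 76) (nat_lit 24273309678) (nat_lit 76) (nat_lit 3630842778) (nat_lit 26) (nat_lit 4) (nat_lit 27)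 (nat_lit 5) (nat_lit 27) (nat_lit 4) (nat_lit 457) (nat_lit 324) (nat_lit 239)) (XT.nd (nat_lit 78) (nat_lit 0) (nat_lit 0) (XT.lf (nat_lit 0) (nat_lit 2711284149) (nat_lit 152) (nat_lit 15191599275) (nat_lit 76) (nat_lit 17670374395) (nat_lit 25) (nat_lit 5) (nat_lit 27) (nat_lit 5) (nat_lit 26) (nat_lit 4) (nat_lit 458) (nat_lit 324) (nat_lit 238)) (XT.lf (nat_lit 0) (nat_lit 9142455762) (nat_lit 152) (nat_lit 2187815269) (nat_lit 76) (nat_lit 25099641810) (nat_lit 25) (nat_lit 5) (nat_lit 27) (nat_lit 5) (nat_lit 26) (nat_lit 4) (nat_lit 459) (nat_lit 324) (nat_lit 237)))) (XT.nd (nat_lit 156) (nat_lit 76) (nat_lit 0) (XT.nd (nat_lit 78) (nat_lit 0) (nat_lit 0) (XT.lf (nat_lit 0) (nat_lit 11375439773) (nat_lit 76) (nat_lit 4473050261) (nat_lit 152) (nat_lit 21461321292) (nat_lit 24) (nat_lit 5) (nat_lit 25) (nat_lit 5) (nat_lit 26) (nat_lit 4) (nat_lit 460) (nat_lit 324) (nat_lit 236)) (XT.lf (nat_lit 0)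 (nat_lit 22775549809) (nat_lit 152) (nat_lit 12902795331) (nat_lit 0) (nat_lit 2537167887) (nat_lit 24) (nat_lit 5) (nat_lit 26) (nat_lit 4) (nat_lit 24) (nat_lit 4) (nat_lit 461) (nat_lit 324) (nat_lit 235))) (XT.nd (nat_lit 78) (nat_lit 0) (nat_lit 0) (XT.lf (nat_lit 0) (nat_lit 432741638) (nat_lit 76) (nat_lit 29499561615) (nat_lit 76) (nat_lit 9215427615) (nat_lit 23) (nat_lit 4) (nat_lit 24) (nat_lit 5) (nat_lit 24) (nat_lit 4) (nat_lit 462) (nat_lit 324) (nat_lit 234)) (XT.lf (nat_lit 0) (nat_lit 14382197515) (nat_lit 76) (nat_lit 23025576147) (nat_lit 76) (nat_lit 2697022653) (nat_lit 23) (nat_lit 4) (nat_lit 24) (nat_lit 5) (nat_lit 24) (nat_lit 4) (nat_lit 463) (nat_lit 324) (nat_lit 233))))) (XT.nd (nat_lit 234) (nat_lit 152) (nat_lit 0) (XT.nd (nat_lit 78) (nat_lit 76) (nat_lit 0) (XT.lf (nat_lit 0) (nat_lit 3912782385) (nat_lit 152) (nat_lit 12428730973) (nat_lit 76) (nat_lit 24748676401) (nat_lit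 22) (nat_lit 5) (nat_lit 24) (nat_lit 5) (nat_lit 23) (nat_lit 4) (nat_lit 464) (nat_lit 324) (nat_lit 232)) (XT.nd (nat_lit 78) (nat_lit 0) (nat_lit 0) (XT.lf (nat_lit 0) (nat_lit 1212679373) (nat_lit 76) (nat_lit 9440635022) (nat_lit 152) (nat_lit 31451431682) (nat_lit 21) (nat_lit 5) (nat_lit 22) (nat_lit 5) (nat_lit 23) (nat_lit 4) (nat_lit 465) (nat_lit 324) (nat_lit 231)) (XT.lf (nat_lit 0) (nat_lit 15470347651) (nat_lit 76) (nat_lit 2226473349) (nat_lit 152) (nat_lit 25449896659) (nat_lit 21) (nat_lit 5) (nat_lit 22) (nat_lit 5) (nat_lit 23) (nat_lit 4) (nat_lit 466) (nat_lit 324) (nat_lit 230)))) (XT.nd (nat_lit 156) (nat_lit 152) (nat_lit 0) (XT.nd (nat_lit 78) (nat_lit 0) (nat_lit 0) (XT.lf (nat_lit 0) (nat_lit 24977416754) (nat_lit 152) (nat_lit 14161104913) (nat_lit 0) (nat_lit 5080654497) (nat_lit 21) (nat_lit 5) (nat_lit 23) (nat_lit 4) (nat_lit 21) (nat_lit 4) (nat_lit 467) (nat_lit 324) (nat_lit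 229)) (XT.lf (nat_lit 0) (nat_lit 32474939557) (nat_lit 152) (nat_lit 307938177) (nat_lit 0) (nat_lit 12540976673) (nat_lit 21) (nat_lit 5) (nat_lit 23) (nat_lit 4) (nat_lit 21) (nat_lit 4) (nat_lit 468) (nat_lit 324) (nat_lit 228))) (XT.nd (nat_lit 78) (nat_lit 76) (nat_lit 0) (XT.lf (nat_lit 0) (nat_lit 14193605496) (nat_lit 76) (nat_lit 26117370539) (nat_lit 76) (nat_lit 6147290542) (nat_lit 20) (nat_lit 4) (nat_lit 21) (nat_lit 5) (nat_lit 21) (nat_lit 4) (nat_lit 469) (nat_lit 324) (nat_lit 227)) (XT.lf (nat_lit 0) (nat_lit 720952965) (nat_lit 152) (nat_lit 18541610636) (nat_lit 76) (nat_lit 28364521506) (nat_lit 19) (nat_lit 5) (nat_lit 21) (nat_lit 5) (nat_lit 20) (nat_lit 4) (nat_lit 470) (nat_lit 324) (nat_lit 226)))))) (XT.nd (nat_lit 546) (nat_lit 228) (nat_lit 0) (XT.nd (nat_lit 234) (nat_lit 76) (nat_lit 0) (XT.nd (nat_lit 78) (nat_lit 76) (nat_lit 0) (XT.lf (nat_lit 0) (nat_lit 7649524610) (nat_lit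 152) (nat_lit 4510654040) (nat_lit 76) (nat_lit 36669629673) (nat_lit 19) (nat_lit 5) (nat_lit 21) (nat_lit 5) (nat_lit 20) (nat_lit 4) (nat_lit 471) (nat_lit 324) (nat_lit 225)) (XT.nd (nat_lit 78) (nat_lit 0) (nat_lit 0) (XT.lf (nat_lit 0) (nat_lit 10096580940) (nat_lit 76) (nat_lit 4764907835) (nat_lit 152) (nat_lit 35204859484) (nat_lit 18) (nat_lit 5) (nat_lit 19) (nat_lit 5) (nat_lit 20) (nat_lit 4) (nat_lit 472) (nat_lit 324) (nat_lit 224)) (XT.lf (nat_lit 0) (nat_lit 22341747893) (nat_lit 152) (nat_lit 26173699407) (nat_lit 0) (nat_lit 2822980065) (nat_lit 18) (nat_lit 5) (nat_lit 20) (nat_lit 4) (nat_lit 18) (nat_lit 4) (nat_lit 473) (nat_lit 324) (nat_lit 223)))) (XT.nd (nat_lit 156) (nat_lit 0) (nat_lit 0) (XT.nd (nat_lit 78) (nat_lit 76) (nat_lit 0) (XT.lf (nat_lit 0) (nat_lit 30072736744) (nat_lit 152) (nat_lit 12051422062) (nat_lit 0) (nat_lit 10523721402) (nat_lit 18) (nat_lit 5) (nat_lit 20)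 (nat_lit 4) (nat_lit 18) (nat_lit 4) (nat_lit 474) (nat_lit 324) (nat_lit 222)) (XT.lf (nat_lit 0) (nat_lit 2504071224) (nat_lit 76) (nat_lit 35535406791) (nat_lit 76) (nat_lit 15957024931) (nat_lit 17) (nat_lit 4) (nat_lit 18) (nat_lit 5) (nat_lit 18) (nat_lit 4) (nat_lit 475) (nat_lit 324) (nat_lit 221))) (XT.nd (nat_lit 78) (nat_lit 0) (nat_lit 0) (XT.lf (nat_lit 0) (nat_lit 17704341271) (nat_lit 76) (nat_lit 28642543601) (nat_lit 76) (nat_lit 9035650558) (nat_lit 17) (nat_lit 4) (nat_lit 18) (nat_lit 5) (nat_lit 18) (nat_lit 4) (nat_lit 476) (nat_lit 324) (nat_lit 220)) (XT.lf (nat_lit 0) (nat_lit 33322822937) (nat_lit 76) (nat_lit 21561242079) (nat_lit 76) (nat_lit 1926668275) (nat_lit 17) (nat_lit 4) (nat_lit 18) (nat_lit 5) (nat_lit 18) (nat_lit 4) (nat_lit 477) (nat_lit 324) (nat_lit 219))))) (XT.nd (nat_lit 312) (nat_lit 76) (nat_lit 0) (XT.nd (nat_lit 156) (nat_lit 0) (nat_lit 0) (XT.nd (nat_lit 78)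 (nat_lit 76) (nat_lit 0) (XT.lf (nat_lit 0) (nat_lit 5271225916) (nat_lit 152) (nat_lit 8960859717) (nat_lit 76) (nat_lit 44048708476) (nat_lit 16) (nat_lit 5) (nat_lit 18) (nat_lit 5) (nat_lit 17) (nat_lit 4) (nat_lit 478) (nat_lit 324) (nat_lit 218)) (XT.lf (nat_lit 0) (nat_lit 6065285943) (nat_lit 76) (nat_lit 6620835259) (nat_lit 152) (nat_lit 47107070476) (nat_lit 15) (nat_lit 5) (nat_lit 16) (nat_lit 5) (nat_lit 17) (nat_lit 4) (nat_lit 479) (nat_lit 324) (nat_lit 217))) (XT.nd (nat_lit 78) (nat_lit 0) (nat_lit 0) (XT.lf (nat_lit 0) (nat_lit 20408077027) (nat_lit 152) (nat_lit 39670980140) (nat_lit 0) (nat_lit 1269366429) (nat_lit 15) (nat_lit 5) (nat_lit 17) (nat_lit 4) (nat_lit 15) (nat_lit 4) (nat_lit 480) (nat_lit 324) (nat_lit 216)) (XT.lf (nat_lit 0) (nat_lit 28409297999) (nat_lit 152) (nat_lit 25292877350) (nat_lit 0) (nat_lit 9246709734) (nat_lit 15) (nat_lit 5) (nat_lit 17) (nat_lit 4) (nat_lit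 15) (nat_lit 4) (nat_lit 481) (nat_lit 324) (nat_lit 215)))) (XT.nd (nat_lit 156) (nat_lit 0) (nat_lit 0) (XT.nd (nat_lit 78) (nat_lit 76) (nat_lit 0) (XT.lf (nat_lit 0) (nat_lit 36633131958) (nat_lit 152) (nat_lit 10517390457) (nat_lit 0) (nat_lit 17447361493) (nat_lit 15) (nat_lit 5) (nat_lit 17) (nat_lit 4) (nat_lit 15) (nat_lit 4) (nat_lit 482) (nat_lit 324) (nat_lit 214)) (XT.lf (nat_lit 0) (nat_lit 4761301295) (nat_lit 76) (nat_lit 40371232024) (nat_lit 76) (nat_lit 21162954568) (nat_lit 14) (nat_lit 4) (nat_lit 15) (nat_lit 5) (nat_lit 15) (nat_lit 4) (nat_lit 483) (nat_lit 324) (nat_lit 213))) (XT.nd (nat_lit 78) (nat_lit 0) (nat_lit 0) (XT.lf (nat_lit 0) (nat_lit 20681303344) (nat_lit 76) (nat_lit 33295081126) (nat_lit 76) (nat_lit 14064952222) (nat_lit 14) (nat_lit 4) (nat_lit 15) (nat_lit 5) (nat_lit 15) (nat_lit 4) (nat_lit 484) (nat_lit 324) (nat_lit 212)) (XT.lf (nat_lit 0) (nat_lit 37047209678)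 (nat_lit 76) (nat_lit 26022091697) (nat_lit 76) (nat_lit 6770747795) (nat_lit 14) (nat_lit 4) (nat_lit 15) (nat_lit 5) (nat_lit 15) (nat_lit 4) (nat_lit 485) (nat_lit 324) (nat_lit 211))))))))
noncomputable def xc65 : XT := (XT.nd (nat_lit 45786) (nat_lit 0) (nat_lit 3724) (XT.nd (nat_lit 44694) (nat_lit 0) (nat_lit 8816) (XT.nd (nat_lit 44148) (nat_lit 0) (nat_lit 13072) (XT.nd (nat_lit 234) (nat_lit 0) (nat_lit 0) (XT.nd (nat_lit 78) (nat_lit 76) (nat_lit 0) (XT.lf (nat_lit 0) (nat_lit 711864782) (nat_lit 152) (nat_lit 17826855478) (nat_lit 76) (nat_lit 53154267383) (nat_lit 13) (nat_lit 5) (nat_lit 15) (nat_lit 5) (nat_lit 14) (nat_lit 4) (nat_lit 486) (nat_lit 324) (nat_lit 210)) (XT.nd (nat_lit 78) (nat_lit 76) (nat_lit 0) (XT.lf (nat_lit 0) (nat_lit 8267401119) (nat_lit 152) (nat_lit 2509113885) (nat_lit 76) (nat_lit 62823452887) (nat_lit 13) (nat_lit 5) (nat_lit 15) (nat_lit 5) (nat_lit 14) (nat_lit 4)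 (nat_lit 487) (nat_lit 324) (nat_lit 209)) (XT.lf (nat_lit 0) (nat_lit 13502333450) (nat_lit 76) (nat_lit 2662044055) (nat_lit 152) (nat_lit 59396337461) (nat_lit 12) (nat_lit 5) (nat_lit 13) (nat_lit 5) (nat_lit 14) (nat_lit 4) (nat_lit 488) (nat_lit 324) (nat_lit 208)))) (XT.nd (nat_lit 156) (nat_lit 0) (nat_lit 0) (XT.nd (nat_lit 78) (nat_lit 0) (nat_lit 0) (XT.lf (nat_lit 0) (nat_lit 24363606946) (nat_lit 152) (nat_lit 47618297404) (nat_lit 0) (nat_lit 5596420406) (nat_lit 12) (nat_lit 5) (nat_lit 14) (nat_lit 4) (nat_lit 12) (nat_lit 4) (nat_lit 489) (nat_lit 324) (nat_lit 207)) (XT.lf (nat_lit 0) (nat_lit 32820610599) (nat_lit 152) (nat_lit 32799842091) (nat_lit 0) (nat_lit 14035656832) (nat_lit 12) (nat_lit 5) (nat_lit 14) (nat_lit 4) (nat_lit 12) (nat_lit 4) (nat_lit 490) (nat_lit 324) (nat_lit 206))) (XT.nd (nat_lit 43680) (nat_lit 0) (nat_lit 16416) (XT.lf (nat_lit 0) (nat_lit 41517188882) (nat_lit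 152) (nat_lit 17564478216) (nat_lit 0) (nat_lit 22714985381) (nat_lit 12) (nat_lit 5) (nat_lit 14) (nat_lit 4) (nat_lit 12) (nat_lit 4) (nat_lit 491) (nat_lit 324) (nat_lit 205)) (XT.lf (nat_lit 0) (nat_lit 1820400645) (nat_lit 684) (nat_lit 73280466) (nat_lit 0) (nat_lit 1820400645) (nat_lit 228) (nat_lit 5) (nat_lit 237) (nat_lit 4) (nat_lit 228) (nat_lit 4) (nat_lit 370) (nat_lit 325) (nat_lit 325))))) (XT.nd (nat_lit 234) (nat_lit 1596) (nat_lit 0) (XT.nd (nat_lit 78) (nat_lit 1140) (nat_lit 0) (XT.lf (nat_lit 0) (nat_lit 5540709354) (nat_lit 608) (nat_lit 1726461787) (nat_lit 608) (nat_lit 229525392) (nat_lit 220) (nat_lit 4) (nat_lit 228) (nat_lit 5) (nat_lit 228) (nat_lit 4) (nat_lit 371) (nat_lit 325) (nat_lit 324)) (XT.nd (nat_lit 78) (nat_lit 532) (nat_lit 0) (XT.lf (nat_lit 0) (nat_lit 3311265878) (nat_lit 608) (nat_lit 3809855826) (nat_lit 0) (nat_lit 446923452) (nat_lit 212) (nat_lit 5) (nat_lit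 220) (nat_lit 4) (nat_lit 212) (nat_lit 4) (nat_lit 372) (nat_lit 325) (nat_lit 323)) (XT.lf (nat_lit 0) (nat_lit 1947617382) (nat_lit 532) (nat_lit 4964693484) (nat_lit 532) (nat_lit 730442202) (nat_lit 205) (nat_lit 4) (nat_lit 212) (nat_lit 5) (nat_lit 212) (nat_lit 4) (nat_lit 373) (nat_lit 325) (nat_lit 322)))) (XT.nd (nat_lit 156) (nat_lit 1064) (nat_lit 0) (XT.nd (nat_lit 78) (nat_lit 0) (nat_lit 0) (XT.lf (nat_lit 0) (nat_lit 96354407) (nat_lit 456) (nat_lit 2692125536) (nat_lit 532) (nat_lit 4932126613) (nat_lit 198) (nat_lit 5) (nat_lit 204) (nat_lit 5) (nat_lit 205) (nat_lit 4) (nat_lit 374) (nat_lit 325) (nat_lit 321)) (XT.lf (nat_lit 0) (nat_lit 6057464393) (nat_lit 456) (nat_lit 303616767) (nat_lit 532) (nat_lit 1440656123) (nat_lit 198) (nat_lit 5) (nat_lit 204) (nat_lit 5) (nat_lit 205) (nat_lit 4) (nat_lit 375) (nat_lit 325) (nat_lit 320))) (XT.nd (nat_lit 78) (nat_lit 456) (nat_lit 0) (XT.lf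 (nat_lit 0) (nat_lit 2082785697) (nat_lit 608) (nat_lit 3644946031) (nat_lit 76) (nat_lit 2157909829) (nat_lit 190) (nat_lit 5) (nat_lit 198) (nat_lit 5) (nat_lit 191) (nat_lit 4) (nat_lit 376) (nat_lit 325) (nat_lit 319)) (XT.lf (nat_lit 0) (nat_lit 2384967766) (nat_lit 456) (nat_lit 3250334783) (nat_lit 532) (nat_lit 2337801442) (nat_lit 184) (nat_lit 5) (nat_lit 190) (nat_lit 5) (nat_lit 191) (nat_lit 4) (nat_lit 377) (nat_lit 325) (nat_lit 318)))))) (XT.nd (nat_lit 546) (nat_lit 1976) (nat_lit 0) (XT.nd (nat_lit 234) (nat_lit 1292) (nat_lit 0) (XT.nd (nat_lit 78) (nat_lit 456) (nat_lit 0) (XT.lf (nat_lit 0) (nat_lit 491511836) (nat_lit 456) (nat_lit 666825873) (nat_lit 532) (nat_lit 6905999336) (nat_lit 177) (nat_lit 5) (nat_lit 183) (nat_lit 5) (nat_lit 184) (nat_lit 5) (nat_lit 378) (nat_lit 325) (nat_lit 317)) (XT.nd (nat_lit 78) (nat_lit 456) (nat_lit 0) (XT.lf (nat_lit 0) (nat_lit 4699117621) (nat_lit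 532) (nat_lit 1447038577) (nat_lit 76) (nat_lit 2011889660) (nat_lit 177) (nat_lit 5) (nat_lit 184) (nat_lit 5) (nat_lit 178) (nat_lit 4) (nat_lit 379) (nat_lit 325) (nat_lit 316)) (XT.lf (nat_lit 0) (nat_lit 55700528) (nat_lit 456) (nat_lit 3418112329) (nat_lit 76) (nat_lit 4781782163) (nat_lit 171) (nat_lit 5) (nat_lit 177) (nat_lit 5) (nat_lit 172) (nat_lit 5) (nat_lit 380) (nat_lit 325) (nat_lit 315)))) (XT.nd (nat_lit 156) (nat_lit 456) (nat_lit 0) (XT.nd (nat_lit 78) (nat_lit 380) (nat_lit 0) (XT.lf (nat_lit 0) (nat_lit 2893715805) (nat_lit 456) (nat_lit 668877314) (nat_lit 532) (nat_lit 4793792227) (nat_lit 165) (nat_lit 5) (nat_lit 171) (nat_lit 5) (nat_lit 172) (nat_lit 5) (nat_lit 381) (nat_lit 325) (nat_lit 314)) (XT.lf (nat_lit 0) (nat_lit 887295496) (nat_lit 380) (nat_lit 6267075792) (nat_lit 456) (nat_lit 1306469258) (nat_lit 160) (nat_lit 5) (nat_lit 165) (nat_lit 5) (nat_lit 166) (nat_lit 4)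 (nat_lit 382) (nat_lit 325) (nat_lit 313))) (XT.nd (nat_lit 78) (nat_lit 380) (nat_lit 0) (XT.lf (nat_lit 0) (nat_lit 2218688618) (nat_lit 456) (nat_lit 1170904497) (nat_lit 76) (nat_lit 5178872535) (nat_lit 159) (nat_lit 5) (nat_lit 165) (nat_lit 5) (nat_lit 160) (nat_lit 5) (nat_lit 383) (nat_lit 325) (nat_lit 312)) (XT.lf (nat_lit 0) (nat_lit 5404961125) (nat_lit 380) (nat_lit 388280924) (nat_lit 456) (nat_lit 2886621263) (nat_lit 154) (nat_lit 5) (nat_lit 159) (nat_lit 5) (nat_lit 160) (nat_lit 5) (nat_lit 384) (nat_lit 325) (nat_lit 311))))) (XT.nd (nat_lit 234) (nat_lit 1140) (nat_lit 0) (XT.nd (nat_lit 78) (nat_lit 380) (nat_lit 0) (XT.lf (nat_lit 0) (nat_lit 655980471) (nat_lit 456) (nat_lit 5467034066) (nat_lit 76) (nat_lit 2671754476) (nat_lit 148) (nat_lit 5) (nat_lit 154) (nat_lit 5) (nat_lit 149) (nat_lit 5) (nat_lit 385) (nat_lit 325) (nat_lit 310)) (XT.nd (nat_lit 78) (nat_lit 0) (nat_lit 0) (XT.lf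 (nat_lit 0) (nat_lit 1160354937) (nat_lit 380) (nat_lit 3054345360) (nat_lit 456) (nat_lit 4698554832) (nat_lit 143) (nat_lit 5) (nat_lit 148) (nat_lit 5) (nat_lit 149) (nat_lit 5) (nat_lit 386) (nat_lit 325) (nat_lit 309)) (XT.lf (nat_lit 0) (nat_lit 7857376390) (nat_lit 456) (nat_lit 1050546089) (nat_lit 76) (nat_lit 128083146) (nat_lit 143) (nat_lit 5) (nat_lit 149) (nat_lit 5) (nat_lit 144) (nat_lit 4) (nat_lit 387) (nat_lit 325) (nat_lit 308)))) (XT.nd (nat_lit 156) (nat_lit 380) (nat_lit 0) (XT.nd (nat_lit 78) (nat_lit 380) (nat_lit 0) (XT.lf (nat_lit 0) (nat_lit 2408188809) (nat_lit 380) (nat_lit 3360138688) (nat_lit 76) (nat_lit 3393158399) (nat_lit 138) (nat_lit 5) (nat_lit 143) (nat_lit 5) (nat_lit 139) (nat_lit 5) (nat_lit 388) (nat_lit 325) (nat_lit 307)) (XT.lf (nat_lit 0) (nat_lit 3536026054) (nat_lit 380) (nat_lit 2510757338) (nat_lit 456) (nat_lit 3244584717) (nat_lit 133) (nat_lit 5) (nat_lit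 138) (nat_lit 5) (nat_lit 139) (nat_lit 5) (nat_lit 389) (nat_lit 325) (nat_lit 306))) (XT.nd (nat_lit 78) (nat_lit 0) (nat_lit 0) (XT.lf (nat_lit 0) (nat_lit 339736859) (nat_lit 380) (nat_lit 8242633536) (nat_lit 76) (nat_lit 843365306) (nat_lit 128) (nat_lit 5) (nat_lit 133) (nat_lit 5) (nat_lit 129) (nat_lit 5) (nat_lit 390) (nat_lit 325) (nat_lit 305)) (XT.lf (nat_lit 0) (nat_lit 3974319306) (nat_lit 380) (nat_lit 1284692386) (nat_lit 76) (nat_lit 4303942034) (nat_lit 128) (nat_lit 5) (nat_lit 133) (nat_lit 5) (nat_lit 129) (nat_lit 5) (nat_lit 391) (nat_lit 325) (nat_lit 304))))))) (XT.nd (nat_lit 1092) (nat_lit 2128) (nat_lit 0) (XT.nd (nat_lit 546) (nat_lit 1368) (nat_lit 0) (XT.nd (nat_lit 234) (nat_lit 608) (nat_lit 0) (XT.nd (nat_lit 78) (nat_lit 684) (nat_lit 0) (XT.lf (nat_lit 0) (nat_lit 5887731067) (nat_lit 304) (nat_lit 1813398891) (nat_lit 380) (nat_lit 2003683456) (nat_lit 124) (nat_lit 5) (nat_lit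 128) (nat_lit 5) (nat_lit 129) (nat_lit 5) (nat_lit 392) (nat_lit 325) (nat_lit 303)) (XT.nd (nat_lit 78) (nat_lit 304) (nat_lit 0) (XT.lf (nat_lit 0) (nat_lit 1645465977) (nat_lit 380) (nat_lit 6476839281) (nat_lit 76) (nat_lit 1728468120) (nat_lit 119) (nat_lit 5) (nat_lit 124) (nat_lit 5) (nat_lit 120) (nat_lit 5) (nat_lit 393) (nat_lit 325) (nat_lit 302)) (XT.lf (nat_lit 0) (nat_lit 724634610) (nat_lit 304) (nat_lit 4630721302) (nat_lit 380) (nat_lit 4645434009) (nat_lit 115) (nat_lit 5) (nat_lit 119) (nat_lit 5) (nat_lit 120) (nat_lit 5) (nat_lit 394) (nat_lit 325) (nat_lit 301)))) (XT.nd (nat_lit 156) (nat_lit 304) (nat_lit 0) (XT.nd (nat_lit 78) (nat_lit 304) (nat_lit 0) (XT.lf (nat_lit 0) (nat_lit 8165700189) (nat_lit 304) (nat_lit 1004993223) (nat_lit 380) (nat_lit 984807541) (nat_lit 115) (nat_lit 5) (nat_lit 119) (nat_lit 5) (nat_lit 120) (nat_lit 5) (nat_lit 395) (nat_lit 325) (nat_lit 300)) (XT.lf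 (nat_lit 0) (nat_lit 2740818248) (nat_lit 304) (nat_lit 4853235604) (nat_lit 76) (nat_lit 2719727454) (nat_lit 111) (nat_lit 5) (nat_lit 115) (nat_lit 5) (nat_lit 112) (nat_lit 5) (nat_lit 396) (nat_lit 325) (nat_lit 299))) (XT.nd (nat_lit 78) (nat_lit 0) (nat_lit 0) (XT.lf (nat_lit 0) (nat_lit 2622134414) (nat_lit 304) (nat_lit 3922504870) (nat_lit 380) (nat_lit 3932308612) (nat_lit 107) (nat_lit 5) (nat_lit 111) (nat_lit 5) (nat_lit 112) (nat_lit 5) (nat_lit 397) (nat_lit 325) (nat_lit 298)) (XT.lf (nat_lit 0) (nat_lit 10314194890) (nat_lit 304) (nat_lit 129147583) (nat_lit 380) (nat_lit 202260439) (nat_lit 107) (nat_lit 5) (nat_lit 111) (nat_lit 5) (nat_lit 112) (nat_lit 5) (nat_lit 398) (nat_lit 325) (nat_lit 297))))) (XT.nd (nat_lit 234) (nat_lit 532) (nat_lit 0) (XT.nd (nat_lit 78) (nat_lit 532) (nat_lit 0) (XT.lf (nat_lit 0) (nat_lit 3610088969) (nat_lit 304) (nat_lit 3432890163) (nat_lit 76) (nat_lit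 3774061653) (nat_lit 103) (nat_lit 5) (nat_lit 107) (nat_lit 5) (nat_lit 104) (nat_lit 5) (nat_lit 399) (nat_lit 325) (nat_lit 296)) (XT.nd (nat_lit 78) (nat_lit 304) (nat_lit 0) (XT.lf (nat_lit 0) (nat_lit 4319542896) (nat_lit 228) (nat_lit 3193035696) (nat_lit 304) (nat_lit 3481603134) (nat_lit 100) (nat_lit 5) (nat_lit 103) (nat_lit 5) (nat_lit 104) (nat_lit 5) (nat_lit 400) (nat_lit 325) (nat_lit 295)) (XT.lf (nat_lit 0) (nat_lit 335700465) (nat_lit 304) (nat_lit 10073614772) (nat_lit 76) (nat_lit 767619381) (nat_lit 96) (nat_lit 5) (nat_lit 100) (nat_lit 5) (nat_lit 97) (nat_lit 5) (nat_lit 401) (nat_lit 325) (nat_lit 294)))) (XT.nd (nat_lit 156) (nat_lit 304) (nat_lit 0) (XT.nd (nat_lit 78) (nat_lit 228) (nat_lit 0) (XT.lf (nat_lit 0) (nat_lit 4231675732) (nat_lit 304) (nat_lit 2285175947) (nat_lit 76) (nat_lit 4846274180) (nat_lit 96) (nat_lit 5) (nat_lit 100) (nat_lit 5) (nat_lit 97) (nat_lit 5) (nat_lit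 402) (nat_lit 325) (nat_lit 293)) (XT.lf (nat_lit 0) (nat_lit 5745422311) (nat_lit 228) (nat_lit 2490692788) (nat_lit 304) (nat_lit 3319053570) (nat_lit 93) (nat_lit 5) (nat_lit 96) (nat_lit 5) (nat_lit 97) (nat_lit 5) (nat_lit 403) (nat_lit 325) (nat_lit 292))) (XT.nd (nat_lit 78) (nat_lit 0) (nat_lit 0) (XT.lf (nat_lit 0) (nat_lit 593368276) (nat_lit 304) (nat_lit 9524019376) (nat_lit 76) (nat_lit 1635497110) (nat_lit 89) (nat_lit 5) (nat_lit 93) (nat_lit 5) (nat_lit 90) (nat_lit 5) (nat_lit 404) (nat_lit 325) (nat_lit 291)) (XT.lf (nat_lit 0) (nat_lit 4577421810) (nat_lit 304) (nat_lit 1489495454) (nat_lit 76) (nat_lit 5888012397) (nat_lit 89) (nat_lit 5) (nat_lit 93) (nat_lit 5) (nat_lit 90) (nat_lit 5) (nat_lit 405) (nat_lit 325) (nat_lit 290)))))) (XT.nd (nat_lit 546) (nat_lit 988) (nat_lit 0) (XT.nd (nat_lit 234) (nat_lit 684) (nat_lit 0) (XT.nd (nat_lit 78) (nat_lit 228) (nat_lit 0) (XT.lf (nat_lit 0)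 (nat_lit 6817793587) (nat_lit 228) (nat_lit 1867633843) (nat_lit 304) (nat_lit 3477487451) (nat_lit 86) (nat_lit 5) (nat_lit 89) (nat_lit 5) (nat_lit 90) (nat_lit 5) (nat_lit 406) (nat_lit 325) (nat_lit 289)) (XT.nd (nat_lit 78) (nat_lit 0) (nat_lit 0) (XT.lf (nat_lit 0) (nat_lit 535654905) (nat_lit 228) (nat_lit 9421816666) (nat_lit 76) (nat_lit 2419324212) (nat_lit 83) (nat_lit 5) (nat_lit 86) (nat_lit 5) (nat_lit 84) (nat_lit 5) (nat_lit 407) (nat_lit 325) (nat_lit 288)) (XT.lf (nat_lit 0) (nat_lit 4611817868) (nat_lit 228) (nat_lit 1137247535) (nat_lit 76) (nat_lit 6846630060) (nat_lit 83) (nat_lit 5) (nat_lit 86) (nat_lit 5) (nat_lit 84) (nat_lit 5) (nat_lit 408) (nat_lit 325) (nat_lit 287)))) (XT.nd (nat_lit 156) (nat_lit 228) (nat_lit 0) (XT.nd (nat_lit 78) (nat_lit 228) (nat_lit 0) (XT.lf (nat_lit 0) (nat_lit 7442080894) (nat_lit 228) (nat_lit 1381003547) (nat_lit 304) (nat_lit 3997703692) (nat_lit 80)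 (nat_lit 5) (nat_lit 83) (nat_lit 5) (nat_lit 84) (nat_lit 5) (nat_lit 409) (nat_lit 325) (nat_lit 286)) (XT.lf (nat_lit 0) (nat_lit 119899559) (nat_lit 228) (nat_lit 9870970547) (nat_lit 76) (nat_lit 3061323692) (nat_lit 77) (nat_lit 5) (nat_lit 80) (nat_lit 5) (nat_lit 78) (nat_lit 5) (nat_lit 410) (nat_lit 325) (nat_lit 285))) (XT.nd (nat_lit 78) (nat_lit 228) (nat_lit 0) (XT.lf (nat_lit 0) (nat_lit 4291043243) (nat_lit 228) (nat_lit 1334079934) (nat_lit 76) (nat_lit 7663929817) (nat_lit 77) (nat_lit 5) (nat_lit 80) (nat_lit 5) (nat_lit 78) (nat_lit 5) (nat_lit 411) (nat_lit 325) (nat_lit 284)) (XT.lf (nat_lit 0) (nat_lit 7508755483) (nat_lit 228) (nat_lit 1094275336) (nat_lit 304) (nat_lit 4929525243) (nat_lit 74) (nat_lit 5) (nat_lit 77) (nat_lit 5) (nat_lit 78) (nat_lit 5) (nat_lit 412) (nat_lit 325) (nat_lit 283))))) (XT.nd (nat_lit 312) (nat_lit 456) (nat_lit 0) (XT.nd (nat_lit 156) (nat_lit 304) (nat_lit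 0) (XT.nd (nat_lit 78) (nat_lit 76) (nat_lit 0) (XT.lf (nat_lit 0) (nat_lit 2784082364) (nat_lit 152) (nat_lit 10278874824) (nat_lit 228) (nat_lit 719858769) (nat_lit 72) (nat_lit 5) (nat_lit 74) (nat_lit 5) (nat_lit 75) (nat_lit 4) (nat_lit 413) (nat_lit 325) (nat_lit 282)) (XT.lf (nat_lit 0) (nat_lit 3561824566) (nat_lit 228) (nat_lit 2202477011) (nat_lit 76) (nat_lit 8274759157) (nat_lit 71) (nat_lit 5) (nat_lit 74) (nat_lit 5) (nat_lit 72) (nat_lit 5) (nat_lit 414) (nat_lit 325) (nat_lit 281))) (XT.nd (nat_lit 78) (nat_lit 152) (nat_lit 0) (XT.lf (nat_lit 0) (nat_lit 6890626919) (nat_lit 152) (nat_lit 1078755017) (nat_lit 228) (nat_lit 6333048677) (nat_lit 69) (nat_lit 5) (nat_lit 71) (nat_lit 5) (nat_lit 72) (nat_lit 5) (nat_lit 415) (nat_lit 325) (nat_lit 280)) (XT.lf (nat_lit 0) (nat_lit 1629509532) (nat_lit 152) (nat_lit 10899760306) (nat_lit 228) (nat_lit 2043836731) (nat_lit 67) (nat_lit 5) (nat_lit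 69) (nat_lit 5) (nat_lit 70) (nat_lit 4) (nat_lit 416) (nat_lit 325) (nat_lit 279)))) (XT.nd (nat_lit 156) (nat_lit 228) (nat_lit 0) (XT.nd (nat_lit 78) (nat_lit 152) (nat_lit 0) (XT.lf (nat_lit 0) (nat_lit 2360085608) (nat_lit 228) (nat_lit 3884739589) (nat_lit 76) (nat_lit 8605429801) (nat_lit 66) (nat_lit 5) (nat_lit 69) (nat_lit 5) (nat_lit 67) (nat_lit 5) (nat_lit 417) (nat_lit 325) (nat_lit 278)) (XT.lf (nat_lit 0) (nat_lit 5439721992) (nat_lit 152) (nat_lit 1415278417) (nat_lit 228) (nat_lit 8280119182) (nat_lit 64) (nat_lit 5) (nat_lit 66) (nat_lit 5) (nat_lit 67) (nat_lit 5) (nat_lit 418) (nat_lit 325) (nat_lit 277))) (XT.nd (nat_lit 78) (nat_lit 228) (nat_lit 0) (XT.lf (nat_lit 0) (nat_lit 11506524447) (nat_lit 228) (nat_lit 430753431) (nat_lit 76) (nat_lit 3490606582) (nat_lit 64) (nat_lit 5) (nat_lit 67) (nat_lit 5) (nat_lit 65) (nat_lit 4) (nat_lit 419) (nat_lit 325) (nat_lit 276)) (XT.lf (nat_lit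 0) (nat_lit 609357667) (nat_lit 228) (nat_lit 6546422609) (nat_lit 76) (nat_lit 8571926454) (nat_lit 61) (nat_lit 5) (nat_lit 64) (nat_lit 5) (nat_lit 62) (nat_lit 5) (nat_lit 420) (nat_lit 325) (nat_lit 275))))))))
noncomputable def xc66 : XT := (XT.nd (nat_lit 2184) (nat_lit 1140) (nat_lit 0) (XT.nd (nat_lit 1092) (nat_lit 988) (nat_lit 0) (XT.nd (nat_lit 546) (nat_lit 608) (nat_lit 0) (XT.nd (nat_lit 234) (nat_lit 304) (nat_lit 0) (XT.nd (nat_lit 78) (nat_lit 152) (nat_lit 0) (XT.lf (nat_lit 0) (nat_lit 2983682382) (nat_lit 152) (nat_lit 2196139676) (nat_lit 228) (nat_lit 10856064212) (nat_lit 59) (nat_lit 5) (nat_lit 61) (nat_lit 5) (nat_lit 62) (nat_lit 5) (nat_lit 421) (nat_lit 325) (nat_lit 274)) (XT.nd (nat_lit 78) (nat_lit 152) (nat_lit 0) (XT.lf (nat_lit 0) (nat_lit 9931960948) (nat_lit 228) (nat_lit 3536127594) (nat_lit 76) (nat_lit 2883892226) (nat_lit 59) (nat_lit 5) (nat_lit 62) (nat_lit 5) (nat_lit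 60) (nat_lit 4) (nat_lit 422) (nat_lit 325) (nat_lit 273)) (XT.lf (nat_lit 0) (nat_lit 6278795234) (nat_lit 152) (nat_lit 8581235636) (nat_lit 228) (nat_lit 1816532430) (nat_lit 57) (nat_lit 5) (nat_lit 59) (nat_lit 5) (nat_lit 60) (nat_lit 4) (nat_lit 423) (nat_lit 325) (nat_lit 272)))) (XT.nd (nat_lit 156) (nat_lit 76) (nat_lit 0) (XT.nd (nat_lit 78) (nat_lit 152) (nat_lit 0) (XT.lf (nat_lit 0) (nat_lit 2855414692) (nat_lit 228) (nat_lit 665160527) (nat_lit 76) (nat_lit 13489847406) (nat_lit 56) (nat_lit 5) (nat_lit 59) (nat_lit 5) (nat_lit 57) (nat_lit 5) (nat_lit 424) (nat_lit 325) (nat_lit 271)) (XT.lf (nat_lit 0) (nat_lit 7691524876) (nat_lit 228) (nat_lit 7928754325) (nat_lit 76) (nat_lit 1731669188) (nat_lit 54) (nat_lit 5) (nat_lit 57) (nat_lit 5) (nat_lit 55) (nat_lit 4) (nat_lit 425) (nat_lit 325) (nat_lit 270))) (XT.nd (nat_lit 78) (nat_lit 0) (nat_lit 0) (XT.lf (nat_lit 0) (nat_lit 2044087690) (nat_lit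 76) (nat_lit 10642914323) (nat_lit 152) (nat_lit 5016294914) (nat_lit 53) (nat_lit 5) (nat_lit 54) (nat_lit 5) (nat_lit 55) (nat_lit 4) (nat_lit 426) (nat_lit 325) (nat_lit 269)) (XT.lf (nat_lit 0) (nat_lit 12394289721) (nat_lit 76) (nat_lit 5471670954) (nat_lit 152) (nat_lit 198222082) (nat_lit 53) (nat_lit 5) (nat_lit 54) (nat_lit 5) (nat_lit 55) (nat_lit 4) (nat_lit 427) (nat_lit 325) (nat_lit 268))))) (XT.nd (nat_lit 234) (nat_lit 304) (nat_lit 0) (XT.nd (nat_lit 78) (nat_lit 76) (nat_lit 0) (XT.lf (nat_lit 0) (nat_lit 4579862561) (nat_lit 152) (nat_lit 90037951) (nat_lit 228) (nat_lit 13764671406) (nat_lit 50) (nat_lit 5) (nat_lit 52) (nat_lit 5) (nat_lit 53) (nat_lit 5) (nat_lit 428) (nat_lit 325) (nat_lit 267)) (XT.nd (nat_lit 78) (nat_lit 76) (nat_lit 0) (XT.lf (nat_lit 0) (nat_lit 9744958779) (nat_lit 228) (nat_lit 3698963622) (nat_lit 76) (nat_lit 5370150090) (nat_lit 50) (nat_lit 5) (nat_lit 53) (nat_lit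 5) (nat_lit 51) (nat_lit 4) (nat_lit 429) (nat_lit 325) (nat_lit 266)) (XT.lf (nat_lit 0) (nat_lit 6812926077) (nat_lit 76) (nat_lit 8181681848) (nat_lit 152) (nat_lit 4209684735) (nat_lit 49) (nat_lit 5) (nat_lit 50) (nat_lit 5) (nat_lit 51) (nat_lit 4) (nat_lit 430) (nat_lit 325) (nat_lit 265)))) (XT.nd (nat_lit 156) (nat_lit 76) (nat_lit 0) (XT.nd (nat_lit 78) (nat_lit 152) (nat_lit 0) (XT.lf (nat_lit 0) (nat_lit 773763567) (nat_lit 152) (nat_lit 1977789256) (nat_lit 76) (nat_lit 16854628881) (nat_lit 48) (nat_lit 5) (nat_lit 50) (nat_lit 5) (nat_lit 49) (nat_lit 5) (nat_lit 431) (nat_lit 325) (nat_lit 264)) (XT.lf (nat_lit 0) (nat_lit 5892235014) (nat_lit 228) (nat_lit 11245933867) (nat_lit 76) (nat_lit 2878608581) (nat_lit 46) (nat_lit 5) (nat_lit 49) (nat_lit 5) (nat_lit 47) (nat_lit 4) (nat_lit 432) (nat_lit 325) (nat_lit 263))) (XT.nd (nat_lit 78) (nat_lit 76) (nat_lit 0) (XT.lf (nat_lit 0) (nat_lit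 11169149303) (nat_lit 228) (nat_lit 662537918) (nat_lit 76) (nat_lit 8607861436) (nat_lit 46) (nat_lit 5) (nat_lit 49) (nat_lit 5) (nat_lit 47) (nat_lit 4) (nat_lit 433) (nat_lit 325) (nat_lit 262)) (XT.lf (nat_lit 0) (nat_lit 10364409476) (nat_lit 76) (nat_lit 6298305216) (nat_lit 152) (nat_lit 4210542086) (nat_lit 45) (nat_lit 5) (nat_lit 46) (nat_lit 5) (nat_lit 47) (nat_lit 4) (nat_lit 434) (nat_lit 325) (nat_lit 261)))))) (XT.nd (nat_lit 546) (nat_lit 380) (nat_lit 0) (XT.nd (nat_lit 234) (nat_lit 304) (nat_lit 0) (XT.nd (nat_lit 78) (nat_lit 76) (nat_lit 0) (XT.lf (nat_lit 0) (nat_lit 336574988) (nat_lit 152) (nat_lit 613776464) (nat_lit 228) (nat_lit 20370276584) (nat_lit 42) (nat_lit 5) (nat_lit 44) (nat_lit 5) (nat_lit 45) (nat_lit 5) (nat_lit 435) (nat_lit 325) (nat_lit 260)) (XT.nd (nat_lit 78) (nat_lit 76) (nat_lit 0) (XT.lf (nat_lit 0) (nat_lit 6297919953) (nat_lit 228) (nat_lit 10224995882) (nat_lit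 76) (nat_lit 5253763417) (nat_lit 42) (nat_lit 5) (nat_lit 45) (nat_lit 5) (nat_lit 43) (nat_lit 4) (nat_lit 436) (nat_lit 325) (nat_lit 259)) (XT.lf (nat_lit 0) (nat_lit 792018570) (nat_lit 76) (nat_lit 10987707667) (nat_lit 152) (nat_lit 10467475091) (nat_lit 41) (nat_lit 5) (nat_lit 42) (nat_lit 5) (nat_lit 43) (nat_lit 4) (nat_lit 437) (nat_lit 325) (nat_lit 258)))) (XT.nd (nat_lit 156) (nat_lit 76) (nat_lit 0) (XT.nd (nat_lit 78) (nat_lit 228) (nat_lit 0) (XT.lf (nat_lit 0) (nat_lit 12275680660) (nat_lit 76) (nat_lit 5214134179) (nat_lit 152) (nat_lit 5240112921) (nat_lit 41) (nat_lit 5) (nat_lit 42) (nat_lit 5) (nat_lit 43) (nat_lit 4) (nat_lit 438) (nat_lit 325) (nat_lit 257)) (XT.lf (nat_lit 0) (nat_lit 117288168) (nat_lit 228) (nat_lit 22415614639) (nat_lit 76) (nat_lit 694914083) (nat_lit 38) (nat_lit 5) (nat_lit 41) (nat_lit 5) (nat_lit 39) (nat_lit 4) (nat_lit 439) (nat_lit 325) (nat_lit 256))) (XT.nd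 (nat_lit 78) (nat_lit 76) (nat_lit 0) (XT.lf (nat_lit 0) (nat_lit 5649790418) (nat_lit 228) (nat_lit 11283303606) (nat_lit 76) (nat_lit 6802404434) (nat_lit 38) (nat_lit 5) (nat_lit 41) (nat_lit 5) (nat_lit 39) (nat_lit 4) (nat_lit 440) (nat_lit 325) (nat_lit 255)) (XT.lf (nat_lit 0) (nat_lit 115104201) (nat_lit 76) (nat_lit 11196854936) (nat_lit 152) (nat_lit 12947543736) (nat_lit 37) (nat_lit 5) (nat_lit 38) (nat_lit 5) (nat_lit 39) (nat_lit 4) (nat_lit 441) (nat_lit 325) (nat_lit 254))))) (XT.nd (nat_lit 234) (nat_lit 152) (nat_lit 0) (XT.nd (nat_lit 78) (nat_lit 228) (nat_lit 0) (XT.lf (nat_lit 0) (nat_lit 12017329688) (nat_lit 76) (nat_lit 5203609766) (nat_lit 152) (nat_lit 7575982623) (nat_lit 37) (nat_lit 5) (nat_lit 38) (nat_lit 5) (nat_lit 39) (nat_lit 4) (nat_lit 442) (nat_lit 325) (nat_lit 253)) (XT.nd (nat_lit 78) (nat_lit 228) (nat_lit 0) (XT.lf (nat_lit 0) (nat_lit 23280289976) (nat_lit 152) (nat_lit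 1151347331) (nat_lit 0) (nat_lit 919636489) (nat_lit 37) (nat_lit 5) (nat_lit 39) (nat_lit 4) (nat_lit 37) (nat_lit 4) (nat_lit 443) (nat_lit 325) (nat_lit 252)) (XT.lf (nat_lit 0) (nat_lit 3651469241) (nat_lit 228) (nat_lit 15033283269) (nat_lit 76) (nat_lit 7232792319) (nat_lit 34) (nat_lit 5) (nat_lit 37) (nat_lit 5) (nat_lit 35) (nat_lit 4) (nat_lit 444) (nat_lit 325) (nat_lit 251)))) (XT.nd (nat_lit 156) (nat_lit 76) (nat_lit 0) (XT.nd (nat_lit 78) (nat_lit 76) (nat_lit 0) (XT.lf (nat_lit 0) (nat_lit 9480596601) (nat_lit 228) (nat_lit 3282788072) (nat_lit 76) (nat_lit 13737508126) (nat_lit 34) (nat_lit 5) (nat_lit 37) (nat_lit 5) (nat_lit 35) (nat_lit 4) (nat_lit 445) (nat_lit 325) (nat_lit 250)) (XT.lf (nat_lit 0) (nat_lit 8930158056) (nat_lit 76) (nat_lit 6606188631) (nat_lit 152) (nat_lit 11563844685) (nat_lit 33) (nat_lit 5) (nat_lit 34) (nat_lit 5) (nat_lit 35) (nat_lit 4) (nat_lit 446) (nat_lit 325)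 (nat_lit 249))) (XT.nd (nat_lit 78) (nat_lit 76) (nat_lit 0) (XT.lf (nat_lit 0) (nat_lit 21513093655) (nat_lit 76) (nat_lit 260112860) (nat_lit 152) (nat_lit 5944281827) (nat_lit 33) (nat_lit 5) (nat_lit 34) (nat_lit 5) (nat_lit 35) (nat_lit 4) (nat_lit 447) (nat_lit 325) (nat_lit 248)) (XT.lf (nat_lit 0) (nat_lit 6116697508) (nat_lit 76) (nat_lit 22166593776) (nat_lit 76) (nat_lit 67431845) (nat_lit 32) (nat_lit 4) (nat_lit 33) (nat_lit 5) (nat_lit 33) (nat_lit 4) (nat_lit 448) (nat_lit 325) (nat_lit 247))))))) (XT.nd (nat_lit 1092) (nat_lit 532) (nat_lit 0) (XT.nd (nat_lit 546) (nat_lit 228) (nat_lit 0) (XT.nd (nat_lit 234) (nat_lit 228) (nat_lit 0) (XT.nd (nat_lit 78) (nat_lit 76) (nat_lit 0) (XT.lf (nat_lit 0) (nat_lit 5901798753) (nat_lit 152) (nat_lit 10189790709) (nat_lit 76) (nat_lit 12908655338) (nat_lit 31) (nat_lit 5) (nat_lit 33) (nat_lit 5) (nat_lit 32) (nat_lit 4) (nat_lit 449) (nat_lit 325) (nat_lit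 246)) (XT.nd (nat_lit 78) (nat_lit 0) (nat_lit 0) (XT.lf (nat_lit 0) (nat_lit 2197214453) (nat_lit 76) (nat_lit 9840647988) (nat_lit 152) (nat_lit 17631698577) (nat_lit 30) (nat_lit 5) (nat_lit 31) (nat_lit 5) (nat_lit 32) (nat_lit 4) (nat_lit 450) (nat_lit 325) (nat_lit 245)) (XT.lf (nat_lit 0) (nat_lit 15104541500) (nat_lit 76) (nat_lit 3324707895) (nat_lit 152) (nat_lit 11927572291) (nat_lit 30) (nat_lit 5) (nat_lit 31) (nat_lit 5) (nat_lit 32) (nat_lit 4) (nat_lit 451) (nat_lit 325) (nat_lit 244)))) (XT.nd (nat_lit 156) (nat_lit 76) (nat_lit 0) (XT.nd (nat_lit 78) (nat_lit 152) (nat_lit 0) (XT.lf (nat_lit 0) (nat_lit 25013933441) (nat_lit 152) (nat_lit 2757241485) (nat_lit 0) (nat_lit 3293480725) (nat_lit 30) (nat_lit 5) (nat_lit 32) (nat_lit 4) (nat_lit 30) (nat_lit 4) (nat_lit 452) (nat_lit 325) (nat_lit 243)) (XT.lf (nat_lit 0) (nat_lit 104464386) (nat_lit 152) (nat_lit 21569876980) (nat_lit 76) (nat_lit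 10116322231) (nat_lit 28) (nat_lit 5) (nat_lit 30) (nat_lit 5) (nat_lit 29) (nat_lit 4) (nat_lit 453) (nat_lit 325) (nat_lit 242))) (XT.nd (nat_lit 78) (nat_lit 76) (nat_lit 0) (XT.lf (nat_lit 0) (nat_lit 6320748708) (nat_lit 152) (nat_lit 9010515891) (nat_lit 76) (nat_lit 17205450225) (nat_lit 28) (nat_lit 5) (nat_lit 30) (nat_lit 5) (nat_lit 29) (nat_lit 4) (nat_lit 454) (nat_lit 325) (nat_lit 241)) (XT.lf (nat_lit 0) (nat_lit 3946924459) (nat_lit 76) (nat_lit 8785350217) (nat_lit 152) (nat_lit 20572612222) (nat_lit 27) (nat_lit 5) (nat_lit 28) (nat_lit 5) (nat_lit 29) (nat_lit 4) (nat_lit 455) (nat_lit 325) (nat_lit 240))))) (XT.nd (nat_lit 234) (nat_lit 152) (nat_lit 0) (XT.nd (nat_lit 78) (nat_lit 76) (nat_lit 0) (XT.lf (nat_lit 0) (nat_lit 17422620755) (nat_lit 76) (nat_lit 1975646818) (nat_lit 152) (nat_lit 14695974772) (nat_lit 27) (nat_lit 5) (nat_lit 28) (nat_lit 5) (nat_lit 29) (nat_lit 4) (nat_lit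 456) (nat_lit 325) (nat_lit 239)) (XT.nd (nat_lit 78) (nat_lit 76) (nat_lit 0) (XT.lf (nat_lit 0) (nat_lit 26284399834) (nat_lit 152) (nat_lit 3707286274) (nat_lit 0) (nat_lit 4914989354) (nat_lit 27) (nat_lit 5) (nat_lit 29) (nat_lit 4) (nat_lit 27) (nat_lit 4) (nat_lit 457) (nat_lit 325) (nat_lit 238)) (XT.lf (nat_lit 0) (nat_lit 9764369784) (nat_lit 76) (nat_lit 23698719588) (nat_lit 76) (nat_lit 2277814740) (nat_lit 26) (nat_lit 4) (nat_lit 27) (nat_lit 5) (nat_lit 27) (nat_lit 4) (nat_lit 458) (nat_lit 325) (nat_lit 237)))) (XT.nd (nat_lit 156) (nat_lit 0) (nat_lit 0) (XT.nd (nat_lit 78) (nat_lit 76) (nat_lit 0) (XT.lf (nat_lit 0) (nat_lit 4184297767) (nat_lit 152) (nat_lit 12976774912) (nat_lit 76) (nat_lit 19437549360) (nat_lit 25) (nat_lit 5) (nat_lit 27) (nat_lit 5) (nat_lit 26) (nat_lit 4) (nat_lit 459) (nat_lit 325) (nat_lit 236)) (XT.lf (nat_lit 0) (nat_lit 346092463) (nat_lit 76) (nat_lit 10425104691)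 (nat_lit 152) (nat_lit 26710898202) (nat_lit 24) (nat_lit 5) (nat_lit 25) (nat_lit 5) (nat_lit 26) (nat_lit 4) (nat_lit 460) (nat_lit 325) (nat_lit 235))) (XT.nd (nat_lit 78) (nat_lit 0) (nat_lit 0) (XT.lf (nat_lit 0) (nat_lit 14284072151) (nat_lit 76) (nat_lit 3376338958) (nat_lit 152) (nat_lit 20728522084) (nat_lit 24) (nat_lit 5) (nat_lit 25) (nat_lit 5) (nat_lit 26) (nat_lit 4) (nat_lit 461) (nat_lit 325) (nat_lit 234)) (XT.lf (nat_lit 0) (nat_lit 24767844035) (nat_lit 152) (nat_lit 10769772912) (nat_lit 0) (nat_lit 3785014442) (nat_lit 24) (nat_lit 5) (nat_lit 26) (nat_lit 4) (nat_lit 24) (nat_lit 4) (nat_lit 462) (nat_lit 325) (nat_lit 233)))))) (XT.nd (nat_lit 546) (nat_lit 228) (nat_lit 0) (XT.nd (nat_lit 234) (nat_lit 152) (nat_lit 0) (XT.nd (nat_lit 78) (nat_lit 76) (nat_lit 0) (XT.lf (nat_lit 0) (nat_lit 2941123242) (nat_lit 76) (nat_lit 29184037125) (nat_lit 76) (nat_lit 8158081809) (nat_lit 23)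 (nat_lit 4) (nat_lit 24) (nat_lit 5) (nat_lit 24) (nat_lit 4) (nat_lit 463) (nat_lit 325) (nat_lit 232)) (XT.nd (nat_lit 78) (nat_lit 76) (nat_lit 0) (XT.lf (nat_lit 0) (nat_lit 17236381261) (nat_lit 76) (nat_lit 22550798442) (nat_lit 76) (nat_lit 1482973493) (nat_lit 23) (nat_lit 4) (nat_lit 24) (nat_lit 5) (nat_lit 24) (nat_lit 4) (nat_lit 464) (nat_lit 325) (nat_lit 231)) (XT.lf (nat_lit 0) (nat_lit 5262875088) (nat_lit 152) (nat_lit 10424838648) (nat_lit 76) (nat_lit 26598132740) (nat_lit 22) (nat_lit 5) (nat_lit 24) (nat_lit 5) (nat_lit 23) (nat_lit 4) (nat_lit 465) (nat_lit 325) (nat_lit 230)))) (XT.nd (nat_lit 156) (nat_lit 76) (nat_lit 0) (XT.nd (nat_lit 78) (nat_lit 0) (nat_lit 0) (XT.lf (nat_lit 0) (nat_lit 3602512497) (nat_lit 76) (nat_lit 8589829237) (nat_lit 152) (nat_lit 31138898160) (nat_lit 21) (nat_lit 5) (nat_lit 22) (nat_lit 5) (nat_lit 23) (nat_lit 4) (nat_lit 466) (nat_lit 325) (nat_lit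 229)) (XT.lf (nat_lit 0) (nat_lit 18219363656) (nat_lit 76) (nat_lit 1192272563) (nat_lit 152) (nat_lit 24993901838) (nat_lit 21) (nat_lit 5) (nat_lit 22) (nat_lit 5) (nat_lit 23) (nat_lit 4) (nat_lit 467) (nat_lit 325) (nat_lit 228))) (XT.nd (nat_lit 78) (nat_lit 76) (nat_lit 0) (XT.lf (nat_lit 0) (nat_lit 26886442195) (nat_lit 152) (nat_lit 12343313527) (nat_lit 0) (nat_lit 6281142684) (nat_lit 21) (nat_lit 5) (nat_lit 23) (nat_lit 4) (nat_lit 21) (nat_lit 4) (nat_lit 468) (nat_lit 325) (nat_lit 227)) (XT.lf (nat_lit 0) (nat_lit 1897149264) (nat_lit 76) (nat_lit 32696200221) (nat_lit 76) (nat_lit 12055835551) (nat_lit 20) (nat_lit 4) (nat_lit 21) (nat_lit 5) (nat_lit 21) (nat_lit 4) (nat_lit 469) (nat_lit 325) (nat_lit 226))))) (XT.nd (nat_lit 312) (nat_lit 76) (nat_lit 0) (XT.nd (nat_lit 156) (nat_lit 76) (nat_lit 0) (XT.nd (nat_lit 78) (nat_lit 76) (nat_lit 0) (XT.lf (nat_lit 0) (nat_lit 16775372903) (nat_lit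 76) (nat_lit 25858788059) (nat_lit 76) (nat_lit 5184379545) (nat_lit 20) (nat_lit 4) (nat_lit 21) (nat_lit 5) (nat_lit 21) (nat_lit 4) (nat_lit 470) (nat_lit 325) (nat_lit 225)) (XT.lf (nat_lit 0) (nat_lit 1834757455) (nat_lit 152) (nat_lit 16982903154) (nat_lit 76) (nat_lit 30205416728) (nat_lit 19) (nat_lit 5) (nat_lit 21) (nat_lit 5) (nat_lit 20) (nat_lit 4) (nat_lit 471) (nat_lit 325) (nat_lit 224))) (XT.nd (nat_lit 78) (nat_lit 76) (nat_lit 0) (XT.lf (nat_lit 0) (nat_lit 8939375300) (nat_lit 152) (nat_lit 2592618516) (nat_lit 76) (nat_lit 38730844365) (nat_lit 19) (nat_lit 5) (nat_lit 21) (nat_lit 5) (nat_lit 20) (nat_lit 4) (nat_lit 472) (nat_lit 325) (nat_lit 223)) (XT.lf (nat_lit 0) (nat_lit 12432702581) (nat_lit 76) (nat_lit 3923655988) (nat_lit 152) (nat_lit 35180457497) (nat_lit 18) (nat_lit 5) (nat_lit 19) (nat_lit 5) (nat_lit 20) (nat_lit 4) (nat_lit 473) (nat_lit 325) (nat_lit 222)))) (XT.nd (nat_lit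 156) (nat_lit 76) (nat_lit 0) (XT.nd (nat_lit 78) (nat_lit 0) (nat_lit 0) (XT.lf (nat_lit 0) (nat_lit 24039656499) (nat_lit 152) (nat_lit 24963486961) (nat_lit 0) (nat_lit 3844556665) (nat_lit 18) (nat_lit 5) (nat_lit 20) (nat_lit 4) (nat_lit 18) (nat_lit 4) (nat_lit 474) (nat_lit 325) (nat_lit 221)) (XT.lf (nat_lit 0) (nat_lit 31972643282) (nat_lit 152) (nat_lit 10475660426) (nat_lit 0) (nat_lit 11749032265) (nat_lit 18) (nat_lit 5) (nat_lit 20) (nat_lit 4) (nat_lit 18) (nat_lit 4) (nat_lit 475) (nat_lit 325) (nat_lit 220))) (XT.nd (nat_lit 78) (nat_lit 0) (nat_lit 0) (XT.lf (nat_lit 0) (nat_lit 4497504480) (nat_lit 76) (nat_lit 35670262357) (nat_lit 76) (nat_lit 15418970579) (nat_lit 17) (nat_lit 4) (nat_lit 18) (nat_lit 5) (nat_lit 18) (nat_lit 4) (nat_lit 476) (nat_lit 325) (nat_lit 219)) (XT.lf (nat_lit 0) (nat_lit 20097909489) (nat_lit 76) (nat_lit 28597735795) (nat_lit 76) (nat_lit 8319569493) (nat_lit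 17) (nat_lit 4) (nat_lit 18) (nat_lit 5) (nat_lit 18) (nat_lit 4) (nat_lit 477) (nat_lit 325) (nat_lit 218))))))))
noncomputable def xc67 : XT := (XT.nd (nat_lit 45708) (nat_lit 0) (nat_lit 4940) (XT.nd (nat_lit 44616) (nat_lit 0) (nat_lit 11248) (XT.nd (nat_lit 546) (nat_lit 152) (nat_lit 0) (XT.nd (nat_lit 234) (nat_lit 76) (nat_lit 0) (XT.nd (nat_lit 78) (nat_lit 152) (nat_lit 0) (XT.lf (nat_lit 0) (nat_lit 36130699838) (nat_lit 76) (nat_lit 21330327774) (nat_lit 76) (nat_lit 1026069701) (nat_lit 17) (nat_lit 4) (nat_lit 18) (nat_lit 5) (nat_lit 18) (nat_lit 4) (nat_lit 478) (nat_lit 325) (nat_lit 217)) (XT.nd (nat_lit 78) (nat_lit 76) (nat_lit 0) (XT.lf (nat_lit 0) (nat_lit 6341689697) (nat_lit 152) (nat_lit 7455959803) (nat_lit 76) (nat_lit 46204156433) (nat_lit 16) (nat_lit 5) (nat_lit 18) (nat_lit 5) (nat_lit 17) (nat_lit 4) (nat_lit 479) (nat_lit 325) (nat_lit 216)) (XT.lf (nat_lit 0) (nat_lit 8003580759)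 (nat_lit 76) (nat_lit 5965761430) (nat_lit 152) (nat_lit 47590525159) (nat_lit 15) (nat_lit 5) (nat_lit 16) (nat_lit 5) (nat_lit 17) (nat_lit 4) (nat_lit 480) (nat_lit 325) (nat_lit 215)))) (XT.nd (nat_lit 156) (nat_lit 76) (nat_lit 0) (XT.nd (nat_lit 78) (nat_lit 0) (nat_lit 0) (XT.lf (nat_lit 0) (nat_lit 21904633539) (nat_lit 152) (nat_lit 39137565814) (nat_lit 0) (nat_lit 2120107758) (nat_lit 15) (nat_lit 5) (nat_lit 17) (nat_lit 4) (nat_lit 15) (nat_lit 4) (nat_lit 481) (nat_lit 325) (nat_lit 214)) (XT.lf (nat_lit 0) (nat_lit 30120134416) (nat_lit 152) (nat_lit 24378320243) (nat_lit 0) (nat_lit 10313101644) (nat_lit 15) (nat_lit 5) (nat_lit 17) (nat_lit 4) (nat_lit 15) (nat_lit 4) (nat_lit 482) (nat_lit 325) (nat_lit 213))) (XT.nd (nat_lit 78) (nat_lit 76) (nat_lit 0) (XT.lf (nat_lit 0) (nat_lit 38565676865) (nat_lit 152) (nat_lit 9208306902) (nat_lit 0) (nat_lit 18736792646) (nat_lit 15) (nat_lit 5) (nat_lit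 17) (nat_lit 4) (nat_lit 15) (nat_lit 4) (nat_lit 483) (nat_lit 325) (nat_lit 212)) (XT.lf (nat_lit 0) (nat_lit 6512818101) (nat_lit 76) (nat_lit 40798427579) (nat_lit 76) (nat_lit 20948328362) (nat_lit 14) (nat_lit 4) (nat_lit 15) (nat_lit 5) (nat_lit 15) (nat_lit 4) (nat_lit 484) (nat_lit 325) (nat_lit 211))))) (XT.nd (nat_lit 234) (nat_lit 76) (nat_lit 0) (XT.nd (nat_lit 78) (nat_lit 76) (nat_lit 0) (XT.lf (nat_lit 0) (nat_lit 22863565519) (nat_lit 76) (nat_lit 33532825398) (nat_lit 76) (nat_lit 13662129096) (nat_lit 14) (nat_lit 4) (nat_lit 15) (nat_lit 5) (nat_lit 15) (nat_lit 4) (nat_lit 485) (nat_lit 325) (nat_lit 210)) (XT.nd (nat_lit 78) (nat_lit 76) (nat_lit 0) (XT.lf (nat_lit 0) (nat_lit 39674959051) (nat_lit 76) (nat_lit 26063814485) (nat_lit 76) (nat_lit 6173121013) (nat_lit 14) (nat_lit 4) (nat_lit 15) (nat_lit 5) (nat_lit 15) (nat_lit 4) (nat_lit 486) (nat_lit 325) (nat_lit 209)) (XT.lf (nat_lit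 0) (nat_lit 1495476759) (nat_lit 152) (nat_lit 16874290378) (nat_lit 76) (nat_lit 55451110120) (nat_lit 13) (nat_lit 5) (nat_lit 15) (nat_lit 5) (nat_lit 14) (nat_lit 4) (nat_lit 487) (nat_lit 325) (nat_lit 208)))) (XT.nd (nat_lit 156) (nat_lit 0) (nat_lit 0) (XT.nd (nat_lit 78) (nat_lit 76) (nat_lit 0) (XT.lf (nat_lit 0) (nat_lit 9255477554) (nat_lit 152) (nat_lit 1140338016) (nat_lit 76) (nat_lit 65389918334) (nat_lit 13) (nat_lit 5) (nat_lit 15) (nat_lit 5) (nat_lit 14) (nat_lit 4) (nat_lit 488) (nat_lit 325) (nat_lit 207)) (XT.lf (nat_lit 0) (nat_lit 15337295393) (nat_lit 76) (nat_lit 2044257851) (nat_lit 152) (nat_lit 60423985359) (nat_lit 12) (nat_lit 5) (nat_lit 13) (nat_lit 5) (nat_lit 14) (nat_lit 4) (nat_lit 489) (nat_lit 325) (nat_lit 206))) (XT.nd (nat_lit 43602) (nat_lit 0) (nat_lit 17100) (XT.lf (nat_lit 0) (nat_lit 25811942950) (nat_lit 152) (nat_lit 47643755515) (nat_lit 0) (nat_lit 6428423609)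 (nat_lit 12) (nat_lit 5) (nat_lit 14) (nat_lit 4) (nat_lit 12) (nat_lit 4) (nat_lit 490) (nat_lit 325) (nat_lit 205)) (XT.lf (nat_lit 0) (nat_lit 1774019851) (nat_lit 608) (nat_lit 937761875) (nat_lit 608) (nat_lit 937761875) (nat_lit 237) (nat_lit 4) (nat_lit 245) (nat_lit 5) (nat_lit 245) (nat_lit 4) (nat_lit 368) (nat_lit 326) (nat_lit 326)))))) (XT.nd (nat_lit 546) (nat_lit 2888) (nat_lit 0) (XT.nd (nat_lit 234) (nat_lit 1596) (nat_lit 0) (XT.nd (nat_lit 78) (nat_lit 684) (nat_lit 0) (XT.lf (nat_lit 0) (nat_lit 1616885585) (nat_lit 684) (nat_lit 5671099419) (nat_lit 0) (nat_lit 75041099) (nat_lit 228) (nat_lit 5) (nat_lit 237) (nat_lit 4) (nat_lit 228) (nat_lit 4) (nat_lit 369) (nat_lit 326) (nat_lit 325)) (XT.nd (nat_lit 78) (nat_lit 684) (nat_lit 0) (XT.lf (nat_lit 0) (nat_lit 5133569996) (nat_lit 684) (nat_lit 201301598) (nat_lit 0) (nat_lit 2094789116) (nat_lit 228) (nat_lit 5) (nat_lit 237) (nat_lit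 4) (nat_lit 228) (nat_lit 4) (nat_lit 370) (nat_lit 326) (nat_lit 324)) (XT.lf (nat_lit 0) (nat_lit 1187914856) (nat_lit 684) (nat_lit 2080650026) (nat_lit 76) (nat_lit 4230764781) (nat_lit 219) (nat_lit 5) (nat_lit 228) (nat_lit 5) (nat_lit 220) (nat_lit 4) (nat_lit 371) (nat_lit 326) (nat_lit 323)))) (XT.nd (nat_lit 156) (nat_lit 456) (nat_lit 0) (XT.nd (nat_lit 78) (nat_lit 608) (nat_lit 0) (XT.lf (nat_lit 0) (nat_lit 3578653313) (nat_lit 532) (nat_lit 1092172607) (nat_lit 608) (nat_lit 2901411025) (nat_lit 212) (nat_lit 5) (nat_lit 219) (nat_lit 5) (nat_lit 220) (nat_lit 4) (nat_lit 372) (nat_lit 326) (nat_lit 322)) (XT.lf (nat_lit 0) (nat_lit 552944849) (nat_lit 608) (nat_lit 5938718230) (nat_lit 76) (nat_lit 1156916661) (nat_lit 204) (nat_lit 5) (nat_lit 212) (nat_lit 5) (nat_lit 205) (nat_lit 4) (nat_lit 373) (nat_lit 326) (nat_lit 321))) (XT.nd (nat_lit 78) (nat_lit 456) (nat_lit 0) (XT.lf (nat_lit 0)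 (nat_lit 4010600884) (nat_lit 608) (nat_lit 210946962) (nat_lit 76) (nat_lit 3506105989) (nat_lit 204) (nat_lit 5) (nat_lit 212) (nat_lit 5) (nat_lit 205) (nat_lit 4) (nat_lit 374) (nat_lit 326) (nat_lit 320)) (XT.lf (nat_lit 0) (nat_lit 5691685040) (nat_lit 456) (nat_lit 1844183166) (nat_lit 532) (nat_lit 274356636) (nat_lit 198) (nat_lit 5) (nat_lit 204) (nat_lit 5) (nat_lit 205) (nat_lit 4) (nat_lit 375) (nat_lit 326) (nat_lit 319))))) (XT.nd (nat_lit 234) (nat_lit 1748) (nat_lit 0) (XT.nd (nat_lit 78) (nat_lit 532) (nat_lit 0) (XT.lf (nat_lit 0) (nat_lit 3162791081) (nat_lit 608) (nat_lit 4087566819) (nat_lit 76) (nat_lit 645360045) (nat_lit 190) (nat_lit 5) (nat_lit 198) (nat_lit 5) (nat_lit 191) (nat_lit 4) (nat_lit 376) (nat_lit 326) (nat_lit 318)) (XT.nd (nat_lit 78) (nat_lit 76) (nat_lit 0) (XT.lf (nat_lit 0) (nat_lit 1878144798) (nat_lit 456) (nat_lit 4788581611) (nat_lit 532) (nat_lit 1317929960)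 (nat_lit 184) (nat_lit 5) (nat_lit 190) (nat_lit 5) (nat_lit 191) (nat_lit 4) (nat_lit 377) (nat_lit 326) (nat_lit 317)) (XT.lf (nat_lit 0) (nat_lit 2110186679) (nat_lit 532) (nat_lit 100919223) (nat_lit 76) (nat_lit 5865950528) (nat_lit 183) (nat_lit 5) (nat_lit 190) (nat_lit 5) (nat_lit 184) (nat_lit 5) (nat_lit 378) (nat_lit 326) (nat_lit 316)))) (XT.nd (nat_lit 156) (nat_lit 836) (nat_lit 0) (XT.nd (nat_lit 78) (nat_lit 456) (nat_lit 0) (XT.lf (nat_lit 0) (nat_lit 5592359803) (nat_lit 532) (nat_lit 2094684138) (nat_lit 76) (nat_lit 485496477) (nat_lit 177) (nat_lit 5) (nat_lit 184) (nat_lit 5) (nat_lit 178) (nat_lit 4) (nat_lit 379) (nat_lit 326) (nat_lit 315)) (XT.lf (nat_lit 0) (nat_lit 868411882) (nat_lit 456) (nat_lit 4157346941) (nat_lit 76) (nat_lit 3245560004) (nat_lit 171) (nat_lit 5) (nat_lit 177) (nat_lit 5) (nat_lit 172) (nat_lit 5) (nat_lit 380) (nat_lit 326) (nat_lit 314))) (XT.nd (nat_lit 78)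 (nat_lit 380) (nat_lit 0) (XT.lf (nat_lit 0) (nat_lit 2084683974) (nat_lit 456) (nat_lit 2241604364) (nat_lit 532) (nat_lit 4047306831) (nat_lit 165) (nat_lit 5) (nat_lit 171) (nat_lit 5) (nat_lit 172) (nat_lit 5) (nat_lit 381) (nat_lit 326) (nat_lit 313)) (XT.lf (nat_lit 0) (nat_lit 4354547) (nat_lit 380) (nat_lit 7849430129) (nat_lit 456) (nat_lit 626209227) (nat_lit 160) (nat_lit 5) (nat_lit 165) (nat_lit 5) (nat_lit 166) (nat_lit 4) (nat_lit 382) (nat_lit 326) (nat_lit 312))))))) (XT.nd (nat_lit 1092) (nat_lit 2584) (nat_lit 0) (XT.nd (nat_lit 546) (nat_lit 1672) (nat_lit 0) (XT.nd (nat_lit 234) (nat_lit 1140) (nat_lit 0) (XT.nd (nat_lit 78) (nat_lit 836) (nat_lit 0) (XT.lf (nat_lit 0) (nat_lit 2845252534) (nat_lit 456) (nat_lit 2134409341) (nat_lit 76) (nat_lit 3608987826) (nat_lit 159) (nat_lit 5) (nat_lit 165) (nat_lit 5) (nat_lit 160) (nat_lit 5) (nat_lit 383) (nat_lit 326) (nat_lit 311)) (XT.nd (nat_lit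 78) (nat_lit 456) (nat_lit 0) (XT.lf (nat_lit 0) (nat_lit 4367947139) (nat_lit 380) (nat_lit 2002645956) (nat_lit 456) (nat_lit 2330944454) (nat_lit 154) (nat_lit 5) (nat_lit 159) (nat_lit 5) (nat_lit 160) (nat_lit 5) (nat_lit 384) (nat_lit 326) (nat_lit 310)) (XT.lf (nat_lit 0) (nat_lit 1135139976) (nat_lit 456) (nat_lit 6614158089) (nat_lit 76) (nat_lit 1068968169) (nat_lit 148) (nat_lit 5) (nat_lit 154) (nat_lit 5) (nat_lit 149) (nat_lit 5) (nat_lit 385) (nat_lit 326) (nat_lit 309)))) (XT.nd (nat_lit 156) (nat_lit 760) (nat_lit 0) (XT.nd (nat_lit 78) (nat_lit 380) (nat_lit 0) (XT.lf (nat_lit 0) (nat_lit 4644187586) (nat_lit 456) (nat_lit 63450367) (nat_lit 76) (nat_lit 4230617193) (nat_lit 148) (nat_lit 5) (nat_lit 154) (nat_lit 5) (nat_lit 149) (nat_lit 5) (nat_lit 386) (nat_lit 326) (nat_lit 308)) (XT.lf (nat_lit 0) (nat_lit 6708176045) (nat_lit 380) (nat_lit 1538899206) (nat_lit 456) (nat_lit 815136303)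 (nat_lit 143) (nat_lit 5) (nat_lit 148) (nat_lit 5) (nat_lit 149) (nat_lit 5) (nat_lit 387) (nat_lit 326) (nat_lit 307))) (XT.nd (nat_lit 78) (nat_lit 380) (nat_lit 0) (XT.lf (nat_lit 0) (nat_lit 2699036482) (nat_lit 380) (nat_lit 4759473110) (nat_lit 76) (nat_lit 1731055532) (nat_lit 138) (nat_lit 5) (nat_lit 143) (nat_lit 5) (nat_lit 139) (nat_lit 5) (nat_lit 388) (nat_lit 326) (nat_lit 306)) (XT.lf (nat_lit 0) (nat_lit 2054639840) (nat_lit 380) (nat_lit 4232000238) (nat_lit 456) (nat_lit 3034348210) (nat_lit 133) (nat_lit 5) (nat_lit 138) (nat_lit 5) (nat_lit 139) (nat_lit 5) (nat_lit 389) (nat_lit 326) (nat_lit 305))))) (XT.nd (nat_lit 234) (nat_lit 988) (nat_lit 0) (XT.nd (nat_lit 78) (nat_lit 608) (nat_lit 0) (XT.lf (nat_lit 0) (nat_lit 489592650) (nat_lit 456) (nat_lit 398023267) (nat_lit 76) (nat_lit 8569378258) (nat_lit 132) (nat_lit 5) (nat_lit 138) (nat_lit 5) (nat_lit 133) (nat_lit 5) (nat_lit 390)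 (nat_lit 326) (nat_lit 304)) (XT.nd (nat_lit 78) (nat_lit 304) (nat_lit 0) (XT.lf (nat_lit 0) (nat_lit 4075541502) (nat_lit 380) (nat_lit 2950310742) (nat_lit 76) (nat_lit 2569829233) (nat_lit 128) (nat_lit 5) (nat_lit 133) (nat_lit 5) (nat_lit 129) (nat_lit 5) (nat_lit 391) (nat_lit 326) (nat_lit 303)) (XT.lf (nat_lit 0) (nat_lit 4135723886) (nat_lit 304) (nat_lit 3614679658) (nat_lit 380) (nat_lit 1988706048) (nat_lit 124) (nat_lit 5) (nat_lit 128) (nat_lit 5) (nat_lit 129) (nat_lit 5) (nat_lit 392) (nat_lit 326) (nat_lit 302)))) (XT.nd (nat_lit 156) (nat_lit 608) (nat_lit 0) (XT.nd (nat_lit 78) (nat_lit 0) (nat_lit 0) (XT.lf (nat_lit 0) (nat_lit 1515950639) (nat_lit 304) (nat_lit 74293409) (nat_lit 380) (nat_lit 8296927798) (nat_lit 119) (nat_lit 5) (nat_lit 123) (nat_lit 5) (nat_lit 124) (nat_lit 5) (nat_lit 393) (nat_lit 326) (nat_lit 301)) (XT.lf (nat_lit 0) (nat_lit 5257871634) (nat_lit 380) (nat_lit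 1235927128) (nat_lit 76) (nat_lit 3544666620) (nat_lit 119) (nat_lit 5) (nat_lit 124) (nat_lit 5) (nat_lit 120) (nat_lit 5) (nat_lit 394) (nat_lit 326) (nat_lit 300))) (XT.nd (nat_lit 78) (nat_lit 304) (nat_lit 0) (XT.lf (nat_lit 0) (nat_lit 6128304536) (nat_lit 304) (nat_lit 2898710231) (nat_lit 380) (nat_lit 1167556337) (nat_lit 115) (nat_lit 5) (nat_lit 119) (nat_lit 5) (nat_lit 120) (nat_lit 5) (nat_lit 395) (nat_lit 326) (nat_lit 299)) (XT.lf (nat_lit 0) (nat_lit 2488770499) (nat_lit 304) (nat_lit 7043805901) (nat_lit 76) (nat_lit 822522056) (nat_lit 111) (nat_lit 5) (nat_lit 115) (nat_lit 5) (nat_lit 112) (nat_lit 5) (nat_lit 396) (nat_lit 326) (nat_lit 298)))))) (XT.nd (nat_lit 546) (nat_lit 1216) (nat_lit 0) (XT.nd (nat_lit 234) (nat_lit 760) (nat_lit 0) (XT.nd (nat_lit 78) (nat_lit 304) (nat_lit 0) (XT.lf (nat_lit 0) (nat_lit 335229928) (nat_lit 304) (nat_lit 5902269348) (nat_lit 380) (nat_lit 4282426644)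 (nat_lit 107) (nat_lit 5) (nat_lit 111) (nat_lit 5) (nat_lit 112) (nat_lit 5) (nat_lit 397) (nat_lit 326) (nat_lit 297)) (XT.nd (nat_lit 78) (nat_lit 304) (nat_lit 0) (XT.lf (nat_lit 0) (nat_lit 7976088905) (nat_lit 304) (nat_lit 2127476590) (nat_lit 380) (nat_lit 586002420) (nat_lit 107) (nat_lit 5) (nat_lit 111) (nat_lit 5) (nat_lit 112) (nat_lit 5) (nat_lit 398) (nat_lit 326) (nat_lit 296)) (XT.lf (nat_lit 0) (nat_lit 3158358634) (nat_lit 304) (nat_lit 5936063484) (nat_lit 76) (nat_lit 1768966047) (nat_lit 103) (nat_lit 5) (nat_lit 107) (nat_lit 5) (nat_lit 104) (nat_lit 5) (nat_lit 399) (nat_lit 326) (nat_lit 295)))) (XT.nd (nat_lit 156) (nat_lit 532) (nat_lit 0) (XT.nd (nat_lit 78) (nat_lit 0) (nat_lit 0) (XT.lf (nat_lit 0) (nat_lit 1714904885) (nat_lit 228) (nat_lit 5289175396) (nat_lit 304) (nat_lit 4038159065) (nat_lit 100) (nat_lit 5) (nat_lit 103) (nat_lit 5) (nat_lit 104) (nat_lit 5) (nat_lit 400)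 (nat_lit 326) (nat_lit 294)) (XT.lf (nat_lit 0) (nat_lit 9615296792) (nat_lit 228) (nat_lit 1346303919) (nat_lit 304) (nat_lit 264976732) (nat_lit 100) (nat_lit 5) (nat_lit 103) (nat_lit 5) (nat_lit 104) (nat_lit 5) (nat_lit 401) (nat_lit 326) (nat_lit 293))) (XT.nd (nat_lit 78) (nat_lit 228) (nat_lit 0) (XT.lf (nat_lit 0) (nat_lit 3575922851) (nat_lit 304) (nat_lit 5117354035) (nat_lit 76) (nat_lit 2721382191) (nat_lit 96) (nat_lit 5) (nat_lit 100) (nat_lit 5) (nat_lit 97) (nat_lit 5) (nat_lit 402) (nat_lit 326) (nat_lit 292)) (XT.lf (nat_lit 0) (nat_lit 2806340467) (nat_lit 228) (nat_lit 4715331090) (nat_lit 304) (nat_lit 4086797450) (nat_lit 93) (nat_lit 5) (nat_lit 96) (nat_lit 5) (nat_lit 97) (nat_lit 5) (nat_lit 403) (nat_lit 326) (nat_lit 291))))) (XT.nd (nat_lit 312) (nat_lit 684) (nat_lit 0) (XT.nd (nat_lit 156) (nat_lit 228) (nat_lit 0) (XT.nd (nat_lit 78) (nat_lit 304) (nat_lit 0) (XT.lf (nat_lit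 0) (nat_lit 10973042806) (nat_lit 228) (nat_lit 603477446) (nat_lit 304) (nat_lit 231863768) (nat_lit 93) (nat_lit 5) (nat_lit 96) (nat_lit 5) (nat_lit 97) (nat_lit 5) (nat_lit 404) (nat_lit 326) (nat_lit 290)) (XT.lf (nat_lit 0) (nat_lit 3712540926) (nat_lit 304) (nat_lit 4667867591) (nat_lit 76) (nat_lit 3631418323) (nat_lit 89) (nat_lit 5) (nat_lit 93) (nat_lit 5) (nat_lit 90) (nat_lit 5) (nat_lit 405) (nat_lit 326) (nat_lit 289))) (XT.nd (nat_lit 78) (nat_lit 0) (nat_lit 0) (XT.lf (nat_lit 0) (nat_lit 3526748337) (nat_lit 228) (nat_lit 4232937779) (nat_lit 304) (nat_lit 4461957442) (nat_lit 86) (nat_lit 5) (nat_lit 89) (nat_lit 5) (nat_lit 90) (nat_lit 5) (nat_lit 406) (nat_lit 326) (nat_lit 288)) (XT.lf (nat_lit 0) (nat_lit 11917314807) (nat_lit 304) (nat_lit 473081320) (nat_lit 76) (nat_lit 47697780) (nat_lit 86) (nat_lit 5) (nat_lit 90) (nat_lit 5) (nat_lit 87) (nat_lit 4) (nat_lit 407) (nat_lit 326)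 (nat_lit 287)))) (XT.nd (nat_lit 156) (nat_lit 228) (nat_lit 0) (XT.nd (nat_lit 78) (nat_lit 228) (nat_lit 0) (XT.lf (nat_lit 0) (nat_lit 3531936493) (nat_lit 228) (nat_lit 4679876781) (nat_lit 76) (nat_lit 4446343986) (nat_lit 83) (nat_lit 5) (nat_lit 86) (nat_lit 5) (nat_lit 84) (nat_lit 5) (nat_lit 408) (nat_lit 326) (nat_lit 286)) (XT.lf (nat_lit 0) (nat_lit 3780656235) (nat_lit 228) (nat_lit 3899267801) (nat_lit 304) (nat_lit 5205229317) (nat_lit 80) (nat_lit 5) (nat_lit 83) (nat_lit 5) (nat_lit 84) (nat_lit 5) (nat_lit 409) (nat_lit 326) (nat_lit 285))) (XT.nd (nat_lit 78) (nat_lit 228) (nat_lit 0) (XT.lf (nat_lit 0) (nat_lit 11948655707) (nat_lit 304) (nat_lit 628785295) (nat_lit 76) (nat_lit 541639145) (nat_lit 80) (nat_lit 5) (nat_lit 84) (nat_lit 5) (nat_lit 81) (nat_lit 4) (nat_lit 410) (nat_lit 326) (nat_lit 284)) (XT.lf (nat_lit 0) (nat_lit 2989515518) (nat_lit 228) (nat_lit 5259989926) (nat_lit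 76) (nat_lit 5107797335) (nat_lit 77) (nat_lit 5) (nat_lit 80) (nat_lit 5) (nat_lit 78) (nat_lit 5) (nat_lit 411) (nat_lit 326) (nat_lit 283))))))))
noncomputable def xc68 : XT := (XT.nd (nat_lit 2184) (nat_lit 1520) (nat_lit 0) (XT.nd (nat_lit 1092) (nat_lit 988) (nat_lit 0) (XT.nd (nat_lit 546) (nat_lit 760) (nat_lit 0) (XT.nd (nat_lit 234) (nat_lit 532) (nat_lit 0) (XT.nd (nat_lit 78) (nat_lit 228) (nat_lit 0) (XT.lf (nat_lit 0) (nat_lit 3457551155) (nat_lit 228) (nat_lit 3778002173) (nat_lit 304) (nat_lit 6367235499) (nat_lit 74) (nat_lit 5) (nat_lit 77) (nat_lit 5) (nat_lit 78) (nat_lit 5) (nat_lit 412) (nat_lit 326) (nat_lit 282)) (XT.nd (nat_lit 78) (nat_lit 228) (nat_lit 0) (XT.lf (nat_lit 0) (nat_lit 11616075279) (nat_lit 304) (nat_lit 1412292305) (nat_lit 76) (nat_lit 827067629) (nat_lit 74) (nat_lit 5) (nat_lit 78) (nat_lit 5) (nat_lit 75) (nat_lit 4) (nat_lit 413) (nat_lit 326) (nat_lit 281)) (XT.lf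 (nat_lit 0) (nat_lit 2031220344) (nat_lit 228) (nat_lit 6531739886) (nat_lit 76) (nat_lit 5550384678) (nat_lit 71) (nat_lit 5) (nat_lit 74) (nat_lit 5) (nat_lit 72) (nat_lit 5) (nat_lit 414) (nat_lit 326) (nat_lit 280)))) (XT.nd (nat_lit 156) (nat_lit 380) (nat_lit 0) (XT.nd (nat_lit 78) (nat_lit 0) (nat_lit 0) (XT.lf (nat_lit 0) (nat_lit 2429169357) (nat_lit 152) (nat_lit 3940730927) (nat_lit 228) (nat_lit 8008884814) (nat_lit 69) (nat_lit 5) (nat_lit 71) (nat_lit 5) (nat_lit 72) (nat_lit 5) (nat_lit 415) (nat_lit 326) (nat_lit 279)) (XT.lf (nat_lit 0) (nat_lit 10860766595) (nat_lit 228) (nat_lit 2957872988) (nat_lit 76) (nat_lit 832895989) (nat_lit 69) (nat_lit 5) (nat_lit 72) (nat_lit 5) (nat_lit 70) (nat_lit 4) (nat_lit 416) (nat_lit 326) (nat_lit 278))) (XT.nd (nat_lit 78) (nat_lit 152) (nat_lit 0) (XT.lf (nat_lit 0) (nat_lit 592175126) (nat_lit 228) (nat_lit 8638565575) (nat_lit 76) (nat_lit 5700102742)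 (nat_lit 66) (nat_lit 5) (nat_lit 69) (nat_lit 5) (nat_lit 67) (nat_lit 5) (nat_lit 417) (nat_lit 326) (nat_lit 277)) (XT.lf (nat_lit 0) (nat_lit 546373497) (nat_lit 152) (nat_lit 4468648178) (nat_lit 228) (nat_lit 10202851952) (nat_lit 64) (nat_lit 5) (nat_lit 66) (nat_lit 5) (nat_lit 67) (nat_lit 5) (nat_lit 418) (nat_lit 326) (nat_lit 276))))) (XT.nd (nat_lit 234) (nat_lit 532) (nat_lit 0) (XT.nd (nat_lit 78) (nat_lit 228) (nat_lit 0) (XT.lf (nat_lit 0) (nat_lit 9612292835) (nat_lit 228) (nat_lit 5421672573) (nat_lit 76) (nat_lit 478304114) (nat_lit 64) (nat_lit 5) (nat_lit 67) (nat_lit 5) (nat_lit 65) (nat_lit 4) (nat_lit 419) (nat_lit 326) (nat_lit 275)) (XT.nd (nat_lit 78) (nat_lit 76) (nat_lit 0) (XT.lf (nat_lit 0) (nat_lit 4053454765) (nat_lit 152) (nat_lit 10328156954) (nat_lit 228) (nat_lit 1432868465) (nat_lit 62) (nat_lit 5) (nat_lit 64) (nat_lit 5) (nat_lit 65) (nat_lit 4) (nat_lit 420) (nat_lit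 326) (nat_lit 274)) (XT.lf (nat_lit 0) (nat_lit 3112755049) (nat_lit 228) (nat_lit 2318313035) (nat_lit 76) (nat_lit 10693592035) (nat_lit 61) (nat_lit 5) (nat_lit 64) (nat_lit 5) (nat_lit 62) (nat_lit 5) (nat_lit 421) (nat_lit 326) (nat_lit 273)))) (XT.nd (nat_lit 156) (nat_lit 228) (nat_lit 0) (XT.nd (nat_lit 78) (nat_lit 152) (nat_lit 0) (XT.lf (nat_lit 0) (nat_lit 7454317632) (nat_lit 152) (nat_lit 335747752) (nat_lit 228) (nat_lit 8652937147) (nat_lit 59) (nat_lit 5) (nat_lit 61) (nat_lit 5) (nat_lit 62) (nat_lit 5) (nat_lit 422) (nat_lit 326) (nat_lit 272)) (XT.lf (nat_lit 0) (nat_lit 678374219) (nat_lit 152) (nat_lit 11959391952) (nat_lit 228) (nat_lit 4132232934) (nat_lit 57) (nat_lit 5) (nat_lit 59) (nat_lit 5) (nat_lit 60) (nat_lit 4) (nat_lit 423) (nat_lit 326) (nat_lit 271))) (XT.nd (nat_lit 78) (nat_lit 152) (nat_lit 0) (XT.lf (nat_lit 0) (nat_lit 561644903) (nat_lit 228) (nat_lit 6378619939) (nat_lit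 76) (nat_lit 10164961890) (nat_lit 56) (nat_lit 5) (nat_lit 59) (nat_lit 5) (nat_lit 57) (nat_lit 5) (nat_lit 424) (nat_lit 326) (nat_lit 270)) (XT.lf (nat_lit 0) (nat_lit 3572059965) (nat_lit 152) (nat_lit 1729725646) (nat_lit 228) (nat_lit 12147848684) (nat_lit 54) (nat_lit 5) (nat_lit 56) (nat_lit 5) (nat_lit 57) (nat_lit 5) (nat_lit 425) (nat_lit 326) (nat_lit 269)))))) (XT.nd (nat_lit 546) (nat_lit 380) (nat_lit 0) (XT.nd (nat_lit 234) (nat_lit 456) (nat_lit 0) (XT.nd (nat_lit 78) (nat_lit 152) (nat_lit 0) (XT.lf (nat_lit 0) (nat_lit 10238505378) (nat_lit 228) (nat_lit 3968736897) (nat_lit 76) (nat_lit 3595505915) (nat_lit 54) (nat_lit 5) (nat_lit 57) (nat_lit 5) (nat_lit 55) (nat_lit 4) (nat_lit 426) (nat_lit 326) (nat_lit 268)) (XT.nd (nat_lit 78) (nat_lit 76) (nat_lit 0) (XT.lf (nat_lit 0) (nat_lit 6262134691) (nat_lit 76) (nat_lit 9094205968) (nat_lit 152) (nat_lit 2809129623) (nat_lit 53) (nat_lit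 5) (nat_lit 54) (nat_lit 5) (nat_lit 55) (nat_lit 4) (nat_lit 427) (nat_lit 326) (nat_lit 267)) (XT.lf (nat_lit 0) (nat_lit 2044133588) (nat_lit 152) (nat_lit 1757457612) (nat_lit 76) (nat_lit 14736997811) (nat_lit 52) (nat_lit 5) (nat_lit 54) (nat_lit 5) (nat_lit 53) (nat_lit 5) (nat_lit 428) (nat_lit 326) (nat_lit 266)))) (XT.nd (nat_lit 156) (nat_lit 228) (nat_lit 0) (XT.nd (nat_lit 78) (nat_lit 76) (nat_lit 0) (XT.lf (nat_lit 0) (nat_lit 7044417827) (nat_lit 228) (nat_lit 10179641731) (nat_lit 76) (nat_lit 1696275589) (nat_lit 50) (nat_lit 5) (nat_lit 53) (nat_lit 5) (nat_lit 51) (nat_lit 4) (nat_lit 429) (nat_lit 326) (nat_lit 265)) (XT.lf (nat_lit 0) (nat_lit 163963533) (nat_lit 76) (nat_lit 12045125723) (nat_lit 152) (nat_lit 7104017668) (nat_lit 49) (nat_lit 5) (nat_lit 50) (nat_lit 5) (nat_lit 51) (nat_lit 4) (nat_lit 430) (nat_lit 326) (nat_lit 264))) (XT.nd (nat_lit 78) (nat_lit 228) (nat_lit 0) (XT.lf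 (nat_lit 0) (nat_lit 10949082008) (nat_lit 76) (nat_lit 6640154441) (nat_lit 152) (nat_lit 2126613818) (nat_lit 49) (nat_lit 5) (nat_lit 50) (nat_lit 5) (nat_lit 51) (nat_lit 4) (nat_lit 431) (nat_lit 326) (nat_lit 263)) (XT.lf (nat_lit 0) (nat_lit 1858464329) (nat_lit 152) (nat_lit 1059531073) (nat_lit 228) (nat_lit 17212526776) (nat_lit 46) (nat_lit 5) (nat_lit 48) (nat_lit 5) (nat_lit 49) (nat_lit 5) (nat_lit 432) (nat_lit 326) (nat_lit 262))))) (XT.nd (nat_lit 234) (nat_lit 304) (nat_lit 0) (XT.nd (nat_lit 78) (nat_lit 76) (nat_lit 0) (XT.lf (nat_lit 0) (nat_lit 8164387209) (nat_lit 228) (nat_lit 7716012701) (nat_lit 76) (nat_lit 4673811158) (nat_lit 46) (nat_lit 5) (nat_lit 49) (nat_lit 5) (nat_lit 47) (nat_lit 4) (nat_lit 433) (nat_lit 326) (nat_lit 261)) (XT.nd (nat_lit 78) (nat_lit 0) (nat_lit 0) (XT.lf (nat_lit 0) (nat_lit 3133389050) (nat_lit 76) (nat_lit 10435309293) (nat_lit 152) (nat_lit 7421900436)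 (nat_lit 45) (nat_lit 5) (nat_lit 46) (nat_lit 5) (nat_lit 47) (nat_lit 4) (nat_lit 434) (nat_lit 326) (nat_lit 260)) (XT.lf (nat_lit 0) (nat_lit 14393190775) (nat_lit 76) (nat_lit 4780245063) (nat_lit 152) (nat_lit 2265497239) (nat_lit 45) (nat_lit 5) (nat_lit 46) (nat_lit 5) (nat_lit 47) (nat_lit 4) (nat_lit 435) (nat_lit 326) (nat_lit 259)))) (XT.nd (nat_lit 156) (nat_lit 76) (nat_lit 0) (XT.nd (nat_lit 78) (nat_lit 0) (nat_lit 0) (XT.lf (nat_lit 0) (nat_lit 2996823663) (nat_lit 228) (nat_lit 17841950731) (nat_lit 76) (nat_lit 1060748683) (nat_lit 42) (nat_lit 5) (nat_lit 45) (nat_lit 5) (nat_lit 43) (nat_lit 4) (nat_lit 436) (nat_lit 326) (nat_lit 258)) (XT.lf (nat_lit 0) (nat_lit 8451943630) (nat_lit 228) (nat_lit 6875874968) (nat_lit 76) (nat_lit 7043028886) (nat_lit 42) (nat_lit 5) (nat_lit 45) (nat_lit 5) (nat_lit 43) (nat_lit 4) (nat_lit 437) (nat_lit 326) (nat_lit 257))) (XT.nd (nat_lit 78) (nat_lit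 0) (nat_lit 0) (XT.lf (nat_lit 0) (nat_lit 4435808048) (nat_lit 76) (nat_lit 9639958471) (nat_lit 152) (nat_lit 8780397061) (nat_lit 41) (nat_lit 5) (nat_lit 42) (nat_lit 5) (nat_lit 43) (nat_lit 4) (nat_lit 438) (nat_lit 326) (nat_lit 256)) (XT.lf (nat_lit 0) (nat_lit 16158542264) (nat_lit 76) (nat_lit 3742033518) (nat_lit 152) (nat_lit 3454498559) (nat_lit 41) (nat_lit 5) (nat_lit 42) (nat_lit 5) (nat_lit 43) (nat_lit 4) (nat_lit 439) (nat_lit 326) (nat_lit 255))))))) (XT.nd (nat_lit 1092) (nat_lit 684) (nat_lit 0) (XT.nd (nat_lit 546) (nat_lit 304) (nat_lit 0) (XT.nd (nat_lit 234) (nat_lit 228) (nat_lit 0) (XT.nd (nat_lit 78) (nat_lit 76) (nat_lit 0) (XT.lf (nat_lit 0) (nat_lit 2019758832) (nat_lit 228) (nat_lit 19529302296) (nat_lit 76) (nat_lit 2318462168) (nat_lit 38) (nat_lit 5) (nat_lit 41) (nat_lit 5) (nat_lit 39) (nat_lit 4) (nat_lit 440) (nat_lit 326) (nat_lit 254)) (XT.nd (nat_lit 78) (nat_lit 76)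 (nat_lit 0) (XT.lf (nat_lit 0) (nat_lit 7662926868) (nat_lit 228) (nat_lit 8166675741) (nat_lit 76) (nat_lit 8562496627) (nat_lit 38) (nat_lit 5) (nat_lit 41) (nat_lit 5) (nat_lit 39) (nat_lit 4) (nat_lit 441) (nat_lit 326) (nat_lit 253)) (XT.lf (nat_lit 0) (nat_lit 3539810506) (nat_lit 76) (nat_lit 9934338988) (nat_lit 152) (nat_lit 11458303136) (nat_lit 37) (nat_lit 5) (nat_lit 38) (nat_lit 5) (nat_lit 39) (nat_lit 4) (nat_lit 442) (nat_lit 326) (nat_lit 252)))) (XT.nd (nat_lit 156) (nat_lit 76) (nat_lit 0) (XT.nd (nat_lit 78) (nat_lit 152) (nat_lit 0) (XT.lf (nat_lit 0) (nat_lit 15699454607) (nat_lit 76) (nat_lit 3807852432) (nat_lit 152) (nat_lit 5980284517) (nat_lit 37) (nat_lit 5) (nat_lit 38) (nat_lit 5) (nat_lit 39) (nat_lit 4) (nat_lit 443) (nat_lit 326) (nat_lit 251)) (XT.lf (nat_lit 0) (nat_lit 2117496038) (nat_lit 152) (nat_lit 23614233889) (nat_lit 152) (nat_lit 327349396) (nat_lit 35) (nat_lit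 4) (nat_lit 37) (nat_lit 5) (nat_lit 37) (nat_lit 4) (nat_lit 444) (nat_lit 326) (nat_lit 250))) (XT.nd (nat_lit 78) (nat_lit 0) (nat_lit 0) (XT.lf (nat_lit 0) (nat_lit 5491371031) (nat_lit 228) (nat_lit 12219627846) (nat_lit 76) (nat_lit 8932027954) (nat_lit 34) (nat_lit 5) (nat_lit 37) (nat_lit 5) (nat_lit 35) (nat_lit 4) (nat_lit 445) (nat_lit 326) (nat_lit 249)) (XT.lf (nat_lit 0) (nat_lit 11444973444) (nat_lit 228) (nat_lit 211704799) (nat_lit 76) (nat_lit 15588712851) (nat_lit 34) (nat_lit 5) (nat_lit 37) (nat_lit 5) (nat_lit 35) (nat_lit 4) (nat_lit 446) (nat_lit 326) (nat_lit 248))))) (XT.nd (nat_lit 234) (nat_lit 76) (nat_lit 0) (XT.nd (nat_lit 78) (nat_lit 152) (nat_lit 0) (XT.lf (nat_lit 0) (nat_lit 12336555527) (nat_lit 76) (nat_lit 5327078775) (nat_lit 152) (nat_lit 10199600953) (nat_lit 33) (nat_lit 5) (nat_lit 34) (nat_lit 5) (nat_lit 35) (nat_lit 4) (nat_lit 447) (nat_lit 326) (nat_lit 247))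 (XT.nd (nat_lit 78) (nat_lit 152) (nat_lit 0) (XT.lf (nat_lit 0) (nat_lit 24050427222) (nat_lit 152) (nat_lit 3306151231) (nat_lit 0) (nat_lit 1143591530) (nat_lit 33) (nat_lit 5) (nat_lit 35) (nat_lit 4) (nat_lit 33) (nat_lit 4) (nat_lit 448) (nat_lit 326) (nat_lit 246)) (XT.lf (nat_lit 0) (nat_lit 1556500117) (nat_lit 152) (nat_lit 19816344578) (nat_lit 76) (nat_lit 7779566914) (nat_lit 31) (nat_lit 5) (nat_lit 33) (nat_lit 5) (nat_lit 32) (nat_lit 4) (nat_lit 449) (nat_lit 326) (nat_lit 245)))) (XT.nd (nat_lit 156) (nat_lit 0) (nat_lit 0) (XT.nd (nat_lit 78) (nat_lit 76) (nat_lit 0) (XT.lf (nat_lit 0) (nat_lit 7656133885) (nat_lit 152) (nat_lit 7501276498) (nat_lit 76) (nat_lit 14665411427) (nat_lit 31) (nat_lit 5) (nat_lit 33) (nat_lit 5) (nat_lit 32) (nat_lit 4) (nat_lit 450) (nat_lit 326) (nat_lit 244)) (XT.lf (nat_lit 0) (nat_lit 5227983839) (nat_lit 76) (nat_lit 8730855397) (nat_lit 152) (nat_lit 16553904746)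 (nat_lit 30) (nat_lit 5) (nat_lit 31) (nat_lit 5) (nat_lit 32) (nat_lit 4) (nat_lit 451) (nat_lit 326) (nat_lit 243))) (XT.nd (nat_lit 78) (nat_lit 0) (nat_lit 0) (XT.lf (nat_lit 0) (nat_lit 18436175757) (nat_lit 76) (nat_lit 2060359782) (nat_lit 152) (nat_lit 10725453063) (nat_lit 30) (nat_lit 5) (nat_lit 31) (nat_lit 5) (nat_lit 32) (nat_lit 4) (nat_lit 452) (nat_lit 326) (nat_lit 242)) (XT.lf (nat_lit 0) (nat_lit 27247381661) (nat_lit 152) (nat_lit 13819618) (nat_lit 0) (nat_lit 4690800733) (nat_lit 30) (nat_lit 5) (nat_lit 32) (nat_lit 4) (nat_lit 30) (nat_lit 4) (nat_lit 453) (nat_lit 326) (nat_lit 241)))))) (XT.nd (nat_lit 546) (nat_lit 304) (nat_lit 0) (XT.nd (nat_lit 234) (nat_lit 152) (nat_lit 0) (XT.nd (nat_lit 78) (nat_lit 76) (nat_lit 0) (XT.lf (nat_lit 0) (nat_lit 1588953331) (nat_lit 152) (nat_lit 19388963029) (nat_lit 76) (nat_lit 11721929969) (nat_lit 28) (nat_lit 5) (nat_lit 30) (nat_lit 5)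 (nat_lit 29) (nat_lit 4) (nat_lit 454) (nat_lit 326) (nat_lit 240)) (XT.nd (nat_lit 78) (nat_lit 76) (nat_lit 0) (XT.lf (nat_lit 0) (nat_lit 7948579921) (nat_lit 152) (nat_lit 6535190339) (nat_lit 76) (nat_lit 18985806034) (nat_lit 28) (nat_lit 5) (nat_lit 30) (nat_lit 5) (nat_lit 29) (nat_lit 4) (nat_lit 455) (nat_lit 326) (nat_lit 239)) (XT.lf (nat_lit 0) (nat_lit 6784055172) (nat_lit 76) (nat_lit 7752640948) (nat_lit 152) (nat_lit 19724572805) (nat_lit 27) (nat_lit 5) (nat_lit 28) (nat_lit 5) (nat_lit 29) (nat_lit 4) (nat_lit 456) (nat_lit 326) (nat_lit 238)))) (XT.nd (nat_lit 156) (nat_lit 152) (nat_lit 0) (XT.nd (nat_lit 78) (nat_lit 0) (nat_lit 0) (XT.lf (nat_lit 0) (nat_lit 20584836251) (nat_lit 76) (nat_lit 776401878) (nat_lit 152) (nat_lit 13714312477) (nat_lit 27) (nat_lit 5) (nat_lit 28) (nat_lit 5) (nat_lit 29) (nat_lit 4) (nat_lit 457) (nat_lit 326) (nat_lit 237)) (XT.lf (nat_lit 0) (nat_lit 28425475653)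 (nat_lit 152) (nat_lit 1227283237) (nat_lit 0) (nat_lit 6260454759) (nat_lit 27) (nat_lit 5) (nat_lit 29) (nat_lit 4) (nat_lit 27) (nat_lit 4) (nat_lit 458) (nat_lit 326) (nat_lit 236))) (XT.nd (nat_lit 78) (nat_lit 76) (nat_lit 0) (XT.lf (nat_lit 0) (nat_lit 12623118369) (nat_lit 76) (nat_lit 23181677236) (nat_lit 76) (nat_lit 968117962) (nat_lit 26) (nat_lit 4) (nat_lit 27) (nat_lit 5) (nat_lit 27) (nat_lit 4) (nat_lit 459) (nat_lit 326) (nat_lit 235)) (XT.lf (nat_lit 0) (nat_lit 5621613950) (nat_lit 152) (nat_lit 10848807595) (nat_lit 76) (nat_lit 21186727054) (nat_lit 25) (nat_lit 5) (nat_lit 27) (nat_lit 5) (nat_lit 26) (nat_lit 4) (nat_lit 460) (nat_lit 326) (nat_lit 234))))) (XT.nd (nat_lit 312) (nat_lit 152) (nat_lit 0) (XT.nd (nat_lit 156) (nat_lit 76) (nat_lit 0) (XT.nd (nat_lit 78) (nat_lit 0) (nat_lit 0) (XT.lf (nat_lit 0) (nat_lit 2849066678) (nat_lit 76) (nat_lit 9542806559) (nat_lit 152) (nat_lit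 26175682578) (nat_lit 24) (nat_lit 5) (nat_lit 25) (nat_lit 5) (nat_lit 26) (nat_lit 4) (nat_lit 461) (nat_lit 326) (nat_lit 233)) (XT.lf (nat_lit 0) (nat_lit 17132586006) (nat_lit 76) (nat_lit 2317385173) (nat_lit 152) (nat_lit 20052763600) (nat_lit 24) (nat_lit 5) (nat_lit 25) (nat_lit 5) (nat_lit 26) (nat_lit 4) (nat_lit 462) (nat_lit 326) (nat_lit 232))) (XT.nd (nat_lit 78) (nat_lit 76) (nat_lit 0) (XT.lf (nat_lit 0) (nat_lit 26744763542) (nat_lit 152) (nat_lit 8717424230) (nat_lit 0) (nat_lit 5003034211) (nat_lit 24) (nat_lit 5) (nat_lit 26) (nat_lit 4) (nat_lit 24) (nat_lit 4) (nat_lit 463) (nat_lit 326) (nat_lit 231)) (XT.lf (nat_lit 0) (nat_lit 5381510163) (nat_lit 76) (nat_lit 28927961161) (nat_lit 76) (nat_lit 7145581701) (nat_lit 23) (nat_lit 4) (nat_lit 24) (nat_lit 5) (nat_lit 24) (nat_lit 4) (nat_lit 464) (nat_lit 326) (nat_lit 230)))) (XT.nd (nat_lit 156) (nat_lit 76) (nat_lit 0) (XT.nd (nat_lit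 78) (nat_lit 76) (nat_lit 0) (XT.lf (nat_lit 0) (nat_lit 20037116605) (nat_lit 76) (nat_lit 22128684457) (nat_lit 76) (nat_lit 306838851) (nat_lit 23) (nat_lit 4) (nat_lit 24) (nat_lit 5) (nat_lit 24) (nat_lit 4) (nat_lit 465) (nat_lit 326) (nat_lit 229)) (XT.lf (nat_lit 0) (nat_lit 6582708020) (nat_lit 152) (nat_lit 8497264970) (nat_lit 76) (nat_lit 28439526666) (nat_lit 22) (nat_lit 5) (nat_lit 24) (nat_lit 5) (nat_lit 23) (nat_lit 4) (nat_lit 466) (nat_lit 326) (nat_lit 228))) (XT.nd (nat_lit 78) (nat_lit 0) (nat_lit 0) (XT.lf (nat_lit 0) (nat_lit 5928942799) (nat_lit 76) (nat_lit 7778596943) (nat_lit 152) (nat_lit 30889092561) (nat_lit 21) (nat_lit 5) (nat_lit 22) (nat_lit 5) (nat_lit 23) (nat_lit 4) (nat_lit 467) (nat_lit 326) (nat_lit 227)) (XT.lf (nat_lit 0) (nat_lit 20919687213) (nat_lit 76) (nat_lit 190247370) (nat_lit 152) (nat_lit 24594230986) (nat_lit 21) (nat_lit 5) (nat_lit 22) (nat_lit 5) (nat_lit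 23) (nat_lit 4) (nat_lit 468) (nat_lit 326) (nat_lit 226))))))))
noncomputable def xc69 : XT := (XT.nd (nat_lit 45552) (nat_lit 0) (nat_lit 6916) (XT.nd (nat_lit 1092) (nat_lit 228) (nat_lit 0) (XT.nd (nat_lit 546) (nat_lit 228) (nat_lit 0) (XT.nd (nat_lit 234) (nat_lit 152) (nat_lit 0) (XT.nd (nat_lit 78) (nat_lit 76) (nat_lit 0) (XT.lf (nat_lit 0) (nat_lit 28786166706) (nat_lit 152) (nat_lit 10599724221) (nat_lit 0) (nat_lit 7457482094) (nat_lit 21) (nat_lit 5) (nat_lit 23) (nat_lit 4) (nat_lit 21) (nat_lit 4) (nat_lit 469) (nat_lit 326) (nat_lit 225)) (XT.nd (nat_lit 78) (nat_lit 0) (nat_lit 0) (XT.lf (nat_lit 0) (nat_lit 4047228054) (nat_lit 76) (nat_lit 32665335162) (nat_lit 76) (nat_lit 11303598275) (nat_lit 20) (nat_lit 4) (nat_lit 21) (nat_lit 5) (nat_lit 21) (nat_lit 4) (nat_lit 470) (nat_lit 326) (nat_lit 224)) (XT.lf (nat_lit 0) (nat_lit 19310832451) (nat_lit 76) (nat_lit 25652269113) (nat_lit 76)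 (nat_lit 4258442638) (nat_lit 20) (nat_lit 4) (nat_lit 21) (nat_lit 5) (nat_lit 21) (nat_lit 4) (nat_lit 471) (nat_lit 326) (nat_lit 223)))) (XT.nd (nat_lit 156) (nat_lit 76) (nat_lit 0) (XT.nd (nat_lit 78) (nat_lit 0) (nat_lit 0) (XT.lf (nat_lit 0) (nat_lit 2919280714) (nat_lit 152) (nat_lit 15498841563) (nat_lit 76) (nat_lit 32044711077) (nat_lit 19) (nat_lit 5) (nat_lit 21) (nat_lit 5) (nat_lit 20) (nat_lit 4) (nat_lit 472) (nat_lit 326) (nat_lit 222)) (XT.lf (nat_lit 0) (nat_lit 10207052225) (nat_lit 152) (nat_lit 734912910) (nat_lit 76) (nat_lit 40798722946) (nat_lit 19) (nat_lit 5) (nat_lit 21) (nat_lit 5) (nat_lit 20) (nat_lit 4) (nat_lit 473) (nat_lit 326) (nat_lit 221))) (XT.nd (nat_lit 78) (nat_lit 0) (nat_lit 0) (XT.lf (nat_lit 0) (nat_lit 14722192484) (nat_lit 76) (nat_lit 3113663639) (nat_lit 152) (nat_lit 35217351313) (nat_lit 18) (nat_lit 5) (nat_lit 19) (nat_lit 5) (nat_lit 20) (nat_lit 4) (nat_lit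 474) (nat_lit 326) (nat_lit 220)) (XT.lf (nat_lit 0) (nat_lit 25729510696) (nat_lit 152) (nat_lit 23831513611) (nat_lit 0) (nat_lit 4842999405) (nat_lit 18) (nat_lit 5) (nat_lit 20) (nat_lit 4) (nat_lit 18) (nat_lit 4) (nat_lit 475) (nat_lit 326) (nat_lit 219))))) (XT.nd (nat_lit 234) (nat_lit 152) (nat_lit 0) (XT.nd (nat_lit 78) (nat_lit 76) (nat_lit 0) (XT.lf (nat_lit 0) (nat_lit 33872273553) (nat_lit 152) (nat_lit 8963835132) (nat_lit 0) (nat_lit 12958887738) (nat_lit 18) (nat_lit 5) (nat_lit 20) (nat_lit 4) (nat_lit 18) (nat_lit 4) (nat_lit 476) (nat_lit 326) (nat_lit 218)) (XT.nd (nat_lit 78) (nat_lit 0) (nat_lit 0) (XT.lf (nat_lit 0) (nat_lit 6440621828) (nat_lit 76) (nat_lit 35862618660) (nat_lit 76) (nat_lit 14923141074) (nat_lit 17) (nat_lit 4) (nat_lit 18) (nat_lit 5) (nat_lit 18) (nat_lit 4) (nat_lit 477) (nat_lit 326) (nat_lit 217)) (XT.lf (nat_lit 0) (nat_lit 22456373194) (nat_lit 76) (nat_lit 28603481881)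 (nat_lit 76) (nat_lit 7638672477) (nat_lit 17) (nat_lit 4) (nat_lit 18) (nat_lit 5) (nat_lit 18) (nat_lit 4) (nat_lit 478) (nat_lit 326) (nat_lit 216)))) (XT.nd (nat_lit 156) (nat_lit 76) (nat_lit 0) (XT.nd (nat_lit 78) (nat_lit 76) (nat_lit 0) (XT.lf (nat_lit 0) (nat_lit 38919015416) (nat_lit 76) (nat_lit 21142872570) (nat_lit 76) (nat_lit 153469170) (nat_lit 17) (nat_lit 4) (nat_lit 18) (nat_lit 5) (nat_lit 18) (nat_lit 4) (nat_lit 479) (nat_lit 326) (nat_lit 215)) (XT.lf (nat_lit 0) (nat_lit 7391896090) (nat_lit 152) (nat_lit 6007732003) (nat_lit 76) (nat_lit 48376393581) (nat_lit 16) (nat_lit 5) (nat_lit 18) (nat_lit 5) (nat_lit 17) (nat_lit 4) (nat_lit 480) (nat_lit 326) (nat_lit 214))) (XT.nd (nat_lit 78) (nat_lit 0) (nat_lit 0) (XT.lf (nat_lit 0) (nat_lit 9899203534) (nat_lit 76) (nat_lit 5340041195) (nat_lit 152) (nat_lit 48141855363) (nat_lit 15) (nat_lit 5) (nat_lit 16) (nat_lit 5) (nat_lit 17) (nat_lit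 4) (nat_lit 481) (nat_lit 326) (nat_lit 213)) (XT.lf (nat_lit 0) (nat_lit 23395323493) (nat_lit 152) (nat_lit 38687087519) (nat_lit 0) (nat_lit 2949721300) (nat_lit 15) (nat_lit 5) (nat_lit 17) (nat_lit 4) (nat_lit 15) (nat_lit 4) (nat_lit 482) (nat_lit 326) (nat_lit 212)))))) (XT.nd (nat_lit 546) (nat_lit 0) (nat_lit 0) (XT.nd (nat_lit 234) (nat_lit 152) (nat_lit 0) (XT.nd (nat_lit 78) (nat_lit 76) (nat_lit 0) (XT.lf (nat_lit 0) (nat_lit 31833011213) (nat_lit 152) (nat_lit 23532383181) (nat_lit 0) (nat_lit 11366194022) (nat_lit 15) (nat_lit 5) (nat_lit 17) (nat_lit 4) (nat_lit 15) (nat_lit 4) (nat_lit 483) (nat_lit 326) (nat_lit 211)) (XT.nd (nat_lit 78) (nat_lit 76) (nat_lit 0) (XT.lf (nat_lit 0) (nat_lit 40508348885) (nat_lit 152) (nat_lit 7953209828) (nat_lit 0) (nat_lit 20020934609) (nat_lit 15) (nat_lit 5) (nat_lit 17) (nat_lit 4) (nat_lit 15) (nat_lit 4) (nat_lit 484) (nat_lit 326) (nat_lit 210)) (XT.lf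 (nat_lit 0) (nat_lit 8224535726) (nat_lit 76) (nat_lit 41283440443) (nat_lit 76) (nat_lit 20776028997) (nat_lit 14) (nat_lit 4) (nat_lit 15) (nat_lit 5) (nat_lit 15) (nat_lit 4) (nat_lit 485) (nat_lit 326) (nat_lit 209)))) (XT.nd (nat_lit 156) (nat_lit 152) (nat_lit 0) (XT.nd (nat_lit 78) (nat_lit 0) (nat_lit 0) (XT.lf (nat_lit 0) (nat_lit 25021640525) (nat_lit 76) (nat_lit 33821392720) (nat_lit 76) (nat_lit 13294566546) (nat_lit 14) (nat_lit 4) (nat_lit 15) (nat_lit 5) (nat_lit 15) (nat_lit 4) (nat_lit 486) (nat_lit 326) (nat_lit 208)) (XT.lf (nat_lit 0) (nat_lit 42294497182) (nat_lit 76) (nat_lit 26149207134) (nat_lit 76) (nat_lit 5603531709) (nat_lit 14) (nat_lit 4) (nat_lit 15) (nat_lit 5) (nat_lit 15) (nat_lit 4) (nat_lit 487) (nat_lit 326) (nat_lit 207))) (XT.nd (nat_lit 78) (nat_lit 76) (nat_lit 0) (XT.lf (nat_lit 0) (nat_lit 2258840481) (nat_lit 152) (nat_lit 15978529492) (nat_lit 76) (nat_lit 57776548142)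 (nat_lit 13) (nat_lit 5) (nat_lit 15) (nat_lit 5) (nat_lit 14) (nat_lit 4) (nat_lit 488) (nat_lit 326) (nat_lit 206)) (XT.lf (nat_lit 0) (nat_lit 190320634) (nat_lit 76) (nat_lit 10042222976) (nat_lit 152) (nat_lit 67805750669) (nat_lit 12) (nat_lit 5) (nat_lit 13) (nat_lit 5) (nat_lit 14) (nat_lit 4) (nat_lit 489) (nat_lit 326) (nat_lit 205))))) (XT.nd (nat_lit 43602) (nat_lit 0) (nat_lit 15732) (XT.nd (nat_lit 43446) (nat_lit 0) (nat_lit 17708) (XT.lf (nat_lit 0) (nat_lit 17145224548) (nat_lit 76) (nat_lit 1447985884) (nat_lit 152) (nat_lit 61525759284) (nat_lit 12) (nat_lit 5) (nat_lit 13) (nat_lit 5) (nat_lit 14) (nat_lit 4) (nat_lit 490) (nat_lit 326) (nat_lit 204)) (XT.nd (nat_lit 78) (nat_lit 0) (nat_lit 0) (XT.lf (nat_lit 0) (nat_lit 25932305) (nat_lit 1292) (nat_lit 3538215910) (nat_lit 0) (nat_lit 25932305) (nat_lit 245) (nat_lit 5) (nat_lit 262) (nat_lit 4) (nat_lit 245) (nat_lit 4) (nat_lit 366)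 (nat_lit 327) (nat_lit 327)) (XT.lf (nat_lit 0) (nat_lit 3511844731) (nat_lit 1292) (nat_lit 1850544143) (nat_lit 0) (nat_lit 1876101916) (nat_lit 245) (nat_lit 5) (nat_lit 262) (nat_lit 4) (nat_lit 245) (nat_lit 4) (nat_lit 367) (nat_lit 327) (nat_lit 326)))) (XT.nd (nat_lit 156) (nat_lit 684) (nat_lit 0) (XT.nd (nat_lit 78) (nat_lit 684) (nat_lit 0) (XT.lf (nat_lit 0) (nat_lit 3495246907) (nat_lit 608) (nat_lit 3514596628) (nat_lit 608) (nat_lit 290753992) (nat_lit 237) (nat_lit 4) (nat_lit 245) (nat_lit 5) (nat_lit 245) (nat_lit 4) (nat_lit 368) (nat_lit 327) (nat_lit 325)) (XT.lf (nat_lit 0) (nat_lit 1568478082) (nat_lit 608) (nat_lit 1551800343) (nat_lit 684) (nat_lit 4245339482) (nat_lit 228) (nat_lit 5) (nat_lit 236) (nat_lit 5) (nat_lit 237) (nat_lit 4) (nat_lit 369) (nat_lit 327) (nat_lit 324))) (XT.nd (nat_lit 78) (nat_lit 684) (nat_lit 0) (XT.lf (nat_lit 0) (nat_lit 6574399593) (nat_lit 684) (nat_lit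 365571427) (nat_lit 0) (nat_lit 494182587) (nat_lit 228) (nat_lit 5) (nat_lit 237) (nat_lit 4) (nat_lit 228) (nat_lit 4) (nat_lit 370) (nat_lit 327) (nat_lit 323)) (XT.lf (nat_lit 0) (nat_lit 2547346474) (nat_lit 684) (nat_lit 2320109784) (nat_lit 76) (nat_lit 2637441213) (nat_lit 219) (nat_lit 5) (nat_lit 228) (nat_lit 5) (nat_lit 220) (nat_lit 4) (nat_lit 371) (nat_lit 327) (nat_lit 322))))))) (XT.nd (nat_lit 1092) (nat_lit 3420) (nat_lit 0) (XT.nd (nat_lit 546) (nat_lit 2660) (nat_lit 0) (XT.nd (nat_lit 234) (nat_lit 1596) (nat_lit 0) (XT.nd (nat_lit 78) (nat_lit 608) (nat_lit 0) (XT.lf (nat_lit 0) (nat_lit 3281364791) (nat_lit 532) (nat_lit 2700160713) (nat_lit 608) (nat_lit 1597763354) (nat_lit 212) (nat_lit 5) (nat_lit 219) (nat_lit 5) (nat_lit 220) (nat_lit 4) (nat_lit 372) (nat_lit 327) (nat_lit 321)) (XT.nd (nat_lit 78) (nat_lit 0) (nat_lit 0) (XT.lf (nat_lit 0) (nat_lit 1344878158) (nat_lit 532) (nat_lit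 425812093) (nat_lit 608) (nat_lit 5886400233) (nat_lit 204) (nat_lit 5) (nat_lit 211) (nat_lit 5) (nat_lit 212) (nat_lit 5) (nat_lit 373) (nat_lit 327) (nat_lit 320)) (XT.lf (nat_lit 0) (nat_lit 5179509104) (nat_lit 608) (nat_lit 633568424) (nat_lit 76) (nat_lit 1924572431) (nat_lit 204) (nat_lit 5) (nat_lit 212) (nat_lit 5) (nat_lit 205) (nat_lit 4) (nat_lit 374) (nat_lit 327) (nat_lit 319)))) (XT.nd (nat_lit 156) (nat_lit 532) (nat_lit 0) (XT.nd (nat_lit 78) (nat_lit 532) (nat_lit 0) (XT.lf (nat_lit 0) (nat_lit 818708447) (nat_lit 532) (nat_lit 2621756096) (nat_lit 76) (nat_lit 4380978023) (nat_lit 197) (nat_lit 5) (nat_lit 204) (nat_lit 5) (nat_lit 198) (nat_lit 5) (nat_lit 375) (nat_lit 327) (nat_lit 318)) (XT.lf (nat_lit 0) (nat_lit 3245670902) (nat_lit 532) (nat_lit 949926447) (nat_lit 608) (nat_lit 3712924899) (nat_lit 190) (nat_lit 5) (nat_lit 197) (nat_lit 5) (nat_lit 198) (nat_lit 5) (nat_lit 376)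 (nat_lit 327) (nat_lit 317))) (XT.nd (nat_lit 78) (nat_lit 76) (nat_lit 0) (XT.lf (nat_lit 0) (nat_lit 1246944220) (nat_lit 456) (nat_lit 6394953164) (nat_lit 532) (nat_lit 357310355) (nat_lit 184) (nat_lit 5) (nat_lit 190) (nat_lit 5) (nat_lit 191) (nat_lit 4) (nat_lit 377) (nat_lit 327) (nat_lit 316)) (XT.lf (nat_lit 0) (nat_lit 3009928675) (nat_lit 532) (nat_lit 808974088) (nat_lit 76) (nat_lit 4273708959) (nat_lit 183) (nat_lit 5) (nat_lit 190) (nat_lit 5) (nat_lit 184) (nat_lit 5) (nat_lit 378) (nat_lit 327) (nat_lit 315))))) (XT.nd (nat_lit 234) (nat_lit 1292) (nat_lit 0) (XT.nd (nat_lit 78) (nat_lit 912) (nat_lit 0) (XT.lf (nat_lit 0) (nat_lit 5308063728) (nat_lit 456) (nat_lit 1130926157) (nat_lit 532) (nat_lit 1750715661) (nat_lit 177) (nat_lit 5) (nat_lit 183) (nat_lit 5) (nat_lit 184) (nat_lit 5) (nat_lit 379) (nat_lit 327) (nat_lit 314)) (XT.nd (nat_lit 78) (nat_lit 456) (nat_lit 0) (XT.lf (nat_lit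 0) (nat_lit 1621788947) (nat_lit 456) (nat_lit 5028399082) (nat_lit 76) (nat_lit 1639869318) (nat_lit 171) (nat_lit 5) (nat_lit 177) (nat_lit 5) (nat_lit 172) (nat_lit 5) (nat_lit 380) (nat_lit 327) (nat_lit 313)) (XT.lf (nat_lit 0) (nat_lit 1142815604) (nat_lit 456) (nat_lit 3887757900) (nat_lit 532) (nat_lit 3363248021) (nat_lit 165) (nat_lit 5) (nat_lit 171) (nat_lit 5) (nat_lit 172) (nat_lit 5) (nat_lit 381) (nat_lit 327) (nat_lit 312)))) (XT.nd (nat_lit 156) (nat_lit 836) (nat_lit 0) (XT.nd (nat_lit 78) (nat_lit 380) (nat_lit 0) (XT.lf (nat_lit 0) (nat_lit 10660456) (nat_lit 532) (nat_lit 1004866745) (nat_lit 76) (nat_lit 7486072396) (nat_lit 164) (nat_lit 5) (nat_lit 171) (nat_lit 5) (nat_lit 165) (nat_lit 5) (nat_lit 382) (nat_lit 327) (nat_lit 311)) (XT.lf (nat_lit 0) (nat_lit 3410947120) (nat_lit 456) (nat_lit 3234964056) (nat_lit 76) (nat_lit 1965946100) (nat_lit 159) (nat_lit 5) (nat_lit 165) (nat_lit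 5) (nat_lit 160) (nat_lit 5) (nat_lit 383) (nat_lit 327) (nat_lit 310))) (XT.nd (nat_lit 78) (nat_lit 456) (nat_lit 0) (XT.lf (nat_lit 0) (nat_lit 3192738250) (nat_lit 380) (nat_lit 3694151189) (nat_lit 456) (nat_lit 1839351029) (nat_lit 154) (nat_lit 5) (nat_lit 159) (nat_lit 5) (nat_lit 160) (nat_lit 5) (nat_lit 384) (nat_lit 327) (nat_lit 309)) (XT.lf (nat_lit 0) (nat_lit 933275345) (nat_lit 380) (nat_lit 623197579) (nat_lit 456) (nat_lit 7288187123) (nat_lit 148) (nat_lit 5) (nat_lit 153) (nat_lit 5) (nat_lit 154) (nat_lit 5) (nat_lit 385) (nat_lit 327) (nat_lit 308)))))) (XT.nd (nat_lit 546) (nat_lit 1596) (nat_lit 0) (XT.nd (nat_lit 234) (nat_lit 1064) (nat_lit 0) (XT.nd (nat_lit 78) (nat_lit 760) (nat_lit 0) (XT.lf (nat_lit 0) (nat_lit 5022133691) (nat_lit 456) (nat_lit 1407151063) (nat_lit 76) (nat_lit 2536678071) (nat_lit 148) (nat_lit 5) (nat_lit 154) (nat_lit 5) (nat_lit 149) (nat_lit 5) (nat_lit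 386) (nat_lit 327) (nat_lit 307)) (XT.nd (nat_lit 78) (nat_lit 380) (nat_lit 0) (XT.lf (nat_lit 0) (nat_lit 5285782790) (nat_lit 380) (nat_lit 3289258576) (nat_lit 456) (nat_lit 516389171) (nat_lit 143) (nat_lit 5) (nat_lit 148) (nat_lit 5) (nat_lit 149) (nat_lit 5) (nat_lit 387) (nat_lit 327) (nat_lit 306)) (XT.lf (nat_lit 0) (nat_lit 2911956063) (nat_lit 304) (nat_lit 12165946) (nat_lit 380) (nat_lit 6296622126) (nat_lit 138) (nat_lit 5) (nat_lit 142) (nat_lit 5) (nat_lit 143) (nat_lit 5) (nat_lit 388) (nat_lit 327) (nat_lit 305)))) (XT.nd (nat_lit 156) (nat_lit 608) (nat_lit 0) (XT.nd (nat_lit 78) (nat_lit 76) (nat_lit 0) (XT.lf (nat_lit 0) (nat_lit 421986161) (nat_lit 380) (nat_lit 6038247852) (nat_lit 456) (nat_lit 2893488925) (nat_lit 133) (nat_lit 5) (nat_lit 138) (nat_lit 5) (nat_lit 139) (nat_lit 5) (nat_lit 389) (nat_lit 327) (nat_lit 304)) (XT.lf (nat_lit 0) (nat_lit 592212591) (nat_lit 456) (nat_lit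 2116573084) (nat_lit 76) (nat_lit 6781977518) (nat_lit 132) (nat_lit 5) (nat_lit 138) (nat_lit 5) (nat_lit 133) (nat_lit 5) (nat_lit 390) (nat_lit 327) (nat_lit 303))) (XT.nd (nat_lit 78) (nat_lit 304) (nat_lit 0) (XT.lf (nat_lit 0) (nat_lit 4108532655) (nat_lit 380) (nat_lit 4771865385) (nat_lit 76) (nat_lit 751151288) (nat_lit 128) (nat_lit 5) (nat_lit 133) (nat_lit 5) (nat_lit 129) (nat_lit 5) (nat_lit 391) (nat_lit 327) (nat_lit 302)) (XT.lf (nat_lit 0) (nat_lit 2226227651) (nat_lit 304) (nat_lit 5504727095) (nat_lit 380) (nat_lit 2045605575) (nat_lit 124) (nat_lit 5) (nat_lit 128) (nat_lit 5) (nat_lit 129) (nat_lit 5) (nat_lit 392) (nat_lit 327) (nat_lit 301))))) (XT.nd (nat_lit 312) (nat_lit 608) (nat_lit 0) (XT.nd (nat_lit 156) (nat_lit 608) (nat_lit 0) (XT.nd (nat_lit 78) (nat_lit 304) (nat_lit 0) (XT.lf (nat_lit 0) (nat_lit 1485966618) (nat_lit 380) (nat_lit 510898720) (nat_lit 76) (nat_lit 7929237414)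 (nat_lit 123) (nat_lit 5) (nat_lit 128) (nat_lit 5) (nat_lit 124) (nat_lit 5) (nat_lit 393) (nat_lit 327) (nat_lit 300)) (XT.lf (nat_lit 0) (nat_lit 5096479557) (nat_lit 380) (nat_lit 3344712234) (nat_lit 76) (nat_lit 1637926794) (nat_lit 119) (nat_lit 5) (nat_lit 124) (nat_lit 5) (nat_lit 120) (nat_lit 5) (nat_lit 394) (nat_lit 327) (nat_lit 299))) (XT.nd (nat_lit 78) (nat_lit 304) (nat_lit 0) (XT.lf (nat_lit 0) (nat_lit 3926835382) (nat_lit 304) (nat_lit 4885028055) (nat_lit 380) (nat_lit 1424982247) (nat_lit 115) (nat_lit 5) (nat_lit 119) (nat_lit 5) (nat_lit 120) (nat_lit 5) (nat_lit 395) (nat_lit 327) (nat_lit 298)) (XT.lf (nat_lit 0) (nat_lit 982838796) (nat_lit 228) (nat_lit 1190555325) (nat_lit 304) (nat_lit 8225950471) (nat_lit 111) (nat_lit 5) (nat_lit 114) (nat_lit 5) (nat_lit 115) (nat_lit 5) (nat_lit 396) (nat_lit 327) (nat_lit 297)))) (XT.nd (nat_lit 156) (nat_lit 304) (nat_lit 0) (XT.nd (nat_lit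 78) (nat_lit 304) (nat_lit 0) (XT.lf (nat_lit 0) (nat_lit 5875311327) (nat_lit 304) (nat_lit 2082769537) (nat_lit 76) (nat_lit 2607503408) (nat_lit 111) (nat_lit 5) (nat_lit 115) (nat_lit 5) (nat_lit 112) (nat_lit 5) (nat_lit 397) (nat_lit 327) (nat_lit 296)) (XT.lf (nat_lit 0) (nat_lit 5466928048) (nat_lit 304) (nat_lit 4222343810) (nat_lit 380) (nat_lit 1047525220) (nat_lit 107) (nat_lit 5) (nat_lit 111) (nat_lit 5) (nat_lit 112) (nat_lit 5) (nat_lit 398) (nat_lit 327) (nat_lit 295))) (XT.nd (nat_lit 78) (nat_lit 0) (nat_lit 0) (XT.lf (nat_lit 0) (nat_lit 2292584357) (nat_lit 228) (nat_lit 339340861) (nat_lit 304) (nat_lit 8281049902) (nat_lit 103) (nat_lit 5) (nat_lit 106) (nat_lit 5) (nat_lit 107) (nat_lit 5) (nat_lit 399) (nat_lit 327) (nat_lit 294)) (XT.lf (nat_lit 0) (nat_lit 6427093790) (nat_lit 304) (nat_lit 1048788317) (nat_lit 76) (nat_lit 3617467779) (nat_lit 103) (nat_lit 5) (nat_lit 107) (nat_lit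 5) (nat_lit 104) (nat_lit 5) (nat_lit 400) (nat_lit 327) (nat_lit 293))))))))
noncomputable def xc70 : XT := (XT.nd (nat_lit 2184) (nat_lit 1976) (nat_lit 0) (XT.nd (nat_lit 1092) (nat_lit 1368) (nat_lit 0) (XT.nd (nat_lit 546) (nat_lit 1140) (nat_lit 0) (XT.nd (nat_lit 234) (nat_lit 760) (nat_lit 0) (XT.nd (nat_lit 78) (nat_lit 304) (nat_lit 0) (XT.lf (nat_lit 0) (nat_lit 6782048740) (nat_lit 228) (nat_lit 3561906145) (nat_lit 304) (nat_lit 934959667) (nat_lit 100) (nat_lit 5) (nat_lit 103) (nat_lit 5) (nat_lit 104) (nat_lit 5) (nat_lit 401) (nat_lit 327) (nat_lit 292)) (XT.nd (nat_lit 78) (nat_lit 0) (nat_lit 0) (XT.lf (nat_lit 0) (nat_lit 2838707414) (nat_lit 304) (nat_lit 8135087382) (nat_lit 76) (nat_lit 495810186) (nat_lit 96) (nat_lit 5) (nat_lit 100) (nat_lit 5) (nat_lit 97) (nat_lit 5) (nat_lit 402) (nat_lit 327) (nat_lit 291)) (XT.lf (nat_lit 0) (nat_lit 6727928006) (nat_lit 304) (nat_lit 314263119)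 (nat_lit 76) (nat_lit 4622925843) (nat_lit 96) (nat_lit 5) (nat_lit 100) (nat_lit 5) (nat_lit 97) (nat_lit 5) (nat_lit 403) (nat_lit 327) (nat_lit 290)))) (XT.nd (nat_lit 156) (nat_lit 228) (nat_lit 0) (XT.nd (nat_lit 78) (nat_lit 304) (nat_lit 0) (XT.lf (nat_lit 0) (nat_lit 7798547988) (nat_lit 228) (nat_lit 2951998668) (nat_lit 304) (nat_lit 1115458258) (nat_lit 93) (nat_lit 5) (nat_lit 96) (nat_lit 5) (nat_lit 97) (nat_lit 5) (nat_lit 404) (nat_lit 327) (nat_lit 289)) (XT.lf (nat_lit 0) (nat_lit 2762387089) (nat_lit 304) (nat_lit 8039950414) (nat_lit 76) (nat_lit 1269884769) (nat_lit 89) (nat_lit 5) (nat_lit 93) (nat_lit 5) (nat_lit 90) (nat_lit 5) (nat_lit 405) (nat_lit 327) (nat_lit 288))) (XT.nd (nat_lit 78) (nat_lit 0) (nat_lit 0) (XT.lf (nat_lit 0) (nat_lit 39576518) (nat_lit 228) (nat_lit 6708061254) (nat_lit 304) (nat_lit 5536263572) (nat_lit 86) (nat_lit 5) (nat_lit 89) (nat_lit 5) (nat_lit 90) (nat_lit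 5) (nat_lit 406) (nat_lit 327) (nat_lit 287)) (XT.lf (nat_lit 0) (nat_lit 8431741901) (nat_lit 228) (nat_lit 2445061913) (nat_lit 304) (nat_lit 1624407117) (nat_lit 86) (nat_lit 5) (nat_lit 89) (nat_lit 5) (nat_lit 90) (nat_lit 5) (nat_lit 407) (nat_lit 327) (nat_lit 286))))) (XT.nd (nat_lit 234) (nat_lit 684) (nat_lit 0) (XT.nd (nat_lit 78) (nat_lit 228) (nat_lit 0) (XT.lf (nat_lit 0) (nat_lit 2362649828) (nat_lit 228) (nat_lit 8424901000) (nat_lit 76) (nat_lit 1936662602) (nat_lit 83) (nat_lit 5) (nat_lit 86) (nat_lit 5) (nat_lit 84) (nat_lit 5) (nat_lit 408) (nat_lit 327) (nat_lit 285)) (XT.nd (nat_lit 78) (nat_lit 228) (nat_lit 0) (XT.lf (nat_lit 0) (nat_lit 6447030171) (nat_lit 228) (nat_lit 84110972) (nat_lit 76) (nat_lit 6421981500) (nat_lit 83) (nat_lit 5) (nat_lit 86) (nat_lit 5) (nat_lit 84) (nat_lit 5) (nat_lit 409) (nat_lit 327) (nat_lit 284)) (XT.lf (nat_lit 0) (nat_lit 8583805073) (nat_lit 228)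 (nat_lit 2098913329) (nat_lit 304) (nat_lit 2505327100) (nat_lit 80) (nat_lit 5) (nat_lit 83) (nat_lit 5) (nat_lit 84) (nat_lit 5) (nat_lit 410) (nat_lit 327) (nat_lit 283)))) (XT.nd (nat_lit 156) (nat_lit 456) (nat_lit 0) (XT.nd (nat_lit 78) (nat_lit 0) (nat_lit 0) (XT.lf (nat_lit 0) (nat_lit 1594117525) (nat_lit 228) (nat_lit 9397545935) (nat_lit 76) (nat_lit 2437590440) (nat_lit 77) (nat_lit 5) (nat_lit 80) (nat_lit 5) (nat_lit 78) (nat_lit 5) (nat_lit 411) (nat_lit 327) (nat_lit 282)) (XT.lf (nat_lit 0) (nat_lit 5780698742) (nat_lit 228) (nat_lit 792368059) (nat_lit 76) (nat_lit 7103461203) (nat_lit 77) (nat_lit 5) (nat_lit 80) (nat_lit 5) (nat_lit 78) (nat_lit 5) (nat_lit 412) (nat_lit 327) (nat_lit 281))) (XT.nd (nat_lit 78) (nat_lit 228) (nat_lit 0) (XT.lf (nat_lit 0) (nat_lit 8141351984) (nat_lit 228) (nat_lit 1978107779) (nat_lit 304) (nat_lit 3810971686) (nat_lit 74) (nat_lit 5) (nat_lit 77) (nat_lit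 5) (nat_lit 78) (nat_lit 5) (nat_lit 413) (nat_lit 327) (nat_lit 280)) (XT.lf (nat_lit 0) (nat_lit 401935919) (nat_lit 228) (nat_lit 11082505876) (nat_lit 76) (nat_lit 2707006770) (nat_lit 71) (nat_lit 5) (nat_lit 74) (nat_lit 5) (nat_lit 72) (nat_lit 5) (nat_lit 414) (nat_lit 327) (nat_lit 279)))))) (XT.nd (nat_lit 546) (nat_lit 608) (nat_lit 0) (XT.nd (nat_lit 234) (nat_lit 456) (nat_lit 0) (XT.nd (nat_lit 78) (nat_lit 304) (nat_lit 0) (XT.lf (nat_lit 0) (nat_lit 4692031051) (nat_lit 228) (nat_lit 2212819427) (nat_lit 76) (nat_lit 7553499692) (nat_lit 71) (nat_lit 5) (nat_lit 74) (nat_lit 5) (nat_lit 72) (nat_lit 5) (nat_lit 415) (nat_lit 327) (nat_lit 278)) (XT.nd (nat_lit 78) (nat_lit 152) (nat_lit 0) (XT.lf (nat_lit 0) (nat_lit 6972653636) (nat_lit 152) (nat_lit 2155467495) (nat_lit 228) (nat_lit 5604626559) (nat_lit 69) (nat_lit 5) (nat_lit 71) (nat_lit 5) (nat_lit 72) (nat_lit 5) (nat_lit 416) (nat_lit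 327) (nat_lit 277)) (XT.lf (nat_lit 0) (nat_lit 1378061071) (nat_lit 152) (nat_lit 12331893059) (nat_lit 228) (nat_lit 1305050606) (nat_lit 67) (nat_lit 5) (nat_lit 69) (nat_lit 5) (nat_lit 70) (nat_lit 4) (nat_lit 417) (nat_lit 327) (nat_lit 276)))) (XT.nd (nat_lit 156) (nat_lit 228) (nat_lit 0) (XT.nd (nat_lit 78) (nat_lit 152) (nat_lit 0) (XT.lf (nat_lit 0) (nat_lit 3113708751) (nat_lit 228) (nat_lit 4492874427) (nat_lit 76) (nat_lit 7696718133) (nat_lit 66) (nat_lit 5) (nat_lit 69) (nat_lit 5) (nat_lit 67) (nat_lit 5) (nat_lit 418) (nat_lit 327) (nat_lit 275)) (XT.lf (nat_lit 0) (nat_lit 4924428032) (nat_lit 152) (nat_lit 2713814348) (nat_lit 228) (nat_lit 7961640291) (nat_lit 64) (nat_lit 5) (nat_lit 66) (nat_lit 5) (nat_lit 67) (nat_lit 5) (nat_lit 419) (nat_lit 327) (nat_lit 274))) (XT.nd (nat_lit 78) (nat_lit 228) (nat_lit 0) (XT.lf (nat_lit 0) (nat_lit 12319037593) (nat_lit 228) (nat_lit 1294970034)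 (nat_lit 76) (nat_lit 2290744659) (nat_lit 64) (nat_lit 5) (nat_lit 67) (nat_lit 5) (nat_lit 65) (nat_lit 4) (nat_lit 420) (nat_lit 327) (nat_lit 273)) (XT.lf (nat_lit 0) (nat_lit 965679332) (nat_lit 228) (nat_lit 7804036111) (nat_lit 76) (nat_lit 7446927847) (nat_lit 61) (nat_lit 5) (nat_lit 64) (nat_lit 5) (nat_lit 62) (nat_lit 5) (nat_lit 421) (nat_lit 327) (nat_lit 272))))) (XT.nd (nat_lit 234) (nat_lit 304) (nat_lit 0) (XT.nd (nat_lit 78) (nat_lit 152) (nat_lit 0) (XT.lf (nat_lit 0) (nat_lit 1818133632) (nat_lit 152) (nat_lit 3747941871) (nat_lit 228) (nat_lit 10971220591) (nat_lit 59) (nat_lit 5) (nat_lit 61) (nat_lit 5) (nat_lit 62) (nat_lit 5) (nat_lit 422) (nat_lit 327) (nat_lit 271)) (XT.nd (nat_lit 78) (nat_lit 152) (nat_lit 0) (XT.lf (nat_lit 0) (nat_lit 10351827040) (nat_lit 228) (nat_lit 5073129835) (nat_lit 76) (nat_lit 1441197150) (nat_lit 59) (nat_lit 5) (nat_lit 62) (nat_lit 5) (nat_lit 60)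 (nat_lit 4) (nat_lit 423) (nat_lit 327) (nat_lit 270)) (XT.lf (nat_lit 0) (nat_lit 4839617886) (nat_lit 152) (nat_lit 10480565603) (nat_lit 228) (nat_lit 1883528911) (nat_lit 57) (nat_lit 5) (nat_lit 59) (nat_lit 5) (nat_lit 60) (nat_lit 4) (nat_lit 424) (nat_lit 327) (nat_lit 269)))) (XT.nd (nat_lit 156) (nat_lit 76) (nat_lit 0) (XT.nd (nat_lit 78) (nat_lit 152) (nat_lit 0) (XT.lf (nat_lit 0) (nat_lit 2837107506) (nat_lit 228) (nat_lit 2504472175) (nat_lit 76) (nat_lit 12208773849) (nat_lit 56) (nat_lit 5) (nat_lit 59) (nat_lit 5) (nat_lit 57) (nat_lit 5) (nat_lit 425) (nat_lit 327) (nat_lit 268)) (XT.lf (nat_lit 0) (nat_lit 7692484791) (nat_lit 228) (nat_lit 10201163858) (nat_lit 76) (nat_lit 12261611) (nat_lit 54) (nat_lit 5) (nat_lit 57) (nat_lit 5) (nat_lit 55) (nat_lit 4) (nat_lit 426) (nat_lit 327) (nat_lit 267))) (XT.nd (nat_lit 78) (nat_lit 76) (nat_lit 0) (XT.lf (nat_lit 0) (nat_lit 12728933945) (nat_lit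 228) (nat_lit 130894435) (nat_lit 76) (nat_lit 5411248039) (nat_lit 54) (nat_lit 5) (nat_lit 57) (nat_lit 5) (nat_lit 55) (nat_lit 4) (nat_lit 427) (nat_lit 327) (nat_lit 266)) (XT.lf (nat_lit 0) (nat_lit 10368110118) (nat_lit 76) (nat_lit 7606266962) (nat_lit 152) (nat_lit 671088366) (nat_lit 53) (nat_lit 5) (nat_lit 54) (nat_lit 5) (nat_lit 55) (nat_lit 4) (nat_lit 428) (nat_lit 327) (nat_lit 265))))))) (XT.nd (nat_lit 1092) (nat_lit 836) (nat_lit 0) (XT.nd (nat_lit 546) (nat_lit 532) (nat_lit 0) (XT.nd (nat_lit 234) (nat_lit 304) (nat_lit 0) (XT.nd (nat_lit 78) (nat_lit 76) (nat_lit 0) (XT.lf (nat_lit 0) (nat_lit 2076670206) (nat_lit 152) (nat_lit 2164234830) (nat_lit 228) (nat_lit 14789543932) (nat_lit 50) (nat_lit 5) (nat_lit 52) (nat_lit 5) (nat_lit 53) (nat_lit 5) (nat_lit 429) (nat_lit 327) (nat_lit 264)) (XT.nd (nat_lit 78) (nat_lit 76) (nat_lit 0) (XT.lf (nat_lit 0) (nat_lit 9362746086) (nat_lit 228)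 (nat_lit 6629985793) (nat_lit 76) (nat_lit 3431775985) (nat_lit 50) (nat_lit 5) (nat_lit 53) (nat_lit 5) (nat_lit 51) (nat_lit 4) (nat_lit 430) (nat_lit 327) (nat_lit 263)) (XT.lf (nat_lit 0) (nat_lit 3986133069) (nat_lit 76) (nat_lit 10671549530) (nat_lit 152) (nat_lit 5172127072) (nat_lit 49) (nat_lit 5) (nat_lit 50) (nat_lit 5) (nat_lit 51) (nat_lit 4) (nat_lit 431) (nat_lit 327) (nat_lit 262)))) (XT.nd (nat_lit 156) (nat_lit 76) (nat_lit 0) (XT.nd (nat_lit 78) (nat_lit 228) (nat_lit 0) (XT.lf (nat_lit 0) (nat_lit 14983623040) (nat_lit 76) (nat_lit 5154961051) (nat_lit 152) (nat_lit 107877158) (nat_lit 49) (nat_lit 5) (nat_lit 50) (nat_lit 5) (nat_lit 51) (nat_lit 4) (nat_lit 432) (nat_lit 327) (nat_lit 261)) (XT.lf (nat_lit 0) (nat_lit 5029399368) (nat_lit 228) (nat_lit 15055069778) (nat_lit 76) (nat_lit 589050674) (nat_lit 46) (nat_lit 5) (nat_lit 49) (nat_lit 5) (nat_lit 47) (nat_lit 4) (nat_lit 433) (nat_lit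 327) (nat_lit 260))) (XT.nd (nat_lit 78) (nat_lit 76) (nat_lit 0) (XT.lf (nat_lit 0) (nat_lit 10384420292) (nat_lit 228) (nat_lit 4302192693) (nat_lit 76) (nat_lit 6424775157) (nat_lit 46) (nat_lit 5) (nat_lit 49) (nat_lit 5) (nat_lit 47) (nat_lit 4) (nat_lit 434) (nat_lit 327) (nat_lit 259)) (XT.lf (nat_lit 0) (nat_lit 6836952872) (nat_lit 76) (nat_lit 9091077980) (nat_lit 152) (nat_lit 5633527244) (nat_lit 45) (nat_lit 5) (nat_lit 46) (nat_lit 5) (nat_lit 47) (nat_lit 4) (nat_lit 435) (nat_lit 327) (nat_lit 258))))) (XT.nd (nat_lit 234) (nat_lit 304) (nat_lit 0) (XT.nd (nat_lit 78) (nat_lit 228) (nat_lit 0) (XT.lf (nat_lit 0) (nat_lit 18329415770) (nat_lit 76) (nat_lit 3314632423) (nat_lit 152) (nat_lit 381005647) (nat_lit 45) (nat_lit 5) (nat_lit 46) (nat_lit 5) (nat_lit 47) (nat_lit 4) (nat_lit 436) (nat_lit 327) (nat_lit 257)) (XT.nd (nat_lit 78) (nat_lit 0) (nat_lit 0) (XT.lf (nat_lit 0) (nat_lit 4994578934)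 (nat_lit 228) (nat_lit 14827820136) (nat_lit 76) (nat_lit 2676699849) (nat_lit 42) (nat_lit 5) (nat_lit 45) (nat_lit 5) (nat_lit 43) (nat_lit 4) (nat_lit 437) (nat_lit 327) (nat_lit 256)) (XT.lf (nat_lit 0) (nat_lit 10557784037) (nat_lit 228) (nat_lit 3636142366) (nat_lit 76) (nat_lit 8792308787) (nat_lit 42) (nat_lit 5) (nat_lit 45) (nat_lit 5) (nat_lit 43) (nat_lit 4) (nat_lit 438) (nat_lit 327) (nat_lit 255)))) (XT.nd (nat_lit 156) (nat_lit 228) (nat_lit 0) (XT.nd (nat_lit 78) (nat_lit 0) (nat_lit 0) (XT.lf (nat_lit 0) (nat_lit 7981106740) (nat_lit 76) (nat_lit 8348065297) (nat_lit 152) (nat_lit 7157578147) (nat_lit 41) (nat_lit 5) (nat_lit 42) (nat_lit 5) (nat_lit 43) (nat_lit 4) (nat_lit 439) (nat_lit 327) (nat_lit 254)) (XT.lf (nat_lit 0) (nat_lit 19956137805) (nat_lit 76) (nat_lit 2319253817) (nat_lit 152) (nat_lit 1726841452) (nat_lit 41) (nat_lit 5) (nat_lit 42) (nat_lit 5) (nat_lit 43) (nat_lit 4)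 (nat_lit 440) (nat_lit 327) (nat_lit 253))) (XT.nd (nat_lit 78) (nat_lit 0) (nat_lit 0) (XT.lf (nat_lit 0) (nat_lit 3870296002) (nat_lit 228) (nat_lit 16760689158) (nat_lit 76) (nat_lit 3898715121) (nat_lit 38) (nat_lit 5) (nat_lit 41) (nat_lit 5) (nat_lit 39) (nat_lit 4) (nat_lit 441) (nat_lit 327) (nat_lit 252)) (XT.lf (nat_lit 0) (nat_lit 9630624776) (nat_lit 228) (nat_lit 5154887463) (nat_lit 76) (nat_lit 10286069670) (nat_lit 38) (nat_lit 5) (nat_lit 41) (nat_lit 5) (nat_lit 39) (nat_lit 4) (nat_lit 442) (nat_lit 327) (nat_lit 251)))))) (XT.nd (nat_lit 546) (nat_lit 456) (nat_lit 0) (XT.nd (nat_lit 234) (nat_lit 76) (nat_lit 0) (XT.nd (nat_lit 78) (nat_lit 228) (nat_lit 0) (XT.lf (nat_lit 0) (nat_lit 6870864072) (nat_lit 76) (nat_lit 8725703501) (nat_lit 152) (nat_lit 10032171079) (nat_lit 37) (nat_lit 5) (nat_lit 38) (nat_lit 5) (nat_lit 39) (nat_lit 4) (nat_lit 443) (nat_lit 327) (nat_lit 250)) (XT.nd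 (nat_lit 78) (nat_lit 228) (nat_lit 0) (XT.lf (nat_lit 0) (nat_lit 19301369556) (nat_lit 76) (nat_lit 2459305814) (nat_lit 152) (nat_lit 4441361838) (nat_lit 37) (nat_lit 5) (nat_lit 38) (nat_lit 5) (nat_lit 39) (nat_lit 4) (nat_lit 444) (nat_lit 327) (nat_lit 249)) (XT.lf (nat_lit 0) (nat_lit 1349368464) (nat_lit 228) (nat_lit 21487022787) (nat_lit 76) (nat_lit 3954029196) (nat_lit 34) (nat_lit 5) (nat_lit 37) (nat_lit 5) (nat_lit 35) (nat_lit 4) (nat_lit 445) (nat_lit 327) (nat_lit 248)))) (XT.nd (nat_lit 156) (nat_lit 0) (nat_lit 0) (XT.nd (nat_lit 78) (nat_lit 76) (nat_lit 0) (XT.lf (nat_lit 0) (nat_lit 7287140263) (nat_lit 228) (nat_lit 9508967249) (nat_lit 76) (nat_lit 10597153338) (nat_lit 34) (nat_lit 5) (nat_lit 37) (nat_lit 5) (nat_lit 35) (nat_lit 4) (nat_lit 446) (nat_lit 327) (nat_lit 247)) (XT.lf (nat_lit 0) (nat_lit 2824684634) (nat_lit 76) (nat_lit 10574313037) (nat_lit 152) (nat_lit 14615312630)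 (nat_lit 33) (nat_lit 5) (nat_lit 34) (nat_lit 5) (nat_lit 35) (nat_lit 4) (nat_lit 447) (nat_lit 327) (nat_lit 246))) (XT.nd (nat_lit 78) (nat_lit 0) (nat_lit 0) (XT.lf (nat_lit 0) (nat_lit 15664982600) (nat_lit 76) (nat_lit 4094398428) (nat_lit 152) (nat_lit 8892657441) (nat_lit 33) (nat_lit 5) (nat_lit 34) (nat_lit 5) (nat_lit 35) (nat_lit 4) (nat_lit 448) (nat_lit 327) (nat_lit 245)) (XT.lf (nat_lit 0) (nat_lit 26305166436) (nat_lit 152) (nat_lit 500443769) (nat_lit 0) (nat_lit 2503452831) (nat_lit 33) (nat_lit 5) (nat_lit 35) (nat_lit 4) (nat_lit 33) (nat_lit 4) (nat_lit 449) (nat_lit 327) (nat_lit 244))))) (XT.nd (nat_lit 312) (nat_lit 228) (nat_lit 0) (XT.nd (nat_lit 156) (nat_lit 76) (nat_lit 0) (XT.nd (nat_lit 78) (nat_lit 0) (nat_lit 0) (XT.lf (nat_lit 0) (nat_lit 3134536062) (nat_lit 152) (nat_lit 17503836923) (nat_lit 76) (nat_lit 9342562105) (nat_lit 31) (nat_lit 5) (nat_lit 33) (nat_lit 5) (nat_lit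 32) (nat_lit 4) (nat_lit 450) (nat_lit 327) (nat_lit 243)) (XT.lf (nat_lit 0) (nat_lit 9372556680) (nat_lit 152) (nat_lit 4903986645) (nat_lit 76) (nat_lit 16396255501) (nat_lit 31) (nat_lit 5) (nat_lit 33) (nat_lit 5) (nat_lit 32) (nat_lit 4) (nat_lit 451) (nat_lit 327) (nat_lit 242))) (XT.nd (nat_lit 78) (nat_lit 0) (nat_lit 0) (XT.lf (nat_lit 0) (nat_lit 8179481618) (nat_lit 76) (nat_lit 7668422466) (nat_lit 152) (nat_lit 15536010823) (nat_lit 30) (nat_lit 5) (nat_lit 31) (nat_lit 5) (nat_lit 32) (nat_lit 4) (nat_lit 452) (nat_lit 327) (nat_lit 241)) (XT.lf (nat_lit 0) (nat_lit 21702521481) (nat_lit 76) (nat_lit 836385534) (nat_lit 152) (nat_lit 9576817563) (nat_lit 30) (nat_lit 5) (nat_lit 31) (nat_lit 5) (nat_lit 32) (nat_lit 4) (nat_lit 453) (nat_lit 327) (nat_lit 240)))) (XT.nd (nat_lit 156) (nat_lit 76) (nat_lit 0) (XT.nd (nat_lit 78) (nat_lit 76) (nat_lit 0) (XT.lf (nat_lit 0) (nat_lit 2702406646) (nat_lit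 76) (nat_lit 26786271866) (nat_lit 76) (nat_lit 3379070773) (nat_lit 29) (nat_lit 4) (nat_lit 30) (nat_lit 5) (nat_lit 30) (nat_lit 4) (nat_lit 454) (nat_lit 327) (nat_lit 239)) (XT.lf (nat_lit 0) (nat_lit 3032941107) (nat_lit 152) (nat_lit 17304961018) (nat_lit 76) (nat_lit 13300959035) (nat_lit 28) (nat_lit 5) (nat_lit 30) (nat_lit 5) (nat_lit 29) (nat_lit 4) (nat_lit 455) (nat_lit 327) (nat_lit 238))) (XT.nd (nat_lit 78) (nat_lit 76) (nat_lit 0) (XT.lf (nat_lit 0) (nat_lit 9542687004) (nat_lit 152) (nat_lit 4143216047) (nat_lit 76) (nat_lit 20747002707) (nat_lit 28) (nat_lit 5) (nat_lit 30) (nat_lit 5) (nat_lit 29) (nat_lit 4) (nat_lit 456) (nat_lit 327) (nat_lit 237)) (XT.lf (nat_lit 0) (nat_lit 9550233986) (nat_lit 76) (nat_lit 6763361590) (nat_lit 152) (nat_lit 18935201699) (nat_lit 27) (nat_lit 5) (nat_lit 28) (nat_lit 5) (nat_lit 29) (nat_lit 4) (nat_lit 457) (nat_lit 327) (nat_lit 236))))))))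
noncomputable def xc71 : XT := (XT.nd (nat_lit 2184) (nat_lit 228) (nat_lit 0) (XT.nd (nat_lit 1092) (nat_lit 380) (nat_lit 0) (XT.nd (nat_lit 546) (nat_lit 304) (nat_lit 0) (XT.nd (nat_lit 234) (nat_lit 76) (nat_lit 0) (XT.nd (nat_lit 78) (nat_lit 152) (nat_lit 0) (XT.lf (nat_lit 0) (nat_lit 23307537470) (nat_lit 152) (nat_lit 12401999489) (nat_lit 0) (nat_lit 379033037) (nat_lit 27) (nat_lit 5) (nat_lit 29) (nat_lit 4) (nat_lit 27) (nat_lit 4) (nat_lit 458) (nat_lit 327) (nat_lit 235)) (XT.nd (nat_lit 78) (nat_lit 76) (nat_lit 0) (XT.lf (nat_lit 0) (nat_lit 1201825104) (nat_lit 76) (nat_lit 29362869772) (nat_lit 76) (nat_lit 6387240698) (nat_lit 26) (nat_lit 4) (nat_lit 27) (nat_lit 5) (nat_lit 27) (nat_lit 4) (nat_lit 459) (nat_lit 327) (nat_lit 234)) (XT.lf (nat_lit 0) (nat_lit 295876565) (nat_lit 152) (nat_lit 22420751724) (nat_lit 76) (nat_lit 15121476651) (nat_lit 25) (nat_lit 5) (nat_lit 27) (nat_lit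 5) (nat_lit 26) (nat_lit 4) (nat_lit 460) (nat_lit 327) (nat_lit 233)))) (XT.nd (nat_lit 156) (nat_lit 0) (nat_lit 0) (XT.nd (nat_lit 78) (nat_lit 76) (nat_lit 0) (XT.lf (nat_lit 0) (nat_lit 7026747664) (nat_lit 152) (nat_lit 8801502887) (nat_lit 76) (nat_lit 22921443969) (nat_lit 25) (nat_lit 5) (nat_lit 27) (nat_lit 5) (nat_lit 26) (nat_lit 4) (nat_lit 461) (nat_lit 327) (nat_lit 232)) (XT.lf (nat_lit 0) (nat_lit 5284045174) (nat_lit 76) (nat_lit 8702640315) (nat_lit 152) (nat_lit 25701133496) (nat_lit 24) (nat_lit 5) (nat_lit 25) (nat_lit 5) (nat_lit 26) (nat_lit 4) (nat_lit 462) (nat_lit 327) (nat_lit 231))) (XT.nd (nat_lit 78) (nat_lit 0) (nat_lit 0) (XT.lf (nat_lit 0) (nat_lit 19927637853) (nat_lit 76) (nat_lit 1293265524) (nat_lit 152) (nat_lit 19431220722) (nat_lit 24) (nat_lit 5) (nat_lit 25) (nat_lit 5) (nat_lit 26) (nat_lit 4) (nat_lit 463) (nat_lit 327) (nat_lit 230)) (XT.lf (nat_lit 0) (nat_lit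 28710160633) (nat_lit 152) (nat_lit 6739865168) (nat_lit 0) (nat_lit 6194193514) (nat_lit 24) (nat_lit 5) (nat_lit 26) (nat_lit 4) (nat_lit 24) (nat_lit 4) (nat_lit 464) (nat_lit 327) (nat_lit 229))))) (XT.nd (nat_lit 234) (nat_lit 152) (nat_lit 0) (XT.nd (nat_lit 78) (nat_lit 76) (nat_lit 0) (XT.lf (nat_lit 0) (nat_lit 7760085475) (nat_lit 76) (nat_lit 28729161221) (nat_lit 76) (nat_lit 6174877456) (nat_lit 23) (nat_lit 4) (nat_lit 24) (nat_lit 5) (nat_lit 24) (nat_lit 4) (nat_lit 465) (nat_lit 327) (nat_lit 228)) (XT.nd (nat_lit 78) (nat_lit 0) (nat_lit 0) (XT.lf (nat_lit 0) (nat_lit 818226711) (nat_lit 152) (nat_lit 20930484167) (nat_lit 76) (nat_lit 21964294311) (nat_lit 22) (nat_lit 5) (nat_lit 24) (nat_lit 5) (nat_lit 23) (nat_lit 4) (nat_lit 466) (nat_lit 327) (nat_lit 227)) (XT.lf (nat_lit 0) (nat_lit 7875435446) (nat_lit 152) (nat_lit 6640467547) (nat_lit 76) (nat_lit 30276264115) (nat_lit 22) (nat_lit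 5) (nat_lit 24) (nat_lit 5) (nat_lit 23) (nat_lit 4) (nat_lit 467) (nat_lit 327) (nat_lit 226)))) (XT.nd (nat_lit 156) (nat_lit 76) (nat_lit 0) (XT.nd (nat_lit 78) (nat_lit 0) (nat_lit 0) (XT.lf (nat_lit 0) (nat_lit 8197823363) (nat_lit 76) (nat_lit 7004388472) (nat_lit 152) (nat_lit 30699757661) (nat_lit 21) (nat_lit 5) (nat_lit 22) (nat_lit 5) (nat_lit 23) (nat_lit 4) (nat_lit 468) (nat_lit 327) (nat_lit 225)) (XT.lf (nat_lit 0) (nat_lit 22802641455) (nat_lit 152) (nat_lit 23473809933) (nat_lit 0) (nat_lit 767000186) (nat_lit 21) (nat_lit 5) (nat_lit 23) (nat_lit 4) (nat_lit 21) (nat_lit 4) (nat_lit 469) (nat_lit 327) (nat_lit 224))) (XT.nd (nat_lit 78) (nat_lit 76) (nat_lit 0) (XT.lf (nat_lit 0) (nat_lit 30680132747) (nat_lit 152) (nat_lit 8925173097) (nat_lit 0) (nat_lit 8612401890) (nat_lit 21) (nat_lit 5) (nat_lit 23) (nat_lit 4) (nat_lit 21) (nat_lit 4) (nat_lit 470) (nat_lit 327) (nat_lit 223)) (XT.lf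 (nat_lit 0) (nat_lit 6141653013) (nat_lit 76) (nat_lit 32691622802) (nat_lit 76) (nat_lit 10592737006) (nat_lit 20) (nat_lit 4) (nat_lit 21) (nat_lit 5) (nat_lit 21) (nat_lit 4) (nat_lit 471) (nat_lit 327) (nat_lit 222)))))) (XT.nd (nat_lit 546) (nat_lit 152) (nat_lit 0) (XT.nd (nat_lit 234) (nat_lit 76) (nat_lit 0) (XT.nd (nat_lit 78) (nat_lit 152) (nat_lit 0) (XT.lf (nat_lit 0) (nat_lit 21805699286) (nat_lit 76) (nat_lit 25495941638) (nat_lit 76) (nat_lit 3366808328) (nat_lit 20) (nat_lit 4) (nat_lit 21) (nat_lit 5) (nat_lit 21) (nat_lit 4) (nat_lit 472) (nat_lit 327) (nat_lit 221)) (XT.nd (nat_lit 78) (nat_lit 76) (nat_lit 0) (XT.lf (nat_lit 0) (nat_lit 3977243277) (nat_lit 152) (nat_lit 14084695975) (nat_lit 76) (nat_lit 33885618671) (nat_lit 19) (nat_lit 5) (nat_lit 21) (nat_lit 5) (nat_lit 20) (nat_lit 4) (nat_lit 473) (nat_lit 327) (nat_lit 220)) (XT.lf (nat_lit 0) (nat_lit 1088662887) (nat_lit 76) (nat_lit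 10377186323) (nat_lit 152) (nat_lit 41798434467) (nat_lit 18) (nat_lit 5) (nat_lit 19) (nat_lit 5) (nat_lit 20) (nat_lit 4) (nat_lit 474) (nat_lit 327) (nat_lit 219)))) (XT.nd (nat_lit 156) (nat_lit 76) (nat_lit 0) (XT.nd (nat_lit 78) (nat_lit 0) (nat_lit 0) (XT.lf (nat_lit 0) (nat_lit 16970351638) (nat_lit 76) (nat_lit 2332625410) (nat_lit 152) (nat_lit 35313819153) (nat_lit 18) (nat_lit 5) (nat_lit 19) (nat_lit 5) (nat_lit 20) (nat_lit 4) (nat_lit 475) (nat_lit 327) (nat_lit 218)) (XT.lf (nat_lit 0) (nat_lit 27414455213) (nat_lit 152) (nat_lit 22773551149) (nat_lit 0) (nat_lit 5820701527) (nat_lit 18) (nat_lit 5) (nat_lit 20) (nat_lit 4) (nat_lit 18) (nat_lit 4) (nat_lit 476) (nat_lit 327) (nat_lit 217))) (XT.nd (nat_lit 78) (nat_lit 76) (nat_lit 0) (XT.lf (nat_lit 0) (nat_lit 35774906999) (nat_lit 152) (nat_lit 7511480409) (nat_lit 0) (nat_lit 14155821496) (nat_lit 18) (nat_lit 5) (nat_lit 20) (nat_lit 4)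 (nat_lit 18) (nat_lit 4) (nat_lit 477) (nat_lit 327) (nat_lit 216)) (XT.lf (nat_lit 0) (nat_lit 8338235066) (nat_lit 76) (nat_lit 36111132184) (nat_lit 76) (nat_lit 14467452684) (nat_lit 17) (nat_lit 4) (nat_lit 18) (nat_lit 5) (nat_lit 18) (nat_lit 4) (nat_lit 478) (nat_lit 327) (nat_lit 215))))) (XT.nd (nat_lit 234) (nat_lit 76) (nat_lit 0) (XT.nd (nat_lit 78) (nat_lit 76) (nat_lit 0) (XT.lf (nat_lit 0) (nat_lit 24784816412) (nat_lit 76) (nat_lit 28658319311) (nat_lit 76) (nat_lit 6990762145) (nat_lit 17) (nat_lit 4) (nat_lit 18) (nat_lit 5) (nat_lit 18) (nat_lit 4) (nat_lit 479) (nat_lit 327) (nat_lit 214)) (XT.nd (nat_lit 78) (nat_lit 0) (nat_lit 0) (XT.lf (nat_lit 0) (nat_lit 679919780) (nat_lit 152) (nat_lit 20310502211) (nat_lit 76) (nat_lit 41006355603) (nat_lit 16) (nat_lit 5) (nat_lit 18) (nat_lit 5) (nat_lit 17) (nat_lit 4) (nat_lit 480) (nat_lit 327) (nat_lit 213)) (XT.lf (nat_lit 0) (nat_lit 8424243699)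 (nat_lit 152) (nat_lit 4612031648) (nat_lit 76) (nat_lit 50568671772) (nat_lit 16) (nat_lit 5) (nat_lit 18) (nat_lit 5) (nat_lit 17) (nat_lit 4) (nat_lit 481) (nat_lit 327) (nat_lit 212)))) (XT.nd (nat_lit 156) (nat_lit 0) (nat_lit 0) (XT.nd (nat_lit 78) (nat_lit 0) (nat_lit 0) (XT.lf (nat_lit 0) (nat_lit 11756661639) (nat_lit 76) (nat_lit 4741742027) (nat_lit 152) (nat_lit 48760033588) (nat_lit 15) (nat_lit 5) (nat_lit 16) (nat_lit 5) (nat_lit 17) (nat_lit 4) (nat_lit 482) (nat_lit 327) (nat_lit 211)) (XT.lf (nat_lit 0) (nat_lit 24882884912) (nat_lit 152) (nat_lit 38316353864) (nat_lit 0) (nat_lit 3760251122) (nat_lit 15) (nat_lit 5) (nat_lit 17) (nat_lit 4) (nat_lit 15) (nat_lit 4) (nat_lit 483) (nat_lit 327) (nat_lit 210))) (XT.nd (nat_lit 78) (nat_lit 0) (nat_lit 0) (XT.lf (nat_lit 0) (nat_lit 33550818748) (nat_lit 152) (nat_lit 22751610715) (nat_lit 0) (nat_lit 12408187788) (nat_lit 15) (nat_lit 5) (nat_lit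 17) (nat_lit 4) (nat_lit 15) (nat_lit 4) (nat_lit 484) (nat_lit 327) (nat_lit 209)) (XT.lf (nat_lit 0) (nat_lit 42464198573) (nat_lit 152) (nat_lit 6748365383) (nat_lit 0) (nat_lit 21302152885) (nat_lit 15) (nat_lit 5) (nat_lit 17) (nat_lit 4) (nat_lit 15) (nat_lit 4) (nat_lit 485) (nat_lit 327) (nat_lit 208))))))) (XT.nd (nat_lit 44304) (nat_lit 0) (nat_lit 9956) (XT.nd (nat_lit 43758) (nat_lit 0) (nat_lit 15200) (XT.nd (nat_lit 234) (nat_lit 152) (nat_lit 0) (XT.nd (nat_lit 78) (nat_lit 0) (nat_lit 0) (XT.lf (nat_lit 0) (nat_lit 9900561157) (nat_lit 76) (nat_lit 41825421870) (nat_lit 76) (nat_lit 20644526932) (nat_lit 14) (nat_lit 4) (nat_lit 15) (nat_lit 5) (nat_lit 15) (nat_lit 4) (nat_lit 486) (nat_lit 327) (nat_lit 207)) (XT.nd (nat_lit 78) (nat_lit 0) (nat_lit 0) (XT.lf (nat_lit 0) (nat_lit 27159949314) (nat_lit 76) (nat_lit 34159799758) (nat_lit 76) (nat_lit 12960604576) (nat_lit 14) (nat_lit 4) (nat_lit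 15) (nat_lit 5) (nat_lit 15) (nat_lit 4) (nat_lit 487) (nat_lit 327) (nat_lit 206)) (XT.lf (nat_lit 0) (nat_lit 44910574401) (nat_lit 76) (nat_lit 26277144762) (nat_lit 76) (nat_lit 5060182353) (nat_lit 14) (nat_lit 4) (nat_lit 15) (nat_lit 5) (nat_lit 15) (nat_lit 4) (nat_lit 488) (nat_lit 327) (nat_lit 205)))) (XT.nd (nat_lit 43368) (nat_lit 0) (nat_lit 19000) (XT.nd (nat_lit 78) (nat_lit 76) (nat_lit 0) (XT.lf (nat_lit 0) (nat_lit 3003860308) (nat_lit 152) (nat_lit 15136375717) (nat_lit 76) (nat_lit 60133753267) (nat_lit 13) (nat_lit 5) (nat_lit 15) (nat_lit 5) (nat_lit 14) (nat_lit 4) (nat_lit 489) (nat_lit 327) (nat_lit 204)) (XT.lf (nat_lit 0) (nat_lit 1504583935) (nat_lit 76) (nat_lit 9705043352) (nat_lit 152) (nat_lit 69149684707) (nat_lit 12) (nat_lit 5) (nat_lit 13) (nat_lit 5) (nat_lit 14) (nat_lit 4) (nat_lit 490) (nat_lit 327) (nat_lit 203))) (XT.nd (nat_lit 78) (nat_lit 1140) (nat_lit 0) (XT.lf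 (nat_lit 0) (nat_lit 1009971536) (nat_lit 1140) (nat_lit 1514672877) (nat_lit 0) (nat_lit 1009971536) (nat_lit 277) (nat_lit 5) (nat_lit 292) (nat_lit 4) (nat_lit 277) (nat_lit 4) (nat_lit 364) (nat_lit 328) (nat_lit 328)) (XT.lf (nat_lit 0) (nat_lit 2045250953) (nat_lit 1140) (nat_lit 3406850483) (nat_lit 1140) (nat_lit 1671490931) (nat_lit 262) (nat_lit 4) (nat_lit 277) (nat_lit 5) (nat_lit 277) (nat_lit 4) (nat_lit 365) (nat_lit 328) (nat_lit 327))))) (XT.nd (nat_lit 234) (nat_lit 1824) (nat_lit 0) (XT.nd (nat_lit 78) (nat_lit 684) (nat_lit 0) (XT.lf (nat_lit 0) (nat_lit 35450429) (nat_lit 1216) (nat_lit 1666827935) (nat_lit 1292) (nat_lit 5478941952) (nat_lit 245) (nat_lit 5) (nat_lit 261) (nat_lit 5) (nat_lit 262) (nat_lit 4) (nat_lit 366) (nat_lit 328) (nat_lit 326)) (XT.nd (nat_lit 78) (nat_lit 684) (nat_lit 0) (XT.lf (nat_lit 0) (nat_lit 5097280659) (nat_lit 1292) (nat_lit 1955622257) (nat_lit 0) (nat_lit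 188622924) (nat_lit 245) (nat_lit 5) (nat_lit 262) (nat_lit 4) (nat_lit 245) (nat_lit 4) (nat_lit 367) (nat_lit 328) (nat_lit 325)) (XT.lf (nat_lit 0) (nat_lit 1216879117) (nat_lit 684) (nat_lit 3980237613) (nat_lit 76) (nat_lit 2107655181) (nat_lit 236) (nat_lit 5) (nat_lit 245) (nat_lit 5) (nat_lit 237) (nat_lit 4) (nat_lit 368) (nat_lit 328) (nat_lit 324)))) (XT.nd (nat_lit 156) (nat_lit 1140) (nat_lit 0) (XT.nd (nat_lit 78) (nat_lit 76) (nat_lit 0) (XT.lf (nat_lit 0) (nat_lit 1335526418) (nat_lit 608) (nat_lit 3237362760) (nat_lit 684) (nat_lit 2798323923) (nat_lit 228) (nat_lit 5) (nat_lit 236) (nat_lit 5) (nat_lit 237) (nat_lit 4) (nat_lit 369) (nat_lit 328) (nat_lit 323)) (XT.lf (nat_lit 0) (nat_lit 524208283) (nat_lit 684) (nat_lit 656049497) (nat_lit 76) (nat_lit 6260892287) (nat_lit 227) (nat_lit 5) (nat_lit 236) (nat_lit 5) (nat_lit 228) (nat_lit 5) (nat_lit 370) (nat_lit 328) (nat_lit 322))) (XT.nd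 (nat_lit 78) (nat_lit 532) (nat_lit 0) (XT.lf (nat_lit 0) (nat_lit 3854436180) (nat_lit 684) (nat_lit 2672369352) (nat_lit 76) (nat_lit 986665479) (nat_lit 219) (nat_lit 5) (nat_lit 228) (nat_lit 5) (nat_lit 220) (nat_lit 4) (nat_lit 371) (nat_lit 328) (nat_lit 321)) (XT.lf (nat_lit 0) (nat_lit 2870577047) (nat_lit 532) (nat_lit 4369551249) (nat_lit 608) (nat_lit 349210208) (nat_lit 212) (nat_lit 5) (nat_lit 219) (nat_lit 5) (nat_lit 220) (nat_lit 4) (nat_lit 372) (nat_lit 328) (nat_lit 320)))))) (XT.nd (nat_lit 546) (nat_lit 2584) (nat_lit 0) (XT.nd (nat_lit 234) (nat_lit 1520) (nat_lit 0) (XT.nd (nat_lit 78) (nat_lit 532) (nat_lit 0) (XT.lf (nat_lit 0) (nat_lit 851494778) (nat_lit 532) (nat_lit 2094467057) (nat_lit 608) (nat_lit 4722306038) (nat_lit 204) (nat_lit 5) (nat_lit 211) (nat_lit 5) (nat_lit 212) (nat_lit 5) (nat_lit 373) (nat_lit 328) (nat_lit 319)) (XT.nd (nat_lit 78) (nat_lit 532) (nat_lit 0) (XT.lf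 (nat_lit 0) (nat_lit 6295299764) (nat_lit 608) (nat_lit 1173759479) (nat_lit 76) (nat_lit 281572207) (nat_lit 204) (nat_lit 5) (nat_lit 212) (nat_lit 5) (nat_lit 205) (nat_lit 4) (nat_lit 374) (nat_lit 328) (nat_lit 318)) (XT.lf (nat_lit 0) (nat_lit 1851540888) (nat_lit 532) (nat_lit 3248427161) (nat_lit 76) (nat_lit 2735610237) (nat_lit 197) (nat_lit 5) (nat_lit 204) (nat_lit 5) (nat_lit 198) (nat_lit 5) (nat_lit 375) (nat_lit 328) (nat_lit 317)))) (XT.nd (nat_lit 156) (nat_lit 456) (nat_lit 0) (XT.nd (nat_lit 78) (nat_lit 532) (nat_lit 0) (XT.lf (nat_lit 0) (nat_lit 2554997718) (nat_lit 532) (nat_lit 2624939965) (nat_lit 608) (nat_lit 2744193053) (nat_lit 190) (nat_lit 5) (nat_lit 197) (nat_lit 5) (nat_lit 198) (nat_lit 5) (nat_lit 376) (nat_lit 328) (nat_lit 316)) (XT.lf (nat_lit 0) (nat_lit 484926245) (nat_lit 456) (nat_lit 49816472) (nat_lit 532) (nat_lit 7481856591) (nat_lit 183) (nat_lit 5) (nat_lit 189)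 (nat_lit 5) (nat_lit 190) (nat_lit 5) (nat_lit 377) (nat_lit 328) (nat_lit 315))) (XT.nd (nat_lit 78) (nat_lit 456) (nat_lit 0) (XT.lf (nat_lit 0) (nat_lit 3853625168) (nat_lit 532) (nat_lit 1642862611) (nat_lit 76) (nat_lit 2614670475) (nat_lit 183) (nat_lit 5) (nat_lit 190) (nat_lit 5) (nat_lit 184) (nat_lit 5) (nat_lit 378) (nat_lit 328) (nat_lit 314)) (XT.lf (nat_lit 0) (nat_lit 4406561157) (nat_lit 456) (nat_lit 2827745541) (nat_lit 532) (nat_lit 975412767) (nat_lit 177) (nat_lit 5) (nat_lit 183) (nat_lit 5) (nat_lit 184) (nat_lit 5) (nat_lit 379) (nat_lit 328) (nat_lit 313))))) (XT.nd (nat_lit 312) (nat_lit 1216) (nat_lit 0) (XT.nd (nat_lit 156) (nat_lit 456) (nat_lit 0) (XT.nd (nat_lit 78) (nat_lit 456) (nat_lit 0) (XT.lf (nat_lit 0) (nat_lit 2279426560) (nat_lit 380) (nat_lit 37423187) (nat_lit 456) (nat_lit 5994966413) (nat_lit 171) (nat_lit 5) (nat_lit 176) (nat_lit 5) (nat_lit 177) (nat_lit 5) (nat_lit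 380) (nat_lit 328) (nat_lit 312)) (XT.lf (nat_lit 0) (nat_lit 67287703) (nat_lit 456) (nat_lit 5608776307) (nat_lit 532) (nat_lit 2741018075) (nat_lit 165) (nat_lit 5) (nat_lit 171) (nat_lit 5) (nat_lit 172) (nat_lit 5) (nat_lit 381) (nat_lit 328) (nat_lit 311))) (XT.nd (nat_lit 78) (nat_lit 380) (nat_lit 0) (XT.lf (nat_lit 0) (nat_lit 582131749) (nat_lit 532) (nat_lit 2160829388) (nat_lit 76) (nat_lit 5782891885) (nat_lit 164) (nat_lit 5) (nat_lit 171) (nat_lit 5) (nat_lit 165) (nat_lit 5) (nat_lit 382) (nat_lit 328) (nat_lit 310)) (XT.lf (nat_lit 0) (nat_lit 3916266670) (nat_lit 456) (nat_lit 4473530292) (nat_lit 76) (nat_lit 248311687) (nat_lit 159) (nat_lit 5) (nat_lit 165) (nat_lit 5) (nat_lit 160) (nat_lit 5) (nat_lit 383) (nat_lit 328) (nat_lit 309)))) (XT.nd (nat_lit 156) (nat_lit 760) (nat_lit 0) (XT.nd (nat_lit 78) (nat_lit 76) (nat_lit 0) (XT.lf (nat_lit 0) (nat_lit 1878307576) (nat_lit 380) (nat_lit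 5464274637) (nat_lit 456) (nat_lit 1411411440) (nat_lit 154) (nat_lit 5) (nat_lit 159) (nat_lit 5) (nat_lit 160) (nat_lit 5) (nat_lit 384) (nat_lit 328) (nat_lit 308)) (XT.lf (nat_lit 0) (nat_lit 1930325753) (nat_lit 456) (nat_lit 481700502) (nat_lit 76) (nat_lit 6461647912) (nat_lit 153) (nat_lit 5) (nat_lit 159) (nat_lit 5) (nat_lit 154) (nat_lit 5) (nat_lit 385) (nat_lit 328) (nat_lit 307))) (XT.nd (nat_lit 78) (nat_lit 380) (nat_lit 0) (XT.lf (nat_lit 0) (nat_lit 5337714816) (nat_lit 456) (nat_lit 2894563963) (nat_lit 76) (nat_lit 764458221) (nat_lit 148) (nat_lit 5) (nat_lit 154) (nat_lit 5) (nat_lit 149) (nat_lit 5) (nat_lit 386) (nat_lit 328) (nat_lit 306)) (XT.lf (nat_lit 0) (nat_lit 3718330292) (nat_lit 380) (nat_lit 5121975299) (nat_lit 456) (nat_lit 283420184) (nat_lit 143) (nat_lit 5) (nat_lit 148) (nat_lit 5) (nat_lit 149) (nat_lit 5) (nat_lit 387) (nat_lit 328) (nat_lit 305))))))))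
noncomputable def xc72 : XT := (XT.nd (nat_lit 2184) (nat_lit 2584) (nat_lit 0) (XT.nd (nat_lit 1092) (nat_lit 2204) (nat_lit 0) (XT.nd (nat_lit 546) (nat_lit 1444) (nat_lit 0) (XT.nd (nat_lit 234) (nat_lit 988) (nat_lit 0) (XT.nd (nat_lit 78) (nat_lit 456) (nat_lit 0) (XT.lf (nat_lit 0) (nat_lit 1227420999) (nat_lit 304) (nat_lit 1873883036) (nat_lit 380) (nat_lit 6153216276) (nat_lit 138) (nat_lit 5) (nat_lit 142) (nat_lit 5) (nat_lit 143) (nat_lit 5) (nat_lit 388) (nat_lit 328) (nat_lit 304)) (XT.nd (nat_lit 78) (nat_lit 456) (nat_lit 0) (XT.lf (nat_lit 0) (nat_lit 6580822349) (nat_lit 380) (nat_lit 1336757477) (nat_lit 76) (nat_lit 1471627676) (nat_lit 138) (nat_lit 5) (nat_lit 143) (nat_lit 5) (nat_lit 139) (nat_lit 5) (nat_lit 389) (nat_lit 328) (nat_lit 303)) (XT.lf (nat_lit 0) (nat_lit 627963497) (nat_lit 456) (nat_lit 3988785363) (nat_lit 76) (nat_lit 4910915088) (nat_lit 132) (nat_lit 5) (nat_lit 138)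 (nat_lit 5) (nat_lit 133) (nat_lit 5) (nat_lit 390) (nat_lit 328) (nat_lit 302)))) (XT.nd (nat_lit 156) (nat_lit 380) (nat_lit 0) (XT.nd (nat_lit 78) (nat_lit 304) (nat_lit 0) (XT.lf (nat_lit 0) (nat_lit 2907990740) (nat_lit 304) (nat_lit 1176641449) (nat_lit 380) (nat_lit 5585617114) (nat_lit 128) (nat_lit 5) (nat_lit 132) (nat_lit 5) (nat_lit 133) (nat_lit 5) (nat_lit 391) (nat_lit 328) (nat_lit 301)) (XT.lf (nat_lit 0) (nat_lit 157573870) (nat_lit 304) (nat_lit 7485192700) (nat_lit 380) (nat_lit 2174431753) (nat_lit 124) (nat_lit 5) (nat_lit 128) (nat_lit 5) (nat_lit 129) (nat_lit 5) (nat_lit 392) (nat_lit 328) (nat_lit 300))) (XT.nd (nat_lit 78) (nat_lit 304) (nat_lit 0) (XT.lf (nat_lit 0) (nat_lit 1326726172) (nat_lit 380) (nat_lit 2668338257) (nat_lit 76) (nat_lit 5972710178) (nat_lit 123) (nat_lit 5) (nat_lit 128) (nat_lit 5) (nat_lit 124) (nat_lit 5) (nat_lit 393) (nat_lit 328) (nat_lit 299)) (XT.lf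 (nat_lit 0) (nat_lit 4501667455) (nat_lit 304) (nat_lit 365923048) (nat_lit 380) (nat_lit 5255297995) (nat_lit 119) (nat_lit 5) (nat_lit 123) (nat_lit 5) (nat_lit 124) (nat_lit 5) (nat_lit 394) (nat_lit 328) (nat_lit 298))))) (XT.nd (nat_lit 234) (nat_lit 836) (nat_lit 0) (XT.nd (nat_lit 78) (nat_lit 304) (nat_lit 0) (XT.lf (nat_lit 0) (nat_lit 1559369114) (nat_lit 304) (nat_lit 6965682313) (nat_lit 380) (nat_lit 1757310207) (nat_lit 115) (nat_lit 5) (nat_lit 119) (nat_lit 5) (nat_lit 120) (nat_lit 5) (nat_lit 395) (nat_lit 328) (nat_lit 297)) (XT.nd (nat_lit 78) (nat_lit 228) (nat_lit 0) (XT.lf (nat_lit 0) (nat_lit 1806601032) (nat_lit 380) (nat_lit 1494566271) (nat_lit 76) (nat_lit 7145025446) (nat_lit 114) (nat_lit 5) (nat_lit 119) (nat_lit 5) (nat_lit 115) (nat_lit 5) (nat_lit 396) (nat_lit 328) (nat_lit 296)) (XT.lf (nat_lit 0) (nat_lit 5442223525) (nat_lit 304) (nat_lit 4665513739) (nat_lit 76) (nat_lit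 506691647) (nat_lit 111) (nat_lit 5) (nat_lit 115) (nat_lit 5) (nat_lit 112) (nat_lit 5) (nat_lit 397) (nat_lit 328) (nat_lit 295)))) (XT.nd (nat_lit 156) (nat_lit 456) (nat_lit 0) (XT.nd (nat_lit 78) (nat_lit 76) (nat_lit 0) (XT.lf (nat_lit 0) (nat_lit 2784519849) (nat_lit 304) (nat_lit 6415579711) (nat_lit 380) (nat_lit 1587232110) (nat_lit 107) (nat_lit 5) (nat_lit 111) (nat_lit 5) (nat_lit 112) (nat_lit 5) (nat_lit 398) (nat_lit 328) (nat_lit 294)) (XT.lf (nat_lit 0) (nat_lit 2050542001) (nat_lit 380) (nat_lit 527371082) (nat_lit 76) (nat_lit 8387325500) (nat_lit 106) (nat_lit 5) (nat_lit 111) (nat_lit 5) (nat_lit 107) (nat_lit 5) (nat_lit 399) (nat_lit 328) (nat_lit 293))) (XT.nd (nat_lit 78) (nat_lit 228) (nat_lit 0) (XT.lf (nat_lit 0) (nat_lit 5789061415) (nat_lit 304) (nat_lit 3957820277) (nat_lit 76) (nat_lit 1400437920) (nat_lit 103) (nat_lit 5) (nat_lit 107) (nat_lit 5) (nat_lit 104) (nat_lit 5) (nat_lit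 400) (nat_lit 328) (nat_lit 292)) (XT.lf (nat_lit 0) (nat_lit 3767857354) (nat_lit 228) (nat_lit 5880052908) (nat_lit 304) (nat_lit 1686720973) (nat_lit 100) (nat_lit 5) (nat_lit 103) (nat_lit 5) (nat_lit 104) (nat_lit 5) (nat_lit 401) (nat_lit 328) (nat_lit 291)))))) (XT.nd (nat_lit 546) (nat_lit 912) (nat_lit 0) (XT.nd (nat_lit 234) (nat_lit 760) (nat_lit 0) (XT.nd (nat_lit 78) (nat_lit 228) (nat_lit 0) (XT.lf (nat_lit 0) (nat_lit 168495229) (nat_lit 228) (nat_lit 1868854595) (nat_lit 304) (nat_lit 9490122821) (nat_lit 96) (nat_lit 5) (nat_lit 99) (nat_lit 5) (nat_lit 100) (nat_lit 5) (nat_lit 402) (nat_lit 328) (nat_lit 290)) (XT.nd (nat_lit 78) (nat_lit 228) (nat_lit 0) (XT.lf (nat_lit 0) (nat_lit 5879914723) (nat_lit 304) (nat_lit 3566895793) (nat_lit 76) (nat_lit 2277579817) (nat_lit 96) (nat_lit 5) (nat_lit 100) (nat_lit 5) (nat_lit 97) (nat_lit 5) (nat_lit 403) (nat_lit 328) (nat_lit 289)) (XT.lf (nat_lit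 0) (nat_lit 4434932246) (nat_lit 228) (nat_lit 5407412538) (nat_lit 304) (nat_lit 2084745008) (nat_lit 93) (nat_lit 5) (nat_lit 96) (nat_lit 5) (nat_lit 97) (nat_lit 5) (nat_lit 404) (nat_lit 328) (nat_lit 288)))) (XT.nd (nat_lit 156) (nat_lit 456) (nat_lit 0) (XT.nd (nat_lit 78) (nat_lit 0) (nat_lit 0) (XT.lf (nat_lit 0) (nat_lit 515374294) (nat_lit 228) (nat_lit 1222507261) (nat_lit 304) (nat_lit 10397934627) (nat_lit 89) (nat_lit 5) (nat_lit 92) (nat_lit 5) (nat_lit 93) (nat_lit 5) (nat_lit 405) (nat_lit 328) (nat_lit 287)) (XT.lf (nat_lit 0) (nat_lit 5683453056) (nat_lit 304) (nat_lit 3575607317) (nat_lit 76) (nat_lit 3089630617) (nat_lit 89) (nat_lit 5) (nat_lit 93) (nat_lit 5) (nat_lit 90) (nat_lit 5) (nat_lit 406) (nat_lit 328) (nat_lit 286))) (XT.nd (nat_lit 78) (nat_lit 228) (nat_lit 0) (XT.lf (nat_lit 0) (nat_lit 4700172661) (nat_lit 228) (nat_lit 5050211830) (nat_lit 304) (nat_lit 2817488326) (nat_lit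 86) (nat_lit 5) (nat_lit 89) (nat_lit 5) (nat_lit 90) (nat_lit 5) (nat_lit 407) (nat_lit 328) (nat_lit 285)) (XT.lf (nat_lit 0) (nat_lit 411415960) (nat_lit 152) (nat_lit 698232040) (nat_lit 228) (nat_lit 11684072337) (nat_lit 83) (nat_lit 5) (nat_lit 85) (nat_lit 5) (nat_lit 86) (nat_lit 5) (nat_lit 408) (nat_lit 328) (nat_lit 284))))) (XT.nd (nat_lit 234) (nat_lit 608) (nat_lit 0) (XT.nd (nat_lit 78) (nat_lit 304) (nat_lit 0) (XT.lf (nat_lit 0) (nat_lit 5160845423) (nat_lit 228) (nat_lit 4079432387) (nat_lit 76) (nat_lit 3783351989) (nat_lit 83) (nat_lit 5) (nat_lit 86) (nat_lit 5) (nat_lit 84) (nat_lit 5) (nat_lit 409) (nat_lit 328) (nat_lit 283)) (XT.nd (nat_lit 78) (nat_lit 76) (nat_lit 0) (XT.lf (nat_lit 0) (nat_lit 4464776604) (nat_lit 228) (nat_lit 4866462345) (nat_lit 304) (nat_lit 3929277173) (nat_lit 80) (nat_lit 5) (nat_lit 83) (nat_lit 5) (nat_lit 84) (nat_lit 5) (nat_lit 410) (nat_lit 328) (nat_lit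 282)) (XT.lf (nat_lit 0) (nat_lit 109444546) (nat_lit 304) (nat_lit 244061232) (nat_lit 76) (nat_lit 13151289015) (nat_lit 79) (nat_lit 5) (nat_lit 83) (nat_lit 5) (nat_lit 80) (nat_lit 5) (nat_lit 411) (nat_lit 328) (nat_lit 281)))) (XT.nd (nat_lit 156) (nat_lit 228) (nat_lit 0) (XT.nd (nat_lit 78) (nat_lit 228) (nat_lit 0) (XT.lf (nat_lit 0) (nat_lit 4264754409) (nat_lit 228) (nat_lit 5188771765) (nat_lit 76) (nat_lit 4299485094) (nat_lit 77) (nat_lit 5) (nat_lit 80) (nat_lit 5) (nat_lit 78) (nat_lit 5) (nat_lit 412) (nat_lit 328) (nat_lit 280)) (XT.lf (nat_lit 0) (nat_lit 3614292201) (nat_lit 228) (nat_lit 4920991027) (nat_lit 304) (nat_lit 5473682557) (nat_lit 74) (nat_lit 5) (nat_lit 77) (nat_lit 5) (nat_lit 78) (nat_lit 5) (nat_lit 413) (nat_lit 328) (nat_lit 279))) (XT.nd (nat_lit 78) (nat_lit 228) (nat_lit 0) (XT.lf (nat_lit 0) (nat_lit 12702751836) (nat_lit 228) (nat_lit 234044037) (nat_lit 304) (nat_lit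 1335725120) (nat_lit 74) (nat_lit 5) (nat_lit 77) (nat_lit 5) (nat_lit 78) (nat_lit 5) (nat_lit 414) (nat_lit 328) (nat_lit 278)) (XT.lf (nat_lit 0) (nat_lit 2938143605) (nat_lit 228) (nat_lit 7031609541) (nat_lit 76) (nat_lit 4571327142) (nat_lit 71) (nat_lit 5) (nat_lit 74) (nat_lit 5) (nat_lit 72) (nat_lit 5) (nat_lit 415) (nat_lit 328) (nat_lit 277))))))) (XT.nd (nat_lit 1092) (nat_lit 1140) (nat_lit 0) (XT.nd (nat_lit 546) (nat_lit 684) (nat_lit 0) (XT.nd (nat_lit 234) (nat_lit 380) (nat_lit 0) (XT.nd (nat_lit 78) (nat_lit 228) (nat_lit 0) (XT.lf (nat_lit 0) (nat_lit 2015832641) (nat_lit 152) (nat_lit 5286967445) (nat_lit 228) (nat_lit 7514824379) (nat_lit 69) (nat_lit 5) (nat_lit 71) (nat_lit 5) (nat_lit 72) (nat_lit 5) (nat_lit 416) (nat_lit 328) (nat_lit 276)) (XT.nd (nat_lit 78) (nat_lit 228) (nat_lit 0) (XT.lf (nat_lit 0) (nat_lit 11395811187) (nat_lit 152) (nat_lit 425914006) (nat_lit 228) (nat_lit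 3280047098) (nat_lit 69) (nat_lit 5) (nat_lit 71) (nat_lit 5) (nat_lit 72) (nat_lit 5) (nat_lit 417) (nat_lit 328) (nat_lit 275)) (XT.lf (nat_lit 0) (nat_lit 1112871178) (nat_lit 228) (nat_lit 9756579114) (nat_lit 76) (nat_lit 4523122870) (nat_lit 66) (nat_lit 5) (nat_lit 69) (nat_lit 5) (nat_lit 67) (nat_lit 5) (nat_lit 418) (nat_lit 328) (nat_lit 274)))) (XT.nd (nat_lit 156) (nat_lit 228) (nat_lit 0) (XT.nd (nat_lit 78) (nat_lit 152) (nat_lit 0) (XT.lf (nat_lit 0) (nat_lit 5567161837) (nat_lit 228) (nat_lit 475668845) (nat_lit 76) (nat_lit 9648434371) (nat_lit 66) (nat_lit 5) (nat_lit 69) (nat_lit 5) (nat_lit 67) (nat_lit 5) (nat_lit 419) (nat_lit 328) (nat_lit 273)) (XT.lf (nat_lit 0) (nat_lit 9183446885) (nat_lit 152) (nat_lit 1014765704) (nat_lit 228) (nat_lit 5799417561) (nat_lit 64) (nat_lit 5) (nat_lit 66) (nat_lit 5) (nat_lit 67) (nat_lit 5) (nat_lit 420) (nat_lit 328) (nat_lit 272))) (XT.nd (nat_lit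 78) (nat_lit 76) (nat_lit 0) (XT.lf (nat_lit 0) (nat_lit 2763227712) (nat_lit 152) (nat_lit 12231494143) (nat_lit 228) (nat_lit 1317674739) (nat_lit 62) (nat_lit 5) (nat_lit 64) (nat_lit 5) (nat_lit 65) (nat_lit 4) (nat_lit 421) (nat_lit 328) (nat_lit 271)) (XT.lf (nat_lit 0) (nat_lit 3268883489) (nat_lit 228) (nat_lit 3989110862) (nat_lit 76) (nat_lit 9376624433) (nat_lit 61) (nat_lit 5) (nat_lit 64) (nat_lit 5) (nat_lit 62) (nat_lit 5) (nat_lit 422) (nat_lit 328) (nat_lit 270))))) (XT.nd (nat_lit 234) (nat_lit 304) (nat_lit 0) (XT.nd (nat_lit 78) (nat_lit 228) (nat_lit 0) (XT.lf (nat_lit 0) (nat_lit 5882027441) (nat_lit 152) (nat_lit 2097564608) (nat_lit 228) (nat_lit 8986138751) (nat_lit 59) (nat_lit 5) (nat_lit 61) (nat_lit 5) (nat_lit 62) (nat_lit 5) (nat_lit 423) (nat_lit 328) (nat_lit 269)) (XT.nd (nat_lit 78) (nat_lit 228) (nat_lit 0) (XT.lf (nat_lit 0) (nat_lit 12859934804) (nat_lit 228) (nat_lit 1283490027)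 (nat_lit 76) (nat_lit 3162507471) (nat_lit 59) (nat_lit 5) (nat_lit 62) (nat_lit 5) (nat_lit 60) (nat_lit 4) (nat_lit 424) (nat_lit 328) (nat_lit 268)) (XT.lf (nat_lit 0) (nat_lit 290650691) (nat_lit 228) (nat_lit 8769274993) (nat_lit 76) (nat_lit 8594409004) (nat_lit 56) (nat_lit 5) (nat_lit 59) (nat_lit 5) (nat_lit 57) (nat_lit 5) (nat_lit 425) (nat_lit 328) (nat_lit 267)))) (XT.nd (nat_lit 156) (nat_lit 152) (nat_lit 0) (XT.nd (nat_lit 78) (nat_lit 0) (nat_lit 0) (XT.lf (nat_lit 0) (nat_lit 1277450994) (nat_lit 152) (nat_lit 3786008992) (nat_lit 228) (nat_lit 12948910957) (nat_lit 54) (nat_lit 5) (nat_lit 56) (nat_lit 5) (nat_lit 57) (nat_lit 5) (nat_lit 426) (nat_lit 328) (nat_lit 266)) (XT.lf (nat_lit 0) (nat_lit 10042942253) (nat_lit 228) (nat_lit 6665543852) (nat_lit 76) (nat_lit 1670762416) (nat_lit 54) (nat_lit 5) (nat_lit 57) (nat_lit 5) (nat_lit 55) (nat_lit 4) (nat_lit 427) (nat_lit 328) (nat_lit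 265))) (XT.nd (nat_lit 78) (nat_lit 76) (nat_lit 0) (XT.lf (nat_lit 0) (nat_lit 3666487161) (nat_lit 76) (nat_lit 11537503900) (nat_lit 152) (nat_lit 3552180659) (nat_lit 53) (nat_lit 5) (nat_lit 54) (nat_lit 5) (nat_lit 55) (nat_lit 4) (nat_lit 428) (nat_lit 328) (nat_lit 264)) (XT.lf (nat_lit 0) (nat_lit 1376136336) (nat_lit 152) (nat_lit 4784732295) (nat_lit 76) (nat_lit 12982316571) (nat_lit 52) (nat_lit 5) (nat_lit 54) (nat_lit 5) (nat_lit 53) (nat_lit 5) (nat_lit 429) (nat_lit 328) (nat_lit 263)))))) (XT.nd (nat_lit 546) (nat_lit 608) (nat_lit 0) (XT.nd (nat_lit 234) (nat_lit 304) (nat_lit 0) (XT.nd (nat_lit 78) (nat_lit 76) (nat_lit 0) (XT.lf (nat_lit 0) (nat_lit 5836658789) (nat_lit 152) (nat_lit 561065553) (nat_lit 228) (nat_lit 13142529490) (nat_lit 50) (nat_lit 5) (nat_lit 52) (nat_lit 5) (nat_lit 53) (nat_lit 5) (nat_lit 430) (nat_lit 328) (nat_lit 262)) (XT.nd (nat_lit 78) (nat_lit 76) (nat_lit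 0) (XT.lf (nat_lit 0) (nat_lit 11629674019) (nat_lit 228) (nat_lit 3195135541) (nat_lit 76) (nat_lit 5122637764) (nat_lit 50) (nat_lit 5) (nat_lit 53) (nat_lit 5) (nat_lit 51) (nat_lit 4) (nat_lit 431) (nat_lit 328) (nat_lit 261)) (XT.lf (nat_lit 0) (nat_lit 7703841888) (nat_lit 76) (nat_lit 9356358129) (nat_lit 152) (nat_lit 3305412171) (nat_lit 49) (nat_lit 5) (nat_lit 50) (nat_lit 5) (nat_lit 51) (nat_lit 4) (nat_lit 432) (nat_lit 328) (nat_lit 260)))) (XT.nd (nat_lit 156) (nat_lit 76) (nat_lit 0) (XT.nd (nat_lit 78) (nat_lit 152) (nat_lit 0) (XT.lf (nat_lit 0) (nat_lit 1815738805) (nat_lit 152) (nat_lit 1887828989) (nat_lit 76) (nat_lit 17092382599) (nat_lit 48) (nat_lit 5) (nat_lit 50) (nat_lit 5) (nat_lit 49) (nat_lit 5) (nat_lit 433) (nat_lit 328) (nat_lit 259)) (XT.lf (nat_lit 0) (nat_lit 7097855588) (nat_lit 228) (nat_lit 11967595280) (nat_lit 76) (nat_lit 2170556820) (nat_lit 46) (nat_lit 5) (nat_lit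 49) (nat_lit 5) (nat_lit 47) (nat_lit 4) (nat_lit 434) (nat_lit 328) (nat_lit 258))) (XT.nd (nat_lit 78) (nat_lit 76) (nat_lit 0) (XT.lf (nat_lit 0) (nat_lit 12557675462) (nat_lit 228) (nat_lit 995213240) (nat_lit 76) (nat_lit 8135804457) (nat_lit 46) (nat_lit 5) (nat_lit 49) (nat_lit 5) (nat_lit 47) (nat_lit 4) (nat_lit 435) (nat_lit 328) (nat_lit 257)) (XT.lf (nat_lit 0) (nat_lit 10444419974) (nat_lit 76) (nat_lit 7801654988) (nat_lit 152) (nat_lit 3906944218) (nat_lit 45) (nat_lit 5) (nat_lit 46) (nat_lit 5) (nat_lit 47) (nat_lit 4) (nat_lit 436) (nat_lit 328) (nat_lit 256))))) (XT.nd (nat_lit 312) (nat_lit 304) (nat_lit 0) (XT.nd (nat_lit 156) (nat_lit 76) (nat_lit 0) (XT.nd (nat_lit 78) (nat_lit 152) (nat_lit 0) (XT.lf (nat_lit 0) (nat_lit 1419687143) (nat_lit 152) (nat_lit 463392534) (nat_lit 76) (nat_lit 20748535738) (nat_lit 44) (nat_lit 5) (nat_lit 46) (nat_lit 5) (nat_lit 45) (nat_lit 5) (nat_lit 437)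 (nat_lit 328) (nat_lit 255)) (XT.lf (nat_lit 0) (nat_lit 6942748436) (nat_lit 228) (nat_lit 11927015078) (nat_lit 76) (nat_lit 4250194081) (nat_lit 42) (nat_lit 5) (nat_lit 45) (nat_lit 5) (nat_lit 43) (nat_lit 4) (nat_lit 438) (nat_lit 328) (nat_lit 254))) (XT.nd (nat_lit 78) (nat_lit 76) (nat_lit 0) (XT.lf (nat_lit 0) (nat_lit 12620471087) (nat_lit 228) (nat_lit 497032790) (nat_lit 76) (nat_lit 10505780222) (nat_lit 42) (nat_lit 5) (nat_lit 45) (nat_lit 5) (nat_lit 43) (nat_lit 4) (nat_lit 439) (nat_lit 328) (nat_lit 253)) (XT.lf (nat_lit 0) (nat_lit 11436888751) (nat_lit 76) (nat_lit 7108176472) (nat_lit 152) (nat_lit 5594352032) (nat_lit 41) (nat_lit 5) (nat_lit 42) (nat_lit 5) (nat_lit 43) (nat_lit 4) (nat_lit 440) (nat_lit 328) (nat_lit 252)))) (XT.nd (nat_lit 156) (nat_lit 76) (nat_lit 0) (XT.nd (nat_lit 78) (nat_lit 228) (nat_lit 0) (XT.lf (nat_lit 0) (nat_lit 23677490685) (nat_lit 76) (nat_lit 941908341)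 (nat_lit 152) (nat_lit 52478288) (nat_lit 41) (nat_lit 5) (nat_lit 42) (nat_lit 5) (nat_lit 43) (nat_lit 4) (nat_lit 441) (nat_lit 328) (nat_lit 251)) (XT.lf (nat_lit 0) (nat_lit 5673599156) (nat_lit 228) (nat_lit 14101579202) (nat_lit 76) (nat_lit 5439655355) (nat_lit 38) (nat_lit 5) (nat_lit 41) (nat_lit 5) (nat_lit 39) (nat_lit 4) (nat_lit 442) (nat_lit 328) (nat_lit 250))) (XT.nd (nat_lit 78) (nat_lit 76) (nat_lit 0) (XT.lf (nat_lit 0) (nat_lit 11557596212) (nat_lit 228) (nat_lit 2239698522) (nat_lit 76) (nat_lit 11977155430) (nat_lit 38) (nat_lit 5) (nat_lit 41) (nat_lit 5) (nat_lit 39) (nat_lit 4) (nat_lit 443) (nat_lit 328) (nat_lit 249)) (XT.lf (nat_lit 0) (nat_lit 10116729132) (nat_lit 76) (nat_lit 7567297721) (nat_lit 152) (nat_lit 8664853479) (nat_lit 37) (nat_lit 5) (nat_lit 38) (nat_lit 5) (nat_lit 39) (nat_lit 4) (nat_lit 444) (nat_lit 328) (nat_lit 248))))))))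
noncomputable def xc73 : XT := (XT.nd (nat_lit 2184) (nat_lit 532) (nat_lit 0) (XT.nd (nat_lit 1092) (nat_lit 532) (nat_lit 0) (XT.nd (nat_lit 546) (nat_lit 304) (nat_lit 0) (XT.nd (nat_lit 234) (nat_lit 228) (nat_lit 0) (XT.nd (nat_lit 78) (nat_lit 228) (nat_lit 0) (XT.lf (nat_lit 0) (nat_lit 22831613689) (nat_lit 76) (nat_lit 1154272478) (nat_lit 152) (nat_lit 2954910720) (nat_lit 37) (nat_lit 5) (nat_lit 38) (nat_lit 5) (nat_lit 39) (nat_lit 4) (nat_lit 445) (nat_lit 328) (nat_lit 247)) (XT.nd (nat_lit 78) (nat_lit 0) (nat_lit 0) (XT.lf (nat_lit 0) (nat_lit 2973371946) (nat_lit 228) (nat_lit 19144012663) (nat_lit 76) (nat_lit 5429120503) (nat_lit 34) (nat_lit 5) (nat_lit 37) (nat_lit 5) (nat_lit 35) (nat_lit 4) (nat_lit 446) (nat_lit 328) (nat_lit 246)) (XT.lf (nat_lit 0) (nat_lit 9043154887) (nat_lit 228) (nat_lit 6893633541) (nat_lit 76) (nat_lit 12232029522) (nat_lit 34) (nat_lit 5) (nat_lit 37) (nat_lit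 5) (nat_lit 35) (nat_lit 4) (nat_lit 447) (nat_lit 328) (nat_lit 245)))) (XT.nd (nat_lit 156) (nat_lit 152) (nat_lit 0) (XT.nd (nat_lit 78) (nat_lit 0) (nat_lit 0) (XT.lf (nat_lit 0) (nat_lit 5781590617) (nat_lit 76) (nat_lit 9539607759) (nat_lit 152) (nat_lit 13487819056) (nat_lit 33) (nat_lit 5) (nat_lit 34) (nat_lit 5) (nat_lit 35) (nat_lit 4) (nat_lit 448) (nat_lit 328) (nat_lit 244)) (XT.lf (nat_lit 0) (nat_lit 18923442218) (nat_lit 76) (nat_lit 2904672449) (nat_lit 152) (nat_lit 7639094491) (nat_lit 33) (nat_lit 5) (nat_lit 34) (nat_lit 5) (nat_lit 35) (nat_lit 4) (nat_lit 449) (nat_lit 328) (nat_lit 243))) (XT.nd (nat_lit 78) (nat_lit 76) (nat_lit 0) (XT.lf (nat_lit 0) (nat_lit 2266917966) (nat_lit 76) (nat_lit 26294407394) (nat_lit 76) (nat_lit 1582890809) (nat_lit 32) (nat_lit 4) (nat_lit 33) (nat_lit 5) (nat_lit 33) (nat_lit 4) (nat_lit 450) (nat_lit 328) (nat_lit 242)) (XT.lf (nat_lit 0) (nat_lit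 4672007851) (nat_lit 152) (nat_lit 15288827615) (nat_lit 76) (nat_lit 10876122202) (nat_lit 31) (nat_lit 5) (nat_lit 33) (nat_lit 5) (nat_lit 32) (nat_lit 4) (nat_lit 451) (nat_lit 328) (nat_lit 241))))) (XT.nd (nat_lit 234) (nat_lit 228) (nat_lit 0) (XT.nd (nat_lit 78) (nat_lit 76) (nat_lit 0) (XT.lf (nat_lit 0) (nat_lit 11055127271) (nat_lit 152) (nat_lit 2390791278) (nat_lit 76) (nat_lit 18104923005) (nat_lit 31) (nat_lit 5) (nat_lit 33) (nat_lit 5) (nat_lit 32) (nat_lit 4) (nat_lit 452) (nat_lit 328) (nat_lit 240)) (XT.nd (nat_lit 78) (nat_lit 0) (nat_lit 0) (XT.lf (nat_lit 0) (nat_lit 11059099514) (nat_lit 76) (nat_lit 6650140149) (nat_lit 152) (nat_lit 14574519214) (nat_lit 30) (nat_lit 5) (nat_lit 31) (nat_lit 5) (nat_lit 32) (nat_lit 4) (nat_lit 453) (nat_lit 328) (nat_lit 239)) (XT.lf (nat_lit 0) (nat_lit 24563975914) (nat_lit 152) (nat_lit 8131000509) (nat_lit 0) (nat_lit 343659128) (nat_lit 30) (nat_lit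 5) (nat_lit 32) (nat_lit 4) (nat_lit 30) (nat_lit 4) (nat_lit 454) (nat_lit 328) (nat_lit 238)))) (XT.nd (nat_lit 156) (nat_lit 76) (nat_lit 0) (XT.nd (nat_lit 78) (nat_lit 76) (nat_lit 0) (XT.lf (nat_lit 0) (nat_lit 5344440427) (nat_lit 76) (nat_lit 26371169110) (nat_lit 76) (nat_lit 2097813124) (nat_lit 29) (nat_lit 4) (nat_lit 30) (nat_lit 5) (nat_lit 30) (nat_lit 4) (nat_lit 455) (nat_lit 328) (nat_lit 237)) (XT.lf (nat_lit 0) (nat_lit 4440094084) (nat_lit 152) (nat_lit 15311459362) (nat_lit 76) (nat_lit 14856902847) (nat_lit 28) (nat_lit 5) (nat_lit 30) (nat_lit 5) (nat_lit 29) (nat_lit 4) (nat_lit 456) (nat_lit 328) (nat_lit 236))) (XT.nd (nat_lit 78) (nat_lit 76) (nat_lit 0) (XT.lf (nat_lit 0) (nat_lit 11106797462) (nat_lit 152) (nat_lit 1828046036) (nat_lit 76) (nat_lit 22492631275) (nat_lit 28) (nat_lit 5) (nat_lit 30) (nat_lit 5) (nat_lit 29) (nat_lit 4) (nat_lit 457) (nat_lit 328) (nat_lit 235)) (XT.lf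 (nat_lit 0) (nat_lit 12252291160) (nat_lit 76) (nat_lit 5814543532) (nat_lit 152) (nat_lit 18201430727) (nat_lit 27) (nat_lit 5) (nat_lit 28) (nat_lit 5) (nat_lit 29) (nat_lit 4) (nat_lit 458) (nat_lit 328) (nat_lit 234)))))) (XT.nd (nat_lit 546) (nat_lit 304) (nat_lit 0) (XT.nd (nat_lit 234) (nat_lit 76) (nat_lit 0) (XT.nd (nat_lit 78) (nat_lit 152) (nat_lit 0) (XT.lf (nat_lit 0) (nat_lit 25244532793) (nat_lit 152) (nat_lit 10402724617) (nat_lit 0) (nat_lit 1486758127) (nat_lit 27) (nat_lit 5) (nat_lit 29) (nat_lit 4) (nat_lit 27) (nat_lit 4) (nat_lit 459) (nat_lit 328) (nat_lit 233)) (XT.nd (nat_lit 78) (nat_lit 76) (nat_lit 0) (XT.lf (nat_lit 0) (nat_lit 3585966333) (nat_lit 76) (nat_lit 29119958302) (nat_lit 76) (nat_lit 5317764141) (nat_lit 26) (nat_lit 4) (nat_lit 27) (nat_lit 5) (nat_lit 27) (nat_lit 4) (nat_lit 460) (nat_lit 328) (nat_lit 232)) (XT.lf (nat_lit 0) (nat_lit 1505224023) (nat_lit 152) (nat_lit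 20789715115) (nat_lit 76) (nat_lit 16642222993) (nat_lit 25) (nat_lit 5) (nat_lit 27) (nat_lit 5) (nat_lit 26) (nat_lit 4) (nat_lit 461) (nat_lit 328) (nat_lit 231)))) (XT.nd (nat_lit 156) (nat_lit 0) (nat_lit 0) (XT.nd (nat_lit 78) (nat_lit 76) (nat_lit 0) (XT.lf (nat_lit 0) (nat_lit 8403056076) (nat_lit 152) (nat_lit 6828985681) (nat_lit 76) (nat_lit 24645108688) (nat_lit 25) (nat_lit 5) (nat_lit 27) (nat_lit 5) (nat_lit 26) (nat_lit 4) (nat_lit 462) (nat_lit 328) (nat_lit 230)) (XT.lf (nat_lit 0) (nat_lit 7657201740) (nat_lit 76) (nat_lit 7901931947) (nat_lit 152) (nat_lit 25284666738) (nat_lit 24) (nat_lit 5) (nat_lit 25) (nat_lit 5) (nat_lit 26) (nat_lit 4) (nat_lit 463) (nat_lit 328) (nat_lit 229))) (XT.nd (nat_lit 78) (nat_lit 0) (nat_lit 0) (XT.lf (nat_lit 0) (nat_lit 22675598261) (nat_lit 76) (nat_lit 301201764) (nat_lit 152) (nat_lit 18861243982) (nat_lit 24) (nat_lit 5) (nat_lit 25) (nat_lit 5) (nat_lit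 26) (nat_lit 4) (nat_lit 464) (nat_lit 328) (nat_lit 228)) (XT.lf (nat_lit 0) (nat_lit 30667755569) (nat_lit 152) (nat_lit 4831511789) (nat_lit 0) (nat_lit 7361326019) (nat_lit 24) (nat_lit 5) (nat_lit 26) (nat_lit 4) (nat_lit 24) (nat_lit 4) (nat_lit 465) (nat_lit 328) (nat_lit 227))))) (XT.nd (nat_lit 234) (nat_lit 152) (nat_lit 0) (XT.nd (nat_lit 78) (nat_lit 76) (nat_lit 0) (XT.lf (nat_lit 0) (nat_lit 10082745713) (nat_lit 76) (nat_lit 28585626711) (nat_lit 76) (nat_lit 5243080047) (nat_lit 23) (nat_lit 4) (nat_lit 24) (nat_lit 5) (nat_lit 24) (nat_lit 4) (nat_lit 466) (nat_lit 328) (nat_lit 226)) (XT.nd (nat_lit 78) (nat_lit 0) (nat_lit 0) (XT.lf (nat_lit 0) (nat_lit 1906119324) (nat_lit 152) (nat_lit 19508189593) (nat_lit 76) (nat_lit 23578127654) (nat_lit 22) (nat_lit 5) (nat_lit 24) (nat_lit 5) (nat_lit 23) (nat_lit 4) (nat_lit 467) (nat_lit 328) (nat_lit 225)) (XT.lf (nat_lit 0) (nat_lit 9144073084)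 (nat_lit 152) (nat_lit 4849187303) (nat_lit 76) (nat_lit 32111643799) (nat_lit 22) (nat_lit 5) (nat_lit 24) (nat_lit 5) (nat_lit 23) (nat_lit 4) (nat_lit 468) (nat_lit 328) (nat_lit 224)))) (XT.nd (nat_lit 156) (nat_lit 76) (nat_lit 0) (XT.nd (nat_lit 78) (nat_lit 0) (nat_lit 0) (XT.lf (nat_lit 0) (nat_lit 10414737684) (nat_lit 76) (nat_lit 6264792180) (nat_lit 152) (nat_lit 30568806120) (nat_lit 21) (nat_lit 5) (nat_lit 22) (nat_lit 5) (nat_lit 23) (nat_lit 4) (nat_lit 469) (nat_lit 328) (nat_lit 223)) (XT.lf (nat_lit 0) (nat_lit 24487090640) (nat_lit 152) (nat_lit 22243516608) (nat_lit 0) (nat_lit 1694083331) (nat_lit 21) (nat_lit 5) (nat_lit 23) (nat_lit 4) (nat_lit 21) (nat_lit 4) (nat_lit 470) (nat_lit 328) (nat_lit 222))) (XT.nd (nat_lit 78) (nat_lit 76) (nat_lit 0) (XT.lf (nat_lit 0) (nat_lit 32571769683) (nat_lit 152) (nat_lit 7314765549) (nat_lit 0) (nat_lit 9748514859) (nat_lit 21) (nat_lit 5) (nat_lit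 23) (nat_lit 4) (nat_lit 21) (nat_lit 4) (nat_lit 471) (nat_lit 328) (nat_lit 221)) (XT.lf (nat_lit 0) (nat_lit 8185651984) (nat_lit 76) (nat_lit 32773443770) (nat_lit 76) (nat_lit 9920822428) (nat_lit 20) (nat_lit 4) (nat_lit 21) (nat_lit 5) (nat_lit 21) (nat_lit 4) (nat_lit 472) (nat_lit 328) (nat_lit 220))))))) (XT.nd (nat_lit 1092) (nat_lit 152) (nat_lit 0) (XT.nd (nat_lit 546) (nat_lit 152) (nat_lit 0) (XT.nd (nat_lit 234) (nat_lit 76) (nat_lit 0) (XT.nd (nat_lit 78) (nat_lit 152) (nat_lit 0) (XT.lf (nat_lit 0) (nat_lit 24265452187) (nat_lit 76) (nat_lit 25388074531) (nat_lit 76) (nat_lit 2506942006) (nat_lit 20) (nat_lit 4) (nat_lit 21) (nat_lit 5) (nat_lit 21) (nat_lit 4) (nat_lit 473) (nat_lit 328) (nat_lit 219)) (XT.nd (nat_lit 78) (nat_lit 76) (nat_lit 0) (XT.lf (nat_lit 0) (nat_lit 5011240698) (nat_lit 152) (nat_lit 12735994667) (nat_lit 76) (nat_lit 35731262791) (nat_lit 19) (nat_lit 5) (nat_lit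 21) (nat_lit 5) (nat_lit 20) (nat_lit 4) (nat_lit 474) (nat_lit 328) (nat_lit 218)) (XT.lf (nat_lit 0) (nat_lit 2875199841) (nat_lit 76) (nat_lit 9839523139) (nat_lit 152) (nat_lit 42120297501) (nat_lit 18) (nat_lit 5) (nat_lit 19) (nat_lit 5) (nat_lit 20) (nat_lit 4) (nat_lit 475) (nat_lit 328) (nat_lit 217)))) (XT.nd (nat_lit 156) (nat_lit 76) (nat_lit 0) (XT.nd (nat_lit 78) (nat_lit 0) (nat_lit 0) (XT.lf (nat_lit 0) (nat_lit 19182255456) (nat_lit 76) (nat_lit 1578352936) (nat_lit 152) (nat_lit 35468291981) (nat_lit 18) (nat_lit 5) (nat_lit 19) (nat_lit 5) (nat_lit 20) (nat_lit 4) (nat_lit 476) (nat_lit 328) (nat_lit 216)) (XT.lf (nat_lit 0) (nat_lit 29097534732) (nat_lit 152) (nat_lit 21785621977) (nat_lit 0) (nat_lit 6779950851) (nat_lit 18) (nat_lit 5) (nat_lit 20) (nat_lit 4) (nat_lit 18) (nat_lit 4) (nat_lit 477) (nat_lit 328) (nat_lit 215))) (XT.nd (nat_lit 78) (nat_lit 76) (nat_lit 0) (XT.lf (nat_lit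 0) (nat_lit 37683732716) (nat_lit 152) (nat_lit 6114362971) (nat_lit 0) (nat_lit 15342271169) (nat_lit 18) (nat_lit 5) (nat_lit 20) (nat_lit 4) (nat_lit 18) (nat_lit 4) (nat_lit 478) (nat_lit 328) (nat_lit 214)) (XT.lf (nat_lit 0) (nat_lit 10194937479) (nat_lit 76) (nat_lit 36414595250) (nat_lit 76) (nat_lit 14049951502) (nat_lit 17) (nat_lit 4) (nat_lit 18) (nat_lit 5) (nat_lit 18) (nat_lit 4) (nat_lit 479) (nat_lit 328) (nat_lit 213))))) (XT.nd (nat_lit 234) (nat_lit 76) (nat_lit 0) (XT.nd (nat_lit 78) (nat_lit 76) (nat_lit 0) (XT.lf (nat_lit 0) (nat_lit 27088123392) (nat_lit 76) (nat_lit 28760912678) (nat_lit 76) (nat_lit 6373761939) (nat_lit 17) (nat_lit 4) (nat_lit 18) (nat_lit 5) (nat_lit 18) (nat_lit 4) (nat_lit 480) (nat_lit 328) (nat_lit 212)) (XT.nd (nat_lit 78) (nat_lit 0) (nat_lit 0) (XT.lf (nat_lit 0) (nat_lit 1487298662) (nat_lit 152) (nat_lit 19389785903) (nat_lit 76) (nat_lit 42955950527) (nat_lit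 16) (nat_lit 5) (nat_lit 18) (nat_lit 5) (nat_lit 17) (nat_lit 4) (nat_lit 481) (nat_lit 328) (nat_lit 211)) (XT.lf (nat_lit 0) (nat_lit 9441030513) (nat_lit 152) (nat_lit 3264925243) (nat_lit 76) (nat_lit 52784182659) (nat_lit 16) (nat_lit 5) (nat_lit 18) (nat_lit 5) (nat_lit 17) (nat_lit 4) (nat_lit 482) (nat_lit 328) (nat_lit 210)))) (XT.nd (nat_lit 156) (nat_lit 0) (nat_lit 0) (XT.nd (nat_lit 78) (nat_lit 0) (nat_lit 0) (XT.lf (nat_lit 0) (nat_lit 13580265437) (nat_lit 76) (nat_lit 4169034911) (nat_lit 152) (nat_lit 49444177385) (nat_lit 15) (nat_lit 5) (nat_lit 16) (nat_lit 5) (nat_lit 17) (nat_lit 4) (nat_lit 483) (nat_lit 328) (nat_lit 209)) (XT.lf (nat_lit 0) (nat_lit 26369970680) (nat_lit 152) (nat_lit 38022403740) (nat_lit 0) (nat_lit 4553648893) (nat_lit 15) (nat_lit 5) (nat_lit 17) (nat_lit 4) (nat_lit 15) (nat_lit 4) (nat_lit 484) (nat_lit 328) (nat_lit 208))) (XT.nd (nat_lit 78) (nat_lit 0) (nat_lit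 0) (XT.lf (nat_lit 0) (nat_lit 35276371680) (nat_lit 152) (nat_lit 22032760260) (nat_lit 0) (nat_lit 13441200643) (nat_lit 15) (nat_lit 5) (nat_lit 17) (nat_lit 4) (nat_lit 15) (nat_lit 4) (nat_lit 485) (nat_lit 328) (nat_lit 207)) (XT.lf (nat_lit 0) (nat_lit 44436210326) (nat_lit 152) (nat_lit 5590235008) (nat_lit 0) (nat_lit 22582739045) (nat_lit 15) (nat_lit 5) (nat_lit 17) (nat_lit 4) (nat_lit 15) (nat_lit 4) (nat_lit 486) (nat_lit 328) (nat_lit 206)))))) (XT.nd (nat_lit 43602) (nat_lit 0) (nat_lit 15048) (XT.nd (nat_lit 234) (nat_lit 76) (nat_lit 0) (XT.nd (nat_lit 78) (nat_lit 0) (nat_lit 0) (XT.lf (nat_lit 0) (nat_lit 11544820296) (nat_lit 76) (nat_lit 42423645940) (nat_lit 76) (nat_lit 20552407433) (nat_lit 14) (nat_lit 4) (nat_lit 15) (nat_lit 5) (nat_lit 15) (nat_lit 4) (nat_lit 487) (nat_lit 328) (nat_lit 205)) (XT.nd (nat_lit 78) (nat_lit 0) (nat_lit 0) (XT.lf (nat_lit 0) (nat_lit 29282750030) (nat_lit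 76) (nat_lit 34547177648) (nat_lit 76) (nat_lit 12658689406) (nat_lit 14) (nat_lit 4) (nat_lit 15) (nat_lit 5) (nat_lit 15) (nat_lit 4) (nat_lit 488) (nat_lit 328) (nat_lit 204)) (XT.lf (nat_lit 0) (nat_lit 47527796717) (nat_lit 76) (nat_lit 26446608519) (nat_lit 76) (nat_lit 4541372962) (nat_lit 14) (nat_lit 4) (nat_lit 15) (nat_lit 5) (nat_lit 15) (nat_lit 4) (nat_lit 489) (nat_lit 328) (nat_lit 203)))) (XT.nd (nat_lit 43212) (nat_lit 0) (nat_lit 20064) (XT.nd (nat_lit 43134) (nat_lit 0) (nat_lit 21204) (XT.lf (nat_lit 0) (nat_lit 3732353545) (nat_lit 152) (nat_lit 14344817389) (nat_lit 76) (nat_lit 62525859634) (nat_lit 13) (nat_lit 5) (nat_lit 15) (nat_lit 5) (nat_lit 14) (nat_lit 4) (nat_lit 490) (nat_lit 328) (nat_lit 202)) (XT.lf (nat_lit 0) (nat_lit 544738439) (nat_lit 988) (nat_lit 1469673009) (nat_lit 988) (nat_lit 1469673009) (nat_lit 292) (nat_lit 4) (nat_lit 305) (nat_lit 5) (nat_lit 305) (nat_lit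 4) (nat_lit 362) (nat_lit 329) (nat_lit 329))) (XT.nd (nat_lit 78) (nat_lit 1064) (nat_lit 0) (XT.lf (nat_lit 0) (nat_lit 418330423) (nat_lit 1064) (nat_lit 991832190) (nat_lit 76) (nat_lit 5608054294) (nat_lit 291) (nat_lit 5) (nat_lit 305) (nat_lit 5) (nat_lit 292) (nat_lit 4) (nat_lit 363) (nat_lit 329) (nat_lit 328)) (XT.lf (nat_lit 0) (nat_lit 3756977920) (nat_lit 1140) (nat_lit 3079596411) (nat_lit 0) (nat_lit 234198028) (nat_lit 277) (nat_lit 5) (nat_lit 292) (nat_lit 4) (nat_lit 277) (nat_lit 4) (nat_lit 364) (nat_lit 329) (nat_lit 327))))) (XT.nd (nat_lit 312) (nat_lit 1900) (nat_lit 0) (XT.nd (nat_lit 156) (nat_lit 1900) (nat_lit 0) (XT.nd (nat_lit 78) (nat_lit 0) (nat_lit 0) (XT.lf (nat_lit 0) (nat_lit 12344155) (nat_lit 1216) (nat_lit 5182536356) (nat_lit 76) (nat_lit 1931773402) (nat_lit 261) (nat_lit 5) (nat_lit 277) (nat_lit 5) (nat_lit 262) (nat_lit 4) (nat_lit 365) (nat_lit 329) (nat_lit 326))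 (XT.lf (nat_lit 0) (nat_lit 3304696810) (nat_lit 1216) (nat_lit 134803282) (nat_lit 76) (nat_lit 3745790185) (nat_lit 261) (nat_lit 5) (nat_lit 277) (nat_lit 5) (nat_lit 262) (nat_lit 4) (nat_lit 366) (nat_lit 329) (nat_lit 325))) (XT.nd (nat_lit 78) (nat_lit 684) (nat_lit 0) (XT.lf (nat_lit 0) (nat_lit 5066055462) (nat_lit 1216) (nat_lit 1582955912) (nat_lit 1292) (nat_lit 598130730) (nat_lit 245) (nat_lit 5) (nat_lit 261) (nat_lit 5) (nat_lit 262) (nat_lit 4) (nat_lit 367) (nat_lit 329) (nat_lit 324)) (XT.lf (nat_lit 0) (nat_lit 2668265220) (nat_lit 684) (nat_lit 4266219769) (nat_lit 76) (nat_lit 377418258) (nat_lit 236) (nat_lit 5) (nat_lit 245) (nat_lit 5) (nat_lit 237) (nat_lit 4) (nat_lit 368) (nat_lit 329) (nat_lit 323)))) (XT.nd (nat_lit 156) (nat_lit 1216) (nat_lit 0) (XT.nd (nat_lit 78) (nat_lit 76) (nat_lit 0) (XT.lf (nat_lit 0) (nat_lit 993625910) (nat_lit 608) (nat_lit 4981625509) (nat_lit 684)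 (nat_lit 1404587228) (nat_lit 228) (nat_lit 5) (nat_lit 236) (nat_lit 5) (nat_lit 237) (nat_lit 4) (nat_lit 369) (nat_lit 329) (nat_lit 322)) (XT.lf (nat_lit 0) (nat_lit 1845407598) (nat_lit 684) (nat_lit 1069661341) (nat_lit 76) (nat_lit 4535687111) (nat_lit 227) (nat_lit 5) (nat_lit 236) (nat_lit 5) (nat_lit 228) (nat_lit 5) (nat_lit 370) (nat_lit 329) (nat_lit 321))) (XT.nd (nat_lit 78) (nat_lit 608) (nat_lit 0) (XT.lf (nat_lit 0) (nat_lit 4380020315) (nat_lit 608) (nat_lit 737394058) (nat_lit 684) (nat_lit 2407430753) (nat_lit 219) (nat_lit 5) (nat_lit 227) (nat_lit 5) (nat_lit 228) (nat_lit 5) (nat_lit 371) (nat_lit 329) (nat_lit 320)) (XT.lf (nat_lit 0) (nat_lit 828843765) (nat_lit 608) (nat_lit 5264589445) (nat_lit 76) (nat_lit 1508717678) (nat_lit 211) (nat_lit 5) (nat_lit 219) (nat_lit 5) (nat_lit 212) (nat_lit 5) (nat_lit 372) (nat_lit 329) (nat_lit 319))))))))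
noncomputable def xc74 : XT := (XT.nd (nat_lit 2184) (nat_lit 3800) (nat_lit 0) (XT.nd (nat_lit 1092) (nat_lit 3420) (nat_lit 0) (XT.nd (nat_lit 546) (nat_lit 2204) (nat_lit 0) (XT.nd (nat_lit 234) (nat_lit 1520) (nat_lit 0) (XT.nd (nat_lit 78) (nat_lit 532) (nat_lit 0) (XT.lf (nat_lit 0) (nat_lit 240962849) (nat_lit 532) (nat_lit 3827481367) (nat_lit 608) (nat_lit 3614017728) (nat_lit 204) (nat_lit 5) (nat_lit 211) (nat_lit 5) (nat_lit 212) (nat_lit 5) (nat_lit 373) (nat_lit 329) (nat_lit 318)) (XT.nd (nat_lit 78) (nat_lit 532) (nat_lit 0) (XT.lf (nat_lit 0) (nat_lit 5920234570) (nat_lit 532) (nat_lit 1452677279) (nat_lit 608) (nat_lit 393278884) (nat_lit 204) (nat_lit 5) (nat_lit 211) (nat_lit 5) (nat_lit 212) (nat_lit 5) (nat_lit 374) (nat_lit 329) (nat_lit 317)) (XT.lf (nat_lit 0) (nat_lit 2830396846) (nat_lit 532) (nat_lit 3996463291) (nat_lit 76) (nat_lit 1025863333) (nat_lit 197) (nat_lit 5) (nat_lit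 204) (nat_lit 5) (nat_lit 198) (nat_lit 5) (nat_lit 375) (nat_lit 329) (nat_lit 316)))) (XT.nd (nat_lit 156) (nat_lit 912) (nat_lit 0) (XT.nd (nat_lit 78) (nat_lit 76) (nat_lit 0) (XT.lf (nat_lit 0) (nat_lit 1742044943) (nat_lit 532) (nat_lit 4368300182) (nat_lit 608) (nat_lit 1832401732) (nat_lit 190) (nat_lit 5) (nat_lit 197) (nat_lit 5) (nat_lit 198) (nat_lit 5) (nat_lit 376) (nat_lit 329) (nat_lit 315)) (XT.lf (nat_lit 0) (nat_lit 1383751128) (nat_lit 608) (nat_lit 414261205) (nat_lit 76) (nat_lit 6238306350) (nat_lit 189) (nat_lit 5) (nat_lit 197) (nat_lit 5) (nat_lit 190) (nat_lit 5) (nat_lit 377) (nat_lit 329) (nat_lit 314))) (XT.nd (nat_lit 78) (nat_lit 456) (nat_lit 0) (XT.lf (nat_lit 0) (nat_lit 4642013369) (nat_lit 532) (nat_lit 2603313434) (nat_lit 76) (nat_lit 887385430) (nat_lit 183) (nat_lit 5) (nat_lit 190) (nat_lit 5) (nat_lit 184) (nat_lit 5) (nat_lit 378) (nat_lit 329) (nat_lit 313)) (XT.lf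 (nat_lit 0) (nat_lit 3377463412) (nat_lit 456) (nat_lit 4596782000) (nat_lit 532) (nat_lit 258497048) (nat_lit 177) (nat_lit 5) (nat_lit 183) (nat_lit 5) (nat_lit 184) (nat_lit 5) (nat_lit 379) (nat_lit 329) (nat_lit 312))))) (XT.nd (nat_lit 234) (nat_lit 1216) (nat_lit 0) (XT.nd (nat_lit 78) (nat_lit 532) (nat_lit 0) (XT.lf (nat_lit 0) (nat_lit 1149499438) (nat_lit 380) (nat_lit 1821128462) (nat_lit 456) (nat_lit 5365493589) (nat_lit 171) (nat_lit 5) (nat_lit 176) (nat_lit 5) (nat_lit 177) (nat_lit 5) (nat_lit 380) (nat_lit 329) (nat_lit 311)) (XT.nd (nat_lit 78) (nat_lit 532) (nat_lit 0) (XT.lf (nat_lit 0) (nat_lit 6274309553) (nat_lit 456) (nat_lit 1120538594) (nat_lit 76) (nat_lit 1048219461) (nat_lit 171) (nat_lit 5) (nat_lit 177) (nat_lit 5) (nat_lit 172) (nat_lit 5) (nat_lit 381) (nat_lit 329) (nat_lit 310)) (XT.lf (nat_lit 0) (nat_lit 1094638525) (nat_lit 532) (nat_lit 3452365708) (nat_lit 76) (nat_lit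 4006140273) (nat_lit 164) (nat_lit 5) (nat_lit 171) (nat_lit 5) (nat_lit 165) (nat_lit 5) (nat_lit 382) (nat_lit 329) (nat_lit 309)))) (XT.nd (nat_lit 156) (nat_lit 456) (nat_lit 0) (XT.nd (nat_lit 78) (nat_lit 380) (nat_lit 0) (XT.lf (nat_lit 0) (nat_lit 2800630797) (nat_lit 380) (nat_lit 1576173071) (nat_lit 456) (nat_lit 4290168360) (nat_lit 159) (nat_lit 5) (nat_lit 164) (nat_lit 5) (nat_lit 165) (nat_lit 5) (nat_lit 383) (nat_lit 329) (nat_lit 308)) (XT.lf (nat_lit 0) (nat_lit 423506586) (nat_lit 380) (nat_lit 7314563009) (nat_lit 456) (nat_lit 1046751758) (nat_lit 154) (nat_lit 5) (nat_lit 159) (nat_lit 5) (nat_lit 160) (nat_lit 5) (nat_lit 384) (nat_lit 329) (nat_lit 307))) (XT.nd (nat_lit 78) (nat_lit 380) (nat_lit 0) (XT.lf (nat_lit 0) (nat_lit 2252175528) (nat_lit 456) (nat_lit 2019831428) (nat_lit 76) (nat_lit 4633472479) (nat_lit 153) (nat_lit 5) (nat_lit 159) (nat_lit 5) (nat_lit 154) (nat_lit 5)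 (nat_lit 385) (nat_lit 329) (nat_lit 306)) (XT.lf (nat_lit 0) (nat_lit 4492633279) (nat_lit 380) (nat_lit 1109236088) (nat_lit 456) (nat_lit 3428415314) (nat_lit 148) (nat_lit 5) (nat_lit 153) (nat_lit 5) (nat_lit 154) (nat_lit 5) (nat_lit 386) (nat_lit 329) (nat_lit 305)))))) (XT.nd (nat_lit 546) (nat_lit 1520) (nat_lit 0) (XT.nd (nat_lit 234) (nat_lit 1140) (nat_lit 0) (XT.nd (nat_lit 78) (nat_lit 380) (nat_lit 0) (XT.lf (nat_lit 0) (nat_lit 2004448934) (nat_lit 380) (nat_lit 7038650777) (nat_lit 456) (nat_lit 116025779) (nat_lit 143) (nat_lit 5) (nat_lit 148) (nat_lit 5) (nat_lit 149) (nat_lit 5) (nat_lit 387) (nat_lit 329) (nat_lit 304)) (XT.nd (nat_lit 78) (nat_lit 304) (nat_lit 0) (XT.lf (nat_lit 0) (nat_lit 3219605955) (nat_lit 456) (nat_lit 595650226) (nat_lit 76) (nat_lit 5476000927) (nat_lit 142) (nat_lit 5) (nat_lit 148) (nat_lit 5) (nat_lit 143) (nat_lit 5) (nat_lit 388) (nat_lit 329) (nat_lit 303))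 (XT.lf (nat_lit 0) (nat_lit 6184627934) (nat_lit 304) (nat_lit 460733627) (nat_lit 380) (nat_lit 2782205888) (nat_lit 138) (nat_lit 5) (nat_lit 142) (nat_lit 5) (nat_lit 143) (nat_lit 5) (nat_lit 389) (nat_lit 329) (nat_lit 302)))) (XT.nd (nat_lit 156) (nat_lit 380) (nat_lit 0) (XT.nd (nat_lit 78) (nat_lit 304) (nat_lit 0) (XT.lf (nat_lit 0) (nat_lit 596876607) (nat_lit 456) (nat_lit 6016296019) (nat_lit 76) (nat_lit 2954556058) (nat_lit 132) (nat_lit 5) (nat_lit 138) (nat_lit 5) (nat_lit 133) (nat_lit 5) (nat_lit 390) (nat_lit 329) (nat_lit 301)) (XT.lf (nat_lit 0) (nat_lit 791773905) (nat_lit 304) (nat_lit 3208950030) (nat_lit 380) (nat_lit 5711184140) (nat_lit 128) (nat_lit 5) (nat_lit 132) (nat_lit 5) (nat_lit 133) (nat_lit 5) (nat_lit 391) (nat_lit 329) (nat_lit 300))) (XT.nd (nat_lit 78) (nat_lit 380) (nat_lit 0) (XT.lf (nat_lit 0) (nat_lit 7505679725) (nat_lit 380) (nat_lit 2031611954) (nat_lit 76) (nat_lit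 323169898) (nat_lit 128) (nat_lit 5) (nat_lit 133) (nat_lit 5) (nat_lit 129) (nat_lit 5) (nat_lit 392) (nat_lit 329) (nat_lit 299)) (XT.lf (nat_lit 0) (nat_lit 1097811324) (nat_lit 380) (nat_lit 4987834768) (nat_lit 76) (nat_lit 3927014897) (nat_lit 123) (nat_lit 5) (nat_lit 128) (nat_lit 5) (nat_lit 124) (nat_lit 5) (nat_lit 393) (nat_lit 329) (nat_lit 298))))) (XT.nd (nat_lit 234) (nat_lit 836) (nat_lit 0) (XT.nd (nat_lit 78) (nat_lit 380) (nat_lit 0) (XT.lf (nat_lit 0) (nat_lit 2088530811) (nat_lit 304) (nat_lit 2495910378) (nat_lit 380) (nat_lit 5584969075) (nat_lit 119) (nat_lit 5) (nat_lit 123) (nat_lit 5) (nat_lit 124) (nat_lit 5) (nat_lit 394) (nat_lit 329) (nat_lit 297)) (XT.nd (nat_lit 78) (nat_lit 380) (nat_lit 0) (XT.lf (nat_lit 0) (nat_lit 8175711600) (nat_lit 380) (nat_lit 957114472) (nat_lit 76) (nat_lit 1198051148) (nat_lit 119) (nat_lit 5) (nat_lit 124) (nat_lit 5) (nat_lit 120) (nat_lit 5)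 (nat_lit 395) (nat_lit 329) (nat_lit 296)) (XT.lf (nat_lit 0) (nat_lit 1376447977) (nat_lit 380) (nat_lit 4122005898) (nat_lit 76) (nat_lit 4997578670) (nat_lit 114) (nat_lit 5) (nat_lit 119) (nat_lit 5) (nat_lit 115) (nat_lit 5) (nat_lit 396) (nat_lit 329) (nat_lit 295)))) (XT.nd (nat_lit 156) (nat_lit 608) (nat_lit 0) (XT.nd (nat_lit 78) (nat_lit 0) (nat_lit 0) (XT.lf (nat_lit 0) (nat_lit 3227734164) (nat_lit 228) (nat_lit 1723467869) (nat_lit 304) (nat_lit 5714900146) (nat_lit 111) (nat_lit 5) (nat_lit 114) (nat_lit 5) (nat_lit 115) (nat_lit 5) (nat_lit 397) (nat_lit 329) (nat_lit 294)) (XT.lf (nat_lit 0) (nat_lit 8636327497) (nat_lit 304) (nat_lit 72045694) (nat_lit 76) (nat_lit 2132821466) (nat_lit 111) (nat_lit 5) (nat_lit 115) (nat_lit 5) (nat_lit 112) (nat_lit 5) (nat_lit 398) (nat_lit 329) (nat_lit 293))) (XT.nd (nat_lit 78) (nat_lit 228) (nat_lit 0) (XT.lf (nat_lit 0) (nat_lit 1414954426) (nat_lit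 380) (nat_lit 3479392189) (nat_lit 76) (nat_lit 6125840000) (nat_lit 106) (nat_lit 5) (nat_lit 111) (nat_lit 5) (nat_lit 107) (nat_lit 5) (nat_lit 399) (nat_lit 329) (nat_lit 292)) (XT.lf (nat_lit 0) (nat_lit 4147239063) (nat_lit 228) (nat_lit 934686654) (nat_lit 304) (nat_lit 6122494962) (nat_lit 103) (nat_lit 5) (nat_lit 106) (nat_lit 5) (nat_lit 107) (nat_lit 5) (nat_lit 400) (nat_lit 329) (nat_lit 291))))))) (XT.nd (nat_lit 1092) (nat_lit 1596) (nat_lit 0) (XT.nd (nat_lit 546) (nat_lit 912) (nat_lit 0) (XT.nd (nat_lit 234) (nat_lit 760) (nat_lit 0) (XT.nd (nat_lit 78) (nat_lit 304) (nat_lit 0) (XT.lf (nat_lit 0) (nat_lit 570088877) (nat_lit 228) (nat_lit 8302769772) (nat_lit 304) (nat_lit 2520917530) (nat_lit 100) (nat_lit 5) (nat_lit 103) (nat_lit 5) (nat_lit 104) (nat_lit 5) (nat_lit 401) (nat_lit 329) (nat_lit 290)) (XT.nd (nat_lit 78) (nat_lit 228) (nat_lit 0) (XT.lf (nat_lit 0) (nat_lit 1189731090)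 (nat_lit 304) (nat_lit 3128803063) (nat_lit 76) (nat_lit 7269221042) (nat_lit 99) (nat_lit 5) (nat_lit 103) (nat_lit 5) (nat_lit 100) (nat_lit 5) (nat_lit 402) (nat_lit 329) (nat_lit 289)) (XT.lf (nat_lit 0) (nat_lit 4776252601) (nat_lit 228) (nat_lit 175347410) (nat_lit 304) (nat_lit 6835499606) (nat_lit 96) (nat_lit 5) (nat_lit 99) (nat_lit 5) (nat_lit 100) (nat_lit 5) (nat_lit 403) (nat_lit 329) (nat_lit 288)))) (XT.nd (nat_lit 156) (nat_lit 456) (nat_lit 0) (XT.nd (nat_lit 78) (nat_lit 76) (nat_lit 0) (XT.lf (nat_lit 0) (nat_lit 879256500) (nat_lit 228) (nat_lit 7971864564) (nat_lit 304) (nat_lit 3140570968) (nat_lit 93) (nat_lit 5) (nat_lit 96) (nat_lit 5) (nat_lit 97) (nat_lit 5) (nat_lit 404) (nat_lit 329) (nat_lit 287)) (XT.lf (nat_lit 0) (nat_lit 670759450) (nat_lit 304) (nat_lit 3148947272) (nat_lit 76) (nat_lit 8381978510) (nat_lit 92) (nat_lit 5) (nat_lit 96) (nat_lit 5) (nat_lit 93) (nat_lit 5)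 (nat_lit 405) (nat_lit 329) (nat_lit 286))) (XT.nd (nat_lit 78) (nat_lit 228) (nat_lit 0) (XT.lf (nat_lit 0) (nat_lit 4533442469) (nat_lit 304) (nat_lit 7388464114) (nat_lit 76) (nat_lit 495145312) (nat_lit 89) (nat_lit 5) (nat_lit 93) (nat_lit 5) (nat_lit 90) (nat_lit 5) (nat_lit 406) (nat_lit 329) (nat_lit 285)) (XT.lf (nat_lit 0) (nat_lit 767525929) (nat_lit 228) (nat_lit 7769079034) (nat_lit 304) (nat_lit 4101546881) (nat_lit 86) (nat_lit 5) (nat_lit 89) (nat_lit 5) (nat_lit 90) (nat_lit 5) (nat_lit 407) (nat_lit 329) (nat_lit 284))))) (XT.nd (nat_lit 234) (nat_lit 456) (nat_lit 0) (XT.nd (nat_lit 78) (nat_lit 456) (nat_lit 0) (XT.lf (nat_lit 0) (nat_lit 9233117561) (nat_lit 228) (nat_lit 3449346367) (nat_lit 304) (nat_lit 182752769) (nat_lit 86) (nat_lit 5) (nat_lit 89) (nat_lit 5) (nat_lit 90) (nat_lit 5) (nat_lit 408) (nat_lit 329) (nat_lit 283)) (XT.nd (nat_lit 78) (nat_lit 228) (nat_lit 0) (XT.lf (nat_lit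 0) (nat_lit 3783903961) (nat_lit 228) (nat_lit 8282573288) (nat_lit 76) (nat_lit 1031349439) (nat_lit 83) (nat_lit 5) (nat_lit 86) (nat_lit 5) (nat_lit 84) (nat_lit 5) (nat_lit 409) (nat_lit 329) (nat_lit 282)) (XT.lf (nat_lit 0) (nat_lit 135079789) (nat_lit 228) (nat_lit 7752646465) (nat_lit 304) (nat_lit 5448988383) (nat_lit 80) (nat_lit 5) (nat_lit 83) (nat_lit 5) (nat_lit 84) (nat_lit 5) (nat_lit 410) (nat_lit 329) (nat_lit 281)))) (XT.nd (nat_lit 156) (nat_lit 228) (nat_lit 0) (XT.nd (nat_lit 78) (nat_lit 228) (nat_lit 0) (XT.lf (nat_lit 0) (nat_lit 8890486419) (nat_lit 228) (nat_lit 3257825365) (nat_lit 304) (nat_lit 1433456828) (nat_lit 80) (nat_lit 5) (nat_lit 83) (nat_lit 5) (nat_lit 84) (nat_lit 5) (nat_lit 411) (nat_lit 329) (nat_lit 280)) (XT.lf (nat_lit 0) (nat_lit 2653159620) (nat_lit 228) (nat_lit 9802970756) (nat_lit 76) (nat_lit 1377172154) (nat_lit 77) (nat_lit 5) (nat_lit 80) (nat_lit 5) (nat_lit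 78) (nat_lit 5) (nat_lit 412) (nat_lit 329) (nat_lit 279))) (XT.nd (nat_lit 78) (nat_lit 228) (nat_lit 0) (XT.lf (nat_lit 0) (nat_lit 6864950183) (nat_lit 228) (nat_lit 1111518953) (nat_lit 76) (nat_lit 6114554047) (nat_lit 77) (nat_lit 5) (nat_lit 80) (nat_lit 5) (nat_lit 78) (nat_lit 5) (nat_lit 413) (nat_lit 329) (nat_lit 278)) (XT.lf (nat_lit 0) (nat_lit 7914137757) (nat_lit 228) (nat_lit 3317740199) (nat_lit 304) (nat_lit 3123741853) (nat_lit 74) (nat_lit 5) (nat_lit 77) (nat_lit 5) (nat_lit 78) (nat_lit 5) (nat_lit 414) (nat_lit 329) (nat_lit 277)))))) (XT.nd (nat_lit 546) (nat_lit 836) (nat_lit 0) (XT.nd (nat_lit 234) (nat_lit 380) (nat_lit 0) (XT.nd (nat_lit 78) (nat_lit 152) (nat_lit 0) (XT.lf (nat_lit 0) (nat_lit 1083354761) (nat_lit 228) (nat_lit 12078813422) (nat_lit 76) (nat_lit 1465580077) (nat_lit 71) (nat_lit 5) (nat_lit 74) (nat_lit 5) (nat_lit 72) (nat_lit 5) (nat_lit 415) (nat_lit 329) (nat_lit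 276)) (XT.nd (nat_lit 78) (nat_lit 152) (nat_lit 0) (XT.lf (nat_lit 0) (nat_lit 5405541007) (nat_lit 228) (nat_lit 3110809773) (nat_lit 76) (nat_lit 6389219306) (nat_lit 71) (nat_lit 5) (nat_lit 74) (nat_lit 5) (nat_lit 72) (nat_lit 5) (nat_lit 416) (nat_lit 329) (nat_lit 275)) (XT.lf (nat_lit 0) (nat_lit 6167548340) (nat_lit 152) (nat_lit 3703617718) (nat_lit 228) (nat_lit 5320154297) (nat_lit 69) (nat_lit 5) (nat_lit 71) (nat_lit 5) (nat_lit 72) (nat_lit 5) (nat_lit 417) (nat_lit 329) (nat_lit 274)))) (XT.nd (nat_lit 156) (nat_lit 152) (nat_lit 0) (XT.nd (nat_lit 78) (nat_lit 76) (nat_lit 0) (XT.lf (nat_lit 0) (nat_lit 215880701) (nat_lit 152) (nat_lit 14255467798) (nat_lit 228) (nat_lit 1014283752) (nat_lit 67) (nat_lit 5) (nat_lit 69) (nat_lit 5) (nat_lit 70) (nat_lit 4) (nat_lit 418) (nat_lit 329) (nat_lit 273)) (XT.lf (nat_lit 0) (nat_lit 3437560056) (nat_lit 228) (nat_lit 6018216474) (nat_lit 76) (nat_lit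 6329510433) (nat_lit 66) (nat_lit 5) (nat_lit 69) (nat_lit 5) (nat_lit 67) (nat_lit 5) (nat_lit 419) (nat_lit 329) (nat_lit 272))) (XT.nd (nat_lit 78) (nat_lit 0) (nat_lit 0) (XT.lf (nat_lit 0) (nat_lit 3491850161) (nat_lit 152) (nat_lit 4500458100) (nat_lit 228) (nat_lit 8101635931) (nat_lit 64) (nat_lit 5) (nat_lit 66) (nat_lit 5) (nat_lit 67) (nat_lit 5) (nat_lit 420) (nat_lit 329) (nat_lit 271)) (XT.lf (nat_lit 0) (nat_lit 12707268384) (nat_lit 228) (nat_lit 3083196217) (nat_lit 76) (nat_lit 620695477) (nat_lit 64) (nat_lit 5) (nat_lit 67) (nat_lit 5) (nat_lit 65) (nat_lit 4) (nat_lit 421) (nat_lit 329) (nat_lit 270))))) (XT.nd (nat_lit 312) (nat_lit 304) (nat_lit 0) (XT.nd (nat_lit 156) (nat_lit 304) (nat_lit 0) (XT.nd (nat_lit 78) (nat_lit 0) (nat_lit 0) (XT.lf (nat_lit 0) (nat_lit 877272933) (nat_lit 228) (nat_lit 10011484720) (nat_lit 76) (nat_lit 5846874261) (nat_lit 61) (nat_lit 5) (nat_lit 64) (nat_lit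 5) (nat_lit 62) (nat_lit 5) (nat_lit 422) (nat_lit 329) (nat_lit 269)) (XT.lf (nat_lit 0) (nat_lit 5510633448) (nat_lit 228) (nat_lit 292169679) (nat_lit 76) (nat_lit 11266263962) (nat_lit 61) (nat_lit 5) (nat_lit 64) (nat_lit 5) (nat_lit 62) (nat_lit 5) (nat_lit 423) (nat_lit 329) (nat_lit 268))) (XT.nd (nat_lit 78) (nat_lit 152) (nat_lit 0) (XT.lf (nat_lit 0) (nat_lit 9837684984) (nat_lit 152) (nat_lit 498868850) (nat_lit 228) (nat_lit 7074350064) (nat_lit 59) (nat_lit 5) (nat_lit 61) (nat_lit 5) (nat_lit 62) (nat_lit 5) (nat_lit 424) (nat_lit 329) (nat_lit 267)) (XT.lf (nat_lit 0) (nat_lit 2441198164) (nat_lit 152) (nat_lit 12899405399) (nat_lit 228) (nat_lit 2421396892) (nat_lit 57) (nat_lit 5) (nat_lit 59) (nat_lit 5) (nat_lit 60) (nat_lit 4) (nat_lit 425) (nat_lit 329) (nat_lit 266)))) (XT.nd (nat_lit 156) (nat_lit 76) (nat_lit 0) (XT.nd (nat_lit 78) (nat_lit 152) (nat_lit 0) (XT.lf (nat_lit 0) (nat_lit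 2366321294) (nat_lit 228) (nat_lit 5311839004) (nat_lit 76) (nat_lit 10443547339) (nat_lit 56) (nat_lit 5) (nat_lit 59) (nat_lit 5) (nat_lit 57) (nat_lit 5) (nat_lit 426) (nat_lit 329) (nat_lit 265)) (XT.lf (nat_lit 0) (nat_lit 4999813133) (nat_lit 152) (nat_lit 2257712510) (nat_lit 228) (nat_lit 11233710254) (nat_lit 54) (nat_lit 5) (nat_lit 56) (nat_lit 5) (nat_lit 57) (nat_lit 5) (nat_lit 427) (nat_lit 329) (nat_lit 264))) (XT.nd (nat_lit 78) (nat_lit 76) (nat_lit 0) (XT.lf (nat_lit 0) (nat_lit 12342234968) (nat_lit 228) (nat_lit 3244381955) (nat_lit 76) (nat_lit 3283834631) (nat_lit 54) (nat_lit 5) (nat_lit 57) (nat_lit 5) (nat_lit 55) (nat_lit 4) (nat_lit 428) (nat_lit 329) (nat_lit 263)) (XT.lf (nat_lit 0) (nat_lit 7362108732) (nat_lit 76) (nat_lit 10272279444) (nat_lit 152) (nat_lit 1625012908) (nat_lit 53) (nat_lit 5) (nat_lit 54) (nat_lit 5) (nat_lit 55) (nat_lit 4) (nat_lit 429) (nat_lit 329) (nat_lit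 262))))))))
noncomputable def xc75 : XT := (XT.nd (nat_lit 2184) (nat_lit 988) (nat_lit 0) (XT.nd (nat_lit 1092) (nat_lit 760) (nat_lit 0) (XT.nd (nat_lit 546) (nat_lit 532) (nat_lit 0) (XT.nd (nat_lit 234) (nat_lit 304) (nat_lit 0) (XT.nd (nat_lit 78) (nat_lit 228) (nat_lit 0) (XT.lf (nat_lit 0) (nat_lit 3353389078) (nat_lit 152) (nat_lit 1408339063) (nat_lit 76) (nat_lit 14897459149) (nat_lit 52) (nat_lit 5) (nat_lit 54) (nat_lit 5) (nat_lit 53) (nat_lit 5) (nat_lit 430) (nat_lit 329) (nat_lit 261)) (XT.nd (nat_lit 78) (nat_lit 76) (nat_lit 0) (XT.lf (nat_lit 0) (nat_lit 8512300532) (nat_lit 228) (nat_lit 10581235339) (nat_lit 76) (nat_lit 975038079) (nat_lit 50) (nat_lit 5) (nat_lit 53) (nat_lit 5) (nat_lit 51) (nat_lit 4) (nat_lit 431) (nat_lit 329) (nat_lit 260)) (XT.lf (nat_lit 0) (nat_lit 136838320) (nat_lit 76) (nat_lit 13715079704) (nat_lit 152) (nat_lit 6637550006) (nat_lit 49) (nat_lit 5) (nat_lit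 50) (nat_lit 5) (nat_lit 51) (nat_lit 4) (nat_lit 432) (nat_lit 329) (nat_lit 259)))) (XT.nd (nat_lit 156) (nat_lit 76) (nat_lit 0) (XT.nd (nat_lit 78) (nat_lit 228) (nat_lit 0) (XT.lf (nat_lit 0) (nat_lit 11326534887) (nat_lit 76) (nat_lit 8095586071) (nat_lit 152) (nat_lit 1498759933) (nat_lit 49) (nat_lit 5) (nat_lit 50) (nat_lit 5) (nat_lit 51) (nat_lit 4) (nat_lit 433) (nat_lit 329) (nat_lit 258)) (XT.lf (nat_lit 0) (nat_lit 1412177815) (nat_lit 152) (nat_lit 2285807186) (nat_lit 228) (nat_lit 17666825732) (nat_lit 46) (nat_lit 5) (nat_lit 48) (nat_lit 5) (nat_lit 49) (nat_lit 5) (nat_lit 434) (nat_lit 329) (nat_lit 257))) (XT.nd (nat_lit 78) (nat_lit 76) (nat_lit 0) (XT.lf (nat_lit 0) (nat_lit 9118288888) (nat_lit 228) (nat_lit 8990656892) (nat_lit 76) (nat_lit 3709737646) (nat_lit 46) (nat_lit 5) (nat_lit 49) (nat_lit 5) (nat_lit 47) (nat_lit 4) (nat_lit 435) (nat_lit 329) (nat_lit 256)) (XT.lf (nat_lit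 0) (nat_lit 2257790162) (nat_lit 76) (nat_lit 12453170895) (nat_lit 152) (nat_lit 7574921903) (nat_lit 45) (nat_lit 5) (nat_lit 46) (nat_lit 5) (nat_lit 47) (nat_lit 4) (nat_lit 436) (nat_lit 329) (nat_lit 255))))) (XT.nd (nat_lit 234) (nat_lit 304) (nat_lit 0) (XT.nd (nat_lit 78) (nat_lit 228) (nat_lit 0) (XT.lf (nat_lit 0) (nat_lit 13964801792) (nat_lit 76) (nat_lit 6563223412) (nat_lit 152) (nat_lit 2237378255) (nat_lit 45) (nat_lit 5) (nat_lit 46) (nat_lit 5) (nat_lit 47) (nat_lit 4) (nat_lit 437) (nat_lit 329) (nat_lit 254)) (XT.nd (nat_lit 78) (nat_lit 0) (nat_lit 0) (XT.lf (nat_lit 0) (nat_lit 2723501446) (nat_lit 152) (nat_lit 465837717) (nat_lit 228) (nat_lit 20069253332) (nat_lit 42) (nat_lit 5) (nat_lit 44) (nat_lit 5) (nat_lit 45) (nat_lit 5) (nat_lit 438) (nat_lit 329) (nat_lit 253)) (XT.lf (nat_lit 0) (nat_lit 8846131402) (nat_lit 228) (nat_lit 9131239272) (nat_lit 76) (nat_lit 5785177741) (nat_lit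 42) (nat_lit 5) (nat_lit 45) (nat_lit 5) (nat_lit 43) (nat_lit 4) (nat_lit 439) (nat_lit 329) (nat_lit 252)))) (XT.nd (nat_lit 156) (nat_lit 228) (nat_lit 0) (XT.nd (nat_lit 78) (nat_lit 0) (nat_lit 0) (XT.lf (nat_lit 0) (nat_lit 2600536286) (nat_lit 76) (nat_lit 12069275532) (nat_lit 152) (nat_lit 9611898624) (nat_lit 41) (nat_lit 5) (nat_lit 42) (nat_lit 5) (nat_lit 43) (nat_lit 4) (nat_lit 440) (nat_lit 329) (nat_lit 251)) (XT.lf (nat_lit 0) (nat_lit 14811712643) (nat_lit 76) (nat_lit 5916642067) (nat_lit 152) (nat_lit 4086290936) (nat_lit 41) (nat_lit 5) (nat_lit 42) (nat_lit 5) (nat_lit 43) (nat_lit 4) (nat_lit 441) (nat_lit 329) (nat_lit 250))) (XT.nd (nat_lit 78) (nat_lit 0) (nat_lit 0) (XT.lf (nat_lit 0) (nat_lit 1565588217) (nat_lit 228) (nat_lit 23377156661) (nat_lit 76) (nat_lit 420609141) (nat_lit 38) (nat_lit 5) (nat_lit 41) (nat_lit 5) (nat_lit 39) (nat_lit 4) (nat_lit 442) (nat_lit 329) (nat_lit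 249)) (XT.lf (nat_lit 0) (nat_lit 7434149551) (nat_lit 228) (nat_lit 11544203700) (nat_lit 76) (nat_lit 6945081588) (nat_lit 38) (nat_lit 5) (nat_lit 41) (nat_lit 5) (nat_lit 39) (nat_lit 4) (nat_lit 443) (nat_lit 329) (nat_lit 248)))))) (XT.nd (nat_lit 546) (nat_lit 380) (nat_lit 0) (XT.nd (nat_lit 234) (nat_lit 304) (nat_lit 0) (XT.nd (nat_lit 78) (nat_lit 0) (nat_lit 0) (XT.lf (nat_lit 0) (nat_lit 598401943) (nat_lit 76) (nat_lit 12855696127) (nat_lit 152) (nat_lit 13046962659) (nat_lit 37) (nat_lit 5) (nat_lit 38) (nat_lit 5) (nat_lit 39) (nat_lit 4) (nat_lit 444) (nat_lit 329) (nat_lit 247)) (XT.nd (nat_lit 78) (nat_lit 0) (nat_lit 0) (XT.lf (nat_lit 0) (nat_lit 13285476681) (nat_lit 76) (nat_lit 6455663730) (nat_lit 152) (nat_lit 7352282605) (nat_lit 37) (nat_lit 5) (nat_lit 38) (nat_lit 5) (nat_lit 39) (nat_lit 4) (nat_lit 445) (nat_lit 329) (nat_lit 246)) (XT.lf (nat_lit 0) (nat_lit 26188656356) (nat_lit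 152) (nat_lit 1407145352) (nat_lit 0) (nat_lit 108601005) (nat_lit 37) (nat_lit 5) (nat_lit 39) (nat_lit 4) (nat_lit 37) (nat_lit 4) (nat_lit 446) (nat_lit 329) (nat_lit 245)))) (XT.nd (nat_lit 156) (nat_lit 76) (nat_lit 0) (XT.nd (nat_lit 78) (nat_lit 0) (nat_lit 0) (XT.lf (nat_lit 0) (nat_lit 4555194868) (nat_lit 228) (nat_lit 16902213892) (nat_lit 76) (nat_lit 6870597598) (nat_lit 34) (nat_lit 5) (nat_lit 37) (nat_lit 5) (nat_lit 35) (nat_lit 4) (nat_lit 447) (nat_lit 329) (nat_lit 244)) (XT.lf (nat_lit 0) (nat_lit 10763596877) (nat_lit 228) (nat_lit 4366346284) (nat_lit 76) (nat_lit 13840353010) (nat_lit 34) (nat_lit 5) (nat_lit 37) (nat_lit 5) (nat_lit 35) (nat_lit 4) (nat_lit 448) (nat_lit 329) (nat_lit 243))) (XT.nd (nat_lit 78) (nat_lit 0) (nat_lit 0) (XT.lf (nat_lit 0) (nat_lit 8662329734) (nat_lit 76) (nat_lit 8551467903) (nat_lit 152) (nat_lit 12416392781) (nat_lit 33) (nat_lit 5) (nat_lit 34) (nat_lit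 5) (nat_lit 35) (nat_lit 4) (nat_lit 449) (nat_lit 329) (nat_lit 242)) (XT.lf (nat_lit 0) (nat_lit 22119583735) (nat_lit 76) (nat_lit 1754600886) (nat_lit 152) (nat_lit 6435198542) (nat_lit 33) (nat_lit 5) (nat_lit 34) (nat_lit 5) (nat_lit 35) (nat_lit 4) (nat_lit 450) (nat_lit 329) (nat_lit 241))))) (XT.nd (nat_lit 234) (nat_lit 152) (nat_lit 0) (XT.nd (nat_lit 78) (nat_lit 152) (nat_lit 0) (XT.lf (nat_lit 0) (nat_lit 4967250566) (nat_lit 76) (nat_lit 25838469871) (nat_lit 76) (nat_lit 201093157) (nat_lit 32) (nat_lit 4) (nat_lit 33) (nat_lit 5) (nat_lit 33) (nat_lit 4) (nat_lit 451) (nat_lit 329) (nat_lit 240)) (XT.nd (nat_lit 78) (nat_lit 76) (nat_lit 0) (XT.lf (nat_lit 0) (nat_lit 6172744679) (nat_lit 152) (nat_lit 13164662379) (nat_lit 76) (nat_lit 12383745518) (nat_lit 31) (nat_lit 5) (nat_lit 33) (nat_lit 5) (nat_lit 32) (nat_lit 4) (nat_lit 452) (nat_lit 329) (nat_lit 239)) (XT.lf (nat_lit 0) (nat_lit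 45984306) (nat_lit 76) (nat_lit 12662186959) (nat_lit 152) (nat_lit 19749460117) (nat_lit 30) (nat_lit 5) (nat_lit 31) (nat_lit 5) (nat_lit 32) (nat_lit 4) (nat_lit 453) (nat_lit 329) (nat_lit 238)))) (XT.nd (nat_lit 156) (nat_lit 152) (nat_lit 0) (XT.nd (nat_lit 78) (nat_lit 0) (nat_lit 0) (XT.lf (nat_lit 0) (nat_lit 13873890171) (nat_lit 76) (nat_lit 5672968898) (nat_lit 152) (nat_lit 13666131325) (nat_lit 30) (nat_lit 5) (nat_lit 31) (nat_lit 5) (nat_lit 32) (nat_lit 4) (nat_lit 454) (nat_lit 329) (nat_lit 237)) (XT.lf (nat_lit 0) (nat_lit 26580170085) (nat_lit 152) (nat_lit 5937078100) (nat_lit 0) (nat_lit 1474079853) (nat_lit 30) (nat_lit 5) (nat_lit 32) (nat_lit 4) (nat_lit 30) (nat_lit 4) (nat_lit 455) (nat_lit 329) (nat_lit 236))) (XT.nd (nat_lit 78) (nat_lit 76) (nat_lit 0) (XT.lf (nat_lit 0) (nat_lit 7918725550) (nat_lit 76) (nat_lit 26013571114) (nat_lit 76) (nat_lit 857486351) (nat_lit 29) (nat_lit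 4) (nat_lit 30) (nat_lit 5) (nat_lit 30) (nat_lit 4) (nat_lit 456) (nat_lit 329) (nat_lit 235)) (XT.lf (nat_lit 0) (nat_lit 5813908409) (nat_lit 152) (nat_lit 13402389072) (nat_lit 76) (nat_lit 16393113317) (nat_lit 28) (nat_lit 5) (nat_lit 30) (nat_lit 5) (nat_lit 29) (nat_lit 4) (nat_lit 457) (nat_lit 329) (nat_lit 234))))))) (XT.nd (nat_lit 1092) (nat_lit 456) (nat_lit 0) (XT.nd (nat_lit 546) (nat_lit 228) (nat_lit 0) (XT.nd (nat_lit 234) (nat_lit 228) (nat_lit 0) (XT.nd (nat_lit 78) (nat_lit 0) (nat_lit 0) (XT.lf (nat_lit 0) (nat_lit 424833755) (nat_lit 76) (nat_lit 12223728579) (nat_lit 152) (nat_lit 23805401370) (nat_lit 27) (nat_lit 5) (nat_lit 28) (nat_lit 5) (nat_lit 29) (nat_lit 4) (nat_lit 458) (nat_lit 329) (nat_lit 233)) (XT.nd (nat_lit 78) (nat_lit 0) (nat_lit 0) (XT.lf (nat_lit 0) (nat_lit 14896747588) (nat_lit 76) (nat_lit 4903374309) (nat_lit 152) (nat_lit 17520376822) (nat_lit 27) (nat_lit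 5) (nat_lit 28) (nat_lit 5) (nat_lit 29) (nat_lit 4) (nat_lit 459) (nat_lit 329) (nat_lit 232)) (XT.lf (nat_lit 0) (nat_lit 27168584961) (nat_lit 152) (nat_lit 8479595820) (nat_lit 0) (nat_lit 2564779759) (nat_lit 27) (nat_lit 5) (nat_lit 29) (nat_lit 4) (nat_lit 27) (nat_lit 4) (nat_lit 460) (nat_lit 329) (nat_lit 231)))) (XT.nd (nat_lit 156) (nat_lit 76) (nat_lit 0) (XT.nd (nat_lit 78) (nat_lit 76) (nat_lit 0) (XT.lf (nat_lit 0) (nat_lit 5906842030) (nat_lit 76) (nat_lit 28934270065) (nat_lit 76) (nat_lit 4288595230) (nat_lit 26) (nat_lit 4) (nat_lit 27) (nat_lit 5) (nat_lit 27) (nat_lit 4) (nat_lit 461) (nat_lit 329) (nat_lit 230)) (XT.lf (nat_lit 0) (nat_lit 2681939949) (nat_lit 152) (nat_lit 19241986867) (nat_lit 76) (nat_lit 18147335702) (nat_lit 25) (nat_lit 5) (nat_lit 27) (nat_lit 5) (nat_lit 26) (nat_lit 4) (nat_lit 462) (nat_lit 329) (nat_lit 229))) (XT.nd (nat_lit 78) (nat_lit 76) (nat_lit 0) (XT.lf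 (nat_lit 0) (nat_lit 9753748928) (nat_lit 152) (nat_lit 4925680784) (nat_lit 76) (nat_lit 26361011482) (nat_lit 25) (nat_lit 5) (nat_lit 27) (nat_lit 5) (nat_lit 26) (nat_lit 4) (nat_lit 463) (nat_lit 329) (nat_lit 228)) (XT.lf (nat_lit 0) (nat_lit 9974423882) (nat_lit 76) (nat_lit 7138153278) (nat_lit 152) (nat_lit 24923873379) (nat_lit 24) (nat_lit 5) (nat_lit 25) (nat_lit 5) (nat_lit 26) (nat_lit 4) (nat_lit 464) (nat_lit 329) (nat_lit 227))))) (XT.nd (nat_lit 234) (nat_lit 152) (nat_lit 0) (XT.nd (nat_lit 78) (nat_lit 76) (nat_lit 0) (XT.lf (nat_lit 0) (nat_lit 24727481168) (nat_lit 152) (nat_lit 17685259899) (nat_lit 0) (nat_lit 648540991) (nat_lit 24) (nat_lit 5) (nat_lit 26) (nat_lit 4) (nat_lit 24) (nat_lit 4) (nat_lit 465) (nat_lit 329) (nat_lit 226)) (XT.nd (nat_lit 78) (nat_lit 76) (nat_lit 0) (XT.lf (nat_lit 0) (nat_lit 32621146816) (nat_lit 152) (nat_lit 2987061974) (nat_lit 0) (nat_lit 8507141480)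 (nat_lit 24) (nat_lit 5) (nat_lit 26) (nat_lit 4) (nat_lit 24) (nat_lit 4) (nat_lit 466) (nat_lit 329) (nat_lit 225)) (XT.lf (nat_lit 0) (nat_lit 12355119378) (nat_lit 76) (nat_lit 28495500775) (nat_lit 76) (nat_lit 4347451596) (nat_lit 23) (nat_lit 4) (nat_lit 24) (nat_lit 5) (nat_lit 24) (nat_lit 4) (nat_lit 467) (nat_lit 329) (nat_lit 224)))) (XT.nd (nat_lit 156) (nat_lit 76) (nat_lit 0) (XT.nd (nat_lit 78) (nat_lit 0) (nat_lit 0) (XT.lf (nat_lit 0) (nat_lit 2965608316) (nat_lit 152) (nat_lit 18160916572) (nat_lit 76) (nat_lit 25185560571) (nat_lit 22) (nat_lit 5) (nat_lit 24) (nat_lit 5) (nat_lit 23) (nat_lit 4) (nat_lit 468) (nat_lit 329) (nat_lit 223)) (XT.lf (nat_lit 0) (nat_lit 10391507327) (nat_lit 152) (nat_lit 3118431166) (nat_lit 76) (nat_lit 33948866014) (nat_lit 22) (nat_lit 5) (nat_lit 24) (nat_lit 5) (nat_lit 23) (nat_lit 4) (nat_lit 469) (nat_lit 329) (nat_lit 222))) (XT.nd (nat_lit 78) (nat_lit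 0) (nat_lit 0) (XT.lf (nat_lit 0) (nat_lit 12585017142) (nat_lit 76) (nat_lit 5557526268) (nat_lit 152) (nat_lit 30494311938) (nat_lit 21) (nat_lit 5) (nat_lit 22) (nat_lit 5) (nat_lit 23) (nat_lit 4) (nat_lit 470) (nat_lit 329) (nat_lit 221)) (XT.lf (nat_lit 0) (nat_lit 26164647974) (nat_lit 152) (nat_lit 21087363135) (nat_lit 0) (nat_lit 2597081474) (nat_lit 21) (nat_lit 5) (nat_lit 23) (nat_lit 4) (nat_lit 21) (nat_lit 4) (nat_lit 471) (nat_lit 329) (nat_lit 220)))))) (XT.nd (nat_lit 546) (nat_lit 228) (nat_lit 0) (XT.nd (nat_lit 234) (nat_lit 152) (nat_lit 0) (XT.nd (nat_lit 78) (nat_lit 76) (nat_lit 0) (XT.lf (nat_lit 0) (nat_lit 34464402982) (nat_lit 152) (nat_lit 5763860000) (nat_lit 0) (nat_lit 10868325298) (nat_lit 21) (nat_lit 5) (nat_lit 23) (nat_lit 4) (nat_lit 21) (nat_lit 4) (nat_lit 472) (nat_lit 329) (nat_lit 219)) (XT.nd (nat_lit 78) (nat_lit 0) (nat_lit 0) (XT.lf (nat_lit 0) (nat_lit 10184213701)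 (nat_lit 76) (nat_lit 32909321494) (nat_lit 76) (nat_lit 9285563050) (nat_lit 20) (nat_lit 4) (nat_lit 21) (nat_lit 5) (nat_lit 21) (nat_lit 4) (nat_lit 473) (nat_lit 329) (nat_lit 218)) (XT.lf (nat_lit 0) (nat_lit 26695349887) (nat_lit 76) (nat_lit 25327070565) (nat_lit 76) (nat_lit 1676437596) (nat_lit 20) (nat_lit 4) (nat_lit 21) (nat_lit 5) (nat_lit 21) (nat_lit 4) (nat_lit 474) (nat_lit 329) (nat_lit 217)))) (XT.nd (nat_lit 156) (nat_lit 0) (nat_lit 0) (XT.nd (nat_lit 78) (nat_lit 76) (nat_lit 0) (XT.lf (nat_lit 0) (nat_lit 6023751660) (nat_lit 152) (nat_lit 11448508868) (nat_lit 76) (nat_lit 37584683906) (nat_lit 19) (nat_lit 5) (nat_lit 21) (nat_lit 5) (nat_lit 20) (nat_lit 4) (nat_lit 475) (nat_lit 329) (nat_lit 216)) (XT.lf (nat_lit 0) (nat_lit 4614653185) (nat_lit 76) (nat_lit 9334464913) (nat_lit 152) (nat_lit 42505322206) (nat_lit 18) (nat_lit 5) (nat_lit 19) (nat_lit 5) (nat_lit 20) (nat_lit 4)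 (nat_lit 476) (nat_lit 329) (nat_lit 215))) (XT.nd (nat_lit 78) (nat_lit 0) (nat_lit 0) (XT.lf (nat_lit 0) (nat_lit 21362769089) (nat_lit 76) (nat_lit 848767680) (nat_lit 152) (nat_lit 35679346351) (nat_lit 18) (nat_lit 5) (nat_lit 19) (nat_lit 5) (nat_lit 20) (nat_lit 4) (nat_lit 477) (nat_lit 329) (nat_lit 214)) (XT.lf (nat_lit 0) (nat_lit 30781702044) (nat_lit 152) (nat_lit 20863984957) (nat_lit 0) (nat_lit 7722936782) (nat_lit 18) (nat_lit 5) (nat_lit 20) (nat_lit 4) (nat_lit 18) (nat_lit 4) (nat_lit 478) (nat_lit 329) (nat_lit 213))))) (XT.nd (nat_lit 312) (nat_lit 76) (nat_lit 0) (XT.nd (nat_lit 156) (nat_lit 76) (nat_lit 0) (XT.nd (nat_lit 78) (nat_lit 76) (nat_lit 0) (XT.lf (nat_lit 0) (nat_lit 39601857581) (nat_lit 152) (nat_lit 4768467957) (nat_lit 0) (nat_lit 16520585328) (nat_lit 18) (nat_lit 5) (nat_lit 20) (nat_lit 4) (nat_lit 18) (nat_lit 4) (nat_lit 479) (nat_lit 329) (nat_lit 212)) (XT.lf (nat_lit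 0) (nat_lit 12015118115) (nat_lit 76) (nat_lit 36771929989) (nat_lit 76) (nat_lit 13668806288) (nat_lit 17) (nat_lit 4) (nat_lit 18) (nat_lit 5) (nat_lit 18) (nat_lit 4) (nat_lit 480) (nat_lit 329) (nat_lit 211))) (XT.nd (nat_lit 78) (nat_lit 76) (nat_lit 0) (XT.lf (nat_lit 0) (nat_lit 29370992833) (nat_lit 76) (nat_lit 28910047710) (nat_lit 76) (nat_lit 5785709012) (nat_lit 17) (nat_lit 4) (nat_lit 18) (nat_lit 5) (nat_lit 18) (nat_lit 4) (nat_lit 481) (nat_lit 329) (nat_lit 210)) (XT.lf (nat_lit 0) (nat_lit 2273722964) (nat_lit 152) (nat_lit 18529278166) (nat_lit 76) (nat_lit 44922736551) (nat_lit 16) (nat_lit 5) (nat_lit 18) (nat_lit 5) (nat_lit 17) (nat_lit 4) (nat_lit 482) (nat_lit 329) (nat_lit 209)))) (XT.nd (nat_lit 156) (nat_lit 0) (nat_lit 0) (XT.nd (nat_lit 78) (nat_lit 76) (nat_lit 0) (XT.lf (nat_lit 0) (nat_lit 10444460790) (nat_lit 152) (nat_lit 1962677549) (nat_lit 76) (nat_lit 55026064943) (nat_lit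 16) (nat_lit 5) (nat_lit 18) (nat_lit 5) (nat_lit 17) (nat_lit 4) (nat_lit 483) (nat_lit 329) (nat_lit 208)) (XT.lf (nat_lit 0) (nat_lit 15374141445) (nat_lit 76) (nat_lit 3620188174) (nat_lit 152) (nat_lit 50193543604) (nat_lit 15) (nat_lit 5) (nat_lit 16) (nat_lit 5) (nat_lit 17) (nat_lit 4) (nat_lit 484) (nat_lit 329) (nat_lit 207))) (XT.nd (nat_lit 78) (nat_lit 0) (nat_lit 0) (XT.lf (nat_lit 0) (nat_lit 27859155597) (nat_lit 152) (nat_lit 37802494516) (nat_lit 0) (nat_lit 5331779934) (nat_lit 15) (nat_lit 5) (nat_lit 17) (nat_lit 4) (nat_lit 15) (nat_lit 4) (nat_lit 485) (nat_lit 329) (nat_lit 206)) (XT.lf (nat_lit 0) (nat_lit 37012416031) (nat_lit 152) (nat_lit 21372790314) (nat_lit 0) (nat_lit 14467273142) (nat_lit 15) (nat_lit 5) (nat_lit 17) (nat_lit 4) (nat_lit 15) (nat_lit 4) (nat_lit 486) (nat_lit 329) (nat_lit 205))))))))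
noncomputable def xc76 : XT := (XT.nd (nat_lit 45084) (nat_lit 0) (nat_lit 4940) (XT.nd (nat_lit 43992) (nat_lit 0) (nat_lit 11020) (XT.nd (nat_lit 43446) (nat_lit 0) (nat_lit 16264) (XT.nd (nat_lit 234) (nat_lit 0) (nat_lit 0) (XT.nd (nat_lit 78) (nat_lit 76) (nat_lit 0) (XT.lf (nat_lit 0) (nat_lit 46427309452) (nat_lit 152) (nat_lit 4475463657) (nat_lit 0) (nat_lit 23864916828) (nat_lit 15) (nat_lit 5) (nat_lit 17) (nat_lit 4) (nat_lit 15) (nat_lit 4) (nat_lit 487) (nat_lit 329) (nat_lit 204)) (XT.nd (nat_lit 78) (nat_lit 0) (nat_lit 0) (XT.lf (nat_lit 0) (nat_lit 13161069989) (nat_lit 76) (nat_lit 43077504733) (nat_lit 76) (nat_lit 20498364794) (nat_lit 14) (nat_lit 4) (nat_lit 15) (nat_lit 5) (nat_lit 15) (nat_lit 4) (nat_lit 488) (nat_lit 329) (nat_lit 203)) (XT.lf (nat_lit 0) (nat_lit 31394150088) (nat_lit 76) (nat_lit 34982767166) (nat_lit 76) (nat_lit 12387367698) (nat_lit 14) (nat_lit 4) (nat_lit 15)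 (nat_lit 5) (nat_lit 15) (nat_lit 4) (nat_lit 489) (nat_lit 329) (nat_lit 202)))) (XT.nd (nat_lit 43056) (nat_lit 0) (nat_lit 21128) (XT.nd (nat_lit 42978) (nat_lit 0) (nat_lit 23104) (XT.lf (nat_lit 0) (nat_lit 50150637956) (nat_lit 76) (nat_lit 26656680744) (nat_lit 76) (nat_lit 4045495325) (nat_lit 14) (nat_lit 4) (nat_lit 15) (nat_lit 5) (nat_lit 15) (nat_lit 4) (nat_lit 490) (nat_lit 329) (nat_lit 201)) (XT.lf (nat_lit 0) (nat_lit 2668242406) (nat_lit 836) (nat_lit 384977384) (nat_lit 836) (nat_lit 384977384) (nat_lit 318) (nat_lit 4) (nat_lit 329) (nat_lit 5) (nat_lit 329) (nat_lit 4) (nat_lit 360) (nat_lit 330) (nat_lit 330))) (XT.nd (nat_lit 78) (nat_lit 988) (nat_lit 0) (XT.lf (nat_lit 0) (nat_lit 2544663713) (nat_lit 988) (nat_lit 3728379213) (nat_lit 0) (nat_lit 648389475) (nat_lit 305) (nat_lit 5) (nat_lit 318) (nat_lit 4) (nat_lit 305) (nat_lit 4) (nat_lit 361) (nat_lit 330) (nat_lit 329)) (XT.lf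 (nat_lit 0) (nat_lit 1041354840) (nat_lit 988) (nat_lit 4832844424) (nat_lit 988) (nat_lit 1095527237) (nat_lit 292) (nat_lit 4) (nat_lit 305) (nat_lit 5) (nat_lit 305) (nat_lit 4) (nat_lit 362) (nat_lit 330) (nat_lit 328))))) (XT.nd (nat_lit 234) (nat_lit 2508) (nat_lit 0) (XT.nd (nat_lit 78) (nat_lit 2280) (nat_lit 0) (XT.lf (nat_lit 0) (nat_lit 2176235811) (nat_lit 1064) (nat_lit 1106978830) (nat_lit 76) (nat_lit 3737555046) (nat_lit 291) (nat_lit 5) (nat_lit 305) (nat_lit 5) (nat_lit 292) (nat_lit 4) (nat_lit 363) (nat_lit 330) (nat_lit 327)) (XT.nd (nat_lit 78) (nat_lit 1216) (nat_lit 0) (XT.lf (nat_lit 0) (nat_lit 3828827576) (nat_lit 1064) (nat_lit 1633696884) (nat_lit 1140) (nat_lit 1612399496) (nat_lit 277) (nat_lit 5) (nat_lit 291) (nat_lit 5) (nat_lit 292) (nat_lit 4) (nat_lit 364) (nat_lit 330) (nat_lit 326)) (XT.lf (nat_lit 0) (nat_lit 1614727085) (nat_lit 1216) (nat_lit 5406484773) (nat_lit 76)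 (nat_lit 111103797) (nat_lit 261) (nat_lit 5) (nat_lit 277) (nat_lit 5) (nat_lit 262) (nat_lit 4) (nat_lit 365) (nat_lit 330) (nat_lit 325)))) (XT.nd (nat_lit 156) (nat_lit 1216) (nat_lit 0) (XT.nd (nat_lit 78) (nat_lit 1292) (nat_lit 0) (XT.lf (nat_lit 0) (nat_lit 4860032107) (nat_lit 1216) (nat_lit 406615398) (nat_lit 76) (nat_lit 1925741613) (nat_lit 261) (nat_lit 5) (nat_lit 277) (nat_lit 5) (nat_lit 262) (nat_lit 4) (nat_lit 366) (nat_lit 330) (nat_lit 324)) (XT.lf (nat_lit 0) (nat_lit 882260434) (nat_lit 1292) (nat_lit 2522940110) (nat_lit 76) (nat_lit 3850269768) (nat_lit 244) (nat_lit 5) (nat_lit 261) (nat_lit 5) (nat_lit 245) (nat_lit 5) (nat_lit 367) (nat_lit 330) (nat_lit 323))) (XT.nd (nat_lit 78) (nat_lit 608) (nat_lit 0) (XT.lf (nat_lit 0) (nat_lit 2647101240) (nat_lit 608) (nat_lit 1437058825) (nat_lit 684) (nat_lit 3237507135) (nat_lit 236) (nat_lit 5) (nat_lit 244) (nat_lit 5) (nat_lit 245)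 (nat_lit 5) (nat_lit 368) (nat_lit 330) (nat_lit 322)) (XT.lf (nat_lit 0) (nat_lit 542477810) (nat_lit 608) (nat_lit 6786112703) (nat_lit 684) (nat_lit 62911567) (nat_lit 228) (nat_lit 5) (nat_lit 236) (nat_lit 5) (nat_lit 237) (nat_lit 4) (nat_lit 369) (nat_lit 330) (nat_lit 321)))))) (XT.nd (nat_lit 546) (nat_lit 2356) (nat_lit 0) (XT.nd (nat_lit 234) (nat_lit 1596) (nat_lit 0) (XT.nd (nat_lit 78) (nat_lit 1216) (nat_lit 0) (XT.lf (nat_lit 0) (nat_lit 3116882375) (nat_lit 684) (nat_lit 1593610990) (nat_lit 76) (nat_lit 2752881307) (nat_lit 227) (nat_lit 5) (nat_lit 236) (nat_lit 5) (nat_lit 228) (nat_lit 5) (nat_lit 370) (nat_lit 330) (nat_lit 320)) (XT.nd (nat_lit 78) (nat_lit 608) (nat_lit 0) (XT.lf (nat_lit 0) (nat_lit 3797874886) (nat_lit 608) (nat_lit 2542680502) (nat_lit 684) (nat_lit 1198379245) (nat_lit 219) (nat_lit 5) (nat_lit 227) (nat_lit 5) (nat_lit 228) (nat_lit 5) (nat_lit 371) (nat_lit 330)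 (nat_lit 319)) (XT.lf (nat_lit 0) (nat_lit 1684661892) (nat_lit 532) (nat_lit 266052620) (nat_lit 608) (nat_lit 5667104528) (nat_lit 211) (nat_lit 5) (nat_lit 218) (nat_lit 5) (nat_lit 219) (nat_lit 5) (nat_lit 372) (nat_lit 330) (nat_lit 318)))) (XT.nd (nat_lit 156) (nat_lit 988) (nat_lit 0) (XT.nd (nat_lit 78) (nat_lit 608) (nat_lit 0) (XT.lf (nat_lit 0) (nat_lit 5143801962) (nat_lit 608) (nat_lit 477743078) (nat_lit 76) (nat_lit 2077999547) (nat_lit 211) (nat_lit 5) (nat_lit 219) (nat_lit 5) (nat_lit 212) (nat_lit 5) (nat_lit 373) (nat_lit 330) (nat_lit 317)) (XT.lf (nat_lit 0) (nat_lit 605983361) (nat_lit 608) (nat_lit 2646102437) (nat_lit 76) (nat_lit 4532394905) (nat_lit 203) (nat_lit 5) (nat_lit 211) (nat_lit 5) (nat_lit 204) (nat_lit 5) (nat_lit 374) (nat_lit 330) (nat_lit 316))) (XT.nd (nat_lit 78) (nat_lit 532) (nat_lit 0) (XT.lf (nat_lit 0) (nat_lit 2998803921) (nat_lit 456) (nat_lit 764678267) (nat_lit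 532) (nat_lit 4109190399) (nat_lit 197) (nat_lit 5) (nat_lit 203) (nat_lit 5) (nat_lit 204) (nat_lit 5) (nat_lit 375) (nat_lit 330) (nat_lit 315)) (XT.lf (nat_lit 0) (nat_lit 806102232) (nat_lit 532) (nat_lit 6181530422) (nat_lit 608) (nat_lit 976754225) (nat_lit 190) (nat_lit 5) (nat_lit 197) (nat_lit 5) (nat_lit 198) (nat_lit 5) (nat_lit 376) (nat_lit 330) (nat_lit 314))))) (XT.nd (nat_lit 234) (nat_lit 1292) (nat_lit 0) (XT.nd (nat_lit 78) (nat_lit 988) (nat_lit 0) (XT.lf (nat_lit 0) (nat_lit 2183547336) (nat_lit 608) (nat_lit 1428021569) (nat_lit 76) (nat_lit 4447333682) (nat_lit 189) (nat_lit 5) (nat_lit 197) (nat_lit 5) (nat_lit 190) (nat_lit 5) (nat_lit 377) (nat_lit 330) (nat_lit 313)) (XT.nd (nat_lit 78) (nat_lit 532) (nat_lit 0) (XT.lf (nat_lit 0) (nat_lit 4456940970) (nat_lit 456) (nat_lit 927759381) (nat_lit 532) (nat_lit 2772324595) (nat_lit 183) (nat_lit 5) (nat_lit 189) (nat_lit 5) (nat_lit 190)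 (nat_lit 5) (nat_lit 378) (nat_lit 330) (nat_lit 312)) (XT.lf (nat_lit 0) (nat_lit 392839647) (nat_lit 532) (nat_lit 6042774737) (nat_lit 76) (nat_lit 1823064721) (nat_lit 176) (nat_lit 5) (nat_lit 183) (nat_lit 5) (nat_lit 177) (nat_lit 5) (nat_lit 379) (nat_lit 330) (nat_lit 311)))) (XT.nd (nat_lit 156) (nat_lit 912) (nat_lit 0) (XT.nd (nat_lit 78) (nat_lit 380) (nat_lit 0) (XT.lf (nat_lit 0) (nat_lit 3568699428) (nat_lit 532) (nat_lit 110354674) (nat_lit 76) (nat_lit 4684390330) (nat_lit 176) (nat_lit 5) (nat_lit 183) (nat_lit 5) (nat_lit 177) (nat_lit 5) (nat_lit 380) (nat_lit 330) (nat_lit 310)) (XT.lf (nat_lit 0) (nat_lit 6024085993) (nat_lit 380) (nat_lit 800396328) (nat_lit 456) (nat_lit 1647358990) (nat_lit 171) (nat_lit 5) (nat_lit 176) (nat_lit 5) (nat_lit 177) (nat_lit 5) (nat_lit 381) (nat_lit 330) (nat_lit 309))) (XT.nd (nat_lit 78) (nat_lit 380) (nat_lit 0) (XT.lf (nat_lit 0) (nat_lit 1548628608)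 (nat_lit 532) (nat_lit 4880604231) (nat_lit 76) (nat_lit 2154265057) (nat_lit 164) (nat_lit 5) (nat_lit 171) (nat_lit 5) (nat_lit 165) (nat_lit 5) (nat_lit 382) (nat_lit 330) (nat_lit 308)) (XT.lf (nat_lit 0) (nat_lit 1296186364) (nat_lit 380) (nat_lit 3484806189) (nat_lit 456) (nat_lit 3917839735) (nat_lit 159) (nat_lit 5) (nat_lit 164) (nat_lit 5) (nat_lit 165) (nat_lit 5) (nat_lit 383) (nat_lit 330) (nat_lit 307))))))) (XT.nd (nat_lit 1092) (nat_lit 2432) (nat_lit 0) (XT.nd (nat_lit 546) (nat_lit 1596) (nat_lit 0) (XT.nd (nat_lit 234) (nat_lit 1216) (nat_lit 0) (XT.nd (nat_lit 78) (nat_lit 836) (nat_lit 0) (XT.lf (nat_lit 0) (nat_lit 7664157640) (nat_lit 380) (nat_lit 424898884) (nat_lit 456) (nat_lit 729233204) (nat_lit 159) (nat_lit 5) (nat_lit 164) (nat_lit 5) (nat_lit 165) (nat_lit 5) (nat_lit 384) (nat_lit 330) (nat_lit 306)) (XT.nd (nat_lit 78) (nat_lit 380) (nat_lit 0) (XT.lf (nat_lit 0) (nat_lit 2513332264)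 (nat_lit 456) (nat_lit 3700672992) (nat_lit 76) (nat_lit 2726367520) (nat_lit 153) (nat_lit 5) (nat_lit 159) (nat_lit 5) (nat_lit 154) (nat_lit 5) (nat_lit 385) (nat_lit 330) (nat_lit 305)) (XT.lf (nat_lit 0) (nat_lit 2731236234) (nat_lit 380) (nat_lit 3081213146) (nat_lit 456) (nat_lit 3254257163) (nat_lit 148) (nat_lit 5) (nat_lit 153) (nat_lit 5) (nat_lit 154) (nat_lit 5) (nat_lit 386) (nat_lit 330) (nat_lit 304)))) (XT.nd (nat_lit 156) (nat_lit 760) (nat_lit 0) (XT.nd (nat_lit 78) (nat_lit 76) (nat_lit 0) (XT.lf (nat_lit 0) (nat_lit 142641148) (nat_lit 380) (nat_lit 9040959774) (nat_lit 456) (nat_lit 14059688) (nat_lit 143) (nat_lit 5) (nat_lit 148) (nat_lit 5) (nat_lit 149) (nat_lit 5) (nat_lit 387) (nat_lit 330) (nat_lit 303)) (XT.lf (nat_lit 0) (nat_lit 3286546111) (nat_lit 456) (nat_lit 2543798198) (nat_lit 76) (nat_lit 3500419870) (nat_lit 142) (nat_lit 5) (nat_lit 148) (nat_lit 5) (nat_lit 143) (nat_lit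 5) (nat_lit 388) (nat_lit 330) (nat_lit 302))) (XT.nd (nat_lit 78) (nat_lit 456) (nat_lit 0) (XT.lf (nat_lit 0) (nat_lit 4151342161) (nat_lit 304) (nat_lit 2509340379) (nat_lit 380) (nat_lit 2807950523) (nat_lit 138) (nat_lit 5) (nat_lit 142) (nat_lit 5) (nat_lit 143) (nat_lit 5) (nat_lit 389) (nat_lit 330) (nat_lit 301)) (XT.lf (nat_lit 0) (nat_lit 498924756) (nat_lit 456) (nat_lit 8200876662) (nat_lit 76) (nat_lit 911190989) (nat_lit 132) (nat_lit 5) (nat_lit 138) (nat_lit 5) (nat_lit 133) (nat_lit 5) (nat_lit 390) (nat_lit 330) (nat_lit 300))))) (XT.nd (nat_lit 234) (nat_lit 912) (nat_lit 0) (XT.nd (nat_lit 78) (nat_lit 684) (nat_lit 0) (XT.lf (nat_lit 0) (nat_lit 3863628069) (nat_lit 456) (nat_lit 1454287356) (nat_lit 76) (nat_lit 4438439817) (nat_lit 132) (nat_lit 5) (nat_lit 138) (nat_lit 5) (nat_lit 133) (nat_lit 5) (nat_lit 391) (nat_lit 330) (nat_lit 299)) (XT.nd (nat_lit 78) (nat_lit 380) (nat_lit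 0) (XT.lf (nat_lit 0) (nat_lit 5511529592) (nat_lit 304) (nat_lit 1808575516) (nat_lit 380) (nat_lit 2586266856) (nat_lit 128) (nat_lit 5) (nat_lit 132) (nat_lit 5) (nat_lit 133) (nat_lit 5) (nat_lit 392) (nat_lit 330) (nat_lit 298)) (XT.lf (nat_lit 0) (nat_lit 799022051) (nat_lit 380) (nat_lit 7471415000) (nat_lit 76) (nat_lit 1790364071) (nat_lit 123) (nat_lit 5) (nat_lit 128) (nat_lit 5) (nat_lit 124) (nat_lit 5) (nat_lit 393) (nat_lit 330) (nat_lit 297)))) (XT.nd (nat_lit 156) (nat_lit 608) (nat_lit 0) (XT.nd (nat_lit 78) (nat_lit 304) (nat_lit 0) (XT.lf (nat_lit 0) (nat_lit 4235441776) (nat_lit 380) (nat_lit 480999464) (nat_lit 76) (nat_lit 5502623565) (nat_lit 123) (nat_lit 5) (nat_lit 128) (nat_lit 5) (nat_lit 124) (nat_lit 5) (nat_lit 394) (nat_lit 330) (nat_lit 296)) (XT.lf (nat_lit 0) (nat_lit 6762005412) (nat_lit 304) (nat_lit 1018559092) (nat_lit 380) (nat_lit 2601359558) (nat_lit 119) (nat_lit 5)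 (nat_lit 123) (nat_lit 5) (nat_lit 124) (nat_lit 5) (nat_lit 395) (nat_lit 330) (nat_lit 295))) (XT.nd (nat_lit 78) (nat_lit 228) (nat_lit 0) (XT.lf (nat_lit 0) (nat_lit 873111448) (nat_lit 380) (nat_lit 6920954631) (nat_lit 76) (nat_lit 2755124882) (nat_lit 114) (nat_lit 5) (nat_lit 119) (nat_lit 5) (nat_lit 115) (nat_lit 5) (nat_lit 396) (nat_lit 330) (nat_lit 294)) (XT.lf (nat_lit 0) (nat_lit 327870405) (nat_lit 228) (nat_lit 4063290678) (nat_lit 304) (nat_lit 6329807846) (nat_lit 111) (nat_lit 5) (nat_lit 114) (nat_lit 5) (nat_lit 115) (nat_lit 5) (nat_lit 397) (nat_lit 330) (nat_lit 293)))))) (XT.nd (nat_lit 546) (nat_lit 1292) (nat_lit 0) (XT.nd (nat_lit 234) (nat_lit 532) (nat_lit 0) (XT.nd (nat_lit 78) (nat_lit 608) (nat_lit 0) (XT.lf (nat_lit 0) (nat_lit 7846928870) (nat_lit 228) (nat_lit 180036257) (nat_lit 304) (nat_lit 2870582914) (nat_lit 111) (nat_lit 5) (nat_lit 114) (nat_lit 5) (nat_lit 115)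 (nat_lit 5) (nat_lit 398) (nat_lit 330) (nat_lit 292)) (XT.nd (nat_lit 78) (nat_lit 228) (nat_lit 0) (XT.lf (nat_lit 0) (nat_lit 702569404) (nat_lit 380) (nat_lit 6610794977) (nat_lit 76) (nat_lit 3765163981) (nat_lit 106) (nat_lit 5) (nat_lit 111) (nat_lit 5) (nat_lit 107) (nat_lit 5) (nat_lit 399) (nat_lit 330) (nat_lit 291)) (XT.lf (nat_lit 0) (nat_lit 909214409) (nat_lit 228) (nat_lit 3401590377) (nat_lit 304) (nat_lit 6953726115) (nat_lit 103) (nat_lit 5) (nat_lit 106) (nat_lit 5) (nat_lit 107) (nat_lit 5) (nat_lit 400) (nat_lit 330) (nat_lit 290)))) (XT.nd (nat_lit 156) (nat_lit 228) (nat_lit 0) (XT.nd (nat_lit 78) (nat_lit 304) (nat_lit 0) (XT.lf (nat_lit 0) (nat_lit 8045173192) (nat_lit 304) (nat_lit 2759138590) (nat_lit 76) (nat_lit 651277766) (nat_lit 103) (nat_lit 5) (nat_lit 107) (nat_lit 5) (nat_lit 104) (nat_lit 5) (nat_lit 401) (nat_lit 330) (nat_lit 289)) (XT.lf (nat_lit 0) (nat_lit 263008590)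 (nat_lit 304) (nat_lit 6610551130) (nat_lit 76) (nat_lit 4777908643) (nat_lit 99) (nat_lit 5) (nat_lit 103) (nat_lit 5) (nat_lit 100) (nat_lit 5) (nat_lit 402) (nat_lit 330) (nat_lit 288))) (XT.nd (nat_lit 78) (nat_lit 0) (nat_lit 0) (XT.lf (nat_lit 0) (nat_lit 1181838667) (nat_lit 228) (nat_lit 2782018406) (nat_lit 304) (nat_lit 7888792011) (nat_lit 96) (nat_lit 5) (nat_lit 99) (nat_lit 5) (nat_lit 100) (nat_lit 5) (nat_lit 403) (nat_lit 330) (nat_lit 287)) (XT.lf (nat_lit 0) (nat_lit 7803612820) (nat_lit 304) (nat_lit 2815551162) (nat_lit 76) (nat_lit 1439875996) (nat_lit 96) (nat_lit 5) (nat_lit 100) (nat_lit 5) (nat_lit 97) (nat_lit 5) (nat_lit 404) (nat_lit 330) (nat_lit 286))))) (XT.nd (nat_lit 312) (nat_lit 532) (nat_lit 0) (XT.nd (nat_lit 156) (nat_lit 228) (nat_lit 0) (XT.nd (nat_lit 78) (nat_lit 304) (nat_lit 0) (XT.lf (nat_lit 0) (nat_lit 5266344003) (nat_lit 228) (nat_lit 6518637164) (nat_lit 304)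 (nat_lit 485859712) (nat_lit 93) (nat_lit 5) (nat_lit 96) (nat_lit 5) (nat_lit 97) (nat_lit 5) (nat_lit 405) (nat_lit 330) (nat_lit 285)) (XT.lf (nat_lit 0) (nat_lit 1063638108) (nat_lit 228) (nat_lit 2254251854) (nat_lit 304) (nat_lit 9170515169) (nat_lit 89) (nat_lit 5) (nat_lit 92) (nat_lit 5) (nat_lit 93) (nat_lit 5) (nat_lit 406) (nat_lit 330) (nat_lit 284))) (XT.nd (nat_lit 78) (nat_lit 228) (nat_lit 0) (XT.lf (nat_lit 0) (nat_lit 7266795634) (nat_lit 304) (nat_lit 3303880881) (nat_lit 76) (nat_lit 2140461173) (nat_lit 89) (nat_lit 5) (nat_lit 93) (nat_lit 5) (nat_lit 90) (nat_lit 5) (nat_lit 407) (nat_lit 330) (nat_lit 283)) (XT.lf (nat_lit 0) (nat_lit 5054570852) (nat_lit 228) (nat_lit 6300819543) (nat_lit 304) (nat_lit 1584534834) (nat_lit 86) (nat_lit 5) (nat_lit 89) (nat_lit 5) (nat_lit 90) (nat_lit 5) (nat_lit 408) (nat_lit 330) (nat_lit 282)))) (XT.nd (nat_lit 156) (nat_lit 304) (nat_lit 0) (XT.nd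 (nat_lit 78) (nat_lit 0) (nat_lit 0) (XT.lf (nat_lit 0) (nat_lit 460027472) (nat_lit 152) (nat_lit 1872979384) (nat_lit 228) (nat_lit 10842231162) (nat_lit 83) (nat_lit 5) (nat_lit 85) (nat_lit 5) (nat_lit 86) (nat_lit 5) (nat_lit 409) (nat_lit 330) (nat_lit 281)) (XT.lf (nat_lit 0) (nat_lit 6393301661) (nat_lit 228) (nat_lit 4323031792) (nat_lit 76) (nat_lit 2699102693) (nat_lit 83) (nat_lit 5) (nat_lit 86) (nat_lit 5) (nat_lit 84) (nat_lit 5) (nat_lit 410) (nat_lit 330) (nat_lit 280))) (XT.nd (nat_lit 78) (nat_lit 76) (nat_lit 0) (XT.lf (nat_lit 0) (nat_lit 4305895791) (nat_lit 228) (nat_lit 6281700761) (nat_lit 304) (nat_lit 3074886519) (nat_lit 80) (nat_lit 5) (nat_lit 83) (nat_lit 5) (nat_lit 84) (nat_lit 5) (nat_lit 411) (nat_lit 330) (nat_lit 279)) (XT.lf (nat_lit 0) (nat_lit 967937282) (nat_lit 304) (nat_lit 723940713) (nat_lit 76) (nat_lit 12224891022) (nat_lit 79) (nat_lit 5) (nat_lit 83) (nat_lit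 5) (nat_lit 80) (nat_lit 5) (nat_lit 412) (nat_lit 330) (nat_lit 278))))))))
noncomputable def xc77 : XT := (XT.nd (nat_lit 2184) (nat_lit 1520) (nat_lit 0) (XT.nd (nat_lit 1092) (nat_lit 1140) (nat_lit 0) (XT.nd (nat_lit 546) (nat_lit 684) (nat_lit 0) (XT.nd (nat_lit 234) (nat_lit 608) (nat_lit 0) (XT.nd (nat_lit 78) (nat_lit 228) (nat_lit 0) (XT.lf (nat_lit 0) (nat_lit 5133000178) (nat_lit 228) (nat_lit 5987432728) (nat_lit 76) (nat_lit 3055462465) (nat_lit 77) (nat_lit 5) (nat_lit 80) (nat_lit 5) (nat_lit 78) (nat_lit 5) (nat_lit 413) (nat_lit 330) (nat_lit 277)) (XT.nd (nat_lit 78) (nat_lit 0) (nat_lit 0) (XT.lf (nat_lit 0) (nat_lit 2901687117) (nat_lit 228) (nat_lit 6527440060) (nat_lit 304) (nat_lit 5013492600) (nat_lit 74) (nat_lit 5) (nat_lit 77) (nat_lit 5) (nat_lit 78) (nat_lit 5) (nat_lit 414) (nat_lit 330) (nat_lit 276)) (XT.lf (nat_lit 0) (nat_lit 12102374208) (nat_lit 228) (nat_lit 1766899554)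 (nat_lit 304) (nat_lit 847625490) (nat_lit 74) (nat_lit 5) (nat_lit 77) (nat_lit 5) (nat_lit 78) (nat_lit 5) (nat_lit 415) (nat_lit 330) (nat_lit 275)))) (XT.nd (nat_lit 156) (nat_lit 228) (nat_lit 0) (XT.nd (nat_lit 78) (nat_lit 152) (nat_lit 0) (XT.lf (nat_lit 0) (nat_lit 3425809864) (nat_lit 228) (nat_lit 8429771947) (nat_lit 76) (nat_lit 3141345878) (nat_lit 71) (nat_lit 5) (nat_lit 74) (nat_lit 5) (nat_lit 72) (nat_lit 5) (nat_lit 416) (nat_lit 330) (nat_lit 274)) (XT.lf (nat_lit 0) (nat_lit 704175751) (nat_lit 152) (nat_lit 7112974688) (nat_lit 228) (nat_lit 7467759391) (nat_lit 69) (nat_lit 5) (nat_lit 71) (nat_lit 5) (nat_lit 72) (nat_lit 5) (nat_lit 417) (nat_lit 330) (nat_lit 273))) (XT.nd (nat_lit 78) (nat_lit 228) (nat_lit 0) (XT.lf (nat_lit 0) (nat_lit 10208961557) (nat_lit 152) (nat_lit 2172763057) (nat_lit 228) (nat_lit 3198568603) (nat_lit 69) (nat_lit 5) (nat_lit 71) (nat_lit 5) (nat_lit 72)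 (nat_lit 5) (nat_lit 418) (nat_lit 330) (nat_lit 272)) (XT.lf (nat_lit 0) (nat_lit 1200239603) (nat_lit 228) (nat_lit 11804151184) (nat_lit 76) (nat_lit 2879059864) (nat_lit 66) (nat_lit 5) (nat_lit 69) (nat_lit 5) (nat_lit 67) (nat_lit 5) (nat_lit 419) (nat_lit 330) (nat_lit 271))))) (XT.nd (nat_lit 234) (nat_lit 380) (nat_lit 0) (XT.nd (nat_lit 78) (nat_lit 304) (nat_lit 0) (XT.lf (nat_lit 0) (nat_lit 5700459448) (nat_lit 228) (nat_lit 2399102289) (nat_lit 76) (nat_lit 8094184960) (nat_lit 66) (nat_lit 5) (nat_lit 69) (nat_lit 5) (nat_lit 67) (nat_lit 5) (nat_lit 420) (nat_lit 330) (nat_lit 270)) (XT.nd (nat_lit 78) (nat_lit 152) (nat_lit 0) (XT.lf (nat_lit 0) (nat_lit 7359014769) (nat_lit 152) (nat_lit 3006095910) (nat_lit 228) (nat_lit 6147364051) (nat_lit 64) (nat_lit 5) (nat_lit 66) (nat_lit 5) (nat_lit 67) (nat_lit 5) (nat_lit 421) (nat_lit 330) (nat_lit 269)) (XT.lf (nat_lit 0) (nat_lit 534776647) (nat_lit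 152) (nat_lit 14644962747) (nat_lit 228) (nat_lit 1660729750) (nat_lit 62) (nat_lit 5) (nat_lit 64) (nat_lit 5) (nat_lit 65) (nat_lit 4) (nat_lit 422) (nat_lit 330) (nat_lit 268)))) (XT.nd (nat_lit 156) (nat_lit 152) (nat_lit 0) (XT.nd (nat_lit 78) (nat_lit 152) (nat_lit 0) (XT.lf (nat_lit 0) (nat_lit 2984837194) (nat_lit 228) (nat_lit 6606378282) (nat_lit 76) (nat_lit 7583776407) (nat_lit 61) (nat_lit 5) (nat_lit 64) (nat_lit 5) (nat_lit 62) (nat_lit 5) (nat_lit 423) (nat_lit 330) (nat_lit 267)) (XT.lf (nat_lit 0) (nat_lit 3362199067) (nat_lit 152) (nat_lit 4366700153) (nat_lit 228) (nat_lit 9790387783) (nat_lit 59) (nat_lit 5) (nat_lit 61) (nat_lit 5) (nat_lit 62) (nat_lit 5) (nat_lit 424) (nat_lit 330) (nat_lit 266))) (XT.nd (nat_lit 78) (nat_lit 152) (nat_lit 0) (XT.lf (nat_lit 0) (nat_lit 12652783410) (nat_lit 228) (nat_lit 4188139950) (nat_lit 76) (nat_lit 1031867650) (nat_lit 59) (nat_lit 5) (nat_lit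 62) (nat_lit 5) (nat_lit 60) (nat_lit 4) (nat_lit 425) (nat_lit 330) (nat_lit 265)) (XT.lf (nat_lit 0) (nat_lit 6086404304) (nat_lit 152) (nat_lit 11701250665) (nat_lit 228) (nat_lit 447351942) (nat_lit 57) (nat_lit 5) (nat_lit 59) (nat_lit 5) (nat_lit 60) (nat_lit 4) (nat_lit 426) (nat_lit 330) (nat_lit 264)))))) (XT.nd (nat_lit 546) (nat_lit 532) (nat_lit 0) (XT.nd (nat_lit 234) (nat_lit 304) (nat_lit 0) (XT.nd (nat_lit 78) (nat_lit 228) (nat_lit 0) (XT.lf (nat_lit 0) (nat_lit 4385610568) (nat_lit 228) (nat_lit 1964252673) (nat_lit 76) (nat_lit 12256812346) (nat_lit 56) (nat_lit 5) (nat_lit 59) (nat_lit 5) (nat_lit 57) (nat_lit 5) (nat_lit 427) (nat_lit 330) (nat_lit 263)) (XT.nd (nat_lit 78) (nat_lit 76) (nat_lit 0) (XT.lf (nat_lit 0) (nat_lit 8622367248) (nat_lit 152) (nat_lit 777817575) (nat_lit 228) (nat_lit 9587812681) (nat_lit 54) (nat_lit 5) (nat_lit 56) (nat_lit 5) (nat_lit 57) (nat_lit 5) (nat_lit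 428) (nat_lit 330) (nat_lit 262)) (XT.lf (nat_lit 0) (nat_lit 72971156) (nat_lit 76) (nat_lit 14523543122) (nat_lit 152) (nat_lit 4783309614) (nat_lit 53) (nat_lit 5) (nat_lit 54) (nat_lit 5) (nat_lit 55) (nat_lit 4) (nat_lit 429) (nat_lit 330) (nat_lit 261)))) (XT.nd (nat_lit 156) (nat_lit 76) (nat_lit 0) (XT.nd (nat_lit 78) (nat_lit 152) (nat_lit 0) (XT.lf (nat_lit 0) (nat_lit 238479069) (nat_lit 152) (nat_lit 8820709071) (nat_lit 76) (nat_lit 10721882054) (nat_lit 52) (nat_lit 5) (nat_lit 54) (nat_lit 5) (nat_lit 53) (nat_lit 5) (nat_lit 430) (nat_lit 330) (nat_lit 260)) (XT.lf (nat_lit 0) (nat_lit 1904449962) (nat_lit 152) (nat_lit 3392683656) (nat_lit 228) (nat_lit 14896332903) (nat_lit 50) (nat_lit 5) (nat_lit 52) (nat_lit 5) (nat_lit 53) (nat_lit 5) (nat_lit 431) (nat_lit 330) (nat_lit 259))) (XT.nd (nat_lit 78) (nat_lit 76) (nat_lit 0) (XT.lf (nat_lit 0) (nat_lit 10585182568) (nat_lit 228) (nat_lit 7573276554)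 (nat_lit 76) (nat_lit 2457450441) (nat_lit 50) (nat_lit 5) (nat_lit 53) (nat_lit 5) (nat_lit 51) (nat_lit 4) (nat_lit 432) (nat_lit 330) (nat_lit 258)) (XT.lf (nat_lit 0) (nat_lit 3433737395) (nat_lit 76) (nat_lit 12629966268) (nat_lit 152) (nat_lit 4986371066) (nat_lit 49) (nat_lit 5) (nat_lit 50) (nat_lit 5) (nat_lit 51) (nat_lit 4) (nat_lit 433) (nat_lit 330) (nat_lit 257))))) (XT.nd (nat_lit 234) (nat_lit 304) (nat_lit 0) (XT.nd (nat_lit 78) (nat_lit 152) (nat_lit 0) (XT.lf (nat_lit 0) (nat_lit 247759418) (nat_lit 152) (nat_lit 6635215819) (nat_lit 76) (nat_lit 14612956937) (nat_lit 48) (nat_lit 5) (nat_lit 50) (nat_lit 5) (nat_lit 49) (nat_lit 5) (nat_lit 434) (nat_lit 330) (nat_lit 256)) (XT.nd (nat_lit 78) (nat_lit 0) (nat_lit 0) (XT.lf (nat_lit 0) (nat_lit 4654977044) (nat_lit 152) (nat_lit 894768890) (nat_lit 228) (nat_lit 16403610146) (nat_lit 46) (nat_lit 5) (nat_lit 48) (nat_lit 5) (nat_lit 49) (nat_lit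 5) (nat_lit 435) (nat_lit 330) (nat_lit 255)) (XT.lf (nat_lit 0) (nat_lit 11095577430) (nat_lit 228) (nat_lit 6115908461) (nat_lit 76) (nat_lit 5210476585) (nat_lit 46) (nat_lit 5) (nat_lit 49) (nat_lit 5) (nat_lit 47) (nat_lit 4) (nat_lit 436) (nat_lit 330) (nat_lit 254)))) (XT.nd (nat_lit 156) (nat_lit 228) (nat_lit 0) (XT.nd (nat_lit 78) (nat_lit 0) (nat_lit 0) (XT.lf (nat_lit 0) (nat_lit 5439163885) (nat_lit 76) (nat_lit 11397172599) (nat_lit 152) (nat_lit 6067437240) (nat_lit 45) (nat_lit 5) (nat_lit 46) (nat_lit 5) (nat_lit 47) (nat_lit 4) (nat_lit 437) (nat_lit 330) (nat_lit 253)) (XT.lf (nat_lit 0) (nat_lit 17406697320) (nat_lit 76) (nat_lit 5372165335) (nat_lit 152) (nat_lit 620293467) (nat_lit 45) (nat_lit 5) (nat_lit 46) (nat_lit 5) (nat_lit 47) (nat_lit 4) (nat_lit 438) (nat_lit 330) (nat_lit 252))) (XT.nd (nat_lit 78) (nat_lit 0) (nat_lit 0) (XT.lf (nat_lit 0) (nat_lit 4926135737) (nat_lit 228)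 (nat_lit 18084797295) (nat_lit 76) (nat_lit 896033364) (nat_lit 42) (nat_lit 5) (nat_lit 45) (nat_lit 5) (nat_lit 43) (nat_lit 4) (nat_lit 439) (nat_lit 330) (nat_lit 251)) (XT.lf (nat_lit 0) (nat_lit 10709310154) (nat_lit 228) (nat_lit 6432618943) (nat_lit 76) (nat_lit 7285415924) (nat_lit 42) (nat_lit 5) (nat_lit 45) (nat_lit 5) (nat_lit 43) (nat_lit 4) (nat_lit 440) (nat_lit 330) (nat_lit 250))))))) (XT.nd (nat_lit 1092) (nat_lit 608) (nat_lit 0) (XT.nd (nat_lit 546) (nat_lit 380) (nat_lit 0) (XT.nd (nat_lit 234) (nat_lit 228) (nat_lit 0) (XT.nd (nat_lit 78) (nat_lit 228) (nat_lit 0) (XT.lf (nat_lit 0) (nat_lit 5621967161) (nat_lit 76) (nat_lit 11067490012) (nat_lit 152) (nat_lit 8273176304) (nat_lit 41) (nat_lit 5) (nat_lit 42) (nat_lit 5) (nat_lit 43) (nat_lit 4) (nat_lit 441) (nat_lit 330) (nat_lit 249)) (XT.nd (nat_lit 78) (nat_lit 228) (nat_lit 0) (XT.lf (nat_lit 0) (nat_lit 18113748281) (nat_lit 76)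 (nat_lit 4770001731) (nat_lit 152) (nat_lit 2629191043) (nat_lit 41) (nat_lit 5) (nat_lit 42) (nat_lit 5) (nat_lit 43) (nat_lit 4) (nat_lit 442) (nat_lit 330) (nat_lit 248)) (XT.lf (nat_lit 0) (nat_lit 3156577630) (nat_lit 228) (nat_lit 21184856916) (nat_lit 76) (nat_lit 1736369719) (nat_lit 38) (nat_lit 5) (nat_lit 41) (nat_lit 5) (nat_lit 39) (nat_lit 4) (nat_lit 443) (nat_lit 330) (nat_lit 247)))) (XT.nd (nat_lit 156) (nat_lit 152) (nat_lit 0) (XT.nd (nat_lit 78) (nat_lit 76) (nat_lit 0) (XT.lf (nat_lit 0) (nat_lit 9156224296) (nat_lit 228) (nat_lit 9081195398) (nat_lit 76) (nat_lit 8418620739) (nat_lit 38) (nat_lit 5) (nat_lit 41) (nat_lit 5) (nat_lit 39) (nat_lit 4) (nat_lit 444) (nat_lit 330) (nat_lit 246)) (XT.lf (nat_lit 0) (nat_lit 3398145920) (nat_lit 76) (nat_lit 11941703980) (nat_lit 152) (nat_lit 11911656511) (nat_lit 37) (nat_lit 5) (nat_lit 38) (nat_lit 5) (nat_lit 39) (nat_lit 4) (nat_lit 445)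 (nat_lit 330) (nat_lit 245))) (XT.nd (nat_lit 78) (nat_lit 152) (nat_lit 0) (XT.lf (nat_lit 0) (nat_lit 16384809834) (nat_lit 76) (nat_lit 5387524874) (nat_lit 152) (nat_lit 6090603483) (nat_lit 37) (nat_lit 5) (nat_lit 38) (nat_lit 5) (nat_lit 39) (nat_lit 4) (nat_lit 446) (nat_lit 330) (nat_lit 244)) (XT.lf (nat_lit 0) (nat_lit 1226938678) (nat_lit 152) (nat_lit 27167996077) (nat_lit 152) (nat_lit 97866222) (nat_lit 35) (nat_lit 4) (nat_lit 37) (nat_lit 5) (nat_lit 37) (nat_lit 4) (nat_lit 447) (nat_lit 330) (nat_lit 243))))) (XT.nd (nat_lit 234) (nat_lit 228) (nat_lit 0) (XT.nd (nat_lit 78) (nat_lit 76) (nat_lit 0) (XT.lf (nat_lit 0) (nat_lit 6098789882) (nat_lit 228) (nat_lit 14754817917) (nat_lit 76) (nat_lit 8281921936) (nat_lit 34) (nat_lit 5) (nat_lit 37) (nat_lit 5) (nat_lit 35) (nat_lit 4) (nat_lit 448) (nat_lit 330) (nat_lit 242)) (XT.nd (nat_lit 78) (nat_lit 76) (nat_lit 0) (XT.lf (nat_lit 0) (nat_lit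 12452465140) (nat_lit 228) (nat_lit 1920188720) (nat_lit 76) (nat_lit 15425666910) (nat_lit 34) (nat_lit 5) (nat_lit 37) (nat_lit 5) (nat_lit 35) (nat_lit 4) (nat_lit 449) (nat_lit 330) (nat_lit 241)) (XT.lf (nat_lit 0) (nat_lit 11474081422) (nat_lit 76) (nat_lit 7606835496) (nat_lit 152) (nat_lit 11397555648) (nat_lit 33) (nat_lit 5) (nat_lit 34) (nat_lit 5) (nat_lit 35) (nat_lit 4) (nat_lit 450) (nat_lit 330) (nat_lit 240)))) (XT.nd (nat_lit 156) (nat_lit 76) (nat_lit 0) (XT.nd (nat_lit 78) (nat_lit 152) (nat_lit 0) (XT.lf (nat_lit 0) (nat_lit 25260726389) (nat_lit 76) (nat_lit 641048191) (nat_lit 152) (nat_lit 5277449726) (nat_lit 33) (nat_lit 5) (nat_lit 34) (nat_lit 5) (nat_lit 35) (nat_lit 4) (nat_lit 451) (nat_lit 330) (nat_lit 239)) (XT.lf (nat_lit 0) (nat_lit 1117863969) (nat_lit 152) (nat_lit 24311156893) (nat_lit 76) (nat_lit 6468334712) (nat_lit 31) (nat_lit 5) (nat_lit 33) (nat_lit 5) (nat_lit 32)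 (nat_lit 4) (nat_lit 452) (nat_lit 330) (nat_lit 238))) (XT.nd (nat_lit 78) (nat_lit 76) (nat_lit 0) (XT.lf (nat_lit 0) (nat_lit 7640400950) (nat_lit 152) (nat_lit 11125037197) (nat_lit 76) (nat_lit 13868783805) (nat_lit 31) (nat_lit 5) (nat_lit 33) (nat_lit 5) (nat_lit 32) (nat_lit 4) (nat_lit 453) (nat_lit 330) (nat_lit 237)) (XT.lf (nat_lit 0) (nat_lit 2458060604) (nat_lit 76) (nat_lit 11899649213) (nat_lit 152) (nat_lit 19035513371) (nat_lit 30) (nat_lit 5) (nat_lit 31) (nat_lit 5) (nat_lit 32) (nat_lit 4) (nat_lit 454) (nat_lit 330) (nat_lit 236)))))) (XT.nd (nat_lit 546) (nat_lit 380) (nat_lit 0) (XT.nd (nat_lit 234) (nat_lit 76) (nat_lit 0) (XT.nd (nat_lit 78) (nat_lit 152) (nat_lit 0) (XT.lf (nat_lit 0) (nat_lit 16630589175) (nat_lit 76) (nat_lit 4734028493) (nat_lit 152) (nat_lit 12807736092) (nat_lit 30) (nat_lit 5) (nat_lit 31) (nat_lit 5) (nat_lit 32) (nat_lit 4) (nat_lit 455) (nat_lit 330) (nat_lit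 235)) (XT.nd (nat_lit 78) (nat_lit 152) (nat_lit 0) (XT.lf (nat_lit 0) (nat_lit 28583414468) (nat_lit 152) (nat_lit 3817280721) (nat_lit 0) (nat_lit 2574114249) (nat_lit 30) (nat_lit 5) (nat_lit 32) (nat_lit 4) (nat_lit 30) (nat_lit 4) (nat_lit 456) (nat_lit 330) (nat_lit 234)) (XT.lf (nat_lit 0) (nat_lit 338500871) (nat_lit 152) (nat_lit 25369268089) (nat_lit 76) (nat_lit 10089749444) (nat_lit 28) (nat_lit 5) (nat_lit 30) (nat_lit 5) (nat_lit 29) (nat_lit 4) (nat_lit 457) (nat_lit 330) (nat_lit 233)))) (XT.nd (nat_lit 156) (nat_lit 0) (nat_lit 0) (XT.nd (nat_lit 78) (nat_lit 76) (nat_lit 0) (XT.lf (nat_lit 0) (nat_lit 7157720988) (nat_lit 152) (nat_lit 11572003330) (nat_lit 76) (nat_lit 17912810746) (nat_lit 28) (nat_lit 5) (nat_lit 30) (nat_lit 5) (nat_lit 29) (nat_lit 4) (nat_lit 458) (nat_lit 330) (nat_lit 232)) (XT.lf (nat_lit 0) (nat_lit 2648149344) (nat_lit 76) (nat_lit 11536454486) (nat_lit 152) (nat_lit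 23328207269) (nat_lit 27) (nat_lit 5) (nat_lit 28) (nat_lit 5) (nat_lit 29) (nat_lit 4) (nat_lit 459) (nat_lit 330) (nat_lit 231))) (XT.nd (nat_lit 78) (nat_lit 0) (nat_lit 0) (XT.lf (nat_lit 0) (nat_lit 17489835042) (nat_lit 76) (nat_lit 4027188207) (nat_lit 152) (nat_lit 16889331677) (nat_lit 27) (nat_lit 5) (nat_lit 28) (nat_lit 5) (nat_lit 29) (nat_lit 4) (nat_lit 460) (nat_lit 330) (nat_lit 230)) (XT.lf (nat_lit 0) (nat_lit 29083384411) (nat_lit 152) (nat_lit 6627083388) (nat_lit 0) (nat_lit 3615819568) (nat_lit 27) (nat_lit 5) (nat_lit 29) (nat_lit 4) (nat_lit 27) (nat_lit 4) (nat_lit 461) (nat_lit 330) (nat_lit 229))))) (XT.nd (nat_lit 312) (nat_lit 152) (nat_lit 0) (XT.nd (nat_lit 156) (nat_lit 76) (nat_lit 0) (XT.nd (nat_lit 78) (nat_lit 76) (nat_lit 0) (XT.lf (nat_lit 0) (nat_lit 8170291712) (nat_lit 76) (nat_lit 28803818587) (nat_lit 76) (nat_lit 3296787599) (nat_lit 26) (nat_lit 4) (nat_lit 27) (nat_lit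 5) (nat_lit 27) (nat_lit 4) (nat_lit 462) (nat_lit 330) (nat_lit 228)) (XT.lf (nat_lit 0) (nat_lit 3829001225) (nat_lit 152) (nat_lit 17772475145) (nat_lit 76) (nat_lit 19639862117) (nat_lit 25) (nat_lit 5) (nat_lit 27) (nat_lit 5) (nat_lit 26) (nat_lit 4) (nat_lit 463) (nat_lit 330) (nat_lit 227))) (XT.nd (nat_lit 78) (nat_lit 76) (nat_lit 0) (XT.lf (nat_lit 0) (nat_lit 11081898365) (nat_lit 152) (nat_lit 3086294579) (nat_lit 76) (nat_lit 28072333422) (nat_lit 25) (nat_lit 5) (nat_lit 27) (nat_lit 5) (nat_lit 26) (nat_lit 4) (nat_lit 464) (nat_lit 330) (nat_lit 226)) (XT.lf (nat_lit 0) (nat_lit 12241331300) (nat_lit 76) (nat_lit 6408913367) (nat_lit 152) (nat_lit 24616510533) (nat_lit 24) (nat_lit 5) (nat_lit 25) (nat_lit 5) (nat_lit 26) (nat_lit 4) (nat_lit 465) (nat_lit 330) (nat_lit 225)))) (XT.nd (nat_lit 156) (nat_lit 152) (nat_lit 0) (XT.nd (nat_lit 78) (nat_lit 0) (nat_lit 0) (XT.lf (nat_lit 0) (nat_lit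 26472566360) (nat_lit 152) (nat_lit 16284366076) (nat_lit 0) (nat_lit 1566031862) (nat_lit 24) (nat_lit 5) (nat_lit 26) (nat_lit 4) (nat_lit 24) (nat_lit 4) (nat_lit 466) (nat_lit 330) (nat_lit 224)) (XT.lf (nat_lit 0) (nat_lit 34573820791) (nat_lit 152) (nat_lit 1201478086) (nat_lit 0) (nat_lit 9634234017) (nat_lit 24) (nat_lit 5) (nat_lit 26) (nat_lit 4) (nat_lit 24) (nat_lit 4) (nat_lit 467) (nat_lit 330) (nat_lit 223))) (XT.nd (nat_lit 78) (nat_lit 76) (nat_lit 0) (XT.lf (nat_lit 0) (nat_lit 14582584435) (nat_lit 76) (nat_lit 28457072616) (nat_lit 76) (nat_lit 3485396255) (nat_lit 23) (nat_lit 4) (nat_lit 24) (nat_lit 5) (nat_lit 24) (nat_lit 4) (nat_lit 468) (nat_lit 330) (nat_lit 222)) (XT.lf (nat_lit 0) (nat_lit 3999345547) (nat_lit 152) (nat_lit 16884159839) (nat_lit 76) (nat_lit 26789547681) (nat_lit 22) (nat_lit 5) (nat_lit 24) (nat_lit 5) (nat_lit 23) (nat_lit 4) (nat_lit 469) (nat_lit 330) (nat_lit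 221))))))))
noncomputable def xc78 : XT := (XT.nd (nat_lit 44928) (nat_lit 0) (nat_lit 8588) (XT.nd (nat_lit 1092) (nat_lit 152) (nat_lit 0) (XT.nd (nat_lit 546) (nat_lit 228) (nat_lit 0) (XT.nd (nat_lit 234) (nat_lit 152) (nat_lit 0) (XT.nd (nat_lit 78) (nat_lit 76) (nat_lit 0) (XT.lf (nat_lit 0) (nat_lit 11620503985) (nat_lit 152) (nat_lit 1443455723) (nat_lit 76) (nat_lit 35791041017) (nat_lit 22) (nat_lit 5) (nat_lit 24) (nat_lit 5) (nat_lit 23) (nat_lit 4) (nat_lit 470) (nat_lit 330) (nat_lit 220)) (XT.nd (nat_lit 78) (nat_lit 0) (nat_lit 0) (XT.lf (nat_lit 0) (nat_lit 14713757521) (nat_lit 76) (nat_lit 4880431076) (nat_lit 152) (nat_lit 30474502436) (nat_lit 21) (nat_lit 5) (nat_lit 22) (nat_lit 5) (nat_lit 23) (nat_lit 4) (nat_lit 471) (nat_lit 330) (nat_lit 219)) (XT.lf (nat_lit 0) (nat_lit 27838403150) (nat_lit 152) (nat_lit 20001199062) (nat_lit 0) (nat_lit 3478251193) (nat_lit 21) (nat_lit 5) (nat_lit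 23) (nat_lit 4) (nat_lit 21) (nat_lit 4) (nat_lit 472) (nat_lit 330) (nat_lit 218)))) (XT.nd (nat_lit 156) (nat_lit 76) (nat_lit 0) (XT.nd (nat_lit 78) (nat_lit 76) (nat_lit 0) (XT.lf (nat_lit 0) (nat_lit 36361262971) (nat_lit 152) (nat_lit 4268052531) (nat_lit 0) (nat_lit 11974236489) (nat_lit 21) (nat_lit 5) (nat_lit 23) (nat_lit 4) (nat_lit 21) (nat_lit 4) (nat_lit 473) (nat_lit 330) (nat_lit 217)) (XT.lf (nat_lit 0) (nat_lit 12142103349) (nat_lit 76) (nat_lit 33097915506) (nat_lit 76) (nat_lit 8684797253) (nat_lit 20) (nat_lit 4) (nat_lit 21) (nat_lit 5) (nat_lit 21) (nat_lit 4) (nat_lit 474) (nat_lit 330) (nat_lit 216))) (XT.nd (nat_lit 78) (nat_lit 76) (nat_lit 0) (XT.lf (nat_lit 0) (nat_lit 29100446536) (nat_lit 76) (nat_lit 25311459736) (nat_lit 76) (nat_lit 873009667) (nat_lit 20) (nat_lit 4) (nat_lit 21) (nat_lit 5) (nat_lit 21) (nat_lit 4) (nat_lit 475) (nat_lit 330) (nat_lit 215)) (XT.lf (nat_lit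 0) (nat_lit 7017145651) (nat_lit 152) (nat_lit 10218238393) (nat_lit 76) (nat_lit 39448847320) (nat_lit 19) (nat_lit 5) (nat_lit 21) (nat_lit 5) (nat_lit 20) (nat_lit 4) (nat_lit 476) (nat_lit 330) (nat_lit 214))))) (XT.nd (nat_lit 234) (nat_lit 152) (nat_lit 0) (XT.nd (nat_lit 78) (nat_lit 0) (nat_lit 0) (XT.lf (nat_lit 0) (nat_lit 6311389838) (nat_lit 76) (nat_lit 8860192216) (nat_lit 152) (nat_lit 42952331980) (nat_lit 18) (nat_lit 5) (nat_lit 19) (nat_lit 5) (nat_lit 20) (nat_lit 4) (nat_lit 477) (nat_lit 330) (nat_lit 213)) (XT.nd (nat_lit 78) (nat_lit 0) (nat_lit 0) (XT.lf (nat_lit 0) (nat_lit 23516561926) (nat_lit 76) (nat_lit 141894162) (nat_lit 152) (nat_lit 35945697720) (nat_lit 18) (nat_lit 5) (nat_lit 19) (nat_lit 5) (nat_lit 20) (nat_lit 4) (nat_lit 478) (nat_lit 330) (nat_lit 212)) (XT.lf (nat_lit 0) (nat_lit 32469825807) (nat_lit 152) (nat_lit 20005122076) (nat_lit 0) (nat_lit 8651756948) (nat_lit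 18) (nat_lit 5) (nat_lit 20) (nat_lit 4) (nat_lit 18) (nat_lit 4) (nat_lit 479) (nat_lit 330) (nat_lit 211)))) (XT.nd (nat_lit 156) (nat_lit 76) (nat_lit 0) (XT.nd (nat_lit 78) (nat_lit 76) (nat_lit 0) (XT.lf (nat_lit 0) (nat_lit 41532313990) (nat_lit 152) (nat_lit 3469985656) (nat_lit 0) (nat_lit 17693030133) (nat_lit 18) (nat_lit 5) (nat_lit 20) (nat_lit 4) (nat_lit 18) (nat_lit 4) (nat_lit 480) (nat_lit 330) (nat_lit 210)) (XT.lf (nat_lit 0) (nat_lit 13802975289) (nat_lit 76) (nat_lit 37182182696) (nat_lit 76) (nat_lit 13322301754) (nat_lit 17) (nat_lit 4) (nat_lit 18) (nat_lit 5) (nat_lit 18) (nat_lit 4) (nat_lit 481) (nat_lit 330) (nat_lit 209))) (XT.nd (nat_lit 78) (nat_lit 76) (nat_lit 0) (XT.lf (nat_lit 0) (nat_lit 31637951385) (nat_lit 76) (nat_lit 29104625654) (nat_lit 76) (nat_lit 5224747541) (nat_lit 17) (nat_lit 4) (nat_lit 18) (nat_lit 5) (nat_lit 18) (nat_lit 4) (nat_lit 482) (nat_lit 330) (nat_lit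 208)) (XT.lf (nat_lit 0) (nat_lit 3041157334) (nat_lit 152) (nat_lit 17725743451) (nat_lit 76) (nat_lit 46909600012) (nat_lit 16) (nat_lit 5) (nat_lit 18) (nat_lit 5) (nat_lit 17) (nat_lit 4) (nat_lit 483) (nat_lit 330) (nat_lit 207)))))) (XT.nd (nat_lit 43290) (nat_lit 0) (nat_lit 19912) (XT.nd (nat_lit 234) (nat_lit 76) (nat_lit 0) (XT.nd (nat_lit 78) (nat_lit 76) (nat_lit 0) (XT.lf (nat_lit 0) (nat_lit 11436651585) (nat_lit 152) (nat_lit 701739372) (nat_lit 76) (nat_lit 57297411322) (nat_lit 16) (nat_lit 5) (nat_lit 18) (nat_lit 5) (nat_lit 17) (nat_lit 4) (nat_lit 484) (nat_lit 330) (nat_lit 206)) (XT.nd (nat_lit 78) (nat_lit 0) (nat_lit 0) (XT.lf (nat_lit 0) (nat_lit 17142244795) (nat_lit 76) (nat_lit 3093561672) (nat_lit 152) (nat_lit 51007523065) (nat_lit 15) (nat_lit 5) (nat_lit 16) (nat_lit 5) (nat_lit 17) (nat_lit 4) (nat_lit 485) (nat_lit 330) (nat_lit 205)) (XT.lf (nat_lit 0) (nat_lit 29352943081)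 (nat_lit 152) (nat_lit 37654090950) (nat_lit 0) (nat_lit 6096428943) (nat_lit 15) (nat_lit 5) (nat_lit 17) (nat_lit 4) (nat_lit 15) (nat_lit 4) (nat_lit 486) (nat_lit 330) (nat_lit 204)))) (XT.nd (nat_lit 156) (nat_lit 76) (nat_lit 0) (XT.nd (nat_lit 78) (nat_lit 0) (nat_lit 0) (XT.lf (nat_lit 0) (nat_lit 38761635906) (nat_lit 152) (nat_lit 20768849362) (nat_lit 0) (nat_lit 15488374453) (nat_lit 15) (nat_lit 5) (nat_lit 17) (nat_lit 4) (nat_lit 15) (nat_lit 4) (nat_lit 487) (nat_lit 330) (nat_lit 203)) (XT.lf (nat_lit 0) (nat_lit 48440368924) (nat_lit 152) (nat_lit 3400868671) (nat_lit 0) (nat_lit 25150847942) (nat_lit 15) (nat_lit 5) (nat_lit 17) (nat_lit 4) (nat_lit 15) (nat_lit 4) (nat_lit 488) (nat_lit 330) (nat_lit 202))) (XT.nd (nat_lit 78) (nat_lit 0) (nat_lit 0) (XT.lf (nat_lit 0) (nat_lit 14752909425) (nat_lit 76) (nat_lit 43786503845) (nat_lit 76) (nat_lit 20481196912) (nat_lit 14) (nat_lit 4) (nat_lit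 15) (nat_lit 5) (nat_lit 15) (nat_lit 4) (nat_lit 489) (nat_lit 330) (nat_lit 201)) (XT.lf (nat_lit 0) (nat_lit 33498117637) (nat_lit 76) (nat_lit 35465914229) (nat_lit 76) (nat_lit 12145281131) (nat_lit 14) (nat_lit 4) (nat_lit 15) (nat_lit 5) (nat_lit 15) (nat_lit 4) (nat_lit 490) (nat_lit 330) (nat_lit 200))))) (XT.nd (nat_lit 234) (nat_lit 3116) (nat_lit 0) (XT.nd (nat_lit 78) (nat_lit 912) (nat_lit 0) (XT.lf (nat_lit 0) (nat_lit 725295597) (nat_lit 836) (nat_lit 1945989888) (nat_lit 0) (nat_lit 725295597) (nat_lit 329) (nat_lit 5) (nat_lit 340) (nat_lit 4) (nat_lit 329) (nat_lit 4) (nat_lit 358) (nat_lit 331) (nat_lit 331)) (XT.nd (nat_lit 78) (nat_lit 76) (nat_lit 0) (XT.lf (nat_lit 0) (nat_lit 637585344) (nat_lit 836) (nat_lit 4104061556) (nat_lit 836) (nat_lit 2092304217) (nat_lit 318) (nat_lit 4) (nat_lit 329) (nat_lit 5) (nat_lit 329) (nat_lit 4) (nat_lit 359) (nat_lit 331) (nat_lit 330)) (XT.lf (nat_lit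 0) (nat_lit 1166025143) (nat_lit 912) (nat_lit 1597888762) (nat_lit 76) (nat_lit 4113700271) (nat_lit 317) (nat_lit 5) (nat_lit 329) (nat_lit 5) (nat_lit 318) (nat_lit 4) (nat_lit 360) (nat_lit 331) (nat_lit 329)))) (XT.nd (nat_lit 156) (nat_lit 1140) (nat_lit 0) (XT.nd (nat_lit 78) (nat_lit 1064) (nat_lit 0) (XT.lf (nat_lit 0) (nat_lit 3087328089) (nat_lit 912) (nat_lit 1320810891) (nat_lit 988) (nat_lit 2516046261) (nat_lit 305) (nat_lit 5) (nat_lit 317) (nat_lit 5) (nat_lit 318) (nat_lit 4) (nat_lit 361) (nat_lit 331) (nat_lit 328)) (XT.lf (nat_lit 0) (nat_lit 686559147) (nat_lit 1064) (nat_lit 6084184922) (nat_lit 76) (nat_lit 203454630) (nat_lit 291) (nat_lit 5) (nat_lit 305) (nat_lit 5) (nat_lit 292) (nat_lit 4) (nat_lit 362) (nat_lit 331) (nat_lit 327))) (XT.nd (nat_lit 78) (nat_lit 1140) (nat_lit 0) (XT.lf (nat_lit 0) (nat_lit 3888465050) (nat_lit 1064) (nat_lit 1319675492) (nat_lit 76) (nat_lit 1818267851)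 (nat_lit 291) (nat_lit 5) (nat_lit 305) (nat_lit 5) (nat_lit 292) (nat_lit 4) (nat_lit 363) (nat_lit 331) (nat_lit 326)) (XT.lf (nat_lit 0) (nat_lit 42241396) (nat_lit 1140) (nat_lit 3516492099) (nat_lit 76) (nat_lit 3523331794) (nat_lit 276) (nat_lit 5) (nat_lit 291) (nat_lit 5) (nat_lit 277) (nat_lit 5) (nat_lit 364) (nat_lit 331) (nat_lit 325))))))) (XT.nd (nat_lit 1092) (nat_lit 4256) (nat_lit 0) (XT.nd (nat_lit 546) (nat_lit 2736) (nat_lit 0) (XT.nd (nat_lit 234) (nat_lit 1900) (nat_lit 0) (XT.nd (nat_lit 78) (nat_lit 1292) (nat_lit 0) (XT.lf (nat_lit 0) (nat_lit 1388947522) (nat_lit 1140) (nat_lit 1798010866) (nat_lit 1216) (nat_lit 3953587667) (nat_lit 261) (nat_lit 5) (nat_lit 276) (nat_lit 5) (nat_lit 277) (nat_lit 5) (nat_lit 365) (nat_lit 331) (nat_lit 324)) (XT.nd (nat_lit 78) (nat_lit 1292) (nat_lit 0) (XT.lf (nat_lit 0) (nat_lit 6369302516) (nat_lit 1216) (nat_lit 780915191) (nat_lit 76) (nat_lit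 52315561) (nat_lit 261) (nat_lit 5) (nat_lit 277) (nat_lit 5) (nat_lit 262) (nat_lit 4) (nat_lit 366) (nat_lit 331) (nat_lit 323)) (XT.lf (nat_lit 0) (nat_lit 2303170998) (nat_lit 1292) (nat_lit 2976255838) (nat_lit 76) (nat_lit 1987247673) (nat_lit 244) (nat_lit 5) (nat_lit 261) (nat_lit 5) (nat_lit 245) (nat_lit 5) (nat_lit 367) (nat_lit 331) (nat_lit 322)))) (XT.nd (nat_lit 156) (nat_lit 1216) (nat_lit 0) (XT.nd (nat_lit 78) (nat_lit 76) (nat_lit 0) (XT.lf (nat_lit 0) (nat_lit 2138285607) (nat_lit 608) (nat_lit 3317955718) (nat_lit 684) (nat_lit 1878117760) (nat_lit 236) (nat_lit 5) (nat_lit 244) (nat_lit 5) (nat_lit 245) (nat_lit 5) (nat_lit 368) (nat_lit 331) (nat_lit 321)) (XT.lf (nat_lit 0) (nat_lit 1216429641) (nat_lit 684) (nat_lit 42096332) (nat_lit 76) (nat_lit 6146958092) (nat_lit 235) (nat_lit 5) (nat_lit 244) (nat_lit 5) (nat_lit 236) (nat_lit 5) (nat_lit 369) (nat_lit 331) (nat_lit 320))) (XT.nd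 (nat_lit 78) (nat_lit 608) (nat_lit 0) (XT.lf (nat_lit 0) (nat_lit 4339743611) (nat_lit 684) (nat_lit 2228356262) (nat_lit 76) (nat_lit 910917083) (nat_lit 227) (nat_lit 5) (nat_lit 236) (nat_lit 5) (nat_lit 228) (nat_lit 5) (nat_lit 370) (nat_lit 331) (nat_lit 319)) (XT.lf (nat_lit 0) (nat_lit 3104120088) (nat_lit 608) (nat_lit 4411134707) (nat_lit 684) (nat_lit 40787243) (nat_lit 219) (nat_lit 5) (nat_lit 227) (nat_lit 5) (nat_lit 228) (nat_lit 5) (nat_lit 371) (nat_lit 331) (nat_lit 318))))) (XT.nd (nat_lit 234) (nat_lit 1520) (nat_lit 0) (XT.nd (nat_lit 78) (nat_lit 608) (nat_lit 0) (XT.lf (nat_lit 0) (nat_lit 901526483) (nat_lit 532) (nat_lit 2135523516) (nat_lit 608) (nat_lit 4599021754) (nat_lit 211) (nat_lit 5) (nat_lit 218) (nat_lit 5) (nat_lit 219) (nat_lit 5) (nat_lit 372) (nat_lit 331) (nat_lit 317)) (XT.nd (nat_lit 78) (nat_lit 608) (nat_lit 0) (XT.lf (nat_lit 0) (nat_lit 6171740486) (nat_lit 608)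 (nat_lit 1307756464) (nat_lit 76) (nat_lit 240070805) (nat_lit 211) (nat_lit 5) (nat_lit 219) (nat_lit 5) (nat_lit 212) (nat_lit 5) (nat_lit 373) (nat_lit 331) (nat_lit 316)) (XT.lf (nat_lit 0) (nat_lit 1545909544) (nat_lit 608) (nat_lit 3569464688) (nat_lit 76) (nat_lit 2690306092) (nat_lit 203) (nat_lit 5) (nat_lit 211) (nat_lit 5) (nat_lit 204) (nat_lit 5) (nat_lit 374) (nat_lit 331) (nat_lit 315)))) (XT.nd (nat_lit 156) (nat_lit 1064) (nat_lit 0) (XT.nd (nat_lit 78) (nat_lit 0) (nat_lit 0) (XT.lf (nat_lit 0) (nat_lit 2010570738) (nat_lit 456) (nat_lit 2644403024) (nat_lit 532) (nat_lit 3240368456) (nat_lit 197) (nat_lit 5) (nat_lit 203) (nat_lit 5) (nat_lit 204) (nat_lit 5) (nat_lit 375) (nat_lit 331) (nat_lit 314)) (XT.lf (nat_lit 0) (nat_lit 7739543528) (nat_lit 456) (nat_lit 76193947) (nat_lit 532) (nat_lit 173237115) (nat_lit 197) (nat_lit 5) (nat_lit 203) (nat_lit 5) (nat_lit 204) (nat_lit 5) (nat_lit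 376) (nat_lit 331) (nat_lit 313))) (XT.nd (nat_lit 78) (nat_lit 456) (nat_lit 0) (XT.lf (nat_lit 0) (nat_lit 2930168786) (nat_lit 608) (nat_lit 2566703312) (nat_lit 76) (nat_lit 2587638499) (nat_lit 189) (nat_lit 5) (nat_lit 197) (nat_lit 5) (nat_lit 190) (nat_lit 5) (nat_lit 377) (nat_lit 331) (nat_lit 312)) (XT.lf (nat_lit 0) (nat_lit 3249497712) (nat_lit 456) (nat_lit 2833310500) (nat_lit 532) (nat_lit 2101295229) (nat_lit 183) (nat_lit 5) (nat_lit 189) (nat_lit 5) (nat_lit 190) (nat_lit 5) (nat_lit 378) (nat_lit 331) (nat_lit 311)))))) (XT.nd (nat_lit 546) (nat_lit 1976) (nat_lit 0) (XT.nd (nat_lit 234) (nat_lit 1368) (nat_lit 0) (XT.nd (nat_lit 78) (nat_lit 380) (nat_lit 0) (XT.lf (nat_lit 0) (nat_lit 922238187) (nat_lit 456) (nat_lit 61415409) (nat_lit 532) (nat_lit 7303938345) (nat_lit 176) (nat_lit 5) (nat_lit 182) (nat_lit 5) (nat_lit 183) (nat_lit 5) (nat_lit 379) (nat_lit 331) (nat_lit 310)) (XT.nd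 (nat_lit 78) (nat_lit 380) (nat_lit 0) (XT.lf (nat_lit 0) (nat_lit 4122834404) (nat_lit 532) (nat_lit 1478404222) (nat_lit 76) (nat_lit 2792232811) (nat_lit 176) (nat_lit 5) (nat_lit 183) (nat_lit 5) (nat_lit 177) (nat_lit 5) (nat_lit 380) (nat_lit 331) (nat_lit 309)) (XT.lf (nat_lit 0) (nat_lit 4583200262) (nat_lit 380) (nat_lit 2746528874) (nat_lit 456) (nat_lit 1173619223) (nat_lit 171) (nat_lit 5) (nat_lit 176) (nat_lit 5) (nat_lit 177) (nat_lit 5) (nat_lit 381) (nat_lit 331) (nat_lit 308)))) (XT.nd (nat_lit 156) (nat_lit 836) (nat_lit 0) (XT.nd (nat_lit 78) (nat_lit 0) (nat_lit 0) (XT.lf (nat_lit 0) (nat_lit 1944498686) (nat_lit 532) (nat_lit 6446792933) (nat_lit 76) (nat_lit 225648095) (nat_lit 164) (nat_lit 5) (nat_lit 171) (nat_lit 5) (nat_lit 165) (nat_lit 5) (nat_lit 382) (nat_lit 331) (nat_lit 307)) (XT.lf (nat_lit 0) (nat_lit 5130092452) (nat_lit 532) (nat_lit 340779853) (nat_lit 76) (nat_lit 3262817166)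 (nat_lit 164) (nat_lit 5) (nat_lit 171) (nat_lit 5) (nat_lit 165) (nat_lit 5) (nat_lit 383) (nat_lit 331) (nat_lit 306))) (XT.nd (nat_lit 78) (nat_lit 456) (nat_lit 0) (XT.lf (nat_lit 0) (nat_lit 5975370906) (nat_lit 380) (nat_lit 2425700492) (nat_lit 456) (nat_lit 453199968) (nat_lit 159) (nat_lit 5) (nat_lit 164) (nat_lit 5) (nat_lit 165) (nat_lit 5) (nat_lit 384) (nat_lit 331) (nat_lit 305)) (XT.lf (nat_lit 0) (nat_lit 2714024157) (nat_lit 456) (nat_lit 5525693891) (nat_lit 76) (nat_lit 738666634) (nat_lit 153) (nat_lit 5) (nat_lit 159) (nat_lit 5) (nat_lit 154) (nat_lit 5) (nat_lit 385) (nat_lit 331) (nat_lit 304))))) (XT.nd (nat_lit 312) (nat_lit 836) (nat_lit 0) (XT.nd (nat_lit 156) (nat_lit 684) (nat_lit 0) (XT.nd (nat_lit 78) (nat_lit 76) (nat_lit 0) (XT.lf (nat_lit 0) (nat_lit 824162348) (nat_lit 380) (nat_lit 5137981822) (nat_lit 456) (nat_lit 3144115085) (nat_lit 148) (nat_lit 5) (nat_lit 153) (nat_lit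 5) (nat_lit 154) (nat_lit 5) (nat_lit 386) (nat_lit 331) (nat_lit 303)) (XT.lf (nat_lit 0) (nat_lit 58815710) (nat_lit 456) (nat_lit 1851196976) (nat_lit 76) (nat_lit 7328244949) (nat_lit 147) (nat_lit 5) (nat_lit 153) (nat_lit 5) (nat_lit 148) (nat_lit 5) (nat_lit 387) (nat_lit 331) (nat_lit 302))) (XT.nd (nat_lit 78) (nat_lit 304) (nat_lit 0) (XT.lf (nat_lit 0) (nat_lit 3290384272) (nat_lit 456) (nat_lit 4642676585) (nat_lit 76) (nat_lit 1440369147) (nat_lit 142) (nat_lit 5) (nat_lit 148) (nat_lit 5) (nat_lit 143) (nat_lit 5) (nat_lit 388) (nat_lit 331) (nat_lit 301)) (XT.lf (nat_lit 0) (nat_lit 1965676603) (nat_lit 304) (nat_lit 4646694347) (nat_lit 380) (nat_lit 2900502109) (nat_lit 138) (nat_lit 5) (nat_lit 142) (nat_lit 5) (nat_lit 143) (nat_lit 5) (nat_lit 389) (nat_lit 331) (nat_lit 300)))) (XT.nd (nat_lit 156) (nat_lit 380) (nat_lit 0) (XT.nd (nat_lit 78) (nat_lit 380) (nat_lit 0) (XT.lf (nat_lit 0)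 (nat_lit 354636966) (nat_lit 380) (nat_lit 881724537) (nat_lit 76) (nat_lit 8420512979) (nat_lit 137) (nat_lit 5) (nat_lit 142) (nat_lit 5) (nat_lit 138) (nat_lit 5) (nat_lit 390) (nat_lit 331) (nat_lit 299)) (XT.lf (nat_lit 0) (nat_lit 3668111104) (nat_lit 456) (nat_lit 3842536415) (nat_lit 76) (nat_lit 2293135531) (nat_lit 132) (nat_lit 5) (nat_lit 138) (nat_lit 5) (nat_lit 133) (nat_lit 5) (nat_lit 391) (nat_lit 331) (nat_lit 298))) (XT.nd (nat_lit 78) (nat_lit 76) (nat_lit 0) (XT.lf (nat_lit 0) (nat_lit 3031498256) (nat_lit 304) (nat_lit 4039527431) (nat_lit 380) (nat_lit 2884389559) (nat_lit 128) (nat_lit 5) (nat_lit 132) (nat_lit 5) (nat_lit 133) (nat_lit 5) (nat_lit 392) (nat_lit 331) (nat_lit 297)) (XT.lf (nat_lit 0) (nat_lit 434531520) (nat_lit 380) (nat_lit 13183760) (nat_lit 76) (nat_lit 9664388759) (nat_lit 127) (nat_lit 5) (nat_lit 132) (nat_lit 5) (nat_lit 128) (nat_lit 5) (nat_lit 393) (nat_lit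 331) (nat_lit 296))))))))
noncomputable def xc79 : XT := (XT.nd (nat_lit 2262) (nat_lit 2356) (nat_lit 0) (XT.nd (nat_lit 1092) (nat_lit 1900) (nat_lit 0) (XT.nd (nat_lit 546) (nat_lit 1292) (nat_lit 0) (XT.nd (nat_lit 234) (nat_lit 608) (nat_lit 0) (XT.nd (nat_lit 78) (nat_lit 684) (nat_lit 0) (XT.lf (nat_lit 0) (nat_lit 3837260783) (nat_lit 380) (nat_lit 3174712452) (nat_lit 76) (nat_lit 3259413072) (nat_lit 123) (nat_lit 5) (nat_lit 128) (nat_lit 5) (nat_lit 124) (nat_lit 5) (nat_lit 394) (nat_lit 331) (nat_lit 295)) (XT.nd (nat_lit 78) (nat_lit 380) (nat_lit 0) (XT.lf (nat_lit 0) (nat_lit 3971233521) (nat_lit 304) (nat_lit 3355919289) (nat_lit 380) (nat_lit 3108757316) (nat_lit 119) (nat_lit 5) (nat_lit 123) (nat_lit 5) (nat_lit 124) (nat_lit 5) (nat_lit 395) (nat_lit 331) (nat_lit 294)) (XT.lf (nat_lit 0) (nat_lit 296151636) (nat_lit 380) (nat_lit 9893858152) (nat_lit 76) (nat_lit 415704657) (nat_lit 114)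 (nat_lit 5) (nat_lit 119) (nat_lit 5) (nat_lit 115) (nat_lit 5) (nat_lit 396) (nat_lit 331) (nat_lit 293)))) (XT.nd (nat_lit 156) (nat_lit 380) (nat_lit 0) (XT.nd (nat_lit 78) (nat_lit 228) (nat_lit 0) (XT.lf (nat_lit 0) (nat_lit 3783060108) (nat_lit 380) (nat_lit 2694468174) (nat_lit 76) (nat_lit 4300905357) (nat_lit 114) (nat_lit 5) (nat_lit 119) (nat_lit 5) (nat_lit 115) (nat_lit 5) (nat_lit 397) (nat_lit 331) (nat_lit 292)) (XT.lf (nat_lit 0) (nat_lit 4728349897) (nat_lit 228) (nat_lit 2636514012) (nat_lit 304) (nat_lit 3591775639) (nat_lit 111) (nat_lit 5) (nat_lit 114) (nat_lit 5) (nat_lit 115) (nat_lit 5) (nat_lit 398) (nat_lit 331) (nat_lit 291))) (XT.nd (nat_lit 78) (nat_lit 76) (nat_lit 0) (XT.lf (nat_lit 0) (nat_lit 1215118272) (nat_lit 304) (nat_lit 9836199178) (nat_lit 380) (nat_lit 88971695) (nat_lit 107) (nat_lit 5) (nat_lit 111) (nat_lit 5) (nat_lit 112) (nat_lit 5) (nat_lit 399) (nat_lit 331)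 (nat_lit 290)) (XT.lf (nat_lit 0) (nat_lit 3485454062) (nat_lit 380) (nat_lit 2464219489) (nat_lit 76) (nat_lit 5377716375) (nat_lit 106) (nat_lit 5) (nat_lit 111) (nat_lit 5) (nat_lit 107) (nat_lit 5) (nat_lit 400) (nat_lit 331) (nat_lit 289))))) (XT.nd (nat_lit 234) (nat_lit 760) (nat_lit 0) (XT.nd (nat_lit 78) (nat_lit 304) (nat_lit 0) (XT.lf (nat_lit 0) (nat_lit 5238793126) (nat_lit 228) (nat_lit 1924058744) (nat_lit 304) (nat_lit 4357311854) (nat_lit 103) (nat_lit 5) (nat_lit 106) (nat_lit 5) (nat_lit 107) (nat_lit 5) (nat_lit 401) (nat_lit 331) (nat_lit 288)) (XT.nd (nat_lit 78) (nat_lit 76) (nat_lit 0) (XT.lf (nat_lit 0) (nat_lit 1428111655) (nat_lit 228) (nat_lit 9530306580) (nat_lit 304) (nat_lit 760078989) (nat_lit 100) (nat_lit 5) (nat_lit 103) (nat_lit 5) (nat_lit 104) (nat_lit 5) (nat_lit 402) (nat_lit 331) (nat_lit 287)) (XT.lf (nat_lit 0) (nat_lit 2918543018) (nat_lit 304) (nat_lit 2555038641)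 (nat_lit 76) (nat_lit 6447432746) (nat_lit 99) (nat_lit 5) (nat_lit 103) (nat_lit 5) (nat_lit 100) (nat_lit 5) (nat_lit 403) (nat_lit 331) (nat_lit 286)))) (XT.nd (nat_lit 156) (nat_lit 304) (nat_lit 0) (XT.nd (nat_lit 78) (nat_lit 228) (nat_lit 0) (XT.lf (nat_lit 0) (nat_lit 5429418644) (nat_lit 228) (nat_lit 1264371983) (nat_lit 304) (nat_lit 5435555275) (nat_lit 96) (nat_lit 5) (nat_lit 99) (nat_lit 5) (nat_lit 100) (nat_lit 5) (nat_lit 404) (nat_lit 331) (nat_lit 285)) (XT.lf (nat_lit 0) (nat_lit 1275965106) (nat_lit 228) (nat_lit 9323932776) (nat_lit 304) (nat_lit 1743511956) (nat_lit 93) (nat_lit 5) (nat_lit 96) (nat_lit 5) (nat_lit 97) (nat_lit 5) (nat_lit 405) (nat_lit 331) (nat_lit 284))) (XT.nd (nat_lit 78) (nat_lit 228) (nat_lit 0) (XT.lf (nat_lit 0) (nat_lit 2049896193) (nat_lit 304) (nat_lit 3048366544) (nat_lit 76) (nat_lit 7464125423) (nat_lit 92) (nat_lit 5) (nat_lit 96) (nat_lit 5) (nat_lit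 93) (nat_lit 5) (nat_lit 406) (nat_lit 331) (nat_lit 283)) (XT.lf (nat_lit 0) (nat_lit 5216203422) (nat_lit 228) (nat_lit 707402826) (nat_lit 304) (nat_lit 6863775099) (nat_lit 89) (nat_lit 5) (nat_lit 92) (nat_lit 5) (nat_lit 93) (nat_lit 5) (nat_lit 407) (nat_lit 331) (nat_lit 282)))))) (XT.nd (nat_lit 546) (nat_lit 988) (nat_lit 0) (XT.nd (nat_lit 234) (nat_lit 456) (nat_lit 0) (XT.nd (nat_lit 78) (nat_lit 228) (nat_lit 0) (XT.lf (nat_lit 0) (nat_lit 669100785) (nat_lit 228) (nat_lit 9270381905) (nat_lit 304) (nat_lit 3078872370) (nat_lit 86) (nat_lit 5) (nat_lit 89) (nat_lit 5) (nat_lit 90) (nat_lit 5) (nat_lit 408) (nat_lit 331) (nat_lit 281)) (XT.nd (nat_lit 78) (nat_lit 152) (nat_lit 0) (XT.lf (nat_lit 0) (nat_lit 839725239) (nat_lit 304) (nat_lit 4037970858) (nat_lit 76) (nat_lit 8377250162) (nat_lit 85) (nat_lit 5) (nat_lit 89) (nat_lit 5) (nat_lit 86) (nat_lit 5) (nat_lit 409) (nat_lit 331) (nat_lit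 280)) (XT.lf (nat_lit 0) (nat_lit 4502199123) (nat_lit 152) (nat_lit 308403178) (nat_lit 228) (nat_lit 8687228850) (nat_lit 83) (nat_lit 5) (nat_lit 85) (nat_lit 5) (nat_lit 86) (nat_lit 5) (nat_lit 410) (nat_lit 331) (nat_lit 279)))) (XT.nd (nat_lit 156) (nat_lit 228) (nat_lit 0) (XT.nd (nat_lit 78) (nat_lit 228) (nat_lit 0) (XT.lf (nat_lit 0) (nat_lit 8937707537) (nat_lit 228) (nat_lit 486261540) (nat_lit 76) (nat_lit 4322928796) (nat_lit 83) (nat_lit 5) (nat_lit 86) (nat_lit 5) (nat_lit 84) (nat_lit 5) (nat_lit 411) (nat_lit 331) (nat_lit 278)) (XT.lf (nat_lit 0) (nat_lit 8362646997) (nat_lit 228) (nat_lit 4864415996) (nat_lit 304) (nat_lit 775228585) (nat_lit 80) (nat_lit 5) (nat_lit 83) (nat_lit 5) (nat_lit 84) (nat_lit 5) (nat_lit 412) (nat_lit 331) (nat_lit 277))) (XT.nd (nat_lit 78) (nat_lit 0) (nat_lit 0) (XT.lf (nat_lit 0) (nat_lit 3175181722) (nat_lit 152) (nat_lit 129237659) (nat_lit 228) (nat_lit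 10960242142) (nat_lit 77) (nat_lit 5) (nat_lit 79) (nat_lit 5) (nat_lit 80) (nat_lit 5) (nat_lit 413) (nat_lit 331) (nat_lit 276)) (XT.lf (nat_lit 0) (nat_lit 7549452025) (nat_lit 228) (nat_lit 2293337969) (nat_lit 76) (nat_lit 4690132415) (nat_lit 77) (nat_lit 5) (nat_lit 80) (nat_lit 5) (nat_lit 78) (nat_lit 5) (nat_lit 414) (nat_lit 331) (nat_lit 275))))) (XT.nd (nat_lit 312) (nat_lit 380) (nat_lit 0) (XT.nd (nat_lit 156) (nat_lit 152) (nat_lit 0) (XT.nd (nat_lit 78) (nat_lit 228) (nat_lit 0) (XT.lf (nat_lit 0) (nat_lit 6824477847) (nat_lit 228) (nat_lit 5120959523) (nat_lit 304) (nat_lit 2863092894) (nat_lit 74) (nat_lit 5) (nat_lit 77) (nat_lit 5) (nat_lit 78) (nat_lit 5) (nat_lit 415) (nat_lit 331) (nat_lit 274)) (XT.lf (nat_lit 0) (nat_lit 1104945906) (nat_lit 152) (nat_lit 239859145) (nat_lit 228) (nat_lit 13747484200) (nat_lit 71) (nat_lit 5) (nat_lit 73) (nat_lit 5) (nat_lit 74) (nat_lit 5) (nat_lit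 416) (nat_lit 331) (nat_lit 273))) (XT.nd (nat_lit 78) (nat_lit 152) (nat_lit 0) (XT.lf (nat_lit 0) (nat_lit 5705937785) (nat_lit 228) (nat_lit 4901530335) (nat_lit 76) (nat_lit 4773712749) (nat_lit 71) (nat_lit 5) (nat_lit 74) (nat_lit 5) (nat_lit 72) (nat_lit 5) (nat_lit 417) (nat_lit 331) (nat_lit 272)) (XT.lf (nat_lit 0) (nat_lit 4469365845) (nat_lit 152) (nat_lit 5732224907) (nat_lit 228) (nat_lit 5477044287) (nat_lit 69) (nat_lit 5) (nat_lit 71) (nat_lit 5) (nat_lit 72) (nat_lit 5) (nat_lit 418) (nat_lit 331) (nat_lit 271)))) (XT.nd (nat_lit 156) (nat_lit 152) (nat_lit 0) (XT.nd (nat_lit 78) (nat_lit 228) (nat_lit 0) (XT.lf (nat_lit 0) (nat_lit 14150244794) (nat_lit 152) (nat_lit 690238160) (nat_lit 228) (nat_lit 1144284995) (nat_lit 69) (nat_lit 5) (nat_lit 71) (nat_lit 5) (nat_lit 72) (nat_lit 5) (nat_lit 419) (nat_lit 331) (nat_lit 270)) (XT.lf (nat_lit 0) (nat_lit 3333113384) (nat_lit 228) (nat_lit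 8469284769) (nat_lit 76) (nat_lit 4494353228) (nat_lit 66) (nat_lit 5) (nat_lit 69) (nat_lit 5) (nat_lit 67) (nat_lit 5) (nat_lit 420) (nat_lit 331) (nat_lit 269))) (XT.nd (nat_lit 78) (nat_lit 0) (nat_lit 0) (XT.lf (nat_lit 0) (nat_lit 1132569768) (nat_lit 152) (nat_lit 6785583226) (nat_lit 228) (nat_lit 8699717565) (nat_lit 64) (nat_lit 5) (nat_lit 66) (nat_lit 5) (nat_lit 67) (nat_lit 5) (nat_lit 421) (nat_lit 331) (nat_lit 268)) (XT.lf (nat_lit 0) (nat_lit 11126216642) (nat_lit 152) (nat_lit 1560435700) (nat_lit 228) (nat_lit 4260599226) (nat_lit 64) (nat_lit 5) (nat_lit 66) (nat_lit 5) (nat_lit 67) (nat_lit 5) (nat_lit 422) (nat_lit 331) (nat_lit 267))))))) (XT.nd (nat_lit 1092) (nat_lit 988) (nat_lit 0) (XT.nd (nat_lit 546) (nat_lit 608) (nat_lit 0) (XT.nd (nat_lit 234) (nat_lit 380) (nat_lit 0) (XT.nd (nat_lit 78) (nat_lit 152) (nat_lit 0) (XT.lf (nat_lit 0) (nat_lit 343454635) (nat_lit 228) (nat_lit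 13180895180) (nat_lit 76) (nat_lit 3760944175) (nat_lit 61) (nat_lit 5) (nat_lit 64) (nat_lit 5) (nat_lit 62) (nat_lit 5) (nat_lit 423) (nat_lit 331) (nat_lit 266)) (XT.nd (nat_lit 78) (nat_lit 152) (nat_lit 0) (XT.lf (nat_lit 0) (nat_lit 5036156343) (nat_lit 228) (nat_lit 3311826696) (nat_lit 76) (nat_lit 9283149365) (nat_lit 61) (nat_lit 5) (nat_lit 64) (nat_lit 5) (nat_lit 62) (nat_lit 5) (nat_lit 424) (nat_lit 331) (nat_lit 265)) (XT.lf (nat_lit 0) (nat_lit 6921565396) (nat_lit 152) (nat_lit 2977081005) (nat_lit 228) (nat_lit 8087834247) (nat_lit 59) (nat_lit 5) (nat_lit 61) (nat_lit 5) (nat_lit 62) (nat_lit 5) (nat_lit 425) (nat_lit 331) (nat_lit 264)))) (XT.nd (nat_lit 156) (nat_lit 152) (nat_lit 0) (XT.nd (nat_lit 78) (nat_lit 228) (nat_lit 0) (XT.lf (nat_lit 0) (nat_lit 14927995394) (nat_lit 228) (nat_lit 913523769) (nat_lit 76) (nat_lit 2510345404) (nat_lit 59) (nat_lit 5) (nat_lit 62) (nat_lit 5) (nat_lit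 60) (nat_lit 4) (nat_lit 426) (nat_lit 331) (nat_lit 263)) (XT.lf (nat_lit 0) (nat_lit 1439771874) (nat_lit 228) (nat_lit 9103833884) (nat_lit 76) (nat_lit 8181610179) (nat_lit 56) (nat_lit 5) (nat_lit 59) (nat_lit 5) (nat_lit 57) (nat_lit 5) (nat_lit 427) (nat_lit 331) (nat_lit 262))) (XT.nd (nat_lit 78) (nat_lit 0) (nat_lit 0) (XT.lf (nat_lit 0) (nat_lit 1307971697) (nat_lit 152) (nat_lit 5058239478) (nat_lit 228) (nat_lit 12742972871) (nat_lit 54) (nat_lit 5) (nat_lit 56) (nat_lit 5) (nat_lit 57) (nat_lit 5) (nat_lit 428) (nat_lit 331) (nat_lit 261)) (XT.lf (nat_lit 0) (nat_lit 11502946310) (nat_lit 228) (nat_lit 7355052719) (nat_lit 76) (nat_lit 644801314) (nat_lit 54) (nat_lit 5) (nat_lit 57) (nat_lit 5) (nat_lit 55) (nat_lit 4) (nat_lit 429) (nat_lit 331) (nat_lit 260))))) (XT.nd (nat_lit 234) (nat_lit 304) (nat_lit 0) (XT.nd (nat_lit 78) (nat_lit 228) (nat_lit 0) (XT.lf (nat_lit 0) (nat_lit 3356516893)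 (nat_lit 76) (nat_lit 13484636293) (nat_lit 152) (nat_lit 3065654954) (nat_lit 53) (nat_lit 5) (nat_lit 54) (nat_lit 5) (nat_lit 55) (nat_lit 4) (nat_lit 430) (nat_lit 331) (nat_lit 259)) (XT.nd (nat_lit 78) (nat_lit 152) (nat_lit 0) (XT.lf (nat_lit 0) (nat_lit 2017319005) (nat_lit 152) (nat_lit 5864091003) (nat_lit 76) (nat_lit 12439745510) (nat_lit 52) (nat_lit 5) (nat_lit 54) (nat_lit 5) (nat_lit 53) (nat_lit 5) (nat_lit 431) (nat_lit 331) (nat_lit 258)) (XT.lf (nat_lit 0) (nat_lit 5151242024) (nat_lit 152) (nat_lit 2055549625) (nat_lit 228) (nat_lit 13539766049) (nat_lit 50) (nat_lit 5) (nat_lit 52) (nat_lit 5) (nat_lit 53) (nat_lit 5) (nat_lit 432) (nat_lit 331) (nat_lit 257)))) (XT.nd (nat_lit 156) (nat_lit 228) (nat_lit 0) (XT.nd (nat_lit 78) (nat_lit 76) (nat_lit 0) (XT.lf (nat_lit 0) (nat_lit 12615918383) (nat_lit 228) (nat_lit 4665970331) (nat_lit 76) (nat_lit 3900917775) (nat_lit 50) (nat_lit 5) (nat_lit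 53) (nat_lit 5) (nat_lit 51) (nat_lit 4) (nat_lit 433) (nat_lit 331) (nat_lit 256)) (XT.lf (nat_lit 0) (nat_lit 6640523600) (nat_lit 76) (nat_lit 11598208429) (nat_lit 152) (nat_lit 3391871860) (nat_lit 49) (nat_lit 5) (nat_lit 50) (nat_lit 5) (nat_lit 51) (nat_lit 4) (nat_lit 434) (nat_lit 331) (nat_lit 255))) (XT.nd (nat_lit 78) (nat_lit 152) (nat_lit 0) (XT.lf (nat_lit 0) (nat_lit 1915441573) (nat_lit 152) (nat_lit 3787687923) (nat_lit 76) (nat_lit 16387703905) (nat_lit 48) (nat_lit 5) (nat_lit 50) (nat_lit 5) (nat_lit 49) (nat_lit 5) (nat_lit 435) (nat_lit 331) (nat_lit 254)) (XT.lf (nat_lit 0) (nat_lit 7361495598) (nat_lit 228) (nat_lit 14755589623) (nat_lit 76) (nat_lit 445349497) (nat_lit 46) (nat_lit 5) (nat_lit 49) (nat_lit 5) (nat_lit 47) (nat_lit 4) (nat_lit 436) (nat_lit 331) (nat_lit 253)))))) (XT.nd (nat_lit 546) (nat_lit 608) (nat_lit 0) (XT.nd (nat_lit 234) (nat_lit 228) (nat_lit 0) (XT.nd (nat_lit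 78) (nat_lit 152) (nat_lit 0) (XT.lf (nat_lit 0) (nat_lit 13034382988) (nat_lit 228) (nat_lit 3335422913) (nat_lit 76) (nat_lit 6676477762) (nat_lit 46) (nat_lit 5) (nat_lit 49) (nat_lit 5) (nat_lit 47) (nat_lit 4) (nat_lit 437) (nat_lit 331) (nat_lit 252)) (XT.nd (nat_lit 78) (nat_lit 76) (nat_lit 0) (XT.lf (nat_lit 0) (nat_lit 8537243145) (nat_lit 76) (nat_lit 10391558865) (nat_lit 152) (nat_lit 4614308769) (nat_lit 45) (nat_lit 5) (nat_lit 46) (nat_lit 5) (nat_lit 47) (nat_lit 4) (nat_lit 438) (nat_lit 331) (nat_lit 251)) (XT.lf (nat_lit 0) (nat_lit 930112480) (nat_lit 152) (nat_lit 3285545006) (nat_lit 76) (nat_lit 19838815140) (nat_lit 44) (nat_lit 5) (nat_lit 46) (nat_lit 5) (nat_lit 45) (nat_lit 5) (nat_lit 439) (nat_lit 331) (nat_lit 250)))) (XT.nd (nat_lit 156) (nat_lit 76) (nat_lit 0) (XT.nd (nat_lit 78) (nat_lit 0) (nat_lit 0) (XT.lf (nat_lit 0) (nat_lit 6625176906) (nat_lit 228) (nat_lit 15741363052)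 (nat_lit 76) (nat_lit 2210955968) (nat_lit 42) (nat_lit 5) (nat_lit 45) (nat_lit 5) (nat_lit 43) (nat_lit 4) (nat_lit 440) (nat_lit 331) (nat_lit 249)) (XT.lf (nat_lit 0) (nat_lit 12536664309) (nat_lit 228) (nat_lit 3823676966) (nat_lit 76) (nat_lit 8754504230) (nat_lit 42) (nat_lit 5) (nat_lit 45) (nat_lit 5) (nat_lit 43) (nat_lit 4) (nat_lit 441) (nat_lit 331) (nat_lit 248))) (XT.nd (nat_lit 78) (nat_lit 0) (nat_lit 0) (XT.lf (nat_lit 0) (nat_lit 8565076912) (nat_lit 76) (nat_lit 10113942287) (nat_lit 152) (nat_lit 6987693321) (nat_lit 41) (nat_lit 5) (nat_lit 42) (nat_lit 5) (nat_lit 43) (nat_lit 4) (nat_lit 442) (nat_lit 331) (nat_lit 247)) (XT.lf (nat_lit 0) (nat_lit 21350802220) (nat_lit 76) (nat_lit 3664973215) (nat_lit 152) (nat_lit 1219058743) (nat_lit 41) (nat_lit 5) (nat_lit 42) (nat_lit 5) (nat_lit 43) (nat_lit 4) (nat_lit 443) (nat_lit 331) (nat_lit 246))))) (XT.nd (nat_lit 312) (nat_lit 304) (nat_lit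 0) (XT.nd (nat_lit 156) (nat_lit 76) (nat_lit 0) (XT.nd (nat_lit 78) (nat_lit 0) (nat_lit 0) (XT.lf (nat_lit 0) (nat_lit 4706663560) (nat_lit 228) (nat_lit 19092893485) (nat_lit 76) (nat_lit 3016797416) (nat_lit 38) (nat_lit 5) (nat_lit 41) (nat_lit 5) (nat_lit 39) (nat_lit 4) (nat_lit 444) (nat_lit 331) (nat_lit 245)) (XT.lf (nat_lit 0) (nat_lit 10843909667) (nat_lit 228) (nat_lit 6705564136) (nat_lit 76) (nat_lit 9863739171) (nat_lit 38) (nat_lit 5) (nat_lit 41) (nat_lit 5) (nat_lit 39) (nat_lit 4) (nat_lit 445) (nat_lit 331) (nat_lit 244))) (XT.nd (nat_lit 78) (nat_lit 0) (nat_lit 0) (XT.lf (nat_lit 0) (nat_lit 6122195979) (nat_lit 76) (nat_lit 11074898043) (nat_lit 152) (nat_lit 10829930867) (nat_lit 37) (nat_lit 5) (nat_lit 38) (nat_lit 5) (nat_lit 39) (nat_lit 4) (nat_lit 446) (nat_lit 331) (nat_lit 243)) (XT.lf (nat_lit 0) (nat_lit 19422087801) (nat_lit 76) (nat_lit 4359774837) (nat_lit 152) (nat_lit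 4876161064) (nat_lit 37) (nat_lit 5) (nat_lit 38) (nat_lit 5) (nat_lit 39) (nat_lit 4) (nat_lit 447) (nat_lit 331) (nat_lit 242)))) (XT.nd (nat_lit 156) (nat_lit 76) (nat_lit 0) (XT.nd (nat_lit 78) (nat_lit 0) (nat_lit 0) (XT.lf (nat_lit 0) (nat_lit 1267125161) (nat_lit 228) (nat_lit 25505721243) (nat_lit 76) (nat_lit 2533683386) (nat_lit 34) (nat_lit 5) (nat_lit 37) (nat_lit 5) (nat_lit 35) (nat_lit 4) (nat_lit 448) (nat_lit 331) (nat_lit 241)) (XT.lf (nat_lit 0) (nat_lit 7607928682) (nat_lit 228) (nat_lit 12695377064) (nat_lit 76) (nat_lit 9666402225) (nat_lit 34) (nat_lit 5) (nat_lit 37) (nat_lit 5) (nat_lit 35) (nat_lit 4) (nat_lit 449) (nat_lit 331) (nat_lit 240))) (XT.nd (nat_lit 78) (nat_lit 0) (nat_lit 0) (XT.lf (nat_lit 0) (nat_lit 460398773) (nat_lit 76) (nat_lit 13657614600) (nat_lit 152) (nat_lit 16535398372) (nat_lit 33) (nat_lit 5) (nat_lit 34) (nat_lit 5) (nat_lit 35) (nat_lit 4) (nat_lit 450)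 (nat_lit 331) (nat_lit 239)) (XT.lf (nat_lit 0) (nat_lit 14223697207) (nat_lit 76) (nat_lit 6702816559) (nat_lit 152) (nat_lit 10428021373) (nat_lit 33) (nat_lit 5) (nat_lit 34) (nat_lit 5) (nat_lit 35) (nat_lit 4) (nat_lit 451) (nat_lit 331) (nat_lit 238))))))))
noncomputable def xc80 : XT := (XT.nd (nat_lit 2184) (nat_lit 304) (nat_lit 0) (XT.nd (nat_lit 1092) (nat_lit 532) (nat_lit 0) (XT.nd (nat_lit 546) (nat_lit 228) (nat_lit 0) (XT.nd (nat_lit 234) (nat_lit 228) (nat_lit 0) (XT.nd (nat_lit 78) (nat_lit 152) (nat_lit 0) (XT.lf (nat_lit 0) (nat_lit 27919134175) (nat_lit 152) (nat_lit 3727762817) (nat_lit 0) (nat_lit 430401140) (nat_lit 33) (nat_lit 5) (nat_lit 35) (nat_lit 4) (nat_lit 33) (nat_lit 4) (nat_lit 452) (nat_lit 331) (nat_lit 237)) (XT.nd (nat_lit 78) (nat_lit 0) (nat_lit 0) (XT.lf (nat_lit 0) (nat_lit 2396520209) (nat_lit 152) (nat_lit 22676836208) (nat_lit 76) (nat_lit 7743477881) (nat_lit 31)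 (nat_lit 5) (nat_lit 33) (nat_lit 5) (nat_lit 32) (nat_lit 4) (nat_lit 453) (nat_lit 331) (nat_lit 236)) (XT.lf (nat_lit 0) (nat_lit 9078467658) (nat_lit 152) (nat_lit 9163977254) (nat_lit 76) (nat_lit 15334452297) (nat_lit 31) (nat_lit 5) (nat_lit 33) (nat_lit 5) (nat_lit 32) (nat_lit 4) (nat_lit 454) (nat_lit 331) (nat_lit 235)))) (XT.nd (nat_lit 156) (nat_lit 152) (nat_lit 0) (XT.nd (nat_lit 78) (nat_lit 0) (nat_lit 0) (XT.lf (nat_lit 0) (nat_lit 4804115334) (nat_lit 76) (nat_lit 11179813960) (nat_lit 152) (nat_lit 18375142682) (nat_lit 30) (nat_lit 5) (nat_lit 31) (nat_lit 5) (nat_lit 32) (nat_lit 4) (nat_lit 455) (nat_lit 331) (nat_lit 234)) (XT.lf (nat_lit 0) (nat_lit 19335635891) (nat_lit 76) (nat_lit 3830588446) (nat_lit 152) (nat_lit 11996399154) (nat_lit 30) (nat_lit 5) (nat_lit 31) (nat_lit 5) (nat_lit 32) (nat_lit 4) (nat_lit 456) (nat_lit 331) (nat_lit 233))) (XT.nd (nat_lit 78) (nat_lit 152) (nat_lit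 0) (XT.lf (nat_lit 0) (nat_lit 30577536074) (nat_lit 152) (nat_lit 1765798839) (nat_lit 0) (nat_lit 3646541749) (nat_lit 30) (nat_lit 5) (nat_lit 32) (nat_lit 4) (nat_lit 30) (nat_lit 4) (nat_lit 457) (nat_lit 331) (nat_lit 232)) (XT.lf (nat_lit 0) (nat_lit 1483991167) (nat_lit 152) (nat_lit 23962911750) (nat_lit 76) (nat_lit 11390407005) (nat_lit 28) (nat_lit 5) (nat_lit 30) (nat_lit 5) (nat_lit 29) (nat_lit 4) (nat_lit 458) (nat_lit 331) (nat_lit 231))))) (XT.nd (nat_lit 234) (nat_lit 152) (nat_lit 0) (XT.nd (nat_lit 78) (nat_lit 76) (nat_lit 0) (XT.lf (nat_lit 0) (nat_lit 8474719870) (nat_lit 152) (nat_lit 9814858205) (nat_lit 76) (nat_lit 19419093202) (nat_lit 28) (nat_lit 5) (nat_lit 30) (nat_lit 5) (nat_lit 29) (nat_lit 4) (nat_lit 459) (nat_lit 331) (nat_lit 230)) (XT.nd (nat_lit 78) (nat_lit 0) (nat_lit 0) (XT.lf (nat_lit 0) (nat_lit 4811268607) (nat_lit 76) (nat_lit 10889065275) (nat_lit 152) (nat_lit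 22905086060) (nat_lit 27) (nat_lit 5) (nat_lit 28) (nat_lit 5) (nat_lit 29) (nat_lit 4) (nat_lit 460) (nat_lit 331) (nat_lit 229)) (XT.lf (nat_lit 0) (nat_lit 20037515318) (nat_lit 76) (nat_lit 3183457402) (nat_lit 152) (nat_lit 16305751990) (nat_lit 27) (nat_lit 5) (nat_lit 28) (nat_lit 5) (nat_lit 29) (nat_lit 4) (nat_lit 461) (nat_lit 331) (nat_lit 228)))) (XT.nd (nat_lit 156) (nat_lit 76) (nat_lit 0) (XT.nd (nat_lit 78) (nat_lit 76) (nat_lit 0) (XT.lf (nat_lit 0) (nat_lit 30992498161) (nat_lit 152) (nat_lit 4839940279) (nat_lit 0) (nat_lit 4642473452) (nat_lit 27) (nat_lit 5) (nat_lit 29) (nat_lit 4) (nat_lit 27) (nat_lit 4) (nat_lit 462) (nat_lit 331) (nat_lit 227)) (XT.lf (nat_lit 0) (nat_lit 10381885920) (nat_lit 76) (nat_lit 28726770378) (nat_lit 76) (nat_lit 2339545042) (nat_lit 26) (nat_lit 4) (nat_lit 27) (nat_lit 5) (nat_lit 27) (nat_lit 4) (nat_lit 463) (nat_lit 331) (nat_lit 226))) (XT.nd (nat_lit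 78) (nat_lit 0) (nat_lit 0) (XT.lf (nat_lit 0) (nat_lit 4949246960) (nat_lit 152) (nat_lit 16376371120) (nat_lit 76) (nat_lit 21122739141) (nat_lit 25) (nat_lit 5) (nat_lit 27) (nat_lit 5) (nat_lit 26) (nat_lit 4) (nat_lit 464) (nat_lit 331) (nat_lit 225)) (XT.lf (nat_lit 0) (nat_lit 12390448226) (nat_lit 152) (nat_lit 1305797708) (nat_lit 76) (nat_lit 29782155037) (nat_lit 25) (nat_lit 5) (nat_lit 27) (nat_lit 5) (nat_lit 26) (nat_lit 4) (nat_lit 465) (nat_lit 331) (nat_lit 224)))))) (XT.nd (nat_lit 546) (nat_lit 228) (nat_lit 0) (XT.nd (nat_lit 234) (nat_lit 152) (nat_lit 0) (XT.nd (nat_lit 78) (nat_lit 76) (nat_lit 0) (XT.lf (nat_lit 0) (nat_lit 14463293362) (nat_lit 76) (nat_lit 5711950388) (nat_lit 152) (nat_lit 24360492655) (nat_lit 24) (nat_lit 5) (nat_lit 25) (nat_lit 5) (nat_lit 26) (nat_lit 4) (nat_lit 466) (nat_lit 331) (nat_lit 223)) (XT.nd (nat_lit 78) (nat_lit 76) (nat_lit 0) (XT.lf (nat_lit 0)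 (nat_lit 28212412836) (nat_lit 152) (nat_lit 14952318663) (nat_lit 0) (nat_lit 2459496596) (nat_lit 24) (nat_lit 5) (nat_lit 26) (nat_lit 4) (nat_lit 24) (nat_lit 4) (nat_lit 467) (nat_lit 331) (nat_lit 222)) (XT.lf (nat_lit 0) (nat_lit 540578035) (nat_lit 76) (nat_lit 35993779459) (nat_lit 76) (nat_lit 10209708280) (nat_lit 23) (nat_lit 4) (nat_lit 24) (nat_lit 5) (nat_lit 24) (nat_lit 4) (nat_lit 468) (nat_lit 331) (nat_lit 221)))) (XT.nd (nat_lit 156) (nat_lit 76) (nat_lit 0) (XT.nd (nat_lit 78) (nat_lit 76) (nat_lit 0) (XT.lf (nat_lit 0) (nat_lit 16770284869) (nat_lit 76) (nat_lit 28468770296) (nat_lit 76) (nat_lit 2654451603) (nat_lit 23) (nat_lit 4) (nat_lit 24) (nat_lit 5) (nat_lit 24) (nat_lit 4) (nat_lit 469) (nat_lit 331) (nat_lit 220)) (XT.lf (nat_lit 0) (nat_lit 5009861290) (nat_lit 152) (nat_lit 15673666792) (nat_lit 76) (nat_lit 28392951608) (nat_lit 22) (nat_lit 5) (nat_lit 24) (nat_lit 5) (nat_lit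 23) (nat_lit 4) (nat_lit 470) (nat_lit 331) (nat_lit 219))) (XT.nd (nat_lit 78) (nat_lit 0) (nat_lit 0) (XT.lf (nat_lit 0) (nat_lit 183835512) (nat_lit 76) (nat_lit 12651648185) (nat_lit 152) (nat_lit 37459128628) (nat_lit 21) (nat_lit 5) (nat_lit 22) (nat_lit 5) (nat_lit 23) (nat_lit 4) (nat_lit 471) (nat_lit 331) (nat_lit 218)) (XT.lf (nat_lit 0) (nat_lit 16805834649) (nat_lit 76) (nat_lit 4231461805) (nat_lit 152) (nat_lit 30507750743) (nat_lit 21) (nat_lit 5) (nat_lit 22) (nat_lit 5) (nat_lit 23) (nat_lit 4) (nat_lit 472) (nat_lit 331) (nat_lit 217))))) (XT.nd (nat_lit 234) (nat_lit 152) (nat_lit 0) (XT.nd (nat_lit 78) (nat_lit 76) (nat_lit 0) (XT.lf (nat_lit 0) (nat_lit 29511349321) (nat_lit 152) (nat_lit 18981115355) (nat_lit 0) (nat_lit 4339745750) (nat_lit 21) (nat_lit 5) (nat_lit 23) (nat_lit 4) (nat_lit 21) (nat_lit 4) (nat_lit 473) (nat_lit 331) (nat_lit 216)) (XT.nd (nat_lit 78) (nat_lit 76) (nat_lit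 0) (XT.lf (nat_lit 0) (nat_lit 38265493168) (nat_lit 152) (nat_lit 2823162380) (nat_lit 0) (nat_lit 13068557779) (nat_lit 21) (nat_lit 5) (nat_lit 23) (nat_lit 4) (nat_lit 21) (nat_lit 4) (nat_lit 474) (nat_lit 331) (nat_lit 215)) (XT.lf (nat_lit 0) (nat_lit 14063877277) (nat_lit 76) (nat_lit 33338015160) (nat_lit 76) (nat_lit 8116485775) (nat_lit 20) (nat_lit 4) (nat_lit 21) (nat_lit 5) (nat_lit 21) (nat_lit 4) (nat_lit 475) (nat_lit 331) (nat_lit 214)))) (XT.nd (nat_lit 156) (nat_lit 76) (nat_lit 0) (XT.nd (nat_lit 78) (nat_lit 76) (nat_lit 0) (XT.lf (nat_lit 0) (nat_lit 31485606366) (nat_lit 76) (nat_lit 25339893033) (nat_lit 76) (nat_lit 94485980) (nat_lit 20) (nat_lit 4) (nat_lit 21) (nat_lit 5) (nat_lit 21) (nat_lit 4) (nat_lit 476) (nat_lit 331) (nat_lit 213)) (XT.lf (nat_lit 0) (nat_lit 7993690223) (nat_lit 152) (nat_lit 9041398099) (nat_lit 76) (nat_lit 41326650468) (nat_lit 19) (nat_lit 5) (nat_lit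 21) (nat_lit 5) (nat_lit 20) (nat_lit 4) (nat_lit 477) (nat_lit 331) (nat_lit 212))) (XT.nd (nat_lit 78) (nat_lit 0) (nat_lit 0) (XT.lf (nat_lit 0) (nat_lit 7969575965) (nat_lit 76) (nat_lit 8414991625) (nat_lit 152) (nat_lit 43460291239) (nat_lit 18) (nat_lit 5) (nat_lit 19) (nat_lit 5) (nat_lit 20) (nat_lit 4) (nat_lit 478) (nat_lit 331) (nat_lit 211)) (XT.lf (nat_lit 0) (nat_lit 25109205560) (nat_lit 152) (nat_lit 35727278407) (nat_lit 0) (nat_lit 533528190) (nat_lit 18) (nat_lit 5) (nat_lit 20) (nat_lit 4) (nat_lit 18) (nat_lit 4) (nat_lit 479) (nat_lit 331) (nat_lit 210))))))) (XT.nd (nat_lit 43680) (nat_lit 0) (nat_lit 14972) (XT.nd (nat_lit 546) (nat_lit 76) (nat_lit 0) (XT.nd (nat_lit 234) (nat_lit 152) (nat_lit 0) (XT.nd (nat_lit 78) (nat_lit 76) (nat_lit 0) (XT.lf (nat_lit 0) (nat_lit 34164697943) (nat_lit 152) (nat_lit 19205725894) (nat_lit 0) (nat_lit 9568423487) (nat_lit 18) (nat_lit 5) (nat_lit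 20) (nat_lit 4) (nat_lit 18) (nat_lit 4) (nat_lit 480) (nat_lit 331) (nat_lit 209)) (XT.nd (nat_lit 78) (nat_lit 76) (nat_lit 0) (XT.lf (nat_lit 0) (nat_lit 43478067256) (nat_lit 152) (nat_lit 2215298969) (nat_lit 0) (nat_lit 18861795630) (nat_lit 18) (nat_lit 5) (nat_lit 20) (nat_lit 4) (nat_lit 18) (nat_lit 4) (nat_lit 481) (nat_lit 331) (nat_lit 208)) (XT.lf (nat_lit 0) (nat_lit 15562529371) (nat_lit 76) (nat_lit 37644518577) (nat_lit 76) (nat_lit 13008832223) (nat_lit 17) (nat_lit 4) (nat_lit 18) (nat_lit 5) (nat_lit 18) (nat_lit 4) (nat_lit 482) (nat_lit 331) (nat_lit 207)))) (XT.nd (nat_lit 156) (nat_lit 76) (nat_lit 0) (XT.nd (nat_lit 78) (nat_lit 76) (nat_lit 0) (XT.lf (nat_lit 0) (nat_lit 33893366454) (nat_lit 76) (nat_lit 29343658015) (nat_lit 76) (nat_lit 4689122411) (nat_lit 17) (nat_lit 4) (nat_lit 18) (nat_lit 5) (nat_lit 18) (nat_lit 4) (nat_lit 483) (nat_lit 331) (nat_lit 206)) (XT.lf (nat_lit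 0) (nat_lit 3791476493) (nat_lit 152) (nat_lit 16976138566) (nat_lit 76) (nat_lit 48919377751) (nat_lit 16) (nat_lit 5) (nat_lit 18) (nat_lit 5) (nat_lit 17) (nat_lit 4) (nat_lit 484) (nat_lit 331) (nat_lit 205))) (XT.nd (nat_lit 78) (nat_lit 0) (nat_lit 0) (XT.lf (nat_lit 0) (nat_lit 531638144) (nat_lit 76) (nat_lit 11893111224) (nat_lit 152) (nat_lit 59074747442) (nat_lit 15) (nat_lit 5) (nat_lit 16) (nat_lit 5) (nat_lit 17) (nat_lit 4) (nat_lit 485) (nat_lit 331) (nat_lit 204)) (XT.lf (nat_lit 0) (nat_lit 18888371039) (nat_lit 76) (nat_lit 2587601299) (nat_lit 152) (nat_lit 51885635601) (nat_lit 15) (nat_lit 5) (nat_lit 16) (nat_lit 5) (nat_lit 17) (nat_lit 4) (nat_lit 486) (nat_lit 331) (nat_lit 203))))) (XT.nd (nat_lit 234) (nat_lit 76) (nat_lit 0) (XT.nd (nat_lit 78) (nat_lit 0) (nat_lit 0) (XT.lf (nat_lit 0) (nat_lit 30853771561) (nat_lit 152) (nat_lit 37574854783) (nat_lit 0) (nat_lit 6849305421) (nat_lit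 15) (nat_lit 5) (nat_lit 17) (nat_lit 4) (nat_lit 15) (nat_lit 4) (nat_lit 487) (nat_lit 331) (nat_lit 202)) (XT.nd (nat_lit 78) (nat_lit 0) (nat_lit 0) (XT.lf (nat_lit 0) (nat_lit 40526659923) (nat_lit 152) (nat_lit 20218265430) (nat_lit 0) (nat_lit 16506407832) (nat_lit 15) (nat_lit 5) (nat_lit 17) (nat_lit 4) (nat_lit 15) (nat_lit 4) (nat_lit 488) (nat_lit 331) (nat_lit 201)) (XT.lf (nat_lit 0) (nat_lit 50478215856) (nat_lit 152) (nat_lit 2363429283) (nat_lit 0) (nat_lit 26442637599) (nat_lit 15) (nat_lit 5) (nat_lit 17) (nat_lit 4) (nat_lit 15) (nat_lit 4) (nat_lit 489) (nat_lit 331) (nat_lit 200)))) (XT.nd (nat_lit 42744) (nat_lit 0) (nat_lit 23940) (XT.nd (nat_lit 42666) (nat_lit 0) (nat_lit 24776) (XT.lf (nat_lit 0) (nat_lit 16323790927) (nat_lit 76) (nat_lit 44550258230) (nat_lit 76) (nat_lit 20499800201) (nat_lit 14) (nat_lit 4) (nat_lit 15) (nat_lit 5) (nat_lit 15) (nat_lit 4) (nat_lit 490) (nat_lit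 331) (nat_lit 199)) (XT.lf (nat_lit 0) (nat_lit 371763760) (nat_lit 684) (nat_lit 1493883281) (nat_lit 684) (nat_lit 1493883281) (nat_lit 340) (nat_lit 4) (nat_lit 349) (nat_lit 5) (nat_lit 349) (nat_lit 4) (nat_lit 356) (nat_lit 332) (nat_lit 332))) (XT.nd (nat_lit 78) (nat_lit 760) (nat_lit 0) (XT.lf (nat_lit 0) (nat_lit 264495029) (nat_lit 760) (nat_lit 1597348450) (nat_lit 76) (nat_lit 4893673971) (nat_lit 339) (nat_lit 5) (nat_lit 349) (nat_lit 5) (nat_lit 340) (nat_lit 4) (nat_lit 357) (nat_lit 332) (nat_lit 331)) (XT.lf (nat_lit 0) (nat_lit 2851155740) (nat_lit 760) (nat_lit 625464535) (nat_lit 836) (nat_lit 3317957814) (nat_lit 329) (nat_lit 5) (nat_lit 339) (nat_lit 5) (nat_lit 340) (nat_lit 4) (nat_lit 358) (nat_lit 332) (nat_lit 330)))))) (XT.nd (nat_lit 546) (nat_lit 3800) (nat_lit 0) (XT.nd (nat_lit 234) (nat_lit 3344) (nat_lit 0) (XT.nd (nat_lit 78) (nat_lit 988) (nat_lit 0) (XT.lf (nat_lit 0)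 (nat_lit 546266138) (nat_lit 836) (nat_lit 6163943636) (nat_lit 836) (nat_lit 126913773) (nat_lit 318) (nat_lit 4) (nat_lit 329) (nat_lit 5) (nat_lit 329) (nat_lit 4) (nat_lit 359) (nat_lit 332) (nat_lit 329)) (XT.nd (nat_lit 78) (nat_lit 912) (nat_lit 0) (XT.lf (nat_lit 0) (nat_lit 3043019678) (nat_lit 912) (nat_lit 1755974153) (nat_lit 76) (nat_lit 2082757973) (nat_lit 317) (nat_lit 5) (nat_lit 329) (nat_lit 5) (nat_lit 318) (nat_lit 4) (nat_lit 360) (nat_lit 332) (nat_lit 328)) (XT.lf (nat_lit 0) (nat_lit 2881833516) (nat_lit 912) (nat_lit 3352738191) (nat_lit 988) (nat_lit 695297776) (nat_lit 305) (nat_lit 5) (nat_lit 317) (nat_lit 5) (nat_lit 318) (nat_lit 4) (nat_lit 361) (nat_lit 332) (nat_lit 327)))) (XT.nd (nat_lit 156) (nat_lit 2280) (nat_lit 0) (XT.nd (nat_lit 78) (nat_lit 0) (nat_lit 0) (XT.lf (nat_lit 0) (nat_lit 614002467) (nat_lit 988) (nat_lit 1805024331) (nat_lit 1064) (nat_lit 4561941674) (nat_lit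 291) (nat_lit 5) (nat_lit 304) (nat_lit 5) (nat_lit 305) (nat_lit 5) (nat_lit 362) (nat_lit 332) (nat_lit 326)) (XT.lf (nat_lit 0) (nat_lit 5403500232) (nat_lit 988) (nat_lit 154499171) (nat_lit 1064) (nat_lit 1477093996) (nat_lit 291) (nat_lit 5) (nat_lit 304) (nat_lit 5) (nat_lit 305) (nat_lit 5) (nat_lit 363) (nat_lit 332) (nat_lit 325))) (XT.nd (nat_lit 78) (nat_lit 1140) (nat_lit 0) (XT.lf (nat_lit 0) (nat_lit 1619500655) (nat_lit 1140) (nat_lit 3903358479) (nat_lit 76) (nat_lit 1568973307) (nat_lit 276) (nat_lit 5) (nat_lit 291) (nat_lit 5) (nat_lit 277) (nat_lit 5) (nat_lit 364) (nat_lit 332) (nat_lit 324)) (XT.lf (nat_lit 0) (nat_lit 949313461) (nat_lit 1140) (nat_lit 3765428153) (nat_lit 1216) (nat_lit 2437080797) (nat_lit 261) (nat_lit 5) (nat_lit 276) (nat_lit 5) (nat_lit 277) (nat_lit 5) (nat_lit 365) (nat_lit 332) (nat_lit 323))))) (XT.nd (nat_lit 312) (nat_lit 1824) (nat_lit 0) (XT.nd (nat_lit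 156) (nat_lit 684) (nat_lit 0) (XT.nd (nat_lit 78) (nat_lit 1216) (nat_lit 0) (XT.lf (nat_lit 0) (nat_lit 624609457) (nat_lit 1216) (nat_lit 1282546721) (nat_lit 76) (nat_lit 5307839902) (nat_lit 260) (nat_lit 5) (nat_lit 276) (nat_lit 5) (nat_lit 261) (nat_lit 5) (nat_lit 366) (nat_lit 332) (nat_lit 322)) (XT.lf (nat_lit 0) (nat_lit 3677514218) (nat_lit 1292) (nat_lit 3535680328) (nat_lit 76) (nat_lit 67742427) (nat_lit 244) (nat_lit 5) (nat_lit 261) (nat_lit 5) (nat_lit 245) (nat_lit 5) (nat_lit 367) (nat_lit 332) (nat_lit 321))) (XT.nd (nat_lit 78) (nat_lit 76) (nat_lit 0) (XT.lf (nat_lit 0) (nat_lit 1522603169) (nat_lit 608) (nat_lit 5259404558) (nat_lit 684) (nat_lit 568093270) (nat_lit 236) (nat_lit 5) (nat_lit 244) (nat_lit 5) (nat_lit 245) (nat_lit 5) (nat_lit 368) (nat_lit 332) (nat_lit 320)) (XT.lf (nat_lit 0) (nat_lit 2458618376) (nat_lit 684) (nat_lit 730785621) (nat_lit 76) (nat_lit 4232733244)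 (nat_lit 235) (nat_lit 5) (nat_lit 244) (nat_lit 5) (nat_lit 236) (nat_lit 5) (nat_lit 369) (nat_lit 332) (nat_lit 319)))) (XT.nd (nat_lit 156) (nat_lit 532) (nat_lit 0) (XT.nd (nat_lit 78) (nat_lit 684) (nat_lit 0) (XT.lf (nat_lit 0) (nat_lit 4513229396) (nat_lit 608) (nat_lit 1011554106) (nat_lit 684) (nat_lit 1972621360) (nat_lit 227) (nat_lit 5) (nat_lit 235) (nat_lit 5) (nat_lit 236) (nat_lit 5) (nat_lit 370) (nat_lit 332) (nat_lit 318)) (XT.lf (nat_lit 0) (nat_lit 1045548280) (nat_lit 684) (nat_lit 5288283034) (nat_lit 76) (nat_lit 1242043460) (nat_lit 218) (nat_lit 5) (nat_lit 227) (nat_lit 5) (nat_lit 219) (nat_lit 5) (nat_lit 371) (nat_lit 332) (nat_lit 317))) (XT.nd (nat_lit 78) (nat_lit 0) (nat_lit 0) (XT.lf (nat_lit 0) (nat_lit 2706013) (nat_lit 532) (nat_lit 4071302088) (nat_lit 608) (nat_lit 3583360618) (nat_lit 211) (nat_lit 5) (nat_lit 218) (nat_lit 5) (nat_lit 219) (nat_lit 5) (nat_lit 372)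 (nat_lit 332) (nat_lit 316)) (XT.lf (nat_lit 0) (nat_lit 5471323527) (nat_lit 532) (nat_lit 1695819431) (nat_lit 608) (nat_lit 574986437) (nat_lit 211) (nat_lit 5) (nat_lit 218) (nat_lit 5) (nat_lit 219) (nat_lit 5) (nat_lit 373) (nat_lit 332) (nat_lit 315))))))))
noncomputable def xc81 : XT := (XT.nd (nat_lit 2184) (nat_lit 3724) (nat_lit 0) (XT.nd (nat_lit 1092) (nat_lit 3344) (nat_lit 0) (XT.nd (nat_lit 546) (nat_lit 2204) (nat_lit 0) (XT.nd (nat_lit 234) (nat_lit 1520) (nat_lit 0) (XT.nd (nat_lit 78) (nat_lit 532) (nat_lit 0) (XT.lf (nat_lit 0) (nat_lit 2434995245) (nat_lit 608) (nat_lit 4613069301) (nat_lit 76) (nat_lit 781856987) (nat_lit 203) (nat_lit 5) (nat_lit 211) (nat_lit 5) (nat_lit 204) (nat_lit 5) (nat_lit 374) (nat_lit 332) (nat_lit 314)) (XT.nd (nat_lit 78) (nat_lit 76) (nat_lit 0) (XT.lf (nat_lit 0) (nat_lit 901056333) (nat_lit 456) (nat_lit 4594536723) (nat_lit 532) (nat_lit 2425460840) (nat_lit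 197) (nat_lit 5) (nat_lit 203) (nat_lit 5) (nat_lit 204) (nat_lit 5) (nat_lit 375) (nat_lit 332) (nat_lit 313)) (XT.lf (nat_lit 0) (nat_lit 591644627) (nat_lit 532) (nat_lit 1435412476) (nat_lit 76) (nat_lit 5988584791) (nat_lit 196) (nat_lit 5) (nat_lit 203) (nat_lit 5) (nat_lit 197) (nat_lit 5) (nat_lit 376) (nat_lit 332) (nat_lit 312)))) (XT.nd (nat_lit 156) (nat_lit 532) (nat_lit 0) (XT.nd (nat_lit 78) (nat_lit 456) (nat_lit 0) (XT.lf (nat_lit 0) (nat_lit 3624267864) (nat_lit 608) (nat_lit 3831301400) (nat_lit 76) (nat_lit 657595824) (nat_lit 189) (nat_lit 5) (nat_lit 197) (nat_lit 5) (nat_lit 190) (nat_lit 5) (nat_lit 377) (nat_lit 332) (nat_lit 311)) (XT.lf (nat_lit 0) (nat_lit 1914974833) (nat_lit 456) (nat_lit 4813272262) (nat_lit 532) (nat_lit 1485985283) (nat_lit 183) (nat_lit 5) (nat_lit 189) (nat_lit 5) (nat_lit 190) (nat_lit 5) (nat_lit 378) (nat_lit 332) (nat_lit 310))) (XT.nd (nat_lit 78) (nat_lit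 456) (nat_lit 0) (XT.lf (nat_lit 0) (nat_lit 1542523005) (nat_lit 532) (nat_lit 510499449) (nat_lit 76) (nat_lit 6265867789) (nat_lit 182) (nat_lit 5) (nat_lit 189) (nat_lit 5) (nat_lit 183) (nat_lit 5) (nat_lit 379) (nat_lit 332) (nat_lit 309)) (XT.lf (nat_lit 0) (nat_lit 4622467332) (nat_lit 532) (nat_lit 2978275462) (nat_lit 76) (nat_lit 825817437) (nat_lit 176) (nat_lit 5) (nat_lit 183) (nat_lit 5) (nat_lit 177) (nat_lit 5) (nat_lit 380) (nat_lit 332) (nat_lit 308))))) (XT.nd (nat_lit 234) (nat_lit 1292) (nat_lit 0) (XT.nd (nat_lit 78) (nat_lit 532) (nat_lit 0) (XT.lf (nat_lit 0) (nat_lit 3009197755) (nat_lit 380) (nat_lit 4771017058) (nat_lit 456) (nat_lit 757709766) (nat_lit 171) (nat_lit 5) (nat_lit 176) (nat_lit 5) (nat_lit 177) (nat_lit 5) (nat_lit 381) (nat_lit 332) (nat_lit 307)) (XT.nd (nat_lit 78) (nat_lit 0) (nat_lit 0) (XT.lf (nat_lit 0) (nat_lit 483210250) (nat_lit 456) (nat_lit 1816849081) (nat_lit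 532) (nat_lit 6352915910) (nat_lit 164) (nat_lit 5) (nat_lit 170) (nat_lit 5) (nat_lit 171) (nat_lit 5) (nat_lit 382) (nat_lit 332) (nat_lit 306)) (XT.lf (nat_lit 0) (nat_lit 5434877323) (nat_lit 532) (nat_lit 2090446716) (nat_lit 76) (nat_lit 1245936138) (nat_lit 164) (nat_lit 5) (nat_lit 171) (nat_lit 5) (nat_lit 165) (nat_lit 5) (nat_lit 383) (nat_lit 332) (nat_lit 305)))) (XT.nd (nat_lit 156) (nat_lit 456) (nat_lit 0) (XT.nd (nat_lit 78) (nat_lit 456) (nat_lit 0) (XT.lf (nat_lit 0) (nat_lit 4147155710) (nat_lit 380) (nat_lit 4508785753) (nat_lit 456) (nat_lit 237409610) (nat_lit 159) (nat_lit 5) (nat_lit 164) (nat_lit 5) (nat_lit 165) (nat_lit 5) (nat_lit 384) (nat_lit 332) (nat_lit 304)) (XT.lf (nat_lit 0) (nat_lit 1509615365) (nat_lit 380) (nat_lit 1357863820) (nat_lit 456) (nat_lit 6151677601) (nat_lit 153) (nat_lit 5) (nat_lit 158) (nat_lit 5) (nat_lit 159) (nat_lit 5) (nat_lit 385) (nat_lit 332) (nat_lit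 303))) (XT.nd (nat_lit 78) (nat_lit 456) (nat_lit 0) (XT.lf (nat_lit 0) (nat_lit 6062910499) (nat_lit 456) (nat_lit 1206248052) (nat_lit 76) (nat_lit 1879464045) (nat_lit 153) (nat_lit 5) (nat_lit 159) (nat_lit 5) (nat_lit 154) (nat_lit 5) (nat_lit 386) (nat_lit 332) (nat_lit 302)) (XT.lf (nat_lit 0) (nat_lit 72612578) (nat_lit 456) (nat_lit 3992520180) (nat_lit 76) (nat_lit 5216785338) (nat_lit 147) (nat_lit 5) (nat_lit 153) (nat_lit 5) (nat_lit 148) (nat_lit 5) (nat_lit 387) (nat_lit 332) (nat_lit 301)))))) (XT.nd (nat_lit 546) (nat_lit 1520) (nat_lit 0) (XT.nd (nat_lit 234) (nat_lit 1064) (nat_lit 0) (XT.nd (nat_lit 78) (nat_lit 380) (nat_lit 0) (XT.lf (nat_lit 0) (nat_lit 2518043783) (nat_lit 380) (nat_lit 720001100) (nat_lit 456) (nat_lit 6181039350) (nat_lit 142) (nat_lit 5) (nat_lit 147) (nat_lit 5) (nat_lit 148) (nat_lit 5) (nat_lit 388) (nat_lit 332) (nat_lit 300)) (XT.nd (nat_lit 78) (nat_lit 380)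 (nat_lit 0) (XT.lf (nat_lit 0) (nat_lit 6503982374) (nat_lit 456) (nat_lit 366975021) (nat_lit 76) (nat_lit 2689260766) (nat_lit 142) (nat_lit 5) (nat_lit 148) (nat_lit 5) (nat_lit 143) (nat_lit 5) (nat_lit 389) (nat_lit 332) (nat_lit 299)) (XT.lf (nat_lit 0) (nat_lit 168245077) (nat_lit 380) (nat_lit 3310638584) (nat_lit 76) (nat_lit 6226400605) (nat_lit 137) (nat_lit 5) (nat_lit 142) (nat_lit 5) (nat_lit 138) (nat_lit 5) (nat_lit 390) (nat_lit 332) (nat_lit 298)))) (XT.nd (nat_lit 156) (nat_lit 380) (nat_lit 0) (XT.nd (nat_lit 78) (nat_lit 304) (nat_lit 0) (XT.lf (nat_lit 0) (nat_lit 3406391188) (nat_lit 456) (nat_lit 6390510450) (nat_lit 76) (nat_lit 57559635) (nat_lit 132) (nat_lit 5) (nat_lit 138) (nat_lit 5) (nat_lit 133) (nat_lit 5) (nat_lit 391) (nat_lit 332) (nat_lit 297)) (XT.lf (nat_lit 0) (nat_lit 389851980) (nat_lit 304) (nat_lit 6365203507) (nat_lit 380) (nat_lit 3252673839) (nat_lit 128) (nat_lit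 5) (nat_lit 132) (nat_lit 5) (nat_lit 133) (nat_lit 5) (nat_lit 392) (nat_lit 332) (nat_lit 296))) (XT.nd (nat_lit 78) (nat_lit 304) (nat_lit 0) (XT.lf (nat_lit 0) (nat_lit 44726866) (nat_lit 380) (nat_lit 2745894361) (nat_lit 76) (nat_lit 7374772176) (nat_lit 127) (nat_lit 5) (nat_lit 132) (nat_lit 5) (nat_lit 128) (nat_lit 5) (nat_lit 393) (nat_lit 332) (nat_lit 295)) (XT.lf (nat_lit 0) (nat_lit 3369474047) (nat_lit 380) (nat_lit 6035716641) (nat_lit 76) (nat_lit 921832084) (nat_lit 123) (nat_lit 5) (nat_lit 128) (nat_lit 5) (nat_lit 124) (nat_lit 5) (nat_lit 394) (nat_lit 332) (nat_lit 294))))) (XT.nd (nat_lit 234) (nat_lit 836) (nat_lit 0) (XT.nd (nat_lit 78) (nat_lit 380) (nat_lit 0) (XT.lf (nat_lit 0) (nat_lit 1011106503) (nat_lit 304) (nat_lit 5792228229) (nat_lit 380) (nat_lit 3689900217) (nat_lit 119) (nat_lit 5) (nat_lit 123) (nat_lit 5) (nat_lit 124) (nat_lit 5) (nat_lit 395) (nat_lit 332) (nat_lit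 293)) (XT.nd (nat_lit 78) (nat_lit 380) (nat_lit 0) (XT.lf (nat_lit 0) (nat_lit 8309922781) (nat_lit 304) (nat_lit 2036087813) (nat_lit 380) (nat_lit 318263535) (nat_lit 119) (nat_lit 5) (nat_lit 123) (nat_lit 5) (nat_lit 124) (nat_lit 5) (nat_lit 396) (nat_lit 332) (nat_lit 292)) (XT.lf (nat_lit 0) (nat_lit 3104798628) (nat_lit 380) (nat_lit 5885707784) (nat_lit 76) (nat_lit 1848687183) (nat_lit 114) (nat_lit 5) (nat_lit 119) (nat_lit 5) (nat_lit 115) (nat_lit 5) (nat_lit 397) (nat_lit 332) (nat_lit 291)))) (XT.nd (nat_lit 156) (nat_lit 608) (nat_lit 0) (XT.nd (nat_lit 78) (nat_lit 0) (nat_lit 0) (XT.lf (nat_lit 0) (nat_lit 1432224386) (nat_lit 228) (nat_lit 5196310906) (nat_lit 304) (nat_lit 4390612817) (nat_lit 111) (nat_lit 5) (nat_lit 114) (nat_lit 5) (nat_lit 115) (nat_lit 5) (nat_lit 398) (nat_lit 332) (nat_lit 290)) (XT.lf (nat_lit 0) (nat_lit 9008802881) (nat_lit 228) (nat_lit 1255834350) (nat_lit 304)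 (nat_lit 939677421) (nat_lit 111) (nat_lit 5) (nat_lit 114) (nat_lit 5) (nat_lit 115) (nat_lit 5) (nat_lit 399) (nat_lit 332) (nat_lit 289))) (XT.nd (nat_lit 78) (nat_lit 228) (nat_lit 0) (XT.lf (nat_lit 0) (nat_lit 2591513975) (nat_lit 380) (nat_lit 6003696220) (nat_lit 76) (nat_lit 2798251637) (nat_lit 106) (nat_lit 5) (nat_lit 111) (nat_lit 5) (nat_lit 107) (nat_lit 5) (nat_lit 400) (nat_lit 332) (nat_lit 288)) (XT.lf (nat_lit 0) (nat_lit 1588332351) (nat_lit 228) (nat_lit 4620221878) (nat_lit 304) (nat_lit 5379497983) (nat_lit 103) (nat_lit 5) (nat_lit 106) (nat_lit 5) (nat_lit 107) (nat_lit 5) (nat_lit 401) (nat_lit 332) (nat_lit 287))))))) (XT.nd (nat_lit 1092) (nat_lit 1520) (nat_lit 0) (XT.nd (nat_lit 546) (nat_lit 1140) (nat_lit 0) (XT.nd (nat_lit 234) (nat_lit 532) (nat_lit 0) (XT.nd (nat_lit 78) (nat_lit 532) (nat_lit 0) (XT.lf (nat_lit 0) (nat_lit 9451289453) (nat_lit 228) (nat_lit 492875478) (nat_lit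 304) (nat_lit 1844025135) (nat_lit 103) (nat_lit 5) (nat_lit 106) (nat_lit 5) (nat_lit 107) (nat_lit 5) (nat_lit 402) (nat_lit 332) (nat_lit 286)) (XT.nd (nat_lit 78) (nat_lit 228) (nat_lit 0) (XT.lf (nat_lit 0) (nat_lit 1802923796) (nat_lit 304) (nat_lit 6461640511) (nat_lit 76) (nat_lit 3728045629) (nat_lit 99) (nat_lit 5) (nat_lit 103) (nat_lit 5) (nat_lit 100) (nat_lit 5) (nat_lit 403) (nat_lit 332) (nat_lit 285)) (XT.lf (nat_lit 0) (nat_lit 1405375981) (nat_lit 228) (nat_lit 4109891224) (nat_lit 304) (nat_lit 6687566556) (nat_lit 96) (nat_lit 5) (nat_lit 99) (nat_lit 5) (nat_lit 100) (nat_lit 5) (nat_lit 404) (nat_lit 332) (nat_lit 284)))) (XT.nd (nat_lit 156) (nat_lit 228) (nat_lit 0) (XT.nd (nat_lit 78) (nat_lit 304) (nat_lit 0) (XT.lf (nat_lit 0) (nat_lit 9357727871) (nat_lit 304) (nat_lit 2858227775) (nat_lit 76) (nat_lit 202856500) (nat_lit 96) (nat_lit 5) (nat_lit 100) (nat_lit 5) (nat_lit 97) (nat_lit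 5) (nat_lit 405) (nat_lit 332) (nat_lit 283)) (XT.lf (nat_lit 0) (nat_lit 705794867) (nat_lit 304) (nat_lit 7341958253) (nat_lit 76) (nat_lit 4591989257) (nat_lit 92) (nat_lit 5) (nat_lit 96) (nat_lit 5) (nat_lit 93) (nat_lit 5) (nat_lit 406) (nat_lit 332) (nat_lit 282))) (XT.nd (nat_lit 78) (nat_lit 0) (nat_lit 0) (XT.lf (nat_lit 0) (nat_lit 798330992) (nat_lit 228) (nat_lit 3715463625) (nat_lit 304) (nat_lit 8352916877) (nat_lit 89) (nat_lit 5) (nat_lit 92) (nat_lit 5) (nat_lit 93) (nat_lit 5) (nat_lit 407) (nat_lit 332) (nat_lit 281)) (XT.lf (nat_lit 0) (nat_lit 8471253536) (nat_lit 304) (nat_lit 3850492257) (nat_lit 76) (nat_lit 777696429) (nat_lit 89) (nat_lit 5) (nat_lit 93) (nat_lit 5) (nat_lit 90) (nat_lit 5) (nat_lit 408) (nat_lit 332) (nat_lit 280))))) (XT.nd (nat_lit 234) (nat_lit 684) (nat_lit 0) (XT.nd (nat_lit 78) (nat_lit 228) (nat_lit 0) (XT.lf (nat_lit 0) (nat_lit 4591355364) (nat_lit 228) (nat_lit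 7991533699) (nat_lit 304) (nat_lit 755211067) (nat_lit 86) (nat_lit 5) (nat_lit 89) (nat_lit 5) (nat_lit 90) (nat_lit 5) (nat_lit 409) (nat_lit 332) (nat_lit 279)) (XT.nd (nat_lit 78) (nat_lit 152) (nat_lit 0) (XT.lf (nat_lit 0) (nat_lit 3164802507) (nat_lit 304) (nat_lit 324388816) (nat_lit 76) (nat_lit 10093983605) (nat_lit 85) (nat_lit 5) (nat_lit 89) (nat_lit 5) (nat_lit 86) (nat_lit 5) (nat_lit 410) (nat_lit 332) (nat_lit 278)) (XT.lf (nat_lit 0) (nat_lit 7235951171) (nat_lit 228) (nat_lit 5411514283) (nat_lit 76) (nat_lit 1186458879) (nat_lit 83) (nat_lit 5) (nat_lit 86) (nat_lit 5) (nat_lit 84) (nat_lit 5) (nat_lit 411) (nat_lit 332) (nat_lit 277)))) (XT.nd (nat_lit 156) (nat_lit 380) (nat_lit 0) (XT.nd (nat_lit 78) (nat_lit 76) (nat_lit 0) (XT.lf (nat_lit 0) (nat_lit 3302361691) (nat_lit 228) (nat_lit 8152778962) (nat_lit 304) (nat_lit 2636286236) (nat_lit 80) (nat_lit 5) (nat_lit 83) (nat_lit 5) (nat_lit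 84) (nat_lit 5) (nat_lit 412) (nat_lit 332) (nat_lit 276)) (XT.lf (nat_lit 0) (nat_lit 1427699953) (nat_lit 304) (nat_lit 2054671568) (nat_lit 76) (nat_lit 10873524981) (nat_lit 79) (nat_lit 5) (nat_lit 83) (nat_lit 5) (nat_lit 80) (nat_lit 5) (nat_lit 413) (nat_lit 332) (nat_lit 275))) (XT.nd (nat_lit 78) (nat_lit 228) (nat_lit 0) (XT.lf (nat_lit 0) (nat_lit 5598837277) (nat_lit 228) (nat_lit 7659993604) (nat_lit 76) (nat_lit 1367546911) (nat_lit 77) (nat_lit 5) (nat_lit 80) (nat_lit 5) (nat_lit 78) (nat_lit 5) (nat_lit 414) (nat_lit 332) (nat_lit 274)) (XT.lf (nat_lit 0) (nat_lit 1314870240) (nat_lit 228) (nat_lit 8606291960) (nat_lit 304) (nat_lit 4983036698) (nat_lit 74) (nat_lit 5) (nat_lit 77) (nat_lit 5) (nat_lit 78) (nat_lit 5) (nat_lit 415) (nat_lit 332) (nat_lit 273)))))) (XT.nd (nat_lit 546) (nat_lit 760) (nat_lit 0) (XT.nd (nat_lit 234) (nat_lit 532) (nat_lit 0) (XT.nd (nat_lit 78) (nat_lit 228)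 (nat_lit 0) (XT.lf (nat_lit 0) (nat_lit 10644765124) (nat_lit 228) (nat_lit 3764263359) (nat_lit 304) (nat_lit 780256787) (nat_lit 74) (nat_lit 5) (nat_lit 77) (nat_lit 5) (nat_lit 78) (nat_lit 5) (nat_lit 416) (nat_lit 332) (nat_lit 272)) (XT.nd (nat_lit 78) (nat_lit 0) (nat_lit 0) (XT.lf (nat_lit 0) (nat_lit 3496709918) (nat_lit 228) (nat_lit 10733584171) (nat_lit 76) (nat_lit 1251092705) (nat_lit 71) (nat_lit 5) (nat_lit 74) (nat_lit 5) (nat_lit 72) (nat_lit 5) (nat_lit 417) (nat_lit 332) (nat_lit 271)) (XT.lf (nat_lit 0) (nat_lit 7929480539) (nat_lit 228) (nat_lit 1484494079) (nat_lit 76) (nat_lit 6366755873) (nat_lit 71) (nat_lit 5) (nat_lit 74) (nat_lit 5) (nat_lit 72) (nat_lit 5) (nat_lit 418) (nat_lit 332) (nat_lit 270)))) (XT.nd (nat_lit 156) (nat_lit 152) (nat_lit 0) (XT.nd (nat_lit 78) (nat_lit 228) (nat_lit 0) (XT.lf (nat_lit 0) (nat_lit 8132587005) (nat_lit 152) (nat_lit 4401562733) (nat_lit 228)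 (nat_lit 3553743318) (nat_lit 69) (nat_lit 5) (nat_lit 71) (nat_lit 5) (nat_lit 72) (nat_lit 5) (nat_lit 419) (nat_lit 332) (nat_lit 269)) (XT.lf (nat_lit 0) (nat_lit 854635714) (nat_lit 228) (nat_lit 14792139893) (nat_lit 76) (nat_lit 757279611) (nat_lit 66) (nat_lit 5) (nat_lit 69) (nat_lit 5) (nat_lit 67) (nat_lit 5) (nat_lit 420) (nat_lit 332) (nat_lit 268))) (XT.nd (nat_lit 78) (nat_lit 152) (nat_lit 0) (XT.lf (nat_lit 0) (nat_lit 5409604659) (nat_lit 228) (nat_lit 5246135534) (nat_lit 76) (nat_lit 6070339039) (nat_lit 66) (nat_lit 5) (nat_lit 69) (nat_lit 5) (nat_lit 67) (nat_lit 5) (nat_lit 421) (nat_lit 332) (nat_lit 267)) (XT.lf (nat_lit 0) (nat_lit 4609684171) (nat_lit 152) (nat_lit 5498040928) (nat_lit 228) (nat_lit 6949849144) (nat_lit 64) (nat_lit 5) (nat_lit 66) (nat_lit 5) (nat_lit 67) (nat_lit 5) (nat_lit 422) (nat_lit 332) (nat_lit 266))))) (XT.nd (nat_lit 312) (nat_lit 380) (nat_lit 0) (XT.nd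 (nat_lit 156) (nat_lit 152) (nat_lit 0) (XT.nd (nat_lit 78) (nat_lit 228) (nat_lit 0) (XT.lf (nat_lit 0) (nat_lit 14802854899) (nat_lit 152) (nat_lit 159569359) (nat_lit 228) (nat_lit 2436125992) (nat_lit 64) (nat_lit 5) (nat_lit 66) (nat_lit 5) (nat_lit 67) (nat_lit 5) (nat_lit 423) (nat_lit 332) (nat_lit 265)) (XT.lf (nat_lit 0) (nat_lit 2258393258) (nat_lit 228) (nat_lit 10185309477) (nat_lit 76) (nat_lit 5302762466) (nat_lit 61) (nat_lit 5) (nat_lit 64) (nat_lit 5) (nat_lit 62) (nat_lit 5) (nat_lit 424) (nat_lit 332) (nat_lit 264))) (XT.nd (nat_lit 78) (nat_lit 152) (nat_lit 0) (XT.lf (nat_lit 0) (nat_lit 7036401212) (nat_lit 228) (nat_lit 118936295) (nat_lit 76) (nat_lit 10949012745) (nat_lit 61) (nat_lit 5) (nat_lit 64) (nat_lit 5) (nat_lit 62) (nat_lit 5) (nat_lit 425) (nat_lit 332) (nat_lit 263)) (XT.lf (nat_lit 0) (nat_lit 10389180646) (nat_lit 152) (nat_lit 1633063101) (nat_lit 228) (nat_lit 6448797891)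 (nat_lit 59) (nat_lit 5) (nat_lit 61) (nat_lit 5) (nat_lit 62) (nat_lit 5) (nat_lit 426) (nat_lit 332) (nat_lit 262)))) (XT.nd (nat_lit 156) (nat_lit 152) (nat_lit 0) (XT.nd (nat_lit 78) (nat_lit 76) (nat_lit 0) (XT.lf (nat_lit 0) (nat_lit 2309202907) (nat_lit 152) (nat_lit 14875641472) (nat_lit 228) (nat_lit 1663078386) (nat_lit 57) (nat_lit 5) (nat_lit 59) (nat_lit 5) (nat_lit 60) (nat_lit 4) (nat_lit 427) (nat_lit 332) (nat_lit 261)) (XT.lf (nat_lit 0) (nat_lit 3265935191) (nat_lit 228) (nat_lit 6167600637) (nat_lit 76) (nat_lit 9799733074) (nat_lit 56) (nat_lit 5) (nat_lit 59) (nat_lit 5) (nat_lit 57) (nat_lit 5) (nat_lit 428) (nat_lit 332) (nat_lit 260))) (XT.nd (nat_lit 78) (nat_lit 0) (nat_lit 0) (XT.lf (nat_lit 0) (nat_lit 4525094914) (nat_lit 152) (nat_lit 3793689353) (nat_lit 228) (nat_lit 11310619534) (nat_lit 54) (nat_lit 5) (nat_lit 56) (nat_lit 5) (nat_lit 57) (nat_lit 5) (nat_lit 429) (nat_lit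 332) (nat_lit 259)) (XT.lf (nat_lit 0) (nat_lit 13571530887) (nat_lit 228) (nat_lit 4452087295) (nat_lit 76) (nat_lit 2012359186) (nat_lit 54) (nat_lit 5) (nat_lit 57) (nat_lit 5) (nat_lit 55) (nat_lit 4) (nat_lit 430) (nat_lit 332) (nat_lit 258))))))))
noncomputable def xc82 : XT := (XT.nd (nat_lit 2184) (nat_lit 1064) (nat_lit 0) (XT.nd (nat_lit 1092) (nat_lit 836) (nat_lit 0) (XT.nd (nat_lit 546) (nat_lit 456) (nat_lit 0) (XT.nd (nat_lit 234) (nat_lit 304) (nat_lit 0) (XT.nd (nat_lit 78) (nat_lit 228) (nat_lit 0) (XT.lf (nat_lit 0) (nat_lit 6550205709) (nat_lit 76) (nat_lit 12499211085) (nat_lit 152) (nat_lit 1403308505) (nat_lit 53) (nat_lit 5) (nat_lit 54) (nat_lit 5) (nat_lit 55) (nat_lit 4) (nat_lit 431) (nat_lit 332) (nat_lit 257)) (XT.nd (nat_lit 78) (nat_lit 152) (nat_lit 0) (XT.lf (nat_lit 0) (nat_lit 3747822140) (nat_lit 152) (nat_lit 3003686709) (nat_lit 76) (nat_lit 14128996877) (nat_lit 52) (nat_lit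 5) (nat_lit 54) (nat_lit 5) (nat_lit 53) (nat_lit 5) (nat_lit 432) (nat_lit 332) (nat_lit 256)) (XT.lf (nat_lit 0) (nat_lit 8312338397) (nat_lit 152) (nat_lit 760901154) (nat_lit 228) (nat_lit 12246027990) (nat_lit 50) (nat_lit 5) (nat_lit 52) (nat_lit 5) (nat_lit 53) (nat_lit 5) (nat_lit 433) (nat_lit 332) (nat_lit 255)))) (XT.nd (nat_lit 156) (nat_lit 228) (nat_lit 0) (XT.nd (nat_lit 78) (nat_lit 76) (nat_lit 0) (XT.lf (nat_lit 0) (nat_lit 14609232713) (nat_lit 228) (nat_lit 1851378303) (nat_lit 76) (nat_lit 5309060231) (nat_lit 50) (nat_lit 5) (nat_lit 53) (nat_lit 5) (nat_lit 51) (nat_lit 4) (nat_lit 434) (nat_lit 332) (nat_lit 254)) (XT.lf (nat_lit 0) (nat_lit 9765344062) (nat_lit 76) (nat_lit 10616475328) (nat_lit 152) (nat_lit 1849655597) (nat_lit 49) (nat_lit 5) (nat_lit 50) (nat_lit 5) (nat_lit 51) (nat_lit 4) (nat_lit 435) (nat_lit 332) (nat_lit 253))) (XT.nd (nat_lit 78) (nat_lit 152) (nat_lit 0)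 (XT.lf (nat_lit 0) (nat_lit 3537849087) (nat_lit 152) (nat_lit 1029620596) (nat_lit 76) (nat_lit 18138980852) (nat_lit 48) (nat_lit 5) (nat_lit 50) (nat_lit 5) (nat_lit 49) (nat_lit 5) (nat_lit 436) (nat_lit 332) (nat_lit 252)) (XT.lf (nat_lit 0) (nat_lit 9141503802) (nat_lit 228) (nat_lit 12320623523) (nat_lit 76) (nat_lit 1730250641) (nat_lit 46) (nat_lit 5) (nat_lit 49) (nat_lit 5) (nat_lit 47) (nat_lit 4) (nat_lit 437) (nat_lit 332) (nat_lit 251))))) (XT.nd (nat_lit 234) (nat_lit 304) (nat_lit 0) (XT.nd (nat_lit 78) (nat_lit 152) (nat_lit 0) (XT.lf (nat_lit 0) (nat_lit 14939165290) (nat_lit 228) (nat_lit 641666388) (nat_lit 76) (nat_lit 8111277590) (nat_lit 46) (nat_lit 5) (nat_lit 49) (nat_lit 5) (nat_lit 47) (nat_lit 4) (nat_lit 438) (nat_lit 332) (nat_lit 250)) (XT.nd (nat_lit 78) (nat_lit 76) (nat_lit 0) (XT.lf (nat_lit 0) (nat_lit 11559789268) (nat_lit 76) (nat_lit 9433130391) (nat_lit 152) (nat_lit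 3211450835) (nat_lit 45) (nat_lit 5) (nat_lit 46) (nat_lit 5) (nat_lit 47) (nat_lit 4) (nat_lit 439) (nat_lit 332) (nat_lit 249)) (XT.lf (nat_lit 0) (nat_lit 2425211129) (nat_lit 152) (nat_lit 668920441) (nat_lit 76) (nat_lit 21637821755) (nat_lit 44) (nat_lit 5) (nat_lit 46) (nat_lit 5) (nat_lit 45) (nat_lit 5) (nat_lit 440) (nat_lit 332) (nat_lit 248)))) (XT.nd (nat_lit 156) (nat_lit 152) (nat_lit 0) (XT.nd (nat_lit 78) (nat_lit 0) (nat_lit 0) (XT.lf (nat_lit 0) (nat_lit 8286140806) (nat_lit 228) (nat_lit 13493292734) (nat_lit 76) (nat_lit 3491387393) (nat_lit 42) (nat_lit 5) (nat_lit 45) (nat_lit 5) (nat_lit 43) (nat_lit 4) (nat_lit 441) (nat_lit 332) (nat_lit 247)) (XT.lf (nat_lit 0) (nat_lit 14332384232) (nat_lit 228) (nat_lit 1297308432) (nat_lit 76) (nat_lit 10195879887) (nat_lit 42) (nat_lit 5) (nat_lit 45) (nat_lit 5) (nat_lit 43) (nat_lit 4) (nat_lit 442) (nat_lit 332) (nat_lit 246))) (XT.nd (nat_lit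 78) (nat_lit 76) (nat_lit 0) (XT.lf (nat_lit 0) (nat_lit 11437215133) (nat_lit 76) (nat_lit 9205585246) (nat_lit 152) (nat_lit 5751685255) (nat_lit 41) (nat_lit 5) (nat_lit 42) (nat_lit 5) (nat_lit 43) (nat_lit 4) (nat_lit 443) (nat_lit 332) (nat_lit 245)) (XT.lf (nat_lit 0) (nat_lit 145016265) (nat_lit 152) (nat_lit 2451960883) (nat_lit 76) (nat_lit 24383861092) (nat_lit 40) (nat_lit 5) (nat_lit 42) (nat_lit 5) (nat_lit 41) (nat_lit 5) (nat_lit 444) (nat_lit 332) (nat_lit 244)))))) (XT.nd (nat_lit 546) (nat_lit 304) (nat_lit 0) (XT.nd (nat_lit 234) (nat_lit 304) (nat_lit 0) (XT.nd (nat_lit 78) (nat_lit 76) (nat_lit 0) (XT.lf (nat_lit 0) (nat_lit 6219706809) (nat_lit 228) (nat_lit 17094741334) (nat_lit 76) (nat_lit 4265126397) (nat_lit 38) (nat_lit 5) (nat_lit 41) (nat_lit 5) (nat_lit 39) (nat_lit 4) (nat_lit 445) (nat_lit 332) (nat_lit 243)) (XT.nd (nat_lit 78) (nat_lit 76) (nat_lit 0) (XT.lf (nat_lit 0) (nat_lit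 12501113697) (nat_lit 228) (nat_lit 4410673821) (nat_lit 76) (nat_lit 11283753345) (nat_lit 38) (nat_lit 5) (nat_lit 41) (nat_lit 5) (nat_lit 39) (nat_lit 4) (nat_lit 446) (nat_lit 332) (nat_lit 242)) (XT.lf (nat_lit 0) (nat_lit 8777447948) (nat_lit 76) (nat_lit 10252411214) (nat_lit 152) (nat_lit 9798362264) (nat_lit 37) (nat_lit 5) (nat_lit 38) (nat_lit 5) (nat_lit 39) (nat_lit 4) (nat_lit 447) (nat_lit 332) (nat_lit 241)))) (XT.nd (nat_lit 156) (nat_lit 76) (nat_lit 0) (XT.nd (nat_lit 78) (nat_lit 228) (nat_lit 0) (XT.lf (nat_lit 0) (nat_lit 22404348580) (nat_lit 76) (nat_lit 3369467335) (nat_lit 152) (nat_lit 3705488101) (nat_lit 37) (nat_lit 5) (nat_lit 38) (nat_lit 5) (nat_lit 39) (nat_lit 4) (nat_lit 448) (nat_lit 332) (nat_lit 240)) (XT.lf (nat_lit 0) (nat_lit 2592687561) (nat_lit 228) (nat_lit 23841683763) (nat_lit 76) (nat_lit 3712628481) (nat_lit 34) (nat_lit 5) (nat_lit 37) (nat_lit 5) (nat_lit 35)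 (nat_lit 4) (nat_lit 449) (nat_lit 332) (nat_lit 239))) (XT.nd (nat_lit 78) (nat_lit 76) (nat_lit 0) (XT.lf (nat_lit 0) (nat_lit 9086213770) (nat_lit 228) (nat_lit 10717782922) (nat_lit 76) (nat_lit 11027204577) (nat_lit 34) (nat_lit 5) (nat_lit 37) (nat_lit 5) (nat_lit 35) (nat_lit 4) (nat_lit 450) (nat_lit 332) (nat_lit 238)) (XT.lf (nat_lit 0) (nat_lit 2809544078) (nat_lit 76) (nat_lit 12968096434) (nat_lit 152) (nat_lit 15758197270) (nat_lit 33) (nat_lit 5) (nat_lit 34) (nat_lit 5) (nat_lit 35) (nat_lit 4) (nat_lit 451) (nat_lit 332) (nat_lit 237))))) (XT.nd (nat_lit 234) (nat_lit 152) (nat_lit 0) (XT.nd (nat_lit 78) (nat_lit 152) (nat_lit 0) (XT.lf (nat_lit 0) (nat_lit 16917722047) (nat_lit 76) (nat_lit 5836671344) (nat_lit 152) (nat_lit 9504684292) (nat_lit 33) (nat_lit 5) (nat_lit 34) (nat_lit 5) (nat_lit 35) (nat_lit 4) (nat_lit 452) (nat_lit 332) (nat_lit 236)) (XT.nd (nat_lit 78) (nat_lit 152) (nat_lit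 0) (XT.lf (nat_lit 0) (nat_lit 29931798566) (nat_lit 152) (nat_lit 1613237867) (nat_lit 0) (nat_lit 1459239598) (nat_lit 33) (nat_lit 5) (nat_lit 35) (nat_lit 4) (nat_lit 33) (nat_lit 4) (nat_lit 453) (nat_lit 332) (nat_lit 235)) (XT.lf (nat_lit 0) (nat_lit 3642061136) (nat_lit 152) (nat_lit 21129169392) (nat_lit 76) (nat_lit 8994816176) (nat_lit 31) (nat_lit 5) (nat_lit 33) (nat_lit 5) (nat_lit 32) (nat_lit 4) (nat_lit 454) (nat_lit 332) (nat_lit 234)))) (XT.nd (nat_lit 156) (nat_lit 76) (nat_lit 0) (XT.nd (nat_lit 78) (nat_lit 76) (nat_lit 0) (XT.lf (nat_lit 0) (nat_lit 10490283164) (nat_lit 152) (nat_lit 7275817055) (nat_lit 76) (nat_lit 16783839224) (nat_lit 31) (nat_lit 5) (nat_lit 33) (nat_lit 5) (nat_lit 32) (nat_lit 4) (nat_lit 455) (nat_lit 332) (nat_lit 233)) (XT.lf (nat_lit 0) (nat_lit 7090111649) (nat_lit 76) (nat_lit 10500197794) (nat_lit 152) (nat_lit 17765650341) (nat_lit 30) (nat_lit 5) (nat_lit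 31) (nat_lit 5) (nat_lit 32) (nat_lit 4) (nat_lit 456) (nat_lit 332) (nat_lit 232))) (XT.nd (nat_lit 78) (nat_lit 76) (nat_lit 0) (XT.lf (nat_lit 0) (nat_lit 21995193176) (nat_lit 76) (nat_lit 2960058930) (nat_lit 152) (nat_lit 11229352661) (nat_lit 30) (nat_lit 5) (nat_lit 31) (nat_lit 5) (nat_lit 32) (nat_lit 4) (nat_lit 457) (nat_lit 332) (nat_lit 231)) (XT.lf (nat_lit 0) (nat_lit 227326172) (nat_lit 76) (nat_lit 32341093765) (nat_lit 76) (nat_lit 4468872314) (nat_lit 29) (nat_lit 4) (nat_lit 30) (nat_lit 5) (nat_lit 30) (nat_lit 4) (nat_lit 458) (nat_lit 332) (nat_lit 230))))))) (XT.nd (nat_lit 1092) (nat_lit 456) (nat_lit 0) (XT.nd (nat_lit 546) (nat_lit 304) (nat_lit 0) (XT.nd (nat_lit 234) (nat_lit 152) (nat_lit 0) (XT.nd (nat_lit 78) (nat_lit 76) (nat_lit 0) (XT.lf (nat_lit 0) (nat_lit 2598673282) (nat_lit 152) (nat_lit 22638784320) (nat_lit 76) (nat_lit 12672797014) (nat_lit 28) (nat_lit 5) (nat_lit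 30) (nat_lit 5) (nat_lit 29) (nat_lit 4) (nat_lit 459) (nat_lit 332) (nat_lit 229)) (XT.nd (nat_lit 78) (nat_lit 76) (nat_lit 0) (XT.lf (nat_lit 0) (nat_lit 9767954068) (nat_lit 152) (nat_lit 8125794454) (nat_lit 76) (nat_lit 20914945414) (nat_lit 28) (nat_lit 5) (nat_lit 30) (nat_lit 5) (nat_lit 29) (nat_lit 4) (nat_lit 460) (nat_lit 332) (nat_lit 228)) (XT.lf (nat_lit 0) (nat_lit 6919669991) (nat_lit 76) (nat_lit 10279284368) (nat_lit 152) (nat_lit 22533734140) (nat_lit 27) (nat_lit 5) (nat_lit 28) (nat_lit 5) (nat_lit 29) (nat_lit 4) (nat_lit 461) (nat_lit 332) (nat_lit 227)))) (XT.nd (nat_lit 156) (nat_lit 152) (nat_lit 0) (XT.nd (nat_lit 78) (nat_lit 0) (nat_lit 0) (XT.lf (nat_lit 0) (nat_lit 22545498376) (nat_lit 76) (nat_lit 2369783584) (nat_lit 152) (nat_lit 15767250276) (nat_lit 27) (nat_lit 5) (nat_lit 28) (nat_lit 5) (nat_lit 29) (nat_lit 4) (nat_lit 462) (nat_lit 332) (nat_lit 226)) (XT.lf (nat_lit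 0) (nat_lit 32899379542) (nat_lit 152) (nat_lit 3113184854) (nat_lit 0) (nat_lit 5647219706) (nat_lit 27) (nat_lit 5) (nat_lit 29) (nat_lit 4) (nat_lit 27) (nat_lit 4) (nat_lit 463) (nat_lit 332) (nat_lit 225))) (XT.nd (nat_lit 78) (nat_lit 76) (nat_lit 0) (XT.lf (nat_lit 0) (nat_lit 12546943645) (nat_lit 76) (nat_lit 28701437315) (nat_lit 76) (nat_lit 1414212320) (nat_lit 26) (nat_lit 4) (nat_lit 27) (nat_lit 5) (nat_lit 27) (nat_lit 4) (nat_lit 464) (nat_lit 332) (nat_lit 224)) (XT.lf (nat_lit 0) (nat_lit 6045387388) (nat_lit 152) (nat_lit 15049132439) (nat_lit 76) (nat_lit 22598801521) (nat_lit 25) (nat_lit 5) (nat_lit 27) (nat_lit 5) (nat_lit 26) (nat_lit 4) (nat_lit 465) (nat_lit 332) (nat_lit 223))))) (XT.nd (nat_lit 234) (nat_lit 228) (nat_lit 0) (XT.nd (nat_lit 78) (nat_lit 0) (nat_lit 0) (XT.lf (nat_lit 0) (nat_lit 428961878) (nat_lit 76) (nat_lit 13257384423) (nat_lit 152) (nat_lit 31068626114) (nat_lit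 24) (nat_lit 5) (nat_lit 25) (nat_lit 5) (nat_lit 26) (nat_lit 4) (nat_lit 466) (nat_lit 332) (nat_lit 222)) (XT.nd (nat_lit 78) (nat_lit 0) (nat_lit 0) (XT.lf (nat_lit 0) (nat_lit 16645445649) (nat_lit 76) (nat_lit 5045123981) (nat_lit 152) (nat_lit 24153883367) (nat_lit 24) (nat_lit 5) (nat_lit 25) (nat_lit 5) (nat_lit 26) (nat_lit 4) (nat_lit 467) (nat_lit 332) (nat_lit 221)) (XT.lf (nat_lit 0) (nat_lit 29950169409) (nat_lit 152) (nat_lit 13684818475) (nat_lit 0) (nat_lit 3331173642) (nat_lit 24) (nat_lit 5) (nat_lit 26) (nat_lit 4) (nat_lit 24) (nat_lit 4) (nat_lit 468) (nat_lit 332) (nat_lit 220)))) (XT.nd (nat_lit 156) (nat_lit 152) (nat_lit 0) (XT.nd (nat_lit 78) (nat_lit 0) (nat_lit 0) (XT.lf (nat_lit 0) (nat_lit 2256040911) (nat_lit 76) (nat_lit 36256103038) (nat_lit 76) (nat_lit 9607740752) (nat_lit 23) (nat_lit 4) (nat_lit 24) (nat_lit 5) (nat_lit 24) (nat_lit 4) (nat_lit 469) (nat_lit 332) (nat_lit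 219)) (XT.lf (nat_lit 0) (nat_lit 18923146361) (nat_lit 76) (nat_lit 28529153982) (nat_lit 76) (nat_lit 1852280513) (nat_lit 23) (nat_lit 4) (nat_lit 24) (nat_lit 5) (nat_lit 24) (nat_lit 4) (nat_lit 470) (nat_lit 332) (nat_lit 218))) (XT.nd (nat_lit 78) (nat_lit 76) (nat_lit 0) (XT.lf (nat_lit 0) (nat_lit 5999572131) (nat_lit 152) (nat_lit 14525422801) (nat_lit 76) (nat_lit 29998550597) (nat_lit 22) (nat_lit 5) (nat_lit 24) (nat_lit 5) (nat_lit 23) (nat_lit 4) (nat_lit 471) (nat_lit 332) (nat_lit 217)) (XT.lf (nat_lit 0) (nat_lit 1791937376) (nat_lit 76) (nat_lit 12258981899) (nat_lit 152) (nat_lit 37727575530) (nat_lit 21) (nat_lit 5) (nat_lit 22) (nat_lit 5) (nat_lit 23) (nat_lit 4) (nat_lit 472) (nat_lit 332) (nat_lit 216)))))) (XT.nd (nat_lit 546) (nat_lit 228) (nat_lit 0) (XT.nd (nat_lit 234) (nat_lit 228) (nat_lit 0) (XT.nd (nat_lit 78) (nat_lit 0) (nat_lit 0) (XT.lf (nat_lit 0) (nat_lit 18865919202)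 (nat_lit 76) (nat_lit 3608681648) (nat_lit 152) (nat_lit 30592568744) (nat_lit 21) (nat_lit 5) (nat_lit 22) (nat_lit 5) (nat_lit 23) (nat_lit 4) (nat_lit 473) (nat_lit 332) (nat_lit 215)) (XT.nd (nat_lit 78) (nat_lit 0) (nat_lit 0) (XT.lf (nat_lit 0) (nat_lit 31186391071) (nat_lit 152) (nat_lit 18023430635) (nat_lit 0) (nat_lit 5183621807) (nat_lit 21) (nat_lit 5) (nat_lit 23) (nat_lit 4) (nat_lit 21) (nat_lit 4) (nat_lit 474) (nat_lit 332) (nat_lit 214)) (XT.lf (nat_lit 0) (nat_lit 40180158224) (nat_lit 152) (nat_lit 1425218240) (nat_lit 0) (nat_lit 14153511294) (nat_lit 21) (nat_lit 5) (nat_lit 23) (nat_lit 4) (nat_lit 21) (nat_lit 4) (nat_lit 475) (nat_lit 332) (nat_lit 213)))) (XT.nd (nat_lit 156) (nat_lit 76) (nat_lit 0) (XT.nd (nat_lit 78) (nat_lit 76) (nat_lit 0) (XT.lf (nat_lit 0) (nat_lit 15953896930) (nat_lit 76) (nat_lit 33628533774) (nat_lit 76) (nat_lit 7578704643) (nat_lit 20) (nat_lit 4) (nat_lit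 21) (nat_lit 5) (nat_lit 21) (nat_lit 4) (nat_lit 476) (nat_lit 332) (nat_lit 212)) (XT.lf (nat_lit 0) (nat_lit 648297157) (nat_lit 152) (nat_lit 24756292893) (nat_lit 76) (nat_lit 33200673913) (nat_lit 19) (nat_lit 5) (nat_lit 21) (nat_lit 5) (nat_lit 20) (nat_lit 4) (nat_lit 477) (nat_lit 332) (nat_lit 211))) (XT.nd (nat_lit 78) (nat_lit 76) (nat_lit 0) (XT.lf (nat_lit 0) (nat_lit 8955557864) (nat_lit 152) (nat_lit 7914405104) (nat_lit 76) (nat_lit 43220929885) (nat_lit 19) (nat_lit 5) (nat_lit 21) (nat_lit 5) (nat_lit 20) (nat_lit 4) (nat_lit 478) (nat_lit 332) (nat_lit 210)) (XT.lf (nat_lit 0) (nat_lit 9593189996) (nat_lit 76) (nat_lit 7997249690) (nat_lit 152) (nat_lit 44028299523) (nat_lit 18) (nat_lit 5) (nat_lit 19) (nat_lit 5) (nat_lit 20) (nat_lit 4) (nat_lit 479) (nat_lit 332) (nat_lit 209))))) (XT.nd (nat_lit 312) (nat_lit 152) (nat_lit 0) (XT.nd (nat_lit 156) (nat_lit 76) (nat_lit 0) (XT.nd (nat_lit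 78) (nat_lit 0) (nat_lit 0) (XT.lf (nat_lit 0) (nat_lit 26562265573) (nat_lit 152) (nat_lit 35440310502) (nat_lit 0) (nat_lit 1187508628) (nat_lit 18) (nat_lit 5) (nat_lit 20) (nat_lit 4) (nat_lit 18) (nat_lit 4) (nat_lit 480) (nat_lit 332) (nat_lit 208)) (XT.lf (nat_lit 0) (nat_lit 35869040673) (nat_lit 152) (nat_lit 18462687712) (nat_lit 0) (nat_lit 10474869000) (nat_lit 18) (nat_lit 5) (nat_lit 20) (nat_lit 4) (nat_lit 18) (nat_lit 4) (nat_lit 481) (nat_lit 332) (nat_lit 207))) (XT.nd (nat_lit 78) (nat_lit 76) (nat_lit 0) (XT.lf (nat_lit 0) (nat_lit 45442022664) (nat_lit 152) (nat_lit 1000971572) (nat_lit 0) (nat_lit 20029001740) (nat_lit 18) (nat_lit 5) (nat_lit 20) (nat_lit 4) (nat_lit 18) (nat_lit 4) (nat_lit 482) (nat_lit 332) (nat_lit 206)) (XT.lf (nat_lit 0) (nat_lit 17297634890) (nat_lit 76) (nat_lit 38158216845) (nat_lit 76) (nat_lit 12726895678) (nat_lit 17) (nat_lit 4) (nat_lit 18) (nat_lit 5) (nat_lit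 18) (nat_lit 4) (nat_lit 483) (nat_lit 332) (nat_lit 205)))) (XT.nd (nat_lit 156) (nat_lit 76) (nat_lit 0) (XT.nd (nat_lit 78) (nat_lit 76) (nat_lit 0) (XT.lf (nat_lit 0) (nat_lit 36141458358) (nat_lit 76) (nat_lit 29626261650) (nat_lit 76) (nat_lit 4177173256) (nat_lit 17) (nat_lit 4) (nat_lit 18) (nat_lit 5) (nat_lit 18) (nat_lit 4) (nat_lit 484) (nat_lit 332) (nat_lit 204)) (XT.lf (nat_lit 0) (nat_lit 4526471083) (nat_lit 152) (nat_lit 16277601828) (nat_lit 76) (nat_lit 50954863446) (nat_lit 16) (nat_lit 5) (nat_lit 18) (nat_lit 5) (nat_lit 17) (nat_lit 4) (nat_lit 485) (nat_lit 332) (nat_lit 203))) (XT.nd (nat_lit 78) (nat_lit 0) (nat_lit 0) (XT.lf (nat_lit 0) (nat_lit 1743566803) (nat_lit 76) (nat_lit 11668577160) (nat_lit 152) (nat_lit 60213870297) (nat_lit 15) (nat_lit 5) (nat_lit 16) (nat_lit 5) (nat_lit 17) (nat_lit 4) (nat_lit 486) (nat_lit 332) (nat_lit 202)) (XT.lf (nat_lit 0) (nat_lit 20616167330)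 (nat_lit 76) (nat_lit 2100833804) (nat_lit 152) (nat_lit 52827525476) (nat_lit 15) (nat_lit 5) (nat_lit 16) (nat_lit 5) (nat_lit 17) (nat_lit 4) (nat_lit 487) (nat_lit 332) (nat_lit 201))))))))
noncomputable def xc83 : XT := (XT.nd (nat_lit 44616) (nat_lit 0) (nat_lit 5852) (XT.nd (nat_lit 43524) (nat_lit 0) (nat_lit 12768) (XT.nd (nat_lit 42978) (nat_lit 0) (nat_lit 19836) (XT.nd (nat_lit 42666) (nat_lit 0) (nat_lit 24624) (XT.nd (nat_lit 78) (nat_lit 0) (nat_lit 0) (XT.lf (nat_lit 0) (nat_lit 32364020572) (nat_lit 152) (nat_lit 37562634978) (nat_lit 0) (nat_lit 7592048802) (nat_lit 15) (nat_lit 5) (nat_lit 17) (nat_lit 4) (nat_lit 15) (nat_lit 4) (nat_lit 488) (nat_lit 332) (nat_lit 200)) (XT.nd (nat_lit 78) (nat_lit 0) (nat_lit 0) (XT.lf (nat_lit 0) (nat_lit 42310067356) (nat_lit 152) (nat_lit 19718536258) (nat_lit 0) (nat_lit 17523215813) (nat_lit 15) (nat_lit 5) (nat_lit 17) (nat_lit 4) (nat_lit 15) (nat_lit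 4) (nat_lit 489) (nat_lit 332) (nat_lit 199)) (XT.lf (nat_lit 0) (nat_lit 52543637705) (nat_lit 152) (nat_lit 1360276690) (nat_lit 0) (nat_lit 27742339781) (nat_lit 15) (nat_lit 5) (nat_lit 17) (nat_lit 4) (nat_lit 15) (nat_lit 4) (nat_lit 490) (nat_lit 332) (nat_lit 198)))) (XT.nd (nat_lit 156) (nat_lit 760) (nat_lit 0) (XT.nd (nat_lit 78) (nat_lit 684) (nat_lit 0) (XT.lf (nat_lit 0) (nat_lit 2777496839) (nat_lit 532) (nat_lit 274783712) (nat_lit 532) (nat_lit 274783712) (nat_lit 358) (nat_lit 4) (nat_lit 365) (nat_lit 5) (nat_lit 365) (nat_lit 4) (nat_lit 354) (nat_lit 333) (nat_lit 333)) (XT.lf (nat_lit 0) (nat_lit 2662411114) (nat_lit 684) (nat_lit 3559211568) (nat_lit 0) (nat_lit 464109552) (nat_lit 349) (nat_lit 5) (nat_lit 358) (nat_lit 4) (nat_lit 349) (nat_lit 4) (nat_lit 355) (nat_lit 333) (nat_lit 332))) (XT.nd (nat_lit 78) (nat_lit 76) (nat_lit 0) (XT.lf (nat_lit 0) (nat_lit 700439221) (nat_lit 684)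 (nat_lit 5176407180) (nat_lit 684) (nat_lit 843832257) (nat_lit 340) (nat_lit 4) (nat_lit 349) (nat_lit 5) (nat_lit 349) (nat_lit 4) (nat_lit 356) (nat_lit 333) (nat_lit 331)) (XT.lf (nat_lit 0) (nat_lit 2314839712) (nat_lit 760) (nat_lit 1705560366) (nat_lit 76) (nat_lit 2737703228) (nat_lit 339) (nat_lit 5) (nat_lit 349) (nat_lit 5) (nat_lit 340) (nat_lit 4) (nat_lit 357) (nat_lit 333) (nat_lit 330))))) (XT.nd (nat_lit 234) (nat_lit 3116) (nat_lit 0) (XT.nd (nat_lit 78) (nat_lit 912) (nat_lit 0) (XT.lf (nat_lit 0) (nat_lit 2698313956) (nat_lit 760) (nat_lit 2776935441) (nat_lit 836) (nat_lit 1323498533) (nat_lit 329) (nat_lit 5) (nat_lit 339) (nat_lit 5) (nat_lit 340) (nat_lit 4) (nat_lit 358) (nat_lit 333) (nat_lit 329)) (XT.nd (nat_lit 78) (nat_lit 0) (nat_lit 0) (XT.lf (nat_lit 0) (nat_lit 331518377) (nat_lit 836) (nat_lit 1441157994) (nat_lit 912) (nat_lit 5069861906) (nat_lit 317) (nat_lit 5) (nat_lit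 328) (nat_lit 5) (nat_lit 329) (nat_lit 5) (nat_lit 359) (nat_lit 333) (nat_lit 328)) (XT.lf (nat_lit 0) (nat_lit 4877693518) (nat_lit 912) (nat_lit 2006902568) (nat_lit 76) (nat_lit 4436803) (nat_lit 317) (nat_lit 5) (nat_lit 329) (nat_lit 5) (nat_lit 318) (nat_lit 4) (nat_lit 360) (nat_lit 333) (nat_lit 327)))) (XT.nd (nat_lit 156) (nat_lit 1140) (nat_lit 0) (XT.nd (nat_lit 78) (nat_lit 988) (nat_lit 0) (XT.lf (nat_lit 0) (nat_lit 1059435406) (nat_lit 988) (nat_lit 4366130045) (nat_lit 76) (nat_lit 1512803746) (nat_lit 304) (nat_lit 5) (nat_lit 317) (nat_lit 5) (nat_lit 305) (nat_lit 5) (nat_lit 361) (nat_lit 333) (nat_lit 326)) (XT.lf (nat_lit 0) (nat_lit 239233242) (nat_lit 988) (nat_lit 3870673085) (nat_lit 1064) (nat_lit 2880897162) (nat_lit 291) (nat_lit 5) (nat_lit 304) (nat_lit 5) (nat_lit 305) (nat_lit 5) (nat_lit 362) (nat_lit 333) (nat_lit 325))) (XT.nd (nat_lit 78) (nat_lit 1064) (nat_lit 0) (XT.lf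 (nat_lit 0) (nat_lit 153762111) (nat_lit 1064) (nat_lit 2061363226) (nat_lit 76) (nat_lit 4831156193) (nat_lit 290) (nat_lit 5) (nat_lit 304) (nat_lit 5) (nat_lit 291) (nat_lit 5) (nat_lit 363) (nat_lit 333) (nat_lit 324)) (XT.lf (nat_lit 0) (nat_lit 2708731142) (nat_lit 1064) (nat_lit 447793514) (nat_lit 1140) (nat_lit 3948045139) (nat_lit 276) (nat_lit 5) (nat_lit 290) (nat_lit 5) (nat_lit 291) (nat_lit 5) (nat_lit 364) (nat_lit 333) (nat_lit 323)))))) (XT.nd (nat_lit 546) (nat_lit 2660) (nat_lit 0) (XT.nd (nat_lit 234) (nat_lit 1976) (nat_lit 0) (XT.nd (nat_lit 78) (nat_lit 1292) (nat_lit 0) (XT.lf (nat_lit 0) (nat_lit 407666486) (nat_lit 1140) (nat_lit 5790655981) (nat_lit 1216) (nat_lit 967864788) (nat_lit 261) (nat_lit 5) (nat_lit 276) (nat_lit 5) (nat_lit 277) (nat_lit 5) (nat_lit 365) (nat_lit 333) (nat_lit 322)) (XT.nd (nat_lit 78) (nat_lit 1216) (nat_lit 0) (XT.lf (nat_lit 0) (nat_lit 2021645570) (nat_lit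 1216) (nat_lit 1896051467) (nat_lit 76) (nat_lit 3312568311) (nat_lit 260) (nat_lit 5) (nat_lit 276) (nat_lit 5) (nat_lit 261) (nat_lit 5) (nat_lit 366) (nat_lit 333) (nat_lit 321)) (XT.lf (nat_lit 0) (nat_lit 3077281289) (nat_lit 1216) (nat_lit 1947934424) (nat_lit 1292) (nat_lit 2272492711) (nat_lit 244) (nat_lit 5) (nat_lit 260) (nat_lit 5) (nat_lit 261) (nat_lit 5) (nat_lit 367) (nat_lit 333) (nat_lit 320)))) (XT.nd (nat_lit 156) (nat_lit 1292) (nat_lit 0) (XT.nd (nat_lit 78) (nat_lit 0) (nat_lit 0) (XT.lf (nat_lit 0) (nat_lit 680174214) (nat_lit 684) (nat_lit 6576059117) (nat_lit 76) (nat_lit 112473310) (nat_lit 235) (nat_lit 5) (nat_lit 244) (nat_lit 5) (nat_lit 236) (nat_lit 5) (nat_lit 368) (nat_lit 333) (nat_lit 319)) (XT.lf (nat_lit 0) (nat_lit 3654759094) (nat_lit 684) (nat_lit 1528178819) (nat_lit 76) (nat_lit 2258892648) (nat_lit 235) (nat_lit 5) (nat_lit 244) (nat_lit 5) (nat_lit 236) (nat_lit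 5) (nat_lit 369) (nat_lit 333) (nat_lit 318))) (XT.nd (nat_lit 78) (nat_lit 684) (nat_lit 0) (XT.lf (nat_lit 0) (nat_lit 3657020666) (nat_lit 608) (nat_lit 3015827305) (nat_lit 684) (nat_lit 845712173) (nat_lit 227) (nat_lit 5) (nat_lit 235) (nat_lit 5) (nat_lit 236) (nat_lit 5) (nat_lit 370) (nat_lit 333) (nat_lit 317)) (XT.lf (nat_lit 0) (nat_lit 1350915212) (nat_lit 608) (nat_lit 738759025) (nat_lit 684) (nat_lit 5508873184) (nat_lit 218) (nat_lit 5) (nat_lit 226) (nat_lit 5) (nat_lit 227) (nat_lit 5) (nat_lit 371) (nat_lit 333) (nat_lit 316))))) (XT.nd (nat_lit 234) (nat_lit 1520) (nat_lit 0) (XT.nd (nat_lit 78) (nat_lit 1140) (nat_lit 0) (XT.lf (nat_lit 0) (nat_lit 5072228484) (nat_lit 684) (nat_lit 992825715) (nat_lit 76) (nat_lit 1616382339) (nat_lit 218) (nat_lit 5) (nat_lit 227) (nat_lit 5) (nat_lit 219) (nat_lit 5) (nat_lit 372) (nat_lit 333) (nat_lit 315)) (XT.nd (nat_lit 78) (nat_lit 532) (nat_lit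 0) (XT.lf (nat_lit 0) (nat_lit 343092838) (nat_lit 608) (nat_lit 3357786863) (nat_lit 76) (nat_lit 4066667897) (nat_lit 210) (nat_lit 5) (nat_lit 218) (nat_lit 5) (nat_lit 211) (nat_lit 5) (nat_lit 373) (nat_lit 333) (nat_lit 314)) (XT.lf (nat_lit 0) (nat_lit 2067334030) (nat_lit 532) (nat_lit 1218395266) (nat_lit 608) (nat_lit 4571144860) (nat_lit 203) (nat_lit 5) (nat_lit 210) (nat_lit 5) (nat_lit 211) (nat_lit 5) (nat_lit 374) (nat_lit 333) (nat_lit 313)))) (XT.nd (nat_lit 156) (nat_lit 988) (nat_lit 0) (XT.nd (nat_lit 78) (nat_lit 532) (nat_lit 0) (XT.lf (nat_lit 0) (nat_lit 6289253570) (nat_lit 608) (nat_lit 324255450) (nat_lit 76) (nat_lit 1336225701) (nat_lit 203) (nat_lit 5) (nat_lit 211) (nat_lit 5) (nat_lit 204) (nat_lit 5) (nat_lit 375) (nat_lit 333) (nat_lit 312)) (XT.lf (nat_lit 0) (nat_lit 1302074151) (nat_lit 532) (nat_lit 2746564296) (nat_lit 76) (nat_lit 3996667427) (nat_lit 196) (nat_lit 5)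 (nat_lit 203) (nat_lit 5) (nat_lit 197) (nat_lit 5) (nat_lit 376) (nat_lit 333) (nat_lit 311))) (XT.nd (nat_lit 78) (nat_lit 456) (nat_lit 0) (XT.lf (nat_lit 0) (nat_lit 2908393658) (nat_lit 532) (nat_lit 1371238591) (nat_lit 608) (nat_lit 3864863413) (nat_lit 189) (nat_lit 5) (nat_lit 196) (nat_lit 5) (nat_lit 197) (nat_lit 5) (nat_lit 377) (nat_lit 333) (nat_lit 310)) (XT.lf (nat_lit 0) (nat_lit 452206243) (nat_lit 456) (nat_lit 6869374730) (nat_lit 532) (nat_lit 925857108) (nat_lit 183) (nat_lit 5) (nat_lit 189) (nat_lit 5) (nat_lit 190) (nat_lit 5) (nat_lit 378) (nat_lit 333) (nat_lit 309))))))) (XT.nd (nat_lit 1092) (nat_lit 3040) (nat_lit 0) (XT.nd (nat_lit 546) (nat_lit 1976) (nat_lit 0) (XT.nd (nat_lit 234) (nat_lit 988) (nat_lit 0) (XT.nd (nat_lit 78) (nat_lit 836) (nat_lit 0) (XT.lf (nat_lit 0) (nat_lit 2057188533) (nat_lit 532) (nat_lit 2054746284) (nat_lit 76) (nat_lit 4241048973) (nat_lit 182) (nat_lit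 5) (nat_lit 189) (nat_lit 5) (nat_lit 183) (nat_lit 5) (nat_lit 379) (nat_lit 333) (nat_lit 308)) (XT.nd (nat_lit 78) (nat_lit 380) (nat_lit 0) (XT.lf (nat_lit 0) (nat_lit 3839175755) (nat_lit 456) (nat_lit 1240786225) (nat_lit 532) (nat_lit 3382419932) (nat_lit 176) (nat_lit 5) (nat_lit 182) (nat_lit 5) (nat_lit 183) (nat_lit 5) (nat_lit 380) (nat_lit 333) (nat_lit 307)) (XT.lf (nat_lit 0) (nat_lit 1300703130) (nat_lit 380) (nat_lit 6875629848) (nat_lit 456) (nat_lit 399267203) (nat_lit 171) (nat_lit 5) (nat_lit 176) (nat_lit 5) (nat_lit 177) (nat_lit 5) (nat_lit 381) (nat_lit 333) (nat_lit 306)))) (XT.nd (nat_lit 156) (nat_lit 456) (nat_lit 0) (XT.nd (nat_lit 78) (nat_lit 456) (nat_lit 0) (XT.lf (nat_lit 0) (nat_lit 2614063531) (nat_lit 456) (nat_lit 1318238370) (nat_lit 76) (nat_lit 4759380797) (nat_lit 170) (nat_lit 5) (nat_lit 176) (nat_lit 5) (nat_lit 171) (nat_lit 5) (nat_lit 382) (nat_lit 333) (nat_lit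 305)) (XT.lf (nat_lit 0) (nat_lit 4823722894) (nat_lit 456) (nat_lit 867772411) (nat_lit 532) (nat_lit 3120205471) (nat_lit 164) (nat_lit 5) (nat_lit 170) (nat_lit 5) (nat_lit 171) (nat_lit 5) (nat_lit 383) (nat_lit 333) (nat_lit 304))) (XT.nd (nat_lit 78) (nat_lit 76) (nat_lit 0) (XT.lf (nat_lit 0) (nat_lit 2177914581) (nat_lit 380) (nat_lit 6675974838) (nat_lit 456) (nat_lit 81673573) (nat_lit 159) (nat_lit 5) (nat_lit 164) (nat_lit 5) (nat_lit 165) (nat_lit 5) (nat_lit 384) (nat_lit 333) (nat_lit 303)) (XT.lf (nat_lit 0) (nat_lit 2974467893) (nat_lit 456) (nat_lit 574640654) (nat_lit 76) (nat_lit 5513597075) (nat_lit 158) (nat_lit 5) (nat_lit 164) (nat_lit 5) (nat_lit 159) (nat_lit 5) (nat_lit 385) (nat_lit 333) (nat_lit 302))))) (XT.nd (nat_lit 234) (nat_lit 760) (nat_lit 0) (XT.nd (nat_lit 78) (nat_lit 836) (nat_lit 0) (XT.lf (nat_lit 0) (nat_lit 5824223316) (nat_lit 380) (nat_lit 290929356) (nat_lit 456)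 (nat_lit 3078671425) (nat_lit 153) (nat_lit 5) (nat_lit 158) (nat_lit 5) (nat_lit 159) (nat_lit 5) (nat_lit 386) (nat_lit 333) (nat_lit 301)) (XT.nd (nat_lit 78) (nat_lit 380) (nat_lit 0) (XT.lf (nat_lit 0) (nat_lit 24694679) (nat_lit 456) (nat_lit 6284296323) (nat_lit 76) (nat_lit 3019780878) (nat_lit 147) (nat_lit 5) (nat_lit 153) (nat_lit 5) (nat_lit 148) (nat_lit 5) (nat_lit 387) (nat_lit 333) (nat_lit 300)) (XT.lf (nat_lit 0) (nat_lit 138603592) (nat_lit 380) (nat_lit 2998936914) (nat_lit 456) (nat_lit 6329984501) (nat_lit 142) (nat_lit 5) (nat_lit 147) (nat_lit 5) (nat_lit 148) (nat_lit 5) (nat_lit 388) (nat_lit 333) (nat_lit 299)))) (XT.nd (nat_lit 156) (nat_lit 456) (nat_lit 0) (XT.nd (nat_lit 78) (nat_lit 304) (nat_lit 0) (XT.lf (nat_lit 0) (nat_lit 6352219228) (nat_lit 456) (nat_lit 2814552783) (nat_lit 76) (nat_lit 443433812) (nat_lit 142) (nat_lit 5) (nat_lit 148) (nat_lit 5) (nat_lit 143) (nat_lit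 5) (nat_lit 389) (nat_lit 333) (nat_lit 298)) (XT.lf (nat_lit 0) (nat_lit 3858859824) (nat_lit 304) (nat_lit 5813415084) (nat_lit 380) (nat_lit 84642036) (nat_lit 138) (nat_lit 5) (nat_lit 142) (nat_lit 5) (nat_lit 143) (nat_lit 5) (nat_lit 390) (nat_lit 333) (nat_lit 297))) (XT.nd (nat_lit 78) (nat_lit 0) (nat_lit 0) (XT.lf (nat_lit 0) (nat_lit 785073360) (nat_lit 380) (nat_lit 2315423539) (nat_lit 456) (nat_lit 6807269575) (nat_lit 132) (nat_lit 5) (nat_lit 137) (nat_lit 5) (nat_lit 138) (nat_lit 5) (nat_lit 391) (nat_lit 333) (nat_lit 296)) (XT.lf (nat_lit 0) (nat_lit 6395139772) (nat_lit 456) (nat_lit 2368578121) (nat_lit 76) (nat_lit 1298945381) (nat_lit 132) (nat_lit 5) (nat_lit 138) (nat_lit 5) (nat_lit 133) (nat_lit 5) (nat_lit 392) (nat_lit 333) (nat_lit 295)))))) (XT.nd (nat_lit 546) (nat_lit 1444) (nat_lit 0) (XT.nd (nat_lit 234) (nat_lit 912) (nat_lit 0) (XT.nd (nat_lit 78) (nat_lit 380) (nat_lit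 0) (XT.lf (nat_lit 0) (nat_lit 4573884910) (nat_lit 304) (nat_lit 5226411678) (nat_lit 380) (nat_lit 421576127) (nat_lit 128) (nat_lit 5) (nat_lit 132) (nat_lit 5) (nat_lit 133) (nat_lit 5) (nat_lit 393) (nat_lit 333) (nat_lit 294)) (XT.nd (nat_lit 78) (nat_lit 0) (nat_lit 0) (XT.lf (nat_lit 0) (nat_lit 1304241011) (nat_lit 304) (nat_lit 1542256931) (nat_lit 380) (nat_lit 7539080122) (nat_lit 123) (nat_lit 5) (nat_lit 127) (nat_lit 5) (nat_lit 128) (nat_lit 5) (nat_lit 394) (nat_lit 333) (nat_lit 293)) (XT.lf (nat_lit 0) (nat_lit 6229040552) (nat_lit 380) (nat_lit 2079574548) (nat_lit 76) (nat_lit 2244721884) (nat_lit 123) (nat_lit 5) (nat_lit 128) (nat_lit 5) (nat_lit 124) (nat_lit 5) (nat_lit 395) (nat_lit 333) (nat_lit 292)))) (XT.nd (nat_lit 156) (nat_lit 228) (nat_lit 0) (XT.nd (nat_lit 78) (nat_lit 380) (nat_lit 0) (XT.lf (nat_lit 0) (nat_lit 5138092373) (nat_lit 304) (nat_lit 4586860071) (nat_lit 380)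 (nat_lit 1000833631) (nat_lit 119) (nat_lit 5) (nat_lit 123) (nat_lit 5) (nat_lit 124) (nat_lit 5) (nat_lit 396) (nat_lit 333) (nat_lit 291)) (XT.lf (nat_lit 0) (nat_lit 1641249868) (nat_lit 304) (nat_lit 718287043) (nat_lit 380) (nat_lit 8543652391) (nat_lit 114) (nat_lit 5) (nat_lit 118) (nat_lit 5) (nat_lit 119) (nat_lit 5) (nat_lit 397) (nat_lit 333) (nat_lit 290))) (XT.nd (nat_lit 78) (nat_lit 228) (nat_lit 0) (XT.lf (nat_lit 0) (nat_lit 5836987213) (nat_lit 380) (nat_lit 2004435571) (nat_lit 76) (nat_lit 3243116021) (nat_lit 114) (nat_lit 5) (nat_lit 119) (nat_lit 5) (nat_lit 115) (nat_lit 5) (nat_lit 398) (nat_lit 333) (nat_lit 289)) (XT.lf (nat_lit 0) (nat_lit 5493251786) (nat_lit 228) (nat_lit 3934942871) (nat_lit 304) (nat_lit 1842863738) (nat_lit 111) (nat_lit 5) (nat_lit 114) (nat_lit 5) (nat_lit 115) (nat_lit 5) (nat_lit 399) (nat_lit 333) (nat_lit 288))))) (XT.nd (nat_lit 312) (nat_lit 532) (nat_lit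 0) (XT.nd (nat_lit 156) (nat_lit 532) (nat_lit 0) (XT.nd (nat_lit 78) (nat_lit 0) (nat_lit 0) (XT.lf (nat_lit 0) (nat_lit 1619463488) (nat_lit 380) (nat_lit 9730050578) (nat_lit 76) (nat_lit 113552482) (nat_lit 106) (nat_lit 5) (nat_lit 111) (nat_lit 5) (nat_lit 107) (nat_lit 5) (nat_lit 400) (nat_lit 333) (nat_lit 287)) (XT.lf (nat_lit 0) (nat_lit 5196704562) (nat_lit 380) (nat_lit 2207608718) (nat_lit 76) (nat_lit 4254543308) (nat_lit 106) (nat_lit 5) (nat_lit 111) (nat_lit 5) (nat_lit 107) (nat_lit 5) (nat_lit 401) (nat_lit 333) (nat_lit 286))) (XT.nd (nat_lit 78) (nat_lit 304) (nat_lit 0) (XT.lf (nat_lit 0) (nat_lit 5573198373) (nat_lit 228) (nat_lit 3313289672) (nat_lit 304) (nat_lit 2973886734) (nat_lit 103) (nat_lit 5) (nat_lit 106) (nat_lit 5) (nat_lit 107) (nat_lit 5) (nat_lit 402) (nat_lit 333) (nat_lit 285)) (XT.lf (nat_lit 0) (nat_lit 604664039) (nat_lit 304) (nat_lit 10564442407) (nat_lit 76) (nat_lit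 898732608) (nat_lit 99) (nat_lit 5) (nat_lit 103) (nat_lit 5) (nat_lit 100) (nat_lit 5) (nat_lit 403) (nat_lit 333) (nat_lit 284)))) (XT.nd (nat_lit 156) (nat_lit 304) (nat_lit 0) (XT.nd (nat_lit 78) (nat_lit 228) (nat_lit 0) (XT.lf (nat_lit 0) (nat_lit 4279980989) (nat_lit 304) (nat_lit 2762633576) (nat_lit 76) (nat_lit 5236564159) (nat_lit 99) (nat_lit 5) (nat_lit 103) (nat_lit 5) (nat_lit 100) (nat_lit 5) (nat_lit 404) (nat_lit 333) (nat_lit 283)) (XT.lf (nat_lit 0) (nat_lit 5302228155) (nat_lit 228) (nat_lit 2767948266) (nat_lit 304) (nat_lit 4426553549) (nat_lit 96) (nat_lit 5) (nat_lit 99) (nat_lit 5) (nat_lit 100) (nat_lit 5) (nat_lit 405) (nat_lit 333) (nat_lit 282))) (XT.nd (nat_lit 78) (nat_lit 76) (nat_lit 0) (XT.lf (nat_lit 0) (nat_lit 871868707) (nat_lit 228) (nat_lit 11108502013) (nat_lit 304) (nat_lit 740257909) (nat_lit 93) (nat_lit 5) (nat_lit 96) (nat_lit 5) (nat_lit 97) (nat_lit 5) (nat_lit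 406) (nat_lit 333) (nat_lit 281)) (XT.lf (nat_lit 0) (nat_lit 3051946862) (nat_lit 304) (nat_lit 3753896399) (nat_lit 76) (nat_lit 6142879651) (nat_lit 92) (nat_lit 5) (nat_lit 96) (nat_lit 5) (nat_lit 93) (nat_lit 5) (nat_lit 407) (nat_lit 333) (nat_lit 280))))))))
noncomputable def xc84 : XT := (XT.nd (nat_lit 2184) (nat_lit 1672) (nat_lit 0) (XT.nd (nat_lit 1092) (nat_lit 1292) (nat_lit 0) (XT.nd (nat_lit 546) (nat_lit 836) (nat_lit 0) (XT.nd (nat_lit 234) (nat_lit 608) (nat_lit 0) (XT.nd (nat_lit 78) (nat_lit 304) (nat_lit 0) (XT.lf (nat_lit 0) (nat_lit 4593265047) (nat_lit 228) (nat_lit 2349452754) (nat_lit 304) (nat_lit 6240740834) (nat_lit 89) (nat_lit 5) (nat_lit 92) (nat_lit 5) (nat_lit 93) (nat_lit 5) (nat_lit 408) (nat_lit 333) (nat_lit 279)) (XT.nd (nat_lit 78) (nat_lit 304) (nat_lit 0) (XT.lf (nat_lit 0) (nat_lit 10965887973) (nat_lit 304) (nat_lit 251409026) (nat_lit 76) (nat_lit 2207477735) (nat_lit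 89) (nat_lit 5) (nat_lit 93) (nat_lit 5) (nat_lit 90) (nat_lit 5) (nat_lit 409) (nat_lit 333) (nat_lit 278)) (XT.lf (nat_lit 0) (nat_lit 1470210148) (nat_lit 304) (nat_lit 5278639512) (nat_lit 76) (nat_lit 6922220008) (nat_lit 85) (nat_lit 5) (nat_lit 89) (nat_lit 5) (nat_lit 86) (nat_lit 5) (nat_lit 410) (nat_lit 333) (nat_lit 277)))) (XT.nd (nat_lit 156) (nat_lit 456) (nat_lit 0) (XT.nd (nat_lit 78) (nat_lit 0) (nat_lit 0) (XT.lf (nat_lit 0) (nat_lit 3345759829) (nat_lit 152) (nat_lit 2114010916) (nat_lit 228) (nat_lit 8464499842) (nat_lit 83) (nat_lit 5) (nat_lit 85) (nat_lit 5) (nat_lit 86) (nat_lit 5) (nat_lit 411) (nat_lit 333) (nat_lit 276)) (XT.lf (nat_lit 0) (nat_lit 9605998221) (nat_lit 228) (nat_lit 1943985821) (nat_lit 76) (nat_lit 2633981720) (nat_lit 83) (nat_lit 5) (nat_lit 86) (nat_lit 5) (nat_lit 84) (nat_lit 5) (nat_lit 412) (nat_lit 333) (nat_lit 275))) (XT.nd (nat_lit 78) (nat_lit 228) (nat_lit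 0) (XT.lf (nat_lit 0) (nat_lit 6995719433) (nat_lit 228) (nat_lit 6927886618) (nat_lit 304) (nat_lit 526443343) (nat_lit 80) (nat_lit 5) (nat_lit 83) (nat_lit 5) (nat_lit 84) (nat_lit 5) (nat_lit 413) (nat_lit 333) (nat_lit 274)) (XT.lf (nat_lit 0) (nat_lit 1443274927) (nat_lit 152) (nat_lit 2124836018) (nat_lit 228) (nat_lit 11155180668) (nat_lit 77) (nat_lit 5) (nat_lit 79) (nat_lit 5) (nat_lit 80) (nat_lit 5) (nat_lit 414) (nat_lit 333) (nat_lit 273))))) (XT.nd (nat_lit 234) (nat_lit 532) (nat_lit 0) (XT.nd (nat_lit 78) (nat_lit 304) (nat_lit 0) (XT.lf (nat_lit 0) (nat_lit 7837275481) (nat_lit 228) (nat_lit 4344792931) (nat_lit 76) (nat_lit 2820642459) (nat_lit 77) (nat_lit 5) (nat_lit 80) (nat_lit 5) (nat_lit 78) (nat_lit 5) (nat_lit 415) (nat_lit 333) (nat_lit 272)) (XT.nd (nat_lit 78) (nat_lit 76) (nat_lit 0) (XT.lf (nat_lit 0) (nat_lit 4864561922) (nat_lit 228) (nat_lit 7398145816) (nat_lit 304) (nat_lit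 3026965766) (nat_lit 74) (nat_lit 5) (nat_lit 77) (nat_lit 5) (nat_lit 78) (nat_lit 5) (nat_lit 416) (nat_lit 333) (nat_lit 271)) (XT.lf (nat_lit 0) (nat_lit 1216362494) (nat_lit 304) (nat_lit 1224919770) (nat_lit 76) (nat_lit 13143468119) (nat_lit 73) (nat_lit 5) (nat_lit 77) (nat_lit 5) (nat_lit 74) (nat_lit 5) (nat_lit 417) (nat_lit 333) (nat_lit 270)))) (XT.nd (nat_lit 156) (nat_lit 228) (nat_lit 0) (XT.nd (nat_lit 78) (nat_lit 152) (nat_lit 0) (XT.lf (nat_lit 0) (nat_lit 5594198225) (nat_lit 228) (nat_lit 7595317748) (nat_lit 76) (nat_lit 2696229119) (nat_lit 71) (nat_lit 5) (nat_lit 74) (nat_lit 5) (nat_lit 72) (nat_lit 5) (nat_lit 418) (nat_lit 333) (nat_lit 269)) (XT.lf (nat_lit 0) (nat_lit 1866890118) (nat_lit 152) (nat_lit 8252971021) (nat_lit 228) (nat_lit 6075419589) (nat_lit 69) (nat_lit 5) (nat_lit 71) (nat_lit 5) (nat_lit 72) (nat_lit 5) (nat_lit 419) (nat_lit 333) (nat_lit 268))) (XT.nd (nat_lit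 78) (nat_lit 228) (nat_lit 0) (XT.lf (nat_lit 0) (nat_lit 11703117716) (nat_lit 152) (nat_lit 3117237742) (nat_lit 228) (nat_lit 1692580806) (nat_lit 69) (nat_lit 5) (nat_lit 71) (nat_lit 5) (nat_lit 72) (nat_lit 5) (nat_lit 420) (nat_lit 333) (nat_lit 267)) (XT.lf (nat_lit 0) (nat_lit 2799204760) (nat_lit 228) (nat_lit 11859954791) (nat_lit 76) (nat_lit 2179177819) (nat_lit 66) (nat_lit 5) (nat_lit 69) (nat_lit 5) (nat_lit 67) (nat_lit 5) (nat_lit 421) (nat_lit 333) (nat_lit 266)))))) (XT.nd (nat_lit 546) (nat_lit 532) (nat_lit 0) (XT.nd (nat_lit 234) (nat_lit 456) (nat_lit 0) (XT.nd (nat_lit 78) (nat_lit 304) (nat_lit 0) (XT.lf (nat_lit 0) (nat_lit 7434931608) (nat_lit 228) (nat_lit 2125898921) (nat_lit 76) (nat_lit 7610876220) (nat_lit 66) (nat_lit 5) (nat_lit 69) (nat_lit 5) (nat_lit 67) (nat_lit 5) (nat_lit 422) (nat_lit 333) (nat_lit 265)) (XT.nd (nat_lit 78) (nat_lit 152) (nat_lit 0) (XT.lf (nat_lit 0)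 (nat_lit 7993461840) (nat_lit 152) (nat_lit 4257468164) (nat_lit 228) (nat_lit 5262916258) (nat_lit 64) (nat_lit 5) (nat_lit 66) (nat_lit 5) (nat_lit 67) (nat_lit 5) (nat_lit 423) (nat_lit 333) (nat_lit 264)) (XT.lf (nat_lit 0) (nat_lit 530037885) (nat_lit 152) (nat_lit 16684273099) (nat_lit 228) (nat_lit 651856793) (nat_lit 62) (nat_lit 5) (nat_lit 64) (nat_lit 5) (nat_lit 65) (nat_lit 4) (nat_lit 424) (nat_lit 333) (nat_lit 263)))) (XT.nd (nat_lit 156) (nat_lit 228) (nat_lit 0) (XT.nd (nat_lit 78) (nat_lit 152) (nat_lit 0) (XT.lf (nat_lit 0) (nat_lit 4121446201) (nat_lit 228) (nat_lit 7294514197) (nat_lit 76) (nat_lit 6808805437) (nat_lit 61) (nat_lit 5) (nat_lit 64) (nat_lit 5) (nat_lit 62) (nat_lit 5) (nat_lit 425) (nat_lit 333) (nat_lit 262)) (XT.lf (nat_lit 0) (nat_lit 3040075294) (nat_lit 152) (nat_lit 5979651838) (nat_lit 228) (nat_lit 9574359145) (nat_lit 59) (nat_lit 5) (nat_lit 61) (nat_lit 5) (nat_lit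 62) (nat_lit 5) (nat_lit 426) (nat_lit 333) (nat_lit 261))) (XT.nd (nat_lit 78) (nat_lit 228) (nat_lit 0) (XT.lf (nat_lit 0) (nat_lit 13773688838) (nat_lit 152) (nat_lit 331003684) (nat_lit 228) (nat_lit 4868606081) (nat_lit 59) (nat_lit 5) (nat_lit 61) (nat_lit 5) (nat_lit 62) (nat_lit 5) (nat_lit 427) (nat_lit 333) (nat_lit 260)) (XT.lf (nat_lit 0) (nat_lit 51494482) (nat_lit 228) (nat_lit 13902543230) (nat_lit 76) (nat_lit 5407677386) (nat_lit 56) (nat_lit 5) (nat_lit 59) (nat_lit 5) (nat_lit 57) (nat_lit 5) (nat_lit 428) (nat_lit 333) (nat_lit 259))))) (XT.nd (nat_lit 234) (nat_lit 380) (nat_lit 0) (XT.nd (nat_lit 78) (nat_lit 152) (nat_lit 0) (XT.lf (nat_lit 0) (nat_lit 5044533626) (nat_lit 228) (nat_lit 3327510111) (nat_lit 76) (nat_lit 11387602520) (nat_lit 56) (nat_lit 5) (nat_lit 59) (nat_lit 5) (nat_lit 57) (nat_lit 5) (nat_lit 429) (nat_lit 333) (nat_lit 258)) (XT.nd (nat_lit 78) (nat_lit 0) (nat_lit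 0) (XT.lf (nat_lit 0) (nat_lit 7656308281) (nat_lit 152) (nat_lit 2572503984) (nat_lit 228) (nat_lit 9939463501) (nat_lit 54) (nat_lit 5) (nat_lit 56) (nat_lit 5) (nat_lit 57) (nat_lit 5) (nat_lit 430) (nat_lit 333) (nat_lit 257)) (XT.lf (nat_lit 0) (nat_lit 15603237269) (nat_lit 228) (nat_lit 1641341302) (nat_lit 76) (nat_lit 3343550804) (nat_lit 54) (nat_lit 5) (nat_lit 57) (nat_lit 5) (nat_lit 55) (nat_lit 4) (nat_lit 431) (nat_lit 333) (nat_lit 256)))) (XT.nd (nat_lit 156) (nat_lit 228) (nat_lit 0) (XT.nd (nat_lit 78) (nat_lit 0) (nat_lit 0) (XT.lf (nat_lit 0) (nat_lit 204140618) (nat_lit 152) (nat_lit 11357810720) (nat_lit 76) (nat_lit 9455952684) (nat_lit 52) (nat_lit 5) (nat_lit 54) (nat_lit 5) (nat_lit 53) (nat_lit 5) (nat_lit 432) (nat_lit 333) (nat_lit 255)) (XT.lf (nat_lit 0) (nat_lit 5434376481) (nat_lit 152) (nat_lit 231767878) (nat_lit 76) (nat_lit 15793378614) (nat_lit 52) (nat_lit 5) (nat_lit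 54) (nat_lit 5) (nat_lit 53) (nat_lit 5) (nat_lit 433) (nat_lit 333) (nat_lit 254))) (XT.nd (nat_lit 78) (nat_lit 76) (nat_lit 0) (XT.lf (nat_lit 0) (nat_lit 10905705760) (nat_lit 228) (nat_lit 10521087676) (nat_lit 76) (nat_lit 485074803) (nat_lit 50) (nat_lit 5) (nat_lit 53) (nat_lit 5) (nat_lit 51) (nat_lit 4) (nat_lit 434) (nat_lit 333) (nat_lit 253)) (XT.lf (nat_lit 0) (nat_lit 895521872) (nat_lit 76) (nat_lit 15682734668) (nat_lit 152) (nat_lit 5798418113) (nat_lit 49) (nat_lit 5) (nat_lit 50) (nat_lit 5) (nat_lit 51) (nat_lit 4) (nat_lit 435) (nat_lit 333) (nat_lit 252))))))) (XT.nd (nat_lit 1092) (nat_lit 760) (nat_lit 0) (XT.nd (nat_lit 546) (nat_lit 380) (nat_lit 0) (XT.nd (nat_lit 234) (nat_lit 304) (nat_lit 0) (XT.nd (nat_lit 78) (nat_lit 228) (nat_lit 0) (XT.lf (nat_lit 0) (nat_lit 12815967456) (nat_lit 76) (nat_lit 9681619269) (nat_lit 152) (nat_lit 355543589) (nat_lit 49) (nat_lit 5) (nat_lit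 50) (nat_lit 5) (nat_lit 51) (nat_lit 4) (nat_lit 436) (nat_lit 333) (nat_lit 251)) (XT.nd (nat_lit 78) (nat_lit 0) (nat_lit 0) (XT.lf (nat_lit 0) (nat_lit 1679106963) (nat_lit 152) (nat_lit 3456128264) (nat_lit 228) (nat_lit 18207520923) (nat_lit 46) (nat_lit 5) (nat_lit 48) (nat_lit 5) (nat_lit 49) (nat_lit 5) (nat_lit 437) (nat_lit 333) (nat_lit 250)) (XT.lf (nat_lit 0) (nat_lit 10885409898) (nat_lit 228) (nat_lit 9977796391) (nat_lit 76) (nat_lit 2980707185) (nat_lit 46) (nat_lit 5) (nat_lit 49) (nat_lit 5) (nat_lit 47) (nat_lit 4) (nat_lit 438) (nat_lit 333) (nat_lit 249)))) (XT.nd (nat_lit 156) (nat_lit 228) (nat_lit 0) (XT.nd (nat_lit 78) (nat_lit 0) (nat_lit 0) (XT.lf (nat_lit 0) (nat_lit 2011783319) (nat_lit 76) (nat_lit 14821750743) (nat_lit 152) (nat_lit 7525810919) (nat_lit 45) (nat_lit 5) (nat_lit 46) (nat_lit 5) (nat_lit 47) (nat_lit 4) (nat_lit 439) (nat_lit 333) (nat_lit 248)) (XT.lf (nat_lit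 0) (nat_lit 14514207442) (nat_lit 76) (nat_lit 8518862318) (nat_lit 152) (nat_lit 1854983352) (nat_lit 45) (nat_lit 5) (nat_lit 46) (nat_lit 5) (nat_lit 47) (nat_lit 4) (nat_lit 440) (nat_lit 333) (nat_lit 247))) (XT.nd (nat_lit 78) (nat_lit 0) (nat_lit 0) (XT.lf (nat_lit 0) (nat_lit 1907563222) (nat_lit 152) (nat_lit 1991713169) (nat_lit 228) (nat_lit 21532466546) (nat_lit 42) (nat_lit 5) (nat_lit 44) (nat_lit 5) (nat_lit 45) (nat_lit 5) (nat_lit 441) (nat_lit 333) (nat_lit 246)) (XT.lf (nat_lit 0) (nat_lit 9912996868) (nat_lit 228) (nat_lit 11333937299) (nat_lit 76) (nat_lit 4740537297) (nat_lit 42) (nat_lit 5) (nat_lit 45) (nat_lit 5) (nat_lit 43) (nat_lit 4) (nat_lit 442) (nat_lit 333) (nat_lit 245))))) (XT.nd (nat_lit 234) (nat_lit 228) (nat_lit 0) (XT.nd (nat_lit 78) (nat_lit 76) (nat_lit 0) (XT.lf (nat_lit 0) (nat_lit 1176194214) (nat_lit 76) (nat_lit 14935595841) (nat_lit 152) (nat_lit 10447944369) (nat_lit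 41) (nat_lit 5) (nat_lit 42) (nat_lit 5) (nat_lit 43) (nat_lit 4) (nat_lit 443) (nat_lit 333) (nat_lit 244)) (XT.nd (nat_lit 78) (nat_lit 76) (nat_lit 0) (XT.lf (nat_lit 0) (nat_lit 14245395131) (nat_lit 76) (nat_lit 8339538355) (nat_lit 152) (nat_lit 4561582532) (nat_lit 41) (nat_lit 5) (nat_lit 42) (nat_lit 5) (nat_lit 43) (nat_lit 4) (nat_lit 444) (nat_lit 333) (nat_lit 243)) (XT.lf (nat_lit 0) (nat_lit 1446515304) (nat_lit 152) (nat_lit 106326435) (nat_lit 76) (nat_lit 26198395294) (nat_lit 40) (nat_lit 5) (nat_lit 42) (nat_lit 5) (nat_lit 41) (nat_lit 5) (nat_lit 445) (nat_lit 333) (nat_lit 242)))) (XT.nd (nat_lit 156) (nat_lit 76) (nat_lit 0) (XT.nd (nat_lit 78) (nat_lit 0) (nat_lit 0) (XT.lf (nat_lit 0) (nat_lit 7699391935) (nat_lit 228) (nat_lit 15184227031) (nat_lit 76) (nat_lit 5484441352) (nat_lit 38) (nat_lit 5) (nat_lit 41) (nat_lit 5) (nat_lit 39) (nat_lit 4) (nat_lit 446) (nat_lit 333) (nat_lit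 241)) (XT.lf (nat_lit 0) (nat_lit 14131578100) (nat_lit 228) (nat_lit 2190220694) (nat_lit 76) (nat_lit 12681839891) (nat_lit 38) (nat_lit 5) (nat_lit 41) (nat_lit 5) (nat_lit 39) (nat_lit 4) (nat_lit 447) (nat_lit 333) (nat_lit 240))) (XT.nd (nat_lit 78) (nat_lit 0) (nat_lit 0) (XT.lf (nat_lit 0) (nat_lit 11370478323) (nat_lit 76) (nat_lit 9471536223) (nat_lit 152) (nat_lit 8813713332) (nat_lit 37) (nat_lit 5) (nat_lit 38) (nat_lit 5) (nat_lit 39) (nat_lit 4) (nat_lit 448) (nat_lit 333) (nat_lit 239)) (XT.lf (nat_lit 0) (nat_lit 25338330433) (nat_lit 76) (nat_lit 2413806377) (nat_lit 152) (nat_lit 2575293715) (nat_lit 37) (nat_lit 5) (nat_lit 38) (nat_lit 5) (nat_lit 39) (nat_lit 4) (nat_lit 449) (nat_lit 333) (nat_lit 238)))))) (XT.nd (nat_lit 546) (nat_lit 304) (nat_lit 0) (XT.nd (nat_lit 234) (nat_lit 152) (nat_lit 0) (XT.nd (nat_lit 78) (nat_lit 76) (nat_lit 0) (XT.lf (nat_lit 0) (nat_lit 3884106273) (nat_lit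 228) (nat_lit 22267171699) (nat_lit 76) (nat_lit 4863628971) (nat_lit 34) (nat_lit 5) (nat_lit 37) (nat_lit 5) (nat_lit 35) (nat_lit 4) (nat_lit 450) (nat_lit 333) (nat_lit 237)) (XT.nd (nat_lit 78) (nat_lit 76) (nat_lit 0) (XT.lf (nat_lit 0) (nat_lit 10537089587) (nat_lit 228) (nat_lit 8816245947) (nat_lit 76) (nat_lit 12367362108) (nat_lit 34) (nat_lit 5) (nat_lit 37) (nat_lit 5) (nat_lit 35) (nat_lit 4) (nat_lit 451) (nat_lit 333) (nat_lit 236)) (XT.lf (nat_lit 0) (nat_lit 5095106055) (nat_lit 76) (nat_lit 12320993975) (nat_lit 152) (nat_lit 15030770643) (nat_lit 33) (nat_lit 5) (nat_lit 34) (nat_lit 5) (nat_lit 35) (nat_lit 4) (nat_lit 452) (nat_lit 333) (nat_lit 235)))) (XT.nd (nat_lit 156) (nat_lit 76) (nat_lit 0) (XT.nd (nat_lit 78) (nat_lit 76) (nat_lit 0) (XT.lf (nat_lit 0) (nat_lit 19562414538) (nat_lit 76) (nat_lit 5005805123) (nat_lit 152) (nat_lit 8624608758) (nat_lit 33) (nat_lit 5) (nat_lit 34)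 (nat_lit 5) (nat_lit 35) (nat_lit 4) (nat_lit 453) (nat_lit 333) (nat_lit 234)) (XT.lf (nat_lit 0) (nat_lit 445616363) (nat_lit 76) (nat_lit 31496055068) (nat_lit 76) (nat_lit 2019292051) (nat_lit 32) (nat_lit 4) (nat_lit 33) (nat_lit 5) (nat_lit 33) (nat_lit 4) (nat_lit 454) (nat_lit 333) (nat_lit 233))) (XT.nd (nat_lit 78) (nat_lit 0) (nat_lit 0) (XT.lf (nat_lit 0) (nat_lit 4857596248) (nat_lit 152) (nat_lit 19662967273) (nat_lit 76) (nat_lit 10225197903) (nat_lit 31) (nat_lit 5) (nat_lit 33) (nat_lit 5) (nat_lit 32) (nat_lit 4) (nat_lit 455) (nat_lit 333) (nat_lit 232)) (XT.lf (nat_lit 0) (nat_lit 11879043386) (nat_lit 152) (nat_lit 5455181663) (nat_lit 76) (nat_lit 18219914829) (nat_lit 31) (nat_lit 5) (nat_lit 33) (nat_lit 5) (nat_lit 32) (nat_lit 4) (nat_lit 456) (nat_lit 333) (nat_lit 231))))) (XT.nd (nat_lit 312) (nat_lit 76) (nat_lit 0) (XT.nd (nat_lit 156) (nat_lit 152) (nat_lit 0) (XT.nd (nat_lit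 78) (nat_lit 0) (nat_lit 0) (XT.lf (nat_lit 0) (nat_lit 9321735589) (nat_lit 76) (nat_lit 9858458903) (nat_lit 152) (nat_lit 17204504834) (nat_lit 30) (nat_lit 5) (nat_lit 31) (nat_lit 5) (nat_lit 32) (nat_lit 4) (nat_lit 457) (nat_lit 333) (nat_lit 230)) (XT.lf (nat_lit 0) (nat_lit 24615166050) (nat_lit 76) (nat_lit 2119982227) (nat_lit 152) (nat_lit 10503985652) (nat_lit 30) (nat_lit 5) (nat_lit 31) (nat_lit 5) (nat_lit 32) (nat_lit 4) (nat_lit 458) (nat_lit 333) (nat_lit 229))) (XT.nd (nat_lit 78) (nat_lit 76) (nat_lit 0) (XT.lf (nat_lit 0) (nat_lit 2196909764) (nat_lit 76) (nat_lit 32377301471) (nat_lit 76) (nat_lit 3543267891) (nat_lit 29) (nat_lit 4) (nat_lit 30) (nat_lit 5) (nat_lit 30) (nat_lit 4) (nat_lit 459) (nat_lit 333) (nat_lit 228)) (XT.lf (nat_lit 0) (nat_lit 3685364162) (nat_lit 152) (nat_lit 21392210474) (nat_lit 76) (nat_lit 13939659970) (nat_lit 28) (nat_lit 5) (nat_lit 30) (nat_lit 5) (nat_lit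 29) (nat_lit 4) (nat_lit 460) (nat_lit 333) (nat_lit 227)))) (XT.nd (nat_lit 156) (nat_lit 0) (nat_lit 0) (XT.nd (nat_lit 78) (nat_lit 76) (nat_lit 0) (XT.lf (nat_lit 0) (nat_lit 11040342867) (nat_lit 152) (nat_lit 6499920350) (nat_lit 76) (nat_lit 22403247219) (nat_lit 28) (nat_lit 5) (nat_lit 30) (nat_lit 5) (nat_lit 29) (nat_lit 4) (nat_lit 461) (nat_lit 333) (nat_lit 226)) (XT.lf (nat_lit 0) (nat_lit 8978578146) (nat_lit 76) (nat_lit 9704966259) (nat_lit 152) (nat_lit 22212004151) (nat_lit 27) (nat_lit 5) (nat_lit 28) (nat_lit 5) (nat_lit 29) (nat_lit 4) (nat_lit 462) (nat_lit 333) (nat_lit 225))) (XT.nd (nat_lit 78) (nat_lit 0) (nat_lit 0) (XT.lf (nat_lit 0) (nat_lit 25019259498) (nat_lit 76) (nat_lit 1583890062) (nat_lit 152) (nat_lit 15271586218) (nat_lit 27) (nat_lit 5) (nat_lit 28) (nat_lit 5) (nat_lit 29) (nat_lit 4) (nat_lit 463) (nat_lit 333) (nat_lit 224)) (XT.lf (nat_lit 0) (nat_lit 34807377457)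 (nat_lit 152) (nat_lit 1442084562) (nat_lit 0) (nat_lit 6632426710) (nat_lit 27) (nat_lit 5) (nat_lit 29) (nat_lit 4) (nat_lit 27) (nat_lit 4) (nat_lit 464) (nat_lit 333) (nat_lit 223))))))))
noncomputable def xc85 : XT := (XT.nd (nat_lit 44460) (nat_lit 0) (nat_lit 11780) (XT.nd (nat_lit 1092) (nat_lit 304) (nat_lit 0) (XT.nd (nat_lit 546) (nat_lit 304) (nat_lit 0) (XT.nd (nat_lit 234) (nat_lit 76) (nat_lit 0) (XT.nd (nat_lit 78) (nat_lit 152) (nat_lit 0) (XT.lf (nat_lit 0) (nat_lit 14670548813) (nat_lit 76) (nat_lit 28726269506) (nat_lit 76) (nat_lit 518266484) (nat_lit 26) (nat_lit 4) (nat_lit 27) (nat_lit 5) (nat_lit 27) (nat_lit 4) (nat_lit 465) (nat_lit 333) (nat_lit 222)) (XT.nd (nat_lit 78) (nat_lit 76) (nat_lit 0) (XT.lf (nat_lit 0) (nat_lit 7120012296) (nat_lit 152) (nat_lit 13786467648) (nat_lit 76) (nat_lit 24070789703) (nat_lit 25) (nat_lit 5) (nat_lit 27) (nat_lit 5) (nat_lit 26) (nat_lit 4) (nat_lit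 466) (nat_lit 333) (nat_lit 221)) (XT.lf (nat_lit 0) (nat_lit 2139164216) (nat_lit 76) (nat_lit 12841334190) (nat_lit 152) (nat_lit 31090564443) (nat_lit 24) (nat_lit 5) (nat_lit 25) (nat_lit 5) (nat_lit 26) (nat_lit 4) (nat_lit 467) (nat_lit 333) (nat_lit 220)))) (XT.nd (nat_lit 156) (nat_lit 76) (nat_lit 0) (XT.nd (nat_lit 78) (nat_lit 0) (nat_lit 0) (XT.lf (nat_lit 0) (nat_lit 18792705603) (nat_lit 76) (nat_lit 4406408025) (nat_lit 152) (nat_lit 23994887776) (nat_lit 24) (nat_lit 5) (nat_lit 25) (nat_lit 5) (nat_lit 26) (nat_lit 4) (nat_lit 468) (nat_lit 333) (nat_lit 219)) (XT.lf (nat_lit 0) (nat_lit 31688889581) (nat_lit 152) (nat_lit 12477802706) (nat_lit 0) (nat_lit 4183198725) (nat_lit 24) (nat_lit 5) (nat_lit 26) (nat_lit 4) (nat_lit 24) (nat_lit 4) (nat_lit 469) (nat_lit 333) (nat_lit 218))) (XT.nd (nat_lit 78) (nat_lit 0) (nat_lit 0) (XT.lf (nat_lit 0) (nat_lit 3925424028) (nat_lit 76) (nat_lit 36573223583)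 (nat_lit 76) (nat_lit 9039851967) (nat_lit 23) (nat_lit 4) (nat_lit 24) (nat_lit 5) (nat_lit 24) (nat_lit 4) (nat_lit 470) (nat_lit 333) (nat_lit 217)) (XT.lf (nat_lit 0) (nat_lit 21045891130) (nat_lit 76) (nat_lit 28636909625) (nat_lit 76) (nat_lit 1076663484) (nat_lit 23) (nat_lit 4) (nat_lit 24) (nat_lit 5) (nat_lit 24) (nat_lit 4) (nat_lit 471) (nat_lit 333) (nat_lit 216))))) (XT.nd (nat_lit 234) (nat_lit 152) (nat_lit 0) (XT.nd (nat_lit 78) (nat_lit 76) (nat_lit 0) (XT.lf (nat_lit 0) (nat_lit 6970788443) (nat_lit 152) (nat_lit 13435637370) (nat_lit 76) (nat_lit 31609045753) (nat_lit 22) (nat_lit 5) (nat_lit 24) (nat_lit 5) (nat_lit 23) (nat_lit 4) (nat_lit 472) (nat_lit 333) (nat_lit 215)) (XT.nd (nat_lit 78) (nat_lit 0) (nat_lit 0) (XT.lf (nat_lit 0) (nat_lit 3356287258) (nat_lit 76) (nat_lit 11898863966) (nat_lit 152) (nat_lit 38053175105) (nat_lit 21) (nat_lit 5) (nat_lit 22) (nat_lit 5) (nat_lit 23)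 (nat_lit 4) (nat_lit 473) (nat_lit 333) (nat_lit 214)) (XT.lf (nat_lit 0) (nat_lit 20898490720) (nat_lit 76) (nat_lit 3010255311) (nat_lit 152) (nat_lit 30727600476) (nat_lit 21) (nat_lit 5) (nat_lit 22) (nat_lit 5) (nat_lit 23) (nat_lit 4) (nat_lit 474) (nat_lit 333) (nat_lit 213)))) (XT.nd (nat_lit 156) (nat_lit 152) (nat_lit 0) (XT.nd (nat_lit 78) (nat_lit 0) (nat_lit 0) (XT.lf (nat_lit 0) (nat_lit 32866351989) (nat_lit 152) (nat_lit 17124678204) (nat_lit 0) (nat_lit 6011845783) (nat_lit 21) (nat_lit 5) (nat_lit 23) (nat_lit 4) (nat_lit 21) (nat_lit 4) (nat_lit 475) (nat_lit 333) (nat_lit 212)) (XT.lf (nat_lit 0) (nat_lit 42108251502) (nat_lit 152) (nat_lit 70445321) (nat_lit 0) (nat_lit 15231238304) (nat_lit 21) (nat_lit 5) (nat_lit 23) (nat_lit 4) (nat_lit 21) (nat_lit 4) (nat_lit 476) (nat_lit 333) (nat_lit 211))) (XT.nd (nat_lit 78) (nat_lit 76) (nat_lit 0) (XT.lf (nat_lit 0) (nat_lit 17816342035) (nat_lit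 76) (nat_lit 33968503143) (nat_lit 76) (nat_lit 7069638498) (nat_lit 20) (nat_lit 4) (nat_lit 21) (nat_lit 5) (nat_lit 21) (nat_lit 4) (nat_lit 477) (nat_lit 333) (nat_lit 210)) (XT.lf (nat_lit 0) (nat_lit 1368772222) (nat_lit 152) (nat_lit 24141472031) (nat_lit 76) (nat_lit 34832111512) (nat_lit 19) (nat_lit 5) (nat_lit 21) (nat_lit 5) (nat_lit 20) (nat_lit 4) (nat_lit 478) (nat_lit 333) (nat_lit 209)))))) (XT.nd (nat_lit 546) (nat_lit 152) (nat_lit 0) (XT.nd (nat_lit 234) (nat_lit 76) (nat_lit 0) (XT.nd (nat_lit 78) (nat_lit 76) (nat_lit 0) (XT.lf (nat_lit 0) (nat_lit 9904832513) (nat_lit 152) (nat_lit 6833866724) (nat_lit 76) (nat_lit 45134467861) (nat_lit 19) (nat_lit 5) (nat_lit 21) (nat_lit 5) (nat_lit 20) (nat_lit 4) (nat_lit 479) (nat_lit 333) (nat_lit 208)) (XT.nd (nat_lit 78) (nat_lit 0) (nat_lit 0) (XT.lf (nat_lit 0) (nat_lit 11186034949) (nat_lit 76) (nat_lit 7605447241) (nat_lit 152) (nat_lit 44655586012)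 (nat_lit 18) (nat_lit 5) (nat_lit 19) (nat_lit 5) (nat_lit 20) (nat_lit 4) (nat_lit 480) (nat_lit 333) (nat_lit 207)) (XT.lf (nat_lit 0) (nat_lit 28018746930) (nat_lit 152) (nat_lit 35222733450) (nat_lit 0) (nat_lit 1824486128) (nat_lit 18) (nat_lit 5) (nat_lit 20) (nat_lit 4) (nat_lit 18) (nat_lit 4) (nat_lit 481) (nat_lit 333) (nat_lit 206)))) (XT.nd (nat_lit 156) (nat_lit 0) (nat_lit 0) (XT.nd (nat_lit 78) (nat_lit 76) (nat_lit 0) (XT.lf (nat_lit 0) (nat_lit 37585513243) (nat_lit 152) (nat_lit 17773086434) (nat_lit 0) (nat_lit 11372952197) (nat_lit 18) (nat_lit 5) (nat_lit 20) (nat_lit 4) (nat_lit 18) (nat_lit 4) (nat_lit 482) (nat_lit 333) (nat_lit 205)) (XT.lf (nat_lit 0) (nat_lit 179771255) (nat_lit 76) (nat_lit 47248989042) (nat_lit 76) (nat_lit 21018660770) (nat_lit 17) (nat_lit 4) (nat_lit 18) (nat_lit 5) (nat_lit 18) (nat_lit 4) (nat_lit 483) (nat_lit 333) (nat_lit 204))) (XT.nd (nat_lit 78) (nat_lit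 0) (nat_lit 0) (XT.lf (nat_lit 0) (nat_lit 19011992005) (nat_lit 76) (nat_lit 38722666160) (nat_lit 76) (nat_lit 12475088153) (nat_lit 17) (nat_lit 4) (nat_lit 18) (nat_lit 5) (nat_lit 18) (nat_lit 4) (nat_lit 484) (nat_lit 333) (nat_lit 203)) (XT.lf (nat_lit 0) (nat_lit 38386311884) (nat_lit 76) (nat_lit 29951654169) (nat_lit 76) (nat_lit 3687328847) (nat_lit 17) (nat_lit 4) (nat_lit 18) (nat_lit 5) (nat_lit 18) (nat_lit 4) (nat_lit 485) (nat_lit 333) (nat_lit 202))))) (XT.nd (nat_lit 234) (nat_lit 0) (nat_lit 0) (XT.nd (nat_lit 78) (nat_lit 76) (nat_lit 0) (XT.lf (nat_lit 0) (nat_lit 5247853203) (nat_lit 152) (nat_lit 15627442847) (nat_lit 76) (nat_lit 53018813679) (nat_lit 16) (nat_lit 5) (nat_lit 18) (nat_lit 5) (nat_lit 17) (nat_lit 4) (nat_lit 486) (nat_lit 333) (nat_lit 201)) (XT.nd (nat_lit 78) (nat_lit 0) (nat_lit 0) (XT.lf (nat_lit 0) (nat_lit 2923199205) (nat_lit 76) (nat_lit 11470677645) (nat_lit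 152) (nat_lit 61423510490) (nat_lit 15) (nat_lit 5) (nat_lit 16) (nat_lit 5) (nat_lit 17) (nat_lit 4) (nat_lit 487) (nat_lit 333) (nat_lit 200)) (XT.lf (nat_lit 0) (nat_lit 22329143027) (nat_lit 76) (nat_lit 1631861895) (nat_lit 152) (nat_lit 53832957148) (nat_lit 15) (nat_lit 5) (nat_lit 16) (nat_lit 5) (nat_lit 17) (nat_lit 4) (nat_lit 488) (nat_lit 333) (nat_lit 199)))) (XT.nd (nat_lit 42432) (nat_lit 0) (nat_lit 26068) (XT.nd (nat_lit 78) (nat_lit 0) (nat_lit 0) (XT.lf (nat_lit 0) (nat_lit 33886016564) (nat_lit 152) (nat_lit 37615458556) (nat_lit 0) (nat_lit 8326233321) (nat_lit 15) (nat_lit 5) (nat_lit 17) (nat_lit 4) (nat_lit 15) (nat_lit 4) (nat_lit 489) (nat_lit 333) (nat_lit 198)) (XT.lf (nat_lit 0) (nat_lit 44114394012) (nat_lit 152) (nat_lit 19267320043) (nat_lit 0) (nat_lit 18540585156) (nat_lit 15) (nat_lit 5) (nat_lit 17) (nat_lit 4) (nat_lit 15) (nat_lit 4) (nat_lit 490) (nat_lit 333) (nat_lit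 197))) (XT.nd (nat_lit 78) (nat_lit 532) (nat_lit 0) (XT.lf (nat_lit 0) (nat_lit 980045276) (nat_lit 532) (nat_lit 1338589192) (nat_lit 0) (nat_lit 980045276) (nat_lit 365) (nat_lit 5) (nat_lit 372) (nat_lit 4) (nat_lit 365) (nat_lit 4) (nat_lit 352) (nat_lit 334) (nat_lit 334)) (XT.lf (nat_lit 0) (nat_lit 1371249418) (nat_lit 532) (nat_lit 3792912989) (nat_lit 532) (nat_lit 1460734862) (nat_lit 358) (nat_lit 4) (nat_lit 365) (nat_lit 5) (nat_lit 365) (nat_lit 4) (nat_lit 353) (nat_lit 334) (nat_lit 333))))))) (XT.nd (nat_lit 1092) (nat_lit 5624) (nat_lit 0) (XT.nd (nat_lit 546) (nat_lit 5548) (nat_lit 0) (XT.nd (nat_lit 234) (nat_lit 1672) (nat_lit 0) (XT.nd (nat_lit 78) (nat_lit 1368) (nat_lit 0) (XT.lf (nat_lit 0) (nat_lit 1694203590) (nat_lit 608) (nat_lit 1157195446) (nat_lit 76) (nat_lit 3803860682) (nat_lit 357) (nat_lit 5) (nat_lit 365) (nat_lit 5) (nat_lit 358) (nat_lit 4) (nat_lit 354) (nat_lit 334)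 (nat_lit 332)) (XT.nd (nat_lit 78) (nat_lit 760) (nat_lit 0) (XT.lf (nat_lit 0) (nat_lit 3026079403) (nat_lit 608) (nat_lit 1811757887) (nat_lit 684) (nat_lit 1850631813) (nat_lit 349) (nat_lit 5) (nat_lit 357) (nat_lit 5) (nat_lit 358) (nat_lit 4) (nat_lit 355) (nat_lit 334) (nat_lit 331)) (XT.lf (nat_lit 0) (nat_lit 551881913) (nat_lit 684) (nat_lit 687461616) (nat_lit 760) (nat_lit 5485629760) (nat_lit 339) (nat_lit 5) (nat_lit 348) (nat_lit 5) (nat_lit 349) (nat_lit 5) (nat_lit 356) (nat_lit 334) (nat_lit 330)))) (XT.nd (nat_lit 156) (nat_lit 836) (nat_lit 0) (XT.nd (nat_lit 78) (nat_lit 836) (nat_lit 0) (XT.lf (nat_lit 0) (nat_lit 4324694639) (nat_lit 760) (nat_lit 1901562810) (nat_lit 76) (nat_lit 537635303) (nat_lit 339) (nat_lit 5) (nat_lit 349) (nat_lit 5) (nat_lit 340) (nat_lit 4) (nat_lit 357) (nat_lit 334) (nat_lit 329)) (XT.lf (nat_lit 0) (nat_lit 615648854) (nat_lit 836) (nat_lit 4354966138) (nat_lit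 76) (nat_lit 1835305910) (nat_lit 328) (nat_lit 5) (nat_lit 339) (nat_lit 5) (nat_lit 329) (nat_lit 5) (nat_lit 358) (nat_lit 334) (nat_lit 328))) (XT.nd (nat_lit 78) (nat_lit 0) (nat_lit 0) (XT.lf (nat_lit 0) (nat_lit 17100560) (nat_lit 836) (nat_lit 3617624929) (nat_lit 912) (nat_lit 3216172013) (nat_lit 317) (nat_lit 5) (nat_lit 328) (nat_lit 5) (nat_lit 329) (nat_lit 5) (nat_lit 359) (nat_lit 334) (nat_lit 327)) (XT.lf (nat_lit 0) (nat_lit 4527131590) (nat_lit 836) (nat_lit 2165332687) (nat_lit 912) (nat_lit 206375081) (nat_lit 317) (nat_lit 5) (nat_lit 328) (nat_lit 5) (nat_lit 329) (nat_lit 5) (nat_lit 360) (nat_lit 334) (nat_lit 326))))) (XT.nd (nat_lit 234) (nat_lit 3496) (nat_lit 0) (XT.nd (nat_lit 78) (nat_lit 1064) (nat_lit 0) (XT.lf (nat_lit 0) (nat_lit 2156513607) (nat_lit 912) (nat_lit 607393559) (nat_lit 988) (nat_lit 4185733358) (nat_lit 304) (nat_lit 5) (nat_lit 316) (nat_lit 5) (nat_lit 317)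 (nat_lit 5) (nat_lit 361) (nat_lit 334) (nat_lit 325)) (XT.nd (nat_lit 78) (nat_lit 1064) (nat_lit 0) (XT.lf (nat_lit 0) (nat_lit 5760916123) (nat_lit 988) (nat_lit 228028655) (nat_lit 76) (nat_lit 1014760336) (nat_lit 304) (nat_lit 5) (nat_lit 317) (nat_lit 5) (nat_lit 305) (nat_lit 5) (nat_lit 362) (nat_lit 334) (nat_lit 324)) (XT.lf (nat_lit 0) (nat_lit 1712784468) (nat_lit 1064) (nat_lit 2603803309) (nat_lit 76) (nat_lit 2743561520) (nat_lit 290) (nat_lit 5) (nat_lit 304) (nat_lit 5) (nat_lit 291) (nat_lit 5) (nat_lit 363) (nat_lit 334) (nat_lit 323)))) (XT.nd (nat_lit 156) (nat_lit 2356) (nat_lit 0) (XT.nd (nat_lit 78) (nat_lit 76) (nat_lit 0) (XT.lf (nat_lit 0) (nat_lit 2113959770) (nat_lit 1064) (nat_lit 2552313904) (nat_lit 1140) (nat_lit 2453666286) (nat_lit 276) (nat_lit 5) (nat_lit 290) (nat_lit 5) (nat_lit 291) (nat_lit 5) (nat_lit 364) (nat_lit 334) (nat_lit 322)) (XT.lf (nat_lit 0) (nat_lit 455581411)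 (nat_lit 1140) (nat_lit 243079028) (nat_lit 76) (nat_lit 6484587708) (nat_lit 275) (nat_lit 5) (nat_lit 290) (nat_lit 5) (nat_lit 276) (nat_lit 5) (nat_lit 365) (nat_lit 334) (nat_lit 321))) (XT.nd (nat_lit 78) (nat_lit 1216) (nat_lit 0) (XT.lf (nat_lit 0) (nat_lit 3374839654) (nat_lit 1216) (nat_lit 2613438002) (nat_lit 76) (nat_lit 1260332585) (nat_lit 260) (nat_lit 5) (nat_lit 276) (nat_lit 5) (nat_lit 261) (nat_lit 5) (nat_lit 366) (nat_lit 334) (nat_lit 320)) (XT.lf (nat_lit 0) (nat_lit 2303923445) (nat_lit 1216) (nat_lit 4026039827) (nat_lit 1292) (nat_lit 987564939) (nat_lit 244) (nat_lit 5) (nat_lit 260) (nat_lit 5) (nat_lit 261) (nat_lit 5) (nat_lit 367) (nat_lit 334) (nat_lit 319)))))) (XT.nd (nat_lit 546) (nat_lit 2508) (nat_lit 0) (XT.nd (nat_lit 234) (nat_lit 1748) (nat_lit 0) (XT.nd (nat_lit 78) (nat_lit 1292) (nat_lit 0) (XT.lf (nat_lit 0) (nat_lit 1890669741) (nat_lit 1292) (nat_lit 68543749)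 (nat_lit 76) (nat_lit 5430443418) (nat_lit 243) (nat_lit 5) (nat_lit 260) (nat_lit 5) (nat_lit 244) (nat_lit 5) (nat_lit 368) (nat_lit 334) (nat_lit 318)) (XT.nd (nat_lit 78) (nat_lit 684) (nat_lit 0) (XT.lf (nat_lit 0) (nat_lit 4805896965) (nat_lit 684) (nat_lit 2434972679) (nat_lit 76) (nat_lit 223711588) (nat_lit 235) (nat_lit 5) (nat_lit 244) (nat_lit 5) (nat_lit 236) (nat_lit 5) (nat_lit 369) (nat_lit 334) (nat_lit 317)) (XT.lf (nat_lit 0) (nat_lit 228689056) (nat_lit 684) (nat_lit 4854526417) (nat_lit 76) (nat_lit 2459486470) (nat_lit 226) (nat_lit 5) (nat_lit 235) (nat_lit 5) (nat_lit 227) (nat_lit 5) (nat_lit 370) (nat_lit 334) (nat_lit 316)))) (XT.nd (nat_lit 156) (nat_lit 1140) (nat_lit 0) (XT.nd (nat_lit 78) (nat_lit 0) (nat_lit 0) (XT.lf (nat_lit 0) (nat_lit 287791750) (nat_lit 608) (nat_lit 2811219876) (nat_lit 684) (nat_lit 4524908542) (nat_lit 218) (nat_lit 5) (nat_lit 226) (nat_lit 5) (nat_lit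 227) (nat_lit 5) (nat_lit 371) (nat_lit 334) (nat_lit 315)) (XT.lf (nat_lit 0) (nat_lit 5600952525) (nat_lit 608) (nat_lit 427148903) (nat_lit 684) (nat_lit 1680329270) (nat_lit 218) (nat_lit 5) (nat_lit 226) (nat_lit 5) (nat_lit 227) (nat_lit 5) (nat_lit 372) (nat_lit 334) (nat_lit 314))) (XT.nd (nat_lit 78) (nat_lit 532) (nat_lit 0) (XT.lf (nat_lit 0) (nat_lit 1201369534) (nat_lit 608) (nat_lit 4568979831) (nat_lit 76) (nat_lit 2025515291) (nat_lit 210) (nat_lit 5) (nat_lit 218) (nat_lit 5) (nat_lit 211) (nat_lit 5) (nat_lit 373) (nat_lit 334) (nat_lit 313)) (XT.lf (nat_lit 0) (nat_lit 790130845) (nat_lit 532) (nat_lit 3305351153) (nat_lit 608) (nat_lit 3791180933) (nat_lit 203) (nat_lit 5) (nat_lit 210) (nat_lit 5) (nat_lit 211) (nat_lit 5) (nat_lit 374) (nat_lit 334) (nat_lit 312))))) (XT.nd (nat_lit 312) (nat_lit 1444) (nat_lit 0) (XT.nd (nat_lit 156) (nat_lit 532) (nat_lit 0) (XT.nd (nat_lit 78) (nat_lit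 532) (nat_lit 0) (XT.lf (nat_lit 0) (nat_lit 6321084782) (nat_lit 532) (nat_lit 729239149) (nat_lit 608) (nat_lit 930675569) (nat_lit 203) (nat_lit 5) (nat_lit 210) (nat_lit 5) (nat_lit 211) (nat_lit 5) (nat_lit 375) (nat_lit 334) (nat_lit 311)) (XT.lf (nat_lit 0) (nat_lit 1962052701) (nat_lit 532) (nat_lit 4182366928) (nat_lit 76) (nat_lit 1933622778) (nat_lit 196) (nat_lit 5) (nat_lit 203) (nat_lit 5) (nat_lit 197) (nat_lit 5) (nat_lit 376) (nat_lit 334) (nat_lit 310))) (XT.nd (nat_lit 78) (nat_lit 0) (nat_lit 0) (XT.lf (nat_lit 0) (nat_lit 1402400061) (nat_lit 532) (nat_lit 3488412211) (nat_lit 608) (nat_lit 3287898094) (nat_lit 189) (nat_lit 5) (nat_lit 196) (nat_lit 5) (nat_lit 197) (nat_lit 5) (nat_lit 377) (nat_lit 334) (nat_lit 309)) (XT.lf (nat_lit 0) (nat_lit 7158425236) (nat_lit 532) (nat_lit 722810360) (nat_lit 608) (nat_lit 401976750) (nat_lit 189) (nat_lit 5) (nat_lit 196) (nat_lit 5) (nat_lit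 197) (nat_lit 5) (nat_lit 378) (nat_lit 334) (nat_lit 308)))) (XT.nd (nat_lit 156) (nat_lit 456) (nat_lit 0) (XT.nd (nat_lit 78) (nat_lit 456) (nat_lit 0) (XT.lf (nat_lit 0) (nat_lit 2519234768) (nat_lit 532) (nat_lit 3729847850) (nat_lit 76) (nat_lit 2141085708) (nat_lit 182) (nat_lit 5) (nat_lit 189) (nat_lit 5) (nat_lit 183) (nat_lit 5) (nat_lit 379) (nat_lit 334) (nat_lit 307)) (XT.lf (nat_lit 0) (nat_lit 2089505533) (nat_lit 456) (nat_lit 3403133561) (nat_lit 532) (nat_lit 3008421056) (nat_lit 176) (nat_lit 5) (nat_lit 182) (nat_lit 5) (nat_lit 183) (nat_lit 5) (nat_lit 380) (nat_lit 334) (nat_lit 306))) (XT.nd (nat_lit 78) (nat_lit 456) (nat_lit 0) (XT.lf (nat_lit 0) (nat_lit 8078636941) (nat_lit 456) (nat_lit 449339252) (nat_lit 532) (nat_lit 88145505) (nat_lit 176) (nat_lit 5) (nat_lit 182) (nat_lit 5) (nat_lit 183) (nat_lit 5) (nat_lit 381) (nat_lit 334) (nat_lit 305)) (XT.lf (nat_lit 0) (nat_lit 2877629533)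 (nat_lit 456) (nat_lit 3247590647) (nat_lit 76) (nat_lit 2608150408) (nat_lit 170) (nat_lit 5) (nat_lit 176) (nat_lit 5) (nat_lit 171) (nat_lit 5) (nat_lit 382) (nat_lit 334) (nat_lit 304))))))))
noncomputable def xc86 : XT := (XT.nd (nat_lit 2184) (nat_lit 3040) (nat_lit 0) (XT.nd (nat_lit 1092) (nat_lit 2508) (nat_lit 0) (XT.nd (nat_lit 546) (nat_lit 1748) (nat_lit 0) (XT.nd (nat_lit 234) (nat_lit 1216) (nat_lit 0) (XT.nd (nat_lit 78) (nat_lit 456) (nat_lit 0) (XT.lf (nat_lit 0) (nat_lit 2815207744) (nat_lit 456) (nat_lit 3089630335) (nat_lit 532) (nat_lit 2950068504) (nat_lit 164) (nat_lit 5) (nat_lit 170) (nat_lit 5) (nat_lit 171) (nat_lit 5) (nat_lit 383) (nat_lit 334) (nat_lit 303)) (XT.nd (nat_lit 78) (nat_lit 0) (nat_lit 0) (XT.lf (nat_lit 0) (nat_lit 13868215) (nat_lit 456) (nat_lit 8915153150) (nat_lit 76) (nat_lit 51918567) (nat_lit 158) (nat_lit 5) (nat_lit 164) (nat_lit 5) (nat_lit 159) (nat_lit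 5) (nat_lit 384) (nat_lit 334) (nat_lit 302)) (XT.lf (nat_lit 0) (nat_lit 3038127577) (nat_lit 456) (nat_lit 2773559525) (nat_lit 76) (nat_lit 3297290826) (nat_lit 158) (nat_lit 5) (nat_lit 164) (nat_lit 5) (nat_lit 159) (nat_lit 5) (nat_lit 385) (nat_lit 334) (nat_lit 301)))) (XT.nd (nat_lit 156) (nat_lit 456) (nat_lit 0) (XT.nd (nat_lit 78) (nat_lit 380) (nat_lit 0) (XT.lf (nat_lit 0) (nat_lit 3541310934) (nat_lit 380) (nat_lit 2586150495) (nat_lit 456) (nat_lit 3114185470) (nat_lit 153) (nat_lit 5) (nat_lit 158) (nat_lit 5) (nat_lit 159) (nat_lit 5) (nat_lit 386) (nat_lit 334) (nat_lit 300)) (XT.lf (nat_lit 0) (nat_lit 649473870) (nat_lit 380) (nat_lit 8642689941) (nat_lit 456) (nat_lit 86671122) (nat_lit 148) (nat_lit 5) (nat_lit 153) (nat_lit 5) (nat_lit 154) (nat_lit 5) (nat_lit 387) (nat_lit 334) (nat_lit 299))) (XT.nd (nat_lit 78) (nat_lit 380) (nat_lit 0) (XT.lf (nat_lit 0) (nat_lit 2997685237) (nat_lit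 456) (nat_lit 2348364317) (nat_lit 76) (nat_lit 4172478045) (nat_lit 147) (nat_lit 5) (nat_lit 153) (nat_lit 5) (nat_lit 148) (nat_lit 5) (nat_lit 388) (nat_lit 334) (nat_lit 298)) (XT.lf (nat_lit 0) (nat_lit 4226786705) (nat_lit 380) (nat_lit 1929817500) (nat_lit 456) (nat_lit 3506285858) (nat_lit 142) (nat_lit 5) (nat_lit 147) (nat_lit 5) (nat_lit 148) (nat_lit 5) (nat_lit 389) (nat_lit 334) (nat_lit 297))))) (XT.nd (nat_lit 234) (nat_lit 988) (nat_lit 0) (XT.nd (nat_lit 78) (nat_lit 456) (nat_lit 0) (XT.lf (nat_lit 0) (nat_lit 1164059453) (nat_lit 304) (nat_lit 8240478471) (nat_lit 380) (nat_lit 407235519) (nat_lit 138) (nat_lit 5) (nat_lit 142) (nat_lit 5) (nat_lit 143) (nat_lit 5) (nat_lit 390) (nat_lit 334) (nat_lit 296)) (XT.nd (nat_lit 78) (nat_lit 380) (nat_lit 0) (XT.lf (nat_lit 0) (nat_lit 2749139210) (nat_lit 380) (nat_lit 2016188470) (nat_lit 76) (nat_lit 5198448203) (nat_lit 137) (nat_lit 5) (nat_lit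 142) (nat_lit 5) (nat_lit 138) (nat_lit 5) (nat_lit 391) (nat_lit 334) (nat_lit 295)) (XT.lf (nat_lit 0) (nat_lit 4826813843) (nat_lit 380) (nat_lit 1157380807) (nat_lit 456) (nat_lit 4136273526) (nat_lit 132) (nat_lit 5) (nat_lit 137) (nat_lit 5) (nat_lit 138) (nat_lit 5) (nat_lit 392) (nat_lit 334) (nat_lit 294)))) (XT.nd (nat_lit 156) (nat_lit 608) (nat_lit 0) (XT.nd (nat_lit 78) (nat_lit 76) (nat_lit 0) (XT.lf (nat_lit 0) (nat_lit 1562623986) (nat_lit 304) (nat_lit 7760247553) (nat_lit 380) (nat_lit 958808115) (nat_lit 128) (nat_lit 5) (nat_lit 132) (nat_lit 5) (nat_lit 133) (nat_lit 5) (nat_lit 393) (nat_lit 334) (nat_lit 293)) (XT.lf (nat_lit 0) (nat_lit 2280941218) (nat_lit 380) (nat_lit 1825814813) (nat_lit 76) (nat_lit 6339955343) (nat_lit 127) (nat_lit 5) (nat_lit 132) (nat_lit 5) (nat_lit 128) (nat_lit 5) (nat_lit 394) (nat_lit 334) (nat_lit 292))) (XT.nd (nat_lit 78) (nat_lit 304) (nat_lit 0) (XT.lf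 (nat_lit 0) (nat_lit 5291714312) (nat_lit 304) (nat_lit 305988182) (nat_lit 380) (nat_lit 5018748231) (nat_lit 123) (nat_lit 5) (nat_lit 127) (nat_lit 5) (nat_lit 128) (nat_lit 5) (nat_lit 395) (nat_lit 334) (nat_lit 291)) (XT.lf (nat_lit 0) (nat_lit 1792741670) (nat_lit 304) (nat_lit 7240537144) (nat_lit 380) (nat_lit 1757437859) (nat_lit 119) (nat_lit 5) (nat_lit 123) (nat_lit 5) (nat_lit 124) (nat_lit 5) (nat_lit 396) (nat_lit 334) (nat_lit 290)))))) (XT.nd (nat_lit 546) (nat_lit 1292) (nat_lit 0) (XT.nd (nat_lit 234) (nat_lit 608) (nat_lit 0) (XT.nd (nat_lit 78) (nat_lit 532) (nat_lit 0) (XT.lf (nat_lit 0) (nat_lit 1576805545) (nat_lit 380) (nat_lit 1831770671) (nat_lit 76) (nat_lit 7560995007) (nat_lit 118) (nat_lit 5) (nat_lit 123) (nat_lit 5) (nat_lit 119) (nat_lit 5) (nat_lit 397) (nat_lit 334) (nat_lit 289)) (XT.nd (nat_lit 78) (nat_lit 228) (nat_lit 0) (XT.lf (nat_lit 0) (nat_lit 4985390514) (nat_lit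 380) (nat_lit 5593032032) (nat_lit 76) (nat_lit 574570351) (nat_lit 114) (nat_lit 5) (nat_lit 119) (nat_lit 5) (nat_lit 115) (nat_lit 5) (nat_lit 398) (nat_lit 334) (nat_lit 288)) (XT.lf (nat_lit 0) (nat_lit 1795372171) (nat_lit 228) (nat_lit 6721535541) (nat_lit 304) (nat_lit 2824401514) (nat_lit 111) (nat_lit 5) (nat_lit 114) (nat_lit 5) (nat_lit 115) (nat_lit 5) (nat_lit 399) (nat_lit 334) (nat_lit 287)))) (XT.nd (nat_lit 156) (nat_lit 228) (nat_lit 0) (XT.nd (nat_lit 78) (nat_lit 304) (nat_lit 0) (XT.lf (nat_lit 0) (nat_lit 615260527) (nat_lit 304) (nat_lit 2095616712) (nat_lit 76) (nat_lit 8823983435) (nat_lit 110) (nat_lit 5) (nat_lit 114) (nat_lit 5) (nat_lit 111) (nat_lit 5) (nat_lit 400) (nat_lit 334) (nat_lit 286)) (XT.lf (nat_lit 0) (nat_lit 4121877652) (nat_lit 380) (nat_lit 6161565310) (nat_lit 76) (nat_lit 1449331991) (nat_lit 106) (nat_lit 5) (nat_lit 111) (nat_lit 5) (nat_lit 107) (nat_lit 5)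 (nat_lit 401) (nat_lit 334) (nat_lit 285))) (XT.nd (nat_lit 78) (nat_lit 0) (nat_lit 0) (XT.lf (nat_lit 0) (nat_lit 1503449061) (nat_lit 228) (nat_lit 6245968185) (nat_lit 304) (nat_lit 4186748573) (nat_lit 103) (nat_lit 5) (nat_lit 106) (nat_lit 5) (nat_lit 107) (nat_lit 5) (nat_lit 402) (nat_lit 334) (nat_lit 284)) (XT.lf (nat_lit 0) (nat_lit 9451598068) (nat_lit 228) (nat_lit 2050129344) (nat_lit 304) (nat_lit 643463230) (nat_lit 103) (nat_lit 5) (nat_lit 106) (nat_lit 5) (nat_lit 107) (nat_lit 5) (nat_lit 403) (nat_lit 334) (nat_lit 283))))) (XT.nd (nat_lit 234) (nat_lit 760) (nat_lit 0) (XT.nd (nat_lit 78) (nat_lit 228) (nat_lit 0) (XT.lf (nat_lit 0) (nat_lit 2975201513) (nat_lit 304) (nat_lit 7101903688) (nat_lit 76) (nat_lit 2281691830) (nat_lit 99) (nat_lit 5) (nat_lit 103) (nat_lit 5) (nat_lit 100) (nat_lit 5) (nat_lit 404) (nat_lit 334) (nat_lit 282)) (XT.nd (nat_lit 78) (nat_lit 0) (nat_lit 0) (XT.lf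 (nat_lit 0) (nat_lit 840274480) (nat_lit 228) (nat_lit 5860064290) (nat_lit 304) (nat_lit 5877966014) (nat_lit 96) (nat_lit 5) (nat_lit 99) (nat_lit 5) (nat_lit 100) (nat_lit 5) (nat_lit 405) (nat_lit 334) (nat_lit 281)) (XT.lf (nat_lit 0) (nat_lit 9094710868) (nat_lit 228) (nat_lit 1469857772) (nat_lit 304) (nat_lit 2239018358) (nat_lit 96) (nat_lit 5) (nat_lit 99) (nat_lit 5) (nat_lit 100) (nat_lit 5) (nat_lit 406) (nat_lit 334) (nat_lit 280)))) (XT.nd (nat_lit 156) (nat_lit 456) (nat_lit 0) (XT.nd (nat_lit 78) (nat_lit 0) (nat_lit 0) (XT.lf (nat_lit 0) (nat_lit 1509673142) (nat_lit 304) (nat_lit 8499494792) (nat_lit 76) (nat_lit 3025132699) (nat_lit 92) (nat_lit 5) (nat_lit 96) (nat_lit 5) (nat_lit 93) (nat_lit 5) (nat_lit 407) (nat_lit 334) (nat_lit 279)) (XT.lf (nat_lit 0) (nat_lit 5335020160) (nat_lit 304) (nat_lit 276805870) (nat_lit 76) (nat_lit 7659177274) (nat_lit 92) (nat_lit 5) (nat_lit 96) (nat_lit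 5) (nat_lit 93) (nat_lit 5) (nat_lit 408) (nat_lit 334) (nat_lit 278))) (XT.nd (nat_lit 78) (nat_lit 228) (nat_lit 0) (XT.lf (nat_lit 0) (nat_lit 8285577209) (nat_lit 228) (nat_lit 1027274652) (nat_lit 304) (nat_lit 4200831803) (nat_lit 89) (nat_lit 5) (nat_lit 92) (nat_lit 5) (nat_lit 93) (nat_lit 5) (nat_lit 409) (nat_lit 334) (nat_lit 277)) (XT.lf (nat_lit 0) (nat_lit 3306943967) (nat_lit 228) (nat_lit 10131592161) (nat_lit 304) (nat_lit 324260874) (nat_lit 86) (nat_lit 5) (nat_lit 89) (nat_lit 5) (nat_lit 90) (nat_lit 5) (nat_lit 410) (nat_lit 334) (nat_lit 276))))))) (XT.nd (nat_lit 1092) (nat_lit 1368) (nat_lit 0) (XT.nd (nat_lit 546) (nat_lit 760) (nat_lit 0) (XT.nd (nat_lit 234) (nat_lit 456) (nat_lit 0) (XT.nd (nat_lit 78) (nat_lit 380) (nat_lit 0) (XT.lf (nat_lit 0) (nat_lit 3619037495) (nat_lit 304) (nat_lit 1927685605) (nat_lit 76) (nat_lit 8470949781) (nat_lit 85) (nat_lit 5) (nat_lit 89) (nat_lit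 5) (nat_lit 86) (nat_lit 5) (nat_lit 411) (nat_lit 334) (nat_lit 275)) (XT.nd (nat_lit 78) (nat_lit 228) (nat_lit 0) (XT.lf (nat_lit 0) (nat_lit 6921040686) (nat_lit 152) (nat_lit 779344611) (nat_lit 228) (nat_lit 6578932798) (nat_lit 83) (nat_lit 5) (nat_lit 85) (nat_lit 5) (nat_lit 86) (nat_lit 5) (nat_lit 412) (nat_lit 334) (nat_lit 274)) (XT.lf (nat_lit 0) (nat_lit 1447443723) (nat_lit 228) (nat_lit 10490027472) (nat_lit 304) (nat_lit 2610349732) (nat_lit 80) (nat_lit 5) (nat_lit 83) (nat_lit 5) (nat_lit 84) (nat_lit 5) (nat_lit 413) (nat_lit 334) (nat_lit 273)))) (XT.nd (nat_lit 156) (nat_lit 228) (nat_lit 0) (XT.nd (nat_lit 78) (nat_lit 152) (nat_lit 0) (XT.lf (nat_lit 0) (nat_lit 1491360222) (nat_lit 304) (nat_lit 4244181384) (nat_lit 76) (nat_lit 9087131100) (nat_lit 79) (nat_lit 5) (nat_lit 83) (nat_lit 5) (nat_lit 80) (nat_lit 5) (nat_lit 414) (nat_lit 334) (nat_lit 272)) (XT.lf (nat_lit 0) (nat_lit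 4881525946) (nat_lit 152) (nat_lit 790355773) (nat_lit 228) (nat_lit 9432872777) (nat_lit 77) (nat_lit 5) (nat_lit 79) (nat_lit 5) (nat_lit 80) (nat_lit 5) (nat_lit 415) (nat_lit 334) (nat_lit 271))) (XT.nd (nat_lit 78) (nat_lit 228) (nat_lit 0) (XT.lf (nat_lit 0) (nat_lit 10024013205) (nat_lit 228) (nat_lit 1133633768) (nat_lit 76) (nat_lit 4236272328) (nat_lit 77) (nat_lit 5) (nat_lit 80) (nat_lit 5) (nat_lit 78) (nat_lit 5) (nat_lit 416) (nat_lit 334) (nat_lit 270)) (XT.lf (nat_lit 0) (nat_lit 8319241898) (nat_lit 228) (nat_lit 6237928910) (nat_lit 304) (nat_lit 1133080580) (nat_lit 74) (nat_lit 5) (nat_lit 77) (nat_lit 5) (nat_lit 78) (nat_lit 5) (nat_lit 417) (nat_lit 334) (nat_lit 269))))) (XT.nd (nat_lit 234) (nat_lit 380) (nat_lit 0) (XT.nd (nat_lit 78) (nat_lit 152) (nat_lit 0) (XT.lf (nat_lit 0) (nat_lit 2028178981) (nat_lit 152) (nat_lit 1133457501) (nat_lit 228) (nat_lit 12833096126) (nat_lit 71)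 (nat_lit 5) (nat_lit 73) (nat_lit 5) (nat_lit 74) (nat_lit 5) (nat_lit 418) (nat_lit 334) (nat_lit 268)) (XT.nd (nat_lit 78) (nat_lit 152) (nat_lit 0) (XT.lf (nat_lit 0) (nat_lit 7640228536) (nat_lit 228) (nat_lit 4561537212) (nat_lit 76) (nat_lit 4103917419) (nat_lit 71) (nat_lit 5) (nat_lit 74) (nat_lit 5) (nat_lit 72) (nat_lit 5) (nat_lit 419) (nat_lit 334) (nat_lit 267)) (XT.lf (nat_lit 0) (nat_lit 5152560026) (nat_lit 152) (nat_lit 7125441828) (nat_lit 228) (nat_lit 4347221195) (nat_lit 69) (nat_lit 5) (nat_lit 71) (nat_lit 5) (nat_lit 72) (nat_lit 5) (nat_lit 420) (nat_lit 334) (nat_lit 266)))) (XT.nd (nat_lit 156) (nat_lit 152) (nat_lit 0) (XT.nd (nat_lit 78) (nat_lit 152) (nat_lit 0) (XT.lf (nat_lit 0) (nat_lit 109283304) (nat_lit 228) (nat_lit 1765301689) (nat_lit 76) (nat_lit 15079419741) (nat_lit 68) (nat_lit 5) (nat_lit 71) (nat_lit 5) (nat_lit 69) (nat_lit 5) (nat_lit 421) (nat_lit 334) (nat_lit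 265)) (XT.lf (nat_lit 0) (nat_lit 4691956445) (nat_lit 228) (nat_lit 9033597435) (nat_lit 76) (nat_lit 3563414328) (nat_lit 66) (nat_lit 5) (nat_lit 69) (nat_lit 5) (nat_lit 67) (nat_lit 5) (nat_lit 422) (nat_lit 334) (nat_lit 264))) (XT.nd (nat_lit 78) (nat_lit 0) (nat_lit 0) (XT.lf (nat_lit 0) (nat_lit 917703658) (nat_lit 152) (nat_lit 8505190186) (nat_lit 228) (nat_lit 8210768119) (nat_lit 64) (nat_lit 5) (nat_lit 66) (nat_lit 5) (nat_lit 67) (nat_lit 5) (nat_lit 423) (nat_lit 334) (nat_lit 263)) (XT.lf (nat_lit 0) (nat_lit 11292448599) (nat_lit 152) (nat_lit 3060360470) (nat_lit 228) (nat_lit 3634180727) (nat_lit 64) (nat_lit 5) (nat_lit 66) (nat_lit 5) (nat_lit 67) (nat_lit 5) (nat_lit 424) (nat_lit 334) (nat_lit 262)))))) (XT.nd (nat_lit 546) (nat_lit 608) (nat_lit 0) (XT.nd (nat_lit 234) (nat_lit 380) (nat_lit 0) (XT.nd (nat_lit 78) (nat_lit 152) (nat_lit 0) (XT.lf (nat_lit 0) (nat_lit 1084699998) (nat_lit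 228) (nat_lit 14746502903) (nat_lit 76) (nat_lit 2518625741) (nat_lit 61) (nat_lit 5) (nat_lit 64) (nat_lit 5) (nat_lit 62) (nat_lit 5) (nat_lit 425) (nat_lit 334) (nat_lit 261)) (XT.nd (nat_lit 78) (nat_lit 152) (nat_lit 0) (XT.lf (nat_lit 0) (nat_lit 5937333101) (nat_lit 228) (nat_lit 4500478885) (nat_lit 76) (nat_lit 8282708676) (nat_lit 61) (nat_lit 5) (nat_lit 64) (nat_lit 5) (nat_lit 62) (nat_lit 5) (nat_lit 426) (nat_lit 334) (nat_lit 260)) (XT.lf (nat_lit 0) (nat_lit 6114610342) (nat_lit 152) (nat_lit 4847341092) (nat_lit 228) (nat_lit 8139594048) (nat_lit 59) (nat_lit 5) (nat_lit 61) (nat_lit 5) (nat_lit 62) (nat_lit 5) (nat_lit 427) (nat_lit 334) (nat_lit 259)))) (XT.nd (nat_lit 156) (nat_lit 152) (nat_lit 0) (XT.nd (nat_lit 78) (nat_lit 228) (nat_lit 0) (XT.lf (nat_lit 0) (nat_lit 16159741815) (nat_lit 228) (nat_lit 2419226322) (nat_lit 76) (nat_lit 914364005) (nat_lit 59) (nat_lit 5) (nat_lit 62)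 (nat_lit 5) (nat_lit 60) (nat_lit 4) (nat_lit 428) (nat_lit 334) (nat_lit 258)) (XT.lf (nat_lit 0) (nat_lit 1684709588) (nat_lit 228) (nat_lit 11382611231) (nat_lit 76) (nat_lit 6826099409) (nat_lit 56) (nat_lit 5) (nat_lit 59) (nat_lit 5) (nat_lit 57) (nat_lit 5) (nat_lit 429) (nat_lit 334) (nat_lit 257))) (XT.nd (nat_lit 78) (nat_lit 152) (nat_lit 0) (XT.lf (nat_lit 0) (nat_lit 6780015530) (nat_lit 228) (nat_lit 575871049) (nat_lit 76) (nat_lit 12948834190) (nat_lit 56) (nat_lit 5) (nat_lit 59) (nat_lit 5) (nat_lit 57) (nat_lit 5) (nat_lit 430) (nat_lit 334) (nat_lit 256)) (XT.lf (nat_lit 0) (nat_lit 10709506362) (nat_lit 152) (nat_lit 1391317289) (nat_lit 228) (nat_lit 8625361028) (nat_lit 54) (nat_lit 5) (nat_lit 56) (nat_lit 5) (nat_lit 57) (nat_lit 5) (nat_lit 431) (nat_lit 334) (nat_lit 255))))) (XT.nd (nat_lit 312) (nat_lit 304) (nat_lit 0) (XT.nd (nat_lit 156) (nat_lit 152) (nat_lit 0) (XT.nd (nat_lit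 78) (nat_lit 76) (nat_lit 0) (XT.lf (nat_lit 0) (nat_lit 1106299600) (nat_lit 76) (nat_lit 16506973254) (nat_lit 152) (nat_lit 3546062684) (nat_lit 53) (nat_lit 5) (nat_lit 54) (nat_lit 5) (nat_lit 55) (nat_lit 4) (nat_lit 432) (nat_lit 334) (nat_lit 254)) (XT.lf (nat_lit 0) (nat_lit 1738536367) (nat_lit 152) (nat_lit 8919875690) (nat_lit 76) (nat_lit 10944011683) (nat_lit 52) (nat_lit 5) (nat_lit 54) (nat_lit 5) (nat_lit 53) (nat_lit 5) (nat_lit 433) (nat_lit 334) (nat_lit 253))) (XT.nd (nat_lit 78) (nat_lit 0) (nat_lit 0) (XT.lf (nat_lit 0) (nat_lit 2507955565) (nat_lit 152) (nat_lit 4597318981) (nat_lit 228) (nat_lit 14952633787) (nat_lit 50) (nat_lit 5) (nat_lit 52) (nat_lit 5) (nat_lit 53) (nat_lit 5) (nat_lit 434) (nat_lit 334) (nat_lit 252)) (XT.lf (nat_lit 0) (nat_lit 12710681342) (nat_lit 228) (nat_lit 8132869173) (nat_lit 76) (nat_lit 1681180100) (nat_lit 50) (nat_lit 5) (nat_lit 53) (nat_lit 5) (nat_lit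 51) (nat_lit 4) (nat_lit 435) (nat_lit 334) (nat_lit 251)))) (XT.nd (nat_lit 156) (nat_lit 152) (nat_lit 0) (XT.nd (nat_lit 78) (nat_lit 76) (nat_lit 0) (XT.lf (nat_lit 0) (nat_lit 3599730317) (nat_lit 76) (nat_lit 14936371737) (nat_lit 152) (nat_lit 4467903010) (nat_lit 49) (nat_lit 5) (nat_lit 50) (nat_lit 5) (nat_lit 51) (nat_lit 4) (nat_lit 436) (nat_lit 334) (nat_lit 250)) (XT.lf (nat_lit 0) (nat_lit 1073081869) (nat_lit 152) (nat_lit 7706747071) (nat_lit 76) (nat_lit 14715890519) (nat_lit 48) (nat_lit 5) (nat_lit 50) (nat_lit 5) (nat_lit 49) (nat_lit 5) (nat_lit 437) (nat_lit 334) (nat_lit 249))) (XT.nd (nat_lit 78) (nat_lit 0) (nat_lit 0) (XT.lf (nat_lit 0) (nat_lit 4331725804) (nat_lit 152) (nat_lit 2373013569) (nat_lit 228) (nat_lit 17295694300) (nat_lit 46) (nat_lit 5) (nat_lit 48) (nat_lit 5) (nat_lit 49) (nat_lit 5) (nat_lit 438) (nat_lit 334) (nat_lit 248)) (XT.lf (nat_lit 0) (nat_lit 12597268624)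 (nat_lit 228) (nat_lit 7720389933) (nat_lit 76) (nat_lit 4199875807) (nat_lit 46) (nat_lit 5) (nat_lit 49) (nat_lit 5) (nat_lit 47) (nat_lit 4) (nat_lit 439) (nat_lit 334) (nat_lit 247))))))))
noncomputable def xc87 : XT := (XT.nd (nat_lit 2262) (nat_lit 684) (nat_lit 0) (XT.nd (nat_lit 1092) (nat_lit 684) (nat_lit 0) (XT.nd (nat_lit 546) (nat_lit 380) (nat_lit 0) (XT.nd (nat_lit 234) (nat_lit 304) (nat_lit 0) (XT.nd (nat_lit 78) (nat_lit 228) (nat_lit 0) (XT.lf (nat_lit 0) (nat_lit 4603811087) (nat_lit 76) (nat_lit 14104012989) (nat_lit 152) (nat_lit 6341089123) (nat_lit 45) (nat_lit 5) (nat_lit 46) (nat_lit 5) (nat_lit 47) (nat_lit 4) (nat_lit 440) (nat_lit 334) (nat_lit 246)) (XT.nd (nat_lit 78) (nat_lit 228) (nat_lit 0) (XT.lf (nat_lit 0) (nat_lit 17407569848) (nat_lit 76) (nat_lit 7645893939) (nat_lit 152) (nat_lit 541219140) (nat_lit 45) (nat_lit 5) (nat_lit 46) (nat_lit 5) (nat_lit 47) (nat_lit 4) (nat_lit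 441) (nat_lit 334) (nat_lit 245)) (XT.lf (nat_lit 0) (nat_lit 4425213808) (nat_lit 152) (nat_lit 918275971) (nat_lit 228) (nat_lit 20811266119) (nat_lit 42) (nat_lit 5) (nat_lit 44) (nat_lit 5) (nat_lit 45) (nat_lit 5) (nat_lit 442) (nat_lit 334) (nat_lit 244)))) (XT.nd (nat_lit 156) (nat_lit 228) (nat_lit 0) (XT.nd (nat_lit 78) (nat_lit 76) (nat_lit 0) (XT.lf (nat_lit 0) (nat_lit 11509540170) (nat_lit 228) (nat_lit 9256994143) (nat_lit 76) (nat_lit 5961467980) (nat_lit 42) (nat_lit 5) (nat_lit 45) (nat_lit 5) (nat_lit 43) (nat_lit 4) (nat_lit 443) (nat_lit 334) (nat_lit 243)) (XT.lf (nat_lit 0) (nat_lit 3604745617) (nat_lit 76) (nat_lit 14274717649) (nat_lit 152) (nat_lit 9438418350) (nat_lit 41) (nat_lit 5) (nat_lit 42) (nat_lit 5) (nat_lit 43) (nat_lit 4) (nat_lit 444) (nat_lit 334) (nat_lit 242))) (XT.nd (nat_lit 78) (nat_lit 228) (nat_lit 0) (XT.lf (nat_lit 0) (nat_lit 16996315797) (nat_lit 76) (nat_lit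 7513077839) (nat_lit 152) (nat_lit 3413998600) (nat_lit 41) (nat_lit 5) (nat_lit 42) (nat_lit 5) (nat_lit 43) (nat_lit 4) (nat_lit 445) (nat_lit 334) (nat_lit 241)) (XT.lf (nat_lit 0) (nat_lit 2214008740) (nat_lit 152) (nat_lit 519871346) (nat_lit 228) (nat_lit 25812469503) (nat_lit 38) (nat_lit 5) (nat_lit 40) (nat_lit 5) (nat_lit 41) (nat_lit 5) (nat_lit 446) (nat_lit 334) (nat_lit 240))))) (XT.nd (nat_lit 234) (nat_lit 304) (nat_lit 0) (XT.nd (nat_lit 78) (nat_lit 76) (nat_lit 0) (XT.lf (nat_lit 0) (nat_lit 9149238734) (nat_lit 228) (nat_lit 13355507879) (nat_lit 76) (nat_lit 6677687161) (nat_lit 38) (nat_lit 5) (nat_lit 41) (nat_lit 5) (nat_lit 39) (nat_lit 4) (nat_lit 447) (nat_lit 334) (nat_lit 239)) (XT.nd (nat_lit 78) (nat_lit 76) (nat_lit 0) (XT.lf (nat_lit 0) (nat_lit 15738889561) (nat_lit 228) (nat_lit 38212787) (nat_lit 76) (nat_lit 14061045154) (nat_lit 38) (nat_lit 5) (nat_lit 41) (nat_lit 5) (nat_lit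 39) (nat_lit 4) (nat_lit 448) (nat_lit 334) (nat_lit 238)) (XT.lf (nat_lit 0) (nat_lit 13907564901) (nat_lit 76) (nat_lit 8729716311) (nat_lit 152) (nat_lit 7872921791) (nat_lit 37) (nat_lit 5) (nat_lit 38) (nat_lit 5) (nat_lit 39) (nat_lit 4) (nat_lit 449) (nat_lit 334) (nat_lit 237)))) (XT.nd (nat_lit 156) (nat_lit 76) (nat_lit 0) (XT.nd (nat_lit 78) (nat_lit 228) (nat_lit 0) (XT.lf (nat_lit 0) (nat_lit 28230492218) (nat_lit 76) (nat_lit 1490137075) (nat_lit 152) (nat_lit 1482452584) (nat_lit 37) (nat_lit 5) (nat_lit 38) (nat_lit 5) (nat_lit 39) (nat_lit 4) (nat_lit 450) (nat_lit 334) (nat_lit 236)) (XT.lf (nat_lit 0) (nat_lit 5144599755) (nat_lit 228) (nat_lit 20776866013) (nat_lit 76) (nat_lit 5989480941) (nat_lit 34) (nat_lit 5) (nat_lit 37) (nat_lit 5) (nat_lit 35) (nat_lit 4) (nat_lit 451) (nat_lit 334) (nat_lit 235))) (XT.nd (nat_lit 78) (nat_lit 76) (nat_lit 0) (XT.lf (nat_lit 0) (nat_lit 11963853045)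 (nat_lit 228) (nat_lit 6985276201) (nat_lit 76) (nat_lit 13689784040) (nat_lit 34) (nat_lit 5) (nat_lit 37) (nat_lit 5) (nat_lit 35) (nat_lit 4) (nat_lit 452) (nat_lit 334) (nat_lit 234)) (XT.lf (nat_lit 0) (nat_lit 7322872663) (nat_lit 76) (nat_lit 11713957425) (nat_lit 152) (nat_lit 14350416031) (nat_lit 33) (nat_lit 5) (nat_lit 34) (nat_lit 5) (nat_lit 35) (nat_lit 4) (nat_lit 453) (nat_lit 334) (nat_lit 233)))))) (XT.nd (nat_lit 546) (nat_lit 380) (nat_lit 0) (XT.nd (nat_lit 234) (nat_lit 152) (nat_lit 0) (XT.nd (nat_lit 78) (nat_lit 152) (nat_lit 0) (XT.lf (nat_lit 0) (nat_lit 22163766029) (nat_lit 76) (nat_lit 4207759500) (nat_lit 152) (nat_lit 7785019126) (nat_lit 33) (nat_lit 5) (nat_lit 34) (nat_lit 5) (nat_lit 35) (nat_lit 4) (nat_lit 454) (nat_lit 334) (nat_lit 232)) (XT.nd (nat_lit 78) (nat_lit 76) (nat_lit 0) (XT.lf (nat_lit 0) (nat_lit 2476442825) (nat_lit 76) (nat_lit 31486924359) (nat_lit 76)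 (nat_lit 984443351) (nat_lit 32) (nat_lit 4) (nat_lit 33) (nat_lit 5) (nat_lit 33) (nat_lit 4) (nat_lit 455) (nat_lit 334) (nat_lit 231)) (XT.lf (nat_lit 0) (nat_lit 6046092802) (nat_lit 152) (nat_lit 18273332113) (nat_lit 76) (nat_lit 11437352314) (nat_lit 31) (nat_lit 5) (nat_lit 33) (nat_lit 5) (nat_lit 32) (nat_lit 4) (nat_lit 456) (nat_lit 334) (nat_lit 230)))) (XT.nd (nat_lit 156) (nat_lit 76) (nat_lit 0) (XT.nd (nat_lit 78) (nat_lit 76) (nat_lit 0) (XT.lf (nat_lit 0) (nat_lit 13247811451) (nat_lit 152) (nat_lit 3696968978) (nat_lit 76) (nat_lit 19645539919) (nat_lit 31) (nat_lit 5) (nat_lit 33) (nat_lit 5) (nat_lit 32) (nat_lit 4) (nat_lit 457) (nat_lit 334) (nat_lit 229)) (XT.lf (nat_lit 0) (nat_lit 11504413946) (nat_lit 76) (nat_lit 9252388912) (nat_lit 152) (nat_lit 16689331640) (nat_lit 30) (nat_lit 5) (nat_lit 31) (nat_lit 5) (nat_lit 32) (nat_lit 4) (nat_lit 458) (nat_lit 334) (nat_lit 228))) (XT.nd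 (nat_lit 78) (nat_lit 76) (nat_lit 0) (XT.lf (nat_lit 0) (nat_lit 27201219371) (nat_lit 76) (nat_lit 1308024647) (nat_lit 152) (nat_lit 9817834989) (nat_lit 30) (nat_lit 5) (nat_lit 31) (nat_lit 5) (nat_lit 32) (nat_lit 4) (nat_lit 459) (nat_lit 334) (nat_lit 227)) (XT.lf (nat_lit 0) (nat_lit 4112910192) (nat_lit 76) (nat_lit 32468212270) (nat_lit 76) (nat_lit 2650724763) (nat_lit 29) (nat_lit 4) (nat_lit 30) (nat_lit 5) (nat_lit 30) (nat_lit 4) (nat_lit 460) (nat_lit 334) (nat_lit 226))))) (XT.nd (nat_lit 312) (nat_lit 228) (nat_lit 0) (XT.nd (nat_lit 156) (nat_lit 76) (nat_lit 0) (XT.nd (nat_lit 78) (nat_lit 0) (nat_lit 0) (XT.lf (nat_lit 0) (nat_lit 4746750501) (nat_lit 152) (nat_lit 20218784615) (nat_lit 76) (nat_lit 15193629810) (nat_lit 28) (nat_lit 5) (nat_lit 30) (nat_lit 5) (nat_lit 29) (nat_lit 4) (nat_lit 461) (nat_lit 334) (nat_lit 225)) (XT.lf (nat_lit 0) (nat_lit 12294684623) (nat_lit 152) (nat_lit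 4932595462) (nat_lit 76) (nat_lit 23886781568) (nat_lit 28) (nat_lit 5) (nat_lit 30) (nat_lit 5) (nat_lit 29) (nat_lit 4) (nat_lit 462) (nat_lit 334) (nat_lit 224))) (XT.nd (nat_lit 78) (nat_lit 0) (nat_lit 0) (XT.lf (nat_lit 0) (nat_lit 10992980317) (nat_lit 76) (nat_lit 9164089004) (nat_lit 152) (nat_lit 21937896735) (nat_lit 27) (nat_lit 5) (nat_lit 28) (nat_lit 5) (nat_lit 29) (nat_lit 4) (nat_lit 463) (nat_lit 334) (nat_lit 223)) (XT.lf (nat_lit 0) (nat_lit 27464055561) (nat_lit 76) (nat_lit 823614296) (nat_lit 152) (nat_lit 14816658522) (nat_lit 27) (nat_lit 5) (nat_lit 28) (nat_lit 5) (nat_lit 29) (nat_lit 4) (nat_lit 464) (nat_lit 334) (nat_lit 222)))) (XT.nd (nat_lit 156) (nat_lit 76) (nat_lit 0) (XT.nd (nat_lit 78) (nat_lit 76) (nat_lit 0) (XT.lf (nat_lit 0) (nat_lit 181399210) (nat_lit 76) (nat_lit 36540089704) (nat_lit 76) (nat_lit 7420704728) (nat_lit 26) (nat_lit 4) (nat_lit 27) (nat_lit 5) (nat_lit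 27) (nat_lit 4) (nat_lit 465) (nat_lit 334) (nat_lit 221)) (XT.lf (nat_lit 0) (nat_lit 343848072) (nat_lit 152) (nat_lit 28452528327) (nat_lit 76) (nat_lit 16410245625) (nat_lit 25) (nat_lit 5) (nat_lit 27) (nat_lit 5) (nat_lit 26) (nat_lit 4) (nat_lit 466) (nat_lit 334) (nat_lit 220))) (XT.nd (nat_lit 78) (nat_lit 76) (nat_lit 0) (XT.lf (nat_lit 0) (nat_lit 8175598983) (nat_lit 152) (nat_lit 12584321491) (nat_lit 76) (nat_lit 25541357297) (nat_lit 25) (nat_lit 5) (nat_lit 27) (nat_lit 5) (nat_lit 26) (nat_lit 4) (nat_lit 467) (nat_lit 334) (nat_lit 219)) (XT.lf (nat_lit 0) (nat_lit 3803238739) (nat_lit 76) (nat_lit 12459516278) (nat_lit 152) (nat_lit 31165405560) (nat_lit 24) (nat_lit 5) (nat_lit 25) (nat_lit 5) (nat_lit 26) (nat_lit 4) (nat_lit 468) (nat_lit 334) (nat_lit 218))))))) (XT.nd (nat_lit 1092) (nat_lit 228) (nat_lit 0) (XT.nd (nat_lit 546) (nat_lit 228) (nat_lit 0) (XT.nd (nat_lit 234) (nat_lit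 152) (nat_lit 0) (XT.nd (nat_lit 78) (nat_lit 76) (nat_lit 0) (XT.lf (nat_lit 0) (nat_lit 20909787350) (nat_lit 76) (nat_lit 3793883822) (nat_lit 152) (nat_lit 23881845267) (nat_lit 24) (nat_lit 5) (nat_lit 25) (nat_lit 5) (nat_lit 26) (nat_lit 4) (nat_lit 469) (nat_lit 334) (nat_lit 217)) (XT.nd (nat_lit 78) (nat_lit 76) (nat_lit 0) (XT.lf (nat_lit 0) (nat_lit 33431539574) (nat_lit 152) (nat_lit 11327431042) (nat_lit 0) (nat_lit 5017611525) (nat_lit 24) (nat_lit 5) (nat_lit 26) (nat_lit 4) (nat_lit 24) (nat_lit 4) (nat_lit 470) (nat_lit 334) (nat_lit 216)) (XT.lf (nat_lit 0) (nat_lit 5552944397) (nat_lit 76) (nat_lit 36944091187) (nat_lit 76) (nat_lit 8504071367) (nat_lit 23) (nat_lit 4) (nat_lit 24) (nat_lit 5) (nat_lit 24) (nat_lit 4) (nat_lit 471) (nat_lit 334) (nat_lit 215)))) (XT.nd (nat_lit 156) (nat_lit 76) (nat_lit 0) (XT.nd (nat_lit 78) (nat_lit 76) (nat_lit 0) (XT.lf (nat_lit 0) (nat_lit 23143051989)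 (nat_lit 76) (nat_lit 28790843027) (nat_lit 76) (nat_lit 325491389) (nat_lit 23) (nat_lit 4) (nat_lit 24) (nat_lit 5) (nat_lit 24) (nat_lit 4) (nat_lit 472) (nat_lit 334) (nat_lit 214)) (XT.lf (nat_lit 0) (nat_lit 7925721455) (nat_lit 152) (nat_lit 12400731080) (nat_lit 76) (nat_lit 33227067939) (nat_lit 22) (nat_lit 5) (nat_lit 24) (nat_lit 5) (nat_lit 23) (nat_lit 4) (nat_lit 473) (nat_lit 334) (nat_lit 213))) (XT.nd (nat_lit 78) (nat_lit 0) (nat_lit 0) (XT.lf (nat_lit 0) (nat_lit 4880853489) (nat_lit 76) (nat_lit 11569726210) (nat_lit 152) (nat_lit 38434823436) (nat_lit 21) (nat_lit 5) (nat_lit 22) (nat_lit 5) (nat_lit 23) (nat_lit 4) (nat_lit 474) (nat_lit 334) (nat_lit 212)) (XT.lf (nat_lit 0) (nat_lit 22907850892) (nat_lit 76) (nat_lit 2434442897) (nat_lit 152) (nat_lit 30911615944) (nat_lit 21) (nat_lit 5) (nat_lit 22) (nat_lit 5) (nat_lit 23) (nat_lit 4) (nat_lit 475) (nat_lit 334) (nat_lit 211)))))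 (XT.nd (nat_lit 234) (nat_lit 152) (nat_lit 0) (XT.nd (nat_lit 78) (nat_lit 76) (nat_lit 0) (XT.lf (nat_lit 0) (nat_lit 34553981899) (nat_lit 152) (nat_lit 16281593825) (nat_lit 0) (nat_lit 6826299867) (nat_lit 21) (nat_lit 5) (nat_lit 23) (nat_lit 4) (nat_lit 21) (nat_lit 4) (nat_lit 476) (nat_lit 334) (nat_lit 210)) (XT.nd (nat_lit 78) (nat_lit 0) (nat_lit 0) (XT.lf (nat_lit 0) (nat_lit 1269519780) (nat_lit 76) (nat_lit 42795385920) (nat_lit 76) (nat_lit 15046488890) (nat_lit 20) (nat_lit 4) (nat_lit 21) (nat_lit 5) (nat_lit 21) (nat_lit 4) (nat_lit 477) (nat_lit 334) (nat_lit 209)) (XT.lf (nat_lit 0) (nat_lit 19655223094) (nat_lit 76) (nat_lit 34357068423) (nat_lit 76) (nat_lit 6587574308) (nat_lit 20) (nat_lit 4) (nat_lit 21) (nat_lit 5) (nat_lit 21) (nat_lit 4) (nat_lit 478) (nat_lit 334) (nat_lit 208)))) (XT.nd (nat_lit 156) (nat_lit 76) (nat_lit 0) (XT.nd (nat_lit 78) (nat_lit 0) (nat_lit 0) (XT.lf (nat_lit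 0) (nat_lit 2070619770) (nat_lit 152) (nat_lit 23586133150) (nat_lit 76) (nat_lit 36476016682) (nat_lit 19) (nat_lit 5) (nat_lit 21) (nat_lit 5) (nat_lit 20) (nat_lit 4) (nat_lit 479) (nat_lit 334) (nat_lit 207)) (XT.lf (nat_lit 0) (nat_lit 10843515723) (nat_lit 152) (nat_lit 5796569093) (nat_lit 76) (nat_lit 47069998814) (nat_lit 19) (nat_lit 5) (nat_lit 21) (nat_lit 5) (nat_lit 20) (nat_lit 4) (nat_lit 480) (nat_lit 334) (nat_lit 206))) (XT.nd (nat_lit 78) (nat_lit 0) (nat_lit 0) (XT.lf (nat_lit 0) (nat_lit 12751750085) (nat_lit 76) (nat_lit 7238154027) (nat_lit 152) (nat_lit 45341504420) (nat_lit 18) (nat_lit 5) (nat_lit 19) (nat_lit 5) (nat_lit 20) (nat_lit 4) (nat_lit 481) (nat_lit 334) (nat_lit 205)) (XT.lf (nat_lit 0) (nat_lit 29481058221) (nat_lit 152) (nat_lit 35072151464) (nat_lit 0) (nat_lit 2446052874) (nat_lit 18) (nat_lit 5) (nat_lit 20) (nat_lit 4) (nat_lit 18) (nat_lit 4) (nat_lit 482) (nat_lit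 334) (nat_lit 204)))))) (XT.nd (nat_lit 546) (nat_lit 0) (nat_lit 0) (XT.nd (nat_lit 234) (nat_lit 152) (nat_lit 0) (XT.nd (nat_lit 78) (nat_lit 76) (nat_lit 0) (XT.lf (nat_lit 0) (nat_lit 39316718332) (nat_lit 152) (nat_lit 17134178066) (nat_lit 0) (nat_lit 12264463251) (nat_lit 18) (nat_lit 5) (nat_lit 20) (nat_lit 4) (nat_lit 18) (nat_lit 4) (nat_lit 483) (nat_lit 334) (nat_lit 203)) (XT.nd (nat_lit 78) (nat_lit 0) (nat_lit 0) (XT.lf (nat_lit 0) (nat_lit 1345774168) (nat_lit 76) (nat_lit 48103063383) (nat_lit 76) (nat_lit 21034060987) (nat_lit 17) (nat_lit 4) (nat_lit 18) (nat_lit 5) (nat_lit 18) (nat_lit 4) (nat_lit 484) (nat_lit 334) (nat_lit 202)) (XT.lf (nat_lit 0) (nat_lit 20709157372) (nat_lit 76) (nat_lit 39337360387) (nat_lit 76) (nat_lit 12252098462) (nat_lit 17) (nat_lit 4) (nat_lit 18) (nat_lit 5) (nat_lit 18) (nat_lit 4) (nat_lit 485) (nat_lit 334) (nat_lit 201)))) (XT.nd (nat_lit 156) (nat_lit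 76) (nat_lit 0) (XT.nd (nat_lit 78) (nat_lit 76) (nat_lit 0) (XT.lf (nat_lit 0) (nat_lit 40631887267) (nat_lit 76) (nat_lit 30319149661) (nat_lit 76) (nat_lit 3218101784) (nat_lit 17) (nat_lit 4) (nat_lit 18) (nat_lit 5) (nat_lit 18) (nat_lit 4) (nat_lit 486) (nat_lit 334) (nat_lit 200)) (XT.lf (nat_lit 0) (nat_lit 5957261641) (nat_lit 152) (nat_lit 15023132910) (nat_lit 76) (nat_lit 55113953760) (nat_lit 16) (nat_lit 5) (nat_lit 18) (nat_lit 5) (nat_lit 17) (nat_lit 4) (nat_lit 487) (nat_lit 334) (nat_lit 199))) (XT.nd (nat_lit 78) (nat_lit 0) (nat_lit 0) (XT.lf (nat_lit 0) (nat_lit 4073507489) (nat_lit 76) (nat_lit 11298296108) (nat_lit 152) (nat_lit 62703697268) (nat_lit 15) (nat_lit 5) (nat_lit 16) (nat_lit 5) (nat_lit 17) (nat_lit 4) (nat_lit 488) (nat_lit 334) (nat_lit 198)) (XT.lf (nat_lit 0) (nat_lit 24030679753) (nat_lit 76) (nat_lit 1179359630) (nat_lit 152) (nat_lit 54901811361) (nat_lit 15) (nat_lit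 5) (nat_lit 16) (nat_lit 5) (nat_lit 17) (nat_lit 4) (nat_lit 489) (nat_lit 334) (nat_lit 197))))) (XT.nd (nat_lit 42432) (nat_lit 0) (nat_lit 24624) (XT.nd (nat_lit 42276) (nat_lit 0) (nat_lit 26600) (XT.nd (nat_lit 42198) (nat_lit 0) (nat_lit 27132) (XT.lf (nat_lit 0) (nat_lit 35422038454) (nat_lit 152) (nat_lit 37731522019) (nat_lit 0) (nat_lit 9053372620) (nat_lit 15) (nat_lit 5) (nat_lit 17) (nat_lit 4) (nat_lit 15) (nat_lit 4) (nat_lit 490) (nat_lit 334) (nat_lit 196)) (XT.lf (nat_lit 0) (nat_lit 1286102465) (nat_lit 380) (nat_lit 994379175) (nat_lit 380) (nat_lit 994379175) (nat_lit 372) (nat_lit 4) (nat_lit 377) (nat_lit 5) (nat_lit 377) (nat_lit 4) (nat_lit 350) (nat_lit 335) (nat_lit 335))) (XT.nd (nat_lit 78) (nat_lit 456) (nat_lit 0) (XT.lf (nat_lit 0) (nat_lit 1170513291) (nat_lit 456) (nat_lit 98065792) (nat_lit 76) (nat_lit 5304550368) (nat_lit 371) (nat_lit 5) (nat_lit 377) (nat_lit 5) (nat_lit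 372) (nat_lit 4) (nat_lit 351) (nat_lit 335) (nat_lit 334)) (XT.lf (nat_lit 0) (nat_lit 3877326865) (nat_lit 456) (nat_lit 434829839) (nat_lit 532) (nat_lit 2286743935) (nat_lit 365) (nat_lit 5) (nat_lit 371) (nat_lit 5) (nat_lit 372) (nat_lit 4) (nat_lit 352) (nat_lit 335) (nat_lit 333)))) (XT.nd (nat_lit 156) (nat_lit 1368) (nat_lit 0) (XT.nd (nat_lit 78) (nat_lit 0) (nat_lit 0) (XT.lf (nat_lit 0) (nat_lit 814185764) (nat_lit 608) (nat_lit 5345775104) (nat_lit 76) (nat_lit 468004795) (nat_lit 357) (nat_lit 5) (nat_lit 365) (nat_lit 5) (nat_lit 358) (nat_lit 4) (nat_lit 353) (nat_lit 335) (nat_lit 332)) (XT.lf (nat_lit 0) (nat_lit 3888559866) (nat_lit 608) (nat_lit 1303097238) (nat_lit 76) (nat_lit 1467847103) (nat_lit 357) (nat_lit 5) (nat_lit 365) (nat_lit 5) (nat_lit 358) (nat_lit 4) (nat_lit 354) (nat_lit 335) (nat_lit 331))) (XT.nd (nat_lit 78) (nat_lit 684) (nat_lit 0) (XT.lf (nat_lit 0) (nat_lit 279950887)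 (nat_lit 684) (nat_lit 3859132926) (nat_lit 76) (nat_lit 2555152514) (nat_lit 348) (nat_lit 5) (nat_lit 357) (nat_lit 5) (nat_lit 349) (nat_lit 5) (nat_lit 355) (nat_lit 335) (nat_lit 330)) (XT.lf (nat_lit 0) (nat_lit 293074581) (nat_lit 684) (nat_lit 2988290143) (nat_lit 760) (nat_lit 3450448097) (nat_lit 339) (nat_lit 5) (nat_lit 348) (nat_lit 5) (nat_lit 349) (nat_lit 5) (nat_lit 356) (nat_lit 335) (nat_lit 329))))))))
noncomputable def xc88 : XT := (XT.nd (nat_lit 2184) (nat_lit 6080) (nat_lit 0) (XT.nd (nat_lit 1092) (nat_lit 4788) (nat_lit 0) (XT.nd (nat_lit 546) (nat_lit 4864) (nat_lit 0) (XT.nd (nat_lit 234) (nat_lit 2888) (nat_lit 0) (XT.nd (nat_lit 78) (nat_lit 836) (nat_lit 0) (XT.lf (nat_lit 0) (nat_lit 4570111788) (nat_lit 684) (nat_lit 1742453740) (nat_lit 760) (nat_lit 459822838) (nat_lit 339) (nat_lit 5) (nat_lit 348) (nat_lit 5) (nat_lit 349) (nat_lit 5) (nat_lit 357) (nat_lit 335) (nat_lit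 328)) (XT.nd (nat_lit 78) (nat_lit 0) (nat_lit 0) (XT.lf (nat_lit 0) (nat_lit 2098491632) (nat_lit 760) (nat_lit 393715827) (nat_lit 836) (nat_lit 4323593764) (nat_lit 328) (nat_lit 5) (nat_lit 338) (nat_lit 5) (nat_lit 339) (nat_lit 5) (nat_lit 358) (nat_lit 335) (nat_lit 327)) (XT.lf (nat_lit 0) (nat_lit 5460490737) (nat_lit 836) (nat_lit 381624913) (nat_lit 76) (nat_lit 1020214869) (nat_lit 328) (nat_lit 5) (nat_lit 339) (nat_lit 5) (nat_lit 329) (nat_lit 5) (nat_lit 359) (nat_lit 335) (nat_lit 326)))) (XT.nd (nat_lit 156) (nat_lit 1064) (nat_lit 0) (XT.nd (nat_lit 78) (nat_lit 912) (nat_lit 0) (XT.lf (nat_lit 0) (nat_lit 1526461008) (nat_lit 912) (nat_lit 2845385157) (nat_lit 76) (nat_lit 2539493317) (nat_lit 316) (nat_lit 5) (nat_lit 328) (nat_lit 5) (nat_lit 317) (nat_lit 5) (nat_lit 360) (nat_lit 335) (nat_lit 325)) (XT.lf (nat_lit 0) (nat_lit 1631389877) (nat_lit 912) (nat_lit 2811287533) (nat_lit 988)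 (nat_lit 2520931325) (nat_lit 304) (nat_lit 5) (nat_lit 316) (nat_lit 5) (nat_lit 317) (nat_lit 5) (nat_lit 361) (nat_lit 335) (nat_lit 324))) (XT.nd (nat_lit 78) (nat_lit 988) (nat_lit 0) (XT.lf (nat_lit 0) (nat_lit 359215800) (nat_lit 988) (nat_lit 800871991) (nat_lit 76) (nat_lit 5859125626) (nat_lit 303) (nat_lit 5) (nat_lit 316) (nat_lit 5) (nat_lit 304) (nat_lit 5) (nat_lit 362) (nat_lit 335) (nat_lit 323)) (XT.lf (nat_lit 0) (nat_lit 3230158749) (nat_lit 1064) (nat_lit 3245188663) (nat_lit 76) (nat_lit 601787367) (nat_lit 290) (nat_lit 5) (nat_lit 304) (nat_lit 5) (nat_lit 291) (nat_lit 5) (nat_lit 363) (nat_lit 335) (nat_lit 322))))) (XT.nd (nat_lit 234) (nat_lit 2584) (nat_lit 0) (XT.nd (nat_lit 78) (nat_lit 1216) (nat_lit 0) (XT.lf (nat_lit 0) (nat_lit 1419483698) (nat_lit 1064) (nat_lit 4715201117) (nat_lit 1140) (nat_lit 1003733013) (nat_lit 276) (nat_lit 5) (nat_lit 290) (nat_lit 5) (nat_lit 291)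 (nat_lit 5) (nat_lit 364) (nat_lit 335) (nat_lit 321)) (XT.nd (nat_lit 78) (nat_lit 1140) (nat_lit 0) (XT.lf (nat_lit 0) (nat_lit 1835356596) (nat_lit 1140) (nat_lit 1009977298) (nat_lit 76) (nat_lit 4357252078) (nat_lit 275) (nat_lit 5) (nat_lit 290) (nat_lit 5) (nat_lit 276) (nat_lit 5) (nat_lit 365) (nat_lit 335) (nat_lit 320)) (XT.lf (nat_lit 0) (nat_lit 3826123617) (nat_lit 1140) (nat_lit 867590304) (nat_lit 1216) (nat_lit 2576082671) (nat_lit 260) (nat_lit 5) (nat_lit 275) (nat_lit 5) (nat_lit 276) (nat_lit 5) (nat_lit 366) (nat_lit 335) (nat_lit 319)))) (XT.nd (nat_lit 156) (nat_lit 1292) (nat_lit 0) (XT.nd (nat_lit 78) (nat_lit 0) (nat_lit 0) (XT.lf (nat_lit 0) (nat_lit 246885737) (nat_lit 1292) (nat_lit 5917662596) (nat_lit 76) (nat_lit 1175812631) (nat_lit 243) (nat_lit 5) (nat_lit 260) (nat_lit 5) (nat_lit 244) (nat_lit 5) (nat_lit 367) (nat_lit 335) (nat_lit 318)) (XT.lf (nat_lit 0) (nat_lit 3066407074)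 (nat_lit 1292) (nat_lit 1022199822) (nat_lit 76) (nat_lit 3324800918) (nat_lit 243) (nat_lit 5) (nat_lit 260) (nat_lit 5) (nat_lit 244) (nat_lit 5) (nat_lit 368) (nat_lit 335) (nat_lit 317))) (XT.nd (nat_lit 78) (nat_lit 684) (nat_lit 0) (XT.lf (nat_lit 0) (nat_lit 4019519926) (nat_lit 608) (nat_lit 1911896229) (nat_lit 684) (nat_lit 1558441630) (nat_lit 235) (nat_lit 5) (nat_lit 243) (nat_lit 5) (nat_lit 244) (nat_lit 5) (nat_lit 369) (nat_lit 335) (nat_lit 316)) (XT.lf (nat_lit 0) (nat_lit 1240490983) (nat_lit 684) (nat_lit 5969437507) (nat_lit 76) (nat_lit 359759854) (nat_lit 226) (nat_lit 5) (nat_lit 235) (nat_lit 5) (nat_lit 227) (nat_lit 5) (nat_lit 370) (nat_lit 335) (nat_lit 315)))))) (XT.nd (nat_lit 546) (nat_lit 2508) (nat_lit 0) (XT.nd (nat_lit 234) (nat_lit 1064) (nat_lit 0) (XT.nd (nat_lit 78) (nat_lit 1216) (nat_lit 0) (XT.lf (nat_lit 0) (nat_lit 4070822308) (nat_lit 684) (nat_lit 872795052) (nat_lit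 76) (nat_lit 2708506428) (nat_lit 226) (nat_lit 5) (nat_lit 235) (nat_lit 5) (nat_lit 227) (nat_lit 5) (nat_lit 371) (nat_lit 335) (nat_lit 314)) (XT.nd (nat_lit 78) (nat_lit 608) (nat_lit 0) (XT.lf (nat_lit 0) (nat_lit 4383328276) (nat_lit 608) (nat_lit 2571505119) (nat_lit 684) (nat_lit 783170255) (nat_lit 218) (nat_lit 5) (nat_lit 226) (nat_lit 5) (nat_lit 227) (nat_lit 5) (nat_lit 372) (nat_lit 335) (nat_lit 313)) (XT.lf (nat_lit 0) (nat_lit 1926502288) (nat_lit 532) (nat_lit 86139394) (nat_lit 608) (nat_lit 5814604604) (nat_lit 210) (nat_lit 5) (nat_lit 217) (nat_lit 5) (nat_lit 218) (nat_lit 5) (nat_lit 373) (nat_lit 335) (nat_lit 312)))) (XT.nd (nat_lit 156) (nat_lit 532) (nat_lit 0) (XT.nd (nat_lit 78) (nat_lit 532) (nat_lit 0) (XT.lf (nat_lit 0) (nat_lit 4863139897) (nat_lit 608) (nat_lit 596114259) (nat_lit 76) (nat_lit 2460114364) (nat_lit 210) (nat_lit 5) (nat_lit 218) (nat_lit 5) (nat_lit 211) (nat_lit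 5) (nat_lit 374) (nat_lit 335) (nat_lit 311)) (XT.lf (nat_lit 0) (nat_lit 4883476256) (nat_lit 532) (nat_lit 2894115596) (nat_lit 608) (nat_lit 237340015) (nat_lit 203) (nat_lit 5) (nat_lit 210) (nat_lit 5) (nat_lit 211) (nat_lit 5) (nat_lit 375) (nat_lit 335) (nat_lit 310))) (XT.nd (nat_lit 78) (nat_lit 0) (nat_lit 0) (XT.lf (nat_lit 0) (nat_lit 2367761787) (nat_lit 456) (nat_lit 206379011) (nat_lit 532) (nat_lit 5539679787) (nat_lit 196) (nat_lit 5) (nat_lit 202) (nat_lit 5) (nat_lit 203) (nat_lit 5) (nat_lit 376) (nat_lit 335) (nat_lit 309)) (XT.lf (nat_lit 0) (nat_lit 5454113476) (nat_lit 532) (nat_lit 226288994) (nat_lit 76) (nat_lit 2535563479) (nat_lit 196) (nat_lit 5) (nat_lit 203) (nat_lit 5) (nat_lit 197) (nat_lit 5) (nat_lit 377) (nat_lit 335) (nat_lit 308))))) (XT.nd (nat_lit 234) (nat_lit 988) (nat_lit 0) (XT.nd (nat_lit 78) (nat_lit 912) (nat_lit 0) (XT.lf (nat_lit 0) (nat_lit 86341325) (nat_lit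 608) (nat_lit 2836370413) (nat_lit 76) (nat_lit 5398792615) (nat_lit 188) (nat_lit 5) (nat_lit 196) (nat_lit 5) (nat_lit 189) (nat_lit 5) (nat_lit 378) (nat_lit 335) (nat_lit 307)) (XT.nd (nat_lit 78) (nat_lit 456) (nat_lit 0) (XT.lf (nat_lit 0) (nat_lit 2892846432) (nat_lit 456) (nat_lit 36570548) (nat_lit 532) (nat_lit 5501048817) (nat_lit 182) (nat_lit 5) (nat_lit 188) (nat_lit 5) (nat_lit 189) (nat_lit 5) (nat_lit 379) (nat_lit 335) (nat_lit 306)) (XT.lf (nat_lit 0) (nat_lit 206084403) (nat_lit 456) (nat_lit 5646678612) (nat_lit 532) (nat_lit 2690108615) (nat_lit 176) (nat_lit 5) (nat_lit 182) (nat_lit 5) (nat_lit 183) (nat_lit 5) (nat_lit 380) (nat_lit 335) (nat_lit 305)))) (XT.nd (nat_lit 156) (nat_lit 532) (nat_lit 0) (XT.nd (nat_lit 78) (nat_lit 380) (nat_lit 0) (XT.lf (nat_lit 0) (nat_lit 194301110) (nat_lit 532) (nat_lit 2504429873) (nat_lit 76) (nat_lit 5960088610) (nat_lit 175) (nat_lit 5) (nat_lit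 182) (nat_lit 5) (nat_lit 176) (nat_lit 5) (nat_lit 381) (nat_lit 335) (nat_lit 304)) (XT.lf (nat_lit 0) (nat_lit 3086342727) (nat_lit 456) (nat_lit 5315961594) (nat_lit 76) (nat_lit 375910364) (nat_lit 170) (nat_lit 5) (nat_lit 176) (nat_lit 5) (nat_lit 171) (nat_lit 5) (nat_lit 382) (nat_lit 335) (nat_lit 303))) (XT.nd (nat_lit 78) (nat_lit 76) (nat_lit 0) (XT.lf (nat_lit 0) (nat_lit 666094510) (nat_lit 456) (nat_lit 5396782490) (nat_lit 532) (nat_lit 2838404802) (nat_lit 164) (nat_lit 5) (nat_lit 170) (nat_lit 5) (nat_lit 171) (nat_lit 5) (nat_lit 383) (nat_lit 335) (nat_lit 302)) (XT.lf (nat_lit 0) (nat_lit 92393171) (nat_lit 532) (nat_lit 2170573256) (nat_lit 76) (nat_lit 6765255584) (nat_lit 163) (nat_lit 5) (nat_lit 170) (nat_lit 5) (nat_lit 164) (nat_lit 5) (nat_lit 384) (nat_lit 335) (nat_lit 301))))))) (XT.nd (nat_lit 1092) (nat_lit 2356) (nat_lit 0) (XT.nd (nat_lit 546) (nat_lit 1748) (nat_lit 0)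 (XT.nd (nat_lit 234) (nat_lit 1216) (nat_lit 0) (XT.nd (nat_lit 78) (nat_lit 380) (nat_lit 0) (XT.lf (nat_lit 0) (nat_lit 3044002515) (nat_lit 456) (nat_lit 5118520667) (nat_lit 76) (nat_lit 995926295) (nat_lit 158) (nat_lit 5) (nat_lit 164) (nat_lit 5) (nat_lit 159) (nat_lit 5) (nat_lit 385) (nat_lit 335) (nat_lit 300)) (XT.nd (nat_lit 78) (nat_lit 0) (nat_lit 0) (XT.lf (nat_lit 0) (nat_lit 1110621523) (nat_lit 380) (nat_lit 4970799886) (nat_lit 456) (nat_lit 3211264167) (nat_lit 153) (nat_lit 5) (nat_lit 158) (nat_lit 5) (nat_lit 159) (nat_lit 5) (nat_lit 386) (nat_lit 335) (nat_lit 299)) (XT.lf (nat_lit 0) (nat_lit 7554582385) (nat_lit 380) (nat_lit 1650059702) (nat_lit 456) (nat_lit 226485370) (nat_lit 153) (nat_lit 5) (nat_lit 158) (nat_lit 5) (nat_lit 159) (nat_lit 5) (nat_lit 387) (nat_lit 335) (nat_lit 298)))) (XT.nd (nat_lit 156) (nat_lit 380) (nat_lit 0) (XT.nd (nat_lit 78) (nat_lit 380) (nat_lit 0)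 (XT.lf (nat_lit 0) (nat_lit 2798150084) (nat_lit 456) (nat_lit 4986052798) (nat_lit 76) (nat_lit 1788539893) (nat_lit 147) (nat_lit 5) (nat_lit 153) (nat_lit 5) (nat_lit 148) (nat_lit 5) (nat_lit 388) (nat_lit 335) (nat_lit 297)) (XT.lf (nat_lit 0) (nat_lit 1498118407) (nat_lit 380) (nat_lit 4405528640) (nat_lit 456) (nat_lit 3815069451) (nat_lit 142) (nat_lit 5) (nat_lit 147) (nat_lit 5) (nat_lit 148) (nat_lit 5) (nat_lit 389) (nat_lit 335) (nat_lit 296))) (XT.nd (nat_lit 78) (nat_lit 380) (nat_lit 0) (XT.lf (nat_lit 0) (nat_lit 8203175569) (nat_lit 380) (nat_lit 895160868) (nat_lit 456) (nat_lit 770869119) (nat_lit 142) (nat_lit 5) (nat_lit 147) (nat_lit 5) (nat_lit 148) (nat_lit 5) (nat_lit 390) (nat_lit 335) (nat_lit 295)) (XT.lf (nat_lit 0) (nat_lit 2340790005) (nat_lit 380) (nat_lit 4963334420) (nat_lit 76) (nat_lit 2718750648) (nat_lit 137) (nat_lit 5) (nat_lit 142) (nat_lit 5) (nat_lit 138) (nat_lit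 5) (nat_lit 391) (nat_lit 335) (nat_lit 294))))) (XT.nd (nat_lit 234) (nat_lit 988) (nat_lit 0) (XT.nd (nat_lit 78) (nat_lit 380) (nat_lit 0) (XT.lf (nat_lit 0) (nat_lit 1783149660) (nat_lit 380) (nat_lit 3737504995) (nat_lit 456) (nat_lit 4660576075) (nat_lit 132) (nat_lit 5) (nat_lit 137) (nat_lit 5) (nat_lit 138) (nat_lit 5) (nat_lit 392) (nat_lit 335) (nat_lit 293)) (XT.nd (nat_lit 78) (nat_lit 380) (nat_lit 0) (XT.lf (nat_lit 0) (nat_lit 8759146095) (nat_lit 380) (nat_lit 35060628) (nat_lit 456) (nat_lit 1550196649) (nat_lit 132) (nat_lit 5) (nat_lit 137) (nat_lit 5) (nat_lit 138) (nat_lit 5) (nat_lit 393) (nat_lit 335) (nat_lit 292)) (XT.lf (nat_lit 0) (nat_lit 1659554430) (nat_lit 380) (nat_lit 5099834572) (nat_lit 76) (nat_lit 3751469774) (nat_lit 127) (nat_lit 5) (nat_lit 132) (nat_lit 5) (nat_lit 128) (nat_lit 5) (nat_lit 394) (nat_lit 335) (nat_lit 291)))) (XT.nd (nat_lit 156) (nat_lit 684) (nat_lit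 0) (XT.nd (nat_lit 78) (nat_lit 0) (nat_lit 0) (XT.lf (nat_lit 0) (nat_lit 1915329028) (nat_lit 304) (nat_lit 3003767950) (nat_lit 380) (nat_lit 5763224501) (nat_lit 123) (nat_lit 5) (nat_lit 127) (nat_lit 5) (nat_lit 128) (nat_lit 5) (nat_lit 395) (nat_lit 335) (nat_lit 290)) (XT.lf (nat_lit 0) (nat_lit 8287006038) (nat_lit 380) (nat_lit 1695312408) (nat_lit 76) (nat_lit 876305589) (nat_lit 123) (nat_lit 5) (nat_lit 128) (nat_lit 5) (nat_lit 124) (nat_lit 5) (nat_lit 396) (nat_lit 335) (nat_lit 289))) (XT.nd (nat_lit 78) (nat_lit 304) (nat_lit 0) (XT.lf (nat_lit 0) (nat_lit 737344698) (nat_lit 380) (nat_lit 5450858928) (nat_lit 76) (nat_lit 4850751012) (nat_lit 118) (nat_lit 5) (nat_lit 123) (nat_lit 5) (nat_lit 119) (nat_lit 5) (nat_lit 397) (nat_lit 335) (nat_lit 288)) (XT.lf (nat_lit 0) (nat_lit 1838130138) (nat_lit 304) (nat_lit 2242661362) (nat_lit 380) (nat_lit 7143544990) (nat_lit 114) (nat_lit 5) (nat_lit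 118) (nat_lit 5) (nat_lit 119) (nat_lit 5) (nat_lit 398) (nat_lit 335) (nat_lit 287)))))) (XT.nd (nat_lit 546) (nat_lit 1216) (nat_lit 0) (XT.nd (nat_lit 234) (nat_lit 532) (nat_lit 0) (XT.nd (nat_lit 78) (nat_lit 608) (nat_lit 0) (XT.lf (nat_lit 0) (nat_lit 7550051907) (nat_lit 380) (nat_lit 2047321408) (nat_lit 76) (nat_lit 1817153062) (nat_lit 114) (nat_lit 5) (nat_lit 119) (nat_lit 5) (nat_lit 115) (nat_lit 5) (nat_lit 399) (nat_lit 335) (nat_lit 286)) (XT.nd (nat_lit 78) (nat_lit 380) (nat_lit 0) (XT.lf (nat_lit 0) (nat_lit 5526328043) (nat_lit 228) (nat_lit 5626190353) (nat_lit 304) (nat_lit 457041259) (nat_lit 111) (nat_lit 5) (nat_lit 114) (nat_lit 5) (nat_lit 115) (nat_lit 5) (nat_lit 400) (nat_lit 335) (nat_lit 285)) (XT.lf (nat_lit 0) (nat_lit 1487544608) (nat_lit 304) (nat_lit 1494689571) (nat_lit 380) (nat_lit 8827664721) (nat_lit 106) (nat_lit 5) (nat_lit 110) (nat_lit 5) (nat_lit 111) (nat_lit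 5) (nat_lit 401) (nat_lit 335) (nat_lit 284)))) (XT.nd (nat_lit 156) (nat_lit 304) (nat_lit 0) (XT.nd (nat_lit 78) (nat_lit 228) (nat_lit 0) (XT.lf (nat_lit 0) (nat_lit 6558504347) (nat_lit 380) (nat_lit 2707627478) (nat_lit 76) (nat_lit 2748701227) (nat_lit 106) (nat_lit 5) (nat_lit 111) (nat_lit 5) (nat_lit 107) (nat_lit 5) (nat_lit 402) (nat_lit 335) (nat_lit 283)) (XT.lf (nat_lit 0) (nat_lit 5151662964) (nat_lit 228) (nat_lit 5110474398) (nat_lit 304) (nat_lit 1963185879) (nat_lit 103) (nat_lit 5) (nat_lit 106) (nat_lit 5) (nat_lit 107) (nat_lit 5) (nat_lit 403) (nat_lit 335) (nat_lit 282))) (XT.nd (nat_lit 78) (nat_lit 0) (nat_lit 0) (XT.lf (nat_lit 0) (nat_lit 790558746) (nat_lit 228) (nat_lit 803443791) (nat_lit 304) (nat_lit 10847929299) (nat_lit 99) (nat_lit 5) (nat_lit 102) (nat_lit 5) (nat_lit 103) (nat_lit 5) (nat_lit 404) (nat_lit 335) (nat_lit 281)) (XT.lf (nat_lit 0) (nat_lit 5281817868) (nat_lit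 304) (nat_lit 3752445961) (nat_lit 76) (nat_lit 3628300040) (nat_lit 99) (nat_lit 5) (nat_lit 103) (nat_lit 5) (nat_lit 100) (nat_lit 5) (nat_lit 405) (nat_lit 335) (nat_lit 280))))) (XT.nd (nat_lit 312) (nat_lit 456) (nat_lit 0) (XT.nd (nat_lit 156) (nat_lit 532) (nat_lit 0) (XT.nd (nat_lit 78) (nat_lit 0) (nat_lit 0) (XT.lf (nat_lit 0) (nat_lit 4393070936) (nat_lit 228) (nat_lit 4694964333) (nat_lit 304) (nat_lit 3801555677) (nat_lit 96) (nat_lit 5) (nat_lit 99) (nat_lit 5) (nat_lit 100) (nat_lit 5) (nat_lit 406) (nat_lit 335) (nat_lit 279)) (XT.lf (nat_lit 0) (nat_lit 12792395128) (nat_lit 228) (nat_lit 212107014) (nat_lit 304) (nat_lit 119053649) (nat_lit 96) (nat_lit 5) (nat_lit 99) (nat_lit 5) (nat_lit 100) (nat_lit 5) (nat_lit 407) (nat_lit 335) (nat_lit 278))) (XT.nd (nat_lit 78) (nat_lit 228) (nat_lit 0) (XT.lf (nat_lit 0) (nat_lit 3682647698) (nat_lit 304) (nat_lit 5269326800) (nat_lit 76) (nat_lit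 4409101469) (nat_lit 92) (nat_lit 5) (nat_lit 96) (nat_lit 5) (nat_lit 93) (nat_lit 5) (nat_lit 408) (nat_lit 335) (nat_lit 277)) (XT.lf (nat_lit 0) (nat_lit 3160200374) (nat_lit 228) (nat_lit 4430961142) (nat_lit 304) (nat_lit 6014678336) (nat_lit 89) (nat_lit 5) (nat_lit 92) (nat_lit 5) (nat_lit 93) (nat_lit 5) (nat_lit 409) (nat_lit 335) (nat_lit 276)))) (XT.nd (nat_lit 156) (nat_lit 152) (nat_lit 0) (XT.nd (nat_lit 78) (nat_lit 304) (nat_lit 0) (XT.lf (nat_lit 0) (nat_lit 11632438370) (nat_lit 304) (nat_lit 1975395237) (nat_lit 76) (nat_lit 249655676) (nat_lit 89) (nat_lit 5) (nat_lit 93) (nat_lit 5) (nat_lit 90) (nat_lit 5) (nat_lit 410) (nat_lit 335) (nat_lit 275)) (XT.lf (nat_lit 0) (nat_lit 1715947109) (nat_lit 304) (nat_lit 7359218033) (nat_lit 76) (nat_lit 5038933564) (nat_lit 85) (nat_lit 5) (nat_lit 89) (nat_lit 5) (nat_lit 86) (nat_lit 5) (nat_lit 411) (nat_lit 335) (nat_lit 274))) (XT.nd (nat_lit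 78) (nat_lit 0) (nat_lit 0) (XT.lf (nat_lit 0) (nat_lit 1348665309) (nat_lit 152) (nat_lit 4375808951) (nat_lit 228) (nat_lit 8653457823) (nat_lit 83) (nat_lit 5) (nat_lit 85) (nat_lit 5) (nat_lit 86) (nat_lit 5) (nat_lit 412) (nat_lit 335) (nat_lit 273)) (XT.lf (nat_lit 0) (nat_lit 9893951752) (nat_lit 228) (nat_lit 4249460634) (nat_lit 76) (nat_lit 505054221) (nat_lit 83) (nat_lit 5) (nat_lit 86) (nat_lit 5) (nat_lit 84) (nat_lit 5) (nat_lit 413) (nat_lit 335) (nat_lit 272))))))))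
noncomputable def xc89 : XT := (XT.nd (nat_lit 2184) (nat_lit 1596) (nat_lit 0) (XT.nd (nat_lit 1092) (nat_lit 1216) (nat_lit 0) (XT.nd (nat_lit 546) (nat_lit 760) (nat_lit 0) (XT.nd (nat_lit 234) (nat_lit 456) (nat_lit 0) (XT.nd (nat_lit 78) (nat_lit 228) (nat_lit 0) (XT.lf (nat_lit 0) (nat_lit 4780148705) (nat_lit 228) (nat_lit 9459949854) (nat_lit 304) (nat_lit 685477837) (nat_lit 80) (nat_lit 5) (nat_lit 83) (nat_lit 5) (nat_lit 84) (nat_lit 5) (nat_lit 414) (nat_lit 335) (nat_lit 271)) (XT.nd (nat_lit 78) (nat_lit 152) (nat_lit 0) (XT.lf (nat_lit 0) (nat_lit 3442987517) (nat_lit 304) (nat_lit 1139754383) (nat_lit 76) (nat_lit 10627080079) (nat_lit 79) (nat_lit 5) (nat_lit 83) (nat_lit 5) (nat_lit 80) (nat_lit 5) (nat_lit 415) (nat_lit 335) (nat_lit 270)) (XT.lf (nat_lit 0) (nat_lit 7728989041) (nat_lit 228) (nat_lit 7277922480) (nat_lit 76) (nat_lit 494062218) (nat_lit 77) (nat_lit 5) (nat_lit 80) (nat_lit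 5) (nat_lit 78) (nat_lit 5) (nat_lit 416) (nat_lit 335) (nat_lit 269)))) (XT.nd (nat_lit 156) (nat_lit 152) (nat_lit 0) (XT.nd (nat_lit 78) (nat_lit 76) (nat_lit 0) (XT.lf (nat_lit 0) (nat_lit 2021490797) (nat_lit 228) (nat_lit 10162263129) (nat_lit 304) (nat_lit 3615906649) (nat_lit 74) (nat_lit 5) (nat_lit 77) (nat_lit 5) (nat_lit 78) (nat_lit 5) (nat_lit 417) (nat_lit 335) (nat_lit 268)) (XT.lf (nat_lit 0) (nat_lit 689960039) (nat_lit 304) (nat_lit 4425319924) (nat_lit 76) (nat_lit 10990699599) (nat_lit 73) (nat_lit 5) (nat_lit 77) (nat_lit 5) (nat_lit 74) (nat_lit 5) (nat_lit 418) (nat_lit 335) (nat_lit 267))) (XT.nd (nat_lit 78) (nat_lit 0) (nat_lit 0) (XT.lf (nat_lit 0) (nat_lit 5068762608) (nat_lit 228) (nat_lit 11207687043) (nat_lit 76) (nat_lit 143476871) (nat_lit 71) (nat_lit 5) (nat_lit 74) (nat_lit 5) (nat_lit 72) (nat_lit 5) (nat_lit 419) (nat_lit 335) (nat_lit 266)) (XT.lf (nat_lit 0) (nat_lit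 9639823142) (nat_lit 228) (nat_lit 1623974744) (nat_lit 76) (nat_lit 5477672537) (nat_lit 71) (nat_lit 5) (nat_lit 74) (nat_lit 5) (nat_lit 72) (nat_lit 5) (nat_lit 420) (nat_lit 335) (nat_lit 265))))) (XT.nd (nat_lit 234) (nat_lit 380) (nat_lit 0) (XT.nd (nat_lit 78) (nat_lit 228) (nat_lit 0) (XT.lf (nat_lit 0) (nat_lit 8351404152) (nat_lit 152) (nat_lit 6043024176) (nat_lit 228) (nat_lit 2676845124) (nat_lit 69) (nat_lit 5) (nat_lit 71) (nat_lit 5) (nat_lit 72) (nat_lit 5) (nat_lit 421) (nat_lit 335) (nat_lit 264)) (XT.nd (nat_lit 78) (nat_lit 0) (nat_lit 0) (XT.lf (nat_lit 0) (nat_lit 1195022819) (nat_lit 152) (nat_lit 643252249) (nat_lit 228) (nat_lit 15572329852) (nat_lit 66) (nat_lit 5) (nat_lit 68) (nat_lit 5) (nat_lit 69) (nat_lit 5) (nat_lit 422) (nat_lit 335) (nat_lit 263)) (XT.lf (nat_lit 0) (nat_lit 6537659566) (nat_lit 228) (nat_lit 6305118131) (nat_lit 76) (nat_lit 4913469906) (nat_lit 66) (nat_lit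 5) (nat_lit 69) (nat_lit 5) (nat_lit 67) (nat_lit 5) (nat_lit 423) (nat_lit 335) (nat_lit 262)))) (XT.nd (nat_lit 156) (nat_lit 228) (nat_lit 0) (XT.nd (nat_lit 78) (nat_lit 0) (nat_lit 0) (XT.lf (nat_lit 0) (nat_lit 3915315258) (nat_lit 152) (nat_lit 7474101485) (nat_lit 228) (nat_lit 6722505708) (nat_lit 64) (nat_lit 5) (nat_lit 66) (nat_lit 5) (nat_lit 67) (nat_lit 5) (nat_lit 424) (nat_lit 335) (nat_lit 261)) (XT.lf (nat_lit 0) (nat_lit 14514795348) (nat_lit 152) (nat_lit 1903390306) (nat_lit 228) (nat_lit 2059142600) (nat_lit 64) (nat_lit 5) (nat_lit 66) (nat_lit 5) (nat_lit 67) (nat_lit 5) (nat_lit 425) (nat_lit 335) (nat_lit 260))) (XT.nd (nat_lit 78) (nat_lit 0) (nat_lit 0) (XT.lf (nat_lit 0) (nat_lit 2760195866) (nat_lit 228) (nat_lit 12263780769) (nat_lit 76) (nat_lit 3826843811) (nat_lit 61) (nat_lit 5) (nat_lit 64) (nat_lit 5) (nat_lit 62) (nat_lit 5) (nat_lit 426) (nat_lit 335) (nat_lit 259)) (XT.lf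 (nat_lit 0) (nat_lit 7710554908) (nat_lit 228) (nat_lit 1795573620) (nat_lit 76) (nat_lit 9727946536) (nat_lit 61) (nat_lit 5) (nat_lit 64) (nat_lit 5) (nat_lit 62) (nat_lit 5) (nat_lit 427) (nat_lit 335) (nat_lit 258)))))) (XT.nd (nat_lit 546) (nat_lit 532) (nat_lit 0) (XT.nd (nat_lit 234) (nat_lit 304) (nat_lit 0) (XT.nd (nat_lit 78) (nat_lit 228) (nat_lit 0) (XT.lf (nat_lit 0) (nat_lit 9110125934) (nat_lit 152) (nat_lit 3756357987) (nat_lit 228) (nat_lit 6760635606) (nat_lit 59) (nat_lit 5) (nat_lit 61) (nat_lit 5) (nat_lit 62) (nat_lit 5) (nat_lit 428) (nat_lit 335) (nat_lit 257)) (XT.nd (nat_lit 78) (nat_lit 76) (nat_lit 0) (XT.lf (nat_lit 0) (nat_lit 278351376) (nat_lit 152) (nat_lit 17910177804) (nat_lit 228) (nat_lit 1843086859) (nat_lit 57) (nat_lit 5) (nat_lit 59) (nat_lit 5) (nat_lit 60) (nat_lit 4) (nat_lit 429) (nat_lit 335) (nat_lit 256)) (XT.lf (nat_lit 0) (nat_lit 3273256599) (nat_lit 228) (nat_lit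 8955677563) (nat_lit 76) (nat_lit 8214963551) (nat_lit 56) (nat_lit 5) (nat_lit 59) (nat_lit 5) (nat_lit 57) (nat_lit 5) (nat_lit 430) (nat_lit 335) (nat_lit 255)))) (XT.nd (nat_lit 156) (nat_lit 152) (nat_lit 0) (XT.nd (nat_lit 78) (nat_lit 0) (nat_lit 0) (XT.lf (nat_lit 0) (nat_lit 2136318738) (nat_lit 152) (nat_lit 6360842300) (nat_lit 228) (nat_lit 12371109438) (nat_lit 54) (nat_lit 5) (nat_lit 56) (nat_lit 5) (nat_lit 57) (nat_lit 5) (nat_lit 431) (nat_lit 335) (nat_lit 254)) (XT.lf (nat_lit 0) (nat_lit 13692219428) (nat_lit 152) (nat_lit 246930108) (nat_lit 228) (nat_lit 7364387314) (nat_lit 54) (nat_lit 5) (nat_lit 56) (nat_lit 5) (nat_lit 57) (nat_lit 5) (nat_lit 432) (nat_lit 335) (nat_lit 253))) (XT.nd (nat_lit 78) (nat_lit 76) (nat_lit 0) (XT.lf (nat_lit 0) (nat_lit 3807531787) (nat_lit 76) (nat_lit 15803187040) (nat_lit 152) (nat_lit 2139156088) (nat_lit 53) (nat_lit 5) (nat_lit 54) (nat_lit 5) (nat_lit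 55) (nat_lit 4) (nat_lit 433) (nat_lit 335) (nat_lit 252)) (XT.lf (nat_lit 0) (nat_lit 3231234951) (nat_lit 152) (nat_lit 6568309598) (nat_lit 76) (nat_lit 12407576088) (nat_lit 52) (nat_lit 5) (nat_lit 54) (nat_lit 5) (nat_lit 53) (nat_lit 5) (nat_lit 434) (nat_lit 335) (nat_lit 251))))) (XT.nd (nat_lit 234) (nat_lit 304) (nat_lit 0) (XT.nd (nat_lit 78) (nat_lit 76) (nat_lit 0) (XT.lf (nat_lit 0) (nat_lit 5176678533) (nat_lit 152) (nat_lit 3565269352) (nat_lit 228) (nat_lit 13934837352) (nat_lit 50) (nat_lit 5) (nat_lit 52) (nat_lit 5) (nat_lit 53) (nat_lit 5) (nat_lit 435) (nat_lit 335) (nat_lit 250)) (XT.nd (nat_lit 78) (nat_lit 76) (nat_lit 0) (XT.lf (nat_lit 0) (nat_lit 14484974172) (nat_lit 228) (nat_lit 5828216231) (nat_lit 76) (nat_lit 2845342576) (nat_lit 50) (nat_lit 5) (nat_lit 53) (nat_lit 5) (nat_lit 51) (nat_lit 4) (nat_lit 436) (nat_lit 335) (nat_lit 249)) (XT.lf (nat_lit 0) (nat_lit 6231374587)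 (nat_lit 76) (nat_lit 14237469798) (nat_lit 152) (nat_lit 3183835051) (nat_lit 49) (nat_lit 5) (nat_lit 50) (nat_lit 5) (nat_lit 51) (nat_lit 4) (nat_lit 437) (nat_lit 335) (nat_lit 248)))) (XT.nd (nat_lit 156) (nat_lit 76) (nat_lit 0) (XT.nd (nat_lit 78) (nat_lit 152) (nat_lit 0) (XT.lf (nat_lit 0) (nat_lit 2455208997) (nat_lit 152) (nat_lit 5460797592) (nat_lit 76) (nat_lit 16243948792) (nat_lit 48) (nat_lit 5) (nat_lit 50) (nat_lit 5) (nat_lit 49) (nat_lit 5) (nat_lit 438) (nat_lit 335) (nat_lit 247)) (XT.lf (nat_lit 0) (nat_lit 6914543666) (nat_lit 152) (nat_lit 1325532524) (nat_lit 228) (nat_lit 16440211042) (nat_lit 46) (nat_lit 5) (nat_lit 48) (nat_lit 5) (nat_lit 49) (nat_lit 5) (nat_lit 439) (nat_lit 335) (nat_lit 246))) (XT.nd (nat_lit 78) (nat_lit 76) (nat_lit 0) (XT.lf (nat_lit 0) (nat_lit 14280961430) (nat_lit 228) (nat_lit 5542028636) (nat_lit 76) (nat_lit 5390767365) (nat_lit 46) (nat_lit 5) (nat_lit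 49) (nat_lit 5) (nat_lit 47) (nat_lit 4) (nat_lit 440) (nat_lit 335) (nat_lit 245)) (XT.lf (nat_lit 0) (nat_lit 7128271228) (nat_lit 76) (nat_lit 13431469059) (nat_lit 152) (nat_lit 5201793921) (nat_lit 45) (nat_lit 5) (nat_lit 46) (nat_lit 5) (nat_lit 47) (nat_lit 4) (nat_lit 441) (nat_lit 335) (nat_lit 244))))))) (XT.nd (nat_lit 1092) (nat_lit 684) (nat_lit 0) (XT.nd (nat_lit 546) (nat_lit 380) (nat_lit 0) (XT.nd (nat_lit 234) (nat_lit 304) (nat_lit 0) (XT.nd (nat_lit 78) (nat_lit 152) (nat_lit 0) (XT.lf (nat_lit 0) (nat_lit 719037786) (nat_lit 152) (nat_lit 6085220332) (nat_lit 76) (nat_lit 19520338876) (nat_lit 44) (nat_lit 5) (nat_lit 46) (nat_lit 5) (nat_lit 45) (nat_lit 5) (nat_lit 442) (nat_lit 335) (nat_lit 243)) (XT.nd (nat_lit 78) (nat_lit 0) (nat_lit 0) (XT.lf (nat_lit 0) (nat_lit 6756016608) (nat_lit 228) (nat_lit 20025772167) (nat_lit 76) (nat_lit 119927880) (nat_lit 42) (nat_lit 5) (nat_lit 45)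 (nat_lit 5) (nat_lit 43) (nat_lit 4) (nat_lit 443) (nat_lit 335) (nat_lit 242)) (XT.lf (nat_lit 0) (nat_lit 13079403052) (nat_lit 228) (nat_lit 7256486156) (nat_lit 76) (nat_lit 7157103955) (nat_lit 42) (nat_lit 5) (nat_lit 45) (nat_lit 5) (nat_lit 43) (nat_lit 4) (nat_lit 444) (nat_lit 335) (nat_lit 241)))) (XT.nd (nat_lit 156) (nat_lit 228) (nat_lit 0) (XT.nd (nat_lit 78) (nat_lit 0) (nat_lit 0) (XT.lf (nat_lit 0) (nat_lit 5968770327) (nat_lit 76) (nat_lit 13657671152) (nat_lit 152) (nat_lit 8474550116) (nat_lit 41) (nat_lit 5) (nat_lit 42) (nat_lit 5) (nat_lit 43) (nat_lit 4) (nat_lit 445) (nat_lit 335) (nat_lit 240)) (XT.lf (nat_lit 0) (nat_lit 19696382302) (nat_lit 76) (nat_lit 6723627430) (nat_lit 152) (nat_lit 2305718767) (nat_lit 41) (nat_lit 5) (nat_lit 42) (nat_lit 5) (nat_lit 43) (nat_lit 4) (nat_lit 446) (nat_lit 335) (nat_lit 239))) (XT.nd (nat_lit 78) (nat_lit 0) (nat_lit 0) (XT.lf (nat_lit 0)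 (nat_lit 3994113365) (nat_lit 228) (nat_lit 24899449307) (nat_lit 76) (nat_lit 473731478) (nat_lit 38) (nat_lit 5) (nat_lit 41) (nat_lit 5) (nat_lit 39) (nat_lit 4) (nat_lit 447) (nat_lit 335) (nat_lit 238)) (XT.lf (nat_lit 0) (nat_lit 10572613098) (nat_lit 228) (nat_lit 11603052215) (nat_lit 76) (nat_lit 7847678034) (nat_lit 38) (nat_lit 5) (nat_lit 41) (nat_lit 5) (nat_lit 39) (nat_lit 4) (nat_lit 448) (nat_lit 335) (nat_lit 237))))) (XT.nd (nat_lit 234) (nat_lit 304) (nat_lit 0) (XT.nd (nat_lit 78) (nat_lit 0) (nat_lit 0) (XT.lf (nat_lit 0) (nat_lit 2091869375) (nat_lit 76) (nat_lit 15254729376) (nat_lit 152) (nat_lit 13352533187) (nat_lit 37) (nat_lit 5) (nat_lit 38) (nat_lit 5) (nat_lit 39) (nat_lit 4) (nat_lit 449) (nat_lit 335) (nat_lit 236)) (XT.nd (nat_lit 78) (nat_lit 0) (nat_lit 0) (XT.lf (nat_lit 0) (nat_lit 16394706287) (nat_lit 76) (nat_lit 8024536448) (nat_lit 152) (nat_lit 6973090083) (nat_lit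 37) (nat_lit 5) (nat_lit 38) (nat_lit 5) (nat_lit 39) (nat_lit 4) (nat_lit 450) (nat_lit 335) (nat_lit 235)) (XT.lf (nat_lit 0) (nat_lit 31087032653) (nat_lit 76) (nat_lit 595936961) (nat_lit 152) (nat_lit 423994742) (nat_lit 37) (nat_lit 5) (nat_lit 38) (nat_lit 5) (nat_lit 39) (nat_lit 4) (nat_lit 451) (nat_lit 335) (nat_lit 234)))) (XT.nd (nat_lit 156) (nat_lit 76) (nat_lit 0) (XT.nd (nat_lit 78) (nat_lit 0) (nat_lit 0) (XT.lf (nat_lit 0) (nat_lit 6377239467) (nat_lit 228) (nat_lit 19365747601) (nat_lit 76) (nat_lit 7092855727) (nat_lit 34) (nat_lit 5) (nat_lit 37) (nat_lit 5) (nat_lit 35) (nat_lit 4) (nat_lit 452) (nat_lit 335) (nat_lit 233)) (XT.lf (nat_lit 0) (nat_lit 13369663510) (nat_lit 228) (nat_lit 5219665175) (nat_lit 76) (nat_lit 14997264317) (nat_lit 34) (nat_lit 5) (nat_lit 37) (nat_lit 5) (nat_lit 35) (nat_lit 4) (nat_lit 453) (nat_lit 335) (nat_lit 232))) (XT.nd (nat_lit 78) (nat_lit 0) (nat_lit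 0) (XT.lf (nat_lit 0) (nat_lit 9498363750) (nat_lit 76) (nat_lit 11144774423) (nat_lit 152) (nat_lit 13714590750) (nat_lit 33) (nat_lit 5) (nat_lit 34) (nat_lit 5) (nat_lit 35) (nat_lit 4) (nat_lit 454) (nat_lit 335) (nat_lit 231)) (XT.lf (nat_lit 0) (nat_lit 24727518726) (nat_lit 76) (nat_lit 3440204203) (nat_lit 152) (nat_lit 6983290320) (nat_lit 33) (nat_lit 5) (nat_lit 34) (nat_lit 5) (nat_lit 35) (nat_lit 4) (nat_lit 455) (nat_lit 335) (nat_lit 230)))))) (XT.nd (nat_lit 546) (nat_lit 304) (nat_lit 0) (XT.nd (nat_lit 234) (nat_lit 228) (nat_lit 0) (XT.nd (nat_lit 78) (nat_lit 0) (nat_lit 0) (XT.lf (nat_lit 0) (nat_lit 18206448) (nat_lit 152) (nat_lit 31513893643) (nat_lit 76) (nat_lit 4433993442) (nat_lit 31) (nat_lit 5) (nat_lit 33) (nat_lit 5) (nat_lit 32) (nat_lit 4) (nat_lit 456) (nat_lit 335) (nat_lit 229)) (XT.nd (nat_lit 78) (nat_lit 0) (nat_lit 0) (XT.lf (nat_lit 0) (nat_lit 7210385065) (nat_lit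 152) (nat_lit 16955640684) (nat_lit 76) (nat_lit 12633897781) (nat_lit 31) (nat_lit 5) (nat_lit 33) (nat_lit 5) (nat_lit 32) (nat_lit 4) (nat_lit 457) (nat_lit 335) (nat_lit 228)) (XT.lf (nat_lit 0) (nat_lit 14599526842) (nat_lit 152) (nat_lit 1996333006) (nat_lit 76) (nat_lit 21063473979) (nat_lit 31) (nat_lit 5) (nat_lit 33) (nat_lit 5) (nat_lit 32) (nat_lit 4) (nat_lit 458) (nat_lit 335) (nat_lit 227)))) (XT.nd (nat_lit 156) (nat_lit 152) (nat_lit 0) (XT.nd (nat_lit 78) (nat_lit 0) (nat_lit 0) (XT.lf (nat_lit 0) (nat_lit 13643331161) (nat_lit 76) (nat_lit 8679905194) (nat_lit 152) (nat_lit 16217904568) (nat_lit 30) (nat_lit 5) (nat_lit 31) (nat_lit 5) (nat_lit 32) (nat_lit 4) (nat_lit 459) (nat_lit 335) (nat_lit 226)) (XT.lf (nat_lit 0) (nat_lit 29758794589) (nat_lit 76) (nat_lit 521968896) (nat_lit 152) (nat_lit 9168576814) (nat_lit 30) (nat_lit 5) (nat_lit 31) (nat_lit 5) (nat_lit 32) (nat_lit 4) (nat_lit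 460) (nat_lit 335) (nat_lit 225))) (XT.nd (nat_lit 78) (nat_lit 76) (nat_lit 0) (XT.lf (nat_lit 0) (nat_lit 5980187718) (nat_lit 76) (nat_lit 32612389428) (nat_lit 76) (nat_lit 1788742910) (nat_lit 29) (nat_lit 4) (nat_lit 30) (nat_lit 5) (nat_lit 30) (nat_lit 4) (nat_lit 461) (nat_lit 335) (nat_lit 224)) (XT.lf (nat_lit 0) (nat_lit 5785397162) (nat_lit 152) (nat_lit 19114355437) (nat_lit 76) (nat_lit 16437241552) (nat_lit 28) (nat_lit 5) (nat_lit 30) (nat_lit 5) (nat_lit 29) (nat_lit 4) (nat_lit 462) (nat_lit 335) (nat_lit 223))))) (XT.nd (nat_lit 312) (nat_lit 152) (nat_lit 0) (XT.nd (nat_lit 156) (nat_lit 76) (nat_lit 0) (XT.nd (nat_lit 78) (nat_lit 76) (nat_lit 0) (XT.lf (nat_lit 0) (nat_lit 13533665108) (nat_lit 152) (nat_lit 3419415349) (nat_lit 76) (nat_lit 25368242149) (nat_lit 28) (nat_lit 5) (nat_lit 30) (nat_lit 5) (nat_lit 29) (nat_lit 4) (nat_lit 463) (nat_lit 335) (nat_lit 222)) (XT.lf (nat_lit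 0) (nat_lit 12967641841) (nat_lit 76) (nat_lit 8654747142) (nat_lit 152) (nat_lit 21709552781) (nat_lit 27) (nat_lit 5) (nat_lit 28) (nat_lit 5) (nat_lit 29) (nat_lit 4) (nat_lit 464) (nat_lit 335) (nat_lit 221))) (XT.nd (nat_lit 78) (nat_lit 76) (nat_lit 0) (XT.lf (nat_lit 0) (nat_lit 29884940445) (nat_lit 76) (nat_lit 86900849) (nat_lit 152) (nat_lit 14400497253) (nat_lit 27) (nat_lit 5) (nat_lit 28) (nat_lit 5) (nat_lit 29) (nat_lit 4) (nat_lit 465) (nat_lit 335) (nat_lit 220)) (XT.lf (nat_lit 0) (nat_lit 1785773818) (nat_lit 76) (nat_lit 36871040938) (nat_lit 76) (nat_lit 6784582372) (nat_lit 26) (nat_lit 4) (nat_lit 27) (nat_lit 5) (nat_lit 27) (nat_lit 4) (nat_lit 466) (nat_lit 335) (nat_lit 219)))) (XT.nd (nat_lit 156) (nat_lit 76) (nat_lit 0) (XT.nd (nat_lit 78) (nat_lit 0) (nat_lit 0) (XT.lf (nat_lit 0) (nat_lit 1171625960) (nat_lit 152) (nat_lit 27737424385) (nat_lit 76) (nat_lit 17629197559) (nat_lit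 25) (nat_lit 5) (nat_lit 27) (nat_lit 5) (nat_lit 26) (nat_lit 4) (nat_lit 467) (nat_lit 335) (nat_lit 218)) (XT.lf (nat_lit 0) (nat_lit 9214519813) (nat_lit 152) (nat_lit 11438861046) (nat_lit 76) (nat_lit 27013078176) (nat_lit 25) (nat_lit 5) (nat_lit 27) (nat_lit 5) (nat_lit 26) (nat_lit 4) (nat_lit 468) (nat_lit 335) (nat_lit 217))) (XT.nd (nat_lit 78) (nat_lit 0) (nat_lit 0) (XT.lf (nat_lit 0) (nat_lit 5425394716) (nat_lit 76) (nat_lit 12110276093) (nat_lit 152) (nat_lit 31291737491) (nat_lit 24) (nat_lit 5) (nat_lit 25) (nat_lit 5) (nat_lit 26) (nat_lit 4) (nat_lit 469) (nat_lit 335) (nat_lit 216)) (XT.lf (nat_lit 0) (nat_lit 23001215742) (nat_lit 76) (nat_lit 3205733663) (nat_lit 152) (nat_lit 23813222726) (nat_lit 24) (nat_lit 5) (nat_lit 25) (nat_lit 5) (nat_lit 26) (nat_lit 4) (nat_lit 470) (nat_lit 335) (nat_lit 215))))))))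
noncomputable def xc90 : XT := (XT.nd (nat_lit 44148) (nat_lit 0) (nat_lit 11248) (XT.nd (nat_lit 1092) (nat_lit 228) (nat_lit 0) (XT.nd (nat_lit 546) (nat_lit 228) (nat_lit 0) (XT.nd (nat_lit 234) (nat_lit 76) (nat_lit 0) (XT.nd (nat_lit 78) (nat_lit 152) (nat_lit 0) (XT.lf (nat_lit 0) (nat_lit 35181005986) (nat_lit 152) (nat_lit 10230072577) (nat_lit 0) (nat_lit 5836361983) (nat_lit 24) (nat_lit 5) (nat_lit 26) (nat_lit 4) (nat_lit 24) (nat_lit 4) (nat_lit 471) (nat_lit 335) (nat_lit 214)) (XT.nd (nat_lit 78) (nat_lit 76) (nat_lit 0) (XT.lf (nat_lit 0) (nat_lit 7142624113) (nat_lit 76) (nat_lit 37367779081) (nat_lit 76) (nat_lit 7998541081) (nat_lit 23) (nat_lit 4) (nat_lit 24) (nat_lit 5) (nat_lit 24) (nat_lit 4) (nat_lit 472) (nat_lit 335) (nat_lit 213)) (XT.lf (nat_lit 0) (nat_lit 395372678) (nat_lit 152) (nat_lit 28590509129) (nat_lit 76) (nat_lit 24819620501) (nat_lit 22) (nat_lit 5) (nat_lit 24) (nat_lit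 5) (nat_lit 23) (nat_lit 4) (nat_lit 473) (nat_lit 335) (nat_lit 212)))) (XT.nd (nat_lit 156) (nat_lit 0) (nat_lit 0) (XT.nd (nat_lit 78) (nat_lit 76) (nat_lit 0) (XT.lf (nat_lit 0) (nat_lit 8866489948) (nat_lit 152) (nat_lit 11417323271) (nat_lit 76) (nat_lit 34855184354) (nat_lit 22) (nat_lit 5) (nat_lit 24) (nat_lit 5) (nat_lit 23) (nat_lit 4) (nat_lit 474) (nat_lit 335) (nat_lit 211)) (XT.lf (nat_lit 0) (nat_lit 6369420308) (nat_lit 76) (nat_lit 11270099478) (nat_lit 152) (nat_lit 38871545278) (nat_lit 21) (nat_lit 5) (nat_lit 22) (nat_lit 5) (nat_lit 23) (nat_lit 4) (nat_lit 475) (nat_lit 335) (nat_lit 210))) (XT.nd (nat_lit 78) (nat_lit 0) (nat_lit 0) (XT.lf (nat_lit 0) (nat_lit 24898136141) (nat_lit 76) (nat_lit 1879594128) (nat_lit 152) (nat_lit 31143505334) (nat_lit 21) (nat_lit 5) (nat_lit 22) (nat_lit 5) (nat_lit 23) (nat_lit 4) (nat_lit 476) (nat_lit 335) (nat_lit 209)) (XT.lf (nat_lit 0) (nat_lit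 36251963737) (nat_lit 152) (nat_lit 15491104205) (nat_lit 0) (nat_lit 7628787713) (nat_lit 21) (nat_lit 5) (nat_lit 23) (nat_lit 4) (nat_lit 21) (nat_lit 4) (nat_lit 477) (nat_lit 335) (nat_lit 208))))) (XT.nd (nat_lit 234) (nat_lit 76) (nat_lit 0) (XT.nd (nat_lit 78) (nat_lit 76) (nat_lit 0) (XT.lf (nat_lit 0) (nat_lit 2574004206) (nat_lit 76) (nat_lit 43467121464) (nat_lit 76) (nat_lit 14823948270) (nat_lit 20) (nat_lit 4) (nat_lit 21) (nat_lit 5) (nat_lit 21) (nat_lit 4) (nat_lit 478) (nat_lit 335) (nat_lit 207)) (XT.nd (nat_lit 78) (nat_lit 76) (nat_lit 0) (XT.lf (nat_lit 0) (nat_lit 21474393216) (nat_lit 76) (nat_lit 34793483356) (nat_lit 76) (nat_lit 6130895434) (nat_lit 20) (nat_lit 4) (nat_lit 21) (nat_lit 5) (nat_lit 21) (nat_lit 4) (nat_lit 479) (nat_lit 335) (nat_lit 206)) (XT.lf (nat_lit 0) (nat_lit 2755591018) (nat_lit 152) (nat_lit 23087587404) (nat_lit 76) (nat_lit 38134857296) (nat_lit 19) (nat_lit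 5) (nat_lit 21) (nat_lit 5) (nat_lit 20) (nat_lit 4) (nat_lit 480) (nat_lit 335) (nat_lit 205)))) (XT.nd (nat_lit 156) (nat_lit 0) (nat_lit 0) (XT.nd (nat_lit 78) (nat_lit 76) (nat_lit 0) (XT.lf (nat_lit 0) (nat_lit 11773532510) (nat_lit 152) (nat_lit 4799466418) (nat_lit 76) (nat_lit 49030215394) (nat_lit 19) (nat_lit 5) (nat_lit 21) (nat_lit 5) (nat_lit 20) (nat_lit 4) (nat_lit 481) (nat_lit 335) (nat_lit 204)) (XT.lf (nat_lit 0) (nat_lit 14293821946) (nat_lit 76) (nat_lit 6894023664) (nat_lit 152) (nat_lit 46085528258) (nat_lit 18) (nat_lit 5) (nat_lit 19) (nat_lit 5) (nat_lit 20) (nat_lit 4) (nat_lit 482) (nat_lit 335) (nat_lit 203))) (XT.nd (nat_lit 78) (nat_lit 0) (nat_lit 0) (XT.lf (nat_lit 0) (nat_lit 30951547922) (nat_lit 152) (nat_lit 34986353910) (nat_lit 0) (nat_lit 3053728138) (nat_lit 18) (nat_lit 5) (nat_lit 20) (nat_lit 4) (nat_lit 18) (nat_lit 4) (nat_lit 483) (nat_lit 335) (nat_lit 202)) (XT.lf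 (nat_lit 0) (nat_lit 41065208187) (nat_lit 152) (nat_lit 16543385837) (nat_lit 0) (nat_lit 13151128874) (nat_lit 18) (nat_lit 5) (nat_lit 20) (nat_lit 4) (nat_lit 18) (nat_lit 4) (nat_lit 484) (nat_lit 335) (nat_lit 201)))))) (XT.nd (nat_lit 42510) (nat_lit 0) (nat_lit 25308) (XT.nd (nat_lit 234) (nat_lit 152) (nat_lit 0) (XT.nd (nat_lit 78) (nat_lit 0) (nat_lit 0) (XT.lf (nat_lit 0) (nat_lit 2480133419) (nat_lit 76) (nat_lit 49015101151) (nat_lit 76) (nat_lit 21085235888) (nat_lit 17) (nat_lit 4) (nat_lit 18) (nat_lit 5) (nat_lit 18) (nat_lit 4) (nat_lit 485) (nat_lit 335) (nat_lit 200)) (XT.nd (nat_lit 78) (nat_lit 0) (nat_lit 0) (XT.lf (nat_lit 0) (nat_lit 22392554449) (nat_lit 76) (nat_lit 40001894662) (nat_lit 76) (nat_lit 12056703232) (nat_lit 17) (nat_lit 4) (nat_lit 18) (nat_lit 5) (nat_lit 18) (nat_lit 4) (nat_lit 486) (nat_lit 335) (nat_lit 199)) (XT.lf (nat_lit 0) (nat_lit 42882030638) (nat_lit 76)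 (nat_lit 30728154697) (nat_lit 76) (nat_lit 2768083495) (nat_lit 17) (nat_lit 4) (nat_lit 18) (nat_lit 5) (nat_lit 18) (nat_lit 4) (nat_lit 487) (nat_lit 335) (nat_lit 198)))) (XT.nd (nat_lit 156) (nat_lit 0) (nat_lit 0) (XT.nd (nat_lit 78) (nat_lit 76) (nat_lit 0) (XT.lf (nat_lit 0) (nat_lit 6656266832) (nat_lit 152) (nat_lit 14462295912) (nat_lit 76) (nat_lit 57242983336) (nat_lit 16) (nat_lit 5) (nat_lit 18) (nat_lit 5) (nat_lit 17) (nat_lit 4) (nat_lit 488) (nat_lit 335) (nat_lit 197)) (XT.lf (nat_lit 0) (nat_lit 5197326729) (nat_lit 76) (nat_lit 11150392445) (nat_lit 152) (nat_lit 64054580515) (nat_lit 15) (nat_lit 5) (nat_lit 16) (nat_lit 5) (nat_lit 17) (nat_lit 4) (nat_lit 489) (nat_lit 335) (nat_lit 196))) (XT.nd (nat_lit 42042) (nat_lit 0) (nat_lit 27512) (XT.lf (nat_lit 0) (nat_lit 25724040937) (nat_lit 76) (nat_lit 742068044) (nat_lit 152) (nat_lit 56034081555) (nat_lit 15) (nat_lit 5) (nat_lit 16)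 (nat_lit 5) (nat_lit 17) (nat_lit 4) (nat_lit 490) (nat_lit 335) (nat_lit 195)) (XT.lf (nat_lit 0) (nat_lit 377114735) (nat_lit 380) (nat_lit 2501307096) (nat_lit 0) (nat_lit 377114735) (nat_lit 377) (nat_lit 5) (nat_lit 382) (nat_lit 4) (nat_lit 377) (nat_lit 4) (nat_lit 348) (nat_lit 336) (nat_lit 336))))) (XT.nd (nat_lit 234) (nat_lit 1748) (nat_lit 0) (XT.nd (nat_lit 78) (nat_lit 456) (nat_lit 0) (XT.lf (nat_lit 0) (nat_lit 3900436234) (nat_lit 380) (nat_lit 1277184974) (nat_lit 0) (nat_lit 1352002226) (nat_lit 377) (nat_lit 5) (nat_lit 382) (nat_lit 4) (nat_lit 377) (nat_lit 4) (nat_lit 349) (nat_lit 336) (nat_lit 335)) (XT.nd (nat_lit 78) (nat_lit 0) (nat_lit 0) (XT.lf (nat_lit 0) (nat_lit 493090964) (nat_lit 456) (nat_lit 4021667124) (nat_lit 76) (nat_lit 2036512042) (nat_lit 371) (nat_lit 5) (nat_lit 377) (nat_lit 5) (nat_lit 372) (nat_lit 4) (nat_lit 350) (nat_lit 336) (nat_lit 334)) (XT.lf (nat_lit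 0) (nat_lit 3559512629) (nat_lit 456) (nat_lit 198974615) (nat_lit 76) (nat_lit 2817277285) (nat_lit 371) (nat_lit 5) (nat_lit 377) (nat_lit 5) (nat_lit 372) (nat_lit 4) (nat_lit 351) (nat_lit 336) (nat_lit 333)))) (XT.nd (nat_lit 156) (nat_lit 684) (nat_lit 0) (XT.nd (nat_lit 78) (nat_lit 532) (nat_lit 0) (XT.lf (nat_lit 0) (nat_lit 43290899) (nat_lit 532) (nat_lit 2866474756) (nat_lit 76) (nat_lit 3693409498) (nat_lit 364) (nat_lit 5) (nat_lit 371) (nat_lit 5) (nat_lit 365) (nat_lit 5) (nat_lit 352) (nat_lit 336) (nat_lit 332)) (XT.lf (nat_lit 0) (nat_lit 1078717523) (nat_lit 532) (nat_lit 1962459412) (nat_lit 608) (nat_lit 3592191960) (nat_lit 357) (nat_lit 5) (nat_lit 364) (nat_lit 5) (nat_lit 365) (nat_lit 5) (nat_lit 353) (nat_lit 336) (nat_lit 331))) (XT.nd (nat_lit 78) (nat_lit 684) (nat_lit 0) (XT.lf (nat_lit 0) (nat_lit 5126141923) (nat_lit 532) (nat_lit 928930366) (nat_lit 608) (nat_lit 611684015)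 (nat_lit 357) (nat_lit 5) (nat_lit 364) (nat_lit 5) (nat_lit 365) (nat_lit 5) (nat_lit 354) (nat_lit 336) (nat_lit 330)) (XT.lf (nat_lit 0) (nat_lit 2335833967) (nat_lit 684) (nat_lit 4159727146) (nat_lit 76) (nat_lit 207174414) (nat_lit 348) (nat_lit 5) (nat_lit 357) (nat_lit 5) (nat_lit 349) (nat_lit 5) (nat_lit 355) (nat_lit 336) (nat_lit 329))))))) (XT.nd (nat_lit 1092) (nat_lit 5472) (nat_lit 0) (XT.nd (nat_lit 546) (nat_lit 5168) (nat_lit 0) (XT.nd (nat_lit 234) (nat_lit 1900) (nat_lit 0) (XT.nd (nat_lit 78) (nat_lit 1520) (nat_lit 0) (XT.lf (nat_lit 0) (nat_lit 5285924573) (nat_lit 684) (nat_lit 51320558) (nat_lit 76) (nat_lit 1404638159) (nat_lit 348) (nat_lit 5) (nat_lit 357) (nat_lit 5) (nat_lit 349) (nat_lit 5) (nat_lit 356) (nat_lit 336) (nat_lit 328)) (XT.nd (nat_lit 78) (nat_lit 760) (nat_lit 0) (XT.lf (nat_lit 0) (nat_lit 1456255931) (nat_lit 760) (nat_lit 2611218630) (nat_lit 76) (nat_lit 2716025380)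 (nat_lit 338) (nat_lit 5) (nat_lit 348) (nat_lit 5) (nat_lit 339) (nat_lit 5) (nat_lit 357) (nat_lit 336) (nat_lit 327)) (XT.lf (nat_lit 0) (nat_lit 1638589308) (nat_lit 760) (nat_lit 2709744411) (nat_lit 836) (nat_lit 2480004762) (nat_lit 328) (nat_lit 5) (nat_lit 338) (nat_lit 5) (nat_lit 339) (nat_lit 5) (nat_lit 358) (nat_lit 336) (nat_lit 326)))) (XT.nd (nat_lit 156) (nat_lit 988) (nat_lit 0) (XT.nd (nat_lit 78) (nat_lit 836) (nat_lit 0) (XT.lf (nat_lit 0) (nat_lit 376989037) (nat_lit 836) (nat_lit 886350749) (nat_lit 76) (nat_lit 5613112034) (nat_lit 327) (nat_lit 5) (nat_lit 338) (nat_lit 5) (nat_lit 328) (nat_lit 5) (nat_lit 359) (nat_lit 336) (nat_lit 325)) (XT.lf (nat_lit 0) (nat_lit 3215802690) (nat_lit 912) (nat_lit 3414923615) (nat_lit 76) (nat_lit 296220625) (nat_lit 316) (nat_lit 5) (nat_lit 328) (nat_lit 5) (nat_lit 317) (nat_lit 5) (nat_lit 360) (nat_lit 336) (nat_lit 324))) (XT.nd (nat_lit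 78) (nat_lit 76) (nat_lit 0) (XT.lf (nat_lit 0) (nat_lit 1011685468) (nat_lit 912) (nat_lit 5070696146) (nat_lit 988) (nat_lit 898349365) (nat_lit 304) (nat_lit 5) (nat_lit 316) (nat_lit 5) (nat_lit 317) (nat_lit 5) (nat_lit 361) (nat_lit 336) (nat_lit 323)) (XT.lf (nat_lit 0) (nat_lit 1906916786) (nat_lit 988) (nat_lit 1491880243) (nat_lit 76) (nat_lit 3638391468) (nat_lit 303) (nat_lit 5) (nat_lit 316) (nat_lit 5) (nat_lit 304) (nat_lit 5) (nat_lit 362) (nat_lit 336) (nat_lit 322))))) (XT.nd (nat_lit 234) (nat_lit 3040) (nat_lit 0) (XT.nd (nat_lit 78) (nat_lit 1140) (nat_lit 0) (XT.lf (nat_lit 0) (nat_lit 3095056247) (nat_lit 988) (nat_lit 1627801998) (nat_lit 1064) (nat_lit 2373925153) (nat_lit 290) (nat_lit 5) (nat_lit 303) (nat_lit 5) (nat_lit 304) (nat_lit 5) (nat_lit 363) (nat_lit 336) (nat_lit 321)) (XT.nd (nat_lit 78) (nat_lit 0) (nat_lit 0) (XT.lf (nat_lit 0) (nat_lit 395157206) (nat_lit 1140) (nat_lit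 6539197537) (nat_lit 76) (nat_lit 225548584) (nat_lit 275) (nat_lit 5) (nat_lit 290) (nat_lit 5) (nat_lit 276) (nat_lit 5) (nat_lit 364) (nat_lit 336) (nat_lit 320)) (XT.lf (nat_lit 0) (nat_lit 3174015063) (nat_lit 1140) (nat_lit 1878730640) (nat_lit 76) (nat_lit 2172277171) (nat_lit 275) (nat_lit 5) (nat_lit 290) (nat_lit 5) (nat_lit 276) (nat_lit 5) (nat_lit 365) (nat_lit 336) (nat_lit 319)))) (XT.nd (nat_lit 156) (nat_lit 608) (nat_lit 0) (XT.nd (nat_lit 78) (nat_lit 1292) (nat_lit 0) (XT.lf (nat_lit 0) (nat_lit 2901619739) (nat_lit 1140) (nat_lit 3082404288) (nat_lit 1216) (nat_lit 1309680790) (nat_lit 260) (nat_lit 5) (nat_lit 275) (nat_lit 5) (nat_lit 276) (nat_lit 5) (nat_lit 366) (nat_lit 336) (nat_lit 318)) (XT.lf (nat_lit 0) (nat_lit 415971937) (nat_lit 1216) (nat_lit 1012210848) (nat_lit 1292) (nat_lit 5937552659) (nat_lit 243) (nat_lit 5) (nat_lit 259) (nat_lit 5) (nat_lit 260) (nat_lit 5) (nat_lit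 367) (nat_lit 336) (nat_lit 317))) (XT.nd (nat_lit 78) (nat_lit 608) (nat_lit 0) (XT.lf (nat_lit 0) (nat_lit 4199680546) (nat_lit 1292) (nat_lit 2083507797) (nat_lit 76) (nat_lit 1157053760) (nat_lit 243) (nat_lit 5) (nat_lit 260) (nat_lit 5) (nat_lit 244) (nat_lit 5) (nat_lit 368) (nat_lit 336) (nat_lit 316)) (XT.lf (nat_lit 0) (nat_lit 2898534522) (nat_lit 608) (nat_lit 4118201268) (nat_lit 684) (nat_lit 501413444) (nat_lit 235) (nat_lit 5) (nat_lit 243) (nat_lit 5) (nat_lit 244) (nat_lit 5) (nat_lit 369) (nat_lit 336) (nat_lit 315)))))) (XT.nd (nat_lit 546) (nat_lit 2508) (nat_lit 0) (XT.nd (nat_lit 234) (nat_lit 1596) (nat_lit 0) (XT.nd (nat_lit 78) (nat_lit 684) (nat_lit 0) (XT.lf (nat_lit 0) (nat_lit 382428162) (nat_lit 608) (nat_lit 1842362346) (nat_lit 684) (nat_lit 5374465010) (nat_lit 226) (nat_lit 5) (nat_lit 234) (nat_lit 5) (nat_lit 235) (nat_lit 5) (nat_lit 370) (nat_lit 336) (nat_lit 314)) (XT.nd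 (nat_lit 78) (nat_lit 684) (nat_lit 0) (XT.lf (nat_lit 0) (nat_lit 5001271324) (nat_lit 684) (nat_lit 2141368052) (nat_lit 76) (nat_lit 540684071) (nat_lit 226) (nat_lit 5) (nat_lit 235) (nat_lit 5) (nat_lit 227) (nat_lit 5) (nat_lit 371) (nat_lit 336) (nat_lit 313)) (XT.lf (nat_lit 0) (nat_lit 65428467) (nat_lit 684) (nat_lit 4720301675) (nat_lit 76) (nat_lit 2984907257) (nat_lit 217) (nat_lit 5) (nat_lit 226) (nat_lit 5) (nat_lit 218) (nat_lit 5) (nat_lit 372) (nat_lit 336) (nat_lit 312)))) (XT.nd (nat_lit 156) (nat_lit 1064) (nat_lit 0) (XT.nd (nat_lit 78) (nat_lit 0) (nat_lit 0) (XT.lf (nat_lit 0) (nat_lit 487163167) (nat_lit 532) (nat_lit 2310177033) (nat_lit 608) (nat_lit 5063788048) (nat_lit 210) (nat_lit 5) (nat_lit 217) (nat_lit 5) (nat_lit 218) (nat_lit 5) (nat_lit 373) (nat_lit 336) (nat_lit 311)) (XT.lf (nat_lit 0) (nat_lit 5592293579) (nat_lit 608) (nat_lit 2086685331) (nat_lit 76) (nat_lit 275952996)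 (nat_lit 210) (nat_lit 5) (nat_lit 218) (nat_lit 5) (nat_lit 211) (nat_lit 5) (nat_lit 374) (nat_lit 336) (nat_lit 310))) (XT.nd (nat_lit 78) (nat_lit 456) (nat_lit 0) (XT.lf (nat_lit 0) (nat_lit 398703104) (nat_lit 608) (nat_lit 4730972543) (nat_lit 76) (nat_lit 2922161569) (nat_lit 202) (nat_lit 5) (nat_lit 210) (nat_lit 5) (nat_lit 203) (nat_lit 5) (nat_lit 375) (nat_lit 336) (nat_lit 309)) (XT.lf (nat_lit 0) (nat_lit 695429477) (nat_lit 456) (nat_lit 2461148610) (nat_lit 532) (nat_lit 4995562438) (nat_lit 196) (nat_lit 5) (nat_lit 202) (nat_lit 5) (nat_lit 203) (nat_lit 5) (nat_lit 376) (nat_lit 336) (nat_lit 308))))) (XT.nd (nat_lit 312) (nat_lit 1444) (nat_lit 0) (XT.nd (nat_lit 156) (nat_lit 456) (nat_lit 0) (XT.nd (nat_lit 78) (nat_lit 608) (nat_lit 0) (XT.lf (nat_lit 0) (nat_lit 5982524767) (nat_lit 532) (nat_lit 1953728330) (nat_lit 76) (nat_lit 319666969) (nat_lit 196) (nat_lit 5) (nat_lit 203) (nat_lit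 5) (nat_lit 197) (nat_lit 5) (nat_lit 377) (nat_lit 336) (nat_lit 307)) (XT.lf (nat_lit 0) (nat_lit 516060641) (nat_lit 608) (nat_lit 4681914815) (nat_lit 76) (nat_lit 3164830971) (nat_lit 188) (nat_lit 5) (nat_lit 196) (nat_lit 5) (nat_lit 189) (nat_lit 5) (nat_lit 378) (nat_lit 336) (nat_lit 306))) (XT.nd (nat_lit 78) (nat_lit 0) (nat_lit 0) (XT.lf (nat_lit 0) (nat_lit 972216061) (nat_lit 456) (nat_lit 2337290058) (nat_lit 532) (nat_lit 5163762918) (nat_lit 182) (nat_lit 5) (nat_lit 188) (nat_lit 5) (nat_lit 189) (nat_lit 5) (nat_lit 379) (nat_lit 336) (nat_lit 305)) (XT.lf (nat_lit 0) (nat_lit 6178073516) (nat_lit 532) (nat_lit 1777360386) (nat_lit 76) (nat_lit 631896230) (nat_lit 182) (nat_lit 5) (nat_lit 189) (nat_lit 5) (nat_lit 183) (nat_lit 5) (nat_lit 380) (nat_lit 336) (nat_lit 304)))) (XT.nd (nat_lit 156) (nat_lit 532) (nat_lit 0) (XT.nd (nat_lit 78) (nat_lit 380) (nat_lit 0) (XT.lf (nat_lit 0) (nat_lit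 421614426) (nat_lit 532) (nat_lit 4609105585) (nat_lit 76) (nat_lit 3673930060) (nat_lit 175) (nat_lit 5) (nat_lit 182) (nat_lit 5) (nat_lit 176) (nat_lit 5) (nat_lit 381) (nat_lit 336) (nat_lit 303)) (XT.lf (nat_lit 0) (nat_lit 1281512624) (nat_lit 380) (nat_lit 1977885503) (nat_lit 456) (nat_lit 5566285667) (nat_lit 170) (nat_lit 5) (nat_lit 175) (nat_lit 5) (nat_lit 176) (nat_lit 5) (nat_lit 382) (nat_lit 336) (nat_lit 302))) (XT.nd (nat_lit 78) (nat_lit 532) (nat_lit 0) (XT.lf (nat_lit 0) (nat_lit 6181375410) (nat_lit 456) (nat_lit 1593775418) (nat_lit 76) (nat_lit 1175247369) (nat_lit 170) (nat_lit 5) (nat_lit 176) (nat_lit 5) (nat_lit 171) (nat_lit 5) (nat_lit 383) (nat_lit 336) (nat_lit 301)) (XT.lf (nat_lit 0) (nat_lit 115696330) (nat_lit 532) (nat_lit 4550151593) (nat_lit 76) (nat_lit 4412822193) (nat_lit 163) (nat_lit 5) (nat_lit 170) (nat_lit 5) (nat_lit 164) (nat_lit 5) (nat_lit 384) (nat_lit 336)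 (nat_lit 300))))))))
noncomputable def xc91 : XT := (XT.nd (nat_lit 2184) (nat_lit 2964) (nat_lit 0) (XT.nd (nat_lit 1092) (nat_lit 2508) (nat_lit 0) (XT.nd (nat_lit 546) (nat_lit 1444) (nat_lit 0) (XT.nd (nat_lit 234) (nat_lit 1216) (nat_lit 0) (XT.nd (nat_lit 78) (nat_lit 380) (nat_lit 0) (XT.lf (nat_lit 0) (nat_lit 1585528826) (nat_lit 380) (nat_lit 1420221047) (nat_lit 456) (nat_lit 6205004061) (nat_lit 158) (nat_lit 5) (nat_lit 163) (nat_lit 5) (nat_lit 164) (nat_lit 5) (nat_lit 385) (nat_lit 336) (nat_lit 299)) (XT.nd (nat_lit 78) (nat_lit 380) (nat_lit 0) (XT.lf (nat_lit 0) (nat_lit 5991122621) (nat_lit 456) (nat_lit 1441284434) (nat_lit 76) (nat_lit 1914153759) (nat_lit 158) (nat_lit 5) (nat_lit 164) (nat_lit 5) (nat_lit 159) (nat_lit 5) (nat_lit 386) (nat_lit 336) (nat_lit 298)) (XT.lf (nat_lit 0) (nat_lit 4937175239) (nat_lit 380) (nat_lit 4135773098) (nat_lit 456) (nat_lit 413305331) (nat_lit 153)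 (nat_lit 5) (nat_lit 158) (nat_lit 5) (nat_lit 159) (nat_lit 5) (nat_lit 387) (nat_lit 336) (nat_lit 297)))) (XT.nd (nat_lit 156) (nat_lit 760) (nat_lit 0) (XT.nd (nat_lit 78) (nat_lit 0) (nat_lit 0) (XT.lf (nat_lit 0) (nat_lit 1843852860) (nat_lit 380) (nat_lit 700307276) (nat_lit 456) (nat_lit 7085895789) (nat_lit 147) (nat_lit 5) (nat_lit 152) (nat_lit 5) (nat_lit 153) (nat_lit 5) (nat_lit 388) (nat_lit 336) (nat_lit 296)) (XT.lf (nat_lit 0) (nat_lit 5602124124) (nat_lit 456) (nat_lit 1361168393) (nat_lit 76) (nat_lit 2814171469) (nat_lit 147) (nat_lit 5) (nat_lit 153) (nat_lit 5) (nat_lit 148) (nat_lit 5) (nat_lit 389) (nat_lit 336) (nat_lit 295))) (XT.nd (nat_lit 78) (nat_lit 380) (nat_lit 0) (XT.lf (nat_lit 0) (nat_lit 5280523380) (nat_lit 380) (nat_lit 3476965222) (nat_lit 456) (nat_lit 1171652297) (nat_lit 142) (nat_lit 5) (nat_lit 147) (nat_lit 5) (nat_lit 148) (nat_lit 5) (nat_lit 390) (nat_lit 336)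 (nat_lit 294)) (XT.lf (nat_lit 0) (nat_lit 1867545870) (nat_lit 380) (nat_lit 8074259274) (nat_lit 76) (nat_lit 143536938) (nat_lit 137) (nat_lit 5) (nat_lit 142) (nat_lit 5) (nat_lit 138) (nat_lit 5) (nat_lit 391) (nat_lit 336) (nat_lit 293))))) (XT.nd (nat_lit 234) (nat_lit 684) (nat_lit 0) (XT.nd (nat_lit 78) (nat_lit 760) (nat_lit 0) (XT.lf (nat_lit 0) (nat_lit 5005091903) (nat_lit 380) (nat_lit 1398614926) (nat_lit 76) (nat_lit 3841267887) (nat_lit 137) (nat_lit 5) (nat_lit 142) (nat_lit 5) (nat_lit 138) (nat_lit 5) (nat_lit 392) (nat_lit 336) (nat_lit 292)) (XT.nd (nat_lit 78) (nat_lit 380) (nat_lit 0) (XT.lf (nat_lit 0) (nat_lit 5513855641) (nat_lit 380) (nat_lit 2726288782) (nat_lit 456) (nat_lit 2169165122) (nat_lit 132) (nat_lit 5) (nat_lit 137) (nat_lit 5) (nat_lit 138) (nat_lit 5) (nat_lit 393) (nat_lit 336) (nat_lit 291)) (XT.lf (nat_lit 0) (nat_lit 969257458) (nat_lit 380) (nat_lit 8546129500)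 (nat_lit 76) (nat_lit 1063065482) (nat_lit 127) (nat_lit 5) (nat_lit 132) (nat_lit 5) (nat_lit 128) (nat_lit 5) (nat_lit 394) (nat_lit 336) (nat_lit 290)))) (XT.nd (nat_lit 156) (nat_lit 380) (nat_lit 0) (XT.nd (nat_lit 78) (nat_lit 304) (nat_lit 0) (XT.lf (nat_lit 0) (nat_lit 4186347093) (nat_lit 380) (nat_lit 1603758426) (nat_lit 76) (nat_lit 4961089802) (nat_lit 127) (nat_lit 5) (nat_lit 132) (nat_lit 5) (nat_lit 128) (nat_lit 5) (nat_lit 395) (nat_lit 336) (nat_lit 289)) (XT.lf (nat_lit 0) (nat_lit 5586084874) (nat_lit 304) (nat_lit 1920178447) (nat_lit 380) (nat_lit 3422680739) (nat_lit 123) (nat_lit 5) (nat_lit 127) (nat_lit 5) (nat_lit 128) (nat_lit 5) (nat_lit 396) (nat_lit 336) (nat_lit 288))) (XT.nd (nat_lit 78) (nat_lit 76) (nat_lit 0) (XT.lf (nat_lit 0) (nat_lit 1858898817) (nat_lit 304) (nat_lit 9074077323) (nat_lit 380) (nat_lit 178845760) (nat_lit 119) (nat_lit 5) (nat_lit 123) (nat_lit 5) (nat_lit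 124) (nat_lit 5) (nat_lit 397) (nat_lit 336) (nat_lit 287)) (XT.lf (nat_lit 0) (nat_lit 3127438395) (nat_lit 380) (nat_lit 2032845482) (nat_lit 76) (nat_lit 6138196882) (nat_lit 118) (nat_lit 5) (nat_lit 123) (nat_lit 5) (nat_lit 119) (nat_lit 5) (nat_lit 398) (nat_lit 336) (nat_lit 286)))))) (XT.nd (nat_lit 546) (nat_lit 1064) (nat_lit 0) (XT.nd (nat_lit 234) (nat_lit 836) (nat_lit 0) (XT.nd (nat_lit 78) (nat_lit 304) (nat_lit 0) (XT.lf (nat_lit 0) (nat_lit 5439700125) (nat_lit 304) (nat_lit 1096608794) (nat_lit 380) (nat_lit 4954179110) (nat_lit 114) (nat_lit 5) (nat_lit 118) (nat_lit 5) (nat_lit 119) (nat_lit 5) (nat_lit 399) (nat_lit 336) (nat_lit 285)) (XT.nd (nat_lit 78) (nat_lit 76) (nat_lit 0) (XT.lf (nat_lit 0) (nat_lit 1419285728) (nat_lit 228) (nat_lit 8647373855) (nat_lit 304) (nat_lit 1621030719) (nat_lit 111) (nat_lit 5) (nat_lit 114) (nat_lit 5) (nat_lit 115) (nat_lit 5) (nat_lit 400) (nat_lit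 336) (nat_lit 284)) (XT.lf (nat_lit 0) (nat_lit 1804663334) (nat_lit 304) (nat_lit 2749550517) (nat_lit 76) (nat_lit 7335245417) (nat_lit 110) (nat_lit 5) (nat_lit 114) (nat_lit 5) (nat_lit 111) (nat_lit 5) (nat_lit 401) (nat_lit 336) (nat_lit 283)))) (XT.nd (nat_lit 156) (nat_lit 304) (nat_lit 0) (XT.nd (nat_lit 78) (nat_lit 228) (nat_lit 0) (XT.lf (nat_lit 0) (nat_lit 5009395859) (nat_lit 304) (nat_lit 295953622) (nat_lit 380) (nat_lit 6791316511) (nat_lit 106) (nat_lit 5) (nat_lit 110) (nat_lit 5) (nat_lit 111) (nat_lit 5) (nat_lit 402) (nat_lit 336) (nat_lit 282)) (XT.lf (nat_lit 0) (nat_lit 653805455) (nat_lit 228) (nat_lit 8287935203) (nat_lit 304) (nat_lit 3367437681) (nat_lit 103) (nat_lit 5) (nat_lit 106) (nat_lit 5) (nat_lit 107) (nat_lit 5) (nat_lit 403) (nat_lit 336) (nat_lit 281))) (XT.nd (nat_lit 78) (nat_lit 228) (nat_lit 0) (XT.lf (nat_lit 0) (nat_lit 188480867) (nat_lit 304) (nat_lit 3826469954)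 (nat_lit 76) (nat_lit 8512105850) (nat_lit 102) (nat_lit 5) (nat_lit 106) (nat_lit 5) (nat_lit 103) (nat_lit 5) (nat_lit 404) (nat_lit 336) (nat_lit 280)) (XT.lf (nat_lit 0) (nat_lit 3786644725) (nat_lit 304) (nat_lit 8534207125) (nat_lit 76) (nat_lit 429530886) (nat_lit 99) (nat_lit 5) (nat_lit 103) (nat_lit 5) (nat_lit 100) (nat_lit 5) (nat_lit 405) (nat_lit 336) (nat_lit 279))))) (XT.nd (nat_lit 234) (nat_lit 532) (nat_lit 0) (XT.nd (nat_lit 78) (nat_lit 532) (nat_lit 0) (XT.lf (nat_lit 0) (nat_lit 7530347161) (nat_lit 304) (nat_lit 507007428) (nat_lit 76) (nat_lit 4941935029) (nat_lit 99) (nat_lit 5) (nat_lit 103) (nat_lit 5) (nat_lit 100) (nat_lit 5) (nat_lit 406) (nat_lit 336) (nat_lit 278)) (XT.nd (nat_lit 78) (nat_lit 304) (nat_lit 0) (XT.lf (nat_lit 0) (nat_lit 7849953291) (nat_lit 228) (nat_lit 3571884631) (nat_lit 304) (nat_lit 1792170056) (nat_lit 96) (nat_lit 5) (nat_lit 99) (nat_lit 5) (nat_lit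 100) (nat_lit 5) (nat_lit 407) (nat_lit 336) (nat_lit 277)) (XT.lf (nat_lit 0) (nat_lit 1940003321) (nat_lit 304) (nat_lit 10478291283) (nat_lit 76) (nat_lit 1036785322) (nat_lit 92) (nat_lit 5) (nat_lit 96) (nat_lit 5) (nat_lit 93) (nat_lit 5) (nat_lit 408) (nat_lit 336) (nat_lit 276)))) (XT.nd (nat_lit 156) (nat_lit 304) (nat_lit 0) (XT.nd (nat_lit 78) (nat_lit 228) (nat_lit 0) (XT.lf (nat_lit 0) (nat_lit 5798673703) (nat_lit 304) (nat_lit 2142315799) (nat_lit 76) (nat_lit 5760353483) (nat_lit 92) (nat_lit 5) (nat_lit 96) (nat_lit 5) (nat_lit 93) (nat_lit 5) (nat_lit 409) (nat_lit 336) (nat_lit 275)) (XT.lf (nat_lit 0) (nat_lit 6507890417) (nat_lit 228) (nat_lit 3289407252) (nat_lit 304) (nat_lit 4156978093) (nat_lit 89) (nat_lit 5) (nat_lit 92) (nat_lit 5) (nat_lit 93) (nat_lit 5) (nat_lit 410) (nat_lit 336) (nat_lit 274))) (XT.nd (nat_lit 78) (nat_lit 76) (nat_lit 0) (XT.lf (nat_lit 0) (nat_lit 1192864859)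 (nat_lit 228) (nat_lit 12732685457) (nat_lit 304) (nat_lit 288963515) (nat_lit 86) (nat_lit 5) (nat_lit 89) (nat_lit 5) (nat_lit 90) (nat_lit 5) (nat_lit 411) (nat_lit 336) (nat_lit 273)) (XT.lf (nat_lit 0) (nat_lit 3693543429) (nat_lit 304) (nat_lit 4368475967) (nat_lit 76) (nat_lit 6417364349) (nat_lit 85) (nat_lit 5) (nat_lit 89) (nat_lit 5) (nat_lit 86) (nat_lit 5) (nat_lit 412) (nat_lit 336) (nat_lit 272))))))) (XT.nd (nat_lit 1092) (nat_lit 1368) (nat_lit 0) (XT.nd (nat_lit 546) (nat_lit 684) (nat_lit 0) (XT.nd (nat_lit 234) (nat_lit 456) (nat_lit 0) (XT.nd (nat_lit 78) (nat_lit 304) (nat_lit 0) (XT.lf (nat_lit 0) (nat_lit 4569158398) (nat_lit 152) (nat_lit 3227635898) (nat_lit 228) (nat_lit 6955114111) (nat_lit 83) (nat_lit 5) (nat_lit 85) (nat_lit 5) (nat_lit 86) (nat_lit 5) (nat_lit 413) (nat_lit 336) (nat_lit 271)) (XT.nd (nat_lit 78) (nat_lit 304) (nat_lit 0) (XT.lf (nat_lit 0) (nat_lit 12047939858)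 (nat_lit 228) (nat_lit 1245783349) (nat_lit 76) (nat_lit 1738148270) (nat_lit 83) (nat_lit 5) (nat_lit 86) (nat_lit 5) (nat_lit 84) (nat_lit 5) (nat_lit 414) (nat_lit 336) (nat_lit 270)) (XT.lf (nat_lit 0) (nat_lit 1159081358) (nat_lit 304) (nat_lit 7305379883) (nat_lit 76) (nat_lit 6853230804) (nat_lit 79) (nat_lit 5) (nat_lit 83) (nat_lit 5) (nat_lit 80) (nat_lit 5) (nat_lit 415) (nat_lit 336) (nat_lit 269)))) (XT.nd (nat_lit 156) (nat_lit 304) (nat_lit 0) (XT.nd (nat_lit 78) (nat_lit 0) (nat_lit 0) (XT.lf (nat_lit 0) (nat_lit 1909551850) (nat_lit 152) (nat_lit 3452504477) (nat_lit 228) (nat_lit 10249281242) (nat_lit 77) (nat_lit 5) (nat_lit 79) (nat_lit 5) (nat_lit 80) (nat_lit 5) (nat_lit 416) (nat_lit 336) (nat_lit 268)) (XT.lf (nat_lit 0) (nat_lit 9746866983) (nat_lit 228) (nat_lit 4438311599) (nat_lit 76) (nat_lit 1726947329) (nat_lit 77) (nat_lit 5) (nat_lit 80) (nat_lit 5) (nat_lit 78) (nat_lit 5) (nat_lit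 417) (nat_lit 336) (nat_lit 267))) (XT.nd (nat_lit 78) (nat_lit 76) (nat_lit 0) (XT.lf (nat_lit 0) (nat_lit 5110104189) (nat_lit 228) (nat_lit 9202257654) (nat_lit 304) (nat_lit 1908107542) (nat_lit 74) (nat_lit 5) (nat_lit 77) (nat_lit 5) (nat_lit 78) (nat_lit 5) (nat_lit 418) (nat_lit 336) (nat_lit 266)) (XT.lf (nat_lit 0) (nat_lit 2439624096) (nat_lit 304) (nat_lit 1583622711) (nat_lit 76) (nat_lit 12513771578) (nat_lit 73) (nat_lit 5) (nat_lit 77) (nat_lit 5) (nat_lit 74) (nat_lit 5) (nat_lit 419) (nat_lit 336) (nat_lit 265))))) (XT.nd (nat_lit 234) (nat_lit 380) (nat_lit 0) (XT.nd (nat_lit 78) (nat_lit 152) (nat_lit 0) (XT.lf (nat_lit 0) (nat_lit 6939648544) (nat_lit 228) (nat_lit 8559054950) (nat_lit 76) (nat_lit 1361992435) (nat_lit 71) (nat_lit 5) (nat_lit 74) (nat_lit 5) (nat_lit 72) (nat_lit 5) (nat_lit 420) (nat_lit 336) (nat_lit 264)) (XT.nd (nat_lit 78) (nat_lit 0) (nat_lit 0) (XT.lf (nat_lit 0)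 (nat_lit 1249615467) (nat_lit 152) (nat_lit 10360174687) (nat_lit 228) (nat_lit 5583245196) (nat_lit 69) (nat_lit 5) (nat_lit 71) (nat_lit 5) (nat_lit 72) (nat_lit 5) (nat_lit 421) (nat_lit 336) (nat_lit 263)) (XT.lf (nat_lit 0) (nat_lit 11471460203) (nat_lit 152) (nat_lit 5002540081) (nat_lit 228) (nat_lit 1059730640) (nat_lit 69) (nat_lit 5) (nat_lit 71) (nat_lit 5) (nat_lit 72) (nat_lit 5) (nat_lit 422) (nat_lit 336) (nat_lit 262)))) (XT.nd (nat_lit 156) (nat_lit 152) (nat_lit 0) (XT.nd (nat_lit 78) (nat_lit 0) (nat_lit 0) (XT.lf (nat_lit 0) (nat_lit 3542340338) (nat_lit 228) (nat_lit 13783557208) (nat_lit 76) (nat_lit 557323720) (nat_lit 66) (nat_lit 5) (nat_lit 69) (nat_lit 5) (nat_lit 67) (nat_lit 5) (nat_lit 423) (nat_lit 336) (nat_lit 261)) (XT.lf (nat_lit 0) (nat_lit 8340862996) (nat_lit 228) (nat_lit 3666967286) (nat_lit 76) (nat_lit 6232665075) (nat_lit 66) (nat_lit 5) (nat_lit 69) (nat_lit 5) (nat_lit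 67) (nat_lit 5) (nat_lit 424) (nat_lit 336) (nat_lit 260))) (XT.nd (nat_lit 78) (nat_lit 0) (nat_lit 0) (XT.lf (nat_lit 0) (nat_lit 6832360435) (nat_lit 152) (nat_lit 6485915813) (nat_lit 228) (nat_lit 5289167725) (nat_lit 64) (nat_lit 5) (nat_lit 66) (nat_lit 5) (nat_lit 67) (nat_lit 5) (nat_lit 425) (nat_lit 336) (nat_lit 259)) (XT.lf (nat_lit 0) (nat_lit 17668283596) (nat_lit 152) (nat_lit 783396174) (nat_lit 228) (nat_lit 533525467) (nat_lit 64) (nat_lit 5) (nat_lit 66) (nat_lit 5) (nat_lit 67) (nat_lit 5) (nat_lit 426) (nat_lit 336) (nat_lit 258)))))) (XT.nd (nat_lit 546) (nat_lit 608) (nat_lit 0) (XT.nd (nat_lit 234) (nat_lit 380) (nat_lit 0) (XT.nd (nat_lit 78) (nat_lit 152) (nat_lit 0) (XT.lf (nat_lit 0) (nat_lit 4391644280) (nat_lit 228) (nat_lit 9874490667) (nat_lit 76) (nat_lit 5103548736) (nat_lit 61) (nat_lit 5) (nat_lit 64) (nat_lit 5) (nat_lit 62) (nat_lit 5) (nat_lit 427) (nat_lit 336) (nat_lit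 257)) (XT.nd (nat_lit 78) (nat_lit 0) (nat_lit 0) (XT.lf (nat_lit 0) (nat_lit 843923790) (nat_lit 152) (nat_lit 8609596521) (nat_lit 228) (nat_lit 10312031328) (nat_lit 59) (nat_lit 5) (nat_lit 61) (nat_lit 5) (nat_lit 62) (nat_lit 5) (nat_lit 428) (nat_lit 336) (nat_lit 256)) (XT.lf (nat_lit 0) (nat_lit 12034082255) (nat_lit 152) (nat_lit 2703619999) (nat_lit 228) (nat_lit 5433483645) (nat_lit 59) (nat_lit 5) (nat_lit 61) (nat_lit 5) (nat_lit 62) (nat_lit 5) (nat_lit 429) (nat_lit 336) (nat_lit 255)))) (XT.nd (nat_lit 156) (nat_lit 152) (nat_lit 0) (XT.nd (nat_lit 78) (nat_lit 76) (nat_lit 0) (XT.lf (nat_lit 0) (nat_lit 2944583204) (nat_lit 152) (nat_lit 17267992420) (nat_lit 228) (nat_lit 375452229) (nat_lit 57) (nat_lit 5) (nat_lit 59) (nat_lit 5) (nat_lit 60) (nat_lit 4) (nat_lit 430) (nat_lit 336) (nat_lit 254)) (XT.lf (nat_lit 0) (nat_lit 4821172200) (nat_lit 228) (nat_lit 6614854059) (nat_lit 76) (nat_lit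 9577522515) (nat_lit 56) (nat_lit 5) (nat_lit 59) (nat_lit 5) (nat_lit 57) (nat_lit 5) (nat_lit 431) (nat_lit 336) (nat_lit 253))) (XT.nd (nat_lit 78) (nat_lit 0) (nat_lit 0) (XT.lf (nat_lit 0) (nat_lit 4784318858) (nat_lit 152) (nat_lit 5400088249) (nat_lit 228) (nat_lit 11266772290) (nat_lit 54) (nat_lit 5) (nat_lit 56) (nat_lit 5) (nat_lit 57) (nat_lit 5) (nat_lit 432) (nat_lit 336) (nat_lit 252)) (XT.lf (nat_lit 0) (nat_lit 15756239290) (nat_lit 228) (nat_lit 5297425620) (nat_lit 76) (nat_lit 846846261) (nat_lit 54) (nat_lit 5) (nat_lit 57) (nat_lit 5) (nat_lit 55) (nat_lit 4) (nat_lit 433) (nat_lit 336) (nat_lit 251))))) (XT.nd (nat_lit 312) (nat_lit 304) (nat_lit 0) (XT.nd (nat_lit 156) (nat_lit 152) (nat_lit 0) (XT.nd (nat_lit 78) (nat_lit 76) (nat_lit 0) (XT.lf (nat_lit 0) (nat_lit 6436644346) (nat_lit 76) (nat_lit 15147114480) (nat_lit 152) (nat_lit 776911243) (nat_lit 53) (nat_lit 5) (nat_lit 54) (nat_lit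 5) (nat_lit 55) (nat_lit 4) (nat_lit 434) (nat_lit 336) (nat_lit 250)) (XT.lf (nat_lit 0) (nat_lit 4686021460) (nat_lit 152) (nat_lit 4296547157) (nat_lit 76) (nat_lit 13849879774) (nat_lit 52) (nat_lit 5) (nat_lit 54) (nat_lit 5) (nat_lit 53) (nat_lit 5) (nat_lit 435) (nat_lit 336) (nat_lit 249))) (XT.nd (nat_lit 78) (nat_lit 0) (nat_lit 0) (XT.lf (nat_lit 0) (nat_lit 7776586582) (nat_lit 152) (nat_lit 2569419252) (nat_lit 228) (nat_lit 12970682974) (nat_lit 50) (nat_lit 5) (nat_lit 52) (nat_lit 5) (nat_lit 53) (nat_lit 5) (nat_lit 436) (nat_lit 336) (nat_lit 248)) (XT.lf (nat_lit 0) (nat_lit 16232533474) (nat_lit 228) (nat_lit 3600726006) (nat_lit 76) (nat_lit 3980497437) (nat_lit 50) (nat_lit 5) (nat_lit 53) (nat_lit 5) (nat_lit 51) (nat_lit 4) (nat_lit 437) (nat_lit 336) (nat_lit 247)))) (XT.nd (nat_lit 156) (nat_lit 152) (nat_lit 0) (XT.nd (nat_lit 78) (nat_lit 76) (nat_lit 0) (XT.lf (nat_lit 0) (nat_lit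 8797100215) (nat_lit 76) (nat_lit 13583442897) (nat_lit 152) (nat_lit 1942650085) (nat_lit 49) (nat_lit 5) (nat_lit 50) (nat_lit 5) (nat_lit 51) (nat_lit 4) (nat_lit 438) (nat_lit 336) (nat_lit 246)) (XT.lf (nat_lit 0) (nat_lit 3801308166) (nat_lit 152) (nat_lit 3289668282) (nat_lit 76) (nat_lit 17755474587) (nat_lit 48) (nat_lit 5) (nat_lit 50) (nat_lit 5) (nat_lit 49) (nat_lit 5) (nat_lit 439) (nat_lit 336) (nat_lit 245))) (XT.nd (nat_lit 78) (nat_lit 0) (nat_lit 0) (XT.lf (nat_lit 0) (nat_lit 9434041515) (nat_lit 152) (nat_lit 310843365) (nat_lit 228) (nat_lit 15637956833) (nat_lit 46) (nat_lit 5) (nat_lit 48) (nat_lit 5) (nat_lit 49) (nat_lit 5) (nat_lit 440) (nat_lit 336) (nat_lit 244)) (XT.lf (nat_lit 0) (nat_lit 15940208208) (nat_lit 228) (nat_lit 3436658809) (nat_lit 76) (nat_lit 6556256325) (nat_lit 46) (nat_lit 5) (nat_lit 49) (nat_lit 5) (nat_lit 47) (nat_lit 4) (nat_lit 441) (nat_lit 336) (nat_lit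 243))))))))
noncomputable def xc92 : XT := (XT.nd (nat_lit 2184) (nat_lit 684) (nat_lit 0) (XT.nd (nat_lit 1092) (nat_lit 608) (nat_lit 0) (XT.nd (nat_lit 546) (nat_lit 380) (nat_lit 0) (XT.nd (nat_lit 234) (nat_lit 304) (nat_lit 0) (XT.nd (nat_lit 78) (nat_lit 228) (nat_lit 0) (XT.lf (nat_lit 0) (nat_lit 9591479161) (nat_lit 76) (nat_lit 12801644426) (nat_lit 152) (nat_lit 4104640201) (nat_lit 45) (nat_lit 5) (nat_lit 46) (nat_lit 5) (nat_lit 47) (nat_lit 4) (nat_lit 442) (nat_lit 336) (nat_lit 242)) (XT.nd (nat_lit 78) (nat_lit 152) (nat_lit 0) (XT.lf (nat_lit 0) (nat_lit 1933572943) (nat_lit 152) (nat_lit 4060078258) (nat_lit 76) (nat_lit 21084782884) (nat_lit 44) (nat_lit 5) (nat_lit 46) (nat_lit 5) (nat_lit 45) (nat_lit 5) (nat_lit 443) (nat_lit 336) (nat_lit 241)) (XT.lf (nat_lit 0) (nat_lit 8147606501) (nat_lit 228) (nat_lit 18414683379) (nat_lit 76) (nat_lit 1110702353) (nat_lit 42) (nat_lit 5) (nat_lit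 45) (nat_lit 5) (nat_lit 43) (nat_lit 4) (nat_lit 444) (nat_lit 336) (nat_lit 240)))) (XT.nd (nat_lit 156) (nat_lit 228) (nat_lit 0) (XT.nd (nat_lit 78) (nat_lit 76) (nat_lit 0) (XT.lf (nat_lit 0) (nat_lit 14626066110) (nat_lit 228) (nat_lit 5326741952) (nat_lit 76) (nat_lit 8330240993) (nat_lit 42) (nat_lit 5) (nat_lit 45) (nat_lit 5) (nat_lit 43) (nat_lit 4) (nat_lit 445) (nat_lit 336) (nat_lit 239)) (XT.lf (nat_lit 0) (nat_lit 8274218904) (nat_lit 76) (nat_lit 13082117070) (nat_lit 152) (nat_lit 7553349929) (nat_lit 41) (nat_lit 5) (nat_lit 42) (nat_lit 5) (nat_lit 43) (nat_lit 4) (nat_lit 446) (nat_lit 336) (nat_lit 238))) (XT.nd (nat_lit 78) (nat_lit 228) (nat_lit 0) (XT.lf (nat_lit 0) (nat_lit 22351725681) (nat_lit 76) (nat_lit 5968749634) (nat_lit 152) (nat_lit 1233689660) (nat_lit 41) (nat_lit 5) (nat_lit 42) (nat_lit 5) (nat_lit 43) (nat_lit 4) (nat_lit 447) (nat_lit 336) (nat_lit 237)) (XT.lf (nat_lit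 0) (nat_lit 5229370942) (nat_lit 228) (nat_lit 23556024145) (nat_lit 76) (nat_lit 1429361149) (nat_lit 38) (nat_lit 5) (nat_lit 41) (nat_lit 5) (nat_lit 39) (nat_lit 4) (nat_lit 448) (nat_lit 336) (nat_lit 236))))) (XT.nd (nat_lit 234) (nat_lit 304) (nat_lit 0) (XT.nd (nat_lit 78) (nat_lit 76) (nat_lit 0) (XT.lf (nat_lit 0) (nat_lit 11972737293) (nat_lit 228) (nat_lit 9921620829) (nat_lit 76) (nat_lit 8997106168) (nat_lit 38) (nat_lit 5) (nat_lit 41) (nat_lit 5) (nat_lit 39) (nat_lit 4) (nat_lit 449) (nat_lit 336) (nat_lit 235)) (XT.nd (nat_lit 78) (nat_lit 0) (nat_lit 0) (XT.lf (nat_lit 0) (nat_lit 4164251125) (nat_lit 76) (nat_lit 14773467031) (nat_lit 152) (nat_lit 12650177763) (nat_lit 37) (nat_lit 5) (nat_lit 38) (nat_lit 5) (nat_lit 39) (nat_lit 4) (nat_lit 450) (nat_lit 336) (nat_lit 234)) (XT.lf (nat_lit 0) (nat_lit 18837640358) (nat_lit 76) (nat_lit 7353715040) (nat_lit 152) (nat_lit 6111475582) (nat_lit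 37) (nat_lit 5) (nat_lit 38) (nat_lit 5) (nat_lit 39) (nat_lit 4) (nat_lit 451) (nat_lit 336) (nat_lit 233)))) (XT.nd (nat_lit 156) (nat_lit 76) (nat_lit 0) (XT.nd (nat_lit 78) (nat_lit 0) (nat_lit 0) (XT.lf (nat_lit 0) (nat_lit 602400513) (nat_lit 228) (nat_lit 32156549902) (nat_lit 76) (nat_lit 280350176) (nat_lit 34) (nat_lit 5) (nat_lit 37) (nat_lit 5) (nat_lit 35) (nat_lit 4) (nat_lit 452) (nat_lit 336) (nat_lit 232)) (XT.lf (nat_lit 0) (nat_lit 7584959441) (nat_lit 228) (nat_lit 18029079919) (nat_lit 76) (nat_lit 8176308152) (nat_lit 34) (nat_lit 5) (nat_lit 37) (nat_lit 5) (nat_lit 35) (nat_lit 4) (nat_lit 453) (nat_lit 336) (nat_lit 231))) (XT.nd (nat_lit 78) (nat_lit 76) (nat_lit 0) (XT.lf (nat_lit 0) (nat_lit 14757552240) (nat_lit 228) (nat_lit 3514468616) (nat_lit 76) (nat_lit 16292489774) (nat_lit 34) (nat_lit 5) (nat_lit 37) (nat_lit 5) (nat_lit 35) (nat_lit 4) (nat_lit 454) (nat_lit 336) (nat_lit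 230)) (XT.lf (nat_lit 0) (nat_lit 11626848368) (nat_lit 76) (nat_lit 10611362236) (nat_lit 152) (nat_lit 13120902861) (nat_lit 33) (nat_lit 5) (nat_lit 34) (nat_lit 5) (nat_lit 35) (nat_lit 4) (nat_lit 455) (nat_lit 336) (nat_lit 229)))))) (XT.nd (nat_lit 546) (nat_lit 304) (nat_lit 0) (XT.nd (nat_lit 234) (nat_lit 152) (nat_lit 0) (XT.nd (nat_lit 78) (nat_lit 152) (nat_lit 0) (XT.lf (nat_lit 0) (nat_lit 27259182836) (nat_lit 76) (nat_lit 2700929339) (nat_lit 152) (nat_lit 6216938921) (nat_lit 33) (nat_lit 5) (nat_lit 34) (nat_lit 5) (nat_lit 35) (nat_lit 4) (nat_lit 456) (nat_lit 336) (nat_lit 228)) (XT.nd (nat_lit 78) (nat_lit 0) (nat_lit 0) (XT.lf (nat_lit 0) (nat_lit 973033689) (nat_lit 152) (nat_lit 30647765411) (nat_lit 76) (nat_lit 5395581107) (nat_lit 31) (nat_lit 5) (nat_lit 33) (nat_lit 5) (nat_lit 32) (nat_lit 4) (nat_lit 457) (nat_lit 336) (nat_lit 227)) (XT.lf (nat_lit 0) (nat_lit 8353183071) (nat_lit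 152) (nat_lit 15705528311) (nat_lit 76) (nat_lit 13817349532) (nat_lit 31) (nat_lit 5) (nat_lit 33) (nat_lit 5) (nat_lit 32) (nat_lit 4) (nat_lit 458) (nat_lit 336) (nat_lit 226)))) (XT.nd (nat_lit 156) (nat_lit 76) (nat_lit 0) (XT.nd (nat_lit 78) (nat_lit 76) (nat_lit 0) (XT.lf (nat_lit 0) (nat_lit 15937014058) (nat_lit 152) (nat_lit 348668051) (nat_lit 76) (nat_lit 22476382875) (nat_lit 31) (nat_lit 5) (nat_lit 33) (nat_lit 5) (nat_lit 32) (nat_lit 4) (nat_lit 459) (nat_lit 336) (nat_lit 225)) (XT.lf (nat_lit 0) (nat_lit 15743445306) (nat_lit 76) (nat_lit 8139043622) (nat_lit 152) (nat_lit 15788137603) (nat_lit 30) (nat_lit 5) (nat_lit 31) (nat_lit 5) (nat_lit 32) (nat_lit 4) (nat_lit 460) (nat_lit 336) (nat_lit 224))) (XT.nd (nat_lit 78) (nat_lit 76) (nat_lit 0) (XT.lf (nat_lit 0) (nat_lit 32055142333) (nat_lit 152) (nat_lit 8316035199) (nat_lit 0) (nat_lit 235604147) (nat_lit 30) (nat_lit 5) (nat_lit 32)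 (nat_lit 4) (nat_lit 30) (nat_lit 4) (nat_lit 461) (nat_lit 336) (nat_lit 223)) (XT.lf (nat_lit 0) (nat_lit 7803377138) (nat_lit 76) (nat_lit 32808529789) (nat_lit 76) (nat_lit 954947759) (nat_lit 29) (nat_lit 4) (nat_lit 30) (nat_lit 5) (nat_lit 30) (nat_lit 4) (nat_lit 462) (nat_lit 336) (nat_lit 222))))) (XT.nd (nat_lit 234) (nat_lit 152) (nat_lit 0) (XT.nd (nat_lit 78) (nat_lit 76) (nat_lit 0) (XT.lf (nat_lit 0) (nat_lit 6803755142) (nat_lit 152) (nat_lit 18075011366) (nat_lit 76) (nat_lit 17672938539) (nat_lit 28) (nat_lit 5) (nat_lit 30) (nat_lit 5) (nat_lit 29) (nat_lit 4) (nat_lit 463) (nat_lit 336) (nat_lit 221)) (XT.nd (nat_lit 78) (nat_lit 76) (nat_lit 0) (XT.lf (nat_lit 0) (nat_lit 14759865416) (nat_lit 152) (nat_lit 1956197096) (nat_lit 76) (nat_lit 26850240618) (nat_lit 28) (nat_lit 5) (nat_lit 30) (nat_lit 5) (nat_lit 29) (nat_lit 4) (nat_lit 464) (nat_lit 336) (nat_lit 220)) (XT.lf (nat_lit 0)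 (nat_lit 14907120822) (nat_lit 76) (nat_lit 8175145017) (nat_lit 152) (nat_lit 21525246136) (nat_lit 27) (nat_lit 5) (nat_lit 28) (nat_lit 5) (nat_lit 29) (nat_lit 4) (nat_lit 465) (nat_lit 336) (nat_lit 219)))) (XT.nd (nat_lit 156) (nat_lit 76) (nat_lit 0) (XT.nd (nat_lit 78) (nat_lit 76) (nat_lit 0) (XT.lf (nat_lit 0) (nat_lit 31664613078) (nat_lit 152) (nat_lit 13399090032) (nat_lit 0) (nat_lit 615946722) (nat_lit 27) (nat_lit 5) (nat_lit 29) (nat_lit 4) (nat_lit 27) (nat_lit 4) (nat_lit 466) (nat_lit 336) (nat_lit 218)) (XT.lf (nat_lit 0) (nat_lit 3346494391) (nat_lit 76) (nat_lit 37255849274) (nat_lit 76) (nat_lit 6178671735) (nat_lit 26) (nat_lit 4) (nat_lit 27) (nat_lit 5) (nat_lit 27) (nat_lit 4) (nat_lit 467) (nat_lit 336) (nat_lit 217))) (XT.nd (nat_lit 78) (nat_lit 0) (nat_lit 0) (XT.lf (nat_lit 0) (nat_lit 1977311496) (nat_lit 152) (nat_lit 27090915961) (nat_lit 76) (nat_lit 18843005681) (nat_lit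 25) (nat_lit 5) (nat_lit 27) (nat_lit 5) (nat_lit 26) (nat_lit 4) (nat_lit 468) (nat_lit 336) (nat_lit 216)) (XT.lf (nat_lit 0) (nat_lit 10239049346) (nat_lit 152) (nat_lit 10346462649) (nat_lit 76) (nat_lit 28488453235) (nat_lit 25) (nat_lit 5) (nat_lit 27) (nat_lit 5) (nat_lit 26) (nat_lit 4) (nat_lit 469) (nat_lit 336) (nat_lit 215))))))) (XT.nd (nat_lit 1092) (nat_lit 152) (nat_lit 0) (XT.nd (nat_lit 546) (nat_lit 228) (nat_lit 0) (XT.nd (nat_lit 234) (nat_lit 228) (nat_lit 0) (XT.nd (nat_lit 78) (nat_lit 0) (nat_lit 0) (XT.lf (nat_lit 0) (nat_lit 7009646626) (nat_lit 76) (nat_lit 11792063334) (nat_lit 152) (nat_lit 31468278063) (nat_lit 24) (nat_lit 5) (nat_lit 25) (nat_lit 5) (nat_lit 26) (nat_lit 4) (nat_lit 470) (nat_lit 336) (nat_lit 214)) (XT.nd (nat_lit 78) (nat_lit 0) (nat_lit 0) (XT.lf (nat_lit 0) (nat_lit 25071339660) (nat_lit 76) (nat_lit 2640234758) (nat_lit 152) (nat_lit 23787608192) (nat_lit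 24) (nat_lit 5) (nat_lit 25) (nat_lit 5) (nat_lit 26) (nat_lit 4) (nat_lit 471) (nat_lit 336) (nat_lit 213)) (XT.lf (nat_lit 0) (nat_lit 36940103075) (nat_lit 152) (nat_lit 9182293448) (nat_lit 0) (nat_lit 6641316271) (nat_lit 24) (nat_lit 5) (nat_lit 26) (nat_lit 4) (nat_lit 24) (nat_lit 4) (nat_lit 472) (nat_lit 336) (nat_lit 212)))) (XT.nd (nat_lit 156) (nat_lit 76) (nat_lit 0) (XT.nd (nat_lit 78) (nat_lit 76) (nat_lit 0) (XT.lf (nat_lit 0) (nat_lit 8698302953) (nat_lit 76) (nat_lit 37843478453) (nat_lit 76) (nat_lit 7521509448) (nat_lit 23) (nat_lit 4) (nat_lit 24) (nat_lit 5) (nat_lit 24) (nat_lit 4) (nat_lit 473) (nat_lit 336) (nat_lit 211)) (XT.lf (nat_lit 0) (nat_lit 1089755072) (nat_lit 152) (nat_lit 28132273198) (nat_lit 76) (nat_lit 26177125987) (nat_lit 22) (nat_lit 5) (nat_lit 24) (nat_lit 5) (nat_lit 23) (nat_lit 4) (nat_lit 474) (nat_lit 336) (nat_lit 210))) (XT.nd (nat_lit 78) (nat_lit 76) (nat_lit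 0) (XT.lf (nat_lit 0) (nat_lit 9795126601) (nat_lit 152) (nat_lit 10482220441) (nat_lit 76) (nat_lit 36495904808) (nat_lit 22) (nat_lit 5) (nat_lit 24) (nat_lit 5) (nat_lit 23) (nat_lit 4) (nat_lit 475) (nat_lit 336) (nat_lit 209)) (XT.lf (nat_lit 0) (nat_lit 7825599734) (nat_lit 76) (nat_lit 10998608233) (nat_lit 152) (nat_lit 39362488638) (nat_lit 21) (nat_lit 5) (nat_lit 22) (nat_lit 5) (nat_lit 23) (nat_lit 4) (nat_lit 476) (nat_lit 336) (nat_lit 208))))) (XT.nd (nat_lit 234) (nat_lit 152) (nat_lit 0) (XT.nd (nat_lit 78) (nat_lit 76) (nat_lit 0) (XT.lf (nat_lit 0) (nat_lit 26873329563) (nat_lit 76) (nat_lit 1344142894) (nat_lit 152) (nat_lit 31422273603) (nat_lit 21) (nat_lit 5) (nat_lit 22) (nat_lit 5) (nat_lit 23) (nat_lit 4) (nat_lit 477) (nat_lit 336) (nat_lit 207)) (XT.nd (nat_lit 78) (nat_lit 76) (nat_lit 0) (XT.lf (nat_lit 0) (nat_lit 37962920123) (nat_lit 152) (nat_lit 14750316137) (nat_lit 0) (nat_lit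 8421039836) (nat_lit 21) (nat_lit 5) (nat_lit 23) (nat_lit 4) (nat_lit 21) (nat_lit 4) (nat_lit 478) (nat_lit 336) (nat_lit 206)) (XT.lf (nat_lit 0) (nat_lit 3844926691) (nat_lit 76) (nat_lit 44194147613) (nat_lit 76) (nat_lit 14633418075) (nat_lit 20) (nat_lit 4) (nat_lit 21) (nat_lit 5) (nat_lit 21) (nat_lit 4) (nat_lit 479) (nat_lit 336) (nat_lit 205)))) (XT.nd (nat_lit 156) (nat_lit 76) (nat_lit 0) (XT.nd (nat_lit 78) (nat_lit 76) (nat_lit 0) (XT.lf (nat_lit 0) (nat_lit 23277559342) (nat_lit 76) (nat_lit 35277105823) (nat_lit 76) (nat_lit 5698076041) (nat_lit 20) (nat_lit 4) (nat_lit 21) (nat_lit 5) (nat_lit 21) (nat_lit 4) (nat_lit 480) (nat_lit 336) (nat_lit 204)) (XT.lf (nat_lit 0) (nat_lit 3425357113) (nat_lit 152) (nat_lit 22643322067) (nat_lit 76) (nat_lit 39811055068) (nat_lit 19) (nat_lit 5) (nat_lit 21) (nat_lit 5) (nat_lit 20) (nat_lit 4) (nat_lit 481) (nat_lit 336) (nat_lit 203))) (XT.nd (nat_lit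 78) (nat_lit 76) (nat_lit 0) (XT.lf (nat_lit 0) (nat_lit 12696736898) (nat_lit 152) (nat_lit 3839670839) (nat_lit 76) (nat_lit 51017774335) (nat_lit 19) (nat_lit 5) (nat_lit 21) (nat_lit 5) (nat_lit 20) (nat_lit 4) (nat_lit 482) (nat_lit 336) (nat_lit 202)) (XT.lf (nat_lit 0) (nat_lit 15815594807) (nat_lit 76) (nat_lit 6571788869) (nat_lit 152) (nat_lit 46887246434) (nat_lit 18) (nat_lit 5) (nat_lit 19) (nat_lit 5) (nat_lit 20) (nat_lit 4) (nat_lit 483) (nat_lit 336) (nat_lit 201)))))) (XT.nd (nat_lit 42432) (nat_lit 0) (nat_lit 25840) (XT.nd (nat_lit 234) (nat_lit 76) (nat_lit 0) (XT.nd (nat_lit 78) (nat_lit 76) (nat_lit 0) (XT.lf (nat_lit 0) (nat_lit 32432510189) (nat_lit 152) (nat_lit 34963306109) (nat_lit 0) (nat_lit 3648963017) (nat_lit 18) (nat_lit 5) (nat_lit 20) (nat_lit 4) (nat_lit 18) (nat_lit 4) (nat_lit 484) (nat_lit 336) (nat_lit 200)) (XT.nd (nat_lit 78) (nat_lit 76) (nat_lit 0) (XT.lf (nat_lit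 0) (nat_lit 42833490481) (nat_lit 152) (nat_lit 15998290889) (nat_lit 0) (nat_lit 14034617143) (nat_lit 18) (nat_lit 5) (nat_lit 20) (nat_lit 4) (nat_lit 18) (nat_lit 4) (nat_lit 485) (nat_lit 336) (nat_lit 199)) (XT.lf (nat_lit 0) (nat_lit 3585724175) (nat_lit 76) (nat_lit 49984984732) (nat_lit 76) (nat_lit 21171231622) (nat_lit 17) (nat_lit 4) (nat_lit 18) (nat_lit 5) (nat_lit 18) (nat_lit 4) (nat_lit 486) (nat_lit 336) (nat_lit 198)))) (XT.nd (nat_lit 156) (nat_lit 76) (nat_lit 0) (XT.nd (nat_lit 78) (nat_lit 0) (nat_lit 0) (XT.lf (nat_lit 0) (nat_lit 24065483270) (nat_lit 76) (nat_lit 40715961740) (nat_lit 76) (nat_lit 11887762249) (nat_lit 17) (nat_lit 4) (nat_lit 18) (nat_lit 5) (nat_lit 18) (nat_lit 4) (nat_lit 487) (nat_lit 336) (nat_lit 197)) (XT.lf (nat_lit 0) (nat_lit 45140483972) (nat_lit 76) (nat_lit 31178164618) (nat_lit 76) (nat_lit 2335939514) (nat_lit 17) (nat_lit 4) (nat_lit 18) (nat_lit 5)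 (nat_lit 18) (nat_lit 4) (nat_lit 488) (nat_lit 336) (nat_lit 196))) (XT.nd (nat_lit 41964) (nat_lit 0) (nat_lit 27816) (XT.lf (nat_lit 0) (nat_lit 7346375557) (nat_lit 152) (nat_lit 13942699821) (nat_lit 76) (nat_lit 59408581784) (nat_lit 16) (nat_lit 5) (nat_lit 18) (nat_lit 5) (nat_lit 17) (nat_lit 4) (nat_lit 489) (nat_lit 336) (nat_lit 195)) (XT.lf (nat_lit 0) (nat_lit 352598143) (nat_lit 228) (nat_lit 1443866432) (nat_lit 228) (nat_lit 1443866432) (nat_lit 382) (nat_lit 4) (nat_lit 385) (nat_lit 5) (nat_lit 385) (nat_lit 4) (nat_lit 346) (nat_lit 337) (nat_lit 337))))) (XT.nd (nat_lit 312) (nat_lit 1140) (nat_lit 0) (XT.nd (nat_lit 156) (nat_lit 456) (nat_lit 0) (XT.nd (nat_lit 78) (nat_lit 304) (nat_lit 0) (XT.lf (nat_lit 0) (nat_lit 258476600) (nat_lit 304) (nat_lit 2178926140) (nat_lit 76) (nat_lit 4057726123) (nat_lit 381) (nat_lit 5) (nat_lit 385) (nat_lit 5) (nat_lit 382) (nat_lit 4) (nat_lit 347)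 (nat_lit 337) (nat_lit 336)) (XT.lf (nat_lit 0) (nat_lit 1453509874) (nat_lit 304) (nat_lit 1887391870) (nat_lit 380) (nat_lit 3171360261) (nat_lit 377) (nat_lit 5) (nat_lit 381) (nat_lit 5) (nat_lit 382) (nat_lit 4) (nat_lit 348) (nat_lit 337) (nat_lit 335))) (XT.nd (nat_lit 78) (nat_lit 456) (nat_lit 0) (XT.lf (nat_lit 0) (nat_lit 5168516900) (nat_lit 304) (nat_lit 1257823777) (nat_lit 380) (nat_lit 106335859) (nat_lit 377) (nat_lit 5) (nat_lit 381) (nat_lit 5) (nat_lit 382) (nat_lit 4) (nat_lit 349) (nat_lit 337) (nat_lit 334)) (XT.lf (nat_lit 0) (nat_lit 2387276983) (nat_lit 380) (nat_lit 517414867) (nat_lit 456) (nat_lit 3650803293) (nat_lit 371) (nat_lit 5) (nat_lit 376) (nat_lit 5) (nat_lit 377) (nat_lit 5) (nat_lit 350) (nat_lit 337) (nat_lit 333)))) (XT.nd (nat_lit 156) (nat_lit 608) (nat_lit 0) (XT.nd (nat_lit 78) (nat_lit 532) (nat_lit 0) (XT.lf (nat_lit 0) (nat_lit 5913671710) (nat_lit 456) (nat_lit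 377096835) (nat_lit 76) (nat_lit 290981949) (nat_lit 371) (nat_lit 5) (nat_lit 377) (nat_lit 5) (nat_lit 372) (nat_lit 4) (nat_lit 351) (nat_lit 337) (nat_lit 332)) (XT.lf (nat_lit 0) (nat_lit 2292047680) (nat_lit 532) (nat_lit 3113988789) (nat_lit 76) (nat_lit 1204090872) (nat_lit 364) (nat_lit 5) (nat_lit 371) (nat_lit 5) (nat_lit 365) (nat_lit 5) (nat_lit 352) (nat_lit 337) (nat_lit 331))) (XT.nd (nat_lit 78) (nat_lit 76) (nat_lit 0) (XT.lf (nat_lit 0) (nat_lit 789389016) (nat_lit 532) (nat_lit 4447441717) (nat_lit 608) (nat_lit 1405117939) (nat_lit 357) (nat_lit 5) (nat_lit 364) (nat_lit 5) (nat_lit 365) (nat_lit 5) (nat_lit 353) (nat_lit 337) (nat_lit 330)) (XT.lf (nat_lit 0) (nat_lit 1494928135) (nat_lit 608) (nat_lit 1890502367) (nat_lit 76) (nat_lit 3290975400) (nat_lit 356) (nat_lit 5) (nat_lit 364) (nat_lit 5) (nat_lit 357) (nat_lit 5) (nat_lit 354) (nat_lit 337) (nat_lit 329))))))))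
noncomputable def xc93 : XT := (XT.nd (nat_lit 2184) (nat_lit 6536) (nat_lit 0) (XT.nd (nat_lit 1092) (nat_lit 5168) (nat_lit 0) (XT.nd (nat_lit 546) (nat_lit 4560) (nat_lit 0) (XT.nd (nat_lit 234) (nat_lit 2660) (nat_lit 0) (XT.nd (nat_lit 78) (nat_lit 760) (nat_lit 0) (XT.lf (nat_lit 0) (nat_lit 2145777140) (nat_lit 608) (nat_lit 2230590984) (nat_lit 684) (nat_lit 2337496431) (nat_lit 348) (nat_lit 5) (nat_lit 356) (nat_lit 5) (nat_lit 357) (nat_lit 5) (nat_lit 355) (nat_lit 337) (nat_lit 328)) (XT.nd (nat_lit 78) (nat_lit 684) (nat_lit 0) (XT.lf (nat_lit 0) (nat_lit 502696289) (nat_lit 684) (nat_lit 489728807) (nat_lit 76) (nat_lit 5762238416) (nat_lit 347) (nat_lit 5) (nat_lit 356) (nat_lit 5) (nat_lit 348) (nat_lit 5) (nat_lit 356) (nat_lit 337) (nat_lit 327)) (XT.lf (nat_lit 0) (nat_lit 3326060618) (nat_lit 760) (nat_lit 3113240265) (nat_lit 76) (nat_lit 358401486) (nat_lit 338) (nat_lit 5) (nat_lit 348)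 (nat_lit 5) (nat_lit 339) (nat_lit 5) (nat_lit 357) (nat_lit 337) (nat_lit 326)))) (XT.nd (nat_lit 156) (nat_lit 1824) (nat_lit 0) (XT.nd (nat_lit 78) (nat_lit 76) (nat_lit 0) (XT.lf (nat_lit 0) (nat_lit 1089378929) (nat_lit 760) (nat_lit 5078277366) (nat_lit 836) (nat_lit 676427129) (nat_lit 328) (nat_lit 5) (nat_lit 338) (nat_lit 5) (nat_lit 339) (nat_lit 5) (nat_lit 358) (nat_lit 337) (nat_lit 325)) (XT.lf (nat_lit 0) (nat_lit 2100674386) (nat_lit 836) (nat_lit 1505673289) (nat_lit 76) (nat_lit 3286696356) (nat_lit 327) (nat_lit 5) (nat_lit 338) (nat_lit 5) (nat_lit 328) (nat_lit 5) (nat_lit 359) (nat_lit 337) (nat_lit 324))) (XT.nd (nat_lit 78) (nat_lit 988) (nat_lit 0) (XT.lf (nat_lit 0) (nat_lit 2846699205) (nat_lit 836) (nat_lit 2040064350) (nat_lit 912) (nat_lit 2058382992) (nat_lit 316) (nat_lit 5) (nat_lit 327) (nat_lit 5) (nat_lit 328) (nat_lit 5) (nat_lit 360) (nat_lit 337) (nat_lit 323)) (XT.lf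 (nat_lit 0) (nat_lit 286254981) (nat_lit 912) (nat_lit 387564652) (nat_lit 988) (nat_lit 6326893732) (nat_lit 303) (nat_lit 5) (nat_lit 315) (nat_lit 5) (nat_lit 316) (nat_lit 5) (nat_lit 361) (nat_lit 337) (nat_lit 322))))) (XT.nd (nat_lit 234) (nat_lit 3496) (nat_lit 0) (XT.nd (nat_lit 78) (nat_lit 1064) (nat_lit 0) (XT.lf (nat_lit 0) (nat_lit 3415870483) (nat_lit 988) (nat_lit 2279663625) (nat_lit 76) (nat_lit 1362771763) (nat_lit 303) (nat_lit 5) (nat_lit 316) (nat_lit 5) (nat_lit 304) (nat_lit 5) (nat_lit 362) (nat_lit 337) (nat_lit 321)) (XT.nd (nat_lit 78) (nat_lit 76) (nat_lit 0) (XT.lf (nat_lit 0) (nat_lit 2254501159) (nat_lit 988) (nat_lit 3928493218) (nat_lit 1064) (nat_lit 936393729) (nat_lit 290) (nat_lit 5) (nat_lit 303) (nat_lit 5) (nat_lit 304) (nat_lit 5) (nat_lit 363) (nat_lit 337) (nat_lit 320)) (XT.lf (nat_lit 0) (nat_lit 1756123443) (nat_lit 1064) (nat_lit 302988200) (nat_lit 76) (nat_lit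 5124458751) (nat_lit 289) (nat_lit 5) (nat_lit 303) (nat_lit 5) (nat_lit 290) (nat_lit 5) (nat_lit 364) (nat_lit 337) (nat_lit 319)))) (XT.nd (nat_lit 156) (nat_lit 1292) (nat_lit 0) (XT.nd (nat_lit 78) (nat_lit 1140) (nat_lit 0) (XT.lf (nat_lit 0) (nat_lit 4399750755) (nat_lit 1064) (nat_lit 73684052) (nat_lit 1140) (nat_lit 2777122401) (nat_lit 275) (nat_lit 5) (nat_lit 289) (nat_lit 5) (nat_lit 290) (nat_lit 5) (nat_lit 365) (nat_lit 337) (nat_lit 318)) (XT.lf (nat_lit 0) (nat_lit 1873579675) (nat_lit 1140) (nat_lit 5360961551) (nat_lit 1216) (nat_lit 86185267) (nat_lit 260) (nat_lit 5) (nat_lit 275) (nat_lit 5) (nat_lit 276) (nat_lit 5) (nat_lit 366) (nat_lit 337) (nat_lit 317))) (XT.nd (nat_lit 78) (nat_lit 1216) (nat_lit 0) (XT.lf (nat_lit 0) (nat_lit 2585869208) (nat_lit 1216) (nat_lit 695994841) (nat_lit 76) (nat_lit 4111817372) (nat_lit 259) (nat_lit 5) (nat_lit 275) (nat_lit 5) (nat_lit 260) (nat_lit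 5) (nat_lit 367) (nat_lit 337) (nat_lit 316)) (XT.lf (nat_lit 0) (nat_lit 4205935909) (nat_lit 1216) (nat_lit 1096080685) (nat_lit 1292) (nat_lit 2167850544) (nat_lit 243) (nat_lit 5) (nat_lit 259) (nat_lit 5) (nat_lit 260) (nat_lit 5) (nat_lit 368) (nat_lit 337) (nat_lit 315)))))) (XT.nd (nat_lit 546) (nat_lit 2052) (nat_lit 0) (XT.nd (nat_lit 234) (nat_lit 1824) (nat_lit 0) (XT.nd (nat_lit 78) (nat_lit 608) (nat_lit 0) (XT.lf (nat_lit 0) (nat_lit 501092140) (nat_lit 684) (nat_lit 5886526877) (nat_lit 76) (nat_lit 1161779703) (nat_lit 234) (nat_lit 5) (nat_lit 243) (nat_lit 5) (nat_lit 235) (nat_lit 5) (nat_lit 369) (nat_lit 337) (nat_lit 314)) (XT.nd (nat_lit 78) (nat_lit 608) (nat_lit 0) (XT.lf (nat_lit 0) (nat_lit 3178074610) (nat_lit 684) (nat_lit 933837216) (nat_lit 76) (nat_lit 3519648665) (nat_lit 234) (nat_lit 5) (nat_lit 243) (nat_lit 5) (nat_lit 235) (nat_lit 5) (nat_lit 370) (nat_lit 337) (nat_lit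 313)) (XT.lf (nat_lit 0) (nat_lit 4175857343) (nat_lit 608) (nat_lit 1729169751) (nat_lit 684) (nat_lit 1812103654) (nat_lit 226) (nat_lit 5) (nat_lit 234) (nat_lit 5) (nat_lit 235) (nat_lit 5) (nat_lit 371) (nat_lit 337) (nat_lit 312)))) (XT.nd (nat_lit 156) (nat_lit 1140) (nat_lit 0) (XT.nd (nat_lit 78) (nat_lit 0) (nat_lit 0) (XT.lf (nat_lit 0) (nat_lit 853136898) (nat_lit 684) (nat_lit 6211989498) (nat_lit 76) (nat_lit 741040887) (nat_lit 217) (nat_lit 5) (nat_lit 226) (nat_lit 5) (nat_lit 218) (nat_lit 5) (nat_lit 372) (nat_lit 337) (nat_lit 311)) (XT.lf (nat_lit 0) (nat_lit 3546596863) (nat_lit 684) (nat_lit 1051019137) (nat_lit 76) (nat_lit 3300210765) (nat_lit 217) (nat_lit 5) (nat_lit 226) (nat_lit 5) (nat_lit 218) (nat_lit 5) (nat_lit 373) (nat_lit 337) (nat_lit 310))) (XT.nd (nat_lit 78) (nat_lit 608) (nat_lit 0) (XT.lf (nat_lit 0) (nat_lit 4275307968) (nat_lit 532) (nat_lit 2020095374) (nat_lit 608)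 (nat_lit 1697626126) (nat_lit 210) (nat_lit 5) (nat_lit 217) (nat_lit 5) (nat_lit 218) (nat_lit 5) (nat_lit 374) (nat_lit 337) (nat_lit 309)) (XT.lf (nat_lit 0) (nat_lit 982272265) (nat_lit 608) (nat_lit 6457763294) (nat_lit 76) (nat_lit 651775232) (nat_lit 202) (nat_lit 5) (nat_lit 210) (nat_lit 5) (nat_lit 203) (nat_lit 5) (nat_lit 375) (nat_lit 337) (nat_lit 308))))) (XT.nd (nat_lit 234) (nat_lit 988) (nat_lit 0) (XT.nd (nat_lit 78) (nat_lit 1064) (nat_lit 0) (XT.lf (nat_lit 0) (nat_lit 3701521586) (nat_lit 608) (nat_lit 1081728397) (nat_lit 76) (nat_lit 3410036284) (nat_lit 202) (nat_lit 5) (nat_lit 210) (nat_lit 5) (nat_lit 203) (nat_lit 5) (nat_lit 376) (nat_lit 337) (nat_lit 307)) (XT.nd (nat_lit 78) (nat_lit 608) (nat_lit 0) (XT.lf (nat_lit 0) (nat_lit 4470297317) (nat_lit 456) (nat_lit 2012071077) (nat_lit 532) (nat_lit 1816063417) (nat_lit 196) (nat_lit 5) (nat_lit 202) (nat_lit 5) (nat_lit 203) (nat_lit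 5) (nat_lit 377) (nat_lit 337) (nat_lit 306)) (XT.lf (nat_lit 0) (nat_lit 895400694) (nat_lit 608) (nat_lit 6659168881) (nat_lit 76) (nat_lit 852701003) (nat_lit 188) (nat_lit 5) (nat_lit 196) (nat_lit 5) (nat_lit 189) (nat_lit 5) (nat_lit 378) (nat_lit 337) (nat_lit 305)))) (XT.nd (nat_lit 156) (nat_lit 532) (nat_lit 0) (XT.nd (nat_lit 78) (nat_lit 456) (nat_lit 0) (XT.lf (nat_lit 0) (nat_lit 3649240537) (nat_lit 608) (nat_lit 1060521628) (nat_lit 76) (nat_lit 3809171095) (nat_lit 188) (nat_lit 5) (nat_lit 196) (nat_lit 5) (nat_lit 189) (nat_lit 5) (nat_lit 379) (nat_lit 337) (nat_lit 304)) (XT.lf (nat_lit 0) (nat_lit 4726352285) (nat_lit 456) (nat_lit 1745137042) (nat_lit 532) (nat_lit 2162906143) (nat_lit 182) (nat_lit 5) (nat_lit 188) (nat_lit 5) (nat_lit 189) (nat_lit 5) (nat_lit 380) (nat_lit 337) (nat_lit 303))) (XT.nd (nat_lit 78) (nat_lit 0) (nat_lit 0) (XT.lf (nat_lit 0) (nat_lit 595713102) (nat_lit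 532) (nat_lit 6852503622) (nat_lit 76) (nat_lit 1305461875) (nat_lit 175) (nat_lit 5) (nat_lit 182) (nat_lit 5) (nat_lit 176) (nat_lit 5) (nat_lit 381) (nat_lit 337) (nat_lit 302)) (XT.lf (nat_lit 0) (nat_lit 3392466064) (nat_lit 532) (nat_lit 1023040435) (nat_lit 76) (nat_lit 4460447321) (nat_lit 175) (nat_lit 5) (nat_lit 182) (nat_lit 5) (nat_lit 176) (nat_lit 5) (nat_lit 382) (nat_lit 337) (nat_lit 301))))))) (XT.nd (nat_lit 1092) (nat_lit 2584) (nat_lit 0) (XT.nd (nat_lit 546) (nat_lit 1824) (nat_lit 0) (XT.nd (nat_lit 234) (nat_lit 1216) (nat_lit 0) (XT.nd (nat_lit 78) (nat_lit 532) (nat_lit 0) (XT.lf (nat_lit 0) (nat_lit 5007783199) (nat_lit 380) (nat_lit 1256888450) (nat_lit 456) (nat_lit 2737499991) (nat_lit 170) (nat_lit 5) (nat_lit 175) (nat_lit 5) (nat_lit 176) (nat_lit 5) (nat_lit 383) (nat_lit 337) (nat_lit 300)) (XT.nd (nat_lit 78) (nat_lit 0) (nat_lit 0) (XT.lf (nat_lit 0) (nat_lit 82651626) (nat_lit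 532) (nat_lit 7075797162) (nat_lit 76) (nat_lit 1973913932) (nat_lit 163) (nat_lit 5) (nat_lit 170) (nat_lit 5) (nat_lit 164) (nat_lit 5) (nat_lit 384) (nat_lit 337) (nat_lit 299)) (XT.lf (nat_lit 0) (nat_lit 2930180652) (nat_lit 532) (nat_lit 1006772740) (nat_lit 76) (nat_lit 5328778279) (nat_lit 163) (nat_lit 5) (nat_lit 170) (nat_lit 5) (nat_lit 164) (nat_lit 5) (nat_lit 385) (nat_lit 337) (nat_lit 298)))) (XT.nd (nat_lit 156) (nat_lit 456) (nat_lit 0) (XT.nd (nat_lit 78) (nat_lit 380) (nat_lit 0) (XT.lf (nat_lit 0) (nat_lit 5276900804) (nat_lit 380) (nat_lit 583187314) (nat_lit 456) (nat_lit 3543123515) (nat_lit 158) (nat_lit 5) (nat_lit 163) (nat_lit 5) (nat_lit 164) (nat_lit 5) (nat_lit 386) (nat_lit 337) (nat_lit 297)) (XT.lf (nat_lit 0) (nat_lit 2168684609) (nat_lit 380) (nat_lit 6714883839) (nat_lit 456) (nat_lit 661095255) (nat_lit 153) (nat_lit 5) (nat_lit 158) (nat_lit 5) (nat_lit 159) (nat_lit 5)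 (nat_lit 387) (nat_lit 337) (nat_lit 296))) (XT.nd (nat_lit 78) (nat_lit 380) (nat_lit 0) (XT.lf (nat_lit 0) (nat_lit 2257518746) (nat_lit 456) (nat_lit 1051874528) (nat_lit 76) (nat_lit 6380463096) (nat_lit 152) (nat_lit 5) (nat_lit 158) (nat_lit 5) (nat_lit 153) (nat_lit 5) (nat_lit 388) (nat_lit 337) (nat_lit 295)) (XT.lf (nat_lit 0) (nat_lit 5254356582) (nat_lit 456) (nat_lit 4348325335) (nat_lit 76) (nat_lit 236424405) (nat_lit 147) (nat_lit 5) (nat_lit 153) (nat_lit 5) (nat_lit 148) (nat_lit 5) (nat_lit 389) (nat_lit 337) (nat_lit 294))))) (XT.nd (nat_lit 234) (nat_lit 1064) (nat_lit 0) (XT.nd (nat_lit 78) (nat_lit 380) (nat_lit 0) (XT.lf (nat_lit 0) (nat_lit 2198697257) (nat_lit 380) (nat_lit 6156514529) (nat_lit 456) (nat_lit 1637214596) (nat_lit 142) (nat_lit 5) (nat_lit 147) (nat_lit 5) (nat_lit 148) (nat_lit 5) (nat_lit 390) (nat_lit 337) (nat_lit 293)) (XT.nd (nat_lit 78) (nat_lit 304) (nat_lit 0)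 (XT.lf (nat_lit 0) (nat_lit 1365576740) (nat_lit 456) (nat_lit 1202068712) (nat_lit 76) (nat_lit 7582488538) (nat_lit 141) (nat_lit 5) (nat_lit 147) (nat_lit 5) (nat_lit 142) (nat_lit 5) (nat_lit 391) (nat_lit 337) (nat_lit 292)) (XT.lf (nat_lit 0) (nat_lit 4442094769) (nat_lit 380) (nat_lit 4711031201) (nat_lit 76) (nat_lit 1158478696) (nat_lit 137) (nat_lit 5) (nat_lit 142) (nat_lit 5) (nat_lit 138) (nat_lit 5) (nat_lit 392) (nat_lit 337) (nat_lit 291)))) (XT.nd (nat_lit 156) (nat_lit 608) (nat_lit 0) (XT.nd (nat_lit 78) (nat_lit 76) (nat_lit 0) (XT.lf (nat_lit 0) (nat_lit 2100864635) (nat_lit 380) (nat_lit 5519742319) (nat_lit 456) (nat_lit 2857035744) (nat_lit 132) (nat_lit 5) (nat_lit 137) (nat_lit 5) (nat_lit 138) (nat_lit 5) (nat_lit 393) (nat_lit 337) (nat_lit 290)) (XT.lf (nat_lit 0) (nat_lit 241145623) (nat_lit 456) (nat_lit 1505639750) (nat_lit 76) (nat_lit 8901815098) (nat_lit 131) (nat_lit 5) (nat_lit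 137) (nat_lit 5) (nat_lit 132) (nat_lit 5) (nat_lit 394) (nat_lit 337) (nat_lit 289))) (XT.nd (nat_lit 78) (nat_lit 304) (nat_lit 0) (XT.lf (nat_lit 0) (nat_lit 3403195405) (nat_lit 380) (nat_lit 5259725829) (nat_lit 76) (nat_lit 2160079713) (nat_lit 127) (nat_lit 5) (nat_lit 132) (nat_lit 5) (nat_lit 128) (nat_lit 5) (nat_lit 395) (nat_lit 337) (nat_lit 288)) (XT.lf (nat_lit 0) (nat_lit 1823307689) (nat_lit 304) (nat_lit 4840972315) (nat_lit 380) (nat_lit 4338240844) (nat_lit 123) (nat_lit 5) (nat_lit 127) (nat_lit 5) (nat_lit 128) (nat_lit 5) (nat_lit 396) (nat_lit 337) (nat_lit 287)))))) (XT.nd (nat_lit 546) (nat_lit 1292) (nat_lit 0) (XT.nd (nat_lit 234) (nat_lit 608) (nat_lit 0) (XT.nd (nat_lit 78) (nat_lit 684) (nat_lit 0) (XT.lf (nat_lit 0) (nat_lit 9159545425) (nat_lit 304) (nat_lit 871456587) (nat_lit 380) (nat_lit 1156202431) (nat_lit 123) (nat_lit 5) (nat_lit 127) (nat_lit 5) (nat_lit 128) (nat_lit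 5) (nat_lit 397) (nat_lit 337) (nat_lit 286)) (XT.nd (nat_lit 78) (nat_lit 304) (nat_lit 0) (XT.lf (nat_lit 0) (nat_lit 2118386747) (nat_lit 380) (nat_lit 6051517489) (nat_lit 76) (nat_lit 3205769602) (nat_lit 118) (nat_lit 5) (nat_lit 123) (nat_lit 5) (nat_lit 119) (nat_lit 5) (nat_lit 398) (nat_lit 337) (nat_lit 285)) (XT.lf (nat_lit 0) (nat_lit 1307629933) (nat_lit 304) (nat_lit 4158243351) (nat_lit 380) (nat_lit 6103654863) (nat_lit 114) (nat_lit 5) (nat_lit 118) (nat_lit 5) (nat_lit 119) (nat_lit 5) (nat_lit 399) (nat_lit 337) (nat_lit 284)))) (XT.nd (nat_lit 156) (nat_lit 304) (nat_lit 0) (XT.nd (nat_lit 78) (nat_lit 304) (nat_lit 0) (XT.lf (nat_lit 0) (nat_lit 8931699001) (nat_lit 380) (nat_lit 2823074027) (nat_lit 76) (nat_lit 13898498) (nat_lit 114) (nat_lit 5) (nat_lit 119) (nat_lit 5) (nat_lit 115) (nat_lit 5) (nat_lit 400) (nat_lit 337) (nat_lit 283)) (XT.lf (nat_lit 0) (nat_lit 563142535) (nat_lit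 304) (nat_lit 7151035172) (nat_lit 76) (nat_lit 4258097681) (nat_lit 110) (nat_lit 5) (nat_lit 114) (nat_lit 5) (nat_lit 111) (nat_lit 5) (nat_lit 401) (nat_lit 337) (nat_lit 282))) (XT.nd (nat_lit 78) (nat_lit 0) (nat_lit 0) (XT.lf (nat_lit 0) (nat_lit 487546394) (nat_lit 304) (nat_lit 3512082331) (nat_lit 380) (nat_lit 8181784289) (nat_lit 106) (nat_lit 5) (nat_lit 110) (nat_lit 5) (nat_lit 111) (nat_lit 5) (nat_lit 402) (nat_lit 337) (nat_lit 281)) (XT.lf (nat_lit 0) (nat_lit 7578275270) (nat_lit 380) (nat_lit 3966954451) (nat_lit 76) (nat_lit 850432740) (nat_lit 106) (nat_lit 5) (nat_lit 111) (nat_lit 5) (nat_lit 107) (nat_lit 5) (nat_lit 403) (nat_lit 337) (nat_lit 280))))) (XT.nd (nat_lit 312) (nat_lit 532) (nat_lit 0) (XT.nd (nat_lit 156) (nat_lit 456) (nat_lit 0) (XT.nd (nat_lit 78) (nat_lit 76) (nat_lit 0) (XT.lf (nat_lit 0) (nat_lit 3970776077) (nat_lit 228) (nat_lit 7325957220) (nat_lit 304) (nat_lit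 1318641917) (nat_lit 103) (nat_lit 5) (nat_lit 106) (nat_lit 5) (nat_lit 107) (nat_lit 5) (nat_lit 404) (nat_lit 337) (nat_lit 279)) (XT.lf (nat_lit 0) (nat_lit 2240609259) (nat_lit 304) (nat_lit 698769334) (nat_lit 76) (nat_lit 9901646635) (nat_lit 102) (nat_lit 5) (nat_lit 106) (nat_lit 5) (nat_lit 103) (nat_lit 5) (nat_lit 405) (nat_lit 337) (nat_lit 278))) (XT.nd (nat_lit 78) (nat_lit 228) (nat_lit 0) (XT.lf (nat_lit 0) (nat_lit 5929442860) (nat_lit 304) (nat_lit 5530027599) (nat_lit 76) (nat_lit 1612111947) (nat_lit 99) (nat_lit 5) (nat_lit 103) (nat_lit 5) (nat_lit 100) (nat_lit 5) (nat_lit 406) (nat_lit 337) (nat_lit 277)) (XT.lf (nat_lit 0) (nat_lit 2695632131) (nat_lit 228) (nat_lit 7056633425) (nat_lit 304) (nat_lit 3556099357) (nat_lit 96) (nat_lit 5) (nat_lit 99) (nat_lit 5) (nat_lit 100) (nat_lit 5) (nat_lit 407) (nat_lit 337) (nat_lit 276)))) (XT.nd (nat_lit 156) (nat_lit 228) (nat_lit 0) (XT.nd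 (nat_lit 78) (nat_lit 228) (nat_lit 0) (XT.lf (nat_lit 0) (nat_lit 152567049) (nat_lit 304) (nat_lit 2333559534) (nat_lit 76) (nat_lit 11065560657) (nat_lit 95) (nat_lit 5) (nat_lit 99) (nat_lit 5) (nat_lit 96) (nat_lit 5) (nat_lit 408) (nat_lit 337) (nat_lit 275)) (XT.lf (nat_lit 0) (nat_lit 3945336017) (nat_lit 304) (nat_lit 7603231473) (nat_lit 76) (nat_lit 2251363610) (nat_lit 92) (nat_lit 5) (nat_lit 96) (nat_lit 5) (nat_lit 93) (nat_lit 5) (nat_lit 409) (nat_lit 337) (nat_lit 274))) (XT.nd (nat_lit 78) (nat_lit 0) (nat_lit 0) (XT.lf (nat_lit 0) (nat_lit 907639190) (nat_lit 228) (nat_lit 6964139504) (nat_lit 304) (nat_lit 6183254271) (nat_lit 89) (nat_lit 5) (nat_lit 92) (nat_lit 5) (nat_lit 93) (nat_lit 5) (nat_lit 410) (nat_lit 337) (nat_lit 273)) (XT.lf (nat_lit 0) (nat_lit 9769282312) (nat_lit 228) (nat_lit 2186767267) (nat_lit 304) (nat_lit 2360544450) (nat_lit 89) (nat_lit 5) (nat_lit 92) (nat_lit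 5) (nat_lit 93) (nat_lit 5) (nat_lit 411) (nat_lit 337) (nat_lit 272))))))))
noncomputable def xc94 : XT := (XT.nd (nat_lit 2184) (nat_lit 1748) (nat_lit 0) (XT.nd (nat_lit 1092) (nat_lit 1292) (nat_lit 0) (XT.nd (nat_lit 546) (nat_lit 836) (nat_lit 0) (XT.nd (nat_lit 234) (nat_lit 456) (nat_lit 0) (XT.nd (nat_lit 78) (nat_lit 152) (nat_lit 0) (XT.lf (nat_lit 0) (nat_lit 1578192845) (nat_lit 304) (nat_lit 10291458187) (nat_lit 76) (nat_lit 2714939460) (nat_lit 85) (nat_lit 5) (nat_lit 89) (nat_lit 5) (nat_lit 86) (nat_lit 5) (nat_lit 412) (nat_lit 337) (nat_lit 271)) (XT.nd (nat_lit 78) (nat_lit 152) (nat_lit 0) (XT.lf (nat_lit 0) (nat_lit 5619900592) (nat_lit 304) (nat_lit 1472365945) (nat_lit 76) (nat_lit 7766698153) (nat_lit 85) (nat_lit 5) (nat_lit 89) (nat_lit 5) (nat_lit 86) (nat_lit 5) (nat_lit 413) (nat_lit 337) (nat_lit 270)) (XT.lf (nat_lit 0) (nat_lit 7703719369) (nat_lit 152) (nat_lit 2118463165)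 (nat_lit 228) (nat_lit 5318214281) (nat_lit 83) (nat_lit 5) (nat_lit 85) (nat_lit 5) (nat_lit 86) (nat_lit 5) (nat_lit 414) (nat_lit 337) (nat_lit 269)))) (XT.nd (nat_lit 156) (nat_lit 152) (nat_lit 0) (XT.nd (nat_lit 78) (nat_lit 76) (nat_lit 0) (XT.lf (nat_lit 0) (nat_lit 1701464498) (nat_lit 228) (nat_lit 12474829496) (nat_lit 304) (nat_lit 1253211282) (nat_lit 80) (nat_lit 5) (nat_lit 83) (nat_lit 5) (nat_lit 84) (nat_lit 5) (nat_lit 415) (nat_lit 337) (nat_lit 268)) (XT.lf (nat_lit 0) (nat_lit 2938925065) (nat_lit 304) (nat_lit 4567029987) (nat_lit 76) (nat_lit 8218618825) (nat_lit 79) (nat_lit 5) (nat_lit 83) (nat_lit 5) (nat_lit 80) (nat_lit 5) (nat_lit 416) (nat_lit 337) (nat_lit 267))) (XT.nd (nat_lit 78) (nat_lit 0) (nat_lit 0) (XT.lf (nat_lit 0) (nat_lit 4895354489) (nat_lit 152) (nat_lit 2349958163) (nat_lit 228) (nat_lit 8782405057) (nat_lit 77) (nat_lit 5) (nat_lit 79) (nat_lit 5) (nat_lit 80)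 (nat_lit 5) (nat_lit 417) (nat_lit 337) (nat_lit 266)) (XT.lf (nat_lit 0) (nat_lit 11722757083) (nat_lit 228) (nat_lit 1689051148) (nat_lit 76) (nat_lit 2926897181) (nat_lit 77) (nat_lit 5) (nat_lit 80) (nat_lit 5) (nat_lit 78) (nat_lit 5) (nat_lit 418) (nat_lit 337) (nat_lit 265))))) (XT.nd (nat_lit 234) (nat_lit 380) (nat_lit 0) (XT.nd (nat_lit 78) (nat_lit 228) (nat_lit 0) (XT.lf (nat_lit 0) (nat_lit 8117558193) (nat_lit 228) (nat_lit 8286060922) (nat_lit 304) (nat_lit 253336153) (nat_lit 74) (nat_lit 5) (nat_lit 77) (nat_lit 5) (nat_lit 78) (nat_lit 5) (nat_lit 419) (nat_lit 337) (nat_lit 264)) (XT.nd (nat_lit 78) (nat_lit 0) (nat_lit 0) (XT.lf (nat_lit 0) (nat_lit 1195916058) (nat_lit 152) (nat_lit 2958108214) (nat_lit 228) (nat_lit 12829612306) (nat_lit 71) (nat_lit 5) (nat_lit 73) (nat_lit 5) (nat_lit 74) (nat_lit 5) (nat_lit 420) (nat_lit 337) (nat_lit 263)) (XT.lf (nat_lit 0) (nat_lit 8767993584) (nat_lit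 228) (nat_lit 6002307225) (nat_lit 76) (nat_lit 2547362773) (nat_lit 71) (nat_lit 5) (nat_lit 74) (nat_lit 5) (nat_lit 72) (nat_lit 5) (nat_lit 421) (nat_lit 337) (nat_lit 262)))) (XT.nd (nat_lit 156) (nat_lit 152) (nat_lit 0) (XT.nd (nat_lit 78) (nat_lit 76) (nat_lit 0) (XT.lf (nat_lit 0) (nat_lit 4073039782) (nat_lit 152) (nat_lit 9484790782) (nat_lit 228) (nat_lit 4102762127) (nat_lit 69) (nat_lit 5) (nat_lit 71) (nat_lit 5) (nat_lit 72) (nat_lit 5) (nat_lit 422) (nat_lit 337) (nat_lit 261)) (XT.lf (nat_lit 0) (nat_lit 498536579) (nat_lit 228) (nat_lit 3497405515) (nat_lit 76) (nat_lit 14016825275) (nat_lit 68) (nat_lit 5) (nat_lit 71) (nat_lit 5) (nat_lit 69) (nat_lit 5) (nat_lit 423) (nat_lit 337) (nat_lit 260))) (XT.nd (nat_lit 78) (nat_lit 0) (nat_lit 0) (XT.lf (nat_lit 0) (nat_lit 5208876220) (nat_lit 228) (nat_lit 11452108206) (nat_lit 76) (nat_lit 1711704666) (nat_lit 66) (nat_lit 5) (nat_lit 69) (nat_lit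 5) (nat_lit 67) (nat_lit 5) (nat_lit 424) (nat_lit 337) (nat_lit 259)) (XT.lf (nat_lit 0) (nat_lit 10105909927) (nat_lit 228) (nat_lit 1111970753) (nat_lit 76) (nat_lit 7524170498) (nat_lit 66) (nat_lit 5) (nat_lit 69) (nat_lit 5) (nat_lit 67) (nat_lit 5) (nat_lit 425) (nat_lit 337) (nat_lit 258)))))) (XT.nd (nat_lit 546) (nat_lit 532) (nat_lit 0) (XT.nd (nat_lit 234) (nat_lit 380) (nat_lit 0) (XT.nd (nat_lit 78) (nat_lit 228) (nat_lit 0) (XT.lf (nat_lit 0) (nat_lit 9676209294) (nat_lit 152) (nat_lit 5537681792) (nat_lit 228) (nat_lit 3906686046) (nat_lit 64) (nat_lit 5) (nat_lit 66) (nat_lit 5) (nat_lit 67) (nat_lit 5) (nat_lit 426) (nat_lit 337) (nat_lit 257)) (XT.nd (nat_lit 78) (nat_lit 0) (nat_lit 0) (XT.lf (nat_lit 0) (nat_lit 943542156) (nat_lit 228) (nat_lit 18248518116) (nat_lit 76) (nat_lit 318192879) (nat_lit 61) (nat_lit 5) (nat_lit 64) (nat_lit 5) (nat_lit 62) (nat_lit 5) (nat_lit 427) (nat_lit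 337) (nat_lit 256)) (XT.lf (nat_lit 0) (nat_lit 5983137729) (nat_lit 228) (nat_lit 7571796622) (nat_lit 76) (nat_lit 6351857019) (nat_lit 61) (nat_lit 5) (nat_lit 64) (nat_lit 5) (nat_lit 62) (nat_lit 5) (nat_lit 428) (nat_lit 337) (nat_lit 255)))) (XT.nd (nat_lit 156) (nat_lit 228) (nat_lit 0) (XT.nd (nat_lit 78) (nat_lit 0) (nat_lit 0) (XT.lf (nat_lit 0) (nat_lit 3442690574) (nat_lit 152) (nat_lit 7736400214) (nat_lit 228) (nat_lit 9135983503) (nat_lit 59) (nat_lit 5) (nat_lit 61) (nat_lit 5) (nat_lit 62) (nat_lit 5) (nat_lit 429) (nat_lit 337) (nat_lit 254)) (XT.lf (nat_lit 0) (nat_lit 14893598966) (nat_lit 152) (nat_lit 1686200248) (nat_lit 228) (nat_lit 4154343722) (nat_lit 59) (nat_lit 5) (nat_lit 61) (nat_lit 5) (nat_lit 62) (nat_lit 5) (nat_lit 430) (nat_lit 337) (nat_lit 253))) (XT.nd (nat_lit 78) (nat_lit 0) (nat_lit 0) (XT.lf (nat_lit 0) (nat_lit 1028323531) (nat_lit 228) (nat_lit 15635541483) (nat_lit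 76) (nat_lit 4499521144) (nat_lit 56) (nat_lit 5) (nat_lit 59) (nat_lit 5) (nat_lit 57) (nat_lit 5) (nat_lit 431) (nat_lit 337) (nat_lit 252)) (XT.lf (nat_lit 0) (nat_lit 6332305530) (nat_lit 228) (nat_lit 4353601471) (nat_lit 76) (nat_lit 10916888964) (nat_lit 56) (nat_lit 5) (nat_lit 59) (nat_lit 5) (nat_lit 57) (nat_lit 5) (nat_lit 432) (nat_lit 337) (nat_lit 251))))) (XT.nd (nat_lit 234) (nat_lit 228) (nat_lit 0) (XT.nd (nat_lit 78) (nat_lit 152) (nat_lit 0) (XT.lf (nat_lit 0) (nat_lit 7363431945) (nat_lit 152) (nat_lit 4476616941) (nat_lit 228) (nat_lit 10214003065) (nat_lit 54) (nat_lit 5) (nat_lit 56) (nat_lit 5) (nat_lit 57) (nat_lit 5) (nat_lit 433) (nat_lit 337) (nat_lit 250)) (XT.nd (nat_lit 78) (nat_lit 152) (nat_lit 0) (XT.lf (nat_lit 0) (nat_lit 17549842784) (nat_lit 228) (nat_lit 3062356050) (nat_lit 76) (nat_lit 1905545288) (nat_lit 54) (nat_lit 5) (nat_lit 57) (nat_lit 5) (nat_lit 55) (nat_lit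 4) (nat_lit 434) (nat_lit 337) (nat_lit 249)) (XT.lf (nat_lit 0) (nat_lit 533697013) (nat_lit 152) (nat_lit 13997149714) (nat_lit 76) (nat_lit 8461179195) (nat_lit 52) (nat_lit 5) (nat_lit 54) (nat_lit 5) (nat_lit 53) (nat_lit 5) (nat_lit 435) (nat_lit 337) (nat_lit 248)))) (XT.nd (nat_lit 156) (nat_lit 76) (nat_lit 0) (XT.nd (nat_lit 78) (nat_lit 152) (nat_lit 0) (XT.lf (nat_lit 0) (nat_lit 6106505451) (nat_lit 152) (nat_lit 2098351735) (nat_lit 76) (nat_lit 15274025806) (nat_lit 52) (nat_lit 5) (nat_lit 54) (nat_lit 5) (nat_lit 53) (nat_lit 5) (nat_lit 436) (nat_lit 337) (nat_lit 247)) (XT.lf (nat_lit 0) (nat_lit 10314161389) (nat_lit 152) (nat_lit 1606999350) (nat_lit 228) (nat_lit 12056947869) (nat_lit 50) (nat_lit 5) (nat_lit 52) (nat_lit 5) (nat_lit 53) (nat_lit 5) (nat_lit 437) (nat_lit 337) (nat_lit 246))) (XT.nd (nat_lit 78) (nat_lit 76) (nat_lit 0) (XT.lf (nat_lit 0) (nat_lit 17957147405) (nat_lit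 228) (nat_lit 1444315030) (nat_lit 76) (nat_lit 5089444439) (nat_lit 50) (nat_lit 5) (nat_lit 53) (nat_lit 5) (nat_lit 51) (nat_lit 4) (nat_lit 438) (nat_lit 337) (nat_lit 245)) (XT.lf (nat_lit 0) (nat_lit 11303245657) (nat_lit 76) (nat_lit 12971857678) (nat_lit 152) (nat_lit 740961618) (nat_lit 49) (nat_lit 5) (nat_lit 50) (nat_lit 5) (nat_lit 51) (nat_lit 4) (nat_lit 439) (nat_lit 337) (nat_lit 244))))))) (XT.nd (nat_lit 1092) (nat_lit 608) (nat_lit 0) (XT.nd (nat_lit 546) (nat_lit 608) (nat_lit 0) (XT.nd (nat_lit 234) (nat_lit 304) (nat_lit 0) (XT.nd (nat_lit 78) (nat_lit 152) (nat_lit 0) (XT.lf (nat_lit 0) (nat_lit 5114746882) (nat_lit 152) (nat_lit 1187440960) (nat_lit 76) (nat_lit 19253552465) (nat_lit 48) (nat_lit 5) (nat_lit 50) (nat_lit 5) (nat_lit 49) (nat_lit 5) (nat_lit 440) (nat_lit 337) (nat_lit 243)) (XT.nd (nat_lit 78) (nat_lit 0) (nat_lit 0) (XT.lf (nat_lit 0) (nat_lit 11229122639) (nat_lit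 228) (nat_lit 14218719862) (nat_lit 76) (nat_lit 660609014) (nat_lit 46) (nat_lit 5) (nat_lit 49) (nat_lit 5) (nat_lit 47) (nat_lit 4) (nat_lit 441) (nat_lit 337) (nat_lit 242)) (XT.lf (nat_lit 0) (nat_lit 17578578405) (nat_lit 228) (nat_lit 1398528782) (nat_lit 76) (nat_lit 7699089682) (nat_lit 46) (nat_lit 5) (nat_lit 49) (nat_lit 5) (nat_lit 47) (nat_lit 4) (nat_lit 442) (nat_lit 337) (nat_lit 241)))) (XT.nd (nat_lit 156) (nat_lit 152) (nat_lit 0) (XT.nd (nat_lit 78) (nat_lit 76) (nat_lit 0) (XT.lf (nat_lit 0) (nat_lit 11999460879) (nat_lit 76) (nat_lit 12212210202) (nat_lit 152) (nat_lit 3046511109) (nat_lit 45) (nat_lit 5) (nat_lit 46) (nat_lit 5) (nat_lit 47) (nat_lit 4) (nat_lit 443) (nat_lit 337) (nat_lit 240)) (XT.lf (nat_lit 0) (nat_lit 3116063140) (nat_lit 152) (nat_lit 2100912857) (nat_lit 76) (nat_lit 22639971146) (nat_lit 44) (nat_lit 5) (nat_lit 46) (nat_lit 5) (nat_lit 45) (nat_lit 5) (nat_lit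 444) (nat_lit 337) (nat_lit 239))) (XT.nd (nat_lit 78) (nat_lit 0) (nat_lit 0) (XT.lf (nat_lit 0) (nat_lit 9512695828) (nat_lit 228) (nat_lit 16882231853) (nat_lit 76) (nat_lit 2074532083) (nat_lit 42) (nat_lit 5) (nat_lit 45) (nat_lit 5) (nat_lit 43) (nat_lit 4) (nat_lit 445) (nat_lit 337) (nat_lit 238)) (XT.lf (nat_lit 0) (nat_lit 16152868609) (nat_lit 228) (nat_lit 3462377194) (nat_lit 76) (nat_lit 9483554688) (nat_lit 42) (nat_lit 5) (nat_lit 45) (nat_lit 5) (nat_lit 43) (nat_lit 4) (nat_lit 446) (nat_lit 337) (nat_lit 237))))) (XT.nd (nat_lit 234) (nat_lit 304) (nat_lit 0) (XT.nd (nat_lit 78) (nat_lit 228) (nat_lit 0) (XT.lf (nat_lit 0) (nat_lit 10526767714) (nat_lit 76) (nat_lit 12545855709) (nat_lit 152) (nat_lit 6671988612) (nat_lit 41) (nat_lit 5) (nat_lit 42) (nat_lit 5) (nat_lit 43) (nat_lit 4) (nat_lit 447) (nat_lit 337) (nat_lit 236)) (XT.nd (nat_lit 78) (nat_lit 228) (nat_lit 0) (XT.lf (nat_lit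 0) (nat_lit 24968221376) (nat_lit 76) (nat_lit 5246137489) (nat_lit 152) (nat_lit 195009267) (nat_lit 41) (nat_lit 5) (nat_lit 42) (nat_lit 5) (nat_lit 43) (nat_lit 4) (nat_lit 448) (nat_lit 337) (nat_lit 235)) (XT.lf (nat_lit 0) (nat_lit 6437655762) (nat_lit 228) (nat_lit 22292294236) (nat_lit 76) (nat_lit 2359618481) (nat_lit 38) (nat_lit 5) (nat_lit 41) (nat_lit 5) (nat_lit 39) (nat_lit 4) (nat_lit 449) (nat_lit 337) (nat_lit 234)))) (XT.nd (nat_lit 156) (nat_lit 228) (nat_lit 0) (XT.nd (nat_lit 78) (nat_lit 76) (nat_lit 0) (XT.lf (nat_lit 0) (nat_lit 13352699694) (nat_lit 228) (nat_lit 8306249421) (nat_lit 76) (nat_lit 10128549934) (nat_lit 38) (nat_lit 5) (nat_lit 41) (nat_lit 5) (nat_lit 39) (nat_lit 4) (nat_lit 450) (nat_lit 337) (nat_lit 233)) (XT.lf (nat_lit 0) (nat_lit 6183443593) (nat_lit 76) (nat_lit 14331663759) (nat_lit 152) (nat_lit 11990064452) (nat_lit 37) (nat_lit 5) (nat_lit 38) (nat_lit 5)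 (nat_lit 39) (nat_lit 4) (nat_lit 451) (nat_lit 337) (nat_lit 232))) (XT.nd (nat_lit 78) (nat_lit 228) (nat_lit 0) (XT.lf (nat_lit 0) (nat_lit 21241861738) (nat_lit 76) (nat_lit 6715096120) (nat_lit 152) (nat_lit 5285481360) (nat_lit 37) (nat_lit 5) (nat_lit 38) (nat_lit 5) (nat_lit 39) (nat_lit 4) (nat_lit 452) (nat_lit 337) (nat_lit 231)) (XT.lf (nat_lit 0) (nat_lit 1607271353) (nat_lit 228) (nat_lit 31259459885) (nat_lit 76) (nat_lit 1134068209) (nat_lit 34) (nat_lit 5) (nat_lit 37) (nat_lit 5) (nat_lit 35) (nat_lit 4) (nat_lit 453) (nat_lit 337) (nat_lit 230)))))) (XT.nd (nat_lit 546) (nat_lit 304) (nat_lit 0) (XT.nd (nat_lit 234) (nat_lit 228) (nat_lit 0) (XT.nd (nat_lit 78) (nat_lit 76) (nat_lit 0) (XT.lf (nat_lit 0) (nat_lit 8770565336) (nat_lit 228) (nat_lit 16762392595) (nat_lit 76) (nat_lit 9242284316) (nat_lit 34) (nat_lit 5) (nat_lit 37) (nat_lit 5) (nat_lit 35) (nat_lit 4) (nat_lit 454) (nat_lit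 337) (nat_lit 229)) (XT.nd (nat_lit 78) (nat_lit 76) (nat_lit 0) (XT.lf (nat_lit 0) (nat_lit 16130431343) (nat_lit 228) (nat_lit 1864990322) (nat_lit 76) (nat_lit 17578047884) (nat_lit 34) (nat_lit 5) (nat_lit 37) (nat_lit 5) (nat_lit 35) (nat_lit 4) (nat_lit 455) (nat_lit 337) (nat_lit 228)) (XT.lf (nat_lit 0) (nat_lit 13713361148) (nat_lit 76) (nat_lit 10111760394) (nat_lit 152) (nat_lit 12567102657) (nat_lit 33) (nat_lit 5) (nat_lit 34) (nat_lit 5) (nat_lit 35) (nat_lit 4) (nat_lit 456) (nat_lit 337) (nat_lit 227)))) (XT.nd (nat_lit 156) (nat_lit 76) (nat_lit 0) (XT.nd (nat_lit 78) (nat_lit 152) (nat_lit 0) (XT.lf (nat_lit 0) (nat_lit 29764052815) (nat_lit 76) (nat_lit 1987838085) (nat_lit 152) (nat_lit 5483614768) (nat_lit 33) (nat_lit 5) (nat_lit 34) (nat_lit 5) (nat_lit 35) (nat_lit 4) (nat_lit 457) (nat_lit 337) (nat_lit 226)) (XT.lf (nat_lit 0) (nat_lit 1901726111) (nat_lit 152) (nat_lit 29859643429)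 (nat_lit 76) (nat_lit 6338453218) (nat_lit 31) (nat_lit 5) (nat_lit 33) (nat_lit 5) (nat_lit 32) (nat_lit 4) (nat_lit 458) (nat_lit 337) (nat_lit 225))) (XT.nd (nat_lit 78) (nat_lit 76) (nat_lit 0) (XT.lf (nat_lit 0) (nat_lit 9477080904) (nat_lit 152) (nat_lit 14518873825) (nat_lit 76) (nat_lit 14990126986) (nat_lit 31) (nat_lit 5) (nat_lit 33) (nat_lit 5) (nat_lit 32) (nat_lit 4) (nat_lit 459) (nat_lit 337) (nat_lit 224)) (XT.lf (nat_lit 0) (nat_lit 1275291747) (nat_lit 76) (nat_lit 15999957968) (nat_lit 152) (nat_lit 22623813312) (nat_lit 30) (nat_lit 5) (nat_lit 31) (nat_lit 5) (nat_lit 32) (nat_lit 4) (nat_lit 460) (nat_lit 337) (nat_lit 223))))) (XT.nd (nat_lit 312) (nat_lit 152) (nat_lit 0) (XT.nd (nat_lit 156) (nat_lit 152) (nat_lit 0) (XT.nd (nat_lit 78) (nat_lit 0) (nat_lit 0) (XT.lf (nat_lit 0) (nat_lit 17809503223) (nat_lit 76) (nat_lit 7627951731) (nat_lit 152) (nat_lit 15398077234) (nat_lit 30)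 (nat_lit 5) (nat_lit 31) (nat_lit 5) (nat_lit 32) (nat_lit 4) (nat_lit 461) (nat_lit 337) (nat_lit 222)) (XT.lf (nat_lit 0) (nat_lit 33837914477) (nat_lit 152) (nat_lit 7000751550) (nat_lit 0) (nat_lit 961628868) (nat_lit 30) (nat_lit 5) (nat_lit 32) (nat_lit 4) (nat_lit 30) (nat_lit 4) (nat_lit 462) (nat_lit 337) (nat_lit 221))) (XT.nd (nat_lit 78) (nat_lit 76) (nat_lit 0) (XT.lf (nat_lit 0) (nat_lit 9586902326) (nat_lit 76) (nat_lit 33055457638) (nat_lit 76) (nat_lit 147082441) (nat_lit 29) (nat_lit 4) (nat_lit 30) (nat_lit 5) (nat_lit 30) (nat_lit 4) (nat_lit 463) (nat_lit 337) (nat_lit 220)) (XT.lf (nat_lit 0) (nat_lit 7804169111) (nat_lit 152) (nat_lit 17097066839) (nat_lit 76) (nat_lit 18903079322) (nat_lit 28) (nat_lit 5) (nat_lit 30) (nat_lit 5) (nat_lit 29) (nat_lit 4) (nat_lit 464) (nat_lit 337) (nat_lit 219)))) (XT.nd (nat_lit 156) (nat_lit 76) (nat_lit 0) (XT.nd (nat_lit 78) (nat_lit 76) (nat_lit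 0) (XT.lf (nat_lit 0) (nat_lit 15975769452) (nat_lit 152) (nat_lit 538965662) (nat_lit 76) (nat_lit 28335313493) (nat_lit 28) (nat_lit 5) (nat_lit 30) (nat_lit 5) (nat_lit 29) (nat_lit 4) (nat_lit 465) (nat_lit 337) (nat_lit 218)) (XT.lf (nat_lit 0) (nat_lit 16815782016) (nat_lit 76) (nat_lit 7723590488) (nat_lit 152) (nat_lit 21383376761) (nat_lit 27) (nat_lit 5) (nat_lit 28) (nat_lit 5) (nat_lit 29) (nat_lit 4) (nat_lit 466) (nat_lit 337) (nat_lit 217))) (XT.nd (nat_lit 78) (nat_lit 76) (nat_lit 0) (XT.lf (nat_lit 0) (nat_lit 33363422192) (nat_lit 152) (nat_lit 12366366145) (nat_lit 0) (nat_lit 1297737384) (nat_lit 27) (nat_lit 5) (nat_lit 29) (nat_lit 4) (nat_lit 27) (nat_lit 4) (nat_lit 467) (nat_lit 337) (nat_lit 216)) (XT.lf (nat_lit 0) (nat_lit 4867520157) (nat_lit 76) (nat_lit 37693608744) (nat_lit 76) (nat_lit 5601049412) (nat_lit 26) (nat_lit 4) (nat_lit 27) (nat_lit 5) (nat_lit 27) (nat_lit 4) (nat_lit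 468) (nat_lit 337) (nat_lit 215))))))))
noncomputable def xc95 : XT := (XT.nd (nat_lit 43992) (nat_lit 0) (nat_lit 12540) (XT.nd (nat_lit 1092) (nat_lit 152) (nat_lit 0) (XT.nd (nat_lit 546) (nat_lit 228) (nat_lit 0) (XT.nd (nat_lit 234) (nat_lit 152) (nat_lit 0) (XT.nd (nat_lit 78) (nat_lit 76) (nat_lit 0) (XT.lf (nat_lit 0) (nat_lit 2762935636) (nat_lit 152) (nat_lit 26509891762) (nat_lit 76) (nat_lit 20053910136) (nat_lit 25) (nat_lit 5) (nat_lit 27) (nat_lit 5) (nat_lit 26) (nat_lit 4) (nat_lit 469) (nat_lit 337) (nat_lit 214)) (XT.nd (nat_lit 78) (nat_lit 76) (nat_lit 0) (XT.lf (nat_lit 0) (nat_lit 11251371113) (nat_lit 152) (nat_lit 9303699560) (nat_lit 76) (nat_lit 29969916818) (nat_lit 25) (nat_lit 5) (nat_lit 27) (nat_lit 5) (nat_lit 26) (nat_lit 4) (nat_lit 470) (nat_lit 337) (nat_lit 213)) (XT.lf (nat_lit 0) (nat_lit 8559826749) (nat_lit 76) (nat_lit 11503426287) (nat_lit 152) (nat_lit 31693868914)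 (nat_lit 24) (nat_lit 5) (nat_lit 25) (nat_lit 5) (nat_lit 26) (nat_lit 4) (nat_lit 471) (nat_lit 337) (nat_lit 212)))) (XT.nd (nat_lit 156) (nat_lit 152) (nat_lit 0) (XT.nd (nat_lit 78) (nat_lit 0) (nat_lit 0) (XT.lf (nat_lit 0) (nat_lit 27124344631) (nat_lit 76) (nat_lit 2095753504) (nat_lit 152) (nat_lit 23803704893) (nat_lit 24) (nat_lit 5) (nat_lit 25) (nat_lit 5) (nat_lit 26) (nat_lit 4) (nat_lit 472) (nat_lit 337) (nat_lit 211)) (XT.lf (nat_lit 0) (nat_lit 38711579718) (nat_lit 152) (nat_lit 8180845195) (nat_lit 0) (nat_lit 7434262451) (nat_lit 24) (nat_lit 5) (nat_lit 26) (nat_lit 4) (nat_lit 24) (nat_lit 4) (nat_lit 473) (nat_lit 337) (nat_lit 210))) (XT.nd (nat_lit 78) (nat_lit 76) (nat_lit 0) (XT.lf (nat_lit 0) (nat_lit 10223650303) (nat_lit 76) (nat_lit 38370493617) (nat_lit 76) (nat_lit 7071324902) (nat_lit 23) (nat_lit 4) (nat_lit 24) (nat_lit 5) (nat_lit 24) (nat_lit 4) (nat_lit 474) (nat_lit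 337) (nat_lit 209)) (XT.lf (nat_lit 0) (nat_lit 1765789428) (nat_lit 152) (nat_lit 27735831172) (nat_lit 76) (nat_lit 27540172702) (nat_lit 22) (nat_lit 5) (nat_lit 24) (nat_lit 5) (nat_lit 23) (nat_lit 4) (nat_lit 475) (nat_lit 337) (nat_lit 208))))) (XT.nd (nat_lit 234) (nat_lit 152) (nat_lit 0) (XT.nd (nat_lit 78) (nat_lit 76) (nat_lit 0) (XT.lf (nat_lit 0) (nat_lit 10713583995) (nat_lit 152) (nat_lit 9592405285) (nat_lit 76) (nat_lit 38151687714) (nat_lit 22) (nat_lit 5) (nat_lit 24) (nat_lit 5) (nat_lit 23) (nat_lit 4) (nat_lit 476) (nat_lit 337) (nat_lit 207)) (XT.nd (nat_lit 78) (nat_lit 0) (nat_lit 0) (XT.lf (nat_lit 0) (nat_lit 9252842811) (nat_lit 76) (nat_lit 10753965453) (nat_lit 152) (nat_lit 39906919713) (nat_lit 21) (nat_lit 5) (nat_lit 22) (nat_lit 5) (nat_lit 23) (nat_lit 4) (nat_lit 477) (nat_lit 337) (nat_lit 206)) (XT.lf (nat_lit 0) (nat_lit 28837272250) (nat_lit 76) (nat_lit 826602106) (nat_lit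 152) (nat_lit 31747035419) (nat_lit 21) (nat_lit 5) (nat_lit 22) (nat_lit 5) (nat_lit 23) (nat_lit 4) (nat_lit 478) (nat_lit 337) (nat_lit 205)))) (XT.nd (nat_lit 156) (nat_lit 76) (nat_lit 0) (XT.nd (nat_lit 78) (nat_lit 76) (nat_lit 0) (XT.lf (nat_lit 0) (nat_lit 39689419637) (nat_lit 152) (nat_lit 14056506275) (nat_lit 0) (nat_lit 9204718718) (nat_lit 21) (nat_lit 5) (nat_lit 23) (nat_lit 4) (nat_lit 21) (nat_lit 4) (nat_lit 479) (nat_lit 337) (nat_lit 204)) (XT.lf (nat_lit 0) (nat_lit 5085453452) (nat_lit 76) (nat_lit 44976105989) (nat_lit 76) (nat_lit 14473637844) (nat_lit 20) (nat_lit 4) (nat_lit 21) (nat_lit 5) (nat_lit 21) (nat_lit 4) (nat_lit 480) (nat_lit 337) (nat_lit 203))) (XT.nd (nat_lit 78) (nat_lit 76) (nat_lit 0) (XT.lf (nat_lit 0) (nat_lit 25068292879) (nat_lit 76) (nat_lit 35807393704) (nat_lit 76) (nat_lit 5287675824) (nat_lit 20) (nat_lit 4) (nat_lit 21) (nat_lit 5) (nat_lit 21) (nat_lit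 4) (nat_lit 481) (nat_lit 337) (nat_lit 202)) (XT.lf (nat_lit 0) (nat_lit 4081514343) (nat_lit 152) (nat_lit 22250991077) (nat_lit 76) (nat_lit 41506991069) (nat_lit 19) (nat_lit 5) (nat_lit 21) (nat_lit 5) (nat_lit 20) (nat_lit 4) (nat_lit 482) (nat_lit 337) (nat_lit 201)))))) (XT.nd (nat_lit 42276) (nat_lit 0) (nat_lit 26828) (XT.nd (nat_lit 234) (nat_lit 76) (nat_lit 0) (XT.nd (nat_lit 78) (nat_lit 76) (nat_lit 0) (XT.lf (nat_lit 0) (nat_lit 13614917176) (nat_lit 152) (nat_lit 2914442855) (nat_lit 76) (nat_lit 53035302078) (nat_lit 19) (nat_lit 5) (nat_lit 21) (nat_lit 5) (nat_lit 20) (nat_lit 4) (nat_lit 483) (nat_lit 337) (nat_lit 200)) (XT.nd (nat_lit 78) (nat_lit 0) (nat_lit 0) (XT.lf (nat_lit 0) (nat_lit 17320280583) (nat_lit 76) (nat_lit 6270256982) (nat_lit 152) (nat_lit 47746359187) (nat_lit 18) (nat_lit 5) (nat_lit 19) (nat_lit 5) (nat_lit 20) (nat_lit 4) (nat_lit 484) (nat_lit 337) (nat_lit 199))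 (XT.lf (nat_lit 0) (nat_lit 33926190396) (nat_lit 152) (nat_lit 35001140707) (nat_lit 0) (nat_lit 4233144919) (nat_lit 18) (nat_lit 5) (nat_lit 20) (nat_lit 4) (nat_lit 18) (nat_lit 4) (nat_lit 485) (nat_lit 337) (nat_lit 198)))) (XT.nd (nat_lit 156) (nat_lit 0) (nat_lit 0) (XT.nd (nat_lit 78) (nat_lit 76) (nat_lit 0) (XT.lf (nat_lit 0) (nat_lit 44624033934) (nat_lit 152) (nat_lit 15496623514) (nat_lit 0) (nat_lit 14916542077) (nat_lit 18) (nat_lit 5) (nat_lit 20) (nat_lit 4) (nat_lit 18) (nat_lit 4) (nat_lit 486) (nat_lit 337) (nat_lit 197)) (XT.lf (nat_lit 0) (nat_lit 4665288315) (nat_lit 76) (nat_lit 51012699555) (nat_lit 76) (nat_lit 21291182084) (nat_lit 17) (nat_lit 4) (nat_lit 18) (nat_lit 5) (nat_lit 18) (nat_lit 4) (nat_lit 487) (nat_lit 337) (nat_lit 196))) (XT.nd (nat_lit 78) (nat_lit 0) (nat_lit 0) (XT.lf (nat_lit 0) (nat_lit 25731129724) (nat_lit 76) (nat_lit 41479348632) (nat_lit 76) (nat_lit 11744214062)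 (nat_lit 17) (nat_lit 4) (nat_lit 18) (nat_lit 5) (nat_lit 18) (nat_lit 4) (nat_lit 488) (nat_lit 337) (nat_lit 195)) (XT.lf (nat_lit 0) (nat_lit 47410894565) (nat_lit 76) (nat_lit 31668760080) (nat_lit 76) (nat_lit 1920405025) (nat_lit 17) (nat_lit 4) (nat_lit 18) (nat_lit 5) (nat_lit 18) (nat_lit 4) (nat_lit 489) (nat_lit 337) (nat_lit 194))))) (XT.nd (nat_lit 312) (nat_lit 836) (nat_lit 0) (XT.nd (nat_lit 156) (nat_lit 304) (nat_lit 0) (XT.nd (nat_lit 78) (nat_lit 0) (nat_lit 0) (XT.lf (nat_lit 0) (nat_lit 50688648) (nat_lit 228) (nat_lit 3128426687) (nat_lit 0) (nat_lit 50688648) (nat_lit 385) (nat_lit 5) (nat_lit 388) (nat_lit 4) (nat_lit 385) (nat_lit 4) (nat_lit 344) (nat_lit 338) (nat_lit 338)) (XT.lf (nat_lit 0) (nat_lit 3218701608) (nat_lit 228) (nat_lit 2816529404) (nat_lit 0) (nat_lit 433958960) (nat_lit 385) (nat_lit 5) (nat_lit 388) (nat_lit 4) (nat_lit 385) (nat_lit 4) (nat_lit 345) (nat_lit 338)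 (nat_lit 337))) (XT.nd (nat_lit 78) (nat_lit 76) (nat_lit 0) (XT.lf (nat_lit 0) (nat_lit 669976084) (nat_lit 228) (nat_lit 5650412860) (nat_lit 228) (nat_lit 162036572) (nat_lit 382) (nat_lit 4) (nat_lit 385) (nat_lit 5) (nat_lit 385) (nat_lit 4) (nat_lit 346) (nat_lit 338) (nat_lit 336)) (XT.lf (nat_lit 0) (nat_lit 2874776829) (nat_lit 304) (nat_lit 2277466351) (nat_lit 76) (nat_lit 1345591818) (nat_lit 381) (nat_lit 5) (nat_lit 385) (nat_lit 5) (nat_lit 382) (nat_lit 4) (nat_lit 347) (nat_lit 338) (nat_lit 335)))) (XT.nd (nat_lit 156) (nat_lit 456) (nat_lit 0) (XT.nd (nat_lit 78) (nat_lit 76) (nat_lit 0) (XT.lf (nat_lit 0) (nat_lit 1317999692) (nat_lit 304) (nat_lit 4583328887) (nat_lit 380) (nat_lit 615356959) (nat_lit 377) (nat_lit 5) (nat_lit 381) (nat_lit 5) (nat_lit 382) (nat_lit 4) (nat_lit 348) (nat_lit 338) (nat_lit 334)) (XT.lf (nat_lit 0) (nat_lit 2347990518) (nat_lit 380) (nat_lit 1562741255) (nat_lit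 76) (nat_lit 2627316946) (nat_lit 376) (nat_lit 5) (nat_lit 381) (nat_lit 5) (nat_lit 377) (nat_lit 5) (nat_lit 349) (nat_lit 338) (nat_lit 333))) (XT.nd (nat_lit 78) (nat_lit 76) (nat_lit 0) (XT.lf (nat_lit 0) (nat_lit 2148944610) (nat_lit 380) (nat_lit 3153401715) (nat_lit 456) (nat_lit 1260165942) (nat_lit 371) (nat_lit 5) (nat_lit 376) (nat_lit 5) (nat_lit 377) (nat_lit 5) (nat_lit 350) (nat_lit 338) (nat_lit 332)) (XT.lf (nat_lit 0) (nat_lit 1634415536) (nat_lit 456) (nat_lit 670930824) (nat_lit 76) (nat_lit 4284595936) (nat_lit 370) (nat_lit 5) (nat_lit 376) (nat_lit 5) (nat_lit 371) (nat_lit 5) (nat_lit 351) (nat_lit 338) (nat_lit 331))))))) (XT.nd (nat_lit 1092) (nat_lit 7068) (nat_lit 0) (XT.nd (nat_lit 546) (nat_lit 3952) (nat_lit 0) (XT.nd (nat_lit 234) (nat_lit 2204) (nat_lit 0) (XT.nd (nat_lit 78) (nat_lit 608) (nat_lit 0) (XT.lf (nat_lit 0) (nat_lit 3164661541) (nat_lit 456) (nat_lit 1354472427)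 (nat_lit 532) (nat_lit 2100898157) (nat_lit 364) (nat_lit 5) (nat_lit 370) (nat_lit 5) (nat_lit 371) (nat_lit 5) (nat_lit 352) (nat_lit 338) (nat_lit 330)) (XT.nd (nat_lit 78) (nat_lit 0) (nat_lit 0) (XT.lf (nat_lit 0) (nat_lit 408086443) (nat_lit 532) (nat_lit 325135868) (nat_lit 608) (nat_lit 5920319333) (nat_lit 356) (nat_lit 5) (nat_lit 363) (nat_lit 5) (nat_lit 364) (nat_lit 5) (nat_lit 353) (nat_lit 338) (nat_lit 329)) (XT.lf (nat_lit 0) (nat_lit 3554451897) (nat_lit 608) (nat_lit 2329542553) (nat_lit 76) (nat_lit 805172716) (nat_lit 356) (nat_lit 5) (nat_lit 364) (nat_lit 5) (nat_lit 357) (nat_lit 5) (nat_lit 354) (nat_lit 338) (nat_lit 328)))) (XT.nd (nat_lit 156) (nat_lit 1520) (nat_lit 0) (XT.nd (nat_lit 78) (nat_lit 76) (nat_lit 0) (XT.lf (nat_lit 0) (nat_lit 1662586619) (nat_lit 608) (nat_lit 4721794358) (nat_lit 684) (nat_lit 343820822) (nat_lit 348) (nat_lit 5) (nat_lit 356) (nat_lit 5) (nat_lit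 357) (nat_lit 5) (nat_lit 355) (nat_lit 338) (nat_lit 327)) (XT.lf (nat_lit 0) (nat_lit 2411153503) (nat_lit 684) (nat_lit 1041752786) (nat_lit 76) (nat_lit 3316937866) (nat_lit 347) (nat_lit 5) (nat_lit 356) (nat_lit 5) (nat_lit 348) (nat_lit 5) (nat_lit 356) (nat_lit 338) (nat_lit 326))) (XT.nd (nat_lit 78) (nat_lit 836) (nat_lit 0) (XT.lf (nat_lit 0) (nat_lit 3090085525) (nat_lit 684) (nat_lit 2090204633) (nat_lit 760) (nat_lit 1634247736) (nat_lit 338) (nat_lit 5) (nat_lit 347) (nat_lit 5) (nat_lit 348) (nat_lit 5) (nat_lit 357) (nat_lit 338) (nat_lit 325)) (XT.lf (nat_lit 0) (nat_lit 433260996) (nat_lit 760) (nat_lit 640364905) (nat_lit 836) (nat_lit 5788925280) (nat_lit 327) (nat_lit 5) (nat_lit 337) (nat_lit 5) (nat_lit 338) (nat_lit 5) (nat_lit 358) (nat_lit 338) (nat_lit 324))))) (XT.nd (nat_lit 234) (nat_lit 3040) (nat_lit 0) (XT.nd (nat_lit 78) (nat_lit 912) (nat_lit 0) (XT.lf (nat_lit 0) (nat_lit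 3787976205) (nat_lit 836) (nat_lit 2216557210) (nat_lit 76) (nat_lit 908295529) (nat_lit 327) (nat_lit 5) (nat_lit 338) (nat_lit 5) (nat_lit 328) (nat_lit 5) (nat_lit 359) (nat_lit 338) (nat_lit 323)) (XT.nd (nat_lit 78) (nat_lit 76) (nat_lit 0) (XT.lf (nat_lit 0) (nat_lit 2086068188) (nat_lit 836) (nat_lit 4438553393) (nat_lit 912) (nat_lit 441818114) (nat_lit 316) (nat_lit 5) (nat_lit 327) (nat_lit 5) (nat_lit 328) (nat_lit 5) (nat_lit 360) (nat_lit 338) (nat_lit 322)) (XT.lf (nat_lit 0) (nat_lit 2214418612) (nat_lit 912) (nat_lit 552209496) (nat_lit 76) (nat_lit 4256268344) (nat_lit 315) (nat_lit 5) (nat_lit 327) (nat_lit 5) (nat_lit 316) (nat_lit 5) (nat_lit 361) (nat_lit 338) (nat_lit 321)))) (XT.nd (nat_lit 156) (nat_lit 1064) (nat_lit 0) (XT.nd (nat_lit 78) (nat_lit 1064) (nat_lit 0) (XT.lf (nat_lit 0) (nat_lit 3907881208) (nat_lit 912) (nat_lit 989021262) (nat_lit 988) (nat_lit 2185396306) (nat_lit 303)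 (nat_lit 5) (nat_lit 315) (nat_lit 5) (nat_lit 316) (nat_lit 5) (nat_lit 362) (nat_lit 338) (nat_lit 320)) (XT.lf (nat_lit 0) (nat_lit 451805646) (nat_lit 1064) (nat_lit 5833951861) (nat_lit 76) (nat_lit 859255261) (nat_lit 289) (nat_lit 5) (nat_lit 303) (nat_lit 5) (nat_lit 290) (nat_lit 5) (nat_lit 363) (nat_lit 338) (nat_lit 319))) (XT.nd (nat_lit 78) (nat_lit 1064) (nat_lit 0) (XT.lf (nat_lit 0) (nat_lit 3086910586) (nat_lit 1064) (nat_lit 1316818102) (nat_lit 76) (nat_lit 2806391400) (nat_lit 289) (nat_lit 5) (nat_lit 303) (nat_lit 5) (nat_lit 290) (nat_lit 5) (nat_lit 364) (nat_lit 338) (nat_lit 318)) (XT.lf (nat_lit 0) (nat_lit 3330330477) (nat_lit 1064) (nat_lit 2425611727) (nat_lit 1140) (nat_lit 1522633355) (nat_lit 275) (nat_lit 5) (nat_lit 289) (nat_lit 5) (nat_lit 290) (nat_lit 5) (nat_lit 365) (nat_lit 338) (nat_lit 317)))))) (XT.nd (nat_lit 546) (nat_lit 2660) (nat_lit 0) (XT.nd (nat_lit 234)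 (nat_lit 1976) (nat_lit 0) (XT.nd (nat_lit 78) (nat_lit 1216) (nat_lit 0) (XT.lf (nat_lit 0) (nat_lit 726786785) (nat_lit 1140) (nat_lit 350680517) (nat_lit 1216) (nat_lit 6273000891) (nat_lit 259) (nat_lit 5) (nat_lit 274) (nat_lit 5) (nat_lit 275) (nat_lit 5) (nat_lit 366) (nat_lit 338) (nat_lit 316)) (XT.nd (nat_lit 78) (nat_lit 1216) (nat_lit 0) (XT.lf (nat_lit 0) (nat_lit 3707638243) (nat_lit 1216) (nat_lit 1905935426) (nat_lit 76) (nat_lit 1811049195) (nat_lit 259) (nat_lit 5) (nat_lit 275) (nat_lit 5) (nat_lit 260) (nat_lit 5) (nat_lit 367) (nat_lit 338) (nat_lit 315)) (XT.lf (nat_lit 0) (nat_lit 2936319085) (nat_lit 1216) (nat_lit 3439504157) (nat_lit 1292) (nat_lit 1126442215) (nat_lit 243) (nat_lit 5) (nat_lit 259) (nat_lit 5) (nat_lit 260) (nat_lit 5) (nat_lit 368) (nat_lit 338) (nat_lit 314)))) (XT.nd (nat_lit 156) (nat_lit 1292) (nat_lit 0) (XT.nd (nat_lit 78) (nat_lit 0) (nat_lit 0) (XT.lf (nat_lit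 0) (nat_lit 300482665) (nat_lit 608) (nat_lit 1161684369) (nat_lit 684) (nat_lit 6121147011) (nat_lit 234) (nat_lit 5) (nat_lit 242) (nat_lit 5) (nat_lit 243) (nat_lit 5) (nat_lit 369) (nat_lit 338) (nat_lit 313)) (XT.lf (nat_lit 0) (nat_lit 4093263297) (nat_lit 684) (nat_lit 2354965937) (nat_lit 76) (nat_lit 1218639646) (nat_lit 234) (nat_lit 5) (nat_lit 243) (nat_lit 5) (nat_lit 235) (nat_lit 5) (nat_lit 370) (nat_lit 338) (nat_lit 312))) (XT.nd (nat_lit 78) (nat_lit 684) (nat_lit 0) (XT.lf (nat_lit 0) (nat_lit 2690807188) (nat_lit 608) (nat_lit 4081425240) (nat_lit 684) (nat_lit 981662206) (nat_lit 226) (nat_lit 5) (nat_lit 234) (nat_lit 5) (nat_lit 235) (nat_lit 5) (nat_lit 371) (nat_lit 338) (nat_lit 311)) (XT.lf (nat_lit 0) (nat_lit 5435981) (nat_lit 608) (nat_lit 1605926969) (nat_lit 684) (nat_lit 6233024132) (nat_lit 217) (nat_lit 5) (nat_lit 225) (nat_lit 5) (nat_lit 226) (nat_lit 5) (nat_lit 372) (nat_lit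 338) (nat_lit 310))))) (XT.nd (nat_lit 312) (nat_lit 1520) (nat_lit 0) (XT.nd (nat_lit 156) (nat_lit 608) (nat_lit 0) (XT.nd (nat_lit 78) (nat_lit 532) (nat_lit 0) (XT.lf (nat_lit 0) (nat_lit 4256600463) (nat_lit 684) (nat_lit 2698454437) (nat_lit 76) (nat_lit 982452978) (nat_lit 217) (nat_lit 5) (nat_lit 226) (nat_lit 5) (nat_lit 218) (nat_lit 5) (nat_lit 373) (nat_lit 338) (nat_lit 309)) (XT.lf (nat_lit 0) (nat_lit 2559526694) (nat_lit 532) (nat_lit 4397556721) (nat_lit 608) (nat_lit 1077091086) (nat_lit 210) (nat_lit 5) (nat_lit 217) (nat_lit 5) (nat_lit 218) (nat_lit 5) (nat_lit 374) (nat_lit 338) (nat_lit 308))) (XT.nd (nat_lit 78) (nat_lit 532) (nat_lit 0) (XT.lf (nat_lit 0) (nat_lit 1536979812) (nat_lit 608) (nat_lit 189441253) (nat_lit 76) (nat_lit 6407980765) (nat_lit 209) (nat_lit 5) (nat_lit 217) (nat_lit 5) (nat_lit 210) (nat_lit 5) (nat_lit 375) (nat_lit 338) (nat_lit 307)) (XT.lf (nat_lit 0) (nat_lit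 4206747606) (nat_lit 608) (nat_lit 2970745394) (nat_lit 76) (nat_lit 1059881759) (nat_lit 202) (nat_lit 5) (nat_lit 210) (nat_lit 5) (nat_lit 203) (nat_lit 5) (nat_lit 376) (nat_lit 338) (nat_lit 306)))) (XT.nd (nat_lit 156) (nat_lit 988) (nat_lit 0) (XT.nd (nat_lit 78) (nat_lit 76) (nat_lit 0) (XT.lf (nat_lit 0) (nat_lit 2508310384) (nat_lit 456) (nat_lit 4430316974) (nat_lit 532) (nat_lit 1405374585) (nat_lit 196) (nat_lit 5) (nat_lit 202) (nat_lit 5) (nat_lit 203) (nat_lit 5) (nat_lit 377) (nat_lit 338) (nat_lit 305)) (XT.lf (nat_lit 0) (nat_lit 1242963933) (nat_lit 532) (nat_lit 324023075) (nat_lit 76) (nat_lit 6887400520) (nat_lit 195) (nat_lit 5) (nat_lit 202) (nat_lit 5) (nat_lit 196) (nat_lit 5) (nat_lit 378) (nat_lit 338) (nat_lit 304))) (XT.nd (nat_lit 78) (nat_lit 456) (nat_lit 0) (XT.lf (nat_lit 0) (nat_lit 3949154051) (nat_lit 608) (nat_lit 3206661781) (nat_lit 76) (nat_lit 1411675425) (nat_lit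 188) (nat_lit 5) (nat_lit 196) (nat_lit 5) (nat_lit 189) (nat_lit 5) (nat_lit 379) (nat_lit 338) (nat_lit 303)) (XT.lf (nat_lit 0) (nat_lit 2502398546) (nat_lit 456) (nat_lit 4219103245) (nat_lit 532) (nat_lit 1962959928) (nat_lit 182) (nat_lit 5) (nat_lit 188) (nat_lit 5) (nat_lit 189) (nat_lit 5) (nat_lit 380) (nat_lit 338) (nat_lit 302))))))))
noncomputable def xc96 : XT := (XT.nd (nat_lit 2184) (nat_lit 3496) (nat_lit 0) (XT.nd (nat_lit 1092) (nat_lit 2736) (nat_lit 0) (XT.nd (nat_lit 546) (nat_lit 1976) (nat_lit 0) (XT.nd (nat_lit 234) (nat_lit 912) (nat_lit 0) (XT.nd (nat_lit 78) (nat_lit 836) (nat_lit 0) (XT.lf (nat_lit 0) (nat_lit 732249054) (nat_lit 532) (nat_lit 433593207) (nat_lit 76) (nat_lit 7639640761) (nat_lit 181) (nat_lit 5) (nat_lit 188) (nat_lit 5) (nat_lit 182) (nat_lit 5) (nat_lit 381) (nat_lit 338) (nat_lit 301)) (XT.nd (nat_lit 78) (nat_lit 380) (nat_lit 0) (XT.lf (nat_lit 0) (nat_lit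 3485626442) (nat_lit 532) (nat_lit 3442216287) (nat_lit 76) (nat_lit 2001227050) (nat_lit 175) (nat_lit 5) (nat_lit 182) (nat_lit 5) (nat_lit 176) (nat_lit 5) (nat_lit 382) (nat_lit 338) (nat_lit 300)) (XT.lf (nat_lit 0) (nat_lit 2505709837) (nat_lit 380) (nat_lit 3801006864) (nat_lit 456) (nat_lit 2750114328) (nat_lit 170) (nat_lit 5) (nat_lit 175) (nat_lit 5) (nat_lit 176) (nat_lit 5) (nat_lit 383) (nat_lit 338) (nat_lit 299)))) (XT.nd (nat_lit 156) (nat_lit 380) (nat_lit 0) (XT.nd (nat_lit 78) (nat_lit 456) (nat_lit 0) (XT.lf (nat_lit 0) (nat_lit 4097998) (nat_lit 456) (nat_lit 554916448) (nat_lit 76) (nat_lit 8630006259) (nat_lit 169) (nat_lit 5) (nat_lit 175) (nat_lit 5) (nat_lit 170) (nat_lit 5) (nat_lit 384) (nat_lit 338) (nat_lit 298)) (XT.lf (nat_lit 0) (nat_lit 2814270430) (nat_lit 532) (nat_lit 3715368746) (nat_lit 76) (nat_lit 2793880301) (nat_lit 163) (nat_lit 5) (nat_lit 170) (nat_lit 5) (nat_lit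 164) (nat_lit 5) (nat_lit 385) (nat_lit 338) (nat_lit 297))) (XT.nd (nat_lit 78) (nat_lit 0) (nat_lit 0) (XT.lf (nat_lit 0) (nat_lit 2480062060) (nat_lit 380) (nat_lit 3211513646) (nat_lit 456) (nat_lit 3771010655) (nat_lit 158) (nat_lit 5) (nat_lit 163) (nat_lit 5) (nat_lit 164) (nat_lit 5) (nat_lit 386) (nat_lit 338) (nat_lit 296)) (XT.lf (nat_lit 0) (nat_lit 8643578209) (nat_lit 456) (nat_lit 738608809) (nat_lit 76) (nat_lit 224004350) (nat_lit 158) (nat_lit 5) (nat_lit 164) (nat_lit 5) (nat_lit 159) (nat_lit 5) (nat_lit 387) (nat_lit 338) (nat_lit 295))))) (XT.nd (nat_lit 234) (nat_lit 1140) (nat_lit 0) (XT.nd (nat_lit 78) (nat_lit 380) (nat_lit 0) (XT.lf (nat_lit 0) (nat_lit 1929365275) (nat_lit 456) (nat_lit 4066844891) (nat_lit 76) (nat_lit 3756244503) (nat_lit 152) (nat_lit 5) (nat_lit 158) (nat_lit 5) (nat_lit 153) (nat_lit 5) (nat_lit 388) (nat_lit 338) (nat_lit 294)) (XT.nd (nat_lit 78) (nat_lit 0)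 (nat_lit 0) (XT.lf (nat_lit 0) (nat_lit 2384327193) (nat_lit 380) (nat_lit 2485201803) (nat_lit 456) (nat_lit 5033883718) (nat_lit 147) (nat_lit 5) (nat_lit 152) (nat_lit 5) (nat_lit 153) (nat_lit 5) (nat_lit 389) (nat_lit 338) (nat_lit 293)) (XT.lf (nat_lit 0) (nat_lit 7901199624) (nat_lit 456) (nat_lit 1024604027) (nat_lit 76) (nat_lit 1133012299) (nat_lit 147) (nat_lit 5) (nat_lit 153) (nat_lit 5) (nat_lit 148) (nat_lit 5) (nat_lit 390) (nat_lit 338) (nat_lit 292)))) (XT.nd (nat_lit 156) (nat_lit 380) (nat_lit 0) (XT.nd (nat_lit 78) (nat_lit 304) (nat_lit 0) (XT.lf (nat_lit 0) (nat_lit 821167159) (nat_lit 456) (nat_lit 4541033075) (nat_lit 76) (nat_lit 4855505483) (nat_lit 141) (nat_lit 5) (nat_lit 147) (nat_lit 5) (nat_lit 142) (nat_lit 5) (nat_lit 391) (nat_lit 338) (nat_lit 291)) (XT.lf (nat_lit 0) (nat_lit 2173503345) (nat_lit 304) (nat_lit 1656450052) (nat_lit 380) (nat_lit 6551261941) (nat_lit 137)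 (nat_lit 5) (nat_lit 141) (nat_lit 5) (nat_lit 142) (nat_lit 5) (nat_lit 392) (nat_lit 338) (nat_lit 290))) (XT.nd (nat_lit 78) (nat_lit 380) (nat_lit 0) (XT.lf (nat_lit 0) (nat_lit 6949306638) (nat_lit 380) (nat_lit 1453874202) (nat_lit 76) (nat_lit 2145854086) (nat_lit 137) (nat_lit 5) (nat_lit 142) (nat_lit 5) (nat_lit 138) (nat_lit 5) (nat_lit 393) (nat_lit 338) (nat_lit 289)) (XT.lf (nat_lit 0) (nat_lit 5529060000) (nat_lit 380) (nat_lit 4657318109) (nat_lit 456) (nat_lit 534800243) (nat_lit 132) (nat_lit 5) (nat_lit 137) (nat_lit 5) (nat_lit 138) (nat_lit 5) (nat_lit 394) (nat_lit 338) (nat_lit 288)))))) (XT.nd (nat_lit 546) (nat_lit 1140) (nat_lit 0) (XT.nd (nat_lit 234) (nat_lit 912) (nat_lit 0) (XT.nd (nat_lit 78) (nat_lit 304) (nat_lit 0) (XT.lf (nat_lit 0) (nat_lit 1797684331) (nat_lit 304) (nat_lit 760169173) (nat_lit 380) (nat_lit 8340280718) (nat_lit 127) (nat_lit 5) (nat_lit 131) (nat_lit 5) (nat_lit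 132) (nat_lit 5) (nat_lit 395) (nat_lit 338) (nat_lit 287)) (XT.nd (nat_lit 78) (nat_lit 304) (nat_lit 0) (XT.lf (nat_lit 0) (nat_lit 5772102675) (nat_lit 380) (nat_lit 2078100546) (nat_lit 76) (nat_lit 3228861996) (nat_lit 127) (nat_lit 5) (nat_lit 132) (nat_lit 5) (nat_lit 128) (nat_lit 5) (nat_lit 396) (nat_lit 338) (nat_lit 286)) (XT.lf (nat_lit 0) (nat_lit 5184684594) (nat_lit 304) (nat_lit 3912097393) (nat_lit 380) (nat_lit 2168233962) (nat_lit 123) (nat_lit 5) (nat_lit 127) (nat_lit 5) (nat_lit 128) (nat_lit 5) (nat_lit 397) (nat_lit 338) (nat_lit 285)))) (XT.nd (nat_lit 156) (nat_lit 532) (nat_lit 0) (XT.nd (nat_lit 78) (nat_lit 0) (nat_lit 0) (XT.lf (nat_lit 0) (nat_lit 1035085628) (nat_lit 380) (nat_lit 10257265881) (nat_lit 76) (nat_lit 164161742) (nat_lit 118) (nat_lit 5) (nat_lit 123) (nat_lit 5) (nat_lit 119) (nat_lit 5) (nat_lit 398) (nat_lit 338) (nat_lit 284)) (XT.lf (nat_lit 0) (nat_lit 4348969416)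 (nat_lit 380) (nat_lit 2955447275) (nat_lit 76) (nat_lit 4346964311) (nat_lit 118) (nat_lit 5) (nat_lit 123) (nat_lit 5) (nat_lit 119) (nat_lit 5) (nat_lit 399) (nat_lit 338) (nat_lit 283))) (XT.nd (nat_lit 78) (nat_lit 228) (nat_lit 0) (XT.lf (nat_lit 0) (nat_lit 4592341082) (nat_lit 304) (nat_lit 3172619618) (nat_lit 380) (nat_lit 4087063916) (nat_lit 114) (nat_lit 5) (nat_lit 118) (nat_lit 5) (nat_lit 119) (nat_lit 5) (nat_lit 400) (nat_lit 338) (nat_lit 282)) (XT.lf (nat_lit 0) (nat_lit 301414523) (nat_lit 228) (nat_lit 10984419026) (nat_lit 304) (nat_lit 772792190) (nat_lit 111) (nat_lit 5) (nat_lit 114) (nat_lit 5) (nat_lit 115) (nat_lit 5) (nat_lit 401) (nat_lit 338) (nat_lit 281))))) (XT.nd (nat_lit 234) (nat_lit 760) (nat_lit 0) (XT.nd (nat_lit 78) (nat_lit 304) (nat_lit 0) (XT.lf (nat_lit 0) (nat_lit 2653958070) (nat_lit 304) (nat_lit 4151906381) (nat_lit 76) (nat_lit 5462871009) (nat_lit 110) (nat_lit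 5) (nat_lit 114) (nat_lit 5) (nat_lit 111) (nat_lit 5) (nat_lit 402) (nat_lit 338) (nat_lit 280)) (XT.nd (nat_lit 78) (nat_lit 0) (nat_lit 0) (XT.lf (nat_lit 0) (nat_lit 3684326163) (nat_lit 304) (nat_lit 2479396013) (nat_lit 380) (nat_lit 6321333827) (nat_lit 106) (nat_lit 5) (nat_lit 110) (nat_lit 5) (nat_lit 111) (nat_lit 5) (nat_lit 403) (nat_lit 338) (nat_lit 279)) (XT.lf (nat_lit 0) (nat_lit 9800812082) (nat_lit 380) (nat_lit 947115359) (nat_lit 76) (nat_lit 1959286845) (nat_lit 106) (nat_lit 5) (nat_lit 111) (nat_lit 5) (nat_lit 107) (nat_lit 5) (nat_lit 404) (nat_lit 338) (nat_lit 278)))) (XT.nd (nat_lit 156) (nat_lit 228) (nat_lit 0) (XT.nd (nat_lit 78) (nat_lit 228) (nat_lit 0) (XT.lf (nat_lit 0) (nat_lit 655170150) (nat_lit 304) (nat_lit 5742828126) (nat_lit 76) (nat_lit 6536187984) (nat_lit 102) (nat_lit 5) (nat_lit 106) (nat_lit 5) (nat_lit 103) (nat_lit 5) (nat_lit 405) (nat_lit 338) (nat_lit 277))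 (XT.lf (nat_lit 0) (nat_lit 2383133358) (nat_lit 228) (nat_lit 1876600303) (nat_lit 304) (nat_lit 8907541987) (nat_lit 99) (nat_lit 5) (nat_lit 102) (nat_lit 5) (nat_lit 103) (nat_lit 5) (nat_lit 406) (nat_lit 338) (nat_lit 276))) (XT.nd (nat_lit 78) (nat_lit 228) (nat_lit 0) (XT.lf (nat_lit 0) (nat_lit 8020040627) (nat_lit 304) (nat_lit 2622871834) (nat_lit 76) (nat_lit 2763025154) (nat_lit 99) (nat_lit 5) (nat_lit 103) (nat_lit 5) (nat_lit 100) (nat_lit 5) (nat_lit 407) (nat_lit 338) (nat_lit 275)) (XT.lf (nat_lit 0) (nat_lit 5819429683) (nat_lit 228) (nat_lit 6111658683) (nat_lit 304) (nat_lit 1719540987) (nat_lit 96) (nat_lit 5) (nat_lit 99) (nat_lit 5) (nat_lit 100) (nat_lit 5) (nat_lit 408) (nat_lit 338) (nat_lit 274))))))) (XT.nd (nat_lit 1092) (nat_lit 1596) (nat_lit 0) (XT.nd (nat_lit 546) (nat_lit 912) (nat_lit 0) (XT.nd (nat_lit 234) (nat_lit 456) (nat_lit 0) (XT.nd (nat_lit 78) (nat_lit 228) (nat_lit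 0) (XT.lf (nat_lit 0) (nat_lit 599625277) (nat_lit 228) (nat_lit 1413109654) (nat_lit 304) (nat_lit 11889459234) (nat_lit 92) (nat_lit 5) (nat_lit 95) (nat_lit 5) (nat_lit 96) (nat_lit 5) (nat_lit 409) (nat_lit 338) (nat_lit 273)) (XT.nd (nat_lit 78) (nat_lit 228) (nat_lit 0) (XT.lf (nat_lit 0) (nat_lit 5899055318) (nat_lit 304) (nat_lit 4825004967) (nat_lit 76) (nat_lit 3434442955) (nat_lit 92) (nat_lit 5) (nat_lit 96) (nat_lit 5) (nat_lit 93) (nat_lit 5) (nat_lit 410) (nat_lit 338) (nat_lit 272)) (XT.lf (nat_lit 0) (nat_lit 3911718057) (nat_lit 228) (nat_lit 6006731454) (nat_lit 304) (nat_lit 4503564534) (nat_lit 89) (nat_lit 5) (nat_lit 92) (nat_lit 5) (nat_lit 93) (nat_lit 5) (nat_lit 411) (nat_lit 338) (nat_lit 271)))) (XT.nd (nat_lit 156) (nat_lit 152) (nat_lit 0) (XT.nd (nat_lit 78) (nat_lit 304) (nat_lit 0) (XT.lf (nat_lit 0) (nat_lit 12952506112) (nat_lit 228) (nat_lit 1120008892) (nat_lit 304) (nat_lit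 620499265) (nat_lit 89) (nat_lit 5) (nat_lit 92) (nat_lit 5) (nat_lit 93) (nat_lit 5) (nat_lit 412) (nat_lit 338) (nat_lit 270)) (XT.lf (nat_lit 0) (nat_lit 3388209367) (nat_lit 304) (nat_lit 7661207466) (nat_lit 76) (nat_lit 3919506939) (nat_lit 85) (nat_lit 5) (nat_lit 89) (nat_lit 5) (nat_lit 86) (nat_lit 5) (nat_lit 413) (nat_lit 338) (nat_lit 269))) (XT.nd (nat_lit 78) (nat_lit 0) (nat_lit 0) (XT.lf (nat_lit 0) (nat_lit 1363461812) (nat_lit 152) (nat_lit 6149473039) (nat_lit 228) (nat_lit 7739750796) (nat_lit 83) (nat_lit 5) (nat_lit 85) (nat_lit 5) (nat_lit 86) (nat_lit 5) (nat_lit 414) (nat_lit 338) (nat_lit 268)) (XT.lf (nat_lit 0) (nat_lit 10760249199) (nat_lit 152) (nat_lit 1045244687) (nat_lit 228) (nat_lit 3738149762) (nat_lit 83) (nat_lit 5) (nat_lit 85) (nat_lit 5) (nat_lit 86) (nat_lit 5) (nat_lit 415) (nat_lit 338) (nat_lit 267))))) (XT.nd (nat_lit 234) (nat_lit 456) (nat_lit 0) (XT.nd (nat_lit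 78) (nat_lit 152) (nat_lit 0) (XT.lf (nat_lit 0) (nat_lit 428624631) (nat_lit 304) (nat_lit 11256103783) (nat_lit 76) (nat_lit 4156918795) (nat_lit 79) (nat_lit 5) (nat_lit 83) (nat_lit 5) (nat_lit 80) (nat_lit 5) (nat_lit 416) (nat_lit 338) (nat_lit 266)) (XT.nd (nat_lit 78) (nat_lit 152) (nat_lit 0) (XT.lf (nat_lit 0) (nat_lit 4671989853) (nat_lit 304) (nat_lit 1916302841) (nat_lit 76) (nat_lit 9558391734) (nat_lit 79) (nat_lit 5) (nat_lit 83) (nat_lit 5) (nat_lit 80) (nat_lit 5) (nat_lit 417) (nat_lit 338) (nat_lit 265)) (XT.lf (nat_lit 0) (nat_lit 7802622404) (nat_lit 152) (nat_lit 1283571764) (nat_lit 228) (nat_lit 7373377801) (nat_lit 77) (nat_lit 5) (nat_lit 79) (nat_lit 5) (nat_lit 80) (nat_lit 5) (nat_lit 418) (nat_lit 338) (nat_lit 264)))) (XT.nd (nat_lit 156) (nat_lit 152) (nat_lit 0) (XT.nd (nat_lit 78) (nat_lit 76) (nat_lit 0) (XT.lf (nat_lit 0) (nat_lit 996673695) (nat_lit 228) (nat_lit 12674191953)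 (nat_lit 304) (nat_lit 3109844454) (nat_lit 74) (nat_lit 5) (nat_lit 77) (nat_lit 5) (nat_lit 78) (nat_lit 5) (nat_lit 419) (nat_lit 338) (nat_lit 263)) (XT.lf (nat_lit 0) (nat_lit 1326403701) (nat_lit 304) (nat_lit 6071021367) (nat_lit 76) (nat_lit 9711598104) (nat_lit 73) (nat_lit 5) (nat_lit 77) (nat_lit 5) (nat_lit 74) (nat_lit 5) (nat_lit 420) (nat_lit 338) (nat_lit 262))) (XT.nd (nat_lit 78) (nat_lit 0) (nat_lit 0) (XT.lf (nat_lit 0) (nat_lit 3927156123) (nat_lit 152) (nat_lit 1913561588) (nat_lit 228) (nat_lit 11605324466) (nat_lit 71) (nat_lit 5) (nat_lit 73) (nat_lit 5) (nat_lit 74) (nat_lit 5) (nat_lit 421) (nat_lit 338) (nat_lit 261)) (XT.lf (nat_lit 0) (nat_lit 10558185416) (nat_lit 228) (nat_lit 3530364589) (nat_lit 76) (nat_lit 3702594633) (nat_lit 71) (nat_lit 5) (nat_lit 74) (nat_lit 5) (nat_lit 72) (nat_lit 5) (nat_lit 422) (nat_lit 338) (nat_lit 260)))))) (XT.nd (nat_lit 546) (nat_lit 836)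 (nat_lit 0) (XT.nd (nat_lit 234) (nat_lit 380) (nat_lit 0) (XT.nd (nat_lit 78) (nat_lit 228) (nat_lit 0) (XT.lf (nat_lit 0) (nat_lit 6821242711) (nat_lit 152) (nat_lit 8651237470) (nat_lit 228) (nat_lit 2672465384) (nat_lit 69) (nat_lit 5) (nat_lit 71) (nat_lit 5) (nat_lit 72) (nat_lit 5) (nat_lit 423) (nat_lit 338) (nat_lit 259)) (XT.nd (nat_lit 78) (nat_lit 152) (nat_lit 0) (XT.lf (nat_lit 0) (nat_lit 1992199061) (nat_lit 228) (nat_lit 1023158158) (nat_lit 76) (nat_lit 15493217571) (nat_lit 68) (nat_lit 5) (nat_lit 71) (nat_lit 5) (nat_lit 69) (nat_lit 5) (nat_lit 424) (nat_lit 338) (nat_lit 258)) (XT.lf (nat_lit 0) (nat_lit 6835842547) (nat_lit 228) (nat_lit 9208287422) (nat_lit 76) (nat_lit 2835410632) (nat_lit 66) (nat_lit 5) (nat_lit 69) (nat_lit 5) (nat_lit 67) (nat_lit 5) (nat_lit 425) (nat_lit 338) (nat_lit 257)))) (XT.nd (nat_lit 156) (nat_lit 228) (nat_lit 0) (XT.nd (nat_lit 78) (nat_lit 0) (nat_lit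 0) (XT.lf (nat_lit 0) (nat_lit 1393893334) (nat_lit 152) (nat_lit 10456456962) (nat_lit 228) (nat_lit 7410522423) (nat_lit 64) (nat_lit 5) (nat_lit 66) (nat_lit 5) (nat_lit 67) (nat_lit 5) (nat_lit 426) (nat_lit 338) (nat_lit 256)) (XT.lf (nat_lit 0) (nat_lit 12453891224) (nat_lit 152) (nat_lit 4626602804) (nat_lit 228) (nat_lit 2571198617) (nat_lit 64) (nat_lit 5) (nat_lit 66) (nat_lit 5) (nat_lit 67) (nat_lit 5) (nat_lit 427) (nat_lit 338) (nat_lit 255))) (XT.nd (nat_lit 78) (nat_lit 0) (nat_lit 0) (XT.lf (nat_lit 0) (nat_lit 2389075722) (nat_lit 228) (nat_lit 16272741850) (nat_lit 76) (nat_lit 1391041403) (nat_lit 61) (nat_lit 5) (nat_lit 64) (nat_lit 5) (nat_lit 62) (nat_lit 5) (nat_lit 428) (nat_lit 338) (nat_lit 254)) (XT.lf (nat_lit 0) (nat_lit 7538580698) (nat_lit 228) (nat_lit 5349210900) (nat_lit 76) (nat_lit 7574745485) (nat_lit 61) (nat_lit 5) (nat_lit 64) (nat_lit 5) (nat_lit 62) (nat_lit 5) (nat_lit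 429) (nat_lit 338) (nat_lit 253))))) (XT.nd (nat_lit 312) (nat_lit 456) (nat_lit 0) (XT.nd (nat_lit 156) (nat_lit 228) (nat_lit 0) (XT.nd (nat_lit 78) (nat_lit 0) (nat_lit 0) (XT.lf (nat_lit 0) (nat_lit 5971693858) (nat_lit 152) (nat_lit 6901959841) (nat_lit 228) (nat_lit 8009922782) (nat_lit 59) (nat_lit 5) (nat_lit 61) (nat_lit 5) (nat_lit 62) (nat_lit 5) (nat_lit 430) (nat_lit 338) (nat_lit 252)) (XT.lf (nat_lit 0) (nat_lit 17695477387) (nat_lit 152) (nat_lit 701317925) (nat_lit 228) (nat_lit 2919614592) (nat_lit 59) (nat_lit 5) (nat_lit 61) (nat_lit 5) (nat_lit 62) (nat_lit 5) (nat_lit 431) (nat_lit 338) (nat_lit 251))) (XT.nd (nat_lit 78) (nat_lit 0) (nat_lit 0) (XT.lf (nat_lit 0) (nat_lit 2385870484) (nat_lit 228) (nat_lit 13716551214) (nat_lit 76) (nat_lit 5655905588) (nat_lit 56) (nat_lit 5) (nat_lit 59) (nat_lit 5) (nat_lit 57) (nat_lit 5) (nat_lit 432) (nat_lit 338) (nat_lit 250)) (XT.lf (nat_lit 0)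 (nat_lit 7810330276) (nat_lit 228) (nat_lit 2165708044) (nat_lit 76) (nat_lit 12236044963) (nat_lit 56) (nat_lit 5) (nat_lit 59) (nat_lit 5) (nat_lit 57) (nat_lit 5) (nat_lit 433) (nat_lit 338) (nat_lit 249)))) (XT.nd (nat_lit 156) (nat_lit 304) (nat_lit 0) (XT.nd (nat_lit 78) (nat_lit 0) (nat_lit 0) (XT.lf (nat_lit 0) (nat_lit 9880105967) (nat_lit 152) (nat_lit 3587752139) (nat_lit 228) (nat_lit 9209486789) (nat_lit 54) (nat_lit 5) (nat_lit 56) (nat_lit 5) (nat_lit 57) (nat_lit 5) (nat_lit 434) (nat_lit 338) (nat_lit 248)) (XT.lf (nat_lit 0) (nat_lit 19321428384) (nat_lit 228) (nat_lit 897659347) (nat_lit 76) (nat_lit 2936690005) (nat_lit 54) (nat_lit 5) (nat_lit 57) (nat_lit 5) (nat_lit 55) (nat_lit 4) (nat_lit 435) (nat_lit 338) (nat_lit 247))) (XT.nd (nat_lit 78) (nat_lit 152) (nat_lit 0) (XT.lf (nat_lit 0) (nat_lit 1792332532) (nat_lit 152) (nat_lit 12157751743) (nat_lit 76) (nat_lit 9694286066) (nat_lit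 52) (nat_lit 5) (nat_lit 54) (nat_lit 5) (nat_lit 53) (nat_lit 5) (nat_lit 436) (nat_lit 338) (nat_lit 246)) (XT.lf (nat_lit 0) (nat_lit 32845899) (nat_lit 152) (nat_lit 7463602109) (nat_lit 228) (nat_lit 16650465440) (nat_lit 50) (nat_lit 5) (nat_lit 52) (nat_lit 5) (nat_lit 53) (nat_lit 5) (nat_lit 437) (nat_lit 338) (nat_lit 245))))))))
noncomputable def xc97 : XT := (XT.nd (nat_lit 2184) (nat_lit 836) (nat_lit 0) (XT.nd (nat_lit 1092) (nat_lit 760) (nat_lit 0) (XT.nd (nat_lit 546) (nat_lit 532) (nat_lit 0) (XT.nd (nat_lit 234) (nat_lit 228) (nat_lit 0) (XT.nd (nat_lit 78) (nat_lit 152) (nat_lit 0) (XT.lf (nat_lit 0) (nat_lit 12795588503) (nat_lit 152) (nat_lit 675378546) (nat_lit 228) (nat_lit 11190589953) (nat_lit 50) (nat_lit 5) (nat_lit 52) (nat_lit 5) (nat_lit 53) (nat_lit 5) (nat_lit 438) (nat_lit 338) (nat_lit 244)) (XT.nd (nat_lit 78) (nat_lit 76) (nat_lit 0) (XT.lf (nat_lit 0) (nat_lit 659673171)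 (nat_lit 76) (nat_lit 19009122285) (nat_lit 152) (nat_lit 5521524674) (nat_lit 49) (nat_lit 5) (nat_lit 50) (nat_lit 5) (nat_lit 51) (nat_lit 4) (nat_lit 439) (nat_lit 338) (nat_lit 243)) (XT.lf (nat_lit 0) (nat_lit 416167633) (nat_lit 152) (nat_lit 11980054642) (nat_lit 76) (nat_lit 13335492037) (nat_lit 48) (nat_lit 5) (nat_lit 50) (nat_lit 5) (nat_lit 49) (nat_lit 5) (nat_lit 440) (nat_lit 338) (nat_lit 242)))) (XT.nd (nat_lit 156) (nat_lit 76) (nat_lit 0) (XT.nd (nat_lit 78) (nat_lit 0) (nat_lit 0) (XT.lf (nat_lit 0) (nat_lit 868458268) (nat_lit 152) (nat_lit 5538628208) (nat_lit 228) (nat_lit 19881043871) (nat_lit 46) (nat_lit 5) (nat_lit 48) (nat_lit 5) (nat_lit 49) (nat_lit 5) (nat_lit 441) (nat_lit 338) (nat_lit 241)) (XT.lf (nat_lit 0) (nat_lit 12692369086) (nat_lit 228) (nat_lit 12566417583) (nat_lit 76) (nat_lit 1599015311) (nat_lit 46) (nat_lit 5) (nat_lit 49) (nat_lit 5) (nat_lit 47) (nat_lit 4)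 (nat_lit 442) (nat_lit 338) (nat_lit 240))) (XT.nd (nat_lit 78) (nat_lit 0) (nat_lit 0) (XT.lf (nat_lit 0) (nat_lit 589329742) (nat_lit 76) (nat_lit 18615836807) (nat_lit 152) (nat_lit 8238230664) (nat_lit 45) (nat_lit 5) (nat_lit 46) (nat_lit 5) (nat_lit 47) (nat_lit 4) (nat_lit 443) (nat_lit 338) (nat_lit 239)) (XT.lf (nat_lit 0) (nat_lit 14357971751) (nat_lit 76) (nat_lit 11660974889) (nat_lit 152) (nat_lit 2024447778) (nat_lit 45) (nat_lit 5) (nat_lit 46) (nat_lit 5) (nat_lit 47) (nat_lit 4) (nat_lit 444) (nat_lit 338) (nat_lit 238))))) (XT.nd (nat_lit 234) (nat_lit 304) (nat_lit 0) (XT.nd (nat_lit 78) (nat_lit 152) (nat_lit 0) (XT.lf (nat_lit 0) (nat_lit 4269478117) (nat_lit 152) (nat_lit 202428556) (nat_lit 76) (nat_lit 24188851471) (nat_lit 44) (nat_lit 5) (nat_lit 46) (nat_lit 5) (nat_lit 45) (nat_lit 5) (nat_lit 445) (nat_lit 338) (nat_lit 237)) (XT.nd (nat_lit 78) (nat_lit 0) (nat_lit 0) (XT.lf (nat_lit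 0) (nat_lit 10854407302) (nat_lit 228) (nat_lit 15423488112) (nat_lit 76) (nat_lit 3013861701) (nat_lit 42) (nat_lit 5) (nat_lit 45) (nat_lit 5) (nat_lit 43) (nat_lit 4) (nat_lit 446) (nat_lit 338) (nat_lit 236)) (XT.lf (nat_lit 0) (nat_lit 17663018355) (nat_lit 228) (nat_lit 1658276960) (nat_lit 76) (nat_lit 10619608567) (nat_lit 42) (nat_lit 5) (nat_lit 45) (nat_lit 5) (nat_lit 43) (nat_lit 4) (nat_lit 447) (nat_lit 338) (nat_lit 235)))) (XT.nd (nat_lit 156) (nat_lit 152) (nat_lit 0) (XT.nd (nat_lit 78) (nat_lit 76) (nat_lit 0) (XT.lf (nat_lit 0) (nat_lit 12731836692) (nat_lit 76) (nat_lit 12046819115) (nat_lit 152) (nat_lit 5827787995) (nat_lit 41) (nat_lit 5) (nat_lit 42) (nat_lit 5) (nat_lit 43) (nat_lit 4) (nat_lit 448) (nat_lit 338) (nat_lit 234)) (XT.lf (nat_lit 0) (nat_lit 797216301) (nat_lit 152) (nat_lit 3748340170) (nat_lit 76) (nat_lit 26746240178) (nat_lit 40) (nat_lit 5) (nat_lit 42) (nat_lit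 5) (nat_lit 41) (nat_lit 5) (nat_lit 449) (nat_lit 338) (nat_lit 233))) (XT.nd (nat_lit 78) (nat_lit 0) (nat_lit 0) (XT.lf (nat_lit 0) (nat_lit 7621834253) (nat_lit 228) (nat_lit 21103762060) (nat_lit 76) (nat_lit 3266844493) (nat_lit 38) (nat_lit 5) (nat_lit 41) (nat_lit 5) (nat_lit 39) (nat_lit 4) (nat_lit 450) (nat_lit 338) (nat_lit 232)) (XT.lf (nat_lit 0) (nat_lit 14715464004) (nat_lit 228) (nat_lit 6752232047) (nat_lit 76) (nat_lit 11244481633) (nat_lit 38) (nat_lit 5) (nat_lit 41) (nat_lit 5) (nat_lit 39) (nat_lit 4) (nat_lit 451) (nat_lit 338) (nat_lit 231)))))) (XT.nd (nat_lit 546) (nat_lit 380) (nat_lit 0) (XT.nd (nat_lit 234) (nat_lit 76) (nat_lit 0) (XT.nd (nat_lit 78) (nat_lit 228) (nat_lit 0) (XT.lf (nat_lit 0) (nat_lit 8154473279) (nat_lit 76) (nat_lit 13927409428) (nat_lit 152) (nat_lit 11369826105) (nat_lit 37) (nat_lit 5) (nat_lit 38) (nat_lit 5) (nat_lit 39) (nat_lit 4) (nat_lit 452) (nat_lit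 338) (nat_lit 230)) (XT.nd (nat_lit 78) (nat_lit 228) (nat_lit 0) (XT.lf (nat_lit 0) (nat_lit 23612638345) (nat_lit 76) (nat_lit 6106641970) (nat_lit 152) (nat_lit 4492647470) (nat_lit 37) (nat_lit 5) (nat_lit 38) (nat_lit 5) (nat_lit 39) (nat_lit 4) (nat_lit 453) (nat_lit 338) (nat_lit 229)) (XT.lf (nat_lit 0) (nat_lit 2585642030) (nat_lit 228) (nat_lit 30442331329) (nat_lit 76) (nat_lit 1964873672) (nat_lit 34) (nat_lit 5) (nat_lit 37) (nat_lit 5) (nat_lit 35) (nat_lit 4) (nat_lit 454) (nat_lit 338) (nat_lit 228)))) (XT.nd (nat_lit 156) (nat_lit 76) (nat_lit 0) (XT.nd (nat_lit 78) (nat_lit 0) (nat_lit 0) (XT.lf (nat_lit 0) (nat_lit 9936743010) (nat_lit 228) (nat_lit 15561465973) (nat_lit 76) (nat_lit 10293128979) (nat_lit 34) (nat_lit 5) (nat_lit 37) (nat_lit 5) (nat_lit 35) (nat_lit 4) (nat_lit 455) (nat_lit 338) (nat_lit 227)) (XT.lf (nat_lit 0) (nat_lit 17491102258) (nat_lit 228) (nat_lit 266766828) (nat_lit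 76) (nat_lit 18856434110) (nat_lit 34) (nat_lit 5) (nat_lit 37) (nat_lit 5) (nat_lit 35) (nat_lit 4) (nat_lit 456) (nat_lit 338) (nat_lit 226))) (XT.nd (nat_lit 78) (nat_lit 0) (nat_lit 0) (XT.lf (nat_lit 0) (nat_lit 15762717802) (nat_lit 76) (nat_lit 9644123755) (nat_lit 152) (nat_lit 12051074649) (nat_lit 33) (nat_lit 5) (nat_lit 34) (nat_lit 5) (nat_lit 35) (nat_lit 4) (nat_lit 457) (nat_lit 338) (nat_lit 225)) (XT.lf (nat_lit 0) (nat_lit 32247222768) (nat_lit 76) (nat_lit 1298939779) (nat_lit 152) (nat_lit 4781093029) (nat_lit 33) (nat_lit 5) (nat_lit 34) (nat_lit 5) (nat_lit 35) (nat_lit 4) (nat_lit 458) (nat_lit 338) (nat_lit 224))))) (XT.nd (nat_lit 234) (nat_lit 152) (nat_lit 0) (XT.nd (nat_lit 78) (nat_lit 76) (nat_lit 0) (XT.lf (nat_lit 0) (nat_lit 2806644245) (nat_lit 152) (nat_lit 29145898425) (nat_lit 76) (nat_lit 7264778628) (nat_lit 31) (nat_lit 5) (nat_lit 33) (nat_lit 5) (nat_lit 32) (nat_lit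 4) (nat_lit 459) (nat_lit 338) (nat_lit 223)) (XT.nd (nat_lit 78) (nat_lit 76) (nat_lit 0) (XT.lf (nat_lit 0) (nat_lit 10584564546) (nat_lit 152) (nat_lit 13391785374) (nat_lit 76) (nat_lit 16154560712) (nat_lit 31) (nat_lit 5) (nat_lit 33) (nat_lit 5) (nat_lit 32) (nat_lit 4) (nat_lit 460) (nat_lit 338) (nat_lit 222)) (XT.lf (nat_lit 0) (nat_lit 2860885022) (nat_lit 76) (nat_lit 15746691464) (nat_lit 152) (nat_lit 22463979655) (nat_lit 30) (nat_lit 5) (nat_lit 31) (nat_lit 5) (nat_lit 32) (nat_lit 4) (nat_lit 461) (nat_lit 338) (nat_lit 221)))) (XT.nd (nat_lit 156) (nat_lit 152) (nat_lit 0) (XT.nd (nat_lit 78) (nat_lit 0) (nat_lit 0) (XT.lf (nat_lit 0) (nat_lit 19846054846) (nat_lit 76) (nat_lit 7144882280) (nat_lit 152) (nat_lit 15045895224) (nat_lit 30) (nat_lit 5) (nat_lit 31) (nat_lit 5) (nat_lit 32) (nat_lit 4) (nat_lit 462) (nat_lit 338) (nat_lit 220)) (XT.lf (nat_lit 0) (nat_lit 35627034260) (nat_lit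 152) (nat_lit 5735833288) (nat_lit 0) (nat_lit 1668163280) (nat_lit 30) (nat_lit 5) (nat_lit 32) (nat_lit 4) (nat_lit 30) (nat_lit 4) (nat_lit 463) (nat_lit 338) (nat_lit 219))) (XT.nd (nat_lit 78) (nat_lit 0) (nat_lit 0) (XT.lf (nat_lit 0) (nat_lit 624569369) (nat_lit 152) (nat_lit 32721242673) (nat_lit 76) (nat_lit 10704113705) (nat_lit 28) (nat_lit 5) (nat_lit 30) (nat_lit 5) (nat_lit 29) (nat_lit 4) (nat_lit 464) (nat_lit 338) (nat_lit 218)) (XT.lf (nat_lit 0) (nat_lit 8788884547) (nat_lit 152) (nat_lit 16177049381) (nat_lit 76) (nat_lit 20129944183) (nat_lit 28) (nat_lit 5) (nat_lit 30) (nat_lit 5) (nat_lit 29) (nat_lit 4) (nat_lit 465) (nat_lit 338) (nat_lit 217))))))) (XT.nd (nat_lit 1092) (nat_lit 304) (nat_lit 0) (XT.nd (nat_lit 546) (nat_lit 228) (nat_lit 0) (XT.nd (nat_lit 234) (nat_lit 228) (nat_lit 0) (XT.nd (nat_lit 78) (nat_lit 0) (nat_lit 0) (XT.lf (nat_lit 0) (nat_lit 852698234) (nat_lit 76)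 (nat_lit 16339269464) (nat_lit 152) (nat_lit 28981427128) (nat_lit 27) (nat_lit 5) (nat_lit 28) (nat_lit 5) (nat_lit 29) (nat_lit 4) (nat_lit 466) (nat_lit 338) (nat_lit 216)) (XT.nd (nat_lit 78) (nat_lit 0) (nat_lit 0) (XT.lf (nat_lit 0) (nat_lit 18697809976) (nat_lit 76) (nat_lit 7298489004) (nat_lit 152) (nat_lit 21282464303) (nat_lit 27) (nat_lit 5) (nat_lit 28) (nat_lit 5) (nat_lit 29) (nat_lit 4) (nat_lit 467) (nat_lit 338) (nat_lit 215)) (XT.lf (nat_lit 0) (nat_lit 35070207336) (nat_lit 152) (nat_lit 11385017996) (nat_lit 0) (nat_lit 1961904929) (nat_lit 27) (nat_lit 5) (nat_lit 29) (nat_lit 4) (nat_lit 27) (nat_lit 4) (nat_lit 468) (nat_lit 338) (nat_lit 214)))) (XT.nd (nat_lit 156) (nat_lit 76) (nat_lit 0) (XT.nd (nat_lit 78) (nat_lit 76) (nat_lit 0) (XT.lf (nat_lit 0) (nat_lit 6352626669) (nat_lit 76) (nat_lit 38183530959) (nat_lit 76) (nat_lit 5049896735) (nat_lit 26) (nat_lit 4) (nat_lit 27) (nat_lit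 5) (nat_lit 27) (nat_lit 4) (nat_lit 469) (nat_lit 338) (nat_lit 213)) (XT.lf (nat_lit 0) (nat_lit 3530435633) (nat_lit 152) (nat_lit 25991443884) (nat_lit 76) (nat_lit 21264080824) (nat_lit 25) (nat_lit 5) (nat_lit 27) (nat_lit 5) (nat_lit 26) (nat_lit 4) (nat_lit 470) (nat_lit 338) (nat_lit 212))) (XT.nd (nat_lit 78) (nat_lit 76) (nat_lit 0) (XT.lf (nat_lit 0) (nat_lit 12253584021) (nat_lit 152) (nat_lit 8307330323) (nat_lit 76) (nat_lit 31459842850) (nat_lit 25) (nat_lit 5) (nat_lit 27) (nat_lit 5) (nat_lit 26) (nat_lit 4) (nat_lit 471) (nat_lit 338) (nat_lit 211)) (XT.lf (nat_lit 0) (nat_lit 10079597067) (nat_lit 76) (nat_lit 11243006457) (nat_lit 152) (nat_lit 31967469890) (nat_lit 24) (nat_lit 5) (nat_lit 25) (nat_lit 5) (nat_lit 26) (nat_lit 4) (nat_lit 472) (nat_lit 338) (nat_lit 210))))) (XT.nd (nat_lit 234) (nat_lit 152) (nat_lit 0) (XT.nd (nat_lit 78) (nat_lit 76) (nat_lit 0) (XT.lf (nat_lit 0) (nat_lit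 29164264790) (nat_lit 76) (nat_lit 1570740071) (nat_lit 152) (nat_lit 23860325660) (nat_lit 24) (nat_lit 5) (nat_lit 25) (nat_lit 5) (nat_lit 26) (nat_lit 4) (nat_lit 473) (nat_lit 338) (nat_lit 209)) (XT.nd (nat_lit 78) (nat_lit 76) (nat_lit 0) (XT.lf (nat_lit 0) (nat_lit 40498126044) (nat_lit 152) (nat_lit 7222653756) (nat_lit 0) (nat_lit 8216915823) (nat_lit 24) (nat_lit 5) (nat_lit 26) (nat_lit 4) (nat_lit 24) (nat_lit 4) (nat_lit 474) (nat_lit 338) (nat_lit 208)) (XT.lf (nat_lit 0) (nat_lit 11722176442) (nat_lit 76) (nat_lit 38948237524) (nat_lit 76) (nat_lit 6646430217) (nat_lit 23) (nat_lit 4) (nat_lit 24) (nat_lit 5) (nat_lit 24) (nat_lit 4) (nat_lit 475) (nat_lit 338) (nat_lit 207)))) (XT.nd (nat_lit 156) (nat_lit 76) (nat_lit 0) (XT.nd (nat_lit 78) (nat_lit 0) (nat_lit 0) (XT.lf (nat_lit 0) (nat_lit 2425174369) (nat_lit 152) (nat_lit 27398700507) (nat_lit 76) (nat_lit 28910946584) (nat_lit 22) (nat_lit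 5) (nat_lit 24) (nat_lit 5) (nat_lit 23) (nat_lit 4) (nat_lit 476) (nat_lit 338) (nat_lit 206)) (XT.lf (nat_lit 0) (nat_lit 11623740309) (nat_lit 152) (nat_lit 8745026375) (nat_lit 76) (nat_lit 39824945822) (nat_lit 22) (nat_lit 5) (nat_lit 24) (nat_lit 5) (nat_lit 23) (nat_lit 4) (nat_lit 477) (nat_lit 338) (nat_lit 205))) (XT.nd (nat_lit 78) (nat_lit 0) (nat_lit 0) (XT.lf (nat_lit 0) (nat_lit 10654450233) (nat_lit 76) (nat_lit 10534967840) (nat_lit 152) (nat_lit 40504218186) (nat_lit 21) (nat_lit 5) (nat_lit 22) (nat_lit 5) (nat_lit 23) (nat_lit 4) (nat_lit 478) (nat_lit 338) (nat_lit 204)) (XT.lf (nat_lit 0) (nat_lit 30793674046) (nat_lit 76) (nat_lit 325558832) (nat_lit 152) (nat_lit 32117010444) (nat_lit 21) (nat_lit 5) (nat_lit 22) (nat_lit 5) (nat_lit 23) (nat_lit 4) (nat_lit 479) (nat_lit 338) (nat_lit 203)))))) (XT.nd (nat_lit 546) (nat_lit 76) (nat_lit 0) (XT.nd (nat_lit 234) (nat_lit 152) (nat_lit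 0) (XT.nd (nat_lit 78) (nat_lit 76) (nat_lit 0) (XT.lf (nat_lit 0) (nat_lit 41433982808) (nat_lit 152) (nat_lit 13407111496) (nat_lit 0) (nat_lit 9981423657) (nat_lit 21) (nat_lit 5) (nat_lit 23) (nat_lit 4) (nat_lit 21) (nat_lit 4) (nat_lit 480) (nat_lit 338) (nat_lit 202)) (XT.nd (nat_lit 78) (nat_lit 0) (nat_lit 0) (XT.lf (nat_lit 0) (nat_lit 6298606140) (nat_lit 76) (nat_lit 45812743253) (nat_lit 76) (nat_lit 14343436787) (nat_lit 20) (nat_lit 4) (nat_lit 21) (nat_lit 5) (nat_lit 21) (nat_lit 4) (nat_lit 481) (nat_lit 338) (nat_lit 201)) (XT.lf (nat_lit 0) (nat_lit 26850039807) (nat_lit 76) (nat_lit 36383901034) (nat_lit 76) (nat_lit 4898335038) (nat_lit 20) (nat_lit 4) (nat_lit 21) (nat_lit 5) (nat_lit 21) (nat_lit 4) (nat_lit 482) (nat_lit 338) (nat_lit 200)))) (XT.nd (nat_lit 156) (nat_lit 76) (nat_lit 0) (XT.nd (nat_lit 78) (nat_lit 0) (nat_lit 0) (XT.lf (nat_lit 0) (nat_lit 4725589066) (nat_lit 152)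 (nat_lit 21908406140) (nat_lit 76) (nat_lit 43225011008) (nat_lit 19) (nat_lit 5) (nat_lit 21) (nat_lit 5) (nat_lit 20) (nat_lit 4) (nat_lit 483) (nat_lit 338) (nat_lit 199)) (XT.lf (nat_lit 0) (nat_lit 14529800898) (nat_lit 152) (nat_lit 2021182287) (nat_lit 76) (nat_lit 55085400176) (nat_lit 19) (nat_lit 5) (nat_lit 21) (nat_lit 5) (nat_lit 20) (nat_lit 4) (nat_lit 484) (nat_lit 338) (nat_lit 198))) (XT.nd (nat_lit 78) (nat_lit 0) (nat_lit 0) (XT.lf (nat_lit 0) (nat_lit 18810968209) (nat_lit 76) (nat_lit 5988305728) (nat_lit 152) (nat_lit 48662674329) (nat_lit 18) (nat_lit 5) (nat_lit 19) (nat_lit 5) (nat_lit 20) (nat_lit 4) (nat_lit 485) (nat_lit 338) (nat_lit 197)) (XT.lf (nat_lit 0) (nat_lit 35434790417) (nat_lit 152) (nat_lit 35098149586) (nat_lit 0) (nat_lit 4807601810) (nat_lit 18) (nat_lit 5) (nat_lit 20) (nat_lit 4) (nat_lit 18) (nat_lit 4) (nat_lit 486) (nat_lit 338) (nat_lit 196))))) (XT.nd (nat_lit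 41886) (nat_lit 0) (nat_lit 27664) (XT.nd (nat_lit 156) (nat_lit 0) (nat_lit 0) (XT.nd (nat_lit 78) (nat_lit 76) (nat_lit 0) (XT.lf (nat_lit 0) (nat_lit 46439273700) (nat_lit 152) (nat_lit 15036254897) (nat_lit 0) (nat_lit 15798467993) (nat_lit 18) (nat_lit 5) (nat_lit 20) (nat_lit 4) (nat_lit 18) (nat_lit 4) (nat_lit 487) (nat_lit 338) (nat_lit 195)) (XT.lf (nat_lit 0) (nat_lit 5721443038) (nat_lit 76) (nat_lit 52098331065) (nat_lit 76) (nat_lit 21444304873) (nat_lit 17) (nat_lit 4) (nat_lit 18) (nat_lit 5) (nat_lit 18) (nat_lit 4) (nat_lit 488) (nat_lit 338) (nat_lit 194))) (XT.nd (nat_lit 41652) (nat_lit 0) (nat_lit 28272) (XT.lf (nat_lit 0) (nat_lit 27392574367) (nat_lit 76) (nat_lit 42291933483) (nat_lit 76) (nat_lit 11625071868) (nat_lit 17) (nat_lit 4) (nat_lit 18) (nat_lit 5) (nat_lit 18) (nat_lit 4) (nat_lit 489) (nat_lit 338) (nat_lit 193)) (XT.lf (nat_lit 0) (nat_lit 1598623876) (nat_lit 76) (nat_lit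 25889290) (nat_lit 0) (nat_lit 1598623876) (nat_lit 389) (nat_lit 5) (nat_lit 390) (nat_lit 0) (nat_lit 389) (nat_lit 4) (nat_lit 342) (nat_lit 339) (nat_lit 339)))) (XT.nd (nat_lit 156) (nat_lit 304) (nat_lit 0) (XT.nd (nat_lit 78) (nat_lit 228) (nat_lit 0) (XT.lf (nat_lit 0) (nat_lit 3270292568) (nat_lit 76) (nat_lit 3068021323) (nat_lit 76) (nat_lit 113687848) (nat_lit 388) (nat_lit 4) (nat_lit 389) (nat_lit 5) (nat_lit 389) (nat_lit 4) (nat_lit 343) (nat_lit 339) (nat_lit 338)) (XT.lf (nat_lit 0) (nat_lit 141302615) (nat_lit 152) (nat_lit 2796589512) (nat_lit 228) (nat_lit 3522715309) (nat_lit 385) (nat_lit 5) (nat_lit 387) (nat_lit 5) (nat_lit 388) (nat_lit 4) (nat_lit 344) (nat_lit 339) (nat_lit 337))) (XT.nd (nat_lit 78) (nat_lit 304) (nat_lit 0) (XT.lf (nat_lit 0) (nat_lit 3562031442) (nat_lit 152) (nat_lit 2432743185) (nat_lit 228) (nat_lit 477273082) (nat_lit 385) (nat_lit 5) (nat_lit 387) (nat_lit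 5) (nat_lit 388) (nat_lit 4) (nat_lit 345) (nat_lit 339) (nat_lit 336)) (XT.lf (nat_lit 0) (nat_lit 519649664) (nat_lit 228) (nat_lit 1979081142) (nat_lit 304) (nat_lit 3987686701) (nat_lit 381) (nat_lit 5) (nat_lit 384) (nat_lit 5) (nat_lit 385) (nat_lit 5) (nat_lit 346) (nat_lit 339) (nat_lit 335))))))))
noncomputable def xc98 : XT := (XT.nd (nat_lit 2184) (nat_lit 7600) (nat_lit 0) (XT.nd (nat_lit 1092) (nat_lit 7980) (nat_lit 0) (XT.nd (nat_lit 546) (nat_lit 3648) (nat_lit 0) (XT.nd (nat_lit 234) (nat_lit 988) (nat_lit 0) (XT.nd (nat_lit 78) (nat_lit 380) (nat_lit 0) (XT.lf (nat_lit 0) (nat_lit 4041213798) (nat_lit 228) (nat_lit 1431332410) (nat_lit 304) (nat_lit 1031070330) (nat_lit 381) (nat_lit 5) (nat_lit 384) (nat_lit 5) (nat_lit 385) (nat_lit 5) (nat_lit 347) (nat_lit 339) (nat_lit 334)) (XT.nd (nat_lit 78) (nat_lit 0) (nat_lit 0) (XT.lf (nat_lit 0) (nat_lit 1082700427) (nat_lit 304) (nat_lit 793522099)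 (nat_lit 380) (nat_lit 4647568478) (nat_lit 376) (nat_lit 5) (nat_lit 380) (nat_lit 5) (nat_lit 381) (nat_lit 5) (nat_lit 348) (nat_lit 339) (nat_lit 333)) (XT.lf (nat_lit 0) (nat_lit 4708712230) (nat_lit 304) (nat_lit 59488048) (nat_lit 380) (nat_lit 1778595009) (nat_lit 376) (nat_lit 5) (nat_lit 380) (nat_lit 5) (nat_lit 381) (nat_lit 5) (nat_lit 349) (nat_lit 339) (nat_lit 332)))) (XT.nd (nat_lit 156) (nat_lit 532) (nat_lit 0) (XT.nd (nat_lit 78) (nat_lit 0) (nat_lit 0) (XT.lf (nat_lit 0) (nat_lit 1073884603) (nat_lit 456) (nat_lit 4748492476) (nat_lit 76) (nat_lit 750233681) (nat_lit 370) (nat_lit 5) (nat_lit 376) (nat_lit 5) (nat_lit 371) (nat_lit 5) (nat_lit 350) (nat_lit 339) (nat_lit 331)) (XT.lf (nat_lit 0) (nat_lit 3893731338) (nat_lit 456) (nat_lit 1051762541) (nat_lit 76) (nat_lit 1655722336) (nat_lit 370) (nat_lit 5) (nat_lit 376) (nat_lit 5) (nat_lit 371) (nat_lit 5) (nat_lit 351) (nat_lit 339)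 (nat_lit 330))) (XT.nd (nat_lit 78) (nat_lit 0) (nat_lit 0) (XT.lf (nat_lit 0) (nat_lit 90978255) (nat_lit 532) (nat_lit 3891025236) (nat_lit 76) (nat_lit 2650891464) (nat_lit 363) (nat_lit 5) (nat_lit 370) (nat_lit 5) (nat_lit 364) (nat_lit 5) (nat_lit 352) (nat_lit 339) (nat_lit 329)) (XT.lf (nat_lit 0) (nat_lit 2832098737) (nat_lit 532) (nat_lit 89202523) (nat_lit 76) (nat_lit 3746089050) (nat_lit 363) (nat_lit 5) (nat_lit 370) (nat_lit 5) (nat_lit 364) (nat_lit 5) (nat_lit 353) (nat_lit 339) (nat_lit 328))))) (XT.nd (nat_lit 234) (nat_lit 2432) (nat_lit 0) (XT.nd (nat_lit 78) (nat_lit 684) (nat_lit 0) (XT.lf (nat_lit 0) (nat_lit 3835543242) (nat_lit 532) (nat_lit 1762017359) (nat_lit 608) (nat_lit 1107158915) (nat_lit 356) (nat_lit 5) (nat_lit 363) (nat_lit 5) (nat_lit 364) (nat_lit 5) (nat_lit 354) (nat_lit 339) (nat_lit 327)) (XT.nd (nat_lit 78) (nat_lit 0) (nat_lit 0) (XT.lf (nat_lit 0) (nat_lit 1074047807)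 (nat_lit 608) (nat_lit 513169782) (nat_lit 684) (nat_lit 5157989767) (nat_lit 347) (nat_lit 5) (nat_lit 355) (nat_lit 5) (nat_lit 356) (nat_lit 5) (nat_lit 355) (nat_lit 339) (nat_lit 326)) (XT.lf (nat_lit 0) (nat_lit 4285584198) (nat_lit 684) (nat_lit 1679971971) (nat_lit 76) (nat_lit 822719399) (nat_lit 347) (nat_lit 5) (nat_lit 356) (nat_lit 5) (nat_lit 348) (nat_lit 5) (nat_lit 356) (nat_lit 339) (nat_lit 325)))) (XT.nd (nat_lit 156) (nat_lit 1672) (nat_lit 0) (XT.nd (nat_lit 78) (nat_lit 0) (nat_lit 0) (XT.lf (nat_lit 0) (nat_lit 166660739) (nat_lit 760) (nat_lit 4430939531) (nat_lit 76) (nat_lit 2236854438) (nat_lit 337) (nat_lit 5) (nat_lit 347) (nat_lit 5) (nat_lit 338) (nat_lit 5) (nat_lit 357) (nat_lit 339) (nat_lit 324)) (XT.lf (nat_lit 0) (nat_lit 2795329418) (nat_lit 760) (nat_lit 331251569) (nat_lit 76) (nat_lit 3756860845) (nat_lit 337) (nat_lit 5) (nat_lit 347) (nat_lit 5) (nat_lit 338) (nat_lit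 5) (nat_lit 358) (nat_lit 339) (nat_lit 323))) (XT.nd (nat_lit 78) (nat_lit 912) (nat_lit 0) (XT.lf (nat_lit 0) (nat_lit 3900809059) (nat_lit 760) (nat_lit 1554502603) (nat_lit 836) (nat_lit 1480063898) (nat_lit 327) (nat_lit 5) (nat_lit 337) (nat_lit 5) (nat_lit 338) (nat_lit 5) (nat_lit 359) (nat_lit 339) (nat_lit 322)) (XT.lf (nat_lit 0) (nat_lit 1114785265) (nat_lit 912) (nat_lit 5769404490) (nat_lit 76) (nat_lit 106414475) (nat_lit 315) (nat_lit 5) (nat_lit 327) (nat_lit 5) (nat_lit 316) (nat_lit 5) (nat_lit 360) (nat_lit 339) (nat_lit 321)))))) (XT.nd (nat_lit 546) (nat_lit 3724) (nat_lit 0) (XT.nd (nat_lit 234) (nat_lit 2280) (nat_lit 0) (XT.nd (nat_lit 78) (nat_lit 1976) (nat_lit 0) (XT.lf (nat_lit 0) (nat_lit 3721944958) (nat_lit 912) (nat_lit 1479873035) (nat_lit 76) (nat_lit 1846352057) (nat_lit 315) (nat_lit 5) (nat_lit 327) (nat_lit 5) (nat_lit 316) (nat_lit 5) (nat_lit 361) (nat_lit 339) (nat_lit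 320)) (XT.nd (nat_lit 78) (nat_lit 1064) (nat_lit 0) (XT.lf (nat_lit 0) (nat_lit 2927708909) (nat_lit 912) (nat_lit 3428020637) (nat_lit 988) (nat_lit 753325949) (nat_lit 303) (nat_lit 5) (nat_lit 315) (nat_lit 5) (nat_lit 316) (nat_lit 5) (nat_lit 362) (nat_lit 339) (nat_lit 319)) (XT.lf (nat_lit 0) (nat_lit 244206342) (nat_lit 988) (nat_lit 1554109291) (nat_lit 1064) (nat_lit 5374790216) (nat_lit 289) (nat_lit 5) (nat_lit 302) (nat_lit 5) (nat_lit 303) (nat_lit 5) (nat_lit 363) (nat_lit 339) (nat_lit 318)))) (XT.nd (nat_lit 156) (nat_lit 1216) (nat_lit 0) (XT.nd (nat_lit 78) (nat_lit 1064) (nat_lit 0) (XT.lf (nat_lit 0) (nat_lit 4380481700) (nat_lit 1064) (nat_lit 2431548835) (nat_lit 76) (nat_lit 427791065) (nat_lit 289) (nat_lit 5) (nat_lit 303) (nat_lit 5) (nat_lit 290) (nat_lit 5) (nat_lit 364) (nat_lit 339) (nat_lit 317)) (XT.lf (nat_lit 0) (nat_lit 2159032695) (nat_lit 1064) (nat_lit 4842328359) (nat_lit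 1140) (nat_lit 308380259) (nat_lit 275) (nat_lit 5) (nat_lit 289) (nat_lit 5) (nat_lit 290) (nat_lit 5) (nat_lit 365) (nat_lit 339) (nat_lit 316))) (XT.nd (nat_lit 78) (nat_lit 1140) (nat_lit 0) (XT.lf (nat_lit 0) (nat_lit 2224523732) (nat_lit 1140) (nat_lit 535656718) (nat_lit 76) (nat_lit 4622426944) (nat_lit 274) (nat_lit 5) (nat_lit 289) (nat_lit 5) (nat_lit 275) (nat_lit 5) (nat_lit 366) (nat_lit 339) (nat_lit 315)) (XT.lf (nat_lit 0) (nat_lit 4230080330) (nat_lit 1140) (nat_lit 565830276) (nat_lit 1216) (nat_lit 2662632986) (nat_lit 259) (nat_lit 5) (nat_lit 274) (nat_lit 5) (nat_lit 275) (nat_lit 5) (nat_lit 367) (nat_lit 339) (nat_lit 314))))) (XT.nd (nat_lit 234) (nat_lit 1824) (nat_lit 0) (XT.nd (nat_lit 78) (nat_lit 684) (nat_lit 0) (XT.lf (nat_lit 0) (nat_lit 1558458435) (nat_lit 1216) (nat_lit 5852236667) (nat_lit 1292) (nat_lit 127110579) (nat_lit 243) (nat_lit 5) (nat_lit 259) (nat_lit 5) (nat_lit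 260) (nat_lit 5) (nat_lit 368) (nat_lit 339) (nat_lit 313)) (XT.nd (nat_lit 78) (nat_lit 608) (nat_lit 0) (XT.lf (nat_lit 0) (nat_lit 2404728213) (nat_lit 1292) (nat_lit 1162641321) (nat_lit 76) (nat_lit 4052331124) (nat_lit 242) (nat_lit 5) (nat_lit 259) (nat_lit 5) (nat_lit 243) (nat_lit 5) (nat_lit 369) (nat_lit 339) (nat_lit 312)) (XT.lf (nat_lit 0) (nat_lit 3804028376) (nat_lit 608) (nat_lit 1174744098) (nat_lit 684) (nat_lit 2726210576) (nat_lit 234) (nat_lit 5) (nat_lit 242) (nat_lit 5) (nat_lit 243) (nat_lit 5) (nat_lit 370) (nat_lit 339) (nat_lit 311)))) (XT.nd (nat_lit 156) (nat_lit 1140) (nat_lit 0) (XT.nd (nat_lit 78) (nat_lit 76) (nat_lit 0) (XT.lf (nat_lit 0) (nat_lit 1090967162) (nat_lit 608) (nat_lit 6507377092) (nat_lit 684) (nat_lit 195462003) (nat_lit 226) (nat_lit 5) (nat_lit 234) (nat_lit 5) (nat_lit 235) (nat_lit 5) (nat_lit 371) (nat_lit 339) (nat_lit 310)) (XT.lf (nat_lit 0) (nat_lit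 2349740667) (nat_lit 684) (nat_lit 1676231621) (nat_lit 76) (nat_lit 3859088760) (nat_lit 225) (nat_lit 5) (nat_lit 234) (nat_lit 5) (nat_lit 226) (nat_lit 5) (nat_lit 372) (nat_lit 339) (nat_lit 309))) (XT.nd (nat_lit 78) (nat_lit 532) (nat_lit 0) (XT.lf (nat_lit 0) (nat_lit 3500029758) (nat_lit 608) (nat_lit 1437072746) (nat_lit 684) (nat_lit 3042829822) (nat_lit 217) (nat_lit 5) (nat_lit 225) (nat_lit 5) (nat_lit 226) (nat_lit 5) (nat_lit 373) (nat_lit 339) (nat_lit 308)) (XT.lf (nat_lit 0) (nat_lit 722190111) (nat_lit 532) (nat_lit 6853016431) (nat_lit 608) (nat_lit 503277575) (nat_lit 210) (nat_lit 5) (nat_lit 217) (nat_lit 5) (nat_lit 218) (nat_lit 5) (nat_lit 374) (nat_lit 339) (nat_lit 307))))))) (XT.nd (nat_lit 1092) (nat_lit 3192) (nat_lit 0) (XT.nd (nat_lit 546) (nat_lit 2204) (nat_lit 0) (XT.nd (nat_lit 234) (nat_lit 1140) (nat_lit 0) (XT.nd (nat_lit 78) (nat_lit 988) (nat_lit 0) (XT.lf (nat_lit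 0) (nat_lit 2068957381) (nat_lit 608) (nat_lit 2110743640) (nat_lit 76) (nat_lit 3999777120) (nat_lit 209) (nat_lit 5) (nat_lit 217) (nat_lit 5) (nat_lit 210) (nat_lit 5) (nat_lit 375) (nat_lit 339) (nat_lit 306)) (XT.nd (nat_lit 78) (nat_lit 456) (nat_lit 0) (XT.lf (nat_lit 0) (nat_lit 3283986390) (nat_lit 532) (nat_lit 1395440149) (nat_lit 608) (nat_lit 3604816120) (nat_lit 202) (nat_lit 5) (nat_lit 209) (nat_lit 5) (nat_lit 210) (nat_lit 5) (nat_lit 376) (nat_lit 339) (nat_lit 305)) (XT.lf (nat_lit 0) (nat_lit 417744590) (nat_lit 456) (nat_lit 6930821752) (nat_lit 532) (nat_lit 1044197960) (nat_lit 196) (nat_lit 5) (nat_lit 202) (nat_lit 5) (nat_lit 203) (nat_lit 5) (nat_lit 377) (nat_lit 339) (nat_lit 304)))) (XT.nd (nat_lit 156) (nat_lit 532) (nat_lit 0) (XT.nd (nat_lit 78) (nat_lit 532) (nat_lit 0) (XT.lf (nat_lit 0) (nat_lit 1568097393) (nat_lit 532) (nat_lit 2500755834) (nat_lit 76) (nat_lit 4435073919)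 (nat_lit 195) (nat_lit 5) (nat_lit 202) (nat_lit 5) (nat_lit 196) (nat_lit 5) (nat_lit 378) (nat_lit 339) (nat_lit 303)) (XT.lf (nat_lit 0) (nat_lit 3121430539) (nat_lit 532) (nat_lit 1089202730) (nat_lit 608) (nat_lit 4408318454) (nat_lit 188) (nat_lit 5) (nat_lit 195) (nat_lit 5) (nat_lit 196) (nat_lit 5) (nat_lit 379) (nat_lit 339) (nat_lit 302))) (XT.nd (nat_lit 78) (nat_lit 76) (nat_lit 0) (XT.lf (nat_lit 0) (nat_lit 142546183) (nat_lit 456) (nat_lit 6779588122) (nat_lit 532) (nat_lit 1815624176) (nat_lit 182) (nat_lit 5) (nat_lit 188) (nat_lit 5) (nat_lit 189) (nat_lit 5) (nat_lit 380) (nat_lit 339) (nat_lit 301)) (XT.lf (nat_lit 0) (nat_lit 849226290) (nat_lit 532) (nat_lit 2881802092) (nat_lit 76) (nat_lit 5128543684) (nat_lit 181) (nat_lit 5) (nat_lit 188) (nat_lit 5) (nat_lit 182) (nat_lit 5) (nat_lit 381) (nat_lit 339) (nat_lit 300))))) (XT.nd (nat_lit 234) (nat_lit 1368) (nat_lit 0) (XT.nd (nat_lit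 78) (nat_lit 380) (nat_lit 0) (XT.lf (nat_lit 0) (nat_lit 2976815277) (nat_lit 456) (nat_lit 555163272) (nat_lit 532) (nat_lit 5453308997) (nat_lit 175) (nat_lit 5) (nat_lit 181) (nat_lit 5) (nat_lit 182) (nat_lit 5) (nat_lit 382) (nat_lit 339) (nat_lit 299)) (XT.nd (nat_lit 78) (nat_lit 380) (nat_lit 0) (XT.lf (nat_lit 0) (nat_lit 6297370225) (nat_lit 532) (nat_lit 137185627) (nat_lit 76) (nat_lit 2680173580) (nat_lit 175) (nat_lit 5) (nat_lit 182) (nat_lit 5) (nat_lit 176) (nat_lit 5) (nat_lit 383) (nat_lit 339) (nat_lit 298)) (XT.lf (nat_lit 0) (nat_lit 5955763602) (nat_lit 380) (nat_lit 3200921268) (nat_lit 456) (nat_lit 91059944) (nat_lit 170) (nat_lit 5) (nat_lit 175) (nat_lit 5) (nat_lit 176) (nat_lit 5) (nat_lit 384) (nat_lit 339) (nat_lit 297)))) (XT.nd (nat_lit 156) (nat_lit 836) (nat_lit 0) (XT.nd (nat_lit 78) (nat_lit 0) (nat_lit 0) (XT.lf (nat_lit 0) (nat_lit 2642676854) (nat_lit 532) (nat_lit 6573565302)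 (nat_lit 76) (nat_lit 168382922) (nat_lit 163) (nat_lit 5) (nat_lit 170) (nat_lit 5) (nat_lit 164) (nat_lit 5) (nat_lit 385) (nat_lit 339) (nat_lit 296)) (XT.lf (nat_lit 0) (nat_lit 5471174039) (nat_lit 532) (nat_lit 459215206) (nat_lit 76) (nat_lit 3594775560) (nat_lit 163) (nat_lit 5) (nat_lit 170) (nat_lit 5) (nat_lit 164) (nat_lit 5) (nat_lit 386) (nat_lit 339) (nat_lit 295))) (XT.nd (nat_lit 78) (nat_lit 456) (nat_lit 0) (XT.lf (nat_lit 0) (nat_lit 5889062695) (nat_lit 380) (nat_lit 2502863512) (nat_lit 456) (nat_lit 1277789464) (nat_lit 158) (nat_lit 5) (nat_lit 163) (nat_lit 5) (nat_lit 164) (nat_lit 5) (nat_lit 387) (nat_lit 339) (nat_lit 294)) (XT.lf (nat_lit 0) (nat_lit 1541688746) (nat_lit 456) (nat_lit 7239672879) (nat_lit 76) (nat_lit 1037075619) (nat_lit 152) (nat_lit 5) (nat_lit 158) (nat_lit 5) (nat_lit 153) (nat_lit 5) (nat_lit 388) (nat_lit 339) (nat_lit 293)))))) (XT.nd (nat_lit 546) (nat_lit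 1596) (nat_lit 0) (XT.nd (nat_lit 234) (nat_lit 760) (nat_lit 0) (XT.nd (nat_lit 78) (nat_lit 836) (nat_lit 0) (XT.lf (nat_lit 0) (nat_lit 4435173492) (nat_lit 456) (nat_lit 867266601) (nat_lit 76) (nat_lit 4668363206) (nat_lit 152) (nat_lit 5) (nat_lit 158) (nat_lit 5) (nat_lit 153) (nat_lit 5) (nat_lit 389) (nat_lit 339) (nat_lit 292)) (XT.nd (nat_lit 78) (nat_lit 456) (nat_lit 0) (XT.lf (nat_lit 0) (nat_lit 5744876099) (nat_lit 380) (nat_lit 1678983236) (nat_lit 456) (nat_lit 2703644162) (nat_lit 147) (nat_lit 5) (nat_lit 152) (nat_lit 5) (nat_lit 153) (nat_lit 5) (nat_lit 390) (nat_lit 339) (nat_lit 291)) (XT.lf (nat_lit 0) (nat_lit 213088514) (nat_lit 456) (nat_lit 8046550132) (nat_lit 76) (nat_lit 2029100246) (nat_lit 141) (nat_lit 5) (nat_lit 147) (nat_lit 5) (nat_lit 142) (nat_lit 5) (nat_lit 391) (nat_lit 339) (nat_lit 290)))) (XT.nd (nat_lit 156) (nat_lit 456) (nat_lit 0) (XT.nd (nat_lit 78) (nat_lit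 304) (nat_lit 0) (XT.lf (nat_lit 0) (nat_lit 3178342283) (nat_lit 456) (nat_lit 1406175484) (nat_lit 76) (nat_lit 5869043509) (nat_lit 141) (nat_lit 5) (nat_lit 147) (nat_lit 5) (nat_lit 142) (nat_lit 5) (nat_lit 392) (nat_lit 339) (nat_lit 289)) (XT.lf (nat_lit 0) (nat_lit 5477727533) (nat_lit 304) (nat_lit 762861947) (nat_lit 380) (nat_lit 4382511156) (nat_lit 137) (nat_lit 5) (nat_lit 141) (nat_lit 5) (nat_lit 142) (nat_lit 5) (nat_lit 393) (nat_lit 339) (nat_lit 288))) (XT.nd (nat_lit 78) (nat_lit 76) (nat_lit 0) (XT.lf (nat_lit 0) (nat_lit 1739861358) (nat_lit 380) (nat_lit 7672323731) (nat_lit 456) (nat_lit 1385029647) (nat_lit 132) (nat_lit 5) (nat_lit 137) (nat_lit 5) (nat_lit 138) (nat_lit 5) (nat_lit 394) (nat_lit 339) (nat_lit 287)) (XT.lf (nat_lit 0) (nat_lit 1685334870) (nat_lit 456) (nat_lit 2125680076) (nat_lit 76) (nat_lit 7164573287) (nat_lit 131) (nat_lit 5) (nat_lit 137) (nat_lit 5) (nat_lit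 132) (nat_lit 5) (nat_lit 395) (nat_lit 339) (nat_lit 286))))) (XT.nd (nat_lit 312) (nat_lit 608) (nat_lit 0) (XT.nd (nat_lit 156) (nat_lit 380) (nat_lit 0) (XT.nd (nat_lit 78) (nat_lit 304) (nat_lit 0) (XT.lf (nat_lit 0) (nat_lit 4827850457) (nat_lit 380) (nat_lit 6123784478) (nat_lit 76) (nat_lit 207042157) (nat_lit 127) (nat_lit 5) (nat_lit 132) (nat_lit 5) (nat_lit 128) (nat_lit 5) (nat_lit 396) (nat_lit 339) (nat_lit 285)) (XT.lf (nat_lit 0) (nat_lit 1027324086) (nat_lit 304) (nat_lit 7064504095) (nat_lit 380) (nat_lit 3254626375) (nat_lit 123) (nat_lit 5) (nat_lit 127) (nat_lit 5) (nat_lit 128) (nat_lit 5) (nat_lit 397) (nat_lit 339) (nat_lit 284))) (XT.nd (nat_lit 78) (nat_lit 380) (nat_lit 0) (XT.lf (nat_lit 0) (nat_lit 8457085980) (nat_lit 304) (nat_lit 3017014193) (nat_lit 380) (nat_lit 65165129) (nat_lit 123) (nat_lit 5) (nat_lit 127) (nat_lit 5) (nat_lit 128) (nat_lit 5) (nat_lit 398) (nat_lit 339)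 (nat_lit 283)) (XT.lf (nat_lit 0) (nat_lit 3170051853) (nat_lit 380) (nat_lit 7382832655) (nat_lit 76) (nat_lit 1183670692) (nat_lit 118) (nat_lit 5) (nat_lit 123) (nat_lit 5) (nat_lit 119) (nat_lit 5) (nat_lit 399) (nat_lit 339) (nat_lit 282)))) (XT.nd (nat_lit 156) (nat_lit 304) (nat_lit 0) (XT.nd (nat_lit 78) (nat_lit 0) (nat_lit 0) (XT.lf (nat_lit 0) (nat_lit 46259176) (nat_lit 304) (nat_lit 6476258611) (nat_lit 380) (nat_lit 5416591839) (nat_lit 114) (nat_lit 5) (nat_lit 118) (nat_lit 5) (nat_lit 119) (nat_lit 5) (nat_lit 400) (nat_lit 339) (nat_lit 281)) (XT.lf (nat_lit 0) (nat_lit 7789289607) (nat_lit 304) (nat_lit 2221167013) (nat_lit 380) (nat_lit 2136247053) (nat_lit 114) (nat_lit 5) (nat_lit 118) (nat_lit 5) (nat_lit 119) (nat_lit 5) (nat_lit 401) (nat_lit 339) (nat_lit 280))) (XT.nd (nat_lit 78) (nat_lit 0) (nat_lit 0) (XT.lf (nat_lit 0) (nat_lit 1233072187) (nat_lit 304) (nat_lit 8982218042) (nat_lit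 76) (nat_lit 2144442087) (nat_lit 110) (nat_lit 5) (nat_lit 114) (nat_lit 5) (nat_lit 111) (nat_lit 5) (nat_lit 402) (nat_lit 339) (nat_lit 279)) (XT.lf (nat_lit 0) (nat_lit 4688446506) (nat_lit 304) (nat_lit 1247280948) (nat_lit 76) (nat_lit 6641961587) (nat_lit 110) (nat_lit 5) (nat_lit 114) (nat_lit 5) (nat_lit 111) (nat_lit 5) (nat_lit 403) (nat_lit 339) (nat_lit 278))))))))
noncomputable def xc99 : XT := (XT.nd (nat_lit 2184) (nat_lit 2128) (nat_lit 0) (XT.nd (nat_lit 1092) (nat_lit 1520) (nat_lit 0) (XT.nd (nat_lit 546) (nat_lit 988) (nat_lit 0) (XT.nd (nat_lit 234) (nat_lit 760) (nat_lit 0) (XT.nd (nat_lit 78) (nat_lit 304) (nat_lit 0) (XT.lf (nat_lit 0) (nat_lit 6794340703) (nat_lit 304) (nat_lit 1481057763) (nat_lit 380) (nat_lit 4525957354) (nat_lit 106) (nat_lit 5) (nat_lit 110) (nat_lit 5) (nat_lit 111) (nat_lit 5) (nat_lit 404) (nat_lit 339) (nat_lit 277)) (XT.nd (nat_lit 78) (nat_lit 76) (nat_lit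 0) (XT.lf (nat_lit 0) (nat_lit 2022604503) (nat_lit 228) (nat_lit 9972331022) (nat_lit 304) (nat_lit 1036056369) (nat_lit 103) (nat_lit 5) (nat_lit 106) (nat_lit 5) (nat_lit 107) (nat_lit 5) (nat_lit 405) (nat_lit 339) (nat_lit 276)) (XT.lf (nat_lit 0) (nat_lit 2547638835) (nat_lit 304) (nat_lit 2947770972) (nat_lit 76) (nat_lit 7770206803) (nat_lit 102) (nat_lit 5) (nat_lit 106) (nat_lit 5) (nat_lit 103) (nat_lit 5) (nat_lit 406) (nat_lit 339) (nat_lit 275)))) (XT.nd (nat_lit 156) (nat_lit 304) (nat_lit 0) (XT.nd (nat_lit 78) (nat_lit 228) (nat_lit 0) (XT.lf (nat_lit 0) (nat_lit 5392877768) (nat_lit 228) (nat_lit 841157776) (nat_lit 304) (nat_lit 7272464214) (nat_lit 99) (nat_lit 5) (nat_lit 102) (nat_lit 5) (nat_lit 103) (nat_lit 5) (nat_lit 407) (nat_lit 339) (nat_lit 274)) (XT.lf (nat_lit 0) (nat_lit 198975309) (nat_lit 228) (nat_lit 9866496055) (nat_lit 304) (nat_lit 3688112248) (nat_lit 96) (nat_lit 5)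 (nat_lit 99) (nat_lit 5) (nat_lit 100) (nat_lit 5) (nat_lit 408) (nat_lit 339) (nat_lit 273))) (XT.nd (nat_lit 78) (nat_lit 228) (nat_lit 0) (XT.lf (nat_lit 0) (nat_lit 59382305) (nat_lit 304) (nat_lit 5144750552) (nat_lit 76) (nat_lit 8802282661) (nat_lit 95) (nat_lit 5) (nat_lit 99) (nat_lit 5) (nat_lit 96) (nat_lit 5) (nat_lit 409) (nat_lit 339) (nat_lit 272)) (XT.lf (nat_lit 0) (nat_lit 3493499869) (nat_lit 228) (nat_lit 350901158) (nat_lit 304) (nat_lit 10421366057) (nat_lit 92) (nat_lit 5) (nat_lit 95) (nat_lit 5) (nat_lit 96) (nat_lit 5) (nat_lit 410) (nat_lit 339) (nat_lit 271))))) (XT.nd (nat_lit 234) (nat_lit 456) (nat_lit 0) (XT.nd (nat_lit 78) (nat_lit 532) (nat_lit 0) (XT.lf (nat_lit 0) (nat_lit 7806029071) (nat_lit 304) (nat_lit 2136006930) (nat_lit 76) (nat_lit 4588978211) (nat_lit 92) (nat_lit 5) (nat_lit 96) (nat_lit 5) (nat_lit 93) (nat_lit 5) (nat_lit 411) (nat_lit 339) (nat_lit 270)) (XT.nd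 (nat_lit 78) (nat_lit 304) (nat_lit 0) (XT.lf (nat_lit 0) (nat_lit 6835035939) (nat_lit 228) (nat_lit 5087553405) (nat_lit 304) (nat_lit 2880553491) (nat_lit 89) (nat_lit 5) (nat_lit 92) (nat_lit 5) (nat_lit 93) (nat_lit 5) (nat_lit 412) (nat_lit 339) (nat_lit 269)) (XT.lf (nat_lit 0) (nat_lit 990612581) (nat_lit 228) (nat_lit 65869654) (nat_lit 304) (nat_lit 14026698150) (nat_lit 85) (nat_lit 5) (nat_lit 88) (nat_lit 5) (nat_lit 89) (nat_lit 5) (nat_lit 413) (nat_lit 339) (nat_lit 268)))) (XT.nd (nat_lit 156) (nat_lit 304) (nat_lit 0) (XT.nd (nat_lit 78) (nat_lit 152) (nat_lit 0) (XT.lf (nat_lit 0) (nat_lit 5151341875) (nat_lit 304) (nat_lit 5120759528) (nat_lit 76) (nat_lit 5095739800) (nat_lit 85) (nat_lit 5) (nat_lit 89) (nat_lit 5) (nat_lit 86) (nat_lit 5) (nat_lit 414) (nat_lit 339) (nat_lit 267)) (XT.lf (nat_lit 0) (nat_lit 4147490180) (nat_lit 152) (nat_lit 5230294732) (nat_lit 228) (nat_lit 6283000653)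 (nat_lit 83) (nat_lit 5) (nat_lit 85) (nat_lit 5) (nat_lit 86) (nat_lit 5) (nat_lit 415) (nat_lit 339) (nat_lit 266))) (XT.nd (nat_lit 78) (nat_lit 304) (nat_lit 0) (XT.lf (nat_lit 0) (nat_lit 13746284357) (nat_lit 152) (nat_lit 5085039) (nat_lit 228) (nat_lit 2210544094) (nat_lit 83) (nat_lit 5) (nat_lit 85) (nat_lit 5) (nat_lit 86) (nat_lit 5) (nat_lit 416) (nat_lit 339) (nat_lit 265)) (XT.lf (nat_lit 0) (nat_lit 2038470784) (nat_lit 304) (nat_lit 8887245105) (nat_lit 76) (nat_lit 5342999508) (nat_lit 79) (nat_lit 5) (nat_lit 83) (nat_lit 5) (nat_lit 80) (nat_lit 5) (nat_lit 417) (nat_lit 339) (nat_lit 264)))))) (XT.nd (nat_lit 546) (nat_lit 760) (nat_lit 0) (XT.nd (nat_lit 234) (nat_lit 380) (nat_lit 0) (XT.nd (nat_lit 78) (nat_lit 228) (nat_lit 0) (XT.lf (nat_lit 0) (nat_lit 666932811) (nat_lit 152) (nat_lit 5702100920) (nat_lit 228) (nat_lit 10215081008) (nat_lit 77) (nat_lit 5) (nat_lit 79) (nat_lit 5)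 (nat_lit 80) (nat_lit 5) (nat_lit 418) (nat_lit 339) (nat_lit 263)) (XT.nd (nat_lit 78) (nat_lit 228) (nat_lit 0) (XT.lf (nat_lit 0) (nat_lit 10638649686) (nat_lit 152) (nat_lit 250455632) (nat_lit 228) (nat_lit 6018088035) (nat_lit 77) (nat_lit 5) (nat_lit 79) (nat_lit 5) (nat_lit 80) (nat_lit 5) (nat_lit 419) (nat_lit 339) (nat_lit 262)) (XT.lf (nat_lit 0) (nat_lit 3638526278) (nat_lit 228) (nat_lit 11963326833) (nat_lit 304) (nat_lit 1636403891) (nat_lit 74) (nat_lit 5) (nat_lit 77) (nat_lit 5) (nat_lit 78) (nat_lit 5) (nat_lit 420) (nat_lit 339) (nat_lit 261)))) (XT.nd (nat_lit 156) (nat_lit 152) (nat_lit 0) (XT.nd (nat_lit 78) (nat_lit 152) (nat_lit 0) (XT.lf (nat_lit 0) (nat_lit 2857616429) (nat_lit 304) (nat_lit 3687359434) (nat_lit 76) (nat_lit 11032341095) (nat_lit 73) (nat_lit 5) (nat_lit 77) (nat_lit 5) (nat_lit 74) (nat_lit 5) (nat_lit 421) (nat_lit 339) (nat_lit 260)) (XT.lf (nat_lit 0) (nat_lit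 6585608551) (nat_lit 152) (nat_lit 902734037) (nat_lit 228) (nat_lit 10436681287) (nat_lit 71) (nat_lit 5) (nat_lit 73) (nat_lit 5) (nat_lit 74) (nat_lit 5) (nat_lit 422) (nat_lit 339) (nat_lit 259))) (XT.nd (nat_lit 78) (nat_lit 152) (nat_lit 0) (XT.lf (nat_lit 0) (nat_lit 12314418230) (nat_lit 228) (nat_lit 1136500004) (nat_lit 76) (nat_lit 4830555286) (nat_lit 71) (nat_lit 5) (nat_lit 74) (nat_lit 5) (nat_lit 72) (nat_lit 5) (nat_lit 423) (nat_lit 339) (nat_lit 258)) (XT.lf (nat_lit 0) (nat_lit 9501147913) (nat_lit 152) (nat_lit 7856860902) (nat_lit 228) (nat_lit 1288430082) (nat_lit 69) (nat_lit 5) (nat_lit 71) (nat_lit 5) (nat_lit 72) (nat_lit 5) (nat_lit 424) (nat_lit 339) (nat_lit 257))))) (XT.nd (nat_lit 234) (nat_lit 380) (nat_lit 0) (XT.nd (nat_lit 78) (nat_lit 152) (nat_lit 0) (XT.lf (nat_lit 0) (nat_lit 1404671947) (nat_lit 152) (nat_lit 2054618241) (nat_lit 228) (nat_lit 15562119991) (nat_lit 66)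 (nat_lit 5) (nat_lit 68) (nat_lit 5) (nat_lit 69) (nat_lit 5) (nat_lit 425) (nat_lit 339) (nat_lit 256)) (XT.nd (nat_lit 78) (nat_lit 152) (nat_lit 0) (XT.lf (nat_lit 0) (nat_lit 8427193665) (nat_lit 228) (nat_lit 7045678442) (nat_lit 76) (nat_lit 3931270223) (nat_lit 66) (nat_lit 5) (nat_lit 69) (nat_lit 5) (nat_lit 67) (nat_lit 5) (nat_lit 426) (nat_lit 339) (nat_lit 255)) (XT.lf (nat_lit 0) (nat_lit 3850657368) (nat_lit 152) (nat_lit 9724316262) (nat_lit 228) (nat_lit 6222461387) (nat_lit 64) (nat_lit 5) (nat_lit 66) (nat_lit 5) (nat_lit 67) (nat_lit 5) (nat_lit 427) (nat_lit 339) (nat_lit 254)))) (XT.nd (nat_lit 156) (nat_lit 152) (nat_lit 0) (XT.nd (nat_lit 78) (nat_lit 228) (nat_lit 0) (XT.lf (nat_lit 0) (nat_lit 15172116926) (nat_lit 152) (nat_lit 3750027676) (nat_lit 228) (nat_lit 1279036800) (nat_lit 64) (nat_lit 5) (nat_lit 66) (nat_lit 5) (nat_lit 67) (nat_lit 5) (nat_lit 428) (nat_lit 339) (nat_lit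 253)) (XT.lf (nat_lit 0) (nat_lit 3796620651) (nat_lit 228) (nat_lit 14382536124) (nat_lit 76) (nat_lit 2435037457) (nat_lit 61) (nat_lit 5) (nat_lit 64) (nat_lit 5) (nat_lit 62) (nat_lit 5) (nat_lit 429) (nat_lit 339) (nat_lit 252))) (XT.nd (nat_lit 78) (nat_lit 152) (nat_lit 0) (XT.lf (nat_lit 0) (nat_lit 9061701863) (nat_lit 228) (nat_lit 3200572681) (nat_lit 76) (nat_lit 8775060482) (nat_lit 61) (nat_lit 5) (nat_lit 64) (nat_lit 5) (nat_lit 62) (nat_lit 5) (nat_lit 430) (nat_lit 339) (nat_lit 251)) (XT.lf (nat_lit 0) (nat_lit 8437320841) (nat_lit 152) (nat_lit 6103709578) (nat_lit 228) (nat_lit 6930454017) (nat_lit 59) (nat_lit 5) (nat_lit 61) (nat_lit 5) (nat_lit 62) (nat_lit 5) (nat_lit 431) (nat_lit 339) (nat_lit 250))))))) (XT.nd (nat_lit 1092) (nat_lit 1064) (nat_lit 0) (XT.nd (nat_lit 546) (nat_lit 380) (nat_lit 0) (XT.nd (nat_lit 234) (nat_lit 456) (nat_lit 0) (XT.nd (nat_lit 78) (nat_lit 228) (nat_lit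 0) (XT.lf (nat_lit 0) (nat_lit 20194989173) (nat_lit 228) (nat_lit 1474644070) (nat_lit 76) (nat_lit 248720718) (nat_lit 59) (nat_lit 5) (nat_lit 62) (nat_lit 5) (nat_lit 60) (nat_lit 4) (nat_lit 432) (nat_lit 339) (nat_lit 249)) (XT.nd (nat_lit 78) (nat_lit 0) (nat_lit 0) (XT.lf (nat_lit 0) (nat_lit 3707985996) (nat_lit 228) (nat_lit 11877075449) (nat_lit 76) (nat_lit 6788349096) (nat_lit 56) (nat_lit 5) (nat_lit 59) (nat_lit 5) (nat_lit 57) (nat_lit 5) (nat_lit 433) (nat_lit 339) (nat_lit 248)) (XT.lf (nat_lit 0) (nat_lit 9258756104) (nat_lit 228) (nat_lit 45269285) (nat_lit 76) (nat_lit 13537850913) (nat_lit 56) (nat_lit 5) (nat_lit 59) (nat_lit 5) (nat_lit 57) (nat_lit 5) (nat_lit 434) (nat_lit 339) (nat_lit 247)))) (XT.nd (nat_lit 156) (nat_lit 228) (nat_lit 0) (XT.nd (nat_lit 78) (nat_lit 76) (nat_lit 0) (XT.lf (nat_lit 0) (nat_lit 12340493559) (nat_lit 152) (nat_lit 2730955153) (nat_lit 228) (nat_lit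 8250088135) (nat_lit 54) (nat_lit 5) (nat_lit 56) (nat_lit 5) (nat_lit 57) (nat_lit 5) (nat_lit 435) (nat_lit 339) (nat_lit 246)) (XT.lf (nat_lit 0) (nat_lit 1226373012) (nat_lit 76) (nat_lit 19860103908) (nat_lit 152) (nat_lit 2728274355) (nat_lit 53) (nat_lit 5) (nat_lit 54) (nat_lit 5) (nat_lit 55) (nat_lit 4) (nat_lit 436) (nat_lit 339) (nat_lit 245))) (XT.nd (nat_lit 78) (nat_lit 152) (nat_lit 0) (XT.lf (nat_lit 0) (nat_lit 3017395381) (nat_lit 152) (nat_lit 10392865611) (nat_lit 76) (nat_lit 10908171953) (nat_lit 52) (nat_lit 5) (nat_lit 54) (nat_lit 5) (nat_lit 53) (nat_lit 5) (nat_lit 437) (nat_lit 339) (nat_lit 244)) (XT.lf (nat_lit 0) (nat_lit 2142571346) (nat_lit 152) (nat_lit 6736218148) (nat_lit 228) (nat_lit 15957681974) (nat_lit 50) (nat_lit 5) (nat_lit 52) (nat_lit 5) (nat_lit 53) (nat_lit 5) (nat_lit 438) (nat_lit 339) (nat_lit 243))))) (XT.nd (nat_lit 234) (nat_lit 228) (nat_lit 0) (XT.nd (nat_lit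 78) (nat_lit 152) (nat_lit 0) (XT.lf (nat_lit 0) (nat_lit 15001023171) (nat_lit 228) (nat_lit 10142983887) (nat_lit 76) (nat_lit 223496567) (nat_lit 50) (nat_lit 5) (nat_lit 53) (nat_lit 5) (nat_lit 51) (nat_lit 4) (nat_lit 439) (nat_lit 339) (nat_lit 242)) (XT.nd (nat_lit 78) (nat_lit 76) (nat_lit 0) (XT.lf (nat_lit 0) (nat_lit 2731423678) (nat_lit 76) (nat_lit 18646785608) (nat_lit 152) (nat_lit 4534121236) (nat_lit 49) (nat_lit 5) (nat_lit 50) (nat_lit 5) (nat_lit 51) (nat_lit 4) (nat_lit 440) (nat_lit 339) (nat_lit 241)) (XT.lf (nat_lit 0) (nat_lit 1526273084) (nat_lit 152) (nat_lit 10325305107) (nat_lit 76) (nat_lit 14619047039) (nat_lit 48) (nat_lit 5) (nat_lit 50) (nat_lit 5) (nat_lit 49) (nat_lit 5) (nat_lit 441) (nat_lit 339) (nat_lit 240)))) (XT.nd (nat_lit 156) (nat_lit 76) (nat_lit 0) (XT.nd (nat_lit 78) (nat_lit 0) (nat_lit 0) (XT.lf (nat_lit 0) (nat_lit 2888916610) (nat_lit 152) (nat_lit 4795204792)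 (nat_lit 228) (nat_lit 19359999545) (nat_lit 46) (nat_lit 5) (nat_lit 48) (nat_lit 5) (nat_lit 49) (nat_lit 5) (nat_lit 442) (nat_lit 339) (nat_lit 239)) (XT.lf (nat_lit 0) (nat_lit 14134854521) (nat_lit 228) (nat_lit 10983881526) (nat_lit 76) (nat_lit 2512843086) (nat_lit 46) (nat_lit 5) (nat_lit 49) (nat_lit 5) (nat_lit 47) (nat_lit 4) (nat_lit 443) (nat_lit 339) (nat_lit 238))) (XT.nd (nat_lit 78) (nat_lit 0) (nat_lit 0) (XT.lf (nat_lit 0) (nat_lit 2547327154) (nat_lit 76) (nat_lit 18283436554) (nat_lit 152) (nat_lit 7404349753) (nat_lit 45) (nat_lit 5) (nat_lit 46) (nat_lit 5) (nat_lit 47) (nat_lit 4) (nat_lit 444) (nat_lit 339) (nat_lit 237)) (XT.lf (nat_lit 0) (nat_lit 16672514321) (nat_lit 76) (nat_lit 11145876605) (nat_lit 152) (nat_lit 1035639628) (nat_lit 45) (nat_lit 5) (nat_lit 46) (nat_lit 5) (nat_lit 47) (nat_lit 4) (nat_lit 445) (nat_lit 339) (nat_lit 236)))))) (XT.nd (nat_lit 546) (nat_lit 532)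 (nat_lit 0) (XT.nd (nat_lit 234) (nat_lit 228) (nat_lit 0) (XT.nd (nat_lit 78) (nat_lit 76) (nat_lit 0) (XT.lf (nat_lit 0) (nat_lit 1673058883) (nat_lit 152) (nat_lit 3739674631) (nat_lit 228) (nat_lit 24077298529) (nat_lit 42) (nat_lit 5) (nat_lit 44) (nat_lit 5) (nat_lit 45) (nat_lit 5) (nat_lit 446) (nat_lit 339) (nat_lit 235)) (XT.nd (nat_lit 78) (nat_lit 76) (nat_lit 0) (XT.lf (nat_lit 0) (nat_lit 12175732421) (nat_lit 228) (nat_lit 14033793193) (nat_lit 76) (nat_lit 3931022444) (nat_lit 42) (nat_lit 5) (nat_lit 45) (nat_lit 5) (nat_lit 43) (nat_lit 4) (nat_lit 447) (nat_lit 339) (nat_lit 234)) (XT.lf (nat_lit 0) (nat_lit 92220462) (nat_lit 76) (nat_lit 19068267060) (nat_lit 152) (nat_lit 11649527785) (nat_lit 41) (nat_lit 5) (nat_lit 42) (nat_lit 5) (nat_lit 43) (nat_lit 4) (nat_lit 448) (nat_lit 339) (nat_lit 233)))) (XT.nd (nat_lit 156) (nat_lit 152) (nat_lit 0) (XT.nd (nat_lit 78) (nat_lit 76) (nat_lit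 0) (XT.lf (nat_lit 0) (nat_lit 14894606145) (nat_lit 76) (nat_lit 11583063668) (nat_lit 152) (nat_lit 5018211913) (nat_lit 41) (nat_lit 5) (nat_lit 42) (nat_lit 5) (nat_lit 43) (nat_lit 4) (nat_lit 449) (nat_lit 339) (nat_lit 232)) (XT.lf (nat_lit 0) (nat_lit 1758220502) (nat_lit 152) (nat_lit 2113113682) (nat_lit 76) (nat_lit 28331022896) (nat_lit 40) (nat_lit 5) (nat_lit 42) (nat_lit 5) (nat_lit 41) (nat_lit 5) (nat_lit 450) (nat_lit 339) (nat_lit 231))) (XT.nd (nat_lit 78) (nat_lit 0) (nat_lit 0) (XT.lf (nat_lit 0) (nat_lit 8784647843) (nat_lit 228) (nat_lit 19986190595) (nat_lit 76) (nat_lit 4153272353) (nat_lit 38) (nat_lit 5) (nat_lit 41) (nat_lit 5) (nat_lit 39) (nat_lit 4) (nat_lit 451) (nat_lit 339) (nat_lit 230)) (XT.lf (nat_lit 0) (nat_lit 16063877984) (nat_lit 228) (nat_lit 5255105487) (nat_lit 76) (nat_lit 12347274844) (nat_lit 38) (nat_lit 5) (nat_lit 41) (nat_lit 5) (nat_lit 39) (nat_lit 4) (nat_lit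 452) (nat_lit 339) (nat_lit 229))))) (XT.nd (nat_lit 312) (nat_lit 228) (nat_lit 0) (XT.nd (nat_lit 156) (nat_lit 228) (nat_lit 0) (XT.nd (nat_lit 78) (nat_lit 0) (nat_lit 0) (XT.lf (nat_lit 0) (nat_lit 10082137337) (nat_lit 76) (nat_lit 13558914203) (nat_lit 152) (nat_lit 10787233188) (nat_lit 37) (nat_lit 5) (nat_lit 38) (nat_lit 5) (nat_lit 39) (nat_lit 4) (nat_lit 453) (nat_lit 339) (nat_lit 228)) (XT.lf (nat_lit 0) (nat_lit 25955027068) (nat_lit 76) (nat_lit 5526426173) (nat_lit 152) (nat_lit 3730642719) (nat_lit 37) (nat_lit 5) (nat_lit 38) (nat_lit 5) (nat_lit 39) (nat_lit 4) (nat_lit 454) (nat_lit 339) (nat_lit 227))) (XT.nd (nat_lit 78) (nat_lit 0) (nat_lit 0) (XT.lf (nat_lit 0) (nat_lit 3539969265) (nat_lit 228) (nat_lit 29701428066) (nat_lit 76) (nat_lit 2774864671) (nat_lit 34) (nat_lit 5) (nat_lit 37) (nat_lit 5) (nat_lit 35) (nat_lit 4) (nat_lit 455) (nat_lit 339) (nat_lit 226)) (XT.lf (nat_lit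 0) (nat_lit 11086066635) (nat_lit 228) (nat_lit 14422316550) (nat_lit 76) (nat_lit 11331092546) (nat_lit 34) (nat_lit 5) (nat_lit 37) (nat_lit 5) (nat_lit 35) (nat_lit 4) (nat_lit 456) (nat_lit 339) (nat_lit 225)))) (XT.nd (nat_lit 156) (nat_lit 152) (nat_lit 0) (XT.nd (nat_lit 78) (nat_lit 0) (nat_lit 0) (XT.lf (nat_lit 0) (nat_lit 1310010076) (nat_lit 76) (nat_lit 17544846348) (nat_lit 152) (nat_lit 18832641421) (nat_lit 33) (nat_lit 5) (nat_lit 34) (nat_lit 5) (nat_lit 35) (nat_lit 4) (nat_lit 457) (nat_lit 339) (nat_lit 224)) (XT.lf (nat_lit 0) (nat_lit 17779529790) (nat_lit 76) (nat_lit 9206715964) (nat_lit 152) (nat_lit 11570830013) (nat_lit 33) (nat_lit 5) (nat_lit 34) (nat_lit 5) (nat_lit 35) (nat_lit 4) (nat_lit 458) (nat_lit 339) (nat_lit 223))) (XT.nd (nat_lit 78) (nat_lit 152) (nat_lit 0) (XT.lf (nat_lit 0) (nat_lit 34713601058) (nat_lit 76) (nat_lit 632343407) (nat_lit 152) (nat_lit 4107266717)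 (nat_lit 33) (nat_lit 5) (nat_lit 34) (nat_lit 5) (nat_lit 35) (nat_lit 4) (nat_lit 459) (nat_lit 339) (nat_lit 222)) (XT.lf (nat_lit 0) (nat_lit 3690038926) (nat_lit 152) (nat_lit 28503134926) (nat_lit 76) (nat_lit 8176634527) (nat_lit 31) (nat_lit 5) (nat_lit 33) (nat_lit 5) (nat_lit 32) (nat_lit 4) (nat_lit 460) (nat_lit 339) (nat_lit 221))))))))
noncomputable def xc100 : XT := (XT.nd (nat_lit 2184) (nat_lit 76) (nat_lit 0) (XT.nd (nat_lit 1092) (nat_lit 456) (nat_lit 0) (XT.nd (nat_lit 546) (nat_lit 228) (nat_lit 0) (XT.nd (nat_lit 234) (nat_lit 228) (nat_lit 0) (XT.nd (nat_lit 78) (nat_lit 76) (nat_lit 0) (XT.lf (nat_lit 0) (nat_lit 11678019301) (nat_lit 152) (nat_lit 12320587040) (nat_lit 76) (nat_lit 17312899029) (nat_lit 31) (nat_lit 5) (nat_lit 33) (nat_lit 5) (nat_lit 32) (nat_lit 4) (nat_lit 461) (nat_lit 339) (nat_lit 220)) (XT.nd (nat_lit 78) (nat_lit 0) (nat_lit 0) (XT.lf (nat_lit 0) (nat_lit 4405222763)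 (nat_lit 76) (nat_lit 15527919390) (nat_lit 152) (nat_lit 22347487078) (nat_lit 30) (nat_lit 5) (nat_lit 31) (nat_lit 5) (nat_lit 32) (nat_lit 4) (nat_lit 462) (nat_lit 339) (nat_lit 219)) (XT.lf (nat_lit 0) (nat_lit 21857466773) (nat_lit 76) (nat_lit 6688187178) (nat_lit 152) (nat_lit 14729881822) (nat_lit 30) (nat_lit 5) (nat_lit 31) (nat_lit 5) (nat_lit 32) (nat_lit 4) (nat_lit 463) (nat_lit 339) (nat_lit 218)))) (XT.nd (nat_lit 156) (nat_lit 76) (nat_lit 0) (XT.nd (nat_lit 78) (nat_lit 152) (nat_lit 0) (XT.lf (nat_lit 0) (nat_lit 37425397884) (nat_lit 152) (nat_lit 4517635114) (nat_lit 0) (nat_lit 2356991803) (nat_lit 30) (nat_lit 5) (nat_lit 32) (nat_lit 4) (nat_lit 30) (nat_lit 4) (nat_lit 464) (nat_lit 339) (nat_lit 217)) (XT.lf (nat_lit 0) (nat_lit 1372034957) (nat_lit 152) (nat_lit 32311686299) (nat_lit 76) (nat_lit 11665792924) (nat_lit 28) (nat_lit 5) (nat_lit 30) (nat_lit 5) (nat_lit 29) (nat_lit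 4) (nat_lit 465) (nat_lit 339) (nat_lit 216))) (XT.nd (nat_lit 78) (nat_lit 76) (nat_lit 0) (XT.lf (nat_lit 0) (nat_lit 9760054488) (nat_lit 152) (nat_lit 15311687413) (nat_lit 76) (nat_lit 21355741352) (nat_lit 28) (nat_lit 5) (nat_lit 30) (nat_lit 5) (nat_lit 29) (nat_lit 4) (nat_lit 466) (nat_lit 339) (nat_lit 215)) (XT.lf (nat_lit 0) (nat_lit 2215710735) (nat_lit 76) (nat_lit 16191768715) (nat_lit 152) (nat_lit 29130079883) (nat_lit 27) (nat_lit 5) (nat_lit 28) (nat_lit 5) (nat_lit 29) (nat_lit 4) (nat_lit 467) (nat_lit 339) (nat_lit 214))))) (XT.nd (nat_lit 234) (nat_lit 152) (nat_lit 0) (XT.nd (nat_lit 78) (nat_lit 76) (nat_lit 0) (XT.lf (nat_lit 0) (nat_lit 20557221512) (nat_lit 76) (nat_lit 6898338010) (nat_lit 152) (nat_lit 21221142058) (nat_lit 27) (nat_lit 5) (nat_lit 28) (nat_lit 5) (nat_lit 29) (nat_lit 4) (nat_lit 468) (nat_lit 339) (nat_lit 213)) (XT.nd (nat_lit 78) (nat_lit 76) (nat_lit 0) (XT.lf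 (nat_lit 0) (nat_lit 36787675493) (nat_lit 152) (nat_lit 10451859200) (nat_lit 0) (nat_lit 2610106428) (nat_lit 27) (nat_lit 5) (nat_lit 29) (nat_lit 4) (nat_lit 27) (nat_lit 4) (nat_lit 469) (nat_lit 339) (nat_lit 212)) (XT.lf (nat_lit 0) (nat_lit 7805417654) (nat_lit 76) (nat_lit 38724940322) (nat_lit 76) (nat_lit 4523493590) (nat_lit 26) (nat_lit 4) (nat_lit 27) (nat_lit 5) (nat_lit 27) (nat_lit 4) (nat_lit 470) (nat_lit 339) (nat_lit 211)))) (XT.nd (nat_lit 156) (nat_lit 76) (nat_lit 0) (XT.nd (nat_lit 78) (nat_lit 0) (nat_lit 0) (XT.lf (nat_lit 0) (nat_lit 4281661105) (nat_lit 152) (nat_lit 25532856887) (nat_lit 76) (nat_lit 22475623179) (nat_lit 25) (nat_lit 5) (nat_lit 27) (nat_lit 5) (nat_lit 26) (nat_lit 4) (nat_lit 471) (nat_lit 339) (nat_lit 210)) (XT.lf (nat_lit 0) (nat_lit 13247708438) (nat_lit 152) (nat_lit 7354287792) (nat_lit 76) (nat_lit 32960550689) (nat_lit 25) (nat_lit 5) (nat_lit 27) (nat_lit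 5) (nat_lit 26) (nat_lit 4) (nat_lit 472) (nat_lit 339) (nat_lit 209))) (XT.nd (nat_lit 78) (nat_lit 0) (nat_lit 0) (XT.lf (nat_lit 0) (nat_lit 11572460533) (nat_lit 76) (nat_lit 11009533508) (nat_lit 152) (nat_lit 32288153811) (nat_lit 24) (nat_lit 5) (nat_lit 25) (nat_lit 5) (nat_lit 26) (nat_lit 4) (nat_lit 473) (nat_lit 339) (nat_lit 208)) (XT.lf (nat_lit 0) (nat_lit 31194994243) (nat_lit 76) (nat_lit 1063723299) (nat_lit 152) (nat_lit 23956387686) (nat_lit 24) (nat_lit 5) (nat_lit 25) (nat_lit 5) (nat_lit 26) (nat_lit 4) (nat_lit 474) (nat_lit 339) (nat_lit 207)))))) (XT.nd (nat_lit 546) (nat_lit 228) (nat_lit 0) (XT.nd (nat_lit 234) (nat_lit 76) (nat_lit 0) (XT.nd (nat_lit 78) (nat_lit 152) (nat_lit 0) (XT.lf (nat_lit 0) (nat_lit 42302379784) (nat_lit 152) (nat_lit 6304809103) (nat_lit 0) (nat_lit 8990924004) (nat_lit 24) (nat_lit 5) (nat_lit 26) (nat_lit 4) (nat_lit 24) (nat_lit 4) (nat_lit 475) (nat_lit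 339) (nat_lit 206)) (XT.nd (nat_lit 78) (nat_lit 76) (nat_lit 0) (XT.lf (nat_lit 0) (nat_lit 13197243215) (nat_lit 76) (nat_lit 39576227583) (nat_lit 76) (nat_lit 6245357074) (nat_lit 23) (nat_lit 4) (nat_lit 24) (nat_lit 5) (nat_lit 24) (nat_lit 4) (nat_lit 476) (nat_lit 339) (nat_lit 205)) (XT.lf (nat_lit 0) (nat_lit 3069530371) (nat_lit 152) (nat_lit 27118573105) (nat_lit 76) (nat_lit 30291583211) (nat_lit 22) (nat_lit 5) (nat_lit 24) (nat_lit 5) (nat_lit 23) (nat_lit 4) (nat_lit 477) (nat_lit 339) (nat_lit 204)))) (XT.nd (nat_lit 156) (nat_lit 0) (nat_lit 0) (XT.nd (nat_lit 78) (nat_lit 76) (nat_lit 0) (XT.lf (nat_lit 0) (nat_lit 12527404724) (nat_lit 152) (nat_lit 7937388412) (nat_lit 76) (nat_lit 41518051701) (nat_lit 22) (nat_lit 5) (nat_lit 24) (nat_lit 5) (nat_lit 23) (nat_lit 4) (nat_lit 478) (nat_lit 339) (nat_lit 203)) (XT.lf (nat_lit 0) (nat_lit 12033582407) (nat_lit 76) (nat_lit 10340491305) (nat_lit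 152) (nat_lit 41153872851) (nat_lit 21) (nat_lit 5) (nat_lit 22) (nat_lit 5) (nat_lit 23) (nat_lit 4) (nat_lit 479) (nat_lit 339) (nat_lit 202))) (XT.nd (nat_lit 78) (nat_lit 0) (nat_lit 0) (XT.lf (nat_lit 0) (nat_lit 32587334648) (nat_lit 152) (nat_lit 32372729828) (nat_lit 0) (nat_lit 157201673) (nat_lit 21) (nat_lit 5) (nat_lit 23) (nat_lit 4) (nat_lit 21) (nat_lit 4) (nat_lit 480) (nat_lit 339) (nat_lit 201)) (XT.lf (nat_lit 0) (nat_lit 43199087863) (nat_lit 152) (nat_lit 12799719820) (nat_lit 0) (nat_lit 10752695358) (nat_lit 21) (nat_lit 5) (nat_lit 23) (nat_lit 4) (nat_lit 21) (nat_lit 4) (nat_lit 481) (nat_lit 339) (nat_lit 200))))) (XT.nd (nat_lit 234) (nat_lit 76) (nat_lit 0) (XT.nd (nat_lit 78) (nat_lit 76) (nat_lit 0) (XT.lf (nat_lit 0) (nat_lit 7487271257) (nat_lit 76) (nat_lit 46703907607) (nat_lit 76) (nat_lit 14241729152) (nat_lit 20) (nat_lit 4) (nat_lit 21) (nat_lit 5) (nat_lit 21) (nat_lit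 4) (nat_lit 482) (nat_lit 339) (nat_lit 199)) (XT.nd (nat_lit 78) (nat_lit 76) (nat_lit 0) (XT.lf (nat_lit 0) (nat_lit 28626130256) (nat_lit 76) (nat_lit 37006274430) (nat_lit 76) (nat_lit 4528769810) (nat_lit 20) (nat_lit 4) (nat_lit 21) (nat_lit 5) (nat_lit 21) (nat_lit 4) (nat_lit 483) (nat_lit 339) (nat_lit 198)) (XT.lf (nat_lit 0) (nat_lit 5359042375) (nat_lit 152) (nat_lit 21613528370) (nat_lit 76) (nat_lit 44967430305) (nat_lit 19) (nat_lit 5) (nat_lit 21) (nat_lit 5) (nat_lit 20) (nat_lit 4) (nat_lit 484) (nat_lit 339) (nat_lit 197)))) (XT.nd (nat_lit 156) (nat_lit 0) (nat_lit 0) (XT.nd (nat_lit 78) (nat_lit 76) (nat_lit 0) (XT.lf (nat_lit 0) (nat_lit 15443059621) (nat_lit 152) (nat_lit 1157419742) (nat_lit 76) (nat_lit 57170650499) (nat_lit 19) (nat_lit 5) (nat_lit 21) (nat_lit 5) (nat_lit 20) (nat_lit 4) (nat_lit 485) (nat_lit 339) (nat_lit 196)) (XT.lf (nat_lit 0) (nat_lit 20290632544) (nat_lit 76)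 (nat_lit 5724879244) (nat_lit 152) (nat_lit 49636103778) (nat_lit 18) (nat_lit 5) (nat_lit 19) (nat_lit 5) (nat_lit 20) (nat_lit 4) (nat_lit 486) (nat_lit 339) (nat_lit 195))) (XT.nd (nat_lit 78) (nat_lit 0) (nat_lit 0) (XT.lf (nat_lit 0) (nat_lit 36960473691) (nat_lit 152) (nat_lit 35252776285) (nat_lit 0) (nat_lit 5373606227) (nat_lit 18) (nat_lit 5) (nat_lit 20) (nat_lit 4) (nat_lit 18) (nat_lit 4) (nat_lit 487) (nat_lit 339) (nat_lit 194)) (XT.lf (nat_lit 0) (nat_lit 48281616532) (nat_lit 152) (nat_lit 14615189351) (nat_lit 0) (nat_lit 16681913647) (nat_lit 18) (nat_lit 5) (nat_lit 20) (nat_lit 4) (nat_lit 18) (nat_lit 4) (nat_lit 488) (nat_lit 339) (nat_lit 193))))))) (XT.nd (nat_lit 42510) (nat_lit 0) (nat_lit 18392) (XT.nd (nat_lit 41964) (nat_lit 0) (nat_lit 26296) (XT.nd (nat_lit 41652) (nat_lit 0) (nat_lit 27892) (XT.nd (nat_lit 41496) (nat_lit 0) (nat_lit 28272) (XT.lf (nat_lit 0) (nat_lit 6756689001)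 (nat_lit 76) (nat_lit 53242061960) (nat_lit 76) (nat_lit 21629897499) (nat_lit 17) (nat_lit 4) (nat_lit 18) (nat_lit 5) (nat_lit 18) (nat_lit 4) (nat_lit 489) (nat_lit 339) (nat_lit 192)) (XT.nd (nat_lit 78) (nat_lit 76) (nat_lit 0) (XT.lf (nat_lit 0) (nat_lit 1073741823) (nat_lit 0) (nat_lit 0) (nat_lit 0) (nat_lit 0) (nat_lit 390) (nat_lit 0) (nat_lit 1) (nat_lit 0) (nat_lit 1) (nat_lit 0) (nat_lit 340) (nat_lit 340) (nat_lit 340)) (XT.lf (nat_lit 0) (nat_lit 3104124032) (nat_lit 76) (nat_lit 3278120872) (nat_lit 0) (nat_lit 61160553) (nat_lit 389) (nat_lit 5) (nat_lit 390) (nat_lit 0) (nat_lit 389) (nat_lit 4) (nat_lit 341) (nat_lit 340) (nat_lit 339)))) (XT.nd (nat_lit 156) (nat_lit 228) (nat_lit 0) (XT.nd (nat_lit 78) (nat_lit 152) (nat_lit 0) (XT.lf (nat_lit 0) (nat_lit 6180832055) (nat_lit 76) (nat_lit 83737495) (nat_lit 0) (nat_lit 183535100) (nat_lit 389) (nat_lit 5) (nat_lit 390) (nat_lit 0) (nat_lit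 389) (nat_lit 4) (nat_lit 342) (nat_lit 340) (nat_lit 338)) (XT.lf (nat_lit 0) (nat_lit 2753208661) (nat_lit 152) (nat_lit 3276568301) (nat_lit 76) (nat_lit 425041346) (nat_lit 387) (nat_lit 5) (nat_lit 389) (nat_lit 5) (nat_lit 388) (nat_lit 4) (nat_lit 343) (nat_lit 340) (nat_lit 337))) (XT.nd (nat_lit 78) (nat_lit 76) (nat_lit 0) (XT.lf (nat_lit 0) (nat_lit 10905446) (nat_lit 152) (nat_lit 5733542818) (nat_lit 228) (nat_lit 720731626) (nat_lit 385) (nat_lit 5) (nat_lit 387) (nat_lit 5) (nat_lit 388) (nat_lit 4) (nat_lit 344) (nat_lit 340) (nat_lit 336)) (XT.lf (nat_lit 0) (nat_lit 2223238878) (nat_lit 228) (nat_lit 3100079457) (nat_lit 76) (nat_lit 1154357110) (nat_lit 384) (nat_lit 5) (nat_lit 387) (nat_lit 5) (nat_lit 385) (nat_lit 5) (nat_lit 345) (nat_lit 340) (nat_lit 335))))) (XT.nd (nat_lit 234) (nat_lit 988) (nat_lit 0) (XT.nd (nat_lit 78) (nat_lit 380) (nat_lit 0) (XT.lf (nat_lit 0) (nat_lit 288698718)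 (nat_lit 228) (nat_lit 4844536664) (nat_lit 304) (nat_lit 1360414242) (nat_lit 381) (nat_lit 5) (nat_lit 384) (nat_lit 5) (nat_lit 385) (nat_lit 5) (nat_lit 346) (nat_lit 340) (nat_lit 334)) (XT.nd (nat_lit 78) (nat_lit 304) (nat_lit 0) (XT.lf (nat_lit 0) (nat_lit 1511298604) (nat_lit 304) (nat_lit 2748519683) (nat_lit 76) (nat_lit 2252221564) (nat_lit 380) (nat_lit 5) (nat_lit 384) (nat_lit 5) (nat_lit 381) (nat_lit 5) (nat_lit 347) (nat_lit 340) (nat_lit 333)) (XT.lf (nat_lit 0) (nat_lit 748509967) (nat_lit 304) (nat_lit 3594558990) (nat_lit 380) (nat_lit 2190547799) (nat_lit 376) (nat_lit 5) (nat_lit 380) (nat_lit 5) (nat_lit 381) (nat_lit 5) (nat_lit 348) (nat_lit 340) (nat_lit 332)))) (XT.nd (nat_lit 156) (nat_lit 532) (nat_lit 0) (XT.nd (nat_lit 78) (nat_lit 380) (nat_lit 0) (XT.lf (nat_lit 0) (nat_lit 613675355) (nat_lit 380) (nat_lit 2221012204) (nat_lit 76) (nat_lit 3723318724) (nat_lit 375) (nat_lit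 5) (nat_lit 380) (nat_lit 5) (nat_lit 376) (nat_lit 5) (nat_lit 349) (nat_lit 340) (nat_lit 331)) (XT.lf (nat_lit 0) (nat_lit 1391632850) (nat_lit 380) (nat_lit 1978218508) (nat_lit 456) (nat_lit 3215339894) (nat_lit 370) (nat_lit 5) (nat_lit 375) (nat_lit 5) (nat_lit 376) (nat_lit 5) (nat_lit 350) (nat_lit 340) (nat_lit 330))) (XT.nd (nat_lit 78) (nat_lit 532) (nat_lit 0) (XT.lf (nat_lit 0) (nat_lit 5094972162) (nat_lit 380) (nat_lit 1036994458) (nat_lit 456) (nat_lit 483595527) (nat_lit 370) (nat_lit 5) (nat_lit 375) (nat_lit 5) (nat_lit 376) (nat_lit 5) (nat_lit 351) (nat_lit 340) (nat_lit 329)) (XT.lf (nat_lit 0) (nat_lit 2208780313) (nat_lit 532) (nat_lit 4428506699) (nat_lit 76) (nat_lit 11224861) (nat_lit 363) (nat_lit 5) (nat_lit 370) (nat_lit 5) (nat_lit 364) (nat_lit 5) (nat_lit 352) (nat_lit 340) (nat_lit 328)))))) (XT.nd (nat_lit 546) (nat_lit 5092) (nat_lit 0) (XT.nd (nat_lit 234) (nat_lit 1596)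 (nat_lit 0) (XT.nd (nat_lit 78) (nat_lit 1216) (nat_lit 0) (XT.lf (nat_lit 0) (nat_lit 4903220095) (nat_lit 532) (nat_lit 659184918) (nat_lit 76) (nat_lit 1122033288) (nat_lit 363) (nat_lit 5) (nat_lit 370) (nat_lit 5) (nat_lit 364) (nat_lit 5) (nat_lit 353) (nat_lit 340) (nat_lit 327)) (XT.nd (nat_lit 78) (nat_lit 608) (nat_lit 0) (XT.lf (nat_lit 0) (nat_lit 876681961) (nat_lit 608) (nat_lit 3509893959) (nat_lit 76) (nat_lit 2336500054) (nat_lit 355) (nat_lit 5) (nat_lit 363) (nat_lit 5) (nat_lit 356) (nat_lit 5) (nat_lit 354) (nat_lit 340) (nat_lit 326)) (XT.lf (nat_lit 0) (nat_lit 376919982) (nat_lit 608) (nat_lit 3121064267) (nat_lit 684) (nat_lit 3266832423) (nat_lit 347) (nat_lit 5) (nat_lit 355) (nat_lit 5) (nat_lit 356) (nat_lit 5) (nat_lit 355) (nat_lit 340) (nat_lit 325)))) (XT.nd (nat_lit 156) (nat_lit 836) (nat_lit 0) (XT.nd (nat_lit 78) (nat_lit 760) (nat_lit 0) (XT.lf (nat_lit 0) (nat_lit 4387634981)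 (nat_lit 608) (nat_lit 1756879445) (nat_lit 684) (nat_lit 664952785) (nat_lit 347) (nat_lit 5) (nat_lit 355) (nat_lit 5) (nat_lit 356) (nat_lit 5) (nat_lit 356) (nat_lit 340) (nat_lit 324)) (XT.lf (nat_lit 0) (nat_lit 1610719161) (nat_lit 684) (nat_lit 293254727) (nat_lit 760) (nat_lit 4953105107) (nat_lit 337) (nat_lit 5) (nat_lit 346) (nat_lit 5) (nat_lit 347) (nat_lit 5) (nat_lit 357) (nat_lit 340) (nat_lit 323))) (XT.nd (nat_lit 78) (nat_lit 836) (nat_lit 0) (XT.lf (nat_lit 0) (nat_lit 4487930295) (nat_lit 760) (nat_lit 1176728202) (nat_lit 76) (nat_lit 1242773913) (nat_lit 337) (nat_lit 5) (nat_lit 347) (nat_lit 5) (nat_lit 338) (nat_lit 5) (nat_lit 358) (nat_lit 340) (nat_lit 322)) (XT.lf (nat_lit 0) (nat_lit 135080543) (nat_lit 836) (nat_lit 3956240090) (nat_lit 76) (nat_lit 2869508223) (nat_lit 326) (nat_lit 5) (nat_lit 337) (nat_lit 5) (nat_lit 327) (nat_lit 5) (nat_lit 359) (nat_lit 340) (nat_lit 321)))))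 (XT.nd (nat_lit 312) (nat_lit 3268) (nat_lit 0) (XT.nd (nat_lit 156) (nat_lit 988) (nat_lit 0) (XT.nd (nat_lit 78) (nat_lit 0) (nat_lit 0) (XT.lf (nat_lit 0) (nat_lit 234673932) (nat_lit 836) (nat_lit 2415628394) (nat_lit 912) (nat_lit 4366873569) (nat_lit 315) (nat_lit 5) (nat_lit 326) (nat_lit 5) (nat_lit 327) (nat_lit 5) (nat_lit 360) (nat_lit 340) (nat_lit 320)) (XT.lf (nat_lit 0) (nat_lit 4567231211) (nat_lit 836) (nat_lit 633825778) (nat_lit 912) (nat_lit 1875399022) (nat_lit 315) (nat_lit 5) (nat_lit 326) (nat_lit 5) (nat_lit 327) (nat_lit 5) (nat_lit 361) (nat_lit 340) (nat_lit 319))) (XT.nd (nat_lit 78) (nat_lit 0) (nat_lit 0) (XT.lf (nat_lit 0) (nat_lit 628752276) (nat_lit 988) (nat_lit 5294134256) (nat_lit 76) (nat_lit 1215928767) (nat_lit 302) (nat_lit 5) (nat_lit 315) (nat_lit 5) (nat_lit 303) (nat_lit 5) (nat_lit 362) (nat_lit 340) (nat_lit 318)) (XT.lf (nat_lit 0) (nat_lit 3125625150) (nat_lit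 988) (nat_lit 913451123) (nat_lit 76) (nat_lit 3164794459) (nat_lit 302) (nat_lit 5) (nat_lit 315) (nat_lit 5) (nat_lit 303) (nat_lit 5) (nat_lit 363) (nat_lit 340) (nat_lit 317)))) (XT.nd (nat_lit 156) (nat_lit 1140) (nat_lit 0) (XT.nd (nat_lit 78) (nat_lit 1140) (nat_lit 0) (XT.lf (nat_lit 0) (nat_lit 3604214846) (nat_lit 988) (nat_lit 2053491661) (nat_lit 1064) (nat_lit 1614402192) (nat_lit 289) (nat_lit 5) (nat_lit 302) (nat_lit 5) (nat_lit 303) (nat_lit 5) (nat_lit 364) (nat_lit 340) (nat_lit 316)) (XT.lf (nat_lit 0) (nat_lit 849785486) (nat_lit 1140) (nat_lit 6467578989) (nat_lit 76) (nat_lit 26467291) (nat_lit 274) (nat_lit 5) (nat_lit 289) (nat_lit 5) (nat_lit 275) (nat_lit 5) (nat_lit 365) (nat_lit 340) (nat_lit 315))) (XT.nd (nat_lit 78) (nat_lit 1140) (nat_lit 0) (XT.lf (nat_lit 0) (nat_lit 3341219544) (nat_lit 1140) (nat_lit 1888623075) (nat_lit 76) (nat_lit 2187847873) (nat_lit 274) (nat_lit 5)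 (nat_lit 289) (nat_lit 5) (nat_lit 275) (nat_lit 5) (nat_lit 366) (nat_lit 340) (nat_lit 314)) (XT.lf (nat_lit 0) (nat_lit 2817380464) (nat_lit 1140) (nat_lit 3047226485) (nat_lit 1216) (nat_lit 1630477205) (nat_lit 259) (nat_lit 5) (nat_lit 274) (nat_lit 5) (nat_lit 275) (nat_lit 5) (nat_lit 367) (nat_lit 340) (nat_lit 313))))))))
noncomputable def xc101 : XT := (XT.nd (nat_lit 2184) (nat_lit 4712) (nat_lit 0) (XT.nd (nat_lit 1092) (nat_lit 3800) (nat_lit 0) (XT.nd (nat_lit 546) (nat_lit 2660) (nat_lit 0) (XT.nd (nat_lit 234) (nat_lit 1368) (nat_lit 0) (XT.nd (nat_lit 78) (nat_lit 608) (nat_lit 0) (XT.lf (nat_lit 0) (nat_lit 55329600) (nat_lit 1216) (nat_lit 766843186) (nat_lit 1292) (nat_lit 6753885291) (nat_lit 242) (nat_lit 5) (nat_lit 258) (nat_lit 5) (nat_lit 259) (nat_lit 5) (nat_lit 368) (nat_lit 340) (nat_lit 312)) (XT.nd (nat_lit 78) (nat_lit 608) (nat_lit 0) (XT.lf (nat_lit 0) (nat_lit 3310779757)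 (nat_lit 1292) (nat_lit 2731128804) (nat_lit 76) (nat_lit 1617246378) (nat_lit 242) (nat_lit 5) (nat_lit 259) (nat_lit 5) (nat_lit 243) (nat_lit 5) (nat_lit 369) (nat_lit 340) (nat_lit 311)) (XT.lf (nat_lit 0) (nat_lit 2171395199) (nat_lit 608) (nat_lit 3665327112) (nat_lit 684) (nat_lit 1909173602) (nat_lit 234) (nat_lit 5) (nat_lit 242) (nat_lit 5) (nat_lit 243) (nat_lit 5) (nat_lit 370) (nat_lit 340) (nat_lit 310)))) (XT.nd (nat_lit 156) (nat_lit 684) (nat_lit 0) (XT.nd (nat_lit 78) (nat_lit 608) (nat_lit 0) (XT.lf (nat_lit 0) (nat_lit 554121246) (nat_lit 684) (nat_lit 629729716) (nat_lit 76) (nat_lit 6652363285) (nat_lit 233) (nat_lit 5) (nat_lit 242) (nat_lit 5) (nat_lit 234) (nat_lit 5) (nat_lit 371) (nat_lit 340) (nat_lit 309)) (XT.lf (nat_lit 0) (nat_lit 3046410790) (nat_lit 684) (nat_lit 3475747232) (nat_lit 76) (nat_lit 1406741832) (nat_lit 225) (nat_lit 5) (nat_lit 234) (nat_lit 5) (nat_lit 226) (nat_lit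 5) (nat_lit 372) (nat_lit 340) (nat_lit 308))) (XT.nd (nat_lit 78) (nat_lit 76) (nat_lit 0) (XT.lf (nat_lit 0) (nat_lit 1631771488) (nat_lit 608) (nat_lit 3953475198) (nat_lit 684) (nat_lit 2439994024) (nat_lit 217) (nat_lit 5) (nat_lit 225) (nat_lit 5) (nat_lit 226) (nat_lit 5) (nat_lit 373) (nat_lit 340) (nat_lit 307)) (XT.lf (nat_lit 0) (nat_lit 48245891) (nat_lit 684) (nat_lit 1226878342) (nat_lit 76) (nat_lit 6850133652) (nat_lit 216) (nat_lit 5) (nat_lit 225) (nat_lit 5) (nat_lit 217) (nat_lit 5) (nat_lit 374) (nat_lit 340) (nat_lit 306))))) (XT.nd (nat_lit 234) (nat_lit 1596) (nat_lit 0) (XT.nd (nat_lit 78) (nat_lit 532) (nat_lit 0) (XT.lf (nat_lit 0) (nat_lit 2556509124) (nat_lit 608) (nat_lit 4156971402) (nat_lit 76) (nat_lit 1514263406) (nat_lit 209) (nat_lit 5) (nat_lit 217) (nat_lit 5) (nat_lit 210) (nat_lit 5) (nat_lit 375) (nat_lit 340) (nat_lit 305)) (XT.nd (nat_lit 78) (nat_lit 0) (nat_lit 0)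 (XT.lf (nat_lit 0) (nat_lit 1164213682) (nat_lit 532) (nat_lit 3953508066) (nat_lit 608) (nat_lit 3216276658) (nat_lit 202) (nat_lit 5) (nat_lit 209) (nat_lit 5) (nat_lit 210) (nat_lit 5) (nat_lit 376) (nat_lit 340) (nat_lit 304)) (XT.lf (nat_lit 0) (nat_lit 6665562105) (nat_lit 532) (nat_lit 1074645305) (nat_lit 608) (nat_lit 703724168) (nat_lit 202) (nat_lit 5) (nat_lit 209) (nat_lit 5) (nat_lit 210) (nat_lit 5) (nat_lit 377) (nat_lit 340) (nat_lit 303)))) (XT.nd (nat_lit 156) (nat_lit 532) (nat_lit 0) (XT.nd (nat_lit 78) (nat_lit 532) (nat_lit 0) (XT.lf (nat_lit 0) (nat_lit 1845838765) (nat_lit 532) (nat_lit 4809667756) (nat_lit 76) (nat_lit 1901183592) (nat_lit 195) (nat_lit 5) (nat_lit 202) (nat_lit 5) (nat_lit 196) (nat_lit 5) (nat_lit 378) (nat_lit 340) (nat_lit 302)) (XT.lf (nat_lit 0) (nat_lit 733945304) (nat_lit 532) (nat_lit 3704148510) (nat_lit 608) (nat_lit 4235140195) (nat_lit 188) (nat_lit 5)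 (nat_lit 195) (nat_lit 5) (nat_lit 196) (nat_lit 5) (nat_lit 379) (nat_lit 340) (nat_lit 301))) (XT.nd (nat_lit 78) (nat_lit 532) (nat_lit 0) (XT.lf (nat_lit 0) (nat_lit 6478167491) (nat_lit 532) (nat_lit 624033544) (nat_lit 608) (nat_lit 1691272121) (nat_lit 188) (nat_lit 5) (nat_lit 195) (nat_lit 5) (nat_lit 196) (nat_lit 5) (nat_lit 380) (nat_lit 340) (nat_lit 300)) (XT.lf (nat_lit 0) (nat_lit 915546401) (nat_lit 532) (nat_lit 5469764297) (nat_lit 76) (nat_lit 2531618314) (nat_lit 181) (nat_lit 5) (nat_lit 188) (nat_lit 5) (nat_lit 182) (nat_lit 5) (nat_lit 381) (nat_lit 340) (nat_lit 299)))))) (XT.nd (nat_lit 546) (nat_lit 1976) (nat_lit 0) (XT.nd (nat_lit 234) (nat_lit 988) (nat_lit 0) (XT.nd (nat_lit 78) (nat_lit 380) (nat_lit 0) (XT.lf (nat_lit 0) (nat_lit 305004209) (nat_lit 456) (nat_lit 3241705566) (nat_lit 532) (nat_lit 5497492061) (nat_lit 175) (nat_lit 5) (nat_lit 181) (nat_lit 5) (nat_lit 182)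 (nat_lit 5) (nat_lit 382) (nat_lit 340) (nat_lit 298)) (XT.nd (nat_lit 78) (nat_lit 380) (nat_lit 0) (XT.lf (nat_lit 0) (nat_lit 6260766473) (nat_lit 532) (nat_lit 2874203414) (nat_lit 76) (nat_lit 40223282) (nat_lit 175) (nat_lit 5) (nat_lit 182) (nat_lit 5) (nat_lit 176) (nat_lit 5) (nat_lit 383) (nat_lit 340) (nat_lit 297)) (XT.lf (nat_lit 0) (nat_lit 3132471554) (nat_lit 380) (nat_lit 5935703081) (nat_lit 456) (nat_lit 241600233) (nat_lit 170) (nat_lit 5) (nat_lit 175) (nat_lit 5) (nat_lit 176) (nat_lit 5) (nat_lit 384) (nat_lit 340) (nat_lit 296)))) (XT.nd (nat_lit 156) (nat_lit 456) (nat_lit 0) (XT.nd (nat_lit 78) (nat_lit 456) (nat_lit 0) (XT.lf (nat_lit 0) (nat_lit 2441792969) (nat_lit 456) (nat_lit 157375982) (nat_lit 76) (nat_lit 6849136630) (nat_lit 169) (nat_lit 5) (nat_lit 175) (nat_lit 5) (nat_lit 170) (nat_lit 5) (nat_lit 385) (nat_lit 340) (nat_lit 295)) (XT.lf (nat_lit 0) (nat_lit 5219506186)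 (nat_lit 532) (nat_lit 3501243522) (nat_lit 76) (nat_lit 869627468) (nat_lit 163) (nat_lit 5) (nat_lit 170) (nat_lit 5) (nat_lit 164) (nat_lit 5) (nat_lit 386) (nat_lit 340) (nat_lit 294))) (XT.nd (nat_lit 78) (nat_lit 76) (nat_lit 0) (XT.lf (nat_lit 0) (nat_lit 2755069411) (nat_lit 380) (nat_lit 5331528141) (nat_lit 456) (nat_lit 1649948418) (nat_lit 158) (nat_lit 5) (nat_lit 163) (nat_lit 5) (nat_lit 164) (nat_lit 5) (nat_lit 387) (nat_lit 340) (nat_lit 293)) (XT.lf (nat_lit 0) (nat_lit 1118355653) (nat_lit 456) (nat_lit 689515058) (nat_lit 76) (nat_lit 8079264884) (nat_lit 157) (nat_lit 5) (nat_lit 163) (nat_lit 5) (nat_lit 158) (nat_lit 5) (nat_lit 388) (nat_lit 340) (nat_lit 292))))) (XT.nd (nat_lit 234) (nat_lit 1216) (nat_lit 0) (XT.nd (nat_lit 78) (nat_lit 380) (nat_lit 0) (XT.lf (nat_lit 0) (nat_lit 3964567815) (nat_lit 456) (nat_lit 4232024583) (nat_lit 76) (nat_lit 1844334848) (nat_lit 152) (nat_lit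 5) (nat_lit 158) (nat_lit 5) (nat_lit 153) (nat_lit 5) (nat_lit 389) (nat_lit 340) (nat_lit 291)) (XT.nd (nat_lit 78) (nat_lit 0) (nat_lit 0) (XT.lf (nat_lit 0) (nat_lit 2282159703) (nat_lit 380) (nat_lit 4615412728) (nat_lit 456) (nat_lit 3301732652) (nat_lit 147) (nat_lit 5) (nat_lit 152) (nat_lit 5) (nat_lit 153) (nat_lit 5) (nat_lit 390) (nat_lit 340) (nat_lit 290)) (XT.lf (nat_lit 0) (nat_lit 9017438322) (nat_lit 380) (nat_lit 899138179) (nat_lit 456) (nat_lit 445931668) (nat_lit 147) (nat_lit 5) (nat_lit 152) (nat_lit 5) (nat_lit 153) (nat_lit 5) (nat_lit 391) (nat_lit 340) (nat_lit 289)))) (XT.nd (nat_lit 156) (nat_lit 456) (nat_lit 0) (XT.nd (nat_lit 78) (nat_lit 304) (nat_lit 0) (XT.lf (nat_lit 0) (nat_lit 2484083217) (nat_lit 456) (nat_lit 5112132477) (nat_lit 76) (nat_lit 2932568265) (nat_lit 141) (nat_lit 5) (nat_lit 147) (nat_lit 5) (nat_lit 142) (nat_lit 5) (nat_lit 392) (nat_lit 340) (nat_lit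 288)) (XT.lf (nat_lit 0) (nat_lit 1667492757) (nat_lit 304) (nat_lit 3820871518) (nat_lit 380) (nat_lit 5211704427) (nat_lit 137) (nat_lit 5) (nat_lit 141) (nat_lit 5) (nat_lit 142) (nat_lit 5) (nat_lit 393) (nat_lit 340) (nat_lit 287))) (XT.nd (nat_lit 78) (nat_lit 456) (nat_lit 0) (XT.lf (nat_lit 0) (nat_lit 8592753727) (nat_lit 380) (nat_lit 2182083319) (nat_lit 76) (nat_lit 101368153) (nat_lit 137) (nat_lit 5) (nat_lit 142) (nat_lit 5) (nat_lit 138) (nat_lit 5) (nat_lit 394) (nat_lit 340) (nat_lit 286)) (XT.lf (nat_lit 0) (nat_lit 761868999) (nat_lit 456) (nat_lit 6192150354) (nat_lit 76) (nat_lit 4102101549) (nat_lit 131) (nat_lit 5) (nat_lit 137) (nat_lit 5) (nat_lit 132) (nat_lit 5) (nat_lit 395) (nat_lit 340) (nat_lit 285))))))) (XT.nd (nat_lit 1092) (nat_lit 2052) (nat_lit 0) (XT.nd (nat_lit 546) (nat_lit 1368) (nat_lit 0) (XT.nd (nat_lit 234) (nat_lit 684) (nat_lit 0) (XT.nd (nat_lit 78) (nat_lit 304)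 (nat_lit 0) (XT.lf (nat_lit 0) (nat_lit 859565913) (nat_lit 304) (nat_lit 2982273046) (nat_lit 380) (nat_lit 7399252855) (nat_lit 127) (nat_lit 5) (nat_lit 131) (nat_lit 5) (nat_lit 132) (nat_lit 5) (nat_lit 396) (nat_lit 340) (nat_lit 284)) (XT.nd (nat_lit 78) (nat_lit 304) (nat_lit 0) (XT.lf (nat_lit 0) (nat_lit 7047139524) (nat_lit 380) (nat_lit 3251458345) (nat_lit 76) (nat_lit 1132037245) (nat_lit 127) (nat_lit 5) (nat_lit 132) (nat_lit 5) (nat_lit 128) (nat_lit 5) (nat_lit 397) (nat_lit 340) (nat_lit 283)) (XT.lf (nat_lit 0) (nat_lit 4084222303) (nat_lit 304) (nat_lit 6293481818) (nat_lit 380) (nat_lit 1247298320) (nat_lit 123) (nat_lit 5) (nat_lit 127) (nat_lit 5) (nat_lit 128) (nat_lit 5) (nat_lit 398) (nat_lit 340) (nat_lit 282)))) (XT.nd (nat_lit 156) (nat_lit 304) (nat_lit 0) (XT.nd (nat_lit 78) (nat_lit 304) (nat_lit 0) (XT.lf (nat_lit 0) (nat_lit 1937967692) (nat_lit 380) (nat_lit 195659680) (nat_lit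 76) (nat_lit 9691201479) (nat_lit 122) (nat_lit 5) (nat_lit 127) (nat_lit 5) (nat_lit 123) (nat_lit 5) (nat_lit 399) (nat_lit 340) (nat_lit 281)) (XT.lf (nat_lit 0) (nat_lit 5248293815) (nat_lit 380) (nat_lit 4604834928) (nat_lit 76) (nat_lit 2175523632) (nat_lit 118) (nat_lit 5) (nat_lit 123) (nat_lit 5) (nat_lit 119) (nat_lit 5) (nat_lit 400) (nat_lit 340) (nat_lit 280))) (XT.nd (nat_lit 78) (nat_lit 0) (nat_lit 0) (XT.lf (nat_lit 0) (nat_lit 3017722964) (nat_lit 304) (nat_lit 5654399579) (nat_lit 380) (nat_lit 3566051943) (nat_lit 114) (nat_lit 5) (nat_lit 118) (nat_lit 5) (nat_lit 119) (nat_lit 5) (nat_lit 401) (nat_lit 340) (nat_lit 279)) (XT.lf (nat_lit 0) (nat_lit 10906537240) (nat_lit 304) (nat_lit 1301251741) (nat_lit 380) (nat_lit 245928979) (nat_lit 114) (nat_lit 5) (nat_lit 118) (nat_lit 5) (nat_lit 119) (nat_lit 5) (nat_lit 402) (nat_lit 340) (nat_lit 278))))) (XT.nd (nat_lit 234) (nat_lit 760)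 (nat_lit 0) (XT.nd (nat_lit 78) (nat_lit 304) (nat_lit 0) (XT.lf (nat_lit 0) (nat_lit 3167996094) (nat_lit 304) (nat_lit 6310730579) (nat_lit 76) (nat_lit 3194410736) (nat_lit 110) (nat_lit 5) (nat_lit 114) (nat_lit 5) (nat_lit 111) (nat_lit 5) (nat_lit 403) (nat_lit 340) (nat_lit 277)) (XT.nd (nat_lit 78) (nat_lit 0) (nat_lit 0) (XT.lf (nat_lit 0) (nat_lit 1601853708) (nat_lit 304) (nat_lit 5085296367) (nat_lit 380) (nat_lit 6211692283) (nat_lit 106) (nat_lit 5) (nat_lit 110) (nat_lit 5) (nat_lit 111) (nat_lit 5) (nat_lit 404) (nat_lit 340) (nat_lit 276)) (XT.lf (nat_lit 0) (nat_lit 9825472985) (nat_lit 304) (nat_lit 514347888) (nat_lit 380) (nat_lit 2790667654) (nat_lit 106) (nat_lit 5) (nat_lit 110) (nat_lit 5) (nat_lit 111) (nat_lit 5) (nat_lit 405) (nat_lit 340) (nat_lit 275)))) (XT.nd (nat_lit 156) (nat_lit 456) (nat_lit 0) (XT.nd (nat_lit 78) (nat_lit 0) (nat_lit 0) (XT.lf (nat_lit 0) (nat_lit 771951259)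 (nat_lit 304) (nat_lit 8447466469) (nat_lit 76) (nat_lit 4147864831) (nat_lit 102) (nat_lit 5) (nat_lit 106) (nat_lit 5) (nat_lit 103) (nat_lit 5) (nat_lit 406) (nat_lit 340) (nat_lit 274)) (XT.lf (nat_lit 0) (nat_lit 4389374421) (nat_lit 304) (nat_lit 239199673) (nat_lit 76) (nat_lit 8981664576) (nat_lit 102) (nat_lit 5) (nat_lit 106) (nat_lit 5) (nat_lit 103) (nat_lit 5) (nat_lit 407) (nat_lit 340) (nat_lit 273))) (XT.nd (nat_lit 78) (nat_lit 228) (nat_lit 0) (XT.lf (nat_lit 0) (nat_lit 8163133020) (nat_lit 304) (nat_lit 5536420244) (nat_lit 76) (nat_lit 159503226) (nat_lit 99) (nat_lit 5) (nat_lit 103) (nat_lit 5) (nat_lit 100) (nat_lit 5) (nat_lit 408) (nat_lit 340) (nat_lit 272)) (XT.lf (nat_lit 0) (nat_lit 2989655285) (nat_lit 228) (nat_lit 9103970605) (nat_lit 304) (nat_lit 2020414502) (nat_lit 96) (nat_lit 5) (nat_lit 99) (nat_lit 5) (nat_lit 100) (nat_lit 5) (nat_lit 409) (nat_lit 340) (nat_lit 271))))))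 (XT.nd (nat_lit 546) (nat_lit 1064) (nat_lit 0) (XT.nd (nat_lit 234) (nat_lit 456) (nat_lit 0) (XT.nd (nat_lit 78) (nat_lit 456) (nat_lit 0) (XT.lf (nat_lit 0) (nat_lit 1754017438) (nat_lit 304) (nat_lit 2561455260) (nat_lit 76) (nat_lit 10060005612) (nat_lit 95) (nat_lit 5) (nat_lit 99) (nat_lit 5) (nat_lit 96) (nat_lit 5) (nat_lit 410) (nat_lit 340) (nat_lit 270)) (XT.nd (nat_lit 78) (nat_lit 228) (nat_lit 0) (XT.lf (nat_lit 0) (nat_lit 5635872471) (nat_lit 304) (nat_lit 8340749132) (nat_lit 76) (nat_lit 666500269) (nat_lit 92) (nat_lit 5) (nat_lit 96) (nat_lit 5) (nat_lit 93) (nat_lit 5) (nat_lit 411) (nat_lit 340) (nat_lit 269)) (XT.lf (nat_lit 0) (nat_lit 480365979) (nat_lit 228) (nat_lit 9195154430) (nat_lit 304) (nat_lit 5242040603) (nat_lit 89) (nat_lit 5) (nat_lit 92) (nat_lit 5) (nat_lit 93) (nat_lit 5) (nat_lit 412) (nat_lit 340) (nat_lit 268)))) (XT.nd (nat_lit 156) (nat_lit 152) (nat_lit 0) (XT.nd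 (nat_lit 78) (nat_lit 304) (nat_lit 0) (XT.lf (nat_lit 0) (nat_lit 9684979412) (nat_lit 228) (nat_lit 4203908922) (nat_lit 304) (nat_lit 1309775280) (nat_lit 89) (nat_lit 5) (nat_lit 92) (nat_lit 5) (nat_lit 93) (nat_lit 5) (nat_lit 413) (nat_lit 340) (nat_lit 267)) (XT.lf (nat_lit 0) (nat_lit 2700617952) (nat_lit 304) (nat_lit 11825096391) (nat_lit 76) (nat_lit 961291425) (nat_lit 85) (nat_lit 5) (nat_lit 89) (nat_lit 5) (nat_lit 86) (nat_lit 5) (nat_lit 414) (nat_lit 340) (nat_lit 266))) (XT.nd (nat_lit 78) (nat_lit 152) (nat_lit 0) (XT.lf (nat_lit 0) (nat_lit 6871992251) (nat_lit 304) (nat_lit 2663123796) (nat_lit 76) (nat_lit 6246488940) (nat_lit 85) (nat_lit 5) (nat_lit 89) (nat_lit 5) (nat_lit 86) (nat_lit 5) (nat_lit 415) (nat_lit 340) (nat_lit 265)) (XT.lf (nat_lit 0) (nat_lit 6857572829) (nat_lit 152) (nat_lit 4346895818) (nat_lit 228) (nat_lit 4879500224) (nat_lit 83) (nat_lit 5) (nat_lit 85) (nat_lit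 5) (nat_lit 86) (nat_lit 5) (nat_lit 416) (nat_lit 340) (nat_lit 264))))) (XT.nd (nat_lit 312) (nat_lit 608) (nat_lit 0) (XT.nd (nat_lit 156) (nat_lit 152) (nat_lit 0) (XT.nd (nat_lit 78) (nat_lit 76) (nat_lit 0) (XT.lf (nat_lit 0) (nat_lit 269124441) (nat_lit 228) (nat_lit 15407371477) (nat_lit 304) (nat_lit 718625806) (nat_lit 80) (nat_lit 5) (nat_lit 83) (nat_lit 5) (nat_lit 84) (nat_lit 5) (nat_lit 417) (nat_lit 340) (nat_lit 263)) (XT.lf (nat_lit 0) (nat_lit 3604938711) (nat_lit 304) (nat_lit 6602687237) (nat_lit 76) (nat_lit 6503735482) (nat_lit 79) (nat_lit 5) (nat_lit 83) (nat_lit 5) (nat_lit 80) (nat_lit 5) (nat_lit 418) (nat_lit 340) (nat_lit 262))) (XT.nd (nat_lit 78) (nat_lit 0) (nat_lit 0) (XT.lf (nat_lit 0) (nat_lit 3213104494) (nat_lit 152) (nat_lit 4832752991) (nat_lit 228) (nat_lit 8990959555) (nat_lit 77) (nat_lit 5) (nat_lit 79) (nat_lit 5) (nat_lit 80) (nat_lit 5) (nat_lit 419) (nat_lit 340)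 (nat_lit 261)) (XT.lf (nat_lit 0) (nat_lit 12665486884) (nat_lit 228) (nat_lit 3967728207) (nat_lit 76) (nat_lit 737461493) (nat_lit 77) (nat_lit 5) (nat_lit 80) (nat_lit 5) (nat_lit 78) (nat_lit 5) (nat_lit 420) (nat_lit 340) (nat_lit 260)))) (XT.nd (nat_lit 156) (nat_lit 304) (nat_lit 0) (XT.nd (nat_lit 78) (nat_lit 76) (nat_lit 0) (XT.lf (nat_lit 0) (nat_lit 6209697686) (nat_lit 228) (nat_lit 11293768840) (nat_lit 304) (nat_lit 208697161) (nat_lit 74) (nat_lit 5) (nat_lit 77) (nat_lit 5) (nat_lit 78) (nat_lit 5) (nat_lit 421) (nat_lit 340) (nat_lit 259)) (XT.lf (nat_lit 0) (nat_lit 4349151895) (nat_lit 304) (nat_lit 1379474633) (nat_lit 76) (nat_lit 12333614889) (nat_lit 73) (nat_lit 5) (nat_lit 77) (nat_lit 5) (nat_lit 74) (nat_lit 5) (nat_lit 422) (nat_lit 340) (nat_lit 258))) (XT.nd (nat_lit 78) (nat_lit 152) (nat_lit 0) (XT.lf (nat_lit 0) (nat_lit 9101615343) (nat_lit 228) (nat_lit 9243693296) (nat_lit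 76) (nat_lit 75592869) (nat_lit 71) (nat_lit 5) (nat_lit 74) (nat_lit 5) (nat_lit 72) (nat_lit 5) (nat_lit 423) (nat_lit 340) (nat_lit 257)) (XT.lf (nat_lit 0) (nat_lit 1209280597) (nat_lit 152) (nat_lit 12843049318) (nat_lit 228) (nat_lit 4736325271) (nat_lit 69) (nat_lit 5) (nat_lit 71) (nat_lit 5) (nat_lit 72) (nat_lit 5) (nat_lit 424) (nat_lit 340) (nat_lit 256))))))))
noncomputable def xc102 : XT := (XT.nd (nat_lit 2184) (nat_lit 1292) (nat_lit 0) (XT.nd (nat_lit 1092) (nat_lit 1064) (nat_lit 0) (XT.nd (nat_lit 546) (nat_lit 684) (nat_lit 0) (XT.nd (nat_lit 234) (nat_lit 380) (nat_lit 0) (XT.nd (nat_lit 78) (nat_lit 152) (nat_lit 0) (XT.lf (nat_lit 0) (nat_lit 52038997) (nat_lit 228) (nat_lit 7046587504) (nat_lit 76) (nat_lit 12066795275) (nat_lit 68) (nat_lit 5) (nat_lit 71) (nat_lit 5) (nat_lit 69) (nat_lit 5) (nat_lit 425) (nat_lit 340) (nat_lit 255)) (XT.nd (nat_lit 78) (nat_lit 0) (nat_lit 0) (XT.lf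 (nat_lit 0) (nat_lit 3783977332) (nat_lit 152) (nat_lit 1115369293) (nat_lit 228) (nat_lit 14652427027) (nat_lit 66) (nat_lit 5) (nat_lit 68) (nat_lit 5) (nat_lit 69) (nat_lit 5) (nat_lit 426) (nat_lit 340) (nat_lit 254)) (XT.lf (nat_lit 0) (nat_lit 9986707412) (nat_lit 228) (nat_lit 4958191596) (nat_lit 76) (nat_lit 5001981703) (nat_lit 66) (nat_lit 5) (nat_lit 69) (nat_lit 5) (nat_lit 67) (nat_lit 5) (nat_lit 427) (nat_lit 340) (nat_lit 253)))) (XT.nd (nat_lit 156) (nat_lit 228) (nat_lit 0) (XT.nd (nat_lit 78) (nat_lit 0) (nat_lit 0) (XT.lf (nat_lit 0) (nat_lit 6242496473) (nat_lit 152) (nat_lit 9030246515) (nat_lit 228) (nat_lit 5079719912) (nat_lit 64) (nat_lit 5) (nat_lit 66) (nat_lit 5) (nat_lit 67) (nat_lit 5) (nat_lit 428) (nat_lit 340) (nat_lit 252)) (XT.lf (nat_lit 0) (nat_lit 17837299252) (nat_lit 152) (nat_lit 2905441870) (nat_lit 228) (nat_lit 26713422) (nat_lit 64) (nat_lit 5) (nat_lit 66) (nat_lit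 5) (nat_lit 67) (nat_lit 5) (nat_lit 429) (nat_lit 340) (nat_lit 251))) (XT.nd (nat_lit 78) (nat_lit 0) (nat_lit 0) (XT.lf (nat_lit 0) (nat_lit 5169707372) (nat_lit 228) (nat_lit 12572153425) (nat_lit 76) (nat_lit 3452819291) (nat_lit 61) (nat_lit 5) (nat_lit 64) (nat_lit 5) (nat_lit 62) (nat_lit 5) (nat_lit 430) (nat_lit 340) (nat_lit 250)) (XT.lf (nat_lit 0) (nat_lit 10556065639) (nat_lit 228) (nat_lit 1120027937) (nat_lit 76) (nat_lit 9955526579) (nat_lit 61) (nat_lit 5) (nat_lit 64) (nat_lit 5) (nat_lit 62) (nat_lit 5) (nat_lit 431) (nat_lit 340) (nat_lit 249))))) (XT.nd (nat_lit 234) (nat_lit 304) (nat_lit 0) (XT.nd (nat_lit 78) (nat_lit 228) (nat_lit 0) (XT.lf (nat_lit 0) (nat_lit 10845663548) (nat_lit 152) (nat_lit 5339220659) (nat_lit 228) (nat_lit 5894361182) (nat_lit 59) (nat_lit 5) (nat_lit 61) (nat_lit 5) (nat_lit 62) (nat_lit 5) (nat_lit 432) (nat_lit 340) (nat_lit 248)) (XT.nd (nat_lit 78) (nat_lit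 76) (nat_lit 0) (XT.lf (nat_lit 0) (nat_lit 611988561) (nat_lit 152) (nat_lit 21376026094) (nat_lit 228) (nat_lit 552124268) (nat_lit 57) (nat_lit 5) (nat_lit 59) (nat_lit 5) (nat_lit 60) (nat_lit 4) (nat_lit 433) (nat_lit 340) (nat_lit 247)) (XT.lf (nat_lit 0) (nat_lit 4997978897) (nat_lit 228) (nat_lit 10111630429) (nat_lit 76) (nat_lit 7899499182) (nat_lit 56) (nat_lit 5) (nat_lit 59) (nat_lit 5) (nat_lit 57) (nat_lit 5) (nat_lit 434) (nat_lit 340) (nat_lit 246)))) (XT.nd (nat_lit 156) (nat_lit 152) (nat_lit 0) (XT.nd (nat_lit 78) (nat_lit 0) (nat_lit 0) (XT.lf (nat_lit 0) (nat_lit 2053400401) (nat_lit 152) (nat_lit 8647277627) (nat_lit 228) (nat_lit 12791392166) (nat_lit 54) (nat_lit 5) (nat_lit 56) (nat_lit 5) (nat_lit 57) (nat_lit 5) (nat_lit 435) (nat_lit 340) (nat_lit 245)) (XT.lf (nat_lit 0) (nat_lit 14750471221) (nat_lit 152) (nat_lit 1903816459) (nat_lit 228) (nat_lit 7332840795) (nat_lit 54) (nat_lit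 5) (nat_lit 56) (nat_lit 5) (nat_lit 57) (nat_lit 5) (nat_lit 436) (nat_lit 340) (nat_lit 244))) (XT.nd (nat_lit 78) (nat_lit 76) (nat_lit 0) (XT.lf (nat_lit 0) (nat_lit 3307997153) (nat_lit 76) (nat_lit 19536976880) (nat_lit 152) (nat_lit 1650312977) (nat_lit 53) (nat_lit 5) (nat_lit 54) (nat_lit 5) (nat_lit 55) (nat_lit 4) (nat_lit 437) (nat_lit 340) (nat_lit 243)) (XT.lf (nat_lit 0) (nat_lit 4211973112) (nat_lit 152) (nat_lit 8697281719) (nat_lit 76) (nat_lit 12105487151) (nat_lit 52) (nat_lit 5) (nat_lit 54) (nat_lit 5) (nat_lit 53) (nat_lit 5) (nat_lit 438) (nat_lit 340) (nat_lit 242)))))) (XT.nd (nat_lit 546) (nat_lit 532) (nat_lit 0) (XT.nd (nat_lit 234) (nat_lit 304) (nat_lit 0) (XT.nd (nat_lit 78) (nat_lit 76) (nat_lit 0) (XT.lf (nat_lit 0) (nat_lit 4194538250) (nat_lit 152) (nat_lit 6041620722) (nat_lit 228) (nat_lit 15312557753) (nat_lit 50) (nat_lit 5) (nat_lit 52) (nat_lit 5) (nat_lit 53) (nat_lit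 5) (nat_lit 439) (nat_lit 340) (nat_lit 241)) (XT.nd (nat_lit 78) (nat_lit 76) (nat_lit 0) (XT.lf (nat_lit 0) (nat_lit 16518651213) (nat_lit 228) (nat_lit 8493953816) (nat_lit 76) (nat_lit 1083780528) (nat_lit 50) (nat_lit 5) (nat_lit 53) (nat_lit 5) (nat_lit 51) (nat_lit 4) (nat_lit 440) (nat_lit 340) (nat_lit 240)) (XT.lf (nat_lit 0) (nat_lit 4747535783) (nat_lit 76) (nat_lit 18327114479) (nat_lit 152) (nat_lit 3583285435) (nat_lit 49) (nat_lit 5) (nat_lit 50) (nat_lit 5) (nat_lit 51) (nat_lit 4) (nat_lit 441) (nat_lit 340) (nat_lit 239)))) (XT.nd (nat_lit 156) (nat_lit 76) (nat_lit 0) (XT.nd (nat_lit 78) (nat_lit 152) (nat_lit 0) (XT.lf (nat_lit 0) (nat_lit 2606673797) (nat_lit 152) (nat_lit 8736533603) (nat_lit 76) (nat_lit 15890392737) (nat_lit 48) (nat_lit 5) (nat_lit 50) (nat_lit 5) (nat_lit 49) (nat_lit 5) (nat_lit 442) (nat_lit 340) (nat_lit 238)) (XT.lf (nat_lit 0) (nat_lit 4855501720) (nat_lit 152)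 (nat_lit 4081692417) (nat_lit 228) (nat_lit 18887471563) (nat_lit 46) (nat_lit 5) (nat_lit 48) (nat_lit 5) (nat_lit 49) (nat_lit 5) (nat_lit 443) (nat_lit 340) (nat_lit 237))) (XT.nd (nat_lit 78) (nat_lit 76) (nat_lit 0) (XT.lf (nat_lit 0) (nat_lit 15559667772) (nat_lit 228) (nat_lit 9466354344) (nat_lit 76) (nat_lit 3404381943) (nat_lit 46) (nat_lit 5) (nat_lit 49) (nat_lit 5) (nat_lit 47) (nat_lit 4) (nat_lit 444) (nat_lit 340) (nat_lit 236)) (XT.lf (nat_lit 0) (nat_lit 4452682325) (nat_lit 76) (nat_lit 17992204183) (nat_lit 152) (nat_lit 6607507836) (nat_lit 45) (nat_lit 5) (nat_lit 46) (nat_lit 5) (nat_lit 47) (nat_lit 4) (nat_lit 445) (nat_lit 340) (nat_lit 235))))) (XT.nd (nat_lit 234) (nat_lit 304) (nat_lit 0) (XT.nd (nat_lit 78) (nat_lit 228) (nat_lit 0) (XT.lf (nat_lit 0) (nat_lit 18948355146) (nat_lit 76) (nat_lit 10664975750) (nat_lit 152) (nat_lit 77415215) (nat_lit 45) (nat_lit 5) (nat_lit 46) (nat_lit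 5) (nat_lit 47) (nat_lit 4) (nat_lit 446) (nat_lit 340) (nat_lit 234)) (XT.nd (nat_lit 78) (nat_lit 0) (nat_lit 0) (XT.lf (nat_lit 0) (nat_lit 3500713072) (nat_lit 152) (nat_lit 3033225320) (nat_lit 228) (nat_lit 23811941593) (nat_lit 42) (nat_lit 5) (nat_lit 44) (nat_lit 5) (nat_lit 45) (nat_lit 5) (nat_lit 447) (nat_lit 340) (nat_lit 233)) (XT.lf (nat_lit 0) (nat_lit 13479540449) (nat_lit 228) (nat_lit 12708742738) (nat_lit 76) (nat_lit 4828239470) (nat_lit 42) (nat_lit 5) (nat_lit 45) (nat_lit 5) (nat_lit 43) (nat_lit 4) (nat_lit 448) (nat_lit 340) (nat_lit 232)))) (XT.nd (nat_lit 156) (nat_lit 228) (nat_lit 0) (XT.nd (nat_lit 78) (nat_lit 0) (nat_lit 0) (XT.lf (nat_lit 0) (nat_lit 1823933049) (nat_lit 76) (nat_lit 18839188838) (nat_lit 152) (nat_lit 11043276023) (nat_lit 41) (nat_lit 5) (nat_lit 42) (nat_lit 5) (nat_lit 43) (nat_lit 4) (nat_lit 449) (nat_lit 340) (nat_lit 231)) (XT.lf (nat_lit 0) (nat_lit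 17020032653) (nat_lit 76) (nat_lit 11152763118) (nat_lit 152) (nat_lit 4240857693) (nat_lit 41) (nat_lit 5) (nat_lit 42) (nat_lit 5) (nat_lit 43) (nat_lit 4) (nat_lit 450) (nat_lit 340) (nat_lit 230))) (XT.nd (nat_lit 78) (nat_lit 152) (nat_lit 0) (XT.lf (nat_lit 0) (nat_lit 2694262161) (nat_lit 152) (nat_lit 529154190) (nat_lit 76) (nat_lit 29918436392) (nat_lit 40) (nat_lit 5) (nat_lit 42) (nat_lit 5) (nat_lit 41) (nat_lit 5) (nat_lit 451) (nat_lit 340) (nat_lit 229)) (XT.lf (nat_lit 0) (nat_lit 9928721317) (nat_lit 228) (nat_lit 18935588428) (nat_lit 76) (nat_lit 5021034370) (nat_lit 38) (nat_lit 5) (nat_lit 41) (nat_lit 5) (nat_lit 39) (nat_lit 4) (nat_lit 452) (nat_lit 340) (nat_lit 228))))))) (XT.nd (nat_lit 1092) (nat_lit 532) (nat_lit 0) (XT.nd (nat_lit 546) (nat_lit 380) (nat_lit 0) (XT.nd (nat_lit 234) (nat_lit 304) (nat_lit 0) (XT.nd (nat_lit 78) (nat_lit 76) (nat_lit 0) (XT.lf (nat_lit 0) (nat_lit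 17400681740) (nat_lit 228) (nat_lit 3810634492) (nat_lit 76) (nat_lit 13439211387) (nat_lit 38) (nat_lit 5) (nat_lit 41) (nat_lit 5) (nat_lit 39) (nat_lit 4) (nat_lit 453) (nat_lit 340) (nat_lit 227)) (XT.nd (nat_lit 78) (nat_lit 0) (nat_lit 0) (XT.lf (nat_lit 0) (nat_lit 11971018517) (nat_lit 76) (nat_lit 13224501963) (nat_lit 152) (nat_lit 10240185937) (nat_lit 37) (nat_lit 5) (nat_lit 38) (nat_lit 5) (nat_lit 39) (nat_lit 4) (nat_lit 454) (nat_lit 340) (nat_lit 226)) (XT.lf (nat_lit 0) (nat_lit 28273888618) (nat_lit 76) (nat_lit 4972627049) (nat_lit 152) (nat_lit 2997256906) (nat_lit 37) (nat_lit 5) (nat_lit 38) (nat_lit 5) (nat_lit 39) (nat_lit 4) (nat_lit 455) (nat_lit 340) (nat_lit 225)))) (XT.nd (nat_lit 156) (nat_lit 76) (nat_lit 0) (XT.nd (nat_lit 78) (nat_lit 0) (nat_lit 0) (XT.lf (nat_lit 0) (nat_lit 4472596824) (nat_lit 228) (nat_lit 29033254013) (nat_lit 76) (nat_lit 3566042358) (nat_lit 34) (nat_lit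 5) (nat_lit 37) (nat_lit 5) (nat_lit 35) (nat_lit 4) (nat_lit 456) (nat_lit 340) (nat_lit 224)) (XT.lf (nat_lit 0) (nat_lit 12221006382) (nat_lit 228) (nat_lit 13341183236) (nat_lit 76) (nat_lit 12358337698) (nat_lit 34) (nat_lit 5) (nat_lit 37) (nat_lit 5) (nat_lit 35) (nat_lit 4) (nat_lit 457) (nat_lit 340) (nat_lit 223))) (XT.nd (nat_lit 78) (nat_lit 0) (nat_lit 0) (XT.lf (nat_lit 0) (nat_lit 2848271984) (nat_lit 76) (nat_lit 17365627173) (nat_lit 152) (nat_lit 18580361561) (nat_lit 33) (nat_lit 5) (nat_lit 34) (nat_lit 5) (nat_lit 35) (nat_lit 4) (nat_lit 458) (nat_lit 340) (nat_lit 222)) (XT.lf (nat_lit 0) (nat_lit 19768218215) (nat_lit 76) (nat_lit 8797903302) (nat_lit 152) (nat_lit 11124499474) (nat_lit 33) (nat_lit 5) (nat_lit 34) (nat_lit 5) (nat_lit 35) (nat_lit 4) (nat_lit 459) (nat_lit 340) (nat_lit 221))))) (XT.nd (nat_lit 234) (nat_lit 228) (nat_lit 0) (XT.nd (nat_lit 78) (nat_lit 152) (nat_lit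 0) (XT.lf (nat_lit 0) (nat_lit 37154307764) (nat_lit 152) (nat_lit 3446523228) (nat_lit 0) (nat_lit 13480279) (nat_lit 33) (nat_lit 5) (nat_lit 35) (nat_lit 4) (nat_lit 33) (nat_lit 4) (nat_lit 460) (nat_lit 340) (nat_lit 220)) (XT.nd (nat_lit 78) (nat_lit 0) (nat_lit 0) (XT.lf (nat_lit 0) (nat_lit 4554058365) (nat_lit 152) (nat_lit 27928178590) (nat_lit 76) (nat_lit 9076012684) (nat_lit 31) (nat_lit 5) (nat_lit 33) (nat_lit 5) (nat_lit 32) (nat_lit 4) (nat_lit 461) (nat_lit 340) (nat_lit 219)) (XT.lf (nat_lit 0) (nat_lit 12759736842) (nat_lit 152) (nat_lit 11301806220) (nat_lit 76) (nat_lit 18467314273) (nat_lit 31) (nat_lit 5) (nat_lit 33) (nat_lit 5) (nat_lit 32) (nat_lit 4) (nat_lit 462) (nat_lit 340) (nat_lit 218)))) (XT.nd (nat_lit 156) (nat_lit 152) (nat_lit 0) (XT.nd (nat_lit 78) (nat_lit 0) (nat_lit 0) (XT.lf (nat_lit 0) (nat_lit 5912166128) (nat_lit 76) (nat_lit 15342260302) (nat_lit 152) (nat_lit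 22272872603) (nat_lit 30) (nat_lit 5) (nat_lit 31) (nat_lit 5) (nat_lit 32) (nat_lit 4) (nat_lit 463) (nat_lit 340) (nat_lit 217)) (XT.lf (nat_lit 0) (nat_lit 23847935128) (nat_lit 76) (nat_lit 6256311754) (nat_lit 152) (nat_lit 14448439357) (nat_lit 30) (nat_lit 5) (nat_lit 31) (nat_lit 5) (nat_lit 32) (nat_lit 4) (nat_lit 464) (nat_lit 340) (nat_lit 216))) (XT.nd (nat_lit 78) (nat_lit 152) (nat_lit 0) (XT.lf (nat_lit 0) (nat_lit 39235833113) (nat_lit 152) (nat_lit 3342698362) (nat_lit 0) (nat_lit 3029816388) (nat_lit 30) (nat_lit 5) (nat_lit 32) (nat_lit 4) (nat_lit 30) (nat_lit 4) (nat_lit 465) (nat_lit 340) (nat_lit 215)) (XT.lf (nat_lit 0) (nat_lit 2100092516) (nat_lit 152) (nat_lit 31969703442) (nat_lit 76) (nat_lit 12619551996) (nat_lit 28) (nat_lit 5) (nat_lit 30) (nat_lit 5) (nat_lit 29) (nat_lit 4) (nat_lit 466) (nat_lit 340) (nat_lit 214)))))) (XT.nd (nat_lit 546) (nat_lit 304) (nat_lit 0) (XT.nd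 (nat_lit 234) (nat_lit 152) (nat_lit 0) (XT.nd (nat_lit 78) (nat_lit 76) (nat_lit 0) (XT.lf (nat_lit 0) (nat_lit 10719745937) (nat_lit 152) (nat_lit 14497898767) (nat_lit 76) (nat_lit 22582612897) (nat_lit 28) (nat_lit 5) (nat_lit 30) (nat_lit 5) (nat_lit 29) (nat_lit 4) (nat_lit 467) (nat_lit 340) (nat_lit 213)) (XT.nd (nat_lit 78) (nat_lit 0) (nat_lit 0) (XT.lf (nat_lit 0) (nat_lit 3542839568) (nat_lit 76) (nat_lit 16076448316) (nat_lit 152) (nat_lit 29324568519) (nat_lit 27) (nat_lit 5) (nat_lit 28) (nat_lit 5) (nat_lit 29) (nat_lit 4) (nat_lit 468) (nat_lit 340) (nat_lit 212)) (XT.lf (nat_lit 0) (nat_lit 22397877489) (nat_lit 76) (nat_lit 6521721685) (nat_lit 152) (nat_lit 21198151309) (nat_lit 27) (nat_lit 5) (nat_lit 28) (nat_lit 5) (nat_lit 29) (nat_lit 4) (nat_lit 469) (nat_lit 340) (nat_lit 211)))) (XT.nd (nat_lit 156) (nat_lit 76) (nat_lit 0) (XT.nd (nat_lit 78) (nat_lit 76) (nat_lit 0) (XT.lf (nat_lit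 0) (nat_lit 38518473198) (nat_lit 152) (nat_lit 9563879172) (nat_lit 0) (nat_lit 3243923196) (nat_lit 27) (nat_lit 5) (nat_lit 29) (nat_lit 4) (nat_lit 27) (nat_lit 4) (nat_lit 470) (nat_lit 340) (nat_lit 210)) (XT.lf (nat_lit 0) (nat_lit 9229336226) (nat_lit 76) (nat_lit 39317269579) (nat_lit 76) (nat_lit 4020212587) (nat_lit 26) (nat_lit 4) (nat_lit 27) (nat_lit 5) (nat_lit 27) (nat_lit 4) (nat_lit 471) (nat_lit 340) (nat_lit 209))) (XT.nd (nat_lit 78) (nat_lit 0) (nat_lit 0) (XT.lf (nat_lit 0) (nat_lit 5018379770) (nat_lit 152) (nat_lit 25131597506) (nat_lit 76) (nat_lit 23690583674) (nat_lit 25) (nat_lit 5) (nat_lit 27) (nat_lit 5) (nat_lit 26) (nat_lit 4) (nat_lit 472) (nat_lit 340) (nat_lit 208)) (XT.lf (nat_lit 0) (nat_lit 14235691955) (nat_lit 152) (nat_lit 6441668767) (nat_lit 76) (nat_lit 34474310705) (nat_lit 25) (nat_lit 5) (nat_lit 27) (nat_lit 5) (nat_lit 26) (nat_lit 4) (nat_lit 473) (nat_lit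 340) (nat_lit 207))))) (XT.nd (nat_lit 312) (nat_lit 152) (nat_lit 0) (XT.nd (nat_lit 156) (nat_lit 76) (nat_lit 0) (XT.nd (nat_lit 78) (nat_lit 0) (nat_lit 0) (XT.lf (nat_lit 0) (nat_lit 13041771736) (nat_lit 76) (nat_lit 10801820509) (nat_lit 152) (nat_lit 32655101588) (nat_lit 24) (nat_lit 5) (nat_lit 25) (nat_lit 5) (nat_lit 26) (nat_lit 4) (nat_lit 474) (nat_lit 340) (nat_lit 206)) (XT.lf (nat_lit 0) (nat_lit 33220297844) (nat_lit 76) (nat_lit 573305868) (nat_lit 152) (nat_lit 24090907630) (nat_lit 24) (nat_lit 5) (nat_lit 25) (nat_lit 5) (nat_lit 26) (nat_lit 4) (nat_lit 475) (nat_lit 340) (nat_lit 205))) (XT.nd (nat_lit 78) (nat_lit 76) (nat_lit 0) (XT.lf (nat_lit 0) (nat_lit 44126932334) (nat_lit 152) (nat_lit 5424555444) (nat_lit 0) (nat_lit 9757871731) (nat_lit 24) (nat_lit 5) (nat_lit 26) (nat_lit 4) (nat_lit 24) (nat_lit 4) (nat_lit 476) (nat_lit 340) (nat_lit 204)) (XT.lf (nat_lit 0) (nat_lit 14652074150)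 (nat_lit 76) (nat_lit 40254081791) (nat_lit 76) (nat_lit 5866720945) (nat_lit 23) (nat_lit 4) (nat_lit 24) (nat_lit 5) (nat_lit 24) (nat_lit 4) (nat_lit 477) (nat_lit 340) (nat_lit 203)))) (XT.nd (nat_lit 156) (nat_lit 76) (nat_lit 0) (XT.nd (nat_lit 78) (nat_lit 0) (nat_lit 0) (XT.lf (nat_lit 0) (nat_lit 3700404830) (nat_lit 152) (nat_lit 26893306266) (nat_lit 76) (nat_lit 31684172945) (nat_lit 22) (nat_lit 5) (nat_lit 24) (nat_lit 5) (nat_lit 23) (nat_lit 4) (nat_lit 478) (nat_lit 340) (nat_lit 202)) (XT.lf (nat_lit 0) (nat_lit 13426322544) (nat_lit 152) (nat_lit 7166943043) (nat_lit 76) (nat_lit 43233342998) (nat_lit 22) (nat_lit 5) (nat_lit 24) (nat_lit 5) (nat_lit 23) (nat_lit 4) (nat_lit 479) (nat_lit 340) (nat_lit 201))) (XT.nd (nat_lit 78) (nat_lit 0) (nat_lit 0) (XT.lf (nat_lit 0) (nat_lit 13393268990) (nat_lit 76) (nat_lit 10169486730) (nat_lit 152) (nat_lit 41855477555) (nat_lit 21) (nat_lit 5) (nat_lit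 22) (nat_lit 5) (nat_lit 23) (nat_lit 4) (nat_lit 480) (nat_lit 340) (nat_lit 200)) (XT.lf (nat_lit 0) (nat_lit 34071833883) (nat_lit 152) (nat_lit 32363712674) (nat_lit 0) (nat_lit 620004123) (nat_lit 21) (nat_lit 5) (nat_lit 23) (nat_lit 4) (nat_lit 21) (nat_lit 4) (nat_lit 481) (nat_lit 340) (nat_lit 199))))))))
noncomputable def xc103 : XT := (XT.nd (nat_lit 43758) (nat_lit 0) (nat_lit 10184) (XT.nd (nat_lit 42588) (nat_lit 0) (nat_lit 22572) (XT.nd (nat_lit 546) (nat_lit 0) (nat_lit 0) (XT.nd (nat_lit 234) (nat_lit 152) (nat_lit 0) (XT.nd (nat_lit 78) (nat_lit 76) (nat_lit 0) (XT.lf (nat_lit 0) (nat_lit 44987176222) (nat_lit 152) (nat_lit 12232061852) (nat_lit 0) (nat_lit 11520020297) (nat_lit 21) (nat_lit 5) (nat_lit 23) (nat_lit 4) (nat_lit 21) (nat_lit 4) (nat_lit 482) (nat_lit 340) (nat_lit 198)) (XT.nd (nat_lit 78) (nat_lit 0) (nat_lit 0) (XT.lf (nat_lit 0) (nat_lit 8654209060) (nat_lit 76) (nat_lit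 47649545579) (nat_lit 76) (nat_lit 14167509881) (nat_lit 20) (nat_lit 4) (nat_lit 21) (nat_lit 5) (nat_lit 21) (nat_lit 4) (nat_lit 483) (nat_lit 340) (nat_lit 197)) (XT.lf (nat_lit 0) (nat_lit 30399787625) (nat_lit 76) (nat_lit 37674249793) (nat_lit 76) (nat_lit 4177767714) (nat_lit 20) (nat_lit 4) (nat_lit 21) (nat_lit 5) (nat_lit 21) (nat_lit 4) (nat_lit 484) (nat_lit 340) (nat_lit 196)))) (XT.nd (nat_lit 156) (nat_lit 76) (nat_lit 0) (XT.nd (nat_lit 78) (nat_lit 0) (nat_lit 0) (XT.lf (nat_lit 0) (nat_lit 5983274517) (nat_lit 152) (nat_lit 21364460421) (nat_lit 76) (nat_lit 46736538959) (nat_lit 19) (nat_lit 5) (nat_lit 21) (nat_lit 5) (nat_lit 20) (nat_lit 4) (nat_lit 485) (nat_lit 340) (nat_lit 195)) (XT.lf (nat_lit 0) (nat_lit 16356313420) (nat_lit 152) (nat_lit 320808547) (nat_lit 76) (nat_lit 59293620252) (nat_lit 19) (nat_lit 5) (nat_lit 21) (nat_lit 5) (nat_lit 20) (nat_lit 4) (nat_lit 486) (nat_lit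 340) (nat_lit 194))) (XT.nd (nat_lit 78) (nat_lit 0) (nat_lit 0) (XT.lf (nat_lit 0) (nat_lit 21762142819) (nat_lit 76) (nat_lit 5478984321) (nat_lit 152) (nat_lit 50666660376) (nat_lit 18) (nat_lit 5) (nat_lit 19) (nat_lit 5) (nat_lit 20) (nat_lit 4) (nat_lit 487) (nat_lit 340) (nat_lit 193)) (XT.lf (nat_lit 0) (nat_lit 38505370058) (nat_lit 152) (nat_lit 35463608901) (nat_lit 0) (nat_lit 5932379088) (nat_lit 18) (nat_lit 5) (nat_lit 20) (nat_lit 4) (nat_lit 18) (nat_lit 4) (nat_lit 488) (nat_lit 340) (nat_lit 192))))) (XT.nd (nat_lit 41730) (nat_lit 0) (nat_lit 27436) (XT.nd (nat_lit 41574) (nat_lit 0) (nat_lit 27968) (XT.lf (nat_lit 0) (nat_lit 50153445763) (nat_lit 152) (nat_lit 14231557000) (nat_lit 0) (nat_lit 17568356177) (nat_lit 18) (nat_lit 5) (nat_lit 20) (nat_lit 4) (nat_lit 18) (nat_lit 4) (nat_lit 489) (nat_lit 340) (nat_lit 191)) (XT.nd (nat_lit 78) (nat_lit 228) (nat_lit 0) (XT.lf (nat_lit 0)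 (nat_lit 1536845722) (nat_lit 0) (nat_lit 1536845722) (nat_lit 76) (nat_lit 149426113) (nat_lit 389) (nat_lit 5) (nat_lit 389) (nat_lit 3) (nat_lit 390) (nat_lit 0) (nat_lit 341) (nat_lit 341) (nat_lit 338)) (XT.lf (nat_lit 0) (nat_lit 2659282221) (nat_lit 228) (nat_lit 233781592) (nat_lit 228) (nat_lit 3558909946) (nat_lit 386) (nat_lit 3) (nat_lit 389) (nat_lit 3) (nat_lit 389) (nat_lit 5) (nat_lit 342) (nat_lit 341) (nat_lit 337)))) (XT.nd (nat_lit 156) (nat_lit 304) (nat_lit 0) (XT.nd (nat_lit 78) (nat_lit 228) (nat_lit 0) (XT.lf (nat_lit 76) (nat_lit 2995158351) (nat_lit 0) (nat_lit 2618395355) (nat_lit 228) (nat_lit 846931477) (nat_lit 387) (nat_lit 5) (nat_lit 386) (nat_lit 3) (nat_lit 389) (nat_lit 5) (nat_lit 343) (nat_lit 341) (nat_lit 336)) (XT.lf (nat_lit 0) (nat_lit 2033106694) (nat_lit 228) (nat_lit 225710714) (nat_lit 304) (nat_lit 4213232371) (nat_lit 383) (nat_lit 5) (nat_lit 386) (nat_lit 3)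 (nat_lit 387) (nat_lit 5) (nat_lit 344) (nat_lit 341) (nat_lit 335))) (XT.nd (nat_lit 78) (nat_lit 304) (nat_lit 0) (XT.lf (nat_lit 76) (nat_lit 3103818524) (nat_lit 0) (nat_lit 1798056705) (nat_lit 304) (nat_lit 1584337591) (nat_lit 384) (nat_lit 5) (nat_lit 383) (nat_lit 5) (nat_lit 387) (nat_lit 5) (nat_lit 345) (nat_lit 341) (nat_lit 334)) (XT.lf (nat_lit 0) (nat_lit 1222769964) (nat_lit 304) (nat_lit 37049654) (nat_lit 380) (nat_lit 5243869271) (nat_lit 379) (nat_lit 5) (nat_lit 383) (nat_lit 5) (nat_lit 384) (nat_lit 5) (nat_lit 346) (nat_lit 341) (nat_lit 333)))))) (XT.nd (nat_lit 546) (nat_lit 3572) (nat_lit 0) (XT.nd (nat_lit 234) (nat_lit 988) (nat_lit 0) (XT.nd (nat_lit 78) (nat_lit 304) (nat_lit 0) (XT.lf (nat_lit 76) (nat_lit 3399973376) (nat_lit 0) (nat_lit 609151236) (nat_lit 380) (nat_lit 2514364236) (nat_lit 380) (nat_lit 5) (nat_lit 379) (nat_lit 5) (nat_lit 384) (nat_lit 5) (nat_lit 347) (nat_lit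 341) (nat_lit 332)) (XT.nd (nat_lit 78) (nat_lit 0) (nat_lit 0) (XT.lf (nat_lit 0) (nat_lit 228976368) (nat_lit 380) (nat_lit 6208468270) (nat_lit 76) (nat_lit 109403744) (nat_lit 375) (nat_lit 5) (nat_lit 380) (nat_lit 5) (nat_lit 376) (nat_lit 5) (nat_lit 348) (nat_lit 341) (nat_lit 331)) (XT.lf (nat_lit 0) (nat_lit 2940442602) (nat_lit 380) (nat_lit 2696878622) (nat_lit 76) (nat_lit 934819821) (nat_lit 375) (nat_lit 5) (nat_lit 380) (nat_lit 5) (nat_lit 376) (nat_lit 5) (nat_lit 349) (nat_lit 341) (nat_lit 330)))) (XT.nd (nat_lit 156) (nat_lit 532) (nat_lit 0) (XT.nd (nat_lit 78) (nat_lit 76) (nat_lit 0) (XT.lf (nat_lit 0) (nat_lit 875156019) (nat_lit 380) (nat_lit 4767943096) (nat_lit 456) (nat_lit 957865980) (nat_lit 370) (nat_lit 5) (nat_lit 375) (nat_lit 5) (nat_lit 376) (nat_lit 5) (nat_lit 350) (nat_lit 341) (nat_lit 329)) (XT.lf (nat_lit 0) (nat_lit 1691330933) (nat_lit 456) (nat_lit 2101110543) (nat_lit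 76) (nat_lit 2839852517) (nat_lit 369) (nat_lit 5) (nat_lit 375) (nat_lit 5) (nat_lit 370) (nat_lit 5) (nat_lit 351) (nat_lit 341) (nat_lit 328))) (XT.nd (nat_lit 78) (nat_lit 76) (nat_lit 0) (XT.lf (nat_lit 0) (nat_lit 1592391115) (nat_lit 456) (nat_lit 2729198219) (nat_lit 532) (nat_lit 2345126002) (nat_lit 363) (nat_lit 5) (nat_lit 369) (nat_lit 5) (nat_lit 370) (nat_lit 5) (nat_lit 352) (nat_lit 341) (nat_lit 327)) (XT.lf (nat_lit 0) (nat_lit 250324902) (nat_lit 532) (nat_lit 1327972041) (nat_lit 76) (nat_lit 5125991754) (nat_lit 362) (nat_lit 5) (nat_lit 369) (nat_lit 5) (nat_lit 363) (nat_lit 5) (nat_lit 353) (nat_lit 341) (nat_lit 326))))) (XT.nd (nat_lit 312) (nat_lit 1672) (nat_lit 0) (XT.nd (nat_lit 156) (nat_lit 1368) (nat_lit 0) (XT.nd (nat_lit 78) (nat_lit 0) (nat_lit 0) (XT.lf (nat_lit 0) (nat_lit 2495233776) (nat_lit 532) (nat_lit 314696819) (nat_lit 608) (nat_lit 3934416256) (nat_lit 355) (nat_lit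 5) (nat_lit 362) (nat_lit 5) (nat_lit 363) (nat_lit 5) (nat_lit 354) (nat_lit 341) (nat_lit 325)) (XT.lf (nat_lit 0) (nat_lit 5381120234) (nat_lit 608) (nat_lit 397856304) (nat_lit 76) (nat_lit 1008641625) (nat_lit 355) (nat_lit 5) (nat_lit 363) (nat_lit 5) (nat_lit 356) (nat_lit 5) (nat_lit 355) (nat_lit 341) (nat_lit 324))) (XT.nd (nat_lit 78) (nat_lit 684) (nat_lit 0) (XT.lf (nat_lit 0) (nat_lit 1125173974) (nat_lit 684) (nat_lit 3270698587) (nat_lit 76) (nat_lit 2437483536) (nat_lit 346) (nat_lit 5) (nat_lit 355) (nat_lit 5) (nat_lit 347) (nat_lit 5) (nat_lit 356) (nat_lit 341) (nat_lit 323)) (XT.lf (nat_lit 0) (nat_lit 706950010) (nat_lit 684) (nat_lit 2923795821) (nat_lit 760) (nat_lit 3251566590) (nat_lit 337) (nat_lit 5) (nat_lit 346) (nat_lit 5) (nat_lit 347) (nat_lit 5) (nat_lit 357) (nat_lit 341) (nat_lit 322)))) (XT.nd (nat_lit 156) (nat_lit 836) (nat_lit 0) (XT.nd (nat_lit 78) (nat_lit 836) (nat_lit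 0) (XT.lf (nat_lit 0) (nat_lit 4808912266) (nat_lit 684) (nat_lit 1352834742) (nat_lit 760) (nat_lit 772531684) (nat_lit 337) (nat_lit 5) (nat_lit 346) (nat_lit 5) (nat_lit 347) (nat_lit 5) (nat_lit 358) (nat_lit 341) (nat_lit 321)) (XT.lf (nat_lit 0) (nat_lit 1687306613) (nat_lit 836) (nat_lit 4986046572) (nat_lit 76) (nat_lit 315747991) (nat_lit 326) (nat_lit 5) (nat_lit 337) (nat_lit 5) (nat_lit 327) (nat_lit 5) (nat_lit 359) (nat_lit 341) (nat_lit 320))) (XT.nd (nat_lit 78) (nat_lit 836) (nat_lit 0) (XT.lf (nat_lit 0) (nat_lit 4161234410) (nat_lit 836) (nat_lit 831195256) (nat_lit 76) (nat_lit 2054279513) (nat_lit 326) (nat_lit 5) (nat_lit 337) (nat_lit 5) (nat_lit 327) (nat_lit 5) (nat_lit 360) (nat_lit 341) (nat_lit 319)) (XT.lf (nat_lit 0) (nat_lit 3453644893) (nat_lit 836) (nat_lit 3211994412) (nat_lit 912) (nat_lit 441761983) (nat_lit 315) (nat_lit 5) (nat_lit 326) (nat_lit 5) (nat_lit 327) (nat_lit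 5) (nat_lit 361) (nat_lit 341) (nat_lit 318))))))) (XT.nd (nat_lit 1092) (nat_lit 4332) (nat_lit 0) (XT.nd (nat_lit 546) (nat_lit 3724) (nat_lit 0) (XT.nd (nat_lit 234) (nat_lit 2356) (nat_lit 0) (XT.nd (nat_lit 78) (nat_lit 988) (nat_lit 0) (XT.lf (nat_lit 0) (nat_lit 643943824) (nat_lit 912) (nat_lit 1329413123) (nat_lit 988) (nat_lit 5197842171) (nat_lit 302) (nat_lit 5) (nat_lit 314) (nat_lit 5) (nat_lit 315) (nat_lit 5) (nat_lit 362) (nat_lit 341) (nat_lit 317)) (XT.nd (nat_lit 78) (nat_lit 988) (nat_lit 0) (XT.lf (nat_lit 0) (nat_lit 4420828217) (nat_lit 988) (nat_lit 2165698877) (nat_lit 76) (nat_lit 651229181) (nat_lit 302) (nat_lit 5) (nat_lit 315) (nat_lit 5) (nat_lit 303) (nat_lit 5) (nat_lit 363) (nat_lit 341) (nat_lit 316)) (XT.lf (nat_lit 0) (nat_lit 2295451863) (nat_lit 988) (nat_lit 4609321282) (nat_lit 1064) (nat_lit 402684291) (nat_lit 289) (nat_lit 5) (nat_lit 302) (nat_lit 5) (nat_lit 303)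 (nat_lit 5) (nat_lit 364) (nat_lit 341) (nat_lit 315)))) (XT.nd (nat_lit 156) (nat_lit 1216) (nat_lit 0) (XT.nd (nat_lit 78) (nat_lit 1064) (nat_lit 0) (XT.lf (nat_lit 0) (nat_lit 1993995350) (nat_lit 1064) (nat_lit 527734484) (nat_lit 76) (nat_lit 4858435133) (nat_lit 288) (nat_lit 5) (nat_lit 302) (nat_lit 5) (nat_lit 289) (nat_lit 5) (nat_lit 365) (nat_lit 341) (nat_lit 314)) (XT.lf (nat_lit 0) (nat_lit 4105319691) (nat_lit 1064) (nat_lit 319293726) (nat_lit 1140) (nat_lit 3031252235) (nat_lit 274) (nat_lit 5) (nat_lit 288) (nat_lit 5) (nat_lit 289) (nat_lit 5) (nat_lit 366) (nat_lit 341) (nat_lit 313))) (XT.nd (nat_lit 78) (nat_lit 76) (nat_lit 0) (XT.lf (nat_lit 0) (nat_lit 1297641488) (nat_lit 1140) (nat_lit 5599264211) (nat_lit 1216) (nat_lit 637903442) (nat_lit 259) (nat_lit 5) (nat_lit 274) (nat_lit 5) (nat_lit 275) (nat_lit 5) (nat_lit 367) (nat_lit 341) (nat_lit 312)) (XT.lf (nat_lit 0) (nat_lit 1761764518)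 (nat_lit 1216) (nat_lit 1546353231) (nat_lit 76) (nat_lit 4308403475) (nat_lit 258) (nat_lit 5) (nat_lit 274) (nat_lit 5) (nat_lit 259) (nat_lit 5) (nat_lit 368) (nat_lit 341) (nat_lit 311))))) (XT.nd (nat_lit 234) (nat_lit 1824) (nat_lit 0) (XT.nd (nat_lit 78) (nat_lit 684) (nat_lit 0) (XT.lf (nat_lit 0) (nat_lit 3280610679) (nat_lit 1216) (nat_lit 906326421) (nat_lit 1292) (nat_lit 3514599548) (nat_lit 242) (nat_lit 5) (nat_lit 258) (nat_lit 5) (nat_lit 259) (nat_lit 5) (nat_lit 369) (nat_lit 341) (nat_lit 310)) (XT.nd (nat_lit 78) (nat_lit 76) (nat_lit 0) (XT.lf (nat_lit 0) (nat_lit 424882711) (nat_lit 608) (nat_lit 6231032314) (nat_lit 684) (nat_lit 1134086615) (nat_lit 234) (nat_lit 5) (nat_lit 242) (nat_lit 5) (nat_lit 243) (nat_lit 5) (nat_lit 370) (nat_lit 341) (nat_lit 309)) (XT.lf (nat_lit 0) (nat_lit 1282917870) (nat_lit 684) (nat_lit 2459472429) (nat_lit 76) (nat_lit 4138655339) (nat_lit 233) (nat_lit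 5) (nat_lit 242) (nat_lit 5) (nat_lit 234) (nat_lit 5) (nat_lit 371) (nat_lit 341) (nat_lit 308)))) (XT.nd (nat_lit 156) (nat_lit 1216) (nat_lit 0) (XT.nd (nat_lit 78) (nat_lit 0) (nat_lit 0) (XT.lf (nat_lit 0) (nat_lit 2569836416) (nat_lit 608) (nat_lit 1143081386) (nat_lit 684) (nat_lit 4262695930) (nat_lit 225) (nat_lit 5) (nat_lit 233) (nat_lit 5) (nat_lit 234) (nat_lit 5) (nat_lit 372) (nat_lit 341) (nat_lit 307)) (XT.lf (nat_lit 0) (nat_lit 6195403321) (nat_lit 684) (nat_lit 350458173) (nat_lit 76) (nat_lit 1527797003) (nat_lit 225) (nat_lit 5) (nat_lit 234) (nat_lit 5) (nat_lit 226) (nat_lit 5) (nat_lit 373) (nat_lit 341) (nat_lit 306))) (XT.nd (nat_lit 78) (nat_lit 532) (nat_lit 0) (XT.lf (nat_lit 0) (nat_lit 566141543) (nat_lit 684) (nat_lit 3301605937) (nat_lit 76) (nat_lit 4306765277) (nat_lit 216) (nat_lit 5) (nat_lit 225) (nat_lit 5) (nat_lit 217) (nat_lit 5) (nat_lit 374) (nat_lit 341) (nat_lit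 305)) (XT.lf (nat_lit 0) (nat_lit 1938718538) (nat_lit 532) (nat_lit 1071643814) (nat_lit 608) (nat_lit 5268569986) (nat_lit 209) (nat_lit 5) (nat_lit 216) (nat_lit 5) (nat_lit 217) (nat_lit 5) (nat_lit 375) (nat_lit 341) (nat_lit 304)))))) (XT.nd (nat_lit 546) (nat_lit 2204) (nat_lit 0) (XT.nd (nat_lit 234) (nat_lit 1064) (nat_lit 0) (XT.nd (nat_lit 78) (nat_lit 1064) (nat_lit 0) (XT.lf (nat_lit 0) (nat_lit 5522043730) (nat_lit 608) (nat_lit 1062688670) (nat_lit 76) (nat_lit 1801952252) (nat_lit 209) (nat_lit 5) (nat_lit 217) (nat_lit 5) (nat_lit 210) (nat_lit 5) (nat_lit 376) (nat_lit 341) (nat_lit 303)) (XT.nd (nat_lit 78) (nat_lit 532) (nat_lit 0) (XT.lf (nat_lit 0) (nat_lit 4386573222) (nat_lit 532) (nat_lit 3720018115) (nat_lit 608) (nat_lit 391176185) (nat_lit 202) (nat_lit 5) (nat_lit 209) (nat_lit 5) (nat_lit 210) (nat_lit 5) (nat_lit 377) (nat_lit 341) (nat_lit 302)) (XT.lf (nat_lit 0) (nat_lit 1352711106)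 (nat_lit 456) (nat_lit 730743986) (nat_lit 532) (nat_lit 6529056708) (nat_lit 195) (nat_lit 5) (nat_lit 201) (nat_lit 5) (nat_lit 202) (nat_lit 5) (nat_lit 378) (nat_lit 341) (nat_lit 301)))) (XT.nd (nat_lit 156) (nat_lit 532) (nat_lit 0) (XT.nd (nat_lit 78) (nat_lit 532) (nat_lit 0) (XT.lf (nat_lit 0) (nat_lit 4635095839) (nat_lit 532) (nat_lit 1754538471) (nat_lit 76) (nat_lit 2340650392) (nat_lit 195) (nat_lit 5) (nat_lit 202) (nat_lit 5) (nat_lit 196) (nat_lit 5) (nat_lit 379) (nat_lit 341) (nat_lit 300)) (XT.lf (nat_lit 0) (nat_lit 3924016124) (nat_lit 532) (nat_lit 3331928045) (nat_lit 608) (nat_lit 1595887714) (nat_lit 188) (nat_lit 5) (nat_lit 195) (nat_lit 5) (nat_lit 196) (nat_lit 5) (nat_lit 380) (nat_lit 341) (nat_lit 299))) (XT.nd (nat_lit 78) (nat_lit 0) (nat_lit 0) (XT.lf (nat_lit 0) (nat_lit 776313746) (nat_lit 456) (nat_lit 156457556) (nat_lit 532) (nat_lit 8044787555) (nat_lit 181) (nat_lit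 5) (nat_lit 187) (nat_lit 5) (nat_lit 188) (nat_lit 5) (nat_lit 381) (nat_lit 341) (nat_lit 298)) (XT.lf (nat_lit 0) (nat_lit 3534347560) (nat_lit 532) (nat_lit 2461712921) (nat_lit 76) (nat_lit 3109668212) (nat_lit 181) (nat_lit 5) (nat_lit 188) (nat_lit 5) (nat_lit 182) (nat_lit 5) (nat_lit 382) (nat_lit 341) (nat_lit 297))))) (XT.nd (nat_lit 312) (nat_lit 836) (nat_lit 0) (XT.nd (nat_lit 156) (nat_lit 532) (nat_lit 0) (XT.nd (nat_lit 78) (nat_lit 380) (nat_lit 0) (XT.lf (nat_lit 0) (nat_lit 3455199186) (nat_lit 456) (nat_lit 2743964524) (nat_lit 532) (nat_lit 3039042654) (nat_lit 175) (nat_lit 5) (nat_lit 181) (nat_lit 5) (nat_lit 182) (nat_lit 5) (nat_lit 383) (nat_lit 341) (nat_lit 296)) (XT.lf (nat_lit 0) (nat_lit 161802541) (nat_lit 380) (nat_lit 8765790883) (nat_lit 456) (nat_lit 447572851) (nat_lit 170) (nat_lit 5) (nat_lit 175) (nat_lit 5) (nat_lit 176) (nat_lit 5) (nat_lit 384) (nat_lit 341) (nat_lit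 295))) (XT.nd (nat_lit 78) (nat_lit 456) (nat_lit 0) (XT.lf (nat_lit 0) (nat_lit 2215963507) (nat_lit 456) (nat_lit 3221916660) (nat_lit 76) (nat_lit 4076600850) (nat_lit 169) (nat_lit 5) (nat_lit 175) (nat_lit 5) (nat_lit 170) (nat_lit 5) (nat_lit 385) (nat_lit 341) (nat_lit 294)) (XT.lf (nat_lit 0) (nat_lit 2942222576) (nat_lit 456) (nat_lit 1989413248) (nat_lit 532) (nat_lit 4726786120) (nat_lit 163) (nat_lit 5) (nat_lit 169) (nat_lit 5) (nat_lit 170) (nat_lit 5) (nat_lit 386) (nat_lit 341) (nat_lit 293)))) (XT.nd (nat_lit 156) (nat_lit 380) (nat_lit 0) (XT.nd (nat_lit 78) (nat_lit 456) (nat_lit 0) (XT.lf (nat_lit 0) (nat_lit 7730270866) (nat_lit 532) (nat_lit 524436413) (nat_lit 76) (nat_lit 1551945020) (nat_lit 163) (nat_lit 5) (nat_lit 170) (nat_lit 5) (nat_lit 164) (nat_lit 5) (nat_lit 387) (nat_lit 341) (nat_lit 292)) (XT.lf (nat_lit 0) (nat_lit 672352836) (nat_lit 456) (nat_lit 4075646746) (nat_lit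 76) (nat_lit 5210209466) (nat_lit 157) (nat_lit 5) (nat_lit 163) (nat_lit 5) (nat_lit 158) (nat_lit 5) (nat_lit 388) (nat_lit 341) (nat_lit 291))) (XT.nd (nat_lit 78) (nat_lit 0) (nat_lit 0) (XT.lf (nat_lit 0) (nat_lit 2344221348) (nat_lit 380) (nat_lit 1100740790) (nat_lit 456) (nat_lit 6669253848) (nat_lit 152) (nat_lit 5) (nat_lit 157) (nat_lit 5) (nat_lit 158) (nat_lit 5) (nat_lit 389) (nat_lit 341) (nat_lit 290)) (XT.lf (nat_lit 0) (nat_lit 6323705062) (nat_lit 456) (nat_lit 1319265760) (nat_lit 76) (nat_lit 2631257843) (nat_lit 152) (nat_lit 5) (nat_lit 158) (nat_lit 5) (nat_lit 153) (nat_lit 5) (nat_lit 390) (nat_lit 341) (nat_lit 289))))))))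
noncomputable def xc104 : XT := (XT.nd (nat_lit 2184) (nat_lit 2660) (nat_lit 0) (XT.nd (nat_lit 1092) (nat_lit 2356) (nat_lit 0) (XT.nd (nat_lit 546) (nat_lit 1292) (nat_lit 0) (XT.nd (nat_lit 234) (nat_lit 1064) (nat_lit 0) (XT.nd (nat_lit 78) (nat_lit 456) (nat_lit 0) (XT.lf (nat_lit 0) (nat_lit 5360542883) (nat_lit 380) (nat_lit 3947841561) (nat_lit 456) (nat_lit 1130083837) (nat_lit 147) (nat_lit 5) (nat_lit 152) (nat_lit 5) (nat_lit 153) (nat_lit 5) (nat_lit 391) (nat_lit 341) (nat_lit 288)) (XT.nd (nat_lit 78) (nat_lit 0) (nat_lit 0) (XT.lf (nat_lit 0) (nat_lit 1616465388) (nat_lit 380) (nat_lit 110271128) (nat_lit 456) (nat_lit 8880807593) (nat_lit 141) (nat_lit 5) (nat_lit 146) (nat_lit 5) (nat_lit 147) (nat_lit 5) (nat_lit 392) (nat_lit 341) (nat_lit 287)) (XT.lf (nat_lit 0) (nat_lit 4693210339) (nat_lit 456) (nat_lit 2271987018) (nat_lit 76) (nat_lit 3814771924) (nat_lit 141) (nat_lit 5) (nat_lit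 147) (nat_lit 5) (nat_lit 142) (nat_lit 5) (nat_lit 393) (nat_lit 341) (nat_lit 286)))) (XT.nd (nat_lit 156) (nat_lit 380) (nat_lit 0) (XT.nd (nat_lit 78) (nat_lit 380) (nat_lit 0) (XT.lf (nat_lit 0) (nat_lit 4681678843) (nat_lit 304) (nat_lit 3072261368) (nat_lit 380) (nat_lit 3203481386) (nat_lit 137) (nat_lit 5) (nat_lit 141) (nat_lit 5) (nat_lit 142) (nat_lit 5) (nat_lit 394) (nat_lit 341) (nat_lit 285)) (XT.lf (nat_lit 0) (nat_lit 697633061) (nat_lit 380) (nat_lit 10207398637) (nat_lit 456) (nat_lit 235221480) (nat_lit 132) (nat_lit 5) (nat_lit 137) (nat_lit 5) (nat_lit 138) (nat_lit 5) (nat_lit 395) (nat_lit 341) (nat_lit 284))) (XT.nd (nat_lit 78) (nat_lit 304) (nat_lit 0) (XT.lf (nat_lit 0) (nat_lit 2821308924) (nat_lit 456) (nat_lit 3433989461) (nat_lit 76) (nat_lit 5070839945) (nat_lit 131) (nat_lit 5) (nat_lit 137) (nat_lit 5) (nat_lit 132) (nat_lit 5) (nat_lit 396) (nat_lit 341) (nat_lit 283)) (XT.lf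 (nat_lit 0) (nat_lit 3800416281) (nat_lit 304) (nat_lit 2161965099) (nat_lit 380) (nat_lit 5555232452) (nat_lit 127) (nat_lit 5) (nat_lit 131) (nat_lit 5) (nat_lit 132) (nat_lit 5) (nat_lit 397) (nat_lit 341) (nat_lit 282))))) (XT.nd (nat_lit 234) (nat_lit 608) (nat_lit 0) (XT.nd (nat_lit 78) (nat_lit 684) (nat_lit 0) (XT.lf (nat_lit 0) (nat_lit 9213925142) (nat_lit 380) (nat_lit 468391608) (nat_lit 76) (nat_lit 2032040236) (nat_lit 127) (nat_lit 5) (nat_lit 132) (nat_lit 5) (nat_lit 128) (nat_lit 5) (nat_lit 398) (nat_lit 341) (nat_lit 281)) (XT.nd (nat_lit 78) (nat_lit 304) (nat_lit 0) (XT.lf (nat_lit 0) (nat_lit 685767745) (nat_lit 380) (nat_lit 4863061993) (nat_lit 76) (nat_lit 6366425525) (nat_lit 122) (nat_lit 5) (nat_lit 127) (nat_lit 5) (nat_lit 123) (nat_lit 5) (nat_lit 399) (nat_lit 341) (nat_lit 280)) (XT.lf (nat_lit 0) (nat_lit 2657702817) (nat_lit 304) (nat_lit 1252704336) (nat_lit 380) (nat_lit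 8211246999) (nat_lit 118) (nat_lit 5) (nat_lit 122) (nat_lit 5) (nat_lit 123) (nat_lit 5) (nat_lit 400) (nat_lit 341) (nat_lit 279)))) (XT.nd (nat_lit 156) (nat_lit 304) (nat_lit 0) (XT.nd (nat_lit 78) (nat_lit 304) (nat_lit 0) (XT.lf (nat_lit 0) (nat_lit 7275042663) (nat_lit 380) (nat_lit 1915679848) (nat_lit 76) (nat_lit 3142234171) (nat_lit 118) (nat_lit 5) (nat_lit 123) (nat_lit 5) (nat_lit 119) (nat_lit 5) (nat_lit 401) (nat_lit 341) (nat_lit 278)) (XT.lf (nat_lit 0) (nat_lit 5907836153) (nat_lit 304) (nat_lit 4866215759) (nat_lit 380) (nat_lit 1775552447) (nat_lit 114) (nat_lit 5) (nat_lit 118) (nat_lit 5) (nat_lit 119) (nat_lit 5) (nat_lit 402) (nat_lit 341) (nat_lit 277))) (XT.nd (nat_lit 78) (nat_lit 0) (nat_lit 0) (XT.lf (nat_lit 0) (nat_lit 1186414397) (nat_lit 228) (nat_lit 382892597) (nat_lit 304) (nat_lit 11203129577) (nat_lit 110) (nat_lit 5) (nat_lit 113) (nat_lit 5) (nat_lit 114) (nat_lit 5)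 (nat_lit 403) (nat_lit 341) (nat_lit 276)) (XT.lf (nat_lit 0) (nat_lit 5052018673) (nat_lit 304) (nat_lit 3727921283) (nat_lit 76) (nat_lit 4219298940) (nat_lit 110) (nat_lit 5) (nat_lit 114) (nat_lit 5) (nat_lit 111) (nat_lit 5) (nat_lit 404) (nat_lit 341) (nat_lit 275)))))) (XT.nd (nat_lit 546) (nat_lit 1216) (nat_lit 0) (XT.nd (nat_lit 234) (nat_lit 532) (nat_lit 0) (XT.nd (nat_lit 78) (nat_lit 304) (nat_lit 0) (XT.lf (nat_lit 0) (nat_lit 4394862776) (nat_lit 304) (nat_lit 4256164377) (nat_lit 380) (nat_lit 4581471769) (nat_lit 106) (nat_lit 5) (nat_lit 110) (nat_lit 5) (nat_lit 111) (nat_lit 5) (nat_lit 405) (nat_lit 341) (nat_lit 274)) (XT.nd (nat_lit 78) (nat_lit 304) (nat_lit 0) (XT.lf (nat_lit 0) (nat_lit 12365990120) (nat_lit 380) (nat_lit 691475835) (nat_lit 76) (nat_lit 415059126) (nat_lit 106) (nat_lit 5) (nat_lit 111) (nat_lit 5) (nat_lit 107) (nat_lit 5) (nat_lit 406) (nat_lit 341) (nat_lit 273))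 (XT.lf (nat_lit 0) (nat_lit 2508999525) (nat_lit 304) (nat_lit 5985352184) (nat_lit 76) (nat_lit 5222156668) (nat_lit 102) (nat_lit 5) (nat_lit 106) (nat_lit 5) (nat_lit 103) (nat_lit 5) (nat_lit 407) (nat_lit 341) (nat_lit 272)))) (XT.nd (nat_lit 156) (nat_lit 304) (nat_lit 0) (XT.nd (nat_lit 78) (nat_lit 0) (nat_lit 0) (XT.lf (nat_lit 0) (nat_lit 2437636332) (nat_lit 228) (nat_lit 3770821983) (nat_lit 304) (nat_lit 7759100420) (nat_lit 99) (nat_lit 5) (nat_lit 102) (nat_lit 5) (nat_lit 103) (nat_lit 5) (nat_lit 408) (nat_lit 341) (nat_lit 271)) (XT.lf (nat_lit 0) (nat_lit 10057951324) (nat_lit 304) (nat_lit 3051667239) (nat_lit 76) (nat_lit 1115357507) (nat_lit 99) (nat_lit 5) (nat_lit 103) (nat_lit 5) (nat_lit 100) (nat_lit 5) (nat_lit 409) (nat_lit 341) (nat_lit 270))) (XT.nd (nat_lit 78) (nat_lit 76) (nat_lit 0) (XT.lf (nat_lit 0) (nat_lit 5704201873) (nat_lit 228) (nat_lit 8379332790) (nat_lit 304) (nat_lit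 404769877) (nat_lit 96) (nat_lit 5) (nat_lit 99) (nat_lit 5) (nat_lit 100) (nat_lit 5) (nat_lit 410) (nat_lit 341) (nat_lit 269)) (XT.lf (nat_lit 0) (nat_lit 3402314900) (nat_lit 304) (nat_lit 57812719) (nat_lit 76) (nat_lit 11298420421) (nat_lit 95) (nat_lit 5) (nat_lit 99) (nat_lit 5) (nat_lit 96) (nat_lit 5) (nat_lit 411) (nat_lit 341) (nat_lit 268))))) (XT.nd (nat_lit 234) (nat_lit 684) (nat_lit 0) (XT.nd (nat_lit 78) (nat_lit 304) (nat_lit 0) (XT.lf (nat_lit 0) (nat_lit 7388145631) (nat_lit 304) (nat_lit 5997690589) (nat_lit 76) (nat_lit 1648768532) (nat_lit 92) (nat_lit 5) (nat_lit 96) (nat_lit 5) (nat_lit 93) (nat_lit 5) (nat_lit 412) (nat_lit 341) (nat_lit 267)) (XT.nd (nat_lit 78) (nat_lit 76) (nat_lit 0) (XT.lf (nat_lit 0) (nat_lit 3062633652) (nat_lit 228) (nat_lit 8464920632) (nat_lit 304) (nat_lit 3790374816) (nat_lit 89) (nat_lit 5) (nat_lit 92) (nat_lit 5) (nat_lit 93) (nat_lit 5) (nat_lit 413)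 (nat_lit 341) (nat_lit 266)) (XT.lf (nat_lit 0) (nat_lit 208840185) (nat_lit 304) (nat_lit 3142292243) (nat_lit 76) (nat_lit 12257644483) (nat_lit 88) (nat_lit 5) (nat_lit 92) (nat_lit 5) (nat_lit 89) (nat_lit 5) (nat_lit 414) (nat_lit 341) (nat_lit 265)))) (XT.nd (nat_lit 156) (nat_lit 456) (nat_lit 0) (XT.nd (nat_lit 78) (nat_lit 0) (nat_lit 0) (XT.lf (nat_lit 0) (nat_lit 4302131753) (nat_lit 304) (nat_lit 9644646838) (nat_lit 76) (nat_lit 1958942737) (nat_lit 85) (nat_lit 5) (nat_lit 89) (nat_lit 5) (nat_lit 86) (nat_lit 5) (nat_lit 415) (nat_lit 341) (nat_lit 264)) (XT.lf (nat_lit 0) (nat_lit 8554361011) (nat_lit 304) (nat_lit 281655914) (nat_lit 76) (nat_lit 7374478336) (nat_lit 85) (nat_lit 5) (nat_lit 89) (nat_lit 5) (nat_lit 86) (nat_lit 5) (nat_lit 416) (nat_lit 341) (nat_lit 263))) (XT.nd (nat_lit 78) (nat_lit 304) (nat_lit 0) (XT.lf (nat_lit 0) (nat_lit 9500530614) (nat_lit 152) (nat_lit 3496712858)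 (nat_lit 228) (nat_lit 3525281547) (nat_lit 83) (nat_lit 5) (nat_lit 85) (nat_lit 5) (nat_lit 86) (nat_lit 5) (nat_lit 417) (nat_lit 341) (nat_lit 262)) (XT.lf (nat_lit 0) (nat_lit 735728798) (nat_lit 304) (nat_lit 14125792949) (nat_lit 76) (nat_lit 1981574433) (nat_lit 79) (nat_lit 5) (nat_lit 83) (nat_lit 5) (nat_lit 80) (nat_lit 5) (nat_lit 418) (nat_lit 341) (nat_lit 261))))))) (XT.nd (nat_lit 1092) (nat_lit 1140) (nat_lit 0) (XT.nd (nat_lit 546) (nat_lit 760) (nat_lit 0) (XT.nd (nat_lit 234) (nat_lit 608) (nat_lit 0) (XT.nd (nat_lit 78) (nat_lit 152) (nat_lit 0) (XT.lf (nat_lit 0) (nat_lit 5131989505) (nat_lit 304) (nat_lit 4396040528) (nat_lit 76) (nat_lit 7641863842) (nat_lit 79) (nat_lit 5) (nat_lit 83) (nat_lit 5) (nat_lit 80) (nat_lit 5) (nat_lit 419) (nat_lit 341) (nat_lit 260)) (XT.nd (nat_lit 78) (nat_lit 0) (nat_lit 0) (XT.lf (nat_lit 0) (nat_lit 5690649198) (nat_lit 152) (nat_lit 3997048470) (nat_lit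 228) (nat_lit 7817975661) (nat_lit 77) (nat_lit 5) (nat_lit 79) (nat_lit 5) (nat_lit 80) (nat_lit 5) (nat_lit 420) (nat_lit 341) (nat_lit 259)) (XT.lf (nat_lit 0) (nat_lit 14414278113) (nat_lit 228) (nat_lit 1743097114) (nat_lit 76) (nat_lit 1693129389) (nat_lit 77) (nat_lit 5) (nat_lit 80) (nat_lit 5) (nat_lit 78) (nat_lit 5) (nat_lit 421) (nat_lit 341) (nat_lit 258)))) (XT.nd (nat_lit 156) (nat_lit 152) (nat_lit 0) (XT.nd (nat_lit 78) (nat_lit 152) (nat_lit 0) (XT.lf (nat_lit 0) (nat_lit 1154097668) (nat_lit 304) (nat_lit 9497410000) (nat_lit 76) (nat_lit 7550922677) (nat_lit 73) (nat_lit 5) (nat_lit 77) (nat_lit 5) (nat_lit 74) (nat_lit 5) (nat_lit 422) (nat_lit 341) (nat_lit 257)) (XT.lf (nat_lit 0) (nat_lit 875906690) (nat_lit 152) (nat_lit 4937247413) (nat_lit 228) (nat_lit 12750740563) (nat_lit 71) (nat_lit 5) (nat_lit 73) (nat_lit 5) (nat_lit 74) (nat_lit 5) (nat_lit 423) (nat_lit 341) (nat_lit 256)))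 (XT.nd (nat_lit 78) (nat_lit 152) (nat_lit 0) (XT.lf (nat_lit 0) (nat_lit 10691998555) (nat_lit 228) (nat_lit 7233355375) (nat_lit 76) (nat_lit 1008452480) (nat_lit 71) (nat_lit 5) (nat_lit 74) (nat_lit 5) (nat_lit 72) (nat_lit 5) (nat_lit 424) (nat_lit 341) (nat_lit 255)) (XT.lf (nat_lit 0) (nat_lit 3510779806) (nat_lit 152) (nat_lit 12263860472) (nat_lit 228) (nat_lit 3538456135) (nat_lit 69) (nat_lit 5) (nat_lit 71) (nat_lit 5) (nat_lit 72) (nat_lit 5) (nat_lit 425) (nat_lit 341) (nat_lit 254))))) (XT.nd (nat_lit 234) (nat_lit 532) (nat_lit 0) (XT.nd (nat_lit 78) (nat_lit 152) (nat_lit 0) (XT.lf (nat_lit 0) (nat_lit 1329145284) (nat_lit 228) (nat_lit 5033170843) (nat_lit 76) (nat_lit 13339616999) (nat_lit 68) (nat_lit 5) (nat_lit 71) (nat_lit 5) (nat_lit 69) (nat_lit 5) (nat_lit 426) (nat_lit 341) (nat_lit 253)) (XT.nd (nat_lit 78) (nat_lit 0) (nat_lit 0) (XT.lf (nat_lit 0) (nat_lit 6100499034) (nat_lit 152)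 (nat_lit 205397914) (nat_lit 228) (nat_lit 13794463253) (nat_lit 66) (nat_lit 5) (nat_lit 68) (nat_lit 5) (nat_lit 69) (nat_lit 5) (nat_lit 427) (nat_lit 341) (nat_lit 252)) (XT.lf (nat_lit 0) (nat_lit 11517996764) (nat_lit 228) (nat_lit 2940043952) (nat_lit 76) (nat_lit 6050121438) (nat_lit 66) (nat_lit 5) (nat_lit 69) (nat_lit 5) (nat_lit 67) (nat_lit 5) (nat_lit 428) (nat_lit 341) (nat_lit 251)))) (XT.nd (nat_lit 156) (nat_lit 304) (nat_lit 0) (XT.nd (nat_lit 78) (nat_lit 76) (nat_lit 0) (XT.lf (nat_lit 0) (nat_lit 8575420706) (nat_lit 152) (nat_lit 8371943584) (nat_lit 228) (nat_lit 3979010071) (nat_lit 64) (nat_lit 5) (nat_lit 66) (nat_lit 5) (nat_lit 67) (nat_lit 5) (nat_lit 429) (nat_lit 341) (nat_lit 250)) (XT.lf (nat_lit 0) (nat_lit 1165885113) (nat_lit 228) (nat_lit 912800911) (nat_lit 76) (nat_lit 19277914660) (nat_lit 63) (nat_lit 5) (nat_lit 66) (nat_lit 5) (nat_lit 64) (nat_lit 5) (nat_lit 430)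 (nat_lit 341) (nat_lit 249))) (XT.nd (nat_lit 78) (nat_lit 152) (nat_lit 0) (XT.lf (nat_lit 0) (nat_lit 6511704147) (nat_lit 228) (nat_lit 10836151111) (nat_lit 76) (nat_lit 4446903173) (nat_lit 61) (nat_lit 5) (nat_lit 64) (nat_lit 5) (nat_lit 62) (nat_lit 5) (nat_lit 431) (nat_lit 341) (nat_lit 248)) (XT.lf (nat_lit 0) (nat_lit 915861343) (nat_lit 152) (nat_lit 11118025573) (nat_lit 228) (nat_lit 10211697283) (nat_lit 59) (nat_lit 5) (nat_lit 61) (nat_lit 5) (nat_lit 62) (nat_lit 5) (nat_lit 432) (nat_lit 341) (nat_lit 247)))))) (XT.nd (nat_lit 546) (nat_lit 608) (nat_lit 0) (XT.nd (nat_lit 234) (nat_lit 304) (nat_lit 0) (XT.nd (nat_lit 78) (nat_lit 228) (nat_lit 0) (XT.lf (nat_lit 0) (nat_lit 13202537915) (nat_lit 152) (nat_lit 4606193202) (nat_lit 228) (nat_lit 4898596621) (nat_lit 59) (nat_lit 5) (nat_lit 61) (nat_lit 5) (nat_lit 62) (nat_lit 5) (nat_lit 433) (nat_lit 341) (nat_lit 246)) (XT.nd (nat_lit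 78) (nat_lit 0) (nat_lit 0) (XT.lf (nat_lit 0) (nat_lit 586829853) (nat_lit 228) (nat_lit 20520569770) (nat_lit 76) (nat_lit 2074637224) (nat_lit 56) (nat_lit 5) (nat_lit 59) (nat_lit 5) (nat_lit 57) (nat_lit 5) (nat_lit 434) (nat_lit 341) (nat_lit 245)) (XT.lf (nat_lit 0) (nat_lit 6259006322) (nat_lit 228) (nat_lit 8415019607) (nat_lit 76) (nat_lit 8991889580) (nat_lit 56) (nat_lit 5) (nat_lit 59) (nat_lit 5) (nat_lit 57) (nat_lit 5) (nat_lit 435) (nat_lit 341) (nat_lit 244)))) (XT.nd (nat_lit 156) (nat_lit 152) (nat_lit 0) (XT.nd (nat_lit 78) (nat_lit 0) (nat_lit 0) (XT.lf (nat_lit 0) (nat_lit 4095354699) (nat_lit 152) (nat_lit 8024106296) (nat_lit 228) (nat_lit 12044308704) (nat_lit 54) (nat_lit 5) (nat_lit 56) (nat_lit 5) (nat_lit 57) (nat_lit 5) (nat_lit 436) (nat_lit 341) (nat_lit 243)) (XT.lf (nat_lit 0) (nat_lit 17115657481) (nat_lit 152) (nat_lit 1104047789) (nat_lit 228) (nat_lit 6454937449) (nat_lit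 54) (nat_lit 5) (nat_lit 56) (nat_lit 5) (nat_lit 57) (nat_lit 5) (nat_lit 437) (nat_lit 341) (nat_lit 242))) (XT.nd (nat_lit 78) (nat_lit 76) (nat_lit 0) (XT.lf (nat_lit 0) (nat_lit 5334688242) (nat_lit 76) (nat_lit 19256906390) (nat_lit 152) (nat_lit 606590573) (nat_lit 53) (nat_lit 5) (nat_lit 54) (nat_lit 5) (nat_lit 55) (nat_lit 4) (nat_lit 438) (nat_lit 341) (nat_lit 241)) (XT.lf (nat_lit 0) (nat_lit 5379010852) (nat_lit 152) (nat_lit 7066061552) (nat_lit 76) (nat_lit 13288776225) (nat_lit 52) (nat_lit 5) (nat_lit 54) (nat_lit 5) (nat_lit 53) (nat_lit 5) (nat_lit 439) (nat_lit 341) (nat_lit 240))))) (XT.nd (nat_lit 312) (nat_lit 304) (nat_lit 0) (XT.nd (nat_lit 156) (nat_lit 152) (nat_lit 0) (XT.nd (nat_lit 78) (nat_lit 0) (nat_lit 0) (XT.lf (nat_lit 0) (nat_lit 6193962637) (nat_lit 152) (nat_lit 5377658702) (nat_lit 228) (nat_lit 14712593662) (nat_lit 50) (nat_lit 5) (nat_lit 52) (nat_lit 5) (nat_lit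 53) (nat_lit 5) (nat_lit 440) (nat_lit 341) (nat_lit 239)) (XT.lf (nat_lit 0) (nat_lit 18020523642) (nat_lit 228) (nat_lit 6907581378) (nat_lit 76) (nat_lit 1920874078) (nat_lit 50) (nat_lit 5) (nat_lit 53) (nat_lit 5) (nat_lit 51) (nat_lit 4) (nat_lit 441) (nat_lit 341) (nat_lit 238))) (XT.nd (nat_lit 78) (nat_lit 76) (nat_lit 0) (XT.lf (nat_lit 0) (nat_lit 6713102017) (nat_lit 76) (nat_lit 18048315700) (nat_lit 152) (nat_lit 2666314738) (nat_lit 49) (nat_lit 5) (nat_lit 50) (nat_lit 5) (nat_lit 51) (nat_lit 4) (nat_lit 442) (nat_lit 341) (nat_lit 237)) (XT.lf (nat_lit 0) (nat_lit 3660095540) (nat_lit 152) (nat_lit 7209082380) (nat_lit 76) (nat_lit 17152074155) (nat_lit 48) (nat_lit 5) (nat_lit 50) (nat_lit 5) (nat_lit 49) (nat_lit 5) (nat_lit 443) (nat_lit 341) (nat_lit 236)))) (XT.nd (nat_lit 156) (nat_lit 152) (nat_lit 0) (XT.nd (nat_lit 78) (nat_lit 0) (nat_lit 0) (XT.lf (nat_lit 0) (nat_lit 6773169422)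 (nat_lit 152) (nat_lit 3395991131) (nat_lit 228) (nat_lit 18461233076) (nat_lit 46) (nat_lit 5) (nat_lit 48) (nat_lit 5) (nat_lit 49) (nat_lit 5) (nat_lit 444) (nat_lit 341) (nat_lit 235)) (XT.lf (nat_lit 0) (nat_lit 16969777265) (nat_lit 228) (nat_lit 8009329207) (nat_lit 76) (nat_lit 4275816412) (nat_lit 46) (nat_lit 5) (nat_lit 49) (nat_lit 5) (nat_lit 47) (nat_lit 4) (nat_lit 445) (nat_lit 341) (nat_lit 234))) (XT.nd (nat_lit 78) (nat_lit 76) (nat_lit 0) (XT.lf (nat_lit 0) (nat_lit 6310209780) (nat_lit 76) (nat_lit 17740439092) (nat_lit 152) (nat_lit 5845253845) (nat_lit 45) (nat_lit 5) (nat_lit 46) (nat_lit 5) (nat_lit 47) (nat_lit 4) (nat_lit 446) (nat_lit 341) (nat_lit 233)) (XT.lf (nat_lit 0) (nat_lit 836125885) (nat_lit 152) (nat_lit 9371878995) (nat_lit 76) (nat_lit 20345971619) (nat_lit 44) (nat_lit 5) (nat_lit 46) (nat_lit 5) (nat_lit 45) (nat_lit 5) (nat_lit 447) (nat_lit 341) (nat_lit 232))))))))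
noncomputable def xc105 : XT := (XT.nd (nat_lit 2184) (nat_lit 456) (nat_lit 0) (XT.nd (nat_lit 1092) (nat_lit 684) (nat_lit 0) (XT.nd (nat_lit 546) (nat_lit 380) (nat_lit 0) (XT.nd (nat_lit 234) (nat_lit 228) (nat_lit 0) (XT.nd (nat_lit 78) (nat_lit 76) (nat_lit 0) (XT.lf (nat_lit 0) (nat_lit 5281163272) (nat_lit 152) (nat_lit 2352575789) (nat_lit 228) (nat_lit 23595320585) (nat_lit 42) (nat_lit 5) (nat_lit 44) (nat_lit 5) (nat_lit 45) (nat_lit 5) (nat_lit 448) (nat_lit 341) (nat_lit 231)) (XT.nd (nat_lit 78) (nat_lit 76) (nat_lit 0) (XT.lf (nat_lit 0) (nat_lit 14768586909) (nat_lit 228) (nat_lit 11444172001) (nat_lit 76) (nat_lit 5707638782) (nat_lit 42) (nat_lit 5) (nat_lit 45) (nat_lit 5) (nat_lit 43) (nat_lit 4) (nat_lit 449) (nat_lit 341) (nat_lit 230)) (XT.lf (nat_lit 0) (nat_lit 3508348442) (nat_lit 76) (nat_lit 18649226193) (nat_lit 152) (nat_lit 10473699957) (nat_lit 41) (nat_lit 5) (nat_lit 42) (nat_lit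 5) (nat_lit 43) (nat_lit 4) (nat_lit 450) (nat_lit 341) (nat_lit 229)))) (XT.nd (nat_lit 156) (nat_lit 0) (nat_lit 0) (XT.nd (nat_lit 78) (nat_lit 228) (nat_lit 0) (XT.lf (nat_lit 0) (nat_lit 19112864119) (nat_lit 76) (nat_lit 10754202021) (nat_lit 152) (nat_lit 3493448135) (nat_lit 41) (nat_lit 5) (nat_lit 42) (nat_lit 5) (nat_lit 43) (nat_lit 4) (nat_lit 451) (nat_lit 341) (nat_lit 228)) (XT.lf (nat_lit 0) (nat_lit 1027815676) (nat_lit 152) (nat_lit 2589744637) (nat_lit 228) (nat_lit 30493202081) (nat_lit 38) (nat_lit 5) (nat_lit 40) (nat_lit 5) (nat_lit 41) (nat_lit 5) (nat_lit 452) (nat_lit 341) (nat_lit 227))) (XT.nd (nat_lit 78) (nat_lit 0) (nat_lit 0) (XT.lf (nat_lit 0) (nat_lit 11056570739) (nat_lit 228) (nat_lit 17948195732) (nat_lit 76) (nat_lit 5872168603) (nat_lit 38) (nat_lit 5) (nat_lit 41) (nat_lit 5) (nat_lit 39) (nat_lit 4) (nat_lit 453) (nat_lit 341) (nat_lit 226)) (XT.lf (nat_lit 0) (nat_lit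 18728515574) (nat_lit 228) (nat_lit 2414797847) (nat_lit 76) (nat_lit 14522487925) (nat_lit 38) (nat_lit 5) (nat_lit 41) (nat_lit 5) (nat_lit 39) (nat_lit 4) (nat_lit 454) (nat_lit 341) (nat_lit 225))))) (XT.nd (nat_lit 234) (nat_lit 76) (nat_lit 0) (XT.nd (nat_lit 78) (nat_lit 228) (nat_lit 0) (XT.lf (nat_lit 0) (nat_lit 13825499304) (nat_lit 76) (nat_lit 12922604100) (nat_lit 152) (nat_lit 9726706957) (nat_lit 37) (nat_lit 5) (nat_lit 38) (nat_lit 5) (nat_lit 39) (nat_lit 4) (nat_lit 455) (nat_lit 341) (nat_lit 224)) (XT.nd (nat_lit 78) (nat_lit 228) (nat_lit 0) (XT.lf (nat_lit 0) (nat_lit 30573901618) (nat_lit 76) (nat_lit 4443521471) (nat_lit 152) (nat_lit 2290393490) (nat_lit 37) (nat_lit 5) (nat_lit 38) (nat_lit 5) (nat_lit 39) (nat_lit 4) (nat_lit 456) (nat_lit 341) (nat_lit 223)) (XT.lf (nat_lit 0) (nat_lit 5385762833) (nat_lit 228) (nat_lit 28434540167) (nat_lit 76) (nat_lit 4340317196) (nat_lit 34)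 (nat_lit 5) (nat_lit 37) (nat_lit 5) (nat_lit 35) (nat_lit 4) (nat_lit 457) (nat_lit 341) (nat_lit 222)))) (XT.nd (nat_lit 156) (nat_lit 0) (nat_lit 0) (XT.nd (nat_lit 78) (nat_lit 76) (nat_lit 0) (XT.lf (nat_lit 0) (nat_lit 13343935704) (nat_lit 228) (nat_lit 12314514397) (nat_lit 76) (nat_lit 13376945661) (nat_lit 34) (nat_lit 5) (nat_lit 37) (nat_lit 5) (nat_lit 35) (nat_lit 4) (nat_lit 458) (nat_lit 341) (nat_lit 221)) (XT.lf (nat_lit 0) (nat_lit 4346635222) (nat_lit 76) (nat_lit 17221533715) (nat_lit 152) (nat_lit 18367427321) (nat_lit 33) (nat_lit 5) (nat_lit 34) (nat_lit 5) (nat_lit 35) (nat_lit 4) (nat_lit 459) (nat_lit 341) (nat_lit 220))) (XT.nd (nat_lit 78) (nat_lit 0) (nat_lit 0) (XT.lf (nat_lit 0) (nat_lit 21733026973) (nat_lit 76) (nat_lit 8416148874) (nat_lit 152) (nat_lit 10710326606) (nat_lit 33) (nat_lit 5) (nat_lit 34) (nat_lit 5) (nat_lit 35) (nat_lit 4) (nat_lit 460) (nat_lit 341) (nat_lit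 219)) (XT.lf (nat_lit 0) (nat_lit 38979885993) (nat_lit 152) (nat_lit 2202935821) (nat_lit 0) (nat_lit 628536882) (nat_lit 33) (nat_lit 5) (nat_lit 35) (nat_lit 4) (nat_lit 33) (nat_lit 4) (nat_lit 461) (nat_lit 341) (nat_lit 218)))))) (XT.nd (nat_lit 546) (nat_lit 304) (nat_lit 0) (XT.nd (nat_lit 234) (nat_lit 152) (nat_lit 0) (XT.nd (nat_lit 78) (nat_lit 76) (nat_lit 0) (XT.lf (nat_lit 0) (nat_lit 5400754837) (nat_lit 152) (nat_lit 27418064306) (nat_lit 76) (nat_lit 9964825369) (nat_lit 31) (nat_lit 5) (nat_lit 33) (nat_lit 5) (nat_lit 32) (nat_lit 4) (nat_lit 462) (nat_lit 341) (nat_lit 217)) (XT.nd (nat_lit 78) (nat_lit 76) (nat_lit 0) (XT.lf (nat_lit 0) (nat_lit 13831921880) (nat_lit 152) (nat_lit 10332161725) (nat_lit 76) (nat_lit 19619908754) (nat_lit 31) (nat_lit 5) (nat_lit 33) (nat_lit 5) (nat_lit 32) (nat_lit 4) (nat_lit 463) (nat_lit 341) (nat_lit 216)) (XT.lf (nat_lit 0) (nat_lit 7385399414) (nat_lit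 76) (nat_lit 15188430014) (nat_lit 152) (nat_lit 22238787986) (nat_lit 30) (nat_lit 5) (nat_lit 31) (nat_lit 5) (nat_lit 32) (nat_lit 4) (nat_lit 464) (nat_lit 341) (nat_lit 215)))) (XT.nd (nat_lit 156) (nat_lit 152) (nat_lit 0) (XT.nd (nat_lit 78) (nat_lit 0) (nat_lit 0) (XT.lf (nat_lit 0) (nat_lit 25821497747) (nat_lit 76) (nat_lit 5847789363) (nat_lit 152) (nat_lit 14200076231) (nat_lit 30) (nat_lit 5) (nat_lit 31) (nat_lit 5) (nat_lit 32) (nat_lit 4) (nat_lit 465) (nat_lit 341) (nat_lit 214)) (XT.lf (nat_lit 0) (nat_lit 41061106138) (nat_lit 152) (nat_lit 2207739605) (nat_lit 0) (nat_lit 3688261856) (nat_lit 30) (nat_lit 5) (nat_lit 32) (nat_lit 4) (nat_lit 30) (nat_lit 4) (nat_lit 466) (nat_lit 341) (nat_lit 213))) (XT.nd (nat_lit 78) (nat_lit 0) (nat_lit 0) (XT.lf (nat_lit 0) (nat_lit 2810561131) (nat_lit 152) (nat_lit 31692737003) (nat_lit 76) (nat_lit 13567264094) (nat_lit 28) (nat_lit 5) (nat_lit 30)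 (nat_lit 5) (nat_lit 29) (nat_lit 4) (nat_lit 467) (nat_lit 341) (nat_lit 212)) (XT.lf (nat_lit 0) (nat_lit 11669945927) (nat_lit 152) (nat_lit 13732779863) (nat_lit 76) (nat_lit 23812640351) (nat_lit 28) (nat_lit 5) (nat_lit 30) (nat_lit 5) (nat_lit 29) (nat_lit 4) (nat_lit 468) (nat_lit 341) (nat_lit 211))))) (XT.nd (nat_lit 234) (nat_lit 228) (nat_lit 0) (XT.nd (nat_lit 78) (nat_lit 0) (nat_lit 0) (XT.lf (nat_lit 0) (nat_lit 4837415367) (nat_lit 76) (nat_lit 15992172381) (nat_lit 152) (nat_lit 29563892942) (nat_lit 27) (nat_lit 5) (nat_lit 28) (nat_lit 5) (nat_lit 29) (nat_lit 4) (nat_lit 469) (nat_lit 341) (nat_lit 210)) (XT.nd (nat_lit 78) (nat_lit 0) (nat_lit 0) (XT.lf (nat_lit 0) (nat_lit 24223494020) (nat_lit 76) (nat_lit 6167305971) (nat_lit 152) (nat_lit 21212336011) (nat_lit 27) (nat_lit 5) (nat_lit 28) (nat_lit 5) (nat_lit 29) (nat_lit 4) (nat_lit 470) (nat_lit 341) (nat_lit 209)) (XT.lf (nat_lit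 0) (nat_lit 40265192857) (nat_lit 152) (nat_lit 8718232812) (nat_lit 0) (nat_lit 3864865716) (nat_lit 27) (nat_lit 5) (nat_lit 29) (nat_lit 4) (nat_lit 27) (nat_lit 4) (nat_lit 471) (nat_lit 341) (nat_lit 208)))) (XT.nd (nat_lit 156) (nat_lit 76) (nat_lit 0) (XT.nd (nat_lit 78) (nat_lit 76) (nat_lit 0) (XT.lf (nat_lit 0) (nat_lit 10627675491) (nat_lit 76) (nat_lit 39960055692) (nat_lit 76) (nat_lit 3538513553) (nat_lit 26) (nat_lit 4) (nat_lit 27) (nat_lit 5) (nat_lit 27) (nat_lit 4) (nat_lit 472) (nat_lit 341) (nat_lit 207)) (XT.lf (nat_lit 0) (nat_lit 5742282875) (nat_lit 152) (nat_lit 24785304986) (nat_lit 76) (nat_lit 24910955063) (nat_lit 25) (nat_lit 5) (nat_lit 27) (nat_lit 5) (nat_lit 26) (nat_lit 4) (nat_lit 473) (nat_lit 341) (nat_lit 206))) (XT.nd (nat_lit 78) (nat_lit 76) (nat_lit 0) (XT.lf (nat_lit 0) (nat_lit 15219414861) (nat_lit 152) (nat_lit 5566724224) (nat_lit 76) (nat_lit 36003349617) (nat_lit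 25) (nat_lit 5) (nat_lit 27) (nat_lit 5) (nat_lit 26) (nat_lit 4) (nat_lit 474) (nat_lit 341) (nat_lit 205)) (XT.lf (nat_lit 0) (nat_lit 14490746999) (nat_lit 76) (nat_lit 10618759464) (nat_lit 152) (nat_lit 33067597657) (nat_lit 24) (nat_lit 5) (nat_lit 25) (nat_lit 5) (nat_lit 26) (nat_lit 4) (nat_lit 475) (nat_lit 341) (nat_lit 204))))))) (XT.nd (nat_lit 42666) (nat_lit 0) (nat_lit 24928) (XT.nd (nat_lit 546) (nat_lit 228) (nat_lit 0) (XT.nd (nat_lit 234) (nat_lit 152) (nat_lit 0) (XT.nd (nat_lit 78) (nat_lit 76) (nat_lit 0) (XT.lf (nat_lit 0) (nat_lit 35243821450) (nat_lit 76) (nat_lit 98159743) (nat_lit 152) (nat_lit 24262997016) (nat_lit 24) (nat_lit 5) (nat_lit 25) (nat_lit 5) (nat_lit 26) (nat_lit 4) (nat_lit 476) (nat_lit 341) (nat_lit 203)) (XT.nd (nat_lit 78) (nat_lit 76) (nat_lit 0) (XT.lf (nat_lit 0) (nat_lit 45974334570) (nat_lit 152) (nat_lit 4579281991) (nat_lit 0) (nat_lit 10519285428) (nat_lit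 24) (nat_lit 5) (nat_lit 26) (nat_lit 4) (nat_lit 24) (nat_lit 4) (nat_lit 477) (nat_lit 341) (nat_lit 202)) (XT.lf (nat_lit 0) (nat_lit 16089764039) (nat_lit 76) (nat_lit 40981515142) (nat_lit 76) (nat_lit 5509216265) (nat_lit 23) (nat_lit 4) (nat_lit 24) (nat_lit 5) (nat_lit 24) (nat_lit 4) (nat_lit 478) (nat_lit 341) (nat_lit 201)))) (XT.nd (nat_lit 156) (nat_lit 76) (nat_lit 0) (XT.nd (nat_lit 78) (nat_lit 0) (nat_lit 0) (XT.lf (nat_lit 0) (nat_lit 4319276857) (nat_lit 152) (nat_lit 26720914170) (nat_lit 76) (nat_lit 33090765847) (nat_lit 22) (nat_lit 5) (nat_lit 24) (nat_lit 5) (nat_lit 23) (nat_lit 4) (nat_lit 479) (nat_lit 341) (nat_lit 200)) (XT.lf (nat_lit 0) (nat_lit 14322180066) (nat_lit 152) (nat_lit 6431280185) (nat_lit 76) (nat_lit 44973127476) (nat_lit 22) (nat_lit 5) (nat_lit 24) (nat_lit 5) (nat_lit 23) (nat_lit 4) (nat_lit 480) (nat_lit 341) (nat_lit 199))) (XT.nd (nat_lit 78) (nat_lit 0) (nat_lit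 0) (XT.lf (nat_lit 0) (nat_lit 14736417903) (nat_lit 76) (nat_lit 10020975975) (nat_lit 152) (nat_lit 42608727439) (nat_lit 21) (nat_lit 5) (nat_lit 22) (nat_lit 5) (nat_lit 23) (nat_lit 4) (nat_lit 481) (nat_lit 341) (nat_lit 198)) (XT.lf (nat_lit 0) (nat_lit 35571771155) (nat_lit 152) (nat_lit 32410692439) (nat_lit 0) (nat_lit 1070394613) (nat_lit 21) (nat_lit 5) (nat_lit 23) (nat_lit 4) (nat_lit 21) (nat_lit 4) (nat_lit 482) (nat_lit 341) (nat_lit 197))))) (XT.nd (nat_lit 234) (nat_lit 152) (nat_lit 0) (XT.nd (nat_lit 78) (nat_lit 76) (nat_lit 0) (XT.lf (nat_lit 0) (nat_lit 46800657776) (nat_lit 152) (nat_lit 11702002722) (nat_lit 0) (nat_lit 12284834853) (nat_lit 21) (nat_lit 5) (nat_lit 23) (nat_lit 4) (nat_lit 21) (nat_lit 4) (nat_lit 483) (nat_lit 341) (nat_lit 196)) (XT.nd (nat_lit 78) (nat_lit 0) (nat_lit 0) (XT.lf (nat_lit 0) (nat_lit 9802061993) (nat_lit 76) (nat_lit 48649699062) (nat_lit 76) (nat_lit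 14119850527) (nat_lit 20) (nat_lit 4) (nat_lit 21) (nat_lit 5) (nat_lit 21) (nat_lit 4) (nat_lit 484) (nat_lit 341) (nat_lit 195)) (XT.lf (nat_lit 0) (nat_lit 32174137236) (nat_lit 76) (nat_lit 38387649244) (nat_lit 76) (nat_lit 3844183609) (nat_lit 20) (nat_lit 4) (nat_lit 21) (nat_lit 5) (nat_lit 21) (nat_lit 4) (nat_lit 485) (nat_lit 341) (nat_lit 194)))) (XT.nd (nat_lit 156) (nat_lit 0) (nat_lit 0) (XT.nd (nat_lit 78) (nat_lit 76) (nat_lit 0) (XT.lf (nat_lit 0) (nat_lit 6599629073) (nat_lit 152) (nat_lit 21159439101) (nat_lit 76) (nat_lit 48534606233) (nat_lit 19) (nat_lit 5) (nat_lit 21) (nat_lit 5) (nat_lit 20) (nat_lit 4) (nat_lit 486) (nat_lit 341) (nat_lit 193)) (XT.lf (nat_lit 0) (nat_lit 500652390) (nat_lit 76) (nat_lit 16775295359) (nat_lit 152) (nat_lit 60961027012) (nat_lit 18) (nat_lit 5) (nat_lit 19) (nat_lit 5) (nat_lit 20) (nat_lit 4) (nat_lit 487) (nat_lit 341) (nat_lit 192))) (XT.nd (nat_lit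 78) (nat_lit 0) (nat_lit 0) (XT.lf (nat_lit 0) (nat_lit 23228270652) (nat_lit 76) (nat_lit 5249686870) (nat_lit 152) (nat_lit 51754454969) (nat_lit 18) (nat_lit 5) (nat_lit 19) (nat_lit 5) (nat_lit 20) (nat_lit 4) (nat_lit 488) (nat_lit 341) (nat_lit 191)) (XT.lf (nat_lit 0) (nat_lit 40071580418) (nat_lit 152) (nat_lit 35729373448) (nat_lit 0) (nat_lit 6485093297) (nat_lit 18) (nat_lit 5) (nat_lit 20) (nat_lit 4) (nat_lit 18) (nat_lit 4) (nat_lit 489) (nat_lit 341) (nat_lit 190)))))) (XT.nd (nat_lit 546) (nat_lit 2128) (nat_lit 0) (XT.nd (nat_lit 234) (nat_lit 684) (nat_lit 0) (XT.nd (nat_lit 78) (nat_lit 228) (nat_lit 0) (XT.lf (nat_lit 0) (nat_lit 2777370903) (nat_lit 228) (nat_lit 226158681) (nat_lit 228) (nat_lit 226158681) (nat_lit 386) (nat_lit 3) (nat_lit 389) (nat_lit 3) (nat_lit 389) (nat_lit 5) (nat_lit 342) (nat_lit 342) (nat_lit 336)) (XT.nd (nat_lit 78) (nat_lit 0) (nat_lit 0) (XT.lf (nat_lit 0)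 (nat_lit 1943073473) (nat_lit 228) (nat_lit 3745445897) (nat_lit 304) (nat_lit 780569062) (nat_lit 383) (nat_lit 5) (nat_lit 386) (nat_lit 3) (nat_lit 387) (nat_lit 5) (nat_lit 343) (nat_lit 342) (nat_lit 335)) (XT.lf (nat_lit 0) (nat_lit 4752159297) (nat_lit 228) (nat_lit 543259958) (nat_lit 304) (nat_lit 1186663499) (nat_lit 383) (nat_lit 5) (nat_lit 386) (nat_lit 3) (nat_lit 387) (nat_lit 5) (nat_lit 344) (nat_lit 342) (nat_lit 334)))) (XT.nd (nat_lit 156) (nat_lit 380) (nat_lit 0) (XT.nd (nat_lit 78) (nat_lit 0) (nat_lit 0) (XT.lf (nat_lit 0) (nat_lit 1045907004) (nat_lit 304) (nat_lit 3757279140) (nat_lit 380) (nat_lit 1694479002) (nat_lit 379) (nat_lit 5) (nat_lit 383) (nat_lit 5) (nat_lit 384) (nat_lit 5) (nat_lit 345) (nat_lit 342) (nat_lit 333)) (XT.lf (nat_lit 0) (nat_lit 3769977668) (nat_lit 304) (nat_lit 456396221) (nat_lit 380) (nat_lit 2289911759) (nat_lit 379) (nat_lit 5) (nat_lit 383) (nat_lit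 5) (nat_lit 384) (nat_lit 5) (nat_lit 346) (nat_lit 342) (nat_lit 332))) (XT.nd (nat_lit 78) (nat_lit 380) (nat_lit 0) (XT.lf (nat_lit 76) (nat_lit 2943335479) (nat_lit 0) (nat_lit 3558004677) (nat_lit 380) (nat_lit 36431817) (nat_lit 380) (nat_lit 5) (nat_lit 379) (nat_lit 5) (nat_lit 384) (nat_lit 5) (nat_lit 347) (nat_lit 342) (nat_lit 331)) (XT.lf (nat_lit 0) (nat_lit 2604296586) (nat_lit 380) (nat_lit 191010622) (nat_lit 456) (nat_lit 3766771979) (nat_lit 374) (nat_lit 5) (nat_lit 379) (nat_lit 5) (nat_lit 380) (nat_lit 5) (nat_lit 348) (nat_lit 342) (nat_lit 330))))) (XT.nd (nat_lit 312) (nat_lit 1292) (nat_lit 0) (XT.nd (nat_lit 156) (nat_lit 380) (nat_lit 0) (XT.nd (nat_lit 78) (nat_lit 456) (nat_lit 0) (XT.lf (nat_lit 76) (nat_lit 3321560377) (nat_lit 0) (nat_lit 1935491373) (nat_lit 456) (nat_lit 1332114928) (nat_lit 375) (nat_lit 5) (nat_lit 374) (nat_lit 5) (nat_lit 380) (nat_lit 5) (nat_lit 349)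 (nat_lit 342) (nat_lit 329)) (XT.lf (nat_lit 76) (nat_lit 259420621) (nat_lit 0) (nat_lit 993476481) (nat_lit 532) (nat_lit 5366617435) (nat_lit 369) (nat_lit 5) (nat_lit 368) (nat_lit 5) (nat_lit 375) (nat_lit 5) (nat_lit 350) (nat_lit 342) (nat_lit 328))) (XT.nd (nat_lit 78) (nat_lit 456) (nat_lit 0) (XT.lf (nat_lit 0) (nat_lit 3827316097) (nat_lit 456) (nat_lit 2765362086) (nat_lit 76) (nat_lit 59602273) (nat_lit 369) (nat_lit 5) (nat_lit 375) (nat_lit 5) (nat_lit 370) (nat_lit 5) (nat_lit 351) (nat_lit 342) (nat_lit 327)) (XT.lf (nat_lit 0) (nat_lit 884907800) (nat_lit 456) (nat_lit 5520684771) (nat_lit 532) (nat_lit 282698446) (nat_lit 363) (nat_lit 5) (nat_lit 369) (nat_lit 5) (nat_lit 370) (nat_lit 5) (nat_lit 352) (nat_lit 342) (nat_lit 326)))) (XT.nd (nat_lit 156) (nat_lit 684) (nat_lit 0) (XT.nd (nat_lit 78) (nat_lit 532) (nat_lit 0) (XT.lf (nat_lit 0) (nat_lit 2227896358) (nat_lit 532) (nat_lit 2106909977)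 (nat_lit 76) (nat_lit 2391829656) (nat_lit 362) (nat_lit 5) (nat_lit 369) (nat_lit 5) (nat_lit 363) (nat_lit 5) (nat_lit 353) (nat_lit 342) (nat_lit 325)) (XT.lf (nat_lit 0) (nat_lit 1671034467) (nat_lit 532) (nat_lit 3065233507) (nat_lit 608) (nat_lit 2031990427) (nat_lit 355) (nat_lit 5) (nat_lit 362) (nat_lit 5) (nat_lit 363) (nat_lit 5) (nat_lit 354) (nat_lit 342) (nat_lit 324))) (XT.nd (nat_lit 78) (nat_lit 608) (nat_lit 0) (XT.lf (nat_lit 0) (nat_lit 433491396) (nat_lit 608) (nat_lit 1270516919) (nat_lit 76) (nat_lit 5108986830) (nat_lit 354) (nat_lit 5) (nat_lit 362) (nat_lit 5) (nat_lit 355) (nat_lit 5) (nat_lit 355) (nat_lit 342) (nat_lit 323)) (XT.lf (nat_lit 0) (nat_lit 2643791254) (nat_lit 608) (nat_lit 229419743) (nat_lit 684) (nat_lit 3987076596) (nat_lit 346) (nat_lit 5) (nat_lit 354) (nat_lit 5) (nat_lit 355) (nat_lit 5) (nat_lit 356) (nat_lit 342) (nat_lit 322))))))))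
noncomputable def xc106 : XT := (XT.nd (nat_lit 2184) (nat_lit 6308) (nat_lit 0) (XT.nd (nat_lit 1092) (nat_lit 5092) (nat_lit 0) (XT.nd (nat_lit 546) (nat_lit 4560) (nat_lit 0) (XT.nd (nat_lit 234) (nat_lit 1824) (nat_lit 0) (XT.nd (nat_lit 78) (nat_lit 1520) (nat_lit 0) (XT.lf (nat_lit 0) (nat_lit 5329304604) (nat_lit 684) (nat_lit 280413353) (nat_lit 76) (nat_lit 1301034504) (nat_lit 346) (nat_lit 5) (nat_lit 355) (nat_lit 5) (nat_lit 347) (nat_lit 5) (nat_lit 357) (nat_lit 342) (nat_lit 321)) (XT.nd (nat_lit 78) (nat_lit 760) (nat_lit 0) (XT.lf (nat_lit 0) (nat_lit 837296906) (nat_lit 760) (nat_lit 3185934792) (nat_lit 76) (nat_lit 2940534246) (nat_lit 336) (nat_lit 5) (nat_lit 346) (nat_lit 5) (nat_lit 337) (nat_lit 5) (nat_lit 358) (nat_lit 342) (nat_lit 320)) (XT.lf (nat_lit 0) (nat_lit 886791698) (nat_lit 760) (nat_lit 2342578605) (nat_lit 836) (nat_lit 3790598190) (nat_lit 326) (nat_lit 5) (nat_lit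 336) (nat_lit 5) (nat_lit 337) (nat_lit 5) (nat_lit 359) (nat_lit 342) (nat_lit 319)))) (XT.nd (nat_lit 156) (nat_lit 912) (nat_lit 0) (XT.nd (nat_lit 78) (nat_lit 912) (nat_lit 0) (XT.lf (nat_lit 0) (nat_lit 5087484691) (nat_lit 760) (nat_lit 560784589) (nat_lit 836) (nat_lit 1430979579) (nat_lit 326) (nat_lit 5) (nat_lit 336) (nat_lit 5) (nat_lit 337) (nat_lit 5) (nat_lit 360) (nat_lit 342) (nat_lit 318)) (XT.lf (nat_lit 0) (nat_lit 938613923) (nat_lit 912) (nat_lit 4905568501) (nat_lit 76) (nat_lit 1297117475) (nat_lit 314) (nat_lit 5) (nat_lit 326) (nat_lit 5) (nat_lit 315) (nat_lit 5) (nat_lit 361) (nat_lit 342) (nat_lit 317))) (XT.nd (nat_lit 78) (nat_lit 912) (nat_lit 0) (XT.lf (nat_lit 0) (nat_lit 3302538209) (nat_lit 912) (nat_lit 654809381) (nat_lit 76) (nat_lit 3248919648) (nat_lit 314) (nat_lit 5) (nat_lit 326) (nat_lit 5) (nat_lit 315) (nat_lit 5) (nat_lit 362) (nat_lit 342) (nat_lit 316)) (XT.lf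 (nat_lit 0) (nat_lit 3737014770) (nat_lit 912) (nat_lit 1964579069) (nat_lit 988) (nat_lit 1572702126) (nat_lit 302) (nat_lit 5) (nat_lit 314) (nat_lit 5) (nat_lit 315) (nat_lit 5) (nat_lit 363) (nat_lit 342) (nat_lit 315))))) (XT.nd (nat_lit 234) (nat_lit 2432) (nat_lit 0) (XT.nd (nat_lit 78) (nat_lit 1064) (nat_lit 0) (XT.lf (nat_lit 0) (nat_lit 757477447) (nat_lit 1064) (nat_lit 6468290681) (nat_lit 76) (nat_lit 120033602) (nat_lit 288) (nat_lit 5) (nat_lit 302) (nat_lit 5) (nat_lit 289) (nat_lit 5) (nat_lit 364) (nat_lit 342) (nat_lit 314)) (XT.nd (nat_lit 78) (nat_lit 1064) (nat_lit 0) (XT.lf (nat_lit 0) (nat_lit 3112145942) (nat_lit 1064) (nat_lit 2018367112) (nat_lit 76) (nat_lit 2288922162) (nat_lit 288) (nat_lit 5) (nat_lit 302) (nat_lit 5) (nat_lit 289) (nat_lit 5) (nat_lit 365) (nat_lit 342) (nat_lit 313)) (XT.lf (nat_lit 0) (nat_lit 2554842668) (nat_lit 1064) (nat_lit 2939858638) (nat_lit 1140) (nat_lit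 2001893448) (nat_lit 274) (nat_lit 5) (nat_lit 288) (nat_lit 5) (nat_lit 289) (nat_lit 5) (nat_lit 366) (nat_lit 342) (nat_lit 312)))) (XT.nd (nat_lit 156) (nat_lit 1216) (nat_lit 0) (XT.nd (nat_lit 78) (nat_lit 1140) (nat_lit 0) (XT.lf (nat_lit 0) (nat_lit 319366997) (nat_lit 1140) (nat_lit 333453329) (nat_lit 76) (nat_lit 6924554515) (nat_lit 273) (nat_lit 5) (nat_lit 288) (nat_lit 5) (nat_lit 274) (nat_lit 5) (nat_lit 367) (nat_lit 342) (nat_lit 311)) (XT.lf (nat_lit 0) (nat_lit 2664892393) (nat_lit 1216) (nat_lit 3257250077) (nat_lit 76) (nat_lit 1738026872) (nat_lit 258) (nat_lit 5) (nat_lit 274) (nat_lit 5) (nat_lit 259) (nat_lit 5) (nat_lit 368) (nat_lit 342) (nat_lit 310))) (XT.nd (nat_lit 78) (nat_lit 0) (nat_lit 0) (XT.lf (nat_lit 0) (nat_lit 1505286757) (nat_lit 1216) (nat_lit 3536530249) (nat_lit 1292) (nat_lit 2704830277) (nat_lit 242) (nat_lit 5) (nat_lit 258) (nat_lit 5) (nat_lit 259) (nat_lit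 5) (nat_lit 369) (nat_lit 342) (nat_lit 309)) (XT.lf (nat_lit 0) (nat_lit 6417601146) (nat_lit 1216) (nat_lit 1043307843) (nat_lit 1292) (nat_lit 375714505) (nat_lit 242) (nat_lit 5) (nat_lit 258) (nat_lit 5) (nat_lit 259) (nat_lit 5) (nat_lit 370) (nat_lit 342) (nat_lit 308)))))) (XT.nd (nat_lit 546) (nat_lit 2052) (nat_lit 0) (XT.nd (nat_lit 234) (nat_lit 1748) (nat_lit 0) (XT.nd (nat_lit 78) (nat_lit 608) (nat_lit 0) (XT.lf (nat_lit 0) (nat_lit 1972154883) (nat_lit 684) (nat_lit 4406532658) (nat_lit 76) (nat_lit 1550405149) (nat_lit 233) (nat_lit 5) (nat_lit 242) (nat_lit 5) (nat_lit 234) (nat_lit 5) (nat_lit 371) (nat_lit 342) (nat_lit 307)) (XT.nd (nat_lit 78) (nat_lit 0) (nat_lit 0) (XT.lf (nat_lit 0) (nat_lit 553576007) (nat_lit 608) (nat_lit 3799820689) (nat_lit 684) (nat_lit 3671740228) (nat_lit 225) (nat_lit 5) (nat_lit 233) (nat_lit 5) (nat_lit 234) (nat_lit 5) (nat_lit 372) (nat_lit 342) (nat_lit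 306)) (XT.lf (nat_lit 0) (nat_lit 5692804697) (nat_lit 608) (nat_lit 1099293979) (nat_lit 684) (nat_lit 1332409528) (nat_lit 225) (nat_lit 5) (nat_lit 233) (nat_lit 5) (nat_lit 234) (nat_lit 5) (nat_lit 373) (nat_lit 342) (nat_lit 305)))) (XT.nd (nat_lit 156) (nat_lit 1064) (nat_lit 0) (XT.nd (nat_lit 78) (nat_lit 0) (nat_lit 0) (XT.lf (nat_lit 0) (nat_lit 1041607193) (nat_lit 684) (nat_lit 5500926915) (nat_lit 76) (nat_lit 1684475063) (nat_lit 216) (nat_lit 5) (nat_lit 225) (nat_lit 5) (nat_lit 217) (nat_lit 5) (nat_lit 374) (nat_lit 342) (nat_lit 304)) (XT.lf (nat_lit 0) (nat_lit 3439468447) (nat_lit 684) (nat_lit 328254260) (nat_lit 76) (nat_lit 4565108735) (nat_lit 216) (nat_lit 5) (nat_lit 225) (nat_lit 5) (nat_lit 217) (nat_lit 5) (nat_lit 375) (nat_lit 342) (nat_lit 303))) (XT.nd (nat_lit 78) (nat_lit 532) (nat_lit 0) (XT.lf (nat_lit 0) (nat_lit 5039158382) (nat_lit 532) (nat_lit 863907292) (nat_lit 608)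 (nat_lit 2538972164) (nat_lit 209) (nat_lit 5) (nat_lit 216) (nat_lit 5) (nat_lit 217) (nat_lit 5) (nat_lit 376) (nat_lit 342) (nat_lit 302)) (XT.lf (nat_lit 0) (nat_lit 1978241864) (nat_lit 532) (nat_lit 6451487383) (nat_lit 608) (nat_lit 125139201) (nat_lit 202) (nat_lit 5) (nat_lit 209) (nat_lit 5) (nat_lit 210) (nat_lit 5) (nat_lit 377) (nat_lit 342) (nat_lit 301))))) (XT.nd (nat_lit 234) (nat_lit 988) (nat_lit 0) (XT.nd (nat_lit 78) (nat_lit 988) (nat_lit 0) (XT.lf (nat_lit 0) (nat_lit 2305090336) (nat_lit 608) (nat_lit 1171367941) (nat_lit 76) (nat_lit 5194264618) (nat_lit 201) (nat_lit 5) (nat_lit 209) (nat_lit 5) (nat_lit 202) (nat_lit 5) (nat_lit 378) (nat_lit 342) (nat_lit 300)) (XT.nd (nat_lit 78) (nat_lit 532) (nat_lit 0) (XT.lf (nat_lit 0) (nat_lit 4422588565) (nat_lit 456) (nat_lit 373984339) (nat_lit 532) (nat_lit 3993737906) (nat_lit 195) (nat_lit 5) (nat_lit 201) (nat_lit 5) (nat_lit 202) (nat_lit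 5) (nat_lit 379) (nat_lit 342) (nat_lit 299)) (XT.lf (nat_lit 0) (nat_lit 1232638144) (nat_lit 532) (nat_lit 6130305346) (nat_lit 608) (nat_lit 1550558803) (nat_lit 188) (nat_lit 5) (nat_lit 195) (nat_lit 5) (nat_lit 196) (nat_lit 5) (nat_lit 380) (nat_lit 342) (nat_lit 298)))) (XT.nd (nat_lit 156) (nat_lit 456) (nat_lit 0) (XT.nd (nat_lit 78) (nat_lit 456) (nat_lit 0) (XT.lf (nat_lit 0) (nat_lit 944938882) (nat_lit 608) (nat_lit 2021806028) (nat_lit 76) (nat_lit 6073448986) (nat_lit 187) (nat_lit 5) (nat_lit 195) (nat_lit 5) (nat_lit 188) (nat_lit 5) (nat_lit 381) (nat_lit 342) (nat_lit 297)) (XT.lf (nat_lit 0) (nat_lit 3475064354) (nat_lit 532) (nat_lit 5365981629) (nat_lit 76) (nat_lit 329470396) (nat_lit 181) (nat_lit 5) (nat_lit 188) (nat_lit 5) (nat_lit 182) (nat_lit 5) (nat_lit 382) (nat_lit 342) (nat_lit 296))) (XT.nd (nat_lit 78) (nat_lit 0) (nat_lit 0) (XT.lf (nat_lit 0) (nat_lit 463531097) (nat_lit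 456) (nat_lit 5623884185) (nat_lit 532) (nat_lit 3217161583) (nat_lit 175) (nat_lit 5) (nat_lit 181) (nat_lit 5) (nat_lit 182) (nat_lit 5) (nat_lit 383) (nat_lit 342) (nat_lit 295)) (XT.lf (nat_lit 0) (nat_lit 6519591188) (nat_lit 456) (nat_lit 2265446238) (nat_lit 532) (nat_lit 657432175) (nat_lit 175) (nat_lit 5) (nat_lit 181) (nat_lit 5) (nat_lit 182) (nat_lit 5) (nat_lit 384) (nat_lit 342) (nat_lit 294))))))) (XT.nd (nat_lit 1092) (nat_lit 2660) (nat_lit 0) (XT.nd (nat_lit 546) (nat_lit 1520) (nat_lit 0) (XT.nd (nat_lit 234) (nat_lit 1216) (nat_lit 0) (XT.nd (nat_lit 78) (nat_lit 456) (nat_lit 0) (XT.lf (nat_lit 0) (nat_lit 1936302358) (nat_lit 456) (nat_lit 6438426754) (nat_lit 76) (nat_lit 1209340764) (nat_lit 169) (nat_lit 5) (nat_lit 175) (nat_lit 5) (nat_lit 170) (nat_lit 5) (nat_lit 385) (nat_lit 342) (nat_lit 293)) (XT.nd (nat_lit 78) (nat_lit 456) (nat_lit 0) (XT.lf (nat_lit 0) (nat_lit 4601186707)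 (nat_lit 456) (nat_lit 360412530) (nat_lit 76) (nat_lit 4767943075) (nat_lit 169) (nat_lit 5) (nat_lit 175) (nat_lit 5) (nat_lit 170) (nat_lit 5) (nat_lit 386) (nat_lit 342) (nat_lit 292)) (XT.lf (nat_lit 0) (nat_lit 5959649299) (nat_lit 456) (nat_lit 1399300532) (nat_lit 532) (nat_lit 2520056633) (nat_lit 163) (nat_lit 5) (nat_lit 169) (nat_lit 5) (nat_lit 170) (nat_lit 5) (nat_lit 387) (nat_lit 342) (nat_lit 291)))) (XT.nd (nat_lit 156) (nat_lit 760) (nat_lit 0) (XT.nd (nat_lit 78) (nat_lit 0) (nat_lit 0) (XT.lf (nat_lit 0) (nat_lit 168233847) (nat_lit 456) (nat_lit 7622642357) (nat_lit 76) (nat_lit 2241895202) (nat_lit 157) (nat_lit 5) (nat_lit 163) (nat_lit 5) (nat_lit 158) (nat_lit 5) (nat_lit 388) (nat_lit 342) (nat_lit 290)) (XT.lf (nat_lit 0) (nat_lit 2896913446) (nat_lit 456) (nat_lit 1276869880) (nat_lit 76) (nat_lit 6016319902) (nat_lit 157) (nat_lit 5) (nat_lit 163) (nat_lit 5) (nat_lit 158) (nat_lit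 5) (nat_lit 389) (nat_lit 342) (nat_lit 289))) (XT.nd (nat_lit 78) (nat_lit 380) (nat_lit 0) (XT.lf (nat_lit 0) (nat_lit 5306956548) (nat_lit 380) (nat_lit 409342544) (nat_lit 456) (nat_lit 4635604321) (nat_lit 152) (nat_lit 5) (nat_lit 157) (nat_lit 5) (nat_lit 158) (nat_lit 5) (nat_lit 390) (nat_lit 342) (nat_lit 288)) (XT.lf (nat_lit 0) (nat_lit 1536363474) (nat_lit 380) (nat_lit 7103424762) (nat_lit 456) (nat_lit 1878197091) (nat_lit 147) (nat_lit 5) (nat_lit 152) (nat_lit 5) (nat_lit 153) (nat_lit 5) (nat_lit 391) (nat_lit 342) (nat_lit 287))))) (XT.nd (nat_lit 234) (nat_lit 760) (nat_lit 0) (XT.nd (nat_lit 78) (nat_lit 684) (nat_lit 0) (XT.lf (nat_lit 0) (nat_lit 957314491) (nat_lit 456) (nat_lit 2339531392) (nat_lit 76) (nat_lit 7391514438) (nat_lit 146) (nat_lit 5) (nat_lit 152) (nat_lit 5) (nat_lit 147) (nat_lit 5) (nat_lit 392) (nat_lit 342) (nat_lit 286)) (XT.nd (nat_lit 78) (nat_lit 304) (nat_lit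 0) (XT.lf (nat_lit 0) (nat_lit 3849878494) (nat_lit 456) (nat_lit 6353399451) (nat_lit 76) (nat_lit 659730875) (nat_lit 141) (nat_lit 5) (nat_lit 147) (nat_lit 5) (nat_lit 142) (nat_lit 5) (nat_lit 393) (nat_lit 342) (nat_lit 285)) (XT.lf (nat_lit 0) (nat_lit 491106372) (nat_lit 304) (nat_lit 6359690680) (nat_lit 380) (nat_lit 4191464279) (nat_lit 137) (nat_lit 5) (nat_lit 141) (nat_lit 5) (nat_lit 142) (nat_lit 5) (nat_lit 394) (nat_lit 342) (nat_lit 284)))) (XT.nd (nat_lit 156) (nat_lit 304) (nat_lit 0) (XT.nd (nat_lit 78) (nat_lit 456) (nat_lit 0) (XT.lf (nat_lit 0) (nat_lit 7616135525) (nat_lit 304) (nat_lit 2350746209) (nat_lit 380) (nat_lit 1259267067) (nat_lit 137) (nat_lit 5) (nat_lit 141) (nat_lit 5) (nat_lit 142) (nat_lit 5) (nat_lit 395) (nat_lit 342) (nat_lit 283)) (XT.lf (nat_lit 0) (nat_lit 1739715472) (nat_lit 456) (nat_lit 7895389792) (nat_lit 76) (nat_lit 1779555281) (nat_lit 131) (nat_lit 5)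 (nat_lit 137) (nat_lit 5) (nat_lit 132) (nat_lit 5) (nat_lit 396) (nat_lit 342) (nat_lit 282))) (XT.nd (nat_lit 78) (nat_lit 304) (nat_lit 0) (XT.lf (nat_lit 0) (nat_lit 4825623802) (nat_lit 456) (nat_lit 762077103) (nat_lit 76) (nat_lit 6020095269) (nat_lit 131) (nat_lit 5) (nat_lit 137) (nat_lit 5) (nat_lit 132) (nat_lit 5) (nat_lit 397) (nat_lit 342) (nat_lit 281)) (XT.lf (nat_lit 0) (nat_lit 6662155596) (nat_lit 304) (nat_lit 1369272785) (nat_lit 380) (nat_lit 3774488173) (nat_lit 127) (nat_lit 5) (nat_lit 131) (nat_lit 5) (nat_lit 132) (nat_lit 5) (nat_lit 398) (nat_lit 342) (nat_lit 280)))))) (XT.nd (nat_lit 546) (nat_lit 1368) (nat_lit 0) (XT.nd (nat_lit 234) (nat_lit 608) (nat_lit 0) (XT.nd (nat_lit 78) (nat_lit 380) (nat_lit 0) (XT.lf (nat_lit 0) (nat_lit 2277245568) (nat_lit 304) (nat_lit 9078112718) (nat_lit 380) (nat_lit 653973678) (nat_lit 123) (nat_lit 5) (nat_lit 127) (nat_lit 5) (nat_lit 128)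 (nat_lit 5) (nat_lit 399) (nat_lit 342) (nat_lit 279)) (XT.nd (nat_lit 78) (nat_lit 304) (nat_lit 0) (XT.lf (nat_lit 0) (nat_lit 2540081521) (nat_lit 380) (nat_lit 2283351005) (nat_lit 76) (nat_lit 7393791910) (nat_lit 122) (nat_lit 5) (nat_lit 127) (nat_lit 5) (nat_lit 123) (nat_lit 5) (nat_lit 400) (nat_lit 342) (nat_lit 278)) (XT.lf (nat_lit 0) (nat_lit 5436315152) (nat_lit 304) (nat_lit 397678331) (nat_lit 380) (nat_lit 6596659677) (nat_lit 118) (nat_lit 5) (nat_lit 122) (nat_lit 5) (nat_lit 123) (nat_lit 5) (nat_lit 401) (nat_lit 342) (nat_lit 277)))) (XT.nd (nat_lit 156) (nat_lit 304) (nat_lit 0) (XT.nd (nat_lit 78) (nat_lit 0) (nat_lit 0) (XT.lf (nat_lit 0) (nat_lit 705620487) (nat_lit 304) (nat_lit 8556450876) (nat_lit 380) (nat_lit 3387361772) (nat_lit 114) (nat_lit 5) (nat_lit 118) (nat_lit 5) (nat_lit 119) (nat_lit 5) (nat_lit 402) (nat_lit 342) (nat_lit 276)) (XT.lf (nat_lit 0) (nat_lit 8723945306)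 (nat_lit 304) (nat_lit 4109368970) (nat_lit 380) (nat_lit 40261141) (nat_lit 114) (nat_lit 5) (nat_lit 118) (nat_lit 5) (nat_lit 119) (nat_lit 5) (nat_lit 403) (nat_lit 342) (nat_lit 275))) (XT.nd (nat_lit 78) (nat_lit 0) (nat_lit 0) (XT.lf (nat_lit 0) (nat_lit 3349471592) (nat_lit 304) (nat_lit 9238422296) (nat_lit 76) (nat_lit 515312389) (nat_lit 110) (nat_lit 5) (nat_lit 114) (nat_lit 5) (nat_lit 111) (nat_lit 5) (nat_lit 404) (nat_lit 342) (nat_lit 274)) (XT.lf (nat_lit 0) (nat_lit 6889867004) (nat_lit 304) (nat_lit 1226759380) (nat_lit 76) (nat_lit 5221602183) (nat_lit 110) (nat_lit 5) (nat_lit 114) (nat_lit 5) (nat_lit 111) (nat_lit 5) (nat_lit 405) (nat_lit 342) (nat_lit 273))))) (XT.nd (nat_lit 312) (nat_lit 532) (nat_lit 0) (XT.nd (nat_lit 156) (nat_lit 228) (nat_lit 0) (XT.nd (nat_lit 78) (nat_lit 304) (nat_lit 0) (XT.lf (nat_lit 0) (nat_lit 7114090558) (nat_lit 304) (nat_lit 3458511500) (nat_lit 380)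 (nat_lit 3006623263) (nat_lit 106) (nat_lit 5) (nat_lit 110) (nat_lit 5) (nat_lit 111) (nat_lit 5) (nat_lit 406) (nat_lit 342) (nat_lit 272)) (XT.lf (nat_lit 0) (nat_lit 539428171) (nat_lit 304) (nat_lit 11955835141) (nat_lit 76) (nat_lit 1331693610) (nat_lit 102) (nat_lit 5) (nat_lit 106) (nat_lit 5) (nat_lit 103) (nat_lit 5) (nat_lit 407) (nat_lit 342) (nat_lit 271))) (XT.nd (nat_lit 78) (nat_lit 228) (nat_lit 0) (XT.lf (nat_lit 0) (nat_lit 4199774957) (nat_lit 304) (nat_lit 3605257476) (nat_lit 76) (nat_lit 6274151647) (nat_lit 102) (nat_lit 5) (nat_lit 106) (nat_lit 5) (nat_lit 103) (nat_lit 5) (nat_lit 408) (nat_lit 342) (nat_lit 270)) (XT.lf (nat_lit 0) (nat_lit 5045326035) (nat_lit 228) (nat_lit 2942201666) (nat_lit 304) (nat_lit 6350929264) (nat_lit 99) (nat_lit 5) (nat_lit 102) (nat_lit 5) (nat_lit 103) (nat_lit 5) (nat_lit 409) (nat_lit 342) (nat_lit 269)))) (XT.nd (nat_lit 156) (nat_lit 228) (nat_lit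 0) (XT.nd (nat_lit 78) (nat_lit 304) (nat_lit 0) (XT.lf (nat_lit 0) (nat_lit 11914901772) (nat_lit 304) (nat_lit 644541027) (nat_lit 76) (nat_lit 2045292155) (nat_lit 99) (nat_lit 5) (nat_lit 103) (nat_lit 5) (nat_lit 100) (nat_lit 5) (nat_lit 410) (nat_lit 342) (nat_lit 268)) (XT.lf (nat_lit 0) (nat_lit 1140423410) (nat_lit 304) (nat_lit 6538291719) (nat_lit 76) (nat_lit 7197567883) (nat_lit 95) (nat_lit 5) (nat_lit 99) (nat_lit 5) (nat_lit 96) (nat_lit 5) (nat_lit 411) (nat_lit 342) (nat_lit 267))) (XT.nd (nat_lit 78) (nat_lit 0) (nat_lit 0) (XT.lf (nat_lit 0) (nat_lit 2420032177) (nat_lit 228) (nat_lit 2611693553) (nat_lit 304) (nat_lit 10123452814) (nat_lit 92) (nat_lit 5) (nat_lit 95) (nat_lit 5) (nat_lit 96) (nat_lit 5) (nat_lit 412) (nat_lit 342) (nat_lit 266)) (XT.lf (nat_lit 0) (nat_lit 9102105003) (nat_lit 304) (nat_lit 3733205228) (nat_lit 76) (nat_lit 2605266422) (nat_lit 92) (nat_lit 5) (nat_lit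 96) (nat_lit 5) (nat_lit 93) (nat_lit 5) (nat_lit 413) (nat_lit 342) (nat_lit 265))))))))
noncomputable def xc107 : XT := (XT.nd (nat_lit 2184) (nat_lit 1748) (nat_lit 0) (XT.nd (nat_lit 1092) (nat_lit 1368) (nat_lit 0) (XT.nd (nat_lit 546) (nat_lit 836) (nat_lit 0) (XT.nd (nat_lit 234) (nat_lit 456) (nat_lit 0) (XT.nd (nat_lit 78) (nat_lit 304) (nat_lit 0) (XT.lf (nat_lit 0) (nat_lit 5574963876) (nat_lit 228) (nat_lit 7770533411) (nat_lit 304) (nat_lit 2387518047) (nat_lit 89) (nat_lit 5) (nat_lit 92) (nat_lit 5) (nat_lit 93) (nat_lit 5) (nat_lit 414) (nat_lit 342) (nat_lit 264)) (XT.nd (nat_lit 78) (nat_lit 228) (nat_lit 0) (XT.lf (nat_lit 0) (nat_lit 1658769768) (nat_lit 304) (nat_lit 857605017) (nat_lit 76) (nat_lit 13517083896) (nat_lit 88) (nat_lit 5) (nat_lit 92) (nat_lit 5) (nat_lit 89) (nat_lit 5) (nat_lit 415) (nat_lit 342) (nat_lit 263)) (XT.lf (nat_lit 0) (nat_lit 5864408320) (nat_lit 304) (nat_lit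 7544314790) (nat_lit 76) (nat_lit 2930909784) (nat_lit 85) (nat_lit 5) (nat_lit 89) (nat_lit 5) (nat_lit 86) (nat_lit 5) (nat_lit 416) (nat_lit 342) (nat_lit 262)))) (XT.nd (nat_lit 156) (nat_lit 304) (nat_lit 0) (XT.nd (nat_lit 78) (nat_lit 0) (nat_lit 0) (XT.lf (nat_lit 0) (nat_lit 2070364039) (nat_lit 152) (nat_lit 8151997965) (nat_lit 228) (nat_lit 6431850995) (nat_lit 83) (nat_lit 5) (nat_lit 85) (nat_lit 5) (nat_lit 86) (nat_lit 5) (nat_lit 417) (nat_lit 342) (nat_lit 261)) (XT.lf (nat_lit 0) (nat_lit 12082870126) (nat_lit 152) (nat_lit 2677314276) (nat_lit 228) (nat_lit 2216577099) (nat_lit 83) (nat_lit 5) (nat_lit 85) (nat_lit 5) (nat_lit 86) (nat_lit 5) (nat_lit 418) (nat_lit 342) (nat_lit 260))) (XT.nd (nat_lit 78) (nat_lit 0) (nat_lit 0) (XT.lf (nat_lit 0) (nat_lit 2135376033) (nat_lit 304) (nat_lit 12214880013) (nat_lit 76) (nat_lit 2956571467) (nat_lit 79) (nat_lit 5) (nat_lit 83) (nat_lit 5) (nat_lit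 80) (nat_lit 5) (nat_lit 419) (nat_lit 342) (nat_lit 259)) (XT.lf (nat_lit 0) (nat_lit 6623401007) (nat_lit 304) (nat_lit 2261235603) (nat_lit 76) (nat_lit 8760003061) (nat_lit 79) (nat_lit 5) (nat_lit 83) (nat_lit 5) (nat_lit 80) (nat_lit 5) (nat_lit 420) (nat_lit 342) (nat_lit 258))))) (XT.nd (nat_lit 234) (nat_lit 380) (nat_lit 0) (XT.nd (nat_lit 78) (nat_lit 304) (nat_lit 0) (XT.lf (nat_lit 0) (nat_lit 8105832401) (nat_lit 152) (nat_lit 3192568265) (nat_lit 228) (nat_lit 6692619860) (nat_lit 77) (nat_lit 5) (nat_lit 79) (nat_lit 5) (nat_lit 80) (nat_lit 5) (nat_lit 421) (nat_lit 342) (nat_lit 257)) (XT.nd (nat_lit 78) (nat_lit 76) (nat_lit 0) (XT.lf (nat_lit 0) (nat_lit 421971250) (nat_lit 228) (nat_lit 15719041827) (nat_lit 304) (nat_lit 2205963070) (nat_lit 74) (nat_lit 5) (nat_lit 77) (nat_lit 5) (nat_lit 78) (nat_lit 5) (nat_lit 422) (nat_lit 342) (nat_lit 256)) (XT.lf (nat_lit 0) (nat_lit 2475233123)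 (nat_lit 304) (nat_lit 7569057087) (nat_lit 76) (nat_lit 8665415568) (nat_lit 73) (nat_lit 5) (nat_lit 77) (nat_lit 5) (nat_lit 74) (nat_lit 5) (nat_lit 423) (nat_lit 342) (nat_lit 255)))) (XT.nd (nat_lit 156) (nat_lit 228) (nat_lit 0) (XT.nd (nat_lit 78) (nat_lit 0) (nat_lit 0) (XT.lf (nat_lit 0) (nat_lit 3093760328) (nat_lit 152) (nat_lit 4163896460) (nat_lit 228) (nat_lit 11824855263) (nat_lit 71) (nat_lit 5) (nat_lit 73) (nat_lit 5) (nat_lit 74) (nat_lit 5) (nat_lit 424) (nat_lit 342) (nat_lit 254)) (XT.lf (nat_lit 0) (nat_lit 12254472860) (nat_lit 228) (nat_lit 5294027711) (nat_lit 76) (nat_lit 1915878102) (nat_lit 71) (nat_lit 5) (nat_lit 74) (nat_lit 5) (nat_lit 72) (nat_lit 5) (nat_lit 425) (nat_lit 342) (nat_lit 253))) (XT.nd (nat_lit 78) (nat_lit 76) (nat_lit 0) (XT.lf (nat_lit 0) (nat_lit 5751291052) (nat_lit 152) (nat_lit 11722661078) (nat_lit 228) (nat_lit 2381570047) (nat_lit 69) (nat_lit 5) (nat_lit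 71) (nat_lit 5) (nat_lit 72) (nat_lit 5) (nat_lit 426) (nat_lit 342) (nat_lit 252)) (XT.lf (nat_lit 0) (nat_lit 2571343252) (nat_lit 228) (nat_lit 3087065123) (nat_lit 76) (nat_lit 14598338703) (nat_lit 68) (nat_lit 5) (nat_lit 71) (nat_lit 5) (nat_lit 69) (nat_lit 5) (nat_lit 427) (nat_lit 342) (nat_lit 251)))))) (XT.nd (nat_lit 546) (nat_lit 684) (nat_lit 0) (XT.nd (nat_lit 234) (nat_lit 380) (nat_lit 0) (XT.nd (nat_lit 78) (nat_lit 152) (nat_lit 0) (XT.lf (nat_lit 0) (nat_lit 7688853932) (nat_lit 228) (nat_lit 12314043368) (nat_lit 76) (nat_lit 664491048) (nat_lit 66) (nat_lit 5) (nat_lit 69) (nat_lit 5) (nat_lit 67) (nat_lit 5) (nat_lit 428) (nat_lit 342) (nat_lit 250)) (XT.nd (nat_lit 78) (nat_lit 152) (nat_lit 0) (XT.lf (nat_lit 0) (nat_lit 13024520859) (nat_lit 228) (nat_lit 985740424) (nat_lit 76) (nat_lit 7078151883) (nat_lit 66) (nat_lit 5) (nat_lit 69) (nat_lit 5) (nat_lit 67) (nat_lit 5) (nat_lit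 429) (nat_lit 342) (nat_lit 249)) (XT.lf (nat_lit 0) (nat_lit 10855163616) (nat_lit 152) (nat_lit 7747232039) (nat_lit 228) (nat_lit 2917212083) (nat_lit 64) (nat_lit 5) (nat_lit 66) (nat_lit 5) (nat_lit 67) (nat_lit 5) (nat_lit 430) (nat_lit 342) (nat_lit 248)))) (XT.nd (nat_lit 156) (nat_lit 152) (nat_lit 0) (XT.nd (nat_lit 78) (nat_lit 0) (nat_lit 0) (XT.lf (nat_lit 0) (nat_lit 1066731842) (nat_lit 152) (nat_lit 1268771712) (nat_lit 228) (nat_lit 19627605513) (nat_lit 61) (nat_lit 5) (nat_lit 63) (nat_lit 5) (nat_lit 64) (nat_lit 5) (nat_lit 431) (nat_lit 342) (nat_lit 247)) (XT.lf (nat_lit 0) (nat_lit 7825827590) (nat_lit 228) (nat_lit 9169373154) (nat_lit 76) (nat_lit 5419691269) (nat_lit 61) (nat_lit 5) (nat_lit 64) (nat_lit 5) (nat_lit 62) (nat_lit 5) (nat_lit 432) (nat_lit 342) (nat_lit 246))) (XT.nd (nat_lit 78) (nat_lit 0) (nat_lit 0) (XT.lf (nat_lit 0) (nat_lit 2915671610) (nat_lit 152) (nat_lit 10584377916)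 (nat_lit 228) (nat_lit 9379606069) (nat_lit 59) (nat_lit 5) (nat_lit 61) (nat_lit 5) (nat_lit 62) (nat_lit 5) (nat_lit 433) (nat_lit 342) (nat_lit 245)) (XT.lf (nat_lit 0) (nat_lit 15513501846) (nat_lit 152) (nat_lit 3902448488) (nat_lit 228) (nat_lit 3940270896) (nat_lit 59) (nat_lit 5) (nat_lit 61) (nat_lit 5) (nat_lit 62) (nat_lit 5) (nat_lit 434) (nat_lit 342) (nat_lit 244))))) (XT.nd (nat_lit 234) (nat_lit 304) (nat_lit 0) (XT.nd (nat_lit 78) (nat_lit 152) (nat_lit 0) (XT.lf (nat_lit 0) (nat_lit 1683161019) (nat_lit 228) (nat_lit 19194478382) (nat_lit 76) (nat_lit 2967367043) (nat_lit 56) (nat_lit 5) (nat_lit 59) (nat_lit 5) (nat_lit 57) (nat_lit 5) (nat_lit 435) (nat_lit 342) (nat_lit 243)) (XT.nd (nat_lit 78) (nat_lit 152) (nat_lit 0) (XT.lf (nat_lit 0) (nat_lit 7494083569) (nat_lit 228) (nat_lit 6782316331) (nat_lit 76) (nat_lit 10067947920) (nat_lit 56) (nat_lit 5) (nat_lit 59) (nat_lit 5) (nat_lit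 57) (nat_lit 5) (nat_lit 436) (nat_lit 342) (nat_lit 242)) (XT.lf (nat_lit 0) (nat_lit 6084887304) (nat_lit 152) (nat_lit 7432904083) (nat_lit 228) (nat_lit 11339726732) (nat_lit 54) (nat_lit 5) (nat_lit 56) (nat_lit 5) (nat_lit 57) (nat_lit 5) (nat_lit 437) (nat_lit 342) (nat_lit 241)))) (XT.nd (nat_lit 156) (nat_lit 152) (nat_lit 0) (XT.nd (nat_lit 78) (nat_lit 152) (nat_lit 0) (XT.lf (nat_lit 0) (nat_lit 19441430083) (nat_lit 152) (nat_lit 329474657) (nat_lit 228) (nat_lit 5613720298) (nat_lit 54) (nat_lit 5) (nat_lit 56) (nat_lit 5) (nat_lit 57) (nat_lit 5) (nat_lit 438) (nat_lit 342) (nat_lit 240)) (XT.lf (nat_lit 0) (nat_lit 397771100) (nat_lit 152) (nat_lit 18616368240) (nat_lit 76) (nat_lit 6909748672) (nat_lit 52) (nat_lit 5) (nat_lit 54) (nat_lit 5) (nat_lit 53) (nat_lit 5) (nat_lit 439) (nat_lit 342) (nat_lit 239))) (XT.nd (nat_lit 78) (nat_lit 152) (nat_lit 0) (XT.lf (nat_lit 0) (nat_lit 6521320519)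 (nat_lit 152) (nat_lit 5494521278) (nat_lit 76) (nat_lit 14460485473) (nat_lit 52) (nat_lit 5) (nat_lit 54) (nat_lit 5) (nat_lit 53) (nat_lit 5) (nat_lit 440) (nat_lit 342) (nat_lit 238)) (XT.lf (nat_lit 0) (nat_lit 8145818126) (nat_lit 152) (nat_lit 4742296369) (nat_lit 228) (nat_lit 14155441145) (nat_lit 50) (nat_lit 5) (nat_lit 52) (nat_lit 5) (nat_lit 53) (nat_lit 5) (nat_lit 441) (nat_lit 342) (nat_lit 237))))))) (XT.nd (nat_lit 1092) (nat_lit 836) (nat_lit 0) (XT.nd (nat_lit 546) (nat_lit 456) (nat_lit 0) (XT.nd (nat_lit 234) (nat_lit 304) (nat_lit 0) (XT.nd (nat_lit 78) (nat_lit 152) (nat_lit 0) (XT.lf (nat_lit 0) (nat_lit 19509685767) (nat_lit 228) (nat_lit 5379309665) (nat_lit 76) (nat_lit 2736894243) (nat_lit 50) (nat_lit 5) (nat_lit 53) (nat_lit 5) (nat_lit 51) (nat_lit 4) (nat_lit 442) (nat_lit 342) (nat_lit 236)) (XT.nd (nat_lit 78) (nat_lit 76) (nat_lit 0) (XT.lf (nat_lit 0) (nat_lit 8632979534)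 (nat_lit 76) (nat_lit 17808718689) (nat_lit 152) (nat_lit 1780643647) (nat_lit 49) (nat_lit 5) (nat_lit 50) (nat_lit 5) (nat_lit 51) (nat_lit 4) (nat_lit 443) (nat_lit 342) (nat_lit 235)) (XT.lf (nat_lit 0) (nat_lit 4689138229) (nat_lit 152) (nat_lit 5738534952) (nat_lit 76) (nat_lit 18406545548) (nat_lit 48) (nat_lit 5) (nat_lit 50) (nat_lit 5) (nat_lit 49) (nat_lit 5) (nat_lit 444) (nat_lit 342) (nat_lit 234)))) (XT.nd (nat_lit 156) (nat_lit 152) (nat_lit 0) (XT.nd (nat_lit 78) (nat_lit 0) (nat_lit 0) (XT.lf (nat_lit 0) (nat_lit 8646646954) (nat_lit 152) (nat_lit 2736110041) (nat_lit 228) (nat_lit 18079201811) (nat_lit 46) (nat_lit 5) (nat_lit 48) (nat_lit 5) (nat_lit 49) (nat_lit 5) (nat_lit 445) (nat_lit 342) (nat_lit 233)) (XT.lf (nat_lit 0) (nat_lit 18368039647) (nat_lit 228) (nat_lit 6608534743) (nat_lit 76) (nat_lit 5129232775) (nat_lit 46) (nat_lit 5) (nat_lit 49) (nat_lit 5) (nat_lit 47) (nat_lit 4)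 (nat_lit 446) (nat_lit 342) (nat_lit 232))) (XT.nd (nat_lit 78) (nat_lit 76) (nat_lit 0) (XT.lf (nat_lit 0) (nat_lit 8124501450) (nat_lit 76) (nat_lit 17526558178) (nat_lit 152) (nat_lit 5115267672) (nat_lit 45) (nat_lit 5) (nat_lit 46) (nat_lit 5) (nat_lit 47) (nat_lit 4) (nat_lit 447) (nat_lit 342) (nat_lit 231)) (XT.lf (nat_lit 0) (nat_lit 1723032255) (nat_lit 152) (nat_lit 8058146863) (nat_lit 76) (nat_lit 21663481162) (nat_lit 44) (nat_lit 5) (nat_lit 46) (nat_lit 5) (nat_lit 45) (nat_lit 5) (nat_lit 448) (nat_lit 342) (nat_lit 230))))) (XT.nd (nat_lit 234) (nat_lit 228) (nat_lit 0) (XT.nd (nat_lit 78) (nat_lit 76) (nat_lit 0) (XT.lf (nat_lit 0) (nat_lit 7018850510) (nat_lit 152) (nat_lit 1695802426) (nat_lit 228) (nat_lit 23425642965) (nat_lit 42) (nat_lit 5) (nat_lit 44) (nat_lit 5) (nat_lit 45) (nat_lit 5) (nat_lit 449) (nat_lit 342) (nat_lit 229)) (XT.nd (nat_lit 78) (nat_lit 76) (nat_lit 0) (XT.lf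 (nat_lit 0) (nat_lit 16045521645) (nat_lit 228) (nat_lit 10236141690) (nat_lit 76) (nat_lit 6571253776) (nat_lit 42) (nat_lit 5) (nat_lit 45) (nat_lit 5) (nat_lit 43) (nat_lit 4) (nat_lit 450) (nat_lit 342) (nat_lit 228)) (XT.lf (nat_lit 0) (nat_lit 5149744999) (nat_lit 76) (nat_lit 18496912697) (nat_lit 152) (nat_lit 9938750481) (nat_lit 41) (nat_lit 5) (nat_lit 42) (nat_lit 5) (nat_lit 43) (nat_lit 4) (nat_lit 451) (nat_lit 342) (nat_lit 227)))) (XT.nd (nat_lit 156) (nat_lit 0) (nat_lit 0) (XT.nd (nat_lit 78) (nat_lit 228) (nat_lit 0) (XT.lf (nat_lit 0) (nat_lit 21177654027) (nat_lit 76) (nat_lit 10385769556) (nat_lit 152) (nat_lit 2773823934) (nat_lit 41) (nat_lit 5) (nat_lit 42) (nat_lit 5) (nat_lit 43) (nat_lit 4) (nat_lit 452) (nat_lit 342) (nat_lit 226)) (XT.lf (nat_lit 0) (nat_lit 2551431402) (nat_lit 152) (nat_lit 1973801453) (nat_lit 228) (nat_lit 30584810338) (nat_lit 38) (nat_lit 5) (nat_lit 40)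 (nat_lit 5) (nat_lit 41) (nat_lit 5) (nat_lit 453) (nat_lit 342) (nat_lit 225))) (XT.nd (nat_lit 78) (nat_lit 0) (nat_lit 0) (XT.lf (nat_lit 0) (nat_lit 12170610950) (nat_lit 228) (nat_lit 17020471041) (nat_lit 76) (nat_lit 6708625114) (nat_lit 38) (nat_lit 5) (nat_lit 41) (nat_lit 5) (nat_lit 39) (nat_lit 4) (nat_lit 454) (nat_lit 342) (nat_lit 224)) (XT.lf (nat_lit 0) (nat_lit 20049927438) (nat_lit 228) (nat_lit 1063775217) (nat_lit 76) (nat_lit 15599222225) (nat_lit 38) (nat_lit 5) (nat_lit 41) (nat_lit 5) (nat_lit 39) (nat_lit 4) (nat_lit 455) (nat_lit 342) (nat_lit 223)))))) (XT.nd (nat_lit 546) (nat_lit 456) (nat_lit 0) (XT.nd (nat_lit 234) (nat_lit 76) (nat_lit 0) (XT.nd (nat_lit 78) (nat_lit 228) (nat_lit 0) (XT.lf (nat_lit 0) (nat_lit 15649775294) (nat_lit 76) (nat_lit 12651753690) (nat_lit 152) (nat_lit 9244934259) (nat_lit 37) (nat_lit 5) (nat_lit 38) (nat_lit 5) (nat_lit 39) (nat_lit 4) (nat_lit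 456) (nat_lit 342) (nat_lit 222)) (XT.nd (nat_lit 78) (nat_lit 228) (nat_lit 0) (XT.lf (nat_lit 0) (nat_lit 32859575958) (nat_lit 76) (nat_lit 3937479025) (nat_lit 152) (nat_lit 1608062666) (nat_lit 37) (nat_lit 5) (nat_lit 38) (nat_lit 5) (nat_lit 39) (nat_lit 4) (nat_lit 457) (nat_lit 342) (nat_lit 221)) (XT.lf (nat_lit 0) (nat_lit 6281606719) (nat_lit 228) (nat_lit 27902232356) (nat_lit 76) (nat_lit 5099514899) (nat_lit 34) (nat_lit 5) (nat_lit 37) (nat_lit 5) (nat_lit 35) (nat_lit 4) (nat_lit 458) (nat_lit 342) (nat_lit 220)))) (XT.nd (nat_lit 156) (nat_lit 0) (nat_lit 0) (XT.nd (nat_lit 78) (nat_lit 76) (nat_lit 0) (XT.lf (nat_lit 0) (nat_lit 14457138242) (nat_lit 228) (nat_lit 11338955639) (nat_lit 76) (nat_lit 14388922174) (nat_lit 34) (nat_lit 5) (nat_lit 37) (nat_lit 5) (nat_lit 35) (nat_lit 4) (nat_lit 459) (nat_lit 342) (nat_lit 219)) (XT.lf (nat_lit 0) (nat_lit 5808842251) (nat_lit 76) (nat_lit 17111294748)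 (nat_lit 152) (nat_lit 18192326013) (nat_lit 33) (nat_lit 5) (nat_lit 34) (nat_lit 5) (nat_lit 35) (nat_lit 4) (nat_lit 460) (nat_lit 342) (nat_lit 218))) (XT.nd (nat_lit 78) (nat_lit 0) (nat_lit 0) (XT.lf (nat_lit 0) (nat_lit 23678035232) (nat_lit 76) (nat_lit 8060007147) (nat_lit 152) (nat_lit 10326661523) (nat_lit 33) (nat_lit 5) (nat_lit 34) (nat_lit 5) (nat_lit 35) (nat_lit 4) (nat_lit 461) (nat_lit 342) (nat_lit 217)) (XT.lf (nat_lit 0) (nat_lit 40819420189) (nat_lit 152) (nat_lit 999363132) (nat_lit 0) (nat_lit 1226761632) (nat_lit 33) (nat_lit 5) (nat_lit 35) (nat_lit 4) (nat_lit 33) (nat_lit 4) (nat_lit 462) (nat_lit 342) (nat_lit 216))))) (XT.nd (nat_lit 312) (nat_lit 228) (nat_lit 0) (XT.nd (nat_lit 156) (nat_lit 76) (nat_lit 0) (XT.nd (nat_lit 78) (nat_lit 0) (nat_lit 0) (XT.lf (nat_lit 0) (nat_lit 6232091008) (nat_lit 152) (nat_lit 26970024991) (nat_lit 76) (nat_lit 10844910958) (nat_lit 31) (nat_lit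 5) (nat_lit 33) (nat_lit 5) (nat_lit 32) (nat_lit 4) (nat_lit 463) (nat_lit 342) (nat_lit 215)) (XT.lf (nat_lit 0) (nat_lit 14896698495) (nat_lit 152) (nat_lit 9408552554) (nat_lit 76) (nat_lit 20772720412) (nat_lit 31) (nat_lit 5) (nat_lit 33) (nat_lit 5) (nat_lit 32) (nat_lit 4) (nat_lit 464) (nat_lit 342) (nat_lit 214))) (XT.nd (nat_lit 78) (nat_lit 0) (nat_lit 0) (XT.lf (nat_lit 0) (nat_lit 8828441556) (nat_lit 76) (nat_lit 15065236561) (nat_lit 152) (nat_lit 22243994046) (nat_lit 30) (nat_lit 5) (nat_lit 31) (nat_lit 5) (nat_lit 32) (nat_lit 4) (nat_lit 465) (nat_lit 342) (nat_lit 213)) (XT.lf (nat_lit 0) (nat_lit 27782045747) (nat_lit 76) (nat_lit 5461236293) (nat_lit 152) (nat_lit 13983401257) (nat_lit 30) (nat_lit 5) (nat_lit 31) (nat_lit 5) (nat_lit 32) (nat_lit 4) (nat_lit 466) (nat_lit 342) (nat_lit 212)))) (XT.nd (nat_lit 156) (nat_lit 76) (nat_lit 0) (XT.nd (nat_lit 78) (nat_lit 152) (nat_lit 0)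 (XT.lf (nat_lit 0) (nat_lit 42903928136) (nat_lit 152) (nat_lit 1109639899) (nat_lit 0) (nat_lit 4333880940) (nat_lit 30) (nat_lit 5) (nat_lit 32) (nat_lit 4) (nat_lit 30) (nat_lit 4) (nat_lit 467) (nat_lit 342) (nat_lit 211)) (XT.lf (nat_lit 0) (nat_lit 3505176617) (nat_lit 152) (nat_lit 31478416330) (nat_lit 76) (nat_lit 14510737422) (nat_lit 28) (nat_lit 5) (nat_lit 30) (nat_lit 5) (nat_lit 29) (nat_lit 4) (nat_lit 468) (nat_lit 342) (nat_lit 210))) (XT.nd (nat_lit 78) (nat_lit 76) (nat_lit 0) (XT.lf (nat_lit 0) (nat_lit 12612567268) (nat_lit 152) (nat_lit 13013595509) (nat_lit 76) (nat_lit 25047850051) (nat_lit 28) (nat_lit 5) (nat_lit 30) (nat_lit 5) (nat_lit 29) (nat_lit 4) (nat_lit 469) (nat_lit 342) (nat_lit 209)) (XT.lf (nat_lit 0) (nat_lit 6102615699) (nat_lit 76) (nat_lit 15937891568) (nat_lit 152) (nat_lit 29847159404) (nat_lit 27) (nat_lit 5) (nat_lit 28) (nat_lit 5) (nat_lit 29) (nat_lit 4) (nat_lit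 470) (nat_lit 342) (nat_lit 208))))))))
noncomputable def xc108 : XT := (XT.nd (nat_lit 43836) (nat_lit 0) (nat_lit 13452) (XT.nd (nat_lit 1092) (nat_lit 228) (nat_lit 0) (XT.nd (nat_lit 546) (nat_lit 228) (nat_lit 0) (XT.nd (nat_lit 234) (nat_lit 152) (nat_lit 0) (XT.nd (nat_lit 78) (nat_lit 76) (nat_lit 0) (XT.lf (nat_lit 0) (nat_lit 26037653084) (nat_lit 76) (nat_lit 5833833904) (nat_lit 152) (nat_lit 21262637813) (nat_lit 27) (nat_lit 5) (nat_lit 28) (nat_lit 5) (nat_lit 29) (nat_lit 4) (nat_lit 471) (nat_lit 342) (nat_lit 207)) (XT.nd (nat_lit 78) (nat_lit 76) (nat_lit 0) (XT.lf (nat_lit 0) (nat_lit 42030378789) (nat_lit 152) (nat_lit 7912230797) (nat_lit 0) (nat_lit 4474378304) (nat_lit 27) (nat_lit 5) (nat_lit 29) (nat_lit 4) (nat_lit 27) (nat_lit 4) (nat_lit 472) (nat_lit 342) (nat_lit 206)) (XT.lf (nat_lit 0) (nat_lit 12003588589) (nat_lit 76) (nat_lit 40652935999) (nat_lit 76) (nat_lit 3076938343)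 (nat_lit 26) (nat_lit 4) (nat_lit 27) (nat_lit 5) (nat_lit 27) (nat_lit 4) (nat_lit 473) (nat_lit 342) (nat_lit 205)))) (XT.nd (nat_lit 156) (nat_lit 76) (nat_lit 0) (XT.nd (nat_lit 78) (nat_lit 0) (nat_lit 0) (XT.lf (nat_lit 0) (nat_lit 6454990340) (nat_lit 152) (nat_lit 24491781993) (nat_lit 76) (nat_lit 26138681375) (nat_lit 25) (nat_lit 5) (nat_lit 27) (nat_lit 5) (nat_lit 26) (nat_lit 4) (nat_lit 474) (nat_lit 342) (nat_lit 204)) (XT.lf (nat_lit 0) (nat_lit 16200695345) (nat_lit 152) (nat_lit 4726850084) (nat_lit 76) (nat_lit 37549855601) (nat_lit 25) (nat_lit 5) (nat_lit 27) (nat_lit 5) (nat_lit 26) (nat_lit 4) (nat_lit 475) (nat_lit 342) (nat_lit 203))) (XT.nd (nat_lit 78) (nat_lit 0) (nat_lit 0) (XT.lf (nat_lit 0) (nat_lit 15922473944) (nat_lit 76) (nat_lit 10459317101) (nat_lit 152) (nat_lit 33525025740) (nat_lit 24) (nat_lit 5) (nat_lit 25) (nat_lit 5) (nat_lit 26) (nat_lit 4) (nat_lit 476) (nat_lit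 342) (nat_lit 202)) (XT.lf (nat_lit 0) (nat_lit 36909612698) (nat_lit 152) (nat_lit 24112368985) (nat_lit 0) (nat_lit 355895120) (nat_lit 24) (nat_lit 5) (nat_lit 26) (nat_lit 4) (nat_lit 24) (nat_lit 4) (nat_lit 477) (nat_lit 342) (nat_lit 201))))) (XT.nd (nat_lit 234) (nat_lit 76) (nat_lit 0) (XT.nd (nat_lit 78) (nat_lit 152) (nat_lit 0) (XT.lf (nat_lit 0) (nat_lit 47847102420) (nat_lit 152) (nat_lit 3766514239) (nat_lit 0) (nat_lit 11276637527) (nat_lit 24) (nat_lit 5) (nat_lit 26) (nat_lit 4) (nat_lit 24) (nat_lit 4) (nat_lit 478) (nat_lit 342) (nat_lit 200)) (XT.nd (nat_lit 78) (nat_lit 76) (nat_lit 0) (XT.lf (nat_lit 0) (nat_lit 17513288013) (nat_lit 76) (nat_lit 41758336312) (nat_lit 76) (nat_lit 5171611890) (nat_lit 23) (nat_lit 4) (nat_lit 24) (nat_lit 5) (nat_lit 24) (nat_lit 4) (nat_lit 479) (nat_lit 342) (nat_lit 199)) (XT.lf (nat_lit 0) (nat_lit 4927561810) (nat_lit 152) (nat_lit 26599559897) (nat_lit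 76) (nat_lit 34513376384) (nat_lit 22) (nat_lit 5) (nat_lit 24) (nat_lit 5) (nat_lit 23) (nat_lit 4) (nat_lit 480) (nat_lit 342) (nat_lit 198)))) (XT.nd (nat_lit 156) (nat_lit 0) (nat_lit 0) (XT.nd (nat_lit 78) (nat_lit 76) (nat_lit 0) (XT.lf (nat_lit 0) (nat_lit 15216609203) (nat_lit 152) (nat_lit 5728119854) (nat_lit 76) (nat_lit 46739687864) (nat_lit 22) (nat_lit 5) (nat_lit 24) (nat_lit 5) (nat_lit 23) (nat_lit 4) (nat_lit 481) (nat_lit 342) (nat_lit 197)) (XT.lf (nat_lit 0) (nat_lit 16065823895) (nat_lit 76) (nat_lit 9894048127) (nat_lit 152) (nat_lit 43413415464) (nat_lit 21) (nat_lit 5) (nat_lit 22) (nat_lit 5) (nat_lit 23) (nat_lit 4) (nat_lit 482) (nat_lit 342) (nat_lit 196))) (XT.nd (nat_lit 78) (nat_lit 0) (nat_lit 0) (XT.lf (nat_lit 0) (nat_lit 37089279889) (nat_lit 152) (nat_lit 32512119053) (nat_lit 0) (nat_lit 1509510285) (nat_lit 21) (nat_lit 5) (nat_lit 23) (nat_lit 4) (nat_lit 21) (nat_lit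 4) (nat_lit 483) (nat_lit 342) (nat_lit 195)) (XT.lf (nat_lit 0) (nat_lit 48641915955) (nat_lit 152) (nat_lit 11207534493) (nat_lit 0) (nat_lit 13048529251) (nat_lit 21) (nat_lit 5) (nat_lit 23) (nat_lit 4) (nat_lit 21) (nat_lit 4) (nat_lit 484) (nat_lit 342) (nat_lit 194)))))) (XT.nd (nat_lit 42198) (nat_lit 0) (nat_lit 26600) (XT.nd (nat_lit 234) (nat_lit 76) (nat_lit 0) (XT.nd (nat_lit 78) (nat_lit 76) (nat_lit 0) (XT.lf (nat_lit 0) (nat_lit 10933362671) (nat_lit 76) (nat_lit 49704502614) (nat_lit 76) (nat_lit 14097895425) (nat_lit 20) (nat_lit 4) (nat_lit 21) (nat_lit 5) (nat_lit 21) (nat_lit 4) (nat_lit 485) (nat_lit 342) (nat_lit 193)) (XT.nd (nat_lit 78) (nat_lit 76) (nat_lit 0) (XT.lf (nat_lit 0) (nat_lit 33952214574) (nat_lit 76) (nat_lit 39146378313) (nat_lit 76) (nat_lit 3526935702) (nat_lit 20) (nat_lit 4) (nat_lit 21) (nat_lit 5) (nat_lit 21) (nat_lit 4) (nat_lit 486) (nat_lit 342) (nat_lit 192))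 (XT.lf (nat_lit 0) (nat_lit 7209396926) (nat_lit 152) (nat_lit 20996828426) (nat_lit 76) (nat_lit 50363885163) (nat_lit 19) (nat_lit 5) (nat_lit 21) (nat_lit 5) (nat_lit 20) (nat_lit 4) (nat_lit 487) (nat_lit 342) (nat_lit 191)))) (XT.nd (nat_lit 41808) (nat_lit 0) (nat_lit 27360) (XT.nd (nat_lit 78) (nat_lit 0) (nat_lit 0) (XT.lf (nat_lit 0) (nat_lit 1305248222) (nat_lit 76) (nat_lit 16896353268) (nat_lit 152) (nat_lit 62370241106) (nat_lit 18) (nat_lit 5) (nat_lit 19) (nat_lit 5) (nat_lit 20) (nat_lit 4) (nat_lit 488) (nat_lit 342) (nat_lit 190)) (XT.lf (nat_lit 0) (nat_lit 24691697665) (nat_lit 76) (nat_lit 5036108590) (nat_lit 152) (nat_lit 52899693747) (nat_lit 18) (nat_lit 5) (nat_lit 19) (nat_lit 5) (nat_lit 20) (nat_lit 4) (nat_lit 489) (nat_lit 342) (nat_lit 189))) (XT.nd (nat_lit 78) (nat_lit 380) (nat_lit 0) (XT.lf (nat_lit 0) (nat_lit 1177979728) (nat_lit 0) (nat_lit 1177979728) (nat_lit 228) (nat_lit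 884249021) (nat_lit 383) (nat_lit 5) (nat_lit 383) (nat_lit 3) (nat_lit 386) (nat_lit 3) (nat_lit 343) (nat_lit 343) (nat_lit 334)) (XT.lf (nat_lit 0) (nat_lit 949860113) (nat_lit 380) (nat_lit 955783283) (nat_lit 380) (nat_lit 4589240815) (nat_lit 378) (nat_lit 3) (nat_lit 383) (nat_lit 3) (nat_lit 383) (nat_lit 5) (nat_lit 344) (nat_lit 343) (nat_lit 333))))) (XT.nd (nat_lit 234) (nat_lit 456) (nat_lit 0) (XT.nd (nat_lit 78) (nat_lit 304) (nat_lit 0) (XT.lf (nat_lit 76) (nat_lit 2280437087) (nat_lit 0) (nat_lit 1349949635) (nat_lit 380) (nat_lit 2881465111) (nat_lit 379) (nat_lit 5) (nat_lit 378) (nat_lit 3) (nat_lit 383) (nat_lit 5) (nat_lit 345) (nat_lit 343) (nat_lit 332)) (XT.nd (nat_lit 78) (nat_lit 304) (nat_lit 0) (XT.lf (nat_lit 76) (nat_lit 5579367308) (nat_lit 0) (nat_lit 718416718) (nat_lit 380) (nat_lit 234425109) (nat_lit 379) (nat_lit 5) (nat_lit 378) (nat_lit 3) (nat_lit 383) (nat_lit 5) (nat_lit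 346) (nat_lit 343) (nat_lit 331)) (XT.lf (nat_lit 0) (nat_lit 2365402031) (nat_lit 380) (nat_lit 4162803845) (nat_lit 456) (nat_lit 26662539) (nat_lit 374) (nat_lit 5) (nat_lit 379) (nat_lit 5) (nat_lit 380) (nat_lit 5) (nat_lit 347) (nat_lit 343) (nat_lit 330)))) (XT.nd (nat_lit 156) (nat_lit 0) (nat_lit 0) (XT.nd (nat_lit 78) (nat_lit 456) (nat_lit 0) (XT.lf (nat_lit 0) (nat_lit 4956950692) (nat_lit 380) (nat_lit 788010219) (nat_lit 456) (nat_lit 835691773) (nat_lit 374) (nat_lit 5) (nat_lit 379) (nat_lit 5) (nat_lit 380) (nat_lit 5) (nat_lit 348) (nat_lit 343) (nat_lit 329)) (XT.lf (nat_lit 0) (nat_lit 928676060) (nat_lit 456) (nat_lit 3933798187) (nat_lit 532) (nat_lit 1746620684) (nat_lit 368) (nat_lit 5) (nat_lit 374) (nat_lit 5) (nat_lit 375) (nat_lit 5) (nat_lit 349) (nat_lit 343) (nat_lit 328))) (XT.nd (nat_lit 78) (nat_lit 0) (nat_lit 0) (XT.lf (nat_lit 0) (nat_lit 3438766261) (nat_lit 456) (nat_lit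 452782466) (nat_lit 532) (nat_lit 2749008388) (nat_lit 368) (nat_lit 5) (nat_lit 374) (nat_lit 5) (nat_lit 375) (nat_lit 5) (nat_lit 350) (nat_lit 343) (nat_lit 327)) (XT.lf (nat_lit 76) (nat_lit 3138437942) (nat_lit 0) (nat_lit 2824374727) (nat_lit 532) (nat_lit 712051301) (nat_lit 369) (nat_lit 5) (nat_lit 368) (nat_lit 5) (nat_lit 375) (nat_lit 5) (nat_lit 351) (nat_lit 343) (nat_lit 326))))))) (XT.nd (nat_lit 1092) (nat_lit 7068) (nat_lit 0) (XT.nd (nat_lit 546) (nat_lit 3648) (nat_lit 0) (XT.nd (nat_lit 234) (nat_lit 1444) (nat_lit 0) (XT.nd (nat_lit 78) (nat_lit 456) (nat_lit 0) (XT.lf (nat_lit 76) (nat_lit 63217105) (nat_lit 0) (nat_lit 1667921889) (nat_lit 608) (nat_lit 4981136641) (nat_lit 362) (nat_lit 5) (nat_lit 361) (nat_lit 5) (nat_lit 369) (nat_lit 5) (nat_lit 352) (nat_lit 343) (nat_lit 325)) (XT.nd (nat_lit 78) (nat_lit 456) (nat_lit 0) (XT.lf (nat_lit 76) (nat_lit 3779930434) (nat_lit 0) (nat_lit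 400795134) (nat_lit 608) (nat_lit 2571505504) (nat_lit 362) (nat_lit 5) (nat_lit 361) (nat_lit 5) (nat_lit 369) (nat_lit 5) (nat_lit 353) (nat_lit 343) (nat_lit 324)) (XT.lf (nat_lit 0) (nat_lit 763457984) (nat_lit 532) (nat_lit 5871012459) (nat_lit 608) (nat_lit 161048282) (nat_lit 355) (nat_lit 5) (nat_lit 362) (nat_lit 5) (nat_lit 363) (nat_lit 5) (nat_lit 354) (nat_lit 343) (nat_lit 323)))) (XT.nd (nat_lit 156) (nat_lit 760) (nat_lit 0) (XT.nd (nat_lit 78) (nat_lit 608) (nat_lit 0) (XT.lf (nat_lit 0) (nat_lit 2226397912) (nat_lit 608) (nat_lit 2252240448) (nat_lit 76) (nat_lit 2362348296) (nat_lit 354) (nat_lit 5) (nat_lit 362) (nat_lit 5) (nat_lit 355) (nat_lit 5) (nat_lit 355) (nat_lit 343) (nat_lit 322)) (XT.lf (nat_lit 0) (nat_lit 1613910774) (nat_lit 608) (nat_lit 3001989609) (nat_lit 684) (nat_lit 2273909433) (nat_lit 346) (nat_lit 5) (nat_lit 354) (nat_lit 5) (nat_lit 355) (nat_lit 5) (nat_lit 356)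 (nat_lit 343) (nat_lit 321))) (XT.nd (nat_lit 78) (nat_lit 684) (nat_lit 0) (XT.lf (nat_lit 0) (nat_lit 76444135) (nat_lit 684) (nat_lit 1356801237) (nat_lit 76) (nat_lit 5508595282) (nat_lit 345) (nat_lit 5) (nat_lit 354) (nat_lit 5) (nat_lit 346) (nat_lit 5) (nat_lit 357) (nat_lit 343) (nat_lit 320)) (XT.lf (nat_lit 0) (nat_lit 2401061013) (nat_lit 760) (nat_lit 4346082214) (nat_lit 76) (nat_lit 249175043) (nat_lit 336) (nat_lit 5) (nat_lit 346) (nat_lit 5) (nat_lit 337) (nat_lit 5) (nat_lit 358) (nat_lit 343) (nat_lit 319))))) (XT.nd (nat_lit 234) (nat_lit 1976) (nat_lit 0) (XT.nd (nat_lit 78) (nat_lit 1672) (nat_lit 0) (XT.lf (nat_lit 0) (nat_lit 4746907496) (nat_lit 760) (nat_lit 319410128) (nat_lit 76) (nat_lit 1987611501) (nat_lit 336) (nat_lit 5) (nat_lit 346) (nat_lit 5) (nat_lit 337) (nat_lit 5) (nat_lit 359) (nat_lit 343) (nat_lit 318)) (XT.nd (nat_lit 78) (nat_lit 836) (nat_lit 0) (XT.lf (nat_lit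 0) (nat_lit 11144502) (nat_lit 836) (nat_lit 3268081977) (nat_lit 76) (nat_lit 3835200893) (nat_lit 325) (nat_lit 5) (nat_lit 336) (nat_lit 5) (nat_lit 326) (nat_lit 5) (nat_lit 360) (nat_lit 343) (nat_lit 317)) (XT.lf (nat_lit 0) (nat_lit 904138136) (nat_lit 836) (nat_lit 1386855171) (nat_lit 912) (nat_lit 4886946750) (nat_lit 314) (nat_lit 5) (nat_lit 325) (nat_lit 5) (nat_lit 326) (nat_lit 5) (nat_lit 361) (nat_lit 343) (nat_lit 316)))) (XT.nd (nat_lit 156) (nat_lit 1064) (nat_lit 0) (XT.nd (nat_lit 78) (nat_lit 912) (nat_lit 0) (XT.lf (nat_lit 0) (nat_lit 4606261733) (nat_lit 912) (nat_lit 2038962910) (nat_lit 76) (nat_lit 599161530) (nat_lit 314) (nat_lit 5) (nat_lit 326) (nat_lit 5) (nat_lit 315) (nat_lit 5) (nat_lit 362) (nat_lit 343) (nat_lit 315)) (XT.lf (nat_lit 0) (nat_lit 2296349241) (nat_lit 912) (nat_lit 4660823874) (nat_lit 988) (nat_lit 356704657) (nat_lit 302) (nat_lit 5) (nat_lit 314) (nat_lit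 5) (nat_lit 315) (nat_lit 5) (nat_lit 363) (nat_lit 343) (nat_lit 314))) (XT.nd (nat_lit 78) (nat_lit 988) (nat_lit 0) (XT.lf (nat_lit 0) (nat_lit 1906205698) (nat_lit 988) (nat_lit 659173645) (nat_lit 76) (nat_lit 4820977231) (nat_lit 301) (nat_lit 5) (nat_lit 314) (nat_lit 5) (nat_lit 302) (nat_lit 5) (nat_lit 364) (nat_lit 343) (nat_lit 313)) (XT.lf (nat_lit 0) (nat_lit 3844635070) (nat_lit 988) (nat_lit 355309538) (nat_lit 1064) (nat_lit 3261890310) (nat_lit 288) (nat_lit 5) (nat_lit 301) (nat_lit 5) (nat_lit 302) (nat_lit 5) (nat_lit 365) (nat_lit 343) (nat_lit 312)))))) (XT.nd (nat_lit 546) (nat_lit 2888) (nat_lit 0) (XT.nd (nat_lit 234) (nat_lit 1900) (nat_lit 0) (XT.nd (nat_lit 78) (nat_lit 1216) (nat_lit 0) (XT.lf (nat_lit 0) (nat_lit 898374537) (nat_lit 1064) (nat_lit 5632594212) (nat_lit 1140) (nat_lit 1009588120) (nat_lit 274) (nat_lit 5) (nat_lit 288) (nat_lit 5) (nat_lit 289) (nat_lit 5) (nat_lit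 366) (nat_lit 343) (nat_lit 311)) (XT.nd (nat_lit 78) (nat_lit 1140) (nat_lit 0) (XT.lf (nat_lit 0) (nat_lit 1260452456) (nat_lit 1140) (nat_lit 2072517307) (nat_lit 76) (nat_lit 4289052258) (nat_lit 273) (nat_lit 5) (nat_lit 288) (nat_lit 5) (nat_lit 274) (nat_lit 5) (nat_lit 367) (nat_lit 343) (nat_lit 310)) (XT.lf (nat_lit 0) (nat_lit 2617985329) (nat_lit 1140) (nat_lit 922697899) (nat_lit 1216) (nat_lit 4166107211) (nat_lit 258) (nat_lit 5) (nat_lit 273) (nat_lit 5) (nat_lit 274) (nat_lit 5) (nat_lit 368) (nat_lit 343) (nat_lit 309)))) (XT.nd (nat_lit 156) (nat_lit 608) (nat_lit 0) (XT.nd (nat_lit 78) (nat_lit 1292) (nat_lit 0) (XT.lf (nat_lit 0) (nat_lit 5863994327) (nat_lit 1216) (nat_lit 375688919) (nat_lit 76) (nat_lit 1555208181) (nat_lit 258) (nat_lit 5) (nat_lit 274) (nat_lit 5) (nat_lit 259) (nat_lit 5) (nat_lit 369) (nat_lit 343) (nat_lit 308)) (XT.lf (nat_lit 0) (nat_lit 356752915) (nat_lit 1292)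 (nat_lit 3388864552) (nat_lit 76) (nat_lit 4140159985) (nat_lit 241) (nat_lit 5) (nat_lit 258) (nat_lit 5) (nat_lit 242) (nat_lit 5) (nat_lit 370) (nat_lit 343) (nat_lit 307))) (XT.nd (nat_lit 78) (nat_lit 0) (nat_lit 0) (XT.lf (nat_lit 0) (nat_lit 1496529898) (nat_lit 608) (nat_lit 1136832561) (nat_lit 684) (nat_lit 5346707087) (nat_lit 233) (nat_lit 5) (nat_lit 241) (nat_lit 5) (nat_lit 242) (nat_lit 5) (nat_lit 371) (nat_lit 343) (nat_lit 306)) (XT.lf (nat_lit 0) (nat_lit 4969834072) (nat_lit 684) (nat_lit 1552291406) (nat_lit 76) (nat_lit 1555344415) (nat_lit 233) (nat_lit 5) (nat_lit 242) (nat_lit 5) (nat_lit 234) (nat_lit 5) (nat_lit 372) (nat_lit 343) (nat_lit 305))))) (XT.nd (nat_lit 312) (nat_lit 1064) (nat_lit 0) (XT.nd (nat_lit 156) (nat_lit 532) (nat_lit 0) (XT.nd (nat_lit 78) (nat_lit 684) (nat_lit 0) (XT.lf (nat_lit 0) (nat_lit 3527341723) (nat_lit 608) (nat_lit 3838009632) (nat_lit 684) (nat_lit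 812797988) (nat_lit 225) (nat_lit 5) (nat_lit 233) (nat_lit 5) (nat_lit 234) (nat_lit 5) (nat_lit 373) (nat_lit 343) (nat_lit 304)) (XT.lf (nat_lit 0) (nat_lit 445739795) (nat_lit 608) (nat_lit 1039308973) (nat_lit 684) (nat_lit 6797444514) (nat_lit 216) (nat_lit 5) (nat_lit 224) (nat_lit 5) (nat_lit 225) (nat_lit 5) (nat_lit 374) (nat_lit 343) (nat_lit 303))) (XT.nd (nat_lit 78) (nat_lit 532) (nat_lit 0) (XT.lf (nat_lit 0) (nat_lit 3846003619) (nat_lit 684) (nat_lit 2683042242) (nat_lit 76) (nat_lit 1860388441) (nat_lit 216) (nat_lit 5) (nat_lit 225) (nat_lit 5) (nat_lit 217) (nat_lit 5) (nat_lit 375) (nat_lit 343) (nat_lit 302)) (XT.lf (nat_lit 0) (nat_lit 2608837461) (nat_lit 532) (nat_lit 3651269684) (nat_lit 608) (nat_lit 2240029585) (nat_lit 209) (nat_lit 5) (nat_lit 216) (nat_lit 5) (nat_lit 217) (nat_lit 5) (nat_lit 376) (nat_lit 343) (nat_lit 301)))) (XT.nd (nat_lit 156) (nat_lit 456) (nat_lit 0) (XT.nd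 (nat_lit 78) (nat_lit 532) (nat_lit 0) (XT.lf (nat_lit 0) (nat_lit 104667302) (nat_lit 608) (nat_lit 557984865) (nat_lit 76) (nat_lit 7952247965) (nat_lit 208) (nat_lit 5) (nat_lit 216) (nat_lit 5) (nat_lit 209) (nat_lit 5) (nat_lit 377) (nat_lit 343) (nat_lit 300)) (XT.lf (nat_lit 0) (nat_lit 2495116508) (nat_lit 608) (nat_lit 3802502733) (nat_lit 76) (nat_lit 2434229671) (nat_lit 201) (nat_lit 5) (nat_lit 209) (nat_lit 5) (nat_lit 202) (nat_lit 5) (nat_lit 378) (nat_lit 343) (nat_lit 299))) (XT.nd (nat_lit 78) (nat_lit 0) (nat_lit 0) (XT.lf (nat_lit 0) (nat_lit 1710543325) (nat_lit 456) (nat_lit 3225283007) (nat_lit 532) (nat_lit 3917143646) (nat_lit 195) (nat_lit 5) (nat_lit 201) (nat_lit 5) (nat_lit 202) (nat_lit 5) (nat_lit 379) (nat_lit 343) (nat_lit 298)) (XT.lf (nat_lit 0) (nat_lit 7410668358) (nat_lit 456) (nat_lit 28259797) (nat_lit 532) (nat_lit 1539141047) (nat_lit 195) (nat_lit 5) (nat_lit 201)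 (nat_lit 5) (nat_lit 202) (nat_lit 5) (nat_lit 380) (nat_lit 343) (nat_lit 297))))))))
noncomputable def xc109 : XT := (XT.nd (nat_lit 2184) (nat_lit 3496) (nat_lit 0) (XT.nd (nat_lit 1092) (nat_lit 2964) (nat_lit 0) (XT.nd (nat_lit 546) (nat_lit 1672) (nat_lit 0) (XT.nd (nat_lit 234) (nat_lit 1368) (nat_lit 0) (XT.nd (nat_lit 78) (nat_lit 456) (nat_lit 0) (XT.lf (nat_lit 0) (nat_lit 916251717) (nat_lit 608) (nat_lit 4946381370) (nat_lit 76) (nat_lit 3243330012) (nat_lit 187) (nat_lit 5) (nat_lit 195) (nat_lit 5) (nat_lit 188) (nat_lit 5) (nat_lit 381) (nat_lit 343) (nat_lit 296)) (XT.nd (nat_lit 78) (nat_lit 0) (nat_lit 0) (XT.lf (nat_lit 0) (nat_lit 796734163) (nat_lit 456) (nat_lit 2594078172) (nat_lit 532) (nat_lit 5847149049) (nat_lit 181) (nat_lit 5) (nat_lit 187) (nat_lit 5) (nat_lit 188) (nat_lit 5) (nat_lit 382) (nat_lit 343) (nat_lit 295)) (XT.lf (nat_lit 0) (nat_lit 5950754683) (nat_lit 532) (nat_lit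 2623999675) (nat_lit 76) (nat_lit 798848369) (nat_lit 181) (nat_lit 5) (nat_lit 188) (nat_lit 5) (nat_lit 182) (nat_lit 5) (nat_lit 383) (nat_lit 343) (nat_lit 294)))) (XT.nd (nat_lit 156) (nat_lit 836) (nat_lit 0) (XT.nd (nat_lit 78) (nat_lit 76) (nat_lit 0) (XT.lf (nat_lit 0) (nat_lit 3351938027) (nat_lit 456) (nat_lit 5248098553) (nat_lit 532) (nat_lit 912917440) (nat_lit 175) (nat_lit 5) (nat_lit 181) (nat_lit 5) (nat_lit 182) (nat_lit 5) (nat_lit 384) (nat_lit 343) (nat_lit 293)) (XT.lf (nat_lit 0) (nat_lit 1621409599) (nat_lit 532) (nat_lit 166984096) (nat_lit 76) (nat_lit 7868173933) (nat_lit 174) (nat_lit 5) (nat_lit 181) (nat_lit 5) (nat_lit 175) (nat_lit 5) (nat_lit 385) (nat_lit 343) (nat_lit 292))) (XT.nd (nat_lit 78) (nat_lit 456) (nat_lit 0) (XT.lf (nat_lit 0) (nat_lit 4245599482) (nat_lit 456) (nat_lit 3759577974) (nat_lit 76) (nat_lit 1798091083) (nat_lit 169) (nat_lit 5) (nat_lit 175) (nat_lit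 5) (nat_lit 170) (nat_lit 5) (nat_lit 386) (nat_lit 343) (nat_lit 291)) (XT.lf (nat_lit 0) (nat_lit 2465231693) (nat_lit 456) (nat_lit 4483326816) (nat_lit 532) (nat_lit 3005825722) (nat_lit 163) (nat_lit 5) (nat_lit 169) (nat_lit 5) (nat_lit 170) (nat_lit 5) (nat_lit 387) (nat_lit 343) (nat_lit 290))))) (XT.nd (nat_lit 234) (nat_lit 836) (nat_lit 0) (XT.nd (nat_lit 78) (nat_lit 836) (nat_lit 0) (XT.lf (nat_lit 0) (nat_lit 8899453053) (nat_lit 456) (nat_lit 828785333) (nat_lit 532) (nat_lit 381940667) (nat_lit 163) (nat_lit 5) (nat_lit 169) (nat_lit 5) (nat_lit 170) (nat_lit 5) (nat_lit 388) (nat_lit 343) (nat_lit 289)) (XT.nd (nat_lit 78) (nat_lit 380) (nat_lit 0) (XT.lf (nat_lit 0) (nat_lit 2313465352) (nat_lit 456) (nat_lit 5015354377) (nat_lit 76) (nat_lit 2940029875) (nat_lit 157) (nat_lit 5) (nat_lit 163) (nat_lit 5) (nat_lit 158) (nat_lit 5) (nat_lit 389) (nat_lit 343) (nat_lit 288)) (XT.lf (nat_lit 0)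 (nat_lit 1466813093) (nat_lit 380) (nat_lit 3608956680) (nat_lit 456) (nat_lit 5356599045) (nat_lit 152) (nat_lit 5) (nat_lit 157) (nat_lit 5) (nat_lit 158) (nat_lit 5) (nat_lit 390) (nat_lit 343) (nat_lit 287)))) (XT.nd (nat_lit 156) (nat_lit 380) (nat_lit 0) (XT.nd (nat_lit 78) (nat_lit 456) (nat_lit 0) (XT.lf (nat_lit 0) (nat_lit 7933835710) (nat_lit 456) (nat_lit 2410468372) (nat_lit 76) (nat_lit 256115744) (nat_lit 152) (nat_lit 5) (nat_lit 158) (nat_lit 5) (nat_lit 153) (nat_lit 5) (nat_lit 391) (nat_lit 343) (nat_lit 286)) (XT.lf (nat_lit 0) (nat_lit 140670274) (nat_lit 456) (nat_lit 6436801857) (nat_lit 76) (nat_lit 4194865318) (nat_lit 146) (nat_lit 5) (nat_lit 152) (nat_lit 5) (nat_lit 147) (nat_lit 5) (nat_lit 392) (nat_lit 343) (nat_lit 285))) (XT.nd (nat_lit 78) (nat_lit 0) (nat_lit 0) (XT.lf (nat_lit 0) (nat_lit 310588651) (nat_lit 380) (nat_lit 2656550626) (nat_lit 456) (nat_lit 7981835376) (nat_lit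 141) (nat_lit 5) (nat_lit 146) (nat_lit 5) (nat_lit 147) (nat_lit 5) (nat_lit 393) (nat_lit 343) (nat_lit 284)) (XT.lf (nat_lit 0) (nat_lit 5918840468) (nat_lit 456) (nat_lit 3804516243) (nat_lit 76) (nat_lit 1406352660) (nat_lit 141) (nat_lit 5) (nat_lit 147) (nat_lit 5) (nat_lit 142) (nat_lit 5) (nat_lit 394) (nat_lit 343) (nat_lit 283)))))) (XT.nd (nat_lit 546) (nat_lit 1216) (nat_lit 0) (XT.nd (nat_lit 234) (nat_lit 988) (nat_lit 0) (XT.nd (nat_lit 78) (nat_lit 456) (nat_lit 0) (XT.lf (nat_lit 0) (nat_lit 3218467056) (nat_lit 304) (nat_lit 5760497905) (nat_lit 380) (nat_lit 2336316207) (nat_lit 137) (nat_lit 5) (nat_lit 141) (nat_lit 5) (nat_lit 142) (nat_lit 5) (nat_lit 395) (nat_lit 343) (nat_lit 282)) (XT.nd (nat_lit 78) (nat_lit 380) (nat_lit 0) (XT.lf (nat_lit 0) (nat_lit 613932575) (nat_lit 380) (nat_lit 1034162237) (nat_lit 76) (nat_lit 9858106425) (nat_lit 136) (nat_lit 5) (nat_lit 141) (nat_lit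 5) (nat_lit 137) (nat_lit 5) (nat_lit 396) (nat_lit 343) (nat_lit 281)) (XT.lf (nat_lit 0) (nat_lit 3655669664) (nat_lit 456) (nat_lit 5438142707) (nat_lit 76) (nat_lit 2606854682) (nat_lit 131) (nat_lit 5) (nat_lit 137) (nat_lit 5) (nat_lit 132) (nat_lit 5) (nat_lit 397) (nat_lit 343) (nat_lit 280)))) (XT.nd (nat_lit 156) (nat_lit 684) (nat_lit 0) (XT.nd (nat_lit 78) (nat_lit 0) (nat_lit 0) (XT.lf (nat_lit 0) (nat_lit 1867134698) (nat_lit 304) (nat_lit 4930684235) (nat_lit 380) (nat_lit 5102883064) (nat_lit 127) (nat_lit 5) (nat_lit 131) (nat_lit 5) (nat_lit 132) (nat_lit 5) (nat_lit 398) (nat_lit 343) (nat_lit 279)) (XT.lf (nat_lit 0) (nat_lit 9452016329) (nat_lit 304) (nat_lit 602026652) (nat_lit 380) (nat_lit 2052110364) (nat_lit 127) (nat_lit 5) (nat_lit 131) (nat_lit 5) (nat_lit 132) (nat_lit 5) (nat_lit 399) (nat_lit 343) (nat_lit 278))) (XT.nd (nat_lit 78) (nat_lit 304) (nat_lit 0) (XT.lf (nat_lit 0)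 (nat_lit 1119882152) (nat_lit 380) (nat_lit 7371357645) (nat_lit 76) (nat_lit 3824694060) (nat_lit 122) (nat_lit 5) (nat_lit 127) (nat_lit 5) (nat_lit 123) (nat_lit 5) (nat_lit 400) (nat_lit 343) (nat_lit 277)) (XT.lf (nat_lit 0) (nat_lit 221615066) (nat_lit 304) (nat_lit 4125275722) (nat_lit 380) (nat_lit 8184483251) (nat_lit 118) (nat_lit 5) (nat_lit 122) (nat_lit 5) (nat_lit 123) (nat_lit 5) (nat_lit 401) (nat_lit 343) (nat_lit 276))))) (XT.nd (nat_lit 234) (nat_lit 836) (nat_lit 0) (XT.nd (nat_lit 78) (nat_lit 380) (nat_lit 0) (XT.lf (nat_lit 0) (nat_lit 7715750214) (nat_lit 380) (nat_lit 4612850609) (nat_lit 76) (nat_lit 423333976) (nat_lit 118) (nat_lit 5) (nat_lit 123) (nat_lit 5) (nat_lit 119) (nat_lit 5) (nat_lit 402) (nat_lit 343) (nat_lit 275)) (XT.nd (nat_lit 78) (nat_lit 76) (nat_lit 0) (XT.lf (nat_lit 0) (nat_lit 3288802760) (nat_lit 304) (nat_lit 7936607255) (nat_lit 380) (nat_lit 1752518665)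 (nat_lit 114) (nat_lit 5) (nat_lit 118) (nat_lit 5) (nat_lit 119) (nat_lit 5) (nat_lit 403) (nat_lit 343) (nat_lit 274)) (XT.lf (nat_lit 0) (nat_lit 1612329839) (nat_lit 380) (nat_lit 1753031890) (nat_lit 76) (nat_lit 9844444357) (nat_lit 113) (nat_lit 5) (nat_lit 118) (nat_lit 5) (nat_lit 114) (nat_lit 5) (nat_lit 404) (nat_lit 343) (nat_lit 273)))) (XT.nd (nat_lit 156) (nat_lit 304) (nat_lit 0) (XT.nd (nat_lit 78) (nat_lit 304) (nat_lit 0) (XT.lf (nat_lit 0) (nat_lit 5087128333) (nat_lit 304) (nat_lit 6978682207) (nat_lit 76) (nat_lit 1380989503) (nat_lit 110) (nat_lit 5) (nat_lit 114) (nat_lit 5) (nat_lit 111) (nat_lit 5) (nat_lit 405) (nat_lit 343) (nat_lit 272)) (XT.lf (nat_lit 0) (nat_lit 1223311734) (nat_lit 304) (nat_lit 7474498455) (nat_lit 380) (nat_lit 4992151853) (nat_lit 106) (nat_lit 5) (nat_lit 110) (nat_lit 5) (nat_lit 111) (nat_lit 5) (nat_lit 406) (nat_lit 343) (nat_lit 271))) (XT.nd (nat_lit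 78) (nat_lit 304) (nat_lit 0) (XT.lf (nat_lit 0) (nat_lit 9766368868) (nat_lit 304) (nat_lit 2690047213) (nat_lit 380) (nat_lit 1482821905) (nat_lit 106) (nat_lit 5) (nat_lit 110) (nat_lit 5) (nat_lit 111) (nat_lit 5) (nat_lit 407) (nat_lit 343) (nat_lit 270)) (XT.lf (nat_lit 0) (nat_lit 2124062906) (nat_lit 304) (nat_lit 9829407989) (nat_lit 76) (nat_lit 2240897116) (nat_lit 102) (nat_lit 5) (nat_lit 106) (nat_lit 5) (nat_lit 103) (nat_lit 5) (nat_lit 408) (nat_lit 343) (nat_lit 269))))))) (XT.nd (nat_lit 1092) (nat_lit 1596) (nat_lit 0) (XT.nd (nat_lit 546) (nat_lit 912) (nat_lit 0) (XT.nd (nat_lit 234) (nat_lit 532) (nat_lit 0) (XT.nd (nat_lit 78) (nat_lit 456) (nat_lit 0) (XT.lf (nat_lit 0) (nat_lit 5848537031) (nat_lit 304) (nat_lit 1300694611) (nat_lit 76) (nat_lit 7306310854) (nat_lit 102) (nat_lit 5) (nat_lit 106) (nat_lit 5) (nat_lit 103) (nat_lit 5) (nat_lit 409) (nat_lit 343) (nat_lit 268)) (XT.nd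 (nat_lit 78) (nat_lit 228) (nat_lit 0) (XT.lf (nat_lit 0) (nat_lit 7585752282) (nat_lit 228) (nat_lit 2142782753) (nat_lit 304) (nat_lit 4994709881) (nat_lit 99) (nat_lit 5) (nat_lit 102) (nat_lit 5) (nat_lit 103) (nat_lit 5) (nat_lit 410) (nat_lit 343) (nat_lit 267)) (XT.lf (nat_lit 0) (nat_lit 1725026209) (nat_lit 228) (nat_lit 12029841006) (nat_lit 304) (nat_lit 1243219370) (nat_lit 96) (nat_lit 5) (nat_lit 99) (nat_lit 5) (nat_lit 100) (nat_lit 5) (nat_lit 411) (nat_lit 343) (nat_lit 266)))) (XT.nd (nat_lit 156) (nat_lit 228) (nat_lit 0) (XT.nd (nat_lit 78) (nat_lit 228) (nat_lit 0) (XT.lf (nat_lit 0) (nat_lit 2634906553) (nat_lit 304) (nat_lit 4372930049) (nat_lit 76) (nat_lit 8270629995) (nat_lit 95) (nat_lit 5) (nat_lit 99) (nat_lit 5) (nat_lit 96) (nat_lit 5) (nat_lit 412) (nat_lit 343) (nat_lit 265)) (XT.lf (nat_lit 0) (nat_lit 4830991501) (nat_lit 228) (nat_lit 1791902025) (nat_lit 304) (nat_lit 8943445747)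 (nat_lit 92) (nat_lit 5) (nat_lit 95) (nat_lit 5) (nat_lit 96) (nat_lit 5) (nat_lit 413) (nat_lit 343) (nat_lit 264))) (XT.nd (nat_lit 78) (nat_lit 228) (nat_lit 0) (XT.lf (nat_lit 0) (nat_lit 10781818169) (nat_lit 304) (nat_lit 1541104790) (nat_lit 76) (nat_lit 3538391738) (nat_lit 92) (nat_lit 5) (nat_lit 96) (nat_lit 5) (nat_lit 93) (nat_lit 5) (nat_lit 414) (nat_lit 343) (nat_lit 263)) (XT.lf (nat_lit 0) (nat_lit 8023720205) (nat_lit 228) (nat_lit 7109752873) (nat_lit 304) (nat_lit 1029632783) (nat_lit 89) (nat_lit 5) (nat_lit 92) (nat_lit 5) (nat_lit 93) (nat_lit 5) (nat_lit 415) (nat_lit 343) (nat_lit 262))))) (XT.nd (nat_lit 234) (nat_lit 456) (nat_lit 0) (XT.nd (nat_lit 78) (nat_lit 152) (nat_lit 0) (XT.lf (nat_lit 0) (nat_lit 1386108999) (nat_lit 228) (nat_lit 1696540126) (nat_lit 304) (nat_lit 13390333813) (nat_lit 85) (nat_lit 5) (nat_lit 88) (nat_lit 5) (nat_lit 89) (nat_lit 5) (nat_lit 416) (nat_lit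 343) (nat_lit 261)) (XT.nd (nat_lit 78) (nat_lit 152) (nat_lit 0) (XT.lf (nat_lit 0) (nat_lit 7391280916) (nat_lit 304) (nat_lit 5518149699) (nat_lit 76) (nat_lit 3879614498) (nat_lit 85) (nat_lit 5) (nat_lit 89) (nat_lit 5) (nat_lit 86) (nat_lit 5) (nat_lit 417) (nat_lit 343) (nat_lit 260)) (XT.lf (nat_lit 0) (nat_lit 4362886216) (nat_lit 152) (nat_lit 7499179295) (nat_lit 228) (nat_lit 5251541580) (nat_lit 83) (nat_lit 5) (nat_lit 85) (nat_lit 5) (nat_lit 86) (nat_lit 5) (nat_lit 418) (nat_lit 343) (nat_lit 259)))) (XT.nd (nat_lit 156) (nat_lit 152) (nat_lit 0) (XT.nd (nat_lit 78) (nat_lit 304) (nat_lit 0) (XT.lf (nat_lit 0) (nat_lit 14610804051) (nat_lit 152) (nat_lit 1886392337) (nat_lit 228) (nat_lit 949807475) (nat_lit 83) (nat_lit 5) (nat_lit 85) (nat_lit 5) (nat_lit 86) (nat_lit 5) (nat_lit 419) (nat_lit 343) (nat_lit 258)) (XT.lf (nat_lit 0) (nat_lit 3497934224) (nat_lit 304) (nat_lit 10380660257) (nat_lit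 76) (nat_lit 3908262109) (nat_lit 79) (nat_lit 5) (nat_lit 83) (nat_lit 5) (nat_lit 80) (nat_lit 5) (nat_lit 420) (nat_lit 343) (nat_lit 257))) (XT.nd (nat_lit 78) (nat_lit 152) (nat_lit 0) (XT.lf (nat_lit 0) (nat_lit 8082779649) (nat_lit 304) (nat_lit 192503588) (nat_lit 76) (nat_lit 9860660917) (nat_lit 79) (nat_lit 5) (nat_lit 83) (nat_lit 5) (nat_lit 80) (nat_lit 5) (nat_lit 421) (nat_lit 343) (nat_lit 256)) (XT.lf (nat_lit 0) (nat_lit 10464629701) (nat_lit 152) (nat_lit 2417017516) (nat_lit 228) (nat_lit 5611566924) (nat_lit 77) (nat_lit 5) (nat_lit 79) (nat_lit 5) (nat_lit 80) (nat_lit 5) (nat_lit 422) (nat_lit 343) (nat_lit 255)))))) (XT.nd (nat_lit 546) (nat_lit 760) (nat_lit 0) (XT.nd (nat_lit 234) (nat_lit 380) (nat_lit 0) (XT.nd (nat_lit 78) (nat_lit 228) (nat_lit 0) (XT.lf (nat_lit 0) (nat_lit 2558386689) (nat_lit 228) (nat_lit 15303456350) (nat_lit 304) (nat_lit 998242305) (nat_lit 74) (nat_lit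 5) (nat_lit 77) (nat_lit 5) (nat_lit 78) (nat_lit 5) (nat_lit 423) (nat_lit 343) (nat_lit 254)) (XT.nd (nat_lit 78) (nat_lit 152) (nat_lit 0) (XT.lf (nat_lit 0) (nat_lit 3762151561) (nat_lit 304) (nat_lit 5709904638) (nat_lit 76) (nat_lit 9762370411) (nat_lit 73) (nat_lit 5) (nat_lit 77) (nat_lit 5) (nat_lit 74) (nat_lit 5) (nat_lit 424) (nat_lit 343) (nat_lit 253)) (XT.lf (nat_lit 0) (nat_lit 5252344121) (nat_lit 152) (nat_lit 3420241032) (nat_lit 228) (nat_lit 10946301348) (nat_lit 71) (nat_lit 5) (nat_lit 73) (nat_lit 5) (nat_lit 74) (nat_lit 5) (nat_lit 425) (nat_lit 343) (nat_lit 252)))) (XT.nd (nat_lit 156) (nat_lit 228) (nat_lit 0) (XT.nd (nat_lit 78) (nat_lit 152) (nat_lit 0) (XT.lf (nat_lit 0) (nat_lit 13792541910) (nat_lit 228) (nat_lit 3420302284) (nat_lit 76) (nat_lit 2800173228) (nat_lit 71) (nat_lit 5) (nat_lit 74) (nat_lit 5) (nat_lit 72) (nat_lit 5) (nat_lit 426) (nat_lit 343) (nat_lit 251))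 (XT.lf (nat_lit 0) (nat_lit 7936449117) (nat_lit 152) (nat_lit 11217412633) (nat_lit 228) (nat_lit 1262481026) (nat_lit 69) (nat_lit 5) (nat_lit 71) (nat_lit 5) (nat_lit 72) (nat_lit 5) (nat_lit 427) (nat_lit 343) (nat_lit 250))) (XT.nd (nat_lit 78) (nat_lit 152) (nat_lit 0) (XT.lf (nat_lit 0) (nat_lit 3781788864) (nat_lit 228) (nat_lit 1202958399) (nat_lit 76) (nat_lit 15845538741) (nat_lit 68) (nat_lit 5) (nat_lit 71) (nat_lit 5) (nat_lit 69) (nat_lit 5) (nat_lit 428) (nat_lit 343) (nat_lit 249)) (XT.lf (nat_lit 0) (nat_lit 9046688669) (nat_lit 228) (nat_lit 10700450255) (nat_lit 76) (nat_lit 1506296461) (nat_lit 66) (nat_lit 5) (nat_lit 69) (nat_lit 5) (nat_lit 67) (nat_lit 5) (nat_lit 429) (nat_lit 343) (nat_lit 248))))) (XT.nd (nat_lit 312) (nat_lit 380) (nat_lit 0) (XT.nd (nat_lit 156) (nat_lit 228) (nat_lit 0) (XT.nd (nat_lit 78) (nat_lit 0) (nat_lit 0) (XT.lf (nat_lit 0) (nat_lit 928053746) (nat_lit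 152) (nat_lit 13590462709) (nat_lit 228) (nat_lit 7169296414) (nat_lit 64) (nat_lit 5) (nat_lit 66) (nat_lit 5) (nat_lit 67) (nat_lit 5) (nat_lit 430) (nat_lit 343) (nat_lit 247)) (XT.lf (nat_lit 0) (nat_lit 13087200171) (nat_lit 152) (nat_lit 7154057660) (nat_lit 228) (nat_lit 1891364047) (nat_lit 64) (nat_lit 5) (nat_lit 66) (nat_lit 5) (nat_lit 67) (nat_lit 5) (nat_lit 431) (nat_lit 343) (nat_lit 246))) (XT.nd (nat_lit 78) (nat_lit 0) (nat_lit 0) (XT.lf (nat_lit 0) (nat_lit 3008082750) (nat_lit 152) (nat_lit 475683088) (nat_lit 228) (nat_lit 19105748835) (nat_lit 61) (nat_lit 5) (nat_lit 63) (nat_lit 5) (nat_lit 64) (nat_lit 5) (nat_lit 432) (nat_lit 343) (nat_lit 245)) (XT.lf (nat_lit 0) (nat_lit 9115152629) (nat_lit 228) (nat_lit 7566932913) (nat_lit 76) (nat_lit 6373479104) (nat_lit 61) (nat_lit 5) (nat_lit 64) (nat_lit 5) (nat_lit 62) (nat_lit 5) (nat_lit 433) (nat_lit 343) (nat_lit 244)))) (XT.nd (nat_lit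 156) (nat_lit 228) (nat_lit 0) (XT.nd (nat_lit 78) (nat_lit 0) (nat_lit 0) (XT.lf (nat_lit 0) (nat_lit 4862256122) (nat_lit 152) (nat_lit 10084500992) (nat_lit 228) (nat_lit 8587903355) (nat_lit 59) (nat_lit 5) (nat_lit 61) (nat_lit 5) (nat_lit 62) (nat_lit 5) (nat_lit 434) (nat_lit 343) (nat_lit 243)) (XT.lf (nat_lit 0) (nat_lit 17783872302) (nat_lit 152) (nat_lit 3225921689) (nat_lit 228) (nat_lit 3016643201) (nat_lit 59) (nat_lit 5) (nat_lit 61) (nat_lit 5) (nat_lit 62) (nat_lit 5) (nat_lit 435) (nat_lit 343) (nat_lit 242))) (XT.nd (nat_lit 78) (nat_lit 0) (nat_lit 0) (XT.lf (nat_lit 0) (nat_lit 2750458818) (nat_lit 228) (nat_lit 17940066263) (nat_lit 76) (nat_lit 3839205192) (nat_lit 56) (nat_lit 5) (nat_lit 59) (nat_lit 5) (nat_lit 57) (nat_lit 5) (nat_lit 436) (nat_lit 343) (nat_lit 241)) (XT.lf (nat_lit 0) (nat_lit 8706093425) (nat_lit 228) (nat_lit 5208847500) (nat_lit 76) (nat_lit 11130002996) (nat_lit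 56) (nat_lit 5) (nat_lit 59) (nat_lit 5) (nat_lit 57) (nat_lit 5) (nat_lit 437) (nat_lit 343) (nat_lit 240))))))))
noncomputable def xc110 : XT := (XT.nd (nat_lit 2184) (nat_lit 988) (nat_lit 0) (XT.nd (nat_lit 1092) (nat_lit 836) (nat_lit 0) (XT.nd (nat_lit 546) (nat_lit 532) (nat_lit 0) (XT.nd (nat_lit 234) (nat_lit 228) (nat_lit 0) (XT.nd (nat_lit 78) (nat_lit 152) (nat_lit 0) (XT.lf (nat_lit 0) (nat_lit 8026951280) (nat_lit 152) (nat_lit 6871721725) (nat_lit 228) (nat_lit 10675194966) (nat_lit 54) (nat_lit 5) (nat_lit 56) (nat_lit 5) (nat_lit 57) (nat_lit 5) (nat_lit 438) (nat_lit 343) (nat_lit 239)) (XT.nd (nat_lit 78) (nat_lit 152) (nat_lit 0) (XT.lf (nat_lit 0) (nat_lit 21315027809) (nat_lit 228) (nat_lit 4388757677) (nat_lit 76) (nat_lit 413736527) (nat_lit 54) (nat_lit 5) (nat_lit 57) (nat_lit 5) (nat_lit 55) (nat_lit 4) (nat_lit 439) (nat_lit 343) (nat_lit 238)) (XT.lf (nat_lit 0) (nat_lit 1362072525)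 (nat_lit 152) (nat_lit 17443284413) (nat_lit 76) (nat_lit 7867571191) (nat_lit 52) (nat_lit 5) (nat_lit 54) (nat_lit 5) (nat_lit 53) (nat_lit 5) (nat_lit 440) (nat_lit 343) (nat_lit 237)))) (XT.nd (nat_lit 156) (nat_lit 76) (nat_lit 0) (XT.nd (nat_lit 78) (nat_lit 152) (nat_lit 0) (XT.lf (nat_lit 0) (nat_lit 7641589544) (nat_lit 152) (nat_lit 3978216261) (nat_lit 76) (nat_lit 15622969997) (nat_lit 52) (nat_lit 5) (nat_lit 54) (nat_lit 5) (nat_lit 53) (nat_lit 5) (nat_lit 441) (nat_lit 343) (nat_lit 236)) (XT.lf (nat_lit 0) (nat_lit 10054851554) (nat_lit 152) (nat_lit 4133606552) (nat_lit 228) (nat_lit 13638893778) (nat_lit 50) (nat_lit 5) (nat_lit 52) (nat_lit 5) (nat_lit 53) (nat_lit 5) (nat_lit 442) (nat_lit 343) (nat_lit 235))) (XT.nd (nat_lit 78) (nat_lit 76) (nat_lit 0) (XT.lf (nat_lit 0) (nat_lit 20989072311) (nat_lit 228) (nat_lit 3904814553) (nat_lit 76) (nat_lit 3533860099) (nat_lit 50) (nat_lit 5)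 (nat_lit 53) (nat_lit 5) (nat_lit 51) (nat_lit 4) (nat_lit 443) (nat_lit 343) (nat_lit 234)) (XT.lf (nat_lit 0) (nat_lit 10511805338) (nat_lit 76) (nat_lit 17606769030) (nat_lit 152) (nat_lit 923835288) (nat_lit 49) (nat_lit 5) (nat_lit 50) (nat_lit 5) (nat_lit 51) (nat_lit 4) (nat_lit 444) (nat_lit 343) (nat_lit 233))))) (XT.nd (nat_lit 234) (nat_lit 304) (nat_lit 0) (XT.nd (nat_lit 78) (nat_lit 152) (nat_lit 0) (XT.lf (nat_lit 0) (nat_lit 5696284074) (nat_lit 152) (nat_lit 4320701465) (nat_lit 76) (nat_lit 19656177269) (nat_lit 48) (nat_lit 5) (nat_lit 50) (nat_lit 5) (nat_lit 49) (nat_lit 5) (nat_lit 445) (nat_lit 343) (nat_lit 232)) (XT.nd (nat_lit 78) (nat_lit 0) (nat_lit 0) (XT.lf (nat_lit 0) (nat_lit 10480447766) (nat_lit 152) (nat_lit 2100160706) (nat_lit 228) (nat_lit 17739432275) (nat_lit 46) (nat_lit 5) (nat_lit 48) (nat_lit 5) (nat_lit 49) (nat_lit 5) (nat_lit 446) (nat_lit 343) (nat_lit 231)) (XT.lf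 (nat_lit 0) (nat_lit 19757207959) (nat_lit 228) (nat_lit 5259920826) (nat_lit 76) (nat_lit 5966625519) (nat_lit 46) (nat_lit 5) (nat_lit 49) (nat_lit 5) (nat_lit 47) (nat_lit 4) (nat_lit 447) (nat_lit 343) (nat_lit 230)))) (XT.nd (nat_lit 156) (nat_lit 152) (nat_lit 0) (XT.nd (nat_lit 78) (nat_lit 76) (nat_lit 0) (XT.lf (nat_lit 0) (nat_lit 9899941061) (nat_lit 76) (nat_lit 17349089690) (nat_lit 152) (nat_lit 4415352350) (nat_lit 45) (nat_lit 5) (nat_lit 46) (nat_lit 5) (nat_lit 47) (nat_lit 4) (nat_lit 448) (nat_lit 343) (nat_lit 229)) (XT.lf (nat_lit 0) (nat_lit 2587073673) (nat_lit 152) (nat_lit 6796555892) (nat_lit 76) (nat_lit 22979923813) (nat_lit 44) (nat_lit 5) (nat_lit 46) (nat_lit 5) (nat_lit 45) (nat_lit 5) (nat_lit 449) (nat_lit 343) (nat_lit 228))) (XT.nd (nat_lit 78) (nat_lit 0) (nat_lit 0) (XT.lf (nat_lit 0) (nat_lit 8718012821) (nat_lit 152) (nat_lit 1061078765) (nat_lit 228) (nat_lit 23301249244)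 (nat_lit 42) (nat_lit 5) (nat_lit 44) (nat_lit 5) (nat_lit 45) (nat_lit 5) (nat_lit 450) (nat_lit 343) (nat_lit 227)) (XT.lf (nat_lit 0) (nat_lit 17312896465) (nat_lit 228) (nat_lit 9080924620) (nat_lit 76) (nat_lit 7421031442) (nat_lit 42) (nat_lit 5) (nat_lit 45) (nat_lit 5) (nat_lit 43) (nat_lit 4) (nat_lit 451) (nat_lit 343) (nat_lit 226)))))) (XT.nd (nat_lit 546) (nat_lit 456) (nat_lit 0) (XT.nd (nat_lit 234) (nat_lit 76) (nat_lit 0) (XT.nd (nat_lit 78) (nat_lit 228) (nat_lit 0) (XT.lf (nat_lit 0) (nat_lit 6752202382) (nat_lit 76) (nat_lit 18380889470) (nat_lit 152) (nat_lit 9436497807) (nat_lit 41) (nat_lit 5) (nat_lit 42) (nat_lit 5) (nat_lit 43) (nat_lit 4) (nat_lit 452) (nat_lit 343) (nat_lit 225)) (XT.nd (nat_lit 78) (nat_lit 228) (nat_lit 0) (XT.lf (nat_lit 0) (nat_lit 23218774942) (nat_lit 76) (nat_lit 10045953702) (nat_lit 152) (nat_lit 2079936527) (nat_lit 41) (nat_lit 5) (nat_lit 42) (nat_lit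 5) (nat_lit 43) (nat_lit 4) (nat_lit 453) (nat_lit 343) (nat_lit 224)) (XT.lf (nat_lit 0) (nat_lit 4035063849) (nat_lit 152) (nat_lit 1379197490) (nat_lit 228) (nat_lit 30726421191) (nat_lit 38) (nat_lit 5) (nat_lit 40) (nat_lit 5) (nat_lit 41) (nat_lit 5) (nat_lit 454) (nat_lit 343) (nat_lit 223)))) (XT.nd (nat_lit 156) (nat_lit 0) (nat_lit 0) (XT.nd (nat_lit 78) (nat_lit 76) (nat_lit 0) (XT.lf (nat_lit 0) (nat_lit 13273162674) (nat_lit 228) (nat_lit 16149078798) (nat_lit 76) (nat_lit 7532271889) (nat_lit 38) (nat_lit 5) (nat_lit 41) (nat_lit 5) (nat_lit 39) (nat_lit 4) (nat_lit 455) (nat_lit 343) (nat_lit 222)) (XT.lf (nat_lit 0) (nat_lit 250962468) (nat_lit 76) (nat_lit 21118829950) (nat_lit 152) (nat_lit 16422909044) (nat_lit 37) (nat_lit 5) (nat_lit 38) (nat_lit 5) (nat_lit 39) (nat_lit 4) (nat_lit 456) (nat_lit 343) (nat_lit 221))) (XT.nd (nat_lit 78) (nat_lit 0) (nat_lit 0) (XT.lf (nat_lit 0) (nat_lit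 17447867866) (nat_lit 76) (nat_lit 12410579999) (nat_lit 152) (nat_lit 8793114687) (nat_lit 37) (nat_lit 5) (nat_lit 38) (nat_lit 5) (nat_lit 39) (nat_lit 4) (nat_lit 457) (nat_lit 343) (nat_lit 220)) (XT.lf (nat_lit 0) (nat_lit 35135265482) (nat_lit 76) (nat_lit 3452956500) (nat_lit 152) (nat_lit 948374838) (nat_lit 37) (nat_lit 5) (nat_lit 38) (nat_lit 5) (nat_lit 39) (nat_lit 4) (nat_lit 458) (nat_lit 343) (nat_lit 219))))) (XT.nd (nat_lit 234) (nat_lit 152) (nat_lit 0) (XT.nd (nat_lit 78) (nat_lit 76) (nat_lit 0) (XT.lf (nat_lit 0) (nat_lit 7162175762) (nat_lit 228) (nat_lit 27433479724) (nat_lit 76) (nat_lit 5845382038) (nat_lit 34) (nat_lit 5) (nat_lit 37) (nat_lit 5) (nat_lit 35) (nat_lit 4) (nat_lit 459) (nat_lit 343) (nat_lit 218)) (XT.nd (nat_lit 78) (nat_lit 76) (nat_lit 0) (XT.lf (nat_lit 0) (nat_lit 15562814372) (nat_lit 228) (nat_lit 10411338286) (nat_lit 76) (nat_lit 15396203133) (nat_lit 34)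 (nat_lit 5) (nat_lit 37) (nat_lit 5) (nat_lit 35) (nat_lit 4) (nat_lit 460) (nat_lit 343) (nat_lit 217)) (XT.lf (nat_lit 0) (nat_lit 7238464266) (nat_lit 76) (nat_lit 17033734375) (nat_lit 152) (nat_lit 18053654161) (nat_lit 33) (nat_lit 5) (nat_lit 34) (nat_lit 5) (nat_lit 35) (nat_lit 4) (nat_lit 461) (nat_lit 343) (nat_lit 216)))) (XT.nd (nat_lit 156) (nat_lit 76) (nat_lit 0) (XT.nd (nat_lit 78) (nat_lit 76) (nat_lit 0) (XT.lf (nat_lit 0) (nat_lit 25607169247) (nat_lit 76) (nat_lit 7728118803) (nat_lit 152) (nat_lit 9971954930) (nat_lit 33) (nat_lit 5) (nat_lit 34) (nat_lit 5) (nat_lit 35) (nat_lit 4) (nat_lit 462) (nat_lit 343) (nat_lit 215)) (XT.lf (nat_lit 0) (nat_lit 170765260) (nat_lit 76) (nat_lit 42506548009) (nat_lit 76) (nat_lit 1640551235) (nat_lit 32) (nat_lit 4) (nat_lit 33) (nat_lit 5) (nat_lit 33) (nat_lit 4) (nat_lit 463) (nat_lit 343) (nat_lit 214))) (XT.nd (nat_lit 78) (nat_lit 0) (nat_lit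 0) (XT.lf (nat_lit 0) (nat_lit 7049945931) (nat_lit 152) (nat_lit 26581481058) (nat_lit 76) (nat_lit 11718039254) (nat_lit 31) (nat_lit 5) (nat_lit 33) (nat_lit 5) (nat_lit 32) (nat_lit 4) (nat_lit 464) (nat_lit 343) (nat_lit 213)) (XT.lf (nat_lit 0) (nat_lit 15956116141) (nat_lit 152) (nat_lit 8528047303) (nat_lit 76) (nat_lit 21927728206) (nat_lit 31) (nat_lit 5) (nat_lit 33) (nat_lit 5) (nat_lit 32) (nat_lit 4) (nat_lit 465) (nat_lit 343) (nat_lit 212))))))) (XT.nd (nat_lit 1092) (nat_lit 456) (nat_lit 0) (XT.nd (nat_lit 546) (nat_lit 228) (nat_lit 0) (XT.nd (nat_lit 234) (nat_lit 228) (nat_lit 0) (XT.nd (nat_lit 78) (nat_lit 0) (nat_lit 0) (XT.lf (nat_lit 0) (nat_lit 10244657005) (nat_lit 76) (nat_lit 14971575453) (nat_lit 152) (nat_lit 22287355362) (nat_lit 30) (nat_lit 5) (nat_lit 31) (nat_lit 5) (nat_lit 32) (nat_lit 4) (nat_lit 466) (nat_lit 343) (nat_lit 211)) (XT.nd (nat_lit 78) (nat_lit 0) (nat_lit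 0) (XT.lf (nat_lit 0) (nat_lit 29733334501) (nat_lit 76) (nat_lit 5095346969) (nat_lit 152) (nat_lit 13797118338) (nat_lit 30) (nat_lit 5) (nat_lit 31) (nat_lit 5) (nat_lit 32) (nat_lit 4) (nat_lit 467) (nat_lit 343) (nat_lit 210)) (XT.lf (nat_lit 0) (nat_lit 44766961536) (nat_lit 152) (nat_lit 45434615) (nat_lit 0) (nat_lit 4968159059) (nat_lit 30) (nat_lit 5) (nat_lit 32) (nat_lit 4) (nat_lit 30) (nat_lit 4) (nat_lit 468) (nat_lit 343) (nat_lit 209)))) (XT.nd (nat_lit 156) (nat_lit 76) (nat_lit 0) (XT.nd (nat_lit 78) (nat_lit 0) (nat_lit 0) (XT.lf (nat_lit 0) (nat_lit 4185596928) (nat_lit 152) (nat_lit 31324547703) (nat_lit 76) (nat_lit 15451720214) (nat_lit 28) (nat_lit 5) (nat_lit 30) (nat_lit 5) (nat_lit 29) (nat_lit 4) (nat_lit 469) (nat_lit 343) (nat_lit 208)) (XT.lf (nat_lit 0) (nat_lit 13549454007) (nat_lit 152) (nat_lit 12337769280) (nat_lit 76) (nat_lit 26290218242) (nat_lit 28) (nat_lit 5) (nat_lit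 30) (nat_lit 5) (nat_lit 29) (nat_lit 4) (nat_lit 470) (nat_lit 343) (nat_lit 207))) (XT.nd (nat_lit 78) (nat_lit 0) (nat_lit 0) (XT.lf (nat_lit 0) (nat_lit 7341474988) (nat_lit 76) (nat_lit 15912638755) (nat_lit 152) (nat_lit 30173575857) (nat_lit 27) (nat_lit 5) (nat_lit 28) (nat_lit 5) (nat_lit 29) (nat_lit 4) (nat_lit 471) (nat_lit 343) (nat_lit 206)) (XT.lf (nat_lit 0) (nat_lit 27843812597) (nat_lit 76) (nat_lit 5520121193) (nat_lit 152) (nat_lit 21348091386) (nat_lit 27) (nat_lit 5) (nat_lit 28) (nat_lit 5) (nat_lit 29) (nat_lit 4) (nat_lit 472) (nat_lit 343) (nat_lit 205))))) (XT.nd (nat_lit 234) (nat_lit 76) (nat_lit 0) (XT.nd (nat_lit 78) (nat_lit 152) (nat_lit 0) (XT.lf (nat_lit 0) (nat_lit 43816533010) (nat_lit 152) (nat_lit 7143330400) (nat_lit 0) (nat_lit 5073843526) (nat_lit 27) (nat_lit 5) (nat_lit 29) (nat_lit 4) (nat_lit 27) (nat_lit 4) (nat_lit 473) (nat_lit 343) (nat_lit 204)) (XT.nd (nat_lit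 78) (nat_lit 76) (nat_lit 0) (XT.lf (nat_lit 0) (nat_lit 13360098201) (nat_lit 76) (nat_lit 41395644671) (nat_lit 76) (nat_lit 2634105936) (nat_lit 26) (nat_lit 4) (nat_lit 27) (nat_lit 5) (nat_lit 27) (nat_lit 4) (nat_lit 474) (nat_lit 343) (nat_lit 203)) (XT.lf (nat_lit 0) (nat_lit 7158055620) (nat_lit 152) (nat_lit 24248986068) (nat_lit 76) (nat_lit 27375662687) (nat_lit 25) (nat_lit 5) (nat_lit 27) (nat_lit 5) (nat_lit 26) (nat_lit 4) (nat_lit 475) (nat_lit 343) (nat_lit 202)))) (XT.nd (nat_lit 156) (nat_lit 0) (nat_lit 0) (XT.nd (nat_lit 78) (nat_lit 76) (nat_lit 0) (XT.lf (nat_lit 0) (nat_lit 17181294428) (nat_lit 152) (nat_lit 3919578514) (nat_lit 76) (nat_lit 39115983182) (nat_lit 25) (nat_lit 5) (nat_lit 27) (nat_lit 5) (nat_lit 26) (nat_lit 4) (nat_lit 476) (nat_lit 343) (nat_lit 201)) (XT.lf (nat_lit 0) (nat_lit 17339920558) (nat_lit 76) (nat_lit 10322530918) (nat_lit 152) (nat_lit 34026864883) (nat_lit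 24) (nat_lit 5) (nat_lit 25) (nat_lit 5) (nat_lit 26) (nat_lit 4) (nat_lit 477) (nat_lit 343) (nat_lit 200))) (XT.nd (nat_lit 78) (nat_lit 0) (nat_lit 0) (XT.lf (nat_lit 0) (nat_lit 38496064003) (nat_lit 152) (nat_lit 23913268005) (nat_lit 0) (nat_lit 795478320) (nat_lit 24) (nat_lit 5) (nat_lit 26) (nat_lit 4) (nat_lit 24) (nat_lit 4) (nat_lit 478) (nat_lit 343) (nat_lit 199)) (XT.lf (nat_lit 0) (nat_lit 49747722215) (nat_lit 152) (nat_lit 2983905733) (nat_lit 0) (nat_lit 12031350581) (nat_lit 24) (nat_lit 5) (nat_lit 26) (nat_lit 4) (nat_lit 24) (nat_lit 4) (nat_lit 479) (nat_lit 343) (nat_lit 198)))))) (XT.nd (nat_lit 546) (nat_lit 152) (nat_lit 0) (XT.nd (nat_lit 234) (nat_lit 152) (nat_lit 0) (XT.nd (nat_lit 78) (nat_lit 76) (nat_lit 0) (XT.lf (nat_lit 0) (nat_lit 18925510155) (nat_lit 76) (nat_lit 42584444602) (nat_lit 76) (nat_lit 4852746802) (nat_lit 23) (nat_lit 4) (nat_lit 24) (nat_lit 5) (nat_lit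 24) (nat_lit 4) (nat_lit 480) (nat_lit 343) (nat_lit 197)) (XT.nd (nat_lit 78) (nat_lit 0) (nat_lit 0) (XT.lf (nat_lit 0) (nat_lit 5526615591) (nat_lit 152) (nat_lit 26527547921) (nat_lit 76) (nat_lit 35953987932) (nat_lit 22) (nat_lit 5) (nat_lit 24) (nat_lit 5) (nat_lit 23) (nat_lit 4) (nat_lit 481) (nat_lit 343) (nat_lit 196)) (XT.lf (nat_lit 0) (nat_lit 16111191875) (nat_lit 152) (nat_lit 5055304447) (nat_lit 76) (nat_lit 48535286517) (nat_lit 22) (nat_lit 5) (nat_lit 24) (nat_lit 5) (nat_lit 23) (nat_lit 4) (nat_lit 482) (nat_lit 343) (nat_lit 195)))) (XT.nd (nat_lit 156) (nat_lit 76) (nat_lit 0) (XT.nd (nat_lit 78) (nat_lit 0) (nat_lit 0) (XT.lf (nat_lit 0) (nat_lit 17384176644) (nat_lit 76) (nat_lit 9787855971) (nat_lit 152) (nat_lit 44269429204) (nat_lit 21) (nat_lit 5) (nat_lit 22) (nat_lit 5) (nat_lit 23) (nat_lit 4) (nat_lit 483) (nat_lit 343) (nat_lit 194)) (XT.lf (nat_lit 0) (nat_lit 38626461631)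 (nat_lit 152) (nat_lit 32666581352) (nat_lit 0) (nat_lit 1938435741) (nat_lit 21) (nat_lit 5) (nat_lit 23) (nat_lit 4) (nat_lit 21) (nat_lit 4) (nat_lit 484) (nat_lit 343) (nat_lit 193))) (XT.nd (nat_lit 78) (nat_lit 76) (nat_lit 0) (XT.lf (nat_lit 0) (nat_lit 50513312604) (nat_lit 152) (nat_lit 10746769001) (nat_lit 0) (nat_lit 13812451292) (nat_lit 21) (nat_lit 5) (nat_lit 23) (nat_lit 4) (nat_lit 21) (nat_lit 4) (nat_lit 485) (nat_lit 343) (nat_lit 192)) (XT.lf (nat_lit 0) (nat_lit 12050541435) (nat_lit 76) (nat_lit 50814180986) (nat_lit 76) (nat_lit 14100858098) (nat_lit 20) (nat_lit 4) (nat_lit 21) (nat_lit 5) (nat_lit 21) (nat_lit 4) (nat_lit 486) (nat_lit 343) (nat_lit 191))))) (XT.nd (nat_lit 42042) (nat_lit 0) (nat_lit 26524) (XT.nd (nat_lit 156) (nat_lit 76) (nat_lit 0) (XT.nd (nat_lit 78) (nat_lit 76) (nat_lit 0) (XT.lf (nat_lit 0) (nat_lit 35736973131) (nat_lit 76) (nat_lit 39950423346) (nat_lit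 76) (nat_lit 3225001841) (nat_lit 20) (nat_lit 4) (nat_lit 21) (nat_lit 5) (nat_lit 21) (nat_lit 4) (nat_lit 487) (nat_lit 343) (nat_lit 190)) (XT.lf (nat_lit 0) (nat_lit 7813820016) (nat_lit 152) (nat_lit 20875113100) (nat_lit 76) (nat_lit 52226616916) (nat_lit 19) (nat_lit 5) (nat_lit 21) (nat_lit 5) (nat_lit 20) (nat_lit 4) (nat_lit 488) (nat_lit 343) (nat_lit 189))) (XT.nd (nat_lit 41808) (nat_lit 0) (nat_lit 27360) (XT.lf (nat_lit 0) (nat_lit 2088657022) (nat_lit 76) (nat_lit 17042982811) (nat_lit 152) (nat_lit 63845819338) (nat_lit 18) (nat_lit 5) (nat_lit 19) (nat_lit 5) (nat_lit 20) (nat_lit 4) (nat_lit 489) (nat_lit 343) (nat_lit 188)) (XT.lf (nat_lit 0) (nat_lit 1790805436) (nat_lit 380) (nat_lit 732207806) (nat_lit 380) (nat_lit 732207806) (nat_lit 378) (nat_lit 3) (nat_lit 383) (nat_lit 3) (nat_lit 383) (nat_lit 5) (nat_lit 344) (nat_lit 344) (nat_lit 332)))) (XT.nd (nat_lit 156) (nat_lit 456) (nat_lit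 0) (XT.nd (nat_lit 78) (nat_lit 380) (nat_lit 0) (XT.lf (nat_lit 76) (nat_lit 1735096075) (nat_lit 0) (nat_lit 4471219031) (nat_lit 380) (nat_lit 322805884) (nat_lit 379) (nat_lit 5) (nat_lit 378) (nat_lit 3) (nat_lit 383) (nat_lit 5) (nat_lit 345) (nat_lit 344) (nat_lit 331)) (XT.lf (nat_lit 0) (nat_lit 2229001303) (nat_lit 380) (nat_lit 1564632695) (nat_lit 456) (nat_lit 2756704896) (nat_lit 373) (nat_lit 5) (nat_lit 378) (nat_lit 3) (nat_lit 379) (nat_lit 5) (nat_lit 346) (nat_lit 344) (nat_lit 330))) (XT.nd (nat_lit 78) (nat_lit 456) (nat_lit 0) (XT.lf (nat_lit 76) (nat_lit 1739493207) (nat_lit 0) (nat_lit 3029797998) (nat_lit 456) (nat_lit 1805321743) (nat_lit 374) (nat_lit 5) (nat_lit 373) (nat_lit 5) (nat_lit 379) (nat_lit 5) (nat_lit 347) (nat_lit 344) (nat_lit 329)) (XT.lf (nat_lit 0) (nat_lit 689830226) (nat_lit 456) (nat_lit 1486409485) (nat_lit 532) (nat_lit 4425642986) (nat_lit 367) (nat_lit 5)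 (nat_lit 373) (nat_lit 5) (nat_lit 374) (nat_lit 5) (nat_lit 348) (nat_lit 344) (nat_lit 328))))))))
noncomputable def xc111 : XT := (XT.nd (nat_lit 2262) (nat_lit 7448) (nat_lit 0) (XT.nd (nat_lit 1092) (nat_lit 8056) (nat_lit 0) (XT.nd (nat_lit 546) (nat_lit 2964) (nat_lit 0) (XT.nd (nat_lit 234) (nat_lit 608) (nat_lit 0) (XT.nd (nat_lit 78) (nat_lit 456) (nat_lit 0) (XT.lf (nat_lit 76) (nat_lit 1929756778) (nat_lit 0) (nat_lit 1218209448) (nat_lit 532) (nat_lit 3483797863) (nat_lit 368) (nat_lit 5) (nat_lit 367) (nat_lit 5) (nat_lit 374) (nat_lit 5) (nat_lit 349) (nat_lit 344) (nat_lit 327)) (XT.nd (nat_lit 78) (nat_lit 456) (nat_lit 0) (XT.lf (nat_lit 76) (nat_lit 5426608158) (nat_lit 0) (nat_lit 176351976) (nat_lit 532) (nat_lit 1061948788) (nat_lit 368) (nat_lit 5) (nat_lit 367) (nat_lit 5) (nat_lit 374) (nat_lit 5) (nat_lit 350) (nat_lit 344) (nat_lit 326)) (XT.lf (nat_lit 0) (nat_lit 1345964203) (nat_lit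 532) (nat_lit 4402083671) (nat_lit 608) (nat_lit 952403166) (nat_lit 361) (nat_lit 5) (nat_lit 368) (nat_lit 5) (nat_lit 369) (nat_lit 5) (nat_lit 351) (nat_lit 344) (nat_lit 325)))) (XT.nd (nat_lit 156) (nat_lit 608) (nat_lit 0) (XT.nd (nat_lit 78) (nat_lit 0) (nat_lit 0) (XT.lf (nat_lit 0) (nat_lit 3731455425) (nat_lit 532) (nat_lit 837673951) (nat_lit 608) (nat_lit 2169869355) (nat_lit 361) (nat_lit 5) (nat_lit 368) (nat_lit 5) (nat_lit 369) (nat_lit 5) (nat_lit 352) (nat_lit 344) (nat_lit 324)) (XT.lf (nat_lit 76) (nat_lit 2835479103) (nat_lit 0) (nat_lit 3295153383) (nat_lit 608) (nat_lit 649860409) (nat_lit 362) (nat_lit 5) (nat_lit 361) (nat_lit 5) (nat_lit 369) (nat_lit 5) (nat_lit 353) (nat_lit 344) (nat_lit 323))) (XT.nd (nat_lit 78) (nat_lit 0) (nat_lit 0) (XT.lf (nat_lit 0) (nat_lit 1668350096) (nat_lit 608) (nat_lit 258877979) (nat_lit 684) (nat_lit 4897806413) (nat_lit 353) (nat_lit 5) (nat_lit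 361) (nat_lit 5) (nat_lit 362) (nat_lit 5) (nat_lit 354) (nat_lit 344) (nat_lit 322)) (XT.lf (nat_lit 76) (nat_lit 3547508219) (nat_lit 0) (nat_lit 448046202) (nat_lit 684) (nat_lit 2876638730) (nat_lit 354) (nat_lit 5) (nat_lit 353) (nat_lit 5) (nat_lit 362) (nat_lit 5) (nat_lit 355) (nat_lit 344) (nat_lit 321))))) (XT.nd (nat_lit 234) (nat_lit 1672) (nat_lit 0) (XT.nd (nat_lit 78) (nat_lit 760) (nat_lit 0) (XT.lf (nat_lit 0) (nat_lit 496729978) (nat_lit 608) (nat_lit 5834137994) (nat_lit 684) (nat_lit 591797498) (nat_lit 346) (nat_lit 5) (nat_lit 354) (nat_lit 5) (nat_lit 355) (nat_lit 5) (nat_lit 356) (nat_lit 344) (nat_lit 320)) (XT.nd (nat_lit 78) (nat_lit 684) (nat_lit 0) (XT.lf (nat_lit 0) (nat_lit 1687068589) (nat_lit 684) (nat_lit 2550774694) (nat_lit 76) (nat_lit 2737549987) (nat_lit 345) (nat_lit 5) (nat_lit 354) (nat_lit 5) (nat_lit 346) (nat_lit 5) (nat_lit 357) (nat_lit 344) (nat_lit 319)) (XT.lf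 (nat_lit 0) (nat_lit 1407521079) (nat_lit 684) (nat_lit 2552214272) (nat_lit 760) (nat_lit 3071715538) (nat_lit 336) (nat_lit 5) (nat_lit 345) (nat_lit 5) (nat_lit 346) (nat_lit 5) (nat_lit 358) (nat_lit 344) (nat_lit 318)))) (XT.nd (nat_lit 156) (nat_lit 836) (nat_lit 0) (XT.nd (nat_lit 78) (nat_lit 836) (nat_lit 0) (XT.lf (nat_lit 0) (nat_lit 5482664365) (nat_lit 684) (nat_lit 769173391) (nat_lit 760) (nat_lit 838857183) (nat_lit 336) (nat_lit 5) (nat_lit 345) (nat_lit 5) (nat_lit 346) (nat_lit 5) (nat_lit 359) (nat_lit 344) (nat_lit 317)) (XT.lf (nat_lit 0) (nat_lit 1394329093) (nat_lit 836) (nat_lit 4654465932) (nat_lit 76) (nat_lit 1103684370) (nat_lit 325) (nat_lit 5) (nat_lit 336) (nat_lit 5) (nat_lit 326) (nat_lit 5) (nat_lit 360) (nat_lit 344) (nat_lit 316))) (XT.nd (nat_lit 78) (nat_lit 836) (nat_lit 0) (XT.lf (nat_lit 0) (nat_lit 3630362209) (nat_lit 836) (nat_lit 527440820) (nat_lit 76) (nat_lit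 3059522622) (nat_lit 325) (nat_lit 5) (nat_lit 336) (nat_lit 5) (nat_lit 326) (nat_lit 5) (nat_lit 361) (nat_lit 344) (nat_lit 315)) (XT.lf (nat_lit 0) (nat_lit 3742115664) (nat_lit 836) (nat_lit 2158106085) (nat_lit 912) (nat_lit 1384930830) (nat_lit 314) (nat_lit 5) (nat_lit 325) (nat_lit 5) (nat_lit 326) (nat_lit 5) (nat_lit 362) (nat_lit 344) (nat_lit 314)))))) (XT.nd (nat_lit 546) (nat_lit 3800) (nat_lit 0) (XT.nd (nat_lit 234) (nat_lit 2280) (nat_lit 0) (XT.nd (nat_lit 78) (nat_lit 988) (nat_lit 0) (XT.lf (nat_lit 0) (nat_lit 746575876) (nat_lit 912) (nat_lit 63475552) (nat_lit 988) (nat_lit 6546420017) (nat_lit 301) (nat_lit 5) (nat_lit 313) (nat_lit 5) (nat_lit 314) (nat_lit 5) (nat_lit 363) (nat_lit 344) (nat_lit 313)) (XT.nd (nat_lit 78) (nat_lit 988) (nat_lit 0) (XT.lf (nat_lit 0) (nat_lit 3032461800) (nat_lit 988) (nat_lit 2282333650) (nat_lit 76) (nat_lit 2115075083) (nat_lit 301) (nat_lit 5) (nat_lit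 314) (nat_lit 5) (nat_lit 302) (nat_lit 5) (nat_lit 364) (nat_lit 344) (nat_lit 312)) (XT.lf (nat_lit 0) (nat_lit 2161470985) (nat_lit 988) (nat_lit 3116579999) (nat_lit 1064) (nat_lit 2228758862) (nat_lit 288) (nat_lit 5) (nat_lit 301) (nat_lit 5) (nat_lit 302) (nat_lit 5) (nat_lit 365) (nat_lit 344) (nat_lit 311)))) (XT.nd (nat_lit 156) (nat_lit 1140) (nat_lit 0) (XT.nd (nat_lit 78) (nat_lit 1140) (nat_lit 0) (XT.lf (nat_lit 0) (nat_lit 6730782135) (nat_lit 988) (nat_lit 819738945) (nat_lit 1064) (nat_lit 36783338) (nat_lit 288) (nat_lit 5) (nat_lit 301) (nat_lit 5) (nat_lit 302) (nat_lit 5) (nat_lit 366) (nat_lit 344) (nat_lit 310)) (XT.lf (nat_lit 0) (nat_lit 2166985503) (nat_lit 1140) (nat_lit 3921095944) (nat_lit 76) (nat_lit 1581841330) (nat_lit 273) (nat_lit 5) (nat_lit 288) (nat_lit 5) (nat_lit 274) (nat_lit 5) (nat_lit 367) (nat_lit 344) (nat_lit 309))) (XT.nd (nat_lit 78) (nat_lit 0) (nat_lit 0) (XT.lf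 (nat_lit 0) (nat_lit 704645635) (nat_lit 1140) (nat_lit 3694150720) (nat_lit 1216) (nat_lit 3357362078) (nat_lit 258) (nat_lit 5) (nat_lit 273) (nat_lit 5) (nat_lit 274) (nat_lit 5) (nat_lit 368) (nat_lit 344) (nat_lit 308)) (XT.lf (nat_lit 0) (nat_lit 5494411331) (nat_lit 1140) (nat_lit 1183034809) (nat_lit 1216) (nat_lit 1168167334) (nat_lit 258) (nat_lit 5) (nat_lit 273) (nat_lit 5) (nat_lit 274) (nat_lit 5) (nat_lit 369) (nat_lit 344) (nat_lit 307))))) (XT.nd (nat_lit 312) (nat_lit 1292) (nat_lit 0) (XT.nd (nat_lit 156) (nat_lit 1216) (nat_lit 0) (XT.nd (nat_lit 78) (nat_lit 0) (nat_lit 0) (XT.lf (nat_lit 0) (nat_lit 1044565172) (nat_lit 1292) (nat_lit 5479157185) (nat_lit 76) (nat_lit 1414371600) (nat_lit 241) (nat_lit 5) (nat_lit 258) (nat_lit 5) (nat_lit 242) (nat_lit 5) (nat_lit 370) (nat_lit 344) (nat_lit 306)) (XT.lf (nat_lit 0) (nat_lit 3278534483) (nat_lit 1292) (nat_lit 650530212) (nat_lit 76) (nat_lit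 4104613571) (nat_lit 241) (nat_lit 5) (nat_lit 258) (nat_lit 5) (nat_lit 242) (nat_lit 5) (nat_lit 371) (nat_lit 344) (nat_lit 305))) (XT.nd (nat_lit 78) (nat_lit 608) (nat_lit 0) (XT.lf (nat_lit 0) (nat_lit 4353582932) (nat_lit 608) (nat_lit 1212102848) (nat_lit 684) (nat_lit 2566885072) (nat_lit 233) (nat_lit 5) (nat_lit 241) (nat_lit 5) (nat_lit 242) (nat_lit 5) (nat_lit 372) (nat_lit 344) (nat_lit 304)) (XT.lf (nat_lit 0) (nat_lit 1240347006) (nat_lit 608) (nat_lit 6660336850) (nat_lit 684) (nat_lit 334394281) (nat_lit 225) (nat_lit 5) (nat_lit 233) (nat_lit 5) (nat_lit 234) (nat_lit 5) (nat_lit 373) (nat_lit 344) (nat_lit 303)))) (XT.nd (nat_lit 156) (nat_lit 608) (nat_lit 0) (XT.nd (nat_lit 78) (nat_lit 608) (nat_lit 0) (XT.lf (nat_lit 0) (nat_lit 1923198922) (nat_lit 684) (nat_lit 1939076338) (nat_lit 76) (nat_lit 4477947959) (nat_lit 224) (nat_lit 5) (nat_lit 233) (nat_lit 5) (nat_lit 225) (nat_lit 5)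 (nat_lit 374) (nat_lit 344) (nat_lit 302)) (XT.lf (nat_lit 0) (nat_lit 3274445406) (nat_lit 608) (nat_lit 946338324) (nat_lit 684) (nat_lit 4228292830) (nat_lit 216) (nat_lit 5) (nat_lit 224) (nat_lit 5) (nat_lit 225) (nat_lit 5) (nat_lit 375) (nat_lit 344) (nat_lit 301))) (XT.nd (nat_lit 78) (nat_lit 76) (nat_lit 0) (XT.lf (nat_lit 0) (nat_lit 49105822) (nat_lit 532) (nat_lit 6526708099) (nat_lit 608) (nat_lit 1985748158) (nat_lit 209) (nat_lit 5) (nat_lit 216) (nat_lit 5) (nat_lit 217) (nat_lit 5) (nat_lit 376) (nat_lit 344) (nat_lit 300)) (XT.lf (nat_lit 0) (nat_lit 328838316) (nat_lit 608) (nat_lit 3209119313) (nat_lit 76) (nat_lit 5139059246) (nat_lit 208) (nat_lit 5) (nat_lit 216) (nat_lit 5) (nat_lit 209) (nat_lit 5) (nat_lit 377) (nat_lit 344) (nat_lit 299))))))) (XT.nd (nat_lit 1092) (nat_lit 3192) (nat_lit 0) (XT.nd (nat_lit 546) (nat_lit 1748) (nat_lit 0) (XT.nd (nat_lit 234) (nat_lit 1520) (nat_lit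 0) (XT.nd (nat_lit 78) (nat_lit 456) (nat_lit 0) (XT.lf (nat_lit 0) (nat_lit 2222766688) (nat_lit 532) (nat_lit 421986267) (nat_lit 608) (nat_lit 6151458706) (nat_lit 201) (nat_lit 5) (nat_lit 208) (nat_lit 5) (nat_lit 209) (nat_lit 5) (nat_lit 378) (nat_lit 344) (nat_lit 298)) (XT.nd (nat_lit 78) (nat_lit 456) (nat_lit 0) (XT.lf (nat_lit 0) (nat_lit 5040980195) (nat_lit 608) (nat_lit 1116894859) (nat_lit 76) (nat_lit 2760801829) (nat_lit 201) (nat_lit 5) (nat_lit 209) (nat_lit 5) (nat_lit 202) (nat_lit 5) (nat_lit 379) (nat_lit 344) (nat_lit 297)) (XT.lf (nat_lit 0) (nat_lit 4534094708) (nat_lit 456) (nat_lit 2975493854) (nat_lit 532) (nat_lit 1535231746) (nat_lit 195) (nat_lit 5) (nat_lit 201) (nat_lit 5) (nat_lit 202) (nat_lit 5) (nat_lit 380) (nat_lit 344) (nat_lit 296)))) (XT.nd (nat_lit 156) (nat_lit 912) (nat_lit 0) (XT.nd (nat_lit 78) (nat_lit 0) (nat_lit 0) (XT.lf (nat_lit 0) (nat_lit 839222338) (nat_lit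 608) (nat_lit 8015116411) (nat_lit 76) (nat_lit 320809058) (nat_lit 187) (nat_lit 5) (nat_lit 195) (nat_lit 5) (nat_lit 188) (nat_lit 5) (nat_lit 381) (nat_lit 344) (nat_lit 295)) (XT.lf (nat_lit 0) (nat_lit 3283415571) (nat_lit 608) (nat_lit 2314532792) (nat_lit 76) (nat_lit 3710117350) (nat_lit 187) (nat_lit 5) (nat_lit 195) (nat_lit 5) (nat_lit 188) (nat_lit 5) (nat_lit 382) (nat_lit 344) (nat_lit 294))) (XT.nd (nat_lit 78) (nat_lit 456) (nat_lit 0) (XT.lf (nat_lit 0) (nat_lit 3573618953) (nat_lit 456) (nat_lit 2216911498) (nat_lit 532) (nat_lit 3654769778) (nat_lit 181) (nat_lit 5) (nat_lit 187) (nat_lit 5) (nat_lit 188) (nat_lit 5) (nat_lit 383) (nat_lit 344) (nat_lit 293)) (XT.lf (nat_lit 0) (nat_lit 34268580) (nat_lit 456) (nat_lit 8330646287) (nat_lit 532) (nat_lit 1221991684) (nat_lit 175) (nat_lit 5) (nat_lit 181) (nat_lit 5) (nat_lit 182) (nat_lit 5) (nat_lit 384) (nat_lit 344) (nat_lit 292))))) (XT.nd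 (nat_lit 234) (nat_lit 1292) (nat_lit 0) (XT.nd (nat_lit 78) (nat_lit 380) (nat_lit 0) (XT.lf (nat_lit 0) (nat_lit 1296831155) (nat_lit 532) (nat_lit 3582369396) (nat_lit 76) (nat_lit 4852062441) (nat_lit 174) (nat_lit 5) (nat_lit 181) (nat_lit 5) (nat_lit 175) (nat_lit 5) (nat_lit 385) (nat_lit 344) (nat_lit 291)) (XT.nd (nat_lit 78) (nat_lit 0) (nat_lit 0) (XT.lf (nat_lit 0) (nat_lit 2552017364) (nat_lit 380) (nat_lit 1296728583) (nat_lit 456) (nat_lit 6031393626) (nat_lit 169) (nat_lit 5) (nat_lit 174) (nat_lit 5) (nat_lit 175) (nat_lit 5) (nat_lit 386) (nat_lit 344) (nat_lit 290)) (XT.lf (nat_lit 0) (nat_lit 6494946968) (nat_lit 456) (nat_lit 1165228371) (nat_lit 76) (nat_lit 2372789868) (nat_lit 169) (nat_lit 5) (nat_lit 175) (nat_lit 5) (nat_lit 170) (nat_lit 5) (nat_lit 387) (nat_lit 344) (nat_lit 289)))) (XT.nd (nat_lit 156) (nat_lit 380) (nat_lit 0) (XT.nd (nat_lit 78) (nat_lit 456) (nat_lit 0) (XT.lf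 (nat_lit 0) (nat_lit 5219785028) (nat_lit 456) (nat_lit 4023172043) (nat_lit 532) (nat_lit 946760042) (nat_lit 163) (nat_lit 5) (nat_lit 169) (nat_lit 5) (nat_lit 170) (nat_lit 5) (nat_lit 388) (nat_lit 344) (nat_lit 288)) (XT.lf (nat_lit 0) (nat_lit 1428527206) (nat_lit 380) (nat_lit 245405742) (nat_lit 456) (nat_lit 8677196230) (nat_lit 157) (nat_lit 5) (nat_lit 162) (nat_lit 5) (nat_lit 163) (nat_lit 5) (nat_lit 389) (nat_lit 344) (nat_lit 287))) (XT.nd (nat_lit 78) (nat_lit 380) (nat_lit 0) (XT.lf (nat_lit 0) (nat_lit 4400198458) (nat_lit 456) (nat_lit 2492643879) (nat_lit 76) (nat_lit 3622893621) (nat_lit 157) (nat_lit 5) (nat_lit 163) (nat_lit 5) (nat_lit 158) (nat_lit 5) (nat_lit 390) (nat_lit 344) (nat_lit 286)) (XT.lf (nat_lit 0) (nat_lit 4157781055) (nat_lit 380) (nat_lit 3054278030) (nat_lit 456) (nat_lit 3473120252) (nat_lit 152) (nat_lit 5) (nat_lit 157) (nat_lit 5) (nat_lit 158) (nat_lit 5) (nat_lit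 391) (nat_lit 344) (nat_lit 285)))))) (XT.nd (nat_lit 546) (nat_lit 1596) (nat_lit 0) (XT.nd (nat_lit 234) (nat_lit 760) (nat_lit 0) (XT.nd (nat_lit 78) (nat_lit 456) (nat_lit 0) (XT.lf (nat_lit 0) (nat_lit 142078840) (nat_lit 380) (nat_lit 9963554072) (nat_lit 456) (nat_lit 754164629) (nat_lit 147) (nat_lit 5) (nat_lit 152) (nat_lit 5) (nat_lit 153) (nat_lit 5) (nat_lit 392) (nat_lit 344) (nat_lit 284)) (XT.nd (nat_lit 78) (nat_lit 380) (nat_lit 0) (XT.lf (nat_lit 0) (nat_lit 2065395027) (nat_lit 456) (nat_lit 3994716319) (nat_lit 76) (nat_lit 4977195344) (nat_lit 146) (nat_lit 5) (nat_lit 152) (nat_lit 5) (nat_lit 147) (nat_lit 5) (nat_lit 393) (nat_lit 344) (nat_lit 283)) (XT.lf (nat_lit 0) (nat_lit 2929260713) (nat_lit 380) (nat_lit 2016543069) (nat_lit 456) (nat_lit 6274381918) (nat_lit 141) (nat_lit 5) (nat_lit 146) (nat_lit 5) (nat_lit 147) (nat_lit 5) (nat_lit 394) (nat_lit 344) (nat_lit 282)))) (XT.nd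 (nat_lit 156) (nat_lit 456) (nat_lit 0) (XT.nd (nat_lit 78) (nat_lit 304) (nat_lit 0) (XT.lf (nat_lit 0) (nat_lit 7937734383) (nat_lit 456) (nat_lit 1336424197) (nat_lit 76) (nat_lit 2133650091) (nat_lit 141) (nat_lit 5) (nat_lit 147) (nat_lit 5) (nat_lit 142) (nat_lit 5) (nat_lit 395) (nat_lit 344) (nat_lit 281)) (XT.lf (nat_lit 0) (nat_lit 5871932645) (nat_lit 304) (nat_lit 5188677631) (nat_lit 380) (nat_lit 539224997) (nat_lit 137) (nat_lit 5) (nat_lit 141) (nat_lit 5) (nat_lit 142) (nat_lit 5) (nat_lit 396) (nat_lit 344) (nat_lit 280))) (XT.nd (nat_lit 78) (nat_lit 0) (nat_lit 0) (XT.lf (nat_lit 0) (nat_lit 1482050935) (nat_lit 380) (nat_lit 941968595) (nat_lit 456) (nat_lit 9373112407) (nat_lit 131) (nat_lit 5) (nat_lit 136) (nat_lit 5) (nat_lit 137) (nat_lit 5) (nat_lit 397) (nat_lit 344) (nat_lit 279)) (XT.lf (nat_lit 0) (nat_lit 5522114878) (nat_lit 456) (nat_lit 3061831074) (nat_lit 76) (nat_lit 3414547308)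 (nat_lit 131) (nat_lit 5) (nat_lit 137) (nat_lit 5) (nat_lit 132) (nat_lit 5) (nat_lit 398) (nat_lit 344) (nat_lit 278))))) (XT.nd (nat_lit 312) (nat_lit 608) (nat_lit 0) (XT.nd (nat_lit 156) (nat_lit 684) (nat_lit 0) (XT.nd (nat_lit 78) (nat_lit 0) (nat_lit 0) (XT.lf (nat_lit 0) (nat_lit 4437708026) (nat_lit 304) (nat_lit 4293823873) (nat_lit 380) (nat_lit 3473821543) (nat_lit 127) (nat_lit 5) (nat_lit 131) (nat_lit 5) (nat_lit 132) (nat_lit 5) (nat_lit 399) (nat_lit 344) (nat_lit 277)) (XT.lf (nat_lit 0) (nat_lit 12036424187) (nat_lit 380) (nat_lit 242960556) (nat_lit 76) (nat_lit 139068014) (nat_lit 127) (nat_lit 5) (nat_lit 132) (nat_lit 5) (nat_lit 128) (nat_lit 5) (nat_lit 400) (nat_lit 344) (nat_lit 276))) (XT.nd (nat_lit 78) (nat_lit 304) (nat_lit 0) (XT.lf (nat_lit 0) (nat_lit 2831611163) (nat_lit 380) (nat_lit 5098185662) (nat_lit 76) (nat_lit 4704835223) (nat_lit 122) (nat_lit 5) (nat_lit 127) (nat_lit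 5) (nat_lit 123) (nat_lit 5) (nat_lit 401) (nat_lit 344) (nat_lit 275)) (XT.lf (nat_lit 0) (nat_lit 2698122185) (nat_lit 304) (nat_lit 3432172019) (nat_lit 380) (nat_lit 6727008002) (nat_lit 118) (nat_lit 5) (nat_lit 122) (nat_lit 5) (nat_lit 123) (nat_lit 5) (nat_lit 402) (nat_lit 344) (nat_lit 274)))) (XT.nd (nat_lit 156) (nat_lit 304) (nat_lit 0) (XT.nd (nat_lit 78) (nat_lit 304) (nat_lit 0) (XT.lf (nat_lit 0) (nat_lit 9559697350) (nat_lit 380) (nat_lit 2312382201) (nat_lit 76) (nat_lit 1213628224) (nat_lit 118) (nat_lit 5) (nat_lit 123) (nat_lit 5) (nat_lit 119) (nat_lit 5) (nat_lit 403) (nat_lit 344) (nat_lit 273)) (XT.lf (nat_lit 0) (nat_lit 5802410437) (nat_lit 304) (nat_lit 7348485143) (nat_lit 380) (nat_lit 168310399) (nat_lit 114) (nat_lit 5) (nat_lit 118) (nat_lit 5) (nat_lit 119) (nat_lit 5) (nat_lit 404) (nat_lit 344) (nat_lit 272))) (XT.nd (nat_lit 78) (nat_lit 0) (nat_lit 0) (XT.lf (nat_lit 0)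 (nat_lit 581719258) (nat_lit 228) (nat_lit 2642673558) (nat_lit 304) (nat_lit 10334420694) (nat_lit 110) (nat_lit 5) (nat_lit 113) (nat_lit 5) (nat_lit 114) (nat_lit 5) (nat_lit 405) (nat_lit 344) (nat_lit 271)) (XT.lf (nat_lit 0) (nat_lit 6782934371) (nat_lit 304) (nat_lit 4796777937) (nat_lit 76) (nat_lit 2223830953) (nat_lit 110) (nat_lit 5) (nat_lit 114) (nat_lit 5) (nat_lit 111) (nat_lit 5) (nat_lit 406) (nat_lit 344) (nat_lit 270))))))))
noncomputable def xc112 : XT := (XT.nd (nat_lit 2184) (nat_lit 2128) (nat_lit 0) (XT.nd (nat_lit 1092) (nat_lit 1596) (nat_lit 0) (XT.nd (nat_lit 546) (nat_lit 988) (nat_lit 0) (XT.nd (nat_lit 234) (nat_lit 532) (nat_lit 0) (XT.nd (nat_lit 78) (nat_lit 304) (nat_lit 0) (XT.lf (nat_lit 0) (nat_lit 3627832050) (nat_lit 304) (nat_lit 6851918231) (nat_lit 380) (nat_lit 3574926063) (nat_lit 106) (nat_lit 5) (nat_lit 110) (nat_lit 5) (nat_lit 111) (nat_lit 5) (nat_lit 407) (nat_lit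 344) (nat_lit 269)) (XT.nd (nat_lit 78) (nat_lit 304) (nat_lit 0) (XT.lf (nat_lit 0) (nat_lit 12358215239) (nat_lit 304) (nat_lit 1948597972) (nat_lit 380) (nat_lit 5956713) (nat_lit 106) (nat_lit 5) (nat_lit 110) (nat_lit 5) (nat_lit 111) (nat_lit 5) (nat_lit 408) (nat_lit 344) (nat_lit 268)) (XT.lf (nat_lit 0) (nat_lit 3666201129) (nat_lit 304) (nat_lit 7781843054) (nat_lit 76) (nat_lit 3127478066) (nat_lit 102) (nat_lit 5) (nat_lit 106) (nat_lit 5) (nat_lit 103) (nat_lit 5) (nat_lit 409) (nat_lit 344) (nat_lit 267)))) (XT.nd (nat_lit 156) (nat_lit 304) (nat_lit 0) (XT.nd (nat_lit 78) (nat_lit 0) (nat_lit 0) (XT.lf (nat_lit 0) (nat_lit 953103591) (nat_lit 228) (nat_lit 6515407031) (nat_lit 304) (nat_lit 7377047759) (nat_lit 99) (nat_lit 5) (nat_lit 102) (nat_lit 5) (nat_lit 103) (nat_lit 5) (nat_lit 410) (nat_lit 344) (nat_lit 266)) (XT.lf (nat_lit 0) (nat_lit 10065249128) (nat_lit 228) (nat_lit 1370338021)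 (nat_lit 304) (nat_lit 3686593537) (nat_lit 99) (nat_lit 5) (nat_lit 102) (nat_lit 5) (nat_lit 103) (nat_lit 5) (nat_lit 411) (nat_lit 344) (nat_lit 265))) (XT.nd (nat_lit 78) (nat_lit 0) (nat_lit 0) (XT.lf (nat_lit 0) (nat_lit 162209819) (nat_lit 304) (nat_lit 11366214520) (nat_lit 76) (nat_lit 3877153820) (nat_lit 95) (nat_lit 5) (nat_lit 99) (nat_lit 5) (nat_lit 96) (nat_lit 5) (nat_lit 412) (nat_lit 344) (nat_lit 264)) (XT.lf (nat_lit 0) (nat_lit 4090398694) (nat_lit 304) (nat_lit 2278167888) (nat_lit 76) (nat_lit 9326680911) (nat_lit 95) (nat_lit 5) (nat_lit 99) (nat_lit 5) (nat_lit 96) (nat_lit 5) (nat_lit 413) (nat_lit 344) (nat_lit 263))))) (XT.nd (nat_lit 234) (nat_lit 456) (nat_lit 0) (XT.nd (nat_lit 78) (nat_lit 304) (nat_lit 0) (XT.lf (nat_lit 0) (nat_lit 7180048269) (nat_lit 228) (nat_lit 999073794) (nat_lit 304) (nat_lit 7813209529) (nat_lit 92) (nat_lit 5) (nat_lit 95) (nat_lit 5) (nat_lit 96)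 (nat_lit 5) (nat_lit 414) (nat_lit 344) (nat_lit 262)) (XT.nd (nat_lit 78) (nat_lit 76) (nat_lit 0) (XT.lf (nat_lit 0) (nat_lit 596126669) (nat_lit 228) (nat_lit 11840778930) (nat_lit 304) (nat_lit 3860035857) (nat_lit 89) (nat_lit 5) (nat_lit 92) (nat_lit 5) (nat_lit 93) (nat_lit 5) (nat_lit 415) (nat_lit 344) (nat_lit 261)) (XT.lf (nat_lit 0) (nat_lit 281330246) (nat_lit 304) (nat_lit 6196291106) (nat_lit 76) (nat_lit 10130800235) (nat_lit 88) (nat_lit 5) (nat_lit 92) (nat_lit 5) (nat_lit 89) (nat_lit 5) (nat_lit 416) (nat_lit 344) (nat_lit 260)))) (XT.nd (nat_lit 156) (nat_lit 228) (nat_lit 0) (XT.nd (nat_lit 78) (nat_lit 0) (nat_lit 0) (XT.lf (nat_lit 0) (nat_lit 3583430066) (nat_lit 228) (nat_lit 895097904) (nat_lit 304) (nat_lit 12449301156) (nat_lit 85) (nat_lit 5) (nat_lit 88) (nat_lit 5) (nat_lit 89) (nat_lit 5) (nat_lit 417) (nat_lit 344) (nat_lit 259)) (XT.lf (nat_lit 0) (nat_lit 8886410188) (nat_lit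 304) (nat_lit 3560502055) (nat_lit 76) (nat_lit 4807368207) (nat_lit 85) (nat_lit 5) (nat_lit 89) (nat_lit 5) (nat_lit 86) (nat_lit 5) (nat_lit 418) (nat_lit 344) (nat_lit 258))) (XT.nd (nat_lit 78) (nat_lit 76) (nat_lit 0) (XT.lf (nat_lit 0) (nat_lit 6596149328) (nat_lit 152) (nat_lit 6878289269) (nat_lit 228) (nat_lit 4114653908) (nat_lit 83) (nat_lit 5) (nat_lit 85) (nat_lit 5) (nat_lit 86) (nat_lit 5) (nat_lit 419) (nat_lit 344) (nat_lit 257)) (XT.lf (nat_lit 0) (nat_lit 272997083) (nat_lit 228) (nat_lit 846001739) (nat_lit 76) (nat_lit 16814516611) (nat_lit 82) (nat_lit 5) (nat_lit 85) (nat_lit 5) (nat_lit 83) (nat_lit 5) (nat_lit 420) (nat_lit 344) (nat_lit 256)))))) (XT.nd (nat_lit 546) (nat_lit 760) (nat_lit 0) (XT.nd (nat_lit 234) (nat_lit 456) (nat_lit 0) (XT.nd (nat_lit 78) (nat_lit 152) (nat_lit 0) (XT.lf (nat_lit 0) (nat_lit 4826830126) (nat_lit 304) (nat_lit 8617741149) (nat_lit 76) (nat_lit 4838964113)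 (nat_lit 79) (nat_lit 5) (nat_lit 83) (nat_lit 5) (nat_lit 80) (nat_lit 5) (nat_lit 421) (nat_lit 344) (nat_lit 255)) (XT.nd (nat_lit 78) (nat_lit 0) (nat_lit 0) (XT.lf (nat_lit 0) (nat_lit 1851777429) (nat_lit 152) (nat_lit 7679594643) (nat_lit 228) (nat_lit 9112265035) (nat_lit 77) (nat_lit 5) (nat_lit 79) (nat_lit 5) (nat_lit 80) (nat_lit 5) (nat_lit 422) (nat_lit 344) (nat_lit 254)) (XT.lf (nat_lit 0) (nat_lit 12772745543) (nat_lit 152) (nat_lit 1668218025) (nat_lit 228) (nat_lit 4571664775) (nat_lit 77) (nat_lit 5) (nat_lit 79) (nat_lit 5) (nat_lit 80) (nat_lit 5) (nat_lit 423) (nat_lit 344) (nat_lit 253)))) (XT.nd (nat_lit 156) (nat_lit 152) (nat_lit 0) (XT.nd (nat_lit 78) (nat_lit 0) (nat_lit 0) (XT.lf (nat_lit 0) (nat_lit 169215315) (nat_lit 304) (nat_lit 14755405677) (nat_lit 76) (nat_lit 4466058233) (nat_lit 73) (nat_lit 5) (nat_lit 77) (nat_lit 5) (nat_lit 74) (nat_lit 5) (nat_lit 424) (nat_lit 344)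 (nat_lit 252)) (XT.lf (nat_lit 0) (nat_lit 5018065824) (nat_lit 304) (nat_lit 3914735416) (nat_lit 76) (nat_lit 10844187112) (nat_lit 73) (nat_lit 5) (nat_lit 77) (nat_lit 5) (nat_lit 74) (nat_lit 5) (nat_lit 425) (nat_lit 344) (nat_lit 251))) (XT.nd (nat_lit 78) (nat_lit 0) (nat_lit 0) (XT.lf (nat_lit 0) (nat_lit 7357101723) (nat_lit 152) (nat_lit 2704135546) (nat_lit 228) (nat_lit 10112187256) (nat_lit 71) (nat_lit 5) (nat_lit 73) (nat_lit 5) (nat_lit 74) (nat_lit 5) (nat_lit 426) (nat_lit 344) (nat_lit 250)) (XT.lf (nat_lit 0) (nat_lit 15309565283) (nat_lit 228) (nat_lit 1607041565) (nat_lit 76) (nat_lit 3663534428) (nat_lit 71) (nat_lit 5) (nat_lit 74) (nat_lit 5) (nat_lit 72) (nat_lit 5) (nat_lit 427) (nat_lit 344) (nat_lit 249))))) (XT.nd (nat_lit 234) (nat_lit 380) (nat_lit 0) (XT.nd (nat_lit 78) (nat_lit 228) (nat_lit 0) (XT.lf (nat_lit 0) (nat_lit 10071629341) (nat_lit 152) (nat_lit 10746197924) (nat_lit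 228) (nat_lit 178160977) (nat_lit 69) (nat_lit 5) (nat_lit 71) (nat_lit 5) (nat_lit 72) (nat_lit 5) (nat_lit 428) (nat_lit 344) (nat_lit 248)) (XT.nd (nat_lit 78) (nat_lit 0) (nat_lit 0) (XT.lf (nat_lit 0) (nat_lit 636622587) (nat_lit 152) (nat_lit 4332988503) (nat_lit 228) (nat_lit 16453197544) (nat_lit 66) (nat_lit 5) (nat_lit 68) (nat_lit 5) (nat_lit 69) (nat_lit 5) (nat_lit 429) (nat_lit 344) (nat_lit 247)) (XT.lf (nat_lit 0) (nat_lit 10380554330) (nat_lit 228) (nat_lit 9152282488) (nat_lit 76) (nat_lit 2326177297) (nat_lit 66) (nat_lit 5) (nat_lit 69) (nat_lit 5) (nat_lit 67) (nat_lit 5) (nat_lit 430) (nat_lit 344) (nat_lit 246)))) (XT.nd (nat_lit 156) (nat_lit 228) (nat_lit 0) (XT.nd (nat_lit 78) (nat_lit 0) (nat_lit 0) (XT.lf (nat_lit 0) (nat_lit 2806751326) (nat_lit 152) (nat_lit 13196631600) (nat_lit 228) (nat_lit 6303438997) (nat_lit 64) (nat_lit 5) (nat_lit 66) (nat_lit 5) (nat_lit 67) (nat_lit 5)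 (nat_lit 431) (nat_lit 344) (nat_lit 245)) (XT.lf (nat_lit 0) (nat_lit 15276763718) (nat_lit 152) (nat_lit 6590480370) (nat_lit 228) (nat_lit 898652241) (nat_lit 64) (nat_lit 5) (nat_lit 66) (nat_lit 5) (nat_lit 67) (nat_lit 5) (nat_lit 432) (nat_lit 344) (nat_lit 244))) (XT.nd (nat_lit 78) (nat_lit 0) (nat_lit 0) (XT.lf (nat_lit 0) (nat_lit 4607404237) (nat_lit 228) (nat_lit 18341328803) (nat_lit 76) (nat_lit 287759699) (nat_lit 61) (nat_lit 5) (nat_lit 64) (nat_lit 5) (nat_lit 62) (nat_lit 5) (nat_lit 433) (nat_lit 344) (nat_lit 243)) (XT.lf (nat_lit 0) (nat_lit 10382621923) (nat_lit 228) (nat_lit 6024196875) (nat_lit 76) (nat_lit 7310462625) (nat_lit 61) (nat_lit 5) (nat_lit 64) (nat_lit 5) (nat_lit 62) (nat_lit 5) (nat_lit 434) (nat_lit 344) (nat_lit 242))))))) (XT.nd (nat_lit 1092) (nat_lit 988) (nat_lit 0) (XT.nd (nat_lit 546) (nat_lit 456) (nat_lit 0) (XT.nd (nat_lit 234) (nat_lit 304) (nat_lit 0) (XT.nd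 (nat_lit 78) (nat_lit 228) (nat_lit 0) (XT.lf (nat_lit 0) (nat_lit 6760517398) (nat_lit 152) (nat_lit 9616550338) (nat_lit 228) (nat_lit 7834049366) (nat_lit 59) (nat_lit 5) (nat_lit 61) (nat_lit 5) (nat_lit 62) (nat_lit 5) (nat_lit 435) (nat_lit 344) (nat_lit 241)) (XT.nd (nat_lit 78) (nat_lit 228) (nat_lit 0) (XT.lf (nat_lit 0) (nat_lit 20018741474) (nat_lit 152) (nat_lit 2574654987) (nat_lit 228) (nat_lit 2125112313) (nat_lit 59) (nat_lit 5) (nat_lit 61) (nat_lit 5) (nat_lit 62) (nat_lit 5) (nat_lit 436) (nat_lit 344) (nat_lit 240)) (XT.lf (nat_lit 0) (nat_lit 3791406902) (nat_lit 228) (nat_lit 16753085416) (nat_lit 76) (nat_lit 4692261580) (nat_lit 56) (nat_lit 5) (nat_lit 59) (nat_lit 5) (nat_lit 57) (nat_lit 5) (nat_lit 437) (nat_lit 344) (nat_lit 239)))) (XT.nd (nat_lit 156) (nat_lit 152) (nat_lit 0) (XT.nd (nat_lit 78) (nat_lit 152) (nat_lit 0) (XT.lf (nat_lit 0) (nat_lit 9897794984) (nat_lit 228) (nat_lit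 3690178133) (nat_lit 76) (nat_lit 12180291661) (nat_lit 56) (nat_lit 5) (nat_lit 59) (nat_lit 5) (nat_lit 57) (nat_lit 5) (nat_lit 438) (nat_lit 344) (nat_lit 238)) (XT.lf (nat_lit 0) (nat_lit 9926273681) (nat_lit 152) (nat_lit 6338718432) (nat_lit 228) (nat_lit 10048402491) (nat_lit 54) (nat_lit 5) (nat_lit 56) (nat_lit 5) (nat_lit 57) (nat_lit 5) (nat_lit 439) (nat_lit 344) (nat_lit 237))) (XT.nd (nat_lit 78) (nat_lit 152) (nat_lit 0) (XT.lf (nat_lit 0) (nat_lit 22853958379) (nat_lit 228) (nat_lit 2890228116) (nat_lit 76) (nat_lit 1129771311) (nat_lit 54) (nat_lit 5) (nat_lit 57) (nat_lit 5) (nat_lit 55) (nat_lit 4) (nat_lit 440) (nat_lit 344) (nat_lit 236)) (XT.lf (nat_lit 0) (nat_lit 2300633157) (nat_lit 152) (nat_lit 16334407552) (nat_lit 76) (nat_lit 8811044890) (nat_lit 52) (nat_lit 5) (nat_lit 54) (nat_lit 5) (nat_lit 53) (nat_lit 5) (nat_lit 441) (nat_lit 344) (nat_lit 235))))) (XT.nd (nat_lit 234)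 (nat_lit 304) (nat_lit 0) (XT.nd (nat_lit 78) (nat_lit 152) (nat_lit 0) (XT.lf (nat_lit 0) (nat_lit 8742389130) (nat_lit 152) (nat_lit 2512926445) (nat_lit 76) (nat_lit 16778500421) (nat_lit 52) (nat_lit 5) (nat_lit 54) (nat_lit 5) (nat_lit 53) (nat_lit 5) (nat_lit 442) (nat_lit 344) (nat_lit 234)) (XT.nd (nat_lit 78) (nat_lit 0) (nat_lit 0) (XT.lf (nat_lit 0) (nat_lit 11925597754) (nat_lit 152) (nat_lit 3549764142) (nat_lit 228) (nat_lit 13160879329) (nat_lit 50) (nat_lit 5) (nat_lit 52) (nat_lit 5) (nat_lit 53) (nat_lit 5) (nat_lit 443) (nat_lit 344) (nat_lit 233)) (XT.lf (nat_lit 0) (nat_lit 22461515685) (nat_lit 228) (nat_lit 2479990469) (nat_lit 76) (nat_lit 4313699097) (nat_lit 50) (nat_lit 5) (nat_lit 53) (nat_lit 5) (nat_lit 51) (nat_lit 4) (nat_lit 444) (nat_lit 344) (nat_lit 232)))) (XT.nd (nat_lit 156) (nat_lit 152) (nat_lit 0) (XT.nd (nat_lit 78) (nat_lit 76) (nat_lit 0) (XT.lf (nat_lit 0) (nat_lit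 12354010680) (nat_lit 76) (nat_lit 17441022418) (nat_lit 152) (nat_lit 93573470) (nat_lit 49) (nat_lit 5) (nat_lit 50) (nat_lit 5) (nat_lit 51) (nat_lit 4) (nat_lit 445) (nat_lit 344) (nat_lit 231)) (XT.lf (nat_lit 0) (nat_lit 6683905273) (nat_lit 152) (nat_lit 2951604876) (nat_lit 76) (nat_lit 20903262299) (nat_lit 48) (nat_lit 5) (nat_lit 50) (nat_lit 5) (nat_lit 49) (nat_lit 5) (nat_lit 446) (nat_lit 344) (nat_lit 230))) (XT.nd (nat_lit 78) (nat_lit 0) (nat_lit 0) (XT.lf (nat_lit 0) (nat_lit 12278885521) (nat_lit 152) (nat_lit 1486350901) (nat_lit 228) (nat_lit 17440108418) (nat_lit 46) (nat_lit 5) (nat_lit 48) (nat_lit 5) (nat_lit 49) (nat_lit 5) (nat_lit 447) (nat_lit 344) (nat_lit 229)) (XT.lf (nat_lit 0) (nat_lit 21139939394) (nat_lit 228) (nat_lit 3959645155) (nat_lit 76) (nat_lit 6789903445) (nat_lit 46) (nat_lit 5) (nat_lit 49) (nat_lit 5) (nat_lit 47) (nat_lit 4) (nat_lit 448) (nat_lit 344) (nat_lit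 228)))))) (XT.nd (nat_lit 546) (nat_lit 380) (nat_lit 0) (XT.nd (nat_lit 234) (nat_lit 304) (nat_lit 0) (XT.nd (nat_lit 78) (nat_lit 228) (nat_lit 0) (XT.lf (nat_lit 0) (nat_lit 11640717753) (nat_lit 76) (nat_lit 17206667448) (nat_lit 152) (nat_lit 3743426690) (nat_lit 45) (nat_lit 5) (nat_lit 46) (nat_lit 5) (nat_lit 47) (nat_lit 4) (nat_lit 449) (nat_lit 344) (nat_lit 227)) (XT.nd (nat_lit 78) (nat_lit 152) (nat_lit 0) (XT.lf (nat_lit 0) (nat_lit 3430404094) (nat_lit 152) (nat_lit 5583414791) (nat_lit 76) (nat_lit 24297597723) (nat_lit 44) (nat_lit 5) (nat_lit 46) (nat_lit 5) (nat_lit 45) (nat_lit 5) (nat_lit 450) (nat_lit 344) (nat_lit 226)) (XT.lf (nat_lit 0) (nat_lit 10382698455) (nat_lit 152) (nat_lit 446669508) (nat_lit 228) (nat_lit 23220606251) (nat_lit 42) (nat_lit 5) (nat_lit 44) (nat_lit 5) (nat_lit 45) (nat_lit 5) (nat_lit 451) (nat_lit 344) (nat_lit 225)))) (XT.nd (nat_lit 156) (nat_lit 228) (nat_lit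 0) (XT.nd (nat_lit 78) (nat_lit 76) (nat_lit 0) (XT.lf (nat_lit 0) (nat_lit 18573172387) (nat_lit 228) (nat_lit 7974993116) (nat_lit 76) (nat_lit 8258838228) (nat_lit 42) (nat_lit 5) (nat_lit 45) (nat_lit 5) (nat_lit 43) (nat_lit 4) (nat_lit 452) (nat_lit 344) (nat_lit 224)) (XT.lf (nat_lit 0) (nat_lit 8319614370) (nat_lit 76) (nat_lit 18299899707) (nat_lit 152) (nat_lit 8965124658) (nat_lit 41) (nat_lit 5) (nat_lit 42) (nat_lit 5) (nat_lit 43) (nat_lit 4) (nat_lit 453) (nat_lit 344) (nat_lit 223))) (XT.nd (nat_lit 78) (nat_lit 228) (nat_lit 0) (XT.lf (nat_lit 0) (nat_lit 25240431314) (nat_lit 76) (nat_lit 9733335763) (nat_lit 152) (nat_lit 1409841338) (nat_lit 41) (nat_lit 5) (nat_lit 42) (nat_lit 5) (nat_lit 43) (nat_lit 4) (nat_lit 454) (nat_lit 344) (nat_lit 222)) (XT.lf (nat_lit 0) (nat_lit 5482432575) (nat_lit 152) (nat_lit 804287236) (nat_lit 228) (nat_lit 30916822125) (nat_lit 38) (nat_lit 5) (nat_lit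 40) (nat_lit 5) (nat_lit 41) (nat_lit 5) (nat_lit 455) (nat_lit 344) (nat_lit 221))))) (XT.nd (nat_lit 312) (nat_lit 304) (nat_lit 0) (XT.nd (nat_lit 156) (nat_lit 0) (nat_lit 0) (XT.nd (nat_lit 78) (nat_lit 76) (nat_lit 0) (XT.lf (nat_lit 0) (nat_lit 14366459256) (nat_lit 228) (nat_lit 15330877608) (nat_lit 76) (nat_lit 8344900449) (nat_lit 38) (nat_lit 5) (nat_lit 41) (nat_lit 5) (nat_lit 39) (nat_lit 4) (nat_lit 456) (nat_lit 344) (nat_lit 220)) (XT.lf (nat_lit 0) (nat_lit 1548393587) (nat_lit 76) (nat_lit 21149747953) (nat_lit 152) (nat_lit 16207666606) (nat_lit 37) (nat_lit 5) (nat_lit 38) (nat_lit 5) (nat_lit 39) (nat_lit 4) (nat_lit 457) (nat_lit 344) (nat_lit 219))) (XT.nd (nat_lit 78) (nat_lit 0) (nat_lit 0) (XT.lf (nat_lit 0) (nat_lit 19223636178) (nat_lit 76) (nat_lit 12197803326) (nat_lit 152) (nat_lit 8369597731) (nat_lit 37) (nat_lit 5) (nat_lit 38) (nat_lit 5) (nat_lit 39) (nat_lit 4) (nat_lit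 458) (nat_lit 344) (nat_lit 218)) (XT.lf (nat_lit 0) (nat_lit 37405180026) (nat_lit 76) (nat_lit 2988492697) (nat_lit 152) (nat_lit 309534435) (nat_lit 37) (nat_lit 5) (nat_lit 38) (nat_lit 5) (nat_lit 39) (nat_lit 4) (nat_lit 459) (nat_lit 344) (nat_lit 217)))) (XT.nd (nat_lit 156) (nat_lit 76) (nat_lit 0) (XT.nd (nat_lit 78) (nat_lit 0) (nat_lit 0) (XT.lf (nat_lit 0) (nat_lit 8029431309) (nat_lit 228) (nat_lit 27025623901) (nat_lit 76) (nat_lit 6579591357) (nat_lit 34) (nat_lit 5) (nat_lit 37) (nat_lit 5) (nat_lit 35) (nat_lit 4) (nat_lit 460) (nat_lit 344) (nat_lit 216)) (XT.lf (nat_lit 0) (nat_lit 16663087418) (nat_lit 228) (nat_lit 9528668517) (nat_lit 76) (nat_lit 16400659962) (nat_lit 34) (nat_lit 5) (nat_lit 37) (nat_lit 5) (nat_lit 35) (nat_lit 4) (nat_lit 461) (nat_lit 344) (nat_lit 215))) (XT.nd (nat_lit 78) (nat_lit 0) (nat_lit 0) (XT.lf (nat_lit 0) (nat_lit 8638912328) (nat_lit 76) (nat_lit 16987767223)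 (nat_lit 152) (nat_lit 17950111904) (nat_lit 33) (nat_lit 5) (nat_lit 34) (nat_lit 5) (nat_lit 35) (nat_lit 4) (nat_lit 462) (nat_lit 344) (nat_lit 214)) (XT.lf (nat_lit 0) (nat_lit 27524213580) (nat_lit 76) (nat_lit 7419205878) (nat_lit 152) (nat_lit 9644752527) (nat_lit 33) (nat_lit 5) (nat_lit 34) (nat_lit 5) (nat_lit 35) (nat_lit 4) (nat_lit 463) (nat_lit 344) (nat_lit 213))))))))
noncomputable def xc113 : XT := (XT.nd (nat_lit 43992) (nat_lit 0) (nat_lit 14972) (XT.nd (nat_lit 1092) (nat_lit 456) (nat_lit 0) (XT.nd (nat_lit 546) (nat_lit 228) (nat_lit 0) (XT.nd (nat_lit 234) (nat_lit 228) (nat_lit 0) (XT.nd (nat_lit 78) (nat_lit 76) (nat_lit 0) (XT.lf (nat_lit 0) (nat_lit 1326416308) (nat_lit 76) (nat_lit 43237684531) (nat_lit 76) (nat_lit 1065060797) (nat_lit 32) (nat_lit 4) (nat_lit 33) (nat_lit 5) (nat_lit 33) (nat_lit 4) (nat_lit 464) (nat_lit 344) (nat_lit 212)) (XT.nd (nat_lit 78) (nat_lit 0) (nat_lit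 0) (XT.lf (nat_lit 0) (nat_lit 7856120708) (nat_lit 152) (nat_lit 26250030511) (nat_lit 76) (nat_lit 12585916530) (nat_lit 31) (nat_lit 5) (nat_lit 33) (nat_lit 5) (nat_lit 32) (nat_lit 4) (nat_lit 465) (nat_lit 344) (nat_lit 211)) (XT.lf (nat_lit 0) (nat_lit 17012155353) (nat_lit 152) (nat_lit 7687874179) (nat_lit 76) (nat_lit 23086857235) (nat_lit 31) (nat_lit 5) (nat_lit 33) (nat_lit 5) (nat_lit 32) (nat_lit 4) (nat_lit 466) (nat_lit 344) (nat_lit 210)))) (XT.nd (nat_lit 156) (nat_lit 152) (nat_lit 0) (XT.nd (nat_lit 78) (nat_lit 0) (nat_lit 0) (XT.lf (nat_lit 0) (nat_lit 11637266017) (nat_lit 76) (nat_lit 14906425229) (nat_lit 152) (nat_lit 22367835288) (nat_lit 30) (nat_lit 5) (nat_lit 31) (nat_lit 5) (nat_lit 32) (nat_lit 4) (nat_lit 467) (nat_lit 344) (nat_lit 209)) (XT.lf (nat_lit 0) (nat_lit 31678994052) (nat_lit 76) (nat_lit 4748889429) (nat_lit 152) (nat_lit 13640021466) (nat_lit 30) (nat_lit 5) (nat_lit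 31) (nat_lit 5) (nat_lit 32) (nat_lit 4) (nat_lit 468) (nat_lit 344) (nat_lit 208))) (XT.nd (nat_lit 78) (nat_lit 76) (nat_lit 0) (XT.lf (nat_lit 0) (nat_lit 1007353244) (nat_lit 76) (nat_lit 45655156080) (nat_lit 76) (nat_lit 4594848890) (nat_lit 29) (nat_lit 4) (nat_lit 30) (nat_lit 5) (nat_lit 30) (nat_lit 4) (nat_lit 469) (nat_lit 344) (nat_lit 207)) (XT.lf (nat_lit 0) (nat_lit 4853407283) (nat_lit 152) (nat_lit 31229105402) (nat_lit 76) (nat_lit 16391905499) (nat_lit 28) (nat_lit 5) (nat_lit 30) (nat_lit 5) (nat_lit 29) (nat_lit 4) (nat_lit 470) (nat_lit 344) (nat_lit 206))))) (XT.nd (nat_lit 234) (nat_lit 152) (nat_lit 0) (XT.nd (nat_lit 78) (nat_lit 76) (nat_lit 0) (XT.lf (nat_lit 0) (nat_lit 14482386605) (nat_lit 152) (nat_lit 11702874463) (nat_lit 76) (nat_lit 27541675934) (nat_lit 28) (nat_lit 5) (nat_lit 30) (nat_lit 5) (nat_lit 29) (nat_lit 4) (nat_lit 471) (nat_lit 344) (nat_lit 205)) (XT.nd (nat_lit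 78) (nat_lit 0) (nat_lit 0) (XT.lf (nat_lit 0) (nat_lit 8556893919) (nat_lit 76) (nat_lit 15915524978) (nat_lit 152) (nat_lit 30542447636) (nat_lit 27) (nat_lit 5) (nat_lit 28) (nat_lit 5) (nat_lit 29) (nat_lit 4) (nat_lit 472) (nat_lit 344) (nat_lit 204)) (XT.lf (nat_lit 0) (nat_lit 29645315985) (nat_lit 76) (nat_lit 5225052072) (nat_lit 152) (nat_lit 21467820053) (nat_lit 27) (nat_lit 5) (nat_lit 28) (nat_lit 5) (nat_lit 29) (nat_lit 4) (nat_lit 473) (nat_lit 344) (nat_lit 203)))) (XT.nd (nat_lit 156) (nat_lit 76) (nat_lit 0) (XT.nd (nat_lit 78) (nat_lit 76) (nat_lit 0) (XT.lf (nat_lit 0) (nat_lit 45626120769) (nat_lit 152) (nat_lit 6409126853) (nat_lit 0) (nat_lit 5664586378) (nat_lit 27) (nat_lit 5) (nat_lit 29) (nat_lit 4) (nat_lit 27) (nat_lit 4) (nat_lit 474) (nat_lit 344) (nat_lit 202)) (XT.lf (nat_lit 0) (nat_lit 14700105553) (nat_lit 76) (nat_lit 42188009432) (nat_lit 76) (nat_lit 2208707814) (nat_lit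 26) (nat_lit 4) (nat_lit 27) (nat_lit 5) (nat_lit 27) (nat_lit 4) (nat_lit 475) (nat_lit 344) (nat_lit 201))) (XT.nd (nat_lit 78) (nat_lit 0) (nat_lit 0) (XT.lf (nat_lit 0) (nat_lit 7852970321) (nat_lit 152) (nat_lit 24055021598) (nat_lit 76) (nat_lit 28623759667) (nat_lit 25) (nat_lit 5) (nat_lit 27) (nat_lit 5) (nat_lit 26) (nat_lit 4) (nat_lit 476) (nat_lit 344) (nat_lit 200)) (XT.lf (nat_lit 0) (nat_lit 18162920671) (nat_lit 152) (nat_lit 3142569703) (nat_lit 76) (nat_lit 40703857919) (nat_lit 25) (nat_lit 5) (nat_lit 27) (nat_lit 5) (nat_lit 26) (nat_lit 4) (nat_lit 477) (nat_lit 344) (nat_lit 199)))))) (XT.nd (nat_lit 546) (nat_lit 152) (nat_lit 0) (XT.nd (nat_lit 234) (nat_lit 228) (nat_lit 0) (XT.nd (nat_lit 78) (nat_lit 0) (nat_lit 0) (XT.lf (nat_lit 0) (nat_lit 18745943790) (nat_lit 76) (nat_lit 10207505464) (nat_lit 152) (nat_lit 34572685790) (nat_lit 24) (nat_lit 5) (nat_lit 25) (nat_lit 5) (nat_lit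 26) (nat_lit 4) (nat_lit 478) (nat_lit 344) (nat_lit 198)) (XT.nd (nat_lit 78) (nat_lit 0) (nat_lit 0) (XT.lf (nat_lit 0) (nat_lit 40102602936) (nat_lit 152) (nat_lit 23761147664) (nat_lit 0) (nat_lit 1223628036) (nat_lit 24) (nat_lit 5) (nat_lit 26) (nat_lit 4) (nat_lit 24) (nat_lit 4) (nat_lit 479) (nat_lit 344) (nat_lit 197)) (XT.lf (nat_lit 0) (nat_lit 51678655836) (nat_lit 152) (nat_lit 2229230303) (nat_lit 0) (nat_lit 12784801164) (nat_lit 24) (nat_lit 5) (nat_lit 26) (nat_lit 4) (nat_lit 24) (nat_lit 4) (nat_lit 480) (nat_lit 344) (nat_lit 196)))) (XT.nd (nat_lit 156) (nat_lit 76) (nat_lit 0) (XT.nd (nat_lit 78) (nat_lit 76) (nat_lit 0) (XT.lf (nat_lit 0) (nat_lit 20329191664) (nat_lit 76) (nat_lit 43459827126) (nat_lit 76) (nat_lit 4551526072) (nat_lit 23) (nat_lit 4) (nat_lit 24) (nat_lit 5) (nat_lit 24) (nat_lit 4) (nat_lit 481) (nat_lit 344) (nat_lit 195)) (XT.lf (nat_lit 0) (nat_lit 6117738714) (nat_lit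 152) (nat_lit 26503317075) (nat_lit 76) (nat_lit 37414557100) (nat_lit 22) (nat_lit 5) (nat_lit 24) (nat_lit 5) (nat_lit 23) (nat_lit 4) (nat_lit 482) (nat_lit 344) (nat_lit 194))) (XT.nd (nat_lit 78) (nat_lit 76) (nat_lit 0) (XT.lf (nat_lit 0) (nat_lit 17007464190) (nat_lit 152) (nat_lit 4410791460) (nat_lit 76) (nat_lit 50362169899) (nat_lit 22) (nat_lit 5) (nat_lit 24) (nat_lit 5) (nat_lit 23) (nat_lit 4) (nat_lit 483) (nat_lit 344) (nat_lit 193)) (XT.lf (nat_lit 0) (nat_lit 18694068455) (nat_lit 76) (nat_lit 9701612680) (nat_lit 152) (nat_lit 45176747894) (nat_lit 21) (nat_lit 5) (nat_lit 22) (nat_lit 5) (nat_lit 23) (nat_lit 4) (nat_lit 484) (nat_lit 344) (nat_lit 192))))) (XT.nd (nat_lit 234) (nat_lit 76) (nat_lit 0) (XT.nd (nat_lit 78) (nat_lit 76) (nat_lit 0) (XT.lf (nat_lit 0) (nat_lit 40185390597) (nat_lit 152) (nat_lit 32872800611) (nat_lit 0) (nat_lit 2358206448) (nat_lit 21) (nat_lit 5) (nat_lit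 23) (nat_lit 4) (nat_lit 21) (nat_lit 4) (nat_lit 485) (nat_lit 344) (nat_lit 191)) (XT.nd (nat_lit 78) (nat_lit 76) (nat_lit 0) (XT.lf (nat_lit 0) (nat_lit 52417192679) (nat_lit 152) (nat_lit 10317931119) (nat_lit 0) (nat_lit 14577909913) (nat_lit 21) (nat_lit 5) (nat_lit 23) (nat_lit 4) (nat_lit 21) (nat_lit 4) (nat_lit 486) (nat_lit 344) (nat_lit 190)) (XT.lf (nat_lit 0) (nat_lit 13155933523) (nat_lit 76) (nat_lit 51979046884) (nat_lit 76) (nat_lit 14128017888) (nat_lit 20) (nat_lit 4) (nat_lit 21) (nat_lit 5) (nat_lit 21) (nat_lit 4) (nat_lit 487) (nat_lit 344) (nat_lit 189)))) (XT.nd (nat_lit 41964) (nat_lit 0) (nat_lit 26904) (XT.nd (nat_lit 78) (nat_lit 76) (nat_lit 0) (XT.lf (nat_lit 0) (nat_lit 37531291884) (nat_lit 76) (nat_lit 40799849123) (nat_lit 76) (nat_lit 2937416020) (nat_lit 20) (nat_lit 4) (nat_lit 21) (nat_lit 5) (nat_lit 21) (nat_lit 4) (nat_lit 488) (nat_lit 344) (nat_lit 188)) (XT.lf (nat_lit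 0) (nat_lit 8414094907) (nat_lit 152) (nat_lit 20792892388) (nat_lit 76) (nat_lit 54125034990) (nat_lit 19) (nat_lit 5) (nat_lit 21) (nat_lit 5) (nat_lit 20) (nat_lit 4) (nat_lit 489) (nat_lit 344) (nat_lit 187))) (XT.nd (nat_lit 78) (nat_lit 0) (nat_lit 0) (XT.lf (nat_lit 0) (nat_lit 544173483) (nat_lit 0) (nat_lit 544173483) (nat_lit 380) (nat_lit 2186170585) (nat_lit 373) (nat_lit 5) (nat_lit 373) (nat_lit 3) (nat_lit 378) (nat_lit 3) (nat_lit 345) (nat_lit 345) (nat_lit 330)) (XT.lf (nat_lit 0) (nat_lit 4318519000) (nat_lit 0) (nat_lit 348141852) (nat_lit 380) (nat_lit 1905198793) (nat_lit 373) (nat_lit 5) (nat_lit 373) (nat_lit 3) (nat_lit 378) (nat_lit 3) (nat_lit 346) (nat_lit 345) (nat_lit 329))))))) (XT.nd (nat_lit 1092) (nat_lit 8284) (nat_lit 0) (XT.nd (nat_lit 546) (nat_lit 2128) (nat_lit 0) (XT.nd (nat_lit 234) (nat_lit 1064) (nat_lit 0) (XT.nd (nat_lit 78) (nat_lit 0) (nat_lit 0) (XT.lf (nat_lit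 0) (nat_lit 540969113) (nat_lit 456) (nat_lit 5588499508) (nat_lit 532) (nat_lit 468258365) (nat_lit 367) (nat_lit 5) (nat_lit 373) (nat_lit 5) (nat_lit 374) (nat_lit 5) (nat_lit 347) (nat_lit 345) (nat_lit 328)) (XT.nd (nat_lit 78) (nat_lit 0) (nat_lit 0) (XT.lf (nat_lit 0) (nat_lit 2954520659) (nat_lit 456) (nat_lit 2283146721) (nat_lit 532) (nat_lit 1388230556) (nat_lit 367) (nat_lit 5) (nat_lit 373) (nat_lit 5) (nat_lit 374) (nat_lit 5) (nat_lit 348) (nat_lit 345) (nat_lit 327)) (XT.lf (nat_lit 76) (nat_lit 1091414234) (nat_lit 0) (nat_lit 4268162313) (nat_lit 532) (nat_lit 1297824944) (nat_lit 368) (nat_lit 5) (nat_lit 367) (nat_lit 5) (nat_lit 374) (nat_lit 5) (nat_lit 349) (nat_lit 345) (nat_lit 326)))) (XT.nd (nat_lit 156) (nat_lit 532) (nat_lit 0) (XT.nd (nat_lit 78) (nat_lit 0) (nat_lit 0) (XT.lf (nat_lit 0) (nat_lit 1057676440) (nat_lit 532) (nat_lit 2138996206) (nat_lit 608) (nat_lit 3494910003)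 (nat_lit 360) (nat_lit 5) (nat_lit 367) (nat_lit 5) (nat_lit 368) (nat_lit 5) (nat_lit 350) (nat_lit 345) (nat_lit 325)) (XT.lf (nat_lit 76) (nat_lit 1353295803) (nat_lit 0) (nat_lit 2029936521) (nat_lit 608) (nat_lit 3345462476) (nat_lit 361) (nat_lit 5) (nat_lit 360) (nat_lit 5) (nat_lit 368) (nat_lit 5) (nat_lit 351) (nat_lit 345) (nat_lit 324))) (XT.nd (nat_lit 78) (nat_lit 532) (nat_lit 0) (XT.lf (nat_lit 76) (nat_lit 4943637854) (nat_lit 0) (nat_lit 771045914) (nat_lit 608) (nat_lit 1054206356) (nat_lit 361) (nat_lit 5) (nat_lit 360) (nat_lit 5) (nat_lit 368) (nat_lit 5) (nat_lit 352) (nat_lit 345) (nat_lit 323)) (XT.lf (nat_lit 0) (nat_lit 1219452472) (nat_lit 608) (nat_lit 5014405489) (nat_lit 684) (nat_lit 577933012) (nat_lit 353) (nat_lit 5) (nat_lit 361) (nat_lit 5) (nat_lit 362) (nat_lit 5) (nat_lit 353) (nat_lit 345) (nat_lit 322))))) (XT.nd (nat_lit 234) (nat_lit 1444) (nat_lit 0) (XT.nd (nat_lit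 78) (nat_lit 684) (nat_lit 0) (XT.lf (nat_lit 0) (nat_lit 3484788874) (nat_lit 608) (nat_lit 1360686034) (nat_lit 684) (nat_lit 2011900240) (nat_lit 353) (nat_lit 5) (nat_lit 361) (nat_lit 5) (nat_lit 362) (nat_lit 5) (nat_lit 354) (nat_lit 345) (nat_lit 321)) (XT.nd (nat_lit 78) (nat_lit 684) (nat_lit 0) (XT.lf (nat_lit 76) (nat_lit 2397859083) (nat_lit 0) (nat_lit 3364060665) (nat_lit 684) (nat_lit 1144139757) (nat_lit 354) (nat_lit 5) (nat_lit 353) (nat_lit 5) (nat_lit 362) (nat_lit 5) (nat_lit 355) (nat_lit 345) (nat_lit 320)) (XT.lf (nat_lit 0) (nat_lit 1064362461) (nat_lit 684) (nat_lit 722613232) (nat_lit 760) (nat_lit 5170871716) (nat_lit 344) (nat_lit 5) (nat_lit 353) (nat_lit 5) (nat_lit 354) (nat_lit 5) (nat_lit 356) (nat_lit 345) (nat_lit 319)))) (XT.nd (nat_lit 156) (nat_lit 836) (nat_lit 0) (XT.nd (nat_lit 78) (nat_lit 608) (nat_lit 0) (XT.lf (nat_lit 76) (nat_lit 3176051177) (nat_lit 0) (nat_lit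 94669907) (nat_lit 760) (nat_lit 3741533745) (nat_lit 345) (nat_lit 5) (nat_lit 344) (nat_lit 5) (nat_lit 354) (nat_lit 5) (nat_lit 357) (nat_lit 345) (nat_lit 318)) (XT.lf (nat_lit 0) (nat_lit 70743246) (nat_lit 684) (nat_lit 5422440669) (nat_lit 760) (nat_lit 1576655523) (nat_lit 336) (nat_lit 5) (nat_lit 345) (nat_lit 5) (nat_lit 346) (nat_lit 5) (nat_lit 358) (nat_lit 345) (nat_lit 317))) (XT.nd (nat_lit 78) (nat_lit 760) (nat_lit 0) (XT.lf (nat_lit 0) (nat_lit 607393658) (nat_lit 760) (nat_lit 3016157955) (nat_lit 76) (nat_lit 3506442444) (nat_lit 335) (nat_lit 5) (nat_lit 345) (nat_lit 5) (nat_lit 336) (nat_lit 5) (nat_lit 359) (nat_lit 345) (nat_lit 316)) (XT.lf (nat_lit 0) (nat_lit 1038390674) (nat_lit 760) (nat_lit 1725906157) (nat_lit 836) (nat_lit 4429056295) (nat_lit 325) (nat_lit 5) (nat_lit 335) (nat_lit 5) (nat_lit 336) (nat_lit 5) (nat_lit 360) (nat_lit 345) (nat_lit 315)))))) (XT.nd (nat_lit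 546) (nat_lit 4332) (nat_lit 0) (XT.nd (nat_lit 234) (nat_lit 3040) (nat_lit 0) (XT.nd (nat_lit 78) (nat_lit 912) (nat_lit 0) (XT.lf (nat_lit 0) (nat_lit 4949637967) (nat_lit 836) (nat_lit 2038096399) (nat_lit 76) (nat_lit 272004320) (nat_lit 325) (nat_lit 5) (nat_lit 336) (nat_lit 5) (nat_lit 326) (nat_lit 5) (nat_lit 361) (nat_lit 345) (nat_lit 314)) (XT.nd (nat_lit 78) (nat_lit 76) (nat_lit 0) (XT.lf (nat_lit 0) (nat_lit 2174907803) (nat_lit 836) (nat_lit 4996416478) (nat_lit 912) (nat_lit 157704536) (nat_lit 314) (nat_lit 5) (nat_lit 325) (nat_lit 5) (nat_lit 326) (nat_lit 5) (nat_lit 362) (nat_lit 345) (nat_lit 313)) (XT.lf (nat_lit 0) (nat_lit 1973424586) (nat_lit 912) (nat_lit 917257599) (nat_lit 76) (nat_lit 4510525731) (nat_lit 313) (nat_lit 5) (nat_lit 325) (nat_lit 5) (nat_lit 314) (nat_lit 5) (nat_lit 363) (nat_lit 345) (nat_lit 312)))) (XT.nd (nat_lit 156) (nat_lit 1140) (nat_lit 0) (XT.nd (nat_lit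 78) (nat_lit 988) (nat_lit 0) (XT.lf (nat_lit 0) (nat_lit 3460680819) (nat_lit 912) (nat_lit 673398535) (nat_lit 988) (nat_lit 3342396794) (nat_lit 301) (nat_lit 5) (nat_lit 313) (nat_lit 5) (nat_lit 314) (nat_lit 5) (nat_lit 364) (nat_lit 345) (nat_lit 311)) (XT.lf (nat_lit 0) (nat_lit 373218750) (nat_lit 988) (nat_lit 5951747942) (nat_lit 1064) (nat_lit 1230105822) (nat_lit 288) (nat_lit 5) (nat_lit 301) (nat_lit 5) (nat_lit 302) (nat_lit 5) (nat_lit 365) (nat_lit 345) (nat_lit 310))) (XT.nd (nat_lit 78) (nat_lit 1064) (nat_lit 0) (XT.lf (nat_lit 0) (nat_lit 912398189) (nat_lit 1064) (nat_lit 2729019292) (nat_lit 76) (nat_lit 3994808359) (nat_lit 287) (nat_lit 5) (nat_lit 301) (nat_lit 5) (nat_lit 288) (nat_lit 5) (nat_lit 366) (nat_lit 345) (nat_lit 309)) (XT.lf (nat_lit 0) (nat_lit 1828202428) (nat_lit 1064) (nat_lit 1223315076) (nat_lit 1140) (nat_lit 4669248681) (nat_lit 273) (nat_lit 5) (nat_lit 287)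 (nat_lit 5) (nat_lit 288) (nat_lit 5) (nat_lit 367) (nat_lit 345) (nat_lit 308))))) (XT.nd (nat_lit 312) (nat_lit 1900) (nat_lit 0) (XT.nd (nat_lit 156) (nat_lit 1292) (nat_lit 0) (XT.nd (nat_lit 78) (nat_lit 1140) (nat_lit 0) (XT.lf (nat_lit 0) (nat_lit 5235642486) (nat_lit 1140) (nat_lit 1295439223) (nat_lit 76) (nat_lit 1277364921) (nat_lit 273) (nat_lit 5) (nat_lit 288) (nat_lit 5) (nat_lit 274) (nat_lit 5) (nat_lit 368) (nat_lit 345) (nat_lit 307)) (XT.lf (nat_lit 0) (nat_lit 3442179607) (nat_lit 1140) (nat_lit 4030854827) (nat_lit 1216) (nat_lit 426118771) (nat_lit 258) (nat_lit 5) (nat_lit 273) (nat_lit 5) (nat_lit 274) (nat_lit 5) (nat_lit 369) (nat_lit 345) (nat_lit 306))) (XT.nd (nat_lit 78) (nat_lit 0) (nat_lit 0) (XT.lf (nat_lit 0) (nat_lit 291575245) (nat_lit 1216) (nat_lit 1417707436) (nat_lit 1292) (nat_lit 6284035555) (nat_lit 241) (nat_lit 5) (nat_lit 257) (nat_lit 5) (nat_lit 258) (nat_lit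 5) (nat_lit 370) (nat_lit 345) (nat_lit 305)) (XT.lf (nat_lit 0) (nat_lit 3902192400) (nat_lit 1292) (nat_lit 2886250079) (nat_lit 76) (nat_lit 1301704482) (nat_lit 241) (nat_lit 5) (nat_lit 258) (nat_lit 5) (nat_lit 242) (nat_lit 5) (nat_lit 371) (nat_lit 345) (nat_lit 304)))) (XT.nd (nat_lit 156) (nat_lit 1216) (nat_lit 0) (XT.nd (nat_lit 78) (nat_lit 76) (nat_lit 0) (XT.lf (nat_lit 0) (nat_lit 2046868296) (nat_lit 608) (nat_lit 4093669110) (nat_lit 684) (nat_lit 2049978591) (nat_lit 233) (nat_lit 5) (nat_lit 241) (nat_lit 5) (nat_lit 242) (nat_lit 5) (nat_lit 372) (nat_lit 345) (nat_lit 303)) (XT.lf (nat_lit 0) (nat_lit 125061787) (nat_lit 684) (nat_lit 1160943521) (nat_lit 76) (nat_lit 7008593566) (nat_lit 232) (nat_lit 5) (nat_lit 241) (nat_lit 5) (nat_lit 233) (nat_lit 5) (nat_lit 373) (nat_lit 345) (nat_lit 302))) (XT.nd (nat_lit 78) (nat_lit 608) (nat_lit 0) (XT.lf (nat_lit 0) (nat_lit 2326415675) (nat_lit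 684) (nat_lit 4440866109) (nat_lit 76) (nat_lit 1633868381) (nat_lit 224) (nat_lit 5) (nat_lit 233) (nat_lit 5) (nat_lit 225) (nat_lit 5) (nat_lit 374) (nat_lit 345) (nat_lit 301)) (XT.lf (nat_lit 0) (nat_lit 696335622) (nat_lit 608) (nat_lit 3877777911) (nat_lit 684) (nat_lit 3937397476) (nat_lit 216) (nat_lit 5) (nat_lit 224) (nat_lit 5) (nat_lit 225) (nat_lit 5) (nat_lit 375) (nat_lit 345) (nat_lit 300))))))))
noncomputable def xc114 : XT := (XT.nd (nat_lit 2184) (nat_lit 4104) (nat_lit 0) (XT.nd (nat_lit 1092) (nat_lit 3344) (nat_lit 0) (XT.nd (nat_lit 546) (nat_lit 1900) (nat_lit 0) (XT.nd (nat_lit 234) (nat_lit 1596) (nat_lit 0) (XT.nd (nat_lit 78) (nat_lit 608) (nat_lit 0) (XT.lf (nat_lit 0) (nat_lit 6026400530) (nat_lit 608) (nat_lit 857705268) (nat_lit 684) (nat_lit 1741252445) (nat_lit 216) (nat_lit 5) (nat_lit 224) (nat_lit 5) (nat_lit 225) (nat_lit 5) (nat_lit 376) (nat_lit 345) (nat_lit 299)) (XT.nd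 (nat_lit 78) (nat_lit 0) (nat_lit 0) (XT.lf (nat_lit 0) (nat_lit 510170009) (nat_lit 608) (nat_lit 5994052157) (nat_lit 76) (nat_lit 2238282125) (nat_lit 208) (nat_lit 5) (nat_lit 216) (nat_lit 5) (nat_lit 209) (nat_lit 5) (nat_lit 377) (nat_lit 345) (nat_lit 298)) (XT.lf (nat_lit 0) (nat_lit 2781013214) (nat_lit 608) (nat_lit 631492974) (nat_lit 76) (nat_lit 5450554710) (nat_lit 208) (nat_lit 5) (nat_lit 216) (nat_lit 5) (nat_lit 209) (nat_lit 5) (nat_lit 378) (nat_lit 345) (nat_lit 297)))) (XT.nd (nat_lit 156) (nat_lit 608) (nat_lit 0) (XT.nd (nat_lit 78) (nat_lit 456) (nat_lit 0) (XT.lf (nat_lit 0) (nat_lit 4937134902) (nat_lit 532) (nat_lit 183586325) (nat_lit 608) (nat_lit 3866509868) (nat_lit 201) (nat_lit 5) (nat_lit 208) (nat_lit 5) (nat_lit 209) (nat_lit 5) (nat_lit 379) (nat_lit 345) (nat_lit 296)) (XT.lf (nat_lit 0) (nat_lit 1518193417) (nat_lit 456) (nat_lit 6017774086) (nat_lit 532) (nat_lit 1579017002)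 (nat_lit 195) (nat_lit 5) (nat_lit 201) (nat_lit 5) (nat_lit 202) (nat_lit 5) (nat_lit 380) (nat_lit 345) (nat_lit 295))) (XT.nd (nat_lit 78) (nat_lit 532) (nat_lit 0) (XT.lf (nat_lit 0) (nat_lit 759543810) (nat_lit 532) (nat_lit 1970890565) (nat_lit 76) (nat_lit 6516001285) (nat_lit 194) (nat_lit 5) (nat_lit 201) (nat_lit 5) (nat_lit 195) (nat_lit 5) (nat_lit 381) (nat_lit 345) (nat_lit 294)) (XT.lf (nat_lit 0) (nat_lit 3135929398) (nat_lit 608) (nat_lit 5556307749) (nat_lit 76) (nat_lit 689158997) (nat_lit 187) (nat_lit 5) (nat_lit 195) (nat_lit 5) (nat_lit 188) (nat_lit 5) (nat_lit 382) (nat_lit 345) (nat_lit 293))))) (XT.nd (nat_lit 234) (nat_lit 912) (nat_lit 0) (XT.nd (nat_lit 78) (nat_lit 532) (nat_lit 0) (XT.lf (nat_lit 0) (nat_lit 241384371) (nat_lit 456) (nat_lit 5348223312) (nat_lit 532) (nat_lit 3930634181) (nat_lit 181) (nat_lit 5) (nat_lit 187) (nat_lit 5) (nat_lit 188) (nat_lit 5) (nat_lit 383)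 (nat_lit 345) (nat_lit 292)) (XT.nd (nat_lit 78) (nat_lit 532) (nat_lit 0) (XT.lf (nat_lit 0) (nat_lit 6275777813) (nat_lit 456) (nat_lit 1854548054) (nat_lit 532) (nat_lit 1532540176) (nat_lit 181) (nat_lit 5) (nat_lit 187) (nat_lit 5) (nat_lit 188) (nat_lit 5) (nat_lit 384) (nat_lit 345) (nat_lit 291)) (XT.lf (nat_lit 0) (nat_lit 920071895) (nat_lit 532) (nat_lit 7152906250) (nat_lit 76) (nat_lit 1736509432) (nat_lit 174) (nat_lit 5) (nat_lit 181) (nat_lit 5) (nat_lit 175) (nat_lit 5) (nat_lit 385) (nat_lit 345) (nat_lit 290)))) (XT.nd (nat_lit 156) (nat_lit 532) (nat_lit 0) (XT.nd (nat_lit 78) (nat_lit 380) (nat_lit 0) (XT.lf (nat_lit 0) (nat_lit 3427156000) (nat_lit 532) (nat_lit 1093518212) (nat_lit 76) (nat_lit 5439042068) (nat_lit 174) (nat_lit 5) (nat_lit 181) (nat_lit 5) (nat_lit 175) (nat_lit 5) (nat_lit 386) (nat_lit 345) (nat_lit 289)) (XT.lf (nat_lit 0) (nat_lit 5199446011) (nat_lit 380) (nat_lit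 819979839) (nat_lit 456) (nat_lit 4094740993) (nat_lit 169) (nat_lit 5) (nat_lit 174) (nat_lit 5) (nat_lit 175) (nat_lit 5) (nat_lit 387) (nat_lit 345) (nat_lit 288))) (XT.nd (nat_lit 78) (nat_lit 76) (nat_lit 0) (XT.lf (nat_lit 0) (nat_lit 1378449499) (nat_lit 456) (nat_lit 7324765576) (nat_lit 532) (nat_lit 1569637089) (nat_lit 163) (nat_lit 5) (nat_lit 169) (nat_lit 5) (nat_lit 170) (nat_lit 5) (nat_lit 388) (nat_lit 345) (nat_lit 287)) (XT.lf (nat_lit 0) (nat_lit 1030199424) (nat_lit 532) (nat_lit 2542745812) (nat_lit 76) (nat_lit 6862495346) (nat_lit 162) (nat_lit 5) (nat_lit 169) (nat_lit 5) (nat_lit 163) (nat_lit 5) (nat_lit 389) (nat_lit 345) (nat_lit 286)))))) (XT.nd (nat_lit 546) (nat_lit 1444) (nat_lit 0) (XT.nd (nat_lit 234) (nat_lit 1140) (nat_lit 0) (XT.nd (nat_lit 78) (nat_lit 380) (nat_lit 0) (XT.lf (nat_lit 0) (nat_lit 3680293163) (nat_lit 456) (nat_lit 6592538495) (nat_lit 76) (nat_lit 329507070)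 (nat_lit 157) (nat_lit 5) (nat_lit 163) (nat_lit 5) (nat_lit 158) (nat_lit 5) (nat_lit 390) (nat_lit 345) (nat_lit 285)) (XT.nd (nat_lit 78) (nat_lit 380) (nat_lit 0) (XT.lf (nat_lit 0) (nat_lit 6433730611) (nat_lit 456) (nat_lit 47703024) (nat_lit 76) (nat_lit 4292107199) (nat_lit 157) (nat_lit 5) (nat_lit 163) (nat_lit 5) (nat_lit 158) (nat_lit 5) (nat_lit 391) (nat_lit 345) (nat_lit 284)) (XT.lf (nat_lit 0) (nat_lit 6777531519) (nat_lit 380) (nat_lit 2521014910) (nat_lit 456) (nat_lit 1650481205) (nat_lit 152) (nat_lit 5) (nat_lit 157) (nat_lit 5) (nat_lit 158) (nat_lit 5) (nat_lit 392) (nat_lit 345) (nat_lit 283)))) (XT.nd (nat_lit 156) (nat_lit 684) (nat_lit 0) (XT.nd (nat_lit 78) (nat_lit 0) (nat_lit 0) (XT.lf (nat_lit 0) (nat_lit 1102936009) (nat_lit 456) (nat_lit 8473346786) (nat_lit 76) (nat_lit 1553026969) (nat_lit 146) (nat_lit 5) (nat_lit 152) (nat_lit 5) (nat_lit 147) (nat_lit 5) (nat_lit 393) (nat_lit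 345) (nat_lit 282)) (XT.lf (nat_lit 0) (nat_lit 3937616699) (nat_lit 456) (nat_lit 1630638877) (nat_lit 76) (nat_lit 5745310400) (nat_lit 146) (nat_lit 5) (nat_lit 152) (nat_lit 5) (nat_lit 147) (nat_lit 5) (nat_lit 394) (nat_lit 345) (nat_lit 281))) (XT.nd (nat_lit 78) (nat_lit 304) (nat_lit 0) (XT.lf (nat_lit 0) (nat_lit 5476705319) (nat_lit 380) (nat_lit 1398649243) (nat_lit 456) (nat_lit 4627465369) (nat_lit 141) (nat_lit 5) (nat_lit 146) (nat_lit 5) (nat_lit 147) (nat_lit 5) (nat_lit 395) (nat_lit 345) (nat_lit 280)) (XT.lf (nat_lit 0) (nat_lit 1078526115) (nat_lit 304) (nat_lit 8843336653) (nat_lit 380) (nat_lit 1775279847) (nat_lit 137) (nat_lit 5) (nat_lit 141) (nat_lit 5) (nat_lit 142) (nat_lit 5) (nat_lit 396) (nat_lit 345) (nat_lit 279))))) (XT.nd (nat_lit 234) (nat_lit 988) (nat_lit 0) (XT.nd (nat_lit 78) (nat_lit 380) (nat_lit 0) (XT.lf (nat_lit 0) (nat_lit 1181089148) (nat_lit 380) (nat_lit 3449432022)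 (nat_lit 76) (nat_lit 7265209184) (nat_lit 136) (nat_lit 5) (nat_lit 141) (nat_lit 5) (nat_lit 137) (nat_lit 5) (nat_lit 397) (nat_lit 345) (nat_lit 278)) (XT.nd (nat_lit 78) (nat_lit 0) (nat_lit 0) (XT.lf (nat_lit 0) (nat_lit 3947511004) (nat_lit 380) (nat_lit 247892501) (nat_lit 456) (nat_lit 7904206225) (nat_lit 131) (nat_lit 5) (nat_lit 136) (nat_lit 5) (nat_lit 137) (nat_lit 5) (nat_lit 398) (nat_lit 345) (nat_lit 277)) (XT.lf (nat_lit 0) (nat_lit 7343707368) (nat_lit 456) (nat_lit 760005251) (nat_lit 76) (nat_lit 4204595175) (nat_lit 131) (nat_lit 5) (nat_lit 137) (nat_lit 5) (nat_lit 132) (nat_lit 5) (nat_lit 399) (nat_lit 345) (nat_lit 276)))) (XT.nd (nat_lit 156) (nat_lit 304) (nat_lit 0) (XT.nd (nat_lit 78) (nat_lit 380) (nat_lit 0) (XT.lf (nat_lit 0) (nat_lit 6941052564) (nat_lit 304) (nat_lit 3682907333) (nat_lit 380) (nat_lit 1898190762) (nat_lit 127) (nat_lit 5) (nat_lit 131) (nat_lit 5) (nat_lit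 132) (nat_lit 5) (nat_lit 400) (nat_lit 345) (nat_lit 275)) (XT.lf (nat_lit 0) (nat_lit 1240966149) (nat_lit 380) (nat_lit 10620840190) (nat_lit 76) (nat_lit 880087005) (nat_lit 122) (nat_lit 5) (nat_lit 127) (nat_lit 5) (nat_lit 123) (nat_lit 5) (nat_lit 401) (nat_lit 345) (nat_lit 274))) (XT.nd (nat_lit 78) (nat_lit 304) (nat_lit 0) (XT.lf (nat_lit 0) (nat_lit 4498360371) (nat_lit 380) (nat_lit 2900002273) (nat_lit 76) (nat_lit 5567443510) (nat_lit 122) (nat_lit 5) (nat_lit 127) (nat_lit 5) (nat_lit 123) (nat_lit 5) (nat_lit 402) (nat_lit 345) (nat_lit 273)) (XT.lf (nat_lit 0) (nat_lit 5107144526) (nat_lit 304) (nat_lit 2765166424) (nat_lit 380) (nat_lit 5323568222) (nat_lit 118) (nat_lit 5) (nat_lit 122) (nat_lit 5) (nat_lit 123) (nat_lit 5) (nat_lit 403) (nat_lit 345) (nat_lit 272))))))) (XT.nd (nat_lit 1092) (nat_lit 1824) (nat_lit 0) (XT.nd (nat_lit 546) (nat_lit 1064) (nat_lit 0) (XT.nd (nat_lit 234)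 (nat_lit 608) (nat_lit 0) (XT.nd (nat_lit 78) (nat_lit 608) (nat_lit 0) (XT.lf (nat_lit 0) (nat_lit 11366400260) (nat_lit 380) (nat_lit 82899933) (nat_lit 76) (nat_lit 1982994209) (nat_lit 118) (nat_lit 5) (nat_lit 123) (nat_lit 5) (nat_lit 119) (nat_lit 5) (nat_lit 404) (nat_lit 345) (nat_lit 271)) (XT.nd (nat_lit 78) (nat_lit 228) (nat_lit 0) (XT.lf (nat_lit 0) (nat_lit 1342742812) (nat_lit 380) (nat_lit 5433845914) (nat_lit 76) (nat_lit 6896496821) (nat_lit 113) (nat_lit 5) (nat_lit 118) (nat_lit 5) (nat_lit 114) (nat_lit 5) (nat_lit 405) (nat_lit 345) (nat_lit 270)) (XT.lf (nat_lit 0) (nat_lit 2883342332) (nat_lit 228) (nat_lit 1928398978) (nat_lit 304) (nat_lit 9108763719) (nat_lit 110) (nat_lit 5) (nat_lit 113) (nat_lit 5) (nat_lit 114) (nat_lit 5) (nat_lit 406) (nat_lit 345) (nat_lit 269)))) (XT.nd (nat_lit 156) (nat_lit 304) (nat_lit 0) (XT.nd (nat_lit 78) (nat_lit 304) (nat_lit 0) (XT.lf (nat_lit 0)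 (nat_lit 8441029047) (nat_lit 304) (nat_lit 2686684917) (nat_lit 76) (nat_lit 3045953333) (nat_lit 110) (nat_lit 5) (nat_lit 114) (nat_lit 5) (nat_lit 111) (nat_lit 5) (nat_lit 407) (nat_lit 345) (nat_lit 268)) (XT.lf (nat_lit 0) (nat_lit 5968565366) (nat_lit 304) (nat_lit 6259271256) (nat_lit 380) (nat_lit 2205135156) (nat_lit 106) (nat_lit 5) (nat_lit 110) (nat_lit 5) (nat_lit 111) (nat_lit 5) (nat_lit 408) (nat_lit 345) (nat_lit 267))) (XT.nd (nat_lit 78) (nat_lit 0) (nat_lit 0) (XT.lf (nat_lit 0) (nat_lit 185680274) (nat_lit 228) (nat_lit 1216124193) (nat_lit 304) (nat_lit 13297800852) (nat_lit 102) (nat_lit 5) (nat_lit 105) (nat_lit 5) (nat_lit 106) (nat_lit 5) (nat_lit 409) (nat_lit 345) (nat_lit 266)) (XT.lf (nat_lit 0) (nat_lit 5169736352) (nat_lit 304) (nat_lit 5807317222) (nat_lit 76) (nat_lit 3993622172) (nat_lit 102) (nat_lit 5) (nat_lit 106) (nat_lit 5) (nat_lit 103) (nat_lit 5) (nat_lit 410) (nat_lit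 345) (nat_lit 265))))) (XT.nd (nat_lit 234) (nat_lit 532) (nat_lit 0) (XT.nd (nat_lit 78) (nat_lit 304) (nat_lit 0) (XT.lf (nat_lit 0) (nat_lit 3168030949) (nat_lit 228) (nat_lit 5898511752) (nat_lit 304) (nat_lit 6182866337) (nat_lit 99) (nat_lit 5) (nat_lit 102) (nat_lit 5) (nat_lit 103) (nat_lit 5) (nat_lit 411) (nat_lit 345) (nat_lit 264)) (XT.nd (nat_lit 78) (nat_lit 304) (nat_lit 0) (XT.lf (nat_lit 0) (nat_lit 12489861213) (nat_lit 228) (nat_lit 622751570) (nat_lit 304) (nat_lit 2422926435) (nat_lit 99) (nat_lit 5) (nat_lit 102) (nat_lit 5) (nat_lit 103) (nat_lit 5) (nat_lit 412) (nat_lit 345) (nat_lit 263)) (XT.lf (nat_lit 0) (nat_lit 1503430428) (nat_lit 304) (nat_lit 9546084390) (nat_lit 76) (nat_lit 4777868450) (nat_lit 95) (nat_lit 5) (nat_lit 99) (nat_lit 5) (nat_lit 96) (nat_lit 5) (nat_lit 413) (nat_lit 345) (nat_lit 262)))) (XT.nd (nat_lit 156) (nat_lit 304) (nat_lit 0) (XT.nd (nat_lit 78) (nat_lit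 228) (nat_lit 0) (XT.lf (nat_lit 0) (nat_lit 5510542028) (nat_lit 304) (nat_lit 248341501) (nat_lit 76) (nat_lit 10368034751) (nat_lit 95) (nat_lit 5) (nat_lit 99) (nat_lit 5) (nat_lit 96) (nat_lit 5) (nat_lit 414) (nat_lit 345) (nat_lit 261)) (XT.lf (nat_lit 0) (nat_lit 9473050832) (nat_lit 228) (nat_lit 231058176) (nat_lit 304) (nat_lit 6729348118) (nat_lit 92) (nat_lit 5) (nat_lit 95) (nat_lit 5) (nat_lit 96) (nat_lit 5) (nat_lit 415) (nat_lit 345) (nat_lit 260))) (XT.nd (nat_lit 78) (nat_lit 76) (nat_lit 0) (XT.lf (nat_lit 0) (nat_lit 2701912949) (nat_lit 228) (nat_lit 11377960335) (nat_lit 304) (nat_lit 2667632043) (nat_lit 89) (nat_lit 5) (nat_lit 92) (nat_lit 5) (nat_lit 93) (nat_lit 5) (nat_lit 416) (nat_lit 345) (nat_lit 259)) (XT.lf (nat_lit 0) (nat_lit 1535087727) (nat_lit 304) (nat_lit 4330071502) (nat_lit 76) (nat_lit 11203921189) (nat_lit 88) (nat_lit 5) (nat_lit 92) (nat_lit 5) (nat_lit 89) (nat_lit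 5) (nat_lit 417) (nat_lit 345) (nat_lit 258)))))) (XT.nd (nat_lit 546) (nat_lit 988) (nat_lit 0) (XT.nd (nat_lit 234) (nat_lit 456) (nat_lit 0) (XT.nd (nat_lit 78) (nat_lit 152) (nat_lit 0) (XT.lf (nat_lit 0) (nat_lit 5722922596) (nat_lit 228) (nat_lit 118540128) (nat_lit 304) (nat_lit 11557116442) (nat_lit 85) (nat_lit 5) (nat_lit 88) (nat_lit 5) (nat_lit 89) (nat_lit 5) (nat_lit 418) (nat_lit 345) (nat_lit 257)) (XT.nd (nat_lit 78) (nat_lit 152) (nat_lit 0) (XT.lf (nat_lit 0) (nat_lit 10353295494) (nat_lit 304) (nat_lit 1666004896) (nat_lit 76) (nat_lit 5716378842) (nat_lit 85) (nat_lit 5) (nat_lit 89) (nat_lit 5) (nat_lit 86) (nat_lit 5) (nat_lit 419) (nat_lit 345) (nat_lit 256)) (XT.lf (nat_lit 0) (nat_lit 8775725320) (nat_lit 152) (nat_lit 6287328676) (nat_lit 228) (nat_lit 3017965407) (nat_lit 83) (nat_lit 5) (nat_lit 85) (nat_lit 5) (nat_lit 86) (nat_lit 5) (nat_lit 420) (nat_lit 345) (nat_lit 255))))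 (XT.nd (nat_lit 156) (nat_lit 152) (nat_lit 0) (XT.nd (nat_lit 78) (nat_lit 0) (nat_lit 0) (XT.lf (nat_lit 0) (nat_lit 1097320960) (nat_lit 228) (nat_lit 355888935) (nat_lit 304) (nat_lit 16982948214) (nat_lit 79) (nat_lit 5) (nat_lit 82) (nat_lit 5) (nat_lit 83) (nat_lit 5) (nat_lit 421) (nat_lit 345) (nat_lit 254)) (XT.lf (nat_lit 0) (nat_lit 6125332716) (nat_lit 304) (nat_lit 6921010008) (nat_lit 76) (nat_lit 5750891582) (nat_lit 79) (nat_lit 5) (nat_lit 83) (nat_lit 5) (nat_lit 80) (nat_lit 5) (nat_lit 422) (nat_lit 345) (nat_lit 253))) (XT.nd (nat_lit 78) (nat_lit 0) (nat_lit 0) (XT.lf (nat_lit 0) (nat_lit 3843424879) (nat_lit 152) (nat_lit 7112594117) (nat_lit 228) (nat_lit 8212575552) (nat_lit 77) (nat_lit 5) (nat_lit 79) (nat_lit 5) (nat_lit 80) (nat_lit 5) (nat_lit 423) (nat_lit 345) (nat_lit 252)) (XT.lf (nat_lit 0) (nat_lit 15035630946) (nat_lit 152) (nat_lit 944101104) (nat_lit 228) (nat_lit 3569924005)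 (nat_lit 77) (nat_lit 5) (nat_lit 79) (nat_lit 5) (nat_lit 80) (nat_lit 5) (nat_lit 424) (nat_lit 345) (nat_lit 251))))) (XT.nd (nat_lit 312) (nat_lit 380) (nat_lit 0) (XT.nd (nat_lit 156) (nat_lit 304) (nat_lit 0) (XT.nd (nat_lit 78) (nat_lit 0) (nat_lit 0) (XT.lf (nat_lit 0) (nat_lit 1284048780) (nat_lit 304) (nat_lit 13288877206) (nat_lit 76) (nat_lit 5366006571) (nat_lit 73) (nat_lit 5) (nat_lit 77) (nat_lit 5) (nat_lit 74) (nat_lit 5) (nat_lit 425) (nat_lit 345) (nat_lit 250)) (XT.lf (nat_lit 0) (nat_lit 6246041785) (nat_lit 304) (nat_lit 2178594332) (nat_lit 76) (nat_lit 11913169609) (nat_lit 73) (nat_lit 5) (nat_lit 77) (nat_lit 5) (nat_lit 74) (nat_lit 5) (nat_lit 426) (nat_lit 345) (nat_lit 249))) (XT.nd (nat_lit 78) (nat_lit 152) (nat_lit 0) (XT.lf (nat_lit 0) (nat_lit 9413225537) (nat_lit 152) (nat_lit 2013544355) (nat_lit 228) (nat_lit 9319782178) (nat_lit 71) (nat_lit 5) (nat_lit 73) (nat_lit 5)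 (nat_lit 74) (nat_lit 5) (nat_lit 427) (nat_lit 345) (nat_lit 248)) (XT.lf (nat_lit 0) (nat_lit 153636207) (nat_lit 152) (nat_lit 16656609096) (nat_lit 228) (nat_lit 4355898879) (nat_lit 69) (nat_lit 5) (nat_lit 71) (nat_lit 5) (nat_lit 72) (nat_lit 5) (nat_lit 428) (nat_lit 345) (nat_lit 247)))) (XT.nd (nat_lit 156) (nat_lit 152) (nat_lit 0) (XT.nd (nat_lit 78) (nat_lit 152) (nat_lit 0) (XT.lf (nat_lit 0) (nat_lit 857209958) (nat_lit 228) (nat_lit 9441348088) (nat_lit 76) (nat_lit 11296098334) (nat_lit 68) (nat_lit 5) (nat_lit 71) (nat_lit 5) (nat_lit 69) (nat_lit 5) (nat_lit 429) (nat_lit 345) (nat_lit 246)) (XT.lf (nat_lit 0) (nat_lit 2446963801) (nat_lit 152) (nat_lit 3695881235) (nat_lit 228) (nat_lit 15891777488) (nat_lit 66) (nat_lit 5) (nat_lit 68) (nat_lit 5) (nat_lit 69) (nat_lit 5) (nat_lit 430) (nat_lit 345) (nat_lit 245))) (XT.nd (nat_lit 78) (nat_lit 152) (nat_lit 0) (XT.lf (nat_lit 0) (nat_lit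 11693446122) (nat_lit 228) (nat_lit 7664968340) (nat_lit 76) (nat_lit 3126184071) (nat_lit 66) (nat_lit 5) (nat_lit 69) (nat_lit 5) (nat_lit 67) (nat_lit 5) (nat_lit 431) (nat_lit 345) (nat_lit 244)) (XT.lf (nat_lit 0) (nat_lit 4635563130) (nat_lit 152) (nat_lit 12836997520) (nat_lit 228) (nat_lit 5473656025) (nat_lit 64) (nat_lit 5) (nat_lit 66) (nat_lit 5) (nat_lit 67) (nat_lit 5) (nat_lit 432) (nat_lit 345) (nat_lit 243))))))))
noncomputable def xc115 : XT := (XT.nd (nat_lit 2184) (nat_lit 1216) (nat_lit 0) (XT.nd (nat_lit 1092) (nat_lit 912) (nat_lit 0) (XT.nd (nat_lit 546) (nat_lit 608) (nat_lit 0) (XT.nd (nat_lit 234) (nat_lit 380) (nat_lit 0) (XT.nd (nat_lit 78) (nat_lit 152) (nat_lit 0) (XT.lf (nat_lit 0) (nat_lit 62357011) (nat_lit 228) (nat_lit 5991680874) (nat_lit 76) (nat_lit 17365875337) (nat_lit 63) (nat_lit 5) (nat_lit 66) (nat_lit 5) (nat_lit 64) (nat_lit 5) (nat_lit 433) (nat_lit 345) (nat_lit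 242)) (XT.nd (nat_lit 78) (nat_lit 0) (nat_lit 0) (XT.lf (nat_lit 0) (nat_lit 5710689194) (nat_lit 228) (nat_lit 17173370585) (nat_lit 76) (nat_lit 1020449914) (nat_lit 61) (nat_lit 5) (nat_lit 64) (nat_lit 5) (nat_lit 62) (nat_lit 5) (nat_lit 434) (nat_lit 345) (nat_lit 241)) (XT.lf (nat_lit 0) (nat_lit 11631054785) (nat_lit 228) (nat_lit 4536769304) (nat_lit 76) (nat_lit 8232744877) (nat_lit 61) (nat_lit 5) (nat_lit 64) (nat_lit 5) (nat_lit 62) (nat_lit 5) (nat_lit 435) (nat_lit 345) (nat_lit 240)))) (XT.nd (nat_lit 156) (nat_lit 228) (nat_lit 0) (XT.nd (nat_lit 78) (nat_lit 0) (nat_lit 0) (XT.lf (nat_lit 0) (nat_lit 8615131952) (nat_lit 152) (nat_lit 9178790195) (nat_lit 228) (nat_lit 7115643484) (nat_lit 59) (nat_lit 5) (nat_lit 61) (nat_lit 5) (nat_lit 62) (nat_lit 5) (nat_lit 436) (nat_lit 345) (nat_lit 239)) (XT.lf (nat_lit 0) (nat_lit 22222992099) (nat_lit 152) (nat_lit 1946791090) (nat_lit 228) (nat_lit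 1263208049) (nat_lit 59) (nat_lit 5) (nat_lit 61) (nat_lit 5) (nat_lit 62) (nat_lit 5) (nat_lit 437) (nat_lit 345) (nat_lit 238))) (XT.nd (nat_lit 78) (nat_lit 0) (nat_lit 0) (XT.lf (nat_lit 0) (nat_lit 4808565377) (nat_lit 228) (nat_lit 15629527695) (nat_lit 76) (nat_lit 5528552315) (nat_lit 56) (nat_lit 5) (nat_lit 59) (nat_lit 5) (nat_lit 57) (nat_lit 5) (nat_lit 438) (nat_lit 345) (nat_lit 237)) (XT.lf (nat_lit 0) (nat_lit 11071832007) (nat_lit 228) (nat_lit 2222096794) (nat_lit 76) (nat_lit 13220965350) (nat_lit 56) (nat_lit 5) (nat_lit 59) (nat_lit 5) (nat_lit 57) (nat_lit 5) (nat_lit 439) (nat_lit 345) (nat_lit 236))))) (XT.nd (nat_lit 234) (nat_lit 304) (nat_lit 0) (XT.nd (nat_lit 78) (nat_lit 152) (nat_lit 0) (XT.lf (nat_lit 0) (nat_lit 11787370274) (nat_lit 152) (nat_lit 5832155558) (nat_lit 228) (nat_lit 9457170689) (nat_lit 54) (nat_lit 5) (nat_lit 56) (nat_lit 5) (nat_lit 57) (nat_lit 5) (nat_lit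 440) (nat_lit 345) (nat_lit 235)) (XT.nd (nat_lit 78) (nat_lit 152) (nat_lit 0) (XT.lf (nat_lit 0) (nat_lit 24387423049) (nat_lit 228) (nat_lit 1440322375) (nat_lit 76) (nat_lit 1826896319) (nat_lit 54) (nat_lit 5) (nat_lit 57) (nat_lit 5) (nat_lit 55) (nat_lit 4) (nat_lit 441) (nat_lit 345) (nat_lit 234)) (XT.lf (nat_lit 0) (nat_lit 3215819044) (nat_lit 152) (nat_lit 15285957929) (nat_lit 76) (nat_lit 9742212474) (nat_lit 52) (nat_lit 5) (nat_lit 54) (nat_lit 5) (nat_lit 53) (nat_lit 5) (nat_lit 442) (nat_lit 345) (nat_lit 233)))) (XT.nd (nat_lit 156) (nat_lit 152) (nat_lit 0) (XT.nd (nat_lit 78) (nat_lit 152) (nat_lit 0) (XT.lf (nat_lit 0) (nat_lit 9826182058) (nat_lit 152) (nat_lit 1094642540) (nat_lit 76) (nat_lit 17929269255) (nat_lit 52) (nat_lit 5) (nat_lit 54) (nat_lit 5) (nat_lit 53) (nat_lit 5) (nat_lit 443) (nat_lit 345) (nat_lit 232)) (XT.lf (nat_lit 0) (nat_lit 13762393545) (nat_lit 152) (nat_lit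 2989039981) (nat_lit 228) (nat_lit 12719452281) (nat_lit 50) (nat_lit 5) (nat_lit 52) (nat_lit 5) (nat_lit 53) (nat_lit 5) (nat_lit 444) (nat_lit 345) (nat_lit 231))) (XT.nd (nat_lit 78) (nat_lit 152) (nat_lit 0) (XT.lf (nat_lit 0) (nat_lit 23929753846) (nat_lit 228) (nat_lit 1100936964) (nat_lit 76) (nat_lit 5078253058) (nat_lit 50) (nat_lit 5) (nat_lit 53) (nat_lit 5) (nat_lit 51) (nat_lit 4) (nat_lit 445) (nat_lit 345) (nat_lit 230)) (XT.lf (nat_lit 0) (nat_lit 698444406) (nat_lit 152) (nat_lit 16604641633) (nat_lit 76) (nat_lit 13458337353) (nat_lit 48) (nat_lit 5) (nat_lit 50) (nat_lit 5) (nat_lit 49) (nat_lit 5) (nat_lit 446) (nat_lit 345) (nat_lit 229)))))) (XT.nd (nat_lit 546) (nat_lit 456) (nat_lit 0) (XT.nd (nat_lit 234) (nat_lit 304) (nat_lit 0) (XT.nd (nat_lit 78) (nat_lit 152) (nat_lit 0) (XT.lf (nat_lit 0) (nat_lit 7654271312) (nat_lit 152) (nat_lit 1627467913) (nat_lit 76) (nat_lit 22150022447)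 (nat_lit 48) (nat_lit 5) (nat_lit 50) (nat_lit 5) (nat_lit 49) (nat_lit 5) (nat_lit 447) (nat_lit 345) (nat_lit 228)) (XT.nd (nat_lit 78) (nat_lit 0) (nat_lit 0) (XT.lf (nat_lit 0) (nat_lit 14046087342) (nat_lit 152) (nat_lit 892978731) (nat_lit 228) (nat_lit 17179536739) (nat_lit 46) (nat_lit 5) (nat_lit 48) (nat_lit 5) (nat_lit 49) (nat_lit 5) (nat_lit 448) (nat_lit 345) (nat_lit 227)) (XT.lf (nat_lit 0) (nat_lit 22518802669) (nat_lit 228) (nat_lit 2704060586) (nat_lit 76) (nat_lit 7600895448) (nat_lit 46) (nat_lit 5) (nat_lit 49) (nat_lit 5) (nat_lit 47) (nat_lit 4) (nat_lit 449) (nat_lit 345) (nat_lit 226)))) (XT.nd (nat_lit 156) (nat_lit 152) (nat_lit 0) (XT.nd (nat_lit 78) (nat_lit 76) (nat_lit 0) (XT.lf (nat_lit 0) (nat_lit 13350838955) (nat_lit 76) (nat_lit 17098025420) (nat_lit 152) (nat_lit 3097518321) (nat_lit 45) (nat_lit 5) (nat_lit 46) (nat_lit 5) (nat_lit 47) (nat_lit 4) (nat_lit 450) (nat_lit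 345) (nat_lit 225)) (XT.lf (nat_lit 0) (nat_lit 4255079071) (nat_lit 152) (nat_lit 4415223224) (nat_lit 76) (nat_lit 25618736227) (nat_lit 44) (nat_lit 5) (nat_lit 46) (nat_lit 5) (nat_lit 45) (nat_lit 5) (nat_lit 451) (nat_lit 345) (nat_lit 224))) (XT.nd (nat_lit 78) (nat_lit 0) (nat_lit 0) (XT.lf (nat_lit 0) (nat_lit 11869136268) (nat_lit 228) (nat_lit 23034658705) (nat_lit 76) (nat_lit 146166121) (nat_lit 42) (nat_lit 5) (nat_lit 45) (nat_lit 5) (nat_lit 43) (nat_lit 4) (nat_lit 452) (nat_lit 345) (nat_lit 223)) (XT.lf (nat_lit 0) (nat_lit 19828726526) (nat_lit 228) (nat_lit 6915007126) (nat_lit 76) (nat_lit 9086465608) (nat_lit 42) (nat_lit 5) (nat_lit 45) (nat_lit 5) (nat_lit 43) (nat_lit 4) (nat_lit 453) (nat_lit 345) (nat_lit 222))))) (XT.nd (nat_lit 234) (nat_lit 152) (nat_lit 0) (XT.nd (nat_lit 78) (nat_lit 228) (nat_lit 0) (XT.lf (nat_lit 0) (nat_lit 9855700979) (nat_lit 76) (nat_lit 18252783543) (nat_lit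 152) (nat_lit 8522919869) (nat_lit 41) (nat_lit 5) (nat_lit 42) (nat_lit 5) (nat_lit 43) (nat_lit 4) (nat_lit 454) (nat_lit 345) (nat_lit 221)) (XT.nd (nat_lit 78) (nat_lit 228) (nat_lit 0) (XT.lf (nat_lit 0) (nat_lit 27246671610) (nat_lit 76) (nat_lit 9446585200) (nat_lit 152) (nat_lit 761691405) (nat_lit 41) (nat_lit 5) (nat_lit 42) (nat_lit 5) (nat_lit 43) (nat_lit 4) (nat_lit 455) (nat_lit 345) (nat_lit 220)) (XT.lf (nat_lit 0) (nat_lit 6897086353) (nat_lit 152) (nat_lit 247507022) (nat_lit 228) (nat_lit 31154919962) (nat_lit 38) (nat_lit 5) (nat_lit 40) (nat_lit 5) (nat_lit 41) (nat_lit 5) (nat_lit 456) (nat_lit 345) (nat_lit 219)))) (XT.nd (nat_lit 156) (nat_lit 76) (nat_lit 0) (XT.nd (nat_lit 78) (nat_lit 76) (nat_lit 0) (XT.lf (nat_lit 0) (nat_lit 15452653053) (nat_lit 228) (nat_lit 14562909172) (nat_lit 76) (nat_lit 9148231159) (nat_lit 38) (nat_lit 5) (nat_lit 41) (nat_lit 5) (nat_lit 39) (nat_lit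 4) (nat_lit 457) (nat_lit 345) (nat_lit 218)) (XT.lf (nat_lit 0) (nat_lit 2810701975) (nat_lit 76) (nat_lit 21216187894) (nat_lit 152) (nat_lit 16026604957) (nat_lit 37) (nat_lit 5) (nat_lit 38) (nat_lit 5) (nat_lit 39) (nat_lit 4) (nat_lit 458) (nat_lit 345) (nat_lit 217))) (XT.nd (nat_lit 78) (nat_lit 76) (nat_lit 0) (XT.lf (nat_lit 0) (nat_lit 20980788545) (nat_lit 76) (nat_lit 12012230146) (nat_lit 152) (nat_lit 7972829694) (nat_lit 37) (nat_lit 5) (nat_lit 38) (nat_lit 5) (nat_lit 39) (nat_lit 4) (nat_lit 459) (nat_lit 345) (nat_lit 216)) (XT.lf (nat_lit 0) (nat_lit 304113454) (nat_lit 152) (nat_lit 2235519114) (nat_lit 76) (nat_lit 39366212461) (nat_lit 36) (nat_lit 5) (nat_lit 38) (nat_lit 5) (nat_lit 37) (nat_lit 5) (nat_lit 460) (nat_lit 345) (nat_lit 215))))))) (XT.nd (nat_lit 1092) (nat_lit 532) (nat_lit 0) (XT.nd (nat_lit 546) (nat_lit 304) (nat_lit 0) (XT.nd (nat_lit 234) (nat_lit 152) (nat_lit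 0) (XT.nd (nat_lit 78) (nat_lit 76) (nat_lit 0) (XT.lf (nat_lit 0) (nat_lit 8885254652) (nat_lit 228) (nat_lit 26676188814) (nat_lit 76) (nat_lit 7303746802) (nat_lit 34) (nat_lit 5) (nat_lit 37) (nat_lit 5) (nat_lit 35) (nat_lit 4) (nat_lit 461) (nat_lit 345) (nat_lit 214)) (XT.nd (nat_lit 78) (nat_lit 76) (nat_lit 0) (XT.lf (nat_lit 0) (nat_lit 17760009559) (nat_lit 228) (nat_lit 8688117113) (nat_lit 76) (nat_lit 17404104717) (nat_lit 34) (nat_lit 5) (nat_lit 37) (nat_lit 5) (nat_lit 35) (nat_lit 4) (nat_lit 462) (nat_lit 345) (nat_lit 213)) (XT.lf (nat_lit 0) (nat_lit 10013447908) (nat_lit 76) (nat_lit 16972393939) (nat_lit 152) (nat_lit 17880497735) (nat_lit 33) (nat_lit 5) (nat_lit 34) (nat_lit 5) (nat_lit 35) (nat_lit 4) (nat_lit 463) (nat_lit 345) (nat_lit 212)))) (XT.nd (nat_lit 156) (nat_lit 76) (nat_lit 0) (XT.nd (nat_lit 78) (nat_lit 76) (nat_lit 0) (XT.lf (nat_lit 0) (nat_lit 29432821745) (nat_lit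 76) (nat_lit 7132067200) (nat_lit 152) (nat_lit 9343689738) (nat_lit 33) (nat_lit 5) (nat_lit 34) (nat_lit 5) (nat_lit 35) (nat_lit 4) (nat_lit 464) (nat_lit 345) (nat_lit 211)) (XT.lf (nat_lit 0) (nat_lit 2450691869) (nat_lit 76) (nat_lit 44021986413) (nat_lit 76) (nat_lit 508166382) (nat_lit 32) (nat_lit 4) (nat_lit 33) (nat_lit 5) (nat_lit 33) (nat_lit 4) (nat_lit 465) (nat_lit 345) (nat_lit 210))) (XT.nd (nat_lit 78) (nat_lit 0) (nat_lit 0) (XT.lf (nat_lit 0) (nat_lit 8652343871) (nat_lit 152) (nat_lit 25973439638) (nat_lit 76) (nat_lit 13450190320) (nat_lit 31) (nat_lit 5) (nat_lit 33) (nat_lit 5) (nat_lit 32) (nat_lit 4) (nat_lit 466) (nat_lit 345) (nat_lit 209)) (XT.lf (nat_lit 0) (nat_lit 18066733161) (nat_lit 152) (nat_lit 6885411581) (nat_lit 76) (nat_lit 24251983627) (nat_lit 31) (nat_lit 5) (nat_lit 33) (nat_lit 5) (nat_lit 32) (nat_lit 4) (nat_lit 467) (nat_lit 345) (nat_lit 208))))) (XT.nd (nat_lit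 234) (nat_lit 152) (nat_lit 0) (XT.nd (nat_lit 78) (nat_lit 76) (nat_lit 0) (XT.lf (nat_lit 0) (nat_lit 13009354402) (nat_lit 76) (nat_lit 14868843278) (nat_lit 152) (nat_lit 22484491295) (nat_lit 30) (nat_lit 5) (nat_lit 31) (nat_lit 5) (nat_lit 32) (nat_lit 4) (nat_lit 468) (nat_lit 345) (nat_lit 207)) (XT.nd (nat_lit 78) (nat_lit 76) (nat_lit 0) (XT.lf (nat_lit 0) (nat_lit 33622539023) (nat_lit 76) (nat_lit 4420701055) (nat_lit 152) (nat_lit 13510990021) (nat_lit 30) (nat_lit 5) (nat_lit 31) (nat_lit 5) (nat_lit 32) (nat_lit 4) (nat_lit 469) (nat_lit 345) (nat_lit 206)) (XT.lf (nat_lit 0) (nat_lit 2032090066) (nat_lit 76) (nat_lit 46551547948) (nat_lit 76) (nat_lit 4195768011) (nat_lit 29) (nat_lit 4) (nat_lit 30) (nat_lit 5) (nat_lit 30) (nat_lit 4) (nat_lit 470) (nat_lit 345) (nat_lit 205)))) (XT.nd (nat_lit 156) (nat_lit 76) (nat_lit 0) (XT.nd (nat_lit 78) (nat_lit 0) (nat_lit 0) (XT.lf (nat_lit 0) (nat_lit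 5510125014) (nat_lit 152) (nat_lit 31190223326) (nat_lit 76) (nat_lit 17332935620) (nat_lit 28) (nat_lit 5) (nat_lit 30) (nat_lit 5) (nat_lit 29) (nat_lit 4) (nat_lit 471) (nat_lit 345) (nat_lit 204)) (XT.lf (nat_lit 0) (nat_lit 15413086857) (nat_lit 152) (nat_lit 11106625515) (nat_lit 76) (nat_lit 28804113547) (nat_lit 28) (nat_lit 5) (nat_lit 30) (nat_lit 5) (nat_lit 29) (nat_lit 4) (nat_lit 472) (nat_lit 345) (nat_lit 203))) (XT.nd (nat_lit 78) (nat_lit 0) (nat_lit 0) (XT.lf (nat_lit 0) (nat_lit 9751648319) (nat_lit 76) (nat_lit 15945735624) (nat_lit 152) (nat_lit 30953173420) (nat_lit 27) (nat_lit 5) (nat_lit 28) (nat_lit 5) (nat_lit 29) (nat_lit 4) (nat_lit 473) (nat_lit 345) (nat_lit 202)) (XT.lf (nat_lit 0) (nat_lit 31445401273) (nat_lit 76) (nat_lit 4947575377) (nat_lit 152) (nat_lit 21621031698) (nat_lit 27) (nat_lit 5) (nat_lit 28) (nat_lit 5) (nat_lit 29) (nat_lit 4) (nat_lit 474) (nat_lit 345) (nat_lit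 201)))))) (XT.nd (nat_lit 546) (nat_lit 304) (nat_lit 0) (XT.nd (nat_lit 234) (nat_lit 76) (nat_lit 0) (XT.nd (nat_lit 78) (nat_lit 152) (nat_lit 0) (XT.lf (nat_lit 0) (nat_lit 47461575867) (nat_lit 152) (nat_lit 5707345177) (nat_lit 0) (nat_lit 6247878240) (nat_lit 27) (nat_lit 5) (nat_lit 29) (nat_lit 4) (nat_lit 27) (nat_lit 4) (nat_lit 475) (nat_lit 345) (nat_lit 200)) (XT.nd (nat_lit 78) (nat_lit 76) (nat_lit 0) (XT.lf (nat_lit 0) (nat_lit 16026398951) (nat_lit 76) (nat_lit 43029948537) (nat_lit 76) (nat_lit 1799503595) (nat_lit 26) (nat_lit 4) (nat_lit 27) (nat_lit 5) (nat_lit 27) (nat_lit 4) (nat_lit 476) (nat_lit 345) (nat_lit 199)) (XT.lf (nat_lit 0) (nat_lit 8541168567) (nat_lit 152) (nat_lit 23908132279) (nat_lit 76) (nat_lit 29884797934) (nat_lit 25) (nat_lit 5) (nat_lit 27) (nat_lit 5) (nat_lit 26) (nat_lit 4) (nat_lit 477) (nat_lit 345) (nat_lit 198)))) (XT.nd (nat_lit 156) (nat_lit 0) (nat_lit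 0) (XT.nd (nat_lit 78) (nat_lit 76) (nat_lit 0) (XT.lf (nat_lit 0) (nat_lit 19147234637) (nat_lit 152) (nat_lit 2393604107) (nat_lit 76) (nat_lit 42315580917) (nat_lit 25) (nat_lit 5) (nat_lit 27) (nat_lit 5) (nat_lit 26) (nat_lit 4) (nat_lit 478) (nat_lit 345) (nat_lit 197)) (XT.lf (nat_lit 0) (nat_lit 20143297705) (nat_lit 76) (nat_lit 10113408842) (nat_lit 152) (nat_lit 35162147408) (nat_lit 24) (nat_lit 5) (nat_lit 25) (nat_lit 5) (nat_lit 26) (nat_lit 4) (nat_lit 479) (nat_lit 345) (nat_lit 196))) (XT.nd (nat_lit 78) (nat_lit 0) (nat_lit 0) (XT.lf (nat_lit 0) (nat_lit 41731411077) (nat_lit 152) (nat_lit 23654377625) (nat_lit 0) (nat_lit 1641414611) (nat_lit 24) (nat_lit 5) (nat_lit 26) (nat_lit 4) (nat_lit 24) (nat_lit 4) (nat_lit 480) (nat_lit 345) (nat_lit 195)) (XT.lf (nat_lit 0) (nat_lit 53642345659) (nat_lit 152) (nat_lit 1500374718) (nat_lit 0) (nat_lit 13538323580) (nat_lit 24) (nat_lit 5) (nat_lit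 26) (nat_lit 4) (nat_lit 24) (nat_lit 4) (nat_lit 481) (nat_lit 345) (nat_lit 194))))) (XT.nd (nat_lit 312) (nat_lit 76) (nat_lit 0) (XT.nd (nat_lit 156) (nat_lit 76) (nat_lit 0) (XT.nd (nat_lit 78) (nat_lit 76) (nat_lit 0) (XT.lf (nat_lit 0) (nat_lit 21726998609) (nat_lit 76) (nat_lit 44384556227) (nat_lit 76) (nat_lit 4266917049) (nat_lit 23) (nat_lit 4) (nat_lit 24) (nat_lit 5) (nat_lit 24) (nat_lit 4) (nat_lit 482) (nat_lit 345) (nat_lit 193)) (XT.lf (nat_lit 0) (nat_lit 6702180156) (nat_lit 152) (nat_lit 26525433945) (nat_lit 76) (nat_lit 38897017878) (nat_lit 22) (nat_lit 5) (nat_lit 24) (nat_lit 5) (nat_lit 23) (nat_lit 4) (nat_lit 483) (nat_lit 345) (nat_lit 192))) (XT.nd (nat_lit 78) (nat_lit 76) (nat_lit 0) (XT.lf (nat_lit 0) (nat_lit 17906920426) (nat_lit 152) (nat_lit 3792646620) (nat_lit 76) (nat_lit 52222572923) (nat_lit 22) (nat_lit 5) (nat_lit 24) (nat_lit 5) (nat_lit 23) (nat_lit 4) (nat_lit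 484) (nat_lit 345) (nat_lit 191)) (XT.lf (nat_lit 0) (nat_lit 19998001557) (nat_lit 76) (nat_lit 9634588698) (nat_lit 152) (nat_lit 46135439731) (nat_lit 21) (nat_lit 5) (nat_lit 22) (nat_lit 5) (nat_lit 23) (nat_lit 4) (nat_lit 485) (nat_lit 345) (nat_lit 190)))) (XT.nd (nat_lit 156) (nat_lit 76) (nat_lit 0) (XT.nd (nat_lit 78) (nat_lit 0) (nat_lit 0) (XT.lf (nat_lit 0) (nat_lit 41768118040) (nat_lit 152) (nat_lit 33129624481) (nat_lit 0) (nat_lit 2769811944) (nat_lit 21) (nat_lit 5) (nat_lit 23) (nat_lit 4) (nat_lit 21) (nat_lit 4) (nat_lit 486) (nat_lit 345) (nat_lit 189)) (XT.lf (nat_lit 0) (nat_lit 54355888774) (nat_lit 152) (nat_lit 9919352403) (nat_lit 0) (nat_lit 15346178572) (nat_lit 21) (nat_lit 5) (nat_lit 23) (nat_lit 4) (nat_lit 21) (nat_lit 4) (nat_lit 487) (nat_lit 345) (nat_lit 188))) (XT.nd (nat_lit 42042) (nat_lit 0) (nat_lit 26296) (XT.lf (nat_lit 0) (nat_lit 14251785858) (nat_lit 76) (nat_lit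 53199498947) (nat_lit 76) (nat_lit 14178716797) (nat_lit 20) (nat_lit 4) (nat_lit 21) (nat_lit 5) (nat_lit 21) (nat_lit 4) (nat_lit 488) (nat_lit 345) (nat_lit 187)) (XT.lf (nat_lit 0) (nat_lit 251617973) (nat_lit 532) (nat_lit 1523187506) (nat_lit 532) (nat_lit 1523187506) (nat_lit 366) (nat_lit 3) (nat_lit 373) (nat_lit 3) (nat_lit 373) (nat_lit 5) (nat_lit 346) (nat_lit 346) (nat_lit 328))))))))
noncomputable def xc116 : XT := (XT.nd (nat_lit 2184) (nat_lit 7752) (nat_lit 0) (XT.nd (nat_lit 1092) (nat_lit 8436) (nat_lit 0) (XT.nd (nat_lit 546) (nat_lit 1292) (nat_lit 0) (XT.nd (nat_lit 234) (nat_lit 532) (nat_lit 0) (XT.nd (nat_lit 78) (nat_lit 532) (nat_lit 0) (XT.lf (nat_lit 76) (nat_lit 162098490) (nat_lit 0) (nat_lit 2690997186) (nat_lit 532) (nat_lit 3770012797) (nat_lit 367) (nat_lit 5) (nat_lit 366) (nat_lit 3) (nat_lit 373) (nat_lit 5) (nat_lit 347) (nat_lit 346) (nat_lit 327)) (XT.nd (nat_lit 78)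 (nat_lit 532) (nat_lit 0) (XT.lf (nat_lit 76) (nat_lit 3481259949) (nat_lit 0) (nat_lit 1731139079) (nat_lit 532) (nat_lit 1440537600) (nat_lit 367) (nat_lit 5) (nat_lit 366) (nat_lit 3) (nat_lit 373) (nat_lit 5) (nat_lit 348) (nat_lit 346) (nat_lit 326)) (XT.lf (nat_lit 76) (nat_lit 161812174) (nat_lit 0) (nat_lit 689774589) (nat_lit 608) (nat_lit 5834509054) (nat_lit 360) (nat_lit 5) (nat_lit 359) (nat_lit 5) (nat_lit 367) (nat_lit 5) (nat_lit 349) (nat_lit 346) (nat_lit 325)))) (XT.nd (nat_lit 156) (nat_lit 608) (nat_lit 0) (XT.nd (nat_lit 78) (nat_lit 0) (nat_lit 0) (XT.lf (nat_lit 0) (nat_lit 3132012053) (nat_lit 532) (nat_lit 3128293553) (nat_lit 608) (nat_lit 461116865) (nat_lit 360) (nat_lit 5) (nat_lit 367) (nat_lit 5) (nat_lit 368) (nat_lit 5) (nat_lit 350) (nat_lit 346) (nat_lit 324)) (XT.lf (nat_lit 76) (nat_lit 319400118) (nat_lit 0) (nat_lit 5086364991) (nat_lit 608) (nat_lit 1354350039) (nat_lit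 361) (nat_lit 5) (nat_lit 360) (nat_lit 5) (nat_lit 368) (nat_lit 5) (nat_lit 351) (nat_lit 346) (nat_lit 323))) (XT.nd (nat_lit 78) (nat_lit 0) (nat_lit 0) (XT.lf (nat_lit 0) (nat_lit 877316261) (nat_lit 608) (nat_lit 2924605305) (nat_lit 684) (nat_lit 2999382868) (nat_lit 352) (nat_lit 5) (nat_lit 360) (nat_lit 5) (nat_lit 361) (nat_lit 5) (nat_lit 352) (nat_lit 346) (nat_lit 322)) (XT.lf (nat_lit 76) (nat_lit 646868317) (nat_lit 0) (nat_lit 2426649547) (nat_lit 684) (nat_lit 3772114181) (nat_lit 353) (nat_lit 5) (nat_lit 352) (nat_lit 5) (nat_lit 361) (nat_lit 5) (nat_lit 353) (nat_lit 346) (nat_lit 321))))) (XT.nd (nat_lit 234) (nat_lit 684) (nat_lit 0) (XT.nd (nat_lit 78) (nat_lit 608) (nat_lit 0) (XT.lf (nat_lit 76) (nat_lit 4336588625) (nat_lit 0) (nat_lit 949039632) (nat_lit 684) (nat_lit 1607208236) (nat_lit 353) (nat_lit 5) (nat_lit 352) (nat_lit 5) (nat_lit 361) (nat_lit 5) (nat_lit 354) (nat_lit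 346) (nat_lit 320)) (XT.nd (nat_lit 78) (nat_lit 0) (nat_lit 0) (XT.lf (nat_lit 0) (nat_lit 549628242) (nat_lit 684) (nat_lit 5786049294) (nat_lit 760) (nat_lit 607470931) (nat_lit 344) (nat_lit 5) (nat_lit 353) (nat_lit 5) (nat_lit 354) (nat_lit 5) (nat_lit 355) (nat_lit 346) (nat_lit 319)) (XT.lf (nat_lit 0) (nat_lit 2698398887) (nat_lit 684) (nat_lit 2036651643) (nat_lit 760) (nat_lit 2260699554) (nat_lit 344) (nat_lit 5) (nat_lit 353) (nat_lit 5) (nat_lit 354) (nat_lit 5) (nat_lit 356) (nat_lit 346) (nat_lit 318)))) (XT.nd (nat_lit 156) (nat_lit 684) (nat_lit 0) (XT.nd (nat_lit 78) (nat_lit 0) (nat_lit 0) (XT.lf (nat_lit 76) (nat_lit 1810916431) (nat_lit 0) (nat_lit 3044402755) (nat_lit 760) (nat_lit 2196342339) (nat_lit 345) (nat_lit 5) (nat_lit 344) (nat_lit 5) (nat_lit 354) (nat_lit 5) (nat_lit 357) (nat_lit 346) (nat_lit 317)) (XT.lf (nat_lit 76) (nat_lit 5766498658) (nat_lit 0) (nat_lit 1258968164)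 (nat_lit 760) (nat_lit 85369034) (nat_lit 345) (nat_lit 5) (nat_lit 344) (nat_lit 5) (nat_lit 354) (nat_lit 5) (nat_lit 358) (nat_lit 346) (nat_lit 316))) (XT.nd (nat_lit 78) (nat_lit 0) (nat_lit 0) (XT.lf (nat_lit 0) (nat_lit 2009211911) (nat_lit 760) (nat_lit 4527364720) (nat_lit 76) (nat_lit 635813926) (nat_lit 335) (nat_lit 5) (nat_lit 345) (nat_lit 5) (nat_lit 336) (nat_lit 5) (nat_lit 359) (nat_lit 346) (nat_lit 315)) (XT.lf (nat_lit 0) (nat_lit 4122195939) (nat_lit 760) (nat_lit 518202007) (nat_lit 76) (nat_lit 2596687799) (nat_lit 335) (nat_lit 5) (nat_lit 345) (nat_lit 5) (nat_lit 336) (nat_lit 5) (nat_lit 360) (nat_lit 346) (nat_lit 314)))))) (XT.nd (nat_lit 546) (nat_lit 4788) (nat_lit 0) (XT.nd (nat_lit 234) (nat_lit 1976) (nat_lit 0) (XT.nd (nat_lit 78) (nat_lit 912) (nat_lit 0) (XT.lf (nat_lit 0) (nat_lit 3632606211) (nat_lit 760) (nat_lit 2633995583) (nat_lit 836) (nat_lit 1038115576) (nat_lit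 325) (nat_lit 5) (nat_lit 335) (nat_lit 5) (nat_lit 336) (nat_lit 5) (nat_lit 361) (nat_lit 346) (nat_lit 313)) (XT.nd (nat_lit 78) (nat_lit 0) (nat_lit 0) (XT.lf (nat_lit 0) (nat_lit 492945581) (nat_lit 836) (nat_lit 530463609) (nat_lit 912) (nat_lit 6352367780) (nat_lit 313) (nat_lit 5) (nat_lit 324) (nat_lit 5) (nat_lit 325) (nat_lit 5) (nat_lit 362) (nat_lit 346) (nat_lit 312)) (XT.lf (nat_lit 0) (nat_lit 3114586074) (nat_lit 912) (nat_lit 2668000459) (nat_lit 76) (nat_lit 1666446781) (nat_lit 313) (nat_lit 5) (nat_lit 325) (nat_lit 5) (nat_lit 314) (nat_lit 5) (nat_lit 363) (nat_lit 346) (nat_lit 311)))) (XT.nd (nat_lit 156) (nat_lit 1064) (nat_lit 0) (XT.nd (nat_lit 78) (nat_lit 0) (nat_lit 0) (XT.lf (nat_lit 0) (nat_lit 1649730205) (nat_lit 912) (nat_lit 3577252462) (nat_lit 988) (nat_lit 2298782622) (nat_lit 301) (nat_lit 5) (nat_lit 313) (nat_lit 5) (nat_lit 314) (nat_lit 5) (nat_lit 364) (nat_lit 346)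 (nat_lit 310)) (XT.lf (nat_lit 0) (nat_lit 6101693879) (nat_lit 912) (nat_lit 1266716445) (nat_lit 988) (nat_lit 237450653) (nat_lit 301) (nat_lit 5) (nat_lit 313) (nat_lit 5) (nat_lit 314) (nat_lit 5) (nat_lit 365) (nat_lit 346) (nat_lit 309))) (XT.nd (nat_lit 78) (nat_lit 0) (nat_lit 0) (XT.lf (nat_lit 0) (nat_lit 1828806146) (nat_lit 1064) (nat_lit 4710748737) (nat_lit 76) (nat_lit 1148894108) (nat_lit 287) (nat_lit 5) (nat_lit 301) (nat_lit 5) (nat_lit 288) (nat_lit 5) (nat_lit 366) (nat_lit 346) (nat_lit 308)) (XT.lf (nat_lit 0) (nat_lit 3921412110) (nat_lit 1064) (nat_lit 214403099) (nat_lit 76) (nat_lit 3638583740) (nat_lit 287) (nat_lit 5) (nat_lit 301) (nat_lit 5) (nat_lit 288) (nat_lit 5) (nat_lit 367) (nat_lit 346) (nat_lit 307))))) (XT.nd (nat_lit 234) (nat_lit 2508) (nat_lit 0) (XT.nd (nat_lit 78) (nat_lit 1216) (nat_lit 0) (XT.lf (nat_lit 0) (nat_lit 4454079520) (nat_lit 1064) (nat_lit 1608495867)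 (nat_lit 1140) (nat_lit 1800806658) (nat_lit 273) (nat_lit 5) (nat_lit 287) (nat_lit 5) (nat_lit 288) (nat_lit 5) (nat_lit 368) (nat_lit 346) (nat_lit 306)) (XT.nd (nat_lit 78) (nat_lit 0) (nat_lit 0) (XT.lf (nat_lit 0) (nat_lit 274724861) (nat_lit 1216) (nat_lit 6682289523) (nat_lit 76) (nat_lit 998919635) (nat_lit 257) (nat_lit 5) (nat_lit 273) (nat_lit 5) (nat_lit 258) (nat_lit 5) (nat_lit 369) (nat_lit 346) (nat_lit 305)) (XT.lf (nat_lit 0) (nat_lit 2371810997) (nat_lit 1216) (nat_lit 1968932006) (nat_lit 76) (nat_lit 3710145798) (nat_lit 257) (nat_lit 5) (nat_lit 273) (nat_lit 5) (nat_lit 258) (nat_lit 5) (nat_lit 370) (nat_lit 346) (nat_lit 304)))) (XT.nd (nat_lit 156) (nat_lit 1292) (nat_lit 0) (XT.nd (nat_lit 78) (nat_lit 0) (nat_lit 0) (XT.lf (nat_lit 0) (nat_lit 2892192229) (nat_lit 1216) (nat_lit 1613816354) (nat_lit 1292) (nat_lit 3643482567) (nat_lit 241) (nat_lit 5) (nat_lit 257) (nat_lit 5) (nat_lit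 258) (nat_lit 5) (nat_lit 371) (nat_lit 346) (nat_lit 303)) (XT.lf (nat_lit 0) (nat_lit 6683307821) (nat_lit 1292) (nat_lit 373835016) (nat_lit 76) (nat_lit 1194560625) (nat_lit 241) (nat_lit 5) (nat_lit 258) (nat_lit 5) (nat_lit 242) (nat_lit 5) (nat_lit 372) (nat_lit 346) (nat_lit 302))) (XT.nd (nat_lit 78) (nat_lit 608) (nat_lit 0) (XT.lf (nat_lit 0) (nat_lit 567939701) (nat_lit 684) (nat_lit 3680476495) (nat_lit 76) (nat_lit 4108121715) (nat_lit 232) (nat_lit 5) (nat_lit 241) (nat_lit 5) (nat_lit 233) (nat_lit 5) (nat_lit 373) (nat_lit 346) (nat_lit 301)) (XT.lf (nat_lit 0) (nat_lit 1381857083) (nat_lit 608) (nat_lit 1321613706) (nat_lit 684) (nat_lit 5761603990) (nat_lit 224) (nat_lit 5) (nat_lit 232) (nat_lit 5) (nat_lit 233) (nat_lit 5) (nat_lit 374) (nat_lit 346) (nat_lit 300))))))) (XT.nd (nat_lit 1092) (nat_lit 3572) (nat_lit 0) (XT.nd (nat_lit 546) (nat_lit 1900) (nat_lit 0) (XT.nd (nat_lit 234) (nat_lit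 1596) (nat_lit 0) (XT.nd (nat_lit 78) (nat_lit 684) (nat_lit 0) (XT.lf (nat_lit 0) (nat_lit 4907397505) (nat_lit 684) (nat_lit 1972154000) (nat_lit 76) (nat_lit 1697207828) (nat_lit 224) (nat_lit 5) (nat_lit 233) (nat_lit 5) (nat_lit 225) (nat_lit 5) (nat_lit 375) (nat_lit 346) (nat_lit 299)) (XT.nd (nat_lit 78) (nat_lit 76) (nat_lit 0) (XT.lf (nat_lit 0) (nat_lit 3293654586) (nat_lit 608) (nat_lit 3880496486) (nat_lit 684) (nat_lit 1517762925) (nat_lit 216) (nat_lit 5) (nat_lit 224) (nat_lit 5) (nat_lit 225) (nat_lit 5) (nat_lit 376) (nat_lit 346) (nat_lit 298)) (XT.lf (nat_lit 0) (nat_lit 657270253) (nat_lit 684) (nat_lit 109223437) (nat_lit 76) (nat_lit 8044672429) (nat_lit 215) (nat_lit 5) (nat_lit 224) (nat_lit 5) (nat_lit 216) (nat_lit 5) (nat_lit 377) (nat_lit 346) (nat_lit 297)))) (XT.nd (nat_lit 156) (nat_lit 532) (nat_lit 0) (XT.nd (nat_lit 78) (nat_lit 532) (nat_lit 0) (XT.lf (nat_lit 0) (nat_lit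 2896649623) (nat_lit 608) (nat_lit 3577854384) (nat_lit 76) (nat_lit 2458172032) (nat_lit 208) (nat_lit 5) (nat_lit 216) (nat_lit 5) (nat_lit 209) (nat_lit 5) (nat_lit 378) (nat_lit 346) (nat_lit 296)) (XT.lf (nat_lit 0) (nat_lit 1907185417) (nat_lit 532) (nat_lit 3277702404) (nat_lit 608) (nat_lit 3873511631) (nat_lit 201) (nat_lit 5) (nat_lit 208) (nat_lit 5) (nat_lit 209) (nat_lit 5) (nat_lit 379) (nat_lit 346) (nat_lit 295))) (XT.nd (nat_lit 78) (nat_lit 532) (nat_lit 0) (XT.lf (nat_lit 0) (nat_lit 7533849544) (nat_lit 608) (nat_lit 1607674887) (nat_lit 76) (nat_lit 46625825) (nat_lit 201) (nat_lit 5) (nat_lit 209) (nat_lit 5) (nat_lit 202) (nat_lit 5) (nat_lit 380) (nat_lit 346) (nat_lit 294)) (XT.lf (nat_lit 0) (nat_lit 648044185) (nat_lit 532) (nat_lit 5226578962) (nat_lit 76) (nat_lit 3446138872) (nat_lit 194) (nat_lit 5) (nat_lit 201) (nat_lit 5) (nat_lit 195) (nat_lit 5) (nat_lit 381) (nat_lit 346)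 (nat_lit 293))))) (XT.nd (nat_lit 234) (nat_lit 912) (nat_lit 0) (XT.nd (nat_lit 78) (nat_lit 456) (nat_lit 0) (XT.lf (nat_lit 0) (nat_lit 486744969) (nat_lit 532) (nat_lit 2477637852) (nat_lit 608) (nat_lit 6493149197) (nat_lit 187) (nat_lit 5) (nat_lit 194) (nat_lit 5) (nat_lit 195) (nat_lit 5) (nat_lit 382) (nat_lit 346) (nat_lit 292)) (XT.nd (nat_lit 78) (nat_lit 456) (nat_lit 0) (XT.lf (nat_lit 0) (nat_lit 5371142533) (nat_lit 608) (nat_lit 3178683516) (nat_lit 76) (nat_lit 1047967114) (nat_lit 187) (nat_lit 5) (nat_lit 195) (nat_lit 5) (nat_lit 188) (nat_lit 5) (nat_lit 383) (nat_lit 346) (nat_lit 291)) (XT.lf (nat_lit 0) (nat_lit 2767995117) (nat_lit 456) (nat_lit 5092290605) (nat_lit 532) (nat_lit 1881686513) (nat_lit 181) (nat_lit 5) (nat_lit 187) (nat_lit 5) (nat_lit 188) (nat_lit 5) (nat_lit 384) (nat_lit 346) (nat_lit 290)))) (XT.nd (nat_lit 156) (nat_lit 380) (nat_lit 0) (XT.nd (nat_lit 78) (nat_lit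 456) (nat_lit 0) (XT.lf (nat_lit 0) (nat_lit 514988410) (nat_lit 532) (nat_lit 985743861) (nat_lit 76) (nat_lit 8389851893) (nat_lit 180) (nat_lit 5) (nat_lit 187) (nat_lit 5) (nat_lit 181) (nat_lit 5) (nat_lit 385) (nat_lit 346) (nat_lit 289)) (XT.lf (nat_lit 0) (nat_lit 2978178820) (nat_lit 532) (nat_lit 4846792209) (nat_lit 76) (nat_lit 2217165642) (nat_lit 174) (nat_lit 5) (nat_lit 181) (nat_lit 5) (nat_lit 175) (nat_lit 5) (nat_lit 386) (nat_lit 346) (nat_lit 288))) (XT.nd (nat_lit 78) (nat_lit 0) (nat_lit 0) (XT.lf (nat_lit 0) (nat_lit 1347248660) (nat_lit 380) (nat_lit 4167036450) (nat_lit 456) (nat_lit 4683993817) (nat_lit 169) (nat_lit 5) (nat_lit 174) (nat_lit 5) (nat_lit 175) (nat_lit 5) (nat_lit 387) (nat_lit 346) (nat_lit 287)) (XT.lf (nat_lit 0) (nat_lit 7778719169) (nat_lit 380) (nat_lit 358529088) (nat_lit 456) (nat_lit 2221547365) (nat_lit 169) (nat_lit 5) (nat_lit 174) (nat_lit 5) (nat_lit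 175) (nat_lit 5) (nat_lit 388) (nat_lit 346) (nat_lit 286)))))) (XT.nd (nat_lit 546) (nat_lit 1444) (nat_lit 0) (XT.nd (nat_lit 234) (nat_lit 1216) (nat_lit 0) (XT.nd (nat_lit 78) (nat_lit 380) (nat_lit 0) (XT.lf (nat_lit 0) (nat_lit 343300909) (nat_lit 532) (nat_lit 6653547790) (nat_lit 76) (nat_lit 3526160831) (nat_lit 162) (nat_lit 5) (nat_lit 169) (nat_lit 5) (nat_lit 163) (nat_lit 5) (nat_lit 389) (nat_lit 346) (nat_lit 285)) (XT.nd (nat_lit 78) (nat_lit 380) (nat_lit 0) (XT.lf (nat_lit 0) (nat_lit 2933415078) (nat_lit 532) (nat_lit 199468969) (nat_lit 76) (nat_lit 7558829048) (nat_lit 162) (nat_lit 5) (nat_lit 169) (nat_lit 5) (nat_lit 163) (nat_lit 5) (nat_lit 390) (nat_lit 346) (nat_lit 284)) (XT.lf (nat_lit 0) (nat_lit 5636843899) (nat_lit 456) (nat_lit 4343984387) (nat_lit 76) (nat_lit 883593029) (nat_lit 157) (nat_lit 5) (nat_lit 163) (nat_lit 5) (nat_lit 158) (nat_lit 5) (nat_lit 391) (nat_lit 346)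 (nat_lit 283)))) (XT.nd (nat_lit 156) (nat_lit 760) (nat_lit 0) (XT.nd (nat_lit 78) (nat_lit 76) (nat_lit 0) (XT.lf (nat_lit 0) (nat_lit 2372234652) (nat_lit 380) (nat_lit 6069682065) (nat_lit 456) (nat_lit 2599789373) (nat_lit 152) (nat_lit 5) (nat_lit 157) (nat_lit 5) (nat_lit 158) (nat_lit 5) (nat_lit 392) (nat_lit 346) (nat_lit 282)) (XT.lf (nat_lit 0) (nat_lit 113960891) (nat_lit 456) (nat_lit 1892513550) (nat_lit 76) (nat_lit 9217538639) (nat_lit 151) (nat_lit 5) (nat_lit 157) (nat_lit 5) (nat_lit 152) (nat_lit 5) (nat_lit 393) (nat_lit 346) (nat_lit 281))) (XT.nd (nat_lit 78) (nat_lit 380) (nat_lit 0) (XT.lf (nat_lit 0) (nat_lit 2893557896) (nat_lit 456) (nat_lit 6315975412) (nat_lit 76) (nat_lit 2200393696) (nat_lit 146) (nat_lit 5) (nat_lit 152) (nat_lit 5) (nat_lit 147) (nat_lit 5) (nat_lit 394) (nat_lit 346) (nat_lit 280)) (XT.lf (nat_lit 0) (nat_lit 674944375) (nat_lit 380) (nat_lit 5093632304) (nat_lit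 456) (nat_lit 5832490906) (nat_lit 141) (nat_lit 5) (nat_lit 146) (nat_lit 5) (nat_lit 147) (nat_lit 5) (nat_lit 395) (nat_lit 346) (nat_lit 279))))) (XT.nd (nat_lit 312) (nat_lit 684) (nat_lit 0) (XT.nd (nat_lit 156) (nat_lit 456) (nat_lit 0) (XT.nd (nat_lit 78) (nat_lit 304) (nat_lit 0) (XT.lf (nat_lit 0) (nat_lit 7959384069) (nat_lit 380) (nat_lit 801160971) (nat_lit 456) (nat_lit 3036486327) (nat_lit 141) (nat_lit 5) (nat_lit 146) (nat_lit 5) (nat_lit 147) (nat_lit 5) (nat_lit 396) (nat_lit 346) (nat_lit 278)) (XT.lf (nat_lit 0) (nat_lit 3450818203) (nat_lit 304) (nat_lit 8427190049) (nat_lit 380) (nat_lit 119803401) (nat_lit 137) (nat_lit 5) (nat_lit 141) (nat_lit 5) (nat_lit 142) (nat_lit 5) (nat_lit 397) (nat_lit 346) (nat_lit 277))) (XT.nd (nat_lit 78) (nat_lit 380) (nat_lit 0) (XT.lf (nat_lit 0) (nat_lit 2843115288) (nat_lit 380) (nat_lit 1248297372) (nat_lit 76) (nat_lit 8111929409) (nat_lit 136) (nat_lit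 5) (nat_lit 141) (nat_lit 5) (nat_lit 137) (nat_lit 5) (nat_lit 398) (nat_lit 346) (nat_lit 276)) (XT.lf (nat_lit 0) (nat_lit 5926509330) (nat_lit 456) (nat_lit 6070245408) (nat_lit 76) (nat_lit 417237047) (nat_lit 131) (nat_lit 5) (nat_lit 137) (nat_lit 5) (nat_lit 132) (nat_lit 5) (nat_lit 399) (nat_lit 346) (nat_lit 275)))) (XT.nd (nat_lit 156) (nat_lit 380) (nat_lit 0) (XT.nd (nat_lit 78) (nat_lit 0) (nat_lit 0) (XT.lf (nat_lit 0) (nat_lit 1502793187) (nat_lit 304) (nat_lit 7636543113) (nat_lit 380) (nat_lit 3490525349) (nat_lit 127) (nat_lit 5) (nat_lit 131) (nat_lit 5) (nat_lit 132) (nat_lit 5) (nat_lit 400) (nat_lit 346) (nat_lit 274)) (XT.lf (nat_lit 0) (nat_lit 9383437499) (nat_lit 304) (nat_lit 3096126898) (nat_lit 380) (nat_lit 371721058) (nat_lit 127) (nat_lit 5) (nat_lit 131) (nat_lit 5) (nat_lit 132) (nat_lit 5) (nat_lit 401) (nat_lit 346) (nat_lit 273))) (XT.nd (nat_lit 78) (nat_lit 0) (nat_lit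 0) (XT.lf (nat_lit 0) (nat_lit 2813924137) (nat_lit 380) (nat_lit 8656815921) (nat_lit 76) (nat_lit 1606939353) (nat_lit 122) (nat_lit 5) (nat_lit 127) (nat_lit 5) (nat_lit 123) (nat_lit 5) (nat_lit 402) (nat_lit 346) (nat_lit 272)) (XT.lf (nat_lit 0) (nat_lit 6124310214) (nat_lit 380) (nat_lit 770837802) (nat_lit 76) (nat_lit 6414515105) (nat_lit 122) (nat_lit 5) (nat_lit 127) (nat_lit 5) (nat_lit 123) (nat_lit 5) (nat_lit 403) (nat_lit 346) (nat_lit 271))))))))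
noncomputable def xc117 : XT := (XT.nd (nat_lit 2184) (nat_lit 2204) (nat_lit 0) (XT.nd (nat_lit 1092) (nat_lit 1748) (nat_lit 0) (XT.nd (nat_lit 546) (nat_lit 988) (nat_lit 0) (XT.nd (nat_lit 234) (nat_lit 836) (nat_lit 0) (XT.nd (nat_lit 78) (nat_lit 380) (nat_lit 0) (XT.lf (nat_lit 0) (nat_lit 7454796297) (nat_lit 304) (nat_lit 2122350132) (nat_lit 380) (nat_lit 3970173167) (nat_lit 118) (nat_lit 5) (nat_lit 122) (nat_lit 5) (nat_lit 123) (nat_lit 5) (nat_lit 404) (nat_lit 346) (nat_lit 270)) (XT.nd (nat_lit 78) (nat_lit 76) (nat_lit 0) (XT.lf (nat_lit 0) (nat_lit 2122929189) (nat_lit 304) (nat_lit 11037532797) (nat_lit 380) (nat_lit 630844141) (nat_lit 114) (nat_lit 5) (nat_lit 118) (nat_lit 5) (nat_lit 119) (nat_lit 5) (nat_lit 405) (nat_lit 346) (nat_lit 269)) (XT.lf (nat_lit 0) (nat_lit 2808908451) (nat_lit 380) (nat_lit 3422493249) (nat_lit 76) (nat_lit 7808755850) (nat_lit 113) (nat_lit 5) (nat_lit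 118) (nat_lit 5) (nat_lit 114) (nat_lit 5) (nat_lit 406) (nat_lit 346) (nat_lit 268)))) (XT.nd (nat_lit 156) (nat_lit 608) (nat_lit 0) (XT.nd (nat_lit 78) (nat_lit 0) (nat_lit 0) (XT.lf (nat_lit 0) (nat_lit 5122893310) (nat_lit 228) (nat_lit 1238249451) (nat_lit 304) (nat_lit 7934491901) (nat_lit 110) (nat_lit 5) (nat_lit 113) (nat_lit 5) (nat_lit 114) (nat_lit 5) (nat_lit 407) (nat_lit 346) (nat_lit 267)) (XT.lf (nat_lit 0) (nat_lit 10065366190) (nat_lit 304) (nat_lit 642677718) (nat_lit 76) (nat_lit 3849375907) (nat_lit 110) (nat_lit 5) (nat_lit 114) (nat_lit 5) (nat_lit 111) (nat_lit 5) (nat_lit 408) (nat_lit 346) (nat_lit 266))) (XT.nd (nat_lit 78) (nat_lit 304) (nat_lit 0) (XT.lf (nat_lit 0) (nat_lit 8251400586) (nat_lit 304) (nat_lit 5694665077) (nat_lit 380) (nat_lit 879038584) (nat_lit 106) (nat_lit 5) (nat_lit 110) (nat_lit 5) (nat_lit 111) (nat_lit 5) (nat_lit 409) (nat_lit 346) (nat_lit 265)) (XT.lf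 (nat_lit 0) (nat_lit 2301607835) (nat_lit 228) (nat_lit 487859918) (nat_lit 304) (nat_lit 12310460659) (nat_lit 102) (nat_lit 5) (nat_lit 105) (nat_lit 5) (nat_lit 106) (nat_lit 5) (nat_lit 410) (nat_lit 346) (nat_lit 264))))) (XT.nd (nat_lit 234) (nat_lit 760) (nat_lit 0) (XT.nd (nat_lit 78) (nat_lit 228) (nat_lit 0) (XT.lf (nat_lit 0) (nat_lit 6638382208) (nat_lit 304) (nat_lit 3900302764) (nat_lit 76) (nat_lit 4841416286) (nat_lit 102) (nat_lit 5) (nat_lit 106) (nat_lit 5) (nat_lit 103) (nat_lit 5) (nat_lit 411) (nat_lit 346) (nat_lit 263)) (XT.nd (nat_lit 78) (nat_lit 0) (nat_lit 0) (XT.lf (nat_lit 0) (nat_lit 5323901597) (nat_lit 228) (nat_lit 5309742258) (nat_lit 304) (nat_lit 5034114552) (nat_lit 99) (nat_lit 5) (nat_lit 102) (nat_lit 5) (nat_lit 103) (nat_lit 5) (nat_lit 412) (nat_lit 346) (nat_lit 262)) (XT.lf (nat_lit 0) (nat_lit 14764354912) (nat_lit 304) (nat_lit 1099230057) (nat_lit 76) (nat_lit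 99997908) (nat_lit 99) (nat_lit 5) (nat_lit 103) (nat_lit 5) (nat_lit 100) (nat_lit 5) (nat_lit 413) (nat_lit 346) (nat_lit 261)))) (XT.nd (nat_lit 156) (nat_lit 228) (nat_lit 0) (XT.nd (nat_lit 78) (nat_lit 228) (nat_lit 0) (XT.lf (nat_lit 0) (nat_lit 2808175451) (nat_lit 304) (nat_lit 7795407288) (nat_lit 76) (nat_lit 5660576749) (nat_lit 95) (nat_lit 5) (nat_lit 99) (nat_lit 5) (nat_lit 96) (nat_lit 5) (nat_lit 414) (nat_lit 346) (nat_lit 260)) (XT.lf (nat_lit 0) (nat_lit 1756205957) (nat_lit 228) (nat_lit 5159487562) (nat_lit 304) (nat_lit 9657588694) (nat_lit 92) (nat_lit 5) (nat_lit 95) (nat_lit 5) (nat_lit 96) (nat_lit 5) (nat_lit 415) (nat_lit 346) (nat_lit 259))) (XT.nd (nat_lit 78) (nat_lit 228) (nat_lit 0) (XT.lf (nat_lit 0) (nat_lit 11206333234) (nat_lit 304) (nat_lit 5179396816) (nat_lit 76) (nat_lit 504156442) (nat_lit 92) (nat_lit 5) (nat_lit 96) (nat_lit 5) (nat_lit 93) (nat_lit 5) (nat_lit 416)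 (nat_lit 346) (nat_lit 258)) (XT.lf (nat_lit 0) (nat_lit 4751018673) (nat_lit 228) (nat_lit 10948216136) (nat_lit 304) (nat_lit 1514552426) (nat_lit 89) (nat_lit 5) (nat_lit 92) (nat_lit 5) (nat_lit 93) (nat_lit 5) (nat_lit 417) (nat_lit 346) (nat_lit 257)))))) (XT.nd (nat_lit 546) (nat_lit 836) (nat_lit 0) (XT.nd (nat_lit 234) (nat_lit 456) (nat_lit 0) (XT.nd (nat_lit 78) (nat_lit 380) (nat_lit 0) (XT.lf (nat_lit 0) (nat_lit 2754971609) (nat_lit 304) (nat_lit 2525664722) (nat_lit 76) (nat_lit 12265080720) (nat_lit 88) (nat_lit 5) (nat_lit 92) (nat_lit 5) (nat_lit 89) (nat_lit 5) (nat_lit 418) (nat_lit 346) (nat_lit 256)) (XT.nd (nat_lit 78) (nat_lit 152) (nat_lit 0) (XT.lf (nat_lit 0) (nat_lit 7180865952) (nat_lit 304) (nat_lit 10081731030) (nat_lit 76) (nat_lit 622800370) (nat_lit 85) (nat_lit 5) (nat_lit 89) (nat_lit 5) (nat_lit 86) (nat_lit 5) (nat_lit 419) (nat_lit 346) (nat_lit 255)) (XT.lf (nat_lit 0)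 (nat_lit 173835831) (nat_lit 152) (nat_lit 11623120816) (nat_lit 228) (nat_lit 6436592930) (nat_lit 83) (nat_lit 5) (nat_lit 85) (nat_lit 5) (nat_lit 86) (nat_lit 5) (nat_lit 420) (nat_lit 346) (nat_lit 254)))) (XT.nd (nat_lit 156) (nat_lit 152) (nat_lit 0) (XT.nd (nat_lit 78) (nat_lit 304) (nat_lit 0) (XT.lf (nat_lit 0) (nat_lit 10906931392) (nat_lit 152) (nat_lit 5724408079) (nat_lit 228) (nat_lit 1958416598) (nat_lit 83) (nat_lit 5) (nat_lit 85) (nat_lit 5) (nat_lit 86) (nat_lit 5) (nat_lit 421) (nat_lit 346) (nat_lit 253)) (XT.lf (nat_lit 0) (nat_lit 2613377381) (nat_lit 304) (nat_lit 15957164653) (nat_lit 76) (nat_lit 385013183) (nat_lit 79) (nat_lit 5) (nat_lit 83) (nat_lit 5) (nat_lit 80) (nat_lit 5) (nat_lit 422) (nat_lit 346) (nat_lit 252))) (XT.nd (nat_lit 78) (nat_lit 152) (nat_lit 0) (XT.lf (nat_lit 0) (nat_lit 7396563417) (nat_lit 304) (nat_lit 5285617048) (nat_lit 76) (nat_lit 6646161797) (nat_lit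 79) (nat_lit 5) (nat_lit 83) (nat_lit 5) (nat_lit 80) (nat_lit 5) (nat_lit 423) (nat_lit 346) (nat_lit 251)) (XT.lf (nat_lit 0) (nat_lit 5783682030) (nat_lit 152) (nat_lit 6574356929) (nat_lit 228) (nat_lit 7353233680) (nat_lit 77) (nat_lit 5) (nat_lit 79) (nat_lit 5) (nat_lit 80) (nat_lit 5) (nat_lit 424) (nat_lit 346) (nat_lit 250))))) (XT.nd (nat_lit 234) (nat_lit 532) (nat_lit 0) (XT.nd (nat_lit 78) (nat_lit 304) (nat_lit 0) (XT.lf (nat_lit 0) (nat_lit 17258500267) (nat_lit 152) (nat_lit 242700826) (nat_lit 228) (nat_lit 2603507999) (nat_lit 77) (nat_lit 5) (nat_lit 79) (nat_lit 5) (nat_lit 80) (nat_lit 5) (nat_lit 425) (nat_lit 346) (nat_lit 249)) (XT.nd (nat_lit 78) (nat_lit 0) (nat_lit 0) (XT.lf (nat_lit 0) (nat_lit 2368622658) (nat_lit 304) (nat_lit 11887948234) (nat_lit 76) (nat_lit 6248983744) (nat_lit 73) (nat_lit 5) (nat_lit 77) (nat_lit 5) (nat_lit 74) (nat_lit 5) (nat_lit 426) (nat_lit 346) (nat_lit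 248)) (XT.lf (nat_lit 0) (nat_lit 7449007907) (nat_lit 304) (nat_lit 496772271) (nat_lit 76) (nat_lit 12971532635) (nat_lit 73) (nat_lit 5) (nat_lit 77) (nat_lit 5) (nat_lit 74) (nat_lit 5) (nat_lit 427) (nat_lit 346) (nat_lit 247)))) (XT.nd (nat_lit 156) (nat_lit 228) (nat_lit 0) (XT.nd (nat_lit 78) (nat_lit 152) (nat_lit 0) (XT.lf (nat_lit 0) (nat_lit 11425672980) (nat_lit 152) (nat_lit 1346535040) (nat_lit 228) (nat_lit 8566506667) (nat_lit 71) (nat_lit 5) (nat_lit 73) (nat_lit 5) (nat_lit 74) (nat_lit 5) (nat_lit 428) (nat_lit 346) (nat_lit 246)) (XT.lf (nat_lit 0) (nat_lit 1894348411) (nat_lit 152) (nat_lit 16417113510) (nat_lit 228) (nat_lit 3459608928) (nat_lit 69) (nat_lit 5) (nat_lit 71) (nat_lit 5) (nat_lit 72) (nat_lit 5) (nat_lit 429) (nat_lit 346) (nat_lit 245))) (XT.nd (nat_lit 78) (nat_lit 152) (nat_lit 0) (XT.lf (nat_lit 0) (nat_lit 1860525377) (nat_lit 228) (nat_lit 8019453635) (nat_lit 76)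 (nat_lit 12333047336) (nat_lit 68) (nat_lit 5) (nat_lit 71) (nat_lit 5) (nat_lit 69) (nat_lit 5) (nat_lit 430) (nat_lit 346) (nat_lit 244)) (XT.lf (nat_lit 0) (nat_lit 4208790601) (nat_lit 152) (nat_lit 3083695250) (nat_lit 228) (nat_lit 15374077062) (nat_lit 66) (nat_lit 5) (nat_lit 68) (nat_lit 5) (nat_lit 69) (nat_lit 5) (nat_lit 431) (nat_lit 346) (nat_lit 243))))))) (XT.nd (nat_lit 1092) (nat_lit 988) (nat_lit 0) (XT.nd (nat_lit 546) (nat_lit 684) (nat_lit 0) (XT.nd (nat_lit 234) (nat_lit 304) (nat_lit 0) (XT.nd (nat_lit 78) (nat_lit 228) (nat_lit 0) (XT.lf (nat_lit 0) (nat_lit 12988235898) (nat_lit 228) (nat_lit 6234174037) (nat_lit 76) (nat_lit 3908273350) (nat_lit 66) (nat_lit 5) (nat_lit 69) (nat_lit 5) (nat_lit 67) (nat_lit 5) (nat_lit 432) (nat_lit 346) (nat_lit 242)) (XT.nd (nat_lit 78) (nat_lit 76) (nat_lit 0) (XT.lf (nat_lit 0) (nat_lit 6419091579) (nat_lit 152) (nat_lit 12509945103) (nat_lit 228)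 (nat_lit 4677467795) (nat_lit 64) (nat_lit 5) (nat_lit 66) (nat_lit 5) (nat_lit 67) (nat_lit 5) (nat_lit 433) (nat_lit 346) (nat_lit 241)) (XT.lf (nat_lit 0) (nat_lit 978457903) (nat_lit 228) (nat_lit 4556549436) (nat_lit 76) (nat_lit 18559954099) (nat_lit 63) (nat_lit 5) (nat_lit 66) (nat_lit 5) (nat_lit 64) (nat_lit 5) (nat_lit 434) (nat_lit 346) (nat_lit 240)))) (XT.nd (nat_lit 156) (nat_lit 152) (nat_lit 0) (XT.nd (nat_lit 78) (nat_lit 0) (nat_lit 0) (XT.lf (nat_lit 0) (nat_lit 6791674146) (nat_lit 228) (nat_lit 16069005219) (nat_lit 76) (nat_lit 1733556978) (nat_lit 61) (nat_lit 5) (nat_lit 64) (nat_lit 5) (nat_lit 62) (nat_lit 5) (nat_lit 435) (nat_lit 346) (nat_lit 239)) (XT.lf (nat_lit 0) (nat_lit 12863155628) (nat_lit 228) (nat_lit 3100477739) (nat_lit 76) (nat_lit 9142342336) (nat_lit 61) (nat_lit 5) (nat_lit 64) (nat_lit 5) (nat_lit 62) (nat_lit 5) (nat_lit 436) (nat_lit 346) (nat_lit 238))) (XT.nd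 (nat_lit 78) (nat_lit 0) (nat_lit 0) (XT.lf (nat_lit 0) (nat_lit 10430564921) (nat_lit 152) (nat_lit 8769587350) (nat_lit 228) (nat_lit 6430416057) (nat_lit 59) (nat_lit 5) (nat_lit 61) (nat_lit 5) (nat_lit 62) (nat_lit 5) (nat_lit 437) (nat_lit 346) (nat_lit 237)) (XT.lf (nat_lit 0) (nat_lit 24401311969) (nat_lit 152) (nat_lit 1340567104) (nat_lit 228) (nat_lit 428583192) (nat_lit 59) (nat_lit 5) (nat_lit 61) (nat_lit 5) (nat_lit 62) (nat_lit 5) (nat_lit 438) (nat_lit 346) (nat_lit 236))))) (XT.nd (nat_lit 234) (nat_lit 304) (nat_lit 0) (XT.nd (nat_lit 78) (nat_lit 152) (nat_lit 0) (XT.lf (nat_lit 0) (nat_lit 5804378817) (nat_lit 228) (nat_lit 14565610921) (nat_lit 76) (nat_lit 6350005914) (nat_lit 56) (nat_lit 5) (nat_lit 59) (nat_lit 5) (nat_lit 57) (nat_lit 5) (nat_lit 439) (nat_lit 346) (nat_lit 235)) (XT.nd (nat_lit 78) (nat_lit 152) (nat_lit 0) (XT.lf (nat_lit 0) (nat_lit 12230740830) (nat_lit 228) (nat_lit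 800601829) (nat_lit 76) (nat_lit 14254096281) (nat_lit 56) (nat_lit 5) (nat_lit 59) (nat_lit 5) (nat_lit 57) (nat_lit 5) (nat_lit 440) (nat_lit 346) (nat_lit 234)) (XT.lf (nat_lit 0) (nat_lit 13614559468) (nat_lit 152) (nat_lit 5350390630) (nat_lit 228) (nat_lit 8899445639) (nat_lit 54) (nat_lit 5) (nat_lit 56) (nat_lit 5) (nat_lit 57) (nat_lit 5) (nat_lit 441) (nat_lit 346) (nat_lit 233)))) (XT.nd (nat_lit 156) (nat_lit 152) (nat_lit 0) (XT.nd (nat_lit 78) (nat_lit 152) (nat_lit 0) (XT.lf (nat_lit 0) (nat_lit 25918221835) (nat_lit 228) (nat_lit 35127310) (nat_lit 76) (nat_lit 2506862854) (nat_lit 54) (nat_lit 5) (nat_lit 57) (nat_lit 5) (nat_lit 55) (nat_lit 4) (nat_lit 442) (nat_lit 346) (nat_lit 232)) (XT.lf (nat_lit 0) (nat_lit 4109887067) (nat_lit 152) (nat_lit 14294369970) (nat_lit 76) (nat_lit 10663035956) (nat_lit 52) (nat_lit 5) (nat_lit 54) (nat_lit 5) (nat_lit 53) (nat_lit 5) (nat_lit 443) (nat_lit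 346) (nat_lit 231))) (XT.nd (nat_lit 78) (nat_lit 0) (nat_lit 0) (XT.lf (nat_lit 0) (nat_lit 286028460) (nat_lit 152) (nat_lit 10612051114) (nat_lit 228) (nat_lit 18794117973) (nat_lit 50) (nat_lit 5) (nat_lit 52) (nat_lit 5) (nat_lit 53) (nat_lit 5) (nat_lit 444) (nat_lit 346) (nat_lit 230)) (XT.lf (nat_lit 0) (nat_lit 15569390959) (nat_lit 152) (nat_lit 2449795085) (nat_lit 228) (nat_lit 12312786789) (nat_lit 50) (nat_lit 5) (nat_lit 52) (nat_lit 5) (nat_lit 53) (nat_lit 5) (nat_lit 445) (nat_lit 346) (nat_lit 229)))))) (XT.nd (nat_lit 546) (nat_lit 532) (nat_lit 0) (XT.nd (nat_lit 234) (nat_lit 304) (nat_lit 0) (XT.nd (nat_lit 78) (nat_lit 76) (nat_lit 0) (XT.lf (nat_lit 0) (nat_lit 240751921) (nat_lit 76) (nat_lit 25158000094) (nat_lit 152) (nat_lit 5590846165) (nat_lit 49) (nat_lit 5) (nat_lit 50) (nat_lit 5) (nat_lit 51) (nat_lit 4) (nat_lit 446) (nat_lit 346) (nat_lit 228)) (XT.nd (nat_lit 78) (nat_lit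 0) (nat_lit 0) (XT.lf (nat_lit 0) (nat_lit 1466823835) (nat_lit 152) (nat_lit 15731241941) (nat_lit 76) (nat_lit 14463701337) (nat_lit 48) (nat_lit 5) (nat_lit 50) (nat_lit 5) (nat_lit 49) (nat_lit 5) (nat_lit 447) (nat_lit 346) (nat_lit 227)) (XT.lf (nat_lit 0) (nat_lit 8609555856) (nat_lit 152) (nat_lit 344700746) (nat_lit 76) (nat_lit 23398614250) (nat_lit 48) (nat_lit 5) (nat_lit 50) (nat_lit 5) (nat_lit 49) (nat_lit 5) (nat_lit 448) (nat_lit 346) (nat_lit 226)))) (XT.nd (nat_lit 156) (nat_lit 152) (nat_lit 0) (XT.nd (nat_lit 78) (nat_lit 0) (nat_lit 0) (XT.lf (nat_lit 0) (nat_lit 15786006352) (nat_lit 152) (nat_lit 318427063) (nat_lit 228) (nat_lit 16956139797) (nat_lit 46) (nat_lit 5) (nat_lit 48) (nat_lit 5) (nat_lit 49) (nat_lit 5) (nat_lit 449) (nat_lit 346) (nat_lit 225)) (XT.lf (nat_lit 0) (nat_lit 23896285019) (nat_lit 228) (nat_lit 1489703165) (nat_lit 76) (nat_lit 8401356001) (nat_lit 46) (nat_lit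 5) (nat_lit 49) (nat_lit 5) (nat_lit 47) (nat_lit 4) (nat_lit 450) (nat_lit 346) (nat_lit 224))) (XT.nd (nat_lit 78) (nat_lit 76) (nat_lit 0) (XT.lf (nat_lit 0) (nat_lit 15034142585) (nat_lit 76) (nat_lit 17021992621) (nat_lit 152) (nat_lit 2475757124) (nat_lit 45) (nat_lit 5) (nat_lit 46) (nat_lit 5) (nat_lit 47) (nat_lit 4) (nat_lit 451) (nat_lit 346) (nat_lit 223)) (XT.lf (nat_lit 0) (nat_lit 5063062156) (nat_lit 152) (nat_lit 3288660209) (nat_lit 76) (nat_lit 26945513576) (nat_lit 44) (nat_lit 5) (nat_lit 46) (nat_lit 5) (nat_lit 45) (nat_lit 5) (nat_lit 452) (nat_lit 346) (nat_lit 222))))) (XT.nd (nat_lit 312) (nat_lit 304) (nat_lit 0) (XT.nd (nat_lit 156) (nat_lit 76) (nat_lit 0) (XT.nd (nat_lit 78) (nat_lit 0) (nat_lit 0) (XT.lf (nat_lit 0) (nat_lit 12903228771) (nat_lit 228) (nat_lit 22464304501) (nat_lit 76) (nat_lit 713524147) (nat_lit 42) (nat_lit 5) (nat_lit 45) (nat_lit 5) (nat_lit 43) (nat_lit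 4) (nat_lit 453) (nat_lit 346) (nat_lit 221)) (XT.lf (nat_lit 0) (nat_lit 21081858628) (nat_lit 228) (nat_lit 5897803006) (nat_lit 76) (nat_lit 9905635345) (nat_lit 42) (nat_lit 5) (nat_lit 45) (nat_lit 5) (nat_lit 43) (nat_lit 4) (nat_lit 454) (nat_lit 346) (nat_lit 220))) (XT.nd (nat_lit 78) (nat_lit 0) (nat_lit 0) (XT.lf (nat_lit 0) (nat_lit 11364019928) (nat_lit 76) (nat_lit 18238473228) (nat_lit 152) (nat_lit 8108272346) (nat_lit 41) (nat_lit 5) (nat_lit 42) (nat_lit 5) (nat_lit 43) (nat_lit 4) (nat_lit 455) (nat_lit 346) (nat_lit 219)) (XT.lf (nat_lit 0) (nat_lit 29241399836) (nat_lit 76) (nat_lit 9184454774) (nat_lit 152) (nat_lit 133731351) (nat_lit 41) (nat_lit 5) (nat_lit 42) (nat_lit 5) (nat_lit 43) (nat_lit 4) (nat_lit 456) (nat_lit 346) (nat_lit 218)))) (XT.nd (nat_lit 156) (nat_lit 76) (nat_lit 0) (XT.nd (nat_lit 78) (nat_lit 0) (nat_lit 0) (XT.lf (nat_lit 0) (nat_lit 7992597137) (nat_lit 228)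 (nat_lit 31149918391) (nat_lit 76) (nat_lit 286919787) (nat_lit 38) (nat_lit 5) (nat_lit 41) (nat_lit 5) (nat_lit 39) (nat_lit 4) (nat_lit 457) (nat_lit 346) (nat_lit 217)) (XT.lf (nat_lit 0) (nat_lit 16533821504) (nat_lit 228) (nat_lit 13842387867) (nat_lit 76) (nat_lit 9943918263) (nat_lit 38) (nat_lit 5) (nat_lit 41) (nat_lit 5) (nat_lit 39) (nat_lit 4) (nat_lit 458) (nat_lit 346) (nat_lit 216))) (XT.nd (nat_lit 78) (nat_lit 0) (nat_lit 0) (XT.lf (nat_lit 0) (nat_lit 4041084472) (nat_lit 76) (nat_lit 21317229570) (nat_lit 152) (nat_lit 15878416729) (nat_lit 37) (nat_lit 5) (nat_lit 38) (nat_lit 5) (nat_lit 39) (nat_lit 4) (nat_lit 459) (nat_lit 346) (nat_lit 215)) (XT.lf (nat_lit 0) (nat_lit 22722893209) (nat_lit 76) (nat_lit 11852748545) (nat_lit 152) (nat_lit 7601348199) (nat_lit 37) (nat_lit 5) (nat_lit 38) (nat_lit 5) (nat_lit 39) (nat_lit 4) (nat_lit 460) (nat_lit 346) (nat_lit 214))))))))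
noncomputable def xc118 : XT := (XT.nd (nat_lit 44226) (nat_lit 0) (nat_lit 15428) (XT.nd (nat_lit 1092) (nat_lit 456) (nat_lit 0) (XT.nd (nat_lit 546) (nat_lit 304) (nat_lit 0) (XT.nd (nat_lit 234) (nat_lit 228) (nat_lit 0) (XT.nd (nat_lit 78) (nat_lit 152) (nat_lit 0) (XT.lf (nat_lit 0) (nat_lit 894547619) (nat_lit 152) (nat_lit 1210696540) (nat_lit 76) (nat_lit 41040290797) (nat_lit 36) (nat_lit 5) (nat_lit 38) (nat_lit 5) (nat_lit 37) (nat_lit 5) (nat_lit 461) (nat_lit 346) (nat_lit 213)) (XT.nd (nat_lit 78) (nat_lit 0) (nat_lit 0) (XT.lf (nat_lit 0) (nat_lit 9731452600) (nat_lit 228) (nat_lit 26382871120) (nat_lit 76) (nat_lit 8019388289) (nat_lit 34) (nat_lit 5) (nat_lit 37) (nat_lit 5) (nat_lit 35) (nat_lit 4) (nat_lit 462) (nat_lit 346) (nat_lit 212)) (XT.lf (nat_lit 0) (nat_lit 18855567427) (nat_lit 228) (nat_lit 7887009793) (nat_lit 76) (nat_lit 18408294929) (nat_lit 34) (nat_lit 5) (nat_lit 37) (nat_lit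 5) (nat_lit 35) (nat_lit 4) (nat_lit 463) (nat_lit 346) (nat_lit 211)))) (XT.nd (nat_lit 156) (nat_lit 152) (nat_lit 0) (XT.nd (nat_lit 78) (nat_lit 0) (nat_lit 0) (XT.lf (nat_lit 0) (nat_lit 11365192857) (nat_lit 76) (nat_lit 16986696967) (nat_lit 152) (nat_lit 17843703576) (nat_lit 33) (nat_lit 5) (nat_lit 34) (nat_lit 5) (nat_lit 35) (nat_lit 4) (nat_lit 464) (nat_lit 346) (nat_lit 210)) (XT.lf (nat_lit 0) (nat_lit 31336526312) (nat_lit 76) (nat_lit 6865574079) (nat_lit 152) (nat_lit 9067486749) (nat_lit 33) (nat_lit 5) (nat_lit 34) (nat_lit 5) (nat_lit 35) (nat_lit 4) (nat_lit 465) (nat_lit 346) (nat_lit 209))) (XT.nd (nat_lit 78) (nat_lit 0) (nat_lit 0) (XT.lf (nat_lit 0) (nat_lit 31015414) (nat_lit 152) (nat_lit 44827927205) (nat_lit 76) (nat_lit 3515113323) (nat_lit 31) (nat_lit 5) (nat_lit 33) (nat_lit 5) (nat_lit 32) (nat_lit 4) (nat_lit 466) (nat_lit 346) (nat_lit 208)) (XT.lf (nat_lit 0) (nat_lit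 9440276466) (nat_lit 152) (nat_lit 25749634260) (nat_lit 76) (nat_lit 14312453965) (nat_lit 31) (nat_lit 5) (nat_lit 33) (nat_lit 5) (nat_lit 32) (nat_lit 4) (nat_lit 467) (nat_lit 346) (nat_lit 207))))) (XT.nd (nat_lit 234) (nat_lit 228) (nat_lit 0) (XT.nd (nat_lit 78) (nat_lit 76) (nat_lit 0) (XT.lf (nat_lit 0) (nat_lit 19121708242) (nat_lit 152) (nat_lit 6118179203) (nat_lit 76) (nat_lit 25424939190) (nat_lit 31) (nat_lit 5) (nat_lit 33) (nat_lit 5) (nat_lit 32) (nat_lit 4) (nat_lit 468) (nat_lit 346) (nat_lit 206)) (XT.nd (nat_lit 78) (nat_lit 0) (nat_lit 0) (XT.lf (nat_lit 0) (nat_lit 14363882752) (nat_lit 76) (nat_lit 14857961919) (nat_lit 152) (nat_lit 22636470609) (nat_lit 30) (nat_lit 5) (nat_lit 31) (nat_lit 5) (nat_lit 32) (nat_lit 4) (nat_lit 469) (nat_lit 346) (nat_lit 205)) (XT.lf (nat_lit 0) (nat_lit 35567378027) (nat_lit 76) (nat_lit 4109684556) (nat_lit 152) (nat_lit 13408984357) (nat_lit 30)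 (nat_lit 5) (nat_lit 31) (nat_lit 5) (nat_lit 32) (nat_lit 4) (nat_lit 470) (nat_lit 346) (nat_lit 204)))) (XT.nd (nat_lit 156) (nat_lit 76) (nat_lit 0) (XT.nd (nat_lit 78) (nat_lit 76) (nat_lit 0) (XT.lf (nat_lit 0) (nat_lit 3030479694) (nat_lit 76) (nat_lit 47501998794) (nat_lit 76) (nat_lit 3815536475) (nat_lit 29) (nat_lit 4) (nat_lit 30) (nat_lit 5) (nat_lit 30) (nat_lit 4) (nat_lit 471) (nat_lit 346) (nat_lit 203)) (XT.lf (nat_lit 0) (nat_lit 6157204156) (nat_lit 152) (nat_lit 31206187130) (nat_lit 76) (nat_lit 18276406539) (nat_lit 28) (nat_lit 5) (nat_lit 30) (nat_lit 5) (nat_lit 29) (nat_lit 4) (nat_lit 472) (nat_lit 346) (nat_lit 202))) (XT.nd (nat_lit 78) (nat_lit 76) (nat_lit 0) (XT.lf (nat_lit 0) (nat_lit 16343222561) (nat_lit 152) (nat_lit 10546870013) (nat_lit 76) (nat_lit 30079385352) (nat_lit 28) (nat_lit 5) (nat_lit 30) (nat_lit 5) (nat_lit 29) (nat_lit 4) (nat_lit 473) (nat_lit 346) (nat_lit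 201)) (XT.lf (nat_lit 0) (nat_lit 10928397583) (nat_lit 76) (nat_lit 16002526861) (nat_lit 152) (nat_lit 31405241480) (nat_lit 27) (nat_lit 5) (nat_lit 28) (nat_lit 5) (nat_lit 29) (nat_lit 4) (nat_lit 474) (nat_lit 346) (nat_lit 200)))))) (XT.nd (nat_lit 546) (nat_lit 228) (nat_lit 0) (XT.nd (nat_lit 234) (nat_lit 152) (nat_lit 0) (XT.nd (nat_lit 78) (nat_lit 76) (nat_lit 0) (XT.lf (nat_lit 0) (nat_lit 33247209733) (nat_lit 76) (nat_lit 4686700861) (nat_lit 152) (nat_lit 21807014937) (nat_lit 27) (nat_lit 5) (nat_lit 28) (nat_lit 5) (nat_lit 29) (nat_lit 4) (nat_lit 475) (nat_lit 346) (nat_lit 199)) (XT.nd (nat_lit 78) (nat_lit 76) (nat_lit 0) (XT.lf (nat_lit 0) (nat_lit 49325305767) (nat_lit 152) (nat_lit 5035832494) (nat_lit 0) (nat_lit 6824940632) (nat_lit 27) (nat_lit 5) (nat_lit 29) (nat_lit 4) (nat_lit 27) (nat_lit 4) (nat_lit 476) (nat_lit 346) (nat_lit 198)) (XT.lf (nat_lit 0) (nat_lit 17341661870)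 (nat_lit 76) (nat_lit 43921467997) (nat_lit 76) (nat_lit 1405316911) (nat_lit 26) (nat_lit 4) (nat_lit 27) (nat_lit 5) (nat_lit 27) (nat_lit 4) (nat_lit 477) (nat_lit 346) (nat_lit 197)))) (XT.nd (nat_lit 156) (nat_lit 76) (nat_lit 0) (XT.nd (nat_lit 78) (nat_lit 0) (nat_lit 0) (XT.lf (nat_lit 0) (nat_lit 9224031144) (nat_lit 152) (nat_lit 23806694027) (nat_lit 76) (nat_lit 31160572222) (nat_lit 25) (nat_lit 5) (nat_lit 27) (nat_lit 5) (nat_lit 26) (nat_lit 4) (nat_lit 478) (nat_lit 346) (nat_lit 196)) (XT.lf (nat_lit 0) (nat_lit 20135853152) (nat_lit 152) (nat_lit 1670575124) (nat_lit 76) (nat_lit 43953233150) (nat_lit 25) (nat_lit 5) (nat_lit 27) (nat_lit 5) (nat_lit 26) (nat_lit 4) (nat_lit 479) (nat_lit 346) (nat_lit 195))) (XT.nd (nat_lit 78) (nat_lit 0) (nat_lit 0) (XT.lf (nat_lit 0) (nat_lit 21534641223) (nat_lit 76) (nat_lit 10039469431) (nat_lit 152) (nat_lit 35794993774) (nat_lit 24) (nat_lit 5) (nat_lit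 25) (nat_lit 5) (nat_lit 26) (nat_lit 4) (nat_lit 480) (nat_lit 346) (nat_lit 194)) (XT.lf (nat_lit 0) (nat_lit 43384644816) (nat_lit 152) (nat_lit 23591453134) (nat_lit 0) (nat_lit 2049859362) (nat_lit 24) (nat_lit 5) (nat_lit 26) (nat_lit 4) (nat_lit 24) (nat_lit 4) (nat_lit 481) (nat_lit 346) (nat_lit 193))))) (XT.nd (nat_lit 234) (nat_lit 76) (nat_lit 0) (XT.nd (nat_lit 78) (nat_lit 152) (nat_lit 0) (XT.lf (nat_lit 0) (nat_lit 55641219336) (nat_lit 152) (nat_lit 795331766) (nat_lit 0) (nat_lit 14293213397) (nat_lit 24) (nat_lit 5) (nat_lit 26) (nat_lit 4) (nat_lit 24) (nat_lit 4) (nat_lit 482) (nat_lit 346) (nat_lit 192)) (XT.nd (nat_lit 78) (nat_lit 76) (nat_lit 0) (XT.lf (nat_lit 0) (nat_lit 23121509289) (nat_lit 76) (nat_lit 45358787125) (nat_lit 76) (nat_lit 3997945763) (nat_lit 23) (nat_lit 4) (nat_lit 24) (nat_lit 5) (nat_lit 24) (nat_lit 4) (nat_lit 483) (nat_lit 346) (nat_lit 191)) (XT.lf (nat_lit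 0) (nat_lit 7281141009) (nat_lit 152) (nat_lit 26592586688) (nat_lit 76) (nat_lit 40403285625) (nat_lit 22) (nat_lit 5) (nat_lit 24) (nat_lit 5) (nat_lit 23) (nat_lit 4) (nat_lit 484) (nat_lit 346) (nat_lit 190)))) (XT.nd (nat_lit 156) (nat_lit 0) (nat_lit 0) (XT.nd (nat_lit 78) (nat_lit 76) (nat_lit 0) (XT.lf (nat_lit 0) (nat_lit 18811016823) (nat_lit 152) (nat_lit 3199037401) (nat_lit 76) (nat_lit 54118723130) (nat_lit 22) (nat_lit 5) (nat_lit 24) (nat_lit 5) (nat_lit 23) (nat_lit 4) (nat_lit 485) (nat_lit 346) (nat_lit 189)) (XT.lf (nat_lit 0) (nat_lit 21298395039) (nat_lit 76) (nat_lit 9586108814) (nat_lit 152) (nat_lit 47145659393) (nat_lit 21) (nat_lit 5) (nat_lit 22) (nat_lit 5) (nat_lit 23) (nat_lit 4) (nat_lit 486) (nat_lit 346) (nat_lit 188))) (XT.nd (nat_lit 78) (nat_lit 0) (nat_lit 0) (XT.lf (nat_lit 0) (nat_lit 43376676450) (nat_lit 152) (nat_lit 33436021323) (nat_lit 0) (nat_lit 3174198886) (nat_lit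 21) (nat_lit 5) (nat_lit 23) (nat_lit 4) (nat_lit 21) (nat_lit 4) (nat_lit 487) (nat_lit 346) (nat_lit 187)) (XT.lf (nat_lit 0) (nat_lit 56331725504) (nat_lit 152) (nat_lit 9549465119) (nat_lit 0) (nat_lit 16118498477) (nat_lit 21) (nat_lit 5) (nat_lit 23) (nat_lit 4) (nat_lit 21) (nat_lit 4) (nat_lit 488) (nat_lit 346) (nat_lit 186))))))) (XT.nd (nat_lit 1092) (nat_lit 8360) (nat_lit 0) (XT.nd (nat_lit 546) (nat_lit 1292) (nat_lit 0) (XT.nd (nat_lit 234) (nat_lit 608) (nat_lit 0) (XT.nd (nat_lit 78) (nat_lit 532) (nat_lit 0) (XT.lf (nat_lit 0) (nat_lit 2577418763) (nat_lit 532) (nat_lit 374216686) (nat_lit 532) (nat_lit 374216686) (nat_lit 366) (nat_lit 3) (nat_lit 373) (nat_lit 3) (nat_lit 373) (nat_lit 5) (nat_lit 347) (nat_lit 347) (nat_lit 326)) (XT.nd (nat_lit 78) (nat_lit 0) (nat_lit 0) (XT.lf (nat_lit 0) (nat_lit 764576420) (nat_lit 532) (nat_lit 4157725137) (nat_lit 608) (nat_lit 1760572359) (nat_lit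 359) (nat_lit 5) (nat_lit 366) (nat_lit 3) (nat_lit 367) (nat_lit 5) (nat_lit 348) (nat_lit 347) (nat_lit 325)) (XT.lf (nat_lit 0) (nat_lit 2983953124) (nat_lit 532) (nat_lit 864420263) (nat_lit 608) (nat_lit 2868610662) (nat_lit 359) (nat_lit 5) (nat_lit 366) (nat_lit 3) (nat_lit 367) (nat_lit 5) (nat_lit 349) (nat_lit 347) (nat_lit 324)))) (XT.nd (nat_lit 156) (nat_lit 0) (nat_lit 0) (XT.nd (nat_lit 78) (nat_lit 608) (nat_lit 0) (XT.lf (nat_lit 76) (nat_lit 2531397331) (nat_lit 0) (nat_lit 2677937665) (nat_lit 608) (nat_lit 1544653447) (nat_lit 360) (nat_lit 5) (nat_lit 359) (nat_lit 5) (nat_lit 367) (nat_lit 5) (nat_lit 350) (nat_lit 347) (nat_lit 323)) (XT.lf (nat_lit 0) (nat_lit 620605449) (nat_lit 608) (nat_lit 798889729) (nat_lit 684) (nat_lit 5374701643) (nat_lit 351) (nat_lit 5) (nat_lit 359) (nat_lit 5) (nat_lit 360) (nat_lit 5) (nat_lit 351) (nat_lit 347) (nat_lit 322))) (XT.nd (nat_lit 78) (nat_lit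 0) (nat_lit 76) (XT.lf (nat_lit 76) (nat_lit 2719715621) (nat_lit 0) (nat_lit 44900357) (nat_lit 684) (nat_lit 4072240587) (nat_lit 352) (nat_lit 5) (nat_lit 351) (nat_lit 5) (nat_lit 360) (nat_lit 5) (nat_lit 352) (nat_lit 347) (nat_lit 321)) (XT.lf (nat_lit 0) (nat_lit 4915231686) (nat_lit 608) (nat_lit 581452455) (nat_lit 684) (nat_lit 1385891106) (nat_lit 352) (nat_lit 5) (nat_lit 360) (nat_lit 5) (nat_lit 361) (nat_lit 5) (nat_lit 353) (nat_lit 347) (nat_lit 320))))) (XT.nd (nat_lit 234) (nat_lit 684) (nat_lit 0) (XT.nd (nat_lit 78) (nat_lit 0) (nat_lit 0) (XT.lf (nat_lit 0) (nat_lit 149524704) (nat_lit 684) (nat_lit 3859247137) (nat_lit 760) (nat_lit 2922298501) (nat_lit 343) (nat_lit 5) (nat_lit 352) (nat_lit 5) (nat_lit 353) (nat_lit 5) (nat_lit 354) (nat_lit 347) (nat_lit 319)) (XT.nd (nat_lit 78) (nat_lit 0) (nat_lit 0) (XT.lf (nat_lit 0) (nat_lit 2220555073) (nat_lit 684) (nat_lit 201360372) (nat_lit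 760) (nat_lit 4560658196) (nat_lit 343) (nat_lit 5) (nat_lit 352) (nat_lit 5) (nat_lit 353) (nat_lit 5) (nat_lit 355) (nat_lit 347) (nat_lit 318)) (XT.lf (nat_lit 76) (nat_lit 3590109461) (nat_lit 0) (nat_lit 724591056) (nat_lit 760) (nat_lit 2722134370) (nat_lit 344) (nat_lit 5) (nat_lit 343) (nat_lit 5) (nat_lit 353) (nat_lit 5) (nat_lit 356) (nat_lit 347) (nat_lit 317)))) (XT.nd (nat_lit 156) (nat_lit 0) (nat_lit 0) (XT.nd (nat_lit 78) (nat_lit 760) (nat_lit 0) (XT.lf (nat_lit 76) (nat_lit 355665390) (nat_lit 0) (nat_lit 6059743379) (nat_lit 760) (nat_lit 679044185) (nat_lit 345) (nat_lit 5) (nat_lit 344) (nat_lit 5) (nat_lit 354) (nat_lit 5) (nat_lit 357) (nat_lit 347) (nat_lit 316)) (XT.lf (nat_lit 0) (nat_lit 1369169421) (nat_lit 760) (nat_lit 2880368771) (nat_lit 836) (nat_lit 2904739785) (nat_lit 334) (nat_lit 5) (nat_lit 344) (nat_lit 5) (nat_lit 345) (nat_lit 5) (nat_lit 358) (nat_lit 347) (nat_lit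 315))) (XT.nd (nat_lit 78) (nat_lit 0) (nat_lit 0) (XT.lf (nat_lit 76) (nat_lit 1060020719) (nat_lit 0) (nat_lit 2346729065) (nat_lit 836) (nat_lit 3810736863) (nat_lit 335) (nat_lit 5) (nat_lit 334) (nat_lit 5) (nat_lit 345) (nat_lit 5) (nat_lit 359) (nat_lit 347) (nat_lit 314)) (XT.lf (nat_lit 76) (nat_lit 5130391224) (nat_lit 0) (nat_lit 337075541) (nat_lit 836) (nat_lit 1816301086) (nat_lit 335) (nat_lit 5) (nat_lit 334) (nat_lit 5) (nat_lit 345) (nat_lit 5) (nat_lit 360) (nat_lit 347) (nat_lit 313)))))) (XT.nd (nat_lit 546) (nat_lit 4788) (nat_lit 0) (XT.nd (nat_lit 234) (nat_lit 1976) (nat_lit 0) (XT.nd (nat_lit 78) (nat_lit 836) (nat_lit 0) (XT.lf (nat_lit 0) (nat_lit 203402672) (nat_lit 836) (nat_lit 5410914161) (nat_lit 76) (nat_lit 1738584131) (nat_lit 324) (nat_lit 5) (nat_lit 335) (nat_lit 5) (nat_lit 325) (nat_lit 5) (nat_lit 361) (nat_lit 347) (nat_lit 312)) (XT.nd (nat_lit 78) (nat_lit 836) (nat_lit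 0) (XT.lf (nat_lit 0) (nat_lit 2208322175) (nat_lit 836) (nat_lit 1289549967) (nat_lit 76) (nat_lit 3926895967) (nat_lit 324) (nat_lit 5) (nat_lit 335) (nat_lit 5) (nat_lit 325) (nat_lit 5) (nat_lit 362) (nat_lit 347) (nat_lit 311)) (XT.lf (nat_lit 0) (nat_lit 2965842396) (nat_lit 836) (nat_lit 1273758226) (nat_lit 912) (nat_lit 3260236779) (nat_lit 313) (nat_lit 5) (nat_lit 324) (nat_lit 5) (nat_lit 325) (nat_lit 5) (nat_lit 363) (nat_lit 347) (nat_lit 310)))) (XT.nd (nat_lit 156) (nat_lit 988) (nat_lit 0) (XT.nd (nat_lit 78) (nat_lit 988) (nat_lit 0) (XT.lf (nat_lit 0) (nat_lit 6293943198) (nat_lit 912) (nat_lit 260357604) (nat_lit 76) (nat_lit 1024025727) (nat_lit 313) (nat_lit 5) (nat_lit 325) (nat_lit 5) (nat_lit 314) (nat_lit 5) (nat_lit 364) (nat_lit 347) (nat_lit 309)) (XT.lf (nat_lit 0) (nat_lit 729595693) (nat_lit 988) (nat_lit 3504030113) (nat_lit 76) (nat_lit 3425552752) (nat_lit 300) (nat_lit 5)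 (nat_lit 313) (nat_lit 5) (nat_lit 301) (nat_lit 5) (nat_lit 365) (nat_lit 347) (nat_lit 308))) (XT.nd (nat_lit 78) (nat_lit 0) (nat_lit 0) (XT.lf (nat_lit 0) (nat_lit 923037466) (nat_lit 988) (nat_lit 1808304112) (nat_lit 1064) (nat_lit 5012167055) (nat_lit 287) (nat_lit 5) (nat_lit 300) (nat_lit 5) (nat_lit 301) (nat_lit 5) (nat_lit 366) (nat_lit 347) (nat_lit 307)) (XT.lf (nat_lit 0) (nat_lit 4778468365) (nat_lit 1064) (nat_lit 2331210255) (nat_lit 76) (nat_lit 721158145) (nat_lit 287) (nat_lit 5) (nat_lit 301) (nat_lit 5) (nat_lit 288) (nat_lit 5) (nat_lit 367) (nat_lit 347) (nat_lit 306))))) (XT.nd (nat_lit 312) (nat_lit 1292) (nat_lit 0) (XT.nd (nat_lit 156) (nat_lit 2356) (nat_lit 0) (XT.nd (nat_lit 78) (nat_lit 76) (nat_lit 0) (XT.lf (nat_lit 0) (nat_lit 2270916374) (nat_lit 1064) (nat_lit 4600451065) (nat_lit 1140) (nat_lit 1049913745) (nat_lit 273) (nat_lit 5) (nat_lit 287) (nat_lit 5) (nat_lit 288)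 (nat_lit 5) (nat_lit 368) (nat_lit 347) (nat_lit 305)) (XT.lf (nat_lit 0) (nat_lit 961844703) (nat_lit 1140) (nat_lit 1013670377) (nat_lit 76) (nat_lit 6039587778) (nat_lit 272) (nat_lit 5) (nat_lit 287) (nat_lit 5) (nat_lit 273) (nat_lit 5) (nat_lit 369) (nat_lit 347) (nat_lit 304))) (XT.nd (nat_lit 78) (nat_lit 1216) (nat_lit 0) (XT.lf (nat_lit 0) (nat_lit 3003499391) (nat_lit 1216) (nat_lit 4341465196) (nat_lit 76) (nat_lit 766768259) (nat_lit 257) (nat_lit 5) (nat_lit 273) (nat_lit 5) (nat_lit 258) (nat_lit 5) (nat_lit 370) (nat_lit 347) (nat_lit 303)) (XT.lf (nat_lit 0) (nat_lit 448017232) (nat_lit 1216) (nat_lit 4640548675) (nat_lit 1292) (nat_lit 3123255122) (nat_lit 241) (nat_lit 5) (nat_lit 257) (nat_lit 5) (nat_lit 258) (nat_lit 5) (nat_lit 371) (nat_lit 347) (nat_lit 302)))) (XT.nd (nat_lit 156) (nat_lit 608) (nat_lit 0) (XT.nd (nat_lit 78) (nat_lit 684) (nat_lit 0) (XT.lf (nat_lit 0) (nat_lit 5422043797)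 (nat_lit 1216) (nat_lit 1806992552) (nat_lit 1292) (nat_lit 1086113414) (nat_lit 241) (nat_lit 5) (nat_lit 257) (nat_lit 5) (nat_lit 258) (nat_lit 5) (nat_lit 372) (nat_lit 347) (nat_lit 301)) (XT.lf (nat_lit 0) (nat_lit 973637204) (nat_lit 684) (nat_lit 6325851187) (nat_lit 76) (nat_lit 1122382843) (nat_lit 232) (nat_lit 5) (nat_lit 241) (nat_lit 5) (nat_lit 233) (nat_lit 5) (nat_lit 373) (nat_lit 347) (nat_lit 300))) (XT.nd (nat_lit 78) (nat_lit 608) (nat_lit 0) (XT.lf (nat_lit 0) (nat_lit 3071748662) (nat_lit 684) (nat_lit 1314518070) (nat_lit 76) (nat_lit 4145274536) (nat_lit 232) (nat_lit 5) (nat_lit 241) (nat_lit 5) (nat_lit 233) (nat_lit 5) (nat_lit 374) (nat_lit 347) (nat_lit 299)) (XT.lf (nat_lit 0) (nat_lit 3875407352) (nat_lit 608) (nat_lit 1347079147) (nat_lit 684) (nat_lit 3422345257) (nat_lit 224) (nat_lit 5) (nat_lit 232) (nat_lit 5) (nat_lit 233) (nat_lit 5) (nat_lit 375) (nat_lit 347) (nat_lit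 298))))))))
noncomputable def xc119 : XT := (XT.nd (nat_lit 2262) (nat_lit 3952) (nat_lit 0) (XT.nd (nat_lit 1092) (nat_lit 3876) (nat_lit 0) (XT.nd (nat_lit 546) (nat_lit 1900) (nat_lit 0) (XT.nd (nat_lit 234) (nat_lit 1064) (nat_lit 0) (XT.nd (nat_lit 78) (nat_lit 608) (nat_lit 0) (XT.lf (nat_lit 0) (nat_lit 429641432) (nat_lit 608) (nat_lit 6996144791) (nat_lit 684) (nat_lit 1336113781) (nat_lit 216) (nat_lit 5) (nat_lit 224) (nat_lit 5) (nat_lit 225) (nat_lit 5) (nat_lit 376) (nat_lit 347) (nat_lit 297)) (XT.nd (nat_lit 78) (nat_lit 532) (nat_lit 0) (XT.lf (nat_lit 0) (nat_lit 812610516) (nat_lit 684) (nat_lit 3069002280) (nat_lit 76) (nat_lit 5000179271) (nat_lit 215) (nat_lit 5) (nat_lit 224) (nat_lit 5) (nat_lit 216) (nat_lit 5) (nat_lit 377) (nat_lit 347) (nat_lit 296)) (XT.lf (nat_lit 0) (nat_lit 2337162192) (nat_lit 532) (nat_lit 639380553) (nat_lit 608) (nat_lit 6029031778) (nat_lit 208) (nat_lit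 5) (nat_lit 215) (nat_lit 5) (nat_lit 216) (nat_lit 5) (nat_lit 378) (nat_lit 347) (nat_lit 295)))) (XT.nd (nat_lit 156) (nat_lit 532) (nat_lit 0) (XT.nd (nat_lit 78) (nat_lit 532) (nat_lit 0) (XT.lf (nat_lit 0) (nat_lit 5218608507) (nat_lit 608) (nat_lit 1238192807) (nat_lit 76) (nat_lit 2675890653) (nat_lit 208) (nat_lit 5) (nat_lit 216) (nat_lit 5) (nat_lit 209) (nat_lit 5) (nat_lit 379) (nat_lit 347) (nat_lit 294)) (XT.lf (nat_lit 0) (nat_lit 4387408019) (nat_lit 532) (nat_lit 3146278441) (nat_lit 608) (nat_lit 1729781424) (nat_lit 201) (nat_lit 5) (nat_lit 208) (nat_lit 5) (nat_lit 209) (nat_lit 5) (nat_lit 380) (nat_lit 347) (nat_lit 293))) (XT.nd (nat_lit 78) (nat_lit 0) (nat_lit 0) (XT.lf (nat_lit 0) (nat_lit 490298778) (nat_lit 532) (nat_lit 8629338633) (nat_lit 76) (nat_lit 278984238) (nat_lit 194) (nat_lit 5) (nat_lit 201) (nat_lit 5) (nat_lit 195) (nat_lit 5) (nat_lit 381) (nat_lit 347) (nat_lit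 292)) (XT.lf (nat_lit 0) (nat_lit 2781440663) (nat_lit 532) (nat_lit 2949139336) (nat_lit 76) (nat_lit 3805575420) (nat_lit 194) (nat_lit 5) (nat_lit 201) (nat_lit 5) (nat_lit 195) (nat_lit 5) (nat_lit 382) (nat_lit 347) (nat_lit 291))))) (XT.nd (nat_lit 234) (nat_lit 836) (nat_lit 0) (XT.nd (nat_lit 78) (nat_lit 532) (nat_lit 0) (XT.lf (nat_lit 0) (nat_lit 2911719244) (nat_lit 532) (nat_lit 2217148673) (nat_lit 608) (nat_lit 4549336261) (nat_lit 187) (nat_lit 5) (nat_lit 194) (nat_lit 5) (nat_lit 195) (nat_lit 5) (nat_lit 383) (nat_lit 347) (nat_lit 290)) (XT.nd (nat_lit 78) (nat_lit 532) (nat_lit 0) (XT.lf (nat_lit 0) (nat_lit 7550502140) (nat_lit 608) (nat_lit 875784559) (nat_lit 76) (nat_lit 1398129237) (nat_lit 187) (nat_lit 5) (nat_lit 195) (nat_lit 5) (nat_lit 188) (nat_lit 5) (nat_lit 384) (nat_lit 347) (nat_lit 289)) (XT.lf (nat_lit 0) (nat_lit 102306473) (nat_lit 532) (nat_lit 4749242229) (nat_lit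 76) (nat_lit 5122442518) (nat_lit 180) (nat_lit 5) (nat_lit 187) (nat_lit 5) (nat_lit 181) (nat_lit 5) (nat_lit 385) (nat_lit 347) (nat_lit 288)))) (XT.nd (nat_lit 156) (nat_lit 380) (nat_lit 0) (XT.nd (nat_lit 78) (nat_lit 0) (nat_lit 0) (XT.lf (nat_lit 0) (nat_lit 1356121039) (nat_lit 456) (nat_lit 1131647593) (nat_lit 532) (nat_lit 7640113730) (nat_lit 174) (nat_lit 5) (nat_lit 180) (nat_lit 5) (nat_lit 181) (nat_lit 5) (nat_lit 386) (nat_lit 347) (nat_lit 287)) (XT.lf (nat_lit 0) (nat_lit 4981469672) (nat_lit 532) (nat_lit 2616193309) (nat_lit 76) (nat_lit 2687640387) (nat_lit 174) (nat_lit 5) (nat_lit 181) (nat_lit 5) (nat_lit 175) (nat_lit 5) (nat_lit 387) (nat_lit 347) (nat_lit 286))) (XT.nd (nat_lit 78) (nat_lit 0) (nat_lit 0) (XT.lf (nat_lit 0) (nat_lit 3740374642) (nat_lit 380) (nat_lit 3820154197) (nat_lit 456) (nat_lit 2886614740) (nat_lit 169) (nat_lit 5) (nat_lit 174) (nat_lit 5) (nat_lit 175)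 (nat_lit 5) (nat_lit 388) (nat_lit 347) (nat_lit 285)) (XT.lf (nat_lit 0) (nat_lit 10208254070) (nat_lit 456) (nat_lit 318728846) (nat_lit 76) (nat_lit 87129864) (nat_lit 169) (nat_lit 5) (nat_lit 175) (nat_lit 5) (nat_lit 170) (nat_lit 5) (nat_lit 389) (nat_lit 347) (nat_lit 284)))))) (XT.nd (nat_lit 546) (nat_lit 1748) (nat_lit 0) (XT.nd (nat_lit 234) (nat_lit 1216) (nat_lit 0) (XT.nd (nat_lit 78) (nat_lit 380) (nat_lit 0) (XT.lf (nat_lit 0) (nat_lit 2171376316) (nat_lit 532) (nat_lit 4504067604) (nat_lit 76) (nat_lit 4108119288) (nat_lit 162) (nat_lit 5) (nat_lit 169) (nat_lit 5) (nat_lit 163) (nat_lit 5) (nat_lit 390) (nat_lit 347) (nat_lit 283)) (XT.nd (nat_lit 78) (nat_lit 0) (nat_lit 0) (XT.lf (nat_lit 0) (nat_lit 2116514401) (nat_lit 380) (nat_lit 2690079796) (nat_lit 456) (nat_lit 6151729246) (nat_lit 157) (nat_lit 5) (nat_lit 162) (nat_lit 5) (nat_lit 163) (nat_lit 5) (nat_lit 391) (nat_lit 347) (nat_lit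 282)) (XT.lf (nat_lit 0) (nat_lit 7546115058) (nat_lit 456) (nat_lit 2168403020) (nat_lit 76) (nat_lit 1423062218) (nat_lit 157) (nat_lit 5) (nat_lit 163) (nat_lit 5) (nat_lit 158) (nat_lit 5) (nat_lit 392) (nat_lit 347) (nat_lit 281)))) (XT.nd (nat_lit 156) (nat_lit 380) (nat_lit 0) (XT.nd (nat_lit 78) (nat_lit 456) (nat_lit 0) (XT.lf (nat_lit 0) (nat_lit 4726695718) (nat_lit 380) (nat_lit 5679908319) (nat_lit 456) (nat_lit 914458221) (nat_lit 152) (nat_lit 5) (nat_lit 157) (nat_lit 5) (nat_lit 158) (nat_lit 5) (nat_lit 393) (nat_lit 347) (nat_lit 280)) (XT.lf (nat_lit 0) (nat_lit 307427422) (nat_lit 380) (nat_lit 1491466713) (nat_lit 456) (nat_lit 9710873479) (nat_lit 146) (nat_lit 5) (nat_lit 151) (nat_lit 5) (nat_lit 152) (nat_lit 5) (nat_lit 394) (nat_lit 347) (nat_lit 279))) (XT.nd (nat_lit 78) (nat_lit 380) (nat_lit 0) (XT.lf (nat_lit 0) (nat_lit 4637008810) (nat_lit 456) (nat_lit 4232316981) (nat_lit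 76) (nat_lit 2832694430) (nat_lit 146) (nat_lit 5) (nat_lit 152) (nat_lit 5) (nat_lit 147) (nat_lit 5) (nat_lit 395) (nat_lit 347) (nat_lit 278)) (XT.lf (nat_lit 0) (nat_lit 2946044735) (nat_lit 380) (nat_lit 4625618215) (nat_lit 456) (nat_lit 4328045241) (nat_lit 141) (nat_lit 5) (nat_lit 146) (nat_lit 5) (nat_lit 147) (nat_lit 5) (nat_lit 396) (nat_lit 347) (nat_lit 277))))) (XT.nd (nat_lit 312) (nat_lit 988) (nat_lit 0) (XT.nd (nat_lit 156) (nat_lit 380) (nat_lit 0) (XT.nd (nat_lit 78) (nat_lit 380) (nat_lit 0) (XT.lf (nat_lit 0) (nat_lit 10383458823) (nat_lit 380) (nat_lit 222454967) (nat_lit 456) (nat_lit 1497075682) (nat_lit 141) (nat_lit 5) (nat_lit 146) (nat_lit 5) (nat_lit 147) (nat_lit 5) (nat_lit 397) (nat_lit 347) (nat_lit 276)) (XT.lf (nat_lit 0) (nat_lit 1458227382) (nat_lit 380) (nat_lit 6564724257) (nat_lit 76) (nat_lit 4287004517) (nat_lit 136) (nat_lit 5) (nat_lit 141) (nat_lit 5) (nat_lit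 137) (nat_lit 5) (nat_lit 398) (nat_lit 347) (nat_lit 275))) (XT.nd (nat_lit 78) (nat_lit 0) (nat_lit 0) (XT.lf (nat_lit 0) (nat_lit 904221455) (nat_lit 380) (nat_lit 3566099567) (nat_lit 456) (nat_lit 8052428092) (nat_lit 131) (nat_lit 5) (nat_lit 136) (nat_lit 5) (nat_lit 137) (nat_lit 5) (nat_lit 399) (nat_lit 347) (nat_lit 274)) (XT.lf (nat_lit 0) (nat_lit 7619714264) (nat_lit 456) (nat_lit 4061795792) (nat_lit 76) (nat_lit 1059016040) (nat_lit 131) (nat_lit 5) (nat_lit 137) (nat_lit 5) (nat_lit 132) (nat_lit 5) (nat_lit 400) (nat_lit 347) (nat_lit 273)))) (XT.nd (nat_lit 156) (nat_lit 608) (nat_lit 0) (XT.nd (nat_lit 78) (nat_lit 76) (nat_lit 0) (XT.lf (nat_lit 0) (nat_lit 3716957913) (nat_lit 304) (nat_lit 7188680517) (nat_lit 380) (nat_lit 2057944578) (nat_lit 127) (nat_lit 5) (nat_lit 131) (nat_lit 5) (nat_lit 132) (nat_lit 5) (nat_lit 401) (nat_lit 347) (nat_lit 272)) (XT.lf (nat_lit 0) (nat_lit 1087994981)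 (nat_lit 380) (nat_lit 1432787468) (nat_lit 76) (nat_lit 10671862843) (nat_lit 126) (nat_lit 5) (nat_lit 131) (nat_lit 5) (nat_lit 127) (nat_lit 5) (nat_lit 402) (nat_lit 347) (nat_lit 271))) (XT.nd (nat_lit 78) (nat_lit 304) (nat_lit 0) (XT.lf (nat_lit 0) (nat_lit 4345913737) (nat_lit 380) (nat_lit 6764904342) (nat_lit 76) (nat_lit 2315388592) (nat_lit 122) (nat_lit 5) (nat_lit 127) (nat_lit 5) (nat_lit 123) (nat_lit 5) (nat_lit 403) (nat_lit 347) (nat_lit 270)) (XT.lf (nat_lit 0) (nat_lit 1320757425) (nat_lit 304) (nat_lit 6405387611) (nat_lit 380) (nat_lit 5939899797) (nat_lit 118) (nat_lit 5) (nat_lit 122) (nat_lit 5) (nat_lit 123) (nat_lit 5) (nat_lit 404) (nat_lit 347) (nat_lit 269))))))) (XT.nd (nat_lit 1092) (nat_lit 1748) (nat_lit 0) (XT.nd (nat_lit 546) (nat_lit 988) (nat_lit 0) (XT.nd (nat_lit 234) (nat_lit 836) (nat_lit 0) (XT.nd (nat_lit 78) (nat_lit 380) (nat_lit 0) (XT.lf (nat_lit 0) (nat_lit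 9746907935) (nat_lit 304) (nat_lit 1501911592) (nat_lit 380) (nat_lit 2663034510) (nat_lit 118) (nat_lit 5) (nat_lit 122) (nat_lit 5) (nat_lit 123) (nat_lit 5) (nat_lit 405) (nat_lit 347) (nat_lit 268)) (XT.nd (nat_lit 78) (nat_lit 0) (nat_lit 0) (XT.lf (nat_lit 0) (nat_lit 747262648) (nat_lit 380) (nat_lit 9901145331) (nat_lit 76) (nat_lit 3514960086) (nat_lit 113) (nat_lit 5) (nat_lit 118) (nat_lit 5) (nat_lit 114) (nat_lit 5) (nat_lit 406) (nat_lit 347) (nat_lit 267)) (XT.lf (nat_lit 0) (nat_lit 4237207521) (nat_lit 380) (nat_lit 1475617625) (nat_lit 76) (nat_lit 8707891863) (nat_lit 113) (nat_lit 5) (nat_lit 118) (nat_lit 5) (nat_lit 114) (nat_lit 5) (nat_lit 407) (nat_lit 347) (nat_lit 266)))) (XT.nd (nat_lit 156) (nat_lit 304) (nat_lit 0) (XT.nd (nat_lit 78) (nat_lit 304) (nat_lit 0) (XT.lf (nat_lit 0) (nat_lit 7306036900) (nat_lit 228) (nat_lit 570333784) (nat_lit 304) (nat_lit 6808086343) (nat_lit 110)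 (nat_lit 5) (nat_lit 113) (nat_lit 5) (nat_lit 114) (nat_lit 5) (nat_lit 408) (nat_lit 347) (nat_lit 265)) (XT.lf (nat_lit 0) (nat_lit 1367370850) (nat_lit 304) (nat_lit 10305499494) (nat_lit 380) (nat_lit 3281800076) (nat_lit 106) (nat_lit 5) (nat_lit 110) (nat_lit 5) (nat_lit 111) (nat_lit 5) (nat_lit 409) (nat_lit 347) (nat_lit 264))) (XT.nd (nat_lit 78) (nat_lit 228) (nat_lit 0) (XT.lf (nat_lit 0) (nat_lit 398979527) (nat_lit 380) (nat_lit 4753302212) (nat_lit 76) (nat_lit 10078946945) (nat_lit 105) (nat_lit 5) (nat_lit 110) (nat_lit 5) (nat_lit 106) (nat_lit 5) (nat_lit 410) (nat_lit 347) (nat_lit 263)) (XT.lf (nat_lit 0) (nat_lit 4143616408) (nat_lit 304) (nat_lit 11156824390) (nat_lit 76) (nat_lit 214091774) (nat_lit 102) (nat_lit 5) (nat_lit 106) (nat_lit 5) (nat_lit 103) (nat_lit 5) (nat_lit 411) (nat_lit 347) (nat_lit 262))))) (XT.nd (nat_lit 234) (nat_lit 456) (nat_lit 0) (XT.nd (nat_lit 78) (nat_lit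 532) (nat_lit 0) (XT.lf (nat_lit 0) (nat_lit 8075684079) (nat_lit 304) (nat_lit 2055549217) (nat_lit 76) (nat_lit 5672854881) (nat_lit 102) (nat_lit 5) (nat_lit 106) (nat_lit 5) (nat_lit 103) (nat_lit 5) (nat_lit 412) (nat_lit 347) (nat_lit 261)) (XT.nd (nat_lit 78) (nat_lit 304) (nat_lit 0) (XT.lf (nat_lit 0) (nat_lit 7426148308) (nat_lit 228) (nat_lit 4747265418) (nat_lit 304) (nat_lit 3927490921) (nat_lit 99) (nat_lit 5) (nat_lit 102) (nat_lit 5) (nat_lit 103) (nat_lit 5) (nat_lit 413) (nat_lit 347) (nat_lit 260)) (XT.lf (nat_lit 0) (nat_lit 642024) (nat_lit 304) (nat_lit 15607852217) (nat_lit 76) (nat_lit 797751463) (nat_lit 95) (nat_lit 5) (nat_lit 99) (nat_lit 5) (nat_lit 96) (nat_lit 5) (nat_lit 414) (nat_lit 347) (nat_lit 259)))) (XT.nd (nat_lit 156) (nat_lit 228) (nat_lit 0) (XT.nd (nat_lit 78) (nat_lit 228) (nat_lit 0) (XT.lf (nat_lit 0) (nat_lit 4079754214) (nat_lit 304) (nat_lit 6109145429) (nat_lit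 76) (nat_lit 6527323306) (nat_lit 95) (nat_lit 5) (nat_lit 99) (nat_lit 5) (nat_lit 96) (nat_lit 5) (nat_lit 415) (nat_lit 347) (nat_lit 258)) (XT.lf (nat_lit 0) (nat_lit 3710191468) (nat_lit 228) (nat_lit 4584000280) (nat_lit 304) (nat_lit 8740923819) (nat_lit 92) (nat_lit 5) (nat_lit 95) (nat_lit 5) (nat_lit 96) (nat_lit 5) (nat_lit 416) (nat_lit 347) (nat_lit 257))) (XT.nd (nat_lit 78) (nat_lit 228) (nat_lit 0) (XT.lf (nat_lit 0) (nat_lit 12686258419) (nat_lit 304) (nat_lit 3461337337) (nat_lit 76) (nat_lit 1214447809) (nat_lit 92) (nat_lit 5) (nat_lit 96) (nat_lit 5) (nat_lit 93) (nat_lit 5) (nat_lit 417) (nat_lit 347) (nat_lit 256)) (XT.lf (nat_lit 0) (nat_lit 6748623544) (nat_lit 228) (nat_lit 10549842931) (nat_lit 304) (nat_lit 397665898) (nat_lit 89) (nat_lit 5) (nat_lit 92) (nat_lit 5) (nat_lit 93) (nat_lit 5) (nat_lit 418) (nat_lit 347) (nat_lit 255)))))) (XT.nd (nat_lit 546) (nat_lit 836) (nat_lit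 0) (XT.nd (nat_lit 234) (nat_lit 456) (nat_lit 0) (XT.nd (nat_lit 78) (nat_lit 380) (nat_lit 0) (XT.lf (nat_lit 0) (nat_lit 3944069292) (nat_lit 304) (nat_lit 778162985) (nat_lit 76) (nat_lit 13316454666) (nat_lit 88) (nat_lit 5) (nat_lit 92) (nat_lit 5) (nat_lit 89) (nat_lit 5) (nat_lit 419) (nat_lit 347) (nat_lit 254)) (XT.nd (nat_lit 78) (nat_lit 152) (nat_lit 0) (XT.lf (nat_lit 0) (nat_lit 8494730059) (nat_lit 304) (nat_lit 8552698774) (nat_lit 76) (nat_lit 1341375195) (nat_lit 85) (nat_lit 5) (nat_lit 89) (nat_lit 5) (nat_lit 86) (nat_lit 5) (nat_lit 420) (nat_lit 347) (nat_lit 253)) (XT.lf (nat_lit 0) (nat_lit 1992579365) (nat_lit 152) (nat_lit 11242163512) (nat_lit 228) (nat_lit 5513100648) (nat_lit 83) (nat_lit 5) (nat_lit 85) (nat_lit 5) (nat_lit 86) (nat_lit 5) (nat_lit 421) (nat_lit 347) (nat_lit 252)))) (XT.nd (nat_lit 156) (nat_lit 152) (nat_lit 0) (XT.nd (nat_lit 78) (nat_lit 304) (nat_lit 0) (XT.lf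 (nat_lit 0) (nat_lit 12994846576) (nat_lit 152) (nat_lit 5187741361) (nat_lit 228) (nat_lit 933101066) (nat_lit 83) (nat_lit 5) (nat_lit 85) (nat_lit 5) (nat_lit 86) (nat_lit 5) (nat_lit 422) (nat_lit 347) (nat_lit 251)) (XT.lf (nat_lit 0) (nat_lit 3747575517) (nat_lit 304) (nat_lit 14646536622) (nat_lit 76) (nat_lit 1098256266) (nat_lit 79) (nat_lit 5) (nat_lit 83) (nat_lit 5) (nat_lit 80) (nat_lit 5) (nat_lit 423) (nat_lit 347) (nat_lit 250))) (XT.nd (nat_lit 78) (nat_lit 152) (nat_lit 0) (XT.lf (nat_lit 0) (nat_lit 8643505770) (nat_lit 304) (nat_lit 3706959374) (nat_lit 76) (nat_lit 7526801688) (nat_lit 79) (nat_lit 5) (nat_lit 83) (nat_lit 5) (nat_lit 80) (nat_lit 5) (nat_lit 424) (nat_lit 347) (nat_lit 249)) (XT.lf (nat_lit 0) (nat_lit 7677387046) (nat_lit 152) (nat_lit 6063118402) (nat_lit 228) (nat_lit 6531584353) (nat_lit 77) (nat_lit 5) (nat_lit 79) (nat_lit 5) (nat_lit 80) (nat_lit 5) (nat_lit 425)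 (nat_lit 347) (nat_lit 248))))) (XT.nd (nat_lit 312) (nat_lit 380) (nat_lit 0) (XT.nd (nat_lit 156) (nat_lit 152) (nat_lit 0) (XT.nd (nat_lit 78) (nat_lit 304) (nat_lit 0) (XT.lf (nat_lit 0) (nat_lit 19012703623) (nat_lit 228) (nat_lit 1236080138) (nat_lit 76) (nat_lit 429308281) (nat_lit 77) (nat_lit 5) (nat_lit 80) (nat_lit 5) (nat_lit 78) (nat_lit 5) (nat_lit 426) (nat_lit 347) (nat_lit 247)) (XT.lf (nat_lit 0) (nat_lit 3425686064) (nat_lit 304) (nat_lit 10548295525) (nat_lit 76) (nat_lit 7117004651) (nat_lit 73) (nat_lit 5) (nat_lit 77) (nat_lit 5) (nat_lit 74) (nat_lit 5) (nat_lit 427) (nat_lit 347) (nat_lit 246))) (XT.nd (nat_lit 78) (nat_lit 0) (nat_lit 0) (XT.lf (nat_lit 0) (nat_lit 1157802066) (nat_lit 152) (nat_lit 7483091721) (nat_lit 228) (nat_lit 12874735559) (nat_lit 71) (nat_lit 5) (nat_lit 73) (nat_lit 5) (nat_lit 74) (nat_lit 5) (nat_lit 428) (nat_lit 347) (nat_lit 245)) (XT.lf (nat_lit 0) (nat_lit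 13399181860) (nat_lit 152) (nat_lit 701272080) (nat_lit 228) (nat_lit 7849923796) (nat_lit 71) (nat_lit 5) (nat_lit 73) (nat_lit 5) (nat_lit 74) (nat_lit 5) (nat_lit 429) (nat_lit 347) (nat_lit 244)))) (XT.nd (nat_lit 156) (nat_lit 152) (nat_lit 0) (XT.nd (nat_lit 78) (nat_lit 76) (nat_lit 0) (XT.lf (nat_lit 0) (nat_lit 3587622559) (nat_lit 152) (nat_lit 16212865808) (nat_lit 228) (nat_lit 2595382380) (nat_lit 69) (nat_lit 5) (nat_lit 71) (nat_lit 5) (nat_lit 72) (nat_lit 5) (nat_lit 430) (nat_lit 347) (nat_lit 243)) (XT.lf (nat_lit 0) (nat_lit 2837822070) (nat_lit 228) (nat_lit 6652784067) (nat_lit 76) (nat_lit 13361032961) (nat_lit 68) (nat_lit 5) (nat_lit 71) (nat_lit 5) (nat_lit 69) (nat_lit 5) (nat_lit 431) (nat_lit 347) (nat_lit 242))) (XT.nd (nat_lit 78) (nat_lit 0) (nat_lit 0) (XT.lf (nat_lit 0) (nat_lit 5926550112) (nat_lit 152) (nat_lit 2494650427) (nat_lit 228) (nat_lit 14897931338) (nat_lit 66) (nat_lit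 5) (nat_lit 68) (nat_lit 5) (nat_lit 69) (nat_lit 5) (nat_lit 432) (nat_lit 347) (nat_lit 241)) (XT.lf (nat_lit 0) (nat_lit 14267680686) (nat_lit 228) (nat_lit 4855789368) (nat_lit 76) (nat_lit 4674313856) (nat_lit 66) (nat_lit 5) (nat_lit 69) (nat_lit 5) (nat_lit 67) (nat_lit 5) (nat_lit 433) (nat_lit 347) (nat_lit 240))))))))
noncomputable def xc120 : XT := (XT.nd (nat_lit 2184) (nat_lit 1216) (nat_lit 0) (XT.nd (nat_lit 1092) (nat_lit 912) (nat_lit 0) (XT.nd (nat_lit 546) (nat_lit 532) (nat_lit 0) (XT.nd (nat_lit 234) (nat_lit 380) (nat_lit 0) (XT.nd (nat_lit 78) (nat_lit 228) (nat_lit 0) (XT.lf (nat_lit 0) (nat_lit 8161727061) (nat_lit 152) (nat_lit 12213962146) (nat_lit 228) (nat_lit 3912524688) (nat_lit 64) (nat_lit 5) (nat_lit 66) (nat_lit 5) (nat_lit 67) (nat_lit 5) (nat_lit 434) (nat_lit 347) (nat_lit 239)) (XT.nd (nat_lit 78) (nat_lit 152) (nat_lit 0) (XT.lf (nat_lit 0) (nat_lit 1869561270) (nat_lit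 228) (nat_lit 3171064881) (nat_lit 76) (nat_lit 19751216387) (nat_lit 63) (nat_lit 5) (nat_lit 66) (nat_lit 5) (nat_lit 64) (nat_lit 5) (nat_lit 435) (nat_lit 347) (nat_lit 238)) (XT.lf (nat_lit 0) (nat_lit 7852870196) (nat_lit 228) (nat_lit 15024478634) (nat_lit 76) (nat_lit 2428879331) (nat_lit 61) (nat_lit 5) (nat_lit 64) (nat_lit 5) (nat_lit 62) (nat_lit 5) (nat_lit 436) (nat_lit 347) (nat_lit 237)))) (XT.nd (nat_lit 156) (nat_lit 228) (nat_lit 0) (XT.nd (nat_lit 78) (nat_lit 152) (nat_lit 0) (XT.lf (nat_lit 0) (nat_lit 14081521972) (nat_lit 228) (nat_lit 1711359312) (nat_lit 76) (nat_lit 10041190901) (nat_lit 61) (nat_lit 5) (nat_lit 64) (nat_lit 5) (nat_lit 62) (nat_lit 5) (nat_lit 437) (nat_lit 347) (nat_lit 236)) (XT.lf (nat_lit 0) (nat_lit 12211083914) (nat_lit 152) (nat_lit 8387405341) (nat_lit 228) (nat_lit 5776220676) (nat_lit 59) (nat_lit 5) (nat_lit 61) (nat_lit 5) (nat_lit 62) (nat_lit 5) (nat_lit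 438) (nat_lit 347) (nat_lit 235))) (XT.nd (nat_lit 78) (nat_lit 152) (nat_lit 0) (XT.lf (nat_lit 0) (nat_lit 373559562) (nat_lit 228) (nat_lit 376976966) (nat_lit 76) (nat_lit 26180875901) (nat_lit 58) (nat_lit 5) (nat_lit 61) (nat_lit 5) (nat_lit 59) (nat_lit 5) (nat_lit 439) (nat_lit 347) (nat_lit 234)) (XT.lf (nat_lit 0) (nat_lit 6781183835) (nat_lit 228) (nat_lit 13557765783) (nat_lit 76) (nat_lit 7158469169) (nat_lit 56) (nat_lit 5) (nat_lit 59) (nat_lit 5) (nat_lit 57) (nat_lit 5) (nat_lit 440) (nat_lit 347) (nat_lit 233))))) (XT.nd (nat_lit 234) (nat_lit 304) (nat_lit 0) (XT.nd (nat_lit 78) (nat_lit 76) (nat_lit 0) (XT.lf (nat_lit 0) (nat_lit 589617189) (nat_lit 152) (nat_lit 12793008435) (nat_lit 228) (nat_lit 14697733894) (nat_lit 54) (nat_lit 5) (nat_lit 56) (nat_lit 5) (nat_lit 57) (nat_lit 5) (nat_lit 441) (nat_lit 347) (nat_lit 232)) (XT.nd (nat_lit 78) (nat_lit 76) (nat_lit 0) (XT.lf (nat_lit 0)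 (nat_lit 15411975501) (nat_lit 152) (nat_lit 4891871720) (nat_lit 228) (nat_lit 8373290946) (nat_lit 54) (nat_lit 5) (nat_lit 56) (nat_lit 5) (nat_lit 57) (nat_lit 5) (nat_lit 442) (nat_lit 347) (nat_lit 231)) (XT.lf (nat_lit 0) (nat_lit 1355530531) (nat_lit 76) (nat_lit 26106568265) (nat_lit 152) (nat_lit 1828841320) (nat_lit 53) (nat_lit 5) (nat_lit 54) (nat_lit 5) (nat_lit 55) (nat_lit 4) (nat_lit 443) (nat_lit 347) (nat_lit 230)))) (XT.nd (nat_lit 156) (nat_lit 76) (nat_lit 0) (XT.nd (nat_lit 78) (nat_lit 152) (nat_lit 0) (XT.lf (nat_lit 0) (nat_lit 4984992003) (nat_lit 152) (nat_lit 13356279874) (nat_lit 76) (nat_lit 11575402394) (nat_lit 52) (nat_lit 5) (nat_lit 54) (nat_lit 5) (nat_lit 53) (nat_lit 5) (nat_lit 444) (nat_lit 347) (nat_lit 229)) (XT.lf (nat_lit 0) (nat_lit 1648129322) (nat_lit 152) (nat_lit 10319814497) (nat_lit 228) (nat_lit 18592651162) (nat_lit 50) (nat_lit 5) (nat_lit 52) (nat_lit 5)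 (nat_lit 53) (nat_lit 5) (nat_lit 445) (nat_lit 347) (nat_lit 228))) (XT.nd (nat_lit 78) (nat_lit 76) (nat_lit 0) (XT.lf (nat_lit 0) (nat_lit 17350569783) (nat_lit 152) (nat_lit 1930475198) (nat_lit 228) (nat_lit 11939170052) (nat_lit 50) (nat_lit 5) (nat_lit 52) (nat_lit 5) (nat_lit 53) (nat_lit 5) (nat_lit 446) (nat_lit 347) (nat_lit 227)) (XT.lf (nat_lit 0) (nat_lit 1565049721) (nat_lit 76) (nat_lit 25314133004) (nat_lit 152) (nat_lit 5018473159) (nat_lit 49) (nat_lit 5) (nat_lit 50) (nat_lit 5) (nat_lit 51) (nat_lit 4) (nat_lit 447) (nat_lit 347) (nat_lit 226)))))) (XT.nd (nat_lit 546) (nat_lit 380) (nat_lit 0) (XT.nd (nat_lit 234) (nat_lit 304) (nat_lit 0) (XT.nd (nat_lit 78) (nat_lit 152) (nat_lit 0) (XT.lf (nat_lit 0) (nat_lit 2215349332) (nat_lit 152) (nat_lit 14910372204) (nat_lit 76) (nat_lit 15464691143) (nat_lit 48) (nat_lit 5) (nat_lit 50) (nat_lit 5) (nat_lit 49) (nat_lit 5) (nat_lit 448) (nat_lit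 347) (nat_lit 225)) (XT.nd (nat_lit 78) (nat_lit 0) (nat_lit 0) (XT.lf (nat_lit 0) (nat_lit 918024620) (nat_lit 152) (nat_lit 8642643285) (nat_lit 228) (nat_lit 23741934581) (nat_lit 46) (nat_lit 5) (nat_lit 48) (nat_lit 5) (nat_lit 49) (nat_lit 5) (nat_lit 449) (nat_lit 347) (nat_lit 224)) (XT.lf (nat_lit 0) (nat_lit 17265887723) (nat_lit 228) (nat_lit 16531904290) (nat_lit 76) (nat_lit 234181055) (nat_lit 46) (nat_lit 5) (nat_lit 49) (nat_lit 5) (nat_lit 47) (nat_lit 4) (nat_lit 450) (nat_lit 347) (nat_lit 223)))) (XT.nd (nat_lit 156) (nat_lit 228) (nat_lit 0) (XT.nd (nat_lit 78) (nat_lit 76) (nat_lit 0) (XT.lf (nat_lit 0) (nat_lit 25274798859) (nat_lit 228) (nat_lit 313280830) (nat_lit 76) (nat_lit 9192970334) (nat_lit 46) (nat_lit 5) (nat_lit 49) (nat_lit 5) (nat_lit 47) (nat_lit 4) (nat_lit 451) (nat_lit 347) (nat_lit 222)) (XT.lf (nat_lit 0) (nat_lit 16694308593) (nat_lit 76) (nat_lit 16977488330) (nat_lit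 152) (nat_lit 1876369033) (nat_lit 45) (nat_lit 5) (nat_lit 46) (nat_lit 5) (nat_lit 47) (nat_lit 4) (nat_lit 452) (nat_lit 347) (nat_lit 221))) (XT.nd (nat_lit 78) (nat_lit 152) (nat_lit 0) (XT.lf (nat_lit 0) (nat_lit 5856230968) (nat_lit 152) (nat_lit 2200573186) (nat_lit 76) (nat_lit 28280050407) (nat_lit 44) (nat_lit 5) (nat_lit 46) (nat_lit 5) (nat_lit 45) (nat_lit 5) (nat_lit 453) (nat_lit 347) (nat_lit 220)) (XT.lf (nat_lit 0) (nat_lit 13929423018) (nat_lit 228) (nat_lit 21949248845) (nat_lit 76) (nat_lit 1265585957) (nat_lit 42) (nat_lit 5) (nat_lit 45) (nat_lit 5) (nat_lit 43) (nat_lit 4) (nat_lit 454) (nat_lit 347) (nat_lit 219))))) (XT.nd (nat_lit 234) (nat_lit 228) (nat_lit 0) (XT.nd (nat_lit 78) (nat_lit 152) (nat_lit 0) (XT.lf (nat_lit 0) (nat_lit 22334797284) (nat_lit 228) (nat_lit 4920382930) (nat_lit 76) (nat_lit 10718004489) (nat_lit 42) (nat_lit 5) (nat_lit 45) (nat_lit 5) (nat_lit 43) (nat_lit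 4) (nat_lit 455) (nat_lit 347) (nat_lit 218)) (XT.nd (nat_lit 78) (nat_lit 76) (nat_lit 0) (XT.lf (nat_lit 0) (nat_lit 12847977494) (nat_lit 76) (nat_lit 18255988607) (nat_lit 152) (nat_lit 7719665374) (nat_lit 41) (nat_lit 5) (nat_lit 42) (nat_lit 5) (nat_lit 43) (nat_lit 4) (nat_lit 456) (nat_lit 347) (nat_lit 217)) (XT.lf (nat_lit 0) (nat_lit 466425518) (nat_lit 152) (nat_lit 8474640471) (nat_lit 76) (nat_lit 30757250958) (nat_lit 40) (nat_lit 5) (nat_lit 42) (nat_lit 5) (nat_lit 41) (nat_lit 5) (nat_lit 457) (nat_lit 347) (nat_lit 216)))) (XT.nd (nat_lit 156) (nat_lit 76) (nat_lit 0) (XT.nd (nat_lit 78) (nat_lit 0) (nat_lit 0) (XT.lf (nat_lit 0) (nat_lit 8831975885) (nat_lit 228) (nat_lit 30960718291) (nat_lit 76) (nat_lit 801585798) (nat_lit 38) (nat_lit 5) (nat_lit 41) (nat_lit 5) (nat_lit 39) (nat_lit 4) (nat_lit 458) (nat_lit 347) (nat_lit 215)) (XT.lf (nat_lit 0) (nat_lit 17611972881) (nat_lit 228)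 (nat_lit 13166690909) (nat_lit 76) (nat_lit 10733554663) (nat_lit 38) (nat_lit 5) (nat_lit 41) (nat_lit 5) (nat_lit 39) (nat_lit 4) (nat_lit 459) (nat_lit 347) (nat_lit 214))) (XT.nd (nat_lit 78) (nat_lit 0) (nat_lit 0) (XT.lf (nat_lit 0) (nat_lit 5242589829) (nat_lit 76) (nat_lit 21452039170) (nat_lit 152) (nat_lit 15761889245) (nat_lit 37) (nat_lit 5) (nat_lit 38) (nat_lit 5) (nat_lit 39) (nat_lit 4) (nat_lit 460) (nat_lit 347) (nat_lit 213)) (XT.lf (nat_lit 0) (nat_lit 24453388572) (nat_lit 76) (nat_lit 11718323927) (nat_lit 152) (nat_lit 7253777009) (nat_lit 37) (nat_lit 5) (nat_lit 38) (nat_lit 5) (nat_lit 39) (nat_lit 4) (nat_lit 461) (nat_lit 347) (nat_lit 212))))))) (XT.nd (nat_lit 1092) (nat_lit 456) (nat_lit 0) (XT.nd (nat_lit 546) (nat_lit 304) (nat_lit 0) (XT.nd (nat_lit 234) (nat_lit 228) (nat_lit 0) (XT.nd (nat_lit 78) (nat_lit 152) (nat_lit 0) (XT.lf (nat_lit 0) (nat_lit 1469325194) (nat_lit 152)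 (nat_lit 217808135) (nat_lit 76) (nat_lit 42736285988) (nat_lit 36) (nat_lit 5) (nat_lit 38) (nat_lit 5) (nat_lit 37) (nat_lit 5) (nat_lit 462) (nat_lit 347) (nat_lit 211)) (XT.nd (nat_lit 78) (nat_lit 0) (nat_lit 0) (XT.lf (nat_lit 0) (nat_lit 10569762761) (nat_lit 228) (nat_lit 26143531201) (nat_lit 76) (nat_lit 8727996220) (nat_lit 34) (nat_lit 5) (nat_lit 37) (nat_lit 5) (nat_lit 35) (nat_lit 4) (nat_lit 463) (nat_lit 347) (nat_lit 210)) (XT.lf (nat_lit 0) (nat_lit 19951687443) (nat_lit 228) (nat_lit 7122818094) (nat_lit 76) (nat_lit 19414938226) (nat_lit 34) (nat_lit 5) (nat_lit 37) (nat_lit 5) (nat_lit 35) (nat_lit 4) (nat_lit 464) (nat_lit 347) (nat_lit 209)))) (XT.nd (nat_lit 156) (nat_lit 152) (nat_lit 0) (XT.nd (nat_lit 78) (nat_lit 0) (nat_lit 0) (XT.lf (nat_lit 0) (nat_lit 12697138851) (nat_lit 76) (nat_lit 17029836579) (nat_lit 152) (nat_lit 17838710138) (nat_lit 33) (nat_lit 5) (nat_lit 34) (nat_lit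 5) (nat_lit 35) (nat_lit 4) (nat_lit 465) (nat_lit 347) (nat_lit 208)) (XT.lf (nat_lit 0) (nat_lit 33238748517) (nat_lit 76) (nat_lit 6618666256) (nat_lit 152) (nat_lit 8814943833) (nat_lit 33) (nat_lit 5) (nat_lit 34) (nat_lit 5) (nat_lit 35) (nat_lit 4) (nat_lit 466) (nat_lit 347) (nat_lit 207))) (XT.nd (nat_lit 78) (nat_lit 0) (nat_lit 0) (XT.lf (nat_lit 0) (nat_lit 544918962) (nat_lit 152) (nat_lit 45198970296) (nat_lit 76) (nat_lit 4065962777) (nat_lit 31) (nat_lit 5) (nat_lit 33) (nat_lit 5) (nat_lit 32) (nat_lit 4) (nat_lit 467) (nat_lit 347) (nat_lit 206)) (XT.lf (nat_lit 0) (nat_lit 10221516882) (nat_lit 152) (nat_lit 25576691515) (nat_lit 76) (nat_lit 15174250938) (nat_lit 31) (nat_lit 5) (nat_lit 33) (nat_lit 5) (nat_lit 32) (nat_lit 4) (nat_lit 468) (nat_lit 347) (nat_lit 205))))) (XT.nd (nat_lit 234) (nat_lit 228) (nat_lit 0) (XT.nd (nat_lit 78) (nat_lit 76) (nat_lit 0) (XT.lf (nat_lit 0) (nat_lit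 20178885821) (nat_lit 152) (nat_lit 5383829655) (nat_lit 76) (nat_lit 26607515864) (nat_lit 31) (nat_lit 5) (nat_lit 33) (nat_lit 5) (nat_lit 32) (nat_lit 4) (nat_lit 469) (nat_lit 347) (nat_lit 204)) (XT.nd (nat_lit 78) (nat_lit 0) (nat_lit 0) (XT.lf (nat_lit 0) (nat_lit 15703695189) (nat_lit 76) (nat_lit 14872984728) (nat_lit 152) (nat_lit 22823006121) (nat_lit 30) (nat_lit 5) (nat_lit 31) (nat_lit 5) (nat_lit 32) (nat_lit 4) (nat_lit 470) (nat_lit 347) (nat_lit 203)) (XT.lf (nat_lit 0) (nat_lit 37516822625) (nat_lit 76) (nat_lit 3814804171) (nat_lit 152) (nat_lit 13333041649) (nat_lit 30) (nat_lit 5) (nat_lit 31) (nat_lit 5) (nat_lit 32) (nat_lit 4) (nat_lit 471) (nat_lit 347) (nat_lit 202)))) (XT.nd (nat_lit 156) (nat_lit 76) (nat_lit 0) (XT.nd (nat_lit 78) (nat_lit 76) (nat_lit 0) (XT.lf (nat_lit 0) (nat_lit 4005008869) (nat_lit 76) (nat_lit 48506570877) (nat_lit 76) (nat_lit 3452950466) (nat_lit 29) (nat_lit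 4) (nat_lit 30) (nat_lit 5) (nat_lit 30) (nat_lit 4) (nat_lit 472) (nat_lit 347) (nat_lit 201)) (XT.lf (nat_lit 0) (nat_lit 6796039794) (nat_lit 152) (nat_lit 31275426853) (nat_lit 76) (nat_lit 19223871937) (nat_lit 28) (nat_lit 5) (nat_lit 30) (nat_lit 5) (nat_lit 29) (nat_lit 4) (nat_lit 473) (nat_lit 347) (nat_lit 200))) (XT.nd (nat_lit 78) (nat_lit 76) (nat_lit 0) (XT.lf (nat_lit 0) (nat_lit 17274411969) (nat_lit 152) (nat_lit 10021581073) (nat_lit 76) (nat_lit 31369313711) (nat_lit 28) (nat_lit 5) (nat_lit 30) (nat_lit 5) (nat_lit 29) (nat_lit 4) (nat_lit 474) (nat_lit 347) (nat_lit 199)) (XT.lf (nat_lit 0) (nat_lit 12089692638) (nat_lit 76) (nat_lit 16085222300) (nat_lit 152) (nat_lit 31898226189) (nat_lit 27) (nat_lit 5) (nat_lit 28) (nat_lit 5) (nat_lit 29) (nat_lit 4) (nat_lit 475) (nat_lit 347) (nat_lit 198)))))) (XT.nd (nat_lit 546) (nat_lit 228) (nat_lit 0) (XT.nd (nat_lit 234) (nat_lit 152) (nat_lit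 0) (XT.nd (nat_lit 78) (nat_lit 76) (nat_lit 0) (XT.lf (nat_lit 0) (nat_lit 35053794110) (nat_lit 76) (nat_lit 4441495705) (nat_lit 152) (nat_lit 22025135546) (nat_lit 27) (nat_lit 5) (nat_lit 28) (nat_lit 5) (nat_lit 29) (nat_lit 4) (nat_lit 476) (nat_lit 347) (nat_lit 197)) (XT.nd (nat_lit 78) (nat_lit 76) (nat_lit 0) (XT.lf (nat_lit 0) (nat_lit 51219696502) (nat_lit 152) (nat_lit 4392550754) (nat_lit 0) (nat_lit 7396948767) (nat_lit 27) (nat_lit 5) (nat_lit 29) (nat_lit 4) (nat_lit 27) (nat_lit 4) (nat_lit 477) (nat_lit 347) (nat_lit 196)) (XT.lf (nat_lit 0) (nat_lit 18648480630) (nat_lit 76) (nat_lit 44862659028) (nat_lit 76) (nat_lit 1025031521) (nat_lit 26) (nat_lit 4) (nat_lit 27) (nat_lit 5) (nat_lit 27) (nat_lit 4) (nat_lit 478) (nat_lit 347) (nat_lit 195)))) (XT.nd (nat_lit 156) (nat_lit 76) (nat_lit 0) (XT.nd (nat_lit 78) (nat_lit 0) (nat_lit 0) (XT.lf (nat_lit 0) (nat_lit 9902889433) (nat_lit 152)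 (nat_lit 23749208337) (nat_lit 76) (nat_lit 32452850365) (nat_lit 25) (nat_lit 5) (nat_lit 27) (nat_lit 5) (nat_lit 26) (nat_lit 4) (nat_lit 479) (nat_lit 347) (nat_lit 194)) (XT.lf (nat_lit 0) (nat_lit 21130353363) (nat_lit 152) (nat_lit 971482172) (nat_lit 76) (nat_lit 45618879636) (nat_lit 25) (nat_lit 5) (nat_lit 27) (nat_lit 5) (nat_lit 26) (nat_lit 4) (nat_lit 480) (nat_lit 347) (nat_lit 193))) (XT.nd (nat_lit 78) (nat_lit 0) (nat_lit 0) (XT.lf (nat_lit 0) (nat_lit 22922545467) (nat_lit 76) (nat_lit 9984972792) (nat_lit 152) (nat_lit 36471051094) (nat_lit 24) (nat_lit 5) (nat_lit 25) (nat_lit 5) (nat_lit 26) (nat_lit 4) (nat_lit 481) (nat_lit 347) (nat_lit 192)) (XT.lf (nat_lit 0) (nat_lit 45064439798) (nat_lit 152) (nat_lit 23570988773) (nat_lit 0) (nat_lit 2449937773) (nat_lit 24) (nat_lit 5) (nat_lit 26) (nat_lit 4) (nat_lit 24) (nat_lit 4) (nat_lit 482) (nat_lit 347) (nat_lit 191))))) (XT.nd (nat_lit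 312) (nat_lit 76) (nat_lit 0) (XT.nd (nat_lit 156) (nat_lit 76) (nat_lit 0) (XT.nd (nat_lit 78) (nat_lit 76) (nat_lit 0) (XT.lf (nat_lit 0) (nat_lit 57677694399) (nat_lit 152) (nat_lit 112193704) (nat_lit 0) (nat_lit 15050730799) (nat_lit 24) (nat_lit 5) (nat_lit 26) (nat_lit 4) (nat_lit 24) (nat_lit 4) (nat_lit 483) (nat_lit 347) (nat_lit 190)) (XT.lf (nat_lit 0) (nat_lit 24515221229) (nat_lit 76) (nat_lit 46382755763) (nat_lit 76) (nat_lit 3743693545) (nat_lit 23) (nat_lit 4) (nat_lit 24) (nat_lit 5) (nat_lit 24) (nat_lit 4) (nat_lit 484) (nat_lit 347) (nat_lit 189))) (XT.nd (nat_lit 78) (nat_lit 0) (nat_lit 0) (XT.lf (nat_lit 0) (nat_lit 7855777942) (nat_lit 152) (nat_lit 26703579224) (nat_lit 76) (nat_lit 41935260912) (nat_lit 22) (nat_lit 5) (nat_lit 24) (nat_lit 5) (nat_lit 23) (nat_lit 4) (nat_lit 485) (nat_lit 347) (nat_lit 188)) (XT.lf (nat_lit 0) (nat_lit 19721175195) (nat_lit 152) (nat_lit 2628226907)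 (nat_lit 76) (nat_lit 56052844745) (nat_lit 22) (nat_lit 5) (nat_lit 24) (nat_lit 5) (nat_lit 23) (nat_lit 4) (nat_lit 486) (nat_lit 347) (nat_lit 187)))) (XT.nd (nat_lit 42276) (nat_lit 0) (nat_lit 25688) (XT.nd (nat_lit 78) (nat_lit 0) (nat_lit 0) (XT.lf (nat_lit 0) (nat_lit 22597591432) (nat_lit 76) (nat_lit 9555549422) (nat_lit 152) (nat_lit 48207645794) (nat_lit 21) (nat_lit 5) (nat_lit 22) (nat_lit 5) (nat_lit 23) (nat_lit 4) (nat_lit 487) (nat_lit 347) (nat_lit 186)) (XT.lf (nat_lit 0) (nat_lit 45013083604) (nat_lit 152) (nat_lit 33791074918) (nat_lit 0) (nat_lit 3572273928) (nat_lit 21) (nat_lit 5) (nat_lit 23) (nat_lit 4) (nat_lit 21) (nat_lit 4) (nat_lit 488) (nat_lit 347) (nat_lit 185))) (XT.nd (nat_lit 78) (nat_lit 0) (nat_lit 0) (XT.lf (nat_lit 0) (nat_lit 733383295) (nat_lit 0) (nat_lit 733383295) (nat_lit 532) (nat_lit 1891002131) (nat_lit 359) (nat_lit 5) (nat_lit 359) (nat_lit 3) (nat_lit 366)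 (nat_lit 3) (nat_lit 348) (nat_lit 348) (nat_lit 324)) (XT.lf (nat_lit 0) (nat_lit 4784355947) (nat_lit 0) (nat_lit 315661488) (nat_lit 532) (nat_lit 1651243358) (nat_lit 359) (nat_lit 5) (nat_lit 359) (nat_lit 3) (nat_lit 366) (nat_lit 3) (nat_lit 349) (nat_lit 348) (nat_lit 323))))))))
noncomputable def xc121 : XT := (XT.nd (nat_lit 2184) (nat_lit 7372) (nat_lit 0) (XT.nd (nat_lit 1092) (nat_lit 7448) (nat_lit 0) (XT.nd (nat_lit 546) (nat_lit 2204) (nat_lit 0) (XT.nd (nat_lit 234) (nat_lit 684) (nat_lit 0) (XT.nd (nat_lit 78) (nat_lit 0) (nat_lit 0) (XT.lf (nat_lit 0) (nat_lit 471450061) (nat_lit 608) (nat_lit 5406769516) (nat_lit 684) (nat_lit 911571716) (nat_lit 351) (nat_lit 5) (nat_lit 359) (nat_lit 5) (nat_lit 360) (nat_lit 5) (nat_lit 350) (nat_lit 348) (nat_lit 322)) (XT.nd (nat_lit 78) (nat_lit 0) (nat_lit 0) (XT.lf (nat_lit 0) (nat_lit 2566516122) (nat_lit 608) (nat_lit 2020371913) (nat_lit 684) (nat_lit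 2243891919) (nat_lit 351) (nat_lit 5) (nat_lit 359) (nat_lit 5) (nat_lit 360) (nat_lit 5) (nat_lit 351) (nat_lit 348) (nat_lit 321)) (XT.lf (nat_lit 76) (nat_lit 1451688071) (nat_lit 0) (nat_lit 3207764976) (nat_lit 684) (nat_lit 2215542353) (nat_lit 352) (nat_lit 5) (nat_lit 351) (nat_lit 5) (nat_lit 360) (nat_lit 5) (nat_lit 352) (nat_lit 348) (nat_lit 320)))) (XT.nd (nat_lit 156) (nat_lit 0) (nat_lit 76) (XT.nd (nat_lit 78) (nat_lit 684) (nat_lit 0) (XT.lf (nat_lit 76) (nat_lit 5025502185) (nat_lit 0) (nat_lit 1733019898) (nat_lit 684) (nat_lit 163761206) (nat_lit 352) (nat_lit 5) (nat_lit 351) (nat_lit 5) (nat_lit 360) (nat_lit 5) (nat_lit 353) (nat_lit 348) (nat_lit 319)) (XT.lf (nat_lit 76) (nat_lit 1705995428) (nat_lit 0) (nat_lit 146335627) (nat_lit 760) (nat_lit 5119916162) (nat_lit 343) (nat_lit 5) (nat_lit 342) (nat_lit 5) (nat_lit 352) (nat_lit 5) (nat_lit 354) (nat_lit 348) (nat_lit 318))) (XT.nd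 (nat_lit 78) (nat_lit 0) (nat_lit 0) (XT.lf (nat_lit 0) (nat_lit 3885734971) (nat_lit 684) (nat_lit 1629721658) (nat_lit 760) (nat_lit 1509443554) (nat_lit 343) (nat_lit 5) (nat_lit 352) (nat_lit 5) (nat_lit 353) (nat_lit 5) (nat_lit 355) (nat_lit 348) (nat_lit 317)) (XT.lf (nat_lit 76) (nat_lit 2110780853) (nat_lit 0) (nat_lit 3819714510) (nat_lit 760) (nat_lit 1150167883) (nat_lit 344) (nat_lit 5) (nat_lit 343) (nat_lit 5) (nat_lit 353) (nat_lit 5) (nat_lit 356) (nat_lit 348) (nat_lit 316))))) (XT.nd (nat_lit 234) (nat_lit 1520) (nat_lit 0) (XT.nd (nat_lit 78) (nat_lit 0) (nat_lit 0) (XT.lf (nat_lit 0) (nat_lit 827124268) (nat_lit 760) (nat_lit 1195364084) (nat_lit 836) (nat_lit 5117005780) (nat_lit 333) (nat_lit 5) (nat_lit 343) (nat_lit 5) (nat_lit 344) (nat_lit 5) (nat_lit 357) (nat_lit 348) (nat_lit 315)) (XT.nd (nat_lit 78) (nat_lit 0) (nat_lit 76) (XT.lf (nat_lit 76) (nat_lit 2688943961) (nat_lit 0)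 (nat_lit 109111984) (nat_lit 836) (nat_lit 4403006874) (nat_lit 334) (nat_lit 5) (nat_lit 333) (nat_lit 5) (nat_lit 344) (nat_lit 5) (nat_lit 358) (nat_lit 348) (nat_lit 314)) (XT.lf (nat_lit 0) (nat_lit 4791578960) (nat_lit 760) (nat_lit 614199276) (nat_lit 836) (nat_lit 1859832979) (nat_lit 334) (nat_lit 5) (nat_lit 344) (nat_lit 5) (nat_lit 345) (nat_lit 5) (nat_lit 359) (nat_lit 348) (nat_lit 313)))) (XT.nd (nat_lit 156) (nat_lit 760) (nat_lit 0) (XT.nd (nat_lit 78) (nat_lit 836) (nat_lit 0) (XT.lf (nat_lit 76) (nat_lit 3421337383) (nat_lit 0) (nat_lit 3392856615) (nat_lit 836) (nat_lit 518858961) (nat_lit 335) (nat_lit 5) (nat_lit 334) (nat_lit 5) (nat_lit 345) (nat_lit 5) (nat_lit 360) (nat_lit 348) (nat_lit 312)) (XT.lf (nat_lit 76) (nat_lit 130445719) (nat_lit 0) (nat_lit 1278982945) (nat_lit 912) (nat_lit 5994382680) (nat_lit 324) (nat_lit 5) (nat_lit 323) (nat_lit 5) (nat_lit 335) (nat_lit 5) (nat_lit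 361) (nat_lit 348) (nat_lit 311))) (XT.nd (nat_lit 78) (nat_lit 836) (nat_lit 0) (XT.lf (nat_lit 0) (nat_lit 3371365067) (nat_lit 836) (nat_lit 3163099688) (nat_lit 76) (nat_lit 942519225) (nat_lit 324) (nat_lit 5) (nat_lit 335) (nat_lit 5) (nat_lit 325) (nat_lit 5) (nat_lit 362) (nat_lit 348) (nat_lit 310)) (XT.lf (nat_lit 0) (nat_lit 1031842079) (nat_lit 836) (nat_lit 4322415753) (nat_lit 912) (nat_lit 2199262542) (nat_lit 313) (nat_lit 5) (nat_lit 324) (nat_lit 5) (nat_lit 325) (nat_lit 5) (nat_lit 363) (nat_lit 348) (nat_lit 309)))))) (XT.nd (nat_lit 546) (nat_lit 3192) (nat_lit 0) (XT.nd (nat_lit 234) (nat_lit 3268) (nat_lit 0) (XT.nd (nat_lit 78) (nat_lit 988) (nat_lit 0) (XT.lf (nat_lit 0) (nat_lit 5371820636) (nat_lit 836) (nat_lit 1997597054) (nat_lit 912) (nat_lit 263782373) (nat_lit 313) (nat_lit 5) (nat_lit 324) (nat_lit 5) (nat_lit 325) (nat_lit 5) (nat_lit 364) (nat_lit 348) (nat_lit 308)) (XT.nd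 (nat_lit 78) (nat_lit 0) (nat_lit 0) (XT.lf (nat_lit 0) (nat_lit 1662515296) (nat_lit 988) (nat_lit 5614551114) (nat_lit 76) (nat_lit 438738549) (nat_lit 300) (nat_lit 5) (nat_lit 313) (nat_lit 5) (nat_lit 301) (nat_lit 5) (nat_lit 365) (nat_lit 348) (nat_lit 307)) (XT.lf (nat_lit 0) (nat_lit 3627474270) (nat_lit 988) (nat_lit 1228600729) (nat_lit 76) (nat_lit 2945177440) (nat_lit 300) (nat_lit 5) (nat_lit 313) (nat_lit 5) (nat_lit 301) (nat_lit 5) (nat_lit 366) (nat_lit 348) (nat_lit 306)))) (XT.nd (nat_lit 156) (nat_lit 2280) (nat_lit 0) (XT.nd (nat_lit 78) (nat_lit 0) (nat_lit 0) (XT.lf (nat_lit 0) (nat_lit 3307940149) (nat_lit 988) (nat_lit 2320224622) (nat_lit 1064) (nat_lit 2261822288) (nat_lit 287) (nat_lit 5) (nat_lit 300) (nat_lit 5) (nat_lit 301) (nat_lit 5) (nat_lit 367) (nat_lit 348) (nat_lit 305)) (XT.lf (nat_lit 0) (nat_lit 7650447201) (nat_lit 1064) (nat_lit 24993350) (nat_lit 76) (nat_lit 307122433)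 (nat_lit 287) (nat_lit 5) (nat_lit 301) (nat_lit 5) (nat_lit 288) (nat_lit 5) (nat_lit 368) (nat_lit 348) (nat_lit 304))) (XT.nd (nat_lit 78) (nat_lit 1140) (nat_lit 0) (XT.lf (nat_lit 0) (nat_lit 1639187312) (nat_lit 1140) (nat_lit 3401634497) (nat_lit 76) (nat_lit 3036161569) (nat_lit 272) (nat_lit 5) (nat_lit 287) (nat_lit 5) (nat_lit 273) (nat_lit 5) (nat_lit 369) (nat_lit 348) (nat_lit 303)) (XT.lf (nat_lit 0) (nat_lit 1319380000) (nat_lit 1140) (nat_lit 2304872871) (nat_lit 1216) (nat_lit 4551070071) (nat_lit 257) (nat_lit 5) (nat_lit 272) (nat_lit 5) (nat_lit 273) (nat_lit 5) (nat_lit 370) (nat_lit 348) (nat_lit 302))))) (XT.nd (nat_lit 234) (nat_lit 1900) (nat_lit 0) (XT.nd (nat_lit 78) (nat_lit 1292) (nat_lit 0) (XT.lf (nat_lit 0) (nat_lit 5657967445) (nat_lit 1216) (nat_lit 2076296754) (nat_lit 76) (nat_lit 542699042) (nat_lit 257) (nat_lit 5) (nat_lit 273) (nat_lit 5) (nat_lit 258) (nat_lit 5) (nat_lit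 371) (nat_lit 348) (nat_lit 301)) (XT.nd (nat_lit 78) (nat_lit 76) (nat_lit 0) (XT.lf (nat_lit 0) (nat_lit 2833385711) (nat_lit 1216) (nat_lit 4920310482) (nat_lit 1292) (nat_lit 627949251) (nat_lit 241) (nat_lit 5) (nat_lit 257) (nat_lit 5) (nat_lit 258) (nat_lit 5) (nat_lit 372) (nat_lit 348) (nat_lit 300)) (XT.lf (nat_lit 0) (nat_lit 1367679338) (nat_lit 1292) (nat_lit 616163903) (nat_lit 76) (nat_lit 6506057575) (nat_lit 240) (nat_lit 5) (nat_lit 257) (nat_lit 5) (nat_lit 241) (nat_lit 5) (nat_lit 373) (nat_lit 348) (nat_lit 299)))) (XT.nd (nat_lit 156) (nat_lit 684) (nat_lit 0) (XT.nd (nat_lit 78) (nat_lit 608) (nat_lit 0) (XT.lf (nat_lit 0) (nat_lit 3417186874) (nat_lit 684) (nat_lit 4111381364) (nat_lit 76) (nat_lit 1072470998) (nat_lit 232) (nat_lit 5) (nat_lit 241) (nat_lit 5) (nat_lit 233) (nat_lit 5) (nat_lit 374) (nat_lit 348) (nat_lit 298)) (XT.lf (nat_lit 0) (nat_lit 999774382) (nat_lit 608) (nat_lit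 4517757137) (nat_lit 684) (nat_lit 3198319969) (nat_lit 224) (nat_lit 5) (nat_lit 232) (nat_lit 5) (nat_lit 233) (nat_lit 5) (nat_lit 375) (nat_lit 348) (nat_lit 297))) (XT.nd (nat_lit 78) (nat_lit 684) (nat_lit 0) (XT.lf (nat_lit 0) (nat_lit 6303003870) (nat_lit 608) (nat_lit 1374122712) (nat_lit 684) (nat_lit 1157113972) (nat_lit 224) (nat_lit 5) (nat_lit 232) (nat_lit 5) (nat_lit 233) (nat_lit 5) (nat_lit 376) (nat_lit 348) (nat_lit 296)) (XT.lf (nat_lit 0) (nat_lit 927745522) (nat_lit 684) (nat_lit 6164941599) (nat_lit 76) (nat_lit 1863214156) (nat_lit 215) (nat_lit 5) (nat_lit 224) (nat_lit 5) (nat_lit 216) (nat_lit 5) (nat_lit 377) (nat_lit 348) (nat_lit 295))))))) (XT.nd (nat_lit 1092) (nat_lit 3344) (nat_lit 0) (XT.nd (nat_lit 546) (nat_lit 1900) (nat_lit 0) (XT.nd (nat_lit 234) (nat_lit 1064) (nat_lit 0) (XT.nd (nat_lit 78) (nat_lit 1064) (nat_lit 0) (XT.lf (nat_lit 0) (nat_lit 3047754029) (nat_lit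 684) (nat_lit 827037513) (nat_lit 76) (nat_lit 5206218761) (nat_lit 215) (nat_lit 5) (nat_lit 224) (nat_lit 5) (nat_lit 216) (nat_lit 5) (nat_lit 378) (nat_lit 348) (nat_lit 294)) (XT.nd (nat_lit 78) (nat_lit 532) (nat_lit 0) (XT.lf (nat_lit 0) (nat_lit 4718429199) (nat_lit 532) (nat_lit 516000015) (nat_lit 608) (nat_lit 3975368849) (nat_lit 208) (nat_lit 5) (nat_lit 215) (nat_lit 5) (nat_lit 216) (nat_lit 5) (nat_lit 379) (nat_lit 348) (nat_lit 293)) (XT.lf (nat_lit 0) (nat_lit 1051713688) (nat_lit 532) (nat_lit 6440320633) (nat_lit 608) (nat_lit 1850272194) (nat_lit 201) (nat_lit 5) (nat_lit 208) (nat_lit 5) (nat_lit 209) (nat_lit 5) (nat_lit 380) (nat_lit 348) (nat_lit 292)))) (XT.nd (nat_lit 156) (nat_lit 532) (nat_lit 0) (XT.nd (nat_lit 78) (nat_lit 456) (nat_lit 0) (XT.lf (nat_lit 0) (nat_lit 341730043) (nat_lit 608) (nat_lit 2678919791) (nat_lit 76) (nat_lit 6457765936) (nat_lit 200) (nat_lit 5) (nat_lit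 208) (nat_lit 5) (nat_lit 201) (nat_lit 5) (nat_lit 381) (nat_lit 348) (nat_lit 291)) (XT.lf (nat_lit 0) (nat_lit 2557391383) (nat_lit 532) (nat_lit 6524881904) (nat_lit 76) (nat_lit 535948310) (nat_lit 194) (nat_lit 5) (nat_lit 201) (nat_lit 5) (nat_lit 195) (nat_lit 5) (nat_lit 382) (nat_lit 348) (nat_lit 290))) (XT.nd (nat_lit 78) (nat_lit 532) (nat_lit 0) (XT.lf (nat_lit 0) (nat_lit 4857489361) (nat_lit 532) (nat_lit 743111683) (nat_lit 76) (nat_lit 4161096610) (nat_lit 194) (nat_lit 5) (nat_lit 201) (nat_lit 5) (nat_lit 195) (nat_lit 5) (nat_lit 383) (nat_lit 348) (nat_lit 289)) (XT.lf (nat_lit 0) (nat_lit 5271077539) (nat_lit 532) (nat_lit 1968064760) (nat_lit 608) (nat_lit 2669973752) (nat_lit 187) (nat_lit 5) (nat_lit 194) (nat_lit 5) (nat_lit 195) (nat_lit 5) (nat_lit 384) (nat_lit 348) (nat_lit 288))))) (XT.nd (nat_lit 234) (nat_lit 912) (nat_lit 0) (XT.nd (nat_lit 78) (nat_lit 532) (nat_lit 0) (XT.lf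 (nat_lit 0) (nat_lit 1385568903) (nat_lit 456) (nat_lit 8307138177) (nat_lit 532) (nat_lit 368250246) (nat_lit 181) (nat_lit 5) (nat_lit 187) (nat_lit 5) (nat_lit 188) (nat_lit 5) (nat_lit 385) (nat_lit 348) (nat_lit 287)) (XT.nd (nat_lit 78) (nat_lit 456) (nat_lit 0) (XT.lf (nat_lit 0) (nat_lit 1993040430) (nat_lit 532) (nat_lit 2615045311) (nat_lit 76) (nat_lit 5607816235) (nat_lit 180) (nat_lit 5) (nat_lit 187) (nat_lit 5) (nat_lit 181) (nat_lit 5) (nat_lit 386) (nat_lit 348) (nat_lit 286)) (XT.lf (nat_lit 0) (nat_lit 3651158519) (nat_lit 456) (nat_lit 765597635) (nat_lit 532) (nat_lit 5958672785) (nat_lit 174) (nat_lit 5) (nat_lit 180) (nat_lit 5) (nat_lit 181) (nat_lit 5) (nat_lit 387) (nat_lit 348) (nat_lit 285)))) (XT.nd (nat_lit 156) (nat_lit 532) (nat_lit 0) (XT.nd (nat_lit 78) (nat_lit 380) (nat_lit 0) (XT.lf (nat_lit 0) (nat_lit 6934990948) (nat_lit 532) (nat_lit 455068715) (nat_lit 76) (nat_lit 3149040431)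 (nat_lit 174) (nat_lit 5) (nat_lit 181) (nat_lit 5) (nat_lit 175) (nat_lit 5) (nat_lit 388) (nat_lit 348) (nat_lit 284)) (XT.lf (nat_lit 0) (nat_lit 6070239310) (nat_lit 380) (nat_lit 3489954085) (nat_lit 456) (nat_lit 1146557615) (nat_lit 169) (nat_lit 5) (nat_lit 174) (nat_lit 5) (nat_lit 175) (nat_lit 5) (nat_lit 389) (nat_lit 348) (nat_lit 283))) (XT.nd (nat_lit 78) (nat_lit 0) (nat_lit 0) (XT.lf (nat_lit 0) (nat_lit 1351703918) (nat_lit 532) (nat_lit 8982740171) (nat_lit 76) (nat_lit 544779451) (nat_lit 162) (nat_lit 5) (nat_lit 169) (nat_lit 5) (nat_lit 163) (nat_lit 5) (nat_lit 390) (nat_lit 348) (nat_lit 282)) (XT.lf (nat_lit 0) (nat_lit 3949946184) (nat_lit 532) (nat_lit 2424950195) (nat_lit 76) (nat_lit 4680202184) (nat_lit 162) (nat_lit 5) (nat_lit 169) (nat_lit 5) (nat_lit 163) (nat_lit 5) (nat_lit 391) (nat_lit 348) (nat_lit 281)))))) (XT.nd (nat_lit 546) (nat_lit 1368) (nat_lit 0) (XT.nd (nat_lit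 234) (nat_lit 1140) (nat_lit 0) (XT.nd (nat_lit 78) (nat_lit 456) (nat_lit 0) (XT.lf (nat_lit 0) (nat_lit 4372541041) (nat_lit 380) (nat_lit 2262849825) (nat_lit 456) (nat_lit 4600592195) (nat_lit 157) (nat_lit 5) (nat_lit 162) (nat_lit 5) (nat_lit 163) (nat_lit 5) (nat_lit 392) (nat_lit 348) (nat_lit 280)) (XT.nd (nat_lit 78) (nat_lit 456) (nat_lit 0) (XT.lf (nat_lit 0) (nat_lit 9412771713) (nat_lit 456) (nat_lit 59922357) (nat_lit 76) (nat_lit 1949269399) (nat_lit 157) (nat_lit 5) (nat_lit 163) (nat_lit 5) (nat_lit 158) (nat_lit 5) (nat_lit 393) (nat_lit 348) (nat_lit 279)) (XT.lf (nat_lit 0) (nat_lit 706156899) (nat_lit 456) (nat_lit 4597981005) (nat_lit 76) (nat_lit 6307432499) (nat_lit 151) (nat_lit 5) (nat_lit 157) (nat_lit 5) (nat_lit 152) (nat_lit 5) (nat_lit 394) (nat_lit 348) (nat_lit 278)))) (XT.nd (nat_lit 156) (nat_lit 760) (nat_lit 0) (XT.nd (nat_lit 78) (nat_lit 0) (nat_lit 0) (XT.lf (nat_lit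 0) (nat_lit 2480389572) (nat_lit 380) (nat_lit 975473644) (nat_lit 456) (nat_lit 8350616807) (nat_lit 146) (nat_lit 5) (nat_lit 151) (nat_lit 5) (nat_lit 152) (nat_lit 5) (nat_lit 395) (nat_lit 348) (nat_lit 277)) (XT.lf (nat_lit 0) (nat_lit 6337665098) (nat_lit 456) (nat_lit 2216636201) (nat_lit 76) (nat_lit 3451456885) (nat_lit 146) (nat_lit 5) (nat_lit 152) (nat_lit 5) (nat_lit 147) (nat_lit 5) (nat_lit 396) (nat_lit 348) (nat_lit 276))) (XT.nd (nat_lit 78) (nat_lit 380) (nat_lit 0) (XT.lf (nat_lit 0) (nat_lit 5156069992) (nat_lit 380) (nat_lit 4179201487) (nat_lit 456) (nat_lit 2874871807) (nat_lit 141) (nat_lit 5) (nat_lit 146) (nat_lit 5) (nat_lit 147) (nat_lit 5) (nat_lit 397) (nat_lit 348) (nat_lit 275)) (XT.lf (nat_lit 0) (nat_lit 1583800) (nat_lit 380) (nat_lit 12083445228) (nat_lit 76) (nat_lit 335654495) (nat_lit 136) (nat_lit 5) (nat_lit 141) (nat_lit 5) (nat_lit 137) (nat_lit 5) (nat_lit 398) (nat_lit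 348) (nat_lit 274))))) (XT.nd (nat_lit 312) (nat_lit 684) (nat_lit 0) (XT.nd (nat_lit 156) (nat_lit 304) (nat_lit 0) (XT.nd (nat_lit 78) (nat_lit 380) (nat_lit 0) (XT.lf (nat_lit 0) (nat_lit 2990537647) (nat_lit 380) (nat_lit 4652614400) (nat_lit 76) (nat_lit 4991022736) (nat_lit 136) (nat_lit 5) (nat_lit 141) (nat_lit 5) (nat_lit 137) (nat_lit 5) (nat_lit 399) (nat_lit 348) (nat_lit 273)) (XT.lf (nat_lit 0) (nat_lit 3019722707) (nat_lit 380) (nat_lit 3049989907) (nat_lit 456) (nat_lit 6784349686) (nat_lit 131) (nat_lit 5) (nat_lit 136) (nat_lit 5) (nat_lit 137) (nat_lit 5) (nat_lit 400) (nat_lit 348) (nat_lit 272))) (XT.nd (nat_lit 78) (nat_lit 304) (nat_lit 0) (XT.lf (nat_lit 0) (nat_lit 9276724632) (nat_lit 456) (nat_lit 2118839619) (nat_lit 76) (nat_lit 1683926197) (nat_lit 131) (nat_lit 5) (nat_lit 137) (nat_lit 5) (nat_lit 132) (nat_lit 5) (nat_lit 401) (nat_lit 348) (nat_lit 271)) (XT.lf (nat_lit 0) (nat_lit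 5873033461) (nat_lit 304) (nat_lit 6766242253) (nat_lit 380) (nat_lit 670633493) (nat_lit 127) (nat_lit 5) (nat_lit 131) (nat_lit 5) (nat_lit 132) (nat_lit 5) (nat_lit 402) (nat_lit 348) (nat_lit 270)))) (XT.nd (nat_lit 156) (nat_lit 304) (nat_lit 0) (XT.nd (nat_lit 78) (nat_lit 0) (nat_lit 0) (XT.lf (nat_lit 0) (nat_lit 547751444) (nat_lit 304) (nat_lit 1957540210) (nat_lit 380) (nat_lit 11041228274) (nat_lit 122) (nat_lit 5) (nat_lit 126) (nat_lit 5) (nat_lit 127) (nat_lit 5) (nat_lit 403) (nat_lit 348) (nat_lit 269)) (XT.lf (nat_lit 0) (nat_lit 5840766477) (nat_lit 380) (nat_lit 4939746979) (nat_lit 76) (nat_lit 3007190770) (nat_lit 122) (nat_lit 5) (nat_lit 127) (nat_lit 5) (nat_lit 123) (nat_lit 5) (nat_lit 404) (nat_lit 348) (nat_lit 268))) (XT.nd (nat_lit 78) (nat_lit 0) (nat_lit 0) (XT.lf (nat_lit 0) (nat_lit 3368601264) (nat_lit 304) (nat_lit 5933365702) (nat_lit 380) (nat_lit 4733394022) (nat_lit 118)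 (nat_lit 5) (nat_lit 122) (nat_lit 5) (nat_lit 123) (nat_lit 5) (nat_lit 405) (nat_lit 348) (nat_lit 267)) (XT.lf (nat_lit 0) (nat_lit 11989044412) (nat_lit 304) (nat_lit 902130554) (nat_lit 380) (nat_lit 1398553925) (nat_lit 118) (nat_lit 5) (nat_lit 122) (nat_lit 5) (nat_lit 123) (nat_lit 5) (nat_lit 406) (nat_lit 348) (nat_lit 266))))))))
noncomputable def xc122 : XT := (XT.nd (nat_lit 2184) (nat_lit 2432) (nat_lit 0) (XT.nd (nat_lit 1092) (nat_lit 1444) (nat_lit 0) (XT.nd (nat_lit 546) (nat_lit 1292) (nat_lit 0) (XT.nd (nat_lit 234) (nat_lit 608) (nat_lit 0) (XT.nd (nat_lit 78) (nat_lit 228) (nat_lit 0) (XT.lf (nat_lit 0) (nat_lit 2074565787) (nat_lit 380) (nat_lit 8208324912) (nat_lit 76) (nat_lit 4265916984) (nat_lit 113) (nat_lit 5) (nat_lit 118) (nat_lit 5) (nat_lit 114) (nat_lit 5) (nat_lit 407) (nat_lit 348) (nat_lit 265)) (XT.nd (nat_lit 78) (nat_lit 0) (nat_lit 0) (XT.lf (nat_lit 0) (nat_lit 420211529)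 (nat_lit 228) (nat_lit 5215030441) (nat_lit 304) (nat_lit 9179663307) (nat_lit 110) (nat_lit 5) (nat_lit 113) (nat_lit 5) (nat_lit 114) (nat_lit 5) (nat_lit 408) (nat_lit 348) (nat_lit 264)) (XT.lf (nat_lit 0) (nat_lit 9361771404) (nat_lit 304) (nat_lit 5649808803) (nat_lit 76) (nat_lit 75640449) (nat_lit 110) (nat_lit 5) (nat_lit 114) (nat_lit 5) (nat_lit 111) (nat_lit 5) (nat_lit 409) (nat_lit 348) (nat_lit 263)))) (XT.nd (nat_lit 156) (nat_lit 228) (nat_lit 0) (XT.nd (nat_lit 78) (nat_lit 76) (nat_lit 0) (XT.lf (nat_lit 0) (nat_lit 3333647101) (nat_lit 304) (nat_lit 9926126246) (nat_lit 380) (nat_lit 2106147530) (nat_lit 106) (nat_lit 5) (nat_lit 110) (nat_lit 5) (nat_lit 111) (nat_lit 5) (nat_lit 410) (nat_lit 348) (nat_lit 262)) (XT.lf (nat_lit 0) (nat_lit 1623807301) (nat_lit 380) (nat_lit 3002311677) (nat_lit 76) (nat_lit 11025389208) (nat_lit 105) (nat_lit 5) (nat_lit 110) (nat_lit 5) (nat_lit 106) (nat_lit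 5) (nat_lit 411) (nat_lit 348) (nat_lit 261))) (XT.nd (nat_lit 78) (nat_lit 0) (nat_lit 0) (XT.lf (nat_lit 0) (nat_lit 5470012672) (nat_lit 304) (nat_lit 9586905209) (nat_lit 76) (nat_lit 886724339) (nat_lit 102) (nat_lit 5) (nat_lit 106) (nat_lit 5) (nat_lit 103) (nat_lit 5) (nat_lit 412) (nat_lit 348) (nat_lit 260)) (XT.lf (nat_lit 0) (nat_lit 9485030109) (nat_lit 304) (nat_lit 268066263) (nat_lit 76) (nat_lit 6489846170) (nat_lit 102) (nat_lit 5) (nat_lit 106) (nat_lit 5) (nat_lit 103) (nat_lit 5) (nat_lit 413) (nat_lit 348) (nat_lit 259))))) (XT.nd (nat_lit 234) (nat_lit 760) (nat_lit 0) (XT.nd (nat_lit 78) (nat_lit 304) (nat_lit 0) (XT.lf (nat_lit 0) (nat_lit 9479953272) (nat_lit 228) (nat_lit 4209346772) (nat_lit 304) (nat_lit 2859862667) (nat_lit 99) (nat_lit 5) (nat_lit 102) (nat_lit 5) (nat_lit 103) (nat_lit 5) (nat_lit 414) (nat_lit 348) (nat_lit 258)) (XT.nd (nat_lit 78) (nat_lit 0) (nat_lit 0) (XT.lf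 (nat_lit 0) (nat_lit 1153412256) (nat_lit 304) (nat_lit 14211889650) (nat_lit 76) (nat_lit 1498314351) (nat_lit 95) (nat_lit 5) (nat_lit 99) (nat_lit 5) (nat_lit 96) (nat_lit 5) (nat_lit 415) (nat_lit 348) (nat_lit 257)) (XT.lf (nat_lit 0) (nat_lit 5321322540) (nat_lit 304) (nat_lit 4482518691) (nat_lit 76) (nat_lit 7380065669) (nat_lit 95) (nat_lit 5) (nat_lit 99) (nat_lit 5) (nat_lit 96) (nat_lit 5) (nat_lit 416) (nat_lit 348) (nat_lit 256)))) (XT.nd (nat_lit 156) (nat_lit 532) (nat_lit 0) (XT.nd (nat_lit 78) (nat_lit 0) (nat_lit 0) (XT.lf (nat_lit 0) (nat_lit 5613654184) (nat_lit 228) (nat_lit 4033168975) (nat_lit 304) (nat_lit 7866010865) (nat_lit 92) (nat_lit 5) (nat_lit 95) (nat_lit 5) (nat_lit 96) (nat_lit 5) (nat_lit 417) (nat_lit 348) (nat_lit 255)) (XT.lf (nat_lit 0) (nat_lit 14144926281) (nat_lit 304) (nat_lit 1799279274) (nat_lit 76) (nat_lit 1906142506) (nat_lit 92) (nat_lit 5) (nat_lit 96) (nat_lit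 5) (nat_lit 93) (nat_lit 5) (nat_lit 418) (nat_lit 348) (nat_lit 254))) (XT.nd (nat_lit 78) (nat_lit 228) (nat_lit 0) (XT.lf (nat_lit 0) (nat_lit 672618693) (nat_lit 304) (nat_lit 9501830130) (nat_lit 76) (nat_lit 8020256883) (nat_lit 88) (nat_lit 5) (nat_lit 92) (nat_lit 5) (nat_lit 89) (nat_lit 5) (nat_lit 419) (nat_lit 348) (nat_lit 253)) (XT.lf (nat_lit 0) (nat_lit 935352649) (nat_lit 228) (nat_lit 4178963766) (nat_lit 304) (nat_lit 13433777171) (nat_lit 85) (nat_lit 5) (nat_lit 88) (nat_lit 5) (nat_lit 89) (nat_lit 5) (nat_lit 420) (nat_lit 348) (nat_lit 252)))))) (XT.nd (nat_lit 546) (nat_lit 608) (nat_lit 0) (XT.nd (nat_lit 234) (nat_lit 608) (nat_lit 0) (XT.nd (nat_lit 78) (nat_lit 228) (nat_lit 0) (XT.lf (nat_lit 0) (nat_lit 9784955247) (nat_lit 304) (nat_lit 7082930236) (nat_lit 76) (nat_lit 2041330668) (nat_lit 85) (nat_lit 5) (nat_lit 89) (nat_lit 5) (nat_lit 86) (nat_lit 5) (nat_lit 421) (nat_lit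 348) (nat_lit 251)) (XT.nd (nat_lit 78) (nat_lit 76) (nat_lit 0) (XT.lf (nat_lit 0) (nat_lit 3761781252) (nat_lit 152) (nat_lit 10891662436) (nat_lit 228) (nat_lit 4626000436) (nat_lit 83) (nat_lit 5) (nat_lit 85) (nat_lit 5) (nat_lit 86) (nat_lit 5) (nat_lit 422) (nat_lit 348) (nat_lit 250)) (XT.lf (nat_lit 0) (nat_lit 59558656) (nat_lit 228) (nat_lit 4615479558) (nat_lit 76) (nat_lit 14984167334) (nat_lit 82) (nat_lit 5) (nat_lit 85) (nat_lit 5) (nat_lit 83) (nat_lit 5) (nat_lit 423) (nat_lit 348) (nat_lit 249)))) (XT.nd (nat_lit 156) (nat_lit 380) (nat_lit 0) (XT.nd (nat_lit 78) (nat_lit 0) (nat_lit 0) (XT.lf (nat_lit 0) (nat_lit 4855192541) (nat_lit 304) (nat_lit 13399305357) (nat_lit 76) (nat_lit 1792616611) (nat_lit 79) (nat_lit 5) (nat_lit 83) (nat_lit 5) (nat_lit 80) (nat_lit 5) (nat_lit 424) (nat_lit 348) (nat_lit 248)) (XT.lf (nat_lit 0) (nat_lit 9869014593) (nat_lit 304) (nat_lit 2180665860) (nat_lit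 76) (nat_lit 8394753949) (nat_lit 79) (nat_lit 5) (nat_lit 83) (nat_lit 5) (nat_lit 80) (nat_lit 5) (nat_lit 425) (nat_lit 348) (nat_lit 247))) (XT.nd (nat_lit 78) (nat_lit 228) (nat_lit 0) (XT.lf (nat_lit 0) (nat_lit 9529157009) (nat_lit 152) (nat_lit 5577211752) (nat_lit 228) (nat_lit 5745114750) (nat_lit 77) (nat_lit 5) (nat_lit 79) (nat_lit 5) (nat_lit 80) (nat_lit 5) (nat_lit 426) (nat_lit 348) (nat_lit 246)) (XT.lf (nat_lit 0) (nat_lit 329181390) (nat_lit 228) (nat_lit 20189171957) (nat_lit 304) (nat_lit 751868504) (nat_lit 74) (nat_lit 5) (nat_lit 77) (nat_lit 5) (nat_lit 78) (nat_lit 5) (nat_lit 427) (nat_lit 348) (nat_lit 245))))) (XT.nd (nat_lit 234) (nat_lit 380) (nat_lit 0) (XT.nd (nat_lit 78) (nat_lit 152) (nat_lit 0) (XT.lf (nat_lit 0) (nat_lit 4457860667) (nat_lit 304) (nat_lit 9265827286) (nat_lit 76) (nat_lit 7971999752) (nat_lit 73) (nat_lit 5) (nat_lit 77) (nat_lit 5) (nat_lit 74) (nat_lit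 5) (nat_lit 428) (nat_lit 348) (nat_lit 244)) (XT.nd (nat_lit 78) (nat_lit 0) (nat_lit 0) (XT.lf (nat_lit 0) (nat_lit 2775777575) (nat_lit 152) (nat_lit 7041896112) (nat_lit 228) (nat_lit 12315756197) (nat_lit 71) (nat_lit 5) (nat_lit 73) (nat_lit 5) (nat_lit 74) (nat_lit 5) (nat_lit 429) (nat_lit 348) (nat_lit 243)) (XT.lf (nat_lit 0) (nat_lit 15338284934) (nat_lit 152) (nat_lit 76010864) (nat_lit 228) (nat_lit 7167730802) (nat_lit 71) (nat_lit 5) (nat_lit 73) (nat_lit 5) (nat_lit 74) (nat_lit 5) (nat_lit 430) (nat_lit 348) (nat_lit 242)))) (XT.nd (nat_lit 156) (nat_lit 152) (nat_lit 0) (XT.nd (nat_lit 78) (nat_lit 76) (nat_lit 0) (XT.lf (nat_lit 0) (nat_lit 5237756369) (nat_lit 152) (nat_lit 16042487612) (nat_lit 228) (nat_lit 1760797047) (nat_lit 69) (nat_lit 5) (nat_lit 71) (nat_lit 5) (nat_lit 72) (nat_lit 5) (nat_lit 431) (nat_lit 348) (nat_lit 241)) (XT.lf (nat_lit 0) (nat_lit 3791540889) (nat_lit 228)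 (nat_lit 5337377320) (nat_lit 76) (nat_lit 14382086596) (nat_lit 68) (nat_lit 5) (nat_lit 71) (nat_lit 5) (nat_lit 69) (nat_lit 5) (nat_lit 432) (nat_lit 348) (nat_lit 240))) (XT.nd (nat_lit 78) (nat_lit 0) (nat_lit 0) (XT.lf (nat_lit 0) (nat_lit 7604484040) (nat_lit 152) (nat_lit 1927058343) (nat_lit 228) (nat_lit 14461310001) (nat_lit 66) (nat_lit 5) (nat_lit 68) (nat_lit 5) (nat_lit 69) (nat_lit 5) (nat_lit 433) (nat_lit 348) (nat_lit 239)) (XT.lf (nat_lit 0) (nat_lit 15534430789) (nat_lit 228) (nat_lit 3525914091) (nat_lit 76) (nat_lit 5426092245) (nat_lit 66) (nat_lit 5) (nat_lit 69) (nat_lit 5) (nat_lit 67) (nat_lit 5) (nat_lit 434) (nat_lit 348) (nat_lit 238))))))) (XT.nd (nat_lit 1092) (nat_lit 1140) (nat_lit 0) (XT.nd (nat_lit 546) (nat_lit 532) (nat_lit 0) (XT.nd (nat_lit 234) (nat_lit 380) (nat_lit 0) (XT.nd (nat_lit 78) (nat_lit 228) (nat_lit 0) (XT.lf (nat_lit 0) (nat_lit 9867661665) (nat_lit 152)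 (nat_lit 11947633993) (nat_lit 228) (nat_lit 3176599325) (nat_lit 64) (nat_lit 5) (nat_lit 66) (nat_lit 5) (nat_lit 67) (nat_lit 5) (nat_lit 435) (nat_lit 348) (nat_lit 237)) (XT.nd (nat_lit 78) (nat_lit 152) (nat_lit 0) (XT.lf (nat_lit 0) (nat_lit 2737929784) (nat_lit 228) (nat_lit 1831395207) (nat_lit 76) (nat_lit 20941795733) (nat_lit 63) (nat_lit 5) (nat_lit 66) (nat_lit 5) (nat_lit 64) (nat_lit 5) (nat_lit 436) (nat_lit 348) (nat_lit 236)) (XT.lf (nat_lit 0) (nat_lit 8896681228) (nat_lit 228) (nat_lit 14036249149) (nat_lit 76) (nat_lit 3108132405) (nat_lit 61) (nat_lit 5) (nat_lit 64) (nat_lit 5) (nat_lit 62) (nat_lit 5) (nat_lit 437) (nat_lit 348) (nat_lit 235)))) (XT.nd (nat_lit 156) (nat_lit 228) (nat_lit 0) (XT.nd (nat_lit 78) (nat_lit 152) (nat_lit 0) (XT.lf (nat_lit 0) (nat_lit 15288652026) (nat_lit 228) (nat_lit 365647817) (nat_lit 76) (nat_lit 10931151573) (nat_lit 61) (nat_lit 5) (nat_lit 64) (nat_lit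 5) (nat_lit 62) (nat_lit 5) (nat_lit 438) (nat_lit 348) (nat_lit 234)) (XT.lf (nat_lit 0) (nat_lit 13960772116) (nat_lit 152) (nat_lit 8030798988) (nat_lit 228) (nat_lit 5151026890) (nat_lit 59) (nat_lit 5) (nat_lit 61) (nat_lit 5) (nat_lit 62) (nat_lit 5) (nat_lit 439) (nat_lit 348) (nat_lit 233))) (XT.nd (nat_lit 78) (nat_lit 0) (nat_lit 0) (XT.lf (nat_lit 0) (nat_lit 989303489) (nat_lit 152) (nat_lit 165068939) (nat_lit 228) (nat_lit 26561800479) (nat_lit 56) (nat_lit 5) (nat_lit 58) (nat_lit 5) (nat_lit 59) (nat_lit 5) (nat_lit 440) (nat_lit 348) (nat_lit 232)) (XT.lf (nat_lit 0) (nat_lit 7741216252) (nat_lit 228) (nat_lit 12602623496) (nat_lit 76) (nat_lit 7955712713) (nat_lit 56) (nat_lit 5) (nat_lit 59) (nat_lit 5) (nat_lit 57) (nat_lit 5) (nat_lit 441) (nat_lit 348) (nat_lit 231))))) (XT.nd (nat_lit 234) (nat_lit 304) (nat_lit 0) (XT.nd (nat_lit 78) (nat_lit 76) (nat_lit 0) (XT.lf (nat_lit 0) (nat_lit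 1955829248) (nat_lit 152) (nat_lit 12575798077) (nat_lit 228) (nat_lit 14368628957) (nat_lit 54) (nat_lit 5) (nat_lit 56) (nat_lit 5) (nat_lit 57) (nat_lit 5) (nat_lit 442) (nat_lit 348) (nat_lit 230)) (XT.nd (nat_lit 78) (nat_lit 76) (nat_lit 0) (XT.lf (nat_lit 0) (nat_lit 17183580925) (nat_lit 152) (nat_lit 4455132133) (nat_lit 228) (nat_lit 7876880982) (nat_lit 54) (nat_lit 5) (nat_lit 56) (nat_lit 5) (nat_lit 57) (nat_lit 5) (nat_lit 443) (nat_lit 348) (nat_lit 229)) (XT.lf (nat_lit 0) (nat_lit 2708696907) (nat_lit 76) (nat_lit 26299939020) (nat_lit 152) (nat_lit 1139268906) (nat_lit 53) (nat_lit 5) (nat_lit 54) (nat_lit 5) (nat_lit 55) (nat_lit 4) (nat_lit 444) (nat_lit 348) (nat_lit 228)))) (XT.nd (nat_lit 156) (nat_lit 76) (nat_lit 0) (XT.nd (nat_lit 78) (nat_lit 152) (nat_lit 0) (XT.lf (nat_lit 0) (nat_lit 5843193214) (nat_lit 152) (nat_lit 12468513942) (nat_lit 76) (nat_lit 12481129316) (nat_lit 52)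 (nat_lit 5) (nat_lit 54) (nat_lit 5) (nat_lit 53) (nat_lit 5) (nat_lit 445) (nat_lit 348) (nat_lit 227)) (XT.lf (nat_lit 0) (nat_lit 2973395624) (nat_lit 152) (nat_lit 10053861612) (nat_lit 228) (nat_lit 18429071143) (nat_lit 50) (nat_lit 5) (nat_lit 52) (nat_lit 5) (nat_lit 53) (nat_lit 5) (nat_lit 446) (nat_lit 348) (nat_lit 226))) (XT.nd (nat_lit 78) (nat_lit 76) (nat_lit 0) (XT.lf (nat_lit 0) (nat_lit 19109749422) (nat_lit 152) (nat_lit 1429605649) (nat_lit 228) (nat_lit 11596996073) (nat_lit 50) (nat_lit 5) (nat_lit 52) (nat_lit 5) (nat_lit 53) (nat_lit 5) (nat_lit 447) (nat_lit 348) (nat_lit 225)) (XT.lf (nat_lit 0) (nat_lit 2853470947) (nat_lit 76) (nat_lit 25509312397) (nat_lit 152) (nat_lit 4471413638) (nat_lit 49) (nat_lit 5) (nat_lit 50) (nat_lit 5) (nat_lit 51) (nat_lit 4) (nat_lit 448) (nat_lit 348) (nat_lit 224)))))) (XT.nd (nat_lit 546) (nat_lit 608) (nat_lit 0) (XT.nd (nat_lit 234) (nat_lit 304)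 (nat_lit 0) (XT.nd (nat_lit 78) (nat_lit 152) (nat_lit 0) (XT.lf (nat_lit 0) (nat_lit 2945888219) (nat_lit 152) (nat_lit 14139088785) (nat_lit 76) (nat_lit 16463158003) (nat_lit 48) (nat_lit 5) (nat_lit 50) (nat_lit 5) (nat_lit 49) (nat_lit 5) (nat_lit 449) (nat_lit 348) (nat_lit 223)) (XT.nd (nat_lit 78) (nat_lit 0) (nat_lit 0) (XT.lf (nat_lit 0) (nat_lit 2152212938) (nat_lit 152) (nat_lit 8351610356) (nat_lit 228) (nat_lit 23778101477) (nat_lit 46) (nat_lit 5) (nat_lit 48) (nat_lit 5) (nat_lit 49) (nat_lit 5) (nat_lit 450) (nat_lit 348) (nat_lit 222)) (XT.lf (nat_lit 0) (nat_lit 18426219005) (nat_lit 228) (nat_lit 15842314399) (nat_lit 76) (nat_lit 765064403) (nat_lit 46) (nat_lit 5) (nat_lit 49) (nat_lit 5) (nat_lit 47) (nat_lit 4) (nat_lit 451) (nat_lit 348) (nat_lit 221)))) (XT.nd (nat_lit 156) (nat_lit 228) (nat_lit 0) (XT.nd (nat_lit 78) (nat_lit 0) (nat_lit 0) (XT.lf (nat_lit 0) (nat_lit 844822804) (nat_lit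 76) (nat_lit 25819986265) (nat_lit 152) (nat_lit 9140657512) (nat_lit 45) (nat_lit 5) (nat_lit 46) (nat_lit 5) (nat_lit 47) (nat_lit 4) (nat_lit 452) (nat_lit 348) (nat_lit 220)) (XT.lf (nat_lit 0) (nat_lit 18334869899) (nat_lit 76) (nat_lit 16963517598) (nat_lit 152) (nat_lit 1297670186) (nat_lit 45) (nat_lit 5) (nat_lit 46) (nat_lit 5) (nat_lit 47) (nat_lit 4) (nat_lit 453) (nat_lit 348) (nat_lit 219))) (XT.nd (nat_lit 78) (nat_lit 152) (nat_lit 0) (XT.lf (nat_lit 0) (nat_lit 6636382924) (nat_lit 152) (nat_lit 1147967675) (nat_lit 76) (nat_lit 29624418950) (nat_lit 44) (nat_lit 5) (nat_lit 46) (nat_lit 5) (nat_lit 45) (nat_lit 5) (nat_lit 454) (nat_lit 348) (nat_lit 218)) (XT.lf (nat_lit 0) (nat_lit 14949716289) (nat_lit 228) (nat_lit 21486994111) (nat_lit 76) (nat_lit 1803747792) (nat_lit 42) (nat_lit 5) (nat_lit 45) (nat_lit 5) (nat_lit 43) (nat_lit 4) (nat_lit 455) (nat_lit 348) (nat_lit 217))))) (XT.nd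 (nat_lit 312) (nat_lit 304) (nat_lit 0) (XT.nd (nat_lit 156) (nat_lit 228) (nat_lit 0) (XT.nd (nat_lit 78) (nat_lit 76) (nat_lit 0) (XT.lf (nat_lit 0) (nat_lit 23589705843) (nat_lit 228) (nat_lit 3979904903) (nat_lit 76) (nat_lit 11525170115) (nat_lit 42) (nat_lit 5) (nat_lit 45) (nat_lit 5) (nat_lit 43) (nat_lit 4) (nat_lit 456) (nat_lit 348) (nat_lit 216)) (XT.lf (nat_lit 0) (nat_lit 14310838789) (nat_lit 76) (nat_lit 18304432883) (nat_lit 152) (nat_lit 7355671264) (nat_lit 41) (nat_lit 5) (nat_lit 42) (nat_lit 5) (nat_lit 43) (nat_lit 4) (nat_lit 457) (nat_lit 348) (nat_lit 215))) (XT.nd (nat_lit 78) (nat_lit 152) (nat_lit 0) (XT.lf (nat_lit 0) (nat_lit 1047371761) (nat_lit 152) (nat_lit 7671506543) (nat_lit 76) (nat_lit 32153330639) (nat_lit 40) (nat_lit 5) (nat_lit 42) (nat_lit 5) (nat_lit 41) (nat_lit 5) (nat_lit 458) (nat_lit 348) (nat_lit 214)) (XT.lf (nat_lit 0) (nat_lit 9662116455) (nat_lit 228) (nat_lit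 30830347031) (nat_lit 76) (nat_lit 1302641966) (nat_lit 38) (nat_lit 5) (nat_lit 41) (nat_lit 5) (nat_lit 39) (nat_lit 4) (nat_lit 459) (nat_lit 348) (nat_lit 213)))) (XT.nd (nat_lit 156) (nat_lit 228) (nat_lit 0) (XT.nd (nat_lit 78) (nat_lit 76) (nat_lit 0) (XT.lf (nat_lit 0) (nat_lit 18689051769) (nat_lit 228) (nat_lit 12533349103) (nat_lit 76) (nat_lit 11518676442) (nat_lit 38) (nat_lit 5) (nat_lit 41) (nat_lit 5) (nat_lit 39) (nat_lit 4) (nat_lit 460) (nat_lit 348) (nat_lit 212)) (XT.lf (nat_lit 0) (nat_lit 6418128268) (nat_lit 76) (nat_lit 21619865321) (nat_lit 152) (nat_lit 15675899673) (nat_lit 37) (nat_lit 5) (nat_lit 38) (nat_lit 5) (nat_lit 39) (nat_lit 4) (nat_lit 461) (nat_lit 348) (nat_lit 211))) (XT.nd (nat_lit 78) (nat_lit 228) (nat_lit 0) (XT.lf (nat_lit 0) (nat_lit 26175592893) (nat_lit 76) (nat_lit 11607994980) (nat_lit 152) (nat_lit 6928821145) (nat_lit 37) (nat_lit 5) (nat_lit 38) (nat_lit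 5) (nat_lit 39) (nat_lit 4) (nat_lit 462) (nat_lit 348) (nat_lit 210)) (XT.lf (nat_lit 0) (nat_lit 760628703) (nat_lit 152) (nat_lit 1276574957) (nat_lit 228) (nat_lit 43703163315) (nat_lit 34) (nat_lit 5) (nat_lit 36) (nat_lit 5) (nat_lit 37) (nat_lit 5) (nat_lit 463) (nat_lit 348) (nat_lit 209))))))))
noncomputable def xc123 : XT := (XT.nd (nat_lit 44382) (nat_lit 0) (nat_lit 14212) (XT.nd (nat_lit 1092) (nat_lit 456) (nat_lit 0) (XT.nd (nat_lit 546) (nat_lit 304) (nat_lit 0) (XT.nd (nat_lit 234) (nat_lit 152) (nat_lit 0) (XT.nd (nat_lit 78) (nat_lit 76) (nat_lit 0) (XT.lf (nat_lit 0) (nat_lit 11401858551) (nat_lit 228) (nat_lit 25956184718) (nat_lit 76) (nat_lit 9430995766) (nat_lit 34) (nat_lit 5) (nat_lit 37) (nat_lit 5) (nat_lit 35) (nat_lit 4) (nat_lit 464) (nat_lit 348) (nat_lit 208)) (XT.nd (nat_lit 78) (nat_lit 76) (nat_lit 0) (XT.lf (nat_lit 0) (nat_lit 21050240889) (nat_lit 228) (nat_lit 6393150773)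 (nat_lit 76) (nat_lit 20425696722) (nat_lit 34) (nat_lit 5) (nat_lit 37) (nat_lit 5) (nat_lit 35) (nat_lit 4) (nat_lit 465) (nat_lit 348) (nat_lit 207)) (XT.lf (nat_lit 0) (nat_lit 14012156333) (nat_lit 76) (nat_lit 17101047165) (nat_lit 152) (nat_lit 17864582589) (nat_lit 33) (nat_lit 5) (nat_lit 34) (nat_lit 5) (nat_lit 35) (nat_lit 4) (nat_lit 466) (nat_lit 348) (nat_lit 206)))) (XT.nd (nat_lit 156) (nat_lit 0) (nat_lit 0) (XT.nd (nat_lit 78) (nat_lit 152) (nat_lit 0) (XT.lf (nat_lit 0) (nat_lit 35142807396) (nat_lit 76) (nat_lit 6390348077) (nat_lit 152) (nat_lit 8584936950) (nat_lit 33) (nat_lit 5) (nat_lit 34) (nat_lit 5) (nat_lit 35) (nat_lit 4) (nat_lit 467) (nat_lit 348) (nat_lit 205)) (XT.lf (nat_lit 0) (nat_lit 1044792864) (nat_lit 152) (nat_lit 45637044480) (nat_lit 76) (nat_lit 4607770159) (nat_lit 31) (nat_lit 5) (nat_lit 33) (nat_lit 5) (nat_lit 32) (nat_lit 4) (nat_lit 468) (nat_lit 348) (nat_lit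 204))) (XT.nd (nat_lit 78) (nat_lit 0) (nat_lit 0) (XT.lf (nat_lit 0) (nat_lit 10997605430) (nat_lit 152) (nat_lit 25452832140) (nat_lit 76) (nat_lit 16037078950) (nat_lit 31) (nat_lit 5) (nat_lit 33) (nat_lit 5) (nat_lit 32) (nat_lit 4) (nat_lit 469) (nat_lit 348) (nat_lit 203)) (XT.lf (nat_lit 0) (nat_lit 21240022339) (nat_lit 152) (nat_lit 4680140544) (nat_lit 76) (nat_lit 27801469965) (nat_lit 31) (nat_lit 5) (nat_lit 33) (nat_lit 5) (nat_lit 32) (nat_lit 4) (nat_lit 470) (nat_lit 348) (nat_lit 202))))) (XT.nd (nat_lit 234) (nat_lit 152) (nat_lit 0) (XT.nd (nat_lit 78) (nat_lit 76) (nat_lit 0) (XT.lf (nat_lit 0) (nat_lit 17031527653) (nat_lit 76) (nat_lit 14913183083) (nat_lit 152) (nat_lit 23043412577) (nat_lit 30) (nat_lit 5) (nat_lit 31) (nat_lit 5) (nat_lit 32) (nat_lit 4) (nat_lit 471) (nat_lit 348) (nat_lit 201)) (XT.nd (nat_lit 78) (nat_lit 76) (nat_lit 0) (XT.lf (nat_lit 0) (nat_lit 39474095855)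 (nat_lit 76) (nat_lit 3535082096) (nat_lit 152) (nat_lit 13282271998) (nat_lit 30) (nat_lit 5) (nat_lit 31) (nat_lit 5) (nat_lit 32) (nat_lit 4) (nat_lit 472) (nat_lit 348) (nat_lit 200)) (XT.lf (nat_lit 0) (nat_lit 4958050817) (nat_lit 76) (nat_lit 49565417846) (nat_lit 76) (nat_lit 3106871619) (nat_lit 29) (nat_lit 4) (nat_lit 30) (nat_lit 5) (nat_lit 30) (nat_lit 4) (nat_lit 473) (nat_lit 348) (nat_lit 199)))) (XT.nd (nat_lit 156) (nat_lit 76) (nat_lit 0) (XT.nd (nat_lit 78) (nat_lit 0) (nat_lit 0) (XT.lf (nat_lit 0) (nat_lit 7427972183) (nat_lit 152) (nat_lit 31396510009) (nat_lit 76) (nat_lit 20176847123) (nat_lit 28) (nat_lit 5) (nat_lit 30) (nat_lit 5) (nat_lit 29) (nat_lit 4) (nat_lit 474) (nat_lit 348) (nat_lit 198)) (XT.lf (nat_lit 0) (nat_lit 18208228013) (nat_lit 152) (nat_lit 9528850204) (nat_lit 76) (nat_lit 32675693149) (nat_lit 28) (nat_lit 5) (nat_lit 30) (nat_lit 5) (nat_lit 29) (nat_lit 4)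 (nat_lit 475) (nat_lit 348) (nat_lit 197))) (XT.nd (nat_lit 78) (nat_lit 0) (nat_lit 0) (XT.lf (nat_lit 0) (nat_lit 13237983499) (nat_lit 76) (nat_lit 16193209860) (nat_lit 152) (nat_lit 32431784781) (nat_lit 27) (nat_lit 5) (nat_lit 28) (nat_lit 5) (nat_lit 29) (nat_lit 4) (nat_lit 476) (nat_lit 348) (nat_lit 196)) (XT.lf (nat_lit 0) (nat_lit 36868126460) (nat_lit 76) (nat_lit 4211081248) (nat_lit 152) (nat_lit 22274833113) (nat_lit 27) (nat_lit 5) (nat_lit 28) (nat_lit 5) (nat_lit 29) (nat_lit 4) (nat_lit 477) (nat_lit 348) (nat_lit 195)))))) (XT.nd (nat_lit 546) (nat_lit 152) (nat_lit 0) (XT.nd (nat_lit 234) (nat_lit 152) (nat_lit 0) (XT.nd (nat_lit 78) (nat_lit 152) (nat_lit 0) (XT.lf (nat_lit 0) (nat_lit 53147117411) (nat_lit 152) (nat_lit 3775569886) (nat_lit 0) (nat_lit 7965034925) (nat_lit 27) (nat_lit 5) (nat_lit 29) (nat_lit 4) (nat_lit 27) (nat_lit 4) (nat_lit 478) (nat_lit 348) (nat_lit 194)) (XT.nd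 (nat_lit 78) (nat_lit 76) (nat_lit 0) (XT.lf (nat_lit 0) (nat_lit 19949351680) (nat_lit 76) (nat_lit 45853695734) (nat_lit 76) (nat_lit 657587635) (nat_lit 26) (nat_lit 4) (nat_lit 27) (nat_lit 5) (nat_lit 27) (nat_lit 4) (nat_lit 479) (nat_lit 348) (nat_lit 193)) (XT.lf (nat_lit 0) (nat_lit 10579029142) (nat_lit 152) (nat_lit 23734296038) (nat_lit 76) (nat_lit 33763377130) (nat_lit 25) (nat_lit 5) (nat_lit 27) (nat_lit 5) (nat_lit 26) (nat_lit 4) (nat_lit 480) (nat_lit 348) (nat_lit 192)))) (XT.nd (nat_lit 156) (nat_lit 76) (nat_lit 0) (XT.nd (nat_lit 78) (nat_lit 76) (nat_lit 0) (XT.lf (nat_lit 0) (nat_lit 22132276611) (nat_lit 152) (nat_lit 294424162) (nat_lit 76) (nat_lit 47314573456) (nat_lit 25) (nat_lit 5) (nat_lit 27) (nat_lit 5) (nat_lit 26) (nat_lit 4) (nat_lit 481) (nat_lit 348) (nat_lit 191)) (XT.lf (nat_lit 0) (nat_lit 24309500752) (nat_lit 76) (nat_lit 9949258784) (nat_lit 152) (nat_lit 37190225050)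 (nat_lit 24) (nat_lit 5) (nat_lit 25) (nat_lit 5) (nat_lit 26) (nat_lit 4) (nat_lit 482) (nat_lit 348) (nat_lit 190))) (XT.nd (nat_lit 78) (nat_lit 76) (nat_lit 0) (XT.lf (nat_lit 0) (nat_lit 46772915208) (nat_lit 152) (nat_lit 23591712597) (nat_lit 0) (nat_lit 2842582508) (nat_lit 24) (nat_lit 5) (nat_lit 26) (nat_lit 4) (nat_lit 24) (nat_lit 4) (nat_lit 483) (nat_lit 348) (nat_lit 189)) (XT.lf (nat_lit 0) (nat_lit 561816993) (nat_lit 76) (nat_lit 59197766258) (nat_lit 76) (nat_lit 15255687328) (nat_lit 23) (nat_lit 4) (nat_lit 24) (nat_lit 5) (nat_lit 24) (nat_lit 4) (nat_lit 484) (nat_lit 348) (nat_lit 188))))) (XT.nd (nat_lit 234) (nat_lit 76) (nat_lit 0) (XT.nd (nat_lit 78) (nat_lit 76) (nat_lit 0) (XT.lf (nat_lit 0) (nat_lit 25910557837) (nat_lit 76) (nat_lit 47456776869) (nat_lit 76) (nat_lit 3503293832) (nat_lit 23) (nat_lit 4) (nat_lit 24) (nat_lit 5) (nat_lit 24) (nat_lit 4) (nat_lit 485) (nat_lit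 348) (nat_lit 187)) (XT.nd (nat_lit 78) (nat_lit 0) (nat_lit 0) (XT.lf (nat_lit 0) (nat_lit 8427206491) (nat_lit 152) (nat_lit 26857325807) (nat_lit 76) (nat_lit 43494833226) (nat_lit 22) (nat_lit 5) (nat_lit 24) (nat_lit 5) (nat_lit 23) (nat_lit 4) (nat_lit 486) (nat_lit 348) (nat_lit 186)) (XT.lf (nat_lit 0) (nat_lit 20638786383) (nat_lit 152) (nat_lit 2078568090) (nat_lit 76) (nat_lit 58027162599) (nat_lit 22) (nat_lit 5) (nat_lit 24) (nat_lit 5) (nat_lit 23) (nat_lit 4) (nat_lit 487) (nat_lit 348) (nat_lit 185)))) (XT.nd (nat_lit 42354) (nat_lit 0) (nat_lit 25004) (XT.nd (nat_lit 42276) (nat_lit 0) (nat_lit 25004) (XT.lf (nat_lit 0) (nat_lit 23897862979) (nat_lit 76) (nat_lit 9542335937) (nat_lit 152) (nat_lit 49321720034) (nat_lit 21) (nat_lit 5) (nat_lit 22) (nat_lit 5) (nat_lit 23) (nat_lit 4) (nat_lit 488) (nat_lit 348) (nat_lit 184)) (XT.lf (nat_lit 0) (nat_lit 214463036) (nat_lit 684) (nat_lit 1589795434)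 (nat_lit 684) (nat_lit 1589795434) (nat_lit 350) (nat_lit 3) (nat_lit 359) (nat_lit 3) (nat_lit 359) (nat_lit 5) (nat_lit 349) (nat_lit 349) (nat_lit 322))) (XT.nd (nat_lit 78) (nat_lit 0) (nat_lit 0) (XT.lf (nat_lit 76) (nat_lit 118177510) (nat_lit 0) (nat_lit 2340003000) (nat_lit 684) (nat_lit 4369842334) (nat_lit 351) (nat_lit 5) (nat_lit 350) (nat_lit 3) (nat_lit 359) (nat_lit 5) (nat_lit 350) (nat_lit 349) (nat_lit 321)) (XT.lf (nat_lit 76) (nat_lit 3538590566) (nat_lit 0) (nat_lit 962530347) (nat_lit 684) (nat_lit 2369477855) (nat_lit 351) (nat_lit 5) (nat_lit 350) (nat_lit 3) (nat_lit 359) (nat_lit 5) (nat_lit 351) (nat_lit 349) (nat_lit 320))))))) (XT.nd (nat_lit 1092) (nat_lit 7904) (nat_lit 0) (XT.nd (nat_lit 546) (nat_lit 1596) (nat_lit 0) (XT.nd (nat_lit 234) (nat_lit 684) (nat_lit 0) (XT.nd (nat_lit 78) (nat_lit 684) (nat_lit 0) (XT.lf (nat_lit 76) (nat_lit 101796381) (nat_lit 0) (nat_lit 6432281056)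 (nat_lit 684) (nat_lit 382558998) (nat_lit 352) (nat_lit 5) (nat_lit 351) (nat_lit 5) (nat_lit 360) (nat_lit 5) (nat_lit 352) (nat_lit 349) (nat_lit 319)) (XT.nd (nat_lit 78) (nat_lit 0) (nat_lit 0) (XT.lf (nat_lit 0) (nat_lit 1599409123) (nat_lit 684) (nat_lit 3326081139) (nat_lit 760) (nat_lit 2039091408) (nat_lit 342) (nat_lit 5) (nat_lit 351) (nat_lit 5) (nat_lit 352) (nat_lit 5) (nat_lit 353) (nat_lit 349) (nat_lit 318)) (XT.lf (nat_lit 76) (nat_lit 225135251) (nat_lit 0) (nat_lit 3336779815) (nat_lit 760) (nat_lit 3454115902) (nat_lit 343) (nat_lit 5) (nat_lit 342) (nat_lit 5) (nat_lit 352) (nat_lit 5) (nat_lit 354) (nat_lit 349) (nat_lit 317)))) (XT.nd (nat_lit 156) (nat_lit 0) (nat_lit 0) (XT.nd (nat_lit 78) (nat_lit 684) (nat_lit 0) (XT.lf (nat_lit 76) (nat_lit 3908678471) (nat_lit 0) (nat_lit 1636538579) (nat_lit 760) (nat_lit 1524990207) (nat_lit 343) (nat_lit 5) (nat_lit 342) (nat_lit 5) (nat_lit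 352) (nat_lit 5) (nat_lit 355) (nat_lit 349) (nat_lit 316)) (XT.lf (nat_lit 0) (nat_lit 389344474) (nat_lit 760) (nat_lit 6589106841) (nat_lit 836) (nat_lit 149372542) (nat_lit 333) (nat_lit 5) (nat_lit 343) (nat_lit 5) (nat_lit 344) (nat_lit 5) (nat_lit 356) (nat_lit 349) (nat_lit 315))) (XT.nd (nat_lit 78) (nat_lit 0) (nat_lit 0) (XT.lf (nat_lit 0) (nat_lit 2310493310) (nat_lit 760) (nat_lit 2847580114) (nat_lit 836) (nat_lit 2029279164) (nat_lit 333) (nat_lit 5) (nat_lit 343) (nat_lit 5) (nat_lit 344) (nat_lit 5) (nat_lit 357) (nat_lit 349) (nat_lit 314)) (XT.lf (nat_lit 76) (nat_lit 982125181) (nat_lit 0) (nat_lit 3250174957) (nat_lit 836) (nat_lit 3018112886) (nat_lit 334) (nat_lit 5) (nat_lit 333) (nat_lit 5) (nat_lit 344) (nat_lit 5) (nat_lit 358) (nat_lit 349) (nat_lit 313))))) (XT.nd (nat_lit 234) (nat_lit 836) (nat_lit 0) (XT.nd (nat_lit 78) (nat_lit 760) (nat_lit 0) (XT.lf (nat_lit 76) (nat_lit 4942286048)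 (nat_lit 0) (nat_lit 1233335825) (nat_lit 836) (nat_lit 1140863067) (nat_lit 334) (nat_lit 5) (nat_lit 333) (nat_lit 5) (nat_lit 344) (nat_lit 5) (nat_lit 359) (nat_lit 349) (nat_lit 312)) (XT.nd (nat_lit 78) (nat_lit 0) (nat_lit 0) (XT.lf (nat_lit 0) (nat_lit 737667765) (nat_lit 836) (nat_lit 5776529578) (nat_lit 912) (nat_lit 871333558) (nat_lit 323) (nat_lit 5) (nat_lit 334) (nat_lit 5) (nat_lit 335) (nat_lit 5) (nat_lit 360) (nat_lit 349) (nat_lit 311)) (XT.lf (nat_lit 0) (nat_lit 2624022274) (nat_lit 836) (nat_lit 1763837591) (nat_lit 912) (nat_lit 3069250041) (nat_lit 323) (nat_lit 5) (nat_lit 334) (nat_lit 5) (nat_lit 335) (nat_lit 5) (nat_lit 361) (nat_lit 349) (nat_lit 310)))) (XT.nd (nat_lit 156) (nat_lit 836) (nat_lit 0) (XT.nd (nat_lit 78) (nat_lit 0) (nat_lit 76) (XT.lf (nat_lit 76) (nat_lit 2372293558) (nat_lit 0) (nat_lit 2157258957) (nat_lit 912) (nat_lit 3002437742) (nat_lit 324) (nat_lit 5)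 (nat_lit 323) (nat_lit 5) (nat_lit 335) (nat_lit 5) (nat_lit 362) (nat_lit 349) (nat_lit 309)) (XT.lf (nat_lit 0) (nat_lit 6452862616) (nat_lit 836) (nat_lit 986202785) (nat_lit 76) (nat_lit 171263810) (nat_lit 324) (nat_lit 5) (nat_lit 335) (nat_lit 5) (nat_lit 325) (nat_lit 5) (nat_lit 363) (nat_lit 349) (nat_lit 308))) (XT.nd (nat_lit 78) (nat_lit 0) (nat_lit 0) (XT.lf (nat_lit 0) (nat_lit 724478427) (nat_lit 912) (nat_lit 4385950376) (nat_lit 76) (nat_lit 2580520547) (nat_lit 312) (nat_lit 5) (nat_lit 324) (nat_lit 5) (nat_lit 313) (nat_lit 5) (nat_lit 364) (nat_lit 349) (nat_lit 307)) (XT.lf (nat_lit 0) (nat_lit 2593330042) (nat_lit 912) (nat_lit 84275713) (nat_lit 76) (nat_lit 5097455182) (nat_lit 312) (nat_lit 5) (nat_lit 324) (nat_lit 5) (nat_lit 313) (nat_lit 5) (nat_lit 365) (nat_lit 349) (nat_lit 306)))))) (XT.nd (nat_lit 546) (nat_lit 2508) (nat_lit 0) (XT.nd (nat_lit 234) (nat_lit 3420) (nat_lit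 0) (XT.nd (nat_lit 78) (nat_lit 1064) (nat_lit 0) (XT.lf (nat_lit 0) (nat_lit 4389204501) (nat_lit 912) (nat_lit 116530401) (nat_lit 988) (nat_lit 3356363536) (nat_lit 300) (nat_lit 5) (nat_lit 312) (nat_lit 5) (nat_lit 313) (nat_lit 5) (nat_lit 366) (nat_lit 349) (nat_lit 305)) (XT.nd (nat_lit 78) (nat_lit 76) (nat_lit 0) (XT.lf (nat_lit 0) (nat_lit 997911049) (nat_lit 988) (nat_lit 5458877054) (nat_lit 1064) (nat_lit 1495547080) (nat_lit 287) (nat_lit 5) (nat_lit 300) (nat_lit 5) (nat_lit 301) (nat_lit 5) (nat_lit 367) (nat_lit 349) (nat_lit 304)) (XT.lf (nat_lit 0) (nat_lit 396626568) (nat_lit 1064) (nat_lit 2420598819) (nat_lit 76) (nat_lit 5228444607) (nat_lit 286) (nat_lit 5) (nat_lit 300) (nat_lit 5) (nat_lit 287) (nat_lit 5) (nat_lit 368) (nat_lit 349) (nat_lit 303)))) (XT.nd (nat_lit 156) (nat_lit 2356) (nat_lit 0) (XT.nd (nat_lit 78) (nat_lit 0) (nat_lit 0) (XT.lf (nat_lit 0) (nat_lit 2234489044) (nat_lit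 1064) (nat_lit 51214458) (nat_lit 1140) (nat_lit 5856575376) (nat_lit 272) (nat_lit 5) (nat_lit 286) (nat_lit 5) (nat_lit 287) (nat_lit 5) (nat_lit 369) (nat_lit 349) (nat_lit 302)) (XT.lf (nat_lit 0) (nat_lit 4232897047) (nat_lit 1140) (nat_lit 1234057674) (nat_lit 76) (nat_lit 2774811437) (nat_lit 272) (nat_lit 5) (nat_lit 287) (nat_lit 5) (nat_lit 273) (nat_lit 5) (nat_lit 370) (nat_lit 349) (nat_lit 301))) (XT.nd (nat_lit 78) (nat_lit 1216) (nat_lit 0) (XT.lf (nat_lit 0) (nat_lit 3606336024) (nat_lit 1140) (nat_lit 2618669045) (nat_lit 1216) (nat_lit 2119660806) (nat_lit 257) (nat_lit 5) (nat_lit 272) (nat_lit 5) (nat_lit 273) (nat_lit 5) (nat_lit 371) (nat_lit 349) (nat_lit 300)) (XT.lf (nat_lit 0) (nat_lit 121694976) (nat_lit 1216) (nat_lit 8124339440) (nat_lit 1292) (nat_lit 205565537) (nat_lit 241) (nat_lit 5) (nat_lit 257) (nat_lit 5) (nat_lit 258) (nat_lit 5) (nat_lit 372) (nat_lit 349) (nat_lit 299)))))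 (XT.nd (nat_lit 312) (nat_lit 1216) (nat_lit 0) (XT.nd (nat_lit 156) (nat_lit 608) (nat_lit 0) (XT.nd (nat_lit 78) (nat_lit 608) (nat_lit 0) (XT.lf (nat_lit 0) (nat_lit 1758596875) (nat_lit 1292) (nat_lit 3424042009) (nat_lit 76) (nat_lit 3377801621) (nat_lit 240) (nat_lit 5) (nat_lit 257) (nat_lit 5) (nat_lit 241) (nat_lit 5) (nat_lit 373) (nat_lit 349) (nat_lit 298)) (XT.lf (nat_lit 0) (nat_lit 1614772069) (nat_lit 608) (nat_lit 2132531133) (nat_lit 684) (nat_lit 4926109728) (nat_lit 232) (nat_lit 5) (nat_lit 240) (nat_lit 5) (nat_lit 241) (nat_lit 5) (nat_lit 374) (nat_lit 349) (nat_lit 297))) (XT.nd (nat_lit 78) (nat_lit 608) (nat_lit 0) (XT.lf (nat_lit 0) (nat_lit 5795450009) (nat_lit 684) (nat_lit 1968490964) (nat_lit 76) (nat_lit 1025859823) (nat_lit 232) (nat_lit 5) (nat_lit 241) (nat_lit 5) (nat_lit 233) (nat_lit 5) (nat_lit 375) (nat_lit 349) (nat_lit 296)) (XT.lf (nat_lit 0) (nat_lit 3273781494) (nat_lit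 608) (nat_lit 4640310425) (nat_lit 684) (nat_lit 995335934) (nat_lit 224) (nat_lit 5) (nat_lit 232) (nat_lit 5) (nat_lit 233) (nat_lit 5) (nat_lit 376) (nat_lit 349) (nat_lit 295)))) (XT.nd (nat_lit 156) (nat_lit 532) (nat_lit 0) (XT.nd (nat_lit 78) (nat_lit 608) (nat_lit 0) (XT.lf (nat_lit 0) (nat_lit 1019849996) (nat_lit 684) (nat_lit 372596528) (nat_lit 76) (nat_lit 7640599758) (nat_lit 223) (nat_lit 5) (nat_lit 232) (nat_lit 5) (nat_lit 224) (nat_lit 5) (nat_lit 377) (nat_lit 349) (nat_lit 294)) (XT.lf (nat_lit 0) (nat_lit 3101951865) (nat_lit 684) (nat_lit 4083836608) (nat_lit 76) (nat_lit 1973512632) (nat_lit 215) (nat_lit 5) (nat_lit 224) (nat_lit 5) (nat_lit 216) (nat_lit 5) (nat_lit 378) (nat_lit 349) (nat_lit 293))) (XT.nd (nat_lit 78) (nat_lit 0) (nat_lit 0) (XT.lf (nat_lit 0) (nat_lit 1375034933) (nat_lit 532) (nat_lit 3861227624) (nat_lit 608) (nat_lit 4053405592) (nat_lit 208) (nat_lit 5) (nat_lit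 215) (nat_lit 5) (nat_lit 216) (nat_lit 5) (nat_lit 379) (nat_lit 349) (nat_lit 292)) (XT.lf (nat_lit 0) (nat_lit 7038464629) (nat_lit 532) (nat_lit 397101699) (nat_lit 608) (nat_lit 1988367419) (nat_lit 208) (nat_lit 5) (nat_lit 215) (nat_lit 5) (nat_lit 216) (nat_lit 5) (nat_lit 380) (nat_lit 349) (nat_lit 291))))))))
noncomputable def xc124 : XT := (XT.nd (nat_lit 2184) (nat_lit 3800) (nat_lit 0) (XT.nd (nat_lit 1092) (nat_lit 2964) (nat_lit 0) (XT.nd (nat_lit 546) (nat_lit 2128) (nat_lit 0) (XT.nd (nat_lit 234) (nat_lit 1064) (nat_lit 0) (XT.nd (nat_lit 78) (nat_lit 456) (nat_lit 0) (XT.lf (nat_lit 0) (nat_lit 159212179) (nat_lit 608) (nat_lit 6262451937) (nat_lit 76) (nat_lit 3139839871) (nat_lit 200) (nat_lit 5) (nat_lit 208) (nat_lit 5) (nat_lit 201) (nat_lit 5) (nat_lit 381) (nat_lit 349) (nat_lit 290)) (XT.nd (nat_lit 78) (nat_lit 456) (nat_lit 0) (XT.lf (nat_lit 0) (nat_lit 2320723596) (nat_lit 608)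 (nat_lit 566530931) (nat_lit 76) (nat_lit 6815687204) (nat_lit 200) (nat_lit 5) (nat_lit 208) (nat_lit 5) (nat_lit 201) (nat_lit 5) (nat_lit 382) (nat_lit 349) (nat_lit 289)) (XT.lf (nat_lit 0) (nat_lit 4568681550) (nat_lit 532) (nat_lit 4492956678) (nat_lit 76) (nat_lit 786350961) (nat_lit 194) (nat_lit 5) (nat_lit 201) (nat_lit 5) (nat_lit 195) (nat_lit 5) (nat_lit 383) (nat_lit 349) (nat_lit 288)))) (XT.nd (nat_lit 156) (nat_lit 532) (nat_lit 0) (XT.nd (nat_lit 78) (nat_lit 0) (nat_lit 0) (XT.lf (nat_lit 0) (nat_lit 1425193669) (nat_lit 532) (nat_lit 5469941978) (nat_lit 608) (nat_lit 3101934897) (nat_lit 187) (nat_lit 5) (nat_lit 194) (nat_lit 5) (nat_lit 195) (nat_lit 5) (nat_lit 384) (nat_lit 349) (nat_lit 287)) (XT.lf (nat_lit 0) (nat_lit 7570794102) (nat_lit 532) (nat_lit 1729624967) (nat_lit 608) (nat_lit 849947979) (nat_lit 187) (nat_lit 5) (nat_lit 194) (nat_lit 5) (nat_lit 195) (nat_lit 5) (nat_lit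 385) (nat_lit 349) (nat_lit 286))) (XT.nd (nat_lit 78) (nat_lit 0) (nat_lit 0) (XT.lf (nat_lit 0) (nat_lit 1460787946) (nat_lit 532) (nat_lit 6721640748) (nat_lit 76) (nat_lit 2124826946) (nat_lit 180) (nat_lit 5) (nat_lit 187) (nat_lit 5) (nat_lit 181) (nat_lit 5) (nat_lit 386) (nat_lit 349) (nat_lit 285)) (XT.lf (nat_lit 0) (nat_lit 3832136725) (nat_lit 532) (nat_lit 547512898) (nat_lit 76) (nat_lit 6088710201) (nat_lit 180) (nat_lit 5) (nat_lit 187) (nat_lit 5) (nat_lit 181) (nat_lit 5) (nat_lit 387) (nat_lit 349) (nat_lit 284))))) (XT.nd (nat_lit 234) (nat_lit 1216) (nat_lit 0) (XT.nd (nat_lit 78) (nat_lit 456) (nat_lit 0) (XT.lf (nat_lit 0) (nat_lit 5885637991) (nat_lit 456) (nat_lit 411527779) (nat_lit 532) (nat_lit 4336467413) (nat_lit 174) (nat_lit 5) (nat_lit 180) (nat_lit 5) (nat_lit 181) (nat_lit 5) (nat_lit 388) (nat_lit 349) (nat_lit 283)) (XT.nd (nat_lit 78) (nat_lit 76) (nat_lit 0) (XT.lf (nat_lit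 0) (nat_lit 1675012341) (nat_lit 380) (nat_lit 7184645355) (nat_lit 456) (nat_lit 1943513575) (nat_lit 169) (nat_lit 5) (nat_lit 174) (nat_lit 5) (nat_lit 175) (nat_lit 5) (nat_lit 389) (nat_lit 349) (nat_lit 282)) (XT.lf (nat_lit 0) (nat_lit 530289911) (nat_lit 456) (nat_lit 2639736781) (nat_lit 76) (nat_lit 7807052739) (nat_lit 168) (nat_lit 5) (nat_lit 174) (nat_lit 5) (nat_lit 169) (nat_lit 5) (nat_lit 390) (nat_lit 349) (nat_lit 281)))) (XT.nd (nat_lit 156) (nat_lit 760) (nat_lit 0) (XT.nd (nat_lit 78) (nat_lit 0) (nat_lit 0) (XT.lf (nat_lit 0) (nat_lit 3055777928) (nat_lit 532) (nat_lit 7102475350) (nat_lit 76) (nat_lit 996889162) (nat_lit 162) (nat_lit 5) (nat_lit 169) (nat_lit 5) (nat_lit 163) (nat_lit 5) (nat_lit 391) (nat_lit 349) (nat_lit 280)) (XT.lf (nat_lit 0) (nat_lit 5683515338) (nat_lit 532) (nat_lit 410565666) (nat_lit 76) (nat_lit 5243682355) (nat_lit 162) (nat_lit 5) (nat_lit 169) (nat_lit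 5) (nat_lit 163) (nat_lit 5) (nat_lit 392) (nat_lit 349) (nat_lit 279))) (XT.nd (nat_lit 78) (nat_lit 380) (nat_lit 0) (XT.lf (nat_lit 0) (nat_lit 6570388219) (nat_lit 380) (nat_lit 1851960351) (nat_lit 456) (nat_lit 3102556677) (nat_lit 157) (nat_lit 5) (nat_lit 162) (nat_lit 5) (nat_lit 163) (nat_lit 5) (nat_lit 393) (nat_lit 349) (nat_lit 278)) (XT.lf (nat_lit 0) (nat_lit 2026589106) (nat_lit 380) (nat_lit 9234161384) (nat_lit 456) (nat_lit 456398747) (nat_lit 152) (nat_lit 5) (nat_lit 157) (nat_lit 5) (nat_lit 158) (nat_lit 5) (nat_lit 394) (nat_lit 349) (nat_lit 277)))))) (XT.nd (nat_lit 546) (nat_lit 1368) (nat_lit 0) (XT.nd (nat_lit 234) (nat_lit 1140) (nat_lit 0) (XT.nd (nat_lit 78) (nat_lit 380) (nat_lit 0) (XT.lf (nat_lit 0) (nat_lit 2263461092) (nat_lit 456) (nat_lit 2676195213) (nat_lit 76) (nat_lit 6973701363) (nat_lit 151) (nat_lit 5) (nat_lit 157) (nat_lit 5) (nat_lit 152) (nat_lit 5) (nat_lit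 395) (nat_lit 349) (nat_lit 276)) (XT.nd (nat_lit 78) (nat_lit 0) (nat_lit 0) (XT.lf (nat_lit 0) (nat_lit 4594333098) (nat_lit 380) (nat_lit 476189384) (nat_lit 456) (nat_lit 7044360049) (nat_lit 146) (nat_lit 5) (nat_lit 151) (nat_lit 5) (nat_lit 152) (nat_lit 5) (nat_lit 396) (nat_lit 349) (nat_lit 275)) (XT.lf (nat_lit 0) (nat_lit 7999701944) (nat_lit 456) (nat_lit 263481889) (nat_lit 76) (nat_lit 4058140965) (nat_lit 146) (nat_lit 5) (nat_lit 152) (nat_lit 5) (nat_lit 147) (nat_lit 5) (nat_lit 397) (nat_lit 349) (nat_lit 274)))) (XT.nd (nat_lit 156) (nat_lit 380) (nat_lit 0) (XT.nd (nat_lit 78) (nat_lit 380) (nat_lit 0) (XT.lf (nat_lit 0) (nat_lit 7310604967) (nat_lit 380) (nat_lit 3752984285) (nat_lit 456) (nat_lit 1468974696) (nat_lit 141) (nat_lit 5) (nat_lit 146) (nat_lit 5) (nat_lit 147) (nat_lit 5) (nat_lit 398) (nat_lit 349) (nat_lit 273)) (XT.lf (nat_lit 0) (nat_lit 1446838540) (nat_lit 380) (nat_lit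 10398325688) (nat_lit 76) (nat_lit 904372755) (nat_lit 136) (nat_lit 5) (nat_lit 141) (nat_lit 5) (nat_lit 137) (nat_lit 5) (nat_lit 399) (nat_lit 349) (nat_lit 272))) (XT.nd (nat_lit 78) (nat_lit 380) (nat_lit 0) (XT.lf (nat_lit 0) (nat_lit 4483367588) (nat_lit 380) (nat_lit 2804209436) (nat_lit 76) (nat_lit 5683130725) (nat_lit 136) (nat_lit 5) (nat_lit 141) (nat_lit 5) (nat_lit 137) (nat_lit 5) (nat_lit 400) (nat_lit 349) (nat_lit 271)) (XT.lf (nat_lit 0) (nat_lit 5078807751) (nat_lit 380) (nat_lit 2554165024) (nat_lit 456) (nat_lit 5564889086) (nat_lit 131) (nat_lit 5) (nat_lit 136) (nat_lit 5) (nat_lit 137) (nat_lit 5) (nat_lit 401) (nat_lit 349) (nat_lit 270))))) (XT.nd (nat_lit 234) (nat_lit 684) (nat_lit 0) (XT.nd (nat_lit 78) (nat_lit 684) (nat_lit 0) (XT.lf (nat_lit 0) (nat_lit 10901448220) (nat_lit 456) (nat_lit 236123304) (nat_lit 76) (nat_lit 2293535015) (nat_lit 131) (nat_lit 5) (nat_lit 137) (nat_lit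 5) (nat_lit 132) (nat_lit 5) (nat_lit 402) (nat_lit 349) (nat_lit 269)) (XT.nd (nat_lit 78) (nat_lit 304) (nat_lit 0) (XT.lf (nat_lit 0) (nat_lit 661941622) (nat_lit 380) (nat_lit 5699134381) (nat_lit 76) (nat_lit 7307798843) (nat_lit 126) (nat_lit 5) (nat_lit 131) (nat_lit 5) (nat_lit 127) (nat_lit 5) (nat_lit 403) (nat_lit 349) (nat_lit 268)) (XT.lf (nat_lit 0) (nat_lit 2499232791) (nat_lit 304) (nat_lit 1400027274) (nat_lit 380) (nat_lit 10013747109) (nat_lit 122) (nat_lit 5) (nat_lit 126) (nat_lit 5) (nat_lit 127) (nat_lit 5) (nat_lit 404) (nat_lit 349) (nat_lit 267)))) (XT.nd (nat_lit 156) (nat_lit 380) (nat_lit 0) (XT.nd (nat_lit 78) (nat_lit 304) (nat_lit 0) (XT.lf (nat_lit 0) (nat_lit 7302138334) (nat_lit 380) (nat_lit 3176256390) (nat_lit 76) (nat_lit 3684022122) (nat_lit 122) (nat_lit 5) (nat_lit 127) (nat_lit 5) (nat_lit 123) (nat_lit 5) (nat_lit 405) (nat_lit 349) (nat_lit 266)) (XT.lf (nat_lit 0)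 (nat_lit 5362600311) (nat_lit 304) (nat_lit 5485309988) (nat_lit 380) (nat_lit 3570180678) (nat_lit 118) (nat_lit 5) (nat_lit 122) (nat_lit 5) (nat_lit 123) (nat_lit 5) (nat_lit 406) (nat_lit 349) (nat_lit 265))) (XT.nd (nat_lit 78) (nat_lit 380) (nat_lit 0) (XT.lf (nat_lit 0) (nat_lit 14186522549) (nat_lit 304) (nat_lit 321372446) (nat_lit 380) (nat_lit 173311353) (nat_lit 118) (nat_lit 5) (nat_lit 122) (nat_lit 5) (nat_lit 123) (nat_lit 5) (nat_lit 407) (nat_lit 349) (nat_lit 264)) (XT.lf (nat_lit 0) (nat_lit 3366782268) (nat_lit 380) (nat_lit 6578945686) (nat_lit 76) (nat_lit 5002347782) (nat_lit 113) (nat_lit 5) (nat_lit 118) (nat_lit 5) (nat_lit 114) (nat_lit 5) (nat_lit 408) (nat_lit 349) (nat_lit 263))))))) (XT.nd (nat_lit 1092) (nat_lit 1672) (nat_lit 0) (XT.nd (nat_lit 546) (nat_lit 1064) (nat_lit 0) (XT.nd (nat_lit 234) (nat_lit 532) (nat_lit 0) (XT.nd (nat_lit 78) (nat_lit 304) (nat_lit 0) (XT.lf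 (nat_lit 0) (nat_lit 2290058329) (nat_lit 228) (nat_lit 4726248692) (nat_lit 304) (nat_lit 8206397032) (nat_lit 110) (nat_lit 5) (nat_lit 113) (nat_lit 5) (nat_lit 114) (nat_lit 5) (nat_lit 409) (nat_lit 349) (nat_lit 262)) (XT.nd (nat_lit 78) (nat_lit 304) (nat_lit 0) (XT.lf (nat_lit 0) (nat_lit 10825352861) (nat_lit 304) (nat_lit 3986597762) (nat_lit 76) (nat_lit 692125049) (nat_lit 110) (nat_lit 5) (nat_lit 114) (nat_lit 5) (nat_lit 111) (nat_lit 5) (nat_lit 410) (nat_lit 349) (nat_lit 261)) (XT.lf (nat_lit 0) (nat_lit 5248394121) (nat_lit 304) (nat_lit 9574896713) (nat_lit 380) (nat_lit 968364336) (nat_lit 106) (nat_lit 5) (nat_lit 110) (nat_lit 5) (nat_lit 111) (nat_lit 5) (nat_lit 411) (nat_lit 349) (nat_lit 260)))) (XT.nd (nat_lit 156) (nat_lit 228) (nat_lit 0) (XT.nd (nat_lit 78) (nat_lit 228) (nat_lit 0) (XT.lf (nat_lit 0) (nat_lit 2815756876) (nat_lit 380) (nat_lit 1307491216) (nat_lit 76) (nat_lit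 11963252264) (nat_lit 105) (nat_lit 5) (nat_lit 110) (nat_lit 5) (nat_lit 106) (nat_lit 5) (nat_lit 412) (nat_lit 349) (nat_lit 259)) (XT.lf (nat_lit 0) (nat_lit 6767196069) (nat_lit 304) (nat_lit 8079221656) (nat_lit 76) (nat_lit 1541292713) (nat_lit 102) (nat_lit 5) (nat_lit 106) (nat_lit 5) (nat_lit 103) (nat_lit 5) (nat_lit 413) (nat_lit 349) (nat_lit 258))) (XT.nd (nat_lit 78) (nat_lit 0) (nat_lit 0) (XT.lf (nat_lit 0) (nat_lit 1496086472) (nat_lit 228) (nat_lit 9387956437) (nat_lit 304) (nat_lit 5812512734) (nat_lit 99) (nat_lit 5) (nat_lit 102) (nat_lit 5) (nat_lit 103) (nat_lit 5) (nat_lit 414) (nat_lit 349) (nat_lit 257)) (XT.lf (nat_lit 0) (nat_lit 11490264316) (nat_lit 228) (nat_lit 3694344672) (nat_lit 304) (nat_lit 1828255416) (nat_lit 99) (nat_lit 5) (nat_lit 102) (nat_lit 5) (nat_lit 103) (nat_lit 5) (nat_lit 415) (nat_lit 349) (nat_lit 256))))) (XT.nd (nat_lit 234) (nat_lit 532) (nat_lit 0) (XT.nd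 (nat_lit 78) (nat_lit 228) (nat_lit 0) (XT.lf (nat_lit 0) (nat_lit 2274592973) (nat_lit 304) (nat_lit 12881060805) (nat_lit 76) (nat_lit 2181052775) (nat_lit 95) (nat_lit 5) (nat_lit 99) (nat_lit 5) (nat_lit 96) (nat_lit 5) (nat_lit 416) (nat_lit 349) (nat_lit 255)) (XT.nd (nat_lit 78) (nat_lit 228) (nat_lit 0) (XT.lf (nat_lit 0) (nat_lit 6535892653) (nat_lit 304) (nat_lit 2910988878) (nat_lit 76) (nat_lit 8220680255) (nat_lit 95) (nat_lit 5) (nat_lit 99) (nat_lit 5) (nat_lit 96) (nat_lit 5) (nat_lit 417) (nat_lit 349) (nat_lit 254)) (XT.lf (nat_lit 0) (nat_lit 7471343640) (nat_lit 228) (nat_lit 3505326911) (nat_lit 304) (nat_lit 7030127048) (nat_lit 92) (nat_lit 5) (nat_lit 95) (nat_lit 5) (nat_lit 96) (nat_lit 5) (nat_lit 418) (nat_lit 349) (nat_lit 253)))) (XT.nd (nat_lit 156) (nat_lit 228) (nat_lit 0) (XT.nd (nat_lit 78) (nat_lit 304) (nat_lit 0) (XT.lf (nat_lit 0) (nat_lit 15585467970) (nat_lit 304) (nat_lit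 188729248) (nat_lit 76) (nat_lit 2580973367) (nat_lit 92) (nat_lit 5) (nat_lit 96) (nat_lit 5) (nat_lit 93) (nat_lit 5) (nat_lit 419) (nat_lit 349) (nat_lit 252)) (XT.lf (nat_lit 0) (nat_lit 1705354402) (nat_lit 304) (nat_lit 8118333164) (nat_lit 76) (nat_lit 8886292097) (nat_lit 88) (nat_lit 5) (nat_lit 92) (nat_lit 5) (nat_lit 89) (nat_lit 5) (nat_lit 420) (nat_lit 349) (nat_lit 251))) (XT.nd (nat_lit 78) (nat_lit 0) (nat_lit 0) (XT.lf (nat_lit 0) (nat_lit 2615606747) (nat_lit 228) (nat_lit 3651086248) (nat_lit 304) (nat_lit 12807690036) (nat_lit 85) (nat_lit 5) (nat_lit 88) (nat_lit 5) (nat_lit 89) (nat_lit 5) (nat_lit 421) (nat_lit 349) (nat_lit 250)) (XT.lf (nat_lit 0) (nat_lit 11054451955) (nat_lit 304) (nat_lit 5668168165) (nat_lit 76) (nat_lit 2724414511) (nat_lit 85) (nat_lit 5) (nat_lit 89) (nat_lit 5) (nat_lit 86) (nat_lit 5) (nat_lit 422) (nat_lit 349) (nat_lit 249)))))) (XT.nd (nat_lit 546) (nat_lit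 760) (nat_lit 0) (XT.nd (nat_lit 234) (nat_lit 456) (nat_lit 0) (XT.nd (nat_lit 78) (nat_lit 304) (nat_lit 0) (XT.lf (nat_lit 0) (nat_lit 5485931237) (nat_lit 152) (nat_lit 10570126909) (nat_lit 228) (nat_lit 3772704634) (nat_lit 83) (nat_lit 5) (nat_lit 85) (nat_lit 5) (nat_lit 86) (nat_lit 5) (nat_lit 423) (nat_lit 349) (nat_lit 248)) (XT.nd (nat_lit 78) (nat_lit 228) (nat_lit 0) (XT.lf (nat_lit 0) (nat_lit 1005730700) (nat_lit 228) (nat_lit 3170618920) (nat_lit 76) (nat_lit 16044136210) (nat_lit 82) (nat_lit 5) (nat_lit 85) (nat_lit 5) (nat_lit 83) (nat_lit 5) (nat_lit 424) (nat_lit 349) (nat_lit 247)) (XT.lf (nat_lit 0) (nat_lit 5938910113) (nat_lit 304) (nat_lit 12211476464) (nat_lit 76) (nat_lit 2469839974) (nat_lit 79) (nat_lit 5) (nat_lit 83) (nat_lit 5) (nat_lit 80) (nat_lit 5) (nat_lit 425) (nat_lit 349) (nat_lit 246)))) (XT.nd (nat_lit 156) (nat_lit 304) (nat_lit 0) (XT.nd (nat_lit 78) (nat_lit 152)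 (nat_lit 0) (XT.lf (nat_lit 0) (nat_lit 11075824637) (nat_lit 304) (nat_lit 702582871) (nat_lit 76) (nat_lit 9251882843) (nat_lit 79) (nat_lit 5) (nat_lit 83) (nat_lit 5) (nat_lit 80) (nat_lit 5) (nat_lit 426) (nat_lit 349) (nat_lit 245)) (XT.lf (nat_lit 0) (nat_lit 11343402302) (nat_lit 152) (nat_lit 5115062365) (nat_lit 228) (nat_lit 4991445822) (nat_lit 77) (nat_lit 5) (nat_lit 79) (nat_lit 5) (nat_lit 80) (nat_lit 5) (nat_lit 427) (nat_lit 349) (nat_lit 244))) (XT.nd (nat_lit 78) (nat_lit 0) (nat_lit 0) (XT.lf (nat_lit 0) (nat_lit 143021253) (nat_lit 304) (nat_lit 20009480730) (nat_lit 76) (nat_lit 1728838082) (nat_lit 73) (nat_lit 5) (nat_lit 77) (nat_lit 5) (nat_lit 74) (nat_lit 5) (nat_lit 428) (nat_lit 349) (nat_lit 243)) (XT.lf (nat_lit 0) (nat_lit 5467648915) (nat_lit 304) (nat_lit 8036669382) (nat_lit 76) (nat_lit 8815820845) (nat_lit 73) (nat_lit 5) (nat_lit 77) (nat_lit 5) (nat_lit 74) (nat_lit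 5) (nat_lit 429) (nat_lit 349) (nat_lit 242))))) (XT.nd (nat_lit 312) (nat_lit 380) (nat_lit 0) (XT.nd (nat_lit 156) (nat_lit 228) (nat_lit 0) (XT.nd (nat_lit 78) (nat_lit 0) (nat_lit 0) (XT.lf (nat_lit 0) (nat_lit 4351407814) (nat_lit 152) (nat_lit 6625677870) (nat_lit 228) (nat_lit 11794267031) (nat_lit 71) (nat_lit 5) (nat_lit 73) (nat_lit 5) (nat_lit 74) (nat_lit 5) (nat_lit 430) (nat_lit 349) (nat_lit 241)) (XT.lf (nat_lit 0) (nat_lit 16721519138) (nat_lit 228) (nat_lit 5991946671) (nat_lit 76) (nat_lit 520548034) (nat_lit 71) (nat_lit 5) (nat_lit 74) (nat_lit 5) (nat_lit 72) (nat_lit 5) (nat_lit 431) (nat_lit 349) (nat_lit 240))) (XT.nd (nat_lit 78) (nat_lit 76) (nat_lit 0) (XT.lf (nat_lit 0) (nat_lit 6848848088) (nat_lit 152) (nat_lit 15904699021) (nat_lit 228) (nat_lit 953552333) (nat_lit 69) (nat_lit 5) (nat_lit 71) (nat_lit 5) (nat_lit 72) (nat_lit 5) (nat_lit 432) (nat_lit 349) (nat_lit 239)) (XT.lf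 (nat_lit 0) (nat_lit 4724010988) (nat_lit 228) (nat_lit 4069475009) (nat_lit 76) (nat_lit 15398168523) (nat_lit 68) (nat_lit 5) (nat_lit 71) (nat_lit 5) (nat_lit 69) (nat_lit 5) (nat_lit 433) (nat_lit 349) (nat_lit 238)))) (XT.nd (nat_lit 156) (nat_lit 228) (nat_lit 0) (XT.nd (nat_lit 78) (nat_lit 0) (nat_lit 0) (XT.lf (nat_lit 0) (nat_lit 9246641960) (nat_lit 152) (nat_lit 1379316699) (nat_lit 228) (nat_lit 14062309942) (nat_lit 66) (nat_lit 5) (nat_lit 68) (nat_lit 5) (nat_lit 69) (nat_lit 5) (nat_lit 434) (nat_lit 349) (nat_lit 237)) (XT.lf (nat_lit 0) (nat_lit 16791037454) (nat_lit 228) (nat_lit 2240845101) (nat_lit 76) (nat_lit 6165318572) (nat_lit 66) (nat_lit 5) (nat_lit 69) (nat_lit 5) (nat_lit 67) (nat_lit 5) (nat_lit 435) (nat_lit 349) (nat_lit 236))) (XT.nd (nat_lit 78) (nat_lit 76) (nat_lit 0) (XT.lf (nat_lit 0) (nat_lit 11540902178) (nat_lit 152) (nat_lit 11709638264) (nat_lit 228) (nat_lit 2467579175)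 (nat_lit 64) (nat_lit 5) (nat_lit 66) (nat_lit 5) (nat_lit 67) (nat_lit 5) (nat_lit 436) (nat_lit 349) (nat_lit 235)) (XT.lf (nat_lit 0) (nat_lit 3585721062) (nat_lit 228) (nat_lit 533898926) (nat_lit 76) (nat_lit 22133762354) (nat_lit 63) (nat_lit 5) (nat_lit 66) (nat_lit 5) (nat_lit 64) (nat_lit 5) (nat_lit 437) (nat_lit 349) (nat_lit 234))))))))
noncomputable def xc125 : XT := (XT.nd (nat_lit 2184) (nat_lit 912) (nat_lit 0) (XT.nd (nat_lit 1092) (nat_lit 912) (nat_lit 0) (XT.nd (nat_lit 546) (nat_lit 608) (nat_lit 0) (XT.nd (nat_lit 234) (nat_lit 380) (nat_lit 0) (XT.nd (nat_lit 78) (nat_lit 152) (nat_lit 0) (XT.lf (nat_lit 0) (nat_lit 9925411175) (nat_lit 228) (nat_lit 13100975192) (nat_lit 76) (nat_lit 3772953994) (nat_lit 61) (nat_lit 5) (nat_lit 64) (nat_lit 5) (nat_lit 62) (nat_lit 5) (nat_lit 438) (nat_lit 349) (nat_lit 233)) (XT.nd (nat_lit 78) (nat_lit 0) (nat_lit 0) (XT.lf (nat_lit 0) (nat_lit 958951097)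 (nat_lit 152) (nat_lit 15537218815) (nat_lit 228) (nat_lit 10864282773) (nat_lit 59) (nat_lit 5) (nat_lit 61) (nat_lit 5) (nat_lit 62) (nat_lit 5) (nat_lit 439) (nat_lit 349) (nat_lit 232)) (XT.lf (nat_lit 0) (nat_lit 15683540688) (nat_lit 152) (nat_lit 7698409249) (nat_lit 228) (nat_lit 4552913332) (nat_lit 59) (nat_lit 5) (nat_lit 61) (nat_lit 5) (nat_lit 62) (nat_lit 5) (nat_lit 440) (nat_lit 349) (nat_lit 231)))) (XT.nd (nat_lit 156) (nat_lit 152) (nat_lit 0) (XT.nd (nat_lit 78) (nat_lit 0) (nat_lit 0) (XT.lf (nat_lit 0) (nat_lit 1921929354) (nat_lit 228) (nat_lit 26204832163) (nat_lit 76) (nat_lit 398820471) (nat_lit 56) (nat_lit 5) (nat_lit 59) (nat_lit 5) (nat_lit 57) (nat_lit 5) (nat_lit 441) (nat_lit 349) (nat_lit 230)) (XT.lf (nat_lit 0) (nat_lit 8686617884) (nat_lit 228) (nat_lit 11697004150) (nat_lit 76) (nat_lit 8743436285) (nat_lit 56) (nat_lit 5) (nat_lit 59) (nat_lit 5) (nat_lit 57) (nat_lit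 5) (nat_lit 442) (nat_lit 349) (nat_lit 229))) (XT.nd (nat_lit 78) (nat_lit 0) (nat_lit 0) (XT.lf (nat_lit 0) (nat_lit 3285616900) (nat_lit 152) (nat_lit 12386571302) (nat_lit 228) (nat_lit 14073854144) (nat_lit 54) (nat_lit 5) (nat_lit 56) (nat_lit 5) (nat_lit 57) (nat_lit 5) (nat_lit 443) (nat_lit 349) (nat_lit 228)) (XT.lf (nat_lit 0) (nat_lit 18933178425) (nat_lit 152) (nat_lit 4038785400) (nat_lit 228) (nat_lit 7408494516) (nat_lit 54) (nat_lit 5) (nat_lit 56) (nat_lit 5) (nat_lit 57) (nat_lit 5) (nat_lit 444) (nat_lit 349) (nat_lit 227))))) (XT.nd (nat_lit 234) (nat_lit 304) (nat_lit 0) (XT.nd (nat_lit 78) (nat_lit 228) (nat_lit 0) (XT.lf (nat_lit 0) (nat_lit 4027115378) (nat_lit 76) (nat_lit 26532969339) (nat_lit 152) (nat_lit 471743085) (nat_lit 53) (nat_lit 5) (nat_lit 54) (nat_lit 5) (nat_lit 55) (nat_lit 4) (nat_lit 445) (nat_lit 349) (nat_lit 226)) (XT.nd (nat_lit 78) (nat_lit 152) (nat_lit 0) (XT.lf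 (nat_lit 0) (nat_lit 6686460969) (nat_lit 152) (nat_lit 11628077582) (nat_lit 76) (nat_lit 13381969878) (nat_lit 52) (nat_lit 5) (nat_lit 54) (nat_lit 5) (nat_lit 53) (nat_lit 5) (nat_lit 446) (nat_lit 349) (nat_lit 225)) (XT.lf (nat_lit 0) (nat_lit 4265182488) (nat_lit 152) (nat_lit 9812968912) (nat_lit 228) (nat_lit 18301992714) (nat_lit 50) (nat_lit 5) (nat_lit 52) (nat_lit 5) (nat_lit 53) (nat_lit 5) (nat_lit 447) (nat_lit 349) (nat_lit 224)))) (XT.nd (nat_lit 156) (nat_lit 228) (nat_lit 0) (XT.nd (nat_lit 78) (nat_lit 76) (nat_lit 0) (XT.lf (nat_lit 0) (nat_lit 20850600154) (nat_lit 152) (nat_lit 945786490) (nat_lit 228) (nat_lit 11284759776) (nat_lit 50) (nat_lit 5) (nat_lit 52) (nat_lit 5) (nat_lit 53) (nat_lit 5) (nat_lit 448) (nat_lit 349) (nat_lit 223)) (XT.lf (nat_lit 0) (nat_lit 4109279369) (nat_lit 76) (nat_lit 25742737120) (nat_lit 152) (nat_lit 3947988213) (nat_lit 49) (nat_lit 5) (nat_lit 50)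 (nat_lit 5) (nat_lit 51) (nat_lit 4) (nat_lit 449) (nat_lit 349) (nat_lit 222))) (XT.nd (nat_lit 78) (nat_lit 152) (nat_lit 0) (XT.lf (nat_lit 0) (nat_lit 3660222455) (nat_lit 152) (nat_lit 13414619178) (nat_lit 76) (nat_lit 17460894883) (nat_lit 48) (nat_lit 5) (nat_lit 50) (nat_lit 5) (nat_lit 49) (nat_lit 5) (nat_lit 450) (nat_lit 349) (nat_lit 221)) (XT.lf (nat_lit 0) (nat_lit 3354160398) (nat_lit 152) (nat_lit 8083436613) (nat_lit 228) (nat_lit 23854163778) (nat_lit 46) (nat_lit 5) (nat_lit 48) (nat_lit 5) (nat_lit 49) (nat_lit 5) (nat_lit 451) (nat_lit 349) (nat_lit 220)))))) (XT.nd (nat_lit 546) (nat_lit 532) (nat_lit 0) (XT.nd (nat_lit 234) (nat_lit 304) (nat_lit 0) (XT.nd (nat_lit 78) (nat_lit 76) (nat_lit 0) (XT.lf (nat_lit 0) (nat_lit 19584486441) (nat_lit 228) (nat_lit 15200092060) (nat_lit 76) (nat_lit 1281802664) (nat_lit 46) (nat_lit 5) (nat_lit 49) (nat_lit 5) (nat_lit 47) (nat_lit 4) (nat_lit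 452) (nat_lit 349) (nat_lit 219)) (XT.nd (nat_lit 78) (nat_lit 0) (nat_lit 0) (XT.lf (nat_lit 0) (nat_lit 1976703458) (nat_lit 76) (nat_lit 26086532085) (nat_lit 152) (nat_lit 8798382171) (nat_lit 45) (nat_lit 5) (nat_lit 46) (nat_lit 5) (nat_lit 47) (nat_lit 4) (nat_lit 453) (nat_lit 349) (nat_lit 218)) (XT.lf (nat_lit 0) (nat_lit 19959222762) (nat_lit 76) (nat_lit 16979167041) (nat_lit 152) (nat_lit 738061393) (nat_lit 45) (nat_lit 5) (nat_lit 46) (nat_lit 5) (nat_lit 47) (nat_lit 4) (nat_lit 454) (nat_lit 349) (nat_lit 217)))) (XT.nd (nat_lit 156) (nat_lit 76) (nat_lit 0) (XT.nd (nat_lit 78) (nat_lit 152) (nat_lit 0) (XT.lf (nat_lit 0) (nat_lit 7405240673) (nat_lit 152) (nat_lit 127997519) (nat_lit 76) (nat_lit 30980648013) (nat_lit 44) (nat_lit 5) (nat_lit 46) (nat_lit 5) (nat_lit 45) (nat_lit 5) (nat_lit 455) (nat_lit 349) (nat_lit 216)) (XT.lf (nat_lit 0) (nat_lit 15966037526) (nat_lit 228) (nat_lit 21075206347)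 (nat_lit 76) (nat_lit 2329341285) (nat_lit 42) (nat_lit 5) (nat_lit 45) (nat_lit 5) (nat_lit 43) (nat_lit 4) (nat_lit 456) (nat_lit 349) (nat_lit 215))) (XT.nd (nat_lit 78) (nat_lit 76) (nat_lit 0) (XT.lf (nat_lit 0) (nat_lit 24848688036) (nat_lit 228) (nat_lit 3073673325) (nat_lit 76) (nat_lit 12328673820) (nat_lit 42) (nat_lit 5) (nat_lit 45) (nat_lit 5) (nat_lit 43) (nat_lit 4) (nat_lit 457) (nat_lit 349) (nat_lit 214)) (XT.lf (nat_lit 0) (nat_lit 15755737494) (nat_lit 76) (nat_lit 18382988640) (nat_lit 152) (nat_lit 7014946293) (nat_lit 41) (nat_lit 5) (nat_lit 42) (nat_lit 5) (nat_lit 43) (nat_lit 4) (nat_lit 458) (nat_lit 349) (nat_lit 213))))) (XT.nd (nat_lit 234) (nat_lit 304) (nat_lit 0) (XT.nd (nat_lit 78) (nat_lit 152) (nat_lit 0) (XT.lf (nat_lit 0) (nat_lit 1613200942) (nat_lit 152) (nat_lit 6904976142) (nat_lit 76) (nat_lit 33564119787) (nat_lit 40) (nat_lit 5) (nat_lit 42) (nat_lit 5) (nat_lit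 41) (nat_lit 5) (nat_lit 459) (nat_lit 349) (nat_lit 212)) (XT.nd (nat_lit 78) (nat_lit 0) (nat_lit 0) (XT.lf (nat_lit 0) (nat_lit 10484717523) (nat_lit 228) (nat_lit 30756866633) (nat_lit 76) (nat_lit 1791347574) (nat_lit 38) (nat_lit 5) (nat_lit 41) (nat_lit 5) (nat_lit 39) (nat_lit 4) (nat_lit 460) (nat_lit 349) (nat_lit 211)) (XT.lf (nat_lit 0) (nat_lit 19766944268) (nat_lit 228) (nat_lit 11940038111) (nat_lit 76) (nat_lit 12300767172) (nat_lit 38) (nat_lit 5) (nat_lit 41) (nat_lit 5) (nat_lit 39) (nat_lit 4) (nat_lit 461) (nat_lit 349) (nat_lit 210)))) (XT.nd (nat_lit 156) (nat_lit 228) (nat_lit 0) (XT.nd (nat_lit 78) (nat_lit 0) (nat_lit 0) (XT.lf (nat_lit 0) (nat_lit 7570480527) (nat_lit 76) (nat_lit 21820035394) (nat_lit 152) (nat_lit 15619410475) (nat_lit 37) (nat_lit 5) (nat_lit 38) (nat_lit 5) (nat_lit 39) (nat_lit 4) (nat_lit 462) (nat_lit 349) (nat_lit 209)) (XT.lf (nat_lit 0) (nat_lit 27892713506)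 (nat_lit 76) (nat_lit 11520869891) (nat_lit 152) (nat_lit 6625262295) (nat_lit 37) (nat_lit 5) (nat_lit 38) (nat_lit 5) (nat_lit 39) (nat_lit 4) (nat_lit 463) (nat_lit 349) (nat_lit 208))) (XT.nd (nat_lit 78) (nat_lit 0) (nat_lit 0) (XT.lf (nat_lit 0) (nat_lit 1716085829) (nat_lit 152) (nat_lit 878037642) (nat_lit 228) (nat_lit 44503541794) (nat_lit 34) (nat_lit 5) (nat_lit 36) (nat_lit 5) (nat_lit 37) (nat_lit 5) (nat_lit 464) (nat_lit 349) (nat_lit 207)) (XT.lf (nat_lit 0) (nat_lit 12229353940) (nat_lit 228) (nat_lit 25818994663) (nat_lit 76) (nat_lit 10129760930) (nat_lit 34) (nat_lit 5) (nat_lit 37) (nat_lit 5) (nat_lit 35) (nat_lit 4) (nat_lit 465) (nat_lit 349) (nat_lit 206))))))) (XT.nd (nat_lit 1092) (nat_lit 380) (nat_lit 0) (XT.nd (nat_lit 546) (nat_lit 228) (nat_lit 0) (XT.nd (nat_lit 234) (nat_lit 228) (nat_lit 0) (XT.nd (nat_lit 78) (nat_lit 76) (nat_lit 0) (XT.lf (nat_lit 0) (nat_lit 22153048730)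 (nat_lit 228) (nat_lit 5695745688) (nat_lit 76) (nat_lit 21442191206) (nat_lit 34) (nat_lit 5) (nat_lit 37) (nat_lit 5) (nat_lit 35) (nat_lit 4) (nat_lit 466) (nat_lit 349) (nat_lit 205)) (XT.nd (nat_lit 78) (nat_lit 0) (nat_lit 0) (XT.lf (nat_lit 0) (nat_lit 15313002988) (nat_lit 76) (nat_lit 17199633759) (nat_lit 152) (nat_lit 17920466477) (nat_lit 33) (nat_lit 5) (nat_lit 34) (nat_lit 5) (nat_lit 35) (nat_lit 4) (nat_lit 467) (nat_lit 349) (nat_lit 204)) (XT.lf (nat_lit 0) (nat_lit 37051928477) (nat_lit 76) (nat_lit 6179684907) (nat_lit 152) (nat_lit 8376413612) (nat_lit 33) (nat_lit 5) (nat_lit 34) (nat_lit 5) (nat_lit 35) (nat_lit 4) (nat_lit 468) (nat_lit 349) (nat_lit 203)))) (XT.nd (nat_lit 156) (nat_lit 76) (nat_lit 0) (XT.nd (nat_lit 78) (nat_lit 0) (nat_lit 0) (XT.lf (nat_lit 0) (nat_lit 1531906592) (nat_lit 152) (nat_lit 46140951814) (nat_lit 76) (nat_lit 5141731889) (nat_lit 31) (nat_lit 5) (nat_lit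 33) (nat_lit 5) (nat_lit 32) (nat_lit 4) (nat_lit 469) (nat_lit 349) (nat_lit 202)) (XT.lf (nat_lit 0) (nat_lit 11770028683) (nat_lit 152) (nat_lit 25376413220) (nat_lit 76) (nat_lit 16902393868) (nat_lit 31) (nat_lit 5) (nat_lit 33) (nat_lit 5) (nat_lit 32) (nat_lit 4) (nat_lit 470) (nat_lit 349) (nat_lit 201))) (XT.nd (nat_lit 78) (nat_lit 76) (nat_lit 0) (XT.lf (nat_lit 0) (nat_lit 22306829893) (nat_lit 152) (nat_lit 4005007008) (nat_lit 76) (nat_lit 29008526248) (nat_lit 31) (nat_lit 5) (nat_lit 33) (nat_lit 5) (nat_lit 32) (nat_lit 4) (nat_lit 471) (nat_lit 349) (nat_lit 200)) (XT.lf (nat_lit 0) (nat_lit 18350015767) (nat_lit 76) (nat_lit 14977892945) (nat_lit 152) (nat_lit 23297083012) (nat_lit 30) (nat_lit 5) (nat_lit 31) (nat_lit 5) (nat_lit 32) (nat_lit 4) (nat_lit 472) (nat_lit 349) (nat_lit 199))))) (XT.nd (nat_lit 234) (nat_lit 76) (nat_lit 0) (XT.nd (nat_lit 78) (nat_lit 152) (nat_lit 0) (XT.lf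 (nat_lit 0) (nat_lit 41442340365) (nat_lit 76) (nat_lit 3269595111) (nat_lit 152) (nat_lit 13255854777) (nat_lit 30) (nat_lit 5) (nat_lit 31) (nat_lit 5) (nat_lit 32) (nat_lit 4) (nat_lit 473) (nat_lit 349) (nat_lit 198)) (XT.nd (nat_lit 78) (nat_lit 76) (nat_lit 0) (XT.lf (nat_lit 0) (nat_lit 5891872633) (nat_lit 76) (nat_lit 50678782346) (nat_lit 76) (nat_lit 2776223153) (nat_lit 29) (nat_lit 4) (nat_lit 30) (nat_lit 5) (nat_lit 30) (nat_lit 4) (nat_lit 474) (nat_lit 349) (nat_lit 197)) (XT.lf (nat_lit 0) (nat_lit 8054290654) (nat_lit 152) (nat_lit 31568135114) (nat_lit 76) (nat_lit 21136812757) (nat_lit 28) (nat_lit 5) (nat_lit 30) (nat_lit 5) (nat_lit 29) (nat_lit 4) (nat_lit 475) (nat_lit 349) (nat_lit 196)))) (XT.nd (nat_lit 156) (nat_lit 0) (nat_lit 0) (XT.nd (nat_lit 78) (nat_lit 76) (nat_lit 0) (XT.lf (nat_lit 0) (nat_lit 19146202334) (nat_lit 152) (nat_lit 9066880569) (nat_lit 76) (nat_lit 34000294254)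 (nat_lit 28) (nat_lit 5) (nat_lit 30) (nat_lit 5) (nat_lit 29) (nat_lit 4) (nat_lit 476) (nat_lit 349) (nat_lit 195)) (XT.lf (nat_lit 0) (nat_lit 14375626428) (nat_lit 76) (nat_lit 16325938847) (nat_lit 152) (nat_lit 33005654345) (nat_lit 27) (nat_lit 5) (nat_lit 28) (nat_lit 5) (nat_lit 29) (nat_lit 4) (nat_lit 477) (nat_lit 349) (nat_lit 194))) (XT.nd (nat_lit 78) (nat_lit 0) (nat_lit 0) (XT.lf (nat_lit 0) (nat_lit 38693105617) (nat_lit 76) (nat_lit 3994629890) (nat_lit 152) (nat_lit 22555617932) (nat_lit 27) (nat_lit 5) (nat_lit 28) (nat_lit 5) (nat_lit 29) (nat_lit 4) (nat_lit 478) (nat_lit 349) (nat_lit 193)) (XT.lf (nat_lit 0) (nat_lit 55109925705) (nat_lit 152) (nat_lit 3183061330) (nat_lit 0) (nat_lit 8530291651) (nat_lit 27) (nat_lit 5) (nat_lit 29) (nat_lit 4) (nat_lit 27) (nat_lit 4) (nat_lit 479) (nat_lit 349) (nat_lit 192)))))) (XT.nd (nat_lit 546) (nat_lit 76) (nat_lit 0) (XT.nd (nat_lit 234) (nat_lit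 76) (nat_lit 0) (XT.nd (nat_lit 78) (nat_lit 152) (nat_lit 0) (XT.lf (nat_lit 0) (nat_lit 21246688514) (nat_lit 76) (nat_lit 46894832984) (nat_lit 76) (nat_lit 301978444) (nat_lit 26) (nat_lit 4) (nat_lit 27) (nat_lit 5) (nat_lit 27) (nat_lit 4) (nat_lit 480) (nat_lit 349) (nat_lit 191)) (XT.nd (nat_lit 78) (nat_lit 76) (nat_lit 0) (XT.lf (nat_lit 0) (nat_lit 11253693848) (nat_lit 152) (nat_lit 23760691449) (nat_lit 76) (nat_lit 35093877891) (nat_lit 25) (nat_lit 5) (nat_lit 27) (nat_lit 5) (nat_lit 26) (nat_lit 4) (nat_lit 481) (nat_lit 349) (nat_lit 190)) (XT.lf (nat_lit 0) (nat_lit 369619279) (nat_lit 76) (nat_lit 22777065851) (nat_lit 152) (nat_lit 48676293365) (nat_lit 24) (nat_lit 5) (nat_lit 25) (nat_lit 5) (nat_lit 26) (nat_lit 4) (nat_lit 482) (nat_lit 349) (nat_lit 189)))) (XT.nd (nat_lit 156) (nat_lit 76) (nat_lit 0) (XT.nd (nat_lit 78) (nat_lit 0) (nat_lit 0) (XT.lf (nat_lit 0) (nat_lit 25697923224)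 (nat_lit 76) (nat_lit 9931718833) (nat_lit 152) (nat_lit 37952498324) (nat_lit 24) (nat_lit 5) (nat_lit 25) (nat_lit 5) (nat_lit 26) (nat_lit 4) (nat_lit 483) (nat_lit 349) (nat_lit 188)) (XT.lf (nat_lit 0) (nat_lit 48512177900) (nat_lit 152) (nat_lit 23652460639) (nat_lit 0) (nat_lit 3228686265) (nat_lit 24) (nat_lit 5) (nat_lit 26) (nat_lit 4) (nat_lit 24) (nat_lit 4) (nat_lit 484) (nat_lit 349) (nat_lit 187))) (XT.nd (nat_lit 78) (nat_lit 0) (nat_lit 0) (XT.lf (nat_lit 0) (nat_lit 1219331669) (nat_lit 76) (nat_lit 60665484133) (nat_lit 76) (nat_lit 15370920550) (nat_lit 23) (nat_lit 4) (nat_lit 24) (nat_lit 5) (nat_lit 24) (nat_lit 4) (nat_lit 485) (nat_lit 349) (nat_lit 186)) (XT.lf (nat_lit 0) (nat_lit 27309874733) (nat_lit 76) (nat_lit 48581242202) (nat_lit 76) (nat_lit 3275929154) (nat_lit 23) (nat_lit 4) (nat_lit 24) (nat_lit 5) (nat_lit 24) (nat_lit 4) (nat_lit 486) (nat_lit 349) (nat_lit 185))))) (XT.nd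 (nat_lit 42588) (nat_lit 0) (nat_lit 23560) (XT.nd (nat_lit 42432) (nat_lit 0) (nat_lit 24928) (XT.nd (nat_lit 78) (nat_lit 0) (nat_lit 0) (XT.lf (nat_lit 0) (nat_lit 8996504174) (nat_lit 152) (nat_lit 27052845947) (nat_lit 76) (nat_lit 45083884544) (nat_lit 22) (nat_lit 5) (nat_lit 24) (nat_lit 5) (nat_lit 23) (nat_lit 4) (nat_lit 487) (nat_lit 349) (nat_lit 184)) (XT.lf (nat_lit 0) (nat_lit 21565213556) (nat_lit 152) (nat_lit 1548498302) (nat_lit 76) (nat_lit 60043905944) (nat_lit 22) (nat_lit 5) (nat_lit 24) (nat_lit 5) (nat_lit 23) (nat_lit 4) (nat_lit 488) (nat_lit 349) (nat_lit 183))) (XT.nd (nat_lit 78) (nat_lit 0) (nat_lit 0) (XT.lf (nat_lit 0) (nat_lit 2223147810) (nat_lit 684) (nat_lit 605724982) (nat_lit 684) (nat_lit 605724982) (nat_lit 350) (nat_lit 3) (nat_lit 359) (nat_lit 3) (nat_lit 359) (nat_lit 5) (nat_lit 350) (nat_lit 350) (nat_lit 320)) (XT.lf (nat_lit 76) (nat_lit 2165020793) (nat_lit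 0) (nat_lit 4274412354) (nat_lit 684) (nat_lit 473855221) (nat_lit 351) (nat_lit 5) (nat_lit 350) (nat_lit 3) (nat_lit 359) (nat_lit 5) (nat_lit 351) (nat_lit 350) (nat_lit 319)))) (XT.nd (nat_lit 156) (nat_lit 684) (nat_lit 0) (XT.nd (nat_lit 78) (nat_lit 0) (nat_lit 0) (XT.lf (nat_lit 0) (nat_lit 1440556628) (nat_lit 684) (nat_lit 1346214739) (nat_lit 760) (nat_lit 4173429282) (nat_lit 341) (nat_lit 5) (nat_lit 350) (nat_lit 3) (nat_lit 351) (nat_lit 5) (nat_lit 352) (nat_lit 350) (nat_lit 318)) (XT.lf (nat_lit 76) (nat_lit 2155826108) (nat_lit 0) (nat_lit 1194442425) (nat_lit 760) (nat_lit 3659731636) (nat_lit 342) (nat_lit 5) (nat_lit 341) (nat_lit 5) (nat_lit 351) (nat_lit 5) (nat_lit 353) (nat_lit 350) (nat_lit 317))) (XT.nd (nat_lit 78) (nat_lit 760) (nat_lit 0) (XT.lf (nat_lit 0) (nat_lit 5264025895) (nat_lit 684) (nat_lit 1316343969) (nat_lit 760) (nat_lit 482562325) (nat_lit 342) (nat_lit 5) (nat_lit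 351) (nat_lit 5) (nat_lit 352) (nat_lit 5) (nat_lit 354) (nat_lit 350) (nat_lit 316)) (XT.lf (nat_lit 0) (nat_lit 80011383) (nat_lit 760) (nat_lit 4798600648) (nat_lit 836) (nat_lit 2239908007) (nat_lit 332) (nat_lit 5) (nat_lit 342) (nat_lit 5) (nat_lit 343) (nat_lit 5) (nat_lit 355) (nat_lit 350) (nat_lit 315))))))))
noncomputable def xc126 : XT := (XT.nd (nat_lit 2184) (nat_lit 6764) (nat_lit 0) (XT.nd (nat_lit 1092) (nat_lit 6992) (nat_lit 0) (XT.nd (nat_lit 546) (nat_lit 2736) (nat_lit 0) (XT.nd (nat_lit 234) (nat_lit 760) (nat_lit 0) (XT.nd (nat_lit 78) (nat_lit 0) (nat_lit 0) (XT.lf (nat_lit 0) (nat_lit 1924305494) (nat_lit 760) (nat_lit 1142418676) (nat_lit 836) (nat_lit 4110199715) (nat_lit 332) (nat_lit 5) (nat_lit 342) (nat_lit 5) (nat_lit 343) (nat_lit 5) (nat_lit 356) (nat_lit 350) (nat_lit 314)) (XT.nd (nat_lit 78) (nat_lit 0) (nat_lit 76) (XT.lf (nat_lit 76) (nat_lit 2634712179) (nat_lit 0) (nat_lit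 1148271874) (nat_lit 836) (nat_lit 3455360674) (nat_lit 333) (nat_lit 5) (nat_lit 332) (nat_lit 5) (nat_lit 343) (nat_lit 5) (nat_lit 357) (nat_lit 350) (nat_lit 313)) (XT.lf (nat_lit 0) (nat_lit 5652547289) (nat_lit 760) (nat_lit 802730440) (nat_lit 836) (nat_lit 847712224) (nat_lit 333) (nat_lit 5) (nat_lit 343) (nat_lit 5) (nat_lit 344) (nat_lit 5) (nat_lit 358) (nat_lit 350) (nat_lit 312)))) (XT.nd (nat_lit 156) (nat_lit 0) (nat_lit 0) (XT.nd (nat_lit 78) (nat_lit 0) (nat_lit 0) (XT.lf (nat_lit 0) (nat_lit 183073042) (nat_lit 836) (nat_lit 4251059923) (nat_lit 912) (nat_lit 2936059223) (nat_lit 322) (nat_lit 5) (nat_lit 333) (nat_lit 5) (nat_lit 334) (nat_lit 5) (nat_lit 359) (nat_lit 350) (nat_lit 311)) (XT.lf (nat_lit 0) (nat_lit 1984800709) (nat_lit 836) (nat_lit 322095932) (nat_lit 912) (nat_lit 5133664730) (nat_lit 322) (nat_lit 5) (nat_lit 333) (nat_lit 5) (nat_lit 334) (nat_lit 5) (nat_lit 360) (nat_lit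 350) (nat_lit 310))) (XT.nd (nat_lit 78) (nat_lit 0) (nat_lit 76) (XT.lf (nat_lit 76) (nat_lit 3757661131) (nat_lit 0) (nat_lit 59032721) (nat_lit 912) (nat_lit 3697095896) (nat_lit 323) (nat_lit 5) (nat_lit 322) (nat_lit 5) (nat_lit 334) (nat_lit 5) (nat_lit 361) (nat_lit 350) (nat_lit 309)) (XT.lf (nat_lit 76) (nat_lit 319842249) (nat_lit 0) (nat_lit 5353284528) (nat_lit 912) (nat_lit 1917031321) (nat_lit 324) (nat_lit 5) (nat_lit 323) (nat_lit 5) (nat_lit 335) (nat_lit 5) (nat_lit 362) (nat_lit 350) (nat_lit 308))))) (XT.nd (nat_lit 234) (nat_lit 1900) (nat_lit 0) (XT.nd (nat_lit 78) (nat_lit 912) (nat_lit 0) (XT.lf (nat_lit 76) (nat_lit 4552930240) (nat_lit 0) (nat_lit 3013669178) (nat_lit 912) (nat_lit 102807398) (nat_lit 324) (nat_lit 5) (nat_lit 323) (nat_lit 5) (nat_lit 335) (nat_lit 5) (nat_lit 363) (nat_lit 350) (nat_lit 307)) (XT.nd (nat_lit 78) (nat_lit 0) (nat_lit 76) (XT.lf (nat_lit 76) (nat_lit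 1125469186) (nat_lit 0) (nat_lit 560660369) (nat_lit 988) (nat_lit 6065779893) (nat_lit 312) (nat_lit 5) (nat_lit 311) (nat_lit 5) (nat_lit 324) (nat_lit 5) (nat_lit 364) (nat_lit 350) (nat_lit 306)) (XT.lf (nat_lit 0) (nat_lit 3522643967) (nat_lit 912) (nat_lit 2340506178) (nat_lit 76) (nat_lit 1973854405) (nat_lit 312) (nat_lit 5) (nat_lit 324) (nat_lit 5) (nat_lit 313) (nat_lit 5) (nat_lit 365) (nat_lit 350) (nat_lit 305)))) (XT.nd (nat_lit 156) (nat_lit 1064) (nat_lit 0) (XT.nd (nat_lit 78) (nat_lit 0) (nat_lit 0) (XT.lf (nat_lit 0) (nat_lit 2067147794) (nat_lit 912) (nat_lit 3319417097) (nat_lit 988) (nat_lit 2538944685) (nat_lit 300) (nat_lit 5) (nat_lit 312) (nat_lit 5) (nat_lit 313) (nat_lit 5) (nat_lit 366) (nat_lit 350) (nat_lit 304)) (XT.lf (nat_lit 0) (nat_lit 6613773208) (nat_lit 912) (nat_lit 664304584) (nat_lit 988) (nat_lit 739467367) (nat_lit 300) (nat_lit 5) (nat_lit 312) (nat_lit 5) (nat_lit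 313) (nat_lit 5) (nat_lit 367) (nat_lit 350) (nat_lit 303))) (XT.nd (nat_lit 78) (nat_lit 0) (nat_lit 0) (XT.lf (nat_lit 0) (nat_lit 1092405848) (nat_lit 1064) (nat_lit 4938040512) (nat_lit 76) (nat_lit 2081593873) (nat_lit 286) (nat_lit 5) (nat_lit 300) (nat_lit 5) (nat_lit 287) (nat_lit 5) (nat_lit 368) (nat_lit 350) (nat_lit 302)) (XT.lf (nat_lit 0) (nat_lit 2935477138) (nat_lit 1064) (nat_lit 347382851) (nat_lit 76) (nat_lit 4927180853) (nat_lit 286) (nat_lit 5) (nat_lit 300) (nat_lit 5) (nat_lit 287) (nat_lit 5) (nat_lit 369) (nat_lit 350) (nat_lit 301)))))) (XT.nd (nat_lit 546) (nat_lit 2280) (nat_lit 0) (XT.nd (nat_lit 234) (nat_lit 2432) (nat_lit 0) (XT.nd (nat_lit 78) (nat_lit 1216) (nat_lit 0) (XT.lf (nat_lit 0) (nat_lit 4426320059) (nat_lit 1064) (nat_lit 401730625) (nat_lit 1140) (nat_lit 3483127259) (nat_lit 272) (nat_lit 5) (nat_lit 286) (nat_lit 5) (nat_lit 287) (nat_lit 5) (nat_lit 370) (nat_lit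 350) (nat_lit 300)) (XT.nd (nat_lit 78) (nat_lit 76) (nat_lit 0) (XT.lf (nat_lit 0) (nat_lit 885540733) (nat_lit 1140) (nat_lit 5881323033) (nat_lit 1216) (nat_lit 1648823636) (nat_lit 257) (nat_lit 5) (nat_lit 272) (nat_lit 5) (nat_lit 273) (nat_lit 5) (nat_lit 371) (nat_lit 350) (nat_lit 299)) (XT.lf (nat_lit 0) (nat_lit 232650201) (nat_lit 1216) (nat_lit 2692835682) (nat_lit 76) (nat_lit 5597892719) (nat_lit 256) (nat_lit 5) (nat_lit 272) (nat_lit 5) (nat_lit 257) (nat_lit 5) (nat_lit 372) (nat_lit 350) (nat_lit 298)))) (XT.nd (nat_lit 156) (nat_lit 1216) (nat_lit 0) (XT.nd (nat_lit 78) (nat_lit 0) (nat_lit 0) (XT.lf (nat_lit 0) (nat_lit 2115470467) (nat_lit 1292) (nat_lit 6359855953) (nat_lit 76) (nat_lit 159163345) (nat_lit 240) (nat_lit 5) (nat_lit 257) (nat_lit 5) (nat_lit 241) (nat_lit 5) (nat_lit 373) (nat_lit 350) (nat_lit 297)) (XT.lf (nat_lit 0) (nat_lit 4066763818) (nat_lit 1292) (nat_lit 1373451744)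 (nat_lit 76) (nat_lit 3308378697) (nat_lit 240) (nat_lit 5) (nat_lit 257) (nat_lit 5) (nat_lit 241) (nat_lit 5) (nat_lit 374) (nat_lit 350) (nat_lit 296))) (XT.nd (nat_lit 78) (nat_lit 608) (nat_lit 0) (XT.lf (nat_lit 0) (nat_lit 3795415859) (nat_lit 608) (nat_lit 2274519967) (nat_lit 684) (nat_lit 2796404940) (nat_lit 232) (nat_lit 5) (nat_lit 240) (nat_lit 5) (nat_lit 241) (nat_lit 5) (nat_lit 375) (nat_lit 350) (nat_lit 295)) (XT.lf (nat_lit 0) (nat_lit 110756424) (nat_lit 608) (nat_lit 8004732054) (nat_lit 684) (nat_lit 872681146) (nat_lit 224) (nat_lit 5) (nat_lit 232) (nat_lit 5) (nat_lit 233) (nat_lit 5) (nat_lit 376) (nat_lit 350) (nat_lit 294))))) (XT.nd (nat_lit 234) (nat_lit 1596) (nat_lit 0) (XT.nd (nat_lit 78) (nat_lit 608) (nat_lit 0) (XT.lf (nat_lit 0) (nat_lit 1119489391) (nat_lit 684) (nat_lit 3636491344) (nat_lit 76) (nat_lit 4356399204) (nat_lit 223) (nat_lit 5) (nat_lit 232) (nat_lit 5) (nat_lit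 224) (nat_lit 5) (nat_lit 377) (nat_lit 350) (nat_lit 293)) (XT.nd (nat_lit 78) (nat_lit 0) (nat_lit 0) (XT.lf (nat_lit 0) (nat_lit 1745796822) (nat_lit 608) (nat_lit 1384226591) (nat_lit 684) (nat_lit 6110766735) (nat_lit 215) (nat_lit 5) (nat_lit 223) (nat_lit 5) (nat_lit 224) (nat_lit 5) (nat_lit 378) (nat_lit 350) (nat_lit 292)) (XT.lf (nat_lit 0) (nat_lit 5218173752) (nat_lit 684) (nat_lit 2070379194) (nat_lit 76) (nat_lit 2083997161) (nat_lit 215) (nat_lit 5) (nat_lit 224) (nat_lit 5) (nat_lit 216) (nat_lit 5) (nat_lit 379) (nat_lit 350) (nat_lit 291)))) (XT.nd (nat_lit 156) (nat_lit 1064) (nat_lit 0) (XT.nd (nat_lit 78) (nat_lit 0) (nat_lit 0) (XT.lf (nat_lit 0) (nat_lit 3531317587) (nat_lit 532) (nat_lit 3846600068) (nat_lit 608) (nat_lit 2130092715) (nat_lit 208) (nat_lit 5) (nat_lit 215) (nat_lit 5) (nat_lit 216) (nat_lit 5) (nat_lit 380) (nat_lit 350) (nat_lit 290)) (XT.lf (nat_lit 0) (nat_lit 9303047311)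 (nat_lit 532) (nat_lit 282350299) (nat_lit 608) (nat_lit 62664029) (nat_lit 208) (nat_lit 5) (nat_lit 215) (nat_lit 5) (nat_lit 216) (nat_lit 5) (nat_lit 381) (nat_lit 350) (nat_lit 289))) (XT.nd (nat_lit 78) (nat_lit 456) (nat_lit 0) (XT.lf (nat_lit 0) (nat_lit 2075388206) (nat_lit 608) (nat_lit 4321435734) (nat_lit 76) (nat_lit 3393441174) (nat_lit 200) (nat_lit 5) (nat_lit 208) (nat_lit 5) (nat_lit 201) (nat_lit 5) (nat_lit 382) (nat_lit 350) (nat_lit 288)) (XT.lf (nat_lit 0) (nat_lit 1512878105) (nat_lit 456) (nat_lit 2747737734) (nat_lit 532) (nat_lit 5676585635) (nat_lit 194) (nat_lit 5) (nat_lit 200) (nat_lit 5) (nat_lit 201) (nat_lit 5) (nat_lit 383) (nat_lit 350) (nat_lit 287))))))) (XT.nd (nat_lit 1092) (nat_lit 3116) (nat_lit 0) (XT.nd (nat_lit 546) (nat_lit 1748) (nat_lit 0) (XT.nd (nat_lit 234) (nat_lit 1292) (nat_lit 0) (XT.nd (nat_lit 78) (nat_lit 608) (nat_lit 0) (XT.lf (nat_lit 0) (nat_lit 6529258281)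 (nat_lit 532) (nat_lit 2527951164) (nat_lit 76) (nat_lit 1030814523) (nat_lit 194) (nat_lit 5) (nat_lit 201) (nat_lit 5) (nat_lit 195) (nat_lit 5) (nat_lit 384) (nat_lit 350) (nat_lit 286)) (XT.nd (nat_lit 78) (nat_lit 76) (nat_lit 0) (XT.lf (nat_lit 0) (nat_lit 3547157476) (nat_lit 532) (nat_lit 5345223018) (nat_lit 608) (nat_lit 1350211404) (nat_lit 187) (nat_lit 5) (nat_lit 194) (nat_lit 5) (nat_lit 195) (nat_lit 5) (nat_lit 385) (nat_lit 350) (nat_lit 285)) (XT.lf (nat_lit 0) (nat_lit 897736895) (nat_lit 608) (nat_lit 594306371) (nat_lit 76) (nat_lit 8909764189) (nat_lit 186) (nat_lit 5) (nat_lit 194) (nat_lit 5) (nat_lit 187) (nat_lit 5) (nat_lit 386) (nat_lit 350) (nat_lit 284)))) (XT.nd (nat_lit 156) (nat_lit 380) (nat_lit 0) (XT.nd (nat_lit 78) (nat_lit 456) (nat_lit 0) (XT.lf (nat_lit 0) (nat_lit 3232092247) (nat_lit 532) (nat_lit 4839810579) (nat_lit 76) (nat_lit 2492124647) (nat_lit 180) (nat_lit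 5) (nat_lit 187) (nat_lit 5) (nat_lit 181) (nat_lit 5) (nat_lit 387) (nat_lit 350) (nat_lit 283)) (XT.lf (nat_lit 0) (nat_lit 1487891360) (nat_lit 456) (nat_lit 4150677681) (nat_lit 532) (nat_lit 5092494216) (nat_lit 174) (nat_lit 5) (nat_lit 180) (nat_lit 5) (nat_lit 181) (nat_lit 5) (nat_lit 388) (nat_lit 350) (nat_lit 282))) (XT.nd (nat_lit 78) (nat_lit 380) (nat_lit 0) (XT.lf (nat_lit 0) (nat_lit 8065171328) (nat_lit 456) (nat_lit 68479339) (nat_lit 532) (nat_lit 2768978671) (nat_lit 174) (nat_lit 5) (nat_lit 180) (nat_lit 5) (nat_lit 181) (nat_lit 5) (nat_lit 389) (nat_lit 350) (nat_lit 281)) (XT.lf (nat_lit 0) (nat_lit 3754729749) (nat_lit 380) (nat_lit 6993125369) (nat_lit 456) (nat_lit 330170375) (nat_lit 169) (nat_lit 5) (nat_lit 174) (nat_lit 5) (nat_lit 175) (nat_lit 5) (nat_lit 390) (nat_lit 350) (nat_lit 280))))) (XT.nd (nat_lit 234) (nat_lit 836) (nat_lit 0) (XT.nd (nat_lit 78) (nat_lit 836) (nat_lit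 0) (XT.lf (nat_lit 0) (nat_lit 2137488629) (nat_lit 456) (nat_lit 716366706) (nat_lit 76) (nat_lit 8404261739) (nat_lit 168) (nat_lit 5) (nat_lit 174) (nat_lit 5) (nat_lit 169) (nat_lit 5) (nat_lit 391) (nat_lit 350) (nat_lit 279)) (XT.nd (nat_lit 78) (nat_lit 380) (nat_lit 0) (XT.lf (nat_lit 0) (nat_lit 4715481138) (nat_lit 532) (nat_lit 5289206858) (nat_lit 76) (nat_lit 1437547395) (nat_lit 162) (nat_lit 5) (nat_lit 169) (nat_lit 5) (nat_lit 163) (nat_lit 5) (nat_lit 392) (nat_lit 350) (nat_lit 278)) (XT.lf (nat_lit 0) (nat_lit 1575177817) (nat_lit 380) (nat_lit 5816343653) (nat_lit 456) (nat_lit 4239744501) (nat_lit 157) (nat_lit 5) (nat_lit 162) (nat_lit 5) (nat_lit 163) (nat_lit 5) (nat_lit 393) (nat_lit 350) (nat_lit 277)))) (XT.nd (nat_lit 156) (nat_lit 380) (nat_lit 0) (XT.nd (nat_lit 78) (nat_lit 456) (nat_lit 0) (XT.lf (nat_lit 0) (nat_lit 8715535445) (nat_lit 380) (nat_lit 1456227834) (nat_lit 456)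 (nat_lit 1653496245) (nat_lit 157) (nat_lit 5) (nat_lit 162) (nat_lit 5) (nat_lit 163) (nat_lit 5) (nat_lit 394) (nat_lit 350) (nat_lit 276)) (XT.lf (nat_lit 0) (nat_lit 1030460594) (nat_lit 456) (nat_lit 7977024910) (nat_lit 76) (nat_lit 3016110038) (nat_lit 151) (nat_lit 5) (nat_lit 157) (nat_lit 5) (nat_lit 152) (nat_lit 5) (nat_lit 395) (nat_lit 350) (nat_lit 275))) (XT.nd (nat_lit 78) (nat_lit 380) (nat_lit 0) (XT.lf (nat_lit 0) (nat_lit 3779304868) (nat_lit 456) (nat_lit 814992500) (nat_lit 76) (nat_lit 7632573907) (nat_lit 151) (nat_lit 5) (nat_lit 157) (nat_lit 5) (nat_lit 152) (nat_lit 5) (nat_lit 396) (nat_lit 350) (nat_lit 274)) (XT.lf (nat_lit 0) (nat_lit 6646959230) (nat_lit 456) (nat_lit 5780622629) (nat_lit 76) (nat_lit 7581668) (nat_lit 146) (nat_lit 5) (nat_lit 152) (nat_lit 5) (nat_lit 147) (nat_lit 5) (nat_lit 397) (nat_lit 350) (nat_lit 273)))))) (XT.nd (nat_lit 546) (nat_lit 1596) (nat_lit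 0) (XT.nd (nat_lit 234) (nat_lit 760) (nat_lit 0) (XT.nd (nat_lit 78) (nat_lit 380) (nat_lit 0) (XT.lf (nat_lit 0) (nat_lit 1664817266) (nat_lit 380) (nat_lit 7978292395) (nat_lit 456) (nat_lit 3005329228) (nat_lit 141) (nat_lit 5) (nat_lit 146) (nat_lit 5) (nat_lit 147) (nat_lit 5) (nat_lit 398) (nat_lit 350) (nat_lit 272)) (XT.nd (nat_lit 78) (nat_lit 380) (nat_lit 0) (XT.lf (nat_lit 0) (nat_lit 9414976254) (nat_lit 380) (nat_lit 3345644276) (nat_lit 456) (nat_lit 106555798) (nat_lit 141) (nat_lit 5) (nat_lit 146) (nat_lit 5) (nat_lit 147) (nat_lit 5) (nat_lit 399) (nat_lit 350) (nat_lit 271)) (XT.lf (nat_lit 0) (nat_lit 2852490116) (nat_lit 380) (nat_lit 8780194492) (nat_lit 76) (nat_lit 1458083847) (nat_lit 136) (nat_lit 5) (nat_lit 141) (nat_lit 5) (nat_lit 137) (nat_lit 5) (nat_lit 400) (nat_lit 350) (nat_lit 270)))) (XT.nd (nat_lit 156) (nat_lit 380) (nat_lit 0) (XT.nd (nat_lit 78) (nat_lit 380) (nat_lit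 0) (XT.lf (nat_lit 0) (nat_lit 5940437955) (nat_lit 380) (nat_lit 1014470703) (nat_lit 76) (nat_lit 6364867276) (nat_lit 136) (nat_lit 5) (nat_lit 141) (nat_lit 5) (nat_lit 137) (nat_lit 5) (nat_lit 401) (nat_lit 350) (nat_lit 269)) (XT.lf (nat_lit 0) (nat_lit 7086665774) (nat_lit 380) (nat_lit 2077180227) (nat_lit 456) (nat_lit 4390530177) (nat_lit 131) (nat_lit 5) (nat_lit 136) (nat_lit 5) (nat_lit 137) (nat_lit 5) (nat_lit 402) (nat_lit 350) (nat_lit 268))) (XT.nd (nat_lit 78) (nat_lit 76) (nat_lit 0) (XT.lf (nat_lit 0) (nat_lit 1623020964) (nat_lit 304) (nat_lit 10890203900) (nat_lit 380) (nat_lit 1281918490) (nat_lit 127) (nat_lit 5) (nat_lit 131) (nat_lit 5) (nat_lit 132) (nat_lit 5) (nat_lit 403) (nat_lit 350) (nat_lit 267)) (XT.lf (nat_lit 0) (nat_lit 1944138499) (nat_lit 380) (nat_lit 4028080227) (nat_lit 76) (nat_lit 8068518164) (nat_lit 126) (nat_lit 5) (nat_lit 131) (nat_lit 5) (nat_lit 127) (nat_lit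 5) (nat_lit 404) (nat_lit 350) (nat_lit 266))))) (XT.nd (nat_lit 312) (nat_lit 608) (nat_lit 0) (XT.nd (nat_lit 156) (nat_lit 684) (nat_lit 0) (XT.nd (nat_lit 78) (nat_lit 0) (nat_lit 0) (XT.lf (nat_lit 0) (nat_lit 4398178861) (nat_lit 304) (nat_lit 861163597) (nat_lit 380) (nat_lit 9033437481) (nat_lit 122) (nat_lit 5) (nat_lit 126) (nat_lit 5) (nat_lit 127) (nat_lit 5) (nat_lit 405) (nat_lit 350) (nat_lit 265)) (XT.lf (nat_lit 0) (nat_lit 8733521141) (nat_lit 380) (nat_lit 1469599507) (nat_lit 76) (nat_lit 4347484277) (nat_lit 122) (nat_lit 5) (nat_lit 127) (nat_lit 5) (nat_lit 123) (nat_lit 5) (nat_lit 406) (nat_lit 350) (nat_lit 264))) (XT.nd (nat_lit 78) (nat_lit 380) (nat_lit 0) (XT.lf (nat_lit 0) (nat_lit 7307756771) (nat_lit 304) (nat_lit 5059750817) (nat_lit 380) (nat_lit 2446995623) (nat_lit 118) (nat_lit 5) (nat_lit 122) (nat_lit 5) (nat_lit 123) (nat_lit 5) (nat_lit 407) (nat_lit 350) (nat_lit 263))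 (XT.lf (nat_lit 0) (nat_lit 1010900853) (nat_lit 380) (nat_lit 13815510925) (nat_lit 76) (nat_lit 259416248) (nat_lit 113) (nat_lit 5) (nat_lit 118) (nat_lit 5) (nat_lit 114) (nat_lit 5) (nat_lit 408) (nat_lit 350) (nat_lit 262)))) (XT.nd (nat_lit 156) (nat_lit 380) (nat_lit 0) (XT.nd (nat_lit 78) (nat_lit 228) (nat_lit 0) (XT.lf (nat_lit 0) (nat_lit 4627159388) (nat_lit 380) (nat_lit 5008353859) (nat_lit 76) (nat_lit 5725943797) (nat_lit 113) (nat_lit 5) (nat_lit 118) (nat_lit 5) (nat_lit 114) (nat_lit 5) (nat_lit 409) (nat_lit 350) (nat_lit 261)) (XT.lf (nat_lit 0) (nat_lit 4109387334) (nat_lit 228) (nat_lit 4259842486) (nat_lit 304) (nat_lit 7275610742) (nat_lit 110) (nat_lit 5) (nat_lit 113) (nat_lit 5) (nat_lit 114) (nat_lit 5) (nat_lit 410) (nat_lit 350) (nat_lit 260))) (XT.nd (nat_lit 78) (nat_lit 380) (nat_lit 0) (XT.lf (nat_lit 0) (nat_lit 12264948318) (nat_lit 304) (nat_lit 2378695172) (nat_lit 76)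 (nat_lit 1291845712) (nat_lit 110) (nat_lit 5) (nat_lit 114) (nat_lit 5) (nat_lit 111) (nat_lit 5) (nat_lit 411) (nat_lit 350) (nat_lit 259)) (XT.lf (nat_lit 0) (nat_lit 131985136) (nat_lit 380) (nat_lit 9117068385) (nat_lit 76) (nat_lit 6983092261) (nat_lit 105) (nat_lit 5) (nat_lit 110) (nat_lit 5) (nat_lit 106) (nat_lit 5) (nat_lit 412) (nat_lit 350) (nat_lit 258))))))))
noncomputable def xc127 : XT := (XT.nd (nat_lit 2262) (nat_lit 2128) (nat_lit 0) (XT.nd (nat_lit 1092) (nat_lit 1520) (nat_lit 0) (XT.nd (nat_lit 546) (nat_lit 988) (nat_lit 0) (XT.nd (nat_lit 234) (nat_lit 532) (nat_lit 0) (XT.nd (nat_lit 78) (nat_lit 228) (nat_lit 0) (XT.lf (nat_lit 0) (nat_lit 342395245) (nat_lit 228) (nat_lit 3638734618) (nat_lit 304) (nat_lit 12555297176) (nat_lit 102) (nat_lit 5) (nat_lit 105) (nat_lit 5) (nat_lit 106) (nat_lit 5) (nat_lit 413) (nat_lit 350) (nat_lit 257)) (XT.nd (nat_lit 78) (nat_lit 228) (nat_lit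 0) (XT.lf (nat_lit 0) (nat_lit 8038251367) (nat_lit 304) (nat_lit 6629364628) (nat_lit 76) (nat_lit 2179450283) (nat_lit 102) (nat_lit 5) (nat_lit 106) (nat_lit 5) (nat_lit 103) (nat_lit 5) (nat_lit 414) (nat_lit 350) (nat_lit 256)) (XT.lf (nat_lit 0) (nat_lit 3216612217) (nat_lit 228) (nat_lit 9046990757) (nat_lit 304) (nat_lit 4902030708) (nat_lit 99) (nat_lit 5) (nat_lit 102) (nat_lit 5) (nat_lit 103) (nat_lit 5) (nat_lit 415) (nat_lit 350) (nat_lit 255)))) (XT.nd (nat_lit 156) (nat_lit 228) (nat_lit 0) (XT.nd (nat_lit 78) (nat_lit 304) (nat_lit 0) (XT.lf (nat_lit 0) (nat_lit 13461810257) (nat_lit 228) (nat_lit 3200704747) (nat_lit 304) (nat_lit 829843459) (nat_lit 99) (nat_lit 5) (nat_lit 102) (nat_lit 5) (nat_lit 103) (nat_lit 5) (nat_lit 416) (nat_lit 350) (nat_lit 254)) (XT.lf (nat_lit 0) (nat_lit 3367035069) (nat_lit 304) (nat_lit 11611176732) (nat_lit 76) (nat_lit 2847661655) (nat_lit 95) (nat_lit 5)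 (nat_lit 99) (nat_lit 5) (nat_lit 96) (nat_lit 5) (nat_lit 417) (nat_lit 350) (nat_lit 253))) (XT.nd (nat_lit 78) (nat_lit 228) (nat_lit 0) (XT.lf (nat_lit 0) (nat_lit 7726342546) (nat_lit 304) (nat_lit 1390244858) (nat_lit 76) (nat_lit 9050967941) (nat_lit 95) (nat_lit 5) (nat_lit 99) (nat_lit 5) (nat_lit 96) (nat_lit 5) (nat_lit 418) (nat_lit 350) (nat_lit 252)) (XT.lf (nat_lit 0) (nat_lit 9287792207) (nat_lit 228) (nat_lit 2998895492) (nat_lit 304) (nat_lit 6230696103) (nat_lit 92) (nat_lit 5) (nat_lit 95) (nat_lit 5) (nat_lit 96) (nat_lit 5) (nat_lit 419) (nat_lit 350) (nat_lit 251))))) (XT.nd (nat_lit 234) (nat_lit 456) (nat_lit 0) (XT.nd (nat_lit 78) (nat_lit 304) (nat_lit 0) (XT.lf (nat_lit 0) (nat_lit 1401943505) (nat_lit 228) (nat_lit 15622425056) (nat_lit 304) (nat_lit 1852126546) (nat_lit 89) (nat_lit 5) (nat_lit 92) (nat_lit 5) (nat_lit 93) (nat_lit 5) (nat_lit 420) (nat_lit 350) (nat_lit 250)) (XT.nd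 (nat_lit 78) (nat_lit 228) (nat_lit 0) (XT.lf (nat_lit 0) (nat_lit 2710947260) (nat_lit 304) (nat_lit 6789112992) (nat_lit 76) (nat_lit 9742406271) (nat_lit 88) (nat_lit 5) (nat_lit 92) (nat_lit 5) (nat_lit 89) (nat_lit 5) (nat_lit 421) (nat_lit 350) (nat_lit 249)) (XT.lf (nat_lit 0) (nat_lit 4251425801) (nat_lit 228) (nat_lit 3144871421) (nat_lit 304) (nat_lit 12221894862) (nat_lit 85) (nat_lit 5) (nat_lit 88) (nat_lit 5) (nat_lit 89) (nat_lit 5) (nat_lit 422) (nat_lit 350) (nat_lit 248)))) (XT.nd (nat_lit 156) (nat_lit 304) (nat_lit 0) (XT.nd (nat_lit 78) (nat_lit 152) (nat_lit 0) (XT.lf (nat_lit 0) (nat_lit 12306010153) (nat_lit 304) (nat_lit 4304374038) (nat_lit 76) (nat_lit 3392294484) (nat_lit 85) (nat_lit 5) (nat_lit 89) (nat_lit 5) (nat_lit 86) (nat_lit 5) (nat_lit 423) (nat_lit 350) (nat_lit 247)) (XT.lf (nat_lit 0) (nat_lit 7169310707) (nat_lit 152) (nat_lit 10276159550) (nat_lit 228) (nat_lit 2950759168)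 (nat_lit 83) (nat_lit 5) (nat_lit 85) (nat_lit 5) (nat_lit 86) (nat_lit 5) (nat_lit 424) (nat_lit 350) (nat_lit 246))) (XT.nd (nat_lit 78) (nat_lit 228) (nat_lit 0) (XT.lf (nat_lit 0) (nat_lit 1926076326) (nat_lit 228) (nat_lit 1773301797) (nat_lit 76) (nat_lit 17100862177) (nat_lit 82) (nat_lit 5) (nat_lit 85) (nat_lit 5) (nat_lit 83) (nat_lit 5) (nat_lit 425) (nat_lit 350) (nat_lit 245)) (XT.lf (nat_lit 0) (nat_lit 7001290627) (nat_lit 304) (nat_lit 11079274190) (nat_lit 76) (nat_lit 3131591752) (nat_lit 79) (nat_lit 5) (nat_lit 83) (nat_lit 5) (nat_lit 80) (nat_lit 5) (nat_lit 426) (nat_lit 350) (nat_lit 244)))))) (XT.nd (nat_lit 546) (nat_lit 760) (nat_lit 0) (XT.nd (nat_lit 234) (nat_lit 304) (nat_lit 0) (XT.nd (nat_lit 78) (nat_lit 304) (nat_lit 0) (XT.lf (nat_lit 0) (nat_lit 745792316) (nat_lit 152) (nat_lit 11527935500) (nat_lit 228) (nat_lit 9361356392) (nat_lit 77) (nat_lit 5) (nat_lit 79) (nat_lit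 5) (nat_lit 80) (nat_lit 5) (nat_lit 427) (nat_lit 350) (nat_lit 243)) (XT.nd (nat_lit 78) (nat_lit 304) (nat_lit 0) (XT.lf (nat_lit 0) (nat_lit 13124340230) (nat_lit 152) (nat_lit 4675182406) (nat_lit 228) (nat_lit 4268324298) (nat_lit 77) (nat_lit 5) (nat_lit 79) (nat_lit 5) (nat_lit 80) (nat_lit 5) (nat_lit 428) (nat_lit 350) (nat_lit 242)) (XT.lf (nat_lit 0) (nat_lit 997848229) (nat_lit 304) (nat_lit 19146529499) (nat_lit 76) (nat_lit 2367752837) (nat_lit 73) (nat_lit 5) (nat_lit 77) (nat_lit 5) (nat_lit 74) (nat_lit 5) (nat_lit 429) (nat_lit 350) (nat_lit 241)))) (XT.nd (nat_lit 156) (nat_lit 152) (nat_lit 0) (XT.nd (nat_lit 78) (nat_lit 152) (nat_lit 0) (XT.lf (nat_lit 0) (nat_lit 6457441818) (nat_lit 304) (nat_lit 6857152325) (nat_lit 76) (nat_lit 9650246549) (nat_lit 73) (nat_lit 5) (nat_lit 77) (nat_lit 5) (nat_lit 74) (nat_lit 5) (nat_lit 430) (nat_lit 350) (nat_lit 240)) (XT.lf (nat_lit 0) (nat_lit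 5888639567) (nat_lit 152) (nat_lit 6232992720) (nat_lit 228) (nat_lit 11308278046) (nat_lit 71) (nat_lit 5) (nat_lit 73) (nat_lit 5) (nat_lit 74) (nat_lit 5) (nat_lit 431) (nat_lit 350) (nat_lit 239))) (XT.nd (nat_lit 78) (nat_lit 152) (nat_lit 0) (XT.lf (nat_lit 0) (nat_lit 18020173902) (nat_lit 228) (nat_lit 4787639973) (nat_lit 76) (nat_lit 1099187833) (nat_lit 71) (nat_lit 5) (nat_lit 74) (nat_lit 5) (nat_lit 72) (nat_lit 5) (nat_lit 432) (nat_lit 350) (nat_lit 238)) (XT.lf (nat_lit 0) (nat_lit 8424809363) (nat_lit 152) (nat_lit 15798313533) (nat_lit 228) (nat_lit 171461735) (nat_lit 69) (nat_lit 5) (nat_lit 71) (nat_lit 5) (nat_lit 72) (nat_lit 5) (nat_lit 433) (nat_lit 350) (nat_lit 237))))) (XT.nd (nat_lit 312) (nat_lit 380) (nat_lit 0) (XT.nd (nat_lit 156) (nat_lit 152) (nat_lit 0) (XT.nd (nat_lit 78) (nat_lit 152) (nat_lit 0) (XT.lf (nat_lit 0) (nat_lit 5637457091) (nat_lit 228) (nat_lit 2845510027)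 (nat_lit 76) (nat_lit 16411173366) (nat_lit 68) (nat_lit 5) (nat_lit 71) (nat_lit 5) (nat_lit 69) (nat_lit 5) (nat_lit 434) (nat_lit 350) (nat_lit 236)) (XT.lf (nat_lit 0) (nat_lit 10856893890) (nat_lit 152) (nat_lit 849904047) (nat_lit 228) (nat_lit 13699148267) (nat_lit 66) (nat_lit 5) (nat_lit 68) (nat_lit 5) (nat_lit 69) (nat_lit 5) (nat_lit 435) (nat_lit 350) (nat_lit 235))) (XT.nd (nat_lit 78) (nat_lit 152) (nat_lit 0) (XT.lf (nat_lit 0) (nat_lit 18039960153) (nat_lit 228) (nat_lit 997064316) (nat_lit 76) (nat_lit 6893631471) (nat_lit 66) (nat_lit 5) (nat_lit 69) (nat_lit 5) (nat_lit 67) (nat_lit 5) (nat_lit 436) (nat_lit 350) (nat_lit 234)) (XT.lf (nat_lit 0) (nat_lit 13185282380) (nat_lit 152) (nat_lit 11498739882) (nat_lit 228) (nat_lit 1783459571) (nat_lit 64) (nat_lit 5) (nat_lit 66) (nat_lit 5) (nat_lit 67) (nat_lit 5) (nat_lit 437) (nat_lit 350) (nat_lit 233)))) (XT.nd (nat_lit 156) (nat_lit 152)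 (nat_lit 0) (XT.nd (nat_lit 78) (nat_lit 0) (nat_lit 0) (XT.lf (nat_lit 0) (nat_lit 739313429) (nat_lit 152) (nat_lit 3682787745) (nat_lit 228) (nat_lit 22596921859) (nat_lit 61) (nat_lit 5) (nat_lit 63) (nat_lit 5) (nat_lit 64) (nat_lit 5) (nat_lit 438) (nat_lit 350) (nat_lit 232)) (XT.lf (nat_lit 0) (nat_lit 10941270890) (nat_lit 228) (nat_lit 12215503710) (nat_lit 76) (nat_lit 4424909337) (nat_lit 61) (nat_lit 5) (nat_lit 64) (nat_lit 5) (nat_lit 62) (nat_lit 5) (nat_lit 439) (nat_lit 350) (nat_lit 231))) (XT.nd (nat_lit 78) (nat_lit 0) (nat_lit 0) (XT.lf (nat_lit 0) (nat_lit 2253686047) (nat_lit 152) (nat_lit 15446720128) (nat_lit 228) (nat_lit 10459488572) (nat_lit 59) (nat_lit 5) (nat_lit 61) (nat_lit 5) (nat_lit 62) (nat_lit 5) (nat_lit 440) (nat_lit 350) (nat_lit 230)) (XT.lf (nat_lit 0) (nat_lit 17383140517) (nat_lit 152) (nat_lit 7388958370) (nat_lit 228) (nat_lit 3980061233) (nat_lit 59) (nat_lit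 5) (nat_lit 61) (nat_lit 5) (nat_lit 62) (nat_lit 5) (nat_lit 441) (nat_lit 350) (nat_lit 229))))))) (XT.nd (nat_lit 1092) (nat_lit 1064) (nat_lit 0) (XT.nd (nat_lit 546) (nat_lit 380) (nat_lit 0) (XT.nd (nat_lit 234) (nat_lit 304) (nat_lit 0) (XT.nd (nat_lit 78) (nat_lit 152) (nat_lit 0) (XT.lf (nat_lit 0) (nat_lit 2671980579) (nat_lit 228) (nat_lit 25744668341) (nat_lit 76) (nat_lit 943845464) (nat_lit 56) (nat_lit 5) (nat_lit 59) (nat_lit 5) (nat_lit 57) (nat_lit 5) (nat_lit 442) (nat_lit 350) (nat_lit 228)) (XT.nd (nat_lit 78) (nat_lit 152) (nat_lit 0) (XT.lf (nat_lit 0) (nat_lit 9619442968) (nat_lit 228) (nat_lit 10837905744) (nat_lit 76) (nat_lit 9523273722) (nat_lit 56) (nat_lit 5) (nat_lit 59) (nat_lit 5) (nat_lit 57) (nat_lit 5) (nat_lit 443) (nat_lit 350) (nat_lit 227)) (XT.lf (nat_lit 0) (nat_lit 4582331109) (nat_lit 152) (nat_lit 12224187183) (nat_lit 228) (nat_lit 13811901908) (nat_lit 54) (nat_lit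 5) (nat_lit 56) (nat_lit 5) (nat_lit 57) (nat_lit 5) (nat_lit 444) (nat_lit 350) (nat_lit 226)))) (XT.nd (nat_lit 156) (nat_lit 152) (nat_lit 0) (XT.nd (nat_lit 78) (nat_lit 152) (nat_lit 0) (XT.lf (nat_lit 0) (nat_lit 20664422032) (nat_lit 152) (nat_lit 3641520556) (nat_lit 228) (nat_lit 6966508711) (nat_lit 54) (nat_lit 5) (nat_lit 56) (nat_lit 5) (nat_lit 57) (nat_lit 5) (nat_lit 445) (nat_lit 350) (nat_lit 225)) (XT.lf (nat_lit 0) (nat_lit 172102655) (nat_lit 152) (nat_lit 26631064843) (nat_lit 76) (nat_lit 5140227944) (nat_lit 52) (nat_lit 5) (nat_lit 54) (nat_lit 5) (nat_lit 53) (nat_lit 5) (nat_lit 446) (nat_lit 350) (nat_lit 224))) (XT.nd (nat_lit 78) (nat_lit 152) (nat_lit 0) (XT.lf (nat_lit 0) (nat_lit 7516682434) (nat_lit 152) (nat_lit 10832144928) (nat_lit 76) (nat_lit 14279617761) (nat_lit 52) (nat_lit 5) (nat_lit 54) (nat_lit 5) (nat_lit 53) (nat_lit 5) (nat_lit 447) (nat_lit 350) (nat_lit 223))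 (XT.lf (nat_lit 0) (nat_lit 5526689661) (nat_lit 152) (nat_lit 9595991641) (nat_lit 228) (nat_lit 18210133875) (nat_lit 50) (nat_lit 5) (nat_lit 52) (nat_lit 5) (nat_lit 53) (nat_lit 5) (nat_lit 448) (nat_lit 350) (nat_lit 222))))) (XT.nd (nat_lit 234) (nat_lit 228) (nat_lit 0) (XT.nd (nat_lit 78) (nat_lit 152) (nat_lit 0) (XT.lf (nat_lit 0) (nat_lit 22576653787) (nat_lit 152) (nat_lit 477687911) (nat_lit 228) (nat_lit 11001051482) (nat_lit 50) (nat_lit 5) (nat_lit 52) (nat_lit 5) (nat_lit 53) (nat_lit 5) (nat_lit 449) (nat_lit 350) (nat_lit 221)) (XT.nd (nat_lit 78) (nat_lit 76) (nat_lit 0) (XT.lf (nat_lit 0) (nat_lit 5335587530) (nat_lit 76) (nat_lit 26013695218) (nat_lit 152) (nat_lit 3446607109) (nat_lit 49) (nat_lit 5) (nat_lit 50) (nat_lit 5) (nat_lit 51) (nat_lit 4) (nat_lit 450) (nat_lit 350) (nat_lit 220)) (XT.lf (nat_lit 0) (nat_lit 4360054192) (nat_lit 152) (nat_lit 12734352248) (nat_lit 76) (nat_lit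 18459641268) (nat_lit 48) (nat_lit 5) (nat_lit 50) (nat_lit 5) (nat_lit 49) (nat_lit 5) (nat_lit 451) (nat_lit 350) (nat_lit 219)))) (XT.nd (nat_lit 156) (nat_lit 76) (nat_lit 0) (XT.nd (nat_lit 78) (nat_lit 0) (nat_lit 0) (XT.lf (nat_lit 0) (nat_lit 4526875955) (nat_lit 152) (nat_lit 7836994425) (nat_lit 228) (nat_lit 23969090469) (nat_lit 46) (nat_lit 5) (nat_lit 48) (nat_lit 5) (nat_lit 49) (nat_lit 5) (nat_lit 452) (nat_lit 350) (nat_lit 218)) (XT.lf (nat_lit 0) (nat_lit 20742744821) (nat_lit 228) (nat_lit 14602751650) (nat_lit 76) (nat_lit 1785697717) (nat_lit 46) (nat_lit 5) (nat_lit 49) (nat_lit 5) (nat_lit 47) (nat_lit 4) (nat_lit 453) (nat_lit 350) (nat_lit 217))) (XT.nd (nat_lit 78) (nat_lit 0) (nat_lit 0) (XT.lf (nat_lit 0) (nat_lit 3079020839) (nat_lit 76) (nat_lit 26390238645) (nat_lit 152) (nat_lit 8481227909) (nat_lit 45) (nat_lit 5) (nat_lit 46) (nat_lit 5) (nat_lit 47) (nat_lit 4) (nat_lit 454)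 (nat_lit 350) (nat_lit 216)) (XT.lf (nat_lit 0) (nat_lit 21570636608) (nat_lit 76) (nat_lit 17023600884) (nat_lit 152) (nat_lit 196022917) (nat_lit 45) (nat_lit 5) (nat_lit 46) (nat_lit 5) (nat_lit 47) (nat_lit 4) (nat_lit 455) (nat_lit 350) (nat_lit 215)))))) (XT.nd (nat_lit 546) (nat_lit 532) (nat_lit 0) (XT.nd (nat_lit 234) (nat_lit 304) (nat_lit 0) (XT.nd (nat_lit 78) (nat_lit 0) (nat_lit 0) (XT.lf (nat_lit 0) (nat_lit 879200713) (nat_lit 152) (nat_lit 7293707941) (nat_lit 228) (nat_lit 31479978437) (nat_lit 42) (nat_lit 5) (nat_lit 44) (nat_lit 5) (nat_lit 45) (nat_lit 5) (nat_lit 456) (nat_lit 350) (nat_lit 214)) (XT.nd (nat_lit 78) (nat_lit 0) (nat_lit 0) (XT.lf (nat_lit 0) (nat_lit 16980252650) (nat_lit 228) (nat_lit 20711706494) (nat_lit 76) (nat_lit 2843637642) (nat_lit 42) (nat_lit 5) (nat_lit 45) (nat_lit 5) (nat_lit 43) (nat_lit 4) (nat_lit 457) (nat_lit 350) (nat_lit 213)) (XT.lf (nat_lit 0) (nat_lit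 26113793335) (nat_lit 228) (nat_lit 2199130085) (nat_lit 76) (nat_lit 13130005993) (nat_lit 42) (nat_lit 5) (nat_lit 45) (nat_lit 5) (nat_lit 43) (nat_lit 4) (nat_lit 458) (nat_lit 350) (nat_lit 212)))) (XT.nd (nat_lit 156) (nat_lit 152) (nat_lit 0) (XT.nd (nat_lit 78) (nat_lit 76) (nat_lit 0) (XT.lf (nat_lit 0) (nat_lit 17185685085) (nat_lit 76) (nat_lit 18490914127) (nat_lit 152) (nat_lit 6696225948) (nat_lit 41) (nat_lit 5) (nat_lit 42) (nat_lit 5) (nat_lit 43) (nat_lit 4) (nat_lit 459) (nat_lit 350) (nat_lit 211)) (XT.lf (nat_lit 0) (nat_lit 2165327791) (nat_lit 152) (nat_lit 6172663085) (nat_lit 76) (nat_lit 34991619522) (nat_lit 40) (nat_lit 5) (nat_lit 42) (nat_lit 5) (nat_lit 41) (nat_lit 5) (nat_lit 460) (nat_lit 350) (nat_lit 210))) (XT.nd (nat_lit 78) (nat_lit 0) (nat_lit 0) (XT.lf (nat_lit 0) (nat_lit 11301415307) (nat_lit 228) (nat_lit 30738493539) (nat_lit 76) (nat_lit 2268903959) (nat_lit 38)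 (nat_lit 5) (nat_lit 41) (nat_lit 5) (nat_lit 39) (nat_lit 4) (nat_lit 461) (nat_lit 350) (nat_lit 209)) (XT.lf (nat_lit 0) (nat_lit 20847482944) (nat_lit 228) (nat_lit 11384570233) (nat_lit 76) (nat_lit 13081261991) (nat_lit 38) (nat_lit 5) (nat_lit 41) (nat_lit 5) (nat_lit 39) (nat_lit 4) (nat_lit 462) (nat_lit 350) (nat_lit 208))))) (XT.nd (nat_lit 312) (nat_lit 228) (nat_lit 0) (XT.nd (nat_lit 156) (nat_lit 228) (nat_lit 0) (XT.nd (nat_lit 78) (nat_lit 0) (nat_lit 0) (XT.lf (nat_lit 0) (nat_lit 8702306425) (nat_lit 76) (nat_lit 22051952048) (nat_lit 152) (nat_lit 15591465135) (nat_lit 37) (nat_lit 5) (nat_lit 38) (nat_lit 5) (nat_lit 39) (nat_lit 4) (nat_lit 463) (nat_lit 350) (nat_lit 207)) (XT.lf (nat_lit 0) (nat_lit 29607855574) (nat_lit 76) (nat_lit 11456122777) (nat_lit 152) (nat_lit 6341954480) (nat_lit 37) (nat_lit 5) (nat_lit 38) (nat_lit 5) (nat_lit 39) (nat_lit 4) (nat_lit 464) (nat_lit 350) (nat_lit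 206))) (XT.nd (nat_lit 78) (nat_lit 0) (nat_lit 0) (XT.lf (nat_lit 0) (nat_lit 2646669418) (nat_lit 152) (nat_lit 492620297) (nat_lit 228) (nat_lit 45357248839) (nat_lit 34) (nat_lit 5) (nat_lit 36) (nat_lit 5) (nat_lit 37) (nat_lit 5) (nat_lit 465) (nat_lit 350) (nat_lit 205)) (XT.lf (nat_lit 0) (nat_lit 13053807971) (nat_lit 228) (nat_lit 25730263913) (nat_lit 76) (nat_lit 10825618401) (nat_lit 34) (nat_lit 5) (nat_lit 37) (nat_lit 5) (nat_lit 35) (nat_lit 4) (nat_lit 466) (nat_lit 350) (nat_lit 204)))) (XT.nd (nat_lit 156) (nat_lit 152) (nat_lit 0) (XT.nd (nat_lit 78) (nat_lit 76) (nat_lit 0) (XT.lf (nat_lit 0) (nat_lit 23261886223) (nat_lit 228) (nat_lit 5028462146) (nat_lit 76) (nat_lit 22466005140) (nat_lit 34) (nat_lit 5) (nat_lit 37) (nat_lit 5) (nat_lit 35) (nat_lit 4) (nat_lit 467) (nat_lit 350) (nat_lit 203)) (XT.lf (nat_lit 0) (nat_lit 16602331775) (nat_lit 76) (nat_lit 17324968778) (nat_lit 152)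 (nat_lit 18005583921) (nat_lit 33) (nat_lit 5) (nat_lit 34) (nat_lit 5) (nat_lit 35) (nat_lit 4) (nat_lit 468) (nat_lit 350) (nat_lit 202))) (XT.nd (nat_lit 78) (nat_lit 152) (nat_lit 0) (XT.lf (nat_lit 0) (nat_lit 38969252058) (nat_lit 76) (nat_lit 5985799733) (nat_lit 152) (nat_lit 8188388981) (nat_lit 33) (nat_lit 5) (nat_lit 34) (nat_lit 5) (nat_lit 35) (nat_lit 4) (nat_lit 469) (nat_lit 350) (nat_lit 201)) (XT.lf (nat_lit 0) (nat_lit 2007470674) (nat_lit 152) (nat_lit 46709642617) (nat_lit 76) (nat_lit 5668996029) (nat_lit 31) (nat_lit 5) (nat_lit 33) (nat_lit 5) (nat_lit 32) (nat_lit 4) (nat_lit 470) (nat_lit 350) (nat_lit 200))))))))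
noncomputable def xc128 : XT := (XT.nd (nat_lit 44538) (nat_lit 0) (nat_lit 11552) (XT.nd (nat_lit 1092) (nat_lit 152) (nat_lit 0) (XT.nd (nat_lit 546) (nat_lit 304) (nat_lit 0) (XT.nd (nat_lit 234) (nat_lit 152) (nat_lit 0) (XT.nd (nat_lit 78) (nat_lit 76) (nat_lit 0) (XT.lf (nat_lit 0) (nat_lit 12540223606) (nat_lit 152) (nat_lit 25345921392) (nat_lit 76) (nat_lit 17771613435) (nat_lit 31) (nat_lit 5) (nat_lit 33) (nat_lit 5) (nat_lit 32) (nat_lit 4) (nat_lit 471) (nat_lit 350) (nat_lit 199)) (XT.nd (nat_lit 78) (nat_lit 76) (nat_lit 0) (XT.lf (nat_lit 0) (nat_lit 23380980481) (nat_lit 152) (nat_lit 3356434670) (nat_lit 76) (nat_lit 30230381793) (nat_lit 31) (nat_lit 5) (nat_lit 33) (nat_lit 5) (nat_lit 32) (nat_lit 4) (nat_lit 472) (nat_lit 350) (nat_lit 198)) (XT.lf (nat_lit 0) (nat_lit 19661702292) (nat_lit 76) (nat_lit 15066511823) (nat_lit 152) (nat_lit 23583485424) (nat_lit 30) (nat_lit 5) (nat_lit 31)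 (nat_lit 5) (nat_lit 32) (nat_lit 4) (nat_lit 473) (nat_lit 350) (nat_lit 197)))) (XT.nd (nat_lit 156) (nat_lit 76) (nat_lit 0) (XT.nd (nat_lit 78) (nat_lit 76) (nat_lit 0) (XT.lf (nat_lit 0) (nat_lit 43424626162) (nat_lit 76) (nat_lit 3017471401) (nat_lit 152) (nat_lit 13253035199) (nat_lit 30) (nat_lit 5) (nat_lit 31) (nat_lit 5) (nat_lit 32) (nat_lit 4) (nat_lit 474) (nat_lit 350) (nat_lit 196)) (XT.lf (nat_lit 0) (nat_lit 6808642283) (nat_lit 76) (nat_lit 51846993836) (nat_lit 76) (nat_lit 2459986221) (nat_lit 29) (nat_lit 4) (nat_lit 30) (nat_lit 5) (nat_lit 30) (nat_lit 4) (nat_lit 475) (nat_lit 350) (nat_lit 195))) (XT.nd (nat_lit 78) (nat_lit 0) (nat_lit 0) (XT.lf (nat_lit 0) (nat_lit 8676237317) (nat_lit 152) (nat_lit 31789125632) (nat_lit 76) (nat_lit 22105218412) (nat_lit 28) (nat_lit 5) (nat_lit 30) (nat_lit 5) (nat_lit 29) (nat_lit 4) (nat_lit 476) (nat_lit 350) (nat_lit 194)) (XT.lf (nat_lit 0)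 (nat_lit 20089829126) (nat_lit 152) (nat_lit 8633980642) (nat_lit 76) (nat_lit 35344867424) (nat_lit 28) (nat_lit 5) (nat_lit 30) (nat_lit 5) (nat_lit 29) (nat_lit 4) (nat_lit 477) (nat_lit 350) (nat_lit 193))))) (XT.nd (nat_lit 234) (nat_lit 228) (nat_lit 0) (XT.nd (nat_lit 78) (nat_lit 0) (nat_lit 0) (XT.lf (nat_lit 0) (nat_lit 15504890719) (nat_lit 76) (nat_lit 16482917211) (nat_lit 152) (nat_lit 33619649049) (nat_lit 27) (nat_lit 5) (nat_lit 28) (nat_lit 5) (nat_lit 29) (nat_lit 4) (nat_lit 478) (nat_lit 350) (nat_lit 192)) (XT.nd (nat_lit 78) (nat_lit 0) (nat_lit 0) (XT.lf (nat_lit 0) (nat_lit 40531564318) (nat_lit 76) (nat_lit 3791362183) (nat_lit 152) (nat_lit 22867068095) (nat_lit 27) (nat_lit 5) (nat_lit 28) (nat_lit 5) (nat_lit 29) (nat_lit 4) (nat_lit 479) (nat_lit 350) (nat_lit 191)) (XT.lf (nat_lit 0) (nat_lit 57110470881) (nat_lit 152) (nat_lit 2613291927) (nat_lit 0) (nat_lit 9093774798) (nat_lit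 27) (nat_lit 5) (nat_lit 29) (nat_lit 4) (nat_lit 27) (nat_lit 4) (nat_lit 480) (nat_lit 350) (nat_lit 190)))) (XT.nd (nat_lit 156) (nat_lit 76) (nat_lit 0) (XT.nd (nat_lit 78) (nat_lit 0) (nat_lit 0) (XT.lf (nat_lit 0) (nat_lit 41918884) (nat_lit 152) (nat_lit 47944062322) (nat_lit 76) (nat_lit 22500486060) (nat_lit 25) (nat_lit 5) (nat_lit 27) (nat_lit 5) (nat_lit 26) (nat_lit 4) (nat_lit 481) (nat_lit 350) (nat_lit 189)) (XT.lf (nat_lit 0) (nat_lit 11928088368) (nat_lit 152) (nat_lit 23827236888) (nat_lit 76) (nat_lit 36446062168) (nat_lit 25) (nat_lit 5) (nat_lit 27) (nat_lit 5) (nat_lit 26) (nat_lit 4) (nat_lit 482) (nat_lit 350) (nat_lit 188))) (XT.nd (nat_lit 78) (nat_lit 0) (nat_lit 0) (XT.lf (nat_lit 0) (nat_lit 1020647129) (nat_lit 76) (nat_lit 23153564513) (nat_lit 152) (nat_lit 49793442867) (nat_lit 24) (nat_lit 5) (nat_lit 25) (nat_lit 5) (nat_lit 26) (nat_lit 4) (nat_lit 483) (nat_lit 350) (nat_lit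 187)) (XT.lf (nat_lit 0) (nat_lit 27090161185) (nat_lit 76) (nat_lit 9931793394) (nat_lit 152) (nat_lit 38757928323) (nat_lit 24) (nat_lit 5) (nat_lit 25) (nat_lit 5) (nat_lit 26) (nat_lit 4) (nat_lit 484) (nat_lit 350) (nat_lit 186)))))) (XT.nd (nat_lit 42900) (nat_lit 0) (nat_lit 22724) (XT.nd (nat_lit 234) (nat_lit 76) (nat_lit 0) (XT.nd (nat_lit 78) (nat_lit 76) (nat_lit 0) (XT.lf (nat_lit 0) (nat_lit 50284326378) (nat_lit 152) (nat_lit 23752171760) (nat_lit 0) (nat_lit 3609104475) (nat_lit 24) (nat_lit 5) (nat_lit 26) (nat_lit 4) (nat_lit 24) (nat_lit 4) (nat_lit 485) (nat_lit 350) (nat_lit 185)) (XT.nd (nat_lit 78) (nat_lit 0) (nat_lit 0) (XT.lf (nat_lit 0) (nat_lit 1859795271) (nat_lit 76) (nat_lit 62194926353) (nat_lit 76) (nat_lit 15509268077) (nat_lit 23) (nat_lit 4) (nat_lit 24) (nat_lit 5) (nat_lit 24) (nat_lit 4) (nat_lit 486) (nat_lit 350) (nat_lit 184)) (XT.lf (nat_lit 0) (nat_lit 28715465783)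 (nat_lit 76) (nat_lit 49756618978) (nat_lit 76) (nat_lit 3060828301) (nat_lit 23) (nat_lit 4) (nat_lit 24) (nat_lit 5) (nat_lit 24) (nat_lit 4) (nat_lit 487) (nat_lit 350) (nat_lit 183)))) (XT.nd (nat_lit 42510) (nat_lit 0) (nat_lit 24244) (XT.nd (nat_lit 42432) (nat_lit 0) (nat_lit 24244) (XT.lf (nat_lit 0) (nat_lit 9564713455) (nat_lit 152) (nat_lit 27289259645) (nat_lit 76) (nat_lit 46704292796) (nat_lit 22) (nat_lit 5) (nat_lit 24) (nat_lit 5) (nat_lit 23) (nat_lit 4) (nat_lit 488) (nat_lit 350) (nat_lit 182)) (XT.lf (nat_lit 0) (nat_lit 345222050) (nat_lit 0) (nat_lit 345222050) (nat_lit 684) (nat_lit 2789027261) (nat_lit 341) (nat_lit 5) (nat_lit 341) (nat_lit 3) (nat_lit 350) (nat_lit 3) (nat_lit 351) (nat_lit 351) (nat_lit 318))) (XT.nd (nat_lit 78) (nat_lit 0) (nat_lit 0) (XT.lf (nat_lit 0) (nat_lit 3243292618) (nat_lit 684) (nat_lit 2883797236) (nat_lit 760) (nat_lit 879932199) (nat_lit 341) (nat_lit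 5) (nat_lit 350) (nat_lit 3) (nat_lit 351) (nat_lit 5) (nat_lit 352) (nat_lit 351) (nat_lit 317)) (XT.lf (nat_lit 76) (nat_lit 568399793) (nat_lit 0) (nat_lit 4534273725) (nat_lit 760) (nat_lit 1955678250) (nat_lit 342) (nat_lit 5) (nat_lit 341) (nat_lit 5) (nat_lit 351) (nat_lit 5) (nat_lit 353) (nat_lit 351) (nat_lit 316))))) (XT.nd (nat_lit 234) (nat_lit 760) (nat_lit 0) (XT.nd (nat_lit 78) (nat_lit 760) (nat_lit 0) (XT.lf (nat_lit 76) (nat_lit 4145352403) (nat_lit 0) (nat_lit 2832117701) (nat_lit 760) (nat_lit 135002182) (nat_lit 342) (nat_lit 5) (nat_lit 341) (nat_lit 5) (nat_lit 351) (nat_lit 5) (nat_lit 354) (nat_lit 351) (nat_lit 315)) (XT.nd (nat_lit 78) (nat_lit 0) (nat_lit 76) (XT.lf (nat_lit 76) (nat_lit 618522947) (nat_lit 0) (nat_lit 1025588904) (nat_lit 836) (nat_lit 5525507041) (nat_lit 332) (nat_lit 5) (nat_lit 331) (nat_lit 5) (nat_lit 342) (nat_lit 5) (nat_lit 355) (nat_lit 351) (nat_lit 314))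 (XT.lf (nat_lit 0) (nat_lit 3445901641) (nat_lit 760) (nat_lit 2904833365) (nat_lit 836) (nat_lit 878580867) (nat_lit 332) (nat_lit 5) (nat_lit 342) (nat_lit 5) (nat_lit 343) (nat_lit 5) (nat_lit 356) (nat_lit 351) (nat_lit 313)))) (XT.nd (nat_lit 156) (nat_lit 836) (nat_lit 0) (XT.nd (nat_lit 78) (nat_lit 0) (nat_lit 0) (XT.lf (nat_lit 76) (nat_lit 817637904) (nat_lit 0) (nat_lit 4437780581) (nat_lit 836) (nat_lit 2036810564) (nat_lit 333) (nat_lit 5) (nat_lit 332) (nat_lit 5) (nat_lit 343) (nat_lit 5) (nat_lit 357) (nat_lit 351) (nat_lit 312)) (XT.lf (nat_lit 76) (nat_lit 4672731801) (nat_lit 0) (nat_lit 2412984508) (nat_lit 836) (nat_lit 272352899) (nat_lit 333) (nat_lit 5) (nat_lit 332) (nat_lit 5) (nat_lit 343) (nat_lit 5) (nat_lit 358) (nat_lit 351) (nat_lit 311))) (XT.nd (nat_lit 78) (nat_lit 0) (nat_lit 76) (XT.lf (nat_lit 76) (nat_lit 1187175294) (nat_lit 0) (nat_lit 277481535) (nat_lit 912) (nat_lit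 5962321635) (nat_lit 322) (nat_lit 5) (nat_lit 321) (nat_lit 5) (nat_lit 333) (nat_lit 5) (nat_lit 359) (nat_lit 351) (nat_lit 310)) (XT.lf (nat_lit 0) (nat_lit 3234156933) (nat_lit 836) (nat_lit 2328073999) (nat_lit 912) (nat_lit 1936099073) (nat_lit 322) (nat_lit 5) (nat_lit 333) (nat_lit 5) (nat_lit 334) (nat_lit 5) (nat_lit 360) (nat_lit 351) (nat_lit 309))))))) (XT.nd (nat_lit 1092) (nat_lit 5016) (nat_lit 0) (XT.nd (nat_lit 546) (nat_lit 4484) (nat_lit 0) (XT.nd (nat_lit 234) (nat_lit 912) (nat_lit 0) (XT.nd (nat_lit 78) (nat_lit 836) (nat_lit 0) (XT.lf (nat_lit 76) (nat_lit 1692053144) (nat_lit 0) (nat_lit 3325441781) (nat_lit 912) (nat_lit 2555535191) (nat_lit 323) (nat_lit 5) (nat_lit 322) (nat_lit 5) (nat_lit 334) (nat_lit 5) (nat_lit 361) (nat_lit 351) (nat_lit 308)) (XT.nd (nat_lit 78) (nat_lit 836) (nat_lit 0) (XT.lf (nat_lit 76) (nat_lit 5841667282) (nat_lit 0) (nat_lit 979238777) (nat_lit 912)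 (nat_lit 830097701) (nat_lit 323) (nat_lit 5) (nat_lit 322) (nat_lit 5) (nat_lit 334) (nat_lit 5) (nat_lit 362) (nat_lit 351) (nat_lit 307)) (XT.lf (nat_lit 0) (nat_lit 909972241) (nat_lit 912) (nat_lit 5363355336) (nat_lit 988) (nat_lit 1458303402) (nat_lit 311) (nat_lit 5) (nat_lit 323) (nat_lit 5) (nat_lit 324) (nat_lit 5) (nat_lit 363) (nat_lit 351) (nat_lit 306)))) (XT.nd (nat_lit 156) (nat_lit 912) (nat_lit 0) (XT.nd (nat_lit 78) (nat_lit 0) (nat_lit 0) (XT.lf (nat_lit 0) (nat_lit 2659266037) (nat_lit 912) (nat_lit 1164205911) (nat_lit 988) (nat_lit 3991774525) (nat_lit 311) (nat_lit 5) (nat_lit 323) (nat_lit 5) (nat_lit 324) (nat_lit 5) (nat_lit 364) (nat_lit 351) (nat_lit 305)) (XT.lf (nat_lit 76) (nat_lit 3183933790) (nat_lit 0) (nat_lit 1254855255) (nat_lit 988) (nat_lit 3463275279) (nat_lit 312) (nat_lit 5) (nat_lit 311) (nat_lit 5) (nat_lit 324) (nat_lit 5) (nat_lit 365) (nat_lit 351) (nat_lit 304)))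 (XT.nd (nat_lit 78) (nat_lit 988) (nat_lit 0) (XT.lf (nat_lit 0) (nat_lit 6245375965) (nat_lit 912) (nat_lit 358668664) (nat_lit 76) (nat_lit 1388257370) (nat_lit 312) (nat_lit 5) (nat_lit 324) (nat_lit 5) (nat_lit 313) (nat_lit 5) (nat_lit 366) (nat_lit 351) (nat_lit 303)) (XT.lf (nat_lit 0) (nat_lit 22865949) (nat_lit 988) (nat_lit 3924328264) (nat_lit 76) (nat_lit 4137999913) (nat_lit 299) (nat_lit 5) (nat_lit 312) (nat_lit 5) (nat_lit 300) (nat_lit 5) (nat_lit 367) (nat_lit 351) (nat_lit 302))))) (XT.nd (nat_lit 234) (nat_lit 2432) (nat_lit 0) (XT.nd (nat_lit 78) (nat_lit 1064) (nat_lit 0) (XT.lf (nat_lit 0) (nat_lit 597014708) (nat_lit 988) (nat_lit 1173536017) (nat_lit 1064) (nat_lit 6411029550) (nat_lit 286) (nat_lit 5) (nat_lit 299) (nat_lit 5) (nat_lit 300) (nat_lit 5) (nat_lit 368) (nat_lit 351) (nat_lit 301)) (XT.nd (nat_lit 78) (nat_lit 1064) (nat_lit 0) (XT.lf (nat_lit 0) (nat_lit 3578529260) (nat_lit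 1064) (nat_lit 3002847813) (nat_lit 76) (nat_lit 1699267813) (nat_lit 286) (nat_lit 5) (nat_lit 300) (nat_lit 5) (nat_lit 287) (nat_lit 5) (nat_lit 369) (nat_lit 351) (nat_lit 300)) (XT.lf (nat_lit 0) (nat_lit 1697983726) (nat_lit 1064) (nat_lit 3723774188) (nat_lit 1140) (nat_lit 2961515314) (nat_lit 272) (nat_lit 5) (nat_lit 286) (nat_lit 5) (nat_lit 287) (nat_lit 5) (nat_lit 370) (nat_lit 351) (nat_lit 299)))) (XT.nd (nat_lit 156) (nat_lit 1216) (nat_lit 0) (XT.nd (nat_lit 78) (nat_lit 1216) (nat_lit 0) (XT.lf (nat_lit 0) (nat_lit 6561934003) (nat_lit 1064) (nat_lit 742729414) (nat_lit 1140) (nat_lit 1184807072) (nat_lit 272) (nat_lit 5) (nat_lit 286) (nat_lit 5) (nat_lit 287) (nat_lit 5) (nat_lit 371) (nat_lit 351) (nat_lit 298)) (XT.lf (nat_lit 0) (nat_lit 639023947) (nat_lit 1216) (nat_lit 5636175283) (nat_lit 76) (nat_lit 2323296261) (nat_lit 256) (nat_lit 5) (nat_lit 272) (nat_lit 5) (nat_lit 257) (nat_lit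 5) (nat_lit 372) (nat_lit 351) (nat_lit 297))) (XT.nd (nat_lit 78) (nat_lit 1216) (nat_lit 0) (XT.lf (nat_lit 0) (nat_lit 2476690455) (nat_lit 1216) (nat_lit 731338421) (nat_lit 76) (nat_lit 5502942070) (nat_lit 256) (nat_lit 5) (nat_lit 272) (nat_lit 5) (nat_lit 257) (nat_lit 5) (nat_lit 373) (nat_lit 351) (nat_lit 296)) (XT.lf (nat_lit 0) (nat_lit 4366788237) (nat_lit 1216) (nat_lit 1881946) (nat_lit 1292) (nat_lit 4458194062) (nat_lit 240) (nat_lit 5) (nat_lit 256) (nat_lit 5) (nat_lit 257) (nat_lit 5) (nat_lit 374) (nat_lit 351) (nat_lit 295)))))) (XT.nd (nat_lit 546) (nat_lit 2584) (nat_lit 0) (XT.nd (nat_lit 234) (nat_lit 1140) (nat_lit 0) (XT.nd (nat_lit 78) (nat_lit 684) (nat_lit 0) (XT.lf (nat_lit 0) (nat_lit 627287986) (nat_lit 608) (nat_lit 5693447953) (nat_lit 684) (nat_lit 2625417123) (nat_lit 232) (nat_lit 5) (nat_lit 240) (nat_lit 5) (nat_lit 241) (nat_lit 5) (nat_lit 375) (nat_lit 351) (nat_lit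 294)) (XT.nd (nat_lit 78) (nat_lit 684) (nat_lit 0) (XT.lf (nat_lit 0) (nat_lit 5919081925) (nat_lit 608) (nat_lit 2416290206) (nat_lit 684) (nat_lit 733546141) (nat_lit 232) (nat_lit 5) (nat_lit 240) (nat_lit 5) (nat_lit 241) (nat_lit 5) (nat_lit 376) (nat_lit 351) (nat_lit 293)) (XT.lf (nat_lit 0) (nat_lit 1181474696) (nat_lit 684) (nat_lit 7039590727) (nat_lit 76) (nat_lit 974264429) (nat_lit 223) (nat_lit 5) (nat_lit 232) (nat_lit 5) (nat_lit 224) (nat_lit 5) (nat_lit 377) (nat_lit 351) (nat_lit 292)))) (XT.nd (nat_lit 156) (nat_lit 532) (nat_lit 0) (XT.nd (nat_lit 78) (nat_lit 608) (nat_lit 0) (XT.lf (nat_lit 0) (nat_lit 3155788879) (nat_lit 684) (nat_lit 1711115733) (nat_lit 76) (nat_lit 4457930149) (nat_lit 223) (nat_lit 5) (nat_lit 232) (nat_lit 5) (nat_lit 224) (nat_lit 5) (nat_lit 378) (nat_lit 351) (nat_lit 291)) (XT.lf (nat_lit 0) (nat_lit 3812695290) (nat_lit 608) (nat_lit 1374976975) (nat_lit 684)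 (nat_lit 4270618336) (nat_lit 215) (nat_lit 5) (nat_lit 223) (nat_lit 5) (nat_lit 224) (nat_lit 5) (nat_lit 379) (nat_lit 351) (nat_lit 290))) (XT.nd (nat_lit 78) (nat_lit 532) (nat_lit 0) (XT.lf (nat_lit 0) (nat_lit 7281744444) (nat_lit 684) (nat_lit 119131617) (nat_lit 76) (nat_lit 2194852594) (nat_lit 215) (nat_lit 5) (nat_lit 224) (nat_lit 5) (nat_lit 216) (nat_lit 5) (nat_lit 380) (nat_lit 351) (nat_lit 289)) (XT.lf (nat_lit 0) (nat_lit 5630877254) (nat_lit 532) (nat_lit 3839022875) (nat_lit 608) (nat_lit 266466941) (nat_lit 208) (nat_lit 5) (nat_lit 215) (nat_lit 5) (nat_lit 216) (nat_lit 5) (nat_lit 381) (nat_lit 351) (nat_lit 288))))) (XT.nd (nat_lit 312) (nat_lit 1520) (nat_lit 0) (XT.nd (nat_lit 156) (nat_lit 456) (nat_lit 0) (XT.nd (nat_lit 78) (nat_lit 0) (nat_lit 0) (XT.lf (nat_lit 0) (nat_lit 1650249411) (nat_lit 532) (nat_lit 137198777) (nat_lit 608) (nat_lit 8093831542) (nat_lit 200) (nat_lit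 5) (nat_lit 207) (nat_lit 5) (nat_lit 208) (nat_lit 5) (nat_lit 382) (nat_lit 351) (nat_lit 287)) (XT.lf (nat_lit 0) (nat_lit 3939327353) (nat_lit 608) (nat_lit 2444396026) (nat_lit 76) (nat_lit 3645499954) (nat_lit 200) (nat_lit 5) (nat_lit 208) (nat_lit 5) (nat_lit 201) (nat_lit 5) (nat_lit 383) (nat_lit 351) (nat_lit 286))) (XT.nd (nat_lit 78) (nat_lit 0) (nat_lit 0) (XT.lf (nat_lit 0) (nat_lit 3545273867) (nat_lit 456) (nat_lit 2611462255) (nat_lit 532) (nat_lit 4024853305) (nat_lit 194) (nat_lit 5) (nat_lit 200) (nat_lit 5) (nat_lit 201) (nat_lit 5) (nat_lit 384) (nat_lit 351) (nat_lit 285)) (XT.lf (nat_lit 0) (nat_lit 8443975019) (nat_lit 532) (nat_lit 624532261) (nat_lit 76) (nat_lit 1269932977) (nat_lit 194) (nat_lit 5) (nat_lit 201) (nat_lit 5) (nat_lit 195) (nat_lit 5) (nat_lit 385) (nat_lit 351) (nat_lit 284)))) (XT.nd (nat_lit 156) (nat_lit 456) (nat_lit 0) (XT.nd (nat_lit 78) (nat_lit 456) (nat_lit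 0) (XT.lf (nat_lit 0) (nat_lit 341371817) (nat_lit 608) (nat_lit 4888522776) (nat_lit 76) (nat_lit 5268606150) (nat_lit 186) (nat_lit 5) (nat_lit 194) (nat_lit 5) (nat_lit 187) (nat_lit 5) (nat_lit 386) (nat_lit 351) (nat_lit 283)) (XT.lf (nat_lit 0) (nat_lit 1350534986) (nat_lit 456) (nat_lit 1242409050) (nat_lit 532) (nat_lit 8070266076) (nat_lit 180) (nat_lit 5) (nat_lit 186) (nat_lit 5) (nat_lit 187) (nat_lit 5) (nat_lit 387) (nat_lit 351) (nat_lit 282))) (XT.nd (nat_lit 78) (nat_lit 456) (nat_lit 0) (XT.lf (nat_lit 0) (nat_lit 4957371220) (nat_lit 532) (nat_lit 3021125746) (nat_lit 76) (nat_lit 2853016101) (nat_lit 180) (nat_lit 5) (nat_lit 187) (nat_lit 5) (nat_lit 181) (nat_lit 5) (nat_lit 388) (nat_lit 351) (nat_lit 281)) (XT.lf (nat_lit 0) (nat_lit 3477153534) (nat_lit 456) (nat_lit 3930155027) (nat_lit 532) (nat_lit 3597130435) (nat_lit 174) (nat_lit 5) (nat_lit 180) (nat_lit 5) (nat_lit 181) (nat_lit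 5) (nat_lit 389) (nat_lit 351) (nat_lit 280))))))))
noncomputable def xc129 : XT := (XT.nd (nat_lit 2184) (nat_lit 3344) (nat_lit 0) (XT.nd (nat_lit 1092) (nat_lit 2508) (nat_lit 0) (XT.nd (nat_lit 546) (nat_lit 1520) (nat_lit 0) (XT.nd (nat_lit 234) (nat_lit 836) (nat_lit 0) (XT.nd (nat_lit 78) (nat_lit 912) (nat_lit 0) (XT.lf (nat_lit 0) (nat_lit 9933195003) (nat_lit 532) (nat_lit 989996138) (nat_lit 76) (nat_lit 259298912) (nat_lit 174) (nat_lit 5) (nat_lit 181) (nat_lit 5) (nat_lit 175) (nat_lit 5) (nat_lit 390) (nat_lit 351) (nat_lit 279)) (XT.nd (nat_lit 78) (nat_lit 456) (nat_lit 0) (XT.lf (nat_lit 0) (nat_lit 1211502378) (nat_lit 456) (nat_lit 5595490479) (nat_lit 76) (nat_lit 4556602793) (nat_lit 168) (nat_lit 5) (nat_lit 174) (nat_lit 5) (nat_lit 169) (nat_lit 5) (nat_lit 391) (nat_lit 351) (nat_lit 278)) (XT.lf (nat_lit 0) (nat_lit 1172631473) (nat_lit 456) (nat_lit 2540197330) (nat_lit 532) (nat_lit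 7837190050) (nat_lit 162) (nat_lit 5) (nat_lit 168) (nat_lit 5) (nat_lit 169) (nat_lit 5) (nat_lit 392) (nat_lit 351) (nat_lit 277)))) (XT.nd (nat_lit 156) (nat_lit 456) (nat_lit 0) (XT.nd (nat_lit 78) (nat_lit 380) (nat_lit 0) (XT.lf (nat_lit 0) (nat_lit 6334964116) (nat_lit 532) (nat_lit 3537860674) (nat_lit 76) (nat_lit 1867846555) (nat_lit 162) (nat_lit 5) (nat_lit 169) (nat_lit 5) (nat_lit 163) (nat_lit 5) (nat_lit 393) (nat_lit 351) (nat_lit 276)) (XT.lf (nat_lit 0) (nat_lit 3513729832) (nat_lit 380) (nat_lit 5552687043) (nat_lit 456) (nat_lit 2869716319) (nat_lit 157) (nat_lit 5) (nat_lit 162) (nat_lit 5) (nat_lit 163) (nat_lit 5) (nat_lit 394) (nat_lit 351) (nat_lit 275))) (XT.nd (nat_lit 78) (nat_lit 456) (nat_lit 0) (XT.lf (nat_lit 0) (nat_lit 10813211877) (nat_lit 380) (nat_lit 1074529311) (nat_lit 456) (nat_lit 249488981) (nat_lit 157) (nat_lit 5) (nat_lit 162) (nat_lit 5) (nat_lit 163) (nat_lit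 5) (nat_lit 395) (nat_lit 351) (nat_lit 274)) (XT.lf (nat_lit 0) (nat_lit 2467141347) (nat_lit 456) (nat_lit 6331395299) (nat_lit 76) (nat_lit 3543157905) (nat_lit 151) (nat_lit 5) (nat_lit 157) (nat_lit 5) (nat_lit 152) (nat_lit 5) (nat_lit 396) (nat_lit 351) (nat_lit 273))))) (XT.nd (nat_lit 234) (nat_lit 760) (nat_lit 0) (XT.nd (nat_lit 78) (nat_lit 380) (nat_lit 0) (XT.lf (nat_lit 0) (nat_lit 1010311727) (nat_lit 380) (nat_lit 4256906288) (nat_lit 456) (nat_lit 7284800224) (nat_lit 146) (nat_lit 5) (nat_lit 151) (nat_lit 5) (nat_lit 152) (nat_lit 5) (nat_lit 397) (nat_lit 351) (nat_lit 272)) (XT.nd (nat_lit 78) (nat_lit 380) (nat_lit 0) (XT.lf (nat_lit 0) (nat_lit 8193371324) (nat_lit 456) (nat_lit 4105772345) (nat_lit 76) (nat_lit 468253834) (nat_lit 146) (nat_lit 5) (nat_lit 152) (nat_lit 5) (nat_lit 147) (nat_lit 5) (nat_lit 398) (nat_lit 351) (nat_lit 271)) (XT.lf (nat_lit 0) (nat_lit 3544910462) (nat_lit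 380) (nat_lit 7712855209) (nat_lit 456) (nat_lit 1729966640) (nat_lit 141) (nat_lit 5) (nat_lit 146) (nat_lit 5) (nat_lit 147) (nat_lit 5) (nat_lit 399) (nat_lit 351) (nat_lit 270)))) (XT.nd (nat_lit 156) (nat_lit 380) (nat_lit 0) (XT.nd (nat_lit 78) (nat_lit 304) (nat_lit 0) (XT.lf (nat_lit 0) (nat_lit 1192269001) (nat_lit 456) (nat_lit 1751621569) (nat_lit 76) (nat_lit 10269960337) (nat_lit 140) (nat_lit 5) (nat_lit 146) (nat_lit 5) (nat_lit 141) (nat_lit 5) (nat_lit 400) (nat_lit 351) (nat_lit 269)) (XT.lf (nat_lit 0) (nat_lit 4222112721) (nat_lit 380) (nat_lit 7224313903) (nat_lit 76) (nat_lit 1998178430) (nat_lit 136) (nat_lit 5) (nat_lit 141) (nat_lit 5) (nat_lit 137) (nat_lit 5) (nat_lit 401) (nat_lit 351) (nat_lit 268))) (XT.nd (nat_lit 78) (nat_lit 0) (nat_lit 0) (XT.lf (nat_lit 0) (nat_lit 735749802) (nat_lit 380) (nat_lit 6636622217) (nat_lit 456) (nat_lit 6309031181) (nat_lit 131) (nat_lit 5) (nat_lit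 136) (nat_lit 5) (nat_lit 137) (nat_lit 5) (nat_lit 402) (nat_lit 351) (nat_lit 267)) (XT.lf (nat_lit 0) (nat_lit 9048246603) (nat_lit 380) (nat_lit 1617665351) (nat_lit 456) (nat_lit 3257936929) (nat_lit 131) (nat_lit 5) (nat_lit 136) (nat_lit 5) (nat_lit 137) (nat_lit 5) (nat_lit 403) (nat_lit 351) (nat_lit 266)))))) (XT.nd (nat_lit 546) (nat_lit 1140) (nat_lit 0) (XT.nd (nat_lit 234) (nat_lit 684) (nat_lit 0) (XT.nd (nat_lit 78) (nat_lit 380) (nat_lit 0) (XT.lf (nat_lit 0) (nat_lit 3435372885) (nat_lit 304) (nat_lit 10666480491) (nat_lit 380) (nat_lit 70413284) (nat_lit 127) (nat_lit 5) (nat_lit 131) (nat_lit 5) (nat_lit 132) (nat_lit 5) (nat_lit 404) (nat_lit 351) (nat_lit 265)) (XT.nd (nat_lit 78) (nat_lit 304) (nat_lit 0) (XT.lf (nat_lit 0) (nat_lit 3192337882) (nat_lit 380) (nat_lit 2412634401) (nat_lit 76) (nat_lit 8820975591) (nat_lit 126) (nat_lit 5) (nat_lit 131) (nat_lit 5) (nat_lit 127) (nat_lit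 5) (nat_lit 405) (nat_lit 351) (nat_lit 264)) (XT.lf (nat_lit 0) (nat_lit 6249390026) (nat_lit 304) (nat_lit 339478009) (nat_lit 380) (nat_lit 8097237248) (nat_lit 122) (nat_lit 5) (nat_lit 126) (nat_lit 5) (nat_lit 127) (nat_lit 5) (nat_lit 406) (nat_lit 351) (nat_lit 263)))) (XT.nd (nat_lit 156) (nat_lit 380) (nat_lit 0) (XT.nd (nat_lit 78) (nat_lit 0) (nat_lit 0) (XT.lf (nat_lit 0) (nat_lit 188496333) (nat_lit 304) (nat_lit 9951568989) (nat_lit 380) (nat_lit 4812424802) (nat_lit 118) (nat_lit 5) (nat_lit 122) (nat_lit 5) (nat_lit 123) (nat_lit 5) (nat_lit 407) (nat_lit 351) (nat_lit 262)) (XT.lf (nat_lit 0) (nat_lit 9208843042) (nat_lit 304) (nat_lit 4655300085) (nat_lit 380) (nat_lit 1360738723) (nat_lit 118) (nat_lit 5) (nat_lit 122) (nat_lit 5) (nat_lit 123) (nat_lit 5) (nat_lit 408) (nat_lit 351) (nat_lit 261))) (XT.nd (nat_lit 78) (nat_lit 0) (nat_lit 0) (XT.lf (nat_lit 0) (nat_lit 2166833366) (nat_lit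 380) (nat_lit 12513510041) (nat_lit 76) (nat_lit 824019688) (nat_lit 113) (nat_lit 5) (nat_lit 118) (nat_lit 5) (nat_lit 114) (nat_lit 5) (nat_lit 409) (nat_lit 351) (nat_lit 260)) (XT.lf (nat_lit 0) (nat_lit 5858795031) (nat_lit 380) (nat_lit 3492132425) (nat_lit 76) (nat_lit 6438324978) (nat_lit 113) (nat_lit 5) (nat_lit 118) (nat_lit 5) (nat_lit 114) (nat_lit 5) (nat_lit 410) (nat_lit 351) (nat_lit 259))))) (XT.nd (nat_lit 234) (nat_lit 532) (nat_lit 0) (XT.nd (nat_lit 78) (nat_lit 380) (nat_lit 0) (XT.lf (nat_lit 0) (nat_lit 5882803042) (nat_lit 228) (nat_lit 3814356898) (nat_lit 304) (nat_lit 6384464226) (nat_lit 110) (nat_lit 5) (nat_lit 113) (nat_lit 5) (nat_lit 114) (nat_lit 5) (nat_lit 411) (nat_lit 351) (nat_lit 258)) (XT.nd (nat_lit 78) (nat_lit 380) (nat_lit 0) (XT.lf (nat_lit 0) (nat_lit 13683735556) (nat_lit 304) (nat_lit 821721101) (nat_lit 76) (nat_lit 1876323499) (nat_lit 110) (nat_lit 5) (nat_lit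 114) (nat_lit 5) (nat_lit 111) (nat_lit 5) (nat_lit 412) (nat_lit 351) (nat_lit 257)) (XT.lf (nat_lit 0) (nat_lit 1182166990) (nat_lit 380) (nat_lit 7757153413) (nat_lit 76) (nat_lit 7748168793) (nat_lit 105) (nat_lit 5) (nat_lit 110) (nat_lit 5) (nat_lit 106) (nat_lit 5) (nat_lit 413) (nat_lit 351) (nat_lit 256)))) (XT.nd (nat_lit 156) (nat_lit 304) (nat_lit 0) (XT.nd (nat_lit 78) (nat_lit 0) (nat_lit 0) (XT.lf (nat_lit 0) (nat_lit 1970080136) (nat_lit 228) (nat_lit 3161780993) (nat_lit 304) (nat_lit 11869492335) (nat_lit 102) (nat_lit 5) (nat_lit 105) (nat_lit 5) (nat_lit 106) (nat_lit 5) (nat_lit 414) (nat_lit 351) (nat_lit 255)) (XT.lf (nat_lit 0) (nat_lit 9286128492) (nat_lit 304) (nat_lit 5233153025) (nat_lit 76) (nat_lit 2802774021) (nat_lit 102) (nat_lit 5) (nat_lit 106) (nat_lit 5) (nat_lit 103) (nat_lit 5) (nat_lit 415) (nat_lit 351) (nat_lit 254))) (XT.nd (nat_lit 78) (nat_lit 76) (nat_lit 0) (XT.lf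 (nat_lit 0) (nat_lit 4892564964) (nat_lit 228) (nat_lit 8731536145) (nat_lit 304) (nat_lit 4026509474) (nat_lit 99) (nat_lit 5) (nat_lit 102) (nat_lit 5) (nat_lit 103) (nat_lit 5) (nat_lit 416) (nat_lit 351) (nat_lit 253)) (XT.lf (nat_lit 0) (nat_lit 135365408) (nat_lit 304) (nat_lit 2590222357) (nat_lit 76) (nat_lit 15262383085) (nat_lit 98) (nat_lit 5) (nat_lit 102) (nat_lit 5) (nat_lit 99) (nat_lit 5) (nat_lit 417) (nat_lit 351) (nat_lit 252))))))) (XT.nd (nat_lit 1092) (nat_lit 1444) (nat_lit 0) (XT.nd (nat_lit 546) (nat_lit 912) (nat_lit 0) (XT.nd (nat_lit 234) (nat_lit 532) (nat_lit 0) (XT.nd (nat_lit 78) (nat_lit 228) (nat_lit 0) (XT.lf (nat_lit 0) (nat_lit 4433456911) (nat_lit 304) (nat_lit 10398275446) (nat_lit 76) (nat_lit 3499758765) (nat_lit 95) (nat_lit 5) (nat_lit 99) (nat_lit 5) (nat_lit 96) (nat_lit 5) (nat_lit 418) (nat_lit 351) (nat_lit 251)) (XT.nd (nat_lit 78) (nat_lit 0) (nat_lit 0) (XT.lf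 (nat_lit 0) (nat_lit 85479486) (nat_lit 228) (nat_lit 8810767046) (nat_lit 304) (nat_lit 9788001563) (nat_lit 92) (nat_lit 5) (nat_lit 95) (nat_lit 5) (nat_lit 96) (nat_lit 5) (nat_lit 419) (nat_lit 351) (nat_lit 250)) (XT.lf (nat_lit 0) (nat_lit 11067329223) (nat_lit 228) (nat_lit 2512378968) (nat_lit 304) (nat_lit 5465279578) (nat_lit 92) (nat_lit 5) (nat_lit 95) (nat_lit 5) (nat_lit 96) (nat_lit 5) (nat_lit 420) (nat_lit 351) (nat_lit 249)))) (XT.nd (nat_lit 156) (nat_lit 228) (nat_lit 0) (XT.nd (nat_lit 78) (nat_lit 76) (nat_lit 0) (XT.lf (nat_lit 0) (nat_lit 2952346985) (nat_lit 228) (nat_lit 15500126888) (nat_lit 304) (nat_lit 962615295) (nat_lit 89) (nat_lit 5) (nat_lit 92) (nat_lit 5) (nat_lit 93) (nat_lit 5) (nat_lit 421) (nat_lit 351) (nat_lit 248)) (XT.lf (nat_lit 0) (nat_lit 3691919589) (nat_lit 304) (nat_lit 5510299657) (nat_lit 76) (nat_lit 10590362699) (nat_lit 88) (nat_lit 5) (nat_lit 92) (nat_lit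 5) (nat_lit 89) (nat_lit 5) (nat_lit 422) (nat_lit 351) (nat_lit 247))) (XT.nd (nat_lit 78) (nat_lit 0) (nat_lit 0) (XT.lf (nat_lit 0) (nat_lit 5846921117) (nat_lit 228) (nat_lit 2658816571) (nat_lit 304) (nat_lit 11674209287) (nat_lit 85) (nat_lit 5) (nat_lit 88) (nat_lit 5) (nat_lit 89) (nat_lit 5) (nat_lit 423) (nat_lit 351) (nat_lit 246)) (XT.lf (nat_lit 0) (nat_lit 13542307659) (nat_lit 304) (nat_lit 2987714730) (nat_lit 76) (nat_lit 4046563589) (nat_lit 85) (nat_lit 5) (nat_lit 89) (nat_lit 5) (nat_lit 86) (nat_lit 5) (nat_lit 424) (nat_lit 351) (nat_lit 245))))) (XT.nd (nat_lit 234) (nat_lit 456) (nat_lit 0) (XT.nd (nat_lit 78) (nat_lit 304) (nat_lit 0) (XT.lf (nat_lit 0) (nat_lit 8816006141) (nat_lit 152) (nat_lit 10008451156) (nat_lit 228) (nat_lit 2157835431) (nat_lit 83) (nat_lit 5) (nat_lit 85) (nat_lit 5) (nat_lit 86) (nat_lit 5) (nat_lit 425) (nat_lit 351) (nat_lit 244)) (XT.nd (nat_lit 78) (nat_lit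 228) (nat_lit 0) (XT.lf (nat_lit 0) (nat_lit 2822932709) (nat_lit 228) (nat_lit 419737073) (nat_lit 76) (nat_lit 18156259502) (nat_lit 82) (nat_lit 5) (nat_lit 85) (nat_lit 5) (nat_lit 83) (nat_lit 5) (nat_lit 426) (nat_lit 351) (nat_lit 243)) (XT.lf (nat_lit 0) (nat_lit 8044785101) (nat_lit 304) (nat_lit 9999128551) (nat_lit 76) (nat_lit 3779462191) (nat_lit 79) (nat_lit 5) (nat_lit 83) (nat_lit 5) (nat_lit 80) (nat_lit 5) (nat_lit 427) (nat_lit 351) (nat_lit 242)))) (XT.nd (nat_lit 156) (nat_lit 304) (nat_lit 0) (XT.nd (nat_lit 78) (nat_lit 0) (nat_lit 0) (XT.lf (nat_lit 0) (nat_lit 2166841677) (nat_lit 152) (nat_lit 11297723244) (nat_lit 228) (nat_lit 8794755435) (nat_lit 77) (nat_lit 5) (nat_lit 79) (nat_lit 5) (nat_lit 80) (nat_lit 5) (nat_lit 428) (nat_lit 351) (nat_lit 241)) (XT.lf (nat_lit 0) (nat_lit 14876007904) (nat_lit 152) (nat_lit 4256165722) (nat_lit 228) (nat_lit 3573615144) (nat_lit 77) (nat_lit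 5) (nat_lit 79) (nat_lit 5) (nat_lit 80) (nat_lit 5) (nat_lit 429) (nat_lit 351) (nat_lit 240))) (XT.nd (nat_lit 78) (nat_lit 0) (nat_lit 0) (XT.lf (nat_lit 0) (nat_lit 1829495749) (nat_lit 304) (nat_lit 18341685444) (nat_lit 76) (nat_lit 2992135984) (nat_lit 73) (nat_lit 5) (nat_lit 77) (nat_lit 5) (nat_lit 74) (nat_lit 5) (nat_lit 430) (nat_lit 351) (nat_lit 239)) (XT.lf (nat_lit 0) (nat_lit 7429526308) (nat_lit 304) (nat_lit 5723798992) (nat_lit 76) (nat_lit 10476987502) (nat_lit 73) (nat_lit 5) (nat_lit 77) (nat_lit 5) (nat_lit 74) (nat_lit 5) (nat_lit 431) (nat_lit 351) (nat_lit 238)))))) (XT.nd (nat_lit 546) (nat_lit 760) (nat_lit 0) (XT.nd (nat_lit 234) (nat_lit 304) (nat_lit 0) (XT.nd (nat_lit 78) (nat_lit 228) (nat_lit 0) (XT.lf (nat_lit 0) (nat_lit 7391238541) (nat_lit 152) (nat_lit 5862478980) (nat_lit 228) (nat_lit 10855918322) (nat_lit 71) (nat_lit 5) (nat_lit 73) (nat_lit 5) (nat_lit 74) (nat_lit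 5) (nat_lit 432) (nat_lit 351) (nat_lit 237)) (XT.nd (nat_lit 78) (nat_lit 228) (nat_lit 0) (XT.lf (nat_lit 0) (nat_lit 19312036721) (nat_lit 228) (nat_lit 3626655073) (nat_lit 76) (nat_lit 1662866983) (nat_lit 71) (nat_lit 5) (nat_lit 74) (nat_lit 5) (nat_lit 72) (nat_lit 5) (nat_lit 433) (nat_lit 351) (nat_lit 236)) (XT.lf (nat_lit 0) (nat_lit 576088947) (nat_lit 228) (nat_lit 15140326970) (nat_lit 76) (nat_lit 9387471093) (nat_lit 68) (nat_lit 5) (nat_lit 71) (nat_lit 5) (nat_lit 69) (nat_lit 5) (nat_lit 434) (nat_lit 351) (nat_lit 235)))) (XT.nd (nat_lit 156) (nat_lit 152) (nat_lit 0) (XT.nd (nat_lit 78) (nat_lit 152) (nat_lit 0) (XT.lf (nat_lit 0) (nat_lit 6534006360) (nat_lit 228) (nat_lit 1662094828) (nat_lit 76) (nat_lit 17422935269) (nat_lit 68) (nat_lit 5) (nat_lit 71) (nat_lit 5) (nat_lit 69) (nat_lit 5) (nat_lit 435) (nat_lit 351) (nat_lit 234)) (XT.lf (nat_lit 0) (nat_lit 12438942182) (nat_lit 152)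 (nat_lit 337374821) (nat_lit 228) (nat_lit 13370155731) (nat_lit 66) (nat_lit 5) (nat_lit 68) (nat_lit 5) (nat_lit 69) (nat_lit 5) (nat_lit 436) (nat_lit 351) (nat_lit 233))) (XT.nd (nat_lit 78) (nat_lit 0) (nat_lit 0) (XT.lf (nat_lit 0) (nat_lit 212927764) (nat_lit 152) (nat_lit 19072692514) (nat_lit 228) (nat_lit 7401722079) (nat_lit 64) (nat_lit 5) (nat_lit 66) (nat_lit 5) (nat_lit 67) (nat_lit 5) (nat_lit 437) (nat_lit 351) (nat_lit 232)) (XT.lf (nat_lit 0) (nat_lit 14804474688) (nat_lit 152) (nat_lit 11313786414) (nat_lit 228) (nat_lit 1122337117) (nat_lit 64) (nat_lit 5) (nat_lit 66) (nat_lit 5) (nat_lit 67) (nat_lit 5) (nat_lit 438) (nat_lit 351) (nat_lit 231))))) (XT.nd (nat_lit 312) (nat_lit 380) (nat_lit 0) (XT.nd (nat_lit 156) (nat_lit 152) (nat_lit 0) (XT.nd (nat_lit 78) (nat_lit 0) (nat_lit 0) (XT.lf (nat_lit 0) (nat_lit 1987031270) (nat_lit 152) (nat_lit 3259786681) (nat_lit 228) (nat_lit 22561923178)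 (nat_lit 61) (nat_lit 5) (nat_lit 63) (nat_lit 5) (nat_lit 64) (nat_lit 5) (nat_lit 439) (nat_lit 351) (nat_lit 230)) (XT.lf (nat_lit 0) (nat_lit 11946384669) (nat_lit 228) (nat_lit 11376859256) (nat_lit 76) (nat_lit 5065495927) (nat_lit 61) (nat_lit 5) (nat_lit 64) (nat_lit 5) (nat_lit 62) (nat_lit 5) (nat_lit 440) (nat_lit 351) (nat_lit 229))) (XT.nd (nat_lit 78) (nat_lit 0) (nat_lit 0) (XT.lf (nat_lit 0) (nat_lit 3514591394) (nat_lit 152) (nat_lit 15385458473) (nat_lit 228) (nat_lit 10084497016) (nat_lit 59) (nat_lit 5) (nat_lit 61) (nat_lit 5) (nat_lit 62) (nat_lit 5) (nat_lit 441) (nat_lit 351) (nat_lit 228)) (XT.lf (nat_lit 0) (nat_lit 19063173340) (nat_lit 152) (nat_lit 7101245317) (nat_lit 228) (nat_lit 3430748300) (nat_lit 59) (nat_lit 5) (nat_lit 61) (nat_lit 5) (nat_lit 62) (nat_lit 5) (nat_lit 442) (nat_lit 351) (nat_lit 227)))) (XT.nd (nat_lit 156) (nat_lit 152) (nat_lit 0) (XT.nd (nat_lit 78) (nat_lit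 0) (nat_lit 0) (XT.lf (nat_lit 0) (nat_lit 3404787130) (nat_lit 228) (nat_lit 25342242827) (nat_lit 76) (nat_lit 1474621361) (nat_lit 56) (nat_lit 5) (nat_lit 59) (nat_lit 5) (nat_lit 57) (nat_lit 5) (nat_lit 443) (nat_lit 351) (nat_lit 226)) (XT.lf (nat_lit 0) (nat_lit 10541664251) (nat_lit 228) (nat_lit 10022493826) (nat_lit 76) (nat_lit 10296797694) (nat_lit 56) (nat_lit 5) (nat_lit 59) (nat_lit 5) (nat_lit 57) (nat_lit 5) (nat_lit 444) (nat_lit 351) (nat_lit 225))) (XT.nd (nat_lit 78) (nat_lit 0) (nat_lit 0) (XT.lf (nat_lit 0) (nat_lit 5849168280) (nat_lit 152) (nat_lit 12087584248) (nat_lit 228) (nat_lit 13581365140) (nat_lit 54) (nat_lit 5) (nat_lit 56) (nat_lit 5) (nat_lit 57) (nat_lit 5) (nat_lit 445) (nat_lit 351) (nat_lit 224)) (XT.lf (nat_lit 0) (nat_lit 22380827739) (nat_lit 152) (nat_lit 3262097677) (nat_lit 228) (nat_lit 6549393462) (nat_lit 54) (nat_lit 5) (nat_lit 56) (nat_lit 5) (nat_lit 57)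 (nat_lit 5) (nat_lit 446) (nat_lit 351) (nat_lit 223))))))))
noncomputable def xc130 : XT := (XT.nd (nat_lit 2184) (nat_lit 532) (nat_lit 0) (XT.nd (nat_lit 1092) (nat_lit 836) (nat_lit 0) (XT.nd (nat_lit 546) (nat_lit 380) (nat_lit 0) (XT.nd (nat_lit 234) (nat_lit 304) (nat_lit 0) (XT.nd (nat_lit 78) (nat_lit 152) (nat_lit 0) (XT.lf (nat_lit 0) (nat_lit 788554701) (nat_lit 152) (nat_lit 26318564767) (nat_lit 76) (nat_lit 5776171467) (nat_lit 52) (nat_lit 5) (nat_lit 54) (nat_lit 5) (nat_lit 53) (nat_lit 5) (nat_lit 447) (nat_lit 351) (nat_lit 222)) (XT.nd (nat_lit 78) (nat_lit 152) (nat_lit 0) (XT.lf (nat_lit 0) (nat_lit 8335667340) (nat_lit 152) (nat_lit 10078049061) (nat_lit 76) (nat_lit 15175711813) (nat_lit 52) (nat_lit 5) (nat_lit 54) (nat_lit 5) (nat_lit 53) (nat_lit 5) (nat_lit 448) (nat_lit 351) (nat_lit 221)) (XT.lf (nat_lit 0) (nat_lit 6760971544) (nat_lit 152) (nat_lit 9401859571) (nat_lit 228) (nat_lit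 18152310622) (nat_lit 50) (nat_lit 5) (nat_lit 52) (nat_lit 5) (nat_lit 53) (nat_lit 5) (nat_lit 449) (nat_lit 351) (nat_lit 220)))) (XT.nd (nat_lit 156) (nat_lit 228) (nat_lit 0) (XT.nd (nat_lit 78) (nat_lit 76) (nat_lit 0) (XT.lf (nat_lit 0) (nat_lit 24291313782) (nat_lit 152) (nat_lit 24045909) (nat_lit 228) (nat_lit 10744551697) (nat_lit 50) (nat_lit 5) (nat_lit 52) (nat_lit 5) (nat_lit 53) (nat_lit 5) (nat_lit 450) (nat_lit 351) (nat_lit 219)) (XT.lf (nat_lit 0) (nat_lit 6535366513) (nat_lit 76) (nat_lit 26321560108) (nat_lit 152) (nat_lit 2965764819) (nat_lit 49) (nat_lit 5) (nat_lit 50) (nat_lit 5) (nat_lit 51) (nat_lit 4) (nat_lit 451) (nat_lit 351) (nat_lit 218))) (XT.nd (nat_lit 78) (nat_lit 152) (nat_lit 0) (XT.lf (nat_lit 0) (nat_lit 5047011029) (nat_lit 152) (nat_lit 12095829036) (nat_lit 76) (nat_lit 19461087721) (nat_lit 48) (nat_lit 5) (nat_lit 50) (nat_lit 5) (nat_lit 49) (nat_lit 5) (nat_lit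 452) (nat_lit 351) (nat_lit 217)) (XT.lf (nat_lit 0) (nat_lit 5673230585) (nat_lit 152) (nat_lit 7611226431) (nat_lit 228) (nat_lit 24121947496) (nat_lit 46) (nat_lit 5) (nat_lit 48) (nat_lit 5) (nat_lit 49) (nat_lit 5) (nat_lit 453) (nat_lit 351) (nat_lit 216))))) (XT.nd (nat_lit 234) (nat_lit 228) (nat_lit 0) (XT.nd (nat_lit 78) (nat_lit 152) (nat_lit 0) (XT.lf (nat_lit 0) (nat_lit 21902989073) (nat_lit 228) (nat_lit 14047957235) (nat_lit 76) (nat_lit 2277991406) (nat_lit 46) (nat_lit 5) (nat_lit 49) (nat_lit 5) (nat_lit 47) (nat_lit 4) (nat_lit 454) (nat_lit 351) (nat_lit 215)) (XT.nd (nat_lit 78) (nat_lit 76) (nat_lit 0) (XT.lf (nat_lit 0) (nat_lit 4154534341) (nat_lit 76) (nat_lit 26730546611) (nat_lit 152) (nat_lit 8187916864) (nat_lit 45) (nat_lit 5) (nat_lit 46) (nat_lit 5) (nat_lit 47) (nat_lit 4) (nat_lit 455) (nat_lit 351) (nat_lit 214)) (XT.lf (nat_lit 0) (nat_lit 323453103) (nat_lit 152) (nat_lit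 16769337921) (nat_lit 76) (nat_lit 22845544007) (nat_lit 44) (nat_lit 5) (nat_lit 46) (nat_lit 5) (nat_lit 45) (nat_lit 5) (nat_lit 456) (nat_lit 351) (nat_lit 213)))) (XT.nd (nat_lit 156) (nat_lit 76) (nat_lit 0) (XT.nd (nat_lit 78) (nat_lit 0) (nat_lit 0) (XT.lf (nat_lit 0) (nat_lit 1861050373) (nat_lit 152) (nat_lit 7072460083) (nat_lit 228) (nat_lit 31893453330) (nat_lit 42) (nat_lit 5) (nat_lit 44) (nat_lit 5) (nat_lit 45) (nat_lit 5) (nat_lit 457) (nat_lit 351) (nat_lit 212)) (XT.lf (nat_lit 0) (nat_lit 17994169606) (nat_lit 228) (nat_lit 20394462115) (nat_lit 76) (nat_lit 3347851585) (nat_lit 42) (nat_lit 5) (nat_lit 45) (nat_lit 5) (nat_lit 43) (nat_lit 4) (nat_lit 458) (nat_lit 351) (nat_lit 211))) (XT.nd (nat_lit 78) (nat_lit 76) (nat_lit 0) (XT.lf (nat_lit 0) (nat_lit 27387022064) (nat_lit 228) (nat_lit 1353846149) (nat_lit 76) (nat_lit 13930609877) (nat_lit 42) (nat_lit 5) (nat_lit 45) (nat_lit 5)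 (nat_lit 43) (nat_lit 4) (nat_lit 459) (nat_lit 351) (nat_lit 210)) (XT.lf (nat_lit 0) (nat_lit 18603579575) (nat_lit 76) (nat_lit 18627539778) (nat_lit 152) (nat_lit 6398320443) (nat_lit 41) (nat_lit 5) (nat_lit 42) (nat_lit 5) (nat_lit 43) (nat_lit 4) (nat_lit 460) (nat_lit 351) (nat_lit 209)))))) (XT.nd (nat_lit 546) (nat_lit 304) (nat_lit 0) (XT.nd (nat_lit 234) (nat_lit 304) (nat_lit 0) (XT.nd (nat_lit 78) (nat_lit 152) (nat_lit 0) (XT.lf (nat_lit 0) (nat_lit 2705102236) (nat_lit 152) (nat_lit 5472309618) (nat_lit 76) (nat_lit 36437801458) (nat_lit 40) (nat_lit 5) (nat_lit 42) (nat_lit 5) (nat_lit 41) (nat_lit 5) (nat_lit 461) (nat_lit 351) (nat_lit 208)) (XT.nd (nat_lit 78) (nat_lit 0) (nat_lit 0) (XT.lf (nat_lit 0) (nat_lit 12113788201) (nat_lit 228) (nat_lit 30773591043) (nat_lit 76) (nat_lit 2736458265) (nat_lit 38) (nat_lit 5) (nat_lit 41) (nat_lit 5) (nat_lit 39) (nat_lit 4) (nat_lit 462) (nat_lit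 351) (nat_lit 207)) (XT.lf (nat_lit 0) (nat_lit 21932451544) (nat_lit 228) (nat_lit 10864886658) (nat_lit 76) (nat_lit 13861551489) (nat_lit 38) (nat_lit 5) (nat_lit 41) (nat_lit 5) (nat_lit 39) (nat_lit 4) (nat_lit 463) (nat_lit 351) (nat_lit 206)))) (XT.nd (nat_lit 156) (nat_lit 228) (nat_lit 0) (XT.nd (nat_lit 78) (nat_lit 0) (nat_lit 0) (XT.lf (nat_lit 0) (nat_lit 9816152960) (nat_lit 76) (nat_lit 22315090017) (nat_lit 152) (nat_lit 15591184153) (nat_lit 37) (nat_lit 5) (nat_lit 38) (nat_lit 5) (nat_lit 39) (nat_lit 4) (nat_lit 464) (nat_lit 351) (nat_lit 205)) (XT.lf (nat_lit 0) (nat_lit 31324030408) (nat_lit 76) (nat_lit 11412990350) (nat_lit 152) (nat_lit 6077819973) (nat_lit 37) (nat_lit 5) (nat_lit 38) (nat_lit 5) (nat_lit 39) (nat_lit 4) (nat_lit 465) (nat_lit 351) (nat_lit 204))) (XT.nd (nat_lit 78) (nat_lit 0) (nat_lit 0) (XT.lf (nat_lit 0) (nat_lit 3554706520) (nat_lit 152) (nat_lit 119277053) (nat_lit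 228) (nat_lit 46264201379) (nat_lit 34) (nat_lit 5) (nat_lit 36) (nat_lit 5) (nat_lit 37) (nat_lit 5) (nat_lit 466) (nat_lit 351) (nat_lit 203)) (XT.lf (nat_lit 0) (nat_lit 13876729036) (nat_lit 228) (nat_lit 25688428225) (nat_lit 76) (nat_lit 11519851222) (nat_lit 34) (nat_lit 5) (nat_lit 37) (nat_lit 5) (nat_lit 35) (nat_lit 4) (nat_lit 467) (nat_lit 351) (nat_lit 202))))) (XT.nd (nat_lit 234) (nat_lit 228) (nat_lit 0) (XT.nd (nat_lit 78) (nat_lit 76) (nat_lit 0) (XT.lf (nat_lit 0) (nat_lit 24378487301) (nat_lit 228) (nat_lit 4389273676) (nat_lit 76) (nat_lit 23498688468) (nat_lit 34) (nat_lit 5) (nat_lit 37) (nat_lit 5) (nat_lit 35) (nat_lit 4) (nat_lit 468) (nat_lit 351) (nat_lit 201)) (XT.nd (nat_lit 78) (nat_lit 0) (nat_lit 0) (XT.lf (nat_lit 0) (nat_lit 17882698550) (nat_lit 76) (nat_lit 17476488986) (nat_lit 152) (nat_lit 18119230041) (nat_lit 33) (nat_lit 5) (nat_lit 34) (nat_lit 5) (nat_lit 35) (nat_lit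 4) (nat_lit 469) (nat_lit 351) (nat_lit 200)) (XT.lf (nat_lit 0) (nat_lit 40897841097) (nat_lit 76) (nat_lit 5807869981) (nat_lit 152) (nat_lit 8019942207) (nat_lit 33) (nat_lit 5) (nat_lit 34) (nat_lit 5) (nat_lit 35) (nat_lit 4) (nat_lit 470) (nat_lit 351) (nat_lit 199)))) (XT.nd (nat_lit 156) (nat_lit 76) (nat_lit 0) (XT.nd (nat_lit 78) (nat_lit 0) (nat_lit 0) (XT.lf (nat_lit 0) (nat_lit 2472640485) (nat_lit 152) (nat_lit 47342209347) (nat_lit 76) (nat_lit 6190665668) (nat_lit 31) (nat_lit 5) (nat_lit 33) (nat_lit 5) (nat_lit 32) (nat_lit 4) (nat_lit 471) (nat_lit 351) (nat_lit 198)) (XT.lf (nat_lit 0) (nat_lit 13309581470) (nat_lit 152) (nat_lit 25359966463) (nat_lit 76) (nat_lit 18646120826) (nat_lit 31) (nat_lit 5) (nat_lit 33) (nat_lit 5) (nat_lit 32) (nat_lit 4) (nat_lit 472) (nat_lit 351) (nat_lit 197))) (XT.nd (nat_lit 78) (nat_lit 76) (nat_lit 0) (XT.lf (nat_lit 0) (nat_lit 24464110047) (nat_lit 152)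 (nat_lit 2732532981) (nat_lit 76) (nat_lit 31468709741) (nat_lit 31) (nat_lit 5) (nat_lit 33) (nat_lit 5) (nat_lit 32) (nat_lit 4) (nat_lit 473) (nat_lit 351) (nat_lit 196)) (XT.lf (nat_lit 0) (nat_lit 20969044221) (nat_lit 76) (nat_lit 15178495951) (nat_lit 152) (nat_lit 23902159675) (nat_lit 30) (nat_lit 5) (nat_lit 31) (nat_lit 5) (nat_lit 32) (nat_lit 4) (nat_lit 474) (nat_lit 351) (nat_lit 195))))))) (XT.nd (nat_lit 43524) (nat_lit 0) (nat_lit 21812) (XT.nd (nat_lit 546) (nat_lit 304) (nat_lit 0) (XT.nd (nat_lit 234) (nat_lit 76) (nat_lit 0) (XT.nd (nat_lit 78) (nat_lit 152) (nat_lit 0) (XT.lf (nat_lit 0) (nat_lit 45423958014) (nat_lit 76) (nat_lit 2777887556) (nat_lit 152) (nat_lit 13273121098) (nat_lit 30) (nat_lit 5) (nat_lit 31) (nat_lit 5) (nat_lit 32) (nat_lit 4) (nat_lit 475) (nat_lit 351) (nat_lit 194)) (XT.nd (nat_lit 78) (nat_lit 76) (nat_lit 0) (XT.lf (nat_lit 0) (nat_lit 7710435223) (nat_lit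 76) (nat_lit 53070466635) (nat_lit 76) (nat_lit 2157196472) (nat_lit 29) (nat_lit 4) (nat_lit 30) (nat_lit 5) (nat_lit 30) (nat_lit 4) (nat_lit 476) (nat_lit 351) (nat_lit 193)) (XT.lf (nat_lit 0) (nat_lit 9295010574) (nat_lit 152) (nat_lit 32058424309) (nat_lit 76) (nat_lit 23083485976) (nat_lit 28) (nat_lit 5) (nat_lit 30) (nat_lit 5) (nat_lit 29) (nat_lit 4) (nat_lit 477) (nat_lit 351) (nat_lit 192)))) (XT.nd (nat_lit 156) (nat_lit 0) (nat_lit 0) (XT.nd (nat_lit 78) (nat_lit 76) (nat_lit 0) (XT.lf (nat_lit 0) (nat_lit 21040568793) (nat_lit 152) (nat_lit 8228558224) (nat_lit 76) (nat_lit 36711146468) (nat_lit 28) (nat_lit 5) (nat_lit 30) (nat_lit 5) (nat_lit 29) (nat_lit 4) (nat_lit 478) (nat_lit 351) (nat_lit 191)) (XT.lf (nat_lit 0) (nat_lit 16627965142) (nat_lit 76) (nat_lit 16663708996) (nat_lit 152) (nat_lit 34273657573) (nat_lit 27) (nat_lit 5) (nat_lit 28) (nat_lit 5) (nat_lit 29) (nat_lit 4) (nat_lit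 479) (nat_lit 351) (nat_lit 190))) (XT.nd (nat_lit 78) (nat_lit 0) (nat_lit 0) (XT.lf (nat_lit 0) (nat_lit 42386276006) (nat_lit 76) (nat_lit 3600544086) (nat_lit 152) (nat_lit 23208826791) (nat_lit 27) (nat_lit 5) (nat_lit 28) (nat_lit 5) (nat_lit 29) (nat_lit 4) (nat_lit 480) (nat_lit 351) (nat_lit 189)) (XT.lf (nat_lit 0) (nat_lit 59151098991) (nat_lit 152) (nat_lit 2064618159) (nat_lit 0) (nat_lit 9656506411) (nat_lit 27) (nat_lit 5) (nat_lit 29) (nat_lit 4) (nat_lit 27) (nat_lit 4) (nat_lit 481) (nat_lit 351) (nat_lit 188))))) (XT.nd (nat_lit 234) (nat_lit 76) (nat_lit 0) (XT.nd (nat_lit 78) (nat_lit 76) (nat_lit 0) (XT.lf (nat_lit 0) (nat_lit 370150921) (nat_lit 152) (nat_lit 48754932440) (nat_lit 76) (nat_lit 23466149127) (nat_lit 25) (nat_lit 5) (nat_lit 27) (nat_lit 5) (nat_lit 26) (nat_lit 4) (nat_lit 482) (nat_lit 351) (nat_lit 187)) (XT.nd (nat_lit 78) (nat_lit 76) (nat_lit 0) (XT.lf (nat_lit 0)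 (nat_lit 12603381960) (nat_lit 152) (nat_lit 23932877536) (nat_lit 76) (nat_lit 37821627028) (nat_lit 25) (nat_lit 5) (nat_lit 27) (nat_lit 5) (nat_lit 26) (nat_lit 4) (nat_lit 483) (nat_lit 351) (nat_lit 186)) (XT.lf (nat_lit 0) (nat_lit 1654470683) (nat_lit 76) (nat_lit 23558970473) (nat_lit 152) (nat_lit 50963804453) (nat_lit 24) (nat_lit 5) (nat_lit 25) (nat_lit 5) (nat_lit 26) (nat_lit 4) (nat_lit 484) (nat_lit 351) (nat_lit 185)))) (XT.nd (nat_lit 156) (nat_lit 76) (nat_lit 0) (XT.nd (nat_lit 78) (nat_lit 0) (nat_lit 0) (XT.lf (nat_lit 0) (nat_lit 28488501108) (nat_lit 76) (nat_lit 9948969550) (nat_lit 152) (nat_lit 39606645105) (nat_lit 24) (nat_lit 5) (nat_lit 25) (nat_lit 5) (nat_lit 26) (nat_lit 4) (nat_lit 485) (nat_lit 351) (nat_lit 184)) (XT.lf (nat_lit 0) (nat_lit 52091454663) (nat_lit 152) (nat_lit 23889882829) (nat_lit 0) (nat_lit 3984657864) (nat_lit 24) (nat_lit 5) (nat_lit 26) (nat_lit 4)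 (nat_lit 24) (nat_lit 4) (nat_lit 486) (nat_lit 351) (nat_lit 183))) (XT.nd (nat_lit 78) (nat_lit 0) (nat_lit 0) (XT.lf (nat_lit 0) (nat_lit 2484807389) (nat_lit 76) (nat_lit 63786929007) (nat_lit 76) (nat_lit 15670294926) (nat_lit 23) (nat_lit 4) (nat_lit 24) (nat_lit 5) (nat_lit 24) (nat_lit 4) (nat_lit 487) (nat_lit 351) (nat_lit 182)) (XT.lf (nat_lit 0) (nat_lit 30129568843) (nat_lit 76) (nat_lit 50983448483) (nat_lit 76) (nat_lit 2857263642) (nat_lit 23) (nat_lit 4) (nat_lit 24) (nat_lit 5) (nat_lit 24) (nat_lit 4) (nat_lit 488) (nat_lit 351) (nat_lit 181)))))) (XT.nd (nat_lit 546) (nat_lit 836) (nat_lit 0) (XT.nd (nat_lit 234) (nat_lit 760) (nat_lit 0) (XT.nd (nat_lit 78) (nat_lit 760) (nat_lit 0) (XT.lf (nat_lit 0) (nat_lit 1263300597) (nat_lit 0) (nat_lit 1263300597) (nat_lit 684) (nat_lit 1001747048) (nat_lit 341) (nat_lit 5) (nat_lit 341) (nat_lit 3) (nat_lit 350) (nat_lit 3) (nat_lit 352) (nat_lit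 352) (nat_lit 316)) (XT.nd (nat_lit 78) (nat_lit 760) (nat_lit 0) (XT.lf (nat_lit 0) (nat_lit 6018640487) (nat_lit 0) (nat_lit 838198855) (nat_lit 684) (nat_lit 252878852) (nat_lit 341) (nat_lit 5) (nat_lit 341) (nat_lit 3) (nat_lit 350) (nat_lit 3) (nat_lit 353) (nat_lit 352) (nat_lit 315)) (XT.lf (nat_lit 0) (nat_lit 1484763258) (nat_lit 760) (nat_lit 4725731891) (nat_lit 836) (nat_lit 954483207) (nat_lit 331) (nat_lit 5) (nat_lit 341) (nat_lit 5) (nat_lit 342) (nat_lit 5) (nat_lit 354) (nat_lit 352) (nat_lit 314)))) (XT.nd (nat_lit 156) (nat_lit 760) (nat_lit 0) (XT.nd (nat_lit 78) (nat_lit 0) (nat_lit 0) (XT.lf (nat_lit 0) (nat_lit 3222694812) (nat_lit 760) (nat_lit 1171733241) (nat_lit 836) (nat_lit 2828832425) (nat_lit 331) (nat_lit 5) (nat_lit 341) (nat_lit 5) (nat_lit 342) (nat_lit 5) (nat_lit 355) (nat_lit 352) (nat_lit 313)) (XT.lf (nat_lit 76) (nat_lit 2501680812) (nat_lit 0) (nat_lit 2470875809)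 (nat_lit 836) (nat_lit 2311976158) (nat_lit 332) (nat_lit 5) (nat_lit 331) (nat_lit 5) (nat_lit 342) (nat_lit 5) (nat_lit 356) (nat_lit 352) (nat_lit 312))) (XT.nd (nat_lit 78) (nat_lit 760) (nat_lit 0) (XT.lf (nat_lit 76) (nat_lit 6273648462) (nat_lit 0) (nat_lit 450371308) (nat_lit 836) (nat_lit 625184767) (nat_lit 332) (nat_lit 5) (nat_lit 331) (nat_lit 5) (nat_lit 342) (nat_lit 5) (nat_lit 357) (nat_lit 352) (nat_lit 311)) (XT.lf (nat_lit 0) (nat_lit 1071696637) (nat_lit 836) (nat_lit 4682826859) (nat_lit 912) (nat_lit 1661569006) (nat_lit 321) (nat_lit 5) (nat_lit 332) (nat_lit 5) (nat_lit 333) (nat_lit 5) (nat_lit 358) (nat_lit 352) (nat_lit 310))))) (XT.nd (nat_lit 312) (nat_lit 0) (nat_lit 0) (XT.nd (nat_lit 156) (nat_lit 836) (nat_lit 0) (XT.nd (nat_lit 78) (nat_lit 0) (nat_lit 0) (XT.lf (nat_lit 0) (nat_lit 2762497762) (nat_lit 836) (nat_lit 854622734) (nat_lit 912) (nat_lit 3869045071) (nat_lit 321)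 (nat_lit 5) (nat_lit 332) (nat_lit 5) (nat_lit 333) (nat_lit 5) (nat_lit 359) (nat_lit 352) (nat_lit 309)) (XT.lf (nat_lit 76) (nat_lit 3112657235) (nat_lit 0) (nat_lit 1363180830) (nat_lit 912) (nat_lit 3083378916) (nat_lit 322) (nat_lit 5) (nat_lit 321) (nat_lit 5) (nat_lit 333) (nat_lit 5) (nat_lit 360) (nat_lit 352) (nat_lit 308))) (XT.nd (nat_lit 78) (nat_lit 912) (nat_lit 0) (XT.lf (nat_lit 0) (nat_lit 6201943918) (nat_lit 836) (nat_lit 465106604) (nat_lit 912) (nat_lit 968598176) (nat_lit 322) (nat_lit 5) (nat_lit 333) (nat_lit 5) (nat_lit 334) (nat_lit 5) (nat_lit 361) (nat_lit 352) (nat_lit 307)) (XT.lf (nat_lit 0) (nat_lit 253921024) (nat_lit 912) (nat_lit 4060404443) (nat_lit 988) (nat_lit 3400190111) (nat_lit 310) (nat_lit 5) (nat_lit 322) (nat_lit 5) (nat_lit 323) (nat_lit 5) (nat_lit 362) (nat_lit 352) (nat_lit 306)))) (XT.nd (nat_lit 156) (nat_lit 0) (nat_lit 76) (XT.nd (nat_lit 78) (nat_lit 0)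 (nat_lit 76) (XT.lf (nat_lit 76) (nat_lit 60045284) (nat_lit 0) (nat_lit 1854408179) (nat_lit 988) (nat_lit 5882363530) (nat_lit 311) (nat_lit 5) (nat_lit 310) (nat_lit 5) (nat_lit 323) (nat_lit 5) (nat_lit 363) (nat_lit 352) (nat_lit 305)) (XT.lf (nat_lit 0) (nat_lit 3619884351) (nat_lit 912) (nat_lit 3539064668) (nat_lit 988) (nat_lit 722812362) (nat_lit 311) (nat_lit 5) (nat_lit 323) (nat_lit 5) (nat_lit 324) (nat_lit 5) (nat_lit 364) (nat_lit 352) (nat_lit 304))) (XT.nd (nat_lit 78) (nat_lit 0) (nat_lit 0) (XT.lf (nat_lit 76) (nat_lit 742731500) (nat_lit 0) (nat_lit 4607930692) (nat_lit 988) (nat_lit 2619392022) (nat_lit 312) (nat_lit 5) (nat_lit 311) (nat_lit 5) (nat_lit 324) (nat_lit 5) (nat_lit 365) (nat_lit 352) (nat_lit 303)) (XT.lf (nat_lit 76) (nat_lit 5187926240) (nat_lit 0) (nat_lit 1930991886) (nat_lit 988) (nat_lit 942535954) (nat_lit 312) (nat_lit 5) (nat_lit 311) (nat_lit 5) (nat_lit 324) (nat_lit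 5) (nat_lit 366) (nat_lit 352) (nat_lit 302))))))))
noncomputable def xc131 : XT := (XT.nd (nat_lit 2184) (nat_lit 5624) (nat_lit 0) (XT.nd (nat_lit 1092) (nat_lit 4028) (nat_lit 0) (XT.nd (nat_lit 546) (nat_lit 3116) (nat_lit 0) (XT.nd (nat_lit 234) (nat_lit 2280) (nat_lit 0) (XT.nd (nat_lit 78) (nat_lit 988) (nat_lit 0) (XT.lf (nat_lit 0) (nat_lit 743720638) (nat_lit 988) (nat_lit 6567700186) (nat_lit 76) (nat_lit 844740137) (nat_lit 299) (nat_lit 5) (nat_lit 312) (nat_lit 5) (nat_lit 300) (nat_lit 5) (nat_lit 367) (nat_lit 352) (nat_lit 301)) (XT.nd (nat_lit 78) (nat_lit 988) (nat_lit 0) (XT.lf (nat_lit 0) (nat_lit 2461999191) (nat_lit 988) (nat_lit 2077079032) (nat_lit 76) (nat_lit 3714362292) (nat_lit 299) (nat_lit 5) (nat_lit 312) (nat_lit 5) (nat_lit 300) (nat_lit 5) (nat_lit 368) (nat_lit 352) (nat_lit 300)) (XT.lf (nat_lit 0) (nat_lit 2560639728) (nat_lit 988) (nat_lit 1649155444) (nat_lit 1064) (nat_lit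 4144526325) (nat_lit 286) (nat_lit 5) (nat_lit 299) (nat_lit 5) (nat_lit 300) (nat_lit 5) (nat_lit 369) (nat_lit 352) (nat_lit 299)))) (XT.nd (nat_lit 156) (nat_lit 1216) (nat_lit 0) (XT.nd (nat_lit 78) (nat_lit 1064) (nat_lit 0) (XT.lf (nat_lit 0) (nat_lit 5998403976) (nat_lit 1064) (nat_lit 1129191222) (nat_lit 76) (nat_lit 1331003812) (nat_lit 286) (nat_lit 5) (nat_lit 300) (nat_lit 5) (nat_lit 287) (nat_lit 5) (nat_lit 370) (nat_lit 352) (nat_lit 298)) (XT.lf (nat_lit 0) (nat_lit 3693412891) (nat_lit 1064) (nat_lit 4154853306) (nat_lit 1140) (nat_lit 717531642) (nat_lit 272) (nat_lit 5) (nat_lit 286) (nat_lit 5) (nat_lit 287) (nat_lit 5) (nat_lit 371) (nat_lit 352) (nat_lit 297))) (XT.nd (nat_lit 78) (nat_lit 1140) (nat_lit 0) (XT.lf (nat_lit 0) (nat_lit 1024148797) (nat_lit 1140) (nat_lit 40584578) (nat_lit 76) (nat_lit 7612155363) (nat_lit 271) (nat_lit 5) (nat_lit 286) (nat_lit 5) (nat_lit 272) (nat_lit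 5) (nat_lit 372) (nat_lit 352) (nat_lit 296)) (XT.lf (nat_lit 0) (nat_lit 2830098305) (nat_lit 1216) (nat_lit 3822462162) (nat_lit 76) (nat_lit 2137764633) (nat_lit 256) (nat_lit 5) (nat_lit 272) (nat_lit 5) (nat_lit 257) (nat_lit 5) (nat_lit 373) (nat_lit 352) (nat_lit 295))))) (XT.nd (nat_lit 234) (nat_lit 1292) (nat_lit 0) (XT.nd (nat_lit 78) (nat_lit 608) (nat_lit 0) (XT.lf (nat_lit 0) (nat_lit 1195088884) (nat_lit 1216) (nat_lit 3476034521) (nat_lit 1292) (nat_lit 4236632756) (nat_lit 240) (nat_lit 5) (nat_lit 256) (nat_lit 5) (nat_lit 257) (nat_lit 5) (nat_lit 374) (nat_lit 352) (nat_lit 294)) (XT.nd (nat_lit 78) (nat_lit 608) (nat_lit 0) (XT.lf (nat_lit 0) (nat_lit 6403965845) (nat_lit 1216) (nat_lit 161315239) (nat_lit 1292) (nat_lit 2463509994) (nat_lit 240) (nat_lit 5) (nat_lit 256) (nat_lit 5) (nat_lit 257) (nat_lit 5) (nat_lit 375) (nat_lit 352) (nat_lit 293)) (XT.lf (nat_lit 0) (nat_lit 2597372247)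 (nat_lit 608) (nat_lit 5935644247) (nat_lit 684) (nat_lit 619955416) (nat_lit 232) (nat_lit 5) (nat_lit 240) (nat_lit 5) (nat_lit 241) (nat_lit 5) (nat_lit 376) (nat_lit 352) (nat_lit 292)))) (XT.nd (nat_lit 156) (nat_lit 608) (nat_lit 0) (XT.nd (nat_lit 78) (nat_lit 608) (nat_lit 0) (XT.lf (nat_lit 0) (nat_lit 1243223548) (nat_lit 684) (nat_lit 1302314695) (nat_lit 76) (nat_lit 6735309355) (nat_lit 231) (nat_lit 5) (nat_lit 240) (nat_lit 5) (nat_lit 232) (nat_lit 5) (nat_lit 377) (nat_lit 352) (nat_lit 291)) (XT.lf (nat_lit 0) (nat_lit 3161302244) (nat_lit 684) (nat_lit 5275564515) (nat_lit 76) (nat_lit 975180682) (nat_lit 223) (nat_lit 5) (nat_lit 232) (nat_lit 5) (nat_lit 224) (nat_lit 5) (nat_lit 378) (nat_lit 352) (nat_lit 290))) (XT.nd (nat_lit 78) (nat_lit 0) (nat_lit 0) (XT.lf (nat_lit 0) (nat_lit 158323690) (nat_lit 608) (nat_lit 4981411543) (nat_lit 684) (nat_lit 4407379199) (nat_lit 215) (nat_lit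 5) (nat_lit 223) (nat_lit 5) (nat_lit 224) (nat_lit 5) (nat_lit 379) (nat_lit 352) (nat_lit 289)) (XT.lf (nat_lit 0) (nat_lit 5825958761) (nat_lit 608) (nat_lit 1368364644) (nat_lit 684) (nat_lit 2491421021) (nat_lit 215) (nat_lit 5) (nat_lit 223) (nat_lit 5) (nat_lit 224) (nat_lit 5) (nat_lit 380) (nat_lit 352) (nat_lit 288)))))) (XT.nd (nat_lit 546) (nat_lit 1824) (nat_lit 0) (XT.nd (nat_lit 234) (nat_lit 1064) (nat_lit 0) (XT.nd (nat_lit 78) (nat_lit 608) (nat_lit 0) (XT.lf (nat_lit 0) (nat_lit 1810405885) (nat_lit 532) (nat_lit 7504748036) (nat_lit 608) (nat_lit 513255876) (nat_lit 208) (nat_lit 5) (nat_lit 215) (nat_lit 5) (nat_lit 216) (nat_lit 5) (nat_lit 381) (nat_lit 352) (nat_lit 287)) (XT.nd (nat_lit 78) (nat_lit 532) (nat_lit 0) (XT.lf (nat_lit 0) (nat_lit 1512321419) (nat_lit 608) (nat_lit 2310684744) (nat_lit 76) (nat_lit 6151388858) (nat_lit 207) (nat_lit 5) (nat_lit 215) (nat_lit 5) (nat_lit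 208) (nat_lit 5) (nat_lit 382) (nat_lit 352) (nat_lit 286)) (XT.lf (nat_lit 0) (nat_lit 3588914688) (nat_lit 608) (nat_lit 6528367117) (nat_lit 76) (nat_lit 7321988) (nat_lit 200) (nat_lit 5) (nat_lit 208) (nat_lit 5) (nat_lit 201) (nat_lit 5) (nat_lit 383) (nat_lit 352) (nat_lit 285)))) (XT.nd (nat_lit 156) (nat_lit 608) (nat_lit 0) (XT.nd (nat_lit 78) (nat_lit 456) (nat_lit 0) (XT.lf (nat_lit 0) (nat_lit 5755761016) (nat_lit 608) (nat_lit 626236928) (nat_lit 76) (nat_lit 3896495214) (nat_lit 200) (nat_lit 5) (nat_lit 208) (nat_lit 5) (nat_lit 201) (nat_lit 5) (nat_lit 384) (nat_lit 352) (nat_lit 284)) (XT.lf (nat_lit 0) (nat_lit 5524579033) (nat_lit 456) (nat_lit 2483653222) (nat_lit 532) (nat_lit 2428160974) (nat_lit 194) (nat_lit 5) (nat_lit 200) (nat_lit 5) (nat_lit 201) (nat_lit 5) (nat_lit 385) (nat_lit 352) (nat_lit 283))) (XT.nd (nat_lit 78) (nat_lit 76) (nat_lit 0) (XT.lf (nat_lit 0) (nat_lit 1246699327)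 (nat_lit 532) (nat_lit 9082749577) (nat_lit 608) (nat_lit 269558504) (nat_lit 187) (nat_lit 5) (nat_lit 194) (nat_lit 5) (nat_lit 195) (nat_lit 5) (nat_lit 386) (nat_lit 352) (nat_lit 282)) (XT.lf (nat_lit 0) (nat_lit 1958693423) (nat_lit 608) (nat_lit 3155259288) (nat_lit 76) (nat_lit 5650704896) (nat_lit 186) (nat_lit 5) (nat_lit 194) (nat_lit 5) (nat_lit 187) (nat_lit 5) (nat_lit 387) (nat_lit 352) (nat_lit 281))))) (XT.nd (nat_lit 234) (nat_lit 912) (nat_lit 0) (XT.nd (nat_lit 78) (nat_lit 456) (nat_lit 0) (XT.lf (nat_lit 0) (nat_lit 3252539627) (nat_lit 456) (nat_lit 996358780) (nat_lit 532) (nat_lit 6686294342) (nat_lit 180) (nat_lit 5) (nat_lit 186) (nat_lit 5) (nat_lit 187) (nat_lit 5) (nat_lit 388) (nat_lit 352) (nat_lit 280)) (XT.nd (nat_lit 78) (nat_lit 456) (nat_lit 0) (XT.lf (nat_lit 0) (nat_lit 6640936551) (nat_lit 532) (nat_lit 1260615065) (nat_lit 76) (nat_lit 3208309398) (nat_lit 180) (nat_lit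 5) (nat_lit 187) (nat_lit 5) (nat_lit 181) (nat_lit 5) (nat_lit 389) (nat_lit 352) (nat_lit 279)) (XT.lf (nat_lit 0) (nat_lit 5414464119) (nat_lit 456) (nat_lit 3722823572) (nat_lit 532) (nat_lit 2151515640) (nat_lit 174) (nat_lit 5) (nat_lit 180) (nat_lit 5) (nat_lit 181) (nat_lit 5) (nat_lit 390) (nat_lit 352) (nat_lit 278)))) (XT.nd (nat_lit 156) (nat_lit 456) (nat_lit 0) (XT.nd (nat_lit 78) (nat_lit 0) (nat_lit 0) (XT.lf (nat_lit 0) (nat_lit 228183154) (nat_lit 456) (nat_lit 10658179483) (nat_lit 76) (nat_lit 586772502) (nat_lit 168) (nat_lit 5) (nat_lit 174) (nat_lit 5) (nat_lit 169) (nat_lit 5) (nat_lit 391) (nat_lit 352) (nat_lit 277)) (XT.lf (nat_lit 0) (nat_lit 2704103240) (nat_lit 456) (nat_lit 3930727119) (nat_lit 76) (nat_lit 5025494936) (nat_lit 168) (nat_lit 5) (nat_lit 174) (nat_lit 5) (nat_lit 169) (nat_lit 5) (nat_lit 392) (nat_lit 352) (nat_lit 276))) (XT.nd (nat_lit 78) (nat_lit 0) (nat_lit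 0) (XT.lf (nat_lit 0) (nat_lit 3022471550) (nat_lit 456) (nat_lit 2233026323) (nat_lit 532) (nat_lit 6597606756) (nat_lit 162) (nat_lit 5) (nat_lit 168) (nat_lit 5) (nat_lit 169) (nat_lit 5) (nat_lit 393) (nat_lit 352) (nat_lit 275)) (XT.lf (nat_lit 0) (nat_lit 7918187272) (nat_lit 532) (nat_lit 1843617204) (nat_lit 76) (nat_lit 2288829391) (nat_lit 162) (nat_lit 5) (nat_lit 169) (nat_lit 5) (nat_lit 163) (nat_lit 5) (nat_lit 394) (nat_lit 352) (nat_lit 274))))))) (XT.nd (nat_lit 1092) (nat_lit 2280) (nat_lit 0) (XT.nd (nat_lit 546) (nat_lit 1672) (nat_lit 0) (XT.nd (nat_lit 234) (nat_lit 836) (nat_lit 0) (XT.nd (nat_lit 78) (nat_lit 456) (nat_lit 0) (XT.lf (nat_lit 0) (nat_lit 5401870240) (nat_lit 380) (nat_lit 5306272160) (nat_lit 456) (nat_lit 1544533875) (nat_lit 157) (nat_lit 5) (nat_lit 162) (nat_lit 5) (nat_lit 163) (nat_lit 5) (nat_lit 395) (nat_lit 352) (nat_lit 273)) (XT.nd (nat_lit 78) (nat_lit 0)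 (nat_lit 0) (XT.lf (nat_lit 0) (nat_lit 404590836) (nat_lit 380) (nat_lit 690771107) (nat_lit 456) (nat_lit 11365216449) (nat_lit 151) (nat_lit 5) (nat_lit 156) (nat_lit 5) (nat_lit 157) (nat_lit 5) (nat_lit 396) (nat_lit 352) (nat_lit 272)) (XT.lf (nat_lit 0) (nat_lit 3866225750) (nat_lit 456) (nat_lit 4744600087) (nat_lit 76) (nat_lit 4060956617) (nat_lit 151) (nat_lit 5) (nat_lit 157) (nat_lit 5) (nat_lit 152) (nat_lit 5) (nat_lit 397) (nat_lit 352) (nat_lit 271)))) (XT.nd (nat_lit 156) (nat_lit 456) (nat_lit 0) (XT.nd (nat_lit 78) (nat_lit 0) (nat_lit 0) (XT.lf (nat_lit 0) (nat_lit 2799939159) (nat_lit 380) (nat_lit 3928682924) (nat_lit 456) (nat_lit 6160456215) (nat_lit 146) (nat_lit 5) (nat_lit 151) (nat_lit 5) (nat_lit 152) (nat_lit 5) (nat_lit 398) (nat_lit 352) (nat_lit 270)) (XT.lf (nat_lit 0) (nat_lit 9708852280) (nat_lit 456) (nat_lit 2486774753) (nat_lit 76) (nat_lit 916314755) (nat_lit 146) (nat_lit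 5) (nat_lit 152) (nat_lit 5) (nat_lit 147) (nat_lit 5) (nat_lit 399) (nat_lit 352) (nat_lit 269))) (XT.nd (nat_lit 78) (nat_lit 76) (nat_lit 0) (XT.lf (nat_lit 0) (nat_lit 5376348433) (nat_lit 380) (nat_lit 7468431685) (nat_lit 456) (nat_lit 494729750) (nat_lit 141) (nat_lit 5) (nat_lit 146) (nat_lit 5) (nat_lit 147) (nat_lit 5) (nat_lit 400) (nat_lit 352) (nat_lit 268)) (XT.lf (nat_lit 0) (nat_lit 2453298461) (nat_lit 456) (nat_lit 104585429) (nat_lit 76) (nat_lit 11015270318) (nat_lit 140) (nat_lit 5) (nat_lit 146) (nat_lit 5) (nat_lit 141) (nat_lit 5) (nat_lit 401) (nat_lit 352) (nat_lit 267))))) (XT.nd (nat_lit 234) (nat_lit 988) (nat_lit 0) (XT.nd (nat_lit 78) (nat_lit 380) (nat_lit 0) (XT.lf (nat_lit 0) (nat_lit 5559114403) (nat_lit 380) (nat_lit 5726191380) (nat_lit 76) (nat_lit 2525983211) (nat_lit 136) (nat_lit 5) (nat_lit 141) (nat_lit 5) (nat_lit 137) (nat_lit 5) (nat_lit 402) (nat_lit 352) (nat_lit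 266)) (XT.nd (nat_lit 78) (nat_lit 0) (nat_lit 0) (XT.lf (nat_lit 0) (nat_lit 2455861962) (nat_lit 380) (nat_lit 6329089541) (nat_lit 456) (nat_lit 5270817501) (nat_lit 131) (nat_lit 5) (nat_lit 136) (nat_lit 5) (nat_lit 137) (nat_lit 5) (nat_lit 403) (nat_lit 352) (nat_lit 265)) (XT.lf (nat_lit 0) (nat_lit 10968276202) (nat_lit 380) (nat_lit 1174320222) (nat_lit 456) (nat_lit 2163942400) (nat_lit 131) (nat_lit 5) (nat_lit 136) (nat_lit 5) (nat_lit 137) (nat_lit 5) (nat_lit 404) (nat_lit 352) (nat_lit 264)))) (XT.nd (nat_lit 156) (nat_lit 608) (nat_lit 0) (XT.nd (nat_lit 78) (nat_lit 0) (nat_lit 0) (XT.lf (nat_lit 0) (nat_lit 1084108221) (nat_lit 380) (nat_lit 9372586697) (nat_lit 76) (nat_lit 4105798401) (nat_lit 126) (nat_lit 5) (nat_lit 131) (nat_lit 5) (nat_lit 127) (nat_lit 5) (nat_lit 405) (nat_lit 352) (nat_lit 263)) (XT.lf (nat_lit 0) (nat_lit 4409679541) (nat_lit 380) (nat_lit 848395248) (nat_lit 76)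 (nat_lit 9566707585) (nat_lit 126) (nat_lit 5) (nat_lit 131) (nat_lit 5) (nat_lit 127) (nat_lit 5) (nat_lit 406) (nat_lit 352) (nat_lit 262))) (XT.nd (nat_lit 78) (nat_lit 304) (nat_lit 0) (XT.lf (nat_lit 0) (nat_lit 7892616215) (nat_lit 380) (nat_lit 7037420999) (nat_lit 76) (nat_lit 163180616) (nat_lit 122) (nat_lit 5) (nat_lit 127) (nat_lit 5) (nat_lit 123) (nat_lit 5) (nat_lit 407) (nat_lit 352) (nat_lit 261)) (XT.lf (nat_lit 0) (nat_lit 1827018766) (nat_lit 304) (nat_lit 9710074063) (nat_lit 380) (nat_lit 3830907479) (nat_lit 118) (nat_lit 5) (nat_lit 122) (nat_lit 5) (nat_lit 123) (nat_lit 5) (nat_lit 408) (nat_lit 352) (nat_lit 260)))))) (XT.nd (nat_lit 546) (nat_lit 1064) (nat_lit 0) (XT.nd (nat_lit 234) (nat_lit 836) (nat_lit 0) (XT.nd (nat_lit 78) (nat_lit 380) (nat_lit 0) (XT.lf (nat_lit 0) (nat_lit 11070416627) (nat_lit 304) (nat_lit 4270646470) (nat_lit 380) (nat_lit 308463732) (nat_lit 118) (nat_lit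 5) (nat_lit 122) (nat_lit 5) (nat_lit 123) (nat_lit 5) (nat_lit 409) (nat_lit 352) (nat_lit 259)) (XT.nd (nat_lit 78) (nat_lit 0) (nat_lit 0) (XT.lf (nat_lit 0) (nat_lit 3292829494) (nat_lit 380) (nat_lit 11270981313) (nat_lit 76) (nat_lit 1373597431) (nat_lit 113) (nat_lit 5) (nat_lit 118) (nat_lit 5) (nat_lit 114) (nat_lit 5) (nat_lit 410) (nat_lit 352) (nat_lit 258)) (XT.lf (nat_lit 0) (nat_lit 7064647356) (nat_lit 380) (nat_lit 2026086661) (nat_lit 76) (nat_lit 7141044778) (nat_lit 113) (nat_lit 5) (nat_lit 118) (nat_lit 5) (nat_lit 114) (nat_lit 5) (nat_lit 411) (nat_lit 352) (nat_lit 257)))) (XT.nd (nat_lit 156) (nat_lit 304) (nat_lit 0) (XT.nd (nat_lit 78) (nat_lit 304) (nat_lit 0) (XT.lf (nat_lit 0) (nat_lit 7614696775) (nat_lit 228) (nat_lit 3388415409) (nat_lit 304) (nat_lit 5530268265) (nat_lit 110) (nat_lit 5) (nat_lit 113) (nat_lit 5) (nat_lit 114) (nat_lit 5) (nat_lit 412) (nat_lit 352) (nat_lit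 256)) (XT.lf (nat_lit 0) (nat_lit 702191389) (nat_lit 304) (nat_lit 14389322470) (nat_lit 380) (nat_lit 1751567424) (nat_lit 106) (nat_lit 5) (nat_lit 110) (nat_lit 5) (nat_lit 111) (nat_lit 5) (nat_lit 413) (nat_lit 352) (nat_lit 255))) (XT.nd (nat_lit 78) (nat_lit 228) (nat_lit 0) (XT.lf (nat_lit 0) (nat_lit 2203796860) (nat_lit 380) (nat_lit 6450206385) (nat_lit 76) (nat_lit 8504304840) (nat_lit 105) (nat_lit 5) (nat_lit 110) (nat_lit 5) (nat_lit 106) (nat_lit 5) (nat_lit 414) (nat_lit 352) (nat_lit 254)) (XT.lf (nat_lit 0) (nat_lit 3553749449) (nat_lit 228) (nat_lit 2704164196) (nat_lit 304) (nat_lit 11224103114) (nat_lit 102) (nat_lit 5) (nat_lit 105) (nat_lit 5) (nat_lit 106) (nat_lit 5) (nat_lit 415) (nat_lit 352) (nat_lit 253))))) (XT.nd (nat_lit 312) (nat_lit 532) (nat_lit 0) (XT.nd (nat_lit 156) (nat_lit 304) (nat_lit 0) (XT.nd (nat_lit 78) (nat_lit 228) (nat_lit 0) (XT.lf (nat_lit 0) (nat_lit 10513651535)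 (nat_lit 304) (nat_lit 3886619911) (nat_lit 76) (nat_lit 3412769419) (nat_lit 102) (nat_lit 5) (nat_lit 106) (nat_lit 5) (nat_lit 103) (nat_lit 5) (nat_lit 416) (nat_lit 352) (nat_lit 252)) (XT.lf (nat_lit 0) (nat_lit 6528129150) (nat_lit 228) (nat_lit 8440306308) (nat_lit 304) (nat_lit 3183423002) (nat_lit 99) (nat_lit 5) (nat_lit 102) (nat_lit 5) (nat_lit 103) (nat_lit 5) (nat_lit 417) (nat_lit 352) (nat_lit 251))) (XT.nd (nat_lit 78) (nat_lit 228) (nat_lit 0) (XT.lf (nat_lit 0) (nat_lit 1056972925) (nat_lit 304) (nat_lit 1204053051) (nat_lit 76) (nat_lit 16238867104) (nat_lit 98) (nat_lit 5) (nat_lit 102) (nat_lit 5) (nat_lit 99) (nat_lit 5) (nat_lit 418) (nat_lit 352) (nat_lit 250)) (XT.lf (nat_lit 0) (nat_lit 5476452879) (nat_lit 304) (nat_lit 9238608488) (nat_lit 76) (nat_lit 4138889770) (nat_lit 95) (nat_lit 5) (nat_lit 99) (nat_lit 5) (nat_lit 96) (nat_lit 5) (nat_lit 419) (nat_lit 352) (nat_lit 249))))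 (XT.nd (nat_lit 156) (nat_lit 304) (nat_lit 0) (XT.nd (nat_lit 78) (nat_lit 0) (nat_lit 0) (XT.lf (nat_lit 0) (nat_lit 1545231491) (nat_lit 228) (nat_lit 8515397447) (nat_lit 304) (nat_lit 9157042184) (nat_lit 92) (nat_lit 5) (nat_lit 95) (nat_lit 5) (nat_lit 96) (nat_lit 5) (nat_lit 420) (nat_lit 352) (nat_lit 248)) (XT.lf (nat_lit 0) (nat_lit 12814094363) (nat_lit 228) (nat_lit 2044359454) (nat_lit 304) (nat_lit 4731568621) (nat_lit 92) (nat_lit 5) (nat_lit 95) (nat_lit 5) (nat_lit 96) (nat_lit 5) (nat_lit 421) (nat_lit 352) (nat_lit 247))) (XT.nd (nat_lit 78) (nat_lit 76) (nat_lit 0) (XT.lf (nat_lit 0) (nat_lit 4462677386) (nat_lit 228) (nat_lit 15408083924) (nat_lit 304) (nat_lit 100669881) (nat_lit 89) (nat_lit 5) (nat_lit 92) (nat_lit 5) (nat_lit 93) (nat_lit 5) (nat_lit 422) (nat_lit 352) (nat_lit 246)) (XT.lf (nat_lit 0) (nat_lit 4650677847) (nat_lit 304) (nat_lit 4278222724) (nat_lit 76) (nat_lit 11431859272)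 (nat_lit 88) (nat_lit 5) (nat_lit 92) (nat_lit 5) (nat_lit 89) (nat_lit 5) (nat_lit 423) (nat_lit 352) (nat_lit 245))))))))
noncomputable def xc132 : XT := (XT.nd (nat_lit 2184) (nat_lit 1748) (nat_lit 0) (XT.nd (nat_lit 1092) (nat_lit 1216) (nat_lit 0) (XT.nd (nat_lit 546) (nat_lit 836) (nat_lit 0) (XT.nd (nat_lit 234) (nat_lit 456) (nat_lit 0) (XT.nd (nat_lit 78) (nat_lit 152) (nat_lit 0) (XT.lf (nat_lit 0) (nat_lit 7406014810) (nat_lit 228) (nat_lit 2191497467) (nat_lit 304) (nat_lit 11162580139) (nat_lit 85) (nat_lit 5) (nat_lit 88) (nat_lit 5) (nat_lit 89) (nat_lit 5) (nat_lit 424) (nat_lit 352) (nat_lit 244)) (XT.nd (nat_lit 78) (nat_lit 152) (nat_lit 0) (XT.lf (nat_lit 0) (nat_lit 14765918016) (nat_lit 304) (nat_lit 1714549933) (nat_lit 76) (nat_lit 4688744992) (nat_lit 85) (nat_lit 5) (nat_lit 89) (nat_lit 5) (nat_lit 86) (nat_lit 5) (nat_lit 425) (nat_lit 352) (nat_lit 243)) (XT.lf (nat_lit 0) (nat_lit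 10429921816) (nat_lit 152) (nat_lit 9765775874) (nat_lit 228) (nat_lit 1391722617) (nat_lit 83) (nat_lit 5) (nat_lit 85) (nat_lit 5) (nat_lit 86) (nat_lit 5) (nat_lit 426) (nat_lit 352) (nat_lit 242)))) (XT.nd (nat_lit 156) (nat_lit 152) (nat_lit 0) (XT.nd (nat_lit 78) (nat_lit 0) (nat_lit 0) (XT.lf (nat_lit 0) (nat_lit 911466591) (nat_lit 228) (nat_lit 2795823481) (nat_lit 304) (nat_lit 18309479389) (nat_lit 79) (nat_lit 5) (nat_lit 82) (nat_lit 5) (nat_lit 83) (nat_lit 5) (nat_lit 427) (nat_lit 352) (nat_lit 241)) (XT.lf (nat_lit 0) (nat_lit 9071740639) (nat_lit 304) (nat_lit 8967663192) (nat_lit 76) (nat_lit 4414971316) (nat_lit 79) (nat_lit 5) (nat_lit 83) (nat_lit 5) (nat_lit 80) (nat_lit 5) (nat_lit 428) (nat_lit 352) (nat_lit 240))) (XT.nd (nat_lit 78) (nat_lit 0) (nat_lit 0) (XT.lf (nat_lit 0) (nat_lit 3550232817) (nat_lit 152) (nat_lit 11093672265) (nat_lit 228) (nat_lit 8259803066) (nat_lit 77) (nat_lit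 5) (nat_lit 79) (nat_lit 5) (nat_lit 80) (nat_lit 5) (nat_lit 429) (nat_lit 352) (nat_lit 239)) (XT.lf (nat_lit 0) (nat_lit 16602274443) (nat_lit 152) (nat_lit 3856683047) (nat_lit 228) (nat_lit 2905294442) (nat_lit 77) (nat_lit 5) (nat_lit 79) (nat_lit 5) (nat_lit 80) (nat_lit 5) (nat_lit 430) (nat_lit 352) (nat_lit 238))))) (XT.nd (nat_lit 234) (nat_lit 380) (nat_lit 0) (XT.nd (nat_lit 78) (nat_lit 152) (nat_lit 0) (XT.lf (nat_lit 0) (nat_lit 2640071142) (nat_lit 304) (nat_lit 17591870082) (nat_lit 76) (nat_lit 3603486040) (nat_lit 73) (nat_lit 5) (nat_lit 77) (nat_lit 5) (nat_lit 74) (nat_lit 5) (nat_lit 431) (nat_lit 352) (nat_lit 237)) (XT.nd (nat_lit 78) (nat_lit 152) (nat_lit 0) (XT.lf (nat_lit 0) (nat_lit 8386092214) (nat_lit 304) (nat_lit 4633313034) (nat_lit 76) (nat_lit 11297691279) (nat_lit 73) (nat_lit 5) (nat_lit 77) (nat_lit 5) (nat_lit 74) (nat_lit 5) (nat_lit 432) (nat_lit 352) (nat_lit 236))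 (XT.lf (nat_lit 0) (nat_lit 8862801115) (nat_lit 152) (nat_lit 5512852810) (nat_lit 228) (nat_lit 10435429347) (nat_lit 71) (nat_lit 5) (nat_lit 73) (nat_lit 5) (nat_lit 74) (nat_lit 5) (nat_lit 433) (nat_lit 352) (nat_lit 235)))) (XT.nd (nat_lit 156) (nat_lit 152) (nat_lit 0) (XT.nd (nat_lit 78) (nat_lit 228) (nat_lit 0) (XT.lf (nat_lit 0) (nat_lit 20599530164) (nat_lit 228) (nat_lit 2505730812) (nat_lit 76) (nat_lit 2212991954) (nat_lit 71) (nat_lit 5) (nat_lit 74) (nat_lit 5) (nat_lit 72) (nat_lit 5) (nat_lit 434) (nat_lit 352) (nat_lit 234)) (XT.lf (nat_lit 0) (nat_lit 1299610020) (nat_lit 228) (nat_lit 14362711051) (nat_lit 76) (nat_lit 10173392995) (nat_lit 68) (nat_lit 5) (nat_lit 71) (nat_lit 5) (nat_lit 69) (nat_lit 5) (nat_lit 435) (nat_lit 352) (nat_lit 233))) (XT.nd (nat_lit 78) (nat_lit 152) (nat_lit 0) (XT.lf (nat_lit 0) (nat_lit 7415694905) (nat_lit 228) (nat_lit 516010364) (nat_lit 76) (nat_lit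 18435232811) (nat_lit 68) (nat_lit 5) (nat_lit 71) (nat_lit 5) (nat_lit 69) (nat_lit 5) (nat_lit 436) (nat_lit 352) (nat_lit 232)) (XT.lf (nat_lit 0) (nat_lit 13838222022) (nat_lit 228) (nat_lit 12915659791) (nat_lit 76) (nat_lit 156530112) (nat_lit 66) (nat_lit 5) (nat_lit 69) (nat_lit 5) (nat_lit 67) (nat_lit 5) (nat_lit 437) (nat_lit 352) (nat_lit 231)))))) (XT.nd (nat_lit 546) (nat_lit 456) (nat_lit 0) (XT.nd (nat_lit 234) (nat_lit 380) (nat_lit 0) (XT.nd (nat_lit 78) (nat_lit 228) (nat_lit 0) (XT.lf (nat_lit 0) (nat_lit 1407309613) (nat_lit 152) (nat_lit 19130392061) (nat_lit 228) (nat_lit 6929961857) (nat_lit 64) (nat_lit 5) (nat_lit 66) (nat_lit 5) (nat_lit 67) (nat_lit 5) (nat_lit 438) (nat_lit 352) (nat_lit 230)) (XT.nd (nat_lit 78) (nat_lit 228) (nat_lit 0) (XT.lf (nat_lit 0) (nat_lit 16402001177) (nat_lit 152) (nat_lit 11153703668) (nat_lit 228) (nat_lit 482403460) (nat_lit 64) (nat_lit 5) (nat_lit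 66) (nat_lit 5) (nat_lit 67) (nat_lit 5) (nat_lit 439) (nat_lit 352) (nat_lit 229)) (XT.lf (nat_lit 0) (nat_lit 3201829725) (nat_lit 152) (nat_lit 2854719788) (nat_lit 228) (nat_lit 22566798277) (nat_lit 61) (nat_lit 5) (nat_lit 63) (nat_lit 5) (nat_lit 64) (nat_lit 5) (nat_lit 440) (nat_lit 352) (nat_lit 228)))) (XT.nd (nat_lit 156) (nat_lit 228) (nat_lit 0) (XT.nd (nat_lit 78) (nat_lit 152) (nat_lit 0) (XT.lf (nat_lit 0) (nat_lit 12942796430) (nat_lit 228) (nat_lit 10582233688) (nat_lit 76) (nat_lit 5696148061) (nat_lit 61) (nat_lit 5) (nat_lit 64) (nat_lit 5) (nat_lit 62) (nat_lit 5) (nat_lit 441) (nat_lit 352) (nat_lit 227)) (XT.lf (nat_lit 0) (nat_lit 4744823900) (nat_lit 152) (nat_lit 15352476786) (nat_lit 228) (nat_lit 9737794287) (nat_lit 59) (nat_lit 5) (nat_lit 61) (nat_lit 5) (nat_lit 62) (nat_lit 5) (nat_lit 442) (nat_lit 352) (nat_lit 226))) (XT.nd (nat_lit 78) (nat_lit 228) (nat_lit 0) (XT.lf (nat_lit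 0) (nat_lit 20727102292) (nat_lit 152) (nat_lit 6834141471) (nat_lit 228) (nat_lit 2903342943) (nat_lit 59) (nat_lit 5) (nat_lit 61) (nat_lit 5) (nat_lit 62) (nat_lit 5) (nat_lit 443) (nat_lit 352) (nat_lit 225)) (XT.lf (nat_lit 0) (nat_lit 4122113263) (nat_lit 228) (nat_lit 24995180898) (nat_lit 76) (nat_lit 1992477244) (nat_lit 56) (nat_lit 5) (nat_lit 59) (nat_lit 5) (nat_lit 57) (nat_lit 5) (nat_lit 444) (nat_lit 352) (nat_lit 224))))) (XT.nd (nat_lit 234) (nat_lit 304) (nat_lit 0) (XT.nd (nat_lit 78) (nat_lit 152) (nat_lit 0) (XT.lf (nat_lit 0) (nat_lit 11455178759) (nat_lit 228) (nat_lit 9248091733) (nat_lit 76) (nat_lit 11065524190) (nat_lit 56) (nat_lit 5) (nat_lit 59) (nat_lit 5) (nat_lit 57) (nat_lit 5) (nat_lit 445) (nat_lit 352) (nat_lit 223)) (XT.nd (nat_lit 78) (nat_lit 0) (nat_lit 0) (XT.lf (nat_lit 0) (nat_lit 7089180266) (nat_lit 152) (nat_lit 11975776343) (nat_lit 228) (nat_lit 13380931812)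 (nat_lit 54) (nat_lit 5) (nat_lit 56) (nat_lit 5) (nat_lit 57) (nat_lit 5) (nat_lit 446) (nat_lit 352) (nat_lit 222)) (XT.lf (nat_lit 0) (nat_lit 24085783579) (nat_lit 152) (nat_lit 2899343683) (nat_lit 228) (nat_lit 6155706060) (nat_lit 54) (nat_lit 5) (nat_lit 56) (nat_lit 5) (nat_lit 57) (nat_lit 5) (nat_lit 447) (nat_lit 352) (nat_lit 221)))) (XT.nd (nat_lit 156) (nat_lit 152) (nat_lit 0) (XT.nd (nat_lit 78) (nat_lit 0) (nat_lit 0) (XT.lf (nat_lit 0) (nat_lit 1388409822) (nat_lit 152) (nat_lit 26060490434) (nat_lit 76) (nat_lit 6403539640) (nat_lit 52) (nat_lit 5) (nat_lit 54) (nat_lit 5) (nat_lit 53) (nat_lit 5) (nat_lit 448) (nat_lit 352) (nat_lit 220)) (XT.lf (nat_lit 0) (nat_lit 9145153360) (nat_lit 152) (nat_lit 9363272789) (nat_lit 76) (nat_lit 16071840477) (nat_lit 52) (nat_lit 5) (nat_lit 54) (nat_lit 5) (nat_lit 53) (nat_lit 5) (nat_lit 449) (nat_lit 352) (nat_lit 219))) (XT.nd (nat_lit 78) (nat_lit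 0) (nat_lit 0) (XT.lf (nat_lit 0) (nat_lit 7970946692) (nat_lit 152) (nat_lit 9229572989) (nat_lit 228) (nat_lit 18127432048) (nat_lit 50) (nat_lit 5) (nat_lit 52) (nat_lit 5) (nat_lit 53) (nat_lit 5) (nat_lit 450) (nat_lit 352) (nat_lit 218)) (XT.lf (nat_lit 0) (nat_lit 25585525171) (nat_lit 228) (nat_lit 10101686539) (nat_lit 76) (nat_lit 408217481) (nat_lit 50) (nat_lit 5) (nat_lit 53) (nat_lit 5) (nat_lit 51) (nat_lit 4) (nat_lit 451) (nat_lit 352) (nat_lit 217))))))) (XT.nd (nat_lit 1092) (nat_lit 760) (nat_lit 0) (XT.nd (nat_lit 546) (nat_lit 380) (nat_lit 0) (XT.nd (nat_lit 234) (nat_lit 304) (nat_lit 0) (XT.nd (nat_lit 78) (nat_lit 228) (nat_lit 0) (XT.lf (nat_lit 0) (nat_lit 7711455182) (nat_lit 76) (nat_lit 26665787016) (nat_lit 152) (nat_lit 2504035054) (nat_lit 49) (nat_lit 5) (nat_lit 50) (nat_lit 5) (nat_lit 51) (nat_lit 4) (nat_lit 452) (nat_lit 352) (nat_lit 216)) (XT.nd (nat_lit 78) (nat_lit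 152) (nat_lit 0) (XT.lf (nat_lit 0) (nat_lit 5722650986) (nat_lit 152) (nat_lit 11496734088) (nat_lit 76) (nat_lit 20466880212) (nat_lit 48) (nat_lit 5) (nat_lit 50) (nat_lit 5) (nat_lit 49) (nat_lit 5) (nat_lit 453) (nat_lit 352) (nat_lit 215)) (XT.lf (nat_lit 0) (nat_lit 6795966244) (nat_lit 152) (nat_lit 7405141671) (nat_lit 228) (nat_lit 24311893331) (nat_lit 46) (nat_lit 5) (nat_lit 48) (nat_lit 5) (nat_lit 49) (nat_lit 5) (nat_lit 454) (nat_lit 352) (nat_lit 214)))) (XT.nd (nat_lit 156) (nat_lit 228) (nat_lit 0) (XT.nd (nat_lit 78) (nat_lit 76) (nat_lit 0) (XT.lf (nat_lit 0) (nat_lit 23067159438) (nat_lit 228) (nat_lit 13533514187) (nat_lit 76) (nat_lit 2759869424) (nat_lit 46) (nat_lit 5) (nat_lit 49) (nat_lit 5) (nat_lit 47) (nat_lit 4) (nat_lit 455) (nat_lit 352) (nat_lit 213)) (XT.lf (nat_lit 0) (nat_lit 5205876825) (nat_lit 76) (nat_lit 27106975977) (nat_lit 152) (nat_lit 7917249458) (nat_lit 45)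 (nat_lit 5) (nat_lit 46) (nat_lit 5) (nat_lit 47) (nat_lit 4) (nat_lit 456) (nat_lit 352) (nat_lit 212))) (XT.nd (nat_lit 78) (nat_lit 152) (nat_lit 0) (XT.lf (nat_lit 0) (nat_lit 824642079) (nat_lit 152) (nat_lit 16362875432) (nat_lit 76) (nat_lit 23934176910) (nat_lit 44) (nat_lit 5) (nat_lit 46) (nat_lit 5) (nat_lit 45) (nat_lit 5) (nat_lit 457) (nat_lit 352) (nat_lit 211)) (XT.lf (nat_lit 0) (nat_lit 2817507426) (nat_lit 152) (nat_lit 6869835980) (nat_lit 228) (nat_lit 32349809705) (nat_lit 42) (nat_lit 5) (nat_lit 44) (nat_lit 5) (nat_lit 45) (nat_lit 5) (nat_lit 458) (nat_lit 352) (nat_lit 210))))) (XT.nd (nat_lit 234) (nat_lit 304) (nat_lit 0) (XT.nd (nat_lit 78) (nat_lit 76) (nat_lit 0) (XT.lf (nat_lit 0) (nat_lit 19009543169) (nat_lit 228) (nat_lit 20121579631) (nat_lit 76) (nat_lit 3843145098) (nat_lit 42) (nat_lit 5) (nat_lit 45) (nat_lit 5) (nat_lit 43) (nat_lit 4) (nat_lit 459) (nat_lit 352) (nat_lit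 209)) (XT.nd (nat_lit 78) (nat_lit 76) (nat_lit 0) (XT.lf (nat_lit 0) (nat_lit 28670330275) (nat_lit 228) (nat_lit 535513623) (nat_lit 76) (nat_lit 14731885420) (nat_lit 42) (nat_lit 5) (nat_lit 45) (nat_lit 5) (nat_lit 43) (nat_lit 4) (nat_lit 460) (nat_lit 352) (nat_lit 208)) (XT.lf (nat_lit 0) (nat_lit 20012213815) (nat_lit 76) (nat_lit 18792264950) (nat_lit 152) (nat_lit 6120110490) (nat_lit 41) (nat_lit 5) (nat_lit 42) (nat_lit 5) (nat_lit 43) (nat_lit 4) (nat_lit 461) (nat_lit 352) (nat_lit 207)))) (XT.nd (nat_lit 156) (nat_lit 76) (nat_lit 0) (XT.nd (nat_lit 78) (nat_lit 152) (nat_lit 0) (XT.lf (nat_lit 0) (nat_lit 3233813613) (nat_lit 152) (nat_lit 4801778784) (nat_lit 76) (nat_lit 37904611956) (nat_lit 40) (nat_lit 5) (nat_lit 42) (nat_lit 5) (nat_lit 41) (nat_lit 5) (nat_lit 462) (nat_lit 352) (nat_lit 206)) (XT.lf (nat_lit 0) (nat_lit 12923361179) (nat_lit 228) (nat_lit 30860662190) (nat_lit 76) (nat_lit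 3195107002) (nat_lit 38) (nat_lit 5) (nat_lit 41) (nat_lit 5) (nat_lit 39) (nat_lit 4) (nat_lit 463) (nat_lit 352) (nat_lit 205))) (XT.nd (nat_lit 78) (nat_lit 76) (nat_lit 0) (XT.lf (nat_lit 0) (nat_lit 23023589490) (nat_lit 228) (nat_lit 10379050166) (nat_lit 76) (nat_lit 14642985401) (nat_lit 38) (nat_lit 5) (nat_lit 41) (nat_lit 5) (nat_lit 39) (nat_lit 4) (nat_lit 464) (nat_lit 352) (nat_lit 204)) (XT.lf (nat_lit 0) (nat_lit 10914461983) (nat_lit 76) (nat_lit 22608993097) (nat_lit 152) (nat_lit 15617761288) (nat_lit 37) (nat_lit 5) (nat_lit 38) (nat_lit 5) (nat_lit 39) (nat_lit 4) (nat_lit 465) (nat_lit 352) (nat_lit 203)))))) (XT.nd (nat_lit 546) (nat_lit 304) (nat_lit 0) (XT.nd (nat_lit 234) (nat_lit 228) (nat_lit 0) (XT.nd (nat_lit 78) (nat_lit 228) (nat_lit 0) (XT.lf (nat_lit 0) (nat_lit 33044163392) (nat_lit 76) (nat_lit 11390768778) (nat_lit 152) (nat_lit 5831845456) (nat_lit 37) (nat_lit 5) (nat_lit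 38) (nat_lit 5) (nat_lit 39) (nat_lit 4) (nat_lit 466) (nat_lit 352) (nat_lit 202)) (XT.nd (nat_lit 78) (nat_lit 0) (nat_lit 0) (XT.lf (nat_lit 0) (nat_lit 4201766612) (nat_lit 228) (nat_lit 46983759491) (nat_lit 76) (nat_lit 238245159) (nat_lit 34) (nat_lit 5) (nat_lit 37) (nat_lit 5) (nat_lit 35) (nat_lit 4) (nat_lit 467) (nat_lit 352) (nat_lit 201)) (XT.lf (nat_lit 0) (nat_lit 14699578958) (nat_lit 228) (nat_lit 25692049679) (nat_lit 76) (nat_lit 12213702268) (nat_lit 34) (nat_lit 5) (nat_lit 37) (nat_lit 5) (nat_lit 35) (nat_lit 4) (nat_lit 468) (nat_lit 352) (nat_lit 200)))) (XT.nd (nat_lit 156) (nat_lit 152) (nat_lit 0) (XT.nd (nat_lit 78) (nat_lit 76) (nat_lit 0) (XT.lf (nat_lit 0) (nat_lit 25504548765) (nat_lit 228) (nat_lit 3776261213) (nat_lit 76) (nat_lit 24541761267) (nat_lit 34) (nat_lit 5) (nat_lit 37) (nat_lit 5) (nat_lit 35) (nat_lit 4) (nat_lit 469) (nat_lit 352) (nat_lit 199)) (XT.lf (nat_lit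 0) (nat_lit 19156569290) (nat_lit 76) (nat_lit 17653692643) (nat_lit 152) (nat_lit 18260769619) (nat_lit 33) (nat_lit 5) (nat_lit 34) (nat_lit 5) (nat_lit 35) (nat_lit 4) (nat_lit 470) (nat_lit 352) (nat_lit 198))) (XT.nd (nat_lit 78) (nat_lit 152) (nat_lit 0) (XT.lf (nat_lit 0) (nat_lit 42840688741) (nat_lit 76) (nat_lit 5645124515) (nat_lit 152) (nat_lit 7870212974) (nat_lit 33) (nat_lit 5) (nat_lit 34) (nat_lit 5) (nat_lit 35) (nat_lit 4) (nat_lit 471) (nat_lit 352) (nat_lit 197)) (XT.lf (nat_lit 0) (nat_lit 2928519852) (nat_lit 152) (nat_lit 48037880898) (nat_lit 76) (nat_lit 6707802132) (nat_lit 31) (nat_lit 5) (nat_lit 33) (nat_lit 5) (nat_lit 32) (nat_lit 4) (nat_lit 472) (nat_lit 352) (nat_lit 196))))) (XT.nd (nat_lit 312) (nat_lit 228) (nat_lit 0) (XT.nd (nat_lit 156) (nat_lit 76) (nat_lit 0) (XT.nd (nat_lit 78) (nat_lit 0) (nat_lit 0) (XT.lf (nat_lit 0) (nat_lit 14079451586) (nat_lit 152) (nat_lit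 25417275428) (nat_lit 76) (nat_lit 19527268037) (nat_lit 31) (nat_lit 5) (nat_lit 33) (nat_lit 5) (nat_lit 32) (nat_lit 4) (nat_lit 473) (nat_lit 352) (nat_lit 195)) (XT.lf (nat_lit 0) (nat_lit 25557822350) (nat_lit 152) (nat_lit 2131508943) (nat_lit 76) (nat_lit 32725162864) (nat_lit 31) (nat_lit 5) (nat_lit 33) (nat_lit 5) (nat_lit 32) (nat_lit 4) (nat_lit 474) (nat_lit 352) (nat_lit 194))) (XT.nd (nat_lit 78) (nat_lit 0) (nat_lit 0) (XT.lf (nat_lit 0) (nat_lit 22274419496) (nat_lit 76) (nat_lit 15313357638) (nat_lit 152) (nat_lit 24252714603) (nat_lit 30) (nat_lit 5) (nat_lit 31) (nat_lit 5) (nat_lit 32) (nat_lit 4) (nat_lit 475) (nat_lit 352) (nat_lit 193)) (XT.lf (nat_lit 0) (nat_lit 47443282530) (nat_lit 76) (nat_lit 2550065744) (nat_lit 152) (nat_lit 13315479913) (nat_lit 30) (nat_lit 5) (nat_lit 31) (nat_lit 5) (nat_lit 32) (nat_lit 4) (nat_lit 476) (nat_lit 352) (nat_lit 192)))) (XT.nd (nat_lit 156)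 (nat_lit 76) (nat_lit 0) (XT.nd (nat_lit 78) (nat_lit 76) (nat_lit 0) (XT.lf (nat_lit 0) (nat_lit 8599240664) (nat_lit 76) (nat_lit 54349698160) (nat_lit 76) (nat_lit 1866940799) (nat_lit 29) (nat_lit 4) (nat_lit 30) (nat_lit 5) (nat_lit 30) (nat_lit 4) (nat_lit 477) (nat_lit 352) (nat_lit 191)) (XT.lf (nat_lit 0) (nat_lit 9911768457) (nat_lit 152) (nat_lit 32375087876) (nat_lit 76) (nat_lit 24073012906) (nat_lit 28) (nat_lit 5) (nat_lit 30) (nat_lit 5) (nat_lit 29) (nat_lit 4) (nat_lit 478) (nat_lit 352) (nat_lit 190))) (XT.nd (nat_lit 78) (nat_lit 76) (nat_lit 0) (XT.lf (nat_lit 0) (nat_lit 21999851455) (nat_lit 152) (nat_lit 7849114814) (nat_lit 76) (nat_lit 38100852076) (nat_lit 28) (nat_lit 5) (nat_lit 30) (nat_lit 5) (nat_lit 29) (nat_lit 4) (nat_lit 479) (nat_lit 352) (nat_lit 189)) (XT.lf (nat_lit 0) (nat_lit 17746964056) (nat_lit 76) (nat_lit 16867931953) (nat_lit 152) (nat_lit 34967640751) (nat_lit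 27) (nat_lit 5) (nat_lit 28) (nat_lit 5) (nat_lit 29) (nat_lit 4) (nat_lit 480) (nat_lit 352) (nat_lit 188))))))))
noncomputable def xc133 : XT := (XT.nd (nat_lit 44694) (nat_lit 0) (nat_lit 8892) (XT.nd (nat_lit 43602) (nat_lit 0) (nat_lit 18848) (XT.nd (nat_lit 546) (nat_lit 76) (nat_lit 0) (XT.nd (nat_lit 234) (nat_lit 76) (nat_lit 0) (XT.nd (nat_lit 78) (nat_lit 152) (nat_lit 0) (XT.lf (nat_lit 0) (nat_lit 44259961334) (nat_lit 76) (nat_lit 3421484377) (nat_lit 152) (nat_lit 23580599799) (nat_lit 27) (nat_lit 5) (nat_lit 28) (nat_lit 5) (nat_lit 29) (nat_lit 4) (nat_lit 481) (nat_lit 352) (nat_lit 187)) (XT.nd (nat_lit 78) (nat_lit 152) (nat_lit 0) (XT.lf (nat_lit 0) (nat_lit 61234156783) (nat_lit 152) (nat_lit 1535480706) (nat_lit 0) (nat_lit 10219477472) (nat_lit 27) (nat_lit 5) (nat_lit 29) (nat_lit 4) (nat_lit 27) (nat_lit 4) (nat_lit 482) (nat_lit 352) (nat_lit 186)) (XT.lf (nat_lit 0) (nat_lit 689460246)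 (nat_lit 152) (nat_lit 49626146959) (nat_lit 76) (nat_lit 24444097674) (nat_lit 25) (nat_lit 5) (nat_lit 27) (nat_lit 5) (nat_lit 26) (nat_lit 4) (nat_lit 483) (nat_lit 352) (nat_lit 185)))) (XT.nd (nat_lit 156) (nat_lit 0) (nat_lit 0) (XT.nd (nat_lit 78) (nat_lit 76) (nat_lit 0) (XT.lf (nat_lit 0) (nat_lit 13280711378) (nat_lit 152) (nat_lit 24076656625) (nat_lit 76) (nat_lit 39222260376) (nat_lit 25) (nat_lit 5) (nat_lit 27) (nat_lit 5) (nat_lit 26) (nat_lit 4) (nat_lit 484) (nat_lit 352) (nat_lit 184)) (XT.lf (nat_lit 0) (nat_lit 2272682558) (nat_lit 76) (nat_lit 23993139931) (nat_lit 152) (nat_lit 52187843764) (nat_lit 24) (nat_lit 5) (nat_lit 25) (nat_lit 5) (nat_lit 26) (nat_lit 4) (nat_lit 485) (nat_lit 352) (nat_lit 183))) (XT.nd (nat_lit 78) (nat_lit 0) (nat_lit 0) (XT.lf (nat_lit 0) (nat_lit 29895173379) (nat_lit 76) (nat_lit 9982778776) (nat_lit 152) (nat_lit 40498849485) (nat_lit 24) (nat_lit 5)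 (nat_lit 25) (nat_lit 5) (nat_lit 26) (nat_lit 4) (nat_lit 486) (nat_lit 352) (nat_lit 182)) (XT.lf (nat_lit 0) (nat_lit 53935656021) (nat_lit 152) (nat_lit 24064724206) (nat_lit 0) (nat_lit 4356134875) (nat_lit 24) (nat_lit 5) (nat_lit 26) (nat_lit 4) (nat_lit 24) (nat_lit 4) (nat_lit 487) (nat_lit 352) (nat_lit 181))))) (XT.nd (nat_lit 42744) (nat_lit 0) (nat_lit 22572) (XT.nd (nat_lit 42588) (nat_lit 0) (nat_lit 23332) (XT.lf (nat_lit 0) (nat_lit 3095894414) (nat_lit 76) (nat_lit 65442411573) (nat_lit 76) (nat_lit 15853617845) (nat_lit 23) (nat_lit 4) (nat_lit 24) (nat_lit 5) (nat_lit 24) (nat_lit 4) (nat_lit 488) (nat_lit 352) (nat_lit 180)) (XT.nd (nat_lit 78) (nat_lit 0) (nat_lit 0) (XT.lf (nat_lit 0) (nat_lit 717472224) (nat_lit 836) (nat_lit 1432097264) (nat_lit 836) (nat_lit 1432097264) (nat_lit 330) (nat_lit 3) (nat_lit 341) (nat_lit 3) (nat_lit 341) (nat_lit 5) (nat_lit 353) (nat_lit 353) (nat_lit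 314)) (XT.lf (nat_lit 76) (nat_lit 620874299) (nat_lit 0) (nat_lit 2487259980) (nat_lit 836) (nat_lit 4112189998) (nat_lit 331) (nat_lit 5) (nat_lit 330) (nat_lit 3) (nat_lit 341) (nat_lit 5) (nat_lit 354) (nat_lit 353) (nat_lit 313)))) (XT.nd (nat_lit 156) (nat_lit 760) (nat_lit 0) (XT.nd (nat_lit 78) (nat_lit 0) (nat_lit 76) (XT.lf (nat_lit 76) (nat_lit 4235455092) (nat_lit 0) (nat_lit 560436036) (nat_lit 836) (nat_lit 2484237993) (nat_lit 331) (nat_lit 5) (nat_lit 330) (nat_lit 3) (nat_lit 341) (nat_lit 5) (nat_lit 355) (nat_lit 353) (nat_lit 312)) (XT.lf (nat_lit 76) (nat_lit 579388754) (nat_lit 0) (nat_lit 5911767718) (nat_lit 836) (nat_lit 851899816) (nat_lit 332) (nat_lit 5) (nat_lit 331) (nat_lit 5) (nat_lit 342) (nat_lit 5) (nat_lit 356) (nat_lit 353) (nat_lit 311))) (XT.nd (nat_lit 78) (nat_lit 0) (nat_lit 0) (XT.lf (nat_lit 0) (nat_lit 788286779) (nat_lit 836) (nat_lit 3082075202) (nat_lit 912) (nat_lit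 3538050691) (nat_lit 320) (nat_lit 5) (nat_lit 331) (nat_lit 5) (nat_lit 332) (nat_lit 5) (nat_lit 357) (nat_lit 353) (nat_lit 310)) (XT.lf (nat_lit 76) (nat_lit 679957424) (nat_lit 0) (nat_lit 1727392171) (nat_lit 912) (nat_lit 5069754850) (nat_lit 321) (nat_lit 5) (nat_lit 320) (nat_lit 5) (nat_lit 332) (nat_lit 5) (nat_lit 358) (nat_lit 353) (nat_lit 309)))))) (XT.nd (nat_lit 546) (nat_lit 2964) (nat_lit 0) (XT.nd (nat_lit 234) (nat_lit 836) (nat_lit 0) (XT.nd (nat_lit 78) (nat_lit 0) (nat_lit 0) (XT.lf (nat_lit 0) (nat_lit 4052922513) (nat_lit 836) (nat_lit 2970323088) (nat_lit 912) (nat_lit 525303836) (nat_lit 321) (nat_lit 5) (nat_lit 332) (nat_lit 5) (nat_lit 333) (nat_lit 5) (nat_lit 359) (nat_lit 353) (nat_lit 308)) (XT.nd (nat_lit 78) (nat_lit 0) (nat_lit 0) (XT.lf (nat_lit 76) (nat_lit 937041676) (nat_lit 0) (nat_lit 4780518026) (nat_lit 912) (nat_lit 1905516883) (nat_lit 322) (nat_lit 5) (nat_lit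 321) (nat_lit 5) (nat_lit 333) (nat_lit 5) (nat_lit 360) (nat_lit 353) (nat_lit 307)) (XT.lf (nat_lit 76) (nat_lit 4987417556) (nat_lit 0) (nat_lit 2419605381) (nat_lit 912) (nat_lit 293598855) (nat_lit 322) (nat_lit 5) (nat_lit 321) (nat_lit 5) (nat_lit 333) (nat_lit 5) (nat_lit 361) (nat_lit 353) (nat_lit 306)))) (XT.nd (nat_lit 156) (nat_lit 0) (nat_lit 0) (XT.nd (nat_lit 78) (nat_lit 0) (nat_lit 0) (XT.lf (nat_lit 0) (nat_lit 1299549718) (nat_lit 912) (nat_lit 6424940123) (nat_lit 988) (nat_lit 56850337) (nat_lit 310) (nat_lit 5) (nat_lit 322) (nat_lit 5) (nat_lit 323) (nat_lit 5) (nat_lit 362) (nat_lit 353) (nat_lit 305)) (XT.lf (nat_lit 0) (nat_lit 2933570463) (nat_lit 912) (nat_lit 2323700684) (nat_lit 988) (nat_lit 2607178804) (nat_lit 310) (nat_lit 5) (nat_lit 322) (nat_lit 5) (nat_lit 323) (nat_lit 5) (nat_lit 363) (nat_lit 353) (nat_lit 304))) (XT.nd (nat_lit 78) (nat_lit 0) (nat_lit 76) (XT.lf (nat_lit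 76) (nat_lit 1902141791) (nat_lit 0) (nat_lit 2681640958) (nat_lit 988) (nat_lit 3367280777) (nat_lit 311) (nat_lit 5) (nat_lit 310) (nat_lit 5) (nat_lit 323) (nat_lit 5) (nat_lit 364) (nat_lit 353) (nat_lit 303)) (XT.lf (nat_lit 0) (nat_lit 6257100868) (nat_lit 912) (nat_lit 1774003382) (nat_lit 988) (nat_lit 9988162) (nat_lit 311) (nat_lit 5) (nat_lit 323) (nat_lit 5) (nat_lit 324) (nat_lit 5) (nat_lit 365) (nat_lit 353) (nat_lit 302))))) (XT.nd (nat_lit 234) (nat_lit 2052) (nat_lit 0) (XT.nd (nat_lit 78) (nat_lit 988) (nat_lit 0) (XT.lf (nat_lit 76) (nat_lit 2617901247) (nat_lit 0) (nat_lit 5366062763) (nat_lit 988) (nat_lit 149781955) (nat_lit 312) (nat_lit 5) (nat_lit 311) (nat_lit 5) (nat_lit 324) (nat_lit 5) (nat_lit 366) (nat_lit 353) (nat_lit 301)) (XT.nd (nat_lit 78) (nat_lit 0) (nat_lit 76) (XT.lf (nat_lit 0) (nat_lit 1473828537) (nat_lit 988) (nat_lit 1102049307) (nat_lit 1064) (nat_lit 5653772907)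 (nat_lit 298) (nat_lit 5) (nat_lit 311) (nat_lit 5) (nat_lit 312) (nat_lit 5) (nat_lit 367) (nat_lit 353) (nat_lit 300)) (XT.lf (nat_lit 0) (nat_lit 3133456785) (nat_lit 988) (nat_lit 4856984512) (nat_lit 76) (nat_lit 338259411) (nat_lit 299) (nat_lit 5) (nat_lit 312) (nat_lit 5) (nat_lit 300) (nat_lit 5) (nat_lit 368) (nat_lit 353) (nat_lit 299)))) (XT.nd (nat_lit 156) (nat_lit 1140) (nat_lit 0) (XT.nd (nat_lit 78) (nat_lit 988) (nat_lit 0) (XT.lf (nat_lit 0) (nat_lit 4834329582) (nat_lit 988) (nat_lit 287210161) (nat_lit 76) (nat_lit 3309460219) (nat_lit 299) (nat_lit 5) (nat_lit 312) (nat_lit 5) (nat_lit 300) (nat_lit 5) (nat_lit 369) (nat_lit 353) (nat_lit 298)) (XT.lf (nat_lit 0) (nat_lit 4471481523) (nat_lit 988) (nat_lit 2113761927) (nat_lit 1064) (nat_lit 1951175141) (nat_lit 286) (nat_lit 5) (nat_lit 299) (nat_lit 5) (nat_lit 300) (nat_lit 5) (nat_lit 370) (nat_lit 353) (nat_lit 297))) (XT.nd (nat_lit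 78) (nat_lit 76) (nat_lit 0) (XT.lf (nat_lit 0) (nat_lit 701639758) (nat_lit 1064) (nat_lit 7663231725) (nat_lit 1140) (nat_lit 280862931) (nat_lit 272) (nat_lit 5) (nat_lit 286) (nat_lit 5) (nat_lit 287) (nat_lit 5) (nat_lit 371) (nat_lit 353) (nat_lit 296)) (XT.lf (nat_lit 0) (nat_lit 1431370523) (nat_lit 1140) (nat_lit 3134707331) (nat_lit 76) (nat_lit 4191258710) (nat_lit 271) (nat_lit 5) (nat_lit 286) (nat_lit 5) (nat_lit 272) (nat_lit 5) (nat_lit 372) (nat_lit 353) (nat_lit 295))))))) (XT.nd (nat_lit 1092) (nat_lit 4104) (nat_lit 0) (XT.nd (nat_lit 546) (nat_lit 2204) (nat_lit 0) (XT.nd (nat_lit 234) (nat_lit 1292) (nat_lit 0) (XT.nd (nat_lit 78) (nat_lit 1216) (nat_lit 0) (XT.lf (nat_lit 0) (nat_lit 1815711373) (nat_lit 1140) (nat_lit 1349825752) (nat_lit 1216) (nat_lit 5707398412) (nat_lit 256) (nat_lit 5) (nat_lit 271) (nat_lit 5) (nat_lit 272) (nat_lit 5) (nat_lit 373) (nat_lit 353) (nat_lit 294))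 (XT.nd (nat_lit 78) (nat_lit 1216) (nat_lit 0) (XT.lf (nat_lit 0) (nat_lit 4962228740) (nat_lit 1216) (nat_lit 2068158386) (nat_lit 76) (nat_lit 1961318332) (nat_lit 256) (nat_lit 5) (nat_lit 272) (nat_lit 5) (nat_lit 257) (nat_lit 5) (nat_lit 374) (nat_lit 353) (nat_lit 293)) (XT.lf (nat_lit 0) (nat_lit 3081595881) (nat_lit 1216) (nat_lit 3735050348) (nat_lit 1292) (nat_lit 2297294952) (nat_lit 240) (nat_lit 5) (nat_lit 256) (nat_lit 5) (nat_lit 257) (nat_lit 5) (nat_lit 375) (nat_lit 353) (nat_lit 292)))) (XT.nd (nat_lit 156) (nat_lit 608) (nat_lit 0) (XT.nd (nat_lit 78) (nat_lit 684) (nat_lit 0) (XT.lf (nat_lit 0) (nat_lit 8392836597) (nat_lit 1216) (nat_lit 316382649) (nat_lit 1292) (nat_lit 531165986) (nat_lit 240) (nat_lit 5) (nat_lit 256) (nat_lit 5) (nat_lit 257) (nat_lit 5) (nat_lit 376) (nat_lit 353) (nat_lit 291)) (XT.lf (nat_lit 0) (nat_lit 1300151578) (nat_lit 684) (nat_lit 4867727626) (nat_lit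 76) (nat_lit 3201267846) (nat_lit 231) (nat_lit 5) (nat_lit 240) (nat_lit 5) (nat_lit 232) (nat_lit 5) (nat_lit 377) (nat_lit 353) (nat_lit 290))) (XT.nd (nat_lit 78) (nat_lit 0) (nat_lit 0) (XT.lf (nat_lit 0) (nat_lit 491905839) (nat_lit 608) (nat_lit 2663483855) (nat_lit 684) (nat_lit 6346850058) (nat_lit 223) (nat_lit 5) (nat_lit 231) (nat_lit 5) (nat_lit 232) (nat_lit 5) (nat_lit 378) (nat_lit 353) (nat_lit 289)) (XT.lf (nat_lit 0) (nat_lit 5088909063) (nat_lit 684) (nat_lit 3572002878) (nat_lit 76) (nat_lit 977749629) (nat_lit 223) (nat_lit 5) (nat_lit 232) (nat_lit 5) (nat_lit 224) (nat_lit 5) (nat_lit 379) (nat_lit 353) (nat_lit 288))))) (XT.nd (nat_lit 234) (nat_lit 988) (nat_lit 0) (XT.nd (nat_lit 78) (nat_lit 608) (nat_lit 0) (XT.lf (nat_lit 0) (nat_lit 2006648753) (nat_lit 608) (nat_lit 5084386278) (nat_lit 684) (nat_lit 2687837600) (nat_lit 215) (nat_lit 5) (nat_lit 223) (nat_lit 5) (nat_lit 224)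 (nat_lit 5) (nat_lit 380) (nat_lit 353) (nat_lit 287)) (XT.nd (nat_lit 78) (nat_lit 608) (nat_lit 0) (XT.lf (nat_lit 0) (nat_lit 7790616506) (nat_lit 608) (nat_lit 1364301397) (nat_lit 684) (nat_lit 768335520) (nat_lit 215) (nat_lit 5) (nat_lit 223) (nat_lit 5) (nat_lit 224) (nat_lit 5) (nat_lit 381) (nat_lit 353) (nat_lit 286)) (XT.lf (nat_lit 0) (nat_lit 1211202816) (nat_lit 608) (nat_lit 6393917162) (nat_lit 76) (nat_lit 2465729314) (nat_lit 207) (nat_lit 5) (nat_lit 215) (nat_lit 5) (nat_lit 208) (nat_lit 5) (nat_lit 382) (nat_lit 353) (nat_lit 285)))) (XT.nd (nat_lit 156) (nat_lit 456) (nat_lit 0) (XT.nd (nat_lit 78) (nat_lit 532) (nat_lit 0) (XT.lf (nat_lit 0) (nat_lit 3236856533) (nat_lit 608) (nat_lit 574621669) (nat_lit 76) (nat_lit 6411114446) (nat_lit 207) (nat_lit 5) (nat_lit 215) (nat_lit 5) (nat_lit 208) (nat_lit 5) (nat_lit 383) (nat_lit 353) (nat_lit 284)) (XT.lf (nat_lit 0) (nat_lit 5345372267)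 (nat_lit 608) (nat_lit 4887819121) (nat_lit 76) (nat_lit 145046755) (nat_lit 200) (nat_lit 5) (nat_lit 208) (nat_lit 5) (nat_lit 201) (nat_lit 5) (nat_lit 384) (nat_lit 353) (nat_lit 283))) (XT.nd (nat_lit 78) (nat_lit 0) (nat_lit 0) (XT.lf (nat_lit 0) (nat_lit 1160533817) (nat_lit 456) (nat_lit 6379822914) (nat_lit 532) (nat_lit 2997512119) (nat_lit 194) (nat_lit 5) (nat_lit 200) (nat_lit 5) (nat_lit 201) (nat_lit 5) (nat_lit 385) (nat_lit 353) (nat_lit 282)) (XT.lf (nat_lit 0) (nat_lit 7455748538) (nat_lit 456) (nat_lit 2363843939) (nat_lit 532) (nat_lit 882155836) (nat_lit 194) (nat_lit 5) (nat_lit 200) (nat_lit 5) (nat_lit 201) (nat_lit 5) (nat_lit 386) (nat_lit 353) (nat_lit 281)))))) (XT.nd (nat_lit 546) (nat_lit 2128) (nat_lit 0) (XT.nd (nat_lit 234) (nat_lit 912) (nat_lit 0) (XT.nd (nat_lit 78) (nat_lit 456) (nat_lit 0) (XT.lf (nat_lit 0) (nat_lit 1288044882) (nat_lit 608) (nat_lit 7805044184) (nat_lit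 76) (nat_lit 1776591780) (nat_lit 186) (nat_lit 5) (nat_lit 194) (nat_lit 5) (nat_lit 187) (nat_lit 5) (nat_lit 387) (nat_lit 353) (nat_lit 280)) (XT.nd (nat_lit 78) (nat_lit 456) (nat_lit 0) (XT.lf (nat_lit 0) (nat_lit 3532281686) (nat_lit 608) (nat_lit 1477912946) (nat_lit 76) (nat_lit 6031405761) (nat_lit 186) (nat_lit 5) (nat_lit 194) (nat_lit 5) (nat_lit 187) (nat_lit 5) (nat_lit 388) (nat_lit 353) (nat_lit 279)) (XT.lf (nat_lit 0) (nat_lit 5104747347) (nat_lit 456) (nat_lit 759190876) (nat_lit 532) (nat_lit 5354147084) (nat_lit 180) (nat_lit 5) (nat_lit 186) (nat_lit 5) (nat_lit 187) (nat_lit 5) (nat_lit 389) (nat_lit 353) (nat_lit 278)))) (XT.nd (nat_lit 156) (nat_lit 456) (nat_lit 0) (XT.nd (nat_lit 78) (nat_lit 0) (nat_lit 0) (XT.lf (nat_lit 0) (nat_lit 455332856) (nat_lit 456) (nat_lit 7835946588) (nat_lit 532) (nat_lit 3107823530) (nat_lit 174) (nat_lit 5) (nat_lit 180) (nat_lit 5) (nat_lit 181) (nat_lit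 5) (nat_lit 390) (nat_lit 353) (nat_lit 277)) (XT.lf (nat_lit 0) (nat_lit 7304672553) (nat_lit 456) (nat_lit 3527942057) (nat_lit 532) (nat_lit 751711304) (nat_lit 174) (nat_lit 5) (nat_lit 180) (nat_lit 5) (nat_lit 181) (nat_lit 5) (nat_lit 391) (nat_lit 353) (nat_lit 276))) (XT.nd (nat_lit 78) (nat_lit 0) (nat_lit 0) (XT.lf (nat_lit 0) (nat_lit 1648869222) (nat_lit 456) (nat_lit 9198674310) (nat_lit 76) (nat_lit 926894182) (nat_lit 168) (nat_lit 5) (nat_lit 174) (nat_lit 5) (nat_lit 169) (nat_lit 5) (nat_lit 392) (nat_lit 353) (nat_lit 275)) (XT.lf (nat_lit 0) (nat_lit 4157887087) (nat_lit 456) (nat_lit 2321221206) (nat_lit 76) (nat_lit 5489384546) (nat_lit 168) (nat_lit 5) (nat_lit 174) (nat_lit 5) (nat_lit 169) (nat_lit 5) (nat_lit 393) (nat_lit 353) (nat_lit 274))))) (XT.nd (nat_lit 312) (nat_lit 836) (nat_lit 0) (XT.nd (nat_lit 156) (nat_lit 836) (nat_lit 0) (XT.nd (nat_lit 78) (nat_lit 0) (nat_lit 0)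 (XT.lf (nat_lit 0) (nat_lit 4823637857) (nat_lit 456) (nat_lit 1938647589) (nat_lit 532) (nat_lit 5405489718) (nat_lit 162) (nat_lit 5) (nat_lit 168) (nat_lit 5) (nat_lit 169) (nat_lit 5) (nat_lit 394) (nat_lit 353) (nat_lit 273)) (XT.lf (nat_lit 0) (nat_lit 9468933222) (nat_lit 532) (nat_lit 201895566) (nat_lit 76) (nat_lit 2701492236) (nat_lit 162) (nat_lit 5) (nat_lit 169) (nat_lit 5) (nat_lit 163) (nat_lit 5) (nat_lit 395) (nat_lit 353) (nat_lit 272))) (XT.nd (nat_lit 78) (nat_lit 456) (nat_lit 0) (XT.lf (nat_lit 0) (nat_lit 7244318951) (nat_lit 380) (nat_lit 5076172462) (nat_lit 456) (nat_lit 260608854) (nat_lit 157) (nat_lit 5) (nat_lit 162) (nat_lit 5) (nat_lit 163) (nat_lit 5) (nat_lit 396) (nat_lit 353) (nat_lit 271)) (XT.lf (nat_lit 0) (nat_lit 2106757221) (nat_lit 380) (nat_lit 304024618) (nat_lit 456) (nat_lit 10384738270) (nat_lit 151) (nat_lit 5) (nat_lit 156) (nat_lit 5) (nat_lit 157) (nat_lit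 5) (nat_lit 397) (nat_lit 353) (nat_lit 270)))) (XT.nd (nat_lit 156) (nat_lit 456) (nat_lit 0) (XT.nd (nat_lit 78) (nat_lit 380) (nat_lit 0) (XT.lf (nat_lit 0) (nat_lit 5231218237) (nat_lit 456) (nat_lit 3212192995) (nat_lit 76) (nat_lit 4570667278) (nat_lit 151) (nat_lit 5) (nat_lit 157) (nat_lit 5) (nat_lit 152) (nat_lit 5) (nat_lit 398) (nat_lit 353) (nat_lit 269)) (XT.lf (nat_lit 0) (nat_lit 4542263359) (nat_lit 380) (nat_lit 3616785139) (nat_lit 456) (nat_lit 5079469150) (nat_lit 146) (nat_lit 5) (nat_lit 151) (nat_lit 5) (nat_lit 152) (nat_lit 5) (nat_lit 399) (nat_lit 353) (nat_lit 268))) (XT.nd (nat_lit 78) (nat_lit 456) (nat_lit 0) (XT.lf (nat_lit 0) (nat_lit 11196912849) (nat_lit 456) (nat_lit 919214962) (nat_lit 76) (nat_lit 1352903364) (nat_lit 146) (nat_lit 5) (nat_lit 152) (nat_lit 5) (nat_lit 147) (nat_lit 5) (nat_lit 400) (nat_lit 353) (nat_lit 267)) (XT.lf (nat_lit 0) (nat_lit 689946099) (nat_lit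 456) (nat_lit 6547075647) (nat_lit 76) (nat_lit 6466789080) (nat_lit 140) (nat_lit 5) (nat_lit 146) (nat_lit 5) (nat_lit 141) (nat_lit 5) (nat_lit 401) (nat_lit 353) (nat_lit 266))))))))
noncomputable def xc134 : XT := (XT.nd (nat_lit 2184) (nat_lit 2660) (nat_lit 0) (XT.nd (nat_lit 1092) (nat_lit 1976) (nat_lit 0) (XT.nd (nat_lit 546) (nat_lit 1292) (nat_lit 0) (XT.nd (nat_lit 234) (nat_lit 684) (nat_lit 0) (XT.nd (nat_lit 78) (nat_lit 380) (nat_lit 0) (XT.lf (nat_lit 0) (nat_lit 1524038149) (nat_lit 304) (nat_lit 2172435626) (nat_lit 380) (nat_lit 10248453727) (nat_lit 136) (nat_lit 5) (nat_lit 140) (nat_lit 5) (nat_lit 141) (nat_lit 5) (nat_lit 402) (nat_lit 353) (nat_lit 265)) (XT.nd (nat_lit 78) (nat_lit 380) (nat_lit 0) (XT.lf (nat_lit 0) (nat_lit 6866747765) (nat_lit 380) (nat_lit 4281564698) (nat_lit 76) (nat_lit 3042765091) (nat_lit 136) (nat_lit 5) (nat_lit 141) (nat_lit 5) (nat_lit 137) (nat_lit 5)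 (nat_lit 403) (nat_lit 353) (nat_lit 264)) (XT.lf (nat_lit 0) (nat_lit 4130103064) (nat_lit 380) (nat_lit 6041413596) (nat_lit 456) (nat_lit 4271920049) (nat_lit 131) (nat_lit 5) (nat_lit 136) (nat_lit 5) (nat_lit 137) (nat_lit 5) (nat_lit 404) (nat_lit 353) (nat_lit 263)))) (XT.nd (nat_lit 156) (nat_lit 304) (nat_lit 0) (XT.nd (nat_lit 78) (nat_lit 380) (nat_lit 0) (XT.lf (nat_lit 0) (nat_lit 12851271326) (nat_lit 380) (nat_lit 745910381) (nat_lit 456) (nat_lit 1105538365) (nat_lit 131) (nat_lit 5) (nat_lit 136) (nat_lit 5) (nat_lit 137) (nat_lit 5) (nat_lit 405) (nat_lit 353) (nat_lit 262)) (XT.lf (nat_lit 0) (nat_lit 2205535858) (nat_lit 380) (nat_lit 8064814603) (nat_lit 76) (nat_lit 4696062378) (nat_lit 126) (nat_lit 5) (nat_lit 131) (nat_lit 5) (nat_lit 127) (nat_lit 5) (nat_lit 406) (nat_lit 353) (nat_lit 261))) (XT.nd (nat_lit 78) (nat_lit 0) (nat_lit 0) (XT.lf (nat_lit 0) (nat_lit 682133379) (nat_lit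 304) (nat_lit 4923582359) (nat_lit 380) (nat_lit 9631617977) (nat_lit 122) (nat_lit 5) (nat_lit 126) (nat_lit 5) (nat_lit 127) (nat_lit 5) (nat_lit 407) (nat_lit 353) (nat_lit 260)) (XT.lf (nat_lit 0) (nat_lit 9175151424) (nat_lit 380) (nat_lit 5694170410) (nat_lit 76) (nat_lit 645048223) (nat_lit 122) (nat_lit 5) (nat_lit 127) (nat_lit 5) (nat_lit 123) (nat_lit 5) (nat_lit 408) (nat_lit 353) (nat_lit 259))))) (XT.nd (nat_lit 234) (nat_lit 608) (nat_lit 0) (XT.nd (nat_lit 78) (nat_lit 380) (nat_lit 0) (XT.lf (nat_lit 0) (nat_lit 3420963594) (nat_lit 304) (nat_lit 9492334908) (nat_lit 380) (nat_lit 2884575332) (nat_lit 118) (nat_lit 5) (nat_lit 122) (nat_lit 5) (nat_lit 123) (nat_lit 5) (nat_lit 409) (nat_lit 353) (nat_lit 258)) (XT.nd (nat_lit 78) (nat_lit 304) (nat_lit 0) (XT.lf (nat_lit 0) (nat_lit 698725256) (nat_lit 380) (nat_lit 3198769923) (nat_lit 76) (nat_lit 12191053226) (nat_lit 117) (nat_lit 5) (nat_lit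 122) (nat_lit 5) (nat_lit 118) (nat_lit 5) (nat_lit 410) (nat_lit 353) (nat_lit 257)) (XT.lf (nat_lit 0) (nat_lit 4391700276) (nat_lit 380) (nat_lit 10084052756) (nat_lit 76) (nat_lit 1909533558) (nat_lit 113) (nat_lit 5) (nat_lit 118) (nat_lit 5) (nat_lit 114) (nat_lit 5) (nat_lit 411) (nat_lit 353) (nat_lit 256)))) (XT.nd (nat_lit 156) (nat_lit 380) (nat_lit 0) (XT.nd (nat_lit 78) (nat_lit 228) (nat_lit 0) (XT.lf (nat_lit 0) (nat_lit 8247543957) (nat_lit 380) (nat_lit 606230429) (nat_lit 76) (nat_lit 7835594767) (nat_lit 113) (nat_lit 5) (nat_lit 118) (nat_lit 5) (nat_lit 114) (nat_lit 5) (nat_lit 412) (nat_lit 353) (nat_lit 255)) (XT.lf (nat_lit 0) (nat_lit 9309260443) (nat_lit 228) (nat_lit 2980715250) (nat_lit 304) (nat_lit 4710475599) (nat_lit 110) (nat_lit 5) (nat_lit 113) (nat_lit 5) (nat_lit 114) (nat_lit 5) (nat_lit 413) (nat_lit 353) (nat_lit 254))) (XT.nd (nat_lit 78) (nat_lit 76) (nat_lit 0) (XT.lf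 (nat_lit 0) (nat_lit 2198804873) (nat_lit 304) (nat_lit 14293294922) (nat_lit 380) (nat_lit 827617869) (nat_lit 106) (nat_lit 5) (nat_lit 110) (nat_lit 5) (nat_lit 111) (nat_lit 5) (nat_lit 414) (nat_lit 353) (nat_lit 253)) (XT.lf (nat_lit 0) (nat_lit 3199465729) (nat_lit 380) (nat_lit 5192433822) (nat_lit 76) (nat_lit 9253062964) (nat_lit 105) (nat_lit 5) (nat_lit 110) (nat_lit 5) (nat_lit 106) (nat_lit 5) (nat_lit 415) (nat_lit 353) (nat_lit 252)))))) (XT.nd (nat_lit 546) (nat_lit 988) (nat_lit 0) (XT.nd (nat_lit 234) (nat_lit 532) (nat_lit 0) (XT.nd (nat_lit 78) (nat_lit 228) (nat_lit 0) (XT.lf (nat_lit 0) (nat_lit 5097412464) (nat_lit 228) (nat_lit 2264532946) (nat_lit 304) (nat_lit 10616840920) (nat_lit 102) (nat_lit 5) (nat_lit 105) (nat_lit 5) (nat_lit 106) (nat_lit 5) (nat_lit 416) (nat_lit 353) (nat_lit 251)) (XT.nd (nat_lit 78) (nat_lit 228) (nat_lit 0) (XT.lf (nat_lit 0) (nat_lit 11723527278) (nat_lit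 304) (nat_lit 2585999444) (nat_lit 76) (nat_lit 4010875169) (nat_lit 102) (nat_lit 5) (nat_lit 106) (nat_lit 5) (nat_lit 103) (nat_lit 5) (nat_lit 417) (nat_lit 353) (nat_lit 250)) (XT.lf (nat_lit 0) (nat_lit 8127297784) (nat_lit 228) (nat_lit 8172094138) (nat_lit 304) (nat_lit 2370374691) (nat_lit 99) (nat_lit 5) (nat_lit 102) (nat_lit 5) (nat_lit 103) (nat_lit 5) (nat_lit 418) (nat_lit 353) (nat_lit 249)))) (XT.nd (nat_lit 156) (nat_lit 228) (nat_lit 0) (XT.nd (nat_lit 78) (nat_lit 0) (nat_lit 0) (XT.lf (nat_lit 0) (nat_lit 142448548) (nat_lit 228) (nat_lit 1812478496) (nat_lit 304) (nat_lit 17073795917) (nat_lit 95) (nat_lit 5) (nat_lit 98) (nat_lit 5) (nat_lit 99) (nat_lit 5) (nat_lit 419) (nat_lit 353) (nat_lit 248)) (XT.lf (nat_lit 0) (nat_lit 6498501449) (nat_lit 304) (nat_lit 8128628255) (nat_lit 76) (nat_lit 4766532985) (nat_lit 95) (nat_lit 5) (nat_lit 99) (nat_lit 5) (nat_lit 96) (nat_lit 5) (nat_lit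 420) (nat_lit 353) (nat_lit 247))) (XT.nd (nat_lit 78) (nat_lit 0) (nat_lit 0) (XT.lf (nat_lit 0) (nat_lit 2965127527) (nat_lit 228) (nat_lit 8243295406) (nat_lit 304) (nat_lit 8560229814) (nat_lit 92) (nat_lit 5) (nat_lit 95) (nat_lit 5) (nat_lit 96) (nat_lit 5) (nat_lit 421) (nat_lit 353) (nat_lit 246)) (XT.lf (nat_lit 0) (nat_lit 14532050292) (nat_lit 228) (nat_lit 1593492213) (nat_lit 304) (nat_lit 4027376227) (nat_lit 92) (nat_lit 5) (nat_lit 95) (nat_lit 5) (nat_lit 96) (nat_lit 5) (nat_lit 422) (nat_lit 353) (nat_lit 245))))) (XT.nd (nat_lit 234) (nat_lit 456) (nat_lit 0) (XT.nd (nat_lit 78) (nat_lit 228) (nat_lit 0) (XT.lf (nat_lit 0) (nat_lit 721635008) (nat_lit 304) (nat_lit 14616334326) (nat_lit 76) (nat_lit 5207780751) (nat_lit 88) (nat_lit 5) (nat_lit 92) (nat_lit 5) (nat_lit 89) (nat_lit 5) (nat_lit 423) (nat_lit 353) (nat_lit 244)) (XT.nd (nat_lit 78) (nat_lit 228) (nat_lit 0) (XT.lf (nat_lit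 0) (nat_lit 5589520146) (nat_lit 304) (nat_lit 3089399152) (nat_lit 76) (nat_lit 12268533300) (nat_lit 88) (nat_lit 5) (nat_lit 92) (nat_lit 5) (nat_lit 89) (nat_lit 5) (nat_lit 424) (nat_lit 353) (nat_lit 243)) (XT.lf (nat_lit 0) (nat_lit 8932452075) (nat_lit 228) (nat_lit 1741563626) (nat_lit 304) (nat_lit 10685076145) (nat_lit 85) (nat_lit 5) (nat_lit 88) (nat_lit 5) (nat_lit 89) (nat_lit 5) (nat_lit 425) (nat_lit 353) (nat_lit 242)))) (XT.nd (nat_lit 156) (nat_lit 304) (nat_lit 0) (XT.nd (nat_lit 78) (nat_lit 152) (nat_lit 0) (XT.lf (nat_lit 0) (nat_lit 15979317960) (nat_lit 304) (nat_lit 481420272) (nat_lit 76) (nat_lit 5320296677) (nat_lit 85) (nat_lit 5) (nat_lit 89) (nat_lit 5) (nat_lit 86) (nat_lit 5) (nat_lit 426) (nat_lit 353) (nat_lit 241)) (XT.lf (nat_lit 0) (nat_lit 12014791843) (nat_lit 152) (nat_lit 9546986669) (nat_lit 228) (nat_lit 650320486) (nat_lit 83) (nat_lit 5) (nat_lit 85) (nat_lit 5)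 (nat_lit 86) (nat_lit 5) (nat_lit 427) (nat_lit 353) (nat_lit 240))) (XT.nd (nat_lit 78) (nat_lit 0) (nat_lit 0) (XT.lf (nat_lit 0) (nat_lit 2213577274) (nat_lit 228) (nat_lit 2362691802) (nat_lit 304) (nat_lit 18078140940) (nat_lit 79) (nat_lit 5) (nat_lit 82) (nat_lit 5) (nat_lit 83) (nat_lit 5) (nat_lit 428) (nat_lit 353) (nat_lit 239)) (XT.lf (nat_lit 0) (nat_lit 10084407502) (nat_lit 304) (nat_lit 7981683929) (nat_lit 76) (nat_lit 5039573588) (nat_lit 79) (nat_lit 5) (nat_lit 83) (nat_lit 5) (nat_lit 80) (nat_lit 5) (nat_lit 429) (nat_lit 353) (nat_lit 238))))))) (XT.nd (nat_lit 1092) (nat_lit 1140) (nat_lit 0) (XT.nd (nat_lit 546) (nat_lit 684) (nat_lit 0) (XT.nd (nat_lit 234) (nat_lit 380) (nat_lit 0) (XT.nd (nat_lit 78) (nat_lit 304) (nat_lit 0) (XT.lf (nat_lit 0) (nat_lit 4899444949) (nat_lit 152) (nat_lit 10914669184) (nat_lit 228) (nat_lit 7754656229) (nat_lit 77) (nat_lit 5) (nat_lit 79) (nat_lit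 5) (nat_lit 80) (nat_lit 5) (nat_lit 430) (nat_lit 353) (nat_lit 237)) (XT.nd (nat_lit 78) (nat_lit 304) (nat_lit 0) (XT.lf (nat_lit 0) (nat_lit 18306852527) (nat_lit 152) (nat_lit 3475477471) (nat_lit 228) (nat_lit 2261442664) (nat_lit 77) (nat_lit 5) (nat_lit 79) (nat_lit 5) (nat_lit 80) (nat_lit 5) (nat_lit 431) (nat_lit 353) (nat_lit 236)) (XT.lf (nat_lit 0) (nat_lit 3431584069) (nat_lit 304) (nat_lit 16894189362) (nat_lit 76) (nat_lit 4203235429) (nat_lit 73) (nat_lit 5) (nat_lit 77) (nat_lit 5) (nat_lit 74) (nat_lit 5) (nat_lit 432) (nat_lit 353) (nat_lit 235)))) (XT.nd (nat_lit 156) (nat_lit 228) (nat_lit 0) (XT.nd (nat_lit 78) (nat_lit 152) (nat_lit 0) (XT.lf (nat_lit 0) (nat_lit 9329238857) (nat_lit 304) (nat_lit 3582567937) (nat_lit 76) (nat_lit 12113947073) (nat_lit 73) (nat_lit 5) (nat_lit 77) (nat_lit 5) (nat_lit 74) (nat_lit 5) (nat_lit 433) (nat_lit 353) (nat_lit 234)) (XT.lf (nat_lit 0) (nat_lit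 10306765475) (nat_lit 152) (nat_lit 5182903736) (nat_lit 228) (nat_lit 10045158714) (nat_lit 71) (nat_lit 5) (nat_lit 73) (nat_lit 5) (nat_lit 74) (nat_lit 5) (nat_lit 434) (nat_lit 353) (nat_lit 233))) (XT.nd (nat_lit 78) (nat_lit 228) (nat_lit 0) (XT.lf (nat_lit 0) (nat_lit 21884998718) (nat_lit 228) (nat_lit 1421770007) (nat_lit 76) (nat_lit 2750904912) (nat_lit 71) (nat_lit 5) (nat_lit 74) (nat_lit 5) (nat_lit 72) (nat_lit 5) (nat_lit 435) (nat_lit 353) (nat_lit 232)) (XT.lf (nat_lit 0) (nat_lit 2004295751) (nat_lit 228) (nat_lit 13632478491) (nat_lit 76) (nat_lit 10953943798) (nat_lit 68) (nat_lit 5) (nat_lit 71) (nat_lit 5) (nat_lit 69) (nat_lit 5) (nat_lit 436) (nat_lit 353) (nat_lit 231))))) (XT.nd (nat_lit 234) (nat_lit 380) (nat_lit 0) (XT.nd (nat_lit 78) (nat_lit 152) (nat_lit 0) (XT.lf (nat_lit 0) (nat_lit 607662040) (nat_lit 152) (nat_lit 7682653116) (nat_lit 228) (nat_lit 18847972871) (nat_lit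 66) (nat_lit 5) (nat_lit 68) (nat_lit 5) (nat_lit 69) (nat_lit 5) (nat_lit 437) (nat_lit 353) (nat_lit 230)) (XT.nd (nat_lit 78) (nat_lit 152) (nat_lit 0) (XT.lf (nat_lit 0) (nat_lit 14896177482) (nat_lit 228) (nat_lit 12172244174) (nat_lit 76) (nat_lit 629927381) (nat_lit 66) (nat_lit 5) (nat_lit 69) (nat_lit 5) (nat_lit 67) (nat_lit 5) (nat_lit 438) (nat_lit 353) (nat_lit 229)) (XT.lf (nat_lit 0) (nat_lit 2569327201) (nat_lit 152) (nat_lit 19219355922) (nat_lit 228) (nat_lit 6483876469) (nat_lit 64) (nat_lit 5) (nat_lit 66) (nat_lit 5) (nat_lit 67) (nat_lit 5) (nat_lit 439) (nat_lit 353) (nat_lit 228)))) (XT.nd (nat_lit 156) (nat_lit 152) (nat_lit 0) (XT.nd (nat_lit 78) (nat_lit 152) (nat_lit 0) (XT.lf (nat_lit 0) (nat_lit 135366535) (nat_lit 228) (nat_lit 10880758101) (nat_lit 76) (nat_lit 17844510556) (nat_lit 63) (nat_lit 5) (nat_lit 66) (nat_lit 5) (nat_lit 64) (nat_lit 5) (nat_lit 440) (nat_lit 353) (nat_lit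 227)) (XT.lf (nat_lit 0) (nat_lit 4386759645) (nat_lit 152) (nat_lit 2466367139) (nat_lit 228) (nat_lit 22610394179) (nat_lit 61) (nat_lit 5) (nat_lit 63) (nat_lit 5) (nat_lit 64) (nat_lit 5) (nat_lit 441) (nat_lit 353) (nat_lit 226))) (XT.nd (nat_lit 78) (nat_lit 152) (nat_lit 0) (XT.lf (nat_lit 0) (nat_lit 13932475573) (nat_lit 228) (nat_lit 9828976459) (nat_lit 76) (nat_lit 6318241152) (nat_lit 61) (nat_lit 5) (nat_lit 64) (nat_lit 5) (nat_lit 62) (nat_lit 5) (nat_lit 442) (nat_lit 353) (nat_lit 225)) (XT.lf (nat_lit 0) (nat_lit 5947395560) (nat_lit 152) (nat_lit 15346894580) (nat_lit 228) (nat_lit 9417959371) (nat_lit 59) (nat_lit 5) (nat_lit 61) (nat_lit 5) (nat_lit 62) (nat_lit 5) (nat_lit 443) (nat_lit 353) (nat_lit 224)))))) (XT.nd (nat_lit 546) (nat_lit 608) (nat_lit 0) (XT.nd (nat_lit 234) (nat_lit 304) (nat_lit 0) (XT.nd (nat_lit 78) (nat_lit 228) (nat_lit 0) (XT.lf (nat_lit 0) (nat_lit 22378261907)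 (nat_lit 152) (nat_lit 6586586580) (nat_lit 228) (nat_lit 2396298820) (nat_lit 59) (nat_lit 5) (nat_lit 61) (nat_lit 5) (nat_lit 62) (nat_lit 5) (nat_lit 444) (nat_lit 353) (nat_lit 223)) (XT.nd (nat_lit 78) (nat_lit 0) (nat_lit 0) (XT.lf (nat_lit 0) (nat_lit 4825645186) (nat_lit 228) (nat_lit 24701272337) (nat_lit 76) (nat_lit 2498681237) (nat_lit 56) (nat_lit 5) (nat_lit 59) (nat_lit 5) (nat_lit 57) (nat_lit 5) (nat_lit 445) (nat_lit 353) (nat_lit 222)) (XT.lf (nat_lit 0) (nat_lit 12361813273) (nat_lit 228) (nat_lit 8512171390) (nat_lit 76) (nat_lit 11830916785) (nat_lit 56) (nat_lit 5) (nat_lit 59) (nat_lit 5) (nat_lit 57) (nat_lit 5) (nat_lit 446) (nat_lit 353) (nat_lit 221)))) (XT.nd (nat_lit 156) (nat_lit 152) (nat_lit 0) (XT.nd (nat_lit 78) (nat_lit 0) (nat_lit 0) (XT.lf (nat_lit 0) (nat_lit 8305283836) (nat_lit 152) (nat_lit 11887848736) (nat_lit 228) (nat_lit 13209379955) (nat_lit 54) (nat_lit 5) (nat_lit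 56) (nat_lit 5) (nat_lit 57) (nat_lit 5) (nat_lit 447) (nat_lit 353) (nat_lit 220)) (XT.lf (nat_lit 0) (nat_lit 25782559186) (nat_lit 152) (nat_lit 2552148365) (nat_lit 228) (nat_lit 5784086162) (nat_lit 54) (nat_lit 5) (nat_lit 56) (nat_lit 5) (nat_lit 57) (nat_lit 5) (nat_lit 448) (nat_lit 353) (nat_lit 219))) (XT.nd (nat_lit 78) (nat_lit 0) (nat_lit 0) (XT.lf (nat_lit 0) (nat_lit 1973184446) (nat_lit 152) (nat_lit 25854812191) (nat_lit 76) (nat_lit 7023662635) (nat_lit 52) (nat_lit 5) (nat_lit 54) (nat_lit 5) (nat_lit 53) (nat_lit 5) (nat_lit 449) (nat_lit 353) (nat_lit 218)) (XT.lf (nat_lit 0) (nat_lit 9946811193) (nat_lit 152) (nat_lit 8685439948) (nat_lit 76) (nat_lit 16969545988) (nat_lit 52) (nat_lit 5) (nat_lit 54) (nat_lit 5) (nat_lit 53) (nat_lit 5) (nat_lit 450) (nat_lit 353) (nat_lit 217))))) (XT.nd (nat_lit 312) (nat_lit 304) (nat_lit 0) (XT.nd (nat_lit 156) (nat_lit 152) (nat_lit 0) (XT.nd (nat_lit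 78) (nat_lit 0) (nat_lit 0) (XT.lf (nat_lit 0) (nat_lit 9159406793) (nat_lit 152) (nat_lit 9078198921) (nat_lit 228) (nat_lit 18134495755) (nat_lit 50) (nat_lit 5) (nat_lit 52) (nat_lit 5) (nat_lit 53) (nat_lit 5) (nat_lit 451) (nat_lit 353) (nat_lit 216)) (XT.lf (nat_lit 0) (nat_lit 26862981365) (nat_lit 228) (nat_lit 9471820822) (nat_lit 76) (nat_lit 828138120) (nat_lit 50) (nat_lit 5) (nat_lit 53) (nat_lit 5) (nat_lit 51) (nat_lit 4) (nat_lit 452) (nat_lit 353) (nat_lit 215))) (XT.nd (nat_lit 78) (nat_lit 76) (nat_lit 0) (XT.lf (nat_lit 0) (nat_lit 8866568912) (nat_lit 76) (nat_lit 27045909655) (nat_lit 152) (nat_lit 2060065985) (nat_lit 49) (nat_lit 5) (nat_lit 50) (nat_lit 5) (nat_lit 51) (nat_lit 4) (nat_lit 453) (nat_lit 353) (nat_lit 214)) (XT.lf (nat_lit 0) (nat_lit 6388467218) (nat_lit 152) (nat_lit 10934887296) (nat_lit 76) (nat_lit 21478624256) (nat_lit 48) (nat_lit 5) (nat_lit 50) (nat_lit 5) (nat_lit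 49) (nat_lit 5) (nat_lit 454) (nat_lit 353) (nat_lit 213)))) (XT.nd (nat_lit 156) (nat_lit 152) (nat_lit 0) (XT.nd (nat_lit 78) (nat_lit 0) (nat_lit 0) (XT.lf (nat_lit 0) (nat_lit 7897704352) (nat_lit 152) (nat_lit 7217811941) (nat_lit 228) (nat_lit 24538174827) (nat_lit 46) (nat_lit 5) (nat_lit 48) (nat_lit 5) (nat_lit 49) (nat_lit 5) (nat_lit 455) (nat_lit 353) (nat_lit 212)) (XT.lf (nat_lit 0) (nat_lit 24237146407) (nat_lit 228) (nat_lit 13057361290) (nat_lit 76) (nat_lit 3232464994) (nat_lit 46) (nat_lit 5) (nat_lit 49) (nat_lit 5) (nat_lit 47) (nat_lit 4) (nat_lit 456) (nat_lit 353) (nat_lit 211))) (XT.nd (nat_lit 78) (nat_lit 76) (nat_lit 0) (XT.lf (nat_lit 0) (nat_lit 6235562842) (nat_lit 76) (nat_lit 27519122921) (nat_lit 152) (nat_lit 7668100044) (nat_lit 45) (nat_lit 5) (nat_lit 46) (nat_lit 5) (nat_lit 47) (nat_lit 4) (nat_lit 457) (nat_lit 353) (nat_lit 210)) (XT.lf (nat_lit 0) (nat_lit 1312653452)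 (nat_lit 152) (nat_lit 15996430535) (nat_lit 76) (nat_lit 25032319649) (nat_lit 44) (nat_lit 5) (nat_lit 46) (nat_lit 5) (nat_lit 45) (nat_lit 5) (nat_lit 458) (nat_lit 353) (nat_lit 209))))))))
noncomputable def xc135 : XT := (XT.nd (nat_lit 2184) (nat_lit 0) (nat_lit 0) (XT.nd (nat_lit 1092) (nat_lit 684) (nat_lit 0) (XT.nd (nat_lit 546) (nat_lit 380) (nat_lit 0) (XT.nd (nat_lit 234) (nat_lit 228) (nat_lit 0) (XT.nd (nat_lit 78) (nat_lit 76) (nat_lit 0) (XT.lf (nat_lit 0) (nat_lit 3750958601) (nat_lit 152) (nat_lit 6684944252) (nat_lit 228) (nat_lit 32848584489) (nat_lit 42) (nat_lit 5) (nat_lit 44) (nat_lit 5) (nat_lit 45) (nat_lit 5) (nat_lit 459) (nat_lit 353) (nat_lit 208)) (XT.nd (nat_lit 78) (nat_lit 76) (nat_lit 0) (XT.lf (nat_lit 0) (nat_lit 20028079511) (nat_lit 228) (nat_lit 19891297010) (nat_lit 76) (nat_lit 4330630953) (nat_lit 42) (nat_lit 5) (nat_lit 45) (nat_lit 5) (nat_lit 43) (nat_lit 4) (nat_lit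 460) (nat_lit 353) (nat_lit 207)) (XT.lf (nat_lit 0) (nat_lit 263197689) (nat_lit 76) (nat_lit 29704966731) (nat_lit 152) (nat_lit 15274525284) (nat_lit 41) (nat_lit 5) (nat_lit 42) (nat_lit 5) (nat_lit 43) (nat_lit 4) (nat_lit 461) (nat_lit 353) (nat_lit 206)))) (XT.nd (nat_lit 156) (nat_lit 152) (nat_lit 0) (XT.nd (nat_lit 78) (nat_lit 76) (nat_lit 0) (XT.lf (nat_lit 0) (nat_lit 21414283361) (nat_lit 76) (nat_lit 18984554888) (nat_lit 152) (nat_lit 5860543321) (nat_lit 41) (nat_lit 5) (nat_lit 42) (nat_lit 5) (nat_lit 43) (nat_lit 4) (nat_lit 462) (nat_lit 353) (nat_lit 205)) (XT.lf (nat_lit 0) (nat_lit 3752694654) (nat_lit 152) (nat_lit 4159047227) (nat_lit 76) (nat_lit 39393976212) (nat_lit 40) (nat_lit 5) (nat_lit 42) (nat_lit 5) (nat_lit 41) (nat_lit 5) (nat_lit 463) (nat_lit 353) (nat_lit 204))) (XT.nd (nat_lit 78) (nat_lit 0) (nat_lit 0) (XT.lf (nat_lit 0) (nat_lit 13731609975) (nat_lit 228) (nat_lit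 30998343131) (nat_lit 76) (nat_lit 3645899404) (nat_lit 38) (nat_lit 5) (nat_lit 41) (nat_lit 5) (nat_lit 39) (nat_lit 4) (nat_lit 464) (nat_lit 353) (nat_lit 203)) (XT.lf (nat_lit 0) (nat_lit 24122596166) (nat_lit 228) (nat_lit 9925238249) (nat_lit 76) (nat_lit 15426876121) (nat_lit 38) (nat_lit 5) (nat_lit 41) (nat_lit 5) (nat_lit 39) (nat_lit 4) (nat_lit 465) (nat_lit 353) (nat_lit 202))))) (XT.nd (nat_lit 234) (nat_lit 76) (nat_lit 0) (XT.nd (nat_lit 78) (nat_lit 228) (nat_lit 0) (XT.lf (nat_lit 0) (nat_lit 11999577466) (nat_lit 76) (nat_lit 22933271353) (nat_lit 152) (nat_lit 15670460033) (nat_lit 37) (nat_lit 5) (nat_lit 38) (nat_lit 5) (nat_lit 39) (nat_lit 4) (nat_lit 466) (nat_lit 353) (nat_lit 201)) (XT.nd (nat_lit 78) (nat_lit 228) (nat_lit 0) (XT.lf (nat_lit 0) (nat_lit 34771101520) (nat_lit 76) (nat_lit 11388810738) (nat_lit 152) (nat_lit 5603078399) (nat_lit 37) (nat_lit 5) (nat_lit 38) (nat_lit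 5) (nat_lit 39) (nat_lit 4) (nat_lit 467) (nat_lit 353) (nat_lit 200)) (XT.lf (nat_lit 0) (nat_lit 4722526455) (nat_lit 228) (nat_lit 47648581603) (nat_lit 76) (nat_lit 583504658) (nat_lit 34) (nat_lit 5) (nat_lit 37) (nat_lit 5) (nat_lit 35) (nat_lit 4) (nat_lit 468) (nat_lit 353) (nat_lit 199)))) (XT.nd (nat_lit 156) (nat_lit 76) (nat_lit 0) (XT.nd (nat_lit 78) (nat_lit 0) (nat_lit 0) (XT.lf (nat_lit 0) (nat_lit 15523776855) (nat_lit 228) (nat_lit 25739810517) (nat_lit 76) (nat_lit 12908377554) (nat_lit 34) (nat_lit 5) (nat_lit 37) (nat_lit 5) (nat_lit 35) (nat_lit 4) (nat_lit 469) (nat_lit 353) (nat_lit 198)) (XT.lf (nat_lit 0) (nat_lit 26641734285) (nat_lit 228) (nat_lit 3187606668) (nat_lit 76) (nat_lit 25596717229) (nat_lit 34) (nat_lit 5) (nat_lit 37) (nat_lit 5) (nat_lit 35) (nat_lit 4) (nat_lit 470) (nat_lit 353) (nat_lit 197))) (XT.nd (nat_lit 78) (nat_lit 0) (nat_lit 0) (XT.lf (nat_lit 0) (nat_lit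 20426326962) (nat_lit 76) (nat_lit 17856136853) (nat_lit 152) (nat_lit 18429633970) (nat_lit 33) (nat_lit 5) (nat_lit 34) (nat_lit 5) (nat_lit 35) (nat_lit 4) (nat_lit 471) (nat_lit 353) (nat_lit 196)) (XT.lf (nat_lit 0) (nat_lit 44800725513) (nat_lit 76) (nat_lit 5496840805) (nat_lit 152) (nat_lit 7738398259) (nat_lit 33) (nat_lit 5) (nat_lit 34) (nat_lit 5) (nat_lit 35) (nat_lit 4) (nat_lit 472) (nat_lit 353) (nat_lit 195)))))) (XT.nd (nat_lit 546) (nat_lit 304) (nat_lit 0) (XT.nd (nat_lit 234) (nat_lit 228) (nat_lit 0) (XT.nd (nat_lit 78) (nat_lit 0) (nat_lit 0) (XT.lf (nat_lit 0) (nat_lit 3376164449) (nat_lit 152) (nat_lit 48796017297) (nat_lit 76) (nat_lit 7221428027) (nat_lit 31) (nat_lit 5) (nat_lit 33) (nat_lit 5) (nat_lit 32) (nat_lit 4) (nat_lit 473) (nat_lit 353) (nat_lit 194)) (XT.nd (nat_lit 78) (nat_lit 0) (nat_lit 0) (XT.lf (nat_lit 0) (nat_lit 14851144844) (nat_lit 152) (nat_lit 25516686868)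 (nat_lit 76) (nat_lit 20416379119) (nat_lit 31) (nat_lit 5) (nat_lit 33) (nat_lit 5) (nat_lit 32) (nat_lit 4) (nat_lit 474) (nat_lit 353) (nat_lit 193)) (XT.lf (nat_lit 0) (nat_lit 26663692662) (nat_lit 152) (nat_lit 1551661179) (nat_lit 76) (nat_lit 34001377012) (nat_lit 31) (nat_lit 5) (nat_lit 33) (nat_lit 5) (nat_lit 32) (nat_lit 4) (nat_lit 475) (nat_lit 353) (nat_lit 192)))) (XT.nd (nat_lit 156) (nat_lit 152) (nat_lit 0) (XT.nd (nat_lit 78) (nat_lit 0) (nat_lit 0) (XT.lf (nat_lit 0) (nat_lit 23580133417) (nat_lit 76) (nat_lit 15470662796) (nat_lit 152) (nat_lit 24634825345) (nat_lit 30) (nat_lit 5) (nat_lit 31) (nat_lit 5) (nat_lit 32) (nat_lit 4) (nat_lit 476) (nat_lit 353) (nat_lit 191)) (XT.lf (nat_lit 0) (nat_lit 49485494924) (nat_lit 76) (nat_lit 2333271046) (nat_lit 152) (nat_lit 13379535868) (nat_lit 30) (nat_lit 5) (nat_lit 31) (nat_lit 5) (nat_lit 32) (nat_lit 4) (nat_lit 477) (nat_lit 353) (nat_lit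 190))) (XT.nd (nat_lit 78) (nat_lit 76) (nat_lit 0) (XT.lf (nat_lit 0) (nat_lit 9476967516) (nat_lit 76) (nat_lit 55685267365) (nat_lit 76) (nat_lit 1588354276) (nat_lit 29) (nat_lit 4) (nat_lit 30) (nat_lit 5) (nat_lit 30) (nat_lit 4) (nat_lit 478) (nat_lit 353) (nat_lit 189)) (XT.lf (nat_lit 0) (nat_lit 10527631801) (nat_lit 152) (nat_lit 32738282107) (nat_lit 76) (nat_lit 25075175346) (nat_lit 28) (nat_lit 5) (nat_lit 30) (nat_lit 5) (nat_lit 29) (nat_lit 4) (nat_lit 479) (nat_lit 353) (nat_lit 188))))) (XT.nd (nat_lit 234) (nat_lit 228) (nat_lit 0) (XT.nd (nat_lit 78) (nat_lit 76) (nat_lit 0) (XT.lf (nat_lit 0) (nat_lit 22969080289) (nat_lit 152) (nat_lit 7494240292) (nat_lit 76) (nat_lit 39515695165) (nat_lit 28) (nat_lit 5) (nat_lit 30) (nat_lit 5) (nat_lit 29) (nat_lit 4) (nat_lit 480) (nat_lit 353) (nat_lit 187)) (XT.nd (nat_lit 78) (nat_lit 0) (nat_lit 0) (XT.lf (nat_lit 0) (nat_lit 18863933219) (nat_lit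 76) (nat_lit 17095255317) (nat_lit 152) (nat_lit 35701629394) (nat_lit 27) (nat_lit 5) (nat_lit 28) (nat_lit 5) (nat_lit 29) (nat_lit 4) (nat_lit 481) (nat_lit 353) (nat_lit 186)) (XT.lf (nat_lit 0) (nat_lit 46155294388) (nat_lit 76) (nat_lit 3253532215) (nat_lit 152) (nat_lit 23982153153) (nat_lit 27) (nat_lit 5) (nat_lit 28) (nat_lit 5) (nat_lit 29) (nat_lit 4) (nat_lit 482) (nat_lit 353) (nat_lit 185)))) (XT.nd (nat_lit 156) (nat_lit 76) (nat_lit 0) (XT.nd (nat_lit 78) (nat_lit 152) (nat_lit 0) (XT.lf (nat_lit 0) (nat_lit 63361995722) (nat_lit 152) (nat_lit 1024399310) (nat_lit 0) (nat_lit 10783650512) (nat_lit 27) (nat_lit 5) (nat_lit 29) (nat_lit 4) (nat_lit 27) (nat_lit 4) (nat_lit 483) (nat_lit 353) (nat_lit 184)) (XT.lf (nat_lit 0) (nat_lit 1000656635) (nat_lit 152) (nat_lit 50557448613) (nat_lit 76) (nat_lit 25435658019) (nat_lit 25) (nat_lit 5) (nat_lit 27) (nat_lit 5) (nat_lit 26) (nat_lit 4) (nat_lit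 484) (nat_lit 353) (nat_lit 183))) (XT.nd (nat_lit 78) (nat_lit 76) (nat_lit 0) (XT.lf (nat_lit 0) (nat_lit 13961183769) (nat_lit 152) (nat_lit 24257710931) (nat_lit 76) (nat_lit 40649644124) (nat_lit 25) (nat_lit 5) (nat_lit 27) (nat_lit 5) (nat_lit 26) (nat_lit 4) (nat_lit 485) (nat_lit 353) (nat_lit 182)) (XT.lf (nat_lit 0) (nat_lit 2876802101) (nat_lit 76) (nat_lit 24455982808) (nat_lit 152) (nat_lit 53466105316) (nat_lit 24) (nat_lit 5) (nat_lit 25) (nat_lit 5) (nat_lit 26) (nat_lit 4) (nat_lit 486) (nat_lit 353) (nat_lit 181))))))) (XT.nd (nat_lit 43758) (nat_lit 0) (nat_lit 14516) (XT.nd (nat_lit 43212) (nat_lit 0) (nat_lit 20748) (XT.nd (nat_lit 42900) (nat_lit 0) (nat_lit 22420) (XT.nd (nat_lit 42744) (nat_lit 0) (nat_lit 23256) (XT.lf (nat_lit 0) (nat_lit 31312357770) (nat_lit 76) (nat_lit 10032794838) (nat_lit 152) (nat_lit 41434811318) (nat_lit 24) (nat_lit 5) (nat_lit 25) (nat_lit 5) (nat_lit 26)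 (nat_lit 4) (nat_lit 487) (nat_lit 353) (nat_lit 180)) (XT.nd (nat_lit 78) (nat_lit 0) (nat_lit 0) (XT.lf (nat_lit 0) (nat_lit 2368874381) (nat_lit 836) (nat_lit 635222757) (nat_lit 836) (nat_lit 635222757) (nat_lit 330) (nat_lit 3) (nat_lit 341) (nat_lit 3) (nat_lit 341) (nat_lit 5) (nat_lit 354) (nat_lit 354) (nat_lit 312)) (XT.lf (nat_lit 76) (nat_lit 2302707976) (nat_lit 0) (nat_lit 4079469731) (nat_lit 836) (nat_lit 957583738) (nat_lit 331) (nat_lit 5) (nat_lit 330) (nat_lit 3) (nat_lit 341) (nat_lit 5) (nat_lit 355) (nat_lit 354) (nat_lit 311)))) (XT.nd (nat_lit 156) (nat_lit 0) (nat_lit 76) (XT.nd (nat_lit 78) (nat_lit 0) (nat_lit 76) (XT.lf (nat_lit 0) (nat_lit 611560659) (nat_lit 836) (nat_lit 1432903138) (nat_lit 912) (nat_lit 5359547034) (nat_lit 319) (nat_lit 5) (nat_lit 330) (nat_lit 3) (nat_lit 331) (nat_lit 5) (nat_lit 356) (nat_lit 354) (nat_lit 310)) (XT.lf (nat_lit 0) (nat_lit 2171853677) (nat_lit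 836) (nat_lit 5189821092) (nat_lit 912) (nat_lit 109360406) (nat_lit 320) (nat_lit 5) (nat_lit 331) (nat_lit 5) (nat_lit 332) (nat_lit 5) (nat_lit 357) (nat_lit 354) (nat_lit 309))) (XT.nd (nat_lit 78) (nat_lit 0) (nat_lit 0) (XT.lf (nat_lit 0) (nat_lit 3755807368) (nat_lit 836) (nat_lit 1457720159) (nat_lit 912) (nat_lit 2327267775) (nat_lit 320) (nat_lit 5) (nat_lit 331) (nat_lit 5) (nat_lit 332) (nat_lit 5) (nat_lit 358) (nat_lit 354) (nat_lit 308)) (XT.lf (nat_lit 76) (nat_lit 2400341904) (nat_lit 0) (nat_lit 2953697625) (nat_lit 912) (nat_lit 2259635627) (nat_lit 321) (nat_lit 5) (nat_lit 320) (nat_lit 5) (nat_lit 332) (nat_lit 5) (nat_lit 359) (nat_lit 354) (nat_lit 307))))) (XT.nd (nat_lit 234) (nat_lit 912) (nat_lit 0) (XT.nd (nat_lit 78) (nat_lit 836) (nat_lit 0) (XT.lf (nat_lit 76) (nat_lit 6371508423) (nat_lit 0) (nat_lit 588444260) (nat_lit 912) (nat_lit 730025555) (nat_lit 321) (nat_lit 5) (nat_lit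 320) (nat_lit 5) (nat_lit 332) (nat_lit 5) (nat_lit 360) (nat_lit 354) (nat_lit 306)) (XT.nd (nat_lit 78) (nat_lit 0) (nat_lit 0) (XT.lf (nat_lit 0) (nat_lit 819342570) (nat_lit 912) (nat_lit 5082267850) (nat_lit 988) (nat_lit 1867032334) (nat_lit 309) (nat_lit 5) (nat_lit 321) (nat_lit 5) (nat_lit 322) (nat_lit 5) (nat_lit 361) (nat_lit 354) (nat_lit 305)) (XT.lf (nat_lit 0) (nat_lit 2367305834) (nat_lit 912) (nat_lit 1058216160) (nat_lit 988) (nat_lit 4424951170) (nat_lit 309) (nat_lit 5) (nat_lit 321) (nat_lit 5) (nat_lit 322) (nat_lit 5) (nat_lit 362) (nat_lit 354) (nat_lit 304)))) (XT.nd (nat_lit 156) (nat_lit 912) (nat_lit 0) (XT.nd (nat_lit 78) (nat_lit 0) (nat_lit 76) (XT.lf (nat_lit 76) (nat_lit 3114165765) (nat_lit 0) (nat_lit 826521110) (nat_lit 988) (nat_lit 3994727882) (nat_lit 310) (nat_lit 5) (nat_lit 309) (nat_lit 5) (nat_lit 322) (nat_lit 5) (nat_lit 363) (nat_lit 354) (nat_lit 303)) (XT.lf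 (nat_lit 0) (nat_lit 5540223828) (nat_lit 912) (nat_lit 641582228) (nat_lit 988) (nat_lit 1841754795) (nat_lit 310) (nat_lit 5) (nat_lit 322) (nat_lit 5) (nat_lit 323) (nat_lit 5) (nat_lit 364) (nat_lit 354) (nat_lit 302))) (XT.nd (nat_lit 78) (nat_lit 988) (nat_lit 0) (XT.lf (nat_lit 76) (nat_lit 3693860723) (nat_lit 0) (nat_lit 3489397693) (nat_lit 988) (nat_lit 931251732) (nat_lit 311) (nat_lit 5) (nat_lit 310) (nat_lit 5) (nat_lit 323) (nat_lit 5) (nat_lit 365) (nat_lit 354) (nat_lit 301)) (XT.lf (nat_lit 0) (nat_lit 613331210) (nat_lit 988) (nat_lit 76106585) (nat_lit 1064) (nat_lit 7519811690) (nat_lit 297) (nat_lit 5) (nat_lit 310) (nat_lit 5) (nat_lit 311) (nat_lit 5) (nat_lit 366) (nat_lit 354) (nat_lit 300)))))) (XT.nd (nat_lit 546) (nat_lit 4256) (nat_lit 0) (XT.nd (nat_lit 234) (nat_lit 2052) (nat_lit 0) (XT.nd (nat_lit 78) (nat_lit 0) (nat_lit 0) (XT.lf (nat_lit 0) (nat_lit 2203780230) (nat_lit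 988) (nat_lit 3885320245) (nat_lit 1064) (nat_lit 2216928656) (nat_lit 298) (nat_lit 5) (nat_lit 311) (nat_lit 5) (nat_lit 312) (nat_lit 5) (nat_lit 367) (nat_lit 354) (nat_lit 299)) (XT.nd (nat_lit 78) (nat_lit 0) (nat_lit 0) (XT.lf (nat_lit 76) (nat_lit 619221805) (nat_lit 0) (nat_lit 3191225553) (nat_lit 1064) (nat_lit 4596231140) (nat_lit 299) (nat_lit 5) (nat_lit 298) (nat_lit 5) (nat_lit 312) (nat_lit 5) (nat_lit 368) (nat_lit 354) (nat_lit 298)) (XT.lf (nat_lit 76) (nat_lit 5304554381) (nat_lit 0) (nat_lit 155929674) (nat_lit 1064) (nat_lit 3050029048) (nat_lit 299) (nat_lit 5) (nat_lit 298) (nat_lit 5) (nat_lit 312) (nat_lit 5) (nat_lit 369) (nat_lit 354) (nat_lit 297)))) (XT.nd (nat_lit 156) (nat_lit 1064) (nat_lit 0) (XT.nd (nat_lit 78) (nat_lit 76) (nat_lit 0) (XT.lf (nat_lit 0) (nat_lit 1478890475) (nat_lit 988) (nat_lit 5681213805) (nat_lit 1064) (nat_lit 1457376231) (nat_lit 286) (nat_lit 5) (nat_lit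 299) (nat_lit 5) (nat_lit 300) (nat_lit 5) (nat_lit 370) (nat_lit 354) (nat_lit 296)) (XT.lf (nat_lit 0) (nat_lit 171518313) (nat_lit 1064) (nat_lit 2395226028) (nat_lit 76) (nat_lit 6161117858) (nat_lit 285) (nat_lit 5) (nat_lit 299) (nat_lit 5) (nat_lit 286) (nat_lit 5) (nat_lit 371) (nat_lit 354) (nat_lit 295))) (XT.nd (nat_lit 78) (nat_lit 0) (nat_lit 0) (XT.lf (nat_lit 0) (nat_lit 1809566383) (nat_lit 1140) (nat_lit 6357554254) (nat_lit 76) (nat_lit 674332982) (nat_lit 271) (nat_lit 5) (nat_lit 286) (nat_lit 5) (nat_lit 272) (nat_lit 5) (nat_lit 372) (nat_lit 354) (nat_lit 294)) (XT.lf (nat_lit 0) (nat_lit 3506554489) (nat_lit 1140) (nat_lit 1459736492) (nat_lit 76) (nat_lit 3991885824) (nat_lit 271) (nat_lit 5) (nat_lit 286) (nat_lit 5) (nat_lit 272) (nat_lit 5) (nat_lit 373) (nat_lit 354) (nat_lit 293))))) (XT.nd (nat_lit 312) (nat_lit 1216) (nat_lit 0) (XT.nd (nat_lit 156) (nat_lit 1900) (nat_lit 0)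 (XT.nd (nat_lit 78) (nat_lit 0) (nat_lit 0) (XT.lf (nat_lit 0) (nat_lit 3621851517) (nat_lit 1140) (nat_lit 1628541144) (nat_lit 1216) (nat_lit 3828148268) (nat_lit 256) (nat_lit 5) (nat_lit 271) (nat_lit 5) (nat_lit 272) (nat_lit 5) (nat_lit 374) (nat_lit 354) (nat_lit 292)) (XT.lf (nat_lit 0) (nat_lit 7040803856) (nat_lit 1216) (nat_lit 368512459) (nat_lit 76) (nat_lit 1793388875) (nat_lit 256) (nat_lit 5) (nat_lit 272) (nat_lit 5) (nat_lit 257) (nat_lit 5) (nat_lit 375) (nat_lit 354) (nat_lit 291))) (XT.nd (nat_lit 78) (nat_lit 684) (nat_lit 0) (XT.lf (nat_lit 0) (nat_lit 4918462959) (nat_lit 1216) (nat_lit 3992954240) (nat_lit 1292) (nat_lit 418398939) (nat_lit 240) (nat_lit 5) (nat_lit 256) (nat_lit 5) (nat_lit 257) (nat_lit 5) (nat_lit 376) (nat_lit 354) (nat_lit 290)) (XT.lf (nat_lit 0) (nat_lit 880770880) (nat_lit 608) (nat_lit 445451132) (nat_lit 684) (nat_lit 8134865947) (nat_lit 231) (nat_lit 5) (nat_lit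 239) (nat_lit 5) (nat_lit 240) (nat_lit 5) (nat_lit 377) (nat_lit 354) (nat_lit 289)))) (XT.nd (nat_lit 156) (nat_lit 608) (nat_lit 0) (XT.nd (nat_lit 78) (nat_lit 608) (nat_lit 0) (XT.lf (nat_lit 0) (nat_lit 3154826941) (nat_lit 684) (nat_lit 3243185551) (nat_lit 76) (nat_lit 3196974582) (nat_lit 231) (nat_lit 5) (nat_lit 240) (nat_lit 5) (nat_lit 232) (nat_lit 5) (nat_lit 378) (nat_lit 354) (nat_lit 288)) (XT.lf (nat_lit 0) (nat_lit 2259878351) (nat_lit 608) (nat_lit 2769813212) (nat_lit 684) (nat_lit 4703484173) (nat_lit 223) (nat_lit 5) (nat_lit 231) (nat_lit 5) (nat_lit 232) (nat_lit 5) (nat_lit 379) (nat_lit 354) (nat_lit 287))) (XT.nd (nat_lit 78) (nat_lit 608) (nat_lit 0) (XT.lf (nat_lit 0) (nat_lit 6969135719) (nat_lit 684) (nat_lit 1924210967) (nat_lit 76) (nat_lit 981927556) (nat_lit 223) (nat_lit 5) (nat_lit 232) (nat_lit 5) (nat_lit 224) (nat_lit 5) (nat_lit 380) (nat_lit 354) (nat_lit 286)) (XT.lf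 (nat_lit 0) (nat_lit 3804594800) (nat_lit 608) (nat_lit 5193117685) (nat_lit 684) (nat_lit 1023008522) (nat_lit 215) (nat_lit 5) (nat_lit 223) (nat_lit 5) (nat_lit 224) (nat_lit 5) (nat_lit 381) (nat_lit 354) (nat_lit 285))))))))
noncomputable def xc136 : XT := (XT.nd (nat_lit 2184) (nat_lit 4256) (nat_lit 0) (XT.nd (nat_lit 1092) (nat_lit 3040) (nat_lit 0) (XT.nd (nat_lit 546) (nat_lit 1824) (nat_lit 0) (XT.nd (nat_lit 234) (nat_lit 1064) (nat_lit 0) (XT.nd (nat_lit 78) (nat_lit 1064) (nat_lit 0) (XT.lf (nat_lit 0) (nat_lit 885614393) (nat_lit 684) (nat_lit 468148629) (nat_lit 76) (nat_lit 8816910246) (nat_lit 214) (nat_lit 5) (nat_lit 223) (nat_lit 5) (nat_lit 215) (nat_lit 5) (nat_lit 382) (nat_lit 354) (nat_lit 284)) (XT.nd (nat_lit 78) (nat_lit 532) (nat_lit 0) (XT.lf (nat_lit 0) (nat_lit 2877796640) (nat_lit 608) (nat_lit 4832935048) (nat_lit 76) (nat_lit 2612695292) (nat_lit 207) (nat_lit 5) (nat_lit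 215) (nat_lit 5) (nat_lit 208) (nat_lit 5) (nat_lit 383) (nat_lit 354) (nat_lit 283)) (XT.lf (nat_lit 0) (nat_lit 1131975818) (nat_lit 532) (nat_lit 3795642158) (nat_lit 608) (nat_lit 5553221363) (nat_lit 200) (nat_lit 5) (nat_lit 207) (nat_lit 5) (nat_lit 208) (nat_lit 5) (nat_lit 384) (nat_lit 354) (nat_lit 282)))) (XT.nd (nat_lit 156) (nat_lit 608) (nat_lit 0) (XT.nd (nat_lit 78) (nat_lit 456) (nat_lit 0) (XT.lf (nat_lit 0) (nat_lit 7059876274) (nat_lit 608) (nat_lit 3303471502) (nat_lit 76) (nat_lit 279009911) (nat_lit 200) (nat_lit 5) (nat_lit 208) (nat_lit 5) (nat_lit 201) (nat_lit 5) (nat_lit 385) (nat_lit 354) (nat_lit 281)) (XT.lf (nat_lit 0) (nat_lit 2909361612) (nat_lit 456) (nat_lit 6382558494) (nat_lit 532) (nat_lit 1515738485) (nat_lit 194) (nat_lit 5) (nat_lit 200) (nat_lit 5) (nat_lit 201) (nat_lit 5) (nat_lit 386) (nat_lit 354) (nat_lit 280))) (XT.nd (nat_lit 78) (nat_lit 532) (nat_lit 0) (XT.lf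 (nat_lit 0) (nat_lit 605255081) (nat_lit 532) (nat_lit 1640228104) (nat_lit 76) (nat_lit 8732143129) (nat_lit 193) (nat_lit 5) (nat_lit 200) (nat_lit 5) (nat_lit 194) (nat_lit 5) (nat_lit 387) (nat_lit 354) (nat_lit 279)) (XT.lf (nat_lit 0) (nat_lit 2797392500) (nat_lit 608) (nat_lit 6318803159) (nat_lit 76) (nat_lit 2034918385) (nat_lit 186) (nat_lit 5) (nat_lit 194) (nat_lit 5) (nat_lit 187) (nat_lit 5) (nat_lit 388) (nat_lit 354) (nat_lit 278))))) (XT.nd (nat_lit 234) (nat_lit 912) (nat_lit 0) (XT.nd (nat_lit 78) (nat_lit 456) (nat_lit 0) (XT.lf (nat_lit 0) (nat_lit 150979657) (nat_lit 456) (nat_lit 4916591954) (nat_lit 532) (nat_lit 6261876722) (nat_lit 180) (nat_lit 5) (nat_lit 186) (nat_lit 5) (nat_lit 187) (nat_lit 5) (nat_lit 389) (nat_lit 354) (nat_lit 277)) (XT.nd (nat_lit 78) (nat_lit 456) (nat_lit 0) (XT.lf (nat_lit 0) (nat_lit 6911798271) (nat_lit 456) (nat_lit 530238194) (nat_lit 532) (nat_lit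 4070020730) (nat_lit 180) (nat_lit 5) (nat_lit 186) (nat_lit 5) (nat_lit 187) (nat_lit 5) (nat_lit 390) (nat_lit 354) (nat_lit 276)) (XT.lf (nat_lit 0) (nat_lit 2146443823) (nat_lit 456) (nat_lit 7773387877) (nat_lit 532) (nat_lit 1779359396) (nat_lit 174) (nat_lit 5) (nat_lit 180) (nat_lit 5) (nat_lit 181) (nat_lit 5) (nat_lit 391) (nat_lit 354) (nat_lit 275)))) (XT.nd (nat_lit 156) (nat_lit 456) (nat_lit 0) (XT.nd (nat_lit 78) (nat_lit 380) (nat_lit 0) (XT.lf (nat_lit 0) (nat_lit 594201712) (nat_lit 532) (nat_lit 2744610267) (nat_lit 76) (nat_lit 8552203931) (nat_lit 173) (nat_lit 5) (nat_lit 180) (nat_lit 5) (nat_lit 174) (nat_lit 5) (nat_lit 392) (nat_lit 354) (nat_lit 274)) (XT.lf (nat_lit 0) (nat_lit 3031015639) (nat_lit 456) (nat_lit 7797520241) (nat_lit 76) (nat_lit 1258705630) (nat_lit 168) (nat_lit 5) (nat_lit 174) (nat_lit 5) (nat_lit 169) (nat_lit 5) (nat_lit 393) (nat_lit 354) (nat_lit 273))) (XT.nd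 (nat_lit 78) (nat_lit 456) (nat_lit 0) (XT.lf (nat_lit 0) (nat_lit 5576488108) (nat_lit 456) (nat_lit 762591534) (nat_lit 76) (nat_lit 5949216201) (nat_lit 168) (nat_lit 5) (nat_lit 174) (nat_lit 5) (nat_lit 169) (nat_lit 5) (nat_lit 394) (nat_lit 354) (nat_lit 272)) (XT.lf (nat_lit 0) (nat_lit 6580649906) (nat_lit 456) (nat_lit 1656181583) (nat_lit 532) (nat_lit 4257403452) (nat_lit 162) (nat_lit 5) (nat_lit 168) (nat_lit 5) (nat_lit 169) (nat_lit 5) (nat_lit 395) (nat_lit 354) (nat_lit 271)))))) (XT.nd (nat_lit 546) (nat_lit 1368) (nat_lit 0) (XT.nd (nat_lit 234) (nat_lit 836) (nat_lit 0) (XT.nd (nat_lit 78) (nat_lit 456) (nat_lit 0) (XT.lf (nat_lit 0) (nat_lit 1419358035) (nat_lit 380) (nat_lit 9585104182) (nat_lit 456) (nat_lit 1701073778) (nat_lit 157) (nat_lit 5) (nat_lit 162) (nat_lit 5) (nat_lit 163) (nat_lit 5) (nat_lit 396) (nat_lit 354) (nat_lit 270)) (XT.nd (nat_lit 78) (nat_lit 380) (nat_lit 0)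 (XT.lf (nat_lit 0) (nat_lit 966241393) (nat_lit 456) (nat_lit 3885517952) (nat_lit 76) (nat_lit 8069581176) (nat_lit 156) (nat_lit 5) (nat_lit 162) (nat_lit 5) (nat_lit 157) (nat_lit 5) (nat_lit 397) (nat_lit 354) (nat_lit 269)) (XT.lf (nat_lit 0) (nat_lit 3692722058) (nat_lit 456) (nat_lit 9380449520) (nat_lit 76) (nat_lit 69549666) (nat_lit 151) (nat_lit 5) (nat_lit 157) (nat_lit 5) (nat_lit 152) (nat_lit 5) (nat_lit 398) (nat_lit 354) (nat_lit 268)))) (XT.nd (nat_lit 156) (nat_lit 456) (nat_lit 0) (XT.nd (nat_lit 78) (nat_lit 380) (nat_lit 0) (XT.lf (nat_lit 0) (nat_lit 6565462461) (nat_lit 456) (nat_lit 1729950911) (nat_lit 76) (nat_lit 5073403247) (nat_lit 151) (nat_lit 5) (nat_lit 157) (nat_lit 5) (nat_lit 152) (nat_lit 5) (nat_lit 399) (nat_lit 354) (nat_lit 267)) (XT.lf (nat_lit 0) (nat_lit 6241662586) (nat_lit 380) (nat_lit 3320200303) (nat_lit 456) (nat_lit 4038714615) (nat_lit 146) (nat_lit 5) (nat_lit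 151) (nat_lit 5) (nat_lit 152) (nat_lit 5) (nat_lit 400) (nat_lit 354) (nat_lit 266))) (XT.nd (nat_lit 78) (nat_lit 76) (nat_lit 0) (XT.lf (nat_lit 0) (nat_lit 613067909) (nat_lit 380) (nat_lit 12053739581) (nat_lit 456) (nat_lit 1171930940) (nat_lit 141) (nat_lit 5) (nat_lit 146) (nat_lit 5) (nat_lit 147) (nat_lit 5) (nat_lit 401) (nat_lit 354) (nat_lit 265)) (XT.lf (nat_lit 0) (nat_lit 1831932224) (nat_lit 456) (nat_lit 5188127074) (nat_lit 76) (nat_lit 7060902908) (nat_lit 140) (nat_lit 5) (nat_lit 146) (nat_lit 5) (nat_lit 141) (nat_lit 5) (nat_lit 402) (nat_lit 354) (nat_lit 264))))) (XT.nd (nat_lit 234) (nat_lit 684) (nat_lit 0) (XT.nd (nat_lit 78) (nat_lit 380) (nat_lit 0) (XT.lf (nat_lit 0) (nat_lit 3109871500) (nat_lit 304) (nat_lit 1800929865) (nat_lit 380) (nat_lit 9419056095) (nat_lit 136) (nat_lit 5) (nat_lit 140) (nat_lit 5) (nat_lit 141) (nat_lit 5) (nat_lit 403) (nat_lit 354) (nat_lit 263)) (XT.nd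 (nat_lit 78) (nat_lit 380) (nat_lit 0) (XT.lf (nat_lit 0) (nat_lit 8148120100) (nat_lit 380) (nat_lit 2886387900) (nat_lit 76) (nat_lit 3549735087) (nat_lit 136) (nat_lit 5) (nat_lit 141) (nat_lit 5) (nat_lit 137) (nat_lit 5) (nat_lit 404) (nat_lit 354) (nat_lit 262)) (XT.lf (nat_lit 0) (nat_lit 5762692407) (nat_lit 380) (nat_lit 5772520618) (nat_lit 456) (nat_lit 3309473468) (nat_lit 131) (nat_lit 5) (nat_lit 136) (nat_lit 5) (nat_lit 137) (nat_lit 5) (nat_lit 405) (nat_lit 354) (nat_lit 261)))) (XT.nd (nat_lit 156) (nat_lit 304) (nat_lit 0) (XT.nd (nat_lit 78) (nat_lit 380) (nat_lit 0) (XT.lf (nat_lit 0) (nat_lit 14701553398) (nat_lit 380) (nat_lit 331263046) (nat_lit 456) (nat_lit 79865504) (nat_lit 131) (nat_lit 5) (nat_lit 136) (nat_lit 5) (nat_lit 137) (nat_lit 5) (nat_lit 406) (nat_lit 354) (nat_lit 260)) (XT.lf (nat_lit 0) (nat_lit 3298098758) (nat_lit 380) (nat_lit 6809021560) (nat_lit 76) (nat_lit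 5277221396) (nat_lit 126) (nat_lit 5) (nat_lit 131) (nat_lit 5) (nat_lit 127) (nat_lit 5) (nat_lit 407) (nat_lit 354) (nat_lit 259))) (XT.nd (nat_lit 78) (nat_lit 0) (nat_lit 0) (XT.lf (nat_lit 0) (nat_lit 2185651161) (nat_lit 304) (nat_lit 4598993840) (nat_lit 380) (nat_lit 8879222296) (nat_lit 122) (nat_lit 5) (nat_lit 126) (nat_lit 5) (nat_lit 127) (nat_lit 5) (nat_lit 408) (nat_lit 354) (nat_lit 258)) (XT.lf (nat_lit 0) (nat_lit 10436131975) (nat_lit 380) (nat_lit 4399849686) (nat_lit 76) (nat_lit 1113991702) (nat_lit 122) (nat_lit 5) (nat_lit 127) (nat_lit 5) (nat_lit 123) (nat_lit 5) (nat_lit 409) (nat_lit 354) (nat_lit 257))))))) (XT.nd (nat_lit 1092) (nat_lit 1976) (nat_lit 0) (XT.nd (nat_lit 546) (nat_lit 988) (nat_lit 0) (XT.nd (nat_lit 234) (nat_lit 608) (nat_lit 0) (XT.nd (nat_lit 78) (nat_lit 380) (nat_lit 0) (XT.lf (nat_lit 0) (nat_lit 4974374164) (nat_lit 304) (nat_lit 9297284636) (nat_lit 380)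 (nat_lit 1970773850) (nat_lit 118) (nat_lit 5) (nat_lit 122) (nat_lit 5) (nat_lit 123) (nat_lit 5) (nat_lit 410) (nat_lit 354) (nat_lit 256)) (XT.nd (nat_lit 78) (nat_lit 304) (nat_lit 0) (XT.lf (nat_lit 0) (nat_lit 1671938014) (nat_lit 380) (nat_lit 1867021183) (nat_lit 76) (nat_lit 13003443841) (nat_lit 117) (nat_lit 5) (nat_lit 122) (nat_lit 5) (nat_lit 118) (nat_lit 5) (nat_lit 411) (nat_lit 354) (nat_lit 255)) (XT.lf (nat_lit 0) (nat_lit 5466128159) (nat_lit 380) (nat_lit 8949060909) (nat_lit 76) (nat_lit 2433148347) (nat_lit 113) (nat_lit 5) (nat_lit 118) (nat_lit 5) (nat_lit 114) (nat_lit 5) (nat_lit 412) (nat_lit 354) (nat_lit 254)))) (XT.nd (nat_lit 156) (nat_lit 380) (nat_lit 0) (XT.nd (nat_lit 78) (nat_lit 0) (nat_lit 0) (XT.lf (nat_lit 0) (nat_lit 786575688) (nat_lit 228) (nat_lit 8631175901) (nat_lit 304) (nat_lit 7744394358) (nat_lit 110) (nat_lit 5) (nat_lit 113) (nat_lit 5) (nat_lit 114) (nat_lit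 5) (nat_lit 413) (nat_lit 354) (nat_lit 253)) (XT.lf (nat_lit 0) (nat_lit 10970499577) (nat_lit 228) (nat_lit 2590023011) (nat_lit 304) (nat_lit 3922672406) (nat_lit 110) (nat_lit 5) (nat_lit 113) (nat_lit 5) (nat_lit 114) (nat_lit 5) (nat_lit 414) (nat_lit 354) (nat_lit 252))) (XT.nd (nat_lit 78) (nat_lit 0) (nat_lit 0) (XT.lf (nat_lit 0) (nat_lit 66668440) (nat_lit 380) (nat_lit 14157337440) (nat_lit 76) (nat_lit 3588272625) (nat_lit 105) (nat_lit 5) (nat_lit 110) (nat_lit 5) (nat_lit 106) (nat_lit 5) (nat_lit 415) (nat_lit 354) (nat_lit 251)) (XT.lf (nat_lit 0) (nat_lit 4171644406) (nat_lit 380) (nat_lit 3980237420) (nat_lit 76) (nat_lit 9995947509) (nat_lit 105) (nat_lit 5) (nat_lit 110) (nat_lit 5) (nat_lit 106) (nat_lit 5) (nat_lit 416) (nat_lit 354) (nat_lit 250))))) (XT.nd (nat_lit 234) (nat_lit 532) (nat_lit 0) (XT.nd (nat_lit 78) (nat_lit 228) (nat_lit 0) (XT.lf (nat_lit 0) (nat_lit 6604892790) (nat_lit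 228) (nat_lit 1841606293) (nat_lit 304) (nat_lit 10045549478) (nat_lit 102) (nat_lit 5) (nat_lit 105) (nat_lit 5) (nat_lit 106) (nat_lit 5) (nat_lit 417) (nat_lit 354) (nat_lit 249)) (XT.nd (nat_lit 78) (nat_lit 228) (nat_lit 0) (XT.lf (nat_lit 0) (nat_lit 12918353274) (nat_lit 304) (nat_lit 1327714536) (nat_lit 76) (nat_lit 4598467582) (nat_lit 102) (nat_lit 5) (nat_lit 106) (nat_lit 5) (nat_lit 103) (nat_lit 5) (nat_lit 418) (nat_lit 354) (nat_lit 248)) (XT.lf (nat_lit 0) (nat_lit 9693884895) (nat_lit 228) (nat_lit 7925767321) (nat_lit 304) (nat_lit 1585089476) (nat_lit 99) (nat_lit 5) (nat_lit 102) (nat_lit 5) (nat_lit 103) (nat_lit 5) (nat_lit 419) (nat_lit 354) (nat_lit 247)))) (XT.nd (nat_lit 156) (nat_lit 228) (nat_lit 0) (XT.nd (nat_lit 78) (nat_lit 0) (nat_lit 0) (XT.lf (nat_lit 0) (nat_lit 1473242033) (nat_lit 228) (nat_lit 1368312374) (nat_lit 304) (nat_lit 16733021599) (nat_lit 95) (nat_lit 5) (nat_lit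 98) (nat_lit 5) (nat_lit 99) (nat_lit 5) (nat_lit 420) (nat_lit 354) (nat_lit 246)) (XT.lf (nat_lit 0) (nat_lit 7501972830) (nat_lit 304) (nat_lit 7064976039) (nat_lit 76) (nat_lit 5384103884) (nat_lit 95) (nat_lit 5) (nat_lit 99) (nat_lit 5) (nat_lit 96) (nat_lit 5) (nat_lit 421) (nat_lit 354) (nat_lit 245))) (XT.nd (nat_lit 78) (nat_lit 0) (nat_lit 0) (XT.lf (nat_lit 0) (nat_lit 4348773680) (nat_lit 228) (nat_lit 7993314633) (nat_lit 304) (nat_lit 7995542095) (nat_lit 92) (nat_lit 5) (nat_lit 95) (nat_lit 5) (nat_lit 96) (nat_lit 5) (nat_lit 422) (nat_lit 354) (nat_lit 244)) (XT.lf (nat_lit 0) (nat_lit 16224994643) (nat_lit 228) (nat_lit 1158501218) (nat_lit 304) (nat_lit 3350629928) (nat_lit 92) (nat_lit 5) (nat_lit 95) (nat_lit 5) (nat_lit 96) (nat_lit 5) (nat_lit 423) (nat_lit 354) (nat_lit 243)))))) (XT.nd (nat_lit 546) (nat_lit 988) (nat_lit 0) (XT.nd (nat_lit 234) (nat_lit 456) (nat_lit 0) (XT.nd (nat_lit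 78) (nat_lit 228) (nat_lit 0) (XT.lf (nat_lit 0) (nat_lit 1519324799) (nat_lit 304) (nat_lit 13776018284) (nat_lit 76) (nat_lit 5843352281) (nat_lit 88) (nat_lit 5) (nat_lit 92) (nat_lit 5) (nat_lit 89) (nat_lit 5) (nat_lit 424) (nat_lit 354) (nat_lit 242)) (XT.nd (nat_lit 78) (nat_lit 228) (nat_lit 0) (XT.lf (nat_lit 0) (nat_lit 6510643363) (nat_lit 304) (nat_lit 1940521833) (nat_lit 76) (nat_lit 13101966102) (nat_lit 88) (nat_lit 5) (nat_lit 92) (nat_lit 5) (nat_lit 89) (nat_lit 5) (nat_lit 425) (nat_lit 354) (nat_lit 241)) (XT.lf (nat_lit 0) (nat_lit 10429812780) (nat_lit 228) (nat_lit 1307733840) (nat_lit 304) (nat_lit 10239881046) (nat_lit 85) (nat_lit 5) (nat_lit 88) (nat_lit 5) (nat_lit 89) (nat_lit 5) (nat_lit 426) (nat_lit 354) (nat_lit 240)))) (XT.nd (nat_lit 156) (nat_lit 228) (nat_lit 0) (XT.nd (nat_lit 78) (nat_lit 76) (nat_lit 0) (XT.lf (nat_lit 0) (nat_lit 729193109) (nat_lit 152) (nat_lit 16462710844)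 (nat_lit 228) (nat_lit 5220432196) (nat_lit 83) (nat_lit 5) (nat_lit 85) (nat_lit 5) (nat_lit 86) (nat_lit 5) (nat_lit 427) (nat_lit 354) (nat_lit 239)) (XT.lf (nat_lit 0) (nat_lit 67033380) (nat_lit 228) (nat_lit 9283300762) (nat_lit 76) (nat_lit 13506481268) (nat_lit 82) (nat_lit 5) (nat_lit 85) (nat_lit 5) (nat_lit 83) (nat_lit 5) (nat_lit 428) (nat_lit 354) (nat_lit 238))) (XT.nd (nat_lit 78) (nat_lit 0) (nat_lit 0) (XT.lf (nat_lit 0) (nat_lit 3481574454) (nat_lit 228) (nat_lit 1946244453) (nat_lit 304) (nat_lit 17884673281) (nat_lit 79) (nat_lit 5) (nat_lit 82) (nat_lit 5) (nat_lit 83) (nat_lit 5) (nat_lit 429) (nat_lit 354) (nat_lit 237)) (XT.lf (nat_lit 0) (nat_lit 11084945801) (nat_lit 304) (nat_lit 7038167948) (nat_lit 76) (nat_lit 5654662326) (nat_lit 79) (nat_lit 5) (nat_lit 83) (nat_lit 5) (nat_lit 80) (nat_lit 5) (nat_lit 430) (nat_lit 354) (nat_lit 236))))) (XT.nd (nat_lit 312) (nat_lit 532) (nat_lit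 0) (XT.nd (nat_lit 156) (nat_lit 304) (nat_lit 0) (XT.nd (nat_lit 78) (nat_lit 0) (nat_lit 0) (XT.lf (nat_lit 0) (nat_lit 6217797085) (nat_lit 152) (nat_lit 10759676185) (nat_lit 228) (nat_lit 7277576876) (nat_lit 77) (nat_lit 5) (nat_lit 79) (nat_lit 5) (nat_lit 80) (nat_lit 5) (nat_lit 431) (nat_lit 354) (nat_lit 235)) (XT.lf (nat_lit 0) (nat_lit 19993309354) (nat_lit 152) (nat_lit 3111360169) (nat_lit 228) (nat_lit 1640238333) (nat_lit 77) (nat_lit 5) (nat_lit 79) (nat_lit 5) (nat_lit 80) (nat_lit 5) (nat_lit 432) (nat_lit 354) (nat_lit 234))) (XT.nd (nat_lit 78) (nat_lit 0) (nat_lit 0) (XT.lf (nat_lit 0) (nat_lit 4205952831) (nat_lit 304) (nat_lit 16245923306) (nat_lit 76) (nat_lit 4792754877) (nat_lit 73) (nat_lit 5) (nat_lit 77) (nat_lit 5) (nat_lit 74) (nat_lit 5) (nat_lit 433) (nat_lit 354) (nat_lit 233)) (XT.lf (nat_lit 0) (nat_lit 10260981304) (nat_lit 304) (nat_lit 2568596688) (nat_lit 76) (nat_lit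 12927290130) (nat_lit 73) (nat_lit 5) (nat_lit 77) (nat_lit 5) (nat_lit 74) (nat_lit 5) (nat_lit 434) (nat_lit 354) (nat_lit 232)))) (XT.nd (nat_lit 156) (nat_lit 380) (nat_lit 0) (XT.nd (nat_lit 78) (nat_lit 0) (nat_lit 0) (XT.lf (nat_lit 0) (nat_lit 11726422136) (nat_lit 152) (nat_lit 4871490426) (nat_lit 228) (nat_lit 9683554183) (nat_lit 71) (nat_lit 5) (nat_lit 73) (nat_lit 5) (nat_lit 74) (nat_lit 5) (nat_lit 435) (nat_lit 354) (nat_lit 231)) (XT.lf (nat_lit 0) (nat_lit 23170715093) (nat_lit 228) (nat_lit 371829338) (nat_lit 76) (nat_lit 3277887898) (nat_lit 71) (nat_lit 5) (nat_lit 74) (nat_lit 5) (nat_lit 72) (nat_lit 5) (nat_lit 436) (nat_lit 354) (nat_lit 230))) (XT.nd (nat_lit 78) (nat_lit 152) (nat_lit 0) (XT.lf (nat_lit 0) (nat_lit 2691908299) (nat_lit 228) (nat_lit 12946991641) (nat_lit 76) (nat_lit 11730624148) (nat_lit 68) (nat_lit 5) (nat_lit 71) (nat_lit 5) (nat_lit 69) (nat_lit 5) (nat_lit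 437) (nat_lit 354) (nat_lit 229)) (XT.lf (nat_lit 0) (nat_lit 1709623094) (nat_lit 152) (nat_lit 7449026456) (nat_lit 228) (nat_lit 18775110037) (nat_lit 66) (nat_lit 5) (nat_lit 68) (nat_lit 5) (nat_lit 69) (nat_lit 5) (nat_lit 438) (nat_lit 354) (nat_lit 228))))))))
noncomputable def xc137 : XT := (XT.nd (nat_lit 2184) (nat_lit 1064) (nat_lit 0) (XT.nd (nat_lit 1092) (nat_lit 912) (nat_lit 0) (XT.nd (nat_lit 546) (nat_lit 684) (nat_lit 0) (XT.nd (nat_lit 234) (nat_lit 304) (nat_lit 0) (XT.nd (nat_lit 78) (nat_lit 228) (nat_lit 0) (XT.lf (nat_lit 0) (nat_lit 15948971750) (nat_lit 228) (nat_lit 11471443536) (nat_lit 76) (nat_lit 1090621192) (nat_lit 66) (nat_lit 5) (nat_lit 69) (nat_lit 5) (nat_lit 67) (nat_lit 5) (nat_lit 439) (nat_lit 354) (nat_lit 227)) (XT.nd (nat_lit 78) (nat_lit 76) (nat_lit 0) (XT.lf (nat_lit 0) (nat_lit 3701924313) (nat_lit 152) (nat_lit 19338826692) (nat_lit 228) (nat_lit 6061949891)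 (nat_lit 64) (nat_lit 5) (nat_lit 66) (nat_lit 5) (nat_lit 67) (nat_lit 5) (nat_lit 440) (nat_lit 354) (nat_lit 226)) (XT.lf (nat_lit 0) (nat_lit 726237096) (nat_lit 228) (nat_lit 10170649626) (nat_lit 76) (nat_lit 18811884755) (nat_lit 63) (nat_lit 5) (nat_lit 66) (nat_lit 5) (nat_lit 64) (nat_lit 5) (nat_lit 441) (nat_lit 354) (nat_lit 225)))) (XT.nd (nat_lit 156) (nat_lit 152) (nat_lit 0) (XT.nd (nat_lit 78) (nat_lit 0) (nat_lit 0) (XT.lf (nat_lit 0) (nat_lit 5544731582) (nat_lit 152) (nat_lit 2093573118) (nat_lit 228) (nat_lit 22691658172) (nat_lit 61) (nat_lit 5) (nat_lit 63) (nat_lit 5) (nat_lit 64) (nat_lit 5) (nat_lit 442) (nat_lit 354) (nat_lit 224)) (XT.lf (nat_lit 0) (nat_lit 14917322542) (nat_lit 228) (nat_lit 9114585464) (nat_lit 76) (nat_lit 6933095813) (nat_lit 61) (nat_lit 5) (nat_lit 64) (nat_lit 5) (nat_lit 62) (nat_lit 5) (nat_lit 443) (nat_lit 354) (nat_lit 223))) (XT.nd (nat_lit 78) (nat_lit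 0) (nat_lit 0) (XT.lf (nat_lit 0) (nat_lit 7125183006) (nat_lit 152) (nat_lit 15367904199) (nat_lit 228) (nat_lit 9123658918) (nat_lit 59) (nat_lit 5) (nat_lit 61) (nat_lit 5) (nat_lit 62) (nat_lit 5) (nat_lit 444) (nat_lit 354) (nat_lit 222)) (XT.lf (nat_lit 0) (nat_lit 24019867609) (nat_lit 152) (nat_lit 6357584935) (nat_lit 228) (nat_lit 1908149693) (nat_lit 59) (nat_lit 5) (nat_lit 61) (nat_lit 5) (nat_lit 62) (nat_lit 5) (nat_lit 445) (nat_lit 354) (nat_lit 221))))) (XT.nd (nat_lit 234) (nat_lit 304) (nat_lit 0) (XT.nd (nat_lit 78) (nat_lit 152) (nat_lit 0) (XT.lf (nat_lit 0) (nat_lit 5516996241) (nat_lit 228) (nat_lit 24458462842) (nat_lit 76) (nat_lit 2994444460) (nat_lit 56) (nat_lit 5) (nat_lit 59) (nat_lit 5) (nat_lit 57) (nat_lit 5) (nat_lit 446) (nat_lit 354) (nat_lit 220)) (XT.nd (nat_lit 78) (nat_lit 152) (nat_lit 0) (XT.lf (nat_lit 0) (nat_lit 13263329516) (nat_lit 228) (nat_lit 7812344624) (nat_lit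 76) (nat_lit 12594390683) (nat_lit 56) (nat_lit 5) (nat_lit 59) (nat_lit 5) (nat_lit 57) (nat_lit 5) (nat_lit 447) (nat_lit 354) (nat_lit 219)) (XT.lf (nat_lit 0) (nat_lit 9500269633) (nat_lit 152) (nat_lit 11822954462) (nat_lit 228) (nat_lit 13065572927) (nat_lit 54) (nat_lit 5) (nat_lit 56) (nat_lit 5) (nat_lit 57) (nat_lit 5) (nat_lit 448) (nat_lit 354) (nat_lit 218)))) (XT.nd (nat_lit 156) (nat_lit 152) (nat_lit 0) (XT.nd (nat_lit 78) (nat_lit 152) (nat_lit 0) (XT.lf (nat_lit 0) (nat_lit 27474314875) (nat_lit 152) (nat_lit 2219460645) (nat_lit 228) (nat_lit 5433251052) (nat_lit 54) (nat_lit 5) (nat_lit 56) (nat_lit 5) (nat_lit 57) (nat_lit 5) (nat_lit 449) (nat_lit 354) (nat_lit 217)) (XT.lf (nat_lit 0) (nat_lit 2544324865) (nat_lit 152) (nat_lit 25699649737) (nat_lit 76) (nat_lit 7637819403) (nat_lit 52) (nat_lit 5) (nat_lit 54) (nat_lit 5) (nat_lit 53) (nat_lit 5) (nat_lit 450) (nat_lit 354) (nat_lit 216)))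 (XT.nd (nat_lit 78) (nat_lit 152) (nat_lit 0) (XT.lf (nat_lit 0) (nat_lit 10742249399) (nat_lit 152) (nat_lit 8042307204) (nat_lit 76) (nat_lit 17870328377) (nat_lit 52) (nat_lit 5) (nat_lit 54) (nat_lit 5) (nat_lit 53) (nat_lit 5) (nat_lit 451) (nat_lit 354) (nat_lit 215)) (XT.lf (nat_lit 0) (nat_lit 10329025175) (nat_lit 152) (nat_lit 8946867579) (nat_lit 228) (nat_lit 18172583551) (nat_lit 50) (nat_lit 5) (nat_lit 52) (nat_lit 5) (nat_lit 53) (nat_lit 5) (nat_lit 452) (nat_lit 354) (nat_lit 214)))))) (XT.nd (nat_lit 546) (nat_lit 456) (nat_lit 0) (XT.nd (nat_lit 234) (nat_lit 304) (nat_lit 0) (XT.nd (nat_lit 78) (nat_lit 152) (nat_lit 0) (XT.lf (nat_lit 0) (nat_lit 28149491447) (nat_lit 228) (nat_lit 8876612346) (nat_lit 76) (nat_lit 1237254217) (nat_lit 50) (nat_lit 5) (nat_lit 53) (nat_lit 5) (nat_lit 51) (nat_lit 4) (nat_lit 453) (nat_lit 354) (nat_lit 213)) (XT.nd (nat_lit 78) (nat_lit 76) (nat_lit 0)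 (XT.lf (nat_lit 0) (nat_lit 10003307874) (nat_lit 76) (nat_lit 27461537137) (nat_lit 152) (nat_lit 1632575741) (nat_lit 49) (nat_lit 5) (nat_lit 50) (nat_lit 5) (nat_lit 51) (nat_lit 4) (nat_lit 454) (nat_lit 354) (nat_lit 212)) (XT.lf (nat_lit 0) (nat_lit 7045892468) (nat_lit 152) (nat_lit 10408236191) (nat_lit 76) (nat_lit 22497888854) (nat_lit 48) (nat_lit 5) (nat_lit 50) (nat_lit 5) (nat_lit 49) (nat_lit 5) (nat_lit 455) (nat_lit 354) (nat_lit 211)))) (XT.nd (nat_lit 156) (nat_lit 152) (nat_lit 0) (XT.nd (nat_lit 78) (nat_lit 0) (nat_lit 0) (XT.lf (nat_lit 0) (nat_lit 8980953817) (nat_lit 152) (nat_lit 7048368376) (nat_lit 228) (nat_lit 24800123349) (nat_lit 46) (nat_lit 5) (nat_lit 48) (nat_lit 5) (nat_lit 49) (nat_lit 5) (nat_lit 456) (nat_lit 354) (nat_lit 210)) (XT.lf (nat_lit 0) (nat_lit 25414795427) (nat_lit 228) (nat_lit 12617563302) (nat_lit 76) (nat_lit 3696862346) (nat_lit 46) (nat_lit 5) (nat_lit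 49) (nat_lit 5) (nat_lit 47) (nat_lit 4) (nat_lit 457) (nat_lit 354) (nat_lit 209))) (XT.nd (nat_lit 78) (nat_lit 76) (nat_lit 0) (XT.lf (nat_lit 0) (nat_lit 7245996409) (nat_lit 76) (nat_lit 27966656891) (nat_lit 152) (nat_lit 7439412818) (nat_lit 45) (nat_lit 5) (nat_lit 46) (nat_lit 5) (nat_lit 47) (nat_lit 4) (nat_lit 458) (nat_lit 354) (nat_lit 208)) (XT.lf (nat_lit 0) (nat_lit 1788711452) (nat_lit 152) (nat_lit 15668206608) (nat_lit 76) (nat_lit 26141586374) (nat_lit 44) (nat_lit 5) (nat_lit 46) (nat_lit 5) (nat_lit 45) (nat_lit 5) (nat_lit 459) (nat_lit 354) (nat_lit 207))))) (XT.nd (nat_lit 234) (nat_lit 228) (nat_lit 0) (XT.nd (nat_lit 78) (nat_lit 76) (nat_lit 0) (XT.lf (nat_lit 0) (nat_lit 4663681489) (nat_lit 152) (nat_lit 6516950013) (nat_lit 228) (nat_lit 33389401147) (nat_lit 42) (nat_lit 5) (nat_lit 44) (nat_lit 5) (nat_lit 45) (nat_lit 5) (nat_lit 460) (nat_lit 354) (nat_lit 206)) (XT.nd (nat_lit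 78) (nat_lit 76) (nat_lit 0) (XT.lf (nat_lit 0) (nat_lit 21051440556) (nat_lit 228) (nat_lit 19701976904) (nat_lit 76) (nat_lit 4811376069) (nat_lit 42) (nat_lit 5) (nat_lit 45) (nat_lit 5) (nat_lit 43) (nat_lit 4) (nat_lit 461) (nat_lit 354) (nat_lit 205)) (XT.lf (nat_lit 0) (nat_lit 1049446175) (nat_lit 76) (nat_lit 30235457470) (nat_lit 152) (nat_lit 15302498437) (nat_lit 41) (nat_lit 5) (nat_lit 42) (nat_lit 5) (nat_lit 43) (nat_lit 4) (nat_lit 462) (nat_lit 354) (nat_lit 204)))) (XT.nd (nat_lit 156) (nat_lit 152) (nat_lit 0) (XT.nd (nat_lit 78) (nat_lit 76) (nat_lit 0) (XT.lf (nat_lit 0) (nat_lit 22812393954) (nat_lit 76) (nat_lit 19203937882) (nat_lit 152) (nat_lit 5618628936) (nat_lit 41) (nat_lit 5) (nat_lit 42) (nat_lit 5) (nat_lit 43) (nat_lit 4) (nat_lit 463) (nat_lit 354) (nat_lit 203)) (XT.lf (nat_lit 0) (nat_lit 4262925255) (nat_lit 152) (nat_lit 3542198396) (nat_lit 76) (nat_lit 40907802188) (nat_lit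 40) (nat_lit 5) (nat_lit 42) (nat_lit 5) (nat_lit 41) (nat_lit 5) (nat_lit 464) (nat_lit 354) (nat_lit 202))) (XT.nd (nat_lit 78) (nat_lit 0) (nat_lit 0) (XT.lf (nat_lit 0) (nat_lit 14539965062) (nat_lit 228) (nat_lit 31185396900) (nat_lit 76) (nat_lit 4089840617) (nat_lit 38) (nat_lit 5) (nat_lit 41) (nat_lit 5) (nat_lit 39) (nat_lit 4) (nat_lit 465) (nat_lit 354) (nat_lit 201)) (XT.lf (nat_lit 0) (nat_lit 25231135010) (nat_lit 228) (nat_lit 9501736634) (nat_lit 76) (nat_lit 16214502046) (nat_lit 38) (nat_lit 5) (nat_lit 41) (nat_lit 5) (nat_lit 39) (nat_lit 4) (nat_lit 466) (nat_lit 354) (nat_lit 200))))))) (XT.nd (nat_lit 1092) (nat_lit 304) (nat_lit 0) (XT.nd (nat_lit 546) (nat_lit 380) (nat_lit 0) (XT.nd (nat_lit 234) (nat_lit 76) (nat_lit 0) (XT.nd (nat_lit 78) (nat_lit 228) (nat_lit 0) (XT.lf (nat_lit 0) (nat_lit 13073752389) (nat_lit 76) (nat_lit 23287598520) (nat_lit 152) (nat_lit 15748610318) (nat_lit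 37) (nat_lit 5) (nat_lit 38) (nat_lit 5) (nat_lit 39) (nat_lit 4) (nat_lit 467) (nat_lit 354) (nat_lit 199)) (XT.nd (nat_lit 78) (nat_lit 228) (nat_lit 0) (XT.lf (nat_lit 0) (nat_lit 36507620584) (nat_lit 76) (nat_lit 11406522659) (nat_lit 152) (nat_lit 5390623649) (nat_lit 37) (nat_lit 5) (nat_lit 38) (nat_lit 5) (nat_lit 39) (nat_lit 4) (nat_lit 468) (nat_lit 354) (nat_lit 198)) (XT.lf (nat_lit 0) (nat_lit 5236251306) (nat_lit 228) (nat_lit 48376096669) (nat_lit 76) (nat_lit 919712922) (nat_lit 34) (nat_lit 5) (nat_lit 37) (nat_lit 5) (nat_lit 35) (nat_lit 4) (nat_lit 469) (nat_lit 354) (nat_lit 197)))) (XT.nd (nat_lit 156) (nat_lit 76) (nat_lit 0) (XT.nd (nat_lit 78) (nat_lit 0) (nat_lit 0) (XT.lf (nat_lit 0) (nat_lit 16350702838) (nat_lit 228) (nat_lit 25830507374) (nat_lit 76) (nat_lit 13605049390) (nat_lit 34) (nat_lit 5) (nat_lit 37) (nat_lit 5) (nat_lit 35) (nat_lit 4) (nat_lit 470) (nat_lit 354) (nat_lit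 196)) (XT.lf (nat_lit 0) (nat_lit 27791678233) (nat_lit 228) (nat_lit 2621586851) (nat_lit 76) (nat_lit 26665027007) (nat_lit 34) (nat_lit 5) (nat_lit 37) (nat_lit 5) (nat_lit 35) (nat_lit 4) (nat_lit 471) (nat_lit 354) (nat_lit 195))) (XT.nd (nat_lit 78) (nat_lit 0) (nat_lit 0) (XT.lf (nat_lit 0) (nat_lit 21694278043) (nat_lit 76) (nat_lit 18083435089) (nat_lit 152) (nat_lit 18625318034) (nat_lit 33) (nat_lit 5) (nat_lit 34) (nat_lit 5) (nat_lit 35) (nat_lit 4) (nat_lit 472) (nat_lit 354) (nat_lit 194)) (XT.lf (nat_lit 0) (nat_lit 46780826184) (nat_lit 76) (nat_lit 5362342272) (nat_lit 152) (nat_lit 7623749280) (nat_lit 33) (nat_lit 5) (nat_lit 34) (nat_lit 5) (nat_lit 35) (nat_lit 4) (nat_lit 473) (nat_lit 354) (nat_lit 193))))) (XT.nd (nat_lit 234) (nat_lit 228) (nat_lit 0) (XT.nd (nat_lit 78) (nat_lit 0) (nat_lit 0) (XT.lf (nat_lit 0) (nat_lit 3816585024) (nat_lit 152) (nat_lit 49616104784) (nat_lit 76)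 (nat_lit 7732530130) (nat_lit 31) (nat_lit 5) (nat_lit 33) (nat_lit 5) (nat_lit 32) (nat_lit 4) (nat_lit 474) (nat_lit 354) (nat_lit 192)) (XT.nd (nat_lit 78) (nat_lit 0) (nat_lit 0) (XT.lf (nat_lit 0) (nat_lit 15625937093) (nat_lit 152) (nat_lit 25657145695) (nat_lit 76) (nat_lit 21314753271) (nat_lit 31) (nat_lit 5) (nat_lit 33) (nat_lit 5) (nat_lit 32) (nat_lit 4) (nat_lit 475) (nat_lit 354) (nat_lit 191)) (XT.lf (nat_lit 0) (nat_lit 27783271310) (nat_lit 152) (nat_lit 991374336) (nat_lit 76) (nat_lit 35298974419) (nat_lit 31) (nat_lit 5) (nat_lit 33) (nat_lit 5) (nat_lit 32) (nat_lit 4) (nat_lit 476) (nat_lit 354) (nat_lit 190)))) (XT.nd (nat_lit 156) (nat_lit 152) (nat_lit 0) (XT.nd (nat_lit 78) (nat_lit 0) (nat_lit 0) (XT.lf (nat_lit 0) (nat_lit 24888424719) (nat_lit 76) (nat_lit 15650028630) (nat_lit 152) (nat_lit 25048230840) (nat_lit 30) (nat_lit 5) (nat_lit 31) (nat_lit 5) (nat_lit 32) (nat_lit 4)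 (nat_lit 477) (nat_lit 354) (nat_lit 189)) (XT.lf (nat_lit 0) (nat_lit 51553445499) (nat_lit 76) (nat_lit 2126808935) (nat_lit 152) (nat_lit 13464767317) (nat_lit 30) (nat_lit 5) (nat_lit 31) (nat_lit 5) (nat_lit 32) (nat_lit 4) (nat_lit 478) (nat_lit 354) (nat_lit 188))) (XT.nd (nat_lit 78) (nat_lit 76) (nat_lit 0) (XT.lf (nat_lit 0) (nat_lit 10345450009) (nat_lit 76) (nat_lit 57077833361) (nat_lit 76) (nat_lit 1320617265) (nat_lit 29) (nat_lit 4) (nat_lit 30) (nat_lit 5) (nat_lit 30) (nat_lit 4) (nat_lit 479) (nat_lit 354) (nat_lit 187)) (XT.lf (nat_lit 0) (nat_lit 11143687251) (nat_lit 152) (nat_lit 33147277205) (nat_lit 76) (nat_lit 26091331118) (nat_lit 28) (nat_lit 5) (nat_lit 30) (nat_lit 5) (nat_lit 29) (nat_lit 4) (nat_lit 480) (nat_lit 354) (nat_lit 186)))))) (XT.nd (nat_lit 43290) (nat_lit 0) (nat_lit 21584) (XT.nd (nat_lit 234) (nat_lit 228) (nat_lit 0) (XT.nd (nat_lit 78) (nat_lit 76) (nat_lit 0)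 (XT.lf (nat_lit 0) (nat_lit 23949634733) (nat_lit 152) (nat_lit 7162607923) (nat_lit 76) (nat_lit 40957380109) (nat_lit 28) (nat_lit 5) (nat_lit 30) (nat_lit 5) (nat_lit 29) (nat_lit 4) (nat_lit 481) (nat_lit 354) (nat_lit 185)) (XT.nd (nat_lit 78) (nat_lit 0) (nat_lit 0) (XT.lf (nat_lit 0) (nat_lit 19980855307) (nat_lit 76) (nat_lit 17345397740) (nat_lit 152) (nat_lit 36475722315) (nat_lit 27) (nat_lit 5) (nat_lit 28) (nat_lit 5) (nat_lit 29) (nat_lit 4) (nat_lit 482) (nat_lit 354) (nat_lit 184)) (XT.lf (nat_lit 0) (nat_lit 48074908649) (nat_lit 76) (nat_lit 3096074845) (nat_lit 152) (nat_lit 24413310990) (nat_lit 27) (nat_lit 5) (nat_lit 28) (nat_lit 5) (nat_lit 29) (nat_lit 4) (nat_lit 483) (nat_lit 354) (nat_lit 183)))) (XT.nd (nat_lit 156) (nat_lit 76) (nat_lit 0) (XT.nd (nat_lit 78) (nat_lit 152) (nat_lit 0) (XT.lf (nat_lit 0) (nat_lit 65536975902) (nat_lit 152) (nat_lit 529967921) (nat_lit 0) (nat_lit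 11349962097) (nat_lit 27) (nat_lit 5) (nat_lit 29) (nat_lit 4) (nat_lit 27) (nat_lit 4) (nat_lit 484) (nat_lit 354) (nat_lit 182)) (XT.lf (nat_lit 0) (nat_lit 1304512305) (nat_lit 152) (nat_lit 51548691107) (nat_lit 76) (nat_lit 26442141290) (nat_lit 25) (nat_lit 5) (nat_lit 27) (nat_lit 5) (nat_lit 26) (nat_lit 4) (nat_lit 485) (nat_lit 354) (nat_lit 181))) (XT.nd (nat_lit 78) (nat_lit 76) (nat_lit 0) (XT.lf (nat_lit 0) (nat_lit 14645879448) (nat_lit 152) (nat_lit 24475266565) (nat_lit 76) (nat_lit 42105457264) (nat_lit 25) (nat_lit 5) (nat_lit 27) (nat_lit 5) (nat_lit 26) (nat_lit 4) (nat_lit 486) (nat_lit 354) (nat_lit 180)) (XT.lf (nat_lit 0) (nat_lit 3468280134) (nat_lit 76) (nat_lit 24947461029) (nat_lit 152) (nat_lit 54799211145) (nat_lit 24) (nat_lit 5) (nat_lit 25) (nat_lit 5) (nat_lit 26) (nat_lit 4) (nat_lit 487) (nat_lit 354) (nat_lit 179))))) (XT.nd (nat_lit 312) (nat_lit 836) (nat_lit 0) (XT.nd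 (nat_lit 156) (nat_lit 0) (nat_lit 0) (XT.nd (nat_lit 78) (nat_lit 0) (nat_lit 0) (XT.lf (nat_lit 0) (nat_lit 136001332) (nat_lit 0) (nat_lit 136001332) (nat_lit 836) (nat_lit 3429399282) (nat_lit 319) (nat_lit 5) (nat_lit 319) (nat_lit 3) (nat_lit 330) (nat_lit 3) (nat_lit 355) (nat_lit 355) (nat_lit 310)) (XT.lf (nat_lit 0) (nat_lit 2062445010) (nat_lit 836) (nat_lit 3549058127) (nat_lit 912) (nat_lit 1856250091) (nat_lit 319) (nat_lit 5) (nat_lit 330) (nat_lit 3) (nat_lit 331) (nat_lit 5) (nat_lit 356) (nat_lit 355) (nat_lit 309))) (XT.nd (nat_lit 78) (nat_lit 0) (nat_lit 0) (XT.lf (nat_lit 76) (nat_lit 108385851) (nat_lit 0) (nat_lit 3463835125) (nat_lit 912) (nat_lit 3964087185) (nat_lit 320) (nat_lit 5) (nat_lit 319) (nat_lit 5) (nat_lit 331) (nat_lit 5) (nat_lit 357) (nat_lit 355) (nat_lit 308)) (XT.lf (nat_lit 76) (nat_lit 3917437664) (nat_lit 0) (nat_lit 1189130413) (nat_lit 912) (nat_lit 2501003049)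 (nat_lit 320) (nat_lit 5) (nat_lit 319) (nat_lit 5) (nat_lit 331) (nat_lit 5) (nat_lit 358) (nat_lit 355) (nat_lit 307)))) (XT.nd (nat_lit 156) (nat_lit 0) (nat_lit 0) (XT.nd (nat_lit 78) (nat_lit 912) (nat_lit 0) (XT.lf (nat_lit 76) (nat_lit 119138009) (nat_lit 0) (nat_lit 6525370498) (nat_lit 912) (nat_lit 1037765438) (nat_lit 321) (nat_lit 5) (nat_lit 320) (nat_lit 5) (nat_lit 332) (nat_lit 5) (nat_lit 359) (nat_lit 355) (nat_lit 306)) (XT.lf (nat_lit 0) (nat_lit 455675260) (nat_lit 912) (nat_lit 3689095386) (nat_lit 988) (nat_lit 3614475093) (nat_lit 308) (nat_lit 5) (nat_lit 320) (nat_lit 5) (nat_lit 321) (nat_lit 5) (nat_lit 360) (nat_lit 355) (nat_lit 305))) (XT.nd (nat_lit 78) (nat_lit 0) (nat_lit 76) (XT.lf (nat_lit 76) (nat_lit 264328309) (nat_lit 0) (nat_lit 1658904208) (nat_lit 988) (nat_lit 5916507185) (nat_lit 309) (nat_lit 5) (nat_lit 308) (nat_lit 5) (nat_lit 321) (nat_lit 5) (nat_lit 361) (nat_lit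 355) (nat_lit 304)) (XT.lf (nat_lit 0) (nat_lit 3430147711) (nat_lit 912) (nat_lit 3551748231) (nat_lit 988) (nat_lit 940918242) (nat_lit 309) (nat_lit 5) (nat_lit 321) (nat_lit 5) (nat_lit 322) (nat_lit 5) (nat_lit 362) (nat_lit 355) (nat_lit 303))))))))
noncomputable def xc138 : XT := (XT.nd (nat_lit 2184) (nat_lit 5928) (nat_lit 0) (XT.nd (nat_lit 1092) (nat_lit 4560) (nat_lit 0) (XT.nd (nat_lit 546) (nat_lit 4332) (nat_lit 0) (XT.nd (nat_lit 234) (nat_lit 912) (nat_lit 0) (XT.nd (nat_lit 78) (nat_lit 0) (nat_lit 0) (XT.lf (nat_lit 76) (nat_lit 554832735) (nat_lit 0) (nat_lit 4399723590) (nat_lit 988) (nat_lit 3054680884) (nat_lit 310) (nat_lit 5) (nat_lit 309) (nat_lit 5) (nat_lit 322) (nat_lit 5) (nat_lit 363) (nat_lit 355) (nat_lit 302)) (XT.nd (nat_lit 78) (nat_lit 0) (nat_lit 76) (XT.lf (nat_lit 76) (nat_lit 4825540035) (nat_lit 0) (nat_lit 1686685141) (nat_lit 988) (nat_lit 1586426074) (nat_lit 310)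 (nat_lit 5) (nat_lit 309) (nat_lit 5) (nat_lit 322) (nat_lit 5) (nat_lit 364) (nat_lit 355) (nat_lit 301)) (XT.lf (nat_lit 76) (nat_lit 1010149253) (nat_lit 0) (nat_lit 7080057115) (nat_lit 988) (nat_lit 101357337) (nat_lit 311) (nat_lit 5) (nat_lit 310) (nat_lit 5) (nat_lit 323) (nat_lit 5) (nat_lit 365) (nat_lit 355) (nat_lit 300)))) (XT.nd (nat_lit 156) (nat_lit 0) (nat_lit 76) (XT.nd (nat_lit 78) (nat_lit 0) (nat_lit 0) (XT.lf (nat_lit 0) (nat_lit 1404273485) (nat_lit 988) (nat_lit 2861182810) (nat_lit 1064) (nat_lit 4021301054) (nat_lit 297) (nat_lit 5) (nat_lit 310) (nat_lit 5) (nat_lit 311) (nat_lit 5) (nat_lit 366) (nat_lit 355) (nat_lit 299)) (XT.lf (nat_lit 76) (nat_lit 1586417206) (nat_lit 0) (nat_lit 1337015525) (nat_lit 1064) (nat_lit 5462253535) (nat_lit 298) (nat_lit 5) (nat_lit 297) (nat_lit 5) (nat_lit 311) (nat_lit 5) (nat_lit 367) (nat_lit 355) (nat_lit 298))) (XT.nd (nat_lit 78) (nat_lit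 0) (nat_lit 0) (XT.lf (nat_lit 0) (nat_lit 4489749585) (nat_lit 988) (nat_lit 2310375634) (nat_lit 1064) (nat_lit 1687431188) (nat_lit 298) (nat_lit 5) (nat_lit 311) (nat_lit 5) (nat_lit 312) (nat_lit 5) (nat_lit 368) (nat_lit 355) (nat_lit 297)) (XT.lf (nat_lit 76) (nat_lit 2312719303) (nat_lit 0) (nat_lit 3783341790) (nat_lit 1064) (nat_lit 2496651645) (nat_lit 299) (nat_lit 5) (nat_lit 298) (nat_lit 5) (nat_lit 312) (nat_lit 5) (nat_lit 369) (nat_lit 355) (nat_lit 296))))) (XT.nd (nat_lit 234) (nat_lit 3420) (nat_lit 0) (XT.nd (nat_lit 78) (nat_lit 988) (nat_lit 0) (XT.lf (nat_lit 76) (nat_lit 7089827753) (nat_lit 0) (nat_lit 642529380) (nat_lit 1064) (nat_lit 969232416) (nat_lit 299) (nat_lit 5) (nat_lit 298) (nat_lit 5) (nat_lit 312) (nat_lit 5) (nat_lit 370) (nat_lit 355) (nat_lit 295)) (XT.nd (nat_lit 78) (nat_lit 0) (nat_lit 0) (XT.lf (nat_lit 0) (nat_lit 607817622) (nat_lit 1064) (nat_lit 5617599252)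 (nat_lit 76) (nat_lit 2587692288) (nat_lit 285) (nat_lit 5) (nat_lit 299) (nat_lit 5) (nat_lit 286) (nat_lit 5) (nat_lit 371) (nat_lit 355) (nat_lit 294)) (XT.lf (nat_lit 0) (nat_lit 2195715631) (nat_lit 1064) (nat_lit 796481821) (nat_lit 76) (nat_lit 5936016490) (nat_lit 285) (nat_lit 5) (nat_lit 299) (nat_lit 5) (nat_lit 286) (nat_lit 5) (nat_lit 372) (nat_lit 355) (nat_lit 293)))) (XT.nd (nat_lit 156) (nat_lit 1216) (nat_lit 0) (XT.nd (nat_lit 78) (nat_lit 1140) (nat_lit 0) (XT.lf (nat_lit 0) (nat_lit 3836904685) (nat_lit 1140) (nat_lit 4830793446) (nat_lit 76) (nat_lit 378921567) (nat_lit 271) (nat_lit 5) (nat_lit 286) (nat_lit 5) (nat_lit 272) (nat_lit 5) (nat_lit 373) (nat_lit 355) (nat_lit 292)) (XT.lf (nat_lit 0) (nat_lit 167197569) (nat_lit 1140) (nat_lit 5361744556) (nat_lit 1216) (nat_lit 3639604068) (nat_lit 256) (nat_lit 5) (nat_lit 271) (nat_lit 5) (nat_lit 272) (nat_lit 5) (nat_lit 374) (nat_lit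 355) (nat_lit 291))) (XT.nd (nat_lit 78) (nat_lit 1216) (nat_lit 0) (XT.lf (nat_lit 0) (nat_lit 5381622911) (nat_lit 1140) (nat_lit 1901943160) (nat_lit 1216) (nat_lit 2010226106) (nat_lit 256) (nat_lit 5) (nat_lit 271) (nat_lit 5) (nat_lit 272) (nat_lit 5) (nat_lit 375) (nat_lit 355) (nat_lit 290)) (XT.lf (nat_lit 0) (nat_lit 1306488898) (nat_lit 1216) (nat_lit 7777032949) (nat_lit 1292) (nat_lit 339508875) (nat_lit 240) (nat_lit 5) (nat_lit 256) (nat_lit 5) (nat_lit 257) (nat_lit 5) (nat_lit 376) (nat_lit 355) (nat_lit 289)))))) (XT.nd (nat_lit 546) (nat_lit 2052) (nat_lit 0) (XT.nd (nat_lit 234) (nat_lit 1824) (nat_lit 0) (XT.nd (nat_lit 78) (nat_lit 608) (nat_lit 0) (XT.lf (nat_lit 0) (nat_lit 1377633798) (nat_lit 1292) (nat_lit 2858677527) (nat_lit 76) (nat_lit 5318754052) (nat_lit 239) (nat_lit 5) (nat_lit 256) (nat_lit 5) (nat_lit 240) (nat_lit 5) (nat_lit 377) (nat_lit 355) (nat_lit 288)) (XT.nd (nat_lit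 78) (nat_lit 0) (nat_lit 0) (XT.lf (nat_lit 0) (nat_lit 2571588537) (nat_lit 608) (nat_lit 558162325) (nat_lit 684) (nat_lit 6561515466) (nat_lit 231) (nat_lit 5) (nat_lit 239) (nat_lit 5) (nat_lit 240) (nat_lit 5) (nat_lit 378) (nat_lit 355) (nat_lit 287)) (XT.lf (nat_lit 0) (nat_lit 4960915632) (nat_lit 684) (nat_lit 1671545399) (nat_lit 76) (nat_lit 3198311947) (nat_lit 231) (nat_lit 5) (nat_lit 240) (nat_lit 5) (nat_lit 232) (nat_lit 5) (nat_lit 379) (nat_lit 355) (nat_lit 286)))) (XT.nd (nat_lit 156) (nat_lit 1216) (nat_lit 0) (XT.nd (nat_lit 78) (nat_lit 0) (nat_lit 0) (XT.lf (nat_lit 0) (nat_lit 3980248305) (nat_lit 608) (nat_lit 2877815556) (nat_lit 684) (nat_lit 3116083291) (nat_lit 223) (nat_lit 5) (nat_lit 231) (nat_lit 5) (nat_lit 232) (nat_lit 5) (nat_lit 380) (nat_lit 355) (nat_lit 285)) (XT.lf (nat_lit 0) (nat_lit 8806600200) (nat_lit 684) (nat_lit 327726724) (nat_lit 76) (nat_lit 987674797) (nat_lit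 223) (nat_lit 5) (nat_lit 232) (nat_lit 5) (nat_lit 224) (nat_lit 5) (nat_lit 381) (nat_lit 355) (nat_lit 284))) (XT.nd (nat_lit 78) (nat_lit 532) (nat_lit 0) (XT.lf (nat_lit 0) (nat_lit 580025006) (nat_lit 684) (nat_lit 4721743223) (nat_lit 76) (nat_lit 4970843345) (nat_lit 214) (nat_lit 5) (nat_lit 223) (nat_lit 5) (nat_lit 215) (nat_lit 5) (nat_lit 382) (nat_lit 355) (nat_lit 283)) (XT.lf (nat_lit 0) (nat_lit 1162568513) (nat_lit 532) (nat_lit 1326966647) (nat_lit 608) (nat_lit 7938316320) (nat_lit 207) (nat_lit 5) (nat_lit 214) (nat_lit 5) (nat_lit 215) (nat_lit 5) (nat_lit 383) (nat_lit 355) (nat_lit 282))))) (XT.nd (nat_lit 234) (nat_lit 1520) (nat_lit 0) (XT.nd (nat_lit 78) (nat_lit 532) (nat_lit 0) (XT.lf (nat_lit 0) (nat_lit 4500804814) (nat_lit 608) (nat_lit 3325741340) (nat_lit 76) (nat_lit 2759880091) (nat_lit 207) (nat_lit 5) (nat_lit 215) (nat_lit 5) (nat_lit 208) (nat_lit 5) (nat_lit 384) (nat_lit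 355) (nat_lit 281)) (XT.nd (nat_lit 78) (nat_lit 0) (nat_lit 0) (XT.lf (nat_lit 0) (nat_lit 2801918992) (nat_lit 532) (nat_lit 3781170374) (nat_lit 608) (nat_lit 4166360124) (nat_lit 200) (nat_lit 5) (nat_lit 207) (nat_lit 5) (nat_lit 208) (nat_lit 5) (nat_lit 385) (nat_lit 355) (nat_lit 280)) (XT.lf (nat_lit 0) (nat_lit 8736601245) (nat_lit 608) (nat_lit 1770958912) (nat_lit 76) (nat_lit 409551716) (nat_lit 200) (nat_lit 5) (nat_lit 208) (nat_lit 5) (nat_lit 201) (nat_lit 5) (nat_lit 386) (nat_lit 355) (nat_lit 279)))) (XT.nd (nat_lit 156) (nat_lit 988) (nat_lit 0) (XT.nd (nat_lit 78) (nat_lit 76) (nat_lit 0) (XT.lf (nat_lit 0) (nat_lit 4612262952) (nat_lit 456) (nat_lit 6396205947) (nat_lit 532) (nat_lit 79733595) (nat_lit 194) (nat_lit 5) (nat_lit 200) (nat_lit 5) (nat_lit 201) (nat_lit 5) (nat_lit 387) (nat_lit 355) (nat_lit 278)) (XT.lf (nat_lit 0) (nat_lit 2033673017) (nat_lit 532) (nat_lit 92283992) (nat_lit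 76) (nat_lit 9138169860) (nat_lit 193) (nat_lit 5) (nat_lit 200) (nat_lit 5) (nat_lit 194) (nat_lit 5) (nat_lit 388) (nat_lit 355) (nat_lit 277))) (XT.nd (nat_lit 78) (nat_lit 456) (nat_lit 0) (XT.lf (nat_lit 0) (nat_lit 4267595991) (nat_lit 608) (nat_lit 4886732462) (nat_lit 76) (nat_lit 2289225293) (nat_lit 186) (nat_lit 5) (nat_lit 194) (nat_lit 5) (nat_lit 187) (nat_lit 5) (nat_lit 389) (nat_lit 355) (nat_lit 276)) (XT.lf (nat_lit 0) (nat_lit 1761245458) (nat_lit 456) (nat_lit 4819693200) (nat_lit 532) (nat_lit 5047062377) (nat_lit 180) (nat_lit 5) (nat_lit 186) (nat_lit 5) (nat_lit 187) (nat_lit 5) (nat_lit 390) (nat_lit 355) (nat_lit 275))))))) (XT.nd (nat_lit 1092) (nat_lit 2584) (nat_lit 0) (XT.nd (nat_lit 546) (nat_lit 1596) (nat_lit 0) (XT.nd (nat_lit 234) (nat_lit 1216) (nat_lit 0) (XT.nd (nat_lit 78) (nat_lit 532) (nat_lit 0) (XT.lf (nat_lit 0) (nat_lit 8678119609) (nat_lit 456) (nat_lit 308867172)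 (nat_lit 532) (nat_lit 2830305190) (nat_lit 180) (nat_lit 5) (nat_lit 186) (nat_lit 5) (nat_lit 187) (nat_lit 5) (nat_lit 391) (nat_lit 355) (nat_lit 274)) (XT.nd (nat_lit 78) (nat_lit 76) (nat_lit 0) (XT.lf (nat_lit 0) (nat_lit 3791995571) (nat_lit 456) (nat_lit 7726037991) (nat_lit 532) (nat_lit 492652667) (nat_lit 174) (nat_lit 5) (nat_lit 180) (nat_lit 5) (nat_lit 181) (nat_lit 5) (nat_lit 392) (nat_lit 355) (nat_lit 273)) (XT.lf (nat_lit 0) (nat_lit 1887695314) (nat_lit 532) (nat_lit 1266019166) (nat_lit 76) (nat_lit 9055326032) (nat_lit 173) (nat_lit 5) (nat_lit 180) (nat_lit 5) (nat_lit 174) (nat_lit 5) (nat_lit 393) (nat_lit 355) (nat_lit 272)))) (XT.nd (nat_lit 156) (nat_lit 380) (nat_lit 0) (XT.nd (nat_lit 78) (nat_lit 456) (nat_lit 0) (XT.lf (nat_lit 0) (nat_lit 4378125145) (nat_lit 456) (nat_lit 6450604773) (nat_lit 76) (nat_lit 1583020313) (nat_lit 168) (nat_lit 5) (nat_lit 174) (nat_lit 5) (nat_lit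 169) (nat_lit 5) (nat_lit 394) (nat_lit 355) (nat_lit 271)) (XT.lf (nat_lit 0) (nat_lit 764240975) (nat_lit 456) (nat_lit 6206479426) (nat_lit 532) (nat_lit 5649005359) (nat_lit 162) (nat_lit 5) (nat_lit 168) (nat_lit 5) (nat_lit 169) (nat_lit 5) (nat_lit 395) (nat_lit 355) (nat_lit 270))) (XT.nd (nat_lit 78) (nat_lit 380) (nat_lit 0) (XT.lf (nat_lit 0) (nat_lit 8297819533) (nat_lit 456) (nat_lit 1384794890) (nat_lit 532) (nat_lit 3150088364) (nat_lit 162) (nat_lit 5) (nat_lit 168) (nat_lit 5) (nat_lit 169) (nat_lit 5) (nat_lit 396) (nat_lit 355) (nat_lit 269)) (XT.lf (nat_lit 0) (nat_lit 2999736052) (nat_lit 380) (nat_lit 9516403767) (nat_lit 456) (nat_lit 534728699) (nat_lit 157) (nat_lit 5) (nat_lit 162) (nat_lit 5) (nat_lit 163) (nat_lit 5) (nat_lit 397) (nat_lit 355) (nat_lit 268))))) (XT.nd (nat_lit 234) (nat_lit 1140) (nat_lit 0) (XT.nd (nat_lit 78) (nat_lit 380) (nat_lit 0) (XT.lf (nat_lit 0) (nat_lit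 2154084826) (nat_lit 456) (nat_lit 2485647900) (nat_lit 76) (nat_lit 8634117309) (nat_lit 156) (nat_lit 5) (nat_lit 162) (nat_lit 5) (nat_lit 157) (nat_lit 5) (nat_lit 398) (nat_lit 355) (nat_lit 267)) (XT.nd (nat_lit 78) (nat_lit 0) (nat_lit 0) (XT.lf (nat_lit 0) (nat_lit 4946520882) (nat_lit 456) (nat_lit 8129234000) (nat_lit 76) (nat_lit 426603099) (nat_lit 151) (nat_lit 5) (nat_lit 157) (nat_lit 5) (nat_lit 152) (nat_lit 5) (nat_lit 399) (nat_lit 355) (nat_lit 266)) (XT.lf (nat_lit 0) (nat_lit 7872151735) (nat_lit 456) (nat_lit 293860113) (nat_lit 76) (nat_lit 5570233445) (nat_lit 151) (nat_lit 5) (nat_lit 157) (nat_lit 5) (nat_lit 152) (nat_lit 5) (nat_lit 400) (nat_lit 355) (nat_lit 265)))) (XT.nd (nat_lit 156) (nat_lit 380) (nat_lit 0) (XT.nd (nat_lit 78) (nat_lit 380) (nat_lit 0) (XT.lf (nat_lit 0) (nat_lit 7902313658) (nat_lit 380) (nat_lit 3037971652) (nat_lit 456) (nat_lit 3035228481) (nat_lit 146)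 (nat_lit 5) (nat_lit 151) (nat_lit 5) (nat_lit 152) (nat_lit 5) (nat_lit 401) (nat_lit 355) (nat_lit 264)) (XT.lf (nat_lit 0) (nat_lit 2119538301) (nat_lit 380) (nat_lit 12004914590) (nat_lit 456) (nat_lit 96794144) (nat_lit 141) (nat_lit 5) (nat_lit 146) (nat_lit 5) (nat_lit 147) (nat_lit 5) (nat_lit 402) (nat_lit 355) (nat_lit 263))) (XT.nd (nat_lit 78) (nat_lit 304) (nat_lit 0) (XT.lf (nat_lit 0) (nat_lit 2943811428) (nat_lit 456) (nat_lit 3877694120) (nat_lit 76) (nat_lit 7649872192) (nat_lit 140) (nat_lit 5) (nat_lit 146) (nat_lit 5) (nat_lit 141) (nat_lit 5) (nat_lit 403) (nat_lit 355) (nat_lit 262)) (XT.lf (nat_lit 0) (nat_lit 4654871110) (nat_lit 304) (nat_lit 1443346081) (nat_lit 380) (nat_lit 8630036446) (nat_lit 136) (nat_lit 5) (nat_lit 140) (nat_lit 5) (nat_lit 141) (nat_lit 5) (nat_lit 404) (nat_lit 355) (nat_lit 261)))))) (XT.nd (nat_lit 546) (nat_lit 1216) (nat_lit 0) (XT.nd (nat_lit 234) (nat_lit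 608) (nat_lit 0) (XT.nd (nat_lit 78) (nat_lit 760) (nat_lit 0) (XT.lf (nat_lit 0) (nat_lit 9406202975) (nat_lit 380) (nat_lit 1536818035) (nat_lit 76) (nat_lit 4048052045) (nat_lit 136) (nat_lit 5) (nat_lit 141) (nat_lit 5) (nat_lit 137) (nat_lit 5) (nat_lit 405) (nat_lit 355) (nat_lit 260)) (XT.nd (nat_lit 78) (nat_lit 380) (nat_lit 0) (XT.lf (nat_lit 0) (nat_lit 7357654667) (nat_lit 380) (nat_lit 5521400464) (nat_lit 456) (nat_lit 2380758632) (nat_lit 131) (nat_lit 5) (nat_lit 136) (nat_lit 5) (nat_lit 137) (nat_lit 5) (nat_lit 406) (nat_lit 355) (nat_lit 259)) (XT.lf (nat_lit 0) (nat_lit 908372989) (nat_lit 380) (nat_lit 14539851350) (nat_lit 76) (nat_lit 87927216) (nat_lit 126) (nat_lit 5) (nat_lit 131) (nat_lit 5) (nat_lit 127) (nat_lit 5) (nat_lit 407) (nat_lit 355) (nat_lit 258)))) (XT.nd (nat_lit 156) (nat_lit 304) (nat_lit 0) (XT.nd (nat_lit 78) (nat_lit 304) (nat_lit 0) (XT.lf (nat_lit 0) (nat_lit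 4364519167) (nat_lit 380) (nat_lit 5601530983) (nat_lit 76) (nat_lit 5850541476) (nat_lit 126) (nat_lit 5) (nat_lit 131) (nat_lit 5) (nat_lit 127) (nat_lit 5) (nat_lit 408) (nat_lit 355) (nat_lit 257)) (XT.lf (nat_lit 0) (nat_lit 3649141123) (nat_lit 304) (nat_lit 4291779387) (nat_lit 380) (nat_lit 8164032163) (nat_lit 122) (nat_lit 5) (nat_lit 126) (nat_lit 5) (nat_lit 127) (nat_lit 5) (nat_lit 409) (nat_lit 355) (nat_lit 256))) (XT.nd (nat_lit 78) (nat_lit 304) (nat_lit 0) (XT.lf (nat_lit 0) (nat_lit 11678357237) (nat_lit 380) (nat_lit 3150804704) (nat_lit 76) (nat_lit 1571195065) (nat_lit 122) (nat_lit 5) (nat_lit 127) (nat_lit 5) (nat_lit 123) (nat_lit 5) (nat_lit 410) (nat_lit 355) (nat_lit 255)) (XT.lf (nat_lit 0) (nat_lit 6491106249) (nat_lit 304) (nat_lit 9123926505) (nat_lit 380) (nat_lit 1086981860) (nat_lit 118) (nat_lit 5) (nat_lit 122) (nat_lit 5) (nat_lit 123) (nat_lit 5) (nat_lit 411) (nat_lit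 355) (nat_lit 254))))) (XT.nd (nat_lit 312) (nat_lit 608) (nat_lit 0) (XT.nd (nat_lit 156) (nat_lit 228) (nat_lit 0) (XT.nd (nat_lit 78) (nat_lit 304) (nat_lit 0) (XT.lf (nat_lit 0) (nat_lit 2619684051) (nat_lit 380) (nat_lit 577276481) (nat_lit 76) (nat_lit 13814566119) (nat_lit 117) (nat_lit 5) (nat_lit 122) (nat_lit 5) (nat_lit 118) (nat_lit 5) (nat_lit 412) (nat_lit 355) (nat_lit 253)) (XT.lf (nat_lit 0) (nat_lit 6518675370) (nat_lit 380) (nat_lit 7862538459) (nat_lit 76) (nat_lit 2945702399) (nat_lit 113) (nat_lit 5) (nat_lit 118) (nat_lit 5) (nat_lit 114) (nat_lit 5) (nat_lit 413) (nat_lit 355) (nat_lit 252))) (XT.nd (nat_lit 78) (nat_lit 0) (nat_lit 0) (XT.lf (nat_lit 0) (nat_lit 2151882979) (nat_lit 228) (nat_lit 8423981375) (nat_lit 304) (nat_lit 7074670401) (nat_lit 110) (nat_lit 5) (nat_lit 113) (nat_lit 5) (nat_lit 114) (nat_lit 5) (nat_lit 414) (nat_lit 355) (nat_lit 251)) (XT.lf (nat_lit 0) (nat_lit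 12602245652) (nat_lit 228) (nat_lit 2215170495) (nat_lit 304) (nat_lit 3164570260) (nat_lit 110) (nat_lit 5) (nat_lit 113) (nat_lit 5) (nat_lit 114) (nat_lit 5) (nat_lit 415) (nat_lit 355) (nat_lit 250)))) (XT.nd (nat_lit 156) (nat_lit 228) (nat_lit 0) (XT.nd (nat_lit 78) (nat_lit 0) (nat_lit 0) (XT.lf (nat_lit 0) (nat_lit 919342965) (nat_lit 380) (nat_lit 13253931916) (nat_lit 76) (nat_lit 4147661246) (nat_lit 105) (nat_lit 5) (nat_lit 110) (nat_lit 5) (nat_lit 106) (nat_lit 5) (nat_lit 416) (nat_lit 355) (nat_lit 249)) (XT.lf (nat_lit 0) (nat_lit 5122691283) (nat_lit 380) (nat_lit 2810202166) (nat_lit 76) (nat_lit 10734408888) (nat_lit 105) (nat_lit 5) (nat_lit 110) (nat_lit 5) (nat_lit 106) (nat_lit 5) (nat_lit 417) (nat_lit 355) (nat_lit 248))) (XT.nd (nat_lit 78) (nat_lit 0) (nat_lit 0) (XT.lf (nat_lit 0) (nat_lit 8079840357) (nat_lit 228) (nat_lit 1434169365) (nat_lit 304) (nat_lit 9508197262) (nat_lit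 102) (nat_lit 5) (nat_lit 105) (nat_lit 5) (nat_lit 106) (nat_lit 5) (nat_lit 418) (nat_lit 355) (nat_lit 247)) (XT.lf (nat_lit 0) (nat_lit 14100625502) (nat_lit 304) (nat_lit 108365189) (nat_lit 76) (nat_lit 5176864779) (nat_lit 102) (nat_lit 5) (nat_lit 106) (nat_lit 5) (nat_lit 103) (nat_lit 5) (nat_lit 419) (nat_lit 355) (nat_lit 246))))))))
noncomputable def xc139 : XT := (XT.nd (nat_lit 2184) (nat_lit 1900) (nat_lit 0) (XT.nd (nat_lit 1092) (nat_lit 1596) (nat_lit 0) (XT.nd (nat_lit 546) (nat_lit 836) (nat_lit 0) (XT.nd (nat_lit 234) (nat_lit 532) (nat_lit 0) (XT.nd (nat_lit 78) (nat_lit 304) (nat_lit 0) (XT.lf (nat_lit 0) (nat_lit 11231537314) (nat_lit 228) (nat_lit 7700264215) (nat_lit 304) (nat_lit 825406364) (nat_lit 99) (nat_lit 5) (nat_lit 102) (nat_lit 5) (nat_lit 103) (nat_lit 5) (nat_lit 420) (nat_lit 355) (nat_lit 245)) (XT.nd (nat_lit 78) (nat_lit 0) (nat_lit 0) (XT.lf (nat_lit 0) (nat_lit 2767811647)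 (nat_lit 228) (nat_lit 939439531) (nat_lit 304) (nat_lit 16430989065) (nat_lit 95) (nat_lit 5) (nat_lit 98) (nat_lit 5) (nat_lit 99) (nat_lit 5) (nat_lit 421) (nat_lit 355) (nat_lit 244)) (XT.lf (nat_lit 0) (nat_lit 8489136207) (nat_lit 304) (nat_lit 6044470740) (nat_lit 76) (nat_lit 5992959368) (nat_lit 95) (nat_lit 5) (nat_lit 99) (nat_lit 5) (nat_lit 96) (nat_lit 5) (nat_lit 422) (nat_lit 355) (nat_lit 243)))) (XT.nd (nat_lit 156) (nat_lit 304) (nat_lit 0) (XT.nd (nat_lit 78) (nat_lit 0) (nat_lit 0) (XT.lf (nat_lit 0) (nat_lit 5699608583) (nat_lit 228) (nat_lit 7764380323) (nat_lit 304) (nat_lit 7461070895) (nat_lit 92) (nat_lit 5) (nat_lit 95) (nat_lit 5) (nat_lit 96) (nat_lit 5) (nat_lit 423) (nat_lit 355) (nat_lit 242)) (XT.lf (nat_lit 0) (nat_lit 17896571368) (nat_lit 228) (nat_lit 738174944) (nat_lit 304) (nat_lit 2699364882) (nat_lit 92) (nat_lit 5) (nat_lit 95) (nat_lit 5) (nat_lit 96) (nat_lit 5)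 (nat_lit 424) (nat_lit 355) (nat_lit 241))) (XT.nd (nat_lit 78) (nat_lit 0) (nat_lit 0) (XT.lf (nat_lit 0) (nat_lit 2296397371) (nat_lit 304) (nat_lit 12983901461) (nat_lit 76) (nat_lit 6470474988) (nat_lit 88) (nat_lit 5) (nat_lit 92) (nat_lit 5) (nat_lit 89) (nat_lit 5) (nat_lit 425) (nat_lit 355) (nat_lit 240)) (XT.lf (nat_lit 0) (nat_lit 7416149875) (nat_lit 304) (nat_lit 828448778) (nat_lit 76) (nat_lit 13933687356) (nat_lit 88) (nat_lit 5) (nat_lit 92) (nat_lit 5) (nat_lit 89) (nat_lit 5) (nat_lit 426) (nat_lit 355) (nat_lit 239))))) (XT.nd (nat_lit 234) (nat_lit 380) (nat_lit 0) (XT.nd (nat_lit 78) (nat_lit 228) (nat_lit 0) (XT.lf (nat_lit 0) (nat_lit 11901522456) (nat_lit 228) (nat_lit 888791952) (nat_lit 304) (nat_lit 9825287127) (nat_lit 85) (nat_lit 5) (nat_lit 88) (nat_lit 5) (nat_lit 89) (nat_lit 5) (nat_lit 427) (nat_lit 355) (nat_lit 238)) (XT.nd (nat_lit 78) (nat_lit 76) (nat_lit 0) (XT.lf (nat_lit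 0) (nat_lit 1915103811) (nat_lit 152) (nat_lit 16488257003) (nat_lit 228) (nat_lit 4660348486) (nat_lit 83) (nat_lit 5) (nat_lit 85) (nat_lit 5) (nat_lit 86) (nat_lit 5) (nat_lit 428) (nat_lit 355) (nat_lit 237)) (XT.lf (nat_lit 0) (nat_lit 751288403) (nat_lit 228) (nat_lit 8417972099) (nat_lit 76) (nat_lit 14352673336) (nat_lit 82) (nat_lit 5) (nat_lit 85) (nat_lit 5) (nat_lit 83) (nat_lit 5) (nat_lit 429) (nat_lit 355) (nat_lit 236)))) (XT.nd (nat_lit 156) (nat_lit 152) (nat_lit 0) (XT.nd (nat_lit 78) (nat_lit 0) (nat_lit 0) (XT.lf (nat_lit 0) (nat_lit 4718635377) (nat_lit 228) (nat_lit 1545278311) (nat_lit 304) (nat_lit 17727640205) (nat_lit 79) (nat_lit 5) (nat_lit 82) (nat_lit 5) (nat_lit 83) (nat_lit 5) (nat_lit 430) (nat_lit 355) (nat_lit 235)) (XT.lf (nat_lit 0) (nat_lit 12075431844) (nat_lit 304) (nat_lit 6134253605) (nat_lit 76) (nat_lit 6261573880) (nat_lit 79) (nat_lit 5) (nat_lit 83) (nat_lit 5)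 (nat_lit 80) (nat_lit 5) (nat_lit 431) (nat_lit 355) (nat_lit 234))) (XT.nd (nat_lit 78) (nat_lit 0) (nat_lit 0) (XT.lf (nat_lit 0) (nat_lit 7508458425) (nat_lit 152) (nat_lit 10627727028) (nat_lit 228) (nat_lit 6826925919) (nat_lit 77) (nat_lit 5) (nat_lit 79) (nat_lit 5) (nat_lit 80) (nat_lit 5) (nat_lit 432) (nat_lit 355) (nat_lit 233)) (XT.lf (nat_lit 0) (nat_lit 21665077010) (nat_lit 152) (nat_lit 2763206370) (nat_lit 228) (nat_lit 1039952023) (nat_lit 77) (nat_lit 5) (nat_lit 79) (nat_lit 5) (nat_lit 80) (nat_lit 5) (nat_lit 433) (nat_lit 355) (nat_lit 232)))))) (XT.nd (nat_lit 546) (nat_lit 760) (nat_lit 0) (XT.nd (nat_lit 234) (nat_lit 380) (nat_lit 0) (XT.nd (nat_lit 78) (nat_lit 152) (nat_lit 0) (XT.lf (nat_lit 0) (nat_lit 4965010329) (nat_lit 304) (nat_lit 15644516260) (nat_lit 76) (nat_lit 5373357567) (nat_lit 73) (nat_lit 5) (nat_lit 77) (nat_lit 5) (nat_lit 74) (nat_lit 5) (nat_lit 434) (nat_lit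 355) (nat_lit 231)) (XT.nd (nat_lit 78) (nat_lit 152) (nat_lit 0) (XT.lf (nat_lit 0) (nat_lit 11183256290) (nat_lit 304) (nat_lit 1588582020) (nat_lit 76) (nat_lit 13739205964) (nat_lit 73) (nat_lit 5) (nat_lit 77) (nat_lit 5) (nat_lit 74) (nat_lit 5) (nat_lit 435) (nat_lit 355) (nat_lit 230)) (XT.lf (nat_lit 0) (nat_lit 13124923912) (nat_lit 152) (nat_lit 4577536710) (nat_lit 228) (nat_lit 9349158092) (nat_lit 71) (nat_lit 5) (nat_lit 73) (nat_lit 5) (nat_lit 74) (nat_lit 5) (nat_lit 436) (nat_lit 355) (nat_lit 229)))) (XT.nd (nat_lit 156) (nat_lit 152) (nat_lit 0) (XT.nd (nat_lit 78) (nat_lit 76) (nat_lit 0) (XT.lf (nat_lit 0) (nat_lit 659764581) (nat_lit 152) (nat_lit 23805463713) (nat_lit 228) (nat_lit 3141744268) (nat_lit 69) (nat_lit 5) (nat_lit 71) (nat_lit 5) (nat_lit 72) (nat_lit 5) (nat_lit 437) (nat_lit 355) (nat_lit 228)) (XT.lf (nat_lit 0) (nat_lit 3364129093) (nat_lit 228) (nat_lit 12303766736)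 (nat_lit 76) (nat_lit 12504884314) (nat_lit 68) (nat_lit 5) (nat_lit 71) (nat_lit 5) (nat_lit 69) (nat_lit 5) (nat_lit 438) (nat_lit 355) (nat_lit 227))) (XT.nd (nat_lit 78) (nat_lit 0) (nat_lit 0) (XT.lf (nat_lit 0) (nat_lit 2782432376) (nat_lit 152) (nat_lit 7235032593) (nat_lit 228) (nat_lit 18736702465) (nat_lit 66) (nat_lit 5) (nat_lit 68) (nat_lit 5) (nat_lit 69) (nat_lit 5) (nat_lit 439) (nat_lit 355) (nat_lit 226)) (XT.lf (nat_lit 0) (nat_lit 16998568194) (nat_lit 228) (nat_lit 10810809802) (nat_lit 76) (nat_lit 1539774921) (nat_lit 66) (nat_lit 5) (nat_lit 69) (nat_lit 5) (nat_lit 67) (nat_lit 5) (nat_lit 440) (nat_lit 355) (nat_lit 225))))) (XT.nd (nat_lit 234) (nat_lit 380) (nat_lit 0) (XT.nd (nat_lit 78) (nat_lit 228) (nat_lit 0) (XT.lf (nat_lit 0) (nat_lit 4807908328) (nat_lit 152) (nat_lit 19488121564) (nat_lit 228) (nat_lit 5662751857) (nat_lit 64) (nat_lit 5) (nat_lit 66) (nat_lit 5) (nat_lit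 67) (nat_lit 5) (nat_lit 441) (nat_lit 355) (nat_lit 224)) (XT.nd (nat_lit 78) (nat_lit 152) (nat_lit 0) (XT.lf (nat_lit 0) (nat_lit 1301148504) (nat_lit 228) (nat_lit 9498739029) (nat_lit 76) (nat_lit 19783479381) (nat_lit 63) (nat_lit 5) (nat_lit 66) (nat_lit 5) (nat_lit 64) (nat_lit 5) (nat_lit 442) (nat_lit 355) (nat_lit 223)) (XT.lf (nat_lit 0) (nat_lit 6678524889) (nat_lit 152) (nat_lit 1735242565) (nat_lit 228) (nat_lit 22809633072) (nat_lit 61) (nat_lit 5) (nat_lit 63) (nat_lit 5) (nat_lit 64) (nat_lit 5) (nat_lit 443) (nat_lit 355) (nat_lit 222)))) (XT.nd (nat_lit 156) (nat_lit 228) (nat_lit 0) (XT.nd (nat_lit 78) (nat_lit 152) (nat_lit 0) (XT.lf (nat_lit 0) (nat_lit 15899174109) (nat_lit 228) (nat_lit 8436698409) (nat_lit 76) (nat_lit 7541981728) (nat_lit 61) (nat_lit 5) (nat_lit 64) (nat_lit 5) (nat_lit 62) (nat_lit 5) (nat_lit 444) (nat_lit 355) (nat_lit 221)) (XT.lf (nat_lit 0) (nat_lit 8280936403)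 (nat_lit 152) (nat_lit 15414767303) (nat_lit 228) (nat_lit 8853642383) (nat_lit 59) (nat_lit 5) (nat_lit 61) (nat_lit 5) (nat_lit 62) (nat_lit 5) (nat_lit 445) (nat_lit 355) (nat_lit 220))) (XT.nd (nat_lit 78) (nat_lit 228) (nat_lit 0) (XT.lf (nat_lit 0) (nat_lit 25655024712) (nat_lit 152) (nat_lit 6146201783) (nat_lit 228) (nat_lit 1437504569) (nat_lit 59) (nat_lit 5) (nat_lit 61) (nat_lit 5) (nat_lit 62) (nat_lit 5) (nat_lit 446) (nat_lit 355) (nat_lit 219)) (XT.lf (nat_lit 0) (nat_lit 6197711803) (nat_lit 228) (nat_lit 24264845943) (nat_lit 76) (nat_lit 3480924778) (nat_lit 56) (nat_lit 5) (nat_lit 59) (nat_lit 5) (nat_lit 57) (nat_lit 5) (nat_lit 447) (nat_lit 355) (nat_lit 218))))))) (XT.nd (nat_lit 1092) (nat_lit 836) (nat_lit 0) (XT.nd (nat_lit 546) (nat_lit 608) (nat_lit 0) (XT.nd (nat_lit 234) (nat_lit 304) (nat_lit 0) (XT.nd (nat_lit 78) (nat_lit 152) (nat_lit 0) (XT.lf (nat_lit 0) (nat_lit 14161429085)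 (nat_lit 228) (nat_lit 7146354978) (nat_lit 76) (nat_lit 13357316563) (nat_lit 56) (nat_lit 5) (nat_lit 59) (nat_lit 5) (nat_lit 57) (nat_lit 5) (nat_lit 448) (nat_lit 355) (nat_lit 217)) (XT.nd (nat_lit 78) (nat_lit 0) (nat_lit 0) (XT.lf (nat_lit 0) (nat_lit 10676810648) (nat_lit 152) (nat_lit 11780310890) (nat_lit 228) (nat_lit 12948454974) (nat_lit 54) (nat_lit 5) (nat_lit 56) (nat_lit 5) (nat_lit 57) (nat_lit 5) (nat_lit 449) (nat_lit 355) (nat_lit 216)) (XT.lf (nat_lit 0) (nat_lit 29164110269) (nat_lit 152) (nat_lit 1900285042) (nat_lit 228) (nat_lit 5101991165) (nat_lit 54) (nat_lit 5) (nat_lit 56) (nat_lit 5) (nat_lit 57) (nat_lit 5) (nat_lit 450) (nat_lit 355) (nat_lit 215)))) (XT.nd (nat_lit 156) (nat_lit 152) (nat_lit 0) (XT.nd (nat_lit 78) (nat_lit 0) (nat_lit 0) (XT.lf (nat_lit 0) (nat_lit 3103211766) (nat_lit 152) (nat_lit 25593264528) (nat_lit 76) (nat_lit 8247241373) (nat_lit 52) (nat_lit 5) (nat_lit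 54) (nat_lit 5) (nat_lit 53) (nat_lit 5) (nat_lit 451) (nat_lit 355) (nat_lit 214)) (XT.lf (nat_lit 0) (nat_lit 11533018973) (nat_lit 152) (nat_lit 7431756323) (nat_lit 76) (nat_lit 18775649284) (nat_lit 52) (nat_lit 5) (nat_lit 54) (nat_lit 5) (nat_lit 53) (nat_lit 5) (nat_lit 452) (nat_lit 355) (nat_lit 213))) (XT.nd (nat_lit 78) (nat_lit 0) (nat_lit 0) (XT.lf (nat_lit 0) (nat_lit 11482364851) (nat_lit 152) (nat_lit 8834769025) (nat_lit 228) (nat_lit 18240857412) (nat_lit 50) (nat_lit 5) (nat_lit 52) (nat_lit 5) (nat_lit 53) (nat_lit 5) (nat_lit 453) (nat_lit 355) (nat_lit 212)) (XT.lf (nat_lit 0) (nat_lit 29447007242) (nat_lit 228) (nat_lit 8314026655) (nat_lit 76) (nat_lit 1636585014) (nat_lit 50) (nat_lit 5) (nat_lit 53) (nat_lit 5) (nat_lit 51) (nat_lit 4) (nat_lit 454) (nat_lit 355) (nat_lit 211))))) (XT.nd (nat_lit 234) (nat_lit 304) (nat_lit 0) (XT.nd (nat_lit 78) (nat_lit 228) (nat_lit 0) (XT.lf (nat_lit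 0) (nat_lit 11124164857) (nat_lit 76) (nat_lit 27912351101) (nat_lit 152) (nat_lit 1220348164) (nat_lit 49) (nat_lit 5) (nat_lit 50) (nat_lit 5) (nat_lit 51) (nat_lit 4) (nat_lit 455) (nat_lit 355) (nat_lit 210)) (XT.nd (nat_lit 78) (nat_lit 152) (nat_lit 0) (XT.lf (nat_lit 0) (nat_lit 7696303301) (nat_lit 152) (nat_lit 9914848698) (nat_lit 76) (nat_lit 23526210259) (nat_lit 48) (nat_lit 5) (nat_lit 50) (nat_lit 5) (nat_lit 49) (nat_lit 5) (nat_lit 456) (nat_lit 355) (nat_lit 209)) (XT.lf (nat_lit 0) (nat_lit 10048118632) (nat_lit 152) (nat_lit 6895998215) (nat_lit 228) (nat_lit 25097151157) (nat_lit 46) (nat_lit 5) (nat_lit 48) (nat_lit 5) (nat_lit 49) (nat_lit 5) (nat_lit 457) (nat_lit 355) (nat_lit 208)))) (XT.nd (nat_lit 156) (nat_lit 228) (nat_lit 0) (XT.nd (nat_lit 78) (nat_lit 76) (nat_lit 0) (XT.lf (nat_lit 0) (nat_lit 26601911387) (nat_lit 228) (nat_lit 12212303956) (nat_lit 76) (nat_lit 4154100013)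 (nat_lit 46) (nat_lit 5) (nat_lit 49) (nat_lit 5) (nat_lit 47) (nat_lit 4) (nat_lit 458) (nat_lit 355) (nat_lit 207)) (XT.lf (nat_lit 0) (nat_lit 8239478366) (nat_lit 76) (nat_lit 28449317907) (nat_lit 152) (nat_lit 7230197967) (nat_lit 45) (nat_lit 5) (nat_lit 46) (nat_lit 5) (nat_lit 47) (nat_lit 4) (nat_lit 459) (nat_lit 355) (nat_lit 206))) (XT.nd (nat_lit 78) (nat_lit 152) (nat_lit 0) (XT.lf (nat_lit 0) (nat_lit 2253984065) (nat_lit 152) (nat_lit 15376525175) (nat_lit 76) (nat_lit 27263563379) (nat_lit 44) (nat_lit 5) (nat_lit 46) (nat_lit 5) (nat_lit 45) (nat_lit 5) (nat_lit 460) (nat_lit 355) (nat_lit 205)) (XT.lf (nat_lit 0) (nat_lit 5557851646) (nat_lit 152) (nat_lit 6365071799) (nat_lit 228) (nat_lit 33971966509) (nat_lit 42) (nat_lit 5) (nat_lit 44) (nat_lit 5) (nat_lit 45) (nat_lit 5) (nat_lit 461) (nat_lit 355) (nat_lit 204)))))) (XT.nd (nat_lit 546) (nat_lit 456) (nat_lit 0) (XT.nd (nat_lit 234)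 (nat_lit 304) (nat_lit 0) (XT.nd (nat_lit 78) (nat_lit 76) (nat_lit 0) (XT.lf (nat_lit 0) (nat_lit 22081248134) (nat_lit 228) (nat_lit 19552100198) (nat_lit 76) (nat_lit 5286404680) (nat_lit 42) (nat_lit 5) (nat_lit 45) (nat_lit 5) (nat_lit 43) (nat_lit 4) (nat_lit 462) (nat_lit 355) (nat_lit 203)) (XT.nd (nat_lit 78) (nat_lit 0) (nat_lit 0) (XT.lf (nat_lit 0) (nat_lit 1814601494) (nat_lit 76) (nat_lit 30802566192) (nat_lit 152) (nat_lit 15356009618) (nat_lit 41) (nat_lit 5) (nat_lit 42) (nat_lit 5) (nat_lit 43) (nat_lit 4) (nat_lit 463) (nat_lit 355) (nat_lit 202)) (XT.lf (nat_lit 0) (nat_lit 24209068622) (nat_lit 76) (nat_lit 19450002617) (nat_lit 152) (nat_lit 5393436569) (nat_lit 41) (nat_lit 5) (nat_lit 42) (nat_lit 5) (nat_lit 43) (nat_lit 4) (nat_lit 464) (nat_lit 355) (nat_lit 201)))) (XT.nd (nat_lit 156) (nat_lit 76) (nat_lit 0) (XT.nd (nat_lit 78) (nat_lit 152) (nat_lit 0) (XT.lf (nat_lit 0) (nat_lit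 4765636051) (nat_lit 152) (nat_lit 2949416137) (nat_lit 76) (nat_lit 42447984401) (nat_lit 40) (nat_lit 5) (nat_lit 42) (nat_lit 5) (nat_lit 41) (nat_lit 5) (nat_lit 465) (nat_lit 355) (nat_lit 200)) (XT.lf (nat_lit 0) (nat_lit 15349815430) (nat_lit 228) (nat_lit 31420707581) (nat_lit 76) (nat_lit 4527894711) (nat_lit 38) (nat_lit 5) (nat_lit 41) (nat_lit 5) (nat_lit 39) (nat_lit 4) (nat_lit 466) (nat_lit 355) (nat_lit 199))) (XT.nd (nat_lit 78) (nat_lit 76) (nat_lit 0) (XT.lf (nat_lit 0) (nat_lit 26350837426) (nat_lit 228) (nat_lit 9106933174) (nat_lit 76) (nat_lit 17007110772) (nat_lit 38) (nat_lit 5) (nat_lit 41) (nat_lit 5) (nat_lit 39) (nat_lit 4) (nat_lit 467) (nat_lit 355) (nat_lit 198)) (XT.lf (nat_lit 0) (nat_lit 14139155269) (nat_lit 76) (nat_lit 23671709580) (nat_lit 152) (nat_lit 15851605422) (nat_lit 37) (nat_lit 5) (nat_lit 38) (nat_lit 5) (nat_lit 39) (nat_lit 4) (nat_lit 468) (nat_lit 355) (nat_lit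 197))))) (XT.nd (nat_lit 312) (nat_lit 228) (nat_lit 0) (XT.nd (nat_lit 156) (nat_lit 0) (nat_lit 0) (XT.nd (nat_lit 78) (nat_lit 228) (nat_lit 0) (XT.lf (nat_lit 0) (nat_lit 38256432025) (nat_lit 76) (nat_lit 11443362129) (nat_lit 152) (nat_lit 5193640217) (nat_lit 37) (nat_lit 5) (nat_lit 38) (nat_lit 5) (nat_lit 39) (nat_lit 4) (nat_lit 469) (nat_lit 355) (nat_lit 196)) (XT.lf (nat_lit 0) (nat_lit 5744030765) (nat_lit 228) (nat_lit 49165731552) (nat_lit 76) (nat_lit 1247712571) (nat_lit 34) (nat_lit 5) (nat_lit 37) (nat_lit 5) (nat_lit 35) (nat_lit 4) (nat_lit 470) (nat_lit 355) (nat_lit 195))) (XT.nd (nat_lit 78) (nat_lit 0) (nat_lit 0) (XT.lf (nat_lit 0) (nat_lit 17181701515) (nat_lit 228) (nat_lit 25963045880) (nat_lit 76) (nat_lit 14304859377) (nat_lit 34) (nat_lit 5) (nat_lit 37) (nat_lit 5) (nat_lit 35) (nat_lit 4) (nat_lit 471) (nat_lit 355) (nat_lit 194)) (XT.lf (nat_lit 0) (nat_lit 28955989349) (nat_lit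 228) (nat_lit 2076567742) (nat_lit 76) (nat_lit 27748141415) (nat_lit 34) (nat_lit 5) (nat_lit 37) (nat_lit 5) (nat_lit 35) (nat_lit 4) (nat_lit 472) (nat_lit 355) (nat_lit 193)))) (XT.nd (nat_lit 156) (nat_lit 152) (nat_lit 0) (XT.nd (nat_lit 78) (nat_lit 0) (nat_lit 0) (XT.lf (nat_lit 0) (nat_lit 22962658720) (nat_lit 76) (nat_lit 18335254883) (nat_lit 152) (nat_lit 18847377646) (nat_lit 33) (nat_lit 5) (nat_lit 34) (nat_lit 5) (nat_lit 35) (nat_lit 4) (nat_lit 473) (nat_lit 355) (nat_lit 192)) (XT.lf (nat_lit 0) (nat_lit 48783816343) (nat_lit 76) (nat_lit 5240995784) (nat_lit 152) (nat_lit 7525568623) (nat_lit 33) (nat_lit 5) (nat_lit 34) (nat_lit 5) (nat_lit 35) (nat_lit 4) (nat_lit 474) (nat_lit 355) (nat_lit 191))) (XT.nd (nat_lit 78) (nat_lit 0) (nat_lit 0) (XT.lf (nat_lit 0) (nat_lit 4250750442) (nat_lit 152) (nat_lit 50497751249) (nat_lit 76) (nat_lit 8242062130) (nat_lit 31) (nat_lit 5) (nat_lit 33)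 (nat_lit 5) (nat_lit 32) (nat_lit 4) (nat_lit 475) (nat_lit 355) (nat_lit 190)) (XT.lf (nat_lit 0) (nat_lit 16405072360) (nat_lit 152) (nat_lit 25837698242) (nat_lit 76) (nat_lit 22223667807) (nat_lit 31) (nat_lit 5) (nat_lit 33) (nat_lit 5) (nat_lit 32) (nat_lit 4) (nat_lit 476) (nat_lit 355) (nat_lit 189))))))))
noncomputable def xc140 : XT := (XT.nd (nat_lit 45006) (nat_lit 0) (nat_lit 9196) (XT.nd (nat_lit 43914) (nat_lit 0) (nat_lit 19684) (XT.nd (nat_lit 546) (nat_lit 152) (nat_lit 0) (XT.nd (nat_lit 234) (nat_lit 228) (nat_lit 0) (XT.nd (nat_lit 78) (nat_lit 76) (nat_lit 0) (XT.lf (nat_lit 0) (nat_lit 28918087074) (nat_lit 152) (nat_lit 449113796) (nat_lit 76) (nat_lit 36619566892) (nat_lit 31) (nat_lit 5) (nat_lit 33) (nat_lit 5) (nat_lit 32) (nat_lit 4) (nat_lit 477) (nat_lit 355) (nat_lit 188)) (XT.nd (nat_lit 78) (nat_lit 0) (nat_lit 0) (XT.lf (nat_lit 0) (nat_lit 26201471370) (nat_lit 76) (nat_lit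 15851121487) (nat_lit 152) (nat_lit 25492731526) (nat_lit 30) (nat_lit 5) (nat_lit 31) (nat_lit 5) (nat_lit 32) (nat_lit 4) (nat_lit 478) (nat_lit 355) (nat_lit 187)) (XT.lf (nat_lit 0) (nat_lit 53649945864) (nat_lit 76) (nat_lit 1930022910) (nat_lit 152) (nat_lit 13570704279) (nat_lit 30) (nat_lit 5) (nat_lit 31) (nat_lit 5) (nat_lit 32) (nat_lit 4) (nat_lit 479) (nat_lit 355) (nat_lit 186)))) (XT.nd (nat_lit 156) (nat_lit 76) (nat_lit 0) (XT.nd (nat_lit 78) (nat_lit 76) (nat_lit 0) (XT.lf (nat_lit 0) (nat_lit 11206453031) (nat_lit 76) (nat_lit 58528134216) (nat_lit 76) (nat_lit 1062952684) (nat_lit 29) (nat_lit 4) (nat_lit 30) (nat_lit 5) (nat_lit 30) (nat_lit 4) (nat_lit 480) (nat_lit 355) (nat_lit 185)) (XT.lf (nat_lit 0) (nat_lit 11760990135) (nat_lit 152) (nat_lit 33601443504) (nat_lit 76) (nat_lit 27122822594) (nat_lit 28) (nat_lit 5) (nat_lit 30) (nat_lit 5) (nat_lit 29) (nat_lit 4) (nat_lit 481) (nat_lit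 355) (nat_lit 184))) (XT.nd (nat_lit 78) (nat_lit 76) (nat_lit 0) (XT.lf (nat_lit 0) (nat_lit 24942873549) (nat_lit 152) (nat_lit 6852969639) (nat_lit 76) (nat_lit 42427607864) (nat_lit 28) (nat_lit 5) (nat_lit 30) (nat_lit 5) (nat_lit 29) (nat_lit 4) (nat_lit 482) (nat_lit 355) (nat_lit 183)) (XT.lf (nat_lit 0) (nat_lit 21099655169) (nat_lit 76) (nat_lit 17618125366) (nat_lit 152) (nat_lit 37290084511) (nat_lit 27) (nat_lit 5) (nat_lit 28) (nat_lit 5) (nat_lit 29) (nat_lit 4) (nat_lit 483) (nat_lit 355) (nat_lit 182))))) (XT.nd (nat_lit 234) (nat_lit 0) (nat_lit 0) (XT.nd (nat_lit 78) (nat_lit 152) (nat_lit 0) (XT.lf (nat_lit 0) (nat_lit 50021402707) (nat_lit 76) (nat_lit 2948535433) (nat_lit 152) (nat_lit 24873953549) (nat_lit 27) (nat_lit 5) (nat_lit 28) (nat_lit 5) (nat_lit 29) (nat_lit 4) (nat_lit 484) (nat_lit 355) (nat_lit 181)) (XT.nd (nat_lit 78) (nat_lit 152) (nat_lit 0) (XT.lf (nat_lit 0) (nat_lit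 67761469860) (nat_lit 152) (nat_lit 50850116) (nat_lit 0) (nat_lit 11919325198) (nat_lit 27) (nat_lit 5) (nat_lit 29) (nat_lit 4) (nat_lit 27) (nat_lit 4) (nat_lit 485) (nat_lit 355) (nat_lit 180)) (XT.lf (nat_lit 0) (nat_lit 1601764340) (nat_lit 152) (nat_lit 52599835633) (nat_lit 76) (nat_lit 27464846127) (nat_lit 25) (nat_lit 5) (nat_lit 27) (nat_lit 5) (nat_lit 26) (nat_lit 4) (nat_lit 486) (nat_lit 355) (nat_lit 179)))) (XT.nd (nat_lit 42978) (nat_lit 0) (nat_lit 22344) (XT.nd (nat_lit 42900) (nat_lit 0) (nat_lit 22344) (XT.lf (nat_lit 0) (nat_lit 15335854536) (nat_lit 152) (nat_lit 24728635041) (nat_lit 76) (nat_lit 43591378844) (nat_lit 25) (nat_lit 5) (nat_lit 27) (nat_lit 5) (nat_lit 26) (nat_lit 4) (nat_lit 487) (nat_lit 355) (nat_lit 178)) (XT.lf (nat_lit 0) (nat_lit 878950509) (nat_lit 0) (nat_lit 878950509) (nat_lit 836) (nat_lit 2009434042) (nat_lit 319) (nat_lit 5) (nat_lit 319) (nat_lit 3) (nat_lit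 330) (nat_lit 3) (nat_lit 356) (nat_lit 356) (nat_lit 308))) (XT.nd (nat_lit 78) (nat_lit 0) (nat_lit 0) (XT.lf (nat_lit 0) (nat_lit 4979921882) (nat_lit 836) (nat_lit 2119451146) (nat_lit 912) (nat_lit 505236352) (nat_lit 319) (nat_lit 5) (nat_lit 330) (nat_lit 3) (nat_lit 331) (nat_lit 5) (nat_lit 357) (nat_lit 356) (nat_lit 307)) (XT.lf (nat_lit 76) (nat_lit 1632656556) (nat_lit 0) (nat_lit 4833782619) (nat_lit 912) (nat_lit 1210882277) (nat_lit 320) (nat_lit 5) (nat_lit 319) (nat_lit 5) (nat_lit 331) (nat_lit 5) (nat_lit 358) (nat_lit 356) (nat_lit 306)))))) (XT.nd (nat_lit 546) (nat_lit 912) (nat_lit 0) (XT.nd (nat_lit 234) (nat_lit 836) (nat_lit 0) (XT.nd (nat_lit 78) (nat_lit 0) (nat_lit 76) (XT.lf (nat_lit 0) (nat_lit 208294710) (nat_lit 912) (nat_lit 2243563956) (nat_lit 988) (nat_lit 5301280317) (nat_lit 307) (nat_lit 5) (nat_lit 319) (nat_lit 5) (nat_lit 320) (nat_lit 5) (nat_lit 359) (nat_lit 356)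 (nat_lit 305)) (XT.nd (nat_lit 78) (nat_lit 0) (nat_lit 0) (XT.lf (nat_lit 0) (nat_lit 1609904819) (nat_lit 912) (nat_lit 6169788863) (nat_lit 988) (nat_lit 52278234) (nat_lit 308) (nat_lit 5) (nat_lit 320) (nat_lit 5) (nat_lit 321) (nat_lit 5) (nat_lit 360) (nat_lit 356) (nat_lit 304)) (XT.lf (nat_lit 0) (nat_lit 3049874804) (nat_lit 912) (nat_lit 2236694222) (nat_lit 988) (nat_lit 2626737100) (nat_lit 308) (nat_lit 5) (nat_lit 320) (nat_lit 5) (nat_lit 321) (nat_lit 5) (nat_lit 361) (nat_lit 356) (nat_lit 303)))) (XT.nd (nat_lit 156) (nat_lit 912) (nat_lit 0) (XT.nd (nat_lit 78) (nat_lit 0) (nat_lit 76) (XT.lf (nat_lit 76) (nat_lit 1820007929) (nat_lit 0) (nat_lit 2681167720) (nat_lit 988) (nat_lit 3496885650) (nat_lit 309) (nat_lit 5) (nat_lit 308) (nat_lit 5) (nat_lit 321) (nat_lit 5) (nat_lit 362) (nat_lit 356) (nat_lit 302)) (XT.lf (nat_lit 0) (nat_lit 5970817119) (nat_lit 912) (nat_lit 2071923400) (nat_lit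 988) (nat_lit 43398723) (nat_lit 309) (nat_lit 5) (nat_lit 321) (nat_lit 5) (nat_lit 322) (nat_lit 5) (nat_lit 363) (nat_lit 356) (nat_lit 301))) (XT.nd (nat_lit 78) (nat_lit 988) (nat_lit 0) (XT.lf (nat_lit 76) (nat_lit 2142302277) (nat_lit 0) (nat_lit 5342752578) (nat_lit 988) (nat_lit 691812918) (nat_lit 310) (nat_lit 5) (nat_lit 309) (nat_lit 5) (nat_lit 322) (nat_lit 5) (nat_lit 364) (nat_lit 356) (nat_lit 300)) (XT.lf (nat_lit 0) (nat_lit 734383330) (nat_lit 988) (nat_lit 1782901368) (nat_lit 1064) (nat_lit 5753579461) (nat_lit 296) (nat_lit 5) (nat_lit 309) (nat_lit 5) (nat_lit 310) (nat_lit 5) (nat_lit 365) (nat_lit 356) (nat_lit 299))))) (XT.nd (nat_lit 234) (nat_lit 988) (nat_lit 0) (XT.nd (nat_lit 78) (nat_lit 0) (nat_lit 0) (XT.lf (nat_lit 0) (nat_lit 2174091097) (nat_lit 988) (nat_lit 5762003072) (nat_lit 1064) (nat_lit 431863337) (nat_lit 297) (nat_lit 5) (nat_lit 310) (nat_lit 5) (nat_lit 311)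 (nat_lit 5) (nat_lit 366) (nat_lit 356) (nat_lit 298)) (XT.nd (nat_lit 78) (nat_lit 0) (nat_lit 0) (XT.lf (nat_lit 0) (nat_lit 3656549235) (nat_lit 988) (nat_lit 1360755891) (nat_lit 1064) (nat_lit 3450692598) (nat_lit 297) (nat_lit 5) (nat_lit 310) (nat_lit 5) (nat_lit 311) (nat_lit 5) (nat_lit 367) (nat_lit 356) (nat_lit 297)) (XT.lf (nat_lit 76) (nat_lit 3204720533) (nat_lit 0) (nat_lit 1967288129) (nat_lit 1064) (nat_lit 3399394897) (nat_lit 298) (nat_lit 5) (nat_lit 297) (nat_lit 5) (nat_lit 311) (nat_lit 5) (nat_lit 368) (nat_lit 356) (nat_lit 296)))) (XT.nd (nat_lit 156) (nat_lit 1064) (nat_lit 0) (XT.nd (nat_lit 78) (nat_lit 0) (nat_lit 0) (XT.lf (nat_lit 0) (nat_lit 6716869209) (nat_lit 988) (nat_lit 785281947) (nat_lit 1064) (nat_lit 1176261940) (nat_lit 298) (nat_lit 5) (nat_lit 311) (nat_lit 5) (nat_lit 312) (nat_lit 5) (nat_lit 369) (nat_lit 356) (nat_lit 295)) (XT.lf (nat_lit 76) (nat_lit 3960874417)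 (nat_lit 0) (nat_lit 4364727302) (nat_lit 1064) (nat_lit 462524491) (nat_lit 299) (nat_lit 5) (nat_lit 298) (nat_lit 5) (nat_lit 312) (nat_lit 5) (nat_lit 370) (nat_lit 356) (nat_lit 294))) (XT.nd (nat_lit 78) (nat_lit 0) (nat_lit 76) (XT.lf (nat_lit 0) (nat_lit 1028813937) (nat_lit 1064) (nat_lit 76859853) (nat_lit 1140) (nat_lit 7796109485) (nat_lit 284) (nat_lit 5) (nat_lit 298) (nat_lit 5) (nat_lit 299) (nat_lit 5) (nat_lit 371) (nat_lit 356) (nat_lit 293)) (XT.lf (nat_lit 0) (nat_lit 2586296586) (nat_lit 1064) (nat_lit 4164184523) (nat_lit 76) (nat_lit 2267328004) (nat_lit 285) (nat_lit 5) (nat_lit 299) (nat_lit 5) (nat_lit 286) (nat_lit 5) (nat_lit 372) (nat_lit 356) (nat_lit 292))))))) (XT.nd (nat_lit 1092) (nat_lit 4104) (nat_lit 0) (XT.nd (nat_lit 546) (nat_lit 2356) (nat_lit 0) (XT.nd (nat_lit 234) (nat_lit 1900) (nat_lit 0) (XT.nd (nat_lit 78) (nat_lit 1140) (nat_lit 0) (XT.lf (nat_lit 0) (nat_lit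 769337934) (nat_lit 1064) (nat_lit 3402794450) (nat_lit 1140) (nat_lit 4965751433) (nat_lit 271) (nat_lit 5) (nat_lit 285) (nat_lit 5) (nat_lit 286) (nat_lit 5) (nat_lit 373) (nat_lit 356) (nat_lit 291)) (XT.nd (nat_lit 78) (nat_lit 1140) (nat_lit 0) (XT.lf (nat_lit 0) (nat_lit 5811801920) (nat_lit 1140) (nat_lit 3356820618) (nat_lit 76) (nat_lit 92766916) (nat_lit 271) (nat_lit 5) (nat_lit 286) (nat_lit 5) (nat_lit 272) (nat_lit 5) (nat_lit 374) (nat_lit 356) (nat_lit 290)) (XT.lf (nat_lit 0) (nat_lit 1775238591) (nat_lit 1140) (nat_lit 5740602506) (nat_lit 1216) (nat_lit 1872319754) (nat_lit 256) (nat_lit 5) (nat_lit 271) (nat_lit 5) (nat_lit 272) (nat_lit 5) (nat_lit 375) (nat_lit 356) (nat_lit 289)))) (XT.nd (nat_lit 156) (nat_lit 608) (nat_lit 0) (XT.nd (nat_lit 78) (nat_lit 1292) (nat_lit 0) (XT.lf (nat_lit 0) (nat_lit 7099406642) (nat_lit 1140) (nat_lit 2170657390) (nat_lit 1216) (nat_lit 248714990) (nat_lit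 256) (nat_lit 5) (nat_lit 271) (nat_lit 5) (nat_lit 272) (nat_lit 5) (nat_lit 376) (nat_lit 356) (nat_lit 288)) (XT.lf (nat_lit 0) (nat_lit 1404872661) (nat_lit 1292) (nat_lit 6724760407) (nat_lit 76) (nat_lit 1523015126) (nat_lit 239) (nat_lit 5) (nat_lit 256) (nat_lit 5) (nat_lit 240) (nat_lit 5) (nat_lit 377) (nat_lit 356) (nat_lit 287))) (XT.nd (nat_lit 78) (nat_lit 608) (nat_lit 0) (XT.lf (nat_lit 0) (nat_lit 3115800687) (nat_lit 1292) (nat_lit 1360053193) (nat_lit 76) (nat_lit 5314237930) (nat_lit 239) (nat_lit 5) (nat_lit 256) (nat_lit 5) (nat_lit 240) (nat_lit 5) (nat_lit 378) (nat_lit 356) (nat_lit 286)) (XT.lf (nat_lit 0) (nat_lit 4217587669) (nat_lit 608) (nat_lit 668551892) (nat_lit 684) (nat_lit 5045290463) (nat_lit 231) (nat_lit 5) (nat_lit 239) (nat_lit 5) (nat_lit 240) (nat_lit 5) (nat_lit 379) (nat_lit 356) (nat_lit 285))))) (XT.nd (nat_lit 234) (nat_lit 1064) (nat_lit 0) (XT.nd (nat_lit 78)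 (nat_lit 1292) (nat_lit 0) (XT.lf (nat_lit 0) (nat_lit 6722943104) (nat_lit 684) (nat_lit 148559780) (nat_lit 76) (nat_lit 3205118245) (nat_lit 231) (nat_lit 5) (nat_lit 240) (nat_lit 5) (nat_lit 232) (nat_lit 5) (nat_lit 380) (nat_lit 356) (nat_lit 284)) (XT.nd (nat_lit 78) (nat_lit 684) (nat_lit 0) (XT.lf (nat_lit 0) (nat_lit 5657364873) (nat_lit 608) (nat_lit 2987628152) (nat_lit 684) (nat_lit 1580283664) (nat_lit 223) (nat_lit 5) (nat_lit 231) (nat_lit 5) (nat_lit 232) (nat_lit 5) (nat_lit 381) (nat_lit 356) (nat_lit 283)) (XT.lf (nat_lit 0) (nat_lit 234409553) (nat_lit 684) (nat_lit 9134905411) (nat_lit 76) (nat_lit 1009231060) (nat_lit 214) (nat_lit 5) (nat_lit 223) (nat_lit 5) (nat_lit 215) (nat_lit 5) (nat_lit 382) (nat_lit 356) (nat_lit 282)))) (XT.nd (nat_lit 156) (nat_lit 532) (nat_lit 0) (XT.nd (nat_lit 78) (nat_lit 532) (nat_lit 0) (XT.lf (nat_lit 0) (nat_lit 2117985965) (nat_lit 684) (nat_lit 3288564740)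 (nat_lit 76) (nat_lit 5128019092) (nat_lit 214) (nat_lit 5) (nat_lit 223) (nat_lit 5) (nat_lit 215) (nat_lit 5) (nat_lit 383) (nat_lit 356) (nat_lit 281)) (XT.lf (nat_lit 0) (nat_lit 2756836830) (nat_lit 532) (nat_lit 1298646256) (nat_lit 608) (nat_lit 6639880339) (nat_lit 207) (nat_lit 5) (nat_lit 214) (nat_lit 5) (nat_lit 215) (nat_lit 5) (nat_lit 384) (nat_lit 356) (nat_lit 280))) (XT.nd (nat_lit 78) (nat_lit 532) (nat_lit 0) (XT.lf (nat_lit 0) (nat_lit 6084291844) (nat_lit 608) (nat_lit 1868173813) (nat_lit 76) (nat_lit 2907530805) (nat_lit 207) (nat_lit 5) (nat_lit 215) (nat_lit 5) (nat_lit 208) (nat_lit 5) (nat_lit 385) (nat_lit 356) (nat_lit 279)) (XT.lf (nat_lit 0) (nat_lit 4428048292) (nat_lit 532) (nat_lit 3773631737) (nat_lit 608) (nat_lit 2827067885) (nat_lit 200) (nat_lit 5) (nat_lit 207) (nat_lit 5) (nat_lit 208) (nat_lit 5) (nat_lit 386) (nat_lit 356) (nat_lit 278)))))) (XT.nd (nat_lit 546) (nat_lit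 2052) (nat_lit 0) (XT.nd (nat_lit 234) (nat_lit 988) (nat_lit 0) (XT.nd (nat_lit 78) (nat_lit 1064) (nat_lit 0) (XT.lf (nat_lit 0) (nat_lit 10379535066) (nat_lit 608) (nat_lit 286132421) (nat_lit 76) (nat_lit 536996630) (nat_lit 200) (nat_lit 5) (nat_lit 208) (nat_lit 5) (nat_lit 201) (nat_lit 5) (nat_lit 387) (nat_lit 356) (nat_lit 277)) (XT.nd (nat_lit 78) (nat_lit 532) (nat_lit 0) (XT.lf (nat_lit 0) (nat_lit 1288661704) (nat_lit 532) (nat_lit 5118796291) (nat_lit 76) (nat_lit 4971833446) (nat_lit 193) (nat_lit 5) (nat_lit 200) (nat_lit 5) (nat_lit 194) (nat_lit 5) (nat_lit 388) (nat_lit 356) (nat_lit 276)) (XT.lf (nat_lit 0) (nat_lit 1438485477) (nat_lit 532) (nat_lit 1999330906) (nat_lit 608) (nat_lit 8123449745) (nat_lit 186) (nat_lit 5) (nat_lit 193) (nat_lit 5) (nat_lit 194) (nat_lit 5) (nat_lit 389) (nat_lit 356) (nat_lit 275)))) (XT.nd (nat_lit 156) (nat_lit 532) (nat_lit 0) (XT.nd (nat_lit 78) (nat_lit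 456) (nat_lit 0) (XT.lf (nat_lit 0) (nat_lit 5702327344) (nat_lit 608) (nat_lit 3504788116) (nat_lit 76) (nat_lit 2540067531) (nat_lit 186) (nat_lit 5) (nat_lit 194) (nat_lit 5) (nat_lit 187) (nat_lit 5) (nat_lit 390) (nat_lit 356) (nat_lit 274)) (XT.lf (nat_lit 0) (nat_lit 3327643394) (nat_lit 456) (nat_lit 4733916843) (nat_lit 532) (nat_lit 3876322634) (nat_lit 180) (nat_lit 5) (nat_lit 186) (nat_lit 5) (nat_lit 187) (nat_lit 5) (nat_lit 391) (nat_lit 356) (nat_lit 273))) (XT.nd (nat_lit 78) (nat_lit 532) (nat_lit 0) (XT.lf (nat_lit 0) (nat_lit 10407939481) (nat_lit 456) (nat_lit 94475757) (nat_lit 532) (nat_lit 1631572003) (nat_lit 180) (nat_lit 5) (nat_lit 186) (nat_lit 5) (nat_lit 187) (nat_lit 5) (nat_lit 392) (nat_lit 356) (nat_lit 272)) (XT.lf (nat_lit 0) (nat_lit 740981767) (nat_lit 532) (nat_lit 6944908184) (nat_lit 76) (nat_lit 4647684678) (nat_lit 173) (nat_lit 5) (nat_lit 180) (nat_lit 5) (nat_lit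 174) (nat_lit 5) (nat_lit 393) (nat_lit 356) (nat_lit 271))))) (XT.nd (nat_lit 312) (nat_lit 1216) (nat_lit 0) (XT.nd (nat_lit 156) (nat_lit 456) (nat_lit 0) (XT.nd (nat_lit 78) (nat_lit 0) (nat_lit 0) (XT.lf (nat_lit 0) (nat_lit 170656048) (nat_lit 380) (nat_lit 2977749589) (nat_lit 456) (nat_lit 9390372877) (nat_lit 168) (nat_lit 5) (nat_lit 173) (nat_lit 5) (nat_lit 174) (nat_lit 5) (nat_lit 394) (nat_lit 356) (nat_lit 270)) (XT.lf (nat_lit 0) (nat_lit 5693538121) (nat_lit 456) (nat_lit 5154028585) (nat_lit 76) (nat_lit 1900615092) (nat_lit 168) (nat_lit 5) (nat_lit 174) (nat_lit 5) (nat_lit 169) (nat_lit 5) (nat_lit 395) (nat_lit 356) (nat_lit 269))) (XT.nd (nat_lit 78) (nat_lit 0) (nat_lit 0) (XT.lf (nat_lit 0) (nat_lit 2262653767) (nat_lit 456) (nat_lit 6080953284) (nat_lit 532) (nat_lit 4619410285) (nat_lit 162) (nat_lit 5) (nat_lit 168) (nat_lit 5) (nat_lit 169) (nat_lit 5) (nat_lit 396) (nat_lit 356)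 (nat_lit 268)) (XT.lf (nat_lit 0) (nat_lit 9979264375) (nat_lit 456) (nat_lit 1123697450) (nat_lit 532) (nat_lit 2080450009) (nat_lit 162) (nat_lit 5) (nat_lit 168) (nat_lit 5) (nat_lit 169) (nat_lit 5) (nat_lit 397) (nat_lit 356) (nat_lit 267)))) (XT.nd (nat_lit 156) (nat_lit 760) (nat_lit 0) (XT.nd (nat_lit 78) (nat_lit 0) (nat_lit 0) (XT.lf (nat_lit 0) (nat_lit 585080055) (nat_lit 456) (nat_lit 8875104533) (nat_lit 76) (nat_lit 3948261338) (nat_lit 156) (nat_lit 5) (nat_lit 162) (nat_lit 5) (nat_lit 157) (nat_lit 5) (nat_lit 398) (nat_lit 356) (nat_lit 266)) (XT.lf (nat_lit 0) (nat_lit 3311040476) (nat_lit 456) (nat_lit 1130831353) (nat_lit 76) (nat_lit 9197079651) (nat_lit 156) (nat_lit 5) (nat_lit 162) (nat_lit 5) (nat_lit 157) (nat_lit 5) (nat_lit 399) (nat_lit 356) (nat_lit 265))) (XT.nd (nat_lit 78) (nat_lit 380) (nat_lit 0) (XT.lf (nat_lit 0) (nat_lit 6172319809) (nat_lit 456) (nat_lit 6928461190) (nat_lit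 76) (nat_lit 773991580) (nat_lit 151) (nat_lit 5) (nat_lit 157) (nat_lit 5) (nat_lit 152) (nat_lit 5) (nat_lit 400) (nat_lit 356) (nat_lit 264)) (XT.lf (nat_lit 0) (nat_lit 1121786835) (nat_lit 380) (nat_lit 8043335375) (nat_lit 456) (nat_lit 4951181951) (nat_lit 146) (nat_lit 5) (nat_lit 151) (nat_lit 5) (nat_lit 152) (nat_lit 5) (nat_lit 401) (nat_lit 356) (nat_lit 263))))))))
noncomputable def xc141 : XT := (XT.nd (nat_lit 2184) (nat_lit 2812) (nat_lit 0) (XT.nd (nat_lit 1092) (nat_lit 2052) (nat_lit 0) (XT.nd (nat_lit 546) (nat_lit 1216) (nat_lit 0) (XT.nd (nat_lit 234) (nat_lit 1064) (nat_lit 0) (XT.nd (nat_lit 78) (nat_lit 456) (nat_lit 0) (XT.lf (nat_lit 0) (nat_lit 9528205006) (nat_lit 380) (nat_lit 2769195013) (nat_lit 456) (nat_lit 2066197135) (nat_lit 146) (nat_lit 5) (nat_lit 151) (nat_lit 5) (nat_lit 152) (nat_lit 5) (nat_lit 402) (nat_lit 356) (nat_lit 262)) (XT.nd (nat_lit 78) (nat_lit 0) (nat_lit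 0) (XT.lf (nat_lit 0) (nat_lit 928384622) (nat_lit 456) (nat_lit 11040426137) (nat_lit 76) (nat_lit 2648021533) (nat_lit 140) (nat_lit 5) (nat_lit 146) (nat_lit 5) (nat_lit 141) (nat_lit 5) (nat_lit 403) (nat_lit 356) (nat_lit 261)) (XT.lf (nat_lit 0) (nat_lit 4028375406) (nat_lit 456) (nat_lit 2612106980) (nat_lit 76) (nat_lit 8234861049) (nat_lit 140) (nat_lit 5) (nat_lit 146) (nat_lit 5) (nat_lit 141) (nat_lit 5) (nat_lit 404) (nat_lit 356) (nat_lit 260)))) (XT.nd (nat_lit 156) (nat_lit 760) (nat_lit 0) (XT.nd (nat_lit 78) (nat_lit 0) (nat_lit 0) (XT.lf (nat_lit 0) (nat_lit 6162886992) (nat_lit 304) (nat_lit 1098662978) (nat_lit 380) (nat_lit 7878859934) (nat_lit 136) (nat_lit 5) (nat_lit 140) (nat_lit 5) (nat_lit 141) (nat_lit 5) (nat_lit 405) (nat_lit 356) (nat_lit 259)) (XT.lf (nat_lit 0) (nat_lit 10643841294) (nat_lit 380) (nat_lit 229202619) (nat_lit 76) (nat_lit 4538826160) (nat_lit 136) (nat_lit 5)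 (nat_lit 141) (nat_lit 5) (nat_lit 137) (nat_lit 5) (nat_lit 406) (nat_lit 356) (nat_lit 258))) (XT.nd (nat_lit 78) (nat_lit 380) (nat_lit 0) (XT.lf (nat_lit 0) (nat_lit 8918832500) (nat_lit 380) (nat_lit 5287103017) (nat_lit 456) (nat_lit 1483193700) (nat_lit 131) (nat_lit 5) (nat_lit 136) (nat_lit 5) (nat_lit 137) (nat_lit 5) (nat_lit 407) (nat_lit 356) (nat_lit 257)) (XT.lf (nat_lit 0) (nat_lit 1874922671) (nat_lit 380) (nat_lit 13605404926) (nat_lit 76) (nat_lit 493480992) (nat_lit 126) (nat_lit 5) (nat_lit 131) (nat_lit 5) (nat_lit 127) (nat_lit 5) (nat_lit 408) (nat_lit 356) (nat_lit 256))))) (XT.nd (nat_lit 234) (nat_lit 912) (nat_lit 0) (XT.nd (nat_lit 78) (nat_lit 304) (nat_lit 0) (XT.lf (nat_lit 0) (nat_lit 5407395026) (nat_lit 380) (nat_lit 4438856559) (nat_lit 76) (nat_lit 6417238262) (nat_lit 126) (nat_lit 5) (nat_lit 131) (nat_lit 5) (nat_lit 127) (nat_lit 5) (nat_lit 409) (nat_lit 356) (nat_lit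 255)) (XT.nd (nat_lit 78) (nat_lit 0) (nat_lit 0) (XT.lf (nat_lit 0) (nat_lit 5076289432) (nat_lit 304) (nat_lit 4000903899) (nat_lit 380) (nat_lit 7483732276) (nat_lit 122) (nat_lit 5) (nat_lit 126) (nat_lit 5) (nat_lit 127) (nat_lit 5) (nat_lit 410) (nat_lit 356) (nat_lit 254)) (XT.lf (nat_lit 0) (nat_lit 12904512746) (nat_lit 380) (nat_lit 1943565745) (nat_lit 76) (nat_lit 2017787615) (nat_lit 122) (nat_lit 5) (nat_lit 127) (nat_lit 5) (nat_lit 123) (nat_lit 5) (nat_lit 411) (nat_lit 356) (nat_lit 253)))) (XT.nd (nat_lit 156) (nat_lit 228) (nat_lit 0) (XT.nd (nat_lit 78) (nat_lit 380) (nat_lit 0) (XT.lf (nat_lit 0) (nat_lit 7974840153) (nat_lit 304) (nat_lit 8971330162) (nat_lit 380) (nat_lit 230803300) (nat_lit 118) (nat_lit 5) (nat_lit 122) (nat_lit 5) (nat_lit 123) (nat_lit 5) (nat_lit 412) (nat_lit 356) (nat_lit 252)) (XT.lf (nat_lit 0) (nat_lit 687320804) (nat_lit 304) (nat_lit 2863623396) (nat_lit 380)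 (nat_lit 13945139998) (nat_lit 113) (nat_lit 5) (nat_lit 117) (nat_lit 5) (nat_lit 118) (nat_lit 5) (nat_lit 413) (nat_lit 356) (nat_lit 251))) (XT.nd (nat_lit 78) (nat_lit 228) (nat_lit 0) (XT.lf (nat_lit 0) (nat_lit 7551791824) (nat_lit 380) (nat_lit 6821202550) (nat_lit 76) (nat_lit 3448400554) (nat_lit 113) (nat_lit 5) (nat_lit 118) (nat_lit 5) (nat_lit 114) (nat_lit 5) (nat_lit 414) (nat_lit 356) (nat_lit 250)) (XT.lf (nat_lit 0) (nat_lit 3481129844) (nat_lit 228) (nat_lit 8237328771) (nat_lit 304) (nat_lit 6436636419) (nat_lit 110) (nat_lit 5) (nat_lit 113) (nat_lit 5) (nat_lit 114) (nat_lit 5) (nat_lit 415) (nat_lit 356) (nat_lit 249)))))) (XT.nd (nat_lit 546) (nat_lit 912) (nat_lit 0) (XT.nd (nat_lit 234) (nat_lit 760) (nat_lit 0) (XT.nd (nat_lit 78) (nat_lit 380) (nat_lit 0) (XT.lf (nat_lit 0) (nat_lit 14208167755) (nat_lit 228) (nat_lit 1855050808) (nat_lit 304) (nat_lit 2433998538) (nat_lit 110) (nat_lit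 5) (nat_lit 113) (nat_lit 5) (nat_lit 114) (nat_lit 5) (nat_lit 416) (nat_lit 356) (nat_lit 248)) (XT.nd (nat_lit 78) (nat_lit 0) (nat_lit 0) (XT.lf (nat_lit 0) (nat_lit 1748765530) (nat_lit 380) (nat_lit 12399664071) (nat_lit 76) (nat_lit 4697899777) (nat_lit 105) (nat_lit 5) (nat_lit 110) (nat_lit 5) (nat_lit 106) (nat_lit 5) (nat_lit 417) (nat_lit 356) (nat_lit 247)) (XT.lf (nat_lit 0) (nat_lit 6054859669) (nat_lit 380) (nat_lit 1679085123) (nat_lit 76) (nat_lit 11469847653) (nat_lit 105) (nat_lit 5) (nat_lit 110) (nat_lit 5) (nat_lit 106) (nat_lit 5) (nat_lit 418) (nat_lit 356) (nat_lit 246)))) (XT.nd (nat_lit 156) (nat_lit 304) (nat_lit 0) (XT.nd (nat_lit 78) (nat_lit 228) (nat_lit 0) (XT.lf (nat_lit 0) (nat_lit 9525742764) (nat_lit 228) (nat_lit 1041069347) (nat_lit 304) (nat_lit 9002870364) (nat_lit 102) (nat_lit 5) (nat_lit 105) (nat_lit 5) (nat_lit 106) (nat_lit 5) (nat_lit 419) (nat_lit 356) (nat_lit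 245)) (XT.lf (nat_lit 0) (nat_lit 1096682739) (nat_lit 228) (nat_lit 14186604871) (nat_lit 304) (nat_lit 4661189898) (nat_lit 99) (nat_lit 5) (nat_lit 102) (nat_lit 5) (nat_lit 103) (nat_lit 5) (nat_lit 420) (nat_lit 356) (nat_lit 244))) (XT.nd (nat_lit 78) (nat_lit 304) (nat_lit 0) (XT.lf (nat_lit 0) (nat_lit 12743745826) (nat_lit 228) (nat_lit 7494589961) (nat_lit 304) (nat_lit 89271396) (nat_lit 99) (nat_lit 5) (nat_lit 102) (nat_lit 5) (nat_lit 103) (nat_lit 5) (nat_lit 421) (nat_lit 356) (nat_lit 243)) (XT.lf (nat_lit 0) (nat_lit 4029441861) (nat_lit 228) (nat_lit 524675960) (nat_lit 304) (nat_lit 16166049774) (nat_lit 95) (nat_lit 5) (nat_lit 98) (nat_lit 5) (nat_lit 99) (nat_lit 5) (nat_lit 422) (nat_lit 356) (nat_lit 242))))) (XT.nd (nat_lit 234) (nat_lit 684) (nat_lit 0) (XT.nd (nat_lit 78) (nat_lit 228) (nat_lit 0) (XT.lf (nat_lit 0) (nat_lit 9462166587) (nat_lit 304) (nat_lit 5064098218) (nat_lit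 76) (nat_lit 6594401810) (nat_lit 95) (nat_lit 5) (nat_lit 99) (nat_lit 5) (nat_lit 96) (nat_lit 5) (nat_lit 423) (nat_lit 356) (nat_lit 241)) (XT.nd (nat_lit 78) (nat_lit 0) (nat_lit 0) (XT.lf (nat_lit 0) (nat_lit 7020914204) (nat_lit 228) (nat_lit 7555485218) (nat_lit 304) (nat_lit 6955015698) (nat_lit 92) (nat_lit 5) (nat_lit 95) (nat_lit 5) (nat_lit 96) (nat_lit 5) (nat_lit 424) (nat_lit 356) (nat_lit 240)) (XT.lf (nat_lit 0) (nat_lit 19550281484) (nat_lit 228) (nat_lit 331362411) (nat_lit 304) (nat_lit 2071717358) (nat_lit 92) (nat_lit 5) (nat_lit 95) (nat_lit 5) (nat_lit 96) (nat_lit 5) (nat_lit 425) (nat_lit 356) (nat_lit 239)))) (XT.nd (nat_lit 156) (nat_lit 152) (nat_lit 0) (XT.nd (nat_lit 78) (nat_lit 228) (nat_lit 0) (XT.lf (nat_lit 0) (nat_lit 3054791439) (nat_lit 304) (nat_lit 12237215873) (nat_lit 76) (nat_lit 7090474937) (nat_lit 88) (nat_lit 5) (nat_lit 92) (nat_lit 5) (nat_lit 89) (nat_lit 5)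 (nat_lit 426) (nat_lit 356) (nat_lit 238)) (XT.lf (nat_lit 0) (nat_lit 254778760) (nat_lit 228) (nat_lit 8055724260) (nat_lit 304) (nat_lit 14512849567) (nat_lit 85) (nat_lit 5) (nat_lit 88) (nat_lit 5) (nat_lit 89) (nat_lit 5) (nat_lit 427) (nat_lit 356) (nat_lit 237))) (XT.nd (nat_lit 78) (nat_lit 152) (nat_lit 0) (XT.lf (nat_lit 0) (nat_lit 13350862683) (nat_lit 228) (nat_lit 483582863) (nat_lit 304) (nat_lit 9439689109) (nat_lit 85) (nat_lit 5) (nat_lit 88) (nat_lit 5) (nat_lit 89) (nat_lit 5) (nat_lit 428) (nat_lit 356) (nat_lit 236)) (XT.lf (nat_lit 0) (nat_lit 3069771468) (nat_lit 152) (nat_lit 16541453902) (nat_lit 228) (nat_lit 4124603585) (nat_lit 83) (nat_lit 5) (nat_lit 85) (nat_lit 5) (nat_lit 86) (nat_lit 5) (nat_lit 429) (nat_lit 356) (nat_lit 235))))))) (XT.nd (nat_lit 1092) (nat_lit 1292) (nat_lit 0) (XT.nd (nat_lit 546) (nat_lit 760) (nat_lit 0) (XT.nd (nat_lit 234) (nat_lit 456) (nat_lit 0)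 (XT.nd (nat_lit 78) (nat_lit 228) (nat_lit 0) (XT.lf (nat_lit 0) (nat_lit 1416907480) (nat_lit 228) (nat_lit 7592343965) (nat_lit 76) (nat_lit 15198936098) (nat_lit 82) (nat_lit 5) (nat_lit 85) (nat_lit 5) (nat_lit 83) (nat_lit 5) (nat_lit 430) (nat_lit 356) (nat_lit 234)) (XT.nd (nat_lit 78) (nat_lit 0) (nat_lit 0) (XT.lf (nat_lit 0) (nat_lit 5927791467) (nat_lit 228) (nat_lit 1158651954) (nat_lit 304) (nat_lit 17605710079) (nat_lit 79) (nat_lit 5) (nat_lit 82) (nat_lit 5) (nat_lit 83) (nat_lit 5) (nat_lit 431) (nat_lit 356) (nat_lit 233)) (XT.lf (nat_lit 0) (nat_lit 13057864155) (nat_lit 304) (nat_lit 5267230801) (nat_lit 76) (nat_lit 6861591597) (nat_lit 79) (nat_lit 5) (nat_lit 83) (nat_lit 5) (nat_lit 80) (nat_lit 5) (nat_lit 432) (nat_lit 356) (nat_lit 232)))) (XT.nd (nat_lit 156) (nat_lit 304) (nat_lit 0) (XT.nd (nat_lit 78) (nat_lit 0) (nat_lit 0) (XT.lf (nat_lit 0) (nat_lit 8774458174) (nat_lit 152)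 (nat_lit 10517923300) (nat_lit 228) (nat_lit 6401157522) (nat_lit 77) (nat_lit 5) (nat_lit 79) (nat_lit 5) (nat_lit 80) (nat_lit 5) (nat_lit 433) (nat_lit 356) (nat_lit 231)) (XT.lf (nat_lit 0) (nat_lit 23325462327) (nat_lit 152) (nat_lit 2429951553) (nat_lit 228) (nat_lit 458940706) (nat_lit 77) (nat_lit 5) (nat_lit 79) (nat_lit 5) (nat_lit 80) (nat_lit 5) (nat_lit 434) (nat_lit 356) (nat_lit 230))) (XT.nd (nat_lit 78) (nat_lit 0) (nat_lit 0) (XT.lf (nat_lit 0) (nat_lit 5710509714) (nat_lit 304) (nat_lit 15087567702) (nat_lit 76) (nat_lit 5946303080) (nat_lit 73) (nat_lit 5) (nat_lit 77) (nat_lit 5) (nat_lit 74) (nat_lit 5) (nat_lit 435) (nat_lit 356) (nat_lit 229)) (XT.lf (nat_lit 0) (nat_lit 12097927838) (nat_lit 304) (nat_lit 639847203) (nat_lit 76) (nat_lit 14551134363) (nat_lit 73) (nat_lit 5) (nat_lit 77) (nat_lit 5) (nat_lit 74) (nat_lit 5) (nat_lit 436) (nat_lit 356) (nat_lit 228))))) (XT.nd (nat_lit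 234) (nat_lit 380) (nat_lit 0) (XT.nd (nat_lit 78) (nat_lit 228) (nat_lit 0) (XT.lf (nat_lit 0) (nat_lit 14505295356) (nat_lit 152) (nat_lit 4300027834) (nat_lit 228) (nat_lit 9040602090) (nat_lit 71) (nat_lit 5) (nat_lit 73) (nat_lit 5) (nat_lit 74) (nat_lit 5) (nat_lit 437) (nat_lit 356) (nat_lit 227)) (XT.nd (nat_lit 78) (nat_lit 76) (nat_lit 0) (XT.lf (nat_lit 0) (nat_lit 1669632867) (nat_lit 152) (nat_lit 24098075695) (nat_lit 228) (nat_lit 2650331714) (nat_lit 69) (nat_lit 5) (nat_lit 71) (nat_lit 5) (nat_lit 72) (nat_lit 5) (nat_lit 438) (nat_lit 356) (nat_lit 226)) (XT.lf (nat_lit 0) (nat_lit 4022564084) (nat_lit 228) (nat_lit 11700465134) (nat_lit 76) (nat_lit 13278128159) (nat_lit 68) (nat_lit 5) (nat_lit 71) (nat_lit 5) (nat_lit 69) (nat_lit 5) (nat_lit 439) (nat_lit 356) (nat_lit 225)))) (XT.nd (nat_lit 156) (nat_lit 228) (nat_lit 0) (XT.nd (nat_lit 78) (nat_lit 0) (nat_lit 0) (XT.lf (nat_lit 0)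 (nat_lit 3828786475) (nat_lit 152) (nat_lit 7039731175) (nat_lit 228) (nat_lit 18731680461) (nat_lit 66) (nat_lit 5) (nat_lit 68) (nat_lit 5) (nat_lit 69) (nat_lit 5) (nat_lit 440) (nat_lit 356) (nat_lit 224)) (XT.lf (nat_lit 0) (nat_lit 18046867488) (nat_lit 228) (nat_lit 10188035368) (nat_lit 76) (nat_lit 1978498183) (nat_lit 66) (nat_lit 5) (nat_lit 69) (nat_lit 5) (nat_lit 67) (nat_lit 5) (nat_lit 441) (nat_lit 356) (nat_lit 223))) (XT.nd (nat_lit 78) (nat_lit 76) (nat_lit 0) (XT.lf (nat_lit 0) (nat_lit 5889959024) (nat_lit 152) (nat_lit 19666628978) (nat_lit 228) (nat_lit 5284932905) (nat_lit 64) (nat_lit 5) (nat_lit 66) (nat_lit 5) (nat_lit 67) (nat_lit 5) (nat_lit 442) (nat_lit 356) (nat_lit 222)) (XT.lf (nat_lit 0) (nat_lit 1861555658) (nat_lit 228) (nat_lit 8862756638) (nat_lit 76) (nat_lit 20760844714) (nat_lit 63) (nat_lit 5) (nat_lit 66) (nat_lit 5) (nat_lit 64) (nat_lit 5) (nat_lit 443) (nat_lit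 356) (nat_lit 221)))))) (XT.nd (nat_lit 546) (nat_lit 608) (nat_lit 0) (XT.nd (nat_lit 234) (nat_lit 380) (nat_lit 0) (XT.nd (nat_lit 78) (nat_lit 152) (nat_lit 0) (XT.lf (nat_lit 0) (nat_lit 7790796329) (nat_lit 152) (nat_lit 1390337126) (nat_lit 228) (nat_lit 22963452797) (nat_lit 61) (nat_lit 5) (nat_lit 63) (nat_lit 5) (nat_lit 64) (nat_lit 5) (nat_lit 444) (nat_lit 356) (nat_lit 220)) (XT.nd (nat_lit 78) (nat_lit 152) (nat_lit 0) (XT.lf (nat_lit 0) (nat_lit 16879808386) (nat_lit 228) (nat_lit 7793084668) (nat_lit 76) (nat_lit 8146121320) (nat_lit 61) (nat_lit 5) (nat_lit 64) (nat_lit 5) (nat_lit 62) (nat_lit 5) (nat_lit 445) (nat_lit 356) (nat_lit 219)) (XT.lf (nat_lit 0) (nat_lit 9417287869) (nat_lit 152) (nat_lit 15486811584) (nat_lit 228) (nat_lit 8606737466) (nat_lit 59) (nat_lit 5) (nat_lit 61) (nat_lit 5) (nat_lit 62) (nat_lit 5) (nat_lit 446) (nat_lit 356) (nat_lit 218)))) (XT.nd (nat_lit 156) (nat_lit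 152) (nat_lit 0) (XT.nd (nat_lit 78) (nat_lit 228) (nat_lit 0) (XT.lf (nat_lit 0) (nat_lit 27286736981) (nat_lit 152) (nat_lit 5951559935) (nat_lit 228) (nat_lit 983043116) (nat_lit 59) (nat_lit 5) (nat_lit 61) (nat_lit 5) (nat_lit 62) (nat_lit 5) (nat_lit 447) (nat_lit 356) (nat_lit 217)) (XT.lf (nat_lit 0) (nat_lit 6869273917) (nat_lit 228) (nat_lit 24118655414) (nat_lit 76) (nat_lit 3959230346) (nat_lit 56) (nat_lit 5) (nat_lit 59) (nat_lit 5) (nat_lit 57) (nat_lit 5) (nat_lit 448) (nat_lit 356) (nat_lit 216))) (XT.nd (nat_lit 78) (nat_lit 152) (nat_lit 0) (XT.lf (nat_lit 0) (nat_lit 15057758133) (nat_lit 228) (nat_lit 6512069989) (nat_lit 76) (nat_lit 14121024239) (nat_lit 56) (nat_lit 5) (nat_lit 59) (nat_lit 5) (nat_lit 57) (nat_lit 5) (nat_lit 449) (nat_lit 356) (nat_lit 215)) (XT.lf (nat_lit 0) (nat_lit 11837470256) (nat_lit 152) (nat_lit 11759196506) (nat_lit 228) (nat_lit 12857047052) (nat_lit 54)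 (nat_lit 5) (nat_lit 56) (nat_lit 5) (nat_lit 57) (nat_lit 5) (nat_lit 450) (nat_lit 356) (nat_lit 214))))) (XT.nd (nat_lit 312) (nat_lit 304) (nat_lit 0) (XT.nd (nat_lit 156) (nat_lit 152) (nat_lit 0) (XT.nd (nat_lit 78) (nat_lit 152) (nat_lit 0) (XT.lf (nat_lit 0) (nat_lit 30854912498) (nat_lit 152) (nat_lit 1593678339) (nat_lit 228) (nat_lit 4789165879) (nat_lit 54) (nat_lit 5) (nat_lit 56) (nat_lit 5) (nat_lit 57) (nat_lit 5) (nat_lit 451) (nat_lit 356) (nat_lit 213)) (XT.lf (nat_lit 0) (nat_lit 3651164519) (nat_lit 152) (nat_lit 25534052660) (nat_lit 76) (nat_lit 8853115951) (nat_lit 52) (nat_lit 5) (nat_lit 54) (nat_lit 5) (nat_lit 53) (nat_lit 5) (nat_lit 452) (nat_lit 356) (nat_lit 212))) (XT.nd (nat_lit 78) (nat_lit 152) (nat_lit 0) (XT.lf (nat_lit 0) (nat_lit 12320617698) (nat_lit 152) (nat_lit 6851786873) (nat_lit 76) (nat_lit 19686935594) (nat_lit 52) (nat_lit 5) (nat_lit 54) (nat_lit 5) (nat_lit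 53) (nat_lit 5) (nat_lit 453) (nat_lit 356) (nat_lit 211)) (XT.lf (nat_lit 0) (nat_lit 12621886150) (nat_lit 152) (nat_lit 8741150035) (nat_lit 228) (nat_lit 18338555710) (nat_lit 50) (nat_lit 5) (nat_lit 52) (nat_lit 5) (nat_lit 53) (nat_lit 5) (nat_lit 454) (nat_lit 356) (nat_lit 210)))) (XT.nd (nat_lit 156) (nat_lit 228) (nat_lit 0) (XT.nd (nat_lit 78) (nat_lit 76) (nat_lit 0) (XT.lf (nat_lit 0) (nat_lit 30757442674) (nat_lit 228) (nat_lit 7782144729) (nat_lit 76) (nat_lit 2027103218) (nat_lit 50) (nat_lit 5) (nat_lit 53) (nat_lit 5) (nat_lit 51) (nat_lit 4) (nat_lit 455) (nat_lit 356) (nat_lit 209)) (XT.lf (nat_lit 0) (nat_lit 12231532697) (nat_lit 76) (nat_lit 28398103056) (nat_lit 152) (nat_lit 822228806) (nat_lit 49) (nat_lit 5) (nat_lit 50) (nat_lit 5) (nat_lit 51) (nat_lit 4) (nat_lit 456) (nat_lit 356) (nat_lit 208))) (XT.nd (nat_lit 78) (nat_lit 152) (nat_lit 0) (XT.lf (nat_lit 0) (nat_lit 8341024108)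 (nat_lit 152) (nat_lit 9452906302) (nat_lit 76) (nat_lit 24565095576) (nat_lit 48) (nat_lit 5) (nat_lit 50) (nat_lit 5) (nat_lit 49) (nat_lit 5) (nat_lit 457) (nat_lit 356) (nat_lit 207)) (XT.lf (nat_lit 0) (nat_lit 11101505069) (nat_lit 152) (nat_lit 6759941775) (nat_lit 228) (nat_lit 25428748045) (nat_lit 46) (nat_lit 5) (nat_lit 48) (nat_lit 5) (nat_lit 49) (nat_lit 5) (nat_lit 458) (nat_lit 356) (nat_lit 206))))))))
noncomputable def xc142 : XT := (XT.nd (nat_lit 2184) (nat_lit 76) (nat_lit 0) (XT.nd (nat_lit 1092) (nat_lit 608) (nat_lit 0) (XT.nd (nat_lit 546) (nat_lit 532) (nat_lit 0) (XT.nd (nat_lit 234) (nat_lit 228) (nat_lit 0) (XT.nd (nat_lit 78) (nat_lit 152) (nat_lit 0) (XT.lf (nat_lit 0) (nat_lit 27800262910) (nat_lit 228) (nat_lit 11839879367) (nat_lit 76) (nat_lit 4605173947) (nat_lit 46) (nat_lit 5) (nat_lit 49) (nat_lit 5) (nat_lit 47) (nat_lit 4) (nat_lit 459) (nat_lit 356) (nat_lit 205)) (XT.nd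 (nat_lit 78) (nat_lit 76) (nat_lit 0) (XT.lf (nat_lit 0) (nat_lit 9218213350) (nat_lit 76) (nat_lit 28966914052) (nat_lit 152) (nat_lit 7039528040) (nat_lit 45) (nat_lit 5) (nat_lit 46) (nat_lit 5) (nat_lit 47) (nat_lit 4) (nat_lit 460) (nat_lit 356) (nat_lit 204)) (XT.lf (nat_lit 0) (nat_lit 2709586687) (nat_lit 152) (nat_lit 15119819582) (nat_lit 76) (nat_lit 28399812645) (nat_lit 44) (nat_lit 5) (nat_lit 46) (nat_lit 5) (nat_lit 45) (nat_lit 5) (nat_lit 461) (nat_lit 356) (nat_lit 203)))) (XT.nd (nat_lit 156) (nat_lit 76) (nat_lit 0) (XT.nd (nat_lit 78) (nat_lit 0) (nat_lit 0) (XT.lf (nat_lit 0) (nat_lit 6435549315) (nat_lit 152) (nat_lit 6228578657) (nat_lit 228) (nat_lit 34596067844) (nat_lit 42) (nat_lit 5) (nat_lit 44) (nat_lit 5) (nat_lit 45) (nat_lit 5) (nat_lit 462) (nat_lit 356) (nat_lit 202)) (XT.lf (nat_lit 0) (nat_lit 23119087935) (nat_lit 228) (nat_lit 19440259950) (nat_lit 76) (nat_lit 5756701344)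 (nat_lit 42) (nat_lit 5) (nat_lit 45) (nat_lit 5) (nat_lit 43) (nat_lit 4) (nat_lit 463) (nat_lit 356) (nat_lit 201))) (XT.nd (nat_lit 78) (nat_lit 0) (nat_lit 0) (XT.lf (nat_lit 0) (nat_lit 2560595703) (nat_lit 76) (nat_lit 31406202982) (nat_lit 152) (nat_lit 15434407155) (nat_lit 41) (nat_lit 5) (nat_lit 42) (nat_lit 5) (nat_lit 43) (nat_lit 4) (nat_lit 464) (nat_lit 356) (nat_lit 200)) (XT.lf (nat_lit 0) (nat_lit 25606754432) (nat_lit 76) (nat_lit 19722395710) (nat_lit 152) (nat_lit 5184091364) (nat_lit 41) (nat_lit 5) (nat_lit 42) (nat_lit 5) (nat_lit 43) (nat_lit 4) (nat_lit 465) (nat_lit 356) (nat_lit 199))))) (XT.nd (nat_lit 234) (nat_lit 304) (nat_lit 0) (XT.nd (nat_lit 78) (nat_lit 152) (nat_lit 0) (XT.lf (nat_lit 0) (nat_lit 5261911796) (nat_lit 152) (nat_lit 2378978637) (nat_lit 76) (nat_lit 44016407577) (nat_lit 40) (nat_lit 5) (nat_lit 42) (nat_lit 5) (nat_lit 41) (nat_lit 5) (nat_lit 466) (nat_lit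 356) (nat_lit 198)) (XT.nd (nat_lit 78) (nat_lit 0) (nat_lit 0) (XT.lf (nat_lit 0) (nat_lit 16162512190) (nat_lit 228) (nat_lit 31703274867) (nat_lit 76) (nat_lit 4960987537) (nat_lit 38) (nat_lit 5) (nat_lit 41) (nat_lit 5) (nat_lit 39) (nat_lit 4) (nat_lit 467) (nat_lit 356) (nat_lit 197)) (XT.lf (nat_lit 0) (nat_lit 27483306526) (nat_lit 228) (nat_lit 8739312100) (nat_lit 76) (nat_lit 17805922140) (nat_lit 38) (nat_lit 5) (nat_lit 41) (nat_lit 5) (nat_lit 39) (nat_lit 4) (nat_lit 468) (nat_lit 356) (nat_lit 196)))) (XT.nd (nat_lit 156) (nat_lit 228) (nat_lit 0) (XT.nd (nat_lit 78) (nat_lit 0) (nat_lit 0) (XT.lf (nat_lit 0) (nat_lit 15197876358) (nat_lit 76) (nat_lit 24085398529) (nat_lit 152) (nat_lit 15978899078) (nat_lit 37) (nat_lit 5) (nat_lit 38) (nat_lit 5) (nat_lit 39) (nat_lit 4) (nat_lit 469) (nat_lit 356) (nat_lit 195)) (XT.lf (nat_lit 0) (nat_lit 40020189482) (nat_lit 76) (nat_lit 11498835480)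 (nat_lit 152) (nat_lit 5011338252) (nat_lit 37) (nat_lit 5) (nat_lit 38) (nat_lit 5) (nat_lit 39) (nat_lit 4) (nat_lit 470) (nat_lit 356) (nat_lit 194))) (XT.nd (nat_lit 78) (nat_lit 0) (nat_lit 0) (XT.lf (nat_lit 0) (nat_lit 6246912456) (nat_lit 228) (nat_lit 50017036784) (nat_lit 76) (nat_lit 1568307546) (nat_lit 34) (nat_lit 5) (nat_lit 37) (nat_lit 5) (nat_lit 35) (nat_lit 4) (nat_lit 471) (nat_lit 356) (nat_lit 193)) (XT.lf (nat_lit 0) (nat_lit 18018085345) (nat_lit 228) (nat_lit 26136435592) (nat_lit 76) (nat_lit 15008921273) (nat_lit 34) (nat_lit 5) (nat_lit 37) (nat_lit 5) (nat_lit 35) (nat_lit 4) (nat_lit 472) (nat_lit 356) (nat_lit 192)))))) (XT.nd (nat_lit 546) (nat_lit 304) (nat_lit 0) (XT.nd (nat_lit 234) (nat_lit 228) (nat_lit 0) (XT.nd (nat_lit 78) (nat_lit 76) (nat_lit 0) (XT.lf (nat_lit 0) (nat_lit 30136254258) (nat_lit 228) (nat_lit 1550999081) (nat_lit 76) (nat_lit 28847494507) (nat_lit 34)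 (nat_lit 5) (nat_lit 37) (nat_lit 5) (nat_lit 35) (nat_lit 4) (nat_lit 473) (nat_lit 356) (nat_lit 191)) (XT.nd (nat_lit 78) (nat_lit 0) (nat_lit 0) (XT.lf (nat_lit 0) (nat_lit 24233640786) (nat_lit 76) (nat_lit 18611315678) (nat_lit 152) (nat_lit 19095426999) (nat_lit 33) (nat_lit 5) (nat_lit 34) (nat_lit 5) (nat_lit 35) (nat_lit 4) (nat_lit 474) (nat_lit 356) (nat_lit 190)) (XT.lf (nat_lit 0) (nat_lit 50812478702) (nat_lit 76) (nat_lit 5132209297) (nat_lit 152) (nat_lit 7443207550) (nat_lit 33) (nat_lit 5) (nat_lit 34) (nat_lit 5) (nat_lit 35) (nat_lit 4) (nat_lit 475) (nat_lit 356) (nat_lit 189)))) (XT.nd (nat_lit 156) (nat_lit 76) (nat_lit 0) (XT.nd (nat_lit 78) (nat_lit 0) (nat_lit 0) (XT.lf (nat_lit 0) (nat_lit 4679590580) (nat_lit 152) (nat_lit 51440682016) (nat_lit 76) (nat_lit 8750947234) (nat_lit 31) (nat_lit 5) (nat_lit 33) (nat_lit 5) (nat_lit 32) (nat_lit 4) (nat_lit 476) (nat_lit 356) (nat_lit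 188)) (XT.lf (nat_lit 0) (nat_lit 17189765914) (nat_lit 152) (nat_lit 26057487665) (nat_lit 76) (nat_lit 23144380987) (nat_lit 31) (nat_lit 5) (nat_lit 33) (nat_lit 5) (nat_lit 32) (nat_lit 4) (nat_lit 477) (nat_lit 356) (nat_lit 187))) (XT.nd (nat_lit 78) (nat_lit 0) (nat_lit 0) (XT.lf (nat_lit 0) (nat_lit 78103397) (nat_lit 76) (nat_lit 29992297826) (nat_lit 152) (nat_lit 37887406275) (nat_lit 30) (nat_lit 5) (nat_lit 31) (nat_lit 5) (nat_lit 32) (nat_lit 4) (nat_lit 478) (nat_lit 356) (nat_lit 186)) (XT.lf (nat_lit 0) (nat_lit 27521396094) (nat_lit 76) (nat_lit 16073654847) (nat_lit 152) (nat_lit 25968187203) (nat_lit 30) (nat_lit 5) (nat_lit 31) (nat_lit 5) (nat_lit 32) (nat_lit 4) (nat_lit 479) (nat_lit 356) (nat_lit 185))))) (XT.nd (nat_lit 234) (nat_lit 152) (nat_lit 0) (XT.nd (nat_lit 78) (nat_lit 152) (nat_lit 0) (XT.lf (nat_lit 0) (nat_lit 55777774903) (nat_lit 76) (nat_lit 1742292253) (nat_lit 152)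 (nat_lit 13696926117) (nat_lit 30) (nat_lit 5) (nat_lit 31) (nat_lit 5) (nat_lit 32) (nat_lit 4) (nat_lit 480) (nat_lit 356) (nat_lit 184)) (XT.nd (nat_lit 78) (nat_lit 76) (nat_lit 0) (XT.lf (nat_lit 0) (nat_lit 12061677181) (nat_lit 76) (nat_lit 60036985929) (nat_lit 76) (nat_lit 814623431) (nat_lit 29) (nat_lit 4) (nat_lit 30) (nat_lit 5) (nat_lit 30) (nat_lit 4) (nat_lit 481) (nat_lit 356) (nat_lit 183)) (XT.lf (nat_lit 0) (nat_lit 12380567193) (nat_lit 152) (nat_lit 34100247468) (nat_lit 76) (nat_lit 28170979458) (nat_lit 28) (nat_lit 5) (nat_lit 30) (nat_lit 5) (nat_lit 29) (nat_lit 4) (nat_lit 482) (nat_lit 356) (nat_lit 182)))) (XT.nd (nat_lit 156) (nat_lit 76) (nat_lit 0) (XT.nd (nat_lit 78) (nat_lit 76) (nat_lit 0) (XT.lf (nat_lit 0) (nat_lit 25950137768) (nat_lit 152) (nat_lit 6564151601) (nat_lit 76) (nat_lit 43928079000) (nat_lit 28) (nat_lit 5) (nat_lit 30) (nat_lit 5) (nat_lit 29) (nat_lit 4)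 (nat_lit 483) (nat_lit 356) (nat_lit 181)) (XT.lf (nat_lit 0) (nat_lit 22222204823) (nat_lit 76) (nat_lit 17913250042) (nat_lit 152) (nat_lit 38144945521) (nat_lit 27) (nat_lit 5) (nat_lit 28) (nat_lit 5) (nat_lit 29) (nat_lit 4) (nat_lit 484) (nat_lit 356) (nat_lit 180))) (XT.nd (nat_lit 78) (nat_lit 76) (nat_lit 0) (XT.lf (nat_lit 0) (nat_lit 51997345758) (nat_lit 76) (nat_lit 2810371025) (nat_lit 152) (nat_lit 25364015335) (nat_lit 27) (nat_lit 5) (nat_lit 28) (nat_lit 5) (nat_lit 29) (nat_lit 4) (nat_lit 485) (nat_lit 356) (nat_lit 179)) (XT.lf (nat_lit 0) (nat_lit 422469125) (nat_lit 76) (nat_lit 69619458205) (nat_lit 76) (nat_lit 12074223354) (nat_lit 26) (nat_lit 4) (nat_lit 27) (nat_lit 5) (nat_lit 27) (nat_lit 4) (nat_lit 486) (nat_lit 356) (nat_lit 178))))))) (XT.nd (nat_lit 43992) (nat_lit 0) (nat_lit 14364) (XT.nd (nat_lit 43446) (nat_lit 0) (nat_lit 20520) (XT.nd (nat_lit 43134) (nat_lit 0) (nat_lit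 21432) (XT.nd (nat_lit 42978) (nat_lit 0) (nat_lit 21356) (XT.lf (nat_lit 0) (nat_lit 1893116983) (nat_lit 152) (nat_lit 53710947672) (nat_lit 76) (nat_lit 28505061280) (nat_lit 25) (nat_lit 5) (nat_lit 27) (nat_lit 5) (nat_lit 26) (nat_lit 4) (nat_lit 487) (nat_lit 356) (nat_lit 177)) (XT.nd (nat_lit 78) (nat_lit 988) (nat_lit 0) (XT.lf (nat_lit 0) (nat_lit 1601774051) (nat_lit 0) (nat_lit 1601774051) (nat_lit 836) (nat_lit 634287504) (nat_lit 319) (nat_lit 5) (nat_lit 319) (nat_lit 3) (nat_lit 330) (nat_lit 3) (nat_lit 357) (nat_lit 357) (nat_lit 306)) (XT.lf (nat_lit 0) (nat_lit 77025819) (nat_lit 988) (nat_lit 743785935) (nat_lit 988) (nat_lit 6929504163) (nat_lit 306) (nat_lit 3) (nat_lit 319) (nat_lit 3) (nat_lit 319) (nat_lit 5) (nat_lit 358) (nat_lit 357) (nat_lit 305)))) (XT.nd (nat_lit 156) (nat_lit 0) (nat_lit 0) (XT.nd (nat_lit 78) (nat_lit 0) (nat_lit 0) (XT.lf (nat_lit 0) (nat_lit 1431556134) (nat_lit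 912) (nat_lit 4726141052) (nat_lit 988) (nat_lit 1669330617) (nat_lit 307) (nat_lit 5) (nat_lit 319) (nat_lit 5) (nat_lit 320) (nat_lit 5) (nat_lit 359) (nat_lit 357) (nat_lit 304)) (XT.lf (nat_lit 0) (nat_lit 2791657479) (nat_lit 912) (nat_lit 866332177) (nat_lit 988) (nat_lit 4249128971) (nat_lit 307) (nat_lit 5) (nat_lit 319) (nat_lit 5) (nat_lit 320) (nat_lit 5) (nat_lit 360) (nat_lit 357) (nat_lit 303))) (XT.nd (nat_lit 78) (nat_lit 0) (nat_lit 76) (XT.lf (nat_lit 76) (nat_lit 3142968843) (nat_lit 0) (nat_lit 1030507224) (nat_lit 988) (nat_lit 3816733572) (nat_lit 308) (nat_lit 5) (nat_lit 307) (nat_lit 5) (nat_lit 320) (nat_lit 5) (nat_lit 361) (nat_lit 357) (nat_lit 302)) (XT.lf (nat_lit 0) (nat_lit 5573767395) (nat_lit 912) (nat_lit 830447866) (nat_lit 988) (nat_lit 1672291739) (nat_lit 308) (nat_lit 5) (nat_lit 320) (nat_lit 5) (nat_lit 321) (nat_lit 5) (nat_lit 362) (nat_lit 357) (nat_lit 301)))))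 (XT.nd (nat_lit 234) (nat_lit 0) (nat_lit 76) (XT.nd (nat_lit 78) (nat_lit 988) (nat_lit 0) (XT.lf (nat_lit 76) (nat_lit 3333510769) (nat_lit 0) (nat_lit 3678273866) (nat_lit 988) (nat_lit 1153760594) (nat_lit 309) (nat_lit 5) (nat_lit 308) (nat_lit 5) (nat_lit 321) (nat_lit 5) (nat_lit 363) (nat_lit 357) (nat_lit 300)) (XT.nd (nat_lit 78) (nat_lit 0) (nat_lit 76) (XT.lf (nat_lit 0) (nat_lit 193642687) (nat_lit 988) (nat_lit 648783540) (nat_lit 1064) (nat_lit 7415905902) (nat_lit 295) (nat_lit 5) (nat_lit 308) (nat_lit 5) (nat_lit 309) (nat_lit 5) (nat_lit 364) (nat_lit 357) (nat_lit 299)) (XT.lf (nat_lit 0) (nat_lit 1569800162) (nat_lit 988) (nat_lit 4681863512) (nat_lit 1064) (nat_lit 2101572083) (nat_lit 296) (nat_lit 5) (nat_lit 309) (nat_lit 5) (nat_lit 310) (nat_lit 5) (nat_lit 365) (nat_lit 357) (nat_lit 298)))) (XT.nd (nat_lit 156) (nat_lit 0) (nat_lit 76) (XT.nd (nat_lit 78) (nat_lit 0) (nat_lit 0)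 (XT.lf (nat_lit 0) (nat_lit 2958805814) (nat_lit 988) (nat_lit 353971597) (nat_lit 1064) (nat_lit 5139083025) (nat_lit 296) (nat_lit 5) (nat_lit 309) (nat_lit 5) (nat_lit 310) (nat_lit 5) (nat_lit 366) (nat_lit 357) (nat_lit 297)) (XT.lf (nat_lit 76) (nat_lit 4156508184) (nat_lit 0) (nat_lit 230798538) (nat_lit 1064) (nat_lit 4166222617) (nat_lit 297) (nat_lit 5) (nat_lit 296) (nat_lit 5) (nat_lit 310) (nat_lit 5) (nat_lit 367) (nat_lit 357) (nat_lit 296))) (XT.nd (nat_lit 78) (nat_lit 0) (nat_lit 0) (XT.lf (nat_lit 76) (nat_lit 95489222) (nat_lit 0) (nat_lit 5754950426) (nat_lit 1064) (nat_lit 2808075000) (nat_lit 298) (nat_lit 5) (nat_lit 297) (nat_lit 5) (nat_lit 311) (nat_lit 5) (nat_lit 368) (nat_lit 357) (nat_lit 295)) (XT.lf (nat_lit 76) (nat_lit 4781407734) (nat_lit 0) (nat_lit 2582591190) (nat_lit 1064) (nat_lit 1402473695) (nat_lit 298) (nat_lit 5) (nat_lit 297) (nat_lit 5) (nat_lit 311) (nat_lit 5)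 (nat_lit 369) (nat_lit 357) (nat_lit 294)))))) (XT.nd (nat_lit 546) (nat_lit 3192) (nat_lit 0) (XT.nd (nat_lit 234) (nat_lit 2128) (nat_lit 0) (XT.nd (nat_lit 78) (nat_lit 0) (nat_lit 0) (XT.lf (nat_lit 0) (nat_lit 18669278) (nat_lit 1064) (nat_lit 8170783124) (nat_lit 1140) (nat_lit 688994121) (nat_lit 284) (nat_lit 5) (nat_lit 298) (nat_lit 5) (nat_lit 299) (nat_lit 5) (nat_lit 370) (nat_lit 357) (nat_lit 293)) (XT.nd (nat_lit 78) (nat_lit 0) (nat_lit 0) (XT.lf (nat_lit 0) (nat_lit 1482063741) (nat_lit 1064) (nat_lit 3439666172) (nat_lit 1140) (nat_lit 4070816446) (nat_lit 284) (nat_lit 5) (nat_lit 298) (nat_lit 5) (nat_lit 299) (nat_lit 5) (nat_lit 371) (nat_lit 357) (nat_lit 292)) (XT.lf (nat_lit 76) (nat_lit 1432103860) (nat_lit 0) (nat_lit 1533736562) (nat_lit 1140) (nat_lit 6144951304) (nat_lit 285) (nat_lit 5) (nat_lit 284) (nat_lit 5) (nat_lit 299) (nat_lit 5) (nat_lit 372) (nat_lit 357) (nat_lit 291))))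 (XT.nd (nat_lit 156) (nat_lit 1140) (nat_lit 0) (XT.nd (nat_lit 78) (nat_lit 1064) (nat_lit 0) (XT.lf (nat_lit 0) (nat_lit 4511603870) (nat_lit 1064) (nat_lit 2760273499) (nat_lit 76) (nat_lit 1960199336) (nat_lit 285) (nat_lit 5) (nat_lit 299) (nat_lit 5) (nat_lit 286) (nat_lit 5) (nat_lit 373) (nat_lit 357) (nat_lit 290)) (XT.lf (nat_lit 0) (nat_lit 2306266038) (nat_lit 1064) (nat_lit 3799483695) (nat_lit 1140) (nat_lit 3251206190) (nat_lit 271) (nat_lit 5) (nat_lit 285) (nat_lit 5) (nat_lit 286) (nat_lit 5) (nat_lit 374) (nat_lit 357) (nat_lit 289))) (XT.nd (nat_lit 78) (nat_lit 1140) (nat_lit 0) (XT.lf (nat_lit 0) (nat_lit 7552426076) (nat_lit 1064) (nat_lit 188573116) (nat_lit 1140) (nat_lit 1744799459) (nat_lit 271) (nat_lit 5) (nat_lit 285) (nat_lit 5) (nat_lit 286) (nat_lit 5) (nat_lit 375) (nat_lit 357) (nat_lit 288)) (XT.lf (nat_lit 0) (nat_lit 3339500646) (nat_lit 1140) (nat_lit 6118311780) (nat_lit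 1216) (nat_lit 159734104) (nat_lit 256) (nat_lit 5) (nat_lit 271) (nat_lit 5) (nat_lit 272) (nat_lit 5) (nat_lit 376) (nat_lit 357) (nat_lit 287))))) (XT.nd (nat_lit 312) (nat_lit 1292) (nat_lit 0) (XT.nd (nat_lit 156) (nat_lit 608) (nat_lit 0) (XT.nd (nat_lit 78) (nat_lit 1216) (nat_lit 0) (XT.lf (nat_lit 0) (nat_lit 1432551083) (nat_lit 1216) (nat_lit 988266089) (nat_lit 76) (nat_lit 7332366846) (nat_lit 255) (nat_lit 5) (nat_lit 271) (nat_lit 5) (nat_lit 256) (nat_lit 5) (nat_lit 377) (nat_lit 357) (nat_lit 286)) (XT.lf (nat_lit 0) (nat_lit 3094434254) (nat_lit 1292) (nat_lit 5388265686) (nat_lit 76) (nat_lit 1409405828) (nat_lit 239) (nat_lit 5) (nat_lit 256) (nat_lit 5) (nat_lit 240) (nat_lit 5) (nat_lit 378) (nat_lit 357) (nat_lit 285))) (XT.nd (nat_lit 78) (nat_lit 0) (nat_lit 0) (XT.lf (nat_lit 0) (nat_lit 94422225) (nat_lit 608) (nat_lit 4715192566) (nat_lit 684) (nat_lit 5225490533) (nat_lit 231) (nat_lit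 5) (nat_lit 239) (nat_lit 5) (nat_lit 240) (nat_lit 5) (nat_lit 379) (nat_lit 357) (nat_lit 284)) (XT.lf (nat_lit 0) (nat_lit 5822908283) (nat_lit 608) (nat_lit 776877558) (nat_lit 684) (nat_lit 3581915962) (nat_lit 231) (nat_lit 5) (nat_lit 239) (nat_lit 5) (nat_lit 240) (nat_lit 5) (nat_lit 380) (nat_lit 357) (nat_lit 283)))) (XT.nd (nat_lit 156) (nat_lit 684) (nat_lit 0) (XT.nd (nat_lit 78) (nat_lit 0) (nat_lit 0) (XT.lf (nat_lit 0) (nat_lit 1356277045) (nat_lit 608) (nat_lit 7101987439) (nat_lit 684) (nat_lit 1874006228) (nat_lit 223) (nat_lit 5) (nat_lit 231) (nat_lit 5) (nat_lit 232) (nat_lit 5) (nat_lit 381) (nat_lit 357) (nat_lit 282)) (XT.lf (nat_lit 0) (nat_lit 7295376062) (nat_lit 608) (nat_lit 3099387385) (nat_lit 684) (nat_lit 91937508) (nat_lit 223) (nat_lit 5) (nat_lit 231) (nat_lit 5) (nat_lit 232) (nat_lit 5) (nat_lit 382) (nat_lit 357) (nat_lit 281))) (XT.nd (nat_lit 78) (nat_lit 0) (nat_lit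 0) (XT.lf (nat_lit 0) (nat_lit 1717713887) (nat_lit 684) (nat_lit 7879990651) (nat_lit 76) (nat_lit 1047323960) (nat_lit 214) (nat_lit 5) (nat_lit 223) (nat_lit 5) (nat_lit 215) (nat_lit 5) (nat_lit 383) (nat_lit 357) (nat_lit 280)) (XT.lf (nat_lit 0) (nat_lit 3614799378) (nat_lit 684) (nat_lit 1902792632) (nat_lit 76) (nat_lit 5289447984) (nat_lit 214) (nat_lit 5) (nat_lit 223) (nat_lit 5) (nat_lit 215) (nat_lit 5) (nat_lit 384) (nat_lit 357) (nat_lit 279))))))))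
noncomputable def xc143 : XT := (XT.nd (nat_lit 2262) (nat_lit 3876) (nat_lit 0) (XT.nd (nat_lit 1092) (nat_lit 3420) (nat_lit 0) (XT.nd (nat_lit 546) (nat_lit 1824) (nat_lit 0) (XT.nd (nat_lit 234) (nat_lit 1064) (nat_lit 0) (XT.nd (nat_lit 78) (nat_lit 532) (nat_lit 0) (XT.lf (nat_lit 0) (nat_lit 4309417759) (nat_lit 532) (nat_lit 1273387158) (nat_lit 608) (nat_lit 5390697570) (nat_lit 207) (nat_lit 5) (nat_lit 214) (nat_lit 5) (nat_lit 215) (nat_lit 5) (nat_lit 385) (nat_lit 357) (nat_lit 278)) (XT.nd (nat_lit 78) (nat_lit 532) (nat_lit 0) (XT.lf (nat_lit 0) (nat_lit 7632135790) (nat_lit 608) (nat_lit 456276933) (nat_lit 76) (nat_lit 3055888139) (nat_lit 207) (nat_lit 5) (nat_lit 215) (nat_lit 5) (nat_lit 208) (nat_lit 5) (nat_lit 386) (nat_lit 357) (nat_lit 277)) (XT.lf (nat_lit 0) (nat_lit 6014440246) (nat_lit 532) (nat_lit 3772811330) (nat_lit 608) (nat_lit 1531652716) (nat_lit 200) (nat_lit 5) (nat_lit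 207) (nat_lit 5) (nat_lit 208) (nat_lit 5) (nat_lit 387) (nat_lit 357) (nat_lit 276)))) (XT.nd (nat_lit 156) (nat_lit 532) (nat_lit 0) (XT.nd (nat_lit 78) (nat_lit 0) (nat_lit 0) (XT.lf (nat_lit 0) (nat_lit 495108744) (nat_lit 532) (nat_lit 10325766194) (nat_lit 76) (nat_lit 677831417) (nat_lit 193) (nat_lit 5) (nat_lit 200) (nat_lit 5) (nat_lit 194) (nat_lit 5) (nat_lit 388) (nat_lit 357) (nat_lit 275)) (XT.lf (nat_lit 0) (nat_lit 2617909491) (nat_lit 532) (nat_lit 3810740805) (nat_lit 76) (nat_lit 5252825987) (nat_lit 193) (nat_lit 5) (nat_lit 200) (nat_lit 5) (nat_lit 194) (nat_lit 5) (nat_lit 389) (nat_lit 357) (nat_lit 274))) (XT.nd (nat_lit 78) (nat_lit 0) (nat_lit 0) (XT.lf (nat_lit 0) (nat_lit 2928929815) (nat_lit 532) (nat_lit 1878931291) (nat_lit 608) (nat_lit 7061773308) (nat_lit 186) (nat_lit 5) (nat_lit 193) (nat_lit 5) (nat_lit 194) (nat_lit 5) (nat_lit 390) (nat_lit 357) (nat_lit 273)) (XT.lf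 (nat_lit 0) (nat_lit 7105090513) (nat_lit 608) (nat_lit 2169130250) (nat_lit 76) (nat_lit 2787977993) (nat_lit 186) (nat_lit 5) (nat_lit 194) (nat_lit 5) (nat_lit 187) (nat_lit 5) (nat_lit 391) (nat_lit 357) (nat_lit 272))))) (XT.nd (nat_lit 234) (nat_lit 836) (nat_lit 0) (XT.nd (nat_lit 78) (nat_lit 532) (nat_lit 0) (XT.lf (nat_lit 0) (nat_lit 4854148700) (nat_lit 456) (nat_lit 4658791212) (nat_lit 532) (nat_lit 2746357611) (nat_lit 180) (nat_lit 5) (nat_lit 186) (nat_lit 5) (nat_lit 187) (nat_lit 5) (nat_lit 392) (nat_lit 357) (nat_lit 271)) (XT.nd (nat_lit 78) (nat_lit 532) (nat_lit 0) (XT.lf (nat_lit 0) (nat_lit 11992882564) (nat_lit 532) (nat_lit 358145706) (nat_lit 76) (nat_lit 111293587) (nat_lit 180) (nat_lit 5) (nat_lit 187) (nat_lit 5) (nat_lit 181) (nat_lit 5) (nat_lit 393) (nat_lit 357) (nat_lit 270)) (XT.lf (nat_lit 0) (nat_lit 1930627739) (nat_lit 532) (nat_lit 5724783900) (nat_lit 76) (nat_lit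 5012748870) (nat_lit 173) (nat_lit 5) (nat_lit 180) (nat_lit 5) (nat_lit 174) (nat_lit 5) (nat_lit 394) (nat_lit 357) (nat_lit 269)))) (XT.nd (nat_lit 156) (nat_lit 456) (nat_lit 0) (XT.nd (nat_lit 78) (nat_lit 0) (nat_lit 0) (XT.lf (nat_lit 0) (nat_lit 1590242636) (nat_lit 380) (nat_lit 2799625987) (nat_lit 456) (nat_lit 8490275676) (nat_lit 168) (nat_lit 5) (nat_lit 173) (nat_lit 5) (nat_lit 174) (nat_lit 5) (nat_lit 395) (nat_lit 357) (nat_lit 268)) (XT.lf (nat_lit 0) (nat_lit 6980443069) (nat_lit 456) (nat_lit 3904092621) (nat_lit 76) (nat_lit 2212232631) (nat_lit 168) (nat_lit 5) (nat_lit 174) (nat_lit 5) (nat_lit 169) (nat_lit 5) (nat_lit 396) (nat_lit 357) (nat_lit 267))) (XT.nd (nat_lit 78) (nat_lit 0) (nat_lit 0) (XT.lf (nat_lit 0) (nat_lit 3721320036) (nat_lit 456) (nat_lit 5969555391) (nat_lit 532) (nat_lit 3627758608) (nat_lit 162) (nat_lit 5) (nat_lit 168) (nat_lit 5) (nat_lit 169) (nat_lit 5) (nat_lit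 397) (nat_lit 357) (nat_lit 266)) (XT.lf (nat_lit 0) (nat_lit 11628920613) (nat_lit 456) (nat_lit 872139935) (nat_lit 532) (nat_lit 1045548961) (nat_lit 162) (nat_lit 5) (nat_lit 168) (nat_lit 5) (nat_lit 169) (nat_lit 5) (nat_lit 398) (nat_lit 357) (nat_lit 265)))))) (XT.nd (nat_lit 546) (nat_lit 1748) (nat_lit 0) (XT.nd (nat_lit 234) (nat_lit 836) (nat_lit 0) (XT.nd (nat_lit 78) (nat_lit 380) (nat_lit 0) (XT.lf (nat_lit 0) (nat_lit 1663150035) (nat_lit 456) (nat_lit 7753604286) (nat_lit 76) (nat_lit 4361795414) (nat_lit 156) (nat_lit 5) (nat_lit 162) (nat_lit 5) (nat_lit 157) (nat_lit 5) (nat_lit 399) (nat_lit 357) (nat_lit 264)) (XT.nd (nat_lit 78) (nat_lit 0) (nat_lit 0) (XT.lf (nat_lit 0) (nat_lit 186210729) (nat_lit 380) (nat_lit 4255579648) (nat_lit 456) (nat_lit 9575062774) (nat_lit 151) (nat_lit 5) (nat_lit 156) (nat_lit 5) (nat_lit 157) (nat_lit 5) (nat_lit 400) (nat_lit 357) (nat_lit 263)) (XT.lf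 (nat_lit 0) (nat_lit 7373045347) (nat_lit 456) (nat_lit 5774594006) (nat_lit 76) (nat_lit 1112594859) (nat_lit 151) (nat_lit 5) (nat_lit 157) (nat_lit 5) (nat_lit 152) (nat_lit 5) (nat_lit 401) (nat_lit 357) (nat_lit 262)))) (XT.nd (nat_lit 156) (nat_lit 456) (nat_lit 0) (XT.nd (nat_lit 78) (nat_lit 0) (nat_lit 0) (XT.lf (nat_lit 0) (nat_lit 2503811254) (nat_lit 380) (nat_lit 7935202633) (nat_lit 456) (nat_lit 4070505564) (nat_lit 146) (nat_lit 5) (nat_lit 151) (nat_lit 5) (nat_lit 152) (nat_lit 5) (nat_lit 402) (nat_lit 357) (nat_lit 261)) (XT.lf (nat_lit 0) (nat_lit 11123149034) (nat_lit 380) (nat_lit 2513015714) (nat_lit 456) (nat_lit 1128948247) (nat_lit 146) (nat_lit 5) (nat_lit 151) (nat_lit 5) (nat_lit 152) (nat_lit 5) (nat_lit 403) (nat_lit 357) (nat_lit 260))) (XT.nd (nat_lit 78) (nat_lit 0) (nat_lit 0) (XT.lf (nat_lit 0) (nat_lit 1923468816) (nat_lit 456) (nat_lit 10029970995) (nat_lit 76) (nat_lit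 3072600715) (nat_lit 140) (nat_lit 5) (nat_lit 146) (nat_lit 5) (nat_lit 141) (nat_lit 5) (nat_lit 404) (nat_lit 357) (nat_lit 259)) (XT.lf (nat_lit 0) (nat_lit 5088287499) (nat_lit 456) (nat_lit 1387879970) (nat_lit 76) (nat_lit 8816992838) (nat_lit 140) (nat_lit 5) (nat_lit 146) (nat_lit 5) (nat_lit 141) (nat_lit 5) (nat_lit 405) (nat_lit 357) (nat_lit 258))))) (XT.nd (nat_lit 312) (nat_lit 684) (nat_lit 0) (XT.nd (nat_lit 156) (nat_lit 380) (nat_lit 0) (XT.nd (nat_lit 78) (nat_lit 380) (nat_lit 0) (XT.lf (nat_lit 0) (nat_lit 7637593328) (nat_lit 304) (nat_lit 765911222) (nat_lit 380) (nat_lit 7163130714) (nat_lit 136) (nat_lit 5) (nat_lit 140) (nat_lit 5) (nat_lit 141) (nat_lit 5) (nat_lit 406) (nat_lit 357) (nat_lit 257)) (XT.lf (nat_lit 0) (nat_lit 1060628885) (nat_lit 380) (nat_lit 10813328425) (nat_lit 456) (nat_lit 3972688827) (nat_lit 131) (nat_lit 5) (nat_lit 136) (nat_lit 5) (nat_lit 137) (nat_lit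 5) (nat_lit 407) (nat_lit 357) (nat_lit 256))) (XT.nd (nat_lit 78) (nat_lit 380) (nat_lit 0) (XT.lf (nat_lit 0) (nat_lit 10449898458) (nat_lit 380) (nat_lit 5068734809) (nat_lit 456) (nat_lit 614325679) (nat_lit 131) (nat_lit 5) (nat_lit 136) (nat_lit 5) (nat_lit 137) (nat_lit 5) (nat_lit 408) (nat_lit 357) (nat_lit 255)) (XT.lf (nat_lit 0) (nat_lit 2816549268) (nat_lit 380) (nat_lit 12721605566) (nat_lit 76) (nat_lit 888072356) (nat_lit 126) (nat_lit 5) (nat_lit 131) (nat_lit 5) (nat_lit 127) (nat_lit 5) (nat_lit 409) (nat_lit 357) (nat_lit 254)))) (XT.nd (nat_lit 156) (nat_lit 380) (nat_lit 0) (XT.nd (nat_lit 78) (nat_lit 304) (nat_lit 0) (XT.lf (nat_lit 0) (nat_lit 6429208058) (nat_lit 380) (nat_lit 3317690694) (nat_lit 76) (nat_lit 6978480589) (nat_lit 126) (nat_lit 5) (nat_lit 131) (nat_lit 5) (nat_lit 127) (nat_lit 5) (nat_lit 410) (nat_lit 357) (nat_lit 253)) (XT.lf (nat_lit 0) (nat_lit 6470612309) (nat_lit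 304) (nat_lit 3725390560) (nat_lit 380) (nat_lit 6836134854) (nat_lit 122) (nat_lit 5) (nat_lit 126) (nat_lit 5) (nat_lit 127) (nat_lit 5) (nat_lit 411) (nat_lit 357) (nat_lit 252))) (XT.nd (nat_lit 78) (nat_lit 380) (nat_lit 0) (XT.lf (nat_lit 0) (nat_lit 14117178142) (nat_lit 380) (nat_lit 774836145) (nat_lit 76) (nat_lit 2454847493) (nat_lit 122) (nat_lit 5) (nat_lit 127) (nat_lit 5) (nat_lit 123) (nat_lit 5) (nat_lit 412) (nat_lit 357) (nat_lit 251)) (XT.lf (nat_lit 0) (nat_lit 588331595) (nat_lit 380) (nat_lit 8244355512) (nat_lit 76) (nat_lit 8834819568) (nat_lit 117) (nat_lit 5) (nat_lit 122) (nat_lit 5) (nat_lit 118) (nat_lit 5) (nat_lit 413) (nat_lit 357) (nat_lit 250))))))) (XT.nd (nat_lit 1092) (nat_lit 1672) (nat_lit 0) (XT.nd (nat_lit 546) (nat_lit 1064) (nat_lit 0) (XT.nd (nat_lit 234) (nat_lit 608) (nat_lit 0) (XT.nd (nat_lit 78) (nat_lit 228) (nat_lit 0) (XT.lf (nat_lit 0) (nat_lit 1927423116)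 (nat_lit 304) (nat_lit 2539267045) (nat_lit 380) (nat_lit 13529803820) (nat_lit 113) (nat_lit 5) (nat_lit 117) (nat_lit 5) (nat_lit 118) (nat_lit 5) (nat_lit 414) (nat_lit 357) (nat_lit 249)) (XT.nd (nat_lit 78) (nat_lit 228) (nat_lit 0) (XT.lf (nat_lit 0) (nat_lit 8567822621) (nat_lit 380) (nat_lit 5821943761) (nat_lit 76) (nat_lit 3942395584) (nat_lit 113) (nat_lit 5) (nat_lit 118) (nat_lit 5) (nat_lit 114) (nat_lit 5) (nat_lit 415) (nat_lit 357) (nat_lit 248)) (XT.lf (nat_lit 0) (nat_lit 4777655714) (nat_lit 228) (nat_lit 8070298342) (nat_lit 304) (nat_lit 5828270628) (nat_lit 110) (nat_lit 5) (nat_lit 113) (nat_lit 5) (nat_lit 114) (nat_lit 5) (nat_lit 416) (nat_lit 357) (nat_lit 247)))) (XT.nd (nat_lit 156) (nat_lit 228) (nat_lit 0) (XT.nd (nat_lit 78) (nat_lit 380) (nat_lit 0) (XT.lf (nat_lit 0) (nat_lit 15791783637) (nat_lit 228) (nat_lit 1508614670) (nat_lit 304) (nat_lit 1728897248) (nat_lit 110) (nat_lit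 5) (nat_lit 113) (nat_lit 5) (nat_lit 114) (nat_lit 5) (nat_lit 417) (nat_lit 357) (nat_lit 246)) (XT.lf (nat_lit 0) (nat_lit 2557041746) (nat_lit 380) (nat_lit 11591631558) (nat_lit 76) (nat_lit 5240202302) (nat_lit 105) (nat_lit 5) (nat_lit 110) (nat_lit 5) (nat_lit 106) (nat_lit 5) (nat_lit 418) (nat_lit 357) (nat_lit 245))) (XT.nd (nat_lit 78) (nat_lit 228) (nat_lit 0) (XT.lf (nat_lit 0) (nat_lit 6970304731) (nat_lit 380) (nat_lit 583804826) (nat_lit 76) (nat_lit 12203618357) (nat_lit 105) (nat_lit 5) (nat_lit 110) (nat_lit 5) (nat_lit 106) (nat_lit 5) (nat_lit 419) (nat_lit 357) (nat_lit 244)) (XT.lf (nat_lit 0) (nat_lit 10945936007) (nat_lit 228) (nat_lit 661211693) (nat_lit 304) (nat_lit 8527765772) (nat_lit 102) (nat_lit 5) (nat_lit 105) (nat_lit 5) (nat_lit 106) (nat_lit 5) (nat_lit 420) (nat_lit 357) (nat_lit 243))))) (XT.nd (nat_lit 234) (nat_lit 532) (nat_lit 0) (XT.nd (nat_lit 78) (nat_lit 304)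 (nat_lit 0) (XT.lf (nat_lit 0) (nat_lit 2270614670) (nat_lit 228) (nat_lit 14188239736) (nat_lit 304) (nat_lit 4062290489) (nat_lit 99) (nat_lit 5) (nat_lit 102) (nat_lit 5) (nat_lit 103) (nat_lit 5) (nat_lit 421) (nat_lit 357) (nat_lit 242)) (XT.nd (nat_lit 78) (nat_lit 228) (nat_lit 0) (XT.lf (nat_lit 0) (nat_lit 613067760) (nat_lit 304) (nat_lit 6688554280) (nat_lit 76) (nat_lit 13614597182) (nat_lit 98) (nat_lit 5) (nat_lit 102) (nat_lit 5) (nat_lit 99) (nat_lit 5) (nat_lit 422) (nat_lit 357) (nat_lit 241)) (XT.lf (nat_lit 0) (nat_lit 5261264757) (nat_lit 228) (nat_lit 122896438) (nat_lit 304) (nat_lit 15936667083) (nat_lit 95) (nat_lit 5) (nat_lit 98) (nat_lit 5) (nat_lit 99) (nat_lit 5) (nat_lit 423) (nat_lit 357) (nat_lit 240)))) (XT.nd (nat_lit 156) (nat_lit 304) (nat_lit 0) (XT.nd (nat_lit 78) (nat_lit 228) (nat_lit 0) (XT.lf (nat_lit 0) (nat_lit 10423151289) (nat_lit 304) (nat_lit 4121001233) (nat_lit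 76) (nat_lit 7189682879) (nat_lit 95) (nat_lit 5) (nat_lit 99) (nat_lit 5) (nat_lit 96) (nat_lit 5) (nat_lit 424) (nat_lit 357) (nat_lit 239)) (XT.lf (nat_lit 0) (nat_lit 8315826072) (nat_lit 228) (nat_lit 7365685909) (nat_lit 304) (nat_lit 6475677363) (nat_lit 92) (nat_lit 5) (nat_lit 95) (nat_lit 5) (nat_lit 96) (nat_lit 5) (nat_lit 425) (nat_lit 357) (nat_lit 238))) (XT.nd (nat_lit 78) (nat_lit 304) (nat_lit 0) (XT.lf (nat_lit 0) (nat_lit 21127068592) (nat_lit 304) (nat_lit 1403493904) (nat_lit 76) (nat_lit 61800612) (nat_lit 92) (nat_lit 5) (nat_lit 96) (nat_lit 5) (nat_lit 93) (nat_lit 5) (nat_lit 426) (nat_lit 357) (nat_lit 237)) (XT.lf (nat_lit 0) (nat_lit 3796357085) (nat_lit 304) (nat_lit 11533352397) (nat_lit 76) (nat_lit 7704627304) (nat_lit 88) (nat_lit 5) (nat_lit 92) (nat_lit 5) (nat_lit 89) (nat_lit 5) (nat_lit 427) (nat_lit 357) (nat_lit 236)))))) (XT.nd (nat_lit 546) (nat_lit 836) (nat_lit 0)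 (XT.nd (nat_lit 234) (nat_lit 456) (nat_lit 0) (XT.nd (nat_lit 78) (nat_lit 152) (nat_lit 0) (XT.lf (nat_lit 0) (nat_lit 1322902272) (nat_lit 228) (nat_lit 7878101961) (nat_lit 304) (nat_lit 14287694634) (nat_lit 85) (nat_lit 5) (nat_lit 88) (nat_lit 5) (nat_lit 89) (nat_lit 5) (nat_lit 428) (nat_lit 357) (nat_lit 235)) (XT.nd (nat_lit 78) (nat_lit 152) (nat_lit 0) (XT.lf (nat_lit 0) (nat_lit 14780980941) (nat_lit 228) (nat_lit 91008770) (nat_lit 304) (nat_lit 9081578404) (nat_lit 85) (nat_lit 5) (nat_lit 88) (nat_lit 5) (nat_lit 89) (nat_lit 5) (nat_lit 429) (nat_lit 357) (nat_lit 234)) (XT.lf (nat_lit 0) (nat_lit 4196094551) (nat_lit 152) (nat_lit 16621587789) (nat_lit 228) (nat_lit 3611565978) (nat_lit 83) (nat_lit 5) (nat_lit 85) (nat_lit 5) (nat_lit 86) (nat_lit 5) (nat_lit 430) (nat_lit 357) (nat_lit 233)))) (XT.nd (nat_lit 156) (nat_lit 152) (nat_lit 0) (XT.nd (nat_lit 78) (nat_lit 228) (nat_lit 0) (XT.lf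 (nat_lit 0) (nat_lit 2065579682) (nat_lit 228) (nat_lit 6803838200) (nat_lit 76) (nat_lit 16046724863) (nat_lit 82) (nat_lit 5) (nat_lit 85) (nat_lit 5) (nat_lit 83) (nat_lit 5) (nat_lit 431) (nat_lit 357) (nat_lit 232)) (XT.lf (nat_lit 0) (nat_lit 7111937804) (nat_lit 228) (nat_lit 785281899) (nat_lit 304) (nat_lit 17517650510) (nat_lit 79) (nat_lit 5) (nat_lit 82) (nat_lit 5) (nat_lit 83) (nat_lit 5) (nat_lit 432) (nat_lit 357) (nat_lit 231))) (XT.nd (nat_lit 78) (nat_lit 152) (nat_lit 0) (XT.lf (nat_lit 0) (nat_lit 14034169178) (nat_lit 304) (nat_lit 4434531906) (nat_lit 76) (nat_lit 7455949573) (nat_lit 79) (nat_lit 5) (nat_lit 83) (nat_lit 5) (nat_lit 80) (nat_lit 5) (nat_lit 433) (nat_lit 357) (nat_lit 230)) (XT.lf (nat_lit 0) (nat_lit 10018694838) (nat_lit 152) (nat_lit 10429430894) (nat_lit 228) (nat_lit 5998813726) (nat_lit 77) (nat_lit 5) (nat_lit 79) (nat_lit 5) (nat_lit 80) (nat_lit 5) (nat_lit 434)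 (nat_lit 357) (nat_lit 229))))) (XT.nd (nat_lit 312) (nat_lit 380) (nat_lit 0) (XT.nd (nat_lit 156) (nat_lit 152) (nat_lit 0) (XT.nd (nat_lit 78) (nat_lit 228) (nat_lit 0) (XT.lf (nat_lit 0) (nat_lit 102321206) (nat_lit 228) (nat_lit 2007233411) (nat_lit 76) (nat_lit 24874301765) (nat_lit 76) (nat_lit 5) (nat_lit 79) (nat_lit 5) (nat_lit 77) (nat_lit 5) (nat_lit 435) (nat_lit 357) (nat_lit 228)) (XT.lf (nat_lit 0) (nat_lit 6444129723) (nat_lit 304) (nat_lit 14572823589) (nat_lit 76) (nat_lit 6512801124) (nat_lit 73) (nat_lit 5) (nat_lit 77) (nat_lit 5) (nat_lit 74) (nat_lit 5) (nat_lit 436) (nat_lit 357) (nat_lit 227))) (XT.nd (nat_lit 78) (nat_lit 0) (nat_lit 0) (XT.lf (nat_lit 0) (nat_lit 285728253) (nat_lit 152) (nat_lit 12723810925) (nat_lit 228) (nat_lit 15081491542) (nat_lit 71) (nat_lit 5) (nat_lit 73) (nat_lit 5) (nat_lit 74) (nat_lit 5) (nat_lit 437) (nat_lit 357) (nat_lit 226)) (XT.lf (nat_lit 0) (nat_lit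 15870441705) (nat_lit 152) (nat_lit 4038006915) (nat_lit 228) (nat_lit 8756602183) (nat_lit 71) (nat_lit 5) (nat_lit 73) (nat_lit 5) (nat_lit 74) (nat_lit 5) (nat_lit 438) (nat_lit 357) (nat_lit 225)))) (XT.nd (nat_lit 156) (nat_lit 152) (nat_lit 0) (XT.nd (nat_lit 78) (nat_lit 76) (nat_lit 0) (XT.lf (nat_lit 0) (nat_lit 2652962827) (nat_lit 152) (nat_lit 24423664842) (nat_lit 228) (nat_lit 2177796342) (nat_lit 69) (nat_lit 5) (nat_lit 71) (nat_lit 5) (nat_lit 72) (nat_lit 5) (nat_lit 439) (nat_lit 357) (nat_lit 224)) (XT.lf (nat_lit 0) (nat_lit 4668748706) (nat_lit 228) (nat_lit 11134885059) (nat_lit 76) (nat_lit 14051716905) (nat_lit 68) (nat_lit 5) (nat_lit 71) (nat_lit 5) (nat_lit 69) (nat_lit 5) (nat_lit 440) (nat_lit 357) (nat_lit 223))) (XT.nd (nat_lit 78) (nat_lit 0) (nat_lit 0) (XT.lf (nat_lit 0) (nat_lit 4851257882) (nat_lit 152) (nat_lit 6862241429) (nat_lit 228) (nat_lit 18759062981) (nat_lit 66)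 (nat_lit 5) (nat_lit 68) (nat_lit 5) (nat_lit 69) (nat_lit 5) (nat_lit 441) (nat_lit 357) (nat_lit 222)) (XT.lf (nat_lit 0) (nat_lit 19095712714) (nat_lit 228) (nat_lit 9600945042) (nat_lit 76) (nat_lit 2407850314) (nat_lit 66) (nat_lit 5) (nat_lit 69) (nat_lit 5) (nat_lit 67) (nat_lit 5) (nat_lit 442) (nat_lit 357) (nat_lit 221))))))))
noncomputable def xc144 : XT := (XT.nd (nat_lit 2184) (nat_lit 836) (nat_lit 0) (XT.nd (nat_lit 1092) (nat_lit 988) (nat_lit 0) (XT.nd (nat_lit 546) (nat_lit 456) (nat_lit 0) (XT.nd (nat_lit 234) (nat_lit 380) (nat_lit 0) (XT.nd (nat_lit 78) (nat_lit 228) (nat_lit 0) (XT.lf (nat_lit 0) (nat_lit 6950636913) (nat_lit 152) (nat_lit 19873805496) (nat_lit 228) (nat_lit 4927219691) (nat_lit 64) (nat_lit 5) (nat_lit 66) (nat_lit 5) (nat_lit 67) (nat_lit 5) (nat_lit 443) (nat_lit 357) (nat_lit 220)) (XT.nd (nat_lit 78) (nat_lit 152) (nat_lit 0) (XT.lf (nat_lit 0) (nat_lit 2408846100)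 (nat_lit 228) (nat_lit 8260560760) (nat_lit 76) (nat_lit 21745495818) (nat_lit 63) (nat_lit 5) (nat_lit 66) (nat_lit 5) (nat_lit 64) (nat_lit 5) (nat_lit 444) (nat_lit 357) (nat_lit 219)) (XT.lf (nat_lit 0) (nat_lit 8884088222) (nat_lit 152) (nat_lit 1057871807) (nat_lit 228) (nat_lit 23152338220) (nat_lit 61) (nat_lit 5) (nat_lit 63) (nat_lit 5) (nat_lit 64) (nat_lit 5) (nat_lit 445) (nat_lit 357) (nat_lit 218)))) (XT.nd (nat_lit 156) (nat_lit 228) (nat_lit 0) (XT.nd (nat_lit 78) (nat_lit 152) (nat_lit 0) (XT.lf (nat_lit 0) (nat_lit 17860949602) (nat_lit 228) (nat_lit 7181637605) (nat_lit 76) (nat_lit 8746693234) (nat_lit 61) (nat_lit 5) (nat_lit 64) (nat_lit 5) (nat_lit 62) (nat_lit 5) (nat_lit 446) (nat_lit 357) (nat_lit 217)) (XT.lf (nat_lit 0) (nat_lit 10536759445) (nat_lit 152) (nat_lit 15583427678) (nat_lit 228) (nat_lit 8381845813) (nat_lit 59) (nat_lit 5) (nat_lit 61) (nat_lit 5) (nat_lit 62) (nat_lit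 5) (nat_lit 447) (nat_lit 357) (nat_lit 216))) (XT.nd (nat_lit 78) (nat_lit 228) (nat_lit 0) (XT.lf (nat_lit 0) (nat_lit 28917914760) (nat_lit 152) (nat_lit 5772836585) (nat_lit 228) (nat_lit 543511324) (nat_lit 59) (nat_lit 5) (nat_lit 61) (nat_lit 5) (nat_lit 62) (nat_lit 5) (nat_lit 448) (nat_lit 357) (nat_lit 215)) (XT.lf (nat_lit 0) (nat_lit 7533105703) (nat_lit 228) (nat_lit 24018258146) (nat_lit 76) (nat_lit 4430422965) (nat_lit 56) (nat_lit 5) (nat_lit 59) (nat_lit 5) (nat_lit 57) (nat_lit 5) (nat_lit 449) (nat_lit 357) (nat_lit 214))))) (XT.nd (nat_lit 234) (nat_lit 304) (nat_lit 0) (XT.nd (nat_lit 78) (nat_lit 152) (nat_lit 0) (XT.lf (nat_lit 0) (nat_lit 15953911817) (nat_lit 228) (nat_lit 5907473904) (nat_lit 76) (nat_lit 14886806139) (nat_lit 56) (nat_lit 5) (nat_lit 59) (nat_lit 5) (nat_lit 57) (nat_lit 5) (nat_lit 450) (nat_lit 357) (nat_lit 213)) (XT.nd (nat_lit 78) (nat_lit 0) (nat_lit 0) (XT.lf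 (nat_lit 0) (nat_lit 12984709821) (nat_lit 152) (nat_lit 11758947883) (nat_lit 228) (nat_lit 12790442909) (nat_lit 54) (nat_lit 5) (nat_lit 56) (nat_lit 5) (nat_lit 57) (nat_lit 5) (nat_lit 451) (nat_lit 357) (nat_lit 212)) (XT.lf (nat_lit 0) (nat_lit 32549604007) (nat_lit 152) (nat_lit 1298746439) (nat_lit 228) (nat_lit 4493699540) (nat_lit 54) (nat_lit 5) (nat_lit 56) (nat_lit 5) (nat_lit 57) (nat_lit 5) (nat_lit 452) (nat_lit 357) (nat_lit 211)))) (XT.nd (nat_lit 156) (nat_lit 152) (nat_lit 0) (XT.nd (nat_lit 78) (nat_lit 0) (nat_lit 0) (XT.lf (nat_lit 0) (nat_lit 4189445237) (nat_lit 152) (nat_lit 25520538182) (nat_lit 76) (nat_lit 9456589848) (nat_lit 52) (nat_lit 5) (nat_lit 54) (nat_lit 5) (nat_lit 53) (nat_lit 5) (nat_lit 453) (nat_lit 357) (nat_lit 210)) (XT.lf (nat_lit 0) (nat_lit 13106494270) (nat_lit 152) (nat_lit 6300509355) (nat_lit 76) (nat_lit 20605582903) (nat_lit 52) (nat_lit 5) (nat_lit 54)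 (nat_lit 5) (nat_lit 53) (nat_lit 5) (nat_lit 454) (nat_lit 357) (nat_lit 209))) (XT.nd (nat_lit 78) (nat_lit 0) (nat_lit 0) (XT.lf (nat_lit 0) (nat_lit 13749953946) (nat_lit 152) (nat_lit 8665311144) (nat_lit 228) (nat_lit 18464989669) (nat_lit 50) (nat_lit 5) (nat_lit 52) (nat_lit 5) (nat_lit 53) (nat_lit 5) (nat_lit 455) (nat_lit 357) (nat_lit 208)) (XT.lf (nat_lit 0) (nat_lit 32082678175) (nat_lit 228) (nat_lit 7279156318) (nat_lit 76) (nat_lit 2409738025) (nat_lit 50) (nat_lit 5) (nat_lit 53) (nat_lit 5) (nat_lit 51) (nat_lit 4) (nat_lit 456) (nat_lit 357) (nat_lit 207)))))) (XT.nd (nat_lit 546) (nat_lit 380) (nat_lit 0) (XT.nd (nat_lit 234) (nat_lit 304) (nat_lit 0) (XT.nd (nat_lit 78) (nat_lit 228) (nat_lit 0) (XT.lf (nat_lit 0) (nat_lit 13327711306) (nat_lit 76) (nat_lit 28918611914) (nat_lit 152) (nat_lit 437121135) (nat_lit 49) (nat_lit 5) (nat_lit 50) (nat_lit 5) (nat_lit 51) (nat_lit 4) (nat_lit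 457) (nat_lit 357) (nat_lit 206)) (XT.nd (nat_lit 78) (nat_lit 152) (nat_lit 0) (XT.lf (nat_lit 0) (nat_lit 8981330907) (nat_lit 152) (nat_lit 9020697603) (nat_lit 76) (nat_lit 25616026207) (nat_lit 48) (nat_lit 5) (nat_lit 50) (nat_lit 5) (nat_lit 49) (nat_lit 5) (nat_lit 458) (nat_lit 357) (nat_lit 205)) (XT.lf (nat_lit 0) (nat_lit 12143328503) (nat_lit 152) (nat_lit 6639489594) (nat_lit 228) (nat_lit 25794478196) (nat_lit 46) (nat_lit 5) (nat_lit 48) (nat_lit 5) (nat_lit 49) (nat_lit 5) (nat_lit 459) (nat_lit 357) (nat_lit 204)))) (XT.nd (nat_lit 156) (nat_lit 228) (nat_lit 0) (XT.nd (nat_lit 78) (nat_lit 76) (nat_lit 0) (XT.lf (nat_lit 0) (nat_lit 29011586455) (nat_lit 228) (nat_lit 11498691822) (nat_lit 76) (nat_lit 5051040481) (nat_lit 46) (nat_lit 5) (nat_lit 49) (nat_lit 5) (nat_lit 47) (nat_lit 4) (nat_lit 460) (nat_lit 357) (nat_lit 203)) (XT.lf (nat_lit 0) (nat_lit 10184316383) (nat_lit 76) (nat_lit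 29519319162) (nat_lit 152) (nat_lit 6866534538) (nat_lit 45) (nat_lit 5) (nat_lit 46) (nat_lit 5) (nat_lit 47) (nat_lit 4) (nat_lit 461) (nat_lit 357) (nat_lit 202))) (XT.nd (nat_lit 78) (nat_lit 152) (nat_lit 0) (XT.lf (nat_lit 0) (nat_lit 3156585570) (nat_lit 152) (nat_lit 14896629035) (nat_lit 76) (nat_lit 29551875234) (nat_lit 44) (nat_lit 5) (nat_lit 46) (nat_lit 5) (nat_lit 45) (nat_lit 5) (nat_lit 462) (nat_lit 357) (nat_lit 201)) (XT.lf (nat_lit 0) (nat_lit 7298765781) (nat_lit 152) (nat_lit 6106787420) (nat_lit 228) (nat_lit 35261570145) (nat_lit 42) (nat_lit 5) (nat_lit 44) (nat_lit 5) (nat_lit 45) (nat_lit 5) (nat_lit 463) (nat_lit 357) (nat_lit 200))))) (XT.nd (nat_lit 234) (nat_lit 304) (nat_lit 0) (XT.nd (nat_lit 78) (nat_lit 76) (nat_lit 0) (XT.lf (nat_lit 0) (nat_lit 24166513300) (nat_lit 228) (nat_lit 19365155697) (nat_lit 76) (nat_lit 6223213793) (nat_lit 42) (nat_lit 5) (nat_lit 45) (nat_lit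 5) (nat_lit 43) (nat_lit 4) (nat_lit 464) (nat_lit 357) (nat_lit 199)) (XT.nd (nat_lit 78) (nat_lit 0) (nat_lit 0) (XT.lf (nat_lit 0) (nat_lit 3289271585) (nat_lit 76) (nat_lit 32046343455) (nat_lit 152) (nat_lit 15537101211) (nat_lit 41) (nat_lit 5) (nat_lit 42) (nat_lit 5) (nat_lit 43) (nat_lit 4) (nat_lit 465) (nat_lit 357) (nat_lit 198)) (XT.lf (nat_lit 0) (nat_lit 27007828920) (nat_lit 76) (nat_lit 20020819410) (nat_lit 152) (nat_lit 4989771232) (nat_lit 41) (nat_lit 5) (nat_lit 42) (nat_lit 5) (nat_lit 43) (nat_lit 4) (nat_lit 466) (nat_lit 357) (nat_lit 197)))) (XT.nd (nat_lit 156) (nat_lit 76) (nat_lit 0) (XT.nd (nat_lit 78) (nat_lit 152) (nat_lit 0) (XT.lf (nat_lit 0) (nat_lit 5752794565) (nat_lit 152) (nat_lit 1829252714) (nat_lit 76) (nat_lit 45614950180) (nat_lit 40) (nat_lit 5) (nat_lit 42) (nat_lit 5) (nat_lit 41) (nat_lit 5) (nat_lit 467) (nat_lit 357) (nat_lit 196)) (XT.lf (nat_lit 0) (nat_lit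 16979371999) (nat_lit 228) (nat_lit 32032208968) (nat_lit 76) (nat_lit 5390009439) (nat_lit 38) (nat_lit 5) (nat_lit 41) (nat_lit 5) (nat_lit 39) (nat_lit 4) (nat_lit 468) (nat_lit 357) (nat_lit 195))) (XT.nd (nat_lit 78) (nat_lit 76) (nat_lit 0) (XT.lf (nat_lit 0) (nat_lit 28630120715) (nat_lit 228) (nat_lit 8397448604) (nat_lit 76) (nat_lit 18612131140) (nat_lit 38) (nat_lit 5) (nat_lit 41) (nat_lit 5) (nat_lit 39) (nat_lit 4) (nat_lit 469) (nat_lit 357) (nat_lit 194)) (XT.lf (nat_lit 0) (nat_lit 16251933519) (nat_lit 76) (nat_lit 24528516297) (nat_lit 152) (nat_lit 16130002777) (nat_lit 37) (nat_lit 5) (nat_lit 38) (nat_lit 5) (nat_lit 39) (nat_lit 4) (nat_lit 470) (nat_lit 357) (nat_lit 193))))))) (XT.nd (nat_lit 1092) (nat_lit 152) (nat_lit 0) (XT.nd (nat_lit 546) (nat_lit 228) (nat_lit 0) (XT.nd (nat_lit 234) (nat_lit 228) (nat_lit 0) (XT.nd (nat_lit 78) (nat_lit 228) (nat_lit 0) (XT.lf (nat_lit 0) (nat_lit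 41801495041) (nat_lit 76) (nat_lit 11572495508) (nat_lit 152) (nat_lit 4842976192) (nat_lit 37) (nat_lit 5) (nat_lit 38) (nat_lit 5) (nat_lit 39) (nat_lit 4) (nat_lit 471) (nat_lit 357) (nat_lit 192)) (XT.nd (nat_lit 78) (nat_lit 0) (nat_lit 0) (XT.lf (nat_lit 0) (nat_lit 6745905058) (nat_lit 228) (nat_lit 50929682194) (nat_lit 76) (nat_lit 1882265622) (nat_lit 34) (nat_lit 5) (nat_lit 37) (nat_lit 5) (nat_lit 35) (nat_lit 4) (nat_lit 472) (nat_lit 357) (nat_lit 191)) (XT.lf (nat_lit 0) (nat_lit 18861137836) (nat_lit 228) (nat_lit 26349785267) (nat_lit 76) (nat_lit 15718323716) (nat_lit 34) (nat_lit 5) (nat_lit 37) (nat_lit 5) (nat_lit 35) (nat_lit 4) (nat_lit 473) (nat_lit 357) (nat_lit 190)))) (XT.nd (nat_lit 156) (nat_lit 152) (nat_lit 0) (XT.nd (nat_lit 78) (nat_lit 76) (nat_lit 0) (XT.lf (nat_lit 0) (nat_lit 31334040847) (nat_lit 228) (nat_lit 1043409255) (nat_lit 76) (nat_lit 29964506532) (nat_lit 34)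 (nat_lit 5) (nat_lit 37) (nat_lit 5) (nat_lit 35) (nat_lit 4) (nat_lit 474) (nat_lit 357) (nat_lit 189)) (XT.lf (nat_lit 0) (nat_lit 25509337260) (nat_lit 76) (nat_lit 18911386838) (nat_lit 152) (nat_lit 19369136283) (nat_lit 33) (nat_lit 5) (nat_lit 34) (nat_lit 5) (nat_lit 35) (nat_lit 4) (nat_lit 475) (nat_lit 357) (nat_lit 188))) (XT.nd (nat_lit 78) (nat_lit 152) (nat_lit 0) (XT.lf (nat_lit 0) (nat_lit 52869559132) (nat_lit 76) (nat_lit 5035429643) (nat_lit 152) (nat_lit 7376063459) (nat_lit 33) (nat_lit 5) (nat_lit 34) (nat_lit 5) (nat_lit 35) (nat_lit 4) (nat_lit 476) (nat_lit 357) (nat_lit 187)) (XT.lf (nat_lit 0) (nat_lit 5103999058) (nat_lit 152) (nat_lit 52444735948) (nat_lit 76) (nat_lit 9260080647) (nat_lit 31) (nat_lit 5) (nat_lit 33) (nat_lit 5) (nat_lit 32) (nat_lit 4) (nat_lit 477) (nat_lit 357) (nat_lit 186))))) (XT.nd (nat_lit 234) (nat_lit 152) (nat_lit 0) (XT.nd (nat_lit 78) (nat_lit 76)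 (nat_lit 0) (XT.lf (nat_lit 0) (nat_lit 17981207202) (nat_lit 152) (nat_lit 26315749645) (nat_lit 76) (nat_lit 24078134743) (nat_lit 31) (nat_lit 5) (nat_lit 33) (nat_lit 5) (nat_lit 32) (nat_lit 4) (nat_lit 478) (nat_lit 357) (nat_lit 185)) (XT.nd (nat_lit 78) (nat_lit 0) (nat_lit 0) (XT.lf (nat_lit 0) (nat_lit 598777162) (nat_lit 76) (nat_lit 30646435417) (nat_lit 152) (nat_lit 38743129173) (nat_lit 30) (nat_lit 5) (nat_lit 31) (nat_lit 5) (nat_lit 32) (nat_lit 4) (nat_lit 479) (nat_lit 357) (nat_lit 184)) (XT.lf (nat_lit 0) (nat_lit 28850271630) (nat_lit 76) (nat_lit 16317387459) (nat_lit 152) (nat_lit 26474515061) (nat_lit 30) (nat_lit 5) (nat_lit 31) (nat_lit 5) (nat_lit 32) (nat_lit 4) (nat_lit 480) (nat_lit 357) (nat_lit 183)))) (XT.nd (nat_lit 156) (nat_lit 76) (nat_lit 0) (XT.nd (nat_lit 78) (nat_lit 76) (nat_lit 0) (XT.lf (nat_lit 0) (nat_lit 57939684512) (nat_lit 76) (nat_lit 1563029920) (nat_lit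 152) (nat_lit 13843059379) (nat_lit 30) (nat_lit 5) (nat_lit 31) (nat_lit 5) (nat_lit 32) (nat_lit 4) (nat_lit 481) (nat_lit 357) (nat_lit 182)) (XT.lf (nat_lit 0) (nat_lit 12912763579) (nat_lit 76) (nat_lit 61605281562) (nat_lit 76) (nat_lit 574929951) (nat_lit 29) (nat_lit 4) (nat_lit 30) (nat_lit 5) (nat_lit 30) (nat_lit 4) (nat_lit 482) (nat_lit 357) (nat_lit 181))) (XT.nd (nat_lit 78) (nat_lit 0) (nat_lit 0) (XT.lf (nat_lit 0) (nat_lit 13003419172) (nat_lit 152) (nat_lit 34643247972) (nat_lit 76) (nat_lit 29237121366) (nat_lit 28) (nat_lit 5) (nat_lit 30) (nat_lit 5) (nat_lit 29) (nat_lit 4) (nat_lit 483) (nat_lit 357) (nat_lit 180)) (XT.lf (nat_lit 0) (nat_lit 26972753517) (nat_lit 152) (nat_lit 6295050013) (nat_lit 76) (nat_lit 45460496636) (nat_lit 28) (nat_lit 5) (nat_lit 30) (nat_lit 5) (nat_lit 29) (nat_lit 4) (nat_lit 484) (nat_lit 357) (nat_lit 179)))))) (XT.nd (nat_lit 43524) (nat_lit 0) (nat_lit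 20444) (XT.nd (nat_lit 43212) (nat_lit 0) (nat_lit 21280) (XT.nd (nat_lit 78) (nat_lit 76) (nat_lit 0) (XT.lf (nat_lit 0) (nat_lit 23350328220) (nat_lit 76) (nat_lit 18230627669) (nat_lit 152) (nat_lit 39040597945) (nat_lit 27) (nat_lit 5) (nat_lit 28) (nat_lit 5) (nat_lit 29) (nat_lit 4) (nat_lit 485) (nat_lit 357) (nat_lit 178)) (XT.nd (nat_lit 78) (nat_lit 76) (nat_lit 0) (XT.lf (nat_lit 0) (nat_lit 54005282881) (nat_lit 76) (nat_lit 2681070628) (nat_lit 152) (nat_lit 25883483424) (nat_lit 27) (nat_lit 5) (nat_lit 28) (nat_lit 5) (nat_lit 29) (nat_lit 4) (nat_lit 486) (nat_lit 357) (nat_lit 177)) (XT.lf (nat_lit 0) (nat_lit 883712454) (nat_lit 76) (nat_lit 71493356061) (nat_lit 76) (nat_lit 12195535633) (nat_lit 26) (nat_lit 4) (nat_lit 27) (nat_lit 5) (nat_lit 27) (nat_lit 4) (nat_lit 487) (nat_lit 357) (nat_lit 176)))) (XT.nd (nat_lit 156) (nat_lit 0) (nat_lit 76) (XT.nd (nat_lit 78) (nat_lit 0) (nat_lit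 0) (XT.lf (nat_lit 0) (nat_lit 686059961) (nat_lit 988) (nat_lit 1613315110) (nat_lit 988) (nat_lit 1613315110) (nat_lit 306) (nat_lit 3) (nat_lit 319) (nat_lit 3) (nat_lit 319) (nat_lit 5) (nat_lit 358) (nat_lit 358) (nat_lit 304)) (XT.lf (nat_lit 76) (nat_lit 572347134) (nat_lit 0) (nat_lit 2088467017) (nat_lit 988) (nat_lit 5243265810) (nat_lit 307) (nat_lit 5) (nat_lit 306) (nat_lit 3) (nat_lit 319) (nat_lit 5) (nat_lit 359) (nat_lit 358) (nat_lit 303))) (XT.nd (nat_lit 78) (nat_lit 0) (nat_lit 0) (XT.lf (nat_lit 0) (nat_lit 3976555176) (nat_lit 912) (nat_lit 3465460528) (nat_lit 988) (nat_lit 543498151) (nat_lit 307) (nat_lit 5) (nat_lit 319) (nat_lit 5) (nat_lit 320) (nat_lit 5) (nat_lit 360) (nat_lit 358) (nat_lit 302)) (XT.lf (nat_lit 76) (nat_lit 478633996) (nat_lit 0) (nat_lit 4830551175) (nat_lit 988) (nat_lit 2760907257) (nat_lit 308) (nat_lit 5) (nat_lit 307) (nat_lit 5) (nat_lit 320) (nat_lit 5)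 (nat_lit 361) (nat_lit 358) (nat_lit 301))))) (XT.nd (nat_lit 312) (nat_lit 0) (nat_lit 76) (XT.nd (nat_lit 156) (nat_lit 912) (nat_lit 0) (XT.nd (nat_lit 78) (nat_lit 0) (nat_lit 76) (XT.lf (nat_lit 76) (nat_lit 4585524996) (nat_lit 0) (nat_lit 2084540038) (nat_lit 988) (nat_lit 1487518657) (nat_lit 308) (nat_lit 5) (nat_lit 307) (nat_lit 5) (nat_lit 320) (nat_lit 5) (nat_lit 362) (nat_lit 358) (nat_lit 300)) (XT.lf (nat_lit 76) (nat_lit 544025623) (nat_lit 0) (nat_lit 7494951148) (nat_lit 988) (nat_lit 209729533) (nat_lit 309) (nat_lit 5) (nat_lit 308) (nat_lit 5) (nat_lit 321) (nat_lit 5) (nat_lit 363) (nat_lit 358) (nat_lit 299))) (XT.nd (nat_lit 78) (nat_lit 0) (nat_lit 0) (XT.lf (nat_lit 0) (nat_lit 1097292902) (nat_lit 988) (nat_lit 3544299114) (nat_lit 1064) (nat_lit 3700298307) (nat_lit 295) (nat_lit 5) (nat_lit 308) (nat_lit 5) (nat_lit 309) (nat_lit 5) (nat_lit 364) (nat_lit 358) (nat_lit 298)) (XT.lf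 (nat_lit 76) (nat_lit 725792485) (nat_lit 0) (nat_lit 1677215729) (nat_lit 1064) (nat_lit 6035909272) (nat_lit 296) (nat_lit 5) (nat_lit 295) (nat_lit 5) (nat_lit 309) (nat_lit 5) (nat_lit 365) (nat_lit 358) (nat_lit 297)))) (XT.nd (nat_lit 156) (nat_lit 0) (nat_lit 0) (XT.nd (nat_lit 78) (nat_lit 0) (nat_lit 0) (XT.lf (nat_lit 0) (nat_lit 3755137840) (nat_lit 988) (nat_lit 3383079794) (nat_lit 1064) (nat_lit 1400440780) (nat_lit 296) (nat_lit 5) (nat_lit 309) (nat_lit 5) (nat_lit 310) (nat_lit 5) (nat_lit 366) (nat_lit 358) (nat_lit 296)) (XT.lf (nat_lit 76) (nat_lit 1053282615) (nat_lit 0) (nat_lit 4080376902) (nat_lit 1064) (nat_lit 3508176856) (nat_lit 297) (nat_lit 5) (nat_lit 296) (nat_lit 5) (nat_lit 310) (nat_lit 5) (nat_lit 367) (nat_lit 358) (nat_lit 295))) (XT.nd (nat_lit 78) (nat_lit 0) (nat_lit 76) (XT.lf (nat_lit 76) (nat_lit 5664824236) (nat_lit 0) (nat_lit 882901637) (nat_lit 1064) (nat_lit 2200577202)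 (nat_lit 297) (nat_lit 5) (nat_lit 296) (nat_lit 5) (nat_lit 310) (nat_lit 5) (nat_lit 368) (nat_lit 358) (nat_lit 294)) (XT.lf (nat_lit 76) (nat_lit 1535776797) (nat_lit 0) (nat_lit 6467680897) (nat_lit 1064) (nat_lit 854547300) (nat_lit 298) (nat_lit 5) (nat_lit 297) (nat_lit 5) (nat_lit 311) (nat_lit 5) (nat_lit 369) (nat_lit 358) (nat_lit 293))))))))
noncomputable def xc145 : XT := (XT.nd (nat_lit 2184) (nat_lit 5776) (nat_lit 0) (XT.nd (nat_lit 1092) (nat_lit 4104) (nat_lit 0) (XT.nd (nat_lit 546) (nat_lit 3724) (nat_lit 0) (XT.nd (nat_lit 234) (nat_lit 912) (nat_lit 0) (XT.nd (nat_lit 78) (nat_lit 0) (nat_lit 76) (XT.lf (nat_lit 0) (nat_lit 523451803) (nat_lit 1064) (nat_lit 2655682702) (nat_lit 1140) (nat_lit 5791668537) (nat_lit 283) (nat_lit 5) (nat_lit 297) (nat_lit 5) (nat_lit 298) (nat_lit 5) (nat_lit 370) (nat_lit 358) (nat_lit 292)) (XT.nd (nat_lit 78) (nat_lit 0) (nat_lit 0) (XT.lf (nat_lit 0)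 (nat_lit 1911625166) (nat_lit 1064) (nat_lit 6932582612) (nat_lit 1140) (nat_lit 242960081) (nat_lit 284) (nat_lit 5) (nat_lit 298) (nat_lit 5) (nat_lit 299) (nat_lit 5) (nat_lit 371) (nat_lit 358) (nat_lit 291)) (XT.lf (nat_lit 0) (nat_lit 3363803138) (nat_lit 1064) (nat_lit 2102735764) (nat_lit 1140) (nat_lit 3739830392) (nat_lit 284) (nat_lit 5) (nat_lit 298) (nat_lit 5) (nat_lit 299) (nat_lit 5) (nat_lit 372) (nat_lit 358) (nat_lit 290)))) (XT.nd (nat_lit 156) (nat_lit 988) (nat_lit 0) (XT.nd (nat_lit 78) (nat_lit 0) (nat_lit 76) (XT.lf (nat_lit 76) (nat_lit 2901068542) (nat_lit 0) (nat_lit 1951219241) (nat_lit 1140) (nat_lit 4477092723) (nat_lit 285) (nat_lit 5) (nat_lit 284) (nat_lit 5) (nat_lit 299) (nat_lit 5) (nat_lit 373) (nat_lit 358) (nat_lit 289)) (XT.lf (nat_lit 0) (nat_lit 6388603777) (nat_lit 1064) (nat_lit 1402006617) (nat_lit 76) (nat_lit 1665391866) (nat_lit 285) (nat_lit 5) (nat_lit 299)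 (nat_lit 5) (nat_lit 286) (nat_lit 5) (nat_lit 374) (nat_lit 358) (nat_lit 288))) (XT.nd (nat_lit 78) (nat_lit 0) (nat_lit 0) (XT.lf (nat_lit 0) (nat_lit 3802400919) (nat_lit 1064) (nat_lit 4191162062) (nat_lit 1140) (nat_lit 1592198133) (nat_lit 271) (nat_lit 5) (nat_lit 285) (nat_lit 5) (nat_lit 286) (nat_lit 5) (nat_lit 375) (nat_lit 358) (nat_lit 287)) (XT.lf (nat_lit 0) (nat_lit 9164384198) (nat_lit 1064) (nat_lit 463835995) (nat_lit 1140) (nat_lit 91760683) (nat_lit 271) (nat_lit 5) (nat_lit 285) (nat_lit 5) (nat_lit 286) (nat_lit 5) (nat_lit 376) (nat_lit 358) (nat_lit 286))))) (XT.nd (nat_lit 234) (nat_lit 1292) (nat_lit 0) (XT.nd (nat_lit 78) (nat_lit 1216) (nat_lit 0) (XT.lf (nat_lit 0) (nat_lit 1473372329) (nat_lit 1216) (nat_lit 5007305796) (nat_lit 76) (nat_lit 3375702199) (nat_lit 255) (nat_lit 5) (nat_lit 271) (nat_lit 5) (nat_lit 256) (nat_lit 5) (nat_lit 377) (nat_lit 358) (nat_lit 285)) (XT.nd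 (nat_lit 78) (nat_lit 0) (nat_lit 0) (XT.lf (nat_lit 0) (nat_lit 405038166) (nat_lit 1216) (nat_lit 2661458614) (nat_lit 1292) (nat_lit 6930874647) (nat_lit 239) (nat_lit 5) (nat_lit 255) (nat_lit 5) (nat_lit 256) (nat_lit 5) (nat_lit 378) (nat_lit 358) (nat_lit 284)) (XT.lf (nat_lit 0) (nat_lit 4740114310) (nat_lit 1292) (nat_lit 4099977251) (nat_lit 76) (nat_lit 1301532709) (nat_lit 239) (nat_lit 5) (nat_lit 256) (nat_lit 5) (nat_lit 240) (nat_lit 5) (nat_lit 379) (nat_lit 358) (nat_lit 283)))) (XT.nd (nat_lit 156) (nat_lit 684) (nat_lit 0) (XT.nd (nat_lit 78) (nat_lit 0) (nat_lit 0) (XT.lf (nat_lit 0) (nat_lit 1532976235) (nat_lit 608) (nat_lit 4942346506) (nat_lit 684) (nat_lit 3814553099) (nat_lit 231) (nat_lit 5) (nat_lit 239) (nat_lit 5) (nat_lit 240) (nat_lit 5) (nat_lit 380) (nat_lit 358) (nat_lit 282)) (XT.lf (nat_lit 0) (nat_lit 7391499748) (nat_lit 608) (nat_lit 883385985) (nat_lit 684) (nat_lit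 2167332519) (nat_lit 231) (nat_lit 5) (nat_lit 239) (nat_lit 5) (nat_lit 240) (nat_lit 5) (nat_lit 381) (nat_lit 358) (nat_lit 281))) (XT.nd (nat_lit 78) (nat_lit 76) (nat_lit 0) (XT.lf (nat_lit 0) (nat_lit 2822489864) (nat_lit 608) (nat_lit 7336532877) (nat_lit 684) (nat_lit 439202466) (nat_lit 223) (nat_lit 5) (nat_lit 231) (nat_lit 5) (nat_lit 232) (nat_lit 5) (nat_lit 382) (nat_lit 358) (nat_lit 280)) (XT.lf (nat_lit 0) (nat_lit 1326500472) (nat_lit 684) (nat_lit 1873333495) (nat_lit 76) (nat_lit 7558346194) (nat_lit 222) (nat_lit 5) (nat_lit 231) (nat_lit 5) (nat_lit 223) (nat_lit 5) (nat_lit 383) (nat_lit 358) (nat_lit 279)))))) (XT.nd (nat_lit 546) (nat_lit 1900) (nat_lit 0) (XT.nd (nat_lit 234) (nat_lit 1064) (nat_lit 0) (XT.nd (nat_lit 78) (nat_lit 532) (nat_lit 0) (XT.lf (nat_lit 0) (nat_lit 3160773297) (nat_lit 684) (nat_lit 6675197118) (nat_lit 76) (nat_lit 1086110978) (nat_lit 214) (nat_lit 5) (nat_lit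 223) (nat_lit 5) (nat_lit 215) (nat_lit 5) (nat_lit 384) (nat_lit 358) (nat_lit 278)) (XT.nd (nat_lit 78) (nat_lit 532) (nat_lit 0) (XT.lf (nat_lit 0) (nat_lit 5074241411) (nat_lit 684) (nat_lit 560659661) (nat_lit 76) (nat_lit 5455284141) (nat_lit 214) (nat_lit 5) (nat_lit 223) (nat_lit 5) (nat_lit 215) (nat_lit 5) (nat_lit 385) (nat_lit 358) (nat_lit 277)) (XT.lf (nat_lit 0) (nat_lit 5824199231) (nat_lit 532) (nat_lit 1251056691) (nat_lit 608) (nat_lit 4187182208) (nat_lit 207) (nat_lit 5) (nat_lit 214) (nat_lit 5) (nat_lit 215) (nat_lit 5) (nat_lit 386) (nat_lit 358) (nat_lit 276)))) (XT.nd (nat_lit 156) (nat_lit 532) (nat_lit 0) (XT.nd (nat_lit 78) (nat_lit 0) (nat_lit 0) (XT.lf (nat_lit 0) (nat_lit 931895611) (nat_lit 532) (nat_lit 8225102716) (nat_lit 608) (nat_lit 2282249338) (nat_lit 200) (nat_lit 5) (nat_lit 207) (nat_lit 5) (nat_lit 208) (nat_lit 5) (nat_lit 387) (nat_lit 358) (nat_lit 275)) (XT.lf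 (nat_lit 0) (nat_lit 7564984214) (nat_lit 532) (nat_lit 3778512062) (nat_lit 608) (nat_lit 276605780) (nat_lit 200) (nat_lit 5) (nat_lit 207) (nat_lit 5) (nat_lit 208) (nat_lit 5) (nat_lit 388) (nat_lit 358) (nat_lit 274))) (XT.nd (nat_lit 78) (nat_lit 0) (nat_lit 0) (XT.lf (nat_lit 0) (nat_lit 1762960003) (nat_lit 532) (nat_lit 9216491242) (nat_lit 76) (nat_lit 826163969) (nat_lit 193) (nat_lit 5) (nat_lit 200) (nat_lit 5) (nat_lit 194) (nat_lit 5) (nat_lit 389) (nat_lit 358) (nat_lit 273)) (XT.lf (nat_lit 0) (nat_lit 3912949684) (nat_lit 532) (nat_lit 2547346585) (nat_lit 76) (nat_lit 5534680291) (nat_lit 193) (nat_lit 5) (nat_lit 200) (nat_lit 5) (nat_lit 194) (nat_lit 5) (nat_lit 390) (nat_lit 358) (nat_lit 272))))) (XT.nd (nat_lit 234) (nat_lit 912) (nat_lit 0) (XT.nd (nat_lit 78) (nat_lit 456) (nat_lit 0) (XT.lf (nat_lit 0) (nat_lit 4381007129) (nat_lit 532) (nat_lit 1765274210) (nat_lit 608) (nat_lit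 6043180726) (nat_lit 186) (nat_lit 5) (nat_lit 193) (nat_lit 5) (nat_lit 194) (nat_lit 5) (nat_lit 391) (nat_lit 358) (nat_lit 271)) (XT.nd (nat_lit 78) (nat_lit 456) (nat_lit 0) (XT.lf (nat_lit 0) (nat_lit 8479232340) (nat_lit 608) (nat_lit 876110550) (nat_lit 76) (nat_lit 3033469001) (nat_lit 186) (nat_lit 5) (nat_lit 194) (nat_lit 5) (nat_lit 187) (nat_lit 5) (nat_lit 392) (nat_lit 358) (nat_lit 270)) (XT.lf (nat_lit 0) (nat_lit 6344552126) (nat_lit 456) (nat_lit 4593876717) (nat_lit 532) (nat_lit 1654033755) (nat_lit 180) (nat_lit 5) (nat_lit 186) (nat_lit 5) (nat_lit 187) (nat_lit 5) (nat_lit 393) (nat_lit 358) (nat_lit 269)))) (XT.nd (nat_lit 156) (nat_lit 380) (nat_lit 0) (XT.nd (nat_lit 78) (nat_lit 0) (nat_lit 0) (XT.lf (nat_lit 0) (nat_lit 655674510) (nat_lit 532) (nat_lit 11820982441) (nat_lit 76) (nat_lit 325393902) (nat_lit 173) (nat_lit 5) (nat_lit 180) (nat_lit 5) (nat_lit 174) (nat_lit 5) (nat_lit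 394) (nat_lit 358) (nat_lit 268)) (XT.lf (nat_lit 0) (nat_lit 3088948606) (nat_lit 532) (nat_lit 4550055997) (nat_lit 76) (nat_lit 5375812693) (nat_lit 173) (nat_lit 5) (nat_lit 180) (nat_lit 5) (nat_lit 174) (nat_lit 5) (nat_lit 395) (nat_lit 358) (nat_lit 267))) (XT.nd (nat_lit 78) (nat_lit 0) (nat_lit 0) (XT.lf (nat_lit 0) (nat_lit 2971220635) (nat_lit 380) (nat_lit 2631511751) (nat_lit 456) (nat_lit 7631016195) (nat_lit 168) (nat_lit 5) (nat_lit 173) (nat_lit 5) (nat_lit 174) (nat_lit 5) (nat_lit 396) (nat_lit 358) (nat_lit 266)) (XT.lf (nat_lit 0) (nat_lit 8241886528) (nat_lit 456) (nat_lit 2697285887) (nat_lit 76) (nat_lit 2518583666) (nat_lit 168) (nat_lit 5) (nat_lit 174) (nat_lit 5) (nat_lit 169) (nat_lit 5) (nat_lit 397) (nat_lit 358) (nat_lit 265))))))) (XT.nd (nat_lit 1092) (nat_lit 2584) (nat_lit 0) (XT.nd (nat_lit 546) (nat_lit 1520) (nat_lit 0) (XT.nd (nat_lit 234) (nat_lit 760) (nat_lit 0) (XT.nd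 (nat_lit 78) (nat_lit 456) (nat_lit 0) (XT.lf (nat_lit 0) (nat_lit 5143909449) (nat_lit 456) (nat_lit 5871682403) (nat_lit 532) (nat_lit 2671237435) (nat_lit 162) (nat_lit 5) (nat_lit 168) (nat_lit 5) (nat_lit 169) (nat_lit 5) (nat_lit 398) (nat_lit 358) (nat_lit 264)) (XT.nd (nat_lit 78) (nat_lit 456) (nat_lit 0) (XT.lf (nat_lit 0) (nat_lit 13250555040) (nat_lit 456) (nat_lit 629411270) (nat_lit 532) (nat_lit 42591224) (nat_lit 162) (nat_lit 5) (nat_lit 168) (nat_lit 5) (nat_lit 169) (nat_lit 5) (nat_lit 399) (nat_lit 358) (nat_lit 263)) (XT.lf (nat_lit 0) (nat_lit 2712684066) (nat_lit 456) (nat_lit 6678121753) (nat_lit 76) (nat_lit 4770796355) (nat_lit 156) (nat_lit 5) (nat_lit 162) (nat_lit 5) (nat_lit 157) (nat_lit 5) (nat_lit 400) (nat_lit 358) (nat_lit 262)))) (XT.nd (nat_lit 156) (nat_lit 380) (nat_lit 0) (XT.nd (nat_lit 78) (nat_lit 0) (nat_lit 0) (XT.lf (nat_lit 0) (nat_lit 1487063294) (nat_lit 380)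 (nat_lit 4070955502) (nat_lit 456) (nat_lit 8849545013) (nat_lit 151) (nat_lit 5) (nat_lit 156) (nat_lit 5) (nat_lit 157) (nat_lit 5) (nat_lit 401) (nat_lit 358) (nat_lit 261)) (XT.lf (nat_lit 0) (nat_lit 8551495586) (nat_lit 456) (nat_lit 4664279164) (nat_lit 76) (nat_lit 1443251931) (nat_lit 151) (nat_lit 5) (nat_lit 157) (nat_lit 5) (nat_lit 152) (nat_lit 5) (nat_lit 402) (nat_lit 358) (nat_lit 260))) (XT.nd (nat_lit 78) (nat_lit 0) (nat_lit 0) (XT.lf (nat_lit 0) (nat_lit 3849894405) (nat_lit 380) (nat_lit 7843884780) (nat_lit 456) (nat_lit 3222489856) (nat_lit 146) (nat_lit 5) (nat_lit 151) (nat_lit 5) (nat_lit 152) (nat_lit 5) (nat_lit 403) (nat_lit 358) (nat_lit 259)) (XT.lf (nat_lit 0) (nat_lit 12690793809) (nat_lit 380) (nat_lit 2268625670) (nat_lit 456) (nat_lit 220942058) (nat_lit 146) (nat_lit 5) (nat_lit 151) (nat_lit 5) (nat_lit 152) (nat_lit 5) (nat_lit 404) (nat_lit 358) (nat_lit 258))))) (XT.nd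 (nat_lit 234) (nat_lit 760) (nat_lit 0) (XT.nd (nat_lit 78) (nat_lit 304) (nat_lit 0) (XT.lf (nat_lit 0) (nat_lit 2892882425) (nat_lit 456) (nat_lit 9066219427) (nat_lit 76) (nat_lit 3490104908) (nat_lit 140) (nat_lit 5) (nat_lit 146) (nat_lit 5) (nat_lit 141) (nat_lit 5) (nat_lit 405) (nat_lit 358) (nat_lit 257)) (XT.nd (nat_lit 78) (nat_lit 304) (nat_lit 0) (XT.lf (nat_lit 0) (nat_lit 6126091022) (nat_lit 456) (nat_lit 201700158) (nat_lit 76) (nat_lit 9397353275) (nat_lit 140) (nat_lit 5) (nat_lit 146) (nat_lit 5) (nat_lit 141) (nat_lit 5) (nat_lit 406) (nat_lit 358) (nat_lit 256)) (XT.lf (nat_lit 0) (nat_lit 9082499926) (nat_lit 304) (nat_lit 444170257) (nat_lit 380) (nat_lit 6480583766) (nat_lit 136) (nat_lit 5) (nat_lit 140) (nat_lit 5) (nat_lit 141) (nat_lit 5) (nat_lit 407) (nat_lit 358) (nat_lit 255)))) (XT.nd (nat_lit 156) (nat_lit 304) (nat_lit 0) (XT.nd (nat_lit 78) (nat_lit 76) (nat_lit 0) (XT.lf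 (nat_lit 0) (nat_lit 2319147735) (nat_lit 380) (nat_lit 10771727017) (nat_lit 456) (nat_lit 3205108489) (nat_lit 131) (nat_lit 5) (nat_lit 136) (nat_lit 5) (nat_lit 137) (nat_lit 5) (nat_lit 408) (nat_lit 358) (nat_lit 254)) (XT.lf (nat_lit 0) (nat_lit 223724996) (nat_lit 456) (nat_lit 4639471642) (nat_lit 76) (nat_lit 11728382089) (nat_lit 130) (nat_lit 5) (nat_lit 136) (nat_lit 5) (nat_lit 131) (nat_lit 5) (nat_lit 409) (nat_lit 358) (nat_lit 253))) (XT.nd (nat_lit 78) (nat_lit 0) (nat_lit 0) (XT.lf (nat_lit 0) (nat_lit 3735600291) (nat_lit 380) (nat_lit 11885456100) (nat_lit 76) (nat_lit 1272700137) (nat_lit 126) (nat_lit 5) (nat_lit 131) (nat_lit 5) (nat_lit 127) (nat_lit 5) (nat_lit 410) (nat_lit 358) (nat_lit 252)) (XT.lf (nat_lit 0) (nat_lit 7432331431) (nat_lit 380) (nat_lit 2234893617) (nat_lit 76) (nat_lit 7535393852) (nat_lit 126) (nat_lit 5) (nat_lit 131) (nat_lit 5) (nat_lit 127) (nat_lit 5) (nat_lit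 411) (nat_lit 358) (nat_lit 251)))))) (XT.nd (nat_lit 546) (nat_lit 1368) (nat_lit 0) (XT.nd (nat_lit 234) (nat_lit 532) (nat_lit 0) (XT.nd (nat_lit 78) (nat_lit 380) (nat_lit 0) (XT.lf (nat_lit 0) (nat_lit 7835467028) (nat_lit 304) (nat_lit 3464317461) (nat_lit 380) (nat_lit 6219172156) (nat_lit 122) (nat_lit 5) (nat_lit 126) (nat_lit 5) (nat_lit 127) (nat_lit 5) (nat_lit 412) (nat_lit 358) (nat_lit 250)) (XT.nd (nat_lit 78) (nat_lit 76) (nat_lit 0) (XT.lf (nat_lit 0) (nat_lit 365653642) (nat_lit 304) (nat_lit 14956695943) (nat_lit 380) (nat_lit 2521266264) (nat_lit 118) (nat_lit 5) (nat_lit 122) (nat_lit 5) (nat_lit 123) (nat_lit 5) (nat_lit 413) (nat_lit 358) (nat_lit 249)) (XT.lf (nat_lit 0) (nat_lit 1380248748) (nat_lit 380) (nat_lit 7330825801) (nat_lit 76) (nat_lit 9463038811) (nat_lit 117) (nat_lit 5) (nat_lit 122) (nat_lit 5) (nat_lit 118) (nat_lit 5) (nat_lit 414) (nat_lit 358) (nat_lit 248)))) (XT.nd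 (nat_lit 156) (nat_lit 228) (nat_lit 0) (XT.nd (nat_lit 78) (nat_lit 0) (nat_lit 0) (XT.lf (nat_lit 0) (nat_lit 3134725201) (nat_lit 304) (nat_lit 2228730897) (nat_lit 380) (nat_lit 13149864795) (nat_lit 113) (nat_lit 5) (nat_lit 117) (nat_lit 5) (nat_lit 118) (nat_lit 5) (nat_lit 415) (nat_lit 358) (nat_lit 247)) (XT.lf (nat_lit 0) (nat_lit 9569015130) (nat_lit 380) (nat_lit 4861815698) (nat_lit 76) (nat_lit 4428791698) (nat_lit 113) (nat_lit 5) (nat_lit 118) (nat_lit 5) (nat_lit 114) (nat_lit 5) (nat_lit 416) (nat_lit 358) (nat_lit 246))) (XT.nd (nat_lit 78) (nat_lit 0) (nat_lit 0) (XT.lf (nat_lit 0) (nat_lit 6044646405) (nat_lit 228) (nat_lit 7922030920) (nat_lit 304) (nat_lit 5247661226) (nat_lit 110) (nat_lit 5) (nat_lit 113) (nat_lit 5) (nat_lit 114) (nat_lit 5) (nat_lit 417) (nat_lit 358) (nat_lit 245)) (XT.lf (nat_lit 0) (nat_lit 17356470174) (nat_lit 228) (nat_lit 1174866924) (nat_lit 304) (nat_lit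 1047310262) (nat_lit 110) (nat_lit 5) (nat_lit 113) (nat_lit 5) (nat_lit 114) (nat_lit 5) (nat_lit 418) (nat_lit 358) (nat_lit 244))))) (XT.nd (nat_lit 312) (nat_lit 532) (nat_lit 0) (XT.nd (nat_lit 156) (nat_lit 228) (nat_lit 0) (XT.nd (nat_lit 78) (nat_lit 228) (nat_lit 0) (XT.lf (nat_lit 0) (nat_lit 3346179476) (nat_lit 380) (nat_lit 10827096184) (nat_lit 76) (nat_lit 5775733880) (nat_lit 105) (nat_lit 5) (nat_lit 110) (nat_lit 5) (nat_lit 106) (nat_lit 5) (nat_lit 419) (nat_lit 358) (nat_lit 243)) (XT.lf (nat_lit 0) (nat_lit 488093174) (nat_lit 228) (nat_lit 7387688740) (nat_lit 304) (nat_lit 12453631903) (nat_lit 102) (nat_lit 5) (nat_lit 105) (nat_lit 5) (nat_lit 106) (nat_lit 5) (nat_lit 420) (nat_lit 358) (nat_lit 242))) (XT.nd (nat_lit 78) (nat_lit 228) (nat_lit 0) (XT.lf (nat_lit 0) (nat_lit 12343614643) (nat_lit 228) (nat_lit 293556542) (nat_lit 304) (nat_lit 8081185037) (nat_lit 102) (nat_lit 5)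 (nat_lit 105) (nat_lit 5) (nat_lit 106) (nat_lit 5) (nat_lit 421) (nat_lit 358) (nat_lit 241)) (XT.lf (nat_lit 0) (nat_lit 3414264687) (nat_lit 228) (nat_lit 14214260873) (nat_lit 304) (nat_lit 3487830515) (nat_lit 99) (nat_lit 5) (nat_lit 102) (nat_lit 5) (nat_lit 103) (nat_lit 5) (nat_lit 422) (nat_lit 358) (nat_lit 240)))) (XT.nd (nat_lit 156) (nat_lit 228) (nat_lit 0) (XT.nd (nat_lit 78) (nat_lit 228) (nat_lit 0) (XT.lf (nat_lit 0) (nat_lit 1294314947) (nat_lit 304) (nat_lit 5831675757) (nat_lit 76) (nat_lit 14397691820) (nat_lit 98) (nat_lit 5) (nat_lit 102) (nat_lit 5) (nat_lit 99) (nat_lit 5) (nat_lit 423) (nat_lit 358) (nat_lit 239)) (XT.lf (nat_lit 0) (nat_lit 6201867006) (nat_lit 304) (nat_lit 15477007484) (nat_lit 76) (nat_lit 261759595) (nat_lit 95) (nat_lit 5) (nat_lit 99) (nat_lit 5) (nat_lit 96) (nat_lit 5) (nat_lit 424) (nat_lit 358) (nat_lit 238))) (XT.nd (nat_lit 78) (nat_lit 228) (nat_lit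 0) (XT.lf (nat_lit 0) (nat_lit 11374096091) (nat_lit 304) (nat_lit 3212469962) (nat_lit 76) (nat_lit 7780007182) (nat_lit 95) (nat_lit 5) (nat_lit 99) (nat_lit 5) (nat_lit 96) (nat_lit 5) (nat_lit 425) (nat_lit 358) (nat_lit 237)) (XT.lf (nat_lit 0) (nat_lit 9587342934) (nat_lit 228) (nat_lit 7194099350) (nat_lit 304) (nat_lit 6021452249) (nat_lit 92) (nat_lit 5) (nat_lit 95) (nat_lit 5) (nat_lit 96) (nat_lit 5) (nat_lit 426) (nat_lit 358) (nat_lit 236))))))))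
noncomputable def xc146 : XT := (XT.nd (nat_lit 2184) (nat_lit 1748) (nat_lit 0) (XT.nd (nat_lit 1092) (nat_lit 1292) (nat_lit 0) (XT.nd (nat_lit 546) (nat_lit 760) (nat_lit 0) (XT.nd (nat_lit 234) (nat_lit 456) (nat_lit 0) (XT.nd (nat_lit 78) (nat_lit 532) (nat_lit 0) (XT.lf (nat_lit 0) (nat_lit 22375694672) (nat_lit 304) (nat_lit 438531662) (nat_lit 76) (nat_lit 437340973) (nat_lit 92) (nat_lit 5) (nat_lit 96) (nat_lit 5) (nat_lit 93) (nat_lit 5) (nat_lit 427) (nat_lit 358) (nat_lit 235)) (XT.nd (nat_lit 78) (nat_lit 228) (nat_lit 0) (XT.lf (nat_lit 0) (nat_lit 4522861525) (nat_lit 304) (nat_lit 10869851647) (nat_lit 76) (nat_lit 8314160051) (nat_lit 88) (nat_lit 5) (nat_lit 92) (nat_lit 5) (nat_lit 89) (nat_lit 5) (nat_lit 428) (nat_lit 358) (nat_lit 234)) (XT.lf (nat_lit 0) (nat_lit 2362193590) (nat_lit 228) (nat_lit 7719220186) (nat_lit 304) (nat_lit 14093702776) (nat_lit 85) (nat_lit 5) (nat_lit 88) (nat_lit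 5) (nat_lit 89) (nat_lit 5) (nat_lit 429) (nat_lit 358) (nat_lit 233)))) (XT.nd (nat_lit 156) (nat_lit 304) (nat_lit 0) (XT.nd (nat_lit 78) (nat_lit 152) (nat_lit 0) (XT.lf (nat_lit 0) (nat_lit 15907712947) (nat_lit 304) (nat_lit 8462350715) (nat_lit 76) (nat_lit 284315952) (nat_lit 85) (nat_lit 5) (nat_lit 89) (nat_lit 5) (nat_lit 86) (nat_lit 5) (nat_lit 430) (nat_lit 358) (nat_lit 232)) (XT.lf (nat_lit 0) (nat_lit 5296838298) (nat_lit 152) (nat_lit 16728012094) (nat_lit 228) (nat_lit 3119690773) (nat_lit 83) (nat_lit 5) (nat_lit 85) (nat_lit 5) (nat_lit 86) (nat_lit 5) (nat_lit 431) (nat_lit 358) (nat_lit 231))) (XT.nd (nat_lit 78) (nat_lit 228) (nat_lit 0) (XT.lf (nat_lit 0) (nat_lit 2698915701) (nat_lit 228) (nat_lit 6050015667) (nat_lit 76) (nat_lit 16897455180) (nat_lit 82) (nat_lit 5) (nat_lit 85) (nat_lit 5) (nat_lit 83) (nat_lit 5) (nat_lit 432) (nat_lit 358) (nat_lit 230)) (XT.lf (nat_lit 0) (nat_lit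 8273842071) (nat_lit 228) (nat_lit 424139052) (nat_lit 304) (nat_lit 17462323327) (nat_lit 79) (nat_lit 5) (nat_lit 82) (nat_lit 5) (nat_lit 83) (nat_lit 5) (nat_lit 433) (nat_lit 358) (nat_lit 229))))) (XT.nd (nat_lit 234) (nat_lit 532) (nat_lit 0) (XT.nd (nat_lit 78) (nat_lit 228) (nat_lit 0) (XT.lf (nat_lit 0) (nat_lit 15006206693) (nat_lit 304) (nat_lit 3633723185) (nat_lit 76) (nat_lit 8045836212) (nat_lit 79) (nat_lit 5) (nat_lit 83) (nat_lit 5) (nat_lit 80) (nat_lit 5) (nat_lit 434) (nat_lit 358) (nat_lit 228)) (XT.nd (nat_lit 78) (nat_lit 76) (nat_lit 0) (XT.lf (nat_lit 0) (nat_lit 11243945021) (nat_lit 152) (nat_lit 10361476697) (nat_lit 228) (nat_lit 5618519374) (nat_lit 77) (nat_lit 5) (nat_lit 79) (nat_lit 5) (nat_lit 80) (nat_lit 5) (nat_lit 435) (nat_lit 358) (nat_lit 227)) (XT.lf (nat_lit 0) (nat_lit 638717150) (nat_lit 228) (nat_lit 1158993775) (nat_lit 76) (nat_lit 25979575599) (nat_lit 76)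 (nat_lit 5) (nat_lit 79) (nat_lit 5) (nat_lit 77) (nat_lit 5) (nat_lit 436) (nat_lit 358) (nat_lit 226)))) (XT.nd (nat_lit 156) (nat_lit 152) (nat_lit 0) (XT.nd (nat_lit 78) (nat_lit 152) (nat_lit 0) (XT.lf (nat_lit 0) (nat_lit 7167479741) (nat_lit 304) (nat_lit 14098168213) (nat_lit 76) (nat_lit 7074015067) (nat_lit 73) (nat_lit 5) (nat_lit 77) (nat_lit 5) (nat_lit 74) (nat_lit 5) (nat_lit 437) (nat_lit 358) (nat_lit 225)) (XT.lf (nat_lit 0) (nat_lit 1197200575) (nat_lit 152) (nat_lit 12725892483) (nat_lit 228) (nat_lit 14994889716) (nat_lit 71) (nat_lit 5) (nat_lit 73) (nat_lit 5) (nat_lit 74) (nat_lit 5) (nat_lit 438) (nat_lit 358) (nat_lit 224))) (XT.nd (nat_lit 78) (nat_lit 152) (nat_lit 0) (XT.lf (nat_lit 0) (nat_lit 17223157358) (nat_lit 152) (nat_lit 3790571618) (nat_lit 228) (nat_lit 8495954061) (nat_lit 71) (nat_lit 5) (nat_lit 73) (nat_lit 5) (nat_lit 74) (nat_lit 5) (nat_lit 439) (nat_lit 358) (nat_lit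 223)) (XT.lf (nat_lit 0) (nat_lit 3612220836) (nat_lit 152) (nat_lit 24781831359) (nat_lit 228) (nat_lit 1722774569) (nat_lit 69) (nat_lit 5) (nat_lit 71) (nat_lit 5) (nat_lit 72) (nat_lit 5) (nat_lit 440) (nat_lit 358) (nat_lit 222)))))) (XT.nd (nat_lit 546) (nat_lit 684) (nat_lit 0) (XT.nd (nat_lit 234) (nat_lit 380) (nat_lit 0) (XT.nd (nat_lit 78) (nat_lit 152) (nat_lit 0) (XT.lf (nat_lit 0) (nat_lit 5304152574) (nat_lit 228) (nat_lit 10604953829) (nat_lit 76) (nat_lit 14826972721) (nat_lit 68) (nat_lit 5) (nat_lit 71) (nat_lit 5) (nat_lit 69) (nat_lit 5) (nat_lit 441) (nat_lit 358) (nat_lit 221)) (XT.nd (nat_lit 78) (nat_lit 0) (nat_lit 0) (XT.lf (nat_lit 0) (nat_lit 5852303030) (nat_lit 152) (nat_lit 6701738909) (nat_lit 228) (nat_lit 18817953362) (nat_lit 66) (nat_lit 5) (nat_lit 68) (nat_lit 5) (nat_lit 69) (nat_lit 5) (nat_lit 442) (nat_lit 358) (nat_lit 220)) (XT.lf (nat_lit 0) (nat_lit 20146894211)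 (nat_lit 228) (nat_lit 9047488441) (nat_lit 76) (nat_lit 2828843658) (nat_lit 66) (nat_lit 5) (nat_lit 69) (nat_lit 5) (nat_lit 67) (nat_lit 5) (nat_lit 443) (nat_lit 358) (nat_lit 219)))) (XT.nd (nat_lit 156) (nat_lit 152) (nat_lit 0) (XT.nd (nat_lit 78) (nat_lit 76) (nat_lit 0) (XT.lf (nat_lit 0) (nat_lit 7992391121) (nat_lit 152) (nat_lit 20109172879) (nat_lit 228) (nat_lit 4588410585) (nat_lit 64) (nat_lit 5) (nat_lit 66) (nat_lit 5) (nat_lit 67) (nat_lit 5) (nat_lit 444) (nat_lit 358) (nat_lit 218)) (XT.lf (nat_lit 0) (nat_lit 2944344372) (nat_lit 228) (nat_lit 7690130268) (nat_lit 76) (nat_lit 22738916177) (nat_lit 63) (nat_lit 5) (nat_lit 66) (nat_lit 5) (nat_lit 64) (nat_lit 5) (nat_lit 445) (nat_lit 358) (nat_lit 217))) (XT.nd (nat_lit 78) (nat_lit 0) (nat_lit 0) (XT.lf (nat_lit 0) (nat_lit 9960836151) (nat_lit 152) (nat_lit 736911729) (nat_lit 228) (nat_lit 23375593294) (nat_lit 61) (nat_lit 5) (nat_lit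 63) (nat_lit 5) (nat_lit 64) (nat_lit 5) (nat_lit 446) (nat_lit 358) (nat_lit 216)) (XT.lf (nat_lit 0) (nat_lit 18844272636) (nat_lit 228) (nat_lit 6600367342) (nat_lit 76) (nat_lit 9344835641) (nat_lit 61) (nat_lit 5) (nat_lit 64) (nat_lit 5) (nat_lit 62) (nat_lit 5) (nat_lit 447) (nat_lit 358) (nat_lit 215))))) (XT.nd (nat_lit 234) (nat_lit 304) (nat_lit 0) (XT.nd (nat_lit 78) (nat_lit 228) (nat_lit 0) (XT.lf (nat_lit 0) (nat_lit 11641770645) (nat_lit 152) (nat_lit 15704066286) (nat_lit 228) (nat_lit 8177938969) (nat_lit 59) (nat_lit 5) (nat_lit 61) (nat_lit 5) (nat_lit 62) (nat_lit 5) (nat_lit 448) (nat_lit 358) (nat_lit 214)) (XT.nd (nat_lit 78) (nat_lit 228) (nat_lit 0) (XT.lf (nat_lit 0) (nat_lit 30551382704) (nat_lit 152) (nat_lit 5609260301) (nat_lit 228) (nat_lit 117717423) (nat_lit 59) (nat_lit 5) (nat_lit 61) (nat_lit 5) (nat_lit 62) (nat_lit 5) (nat_lit 449) (nat_lit 358) (nat_lit 213)) (XT.lf (nat_lit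 0) (nat_lit 8190575516) (nat_lit 228) (nat_lit 23962147459) (nat_lit 76) (nat_lit 4895521259) (nat_lit 56) (nat_lit 5) (nat_lit 59) (nat_lit 5) (nat_lit 57) (nat_lit 5) (nat_lit 450) (nat_lit 358) (nat_lit 212)))) (XT.nd (nat_lit 156) (nat_lit 152) (nat_lit 0) (XT.nd (nat_lit 78) (nat_lit 152) (nat_lit 0) (XT.lf (nat_lit 0) (nat_lit 16851438532) (nat_lit 228) (nat_lit 5330660809) (nat_lit 76) (nat_lit 15655920620) (nat_lit 56) (nat_lit 5) (nat_lit 59) (nat_lit 5) (nat_lit 57) (nat_lit 5) (nat_lit 451) (nat_lit 358) (nat_lit 211)) (XT.lf (nat_lit 0) (nat_lit 14120895905) (nat_lit 152) (nat_lit 11778956853) (nat_lit 228) (nat_lit 12747805405) (nat_lit 54) (nat_lit 5) (nat_lit 56) (nat_lit 5) (nat_lit 57) (nat_lit 5) (nat_lit 452) (nat_lit 358) (nat_lit 210))) (XT.nd (nat_lit 78) (nat_lit 152) (nat_lit 0) (XT.lf (nat_lit 0) (nat_lit 34250989981) (nat_lit 152) (nat_lit 1014641389) (nat_lit 228) (nat_lit 4214577720)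 (nat_lit 54) (nat_lit 5) (nat_lit 56) (nat_lit 5) (nat_lit 57) (nat_lit 5) (nat_lit 453) (nat_lit 358) (nat_lit 209)) (XT.lf (nat_lit 0) (nat_lit 4719262614) (nat_lit 152) (nat_lit 25551366828) (nat_lit 76) (nat_lit 10058772244) (nat_lit 52) (nat_lit 5) (nat_lit 54) (nat_lit 5) (nat_lit 53) (nat_lit 5) (nat_lit 454) (nat_lit 358) (nat_lit 208))))))) (XT.nd (nat_lit 1092) (nat_lit 836) (nat_lit 0) (XT.nd (nat_lit 546) (nat_lit 456) (nat_lit 0) (XT.nd (nat_lit 234) (nat_lit 304) (nat_lit 0) (XT.nd (nat_lit 78) (nat_lit 152) (nat_lit 0) (XT.lf (nat_lit 0) (nat_lit 13892052224) (nat_lit 152) (nat_lit 5776138714) (nat_lit 76) (nat_lit 21532958837) (nat_lit 52) (nat_lit 5) (nat_lit 54) (nat_lit 5) (nat_lit 53) (nat_lit 5) (nat_lit 455) (nat_lit 358) (nat_lit 207)) (XT.nd (nat_lit 78) (nat_lit 0) (nat_lit 0) (XT.lf (nat_lit 0) (nat_lit 14868844506) (nat_lit 152) (nat_lit 8606603882) (nat_lit 228) (nat_lit 18619540064)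 (nat_lit 50) (nat_lit 5) (nat_lit 52) (nat_lit 5) (nat_lit 53) (nat_lit 5) (nat_lit 456) (nat_lit 358) (nat_lit 206)) (XT.lf (nat_lit 0) (nat_lit 33424564894) (nat_lit 228) (nat_lit 6803353656) (nat_lit 76) (nat_lit 2785377994) (nat_lit 50) (nat_lit 5) (nat_lit 53) (nat_lit 5) (nat_lit 51) (nat_lit 4) (nat_lit 457) (nat_lit 358) (nat_lit 205)))) (XT.nd (nat_lit 156) (nat_lit 152) (nat_lit 0) (XT.nd (nat_lit 78) (nat_lit 76) (nat_lit 0) (XT.lf (nat_lit 0) (nat_lit 14414914337) (nat_lit 76) (nat_lit 29473761719) (nat_lit 152) (nat_lit 63982969) (nat_lit 49) (nat_lit 5) (nat_lit 50) (nat_lit 5) (nat_lit 51) (nat_lit 4) (nat_lit 458) (nat_lit 358) (nat_lit 204)) (XT.lf (nat_lit 0) (nat_lit 9618454947) (nat_lit 152) (nat_lit 8616612255) (nat_lit 76) (nat_lit 26680461149) (nat_lit 48) (nat_lit 5) (nat_lit 50) (nat_lit 5) (nat_lit 49) (nat_lit 5) (nat_lit 459) (nat_lit 358) (nat_lit 203))) (XT.nd (nat_lit 78) (nat_lit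 0) (nat_lit 0) (XT.lf (nat_lit 0) (nat_lit 13175719866) (nat_lit 152) (nat_lit 6533979744) (nat_lit 228) (nat_lit 26193977270) (nat_lit 46) (nat_lit 5) (nat_lit 48) (nat_lit 5) (nat_lit 49) (nat_lit 5) (nat_lit 460) (nat_lit 358) (nat_lit 202)) (XT.lf (nat_lit 0) (nat_lit 30237590244) (nat_lit 228) (nat_lit 11187243936) (nat_lit 76) (nat_lit 5492619122) (nat_lit 46) (nat_lit 5) (nat_lit 49) (nat_lit 5) (nat_lit 47) (nat_lit 4) (nat_lit 461) (nat_lit 358) (nat_lit 201))))) (XT.nd (nat_lit 234) (nat_lit 152) (nat_lit 0) (XT.nd (nat_lit 78) (nat_lit 228) (nat_lit 0) (XT.lf (nat_lit 0) (nat_lit 11139819136) (nat_lit 76) (nat_lit 30106470693) (nat_lit 152) (nat_lit 6710404697) (nat_lit 45) (nat_lit 5) (nat_lit 46) (nat_lit 5) (nat_lit 47) (nat_lit 4) (nat_lit 462) (nat_lit 358) (nat_lit 200)) (XT.nd (nat_lit 78) (nat_lit 152) (nat_lit 0) (XT.lf (nat_lit 0) (nat_lit 3596001095) (nat_lit 152) (nat_lit 14705593007)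 (nat_lit 76) (nat_lit 30721274559) (nat_lit 44) (nat_lit 5) (nat_lit 46) (nat_lit 5) (nat_lit 45) (nat_lit 5) (nat_lit 463) (nat_lit 358) (nat_lit 199)) (XT.lf (nat_lit 0) (nat_lit 8149409389) (nat_lit 152) (nat_lit 5999060137) (nat_lit 228) (nat_lit 35968413634) (nat_lit 42) (nat_lit 5) (nat_lit 44) (nat_lit 5) (nat_lit 45) (nat_lit 5) (nat_lit 464) (nat_lit 358) (nat_lit 198)))) (XT.nd (nat_lit 156) (nat_lit 76) (nat_lit 0) (XT.nd (nat_lit 78) (nat_lit 76) (nat_lit 0) (XT.lf (nat_lit 0) (nat_lit 25225048831) (nat_lit 228) (nat_lit 19325588122) (nat_lit 76) (nat_lit 6686855638) (nat_lit 42) (nat_lit 5) (nat_lit 45) (nat_lit 5) (nat_lit 43) (nat_lit 4) (nat_lit 465) (nat_lit 358) (nat_lit 197)) (XT.lf (nat_lit 0) (nat_lit 4002388427) (nat_lit 76) (nat_lit 32723026796) (nat_lit 152) (nat_lit 15663560974) (nat_lit 41) (nat_lit 5) (nat_lit 42) (nat_lit 5) (nat_lit 43) (nat_lit 4) (nat_lit 466) (nat_lit 358) (nat_lit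 196))) (XT.nd (nat_lit 78) (nat_lit 76) (nat_lit 0) (XT.lf (nat_lit 0) (nat_lit 28414606210) (nat_lit 76) (nat_lit 20345029465) (nat_lit 152) (nat_lit 4809703909) (nat_lit 41) (nat_lit 5) (nat_lit 42) (nat_lit 5) (nat_lit 43) (nat_lit 4) (nat_lit 467) (nat_lit 358) (nat_lit 195)) (XT.lf (nat_lit 0) (nat_lit 6239286796) (nat_lit 152) (nat_lit 1298688424) (nat_lit 76) (nat_lit 47245487832) (nat_lit 40) (nat_lit 5) (nat_lit 42) (nat_lit 5) (nat_lit 41) (nat_lit 5) (nat_lit 468) (nat_lit 358) (nat_lit 194)))))) (XT.nd (nat_lit 546) (nat_lit 380) (nat_lit 0) (XT.nd (nat_lit 234) (nat_lit 228) (nat_lit 0) (XT.nd (nat_lit 78) (nat_lit 76) (nat_lit 0) (XT.lf (nat_lit 0) (nat_lit 17801680338) (nat_lit 228) (nat_lit 32406725860) (nat_lit 76) (nat_lit 5815817816) (nat_lit 38) (nat_lit 5) (nat_lit 41) (nat_lit 5) (nat_lit 39) (nat_lit 4) (nat_lit 469) (nat_lit 358) (nat_lit 193)) (XT.nd (nat_lit 78) (nat_lit 76) (nat_lit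 0) (XT.lf (nat_lit 0) (nat_lit 29792837132) (nat_lit 228) (nat_lit 8080003734) (nat_lit 76) (nat_lit 19426910698) (nat_lit 38) (nat_lit 5) (nat_lit 41) (nat_lit 5) (nat_lit 39) (nat_lit 4) (nat_lit 470) (nat_lit 358) (nat_lit 192)) (XT.lf (nat_lit 0) (nat_lit 17303277810) (nat_lit 76) (nat_lit 25000968838) (nat_lit 152) (nat_lit 16304483242) (nat_lit 37) (nat_lit 5) (nat_lit 38) (nat_lit 5) (nat_lit 39) (nat_lit 4) (nat_lit 471) (nat_lit 358) (nat_lit 191)))) (XT.nd (nat_lit 156) (nat_lit 0) (nat_lit 0) (XT.nd (nat_lit 78) (nat_lit 228) (nat_lit 0) (XT.lf (nat_lit 0) (nat_lit 43602905217) (nat_lit 76) (nat_lit 11663939355) (nat_lit 152) (nat_lit 4687858081) (nat_lit 37) (nat_lit 5) (nat_lit 38) (nat_lit 5) (nat_lit 39) (nat_lit 4) (nat_lit 472) (nat_lit 358) (nat_lit 190)) (XT.lf (nat_lit 0) (nat_lit 7241981171) (nat_lit 228) (nat_lit 51903452862) (nat_lit 76) (nat_lit 2190320780) (nat_lit 34) (nat_lit 5) (nat_lit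 37) (nat_lit 5) (nat_lit 35) (nat_lit 4) (nat_lit 473) (nat_lit 358) (nat_lit 189))) (XT.nd (nat_lit 78) (nat_lit 0) (nat_lit 0) (XT.lf (nat_lit 0) (nat_lit 19712116594) (nat_lit 228) (nat_lit 26602298439) (nat_lit 76) (nat_lit 16434132835) (nat_lit 34) (nat_lit 5) (nat_lit 37) (nat_lit 5) (nat_lit 35) (nat_lit 4) (nat_lit 474) (nat_lit 358) (nat_lit 188)) (XT.lf (nat_lit 0) (nat_lit 32550901512) (nat_lit 228) (nat_lit 552400478) (nat_lit 76) (nat_lit 31100586783) (nat_lit 34) (nat_lit 5) (nat_lit 37) (nat_lit 5) (nat_lit 35) (nat_lit 4) (nat_lit 475) (nat_lit 358) (nat_lit 187))))) (XT.nd (nat_lit 312) (nat_lit 152) (nat_lit 0) (XT.nd (nat_lit 156) (nat_lit 152) (nat_lit 0) (XT.nd (nat_lit 78) (nat_lit 0) (nat_lit 0) (XT.lf (nat_lit 0) (nat_lit 26791807736) (nat_lit 76) (nat_lit 19235285790) (nat_lit 152) (nat_lit 19668229481) (nat_lit 33) (nat_lit 5) (nat_lit 34) (nat_lit 5) (nat_lit 35) (nat_lit 4) (nat_lit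 476) (nat_lit 358) (nat_lit 186)) (XT.lf (nat_lit 0) (nat_lit 54957772467) (nat_lit 76) (nat_lit 4950140442) (nat_lit 152) (nat_lit 7323577508) (nat_lit 33) (nat_lit 5) (nat_lit 34) (nat_lit 5) (nat_lit 35) (nat_lit 4) (nat_lit 477) (nat_lit 358) (nat_lit 185))) (XT.nd (nat_lit 78) (nat_lit 0) (nat_lit 0) (XT.lf (nat_lit 0) (nat_lit 5524835837) (nat_lit 152) (nat_lit 53509861862) (nat_lit 76) (nat_lit 9770331927) (nat_lit 31) (nat_lit 5) (nat_lit 33) (nat_lit 5) (nat_lit 32) (nat_lit 4) (nat_lit 478) (nat_lit 358) (nat_lit 184)) (XT.lf (nat_lit 0) (nat_lit 18780562648) (nat_lit 152) (nat_lit 26611808383) (nat_lit 76) (nat_lit 25026157291) (nat_lit 31) (nat_lit 5) (nat_lit 33) (nat_lit 5) (nat_lit 32) (nat_lit 4) (nat_lit 479) (nat_lit 358) (nat_lit 183)))) (XT.nd (nat_lit 156) (nat_lit 76) (nat_lit 0) (XT.nd (nat_lit 78) (nat_lit 0) (nat_lit 0) (XT.lf (nat_lit 0) (nat_lit 1105316839) (nat_lit 76) (nat_lit 31334297379)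 (nat_lit 152) (nat_lit 39640648526) (nat_lit 30) (nat_lit 5) (nat_lit 31) (nat_lit 5) (nat_lit 32) (nat_lit 4) (nat_lit 480) (nat_lit 358) (nat_lit 182)) (XT.lf (nat_lit 0) (nat_lit 30190125761) (nat_lit 76) (nat_lit 16582121607) (nat_lit 152) (nat_lit 27011687870) (nat_lit 30) (nat_lit 5) (nat_lit 31) (nat_lit 5) (nat_lit 32) (nat_lit 4) (nat_lit 481) (nat_lit 358) (nat_lit 181))) (XT.nd (nat_lit 78) (nat_lit 76) (nat_lit 0) (XT.lf (nat_lit 0) (nat_lit 60138405128) (nat_lit 76) (nat_lit 1391680549) (nat_lit 152) (nat_lit 14008775779) (nat_lit 30) (nat_lit 5) (nat_lit 31) (nat_lit 5) (nat_lit 32) (nat_lit 4) (nat_lit 482) (nat_lit 358) (nat_lit 180)) (XT.lf (nat_lit 0) (nat_lit 13761298417) (nat_lit 76) (nat_lit 63233990537) (nat_lit 76) (nat_lit 343207934) (nat_lit 29) (nat_lit 4) (nat_lit 30) (nat_lit 5) (nat_lit 30) (nat_lit 4) (nat_lit 483) (nat_lit 358) (nat_lit 179))))))))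
noncomputable def xc147 : XT := (XT.nd (nat_lit 45240) (nat_lit 0) (nat_lit 7524) (XT.nd (nat_lit 44148) (nat_lit 0) (nat_lit 15504) (XT.nd (nat_lit 43602) (nat_lit 0) (nat_lit 20292) (XT.nd (nat_lit 234) (nat_lit 0) (nat_lit 0) (XT.nd (nat_lit 78) (nat_lit 76) (nat_lit 0) (XT.lf (nat_lit 0) (nat_lit 13630523316) (nat_lit 152) (nat_lit 35230092852) (nat_lit 76) (nat_lit 30322560508) (nat_lit 28) (nat_lit 5) (nat_lit 30) (nat_lit 5) (nat_lit 29) (nat_lit 4) (nat_lit 484) (nat_lit 358) (nat_lit 178)) (XT.nd (nat_lit 78) (nat_lit 76) (nat_lit 0) (XT.lf (nat_lit 0) (nat_lit 28012034733) (nat_lit 152) (nat_lit 6044627184) (nat_lit 76) (nat_lit 47026569303) (nat_lit 28) (nat_lit 5) (nat_lit 30) (nat_lit 5) (nat_lit 29) (nat_lit 4) (nat_lit 485) (nat_lit 358) (nat_lit 177)) (XT.lf (nat_lit 0) (nat_lit 24485805785) (nat_lit 76) (nat_lit 18570156665) (nat_lit 152) (nat_lit 39977396106) (nat_lit 27) (nat_lit 5) (nat_lit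 28) (nat_lit 5) (nat_lit 29) (nat_lit 4) (nat_lit 486) (nat_lit 358) (nat_lit 176)))) (XT.nd (nat_lit 43212) (nat_lit 0) (nat_lit 21204) (XT.nd (nat_lit 43134) (nat_lit 0) (nat_lit 21204) (XT.lf (nat_lit 0) (nat_lit 56047740123) (nat_lit 76) (nat_lit 2560153393) (nat_lit 152) (nat_lit 26432395910) (nat_lit 27) (nat_lit 5) (nat_lit 28) (nat_lit 5) (nat_lit 29) (nat_lit 4) (nat_lit 487) (nat_lit 358) (nat_lit 175)) (XT.lf (nat_lit 0) (nat_lit 1957115453) (nat_lit 988) (nat_lit 1017404809) (nat_lit 988) (nat_lit 1017404809) (nat_lit 306) (nat_lit 3) (nat_lit 319) (nat_lit 3) (nat_lit 319) (nat_lit 5) (nat_lit 359) (nat_lit 359) (nat_lit 302))) (XT.nd (nat_lit 78) (nat_lit 0) (nat_lit 0) (XT.lf (nat_lit 76) (nat_lit 1865503532) (nat_lit 0) (nat_lit 3315504858) (nat_lit 988) (nat_lit 2885756456) (nat_lit 307) (nat_lit 5) (nat_lit 306) (nat_lit 3) (nat_lit 319) (nat_lit 5) (nat_lit 360) (nat_lit 359) (nat_lit 301))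 (XT.lf (nat_lit 76) (nat_lit 5900129185) (nat_lit 0) (nat_lit 559525463) (nat_lit 988) (nat_lit 1693319841) (nat_lit 307) (nat_lit 5) (nat_lit 306) (nat_lit 3) (nat_lit 319) (nat_lit 5) (nat_lit 361) (nat_lit 359) (nat_lit 300))))) (XT.nd (nat_lit 234) (nat_lit 0) (nat_lit 76) (XT.nd (nat_lit 78) (nat_lit 988) (nat_lit 0) (XT.lf (nat_lit 76) (nat_lit 1801990189) (nat_lit 0) (nat_lit 5968785766) (nat_lit 988) (nat_lit 471193774) (nat_lit 308) (nat_lit 5) (nat_lit 307) (nat_lit 5) (nat_lit 320) (nat_lit 5) (nat_lit 362) (nat_lit 359) (nat_lit 299)) (XT.nd (nat_lit 78) (nat_lit 0) (nat_lit 0) (XT.lf (nat_lit 0) (nat_lit 756242644) (nat_lit 988) (nat_lit 2347583487) (nat_lit 1064) (nat_lit 5230082574) (nat_lit 294) (nat_lit 5) (nat_lit 307) (nat_lit 5) (nat_lit 308) (nat_lit 5) (nat_lit 363) (nat_lit 359) (nat_lit 298)) (XT.lf (nat_lit 76) (nat_lit 1874302230) (nat_lit 0) (nat_lit 111543414) (nat_lit 1064) (nat_lit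 6443396674) (nat_lit 295) (nat_lit 5) (nat_lit 294) (nat_lit 5) (nat_lit 308) (nat_lit 5) (nat_lit 364) (nat_lit 359) (nat_lit 297)))) (XT.nd (nat_lit 156) (nat_lit 0) (nat_lit 76) (XT.nd (nat_lit 78) (nat_lit 0) (nat_lit 0) (XT.lf (nat_lit 0) (nat_lit 3262813131) (nat_lit 988) (nat_lit 2310941965) (nat_lit 1064) (nat_lit 2953386788) (nat_lit 295) (nat_lit 5) (nat_lit 308) (nat_lit 5) (nat_lit 309) (nat_lit 5) (nat_lit 365) (nat_lit 359) (nat_lit 296)) (XT.lf (nat_lit 76) (nat_lit 2074118204) (nat_lit 0) (nat_lit 2484218721) (nat_lit 1064) (nat_lit 4070253741) (nat_lit 296) (nat_lit 5) (nat_lit 295) (nat_lit 5) (nat_lit 309) (nat_lit 5) (nat_lit 366) (nat_lit 359) (nat_lit 295))) (XT.nd (nat_lit 78) (nat_lit 0) (nat_lit 0) (XT.lf (nat_lit 0) (nat_lit 5883291715) (nat_lit 988) (nat_lit 2127950806) (nat_lit 1064) (nat_lit 722142507) (nat_lit 296) (nat_lit 5) (nat_lit 309) (nat_lit 5) (nat_lit 310) (nat_lit 5)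 (nat_lit 367) (nat_lit 359) (nat_lit 294)) (XT.lf (nat_lit 76) (nat_lit 2428202265) (nat_lit 0) (nat_lit 4829175726) (nat_lit 1064) (nat_lit 1583682265) (nat_lit 297) (nat_lit 5) (nat_lit 296) (nat_lit 5) (nat_lit 310) (nat_lit 5) (nat_lit 368) (nat_lit 359) (nat_lit 293)))))) (XT.nd (nat_lit 546) (nat_lit 3952) (nat_lit 0) (XT.nd (nat_lit 234) (nat_lit 0) (nat_lit 0) (XT.nd (nat_lit 78) (nat_lit 988) (nat_lit 0) (XT.lf (nat_lit 76) (nat_lit 7138964276) (nat_lit 0) (nat_lit 1517531906) (nat_lit 1064) (nat_lit 295973259) (nat_lit 297) (nat_lit 5) (nat_lit 296) (nat_lit 5) (nat_lit 310) (nat_lit 5) (nat_lit 369) (nat_lit 359) (nat_lit 292)) (XT.nd (nat_lit 78) (nat_lit 0) (nat_lit 0) (XT.lf (nat_lit 0) (nat_lit 1020303852) (nat_lit 1064) (nat_lit 6140183449) (nat_lit 1140) (nat_lit 1906152123) (nat_lit 283) (nat_lit 5) (nat_lit 297) (nat_lit 5) (nat_lit 298) (nat_lit 5) (nat_lit 370) (nat_lit 359) (nat_lit 291))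 (XT.lf (nat_lit 0) (nat_lit 2367613625) (nat_lit 1064) (nat_lit 1382682571) (nat_lit 1140) (nat_lit 5433942058) (nat_lit 283) (nat_lit 5) (nat_lit 297) (nat_lit 5) (nat_lit 298) (nat_lit 5) (nat_lit 371) (nat_lit 359) (nat_lit 290)))) (XT.nd (nat_lit 156) (nat_lit 0) (nat_lit 76) (XT.nd (nat_lit 78) (nat_lit 0) (nat_lit 76) (XT.lf (nat_lit 76) (nat_lit 3561158964) (nat_lit 0) (nat_lit 193438959) (nat_lit 1140) (nat_lit 5550805446) (nat_lit 284) (nat_lit 5) (nat_lit 283) (nat_lit 5) (nat_lit 298) (nat_lit 5) (nat_lit 372) (nat_lit 359) (nat_lit 289)) (XT.lf (nat_lit 0) (nat_lit 5196527474) (nat_lit 1064) (nat_lit 808366246) (nat_lit 1140) (nat_lit 3424925155) (nat_lit 284) (nat_lit 5) (nat_lit 298) (nat_lit 5) (nat_lit 299) (nat_lit 5) (nat_lit 373) (nat_lit 359) (nat_lit 288))) (XT.nd (nat_lit 78) (nat_lit 0) (nat_lit 76) (XT.lf (nat_lit 76) (nat_lit 4332243840) (nat_lit 0) (nat_lit 2359902469) (nat_lit 1140)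 (nat_lit 2865522652) (nat_lit 285) (nat_lit 5) (nat_lit 284) (nat_lit 5) (nat_lit 299) (nat_lit 5) (nat_lit 374) (nat_lit 359) (nat_lit 287)) (XT.lf (nat_lit 0) (nat_lit 8221935745) (nat_lit 1064) (nat_lit 85715334) (nat_lit 76) (nat_lit 1382039032) (nat_lit 285) (nat_lit 5) (nat_lit 299) (nat_lit 5) (nat_lit 286) (nat_lit 5) (nat_lit 375) (nat_lit 359) (nat_lit 286))))) (XT.nd (nat_lit 234) (nat_lit 1824) (nat_lit 0) (XT.nd (nat_lit 78) (nat_lit 1140) (nat_lit 0) (XT.lf (nat_lit 0) (nat_lit 15440051) (nat_lit 1140) (nat_lit 4563054051) (nat_lit 76) (nat_lit 5245911291) (nat_lit 270) (nat_lit 5) (nat_lit 285) (nat_lit 5) (nat_lit 271) (nat_lit 5) (nat_lit 376) (nat_lit 359) (nat_lit 285)) (XT.nd (nat_lit 78) (nat_lit 0) (nat_lit 0) (XT.lf (nat_lit 0) (nat_lit 781805227) (nat_lit 1140) (nat_lit 709159712) (nat_lit 1216) (nat_lit 8472454558) (nat_lit 255) (nat_lit 5) (nat_lit 270) (nat_lit 5) (nat_lit 271) (nat_lit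 5) (nat_lit 377) (nat_lit 359) (nat_lit 284)) (XT.lf (nat_lit 0) (nat_lit 3058423683) (nat_lit 1216) (nat_lit 3783691489) (nat_lit 76) (nat_lit 3263071796) (nat_lit 255) (nat_lit 5) (nat_lit 271) (nat_lit 5) (nat_lit 256) (nat_lit 5) (nat_lit 378) (nat_lit 359) (nat_lit 283)))) (XT.nd (nat_lit 156) (nat_lit 608) (nat_lit 0) (XT.nd (nat_lit 78) (nat_lit 0) (nat_lit 0) (XT.lf (nat_lit 0) (nat_lit 1777553836) (nat_lit 1216) (nat_lit 2889985556) (nat_lit 1292) (nat_lit 5583841688) (nat_lit 239) (nat_lit 5) (nat_lit 255) (nat_lit 5) (nat_lit 256) (nat_lit 5) (nat_lit 379) (nat_lit 359) (nat_lit 282)) (XT.lf (nat_lit 0) (nat_lit 6346024997) (nat_lit 1292) (nat_lit 2856272444) (nat_lit 76) (nat_lit 1199042924) (nat_lit 239) (nat_lit 5) (nat_lit 256) (nat_lit 5) (nat_lit 240) (nat_lit 5) (nat_lit 380) (nat_lit 359) (nat_lit 281))) (XT.nd (nat_lit 78) (nat_lit 0) (nat_lit 0) (XT.lf (nat_lit 0) (nat_lit 2932270587) (nat_lit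 608) (nat_lit 5171395640) (nat_lit 684) (nat_lit 2451280058) (nat_lit 231) (nat_lit 5) (nat_lit 239) (nat_lit 5) (nat_lit 240) (nat_lit 5) (nat_lit 381) (nat_lit 359) (nat_lit 280)) (XT.lf (nat_lit 0) (nat_lit 8927133152) (nat_lit 608) (nat_lit 988313524) (nat_lit 684) (nat_lit 797682947) (nat_lit 231) (nat_lit 5) (nat_lit 239) (nat_lit 5) (nat_lit 240) (nat_lit 5) (nat_lit 382) (nat_lit 359) (nat_lit 279))))))) (XT.nd (nat_lit 1092) (nat_lit 3572) (nat_lit 0) (XT.nd (nat_lit 546) (nat_lit 1976) (nat_lit 0) (XT.nd (nat_lit 234) (nat_lit 1140) (nat_lit 0) (XT.nd (nat_lit 78) (nat_lit 608) (nat_lit 0) (XT.lf (nat_lit 0) (nat_lit 934457006) (nat_lit 684) (nat_lit 6632988114) (nat_lit 76) (nat_lit 3306964940) (nat_lit 222) (nat_lit 5) (nat_lit 231) (nat_lit 5) (nat_lit 223) (nat_lit 5) (nat_lit 383) (nat_lit 359) (nat_lit 278)) (XT.nd (nat_lit 78) (nat_lit 608) (nat_lit 0) (XT.lf (nat_lit 0) (nat_lit 2704167343)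 (nat_lit 684) (nat_lit 597814325) (nat_lit 76) (nat_lit 7738271703) (nat_lit 222) (nat_lit 5) (nat_lit 231) (nat_lit 5) (nat_lit 223) (nat_lit 5) (nat_lit 384) (nat_lit 359) (nat_lit 277)) (XT.lf (nat_lit 0) (nat_lit 4567245090) (nat_lit 684) (nat_lit 5516990168) (nat_lit 76) (nat_lit 1125638694) (nat_lit 214) (nat_lit 5) (nat_lit 223) (nat_lit 5) (nat_lit 215) (nat_lit 5) (nat_lit 385) (nat_lit 359) (nat_lit 276)))) (XT.nd (nat_lit 156) (nat_lit 608) (nat_lit 0) (XT.nd (nat_lit 78) (nat_lit 0) (nat_lit 0) (XT.lf (nat_lit 0) (nat_lit 756172175) (nat_lit 532) (nat_lit 5751010503) (nat_lit 608) (nat_lit 4876781402) (nat_lit 207) (nat_lit 5) (nat_lit 214) (nat_lit 5) (nat_lit 215) (nat_lit 5) (nat_lit 386) (nat_lit 359) (nat_lit 275)) (XT.lf (nat_lit 0) (nat_lit 7304890840) (nat_lit 532) (nat_lit 1231531099) (nat_lit 608) (nat_lit 3025931533) (nat_lit 207) (nat_lit 5) (nat_lit 214) (nat_lit 5) (nat_lit 215) (nat_lit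 5) (nat_lit 387) (nat_lit 359) (nat_lit 274))) (XT.nd (nat_lit 78) (nat_lit 76) (nat_lit 0) (XT.lf (nat_lit 0) (nat_lit 2290057101) (nat_lit 532) (nat_lit 8367502780) (nat_lit 608) (nat_lit 1087613403) (nat_lit 200) (nat_lit 5) (nat_lit 207) (nat_lit 5) (nat_lit 208) (nat_lit 5) (nat_lit 388) (nat_lit 359) (nat_lit 273)) (XT.lf (nat_lit 0) (nat_lit 923039741) (nat_lit 608) (nat_lit 2858193181) (nat_lit 76) (nat_lit 8151033905) (nat_lit 199) (nat_lit 5) (nat_lit 207) (nat_lit 5) (nat_lit 200) (nat_lit 5) (nat_lit 389) (nat_lit 359) (nat_lit 272))))) (XT.nd (nat_lit 234) (nat_lit 988) (nat_lit 0) (XT.nd (nat_lit 78) (nat_lit 532) (nat_lit 0) (XT.lf (nat_lit 0) (nat_lit 2996919588) (nat_lit 532) (nat_lit 8155397199) (nat_lit 76) (nat_lit 971598911) (nat_lit 193) (nat_lit 5) (nat_lit 200) (nat_lit 5) (nat_lit 194) (nat_lit 5) (nat_lit 390) (nat_lit 359) (nat_lit 271)) (XT.nd (nat_lit 78) (nat_lit 532) (nat_lit 0)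 (XT.lf (nat_lit 0) (nat_lit 5177008840) (nat_lit 532) (nat_lit 1325137098) (nat_lit 76) (nat_lit 5817856645) (nat_lit 193) (nat_lit 5) (nat_lit 200) (nat_lit 5) (nat_lit 194) (nat_lit 5) (nat_lit 391) (nat_lit 359) (nat_lit 270)) (XT.lf (nat_lit 0) (nat_lit 5798335562) (nat_lit 532) (nat_lit 1657967548) (nat_lit 608) (nat_lit 5064662988) (nat_lit 186) (nat_lit 5) (nat_lit 193) (nat_lit 5) (nat_lit 194) (nat_lit 5) (nat_lit 392) (nat_lit 359) (nat_lit 269)))) (XT.nd (nat_lit 156) (nat_lit 532) (nat_lit 0) (XT.nd (nat_lit 78) (nat_lit 0) (nat_lit 0) (XT.lf (nat_lit 0) (nat_lit 385257371) (nat_lit 456) (nat_lit 9446398856) (nat_lit 532) (nat_lit 2895479751) (nat_lit 180) (nat_lit 5) (nat_lit 186) (nat_lit 5) (nat_lit 187) (nat_lit 5) (nat_lit 393) (nat_lit 359) (nat_lit 268)) (XT.lf (nat_lit 0) (nat_lit 7802471840) (nat_lit 456) (nat_lit 4538764154) (nat_lit 532) (nat_lit 596373607) (nat_lit 180) (nat_lit 5) (nat_lit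 186) (nat_lit 5) (nat_lit 187) (nat_lit 5) (nat_lit 394) (nat_lit 359) (nat_lit 267))) (XT.nd (nat_lit 78) (nat_lit 0) (nat_lit 0) (XT.lf (nat_lit 0) (nat_lit 1743696235) (nat_lit 532) (nat_lit 10868358108) (nat_lit 76) (nat_lit 541642474) (nat_lit 173) (nat_lit 5) (nat_lit 180) (nat_lit 5) (nat_lit 174) (nat_lit 5) (nat_lit 395) (nat_lit 359) (nat_lit 266)) (XT.lf (nat_lit 0) (nat_lit 4218851520) (nat_lit 532) (nat_lit 3417379225) (nat_lit 76) (nat_lit 5737559652) (nat_lit 173) (nat_lit 5) (nat_lit 180) (nat_lit 5) (nat_lit 174) (nat_lit 5) (nat_lit 396) (nat_lit 359) (nat_lit 265)))))) (XT.nd (nat_lit 546) (nat_lit 1900) (nat_lit 0) (XT.nd (nat_lit 234) (nat_lit 836) (nat_lit 0) (XT.nd (nat_lit 78) (nat_lit 456) (nat_lit 0) (XT.lf (nat_lit 0) (nat_lit 4317092780) (nat_lit 380) (nat_lit 2472825832) (nat_lit 456) (nat_lit 6809925236) (nat_lit 168) (nat_lit 5) (nat_lit 173) (nat_lit 5) (nat_lit 174) (nat_lit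 5) (nat_lit 397) (nat_lit 359) (nat_lit 264)) (XT.nd (nat_lit 78) (nat_lit 456) (nat_lit 0) (XT.lf (nat_lit 0) (nat_lit 9480782456) (nat_lit 456) (nat_lit 1530273920) (nat_lit 76) (nat_lit 2820349166) (nat_lit 168) (nat_lit 5) (nat_lit 174) (nat_lit 5) (nat_lit 169) (nat_lit 5) (nat_lit 398) (nat_lit 359) (nat_lit 263)) (XT.lf (nat_lit 0) (nat_lit 6533922663) (nat_lit 456) (nat_lit 5786771843) (nat_lit 532) (nat_lit 1747176301) (nat_lit 162) (nat_lit 5) (nat_lit 168) (nat_lit 5) (nat_lit 169) (nat_lit 5) (nat_lit 399) (nat_lit 359) (nat_lit 262)))) (XT.nd (nat_lit 156) (nat_lit 380) (nat_lit 0) (XT.nd (nat_lit 78) (nat_lit 0) (nat_lit 0) (XT.lf (nat_lit 0) (nat_lit 537788581) (nat_lit 380) (nat_lit 380293034) (nat_lit 456) (nat_lit 13393026765) (nat_lit 156) (nat_lit 5) (nat_lit 161) (nat_lit 5) (nat_lit 162) (nat_lit 5) (nat_lit 400) (nat_lit 359) (nat_lit 261)) (XT.lf (nat_lit 0) (nat_lit 3736320720) (nat_lit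 456) (nat_lit 5645464499) (nat_lit 76) (nat_lit 5176100544) (nat_lit 156) (nat_lit 5) (nat_lit 162) (nat_lit 5) (nat_lit 157) (nat_lit 5) (nat_lit 401) (nat_lit 359) (nat_lit 260))) (XT.nd (nat_lit 78) (nat_lit 0) (nat_lit 0) (XT.lf (nat_lit 0) (nat_lit 2752587855) (nat_lit 380) (nat_lit 3898719443) (nat_lit 456) (nat_lit 8160398840) (nat_lit 151) (nat_lit 5) (nat_lit 156) (nat_lit 5) (nat_lit 157) (nat_lit 5) (nat_lit 402) (nat_lit 359) (nat_lit 259)) (XT.lf (nat_lit 0) (nat_lit 9710348756) (nat_lit 456) (nat_lit 3594336050) (nat_lit 76) (nat_lit 1766763671) (nat_lit 151) (nat_lit 5) (nat_lit 157) (nat_lit 5) (nat_lit 152) (nat_lit 5) (nat_lit 403) (nat_lit 359) (nat_lit 258))))) (XT.nd (nat_lit 312) (nat_lit 760) (nat_lit 0) (XT.nd (nat_lit 156) (nat_lit 684) (nat_lit 0) (XT.nd (nat_lit 78) (nat_lit 76) (nat_lit 0) (XT.lf (nat_lit 0) (nat_lit 5163401241) (nat_lit 380) (nat_lit 7768734803) (nat_lit 456) (nat_lit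 2404723157) (nat_lit 146) (nat_lit 5) (nat_lit 151) (nat_lit 5) (nat_lit 152) (nat_lit 5) (nat_lit 404) (nat_lit 359) (nat_lit 257)) (XT.lf (nat_lit 0) (nat_lit 647353259) (nat_lit 456) (nat_lit 1381370376) (nat_lit 76) (nat_lit 13580743874) (nat_lit 145) (nat_lit 5) (nat_lit 151) (nat_lit 5) (nat_lit 146) (nat_lit 5) (nat_lit 405) (nat_lit 359) (nat_lit 256))) (XT.nd (nat_lit 78) (nat_lit 304) (nat_lit 0) (XT.lf (nat_lit 0) (nat_lit 3839042584) (nat_lit 456) (nat_lit 8146151436) (nat_lit 76) (nat_lit 3901459174) (nat_lit 140) (nat_lit 5) (nat_lit 146) (nat_lit 5) (nat_lit 141) (nat_lit 5) (nat_lit 406) (nat_lit 359) (nat_lit 255)) (XT.lf (nat_lit 0) (nat_lit 968481946) (nat_lit 304) (nat_lit 6185044832) (nat_lit 380) (nat_lit 9017821101) (nat_lit 136) (nat_lit 5) (nat_lit 140) (nat_lit 5) (nat_lit 141) (nat_lit 5) (nat_lit 407) (nat_lit 359) (nat_lit 254)))) (XT.nd (nat_lit 156) (nat_lit 380) (nat_lit 0) (XT.nd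 (nat_lit 78) (nat_lit 380) (nat_lit 0) (XT.lf (nat_lit 0) (nat_lit 10500963045) (nat_lit 304) (nat_lit 132565304) (nat_lit 380) (nat_lit 5829077186) (nat_lit 136) (nat_lit 5) (nat_lit 140) (nat_lit 5) (nat_lit 141) (nat_lit 5) (nat_lit 408) (nat_lit 359) (nat_lit 253)) (XT.lf (nat_lit 0) (nat_lit 3545004553) (nat_lit 380) (nat_lit 10749887536) (nat_lit 456) (nat_lit 2465404450) (nat_lit 131) (nat_lit 5) (nat_lit 136) (nat_lit 5) (nat_lit 137) (nat_lit 5) (nat_lit 409) (nat_lit 359) (nat_lit 252))) (XT.nd (nat_lit 78) (nat_lit 304) (nat_lit 0) (XT.lf (nat_lit 0) (nat_lit 1026113161) (nat_lit 456) (nat_lit 3640001604) (nat_lit 76) (nat_lit 12399126623) (nat_lit 130) (nat_lit 5) (nat_lit 136) (nat_lit 5) (nat_lit 131) (nat_lit 5) (nat_lit 410) (nat_lit 359) (nat_lit 251)) (XT.lf (nat_lit 0) (nat_lit 4634315999) (nat_lit 380) (nat_lit 11094128717) (nat_lit 76) (nat_lit 1648316913) (nat_lit 126) (nat_lit 5) (nat_lit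 131) (nat_lit 5) (nat_lit 127) (nat_lit 5) (nat_lit 411) (nat_lit 359) (nat_lit 250))))))))
noncomputable def xc148 : XT := (XT.nd (nat_lit 2184) (nat_lit 2280) (nat_lit 0) (XT.nd (nat_lit 1092) (nat_lit 1824) (nat_lit 0) (XT.nd (nat_lit 546) (nat_lit 1140) (nat_lit 0) (XT.nd (nat_lit 234) (nat_lit 608) (nat_lit 0) (XT.nd (nat_lit 78) (nat_lit 608) (nat_lit 0) (XT.lf (nat_lit 0) (nat_lit 8419037005) (nat_lit 380) (nat_lit 1187483079) (nat_lit 76) (nat_lit 8089063213) (nat_lit 126) (nat_lit 5) (nat_lit 131) (nat_lit 5) (nat_lit 127) (nat_lit 5) (nat_lit 412) (nat_lit 359) (nat_lit 249)) (XT.nd (nat_lit 78) (nat_lit 304) (nat_lit 0) (XT.lf (nat_lit 0) (nat_lit 9174062332) (nat_lit 304) (nat_lit 3216814412) (nat_lit 380) (nat_lit 5630889423) (nat_lit 122) (nat_lit 5) (nat_lit 126) (nat_lit 5) (nat_lit 127) (nat_lit 5) (nat_lit 413) (nat_lit 359) (nat_lit 248)) (XT.lf (nat_lit 0) (nat_lit 1488526593) (nat_lit 304)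 (nat_lit 15037654501) (nat_lit 380) (nat_lit 1830227902) (nat_lit 118) (nat_lit 5) (nat_lit 122) (nat_lit 5) (nat_lit 123) (nat_lit 5) (nat_lit 414) (nat_lit 359) (nat_lit 247)))) (XT.nd (nat_lit 156) (nat_lit 228) (nat_lit 0) (XT.nd (nat_lit 78) (nat_lit 304) (nat_lit 0) (XT.lf (nat_lit 0) (nat_lit 2151477310) (nat_lit 380) (nat_lit 6456528333) (nat_lit 76) (nat_lit 10089256920) (nat_lit 117) (nat_lit 5) (nat_lit 122) (nat_lit 5) (nat_lit 118) (nat_lit 5) (nat_lit 415) (nat_lit 359) (nat_lit 246)) (XT.lf (nat_lit 0) (nat_lit 4312261530) (nat_lit 304) (nat_lit 1931077638) (nat_lit 380) (nat_lit 12803637636) (nat_lit 113) (nat_lit 5) (nat_lit 117) (nat_lit 5) (nat_lit 118) (nat_lit 5) (nat_lit 416) (nat_lit 359) (nat_lit 245))) (XT.nd (nat_lit 78) (nat_lit 228) (nat_lit 0) (XT.lf (nat_lit 0) (nat_lit 10557525710) (nat_lit 380) (nat_lit 3938025174) (nat_lit 76) (nat_lit 4908647858) (nat_lit 113) (nat_lit 5) (nat_lit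 118) (nat_lit 5) (nat_lit 114) (nat_lit 5) (nat_lit 417) (nat_lit 359) (nat_lit 244)) (XT.lf (nat_lit 0) (nat_lit 7285144076) (nat_lit 228) (nat_lit 7791724677) (nat_lit 304) (nat_lit 4692999894) (nat_lit 110) (nat_lit 5) (nat_lit 113) (nat_lit 5) (nat_lit 114) (nat_lit 5) (nat_lit 418) (nat_lit 359) (nat_lit 243))))) (XT.nd (nat_lit 234) (nat_lit 532) (nat_lit 0) (XT.nd (nat_lit 78) (nat_lit 608) (nat_lit 0) (XT.lf (nat_lit 0) (nat_lit 18905473289) (nat_lit 228) (nat_lit 852863251) (nat_lit 304) (nat_lit 387378921) (nat_lit 110) (nat_lit 5) (nat_lit 113) (nat_lit 5) (nat_lit 114) (nat_lit 5) (nat_lit 419) (nat_lit 359) (nat_lit 242)) (XT.nd (nat_lit 78) (nat_lit 228) (nat_lit 0) (XT.lf (nat_lit 0) (nat_lit 4118095143) (nat_lit 380) (nat_lit 10103474419) (nat_lit 76) (nat_lit 6305613974) (nat_lit 105) (nat_lit 5) (nat_lit 110) (nat_lit 5) (nat_lit 106) (nat_lit 5) (nat_lit 420) (nat_lit 359) (nat_lit 241)) (XT.lf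 (nat_lit 0) (nat_lit 1540891849) (nat_lit 228) (nat_lit 7233114061) (nat_lit 304) (nat_lit 12145285804) (nat_lit 102) (nat_lit 5) (nat_lit 105) (nat_lit 5) (nat_lit 106) (nat_lit 5) (nat_lit 421) (nat_lit 359) (nat_lit 240)))) (XT.nd (nat_lit 156) (nat_lit 304) (nat_lit 0) (XT.nd (nat_lit 78) (nat_lit 228) (nat_lit 0) (XT.lf (nat_lit 0) (nat_lit 13659561232) (nat_lit 304) (nat_lit 7599248122) (nat_lit 76) (nat_lit 61657558) (nat_lit 102) (nat_lit 5) (nat_lit 106) (nat_lit 5) (nat_lit 103) (nat_lit 5) (nat_lit 422) (nat_lit 359) (nat_lit 239)) (XT.lf (nat_lit 0) (nat_lit 4530484291) (nat_lit 228) (nat_lit 14264002814) (nat_lit 304) (nat_lit 2936108857) (nat_lit 99) (nat_lit 5) (nat_lit 102) (nat_lit 5) (nat_lit 103) (nat_lit 5) (nat_lit 423) (nat_lit 359) (nat_lit 238))) (XT.nd (nat_lit 78) (nat_lit 228) (nat_lit 0) (XT.lf (nat_lit 0) (nat_lit 1957948951) (nat_lit 304) (nat_lit 5009797721) (nat_lit 76) (nat_lit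 15182772470) (nat_lit 98) (nat_lit 5) (nat_lit 102) (nat_lit 5) (nat_lit 99) (nat_lit 5) (nat_lit 424) (nat_lit 359) (nat_lit 237)) (XT.lf (nat_lit 0) (nat_lit 7007583466) (nat_lit 304) (nat_lit 14939219351) (nat_lit 76) (nat_lit 633334534) (nat_lit 95) (nat_lit 5) (nat_lit 99) (nat_lit 5) (nat_lit 96) (nat_lit 5) (nat_lit 425) (nat_lit 359) (nat_lit 236)))))) (XT.nd (nat_lit 546) (nat_lit 912) (nat_lit 0) (XT.nd (nat_lit 234) (nat_lit 456) (nat_lit 0) (XT.nd (nat_lit 78) (nat_lit 456) (nat_lit 0) (XT.lf (nat_lit 0) (nat_lit 12316931061) (nat_lit 304) (nat_lit 2335933035) (nat_lit 76) (nat_lit 8366535699) (nat_lit 95) (nat_lit 5) (nat_lit 99) (nat_lit 5) (nat_lit 96) (nat_lit 5) (nat_lit 426) (nat_lit 359) (nat_lit 235)) (XT.nd (nat_lit 78) (nat_lit 228) (nat_lit 0) (XT.lf (nat_lit 0) (nat_lit 10838335904) (nat_lit 228) (nat_lit 7039899580) (nat_lit 304) (nat_lit 5590826674) (nat_lit 92) (nat_lit 5) (nat_lit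 95) (nat_lit 5) (nat_lit 96) (nat_lit 5) (nat_lit 427) (nat_lit 359) (nat_lit 234)) (XT.lf (nat_lit 0) (nat_lit 507472289) (nat_lit 228) (nat_lit 23123892538) (nat_lit 304) (nat_lit 300102263) (nat_lit 89) (nat_lit 5) (nat_lit 92) (nat_lit 5) (nat_lit 93) (nat_lit 5) (nat_lit 428) (nat_lit 359) (nat_lit 233)))) (XT.nd (nat_lit 156) (nat_lit 152) (nat_lit 0) (XT.nd (nat_lit 78) (nat_lit 228) (nat_lit 0) (XT.lf (nat_lit 0) (nat_lit 5235994563) (nat_lit 304) (nat_lit 10244395380) (nat_lit 76) (nat_lit 8920257421) (nat_lit 88) (nat_lit 5) (nat_lit 92) (nat_lit 5) (nat_lit 89) (nat_lit 5) (nat_lit 429) (nat_lit 359) (nat_lit 232)) (XT.lf (nat_lit 0) (nat_lit 3375282275) (nat_lit 228) (nat_lit 7578259480) (nat_lit 304) (nat_lit 13929632253) (nat_lit 85) (nat_lit 5) (nat_lit 88) (nat_lit 5) (nat_lit 89) (nat_lit 5) (nat_lit 430) (nat_lit 359) (nat_lit 231))) (XT.nd (nat_lit 78) (nat_lit 152) (nat_lit 0) (XT.lf (nat_lit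 0) (nat_lit 16941513871) (nat_lit 304) (nat_lit 7788223312) (nat_lit 76) (nat_lit 647474330) (nat_lit 85) (nat_lit 5) (nat_lit 89) (nat_lit 5) (nat_lit 86) (nat_lit 5) (nat_lit 431) (nat_lit 359) (nat_lit 230)) (XT.lf (nat_lit 0) (nat_lit 6374643352) (nat_lit 152) (nat_lit 16860144352) (nat_lit 228) (nat_lit 2647514522) (nat_lit 83) (nat_lit 5) (nat_lit 85) (nat_lit 5) (nat_lit 86) (nat_lit 5) (nat_lit 432) (nat_lit 359) (nat_lit 229))))) (XT.nd (nat_lit 234) (nat_lit 608) (nat_lit 0) (XT.nd (nat_lit 78) (nat_lit 228) (nat_lit 0) (XT.lf (nat_lit 0) (nat_lit 3318452903) (nat_lit 228) (nat_lit 5328568000) (nat_lit 76) (nat_lit 17752506437) (nat_lit 82) (nat_lit 5) (nat_lit 85) (nat_lit 5) (nat_lit 83) (nat_lit 5) (nat_lit 433) (nat_lit 359) (nat_lit 228)) (XT.nd (nat_lit 78) (nat_lit 0) (nat_lit 0) (XT.lf (nat_lit 0) (nat_lit 9416153038) (nat_lit 228) (nat_lit 74245348) (nat_lit 304) (nat_lit 17438679880) (nat_lit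 79) (nat_lit 5) (nat_lit 82) (nat_lit 5) (nat_lit 83) (nat_lit 5) (nat_lit 434) (nat_lit 359) (nat_lit 227)) (XT.lf (nat_lit 0) (nat_lit 15975774966) (nat_lit 304) (nat_lit 2862496708) (nat_lit 76) (nat_lit 8632397604) (nat_lit 79) (nat_lit 5) (nat_lit 83) (nat_lit 5) (nat_lit 80) (nat_lit 5) (nat_lit 435) (nat_lit 359) (nat_lit 226)))) (XT.nd (nat_lit 156) (nat_lit 380) (nat_lit 0) (XT.nd (nat_lit 78) (nat_lit 76) (nat_lit 0) (XT.lf (nat_lit 0) (nat_lit 12452871759) (nat_lit 152) (nat_lit 10313345482) (nat_lit 228) (nat_lit 5258977336) (nat_lit 77) (nat_lit 5) (nat_lit 79) (nat_lit 5) (nat_lit 80) (nat_lit 5) (nat_lit 436) (nat_lit 359) (nat_lit 225)) (XT.lf (nat_lit 0) (nat_lit 1160589861) (nat_lit 228) (nat_lit 337456077) (nat_lit 76) (nat_lit 27097397008) (nat_lit 76) (nat_lit 5) (nat_lit 79) (nat_lit 5) (nat_lit 77) (nat_lit 5) (nat_lit 437) (nat_lit 359) (nat_lit 224))) (XT.nd (nat_lit 78) (nat_lit 152)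 (nat_lit 0) (XT.lf (nat_lit 0) (nat_lit 7882104592) (nat_lit 304) (nat_lit 13661616528) (nat_lit 76) (nat_lit 7631065296) (nat_lit 73) (nat_lit 5) (nat_lit 77) (nat_lit 5) (nat_lit 74) (nat_lit 5) (nat_lit 438) (nat_lit 359) (nat_lit 223)) (XT.lf (nat_lit 0) (nat_lit 2084186886) (nat_lit 152) (nat_lit 12749828961) (nat_lit 228) (nat_lit 14936633313) (nat_lit 71) (nat_lit 5) (nat_lit 73) (nat_lit 5) (nat_lit 74) (nat_lit 5) (nat_lit 439) (nat_lit 359) (nat_lit 222))))))) (XT.nd (nat_lit 1092) (nat_lit 988) (nat_lit 0) (XT.nd (nat_lit 546) (nat_lit 684) (nat_lit 0) (XT.nd (nat_lit 234) (nat_lit 380) (nat_lit 0) (XT.nd (nat_lit 78) (nat_lit 228) (nat_lit 0) (XT.lf (nat_lit 0) (nat_lit 18566133917) (nat_lit 152) (nat_lit 3556871003) (nat_lit 228) (nat_lit 8257528708) (nat_lit 71) (nat_lit 5) (nat_lit 73) (nat_lit 5) (nat_lit 74) (nat_lit 5) (nat_lit 440) (nat_lit 359) (nat_lit 221)) (XT.nd (nat_lit 78) (nat_lit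 76) (nat_lit 0) (XT.lf (nat_lit 0) (nat_lit 4549759978) (nat_lit 152) (nat_lit 25172243196) (nat_lit 228) (nat_lit 1283972687) (nat_lit 69) (nat_lit 5) (nat_lit 71) (nat_lit 5) (nat_lit 72) (nat_lit 5) (nat_lit 441) (nat_lit 359) (nat_lit 220)) (XT.lf (nat_lit 0) (nat_lit 5930183936) (nat_lit 228) (nat_lit 10108720522) (nat_lit 76) (nat_lit 15605182136) (nat_lit 68) (nat_lit 5) (nat_lit 71) (nat_lit 5) (nat_lit 69) (nat_lit 5) (nat_lit 442) (nat_lit 359) (nat_lit 219)))) (XT.nd (nat_lit 156) (nat_lit 228) (nat_lit 0) (XT.nd (nat_lit 78) (nat_lit 0) (nat_lit 0) (XT.lf (nat_lit 0) (nat_lit 6834269907) (nat_lit 152) (nat_lit 6557452437) (nat_lit 228) (nat_lit 18907535313) (nat_lit 66) (nat_lit 5) (nat_lit 68) (nat_lit 5) (nat_lit 69) (nat_lit 5) (nat_lit 443) (nat_lit 359) (nat_lit 218)) (XT.lf (nat_lit 0) (nat_lit 21202154195) (nat_lit 228) (nat_lit 8525732819) (nat_lit 76) (nat_lit 3242446675) (nat_lit 66) (nat_lit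 5) (nat_lit 69) (nat_lit 5) (nat_lit 67) (nat_lit 5) (nat_lit 444) (nat_lit 359) (nat_lit 217))) (XT.nd (nat_lit 78) (nat_lit 76) (nat_lit 0) (XT.lf (nat_lit 0) (nat_lit 9017566852) (nat_lit 152) (nat_lit 20372315364) (nat_lit 228) (nat_lit 4267371512) (nat_lit 64) (nat_lit 5) (nat_lit 66) (nat_lit 5) (nat_lit 67) (nat_lit 5) (nat_lit 445) (nat_lit 359) (nat_lit 216)) (XT.lf (nat_lit 0) (nat_lit 3469316130) (nat_lit 228) (nat_lit 7149557604) (nat_lit 76) (nat_lit 23742561166) (nat_lit 63) (nat_lit 5) (nat_lit 66) (nat_lit 5) (nat_lit 64) (nat_lit 5) (nat_lit 446) (nat_lit 359) (nat_lit 215))))) (XT.nd (nat_lit 234) (nat_lit 380) (nat_lit 0) (XT.nd (nat_lit 78) (nat_lit 152) (nat_lit 0) (XT.lf (nat_lit 0) (nat_lit 11023376273) (nat_lit 152) (nat_lit 426569055) (nat_lit 228) (nat_lit 23632601434) (nat_lit 61) (nat_lit 5) (nat_lit 63) (nat_lit 5) (nat_lit 64) (nat_lit 5) (nat_lit 447) (nat_lit 359) (nat_lit 214))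 (XT.nd (nat_lit 78) (nat_lit 152) (nat_lit 0) (XT.lf (nat_lit 0) (nat_lit 19831407343) (nat_lit 228) (nat_lit 6047393923) (nat_lit 76) (nat_lit 9941649378) (nat_lit 61) (nat_lit 5) (nat_lit 64) (nat_lit 5) (nat_lit 62) (nat_lit 5) (nat_lit 448) (nat_lit 359) (nat_lit 213)) (XT.lf (nat_lit 0) (nat_lit 12734645611) (nat_lit 152) (nat_lit 15848235478) (nat_lit 228) (nat_lit 7994054573) (nat_lit 59) (nat_lit 5) (nat_lit 61) (nat_lit 5) (nat_lit 62) (nat_lit 5) (nat_lit 449) (nat_lit 359) (nat_lit 212)))) (XT.nd (nat_lit 156) (nat_lit 152) (nat_lit 0) (XT.nd (nat_lit 78) (nat_lit 152) (nat_lit 0) (XT.lf (nat_lit 0) (nat_lit 289706267) (nat_lit 228) (nat_lit 5167476478) (nat_lit 76) (nat_lit 31897255411) (nat_lit 58) (nat_lit 5) (nat_lit 61) (nat_lit 5) (nat_lit 59) (nat_lit 5) (nat_lit 450) (nat_lit 359) (nat_lit 211)) (XT.lf (nat_lit 0) (nat_lit 8843000898) (nat_lit 228) (nat_lit 23948936822) (nat_lit 76) (nat_lit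 5355503689) (nat_lit 56) (nat_lit 5) (nat_lit 59) (nat_lit 5) (nat_lit 57) (nat_lit 5) (nat_lit 451) (nat_lit 359) (nat_lit 210))) (XT.nd (nat_lit 78) (nat_lit 152) (nat_lit 0) (XT.lf (nat_lit 0) (nat_lit 17751843937) (nat_lit 228) (nat_lit 4779828147) (nat_lit 76) (nat_lit 16429595124) (nat_lit 56) (nat_lit 5) (nat_lit 59) (nat_lit 5) (nat_lit 57) (nat_lit 5) (nat_lit 452) (nat_lit 359) (nat_lit 209)) (XT.lf (nat_lit 0) (nat_lit 15248307107) (nat_lit 152) (nat_lit 11818667847) (nat_lit 228) (nat_lit 12728363056) (nat_lit 54) (nat_lit 5) (nat_lit 56) (nat_lit 5) (nat_lit 57) (nat_lit 5) (nat_lit 453) (nat_lit 359) (nat_lit 208)))))) (XT.nd (nat_lit 546) (nat_lit 532) (nat_lit 0) (XT.nd (nat_lit 234) (nat_lit 304) (nat_lit 0) (XT.nd (nat_lit 78) (nat_lit 152) (nat_lit 0) (XT.lf (nat_lit 0) (nat_lit 35961805432) (nat_lit 152) (nat_lit 740558580) (nat_lit 228) (nat_lit 3950843681) (nat_lit 54) (nat_lit 5) (nat_lit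 56) (nat_lit 5) (nat_lit 57) (nat_lit 5) (nat_lit 454) (nat_lit 359) (nat_lit 207)) (XT.nd (nat_lit 78) (nat_lit 0) (nat_lit 0) (XT.lf (nat_lit 0) (nat_lit 5241775567) (nat_lit 152) (nat_lit 25625300142) (nat_lit 76) (nat_lit 10660737787) (nat_lit 52) (nat_lit 5) (nat_lit 54) (nat_lit 5) (nat_lit 53) (nat_lit 5) (nat_lit 455) (nat_lit 359) (nat_lit 206)) (XT.lf (nat_lit 0) (nat_lit 14678653669) (nat_lit 152) (nat_lit 5276988224) (nat_lit 76) (nat_lit 22470406220) (nat_lit 52) (nat_lit 5) (nat_lit 54) (nat_lit 5) (nat_lit 53) (nat_lit 5) (nat_lit 456) (nat_lit 359) (nat_lit 205)))) (XT.nd (nat_lit 156) (nat_lit 152) (nat_lit 0) (XT.nd (nat_lit 78) (nat_lit 0) (nat_lit 0) (XT.lf (nat_lit 0) (nat_lit 15980751996) (nat_lit 152) (nat_lit 8564428169) (nat_lit 228) (nat_lit 18801654125) (nat_lit 50) (nat_lit 5) (nat_lit 52) (nat_lit 5) (nat_lit 53) (nat_lit 5) (nat_lit 457) (nat_lit 359) (nat_lit 204)) (XT.lf (nat_lit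 0) (nat_lit 34784928735) (nat_lit 228) (nat_lit 6353125533) (nat_lit 76) (nat_lit 3154873756) (nat_lit 50) (nat_lit 5) (nat_lit 53) (nat_lit 5) (nat_lit 51) (nat_lit 4) (nat_lit 458) (nat_lit 359) (nat_lit 203))) (XT.nd (nat_lit 78) (nat_lit 0) (nat_lit 0) (XT.lf (nat_lit 0) (nat_lit 292358402) (nat_lit 152) (nat_lit 29768188898) (nat_lit 76) (nat_lit 15199964863) (nat_lit 48) (nat_lit 5) (nat_lit 50) (nat_lit 5) (nat_lit 49) (nat_lit 5) (nat_lit 459) (nat_lit 359) (nat_lit 202)) (XT.lf (nat_lit 0) (nat_lit 10253586136) (nat_lit 152) (nat_lit 8239135247) (nat_lit 76) (nat_lit 27759840160) (nat_lit 48) (nat_lit 5) (nat_lit 50) (nat_lit 5) (nat_lit 49) (nat_lit 5) (nat_lit 460) (nat_lit 359) (nat_lit 201))))) (XT.nd (nat_lit 312) (nat_lit 228) (nat_lit 0) (XT.nd (nat_lit 156) (nat_lit 152) (nat_lit 0) (XT.nd (nat_lit 78) (nat_lit 0) (nat_lit 0) (XT.lf (nat_lit 0) (nat_lit 14200731785) (nat_lit 152) (nat_lit 6442795312)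 (nat_lit 228) (nat_lit 26626949691) (nat_lit 46) (nat_lit 5) (nat_lit 48) (nat_lit 5) (nat_lit 49) (nat_lit 5) (nat_lit 461) (nat_lit 359) (nat_lit 200)) (XT.lf (nat_lit 0) (nat_lit 31479958026) (nat_lit 228) (nat_lit 10904133155) (nat_lit 76) (nat_lit 5930795213) (nat_lit 46) (nat_lit 5) (nat_lit 49) (nat_lit 5) (nat_lit 47) (nat_lit 4) (nat_lit 462) (nat_lit 359) (nat_lit 199))) (XT.nd (nat_lit 78) (nat_lit 76) (nat_lit 0) (XT.lf (nat_lit 0) (nat_lit 12086675847) (nat_lit 76) (nat_lit 30728367761) (nat_lit 152) (nat_lit 6570378467) (nat_lit 45) (nat_lit 5) (nat_lit 46) (nat_lit 5) (nat_lit 47) (nat_lit 4) (nat_lit 463) (nat_lit 359) (nat_lit 198)) (XT.lf (nat_lit 0) (nat_lit 4028810866) (nat_lit 152) (nat_lit 14545445972) (nat_lit 76) (nat_lit 31909519514) (nat_lit 44) (nat_lit 5) (nat_lit 46) (nat_lit 5) (nat_lit 45) (nat_lit 5) (nat_lit 464) (nat_lit 359) (nat_lit 197)))) (XT.nd (nat_lit 156) (nat_lit 76)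 (nat_lit 0) (XT.nd (nat_lit 78) (nat_lit 0) (nat_lit 0) (XT.lf (nat_lit 0) (nat_lit 8989311253) (nat_lit 152) (nat_lit 5904801661) (nat_lit 228) (nat_lit 36716611472) (nat_lit 42) (nat_lit 5) (nat_lit 44) (nat_lit 5) (nat_lit 45) (nat_lit 5) (nat_lit 465) (nat_lit 359) (nat_lit 196)) (XT.lf (nat_lit 0) (nat_lit 26296193860) (nat_lit 228) (nat_lit 19320454036) (nat_lit 76) (nat_lit 7148508939) (nat_lit 42) (nat_lit 5) (nat_lit 45) (nat_lit 5) (nat_lit 43) (nat_lit 4) (nat_lit 466) (nat_lit 359) (nat_lit 195))) (XT.nd (nat_lit 78) (nat_lit 0) (nat_lit 0) (XT.lf (nat_lit 0) (nat_lit 4701627480) (nat_lit 76) (nat_lit 33436353981) (nat_lit 152) (nat_lit 15813312016) (nat_lit 41) (nat_lit 5) (nat_lit 42) (nat_lit 5) (nat_lit 43) (nat_lit 4) (nat_lit 467) (nat_lit 359) (nat_lit 194)) (XT.lf (nat_lit 0) (nat_lit 29829342842) (nat_lit 76) (nat_lit 20694833147) (nat_lit 152) (nat_lit 4643164166) (nat_lit 41) (nat_lit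 5) (nat_lit 42) (nat_lit 5) (nat_lit 43) (nat_lit 4) (nat_lit 468) (nat_lit 359) (nat_lit 193))))))))
noncomputable def xc149 : XT := (XT.nd (nat_lit 45318) (nat_lit 0) (nat_lit 11096) (XT.nd (nat_lit 1092) (nat_lit 228) (nat_lit 0) (XT.nd (nat_lit 546) (nat_lit 304) (nat_lit 0) (XT.nd (nat_lit 234) (nat_lit 304) (nat_lit 0) (XT.nd (nat_lit 78) (nat_lit 152) (nat_lit 0) (XT.lf (nat_lit 0) (nat_lit 6722354167) (nat_lit 152) (nat_lit 785813963) (nat_lit 76) (nat_lit 48909896624) (nat_lit 40) (nat_lit 5) (nat_lit 42) (nat_lit 5) (nat_lit 41) (nat_lit 5) (nat_lit 469) (nat_lit 359) (nat_lit 192)) (XT.nd (nat_lit 78) (nat_lit 0) (nat_lit 0) (XT.lf (nat_lit 0) (nat_lit 18630694627) (nat_lit 228) (nat_lit 32826142851) (nat_lit 76) (nat_lit 6239239558) (nat_lit 38) (nat_lit 5) (nat_lit 41) (nat_lit 5) (nat_lit 39) (nat_lit 4) (nat_lit 470) (nat_lit 359) (nat_lit 191)) (XT.lf (nat_lit 0) (nat_lit 30972994943) (nat_lit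 228) (nat_lit 7785719590) (nat_lit 76) (nat_lit 20251414337) (nat_lit 38) (nat_lit 5) (nat_lit 41) (nat_lit 5) (nat_lit 39) (nat_lit 4) (nat_lit 471) (nat_lit 359) (nat_lit 190)))) (XT.nd (nat_lit 156) (nat_lit 228) (nat_lit 0) (XT.nd (nat_lit 78) (nat_lit 0) (nat_lit 0) (XT.lf (nat_lit 0) (nat_lit 18353798790) (nat_lit 76) (nat_lit 25502715361) (nat_lit 152) (nat_lit 16501960072) (nat_lit 37) (nat_lit 5) (nat_lit 38) (nat_lit 5) (nat_lit 39) (nat_lit 4) (nat_lit 472) (nat_lit 359) (nat_lit 189)) (XT.lf (nat_lit 0) (nat_lit 45426936691) (nat_lit 76) (nat_lit 11772806525) (nat_lit 152) (nat_lit 4545331040) (nat_lit 37) (nat_lit 5) (nat_lit 38) (nat_lit 5) (nat_lit 39) (nat_lit 4) (nat_lit 473) (nat_lit 359) (nat_lit 188))) (XT.nd (nat_lit 78) (nat_lit 0) (nat_lit 0) (XT.lf (nat_lit 0) (nat_lit 7736080046) (nat_lit 228) (nat_lit 52938245393) (nat_lit 76) (nat_lit 2493175459) (nat_lit 34) (nat_lit 5) (nat_lit 37)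 (nat_lit 5) (nat_lit 35) (nat_lit 4) (nat_lit 474) (nat_lit 359) (nat_lit 187)) (XT.lf (nat_lit 0) (nat_lit 20572256246) (nat_lit 228) (nat_lit 26893269281) (nat_lit 76) (nat_lit 17157394738) (nat_lit 34) (nat_lit 5) (nat_lit 37) (nat_lit 5) (nat_lit 35) (nat_lit 4) (nat_lit 475) (nat_lit 359) (nat_lit 186))))) (XT.nd (nat_lit 234) (nat_lit 228) (nat_lit 0) (XT.nd (nat_lit 78) (nat_lit 76) (nat_lit 0) (XT.lf (nat_lit 0) (nat_lit 33788376280) (nat_lit 228) (nat_lit 76644229) (nat_lit 76) (nat_lit 32257136346) (nat_lit 34) (nat_lit 5) (nat_lit 37) (nat_lit 5) (nat_lit 35) (nat_lit 4) (nat_lit 476) (nat_lit 359) (nat_lit 185)) (XT.nd (nat_lit 78) (nat_lit 0) (nat_lit 0) (XT.lf (nat_lit 0) (nat_lit 28083063484) (nat_lit 76) (nat_lit 19582876315) (nat_lit 152) (nat_lit 19992482332) (nat_lit 33) (nat_lit 5) (nat_lit 34) (nat_lit 5) (nat_lit 35) (nat_lit 4) (nat_lit 477) (nat_lit 359) (nat_lit 184)) (XT.lf (nat_lit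 0) (nat_lit 57079808084) (nat_lit 76) (nat_lit 4875860142) (nat_lit 152) (nat_lit 7285232374) (nat_lit 33) (nat_lit 5) (nat_lit 34) (nat_lit 5) (nat_lit 35) (nat_lit 4) (nat_lit 478) (nat_lit 359) (nat_lit 183)))) (XT.nd (nat_lit 156) (nat_lit 76) (nat_lit 0) (XT.nd (nat_lit 78) (nat_lit 0) (nat_lit 0) (XT.lf (nat_lit 0) (nat_lit 5942929679) (nat_lit 152) (nat_lit 54636115240) (nat_lit 76) (nat_lit 10282547230) (nat_lit 31) (nat_lit 5) (nat_lit 33) (nat_lit 5) (nat_lit 32) (nat_lit 4) (nat_lit 479) (nat_lit 359) (nat_lit 182)) (XT.lf (nat_lit 0) (nat_lit 19588978330) (nat_lit 152) (nat_lit 26945072850) (nat_lit 76) (nat_lit 25989665646) (nat_lit 31) (nat_lit 5) (nat_lit 33) (nat_lit 5) (nat_lit 32) (nat_lit 4) (nat_lit 480) (nat_lit 359) (nat_lit 181))) (XT.nd (nat_lit 78) (nat_lit 0) (nat_lit 0) (XT.lf (nat_lit 0) (nat_lit 1599006424) (nat_lit 76) (nat_lit 32056086032) (nat_lit 152) (nat_lit 40580292600) (nat_lit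 30) (nat_lit 5) (nat_lit 31) (nat_lit 5) (nat_lit 32) (nat_lit 4) (nat_lit 481) (nat_lit 359) (nat_lit 180)) (XT.lf (nat_lit 0) (nat_lit 31542946117) (nat_lit 76) (nat_lit 16867701499) (nat_lit 152) (nat_lit 27579732311) (nat_lit 30) (nat_lit 5) (nat_lit 31) (nat_lit 5) (nat_lit 32) (nat_lit 4) (nat_lit 482) (nat_lit 359) (nat_lit 179)))))) (XT.nd (nat_lit 43680) (nat_lit 0) (nat_lit 20216) (XT.nd (nat_lit 234) (nat_lit 76) (nat_lit 0) (XT.nd (nat_lit 78) (nat_lit 152) (nat_lit 0) (XT.lf (nat_lit 0) (nat_lit 62376651051) (nat_lit 76) (nat_lit 1227718582) (nat_lit 152) (nat_lit 14193790318) (nat_lit 30) (nat_lit 5) (nat_lit 31) (nat_lit 5) (nat_lit 32) (nat_lit 4) (nat_lit 483) (nat_lit 359) (nat_lit 178)) (XT.nd (nat_lit 78) (nat_lit 76) (nat_lit 0) (XT.lf (nat_lit 0) (nat_lit 14608817292) (nat_lit 76) (nat_lit 64924158079) (nat_lit 76) (nat_lit 118826149) (nat_lit 29) (nat_lit 4) (nat_lit 30) (nat_lit 5) (nat_lit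 30) (nat_lit 4) (nat_lit 484) (nat_lit 359) (nat_lit 177)) (XT.lf (nat_lit 0) (nat_lit 14262835724) (nat_lit 152) (nat_lit 35860515706) (nat_lit 76) (nat_lit 31428604088) (nat_lit 28) (nat_lit 5) (nat_lit 30) (nat_lit 5) (nat_lit 29) (nat_lit 4) (nat_lit 485) (nat_lit 359) (nat_lit 176)))) (XT.nd (nat_lit 43290) (nat_lit 0) (nat_lit 21204) (XT.nd (nat_lit 78) (nat_lit 76) (nat_lit 0) (XT.lf (nat_lit 0) (nat_lit 29069285783) (nat_lit 152) (nat_lit 5811907814) (nat_lit 76) (nat_lit 48628013726) (nat_lit 28) (nat_lit 5) (nat_lit 30) (nat_lit 5) (nat_lit 29) (nat_lit 4) (nat_lit 486) (nat_lit 359) (nat_lit 175)) (XT.lf (nat_lit 0) (nat_lit 25630378750) (nat_lit 76) (nat_lit 18931776557) (nat_lit 152) (nat_lit 40955754866) (nat_lit 27) (nat_lit 5) (nat_lit 28) (nat_lit 5) (nat_lit 29) (nat_lit 4) (nat_lit 487) (nat_lit 359) (nat_lit 174))) (XT.nd (nat_lit 78) (nat_lit 0) (nat_lit 0) (XT.lf (nat_lit 0) (nat_lit 3194520303)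 (nat_lit 988) (nat_lit 440603215) (nat_lit 988) (nat_lit 440603215) (nat_lit 306) (nat_lit 3) (nat_lit 319) (nat_lit 3) (nat_lit 319) (nat_lit 5) (nat_lit 360) (nat_lit 360) (nat_lit 300)) (XT.lf (nat_lit 76) (nat_lit 3124207807) (nat_lit 0) (nat_lit 4512513440) (nat_lit 988) (nat_lit 601882050) (nat_lit 307) (nat_lit 5) (nat_lit 306) (nat_lit 3) (nat_lit 319) (nat_lit 5) (nat_lit 361) (nat_lit 360) (nat_lit 299))))) (XT.nd (nat_lit 234) (nat_lit 0) (nat_lit 76) (XT.nd (nat_lit 78) (nat_lit 0) (nat_lit 76) (XT.lf (nat_lit 0) (nat_lit 546410866) (nat_lit 988) (nat_lit 1089958833) (nat_lit 1064) (nat_lit 6692912447) (nat_lit 293) (nat_lit 5) (nat_lit 306) (nat_lit 3) (nat_lit 307) (nat_lit 5) (nat_lit 362) (nat_lit 360) (nat_lit 298)) (XT.nd (nat_lit 78) (nat_lit 0) (nat_lit 0) (XT.lf (nat_lit 0) (nat_lit 1716848911) (nat_lit 988) (nat_lit 5349961155) (nat_lit 1064) (nat_lit 1355719555) (nat_lit 294) (nat_lit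 5) (nat_lit 307) (nat_lit 5) (nat_lit 308) (nat_lit 5) (nat_lit 363) (nat_lit 360) (nat_lit 297)) (XT.lf (nat_lit 0) (nat_lit 2907772614) (nat_lit 988) (nat_lit 1176697898) (nat_lit 1064) (nat_lit 4434563068) (nat_lit 294) (nat_lit 5) (nat_lit 307) (nat_lit 5) (nat_lit 308) (nat_lit 5) (nat_lit 364) (nat_lit 360) (nat_lit 296)))) (XT.nd (nat_lit 156) (nat_lit 0) (nat_lit 76) (XT.nd (nat_lit 78) (nat_lit 0) (nat_lit 76) (XT.lf (nat_lit 76) (nat_lit 3159674655) (nat_lit 0) (nat_lit 964399200) (nat_lit 1064) (nat_lit 4494688957) (nat_lit 295) (nat_lit 5) (nat_lit 294) (nat_lit 5) (nat_lit 308) (nat_lit 5) (nat_lit 365) (nat_lit 360) (nat_lit 295)) (XT.lf (nat_lit 0) (nat_lit 5370878920) (nat_lit 988) (nat_lit 1117487566) (nat_lit 1064) (nat_lit 2233316067) (nat_lit 295) (nat_lit 5) (nat_lit 308) (nat_lit 5) (nat_lit 309) (nat_lit 5) (nat_lit 366) (nat_lit 360) (nat_lit 294))) (XT.nd (nat_lit 78) (nat_lit 0) (nat_lit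 76) (XT.lf (nat_lit 76) (nat_lit 3386744187) (nat_lit 0) (nat_lit 3271994901) (nat_lit 1064) (nat_lit 2168859789) (nat_lit 296) (nat_lit 5) (nat_lit 295) (nat_lit 5) (nat_lit 309) (nat_lit 5) (nat_lit 367) (nat_lit 360) (nat_lit 293)) (XT.lf (nat_lit 0) (nat_lit 7959592276) (nat_lit 988) (nat_lit 913043566) (nat_lit 1064) (nat_lit 64844112) (nat_lit 296) (nat_lit 5) (nat_lit 309) (nat_lit 5) (nat_lit 310) (nat_lit 5) (nat_lit 368) (nat_lit 360) (nat_lit 292))))))) (XT.nd (nat_lit 1092) (nat_lit 4408) (nat_lit 0) (XT.nd (nat_lit 546) (nat_lit 3876) (nat_lit 0) (XT.nd (nat_lit 234) (nat_lit 0) (nat_lit 76) (XT.nd (nat_lit 78) (nat_lit 0) (nat_lit 0) (XT.lf (nat_lit 0) (nat_lit 276528333) (nat_lit 1064) (nat_lit 5285160581) (nat_lit 1140) (nat_lit 3487936646) (nat_lit 282) (nat_lit 5) (nat_lit 296) (nat_lit 5) (nat_lit 297) (nat_lit 5) (nat_lit 369) (nat_lit 360) (nat_lit 291)) (XT.nd (nat_lit 78) (nat_lit 0) (nat_lit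 76) (XT.lf (nat_lit 0) (nat_lit 1522349342) (nat_lit 1064) (nat_lit 598569089) (nat_lit 1140) (nat_lit 7044740284) (nat_lit 282) (nat_lit 5) (nat_lit 296) (nat_lit 5) (nat_lit 297) (nat_lit 5) (nat_lit 370) (nat_lit 360) (nat_lit 290)) (XT.lf (nat_lit 0) (nat_lit 2826115170) (nat_lit 1064) (nat_lit 5011116513) (nat_lit 1140) (nat_lit 1447340050) (nat_lit 283) (nat_lit 5) (nat_lit 297) (nat_lit 5) (nat_lit 298) (nat_lit 5) (nat_lit 371) (nat_lit 360) (nat_lit 289)))) (XT.nd (nat_lit 156) (nat_lit 0) (nat_lit 76) (XT.nd (nat_lit 78) (nat_lit 0) (nat_lit 0) (XT.lf (nat_lit 0) (nat_lit 4162139318) (nat_lit 1064) (nat_lit 149141263) (nat_lit 1140) (nat_lit 5095992711) (nat_lit 283) (nat_lit 5) (nat_lit 297) (nat_lit 5) (nat_lit 298) (nat_lit 5) (nat_lit 372) (nat_lit 360) (nat_lit 288)) (XT.lf (nat_lit 76) (nat_lit 4930515304) (nat_lit 0) (nat_lit 622155020) (nat_lit 1140) (nat_lit 3980567848) (nat_lit 284) (nat_lit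 5) (nat_lit 283) (nat_lit 5) (nat_lit 298) (nat_lit 5) (nat_lit 373) (nat_lit 360) (nat_lit 287))) (XT.nd (nat_lit 78) (nat_lit 0) (nat_lit 0) (XT.lf (nat_lit 76) (nat_lit 455805490) (nat_lit 0) (nat_lit 6533396538) (nat_lit 1140) (nat_lit 2673666048) (nat_lit 285) (nat_lit 5) (nat_lit 284) (nat_lit 5) (nat_lit 299) (nat_lit 5) (nat_lit 374) (nat_lit 360) (nat_lit 286)) (XT.lf (nat_lit 76) (nat_lit 5729195077) (nat_lit 0) (nat_lit 2760746344) (nat_lit 1140) (nat_lit 1305826296) (nat_lit 285) (nat_lit 5) (nat_lit 284) (nat_lit 5) (nat_lit 299) (nat_lit 5) (nat_lit 375) (nat_lit 360) (nat_lit 285))))) (XT.nd (nat_lit 234) (nat_lit 1824) (nat_lit 0) (XT.nd (nat_lit 78) (nat_lit 1140) (nat_lit 0) (XT.lf (nat_lit 0) (nat_lit 92958240) (nat_lit 1140) (nat_lit 8718004415) (nat_lit 76) (nat_lit 1121917742) (nat_lit 270) (nat_lit 5) (nat_lit 285) (nat_lit 5) (nat_lit 271) (nat_lit 5) (nat_lit 376) (nat_lit 360) (nat_lit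 284)) (XT.nd (nat_lit 78) (nat_lit 1140) (nat_lit 0) (XT.lf (nat_lit 0) (nat_lit 1546115830) (nat_lit 1140) (nat_lit 3401008343) (nat_lit 76) (nat_lit 5125447745) (nat_lit 270) (nat_lit 5) (nat_lit 285) (nat_lit 5) (nat_lit 271) (nat_lit 5) (nat_lit 377) (nat_lit 360) (nat_lit 283)) (XT.lf (nat_lit 0) (nat_lit 2091462033) (nat_lit 1140) (nat_lit 942238899) (nat_lit 1216) (nat_lit 7183040879) (nat_lit 255) (nat_lit 5) (nat_lit 270) (nat_lit 5) (nat_lit 271) (nat_lit 5) (nat_lit 378) (nat_lit 360) (nat_lit 282)))) (XT.nd (nat_lit 156) (nat_lit 608) (nat_lit 0) (XT.nd (nat_lit 78) (nat_lit 1216) (nat_lit 0) (XT.lf (nat_lit 0) (nat_lit 4602575474) (nat_lit 1216) (nat_lit 2602232415) (nat_lit 76) (nat_lit 3159341300) (nat_lit 255) (nat_lit 5) (nat_lit 271) (nat_lit 5) (nat_lit 256) (nat_lit 5) (nat_lit 379) (nat_lit 360) (nat_lit 281)) (XT.lf (nat_lit 0) (nat_lit 3113154487) (nat_lit 1216) (nat_lit 3116833283) (nat_lit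 1292) (nat_lit 4285658760) (nat_lit 239) (nat_lit 5) (nat_lit 255) (nat_lit 5) (nat_lit 256) (nat_lit 5) (nat_lit 380) (nat_lit 360) (nat_lit 280))) (XT.nd (nat_lit 78) (nat_lit 608) (nat_lit 0) (XT.lf (nat_lit 0) (nat_lit 7916090219) (nat_lit 1292) (nat_lit 1653710901) (nat_lit 76) (nat_lit 1101603178) (nat_lit 239) (nat_lit 5) (nat_lit 256) (nat_lit 5) (nat_lit 240) (nat_lit 5) (nat_lit 381) (nat_lit 360) (nat_lit 279)) (XT.lf (nat_lit 0) (nat_lit 4295858522) (nat_lit 608) (nat_lit 5402679217) (nat_lit 684) (nat_lit 1131935405) (nat_lit 231) (nat_lit 5) (nat_lit 239) (nat_lit 5) (nat_lit 240) (nat_lit 5) (nat_lit 382) (nat_lit 360) (nat_lit 278)))))) (XT.nd (nat_lit 546) (nat_lit 1976) (nat_lit 0) (XT.nd (nat_lit 234) (nat_lit 1140) (nat_lit 0) (XT.nd (nat_lit 78) (nat_lit 1216) (nat_lit 0) (XT.lf (nat_lit 0) (nat_lit 520344337) (nat_lit 684) (nat_lit 566288123) (nat_lit 76) (nat_lit 9907814194) (nat_lit 230)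 (nat_lit 5) (nat_lit 239) (nat_lit 5) (nat_lit 231) (nat_lit 5) (nat_lit 383) (nat_lit 360) (nat_lit 277)) (XT.nd (nat_lit 78) (nat_lit 608) (nat_lit 0) (XT.lf (nat_lit 0) (nat_lit 2261395431) (nat_lit 684) (nat_lit 5539046520) (nat_lit 76) (nat_lit 3360712843) (nat_lit 222) (nat_lit 5) (nat_lit 231) (nat_lit 5) (nat_lit 223) (nat_lit 5) (nat_lit 384) (nat_lit 360) (nat_lit 276)) (XT.lf (nat_lit 0) (nat_lit 652252079) (nat_lit 608) (nat_lit 3400382669) (nat_lit 684) (nat_lit 7280300685) (nat_lit 214) (nat_lit 5) (nat_lit 222) (nat_lit 5) (nat_lit 223) (nat_lit 5) (nat_lit 385) (nat_lit 360) (nat_lit 275)))) (XT.nd (nat_lit 156) (nat_lit 608) (nat_lit 0) (XT.nd (nat_lit 78) (nat_lit 532) (nat_lit 0) (XT.lf (nat_lit 0) (nat_lit 5940617042) (nat_lit 684) (nat_lit 4402018334) (nat_lit 76) (nat_lit 1165953605) (nat_lit 214) (nat_lit 5) (nat_lit 223) (nat_lit 5) (nat_lit 215) (nat_lit 5) (nat_lit 386) (nat_lit 360)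 (nat_lit 274)) (XT.lf (nat_lit 0) (nat_lit 2046785139) (nat_lit 532) (nat_lit 5868145389) (nat_lit 608) (nat_lit 3773700241) (nat_lit 207) (nat_lit 5) (nat_lit 214) (nat_lit 5) (nat_lit 215) (nat_lit 5) (nat_lit 387) (nat_lit 360) (nat_lit 273))) (XT.nd (nat_lit 78) (nat_lit 608) (nat_lit 0) (XT.lf (nat_lit 0) (nat_lit 8755035427) (nat_lit 532) (nat_lit 1214695062) (nat_lit 608) (nat_lit 1903714719) (nat_lit 207) (nat_lit 5) (nat_lit 214) (nat_lit 5) (nat_lit 215) (nat_lit 5) (nat_lit 388) (nat_lit 360) (nat_lit 272)) (XT.lf (nat_lit 0) (nat_lit 68981440) (nat_lit 608) (nat_lit 8450487118) (nat_lit 76) (nat_lit 3542926230) (nat_lit 199) (nat_lit 5) (nat_lit 207) (nat_lit 5) (nat_lit 200) (nat_lit 5) (nat_lit 389) (nat_lit 360) (nat_lit 271))))) (XT.nd (nat_lit 312) (nat_lit 988) (nat_lit 0) (XT.nd (nat_lit 156) (nat_lit 532) (nat_lit 0) (XT.nd (nat_lit 78) (nat_lit 456) (nat_lit 0) (XT.lf (nat_lit 0) (nat_lit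 2084093354) (nat_lit 608) (nat_lit 1703634024) (nat_lit 76) (nat_lit 8468083427) (nat_lit 199) (nat_lit 5) (nat_lit 207) (nat_lit 5) (nat_lit 200) (nat_lit 5) (nat_lit 390) (nat_lit 360) (nat_lit 270)) (XT.lf (nat_lit 0) (nat_lit 4200099666) (nat_lit 532) (nat_lit 7139253402) (nat_lit 76) (nat_lit 1114471097) (nat_lit 193) (nat_lit 5) (nat_lit 200) (nat_lit 5) (nat_lit 194) (nat_lit 5) (nat_lit 391) (nat_lit 360) (nat_lit 269))) (XT.nd (nat_lit 78) (nat_lit 532) (nat_lit 0) (XT.lf (nat_lit 0) (nat_lit 6413166183) (nat_lit 532) (nat_lit 140807995) (nat_lit 76) (nat_lit 6102804206) (nat_lit 193) (nat_lit 5) (nat_lit 200) (nat_lit 5) (nat_lit 194) (nat_lit 5) (nat_lit 392) (nat_lit 360) (nat_lit 268)) (XT.lf (nat_lit 0) (nat_lit 7184368029) (nat_lit 532) (nat_lit 1556641547) (nat_lit 608) (nat_lit 4123367738) (nat_lit 186) (nat_lit 5) (nat_lit 193) (nat_lit 5) (nat_lit 194) (nat_lit 5) (nat_lit 393) (nat_lit 360)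 (nat_lit 267)))) (XT.nd (nat_lit 156) (nat_lit 456) (nat_lit 0) (XT.nd (nat_lit 78) (nat_lit 76) (nat_lit 0) (XT.lf (nat_lit 0) (nat_lit 1627478345) (nat_lit 456) (nat_lit 9542481245) (nat_lit 532) (nat_lit 1907313889) (nat_lit 180) (nat_lit 5) (nat_lit 186) (nat_lit 5) (nat_lit 187) (nat_lit 5) (nat_lit 394) (nat_lit 360) (nat_lit 266)) (XT.lf (nat_lit 0) (nat_lit 421073685) (nat_lit 532) (nat_lit 4067747417) (nat_lit 76) (nat_lit 8806038984) (nat_lit 179) (nat_lit 5) (nat_lit 186) (nat_lit 5) (nat_lit 180) (nat_lit 5) (nat_lit 395) (nat_lit 360) (nat_lit 265))) (XT.nd (nat_lit 78) (nat_lit 0) (nat_lit 0) (XT.lf (nat_lit 0) (nat_lit 2803030866) (nat_lit 532) (nat_lit 9962196762) (nat_lit 76) (nat_lit 752525319) (nat_lit 173) (nat_lit 5) (nat_lit 180) (nat_lit 5) (nat_lit 174) (nat_lit 5) (nat_lit 396) (nat_lit 360) (nat_lit 264)) (XT.lf (nat_lit 0) (nat_lit 5323110021) (nat_lit 532) (nat_lit 2323578185) (nat_lit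 76) (nat_lit 6098651073) (nat_lit 173) (nat_lit 5) (nat_lit 180) (nat_lit 5) (nat_lit 174) (nat_lit 5) (nat_lit 397) (nat_lit 360) (nat_lit 263))))))))
noncomputable def xc150 : XT := (XT.nd (nat_lit 2184) (nat_lit 3344) (nat_lit 0) (XT.nd (nat_lit 1092) (nat_lit 2432) (nat_lit 0) (XT.nd (nat_lit 546) (nat_lit 1596) (nat_lit 0) (XT.nd (nat_lit 234) (nat_lit 836) (nat_lit 0) (XT.nd (nat_lit 78) (nat_lit 456) (nat_lit 0) (XT.lf (nat_lit 0) (nat_lit 5631199329) (nat_lit 380) (nat_lit 2323020342) (nat_lit 456) (nat_lit 6024477074) (nat_lit 168) (nat_lit 5) (nat_lit 173) (nat_lit 5) (nat_lit 174) (nat_lit 5) (nat_lit 398) (nat_lit 360) (nat_lit 262)) (XT.nd (nat_lit 78) (nat_lit 456) (nat_lit 0) (XT.lf (nat_lit 0) (nat_lit 10699921107) (nat_lit 456) (nat_lit 399887912) (nat_lit 76) (nat_lit 3118182367) (nat_lit 168) (nat_lit 5) (nat_lit 174) (nat_lit 5) (nat_lit 169) (nat_lit 5) (nat_lit 399) (nat_lit 360) (nat_lit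 261)) (XT.lf (nat_lit 0) (nat_lit 7894702272) (nat_lit 456) (nat_lit 5714299938) (nat_lit 532) (nat_lit 853038420) (nat_lit 162) (nat_lit 5) (nat_lit 168) (nat_lit 5) (nat_lit 169) (nat_lit 5) (nat_lit 400) (nat_lit 360) (nat_lit 260)))) (XT.nd (nat_lit 156) (nat_lit 380) (nat_lit 0) (XT.nd (nat_lit 78) (nat_lit 0) (nat_lit 0) (XT.lf (nat_lit 0) (nat_lit 1725848391) (nat_lit 380) (nat_lit 132091921) (nat_lit 456) (nat_lit 12854843683) (nat_lit 156) (nat_lit 5) (nat_lit 161) (nat_lit 5) (nat_lit 162) (nat_lit 5) (nat_lit 401) (nat_lit 360) (nat_lit 259)) (XT.lf (nat_lit 0) (nat_lit 4736577117) (nat_lit 456) (nat_lit 4652606824) (nat_lit 76) (nat_lit 5578513638) (nat_lit 156) (nat_lit 5) (nat_lit 162) (nat_lit 5) (nat_lit 157) (nat_lit 5) (nat_lit 402) (nat_lit 360) (nat_lit 258))) (XT.nd (nat_lit 78) (nat_lit 0) (nat_lit 0) (XT.lf (nat_lit 0) (nat_lit 3985992771) (nat_lit 380) (nat_lit 3738214041) (nat_lit 456)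 (nat_lit 7505378094) (nat_lit 151) (nat_lit 5) (nat_lit 156) (nat_lit 5) (nat_lit 157) (nat_lit 5) (nat_lit 403) (nat_lit 360) (nat_lit 257)) (XT.lf (nat_lit 0) (nat_lit 10852171334) (nat_lit 456) (nat_lit 2561746215) (nat_lit 76) (nat_lit 2083895324) (nat_lit 151) (nat_lit 5) (nat_lit 157) (nat_lit 5) (nat_lit 152) (nat_lit 5) (nat_lit 404) (nat_lit 360) (nat_lit 256))))) (XT.nd (nat_lit 234) (nat_lit 760) (nat_lit 0) (XT.nd (nat_lit 78) (nat_lit 456) (nat_lit 0) (XT.lf (nat_lit 0) (nat_lit 6447542607) (nat_lit 380) (nat_lit 7709152375) (nat_lit 456) (nat_lit 1614916134) (nat_lit 146) (nat_lit 5) (nat_lit 151) (nat_lit 5) (nat_lit 152) (nat_lit 5) (nat_lit 405) (nat_lit 360) (nat_lit 255)) (XT.nd (nat_lit 78) (nat_lit 380) (nat_lit 0) (XT.lf (nat_lit 0) (nat_lit 1487287442) (nat_lit 456) (nat_lit 309891476) (nat_lit 76) (nat_lit 14255715889) (nat_lit 145) (nat_lit 5) (nat_lit 151) (nat_lit 5) (nat_lit 146)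 (nat_lit 5) (nat_lit 406) (nat_lit 360) (nat_lit 254)) (XT.lf (nat_lit 0) (nat_lit 4764255983) (nat_lit 456) (nat_lit 7266910214) (nat_lit 76) (nat_lit 4307551039) (nat_lit 140) (nat_lit 5) (nat_lit 146) (nat_lit 5) (nat_lit 141) (nat_lit 5) (nat_lit 407) (nat_lit 360) (nat_lit 253)))) (XT.nd (nat_lit 156) (nat_lit 456) (nat_lit 0) (XT.nd (nat_lit 78) (nat_lit 0) (nat_lit 0) (XT.lf (nat_lit 0) (nat_lit 2110146230) (nat_lit 304) (nat_lit 6055130099) (nat_lit 380) (nat_lit 8467070207) (nat_lit 136) (nat_lit 5) (nat_lit 140) (nat_lit 5) (nat_lit 141) (nat_lit 5) (nat_lit 408) (nat_lit 360) (nat_lit 252)) (XT.lf (nat_lit 0) (nat_lit 11728091770) (nat_lit 380) (nat_lit 5038481032) (nat_lit 76) (nat_lit 166423331) (nat_lit 136) (nat_lit 5) (nat_lit 141) (nat_lit 5) (nat_lit 137) (nat_lit 5) (nat_lit 409) (nat_lit 360) (nat_lit 251))) (XT.nd (nat_lit 78) (nat_lit 76) (nat_lit 0) (XT.lf (nat_lit 0) (nat_lit 4741261737)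 (nat_lit 380) (nat_lit 10747196781) (nat_lit 456) (nat_lit 1751490918) (nat_lit 131) (nat_lit 5) (nat_lit 136) (nat_lit 5) (nat_lit 137) (nat_lit 5) (nat_lit 410) (nat_lit 360) (nat_lit 250)) (XT.lf (nat_lit 0) (nat_lit 1806897889) (nat_lit 456) (nat_lit 2675910872) (nat_lit 76) (nat_lit 13071687727) (nat_lit 130) (nat_lit 5) (nat_lit 136) (nat_lit 5) (nat_lit 131) (nat_lit 5) (nat_lit 411) (nat_lit 360) (nat_lit 249)))))) (XT.nd (nat_lit 546) (nat_lit 1140) (nat_lit 0) (XT.nd (nat_lit 234) (nat_lit 684) (nat_lit 0) (XT.nd (nat_lit 78) (nat_lit 304) (nat_lit 0) (XT.lf (nat_lit 0) (nat_lit 5514836383) (nat_lit 380) (nat_lit 10344955155) (nat_lit 76) (nat_lit 2015831999) (nat_lit 126) (nat_lit 5) (nat_lit 131) (nat_lit 5) (nat_lit 127) (nat_lit 5) (nat_lit 412) (nat_lit 360) (nat_lit 248)) (XT.nd (nat_lit 78) (nat_lit 304) (nat_lit 0) (XT.lf (nat_lit 0) (nat_lit 9391502196) (nat_lit 380) (nat_lit 172624636) (nat_lit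 76) (nat_lit 8640536642) (nat_lit 126) (nat_lit 5) (nat_lit 131) (nat_lit 5) (nat_lit 127) (nat_lit 5) (nat_lit 413) (nat_lit 360) (nat_lit 247)) (XT.lf (nat_lit 0) (nat_lit 10489468285) (nat_lit 304) (nat_lit 2982059940) (nat_lit 380) (nat_lit 5069438222) (nat_lit 122) (nat_lit 5) (nat_lit 126) (nat_lit 5) (nat_lit 127) (nat_lit 5) (nat_lit 414) (nat_lit 360) (nat_lit 246)))) (XT.nd (nat_lit 156) (nat_lit 304) (nat_lit 0) (XT.nd (nat_lit 78) (nat_lit 76) (nat_lit 0) (XT.lf (nat_lit 0) (nat_lit 2581257931) (nat_lit 304) (nat_lit 15142151728) (nat_lit 380) (nat_lit 1162468749) (nat_lit 118) (nat_lit 5) (nat_lit 122) (nat_lit 5) (nat_lit 123) (nat_lit 5) (nat_lit 415) (nat_lit 360) (nat_lit 245)) (XT.lf (nat_lit 0) (nat_lit 2903948013) (nat_lit 380) (nat_lit 5618814775) (nat_lit 76) (nat_lit 10714610606) (nat_lit 117) (nat_lit 5) (nat_lit 122) (nat_lit 5) (nat_lit 118) (nat_lit 5) (nat_lit 416) (nat_lit 360) (nat_lit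 244))) (XT.nd (nat_lit 78) (nat_lit 0) (nat_lit 0) (XT.lf (nat_lit 0) (nat_lit 5462926927) (nat_lit 304) (nat_lit 1645419445) (nat_lit 380) (nat_lit 12489544199) (nat_lit 113) (nat_lit 5) (nat_lit 117) (nat_lit 5) (nat_lit 118) (nat_lit 5) (nat_lit 417) (nat_lit 360) (nat_lit 243)) (XT.lf (nat_lit 0) (nat_lit 11535426075) (nat_lit 380) (nat_lit 3047922932) (nat_lit 76) (nat_lit 5382980919) (nat_lit 113) (nat_lit 5) (nat_lit 118) (nat_lit 5) (nat_lit 114) (nat_lit 5) (nat_lit 418) (nat_lit 360) (nat_lit 242))))) (XT.nd (nat_lit 234) (nat_lit 532) (nat_lit 0) (XT.nd (nat_lit 78) (nat_lit 380) (nat_lit 0) (XT.lf (nat_lit 0) (nat_lit 8502056660) (nat_lit 228) (nat_lit 7678632067) (nat_lit 304) (nat_lit 4162575669) (nat_lit 110) (nat_lit 5) (nat_lit 113) (nat_lit 5) (nat_lit 114) (nat_lit 5) (nat_lit 419) (nat_lit 360) (nat_lit 241)) (XT.nd (nat_lit 78) (nat_lit 304) (nat_lit 0) (XT.lf (nat_lit 0) (nat_lit 247733619)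 (nat_lit 304) (nat_lit 291471818) (nat_lit 76) (nat_lit 20191682110) (nat_lit 109) (nat_lit 5) (nat_lit 113) (nat_lit 5) (nat_lit 110) (nat_lit 5) (nat_lit 420) (nat_lit 360) (nat_lit 240)) (XT.lf (nat_lit 0) (nat_lit 4874619695) (nat_lit 380) (nat_lit 9418328439) (nat_lit 76) (nat_lit 6830919707) (nat_lit 105) (nat_lit 5) (nat_lit 110) (nat_lit 5) (nat_lit 106) (nat_lit 5) (nat_lit 421) (nat_lit 360) (nat_lit 239)))) (XT.nd (nat_lit 156) (nat_lit 304) (nat_lit 0) (XT.nd (nat_lit 78) (nat_lit 0) (nat_lit 0) (XT.lf (nat_lit 0) (nat_lit 2565680089) (nat_lit 228) (nat_lit 7095497867) (nat_lit 304) (nat_lit 11866836332) (nat_lit 102) (nat_lit 5) (nat_lit 105) (nat_lit 5) (nat_lit 106) (nat_lit 5) (nat_lit 422) (nat_lit 360) (nat_lit 238)) (XT.lf (nat_lit 0) (nat_lit 14678436024) (nat_lit 304) (nat_lit 6862168345) (nat_lit 76) (nat_lit 401070299) (nat_lit 102) (nat_lit 5) (nat_lit 106) (nat_lit 5) (nat_lit 103) (nat_lit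 5) (nat_lit 423) (nat_lit 360) (nat_lit 237))) (XT.nd (nat_lit 78) (nat_lit 76) (nat_lit 0) (XT.lf (nat_lit 0) (nat_lit 5621994695) (nat_lit 228) (nat_lit 14336860325) (nat_lit 304) (nat_lit 2405513101) (nat_lit 99) (nat_lit 5) (nat_lit 102) (nat_lit 5) (nat_lit 103) (nat_lit 5) (nat_lit 424) (nat_lit 360) (nat_lit 236)) (XT.lf (nat_lit 0) (nat_lit 2605625638) (nat_lit 304) (nat_lit 4220485368) (nat_lit 76) (nat_lit 15971133290) (nat_lit 98) (nat_lit 5) (nat_lit 102) (nat_lit 5) (nat_lit 99) (nat_lit 5) (nat_lit 425) (nat_lit 360) (nat_lit 235))))))) (XT.nd (nat_lit 1092) (nat_lit 1444) (nat_lit 0) (XT.nd (nat_lit 546) (nat_lit 912) (nat_lit 0) (XT.nd (nat_lit 234) (nat_lit 532) (nat_lit 0) (XT.nd (nat_lit 78) (nat_lit 228) (nat_lit 0) (XT.lf (nat_lit 0) (nat_lit 7801900375) (nat_lit 304) (nat_lit 14442822120) (nat_lit 76) (nat_lit 995177582) (nat_lit 95) (nat_lit 5) (nat_lit 99) (nat_lit 5) (nat_lit 96) (nat_lit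 5) (nat_lit 426) (nat_lit 360) (nat_lit 234)) (XT.nd (nat_lit 78) (nat_lit 228) (nat_lit 0) (XT.lf (nat_lit 0) (nat_lit 13253516085) (nat_lit 304) (nat_lit 1488949073) (nat_lit 76) (nat_lit 8950389063) (nat_lit 95) (nat_lit 5) (nat_lit 99) (nat_lit 5) (nat_lit 96) (nat_lit 5) (nat_lit 427) (nat_lit 360) (nat_lit 233)) (XT.lf (nat_lit 0) (nat_lit 12071557131) (nat_lit 228) (nat_lit 6902314637) (nat_lit 304) (nat_lit 5182371680) (nat_lit 92) (nat_lit 5) (nat_lit 95) (nat_lit 5) (nat_lit 96) (nat_lit 5) (nat_lit 428) (nat_lit 360) (nat_lit 232)))) (XT.nd (nat_lit 156) (nat_lit 228) (nat_lit 0) (XT.nd (nat_lit 78) (nat_lit 0) (nat_lit 0) (XT.lf (nat_lit 0) (nat_lit 257554769) (nat_lit 304) (nat_lit 23199906621) (nat_lit 76) (nat_lit 1175114527) (nat_lit 88) (nat_lit 5) (nat_lit 92) (nat_lit 5) (nat_lit 89) (nat_lit 5) (nat_lit 429) (nat_lit 360) (nat_lit 231)) (XT.lf (nat_lit 0) (nat_lit 5937373762) (nat_lit 304)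 (nat_lit 9654798392) (nat_lit 76) (nat_lit 9524063248) (nat_lit 88) (nat_lit 5) (nat_lit 92) (nat_lit 5) (nat_lit 89) (nat_lit 5) (nat_lit 430) (nat_lit 360) (nat_lit 230))) (XT.nd (nat_lit 78) (nat_lit 0) (nat_lit 0) (XT.lf (nat_lit 0) (nat_lit 4364676173) (nat_lit 228) (nat_lit 7454455118) (nat_lit 304) (nat_lit 13794329018) (nat_lit 85) (nat_lit 5) (nat_lit 88) (nat_lit 5) (nat_lit 89) (nat_lit 5) (nat_lit 431) (nat_lit 360) (nat_lit 229)) (XT.lf (nat_lit 0) (nat_lit 17974379455) (nat_lit 304) (nat_lit 7147142964) (nat_lit 76) (nat_lit 1001170310) (nat_lit 85) (nat_lit 5) (nat_lit 89) (nat_lit 5) (nat_lit 86) (nat_lit 5) (nat_lit 432) (nat_lit 360) (nat_lit 228))))) (XT.nd (nat_lit 234) (nat_lit 456) (nat_lit 0) (XT.nd (nat_lit 78) (nat_lit 304) (nat_lit 0) (XT.lf (nat_lit 0) (nat_lit 7432033945) (nat_lit 152) (nat_lit 17017463335) (nat_lit 228) (nat_lit 2193650321) (nat_lit 83) (nat_lit 5) (nat_lit 85) (nat_lit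 5) (nat_lit 86) (nat_lit 5) (nat_lit 433) (nat_lit 360) (nat_lit 227)) (XT.nd (nat_lit 78) (nat_lit 228) (nat_lit 0) (XT.lf (nat_lit 0) (nat_lit 3925660116) (nat_lit 228) (nat_lit 4637309819) (nat_lit 76) (nat_lit 18613225283) (nat_lit 82) (nat_lit 5) (nat_lit 85) (nat_lit 5) (nat_lit 83) (nat_lit 5) (nat_lit 434) (nat_lit 360) (nat_lit 226)) (XT.lf (nat_lit 0) (nat_lit 10278629674) (nat_lit 304) (nat_lit 17182977714) (nat_lit 76) (nat_lit 260151884) (nat_lit 79) (nat_lit 5) (nat_lit 83) (nat_lit 5) (nat_lit 80) (nat_lit 5) (nat_lit 435) (nat_lit 360) (nat_lit 225)))) (XT.nd (nat_lit 156) (nat_lit 304) (nat_lit 0) (XT.nd (nat_lit 78) (nat_lit 152) (nat_lit 0) (XT.lf (nat_lit 0) (nat_lit 16944615631) (nat_lit 304) (nat_lit 2118662708) (nat_lit 76) (nat_lit 9216740731) (nat_lit 79) (nat_lit 5) (nat_lit 83) (nat_lit 5) (nat_lit 80) (nat_lit 5) (nat_lit 436) (nat_lit 360) (nat_lit 224)) (XT.lf (nat_lit 0) (nat_lit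 13648032412) (nat_lit 152) (nat_lit 10284376995) (nat_lit 228) (nat_lit 4918964001) (nat_lit 77) (nat_lit 5) (nat_lit 79) (nat_lit 5) (nat_lit 80) (nat_lit 5) (nat_lit 437) (nat_lit 360) (nat_lit 223))) (XT.nd (nat_lit 78) (nat_lit 0) (nat_lit 0) (XT.lf (nat_lit 0) (nat_lit 468718585) (nat_lit 228) (nat_lit 1205048098) (nat_lit 304) (nat_lit 27765112580) (nat_lit 73) (nat_lit 5) (nat_lit 76) (nat_lit 5) (nat_lit 77) (nat_lit 5) (nat_lit 438) (nat_lit 360) (nat_lit 222)) (XT.lf (nat_lit 0) (nat_lit 8589489079) (nat_lit 304) (nat_lit 13261306920) (nat_lit 76) (nat_lit 8185032391) (nat_lit 73) (nat_lit 5) (nat_lit 77) (nat_lit 5) (nat_lit 74) (nat_lit 5) (nat_lit 439) (nat_lit 360) (nat_lit 221)))))) (XT.nd (nat_lit 546) (nat_lit 760) (nat_lit 0) (XT.nd (nat_lit 234) (nat_lit 380) (nat_lit 0) (XT.nd (nat_lit 78) (nat_lit 152) (nat_lit 0) (XT.lf (nat_lit 0) (nat_lit 2948927869) (nat_lit 152) (nat_lit 12795025031)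 (nat_lit 228) (nat_lit 14905796414) (nat_lit 71) (nat_lit 5) (nat_lit 73) (nat_lit 5) (nat_lit 74) (nat_lit 5) (nat_lit 440) (nat_lit 360) (nat_lit 220)) (XT.nd (nat_lit 78) (nat_lit 152) (nat_lit 0) (XT.lf (nat_lit 0) (nat_lit 19901967815) (nat_lit 152) (nat_lit 3336102571) (nat_lit 228) (nat_lit 8040268260) (nat_lit 71) (nat_lit 5) (nat_lit 73) (nat_lit 5) (nat_lit 74) (nat_lit 5) (nat_lit 441) (nat_lit 360) (nat_lit 219)) (XT.lf (nat_lit 0) (nat_lit 5467827400) (nat_lit 152) (nat_lit 25594633506) (nat_lit 228) (nat_lit 860162601) (nat_lit 69) (nat_lit 5) (nat_lit 71) (nat_lit 5) (nat_lit 72) (nat_lit 5) (nat_lit 442) (nat_lit 360) (nat_lit 218)))) (XT.nd (nat_lit 156) (nat_lit 152) (nat_lit 0) (XT.nd (nat_lit 78) (nat_lit 152) (nat_lit 0) (XT.lf (nat_lit 0) (nat_lit 6548193879) (nat_lit 228) (nat_lit 9644349069) (nat_lit 76) (nat_lit 16387599297) (nat_lit 68) (nat_lit 5) (nat_lit 71) (nat_lit 5) (nat_lit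 69) (nat_lit 5) (nat_lit 443) (nat_lit 360) (nat_lit 217)) (XT.lf (nat_lit 0) (nat_lit 7799405258) (nat_lit 152) (nat_lit 6428661221) (nat_lit 228) (nat_lit 19027069178) (nat_lit 66) (nat_lit 5) (nat_lit 68) (nat_lit 5) (nat_lit 69) (nat_lit 5) (nat_lit 444) (nat_lit 360) (nat_lit 216))) (XT.nd (nat_lit 78) (nat_lit 152) (nat_lit 0) (XT.lf (nat_lit 0) (nat_lit 22263191164) (nat_lit 228) (nat_lit 8033856322) (nat_lit 76) (nat_lit 3649586894) (nat_lit 66) (nat_lit 5) (nat_lit 69) (nat_lit 5) (nat_lit 67) (nat_lit 5) (nat_lit 445) (nat_lit 360) (nat_lit 215)) (XT.lf (nat_lit 0) (nat_lit 10028412452) (nat_lit 152) (nat_lit 20662877133) (nat_lit 228) (nat_lit 3963032029) (nat_lit 64) (nat_lit 5) (nat_lit 66) (nat_lit 5) (nat_lit 67) (nat_lit 5) (nat_lit 446) (nat_lit 360) (nat_lit 214))))) (XT.nd (nat_lit 312) (nat_lit 380) (nat_lit 0) (XT.nd (nat_lit 156) (nat_lit 152) (nat_lit 0) (XT.nd (nat_lit 78) (nat_lit 152)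 (nat_lit 0) (XT.lf (nat_lit 0) (nat_lit 3984972036) (nat_lit 228) (nat_lit 6637042191) (nat_lit 76) (nat_lit 24757861380) (nat_lit 63) (nat_lit 5) (nat_lit 66) (nat_lit 5) (nat_lit 64) (nat_lit 5) (nat_lit 447) (nat_lit 360) (nat_lit 213)) (XT.lf (nat_lit 0) (nat_lit 12073952230) (nat_lit 152) (nat_lit 126000093) (nat_lit 228) (nat_lit 23922822139) (nat_lit 61) (nat_lit 5) (nat_lit 63) (nat_lit 5) (nat_lit 64) (nat_lit 5) (nat_lit 448) (nat_lit 360) (nat_lit 212))) (XT.nd (nat_lit 78) (nat_lit 152) (nat_lit 0) (XT.lf (nat_lit 0) (nat_lit 20823942672) (nat_lit 228) (nat_lit 5520940881) (nat_lit 76) (nat_lit 10538200931) (nat_lit 61) (nat_lit 5) (nat_lit 64) (nat_lit 5) (nat_lit 62) (nat_lit 5) (nat_lit 449) (nat_lit 360) (nat_lit 211)) (XT.lf (nat_lit 0) (nat_lit 13817619890) (nat_lit 152) (nat_lit 16015498173) (nat_lit 228) (nat_lit 7829292777) (nat_lit 59) (nat_lit 5) (nat_lit 61) (nat_lit 5) (nat_lit 62) (nat_lit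 5) (nat_lit 450) (nat_lit 360) (nat_lit 210)))) (XT.nd (nat_lit 156) (nat_lit 152) (nat_lit 0) (XT.nd (nat_lit 78) (nat_lit 152) (nat_lit 0) (XT.lf (nat_lit 0) (nat_lit 683531972) (nat_lit 228) (nat_lit 4634269026) (nat_lit 76) (nat_lit 33145668782) (nat_lit 58) (nat_lit 5) (nat_lit 61) (nat_lit 5) (nat_lit 59) (nat_lit 5) (nat_lit 451) (nat_lit 360) (nat_lit 209)) (XT.lf (nat_lit 0) (nat_lit 9491652332) (nat_lit 228) (nat_lit 23977353969) (nat_lit 76) (nat_lit 5811311407) (nat_lit 56) (nat_lit 5) (nat_lit 59) (nat_lit 5) (nat_lit 57) (nat_lit 5) (nat_lit 452) (nat_lit 360) (nat_lit 208))) (XT.nd (nat_lit 78) (nat_lit 152) (nat_lit 0) (XT.lf (nat_lit 0) (nat_lit 18656594796) (nat_lit 228) (nat_lit 4253270606) (nat_lit 76) (nat_lit 17209029198) (nat_lit 56) (nat_lit 5) (nat_lit 59) (nat_lit 5) (nat_lit 57) (nat_lit 5) (nat_lit 453) (nat_lit 360) (nat_lit 207)) (XT.lf (nat_lit 0) (nat_lit 16369140545) (nat_lit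 152) (nat_lit 11877575406) (nat_lit 228) (nat_lit 12731406792) (nat_lit 54) (nat_lit 5) (nat_lit 56) (nat_lit 5) (nat_lit 57) (nat_lit 5) (nat_lit 454) (nat_lit 360) (nat_lit 206))))))))
noncomputable def xc151 : XT := (XT.nd (nat_lit 2262) (nat_lit 152) (nat_lit 0) (XT.nd (nat_lit 1092) (nat_lit 836) (nat_lit 0) (XT.nd (nat_lit 546) (nat_lit 532) (nat_lit 0) (XT.nd (nat_lit 234) (nat_lit 304) (nat_lit 0) (XT.nd (nat_lit 78) (nat_lit 152) (nat_lit 0) (XT.lf (nat_lit 0) (nat_lit 37684721950) (nat_lit 152) (nat_lit 475734098) (nat_lit 228) (nat_lit 3701595054) (nat_lit 54) (nat_lit 5) (nat_lit 56) (nat_lit 5) (nat_lit 57) (nat_lit 5) (nat_lit 455) (nat_lit 360) (nat_lit 205)) (XT.nd (nat_lit 78) (nat_lit 0) (nat_lit 0) (XT.lf (nat_lit 0) (nat_lit 5758096677) (nat_lit 152) (nat_lit 25741209971) (nat_lit 76) (nat_lit 11263529452) (nat_lit 52) (nat_lit 5) (nat_lit 54) (nat_lit 5) (nat_lit 53) (nat_lit 5) (nat_lit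 456) (nat_lit 360) (nat_lit 204)) (XT.lf (nat_lit 0) (nat_lit 15467622835) (nat_lit 152) (nat_lit 4801463719) (nat_lit 76) (nat_lit 23419246106) (nat_lit 52) (nat_lit 5) (nat_lit 54) (nat_lit 5) (nat_lit 53) (nat_lit 5) (nat_lit 457) (nat_lit 360) (nat_lit 203)))) (XT.nd (nat_lit 156) (nat_lit 152) (nat_lit 0) (XT.nd (nat_lit 78) (nat_lit 0) (nat_lit 0) (XT.lf (nat_lit 0) (nat_lit 17087794647) (nat_lit 152) (nat_lit 8538229870) (nat_lit 228) (nat_lit 19010842649) (nat_lit 50) (nat_lit 5) (nat_lit 52) (nat_lit 5) (nat_lit 53) (nat_lit 5) (nat_lit 458) (nat_lit 360) (nat_lit 202)) (XT.lf (nat_lit 0) (nat_lit 36165574246) (nat_lit 228) (nat_lit 5926951713) (nat_lit 76) (nat_lit 3519040585) (nat_lit 50) (nat_lit 5) (nat_lit 53) (nat_lit 5) (nat_lit 51) (nat_lit 4) (nat_lit 459) (nat_lit 360) (nat_lit 201))) (XT.nd (nat_lit 78) (nat_lit 0) (nat_lit 0) (XT.lf (nat_lit 0) (nat_lit 637612203) (nat_lit 152) (nat_lit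 30043782744) (nat_lit 76) (nat_lit 15926803786) (nat_lit 48) (nat_lit 5) (nat_lit 50) (nat_lit 5) (nat_lit 49) (nat_lit 5) (nat_lit 460) (nat_lit 360) (nat_lit 200)) (XT.lf (nat_lit 0) (nat_lit 10887876292) (nat_lit 152) (nat_lit 7886841518) (nat_lit 76) (nat_lit 28855586799) (nat_lit 48) (nat_lit 5) (nat_lit 50) (nat_lit 5) (nat_lit 49) (nat_lit 5) (nat_lit 461) (nat_lit 360) (nat_lit 199))))) (XT.nd (nat_lit 234) (nat_lit 304) (nat_lit 0) (XT.nd (nat_lit 78) (nat_lit 76) (nat_lit 0) (XT.lf (nat_lit 0) (nat_lit 15220344391) (nat_lit 152) (nat_lit 6365362021) (nat_lit 228) (nat_lit 27093166141) (nat_lit 46) (nat_lit 5) (nat_lit 48) (nat_lit 5) (nat_lit 49) (nat_lit 5) (nat_lit 462) (nat_lit 360) (nat_lit 198)) (XT.nd (nat_lit 78) (nat_lit 76) (nat_lit 0) (XT.lf (nat_lit 0) (nat_lit 32740352690) (nat_lit 228) (nat_lit 10648046575) (nat_lit 76) (nat_lit 6366422451) (nat_lit 46) (nat_lit 5) (nat_lit 49) (nat_lit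 5) (nat_lit 47) (nat_lit 4) (nat_lit 463) (nat_lit 360) (nat_lit 197)) (XT.lf (nat_lit 0) (nat_lit 13026768947) (nat_lit 76) (nat_lit 31385069342) (nat_lit 152) (nat_lit 6445745669) (nat_lit 45) (nat_lit 5) (nat_lit 46) (nat_lit 5) (nat_lit 47) (nat_lit 4) (nat_lit 464) (nat_lit 360) (nat_lit 196)))) (XT.nd (nat_lit 156) (nat_lit 76) (nat_lit 0) (XT.nd (nat_lit 78) (nat_lit 152) (nat_lit 0) (XT.lf (nat_lit 0) (nat_lit 4455952633) (nat_lit 152) (nat_lit 14415012456) (nat_lit 76) (nat_lit 33118107501) (nat_lit 44) (nat_lit 5) (nat_lit 46) (nat_lit 5) (nat_lit 45) (nat_lit 5) (nat_lit 465) (nat_lit 360) (nat_lit 195)) (XT.lf (nat_lit 0) (nat_lit 9820230654) (nat_lit 152) (nat_lit 5823457370) (nat_lit 228) (nat_lit 37506247651) (nat_lit 42) (nat_lit 5) (nat_lit 44) (nat_lit 5) (nat_lit 45) (nat_lit 5) (nat_lit 466) (nat_lit 360) (nat_lit 194))) (XT.nd (nat_lit 78) (nat_lit 76) (nat_lit 0) (XT.lf (nat_lit 0) (nat_lit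 27381425763) (nat_lit 228) (nat_lit 19348741678) (nat_lit 76) (nat_lit 7609026636) (nat_lit 42) (nat_lit 5) (nat_lit 45) (nat_lit 5) (nat_lit 43) (nat_lit 4) (nat_lit 467) (nat_lit 360) (nat_lit 193)) (XT.lf (nat_lit 0) (nat_lit 5388597126) (nat_lit 76) (nat_lit 34186486151) (nat_lit 152) (nat_lit 15985933842) (nat_lit 41) (nat_lit 5) (nat_lit 42) (nat_lit 5) (nat_lit 43) (nat_lit 4) (nat_lit 468) (nat_lit 360) (nat_lit 192)))))) (XT.nd (nat_lit 546) (nat_lit 304) (nat_lit 0) (XT.nd (nat_lit 234) (nat_lit 304) (nat_lit 0) (XT.nd (nat_lit 78) (nat_lit 228) (nat_lit 0) (XT.lf (nat_lit 0) (nat_lit 31254243343) (nat_lit 76) (nat_lit 21070087414) (nat_lit 152) (nat_lit 4489471193) (nat_lit 41) (nat_lit 5) (nat_lit 42) (nat_lit 5) (nat_lit 43) (nat_lit 4) (nat_lit 469) (nat_lit 360) (nat_lit 191)) (XT.nd (nat_lit 78) (nat_lit 152) (nat_lit 0) (XT.lf (nat_lit 0) (nat_lit 7202928335) (nat_lit 152) (nat_lit 289230862)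 (nat_lit 76) (nat_lit 50610056335) (nat_lit 40) (nat_lit 5) (nat_lit 42) (nat_lit 5) (nat_lit 41) (nat_lit 5) (nat_lit 470) (nat_lit 360) (nat_lit 190)) (XT.lf (nat_lit 0) (nat_lit 19467647210) (nat_lit 228) (nat_lit 33289874461) (nat_lit 76) (nat_lit 6661073365) (nat_lit 38) (nat_lit 5) (nat_lit 41) (nat_lit 5) (nat_lit 39) (nat_lit 4) (nat_lit 471) (nat_lit 360) (nat_lit 189)))) (XT.nd (nat_lit 156) (nat_lit 228) (nat_lit 0) (XT.nd (nat_lit 78) (nat_lit 76) (nat_lit 0) (XT.lf (nat_lit 0) (nat_lit 32172118525) (nat_lit 228) (nat_lit 7513414793) (nat_lit 76) (nat_lit 21086778729) (nat_lit 38) (nat_lit 5) (nat_lit 41) (nat_lit 5) (nat_lit 39) (nat_lit 4) (nat_lit 472) (nat_lit 360) (nat_lit 188)) (XT.lf (nat_lit 0) (nat_lit 19405329566) (nat_lit 76) (nat_lit 26033766714) (nat_lit 152) (nat_lit 16722103551) (nat_lit 37) (nat_lit 5) (nat_lit 38) (nat_lit 5) (nat_lit 39) (nat_lit 4) (nat_lit 473) (nat_lit 360) (nat_lit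 187))) (XT.nd (nat_lit 78) (nat_lit 228) (nat_lit 0) (XT.lf (nat_lit 0) (nat_lit 47276071793) (nat_lit 76) (nat_lit 11898777024) (nat_lit 152) (nat_lit 4414782891) (nat_lit 37) (nat_lit 5) (nat_lit 38) (nat_lit 5) (nat_lit 39) (nat_lit 4) (nat_lit 474) (nat_lit 360) (nat_lit 186)) (XT.lf (nat_lit 0) (nat_lit 8229110170) (nat_lit 228) (nat_lit 54034064491) (nat_lit 76) (nat_lit 2791502681) (nat_lit 34) (nat_lit 5) (nat_lit 37) (nat_lit 5) (nat_lit 35) (nat_lit 4) (nat_lit 475) (nat_lit 360) (nat_lit 185))))) (XT.nd (nat_lit 312) (nat_lit 228) (nat_lit 0) (XT.nd (nat_lit 156) (nat_lit 0) (nat_lit 0) (XT.nd (nat_lit 78) (nat_lit 76) (nat_lit 0) (XT.lf (nat_lit 0) (nat_lit 21442771238) (nat_lit 228) (nat_lit 27222078754) (nat_lit 76) (nat_lit 17889137900) (nat_lit 34) (nat_lit 5) (nat_lit 37) (nat_lit 5) (nat_lit 35) (nat_lit 4) (nat_lit 476) (nat_lit 360) (nat_lit 184)) (XT.lf (nat_lit 0) (nat_lit 392787754) (nat_lit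 76) (nat_lit 34658983786) (nat_lit 152) (nat_lit 33046538708) (nat_lit 33) (nat_lit 5) (nat_lit 34) (nat_lit 5) (nat_lit 35) (nat_lit 4) (nat_lit 477) (nat_lit 360) (nat_lit 183))) (XT.nd (nat_lit 78) (nat_lit 0) (nat_lit 0) (XT.lf (nat_lit 0) (nat_lit 29385072323) (nat_lit 76) (nat_lit 19954066960) (nat_lit 152) (nat_lit 20341720433) (nat_lit 33) (nat_lit 5) (nat_lit 34) (nat_lit 5) (nat_lit 35) (nat_lit 4) (nat_lit 478) (nat_lit 360) (nat_lit 182)) (XT.lf (nat_lit 0) (nat_lit 59238335272) (nat_lit 76) (nat_lit 4812140175) (nat_lit 152) (nat_lit 7260550152) (nat_lit 33) (nat_lit 5) (nat_lit 34) (nat_lit 5) (nat_lit 35) (nat_lit 4) (nat_lit 479) (nat_lit 360) (nat_lit 181)))) (XT.nd (nat_lit 156) (nat_lit 76) (nat_lit 0) (XT.nd (nat_lit 78) (nat_lit 0) (nat_lit 0) (XT.lf (nat_lit 0) (nat_lit 6359080484) (nat_lit 152) (nat_lit 55823655218) (nat_lit 76) (nat_lit 10797551449) (nat_lit 31) (nat_lit 5) (nat_lit 33)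 (nat_lit 5) (nat_lit 32) (nat_lit 4) (nat_lit 480) (nat_lit 360) (nat_lit 180)) (XT.lf (nat_lit 0) (nat_lit 20407582549) (nat_lit 152) (nat_lit 27315033308) (nat_lit 76) (nat_lit 26969868044) (nat_lit 31) (nat_lit 5) (nat_lit 33) (nat_lit 5) (nat_lit 32) (nat_lit 4) (nat_lit 481) (nat_lit 360) (nat_lit 179))) (XT.nd (nat_lit 78) (nat_lit 0) (nat_lit 0) (XT.lf (nat_lit 0) (nat_lit 2081070387) (nat_lit 76) (nat_lit 32812056229) (nat_lit 152) (nat_lit 41562452644) (nat_lit 30) (nat_lit 5) (nat_lit 31) (nat_lit 5) (nat_lit 32) (nat_lit 4) (nat_lit 482) (nat_lit 360) (nat_lit 178)) (XT.lf (nat_lit 0) (nat_lit 32910684762) (nat_lit 76) (nat_lit 17174011783) (nat_lit 152) (nat_lit 28178727451) (nat_lit 30) (nat_lit 5) (nat_lit 31) (nat_lit 5) (nat_lit 32) (nat_lit 4) (nat_lit 483) (nat_lit 360) (nat_lit 177))))))) (XT.nd (nat_lit 44382) (nat_lit 0) (nat_lit 14136) (XT.nd (nat_lit 43836) (nat_lit 0) (nat_lit 19228)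 (XT.nd (nat_lit 43524) (nat_lit 0) (nat_lit 20140) (XT.nd (nat_lit 78) (nat_lit 152) (nat_lit 0) (XT.lf (nat_lit 0) (nat_lit 64657125595) (nat_lit 76) (nat_lit 1070646488) (nat_lit 152) (nat_lit 14397859534) (nat_lit 30) (nat_lit 5) (nat_lit 31) (nat_lit 5) (nat_lit 32) (nat_lit 4) (nat_lit 484) (nat_lit 360) (nat_lit 176)) (XT.nd (nat_lit 78) (nat_lit 0) (nat_lit 0) (XT.lf (nat_lit 0) (nat_lit 96887362) (nat_lit 152) (nat_lit 66579039073) (nat_lit 76) (nat_lit 15358943592) (nat_lit 28) (nat_lit 5) (nat_lit 30) (nat_lit 5) (nat_lit 29) (nat_lit 4) (nat_lit 485) (nat_lit 360) (nat_lit 175)) (XT.lf (nat_lit 0) (nat_lit 14901293620) (nat_lit 152) (nat_lit 36534332939) (nat_lit 76) (nat_lit 32556556720) (nat_lit 28) (nat_lit 5) (nat_lit 30) (nat_lit 5) (nat_lit 29) (nat_lit 4) (nat_lit 486) (nat_lit 360) (nat_lit 174)))) (XT.nd (nat_lit 156) (nat_lit 0) (nat_lit 0) (XT.nd (nat_lit 78) (nat_lit 0) (nat_lit 0) (XT.lf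 (nat_lit 0) (nat_lit 117476427) (nat_lit 0) (nat_lit 117476427) (nat_lit 988) (nat_lit 3929016074) (nat_lit 293) (nat_lit 5) (nat_lit 293) (nat_lit 3) (nat_lit 306) (nat_lit 3) (nat_lit 361) (nat_lit 361) (nat_lit 298)) (XT.lf (nat_lit 0) (nat_lit 1582931780) (nat_lit 988) (nat_lit 4083512508) (nat_lit 1064) (nat_lit 2752714774) (nat_lit 293) (nat_lit 5) (nat_lit 306) (nat_lit 3) (nat_lit 307) (nat_lit 5) (nat_lit 362) (nat_lit 361) (nat_lit 297))) (XT.nd (nat_lit 78) (nat_lit 0) (nat_lit 76) (XT.lf (nat_lit 76) (nat_lit 21802426) (nat_lit 0) (nat_lit 2668174479) (nat_lit 1064) (nat_lit 5824341388) (nat_lit 294) (nat_lit 5) (nat_lit 293) (nat_lit 5) (nat_lit 307) (nat_lit 5) (nat_lit 363) (nat_lit 361) (nat_lit 296)) (XT.lf (nat_lit 0) (nat_lit 3835191942) (nat_lit 988) (nat_lit 4305301645) (nat_lit 1064) (nat_lit 471709604) (nat_lit 294) (nat_lit 5) (nat_lit 307) (nat_lit 5) (nat_lit 308) (nat_lit 5) (nat_lit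 364) (nat_lit 361) (nat_lit 295))))) (XT.nd (nat_lit 234) (nat_lit 988) (nat_lit 0) (XT.nd (nat_lit 78) (nat_lit 0) (nat_lit 0) (XT.lf (nat_lit 0) (nat_lit 5001644204) (nat_lit 988) (nat_lit 41942190) (nat_lit 1064) (nat_lit 3669850895) (nat_lit 294) (nat_lit 5) (nat_lit 307) (nat_lit 5) (nat_lit 308) (nat_lit 5) (nat_lit 365) (nat_lit 361) (nat_lit 294)) (XT.nd (nat_lit 78) (nat_lit 0) (nat_lit 76) (XT.lf (nat_lit 76) (nat_lit 4413050395) (nat_lit 0) (nat_lit 1794075340) (nat_lit 1064) (nat_lit 2610480124) (nat_lit 295) (nat_lit 5) (nat_lit 294) (nat_lit 5) (nat_lit 308) (nat_lit 5) (nat_lit 366) (nat_lit 361) (nat_lit 293)) (XT.lf (nat_lit 76) (nat_lit 40063355) (nat_lit 0) (nat_lit 7387115805) (nat_lit 1064) (nat_lit 1498386083) (nat_lit 296) (nat_lit 5) (nat_lit 295) (nat_lit 5) (nat_lit 309) (nat_lit 5) (nat_lit 367) (nat_lit 361) (nat_lit 292)))) (XT.nd (nat_lit 156) (nat_lit 0) (nat_lit 76) (XT.nd (nat_lit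 78) (nat_lit 1064) (nat_lit 0) (XT.lf (nat_lit 76) (nat_lit 4666970734) (nat_lit 0) (nat_lit 4042460921) (nat_lit 1064) (nat_lit 326581286) (nat_lit 296) (nat_lit 5) (nat_lit 295) (nat_lit 5) (nat_lit 309) (nat_lit 5) (nat_lit 368) (nat_lit 361) (nat_lit 291)) (XT.lf (nat_lit 76) (nat_lit 256172915) (nat_lit 0) (nat_lit 573714032) (nat_lit 1140) (nat_lit 8320649035) (nat_lit 282) (nat_lit 5) (nat_lit 281) (nat_lit 5) (nat_lit 296) (nat_lit 5) (nat_lit 369) (nat_lit 361) (nat_lit 290))) (XT.nd (nat_lit 78) (nat_lit 0) (nat_lit 0) (XT.lf (nat_lit 0) (nat_lit 2053031009) (nat_lit 1064) (nat_lit 4214190346) (nat_lit 1140) (nat_lit 3000035960) (nat_lit 282) (nat_lit 5) (nat_lit 296) (nat_lit 5) (nat_lit 297) (nat_lit 5) (nat_lit 370) (nat_lit 361) (nat_lit 289)) (XT.lf (nat_lit 76) (nat_lit 588674643) (nat_lit 0) (nat_lit 2701709536) (nat_lit 1140) (nat_lit 6097786175) (nat_lit 283) (nat_lit 5) (nat_lit 282) (nat_lit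 5) (nat_lit 297) (nat_lit 5) (nat_lit 371) (nat_lit 361) (nat_lit 288)))))) (XT.nd (nat_lit 546) (nat_lit 4180) (nat_lit 0) (XT.nd (nat_lit 234) (nat_lit 1064) (nat_lit 0) (XT.nd (nat_lit 78) (nat_lit 0) (nat_lit 0) (XT.lf (nat_lit 0) (nat_lit 4584196959) (nat_lit 1064) (nat_lit 3923564780) (nat_lit 1140) (nat_lit 1004383933) (nat_lit 283) (nat_lit 5) (nat_lit 297) (nat_lit 5) (nat_lit 298) (nat_lit 5) (nat_lit 372) (nat_lit 361) (nat_lit 287)) (XT.nd (nat_lit 78) (nat_lit 0) (nat_lit 0) (XT.lf (nat_lit 76) (nat_lit 1069076347) (nat_lit 0) (nat_lit 4852765256) (nat_lit 1140) (nat_lit 3717862743) (nat_lit 284) (nat_lit 5) (nat_lit 283) (nat_lit 5) (nat_lit 298) (nat_lit 5) (nat_lit 373) (nat_lit 361) (nat_lit 286)) (XT.lf (nat_lit 76) (nat_lit 6268478432) (nat_lit 0) (nat_lit 1039455632) (nat_lit 1140) (nat_lit 2462920353) (nat_lit 284) (nat_lit 5) (nat_lit 283) (nat_lit 5) (nat_lit 298) (nat_lit 5) (nat_lit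 374) (nat_lit 361) (nat_lit 285)))) (XT.nd (nat_lit 156) (nat_lit 0) (nat_lit 76) (XT.nd (nat_lit 78) (nat_lit 1140) (nat_lit 0) (XT.lf (nat_lit 76) (nat_lit 1699561132) (nat_lit 0) (nat_lit 7049832221) (nat_lit 1140) (nat_lit 1156145898) (nat_lit 285) (nat_lit 5) (nat_lit 284) (nat_lit 5) (nat_lit 299) (nat_lit 5) (nat_lit 375) (nat_lit 361) (nat_lit 284)) (XT.lf (nat_lit 0) (nat_lit 202169644) (nat_lit 1140) (nat_lit 2950458337) (nat_lit 1216) (nat_lit 6891113629) (nat_lit 269) (nat_lit 5) (nat_lit 284) (nat_lit 5) (nat_lit 285) (nat_lit 5) (nat_lit 376) (nat_lit 361) (nat_lit 283))) (XT.nd (nat_lit 78) (nat_lit 0) (nat_lit 0) (XT.lf (nat_lit 0) (nat_lit 1581390266) (nat_lit 1140) (nat_lit 7718440344) (nat_lit 76) (nat_lit 885826842) (nat_lit 270) (nat_lit 5) (nat_lit 285) (nat_lit 5) (nat_lit 271) (nat_lit 5) (nat_lit 377) (nat_lit 361) (nat_lit 282)) (XT.lf (nat_lit 0) (nat_lit 3034871421) (nat_lit 1140)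 (nat_lit 2278665580) (nat_lit 76) (nat_lit 5017319495) (nat_lit 270) (nat_lit 5) (nat_lit 285) (nat_lit 5) (nat_lit 271) (nat_lit 5) (nat_lit 378) (nat_lit 361) (nat_lit 281))))) (XT.nd (nat_lit 312) (nat_lit 1900) (nat_lit 0) (XT.nd (nat_lit 156) (nat_lit 1216) (nat_lit 0) (XT.nd (nat_lit 78) (nat_lit 0) (nat_lit 0) (XT.lf (nat_lit 0) (nat_lit 3366575250) (nat_lit 1140) (nat_lit 1170152023) (nat_lit 1216) (nat_lit 5943553016) (nat_lit 255) (nat_lit 5) (nat_lit 270) (nat_lit 5) (nat_lit 271) (nat_lit 5) (nat_lit 379) (nat_lit 361) (nat_lit 280)) (XT.lf (nat_lit 0) (nat_lit 6109678169) (nat_lit 1216) (nat_lit 1459666134) (nat_lit 76) (nat_lit 3064072854) (nat_lit 255) (nat_lit 5) (nat_lit 271) (nat_lit 5) (nat_lit 256) (nat_lit 5) (nat_lit 380) (nat_lit 361) (nat_lit 279))) (XT.nd (nat_lit 78) (nat_lit 0) (nat_lit 0) (XT.lf (nat_lit 0) (nat_lit 4415215382) (nat_lit 1216) (nat_lit 3342441364) (nat_lit 1292) (nat_lit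 3032667415) (nat_lit 239) (nat_lit 5) (nat_lit 255) (nat_lit 5) (nat_lit 256) (nat_lit 5) (nat_lit 381) (nat_lit 361) (nat_lit 278)) (XT.lf (nat_lit 0) (nat_lit 9454057865) (nat_lit 1292) (nat_lit 489023315) (nat_lit 76) (nat_lit 1008898578) (nat_lit 239) (nat_lit 5) (nat_lit 256) (nat_lit 5) (nat_lit 240) (nat_lit 5) (nat_lit 382) (nat_lit 361) (nat_lit 277)))) (XT.nd (nat_lit 156) (nat_lit 608) (nat_lit 0) (XT.nd (nat_lit 78) (nat_lit 608) (nat_lit 0) (XT.lf (nat_lit 0) (nat_lit 144163270) (nat_lit 684) (nat_lit 5490911419) (nat_lit 76) (nat_lit 5481509262) (nat_lit 230) (nat_lit 5) (nat_lit 239) (nat_lit 5) (nat_lit 231) (nat_lit 5) (nat_lit 383) (nat_lit 361) (nat_lit 276)) (XT.lf (nat_lit 0) (nat_lit 621604787) (nat_lit 608) (nat_lit 1170136734) (nat_lit 684) (nat_lit 9494359660) (nat_lit 222) (nat_lit 5) (nat_lit 230) (nat_lit 5) (nat_lit 231) (nat_lit 5) (nat_lit 384) (nat_lit 361) (nat_lit 275))) (XT.nd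 (nat_lit 78) (nat_lit 608) (nat_lit 0) (XT.lf (nat_lit 0) (nat_lit 3553579565) (nat_lit 684) (nat_lit 4486506219) (nat_lit 76) (nat_lit 3418682834) (nat_lit 222) (nat_lit 5) (nat_lit 231) (nat_lit 5) (nat_lit 223) (nat_lit 5) (nat_lit 385) (nat_lit 361) (nat_lit 274)) (XT.lf (nat_lit 0) (nat_lit 1878583183) (nat_lit 608) (nat_lit 3495912573) (nat_lit 684) (nat_lit 6261943017) (nat_lit 214) (nat_lit 5) (nat_lit 222) (nat_lit 5) (nat_lit 223) (nat_lit 5) (nat_lit 386) (nat_lit 361) (nat_lit 273))))))))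
noncomputable def xc152 : XT := (XT.nd (nat_lit 2184) (nat_lit 4028) (nat_lit 0) (XT.nd (nat_lit 1092) (nat_lit 3040) (nat_lit 0) (XT.nd (nat_lit 546) (nat_lit 1824) (nat_lit 0) (XT.nd (nat_lit 234) (nat_lit 1596) (nat_lit 0) (XT.nd (nat_lit 78) (nat_lit 532) (nat_lit 0) (XT.lf (nat_lit 0) (nat_lit 7284218340) (nat_lit 684) (nat_lit 3327102224) (nat_lit 76) (nat_lit 1207102211) (nat_lit 214) (nat_lit 5) (nat_lit 223) (nat_lit 5) (nat_lit 215) (nat_lit 5) (nat_lit 387) (nat_lit 361) (nat_lit 272)) (XT.nd (nat_lit 78) (nat_lit 0) (nat_lit 0) (XT.lf (nat_lit 0) (nat_lit 3303332248) (nat_lit 532) (nat_lit 5991974245) (nat_lit 608) (nat_lit 2709246432) (nat_lit 207) (nat_lit 5) (nat_lit 214) (nat_lit 5) (nat_lit 215) (nat_lit 5) (nat_lit 388) (nat_lit 361) (nat_lit 271)) (XT.lf (nat_lit 0) (nat_lit 10178020039) (nat_lit 532) (nat_lit 1200441248) (nat_lit 608) (nat_lit 817462262) (nat_lit 207) (nat_lit 5) (nat_lit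 214) (nat_lit 5) (nat_lit 215) (nat_lit 5) (nat_lit 389) (nat_lit 361) (nat_lit 270)))) (XT.nd (nat_lit 156) (nat_lit 988) (nat_lit 0) (XT.nd (nat_lit 78) (nat_lit 0) (nat_lit 0) (XT.lf (nat_lit 0) (nat_lit 1171402749) (nat_lit 608) (nat_lit 7499822166) (nat_lit 76) (nat_lit 3719620333) (nat_lit 199) (nat_lit 5) (nat_lit 207) (nat_lit 5) (nat_lit 200) (nat_lit 5) (nat_lit 390) (nat_lit 361) (nat_lit 269)) (XT.lf (nat_lit 0) (nat_lit 3214918936) (nat_lit 608) (nat_lit 585636670) (nat_lit 76) (nat_lit 8790481576) (nat_lit 199) (nat_lit 5) (nat_lit 207) (nat_lit 5) (nat_lit 200) (nat_lit 5) (nat_lit 391) (nat_lit 361) (nat_lit 268))) (XT.nd (nat_lit 78) (nat_lit 532) (nat_lit 0) (XT.lf (nat_lit 0) (nat_lit 5375468751) (nat_lit 532) (nat_lit 6165000697) (nat_lit 76) (nat_lit 1255101213) (nat_lit 193) (nat_lit 5) (nat_lit 200) (nat_lit 5) (nat_lit 194) (nat_lit 5) (nat_lit 392) (nat_lit 361) (nat_lit 267)) (XT.lf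 (nat_lit 0) (nat_lit 1028860368) (nat_lit 532) (nat_lit 6605392870) (nat_lit 608) (nat_lit 5370991770) (nat_lit 186) (nat_lit 5) (nat_lit 193) (nat_lit 5) (nat_lit 194) (nat_lit 5) (nat_lit 393) (nat_lit 361) (nat_lit 266))))) (XT.nd (nat_lit 234) (nat_lit 1292) (nat_lit 0) (XT.nd (nat_lit 78) (nat_lit 532) (nat_lit 0) (XT.lf (nat_lit 0) (nat_lit 8542402982) (nat_lit 532) (nat_lit 1460947517) (nat_lit 608) (nat_lit 3216589799) (nat_lit 186) (nat_lit 5) (nat_lit 193) (nat_lit 5) (nat_lit 194) (nat_lit 5) (nat_lit 394) (nat_lit 361) (nat_lit 265)) (XT.nd (nat_lit 78) (nat_lit 76) (nat_lit 0) (XT.lf (nat_lit 0) (nat_lit 2836320843) (nat_lit 456) (nat_lit 9652198442) (nat_lit 532) (nat_lit 951214187) (nat_lit 180) (nat_lit 5) (nat_lit 186) (nat_lit 5) (nat_lit 187) (nat_lit 5) (nat_lit 395) (nat_lit 361) (nat_lit 264)) (XT.lf (nat_lit 0) (nat_lit 1398313288) (nat_lit 532) (nat_lit 3044017007) (nat_lit 76) (nat_lit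 9222103330) (nat_lit 179) (nat_lit 5) (nat_lit 186) (nat_lit 5) (nat_lit 180) (nat_lit 5) (nat_lit 396) (nat_lit 361) (nat_lit 263)))) (XT.nd (nat_lit 156) (nat_lit 836) (nat_lit 0) (XT.nd (nat_lit 78) (nat_lit 0) (nat_lit 0) (XT.lf (nat_lit 0) (nat_lit 3836338253) (nat_lit 532) (nat_lit 9099584590) (nat_lit 76) (nat_lit 958561886) (nat_lit 173) (nat_lit 5) (nat_lit 180) (nat_lit 5) (nat_lit 174) (nat_lit 5) (nat_lit 397) (nat_lit 361) (nat_lit 262)) (XT.lf (nat_lit 0) (nat_lit 6404372701) (nat_lit 532) (nat_lit 1265636914) (nat_lit 76) (nat_lit 6459727893) (nat_lit 173) (nat_lit 5) (nat_lit 180) (nat_lit 5) (nat_lit 174) (nat_lit 5) (nat_lit 398) (nat_lit 361) (nat_lit 261))) (XT.nd (nat_lit 78) (nat_lit 456) (nat_lit 0) (XT.lf (nat_lit 0) (nat_lit 6916728547) (nat_lit 380) (nat_lit 2181578645) (nat_lit 456) (nat_lit 5272280932) (nat_lit 168) (nat_lit 5) (nat_lit 173) (nat_lit 5) (nat_lit 174) (nat_lit 5) (nat_lit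 399) (nat_lit 361) (nat_lit 260)) (XT.lf (nat_lit 0) (nat_lit 710754963) (nat_lit 456) (nat_lit 11198054690) (nat_lit 532) (nat_lit 2708787955) (nat_lit 162) (nat_lit 5) (nat_lit 168) (nat_lit 5) (nat_lit 169) (nat_lit 5) (nat_lit 400) (nat_lit 361) (nat_lit 259)))))) (XT.nd (nat_lit 546) (nat_lit 1368) (nat_lit 0) (XT.nd (nat_lit 234) (nat_lit 1216) (nat_lit 0) (XT.nd (nat_lit 78) (nat_lit 380) (nat_lit 0) (XT.lf (nat_lit 0) (nat_lit 13322429) (nat_lit 532) (nat_lit 5640322631) (nat_lit 76) (nat_lit 9215986210) (nat_lit 161) (nat_lit 5) (nat_lit 168) (nat_lit 5) (nat_lit 162) (nat_lit 5) (nat_lit 401) (nat_lit 361) (nat_lit 258)) (XT.nd (nat_lit 78) (nat_lit 0) (nat_lit 0) (XT.lf (nat_lit 0) (nat_lit 2774668521) (nat_lit 456) (nat_lit 12246865337) (nat_lit 76) (nat_lit 106532350) (nat_lit 156) (nat_lit 5) (nat_lit 162) (nat_lit 5) (nat_lit 157) (nat_lit 5) (nat_lit 402) (nat_lit 361) (nat_lit 257)) (XT.lf (nat_lit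 0) (nat_lit 5715856799) (nat_lit 456) (nat_lit 3696679694) (nat_lit 76) (nat_lit 5978812846) (nat_lit 156) (nat_lit 5) (nat_lit 162) (nat_lit 5) (nat_lit 157) (nat_lit 5) (nat_lit 403) (nat_lit 361) (nat_lit 256)))) (XT.nd (nat_lit 156) (nat_lit 836) (nat_lit 0) (XT.nd (nat_lit 78) (nat_lit 0) (nat_lit 0) (XT.lf (nat_lit 0) (nat_lit 5190337641) (nat_lit 380) (nat_lit 3588821218) (nat_lit 456) (nat_lit 6882360805) (nat_lit 151) (nat_lit 5) (nat_lit 156) (nat_lit 5) (nat_lit 157) (nat_lit 5) (nat_lit 404) (nat_lit 361) (nat_lit 255)) (XT.lf (nat_lit 0) (nat_lit 11979425714) (nat_lit 456) (nat_lit 1563643454) (nat_lit 76) (nat_lit 2395378855) (nat_lit 151) (nat_lit 5) (nat_lit 157) (nat_lit 5) (nat_lit 152) (nat_lit 5) (nat_lit 405) (nat_lit 361) (nat_lit 254))) (XT.nd (nat_lit 78) (nat_lit 456) (nat_lit 0) (XT.lf (nat_lit 0) (nat_lit 7705385256) (nat_lit 380) (nat_lit 7664581464) (nat_lit 456) (nat_lit 850894283)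 (nat_lit 146) (nat_lit 5) (nat_lit 151) (nat_lit 5) (nat_lit 152) (nat_lit 5) (nat_lit 406) (nat_lit 361) (nat_lit 253)) (XT.lf (nat_lit 0) (nat_lit 744370987) (nat_lit 380) (nat_lit 1568103176) (nat_lit 456) (nat_lit 14198362979) (nat_lit 140) (nat_lit 5) (nat_lit 145) (nat_lit 5) (nat_lit 146) (nat_lit 5) (nat_lit 407) (nat_lit 361) (nat_lit 252))))) (XT.nd (nat_lit 234) (nat_lit 1064) (nat_lit 0) (XT.nd (nat_lit 78) (nat_lit 304) (nat_lit 0) (XT.lf (nat_lit 0) (nat_lit 5670726053) (nat_lit 456) (nat_lit 6425792470) (nat_lit 76) (nat_lit 4709233117) (nat_lit 140) (nat_lit 5) (nat_lit 146) (nat_lit 5) (nat_lit 141) (nat_lit 5) (nat_lit 408) (nat_lit 361) (nat_lit 251)) (XT.nd (nat_lit 78) (nat_lit 0) (nat_lit 0) (XT.lf (nat_lit 0) (nat_lit 3222192088) (nat_lit 304) (nat_lit 5939426967) (nat_lit 380) (nat_lit 7946941936) (nat_lit 136) (nat_lit 5) (nat_lit 140) (nat_lit 5) (nat_lit 141) (nat_lit 5) (nat_lit 409)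 (nat_lit 361) (nat_lit 250)) (XT.lf (nat_lit 0) (nat_lit 12812209099) (nat_lit 380) (nat_lit 4152121837) (nat_lit 76) (nat_lit 454478680) (nat_lit 136) (nat_lit 5) (nat_lit 141) (nat_lit 5) (nat_lit 137) (nat_lit 5) (nat_lit 410) (nat_lit 361) (nat_lit 249)))) (XT.nd (nat_lit 156) (nat_lit 608) (nat_lit 0) (XT.nd (nat_lit 78) (nat_lit 76) (nat_lit 0) (XT.lf (nat_lit 0) (nat_lit 5910841513) (nat_lit 380) (nat_lit 10763092391) (nat_lit 456) (nat_lit 1061387266) (nat_lit 131) (nat_lit 5) (nat_lit 136) (nat_lit 5) (nat_lit 137) (nat_lit 5) (nat_lit 411) (nat_lit 361) (nat_lit 248)) (XT.lf (nat_lit 0) (nat_lit 2568053015) (nat_lit 456) (nat_lit 1744508701) (nat_lit 76) (nat_lit 13747170723) (nat_lit 130) (nat_lit 5) (nat_lit 136) (nat_lit 5) (nat_lit 131) (nat_lit 5) (nat_lit 412) (nat_lit 361) (nat_lit 247))) (XT.nd (nat_lit 78) (nat_lit 304) (nat_lit 0) (XT.lf (nat_lit 0) (nat_lit 6379207767) (nat_lit 380) (nat_lit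 9635417464) (nat_lit 76) (nat_lit 2376114272) (nat_lit 126) (nat_lit 5) (nat_lit 131) (nat_lit 5) (nat_lit 127) (nat_lit 5) (nat_lit 413) (nat_lit 361) (nat_lit 246)) (XT.lf (nat_lit 0) (nat_lit 828545448) (nat_lit 304) (nat_lit 9531235516) (nat_lit 380) (nat_lit 8370246840) (nat_lit 122) (nat_lit 5) (nat_lit 126) (nat_lit 5) (nat_lit 127) (nat_lit 5) (nat_lit 414) (nat_lit 361) (nat_lit 245))))))) (XT.nd (nat_lit 1092) (nat_lit 1976) (nat_lit 0) (XT.nd (nat_lit 546) (nat_lit 760) (nat_lit 0) (XT.nd (nat_lit 234) (nat_lit 912) (nat_lit 0) (XT.nd (nat_lit 78) (nat_lit 380) (nat_lit 0) (XT.lf (nat_lit 0) (nat_lit 11784625596) (nat_lit 304) (nat_lit 2759278449) (nat_lit 380) (nat_lit 4533070162) (nat_lit 122) (nat_lit 5) (nat_lit 126) (nat_lit 5) (nat_lit 127) (nat_lit 5) (nat_lit 415) (nat_lit 361) (nat_lit 244)) (XT.nd (nat_lit 78) (nat_lit 76) (nat_lit 0) (XT.lf (nat_lit 0) (nat_lit 3646607386) (nat_lit 304)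 (nat_lit 15269681991) (nat_lit 380) (nat_lit 516160804) (nat_lit 118) (nat_lit 5) (nat_lit 122) (nat_lit 5) (nat_lit 123) (nat_lit 5) (nat_lit 416) (nat_lit 361) (nat_lit 243)) (XT.lf (nat_lit 0) (nat_lit 3639503047) (nat_lit 380) (nat_lit 4815176929) (nat_lit 76) (nat_lit 11340201980) (nat_lit 117) (nat_lit 5) (nat_lit 122) (nat_lit 5) (nat_lit 118) (nat_lit 5) (nat_lit 417) (nat_lit 361) (nat_lit 242)))) (XT.nd (nat_lit 156) (nat_lit 608) (nat_lit 0) (XT.nd (nat_lit 78) (nat_lit 0) (nat_lit 0) (XT.lf (nat_lit 0) (nat_lit 6589485629) (nat_lit 304) (nat_lit 1370915007) (nat_lit 380) (nat_lit 12206107642) (nat_lit 113) (nat_lit 5) (nat_lit 117) (nat_lit 5) (nat_lit 118) (nat_lit 5) (nat_lit 418) (nat_lit 361) (nat_lit 241)) (XT.lf (nat_lit 0) (nat_lit 12504709324) (nat_lit 380) (nat_lit 2188994896) (nat_lit 76) (nat_lit 5852768607) (nat_lit 113) (nat_lit 5) (nat_lit 118) (nat_lit 5) (nat_lit 114) (nat_lit 5)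 (nat_lit 419) (nat_lit 361) (nat_lit 240))) (XT.nd (nat_lit 78) (nat_lit 380) (nat_lit 0) (XT.lf (nat_lit 0) (nat_lit 9698166773) (nat_lit 228) (nat_lit 7582056964) (nat_lit 304) (nat_lit 3654769159) (nat_lit 110) (nat_lit 5) (nat_lit 113) (nat_lit 5) (nat_lit 114) (nat_lit 5) (nat_lit 420) (nat_lit 361) (nat_lit 239)) (XT.lf (nat_lit 0) (nat_lit 637996848) (nat_lit 304) (nat_lit 225571343) (nat_lit 380) (nat_lit 20470856285) (nat_lit 105) (nat_lit 5) (nat_lit 109) (nat_lit 5) (nat_lit 110) (nat_lit 5) (nat_lit 421) (nat_lit 361) (nat_lit 238))))) (XT.nd (nat_lit 234) (nat_lit 532) (nat_lit 0) (XT.nd (nat_lit 78) (nat_lit 228) (nat_lit 0) (XT.lf (nat_lit 0) (nat_lit 5617504245) (nat_lit 380) (nat_lit 8769357685) (nat_lit 76) (nat_lit 7352688956) (nat_lit 105) (nat_lit 5) (nat_lit 110) (nat_lit 5) (nat_lit 106) (nat_lit 5) (nat_lit 422) (nat_lit 361) (nat_lit 237)) (XT.nd (nat_lit 78) (nat_lit 0) (nat_lit 0)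 (XT.lf (nat_lit 0) (nat_lit 3565038544) (nat_lit 228) (nat_lit 6974109230) (nat_lit 304) (nat_lit 11616933187) (nat_lit 102) (nat_lit 5) (nat_lit 105) (nat_lit 5) (nat_lit 106) (nat_lit 5) (nat_lit 423) (nat_lit 361) (nat_lit 236)) (XT.lf (nat_lit 0) (nat_lit 15692912920) (nat_lit 304) (nat_lit 6158374407) (nat_lit 76) (nat_lit 731287925) (nat_lit 102) (nat_lit 5) (nat_lit 106) (nat_lit 5) (nat_lit 103) (nat_lit 5) (nat_lit 424) (nat_lit 361) (nat_lit 235)))) (XT.nd (nat_lit 156) (nat_lit 228) (nat_lit 0) (XT.nd (nat_lit 78) (nat_lit 76) (nat_lit 0) (XT.lf (nat_lit 0) (nat_lit 6691395299) (nat_lit 228) (nat_lit 14432285605) (nat_lit 304) (nat_lit 1894514180) (nat_lit 99) (nat_lit 5) (nat_lit 102) (nat_lit 5) (nat_lit 103) (nat_lit 5) (nat_lit 425) (nat_lit 361) (nat_lit 234)) (XT.lf (nat_lit 0) (nat_lit 3238925163) (nat_lit 304) (nat_lit 3461430888) (nat_lit 76) (nat_lit 16764036396) (nat_lit 98) (nat_lit 5)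 (nat_lit 102) (nat_lit 5) (nat_lit 99) (nat_lit 5) (nat_lit 426) (nat_lit 361) (nat_lit 233))) (XT.nd (nat_lit 78) (nat_lit 0) (nat_lit 0) (XT.lf (nat_lit 0) (nat_lit 8586517670) (nat_lit 304) (nat_lit 13985755373) (nat_lit 76) (nat_lit 1348195330) (nat_lit 95) (nat_lit 5) (nat_lit 99) (nat_lit 5) (nat_lit 96) (nat_lit 5) (nat_lit 427) (nat_lit 361) (nat_lit 232)) (XT.lf (nat_lit 0) (nat_lit 14185646114) (nat_lit 304) (nat_lit 669198699) (nat_lit 76) (nat_lit 9532650658) (nat_lit 95) (nat_lit 5) (nat_lit 99) (nat_lit 5) (nat_lit 96) (nat_lit 5) (nat_lit 428) (nat_lit 361) (nat_lit 231)))))) (XT.nd (nat_lit 546) (nat_lit 988) (nat_lit 0) (XT.nd (nat_lit 234) (nat_lit 456) (nat_lit 0) (XT.nd (nat_lit 78) (nat_lit 304) (nat_lit 0) (XT.lf (nat_lit 0) (nat_lit 13289647996) (nat_lit 228) (nat_lit 6780623655) (nat_lit 304) (nat_lit 4794738114) (nat_lit 92) (nat_lit 5) (nat_lit 95) (nat_lit 5) (nat_lit 96) (nat_lit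 5) (nat_lit 429) (nat_lit 361) (nat_lit 230)) (XT.nd (nat_lit 78) (nat_lit 0) (nat_lit 0) (XT.lf (nat_lit 0) (nat_lit 793727394) (nat_lit 304) (nat_lit 23025099112) (nat_lit 76) (nat_lit 1536773889) (nat_lit 88) (nat_lit 5) (nat_lit 92) (nat_lit 5) (nat_lit 89) (nat_lit 5) (nat_lit 430) (nat_lit 361) (nat_lit 229)) (XT.lf (nat_lit 0) (nat_lit 6628549327) (nat_lit 304) (nat_lit 9099000879) (nat_lit 76) (nat_lit 10126684103) (nat_lit 88) (nat_lit 5) (nat_lit 92) (nat_lit 5) (nat_lit 89) (nat_lit 5) (nat_lit 431) (nat_lit 361) (nat_lit 228)))) (XT.nd (nat_lit 156) (nat_lit 228) (nat_lit 0) (XT.nd (nat_lit 78) (nat_lit 0) (nat_lit 0) (XT.lf (nat_lit 0) (nat_lit 5332769280) (nat_lit 228) (nat_lit 7347094196) (nat_lit 304) (nat_lit 13686722182) (nat_lit 85) (nat_lit 5) (nat_lit 88) (nat_lit 5) (nat_lit 89) (nat_lit 5) (nat_lit 432) (nat_lit 361) (nat_lit 227)) (XT.lf (nat_lit 0) (nat_lit 19008115662) (nat_lit 304)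 (nat_lit 6537043116) (nat_lit 76) (nat_lit 1346288604) (nat_lit 85) (nat_lit 5) (nat_lit 89) (nat_lit 5) (nat_lit 86) (nat_lit 5) (nat_lit 433) (nat_lit 361) (nat_lit 226))) (XT.nd (nat_lit 78) (nat_lit 76) (nat_lit 0) (XT.lf (nat_lit 0) (nat_lit 8471425628) (nat_lit 152) (nat_lit 17199506373) (nat_lit 228) (nat_lit 1756783202) (nat_lit 83) (nat_lit 5) (nat_lit 85) (nat_lit 5) (nat_lit 86) (nat_lit 5) (nat_lit 434) (nat_lit 361) (nat_lit 225)) (XT.lf (nat_lit 0) (nat_lit 4521942150) (nat_lit 228) (nat_lit 3974171389) (nat_lit 76) (nat_lit 19480928906) (nat_lit 82) (nat_lit 5) (nat_lit 85) (nat_lit 5) (nat_lit 83) (nat_lit 5) (nat_lit 435) (nat_lit 361) (nat_lit 224))))) (XT.nd (nat_lit 312) (nat_lit 304) (nat_lit 0) (XT.nd (nat_lit 156) (nat_lit 456) (nat_lit 0) (XT.nd (nat_lit 78) (nat_lit 0) (nat_lit 0) (XT.lf (nat_lit 0) (nat_lit 11062296736) (nat_lit 304) (nat_lit 16892924423) (nat_lit 76) (nat_lit 583850809)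 (nat_lit 79) (nat_lit 5) (nat_lit 83) (nat_lit 5) (nat_lit 80) (nat_lit 5) (nat_lit 436) (nat_lit 361) (nat_lit 223)) (XT.lf (nat_lit 0) (nat_lit 17914418344) (nat_lit 304) (nat_lit 1400142373) (nat_lit 76) (nat_lit 9799936515) (nat_lit 79) (nat_lit 5) (nat_lit 83) (nat_lit 5) (nat_lit 80) (nat_lit 5) (nat_lit 437) (nat_lit 361) (nat_lit 222))) (XT.nd (nat_lit 78) (nat_lit 304) (nat_lit 0) (XT.lf (nat_lit 0) (nat_lit 14831886147) (nat_lit 152) (nat_lit 10273963208) (nat_lit 228) (nat_lit 4597325027) (nat_lit 77) (nat_lit 5) (nat_lit 79) (nat_lit 5) (nat_lit 80) (nat_lit 5) (nat_lit 438) (nat_lit 361) (nat_lit 221)) (XT.lf (nat_lit 0) (nat_lit 1258740048) (nat_lit 228) (nat_lit 919351023) (nat_lit 304) (nat_lit 28130259405) (nat_lit 73) (nat_lit 5) (nat_lit 76) (nat_lit 5) (nat_lit 77) (nat_lit 5) (nat_lit 439) (nat_lit 361) (nat_lit 220)))) (XT.nd (nat_lit 156) (nat_lit 152) (nat_lit 0) (XT.nd (nat_lit 78) (nat_lit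 152) (nat_lit 0) (XT.lf (nat_lit 0) (nat_lit 9291062288) (nat_lit 304) (nat_lit 12895494414) (nat_lit 76) (nat_lit 8736960153) (nat_lit 73) (nat_lit 5) (nat_lit 77) (nat_lit 5) (nat_lit 74) (nat_lit 5) (nat_lit 440) (nat_lit 361) (nat_lit 219)) (XT.lf (nat_lit 0) (nat_lit 3793560638) (nat_lit 152) (nat_lit 12860939313) (nat_lit 228) (nat_lit 14901527288) (nat_lit 71) (nat_lit 5) (nat_lit 73) (nat_lit 5) (nat_lit 74) (nat_lit 5) (nat_lit 441) (nat_lit 361) (nat_lit 218))) (XT.nd (nat_lit 78) (nat_lit 152) (nat_lit 0) (XT.lf (nat_lit 0) (nat_lit 21233167561) (nat_lit 152) (nat_lit 3127509465) (nat_lit 228) (nat_lit 7843182115) (nat_lit 71) (nat_lit 5) (nat_lit 73) (nat_lit 5) (nat_lit 74) (nat_lit 5) (nat_lit 442) (nat_lit 361) (nat_lit 217)) (XT.lf (nat_lit 0) (nat_lit 6368571265) (nat_lit 152) (nat_lit 26048798286) (nat_lit 228) (nat_lit 450177803) (nat_lit 69) (nat_lit 5) (nat_lit 71) (nat_lit 5) (nat_lit 72)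 (nat_lit 5) (nat_lit 443) (nat_lit 361) (nat_lit 216))))))))
noncomputable def xc153 : XT := (XT.nd (nat_lit 2184) (nat_lit 760) (nat_lit 0) (XT.nd (nat_lit 1092) (nat_lit 1064) (nat_lit 0) (XT.nd (nat_lit 546) (nat_lit 684) (nat_lit 0) (XT.nd (nat_lit 234) (nat_lit 380) (nat_lit 0) (XT.nd (nat_lit 78) (nat_lit 152) (nat_lit 0) (XT.lf (nat_lit 0) (nat_lit 7159480326) (nat_lit 228) (nat_lit 9210111751) (nat_lit 76) (nat_lit 17175449066) (nat_lit 68) (nat_lit 5) (nat_lit 71) (nat_lit 5) (nat_lit 69) (nat_lit 5) (nat_lit 444) (nat_lit 361) (nat_lit 215)) (XT.nd (nat_lit 78) (nat_lit 0) (nat_lit 0) (XT.lf (nat_lit 0) (nat_lit 8749861404) (nat_lit 152) (nat_lit 6314692150) (nat_lit 228) (nat_lit 19175888422) (nat_lit 66) (nat_lit 5) (nat_lit 68) (nat_lit 5) (nat_lit 69) (nat_lit 5) (nat_lit 445) (nat_lit 361) (nat_lit 214)) (XT.lf (nat_lit 0) (nat_lit 23331664090) (nat_lit 228) (nat_lit 7570141612) (nat_lit 76) (nat_lit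 4051153696) (nat_lit 66) (nat_lit 5) (nat_lit 69) (nat_lit 5) (nat_lit 67) (nat_lit 5) (nat_lit 446) (nat_lit 361) (nat_lit 213)))) (XT.nd (nat_lit 156) (nat_lit 152) (nat_lit 0) (XT.nd (nat_lit 78) (nat_lit 76) (nat_lit 0) (XT.lf (nat_lit 0) (nat_lit 11027086104) (nat_lit 152) (nat_lit 20980559948) (nat_lit 228) (nat_lit 3674381631) (nat_lit 64) (nat_lit 5) (nat_lit 66) (nat_lit 5) (nat_lit 67) (nat_lit 5) (nat_lit 447) (nat_lit 361) (nat_lit 212)) (XT.lf (nat_lit 0) (nat_lit 4492471450) (nat_lit 228) (nat_lit 6150884212) (nat_lit 76) (nat_lit 25786225820) (nat_lit 63) (nat_lit 5) (nat_lit 66) (nat_lit 5) (nat_lit 64) (nat_lit 5) (nat_lit 448) (nat_lit 361) (nat_lit 211))) (XT.nd (nat_lit 78) (nat_lit 0) (nat_lit 0) (XT.lf (nat_lit 0) (nat_lit 12950716094) (nat_lit 228) (nat_lit 24081782228) (nat_lit 76) (nat_lit 162366043) (nat_lit 61) (nat_lit 5) (nat_lit 64) (nat_lit 5) (nat_lit 62) (nat_lit 5) (nat_lit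 449) (nat_lit 361) (nat_lit 210)) (XT.lf (nat_lit 0) (nat_lit 21823430589) (nat_lit 228) (nat_lit 5019329160) (nat_lit 76) (nat_lit 11135525272) (nat_lit 61) (nat_lit 5) (nat_lit 64) (nat_lit 5) (nat_lit 62) (nat_lit 5) (nat_lit 450) (nat_lit 361) (nat_lit 209))))) (XT.nd (nat_lit 234) (nat_lit 304) (nat_lit 0) (XT.nd (nat_lit 78) (nat_lit 228) (nat_lit 0) (XT.lf (nat_lit 0) (nat_lit 14892846865) (nat_lit 152) (nat_lit 16205469793) (nat_lit 228) (nat_lit 7682812872) (nat_lit 59) (nat_lit 5) (nat_lit 61) (nat_lit 5) (nat_lit 62) (nat_lit 5) (nat_lit 451) (nat_lit 361) (nat_lit 208)) (XT.nd (nat_lit 78) (nat_lit 152) (nat_lit 0) (XT.lf (nat_lit 0) (nat_lit 1067064152) (nat_lit 228) (nat_lit 4124572668) (nat_lit 76) (nat_lit 34414801509) (nat_lit 58) (nat_lit 5) (nat_lit 61) (nat_lit 5) (nat_lit 59) (nat_lit 5) (nat_lit 452) (nat_lit 361) (nat_lit 207)) (XT.lf (nat_lit 0) (nat_lit 10137756796) (nat_lit 228) (nat_lit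 24046235379) (nat_lit 76) (nat_lit 6263850964) (nat_lit 56) (nat_lit 5) (nat_lit 59) (nat_lit 5) (nat_lit 57) (nat_lit 5) (nat_lit 453) (nat_lit 361) (nat_lit 206)))) (XT.nd (nat_lit 156) (nat_lit 152) (nat_lit 0) (XT.nd (nat_lit 78) (nat_lit 152) (nat_lit 0) (XT.lf (nat_lit 0) (nat_lit 19567122634) (nat_lit 228) (nat_lit 3749374346) (nat_lit 76) (nat_lit 17995397370) (nat_lit 56) (nat_lit 5) (nat_lit 59) (nat_lit 5) (nat_lit 57) (nat_lit 5) (nat_lit 454) (nat_lit 361) (nat_lit 205)) (XT.lf (nat_lit 0) (nat_lit 17485518019) (nat_lit 152) (nat_lit 11955221854) (nat_lit 228) (nat_lit 12756286920) (nat_lit 54) (nat_lit 5) (nat_lit 56) (nat_lit 5) (nat_lit 57) (nat_lit 5) (nat_lit 455) (nat_lit 361) (nat_lit 204))) (XT.nd (nat_lit 78) (nat_lit 152) (nat_lit 0) (XT.lf (nat_lit 0) (nat_lit 39422354149) (nat_lit 152) (nat_lit 219442224) (nat_lit 228) (nat_lit 3465980696) (nat_lit 54) (nat_lit 5) (nat_lit 56) (nat_lit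 5) (nat_lit 57) (nat_lit 5) (nat_lit 456) (nat_lit 361) (nat_lit 203)) (XT.lf (nat_lit 0) (nat_lit 6269295457) (nat_lit 152) (nat_lit 25898073307) (nat_lit 76) (nat_lit 11868161258) (nat_lit 52) (nat_lit 5) (nat_lit 54) (nat_lit 5) (nat_lit 53) (nat_lit 5) (nat_lit 457) (nat_lit 361) (nat_lit 202)))))) (XT.nd (nat_lit 546) (nat_lit 608) (nat_lit 0) (XT.nd (nat_lit 234) (nat_lit 304) (nat_lit 0) (XT.nd (nat_lit 78) (nat_lit 152) (nat_lit 0) (XT.lf (nat_lit 0) (nat_lit 16260249462) (nat_lit 152) (nat_lit 4348058153) (nat_lit 76) (nat_lit 24380780696) (nat_lit 52) (nat_lit 5) (nat_lit 54) (nat_lit 5) (nat_lit 53) (nat_lit 5) (nat_lit 458) (nat_lit 361) (nat_lit 201)) (XT.nd (nat_lit 78) (nat_lit 0) (nat_lit 0) (XT.lf (nat_lit 0) (nat_lit 18192020617) (nat_lit 152) (nat_lit 8527498509) (nat_lit 228) (nat_lit 19246677306) (nat_lit 50) (nat_lit 5) (nat_lit 52) (nat_lit 5) (nat_lit 53) (nat_lit 5) (nat_lit 459) (nat_lit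 361) (nat_lit 200)) (XT.lf (nat_lit 0) (nat_lit 37568288337) (nat_lit 228) (nat_lit 5523397661) (nat_lit 76) (nat_lit 3878660833) (nat_lit 50) (nat_lit 5) (nat_lit 53) (nat_lit 5) (nat_lit 51) (nat_lit 4) (nat_lit 460) (nat_lit 361) (nat_lit 199)))) (XT.nd (nat_lit 156) (nat_lit 152) (nat_lit 0) (XT.nd (nat_lit 78) (nat_lit 0) (nat_lit 0) (XT.lf (nat_lit 0) (nat_lit 973908114) (nat_lit 152) (nat_lit 30363088666) (nat_lit 76) (nat_lit 16659900554) (nat_lit 48) (nat_lit 5) (nat_lit 50) (nat_lit 5) (nat_lit 49) (nat_lit 5) (nat_lit 461) (nat_lit 361) (nat_lit 198)) (XT.lf (nat_lit 0) (nat_lit 11522442236) (nat_lit 152) (nat_lit 7558390879) (nat_lit 76) (nat_lit 29969111349) (nat_lit 48) (nat_lit 5) (nat_lit 50) (nat_lit 5) (nat_lit 49) (nat_lit 5) (nat_lit 462) (nat_lit 361) (nat_lit 197))) (XT.nd (nat_lit 78) (nat_lit 0) (nat_lit 0) (XT.lf (nat_lit 0) (nat_lit 16236470843) (nat_lit 152) (nat_lit 6301146004) (nat_lit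 228) (nat_lit 27592461228) (nat_lit 46) (nat_lit 5) (nat_lit 48) (nat_lit 5) (nat_lit 49) (nat_lit 5) (nat_lit 463) (nat_lit 361) (nat_lit 196)) (XT.lf (nat_lit 0) (nat_lit 34020419736) (nat_lit 228) (nat_lit 10417756070) (nat_lit 76) (nat_lit 6800325279) (nat_lit 46) (nat_lit 5) (nat_lit 49) (nat_lit 5) (nat_lit 47) (nat_lit 4) (nat_lit 464) (nat_lit 361) (nat_lit 195))))) (XT.nd (nat_lit 234) (nat_lit 304) (nat_lit 0) (XT.nd (nat_lit 78) (nat_lit 228) (nat_lit 0) (XT.lf (nat_lit 0) (nat_lit 13961914389) (nat_lit 76) (nat_lit 32076692634) (nat_lit 152) (nat_lit 6335843318) (nat_lit 45) (nat_lit 5) (nat_lit 46) (nat_lit 5) (nat_lit 47) (nat_lit 4) (nat_lit 465) (nat_lit 361) (nat_lit 194)) (XT.nd (nat_lit 78) (nat_lit 152) (nat_lit 0) (XT.lf (nat_lit 0) (nat_lit 4878327075) (nat_lit 152) (nat_lit 14313202395) (nat_lit 76) (nat_lit 34348527342) (nat_lit 44) (nat_lit 5) (nat_lit 46) (nat_lit 5) (nat_lit 45) (nat_lit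 5) (nat_lit 466) (nat_lit 361) (nat_lit 193)) (XT.lf (nat_lit 0) (nat_lit 10643860160) (nat_lit 152) (nat_lit 5754511039) (nat_lit 228) (nat_lit 38337475080) (nat_lit 42) (nat_lit 5) (nat_lit 44) (nat_lit 5) (nat_lit 45) (nat_lit 5) (nat_lit 467) (nat_lit 361) (nat_lit 192)))) (XT.nd (nat_lit 156) (nat_lit 228) (nat_lit 0) (XT.nd (nat_lit 78) (nat_lit 76) (nat_lit 0) (XT.lf (nat_lit 0) (nat_lit 28482203146) (nat_lit 228) (nat_lit 19409526316) (nat_lit 76) (nat_lit 8069234874) (nat_lit 42) (nat_lit 5) (nat_lit 45) (nat_lit 5) (nat_lit 43) (nat_lit 4) (nat_lit 468) (nat_lit 361) (nat_lit 191)) (XT.lf (nat_lit 0) (nat_lit 6064837774) (nat_lit 76) (nat_lit 34973643137) (nat_lit 152) (nat_lit 16181057588) (nat_lit 41) (nat_lit 5) (nat_lit 42) (nat_lit 5) (nat_lit 43) (nat_lit 4) (nat_lit 469) (nat_lit 361) (nat_lit 190))) (XT.nd (nat_lit 78) (nat_lit 228) (nat_lit 0) (XT.lf (nat_lit 0) (nat_lit 32691465530) (nat_lit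 76) (nat_lit 21470697221) (nat_lit 152) (nat_lit 4347986135) (nat_lit 41) (nat_lit 5) (nat_lit 42) (nat_lit 5) (nat_lit 43) (nat_lit 4) (nat_lit 470) (nat_lit 361) (nat_lit 189)) (XT.lf (nat_lit 0) (nat_lit 196219512) (nat_lit 152) (nat_lit 7487576193) (nat_lit 228) (nat_lit 52153520230) (nat_lit 38) (nat_lit 5) (nat_lit 40) (nat_lit 5) (nat_lit 41) (nat_lit 5) (nat_lit 471) (nat_lit 361) (nat_lit 188))))))) (XT.nd (nat_lit 1092) (nat_lit 152) (nat_lit 0) (XT.nd (nat_lit 546) (nat_lit 228) (nat_lit 0) (XT.nd (nat_lit 234) (nat_lit 304) (nat_lit 0) (XT.nd (nat_lit 78) (nat_lit 76) (nat_lit 0) (XT.lf (nat_lit 0) (nat_lit 20313748212) (nat_lit 228) (nat_lit 33797428574) (nat_lit 76) (nat_lit 7082091936) (nat_lit 38) (nat_lit 5) (nat_lit 41) (nat_lit 5) (nat_lit 39) (nat_lit 4) (nat_lit 472) (nat_lit 361) (nat_lit 187)) (XT.nd (nat_lit 78) (nat_lit 76) (nat_lit 0) (XT.lf (nat_lit 0) (nat_lit 33391720513) (nat_lit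 228) (nat_lit 7261980226) (nat_lit 76) (nat_lit 21934126139) (nat_lit 38) (nat_lit 5) (nat_lit 41) (nat_lit 5) (nat_lit 39) (nat_lit 4) (nat_lit 473) (nat_lit 361) (nat_lit 186)) (XT.lf (nat_lit 0) (nat_lit 20459651591) (nat_lit 76) (nat_lit 26594183894) (nat_lit 152) (nat_lit 16964632598) (nat_lit 37) (nat_lit 5) (nat_lit 38) (nat_lit 5) (nat_lit 39) (nat_lit 4) (nat_lit 474) (nat_lit 361) (nat_lit 185)))) (XT.nd (nat_lit 156) (nat_lit 76) (nat_lit 0) (XT.nd (nat_lit 78) (nat_lit 228) (nat_lit 0) (XT.lf (nat_lit 0) (nat_lit 49152763790) (nat_lit 76) (nat_lit 12041569633) (nat_lit 152) (nat_lit 4295639912) (nat_lit 37) (nat_lit 5) (nat_lit 38) (nat_lit 5) (nat_lit 39) (nat_lit 4) (nat_lit 475) (nat_lit 361) (nat_lit 184)) (XT.lf (nat_lit 0) (nat_lit 8721951732) (nat_lit 228) (nat_lit 55191019819) (nat_lit 76) (nat_lit 3085948072) (nat_lit 34) (nat_lit 5) (nat_lit 37) (nat_lit 5) (nat_lit 35) (nat_lit 4) (nat_lit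 476) (nat_lit 361) (nat_lit 183))) (XT.nd (nat_lit 78) (nat_lit 76) (nat_lit 0) (XT.lf (nat_lit 0) (nat_lit 22324858507) (nat_lit 228) (nat_lit 27588191012) (nat_lit 76) (nat_lit 18630375445) (nat_lit 34) (nat_lit 5) (nat_lit 37) (nat_lit 5) (nat_lit 35) (nat_lit 4) (nat_lit 477) (nat_lit 361) (nat_lit 182)) (XT.lf (nat_lit 0) (nat_lit 850704333) (nat_lit 76) (nat_lit 35488757529) (nat_lit 152) (nat_lit 33794695676) (nat_lit 33) (nat_lit 5) (nat_lit 34) (nat_lit 5) (nat_lit 35) (nat_lit 4) (nat_lit 478) (nat_lit 361) (nat_lit 181))))) (XT.nd (nat_lit 234) (nat_lit 76) (nat_lit 0) (XT.nd (nat_lit 78) (nat_lit 152) (nat_lit 0) (XT.lf (nat_lit 0) (nat_lit 30699763276) (nat_lit 76) (nat_lit 20348809579) (nat_lit 152) (nat_lit 20715817490) (nat_lit 33) (nat_lit 5) (nat_lit 34) (nat_lit 5) (nat_lit 35) (nat_lit 4) (nat_lit 479) (nat_lit 361) (nat_lit 180)) (XT.nd (nat_lit 78) (nat_lit 152) (nat_lit 0) (XT.lf (nat_lit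 0) (nat_lit 61436008420) (nat_lit 76) (nat_lit 4758563226) (nat_lit 152) (nat_lit 7249090389) (nat_lit 33) (nat_lit 5) (nat_lit 34) (nat_lit 5) (nat_lit 35) (nat_lit 4) (nat_lit 480) (nat_lit 361) (nat_lit 179)) (XT.lf (nat_lit 0) (nat_lit 6774061510) (nat_lit 152) (nat_lit 57072741837) (nat_lit 76) (nat_lit 11316150254) (nat_lit 31) (nat_lit 5) (nat_lit 33) (nat_lit 5) (nat_lit 32) (nat_lit 4) (nat_lit 481) (nat_lit 361) (nat_lit 178)))) (XT.nd (nat_lit 156) (nat_lit 0) (nat_lit 0) (XT.nd (nat_lit 78) (nat_lit 76) (nat_lit 0) (XT.lf (nat_lit 0) (nat_lit 21237488289) (nat_lit 152) (nat_lit 27721258058) (nat_lit 76) (nat_lit 27967966281) (nat_lit 31) (nat_lit 5) (nat_lit 33) (nat_lit 5) (nat_lit 32) (nat_lit 4) (nat_lit 482) (nat_lit 361) (nat_lit 177)) (XT.lf (nat_lit 0) (nat_lit 2552677510) (nat_lit 76) (nat_lit 33602514264) (nat_lit 152) (nat_lit 42587581730) (nat_lit 30) (nat_lit 5) (nat_lit 31) (nat_lit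 5) (nat_lit 32) (nat_lit 4) (nat_lit 483) (nat_lit 361) (nat_lit 176))) (XT.nd (nat_lit 78) (nat_lit 0) (nat_lit 0) (XT.lf (nat_lit 0) (nat_lit 34295262598) (nat_lit 76) (nat_lit 17500976165) (nat_lit 152) (nat_lit 28808803358) (nat_lit 30) (nat_lit 5) (nat_lit 31) (nat_lit 5) (nat_lit 32) (nat_lit 4) (nat_lit 484) (nat_lit 361) (nat_lit 175)) (XT.lf (nat_lit 0) (nat_lit 66982526054) (nat_lit 76) (nat_lit 919993094) (nat_lit 152) (nat_lit 14620779867) (nat_lit 30) (nat_lit 5) (nat_lit 31) (nat_lit 5) (nat_lit 32) (nat_lit 4) (nat_lit 485) (nat_lit 361) (nat_lit 174)))))) (XT.nd (nat_lit 43914) (nat_lit 0) (nat_lit 19228) (XT.nd (nat_lit 43602) (nat_lit 0) (nat_lit 20140) (XT.nd (nat_lit 43446) (nat_lit 0) (nat_lit 20140) (XT.lf (nat_lit 0) (nat_lit 304233618) (nat_lit 152) (nat_lit 68186120693) (nat_lit 76) (nat_lit 15999415307) (nat_lit 28) (nat_lit 5) (nat_lit 30) (nat_lit 5) (nat_lit 29) (nat_lit 4) (nat_lit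 486) (nat_lit 361) (nat_lit 173)) (XT.nd (nat_lit 78) (nat_lit 0) (nat_lit 0) (XT.lf (nat_lit 0) (nat_lit 655309806) (nat_lit 0) (nat_lit 655309806) (nat_lit 988) (nat_lit 2945696284) (nat_lit 293) (nat_lit 5) (nat_lit 293) (nat_lit 3) (nat_lit 306) (nat_lit 3) (nat_lit 362) (nat_lit 362) (nat_lit 296)) (XT.lf (nat_lit 0) (nat_lit 3695433458) (nat_lit 988) (nat_lit 3095304697) (nat_lit 1064) (nat_lit 1818048077) (nat_lit 293) (nat_lit 5) (nat_lit 306) (nat_lit 3) (nat_lit 307) (nat_lit 5) (nat_lit 363) (nat_lit 362) (nat_lit 295)))) (XT.nd (nat_lit 156) (nat_lit 0) (nat_lit 76) (XT.nd (nat_lit 78) (nat_lit 0) (nat_lit 0) (XT.lf (nat_lit 76) (nat_lit 1122280340) (nat_lit 0) (nat_lit 3663835745) (nat_lit 1064) (nat_lit 3922200415) (nat_lit 294) (nat_lit 5) (nat_lit 293) (nat_lit 5) (nat_lit 307) (nat_lit 5) (nat_lit 364) (nat_lit 362) (nat_lit 294)) (XT.lf (nat_lit 76) (nat_lit 5508804973) (nat_lit 0) (nat_lit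 393417125) (nat_lit 1064) (nat_lit 2908848010) (nat_lit 294) (nat_lit 5) (nat_lit 293) (nat_lit 5) (nat_lit 307) (nat_lit 5) (nat_lit 365) (nat_lit 362) (nat_lit 293))) (XT.nd (nat_lit 78) (nat_lit 0) (nat_lit 0) (XT.lf (nat_lit 76) (nat_lit 1080780061) (nat_lit 0) (nat_lit 5972751745) (nat_lit 1064) (nat_lit 1863340884) (nat_lit 295) (nat_lit 5) (nat_lit 294) (nat_lit 5) (nat_lit 308) (nat_lit 5) (nat_lit 366) (nat_lit 362) (nat_lit 292)) (XT.lf (nat_lit 76) (nat_lit 5637519861) (nat_lit 0) (nat_lit 2602675773) (nat_lit 1064) (nat_lit 785646726) (nat_lit 295) (nat_lit 5) (nat_lit 294) (nat_lit 5) (nat_lit 308) (nat_lit 5) (nat_lit 367) (nat_lit 362) (nat_lit 291))))) (XT.nd (nat_lit 312) (nat_lit 0) (nat_lit 76) (XT.nd (nat_lit 156) (nat_lit 0) (nat_lit 0) (XT.nd (nat_lit 78) (nat_lit 0) (nat_lit 0) (XT.lf (nat_lit 0) (nat_lit 302433886) (nat_lit 1064) (nat_lit 7955965844) (nat_lit 1140) (nat_lit 880072741)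 (nat_lit 281) (nat_lit 5) (nat_lit 295) (nat_lit 5) (nat_lit 296) (nat_lit 5) (nat_lit 368) (nat_lit 362) (nat_lit 290)) (XT.lf (nat_lit 0) (nat_lit 1432957541) (nat_lit 1064) (nat_lit 3350020194) (nat_lit 1140) (nat_lit 4470518622) (nat_lit 281) (nat_lit 5) (nat_lit 295) (nat_lit 5) (nat_lit 296) (nat_lit 5) (nat_lit 369) (nat_lit 362) (nat_lit 289))) (XT.nd (nat_lit 78) (nat_lit 0) (nat_lit 76) (XT.lf (nat_lit 76) (nat_lit 1399474181) (nat_lit 0) (nat_lit 1177655035) (nat_lit 1140) (nat_lit 6795465286) (nat_lit 282) (nat_lit 5) (nat_lit 281) (nat_lit 5) (nat_lit 296) (nat_lit 5) (nat_lit 370) (nat_lit 362) (nat_lit 288)) (XT.lf (nat_lit 0) (nat_lit 3781326460) (nat_lit 1064) (nat_lit 3181670772) (nat_lit 1140) (nat_lit 2531512404) (nat_lit 282) (nat_lit 5) (nat_lit 296) (nat_lit 5) (nat_lit 297) (nat_lit 5) (nat_lit 371) (nat_lit 362) (nat_lit 287)))) (XT.nd (nat_lit 156) (nat_lit 0) (nat_lit 76) (XT.nd (nat_lit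 78) (nat_lit 0) (nat_lit 76) (XT.lf (nat_lit 76) (nat_lit 1753917958) (nat_lit 0) (nat_lit 3264368746) (nat_lit 1140) (nat_lit 4601911028) (nat_lit 283) (nat_lit 5) (nat_lit 282) (nat_lit 5) (nat_lit 297) (nat_lit 5) (nat_lit 372) (nat_lit 362) (nat_lit 286)) (XT.lf (nat_lit 0) (nat_lit 6298967032) (nat_lit 1064) (nat_lit 2874446172) (nat_lit 1140) (nat_lit 576059123) (nat_lit 283) (nat_lit 5) (nat_lit 297) (nat_lit 5) (nat_lit 298) (nat_lit 5) (nat_lit 373) (nat_lit 362) (nat_lit 285))) (XT.nd (nat_lit 78) (nat_lit 0) (nat_lit 0) (XT.lf (nat_lit 76) (nat_lit 2256534723) (nat_lit 0) (nat_lit 5385373419) (nat_lit 1140) (nat_lit 2240015585) (nat_lit 284) (nat_lit 5) (nat_lit 283) (nat_lit 5) (nat_lit 298) (nat_lit 5) (nat_lit 374) (nat_lit 362) (nat_lit 284)) (XT.lf (nat_lit 76) (nat_lit 7578266849) (nat_lit 0) (nat_lit 1446391928) (nat_lit 1140) (nat_lit 993717634) (nat_lit 284) (nat_lit 5) (nat_lit 283) (nat_lit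 5) (nat_lit 298) (nat_lit 5) (nat_lit 375) (nat_lit 362) (nat_lit 283))))))))
noncomputable def xc154 : XT := (XT.nd (nat_lit 2184) (nat_lit 5168) (nat_lit 0) (XT.nd (nat_lit 1092) (nat_lit 3876) (nat_lit 0) (XT.nd (nat_lit 546) (nat_lit 2432) (nat_lit 0) (XT.nd (nat_lit 234) (nat_lit 2280) (nat_lit 0) (XT.nd (nat_lit 78) (nat_lit 0) (nat_lit 0) (XT.lf (nat_lit 0) (nat_lit 309033242) (nat_lit 1140) (nat_lit 7251212892) (nat_lit 1216) (nat_lit 2597863861) (nat_lit 269) (nat_lit 5) (nat_lit 284) (nat_lit 5) (nat_lit 285) (nat_lit 5) (nat_lit 376) (nat_lit 362) (nat_lit 282)) (XT.nd (nat_lit 78) (nat_lit 0) (nat_lit 76) (XT.lf (nat_lit 0) (nat_lit 1641852336) (nat_lit 1140) (nat_lit 1884120066) (nat_lit 1216) (nat_lit 6775451513) (nat_lit 269) (nat_lit 5) (nat_lit 284) (nat_lit 5) (nat_lit 285) (nat_lit 5) (nat_lit 377) (nat_lit 362) (nat_lit 281)) (XT.lf (nat_lit 0) (nat_lit 3029193251) (nat_lit 1140) (nat_lit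 6761281891) (nat_lit 76) (nat_lit 658137879) (nat_lit 270) (nat_lit 5) (nat_lit 285) (nat_lit 5) (nat_lit 271) (nat_lit 5) (nat_lit 378) (nat_lit 362) (nat_lit 280)))) (XT.nd (nat_lit 156) (nat_lit 1216) (nat_lit 0) (XT.nd (nat_lit 78) (nat_lit 1140) (nat_lit 0) (XT.lf (nat_lit 0) (nat_lit 4485491619) (nat_lit 1140) (nat_lit 1192936554) (nat_lit 76) (nat_lit 4920981052) (nat_lit 270) (nat_lit 5) (nat_lit 285) (nat_lit 5) (nat_lit 271) (nat_lit 5) (nat_lit 379) (nat_lit 362) (nat_lit 279)) (XT.lf (nat_lit 0) (nat_lit 4610346903) (nat_lit 1140) (nat_lit 1393442046) (nat_lit 1216) (nat_lit 4750402270) (nat_lit 255) (nat_lit 5) (nat_lit 270) (nat_lit 5) (nat_lit 271) (nat_lit 5) (nat_lit 380) (nat_lit 362) (nat_lit 278))) (XT.nd (nat_lit 78) (nat_lit 1216) (nat_lit 0) (XT.lf (nat_lit 0) (nat_lit 7583406285) (nat_lit 1216) (nat_lit 352892207) (nat_lit 76) (nat_lit 2976855927) (nat_lit 255) (nat_lit 5) (nat_lit 271)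 (nat_lit 5) (nat_lit 256) (nat_lit 5) (nat_lit 381) (nat_lit 362) (nat_lit 277)) (XT.lf (nat_lit 0) (nat_lit 5686955717) (nat_lit 1216) (nat_lit 3567234430) (nat_lit 1292) (nat_lit 1821393590) (nat_lit 239) (nat_lit 5) (nat_lit 255) (nat_lit 5) (nat_lit 256) (nat_lit 5) (nat_lit 382) (nat_lit 362) (nat_lit 276))))) (XT.nd (nat_lit 234) (nat_lit 1140) (nat_lit 0) (XT.nd (nat_lit 78) (nat_lit 684) (nat_lit 0) (XT.lf (nat_lit 0) (nat_lit 653654323) (nat_lit 608) (nat_lit 10316140387) (nat_lit 684) (nat_lit 273260562) (nat_lit 231) (nat_lit 5) (nat_lit 239) (nat_lit 5) (nat_lit 240) (nat_lit 5) (nat_lit 383) (nat_lit 362) (nat_lit 275)) (XT.nd (nat_lit 78) (nat_lit 608) (nat_lit 0) (XT.lf (nat_lit 0) (nat_lit 1361897498) (nat_lit 684) (nat_lit 4497627299) (nat_lit 76) (nat_lit 5553663842) (nat_lit 230) (nat_lit 5) (nat_lit 239) (nat_lit 5) (nat_lit 231) (nat_lit 5) (nat_lit 384) (nat_lit 362) (nat_lit 274)) (XT.lf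 (nat_lit 0) (nat_lit 1786911339) (nat_lit 608) (nat_lit 1247672119) (nat_lit 684) (nat_lit 8553951803) (nat_lit 222) (nat_lit 5) (nat_lit 230) (nat_lit 5) (nat_lit 231) (nat_lit 5) (nat_lit 385) (nat_lit 362) (nat_lit 273)))) (XT.nd (nat_lit 156) (nat_lit 532) (nat_lit 0) (XT.nd (nat_lit 78) (nat_lit 608) (nat_lit 0) (XT.lf (nat_lit 0) (nat_lit 4814246968) (nat_lit 684) (nat_lit 3472348747) (nat_lit 76) (nat_lit 3480851769) (nat_lit 222) (nat_lit 5) (nat_lit 231) (nat_lit 5) (nat_lit 223) (nat_lit 5) (nat_lit 386) (nat_lit 362) (nat_lit 272)) (XT.lf (nat_lit 0) (nat_lit 3072431057) (nat_lit 608) (nat_lit 3594680443) (nat_lit 684) (nat_lit 5284030086) (nat_lit 214) (nat_lit 5) (nat_lit 222) (nat_lit 5) (nat_lit 223) (nat_lit 5) (nat_lit 387) (nat_lit 362) (nat_lit 271))) (XT.nd (nat_lit 78) (nat_lit 532) (nat_lit 0) (XT.lf (nat_lit 0) (nat_lit 8601229938) (nat_lit 684) (nat_lit 2289224029) (nat_lit 76) (nat_lit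 1249131091) (nat_lit 214) (nat_lit 5) (nat_lit 223) (nat_lit 5) (nat_lit 215) (nat_lit 5) (nat_lit 388) (nat_lit 362) (nat_lit 270)) (XT.lf (nat_lit 0) (nat_lit 4528969642) (nat_lit 532) (nat_lit 6122515351) (nat_lit 608) (nat_lit 1680461787) (nat_lit 207) (nat_lit 5) (nat_lit 214) (nat_lit 5) (nat_lit 215) (nat_lit 5) (nat_lit 389) (nat_lit 362) (nat_lit 269)))))) (XT.nd (nat_lit 546) (nat_lit 1824) (nat_lit 0) (XT.nd (nat_lit 234) (nat_lit 988) (nat_lit 0) (XT.nd (nat_lit 78) (nat_lit 988) (nat_lit 0) (XT.lf (nat_lit 0) (nat_lit 231143789) (nat_lit 608) (nat_lit 955192013) (nat_lit 76) (nat_lit 11343608408) (nat_lit 206) (nat_lit 5) (nat_lit 214) (nat_lit 5) (nat_lit 207) (nat_lit 5) (nat_lit 390) (nat_lit 362) (nat_lit 268)) (XT.nd (nat_lit 78) (nat_lit 456) (nat_lit 0) (XT.lf (nat_lit 0) (nat_lit 2243731998) (nat_lit 608) (nat_lit 6589762098) (nat_lit 76) (nat_lit 3897573648) (nat_lit 199) (nat_lit 5) (nat_lit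 207) (nat_lit 5) (nat_lit 200) (nat_lit 5) (nat_lit 391) (nat_lit 362) (nat_lit 267)) (XT.lf (nat_lit 0) (nat_lit 508715996) (nat_lit 456) (nat_lit 3814518429) (nat_lit 532) (nat_lit 8614801868) (nat_lit 193) (nat_lit 5) (nat_lit 199) (nat_lit 5) (nat_lit 200) (nat_lit 5) (nat_lit 392) (nat_lit 362) (nat_lit 266)))) (XT.nd (nat_lit 156) (nat_lit 456) (nat_lit 0) (XT.nd (nat_lit 78) (nat_lit 532) (nat_lit 0) (XT.lf (nat_lit 0) (nat_lit 6525861002) (nat_lit 532) (nat_lit 5229741173) (nat_lit 76) (nat_lit 1393796744) (nat_lit 193) (nat_lit 5) (nat_lit 200) (nat_lit 5) (nat_lit 194) (nat_lit 5) (nat_lit 393) (nat_lit 362) (nat_lit 265)) (XT.lf (nat_lit 0) (nat_lit 2168953278) (nat_lit 532) (nat_lit 6665308756) (nat_lit 608) (nat_lit 4531656503) (nat_lit 186) (nat_lit 5) (nat_lit 193) (nat_lit 5) (nat_lit 194) (nat_lit 5) (nat_lit 394) (nat_lit 362) (nat_lit 264))) (XT.nd (nat_lit 78) (nat_lit 456) (nat_lit 0) (XT.lf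 (nat_lit 0) (nat_lit 9875594585) (nat_lit 532) (nat_lit 1370556622) (nat_lit 608) (nat_lit 2341762231) (nat_lit 186) (nat_lit 5) (nat_lit 193) (nat_lit 5) (nat_lit 194) (nat_lit 5) (nat_lit 395) (nat_lit 362) (nat_lit 263)) (XT.lf (nat_lit 0) (nat_lit 4014838830) (nat_lit 456) (nat_lit 9775342262) (nat_lit 532) (nat_lit 24600156) (nat_lit 180) (nat_lit 5) (nat_lit 186) (nat_lit 5) (nat_lit 187) (nat_lit 5) (nat_lit 396) (nat_lit 362) (nat_lit 262))))) (XT.nd (nat_lit 234) (nat_lit 1292) (nat_lit 0) (XT.nd (nat_lit 78) (nat_lit 456) (nat_lit 0) (XT.lf (nat_lit 0) (nat_lit 2349497668) (nat_lit 532) (nat_lit 2055346159) (nat_lit 76) (nat_lit 9641930891) (nat_lit 179) (nat_lit 5) (nat_lit 186) (nat_lit 5) (nat_lit 180) (nat_lit 5) (nat_lit 397) (nat_lit 362) (nat_lit 261)) (XT.nd (nat_lit 78) (nat_lit 0) (nat_lit 0) (XT.lf (nat_lit 0) (nat_lit 4846155954) (nat_lit 532) (nat_lit 8277767646) (nat_lit 76) (nat_lit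 1160248149) (nat_lit 173) (nat_lit 5) (nat_lit 180) (nat_lit 5) (nat_lit 174) (nat_lit 5) (nat_lit 398) (nat_lit 362) (nat_lit 260)) (XT.lf (nat_lit 0) (nat_lit 7465171410) (nat_lit 532) (nat_lit 240689049) (nat_lit 76) (nat_lit 6821412358) (nat_lit 173) (nat_lit 5) (nat_lit 180) (nat_lit 5) (nat_lit 174) (nat_lit 5) (nat_lit 399) (nat_lit 362) (nat_lit 259)))) (XT.nd (nat_lit 156) (nat_lit 456) (nat_lit 0) (XT.nd (nat_lit 78) (nat_lit 456) (nat_lit 0) (XT.lf (nat_lit 0) (nat_lit 8176726621) (nat_lit 380) (nat_lit 2048013556) (nat_lit 456) (nat_lit 4551072931) (nat_lit 168) (nat_lit 5) (nat_lit 173) (nat_lit 5) (nat_lit 174) (nat_lit 5) (nat_lit 400) (nat_lit 362) (nat_lit 258)) (XT.lf (nat_lit 0) (nat_lit 1797999776) (nat_lit 456) (nat_lit 11308802791) (nat_lit 532) (nat_lit 1923821356) (nat_lit 162) (nat_lit 5) (nat_lit 168) (nat_lit 5) (nat_lit 169) (nat_lit 5) (nat_lit 401) (nat_lit 362) (nat_lit 257)))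 (XT.nd (nat_lit 78) (nat_lit 380) (nat_lit 0) (XT.lf (nat_lit 0) (nat_lit 838311389) (nat_lit 532) (nat_lit 4757981783) (nat_lit 76) (nat_lit 9694425661) (nat_lit 161) (nat_lit 5) (nat_lit 168) (nat_lit 5) (nat_lit 162) (nat_lit 5) (nat_lit 402) (nat_lit 362) (nat_lit 256)) (XT.lf (nat_lit 0) (nat_lit 3670706994) (nat_lit 456) (nat_lit 11550673884) (nat_lit 76) (nat_lit 335887350) (nat_lit 156) (nat_lit 5) (nat_lit 162) (nat_lit 5) (nat_lit 157) (nat_lit 5) (nat_lit 403) (nat_lit 362) (nat_lit 255))))))) (XT.nd (nat_lit 1092) (nat_lit 2204) (nat_lit 0) (XT.nd (nat_lit 546) (nat_lit 1444) (nat_lit 0) (XT.nd (nat_lit 234) (nat_lit 1140) (nat_lit 0) (XT.nd (nat_lit 78) (nat_lit 380) (nat_lit 0) (XT.lf (nat_lit 0) (nat_lit 6676457180) (nat_lit 456) (nat_lit 2774961237) (nat_lit 76) (nat_lit 6377749104) (nat_lit 156) (nat_lit 5) (nat_lit 162) (nat_lit 5) (nat_lit 157) (nat_lit 5) (nat_lit 404) (nat_lit 362) (nat_lit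 254)) (XT.nd (nat_lit 78) (nat_lit 0) (nat_lit 0) (XT.lf (nat_lit 0) (nat_lit 6368542904) (nat_lit 380) (nat_lit 3449960032) (nat_lit 456) (nat_lit 6289341919) (nat_lit 151) (nat_lit 5) (nat_lit 156) (nat_lit 5) (nat_lit 157) (nat_lit 5) (nat_lit 405) (nat_lit 362) (nat_lit 253)) (XT.lf (nat_lit 0) (nat_lit 13094477484) (nat_lit 456) (nat_lit 597304433) (nat_lit 76) (nat_lit 2701915187) (nat_lit 151) (nat_lit 5) (nat_lit 157) (nat_lit 5) (nat_lit 152) (nat_lit 5) (nat_lit 406) (nat_lit 362) (nat_lit 252)))) (XT.nd (nat_lit 156) (nat_lit 304) (nat_lit 0) (XT.nd (nat_lit 78) (nat_lit 456) (nat_lit 0) (XT.lf (nat_lit 0) (nat_lit 8939861332) (nat_lit 380) (nat_lit 7634508084) (nat_lit 456) (nat_lit 110590840) (nat_lit 146) (nat_lit 5) (nat_lit 151) (nat_lit 5) (nat_lit 152) (nat_lit 5) (nat_lit 407) (nat_lit 362) (nat_lit 251)) (XT.lf (nat_lit 0) (nat_lit 1775196490) (nat_lit 380) (nat_lit 1345361857) (nat_lit 456)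 (nat_lit 13863228202) (nat_lit 140) (nat_lit 5) (nat_lit 145) (nat_lit 5) (nat_lit 146) (nat_lit 5) (nat_lit 408) (nat_lit 362) (nat_lit 250))) (XT.nd (nat_lit 78) (nat_lit 304) (nat_lit 0) (XT.lf (nat_lit 0) (nat_lit 6560559768) (nat_lit 456) (nat_lit 5620239305) (nat_lit 76) (nat_lit 5107325595) (nat_lit 140) (nat_lit 5) (nat_lit 146) (nat_lit 5) (nat_lit 141) (nat_lit 5) (nat_lit 409) (nat_lit 362) (nat_lit 249)) (XT.lf (nat_lit 0) (nat_lit 4307397271) (nat_lit 304) (nat_lit 5837322251) (nat_lit 380) (nat_lit 7455648641) (nat_lit 136) (nat_lit 5) (nat_lit 140) (nat_lit 5) (nat_lit 141) (nat_lit 5) (nat_lit 410) (nat_lit 362) (nat_lit 248))))) (XT.nd (nat_lit 234) (nat_lit 988) (nat_lit 0) (XT.nd (nat_lit 78) (nat_lit 456) (nat_lit 0) (XT.lf (nat_lit 0) (nat_lit 13886814392) (nat_lit 380) (nat_lit 3298729392) (nat_lit 76) (nat_lit 734926735) (nat_lit 136) (nat_lit 5) (nat_lit 141) (nat_lit 5) (nat_lit 137)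 (nat_lit 5) (nat_lit 411) (nat_lit 362) (nat_lit 247)) (XT.nd (nat_lit 78) (nat_lit 76) (nat_lit 0) (XT.lf (nat_lit 0) (nat_lit 7056535053) (nat_lit 380) (nat_lit 10797060387) (nat_lit 456) (nat_lit 393211560) (nat_lit 131) (nat_lit 5) (nat_lit 136) (nat_lit 5) (nat_lit 137) (nat_lit 5) (nat_lit 412) (nat_lit 362) (nat_lit 246)) (XT.lf (nat_lit 0) (nat_lit 3311461076) (nat_lit 456) (nat_lit 843239005) (nat_lit 76) (nat_lit 14426653772) (nat_lit 130) (nat_lit 5) (nat_lit 136) (nat_lit 5) (nat_lit 131) (nat_lit 5) (nat_lit 413) (nat_lit 362) (nat_lit 245)))) (XT.nd (nat_lit 156) (nat_lit 380) (nat_lit 0) (XT.nd (nat_lit 78) (nat_lit 304) (nat_lit 0) (XT.lf (nat_lit 0) (nat_lit 7229389064) (nat_lit 380) (nat_lit 8963139291) (nat_lit 76) (nat_lit 2729994847) (nat_lit 126) (nat_lit 5) (nat_lit 131) (nat_lit 5) (nat_lit 127) (nat_lit 5) (nat_lit 414) (nat_lit 362) (nat_lit 244)) (XT.lf (nat_lit 0) (nat_lit 1805317599)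 (nat_lit 304) (nat_lit 9514023757) (nat_lit 380) (nat_lit 7952955016) (nat_lit 122) (nat_lit 5) (nat_lit 126) (nat_lit 5) (nat_lit 127) (nat_lit 5) (nat_lit 415) (nat_lit 362) (nat_lit 243))) (XT.nd (nat_lit 78) (nat_lit 380) (nat_lit 0) (XT.lf (nat_lit 0) (nat_lit 13062354449) (nat_lit 304) (nat_lit 2547737556) (nat_lit 380) (nat_lit 4020130977) (nat_lit 122) (nat_lit 5) (nat_lit 126) (nat_lit 5) (nat_lit 127) (nat_lit 5) (nat_lit 416) (nat_lit 362) (nat_lit 242)) (XT.lf (nat_lit 0) (nat_lit 108278783) (nat_lit 380) (nat_lit 15310421859) (nat_lit 76) (nat_lit 4577834963) (nat_lit 117) (nat_lit 5) (nat_lit 122) (nat_lit 5) (nat_lit 118) (nat_lit 5) (nat_lit 417) (nat_lit 362) (nat_lit 241)))))) (XT.nd (nat_lit 546) (nat_lit 1064) (nat_lit 0) (XT.nd (nat_lit 234) (nat_lit 836) (nat_lit 0) (XT.nd (nat_lit 78) (nat_lit 304) (nat_lit 0) (XT.lf (nat_lit 0) (nat_lit 4359901820) (nat_lit 380) (nat_lit 4043238336) (nat_lit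 76) (nat_lit 11967101467) (nat_lit 117) (nat_lit 5) (nat_lit 122) (nat_lit 5) (nat_lit 118) (nat_lit 5) (nat_lit 418) (nat_lit 362) (nat_lit 240)) (XT.nd (nat_lit 78) (nat_lit 0) (nat_lit 0) (XT.lf (nat_lit 0) (nat_lit 7694579845) (nat_lit 304) (nat_lit 1106766728) (nat_lit 380) (nat_lit 11951946935) (nat_lit 113) (nat_lit 5) (nat_lit 117) (nat_lit 5) (nat_lit 118) (nat_lit 5) (nat_lit 419) (nat_lit 362) (nat_lit 239)) (XT.lf (nat_lit 0) (nat_lit 13467295667) (nat_lit 380) (nat_lit 1358853900) (nat_lit 76) (nat_lit 6318952345) (nat_lit 113) (nat_lit 5) (nat_lit 118) (nat_lit 5) (nat_lit 114) (nat_lit 5) (nat_lit 420) (nat_lit 362) (nat_lit 238)))) (XT.nd (nat_lit 156) (nat_lit 228) (nat_lit 0) (XT.nd (nat_lit 78) (nat_lit 380) (nat_lit 0) (XT.lf (nat_lit 0) (nat_lit 10876140161) (nat_lit 228) (nat_lit 7501351961) (nat_lit 304) (nat_lit 3168047091) (nat_lit 110) (nat_lit 5) (nat_lit 113) (nat_lit 5) (nat_lit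 114) (nat_lit 5) (nat_lit 421) (nat_lit 362) (nat_lit 237)) (XT.lf (nat_lit 0) (nat_lit 1466509779) (nat_lit 380) (nat_lit 20410698138) (nat_lit 76) (nat_lit 79808536) (nat_lit 105) (nat_lit 5) (nat_lit 110) (nat_lit 5) (nat_lit 106) (nat_lit 5) (nat_lit 422) (nat_lit 362) (nat_lit 236))) (XT.nd (nat_lit 78) (nat_lit 228) (nat_lit 0) (XT.lf (nat_lit 0) (nat_lit 6348425412) (nat_lit 380) (nat_lit 8154390901) (nat_lit 76) (nat_lit 7871923275) (nat_lit 105) (nat_lit 5) (nat_lit 110) (nat_lit 5) (nat_lit 106) (nat_lit 5) (nat_lit 423) (nat_lit 362) (nat_lit 235)) (XT.lf (nat_lit 0) (nat_lit 4541428905) (nat_lit 228) (nat_lit 6868266456) (nat_lit 304) (nat_lit 11394314560) (nat_lit 102) (nat_lit 5) (nat_lit 105) (nat_lit 5) (nat_lit 106) (nat_lit 5) (nat_lit 424) (nat_lit 362) (nat_lit 234))))) (XT.nd (nat_lit 312) (nat_lit 532) (nat_lit 0) (XT.nd (nat_lit 156) (nat_lit 304) (nat_lit 0) (XT.nd (nat_lit 78) (nat_lit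 228) (nat_lit 0) (XT.lf (nat_lit 0) (nat_lit 16704867067) (nat_lit 304) (nat_lit 5485684799) (nat_lit 76) (nat_lit 1053146929) (nat_lit 102) (nat_lit 5) (nat_lit 106) (nat_lit 5) (nat_lit 103) (nat_lit 5) (nat_lit 425) (nat_lit 362) (nat_lit 233)) (XT.lf (nat_lit 0) (nat_lit 7741171716) (nat_lit 228) (nat_lit 14549785675) (nat_lit 304) (nat_lit 1401661308) (nat_lit 99) (nat_lit 5) (nat_lit 102) (nat_lit 5) (nat_lit 103) (nat_lit 5) (nat_lit 426) (nat_lit 362) (nat_lit 232))) (XT.nd (nat_lit 78) (nat_lit 228) (nat_lit 0) (XT.lf (nat_lit 0) (nat_lit 3859356897) (nat_lit 304) (nat_lit 2730445800) (nat_lit 76) (nat_lit 17562714965) (nat_lit 98) (nat_lit 5) (nat_lit 102) (nat_lit 5) (nat_lit 99) (nat_lit 5) (nat_lit 427) (nat_lit 362) (nat_lit 231)) (XT.lf (nat_lit 0) (nat_lit 9363069071) (nat_lit 304) (nat_lit 13566086436) (nat_lit 76) (nat_lit 1693252766) (nat_lit 95) (nat_lit 5) (nat_lit 99) (nat_lit 5) (nat_lit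 96) (nat_lit 5) (nat_lit 428) (nat_lit 362) (nat_lit 230)))) (XT.nd (nat_lit 156) (nat_lit 304) (nat_lit 0) (XT.nd (nat_lit 78) (nat_lit 0) (nat_lit 0) (XT.lf (nat_lit 0) (nat_lit 128021160) (nat_lit 228) (nat_lit 14988265606) (nat_lit 304) (nat_lit 9987579029) (nat_lit 92) (nat_lit 5) (nat_lit 95) (nat_lit 5) (nat_lit 96) (nat_lit 5) (nat_lit 429) (nat_lit 362) (nat_lit 229)) (XT.lf (nat_lit 0) (nat_lit 14495146891) (nat_lit 228) (nat_lit 6674154137) (nat_lit 304) (nat_lit 4426651973) (nat_lit 92) (nat_lit 5) (nat_lit 95) (nat_lit 5) (nat_lit 96) (nat_lit 5) (nat_lit 430) (nat_lit 362) (nat_lit 228))) (XT.nd (nat_lit 78) (nat_lit 0) (nat_lit 0) (XT.lf (nat_lit 0) (nat_lit 1315650237) (nat_lit 304) (nat_lit 22895035130) (nat_lit 76) (nat_lit 1890545997) (nat_lit 88) (nat_lit 5) (nat_lit 92) (nat_lit 5) (nat_lit 89) (nat_lit 5) (nat_lit 431) (nat_lit 362) (nat_lit 227)) (XT.lf (nat_lit 0) (nat_lit 7311008740)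 (nat_lit 304) (nat_lit 8575061240) (nat_lit 76) (nat_lit 10729192287) (nat_lit 88) (nat_lit 5) (nat_lit 92) (nat_lit 5) (nat_lit 89) (nat_lit 5) (nat_lit 432) (nat_lit 362) (nat_lit 226))))))))
noncomputable def xc155 : XT := (XT.nd (nat_lit 2184) (nat_lit 1520) (nat_lit 0) (XT.nd (nat_lit 1092) (nat_lit 1216) (nat_lit 0) (XT.nd (nat_lit 546) (nat_lit 836) (nat_lit 0) (XT.nd (nat_lit 234) (nat_lit 456) (nat_lit 0) (XT.nd (nat_lit 78) (nat_lit 152) (nat_lit 0) (XT.lf (nat_lit 0) (nat_lit 6281849185) (nat_lit 228) (nat_lit 7255512888) (nat_lit 304) (nat_lit 13605819741) (nat_lit 85) (nat_lit 5) (nat_lit 88) (nat_lit 5) (nat_lit 89) (nat_lit 5) (nat_lit 433) (nat_lit 362) (nat_lit 225)) (XT.nd (nat_lit 78) (nat_lit 152) (nat_lit 0) (XT.lf (nat_lit 0) (nat_lit 20044477356) (nat_lit 304) (nat_lit 5955970758) (nat_lit 76) (nat_lit 1683673383) (nat_lit 85) (nat_lit 5) (nat_lit 89) (nat_lit 5) (nat_lit 86) (nat_lit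 5) (nat_lit 434) (nat_lit 362) (nat_lit 224)) (XT.lf (nat_lit 0) (nat_lit 9495132601) (nat_lit 152) (nat_lit 17405866846) (nat_lit 228) (nat_lit 1335665763) (nat_lit 83) (nat_lit 5) (nat_lit 85) (nat_lit 5) (nat_lit 86) (nat_lit 5) (nat_lit 435) (nat_lit 362) (nat_lit 223)))) (XT.nd (nat_lit 156) (nat_lit 152) (nat_lit 0) (XT.nd (nat_lit 78) (nat_lit 228) (nat_lit 0) (XT.lf (nat_lit 0) (nat_lit 5108644086) (nat_lit 228) (nat_lit 3337191681) (nat_lit 76) (nat_lit 20356908158) (nat_lit 82) (nat_lit 5) (nat_lit 85) (nat_lit 5) (nat_lit 83) (nat_lit 5) (nat_lit 436) (nat_lit 362) (nat_lit 222)) (XT.lf (nat_lit 0) (nat_lit 11842189176) (nat_lit 304) (nat_lit 16640410975) (nat_lit 76) (nat_lit 899127073) (nat_lit 79) (nat_lit 5) (nat_lit 83) (nat_lit 5) (nat_lit 80) (nat_lit 5) (nat_lit 437) (nat_lit 362) (nat_lit 221))) (XT.nd (nat_lit 78) (nat_lit 152) (nat_lit 0) (XT.lf (nat_lit 0) (nat_lit 18886825203) (nat_lit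 304) (nat_lit 704961032) (nat_lit 76) (nat_lit 10383022707) (nat_lit 79) (nat_lit 5) (nat_lit 83) (nat_lit 5) (nat_lit 80) (nat_lit 5) (nat_lit 438) (nat_lit 362) (nat_lit 220)) (XT.lf (nat_lit 0) (nat_lit 16006801034) (nat_lit 152) (nat_lit 10281545762) (nat_lit 228) (nat_lit 4292971336) (nat_lit 77) (nat_lit 5) (nat_lit 79) (nat_lit 5) (nat_lit 80) (nat_lit 5) (nat_lit 439) (nat_lit 362) (nat_lit 219))))) (XT.nd (nat_lit 234) (nat_lit 380) (nat_lit 0) (XT.nd (nat_lit 78) (nat_lit 152) (nat_lit 0) (XT.lf (nat_lit 0) (nat_lit 2027918882) (nat_lit 228) (nat_lit 643558458) (nat_lit 304) (nat_lit 28533214644) (nat_lit 73) (nat_lit 5) (nat_lit 76) (nat_lit 5) (nat_lit 77) (nat_lit 5) (nat_lit 440) (nat_lit 362) (nat_lit 218)) (XT.nd (nat_lit 78) (nat_lit 152) (nat_lit 0) (XT.lf (nat_lit 0) (nat_lit 9988201675) (nat_lit 304) (nat_lit 12562544265) (nat_lit 76) (nat_lit 9287858467) (nat_lit 73) (nat_lit 5) (nat_lit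 77) (nat_lit 5) (nat_lit 74) (nat_lit 5) (nat_lit 441) (nat_lit 362) (nat_lit 217)) (XT.lf (nat_lit 0) (nat_lit 4620125429) (nat_lit 152) (nat_lit 12947081878) (nat_lit 228) (nat_lit 14923044764) (nat_lit 71) (nat_lit 5) (nat_lit 73) (nat_lit 5) (nat_lit 74) (nat_lit 5) (nat_lit 442) (nat_lit 362) (nat_lit 216)))) (XT.nd (nat_lit 156) (nat_lit 228) (nat_lit 0) (XT.nd (nat_lit 78) (nat_lit 152) (nat_lit 0) (XT.lf (nat_lit 0) (nat_lit 22562160619) (nat_lit 152) (nat_lit 2930377842) (nat_lit 228) (nat_lit 7665343266) (nat_lit 71) (nat_lit 5) (nat_lit 73) (nat_lit 5) (nat_lit 74) (nat_lit 5) (nat_lit 443) (nat_lit 362) (nat_lit 215)) (XT.lf (nat_lit 0) (nat_lit 7254047332) (nat_lit 152) (nat_lit 26534594193) (nat_lit 228) (nat_lit 52909572) (nat_lit 69) (nat_lit 5) (nat_lit 71) (nat_lit 5) (nat_lit 72) (nat_lit 5) (nat_lit 444) (nat_lit 362) (nat_lit 214))) (XT.nd (nat_lit 78) (nat_lit 152) (nat_lit 0) (XT.lf (nat_lit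 0) (nat_lit 7765291817) (nat_lit 228) (nat_lit 8804383064) (nat_lit 76) (nat_lit 17969929986) (nat_lit 68) (nat_lit 5) (nat_lit 71) (nat_lit 5) (nat_lit 69) (nat_lit 5) (nat_lit 445) (nat_lit 362) (nat_lit 213)) (XT.lf (nat_lit 0) (nat_lit 9687702696) (nat_lit 152) (nat_lit 6214917240) (nat_lit 228) (nat_lit 19353396358) (nat_lit 66) (nat_lit 5) (nat_lit 68) (nat_lit 5) (nat_lit 69) (nat_lit 5) (nat_lit 446) (nat_lit 362) (nat_lit 212)))))) (XT.nd (nat_lit 546) (nat_lit 608) (nat_lit 0) (XT.nd (nat_lit 234) (nat_lit 380) (nat_lit 0) (XT.nd (nat_lit 78) (nat_lit 228) (nat_lit 0) (XT.lf (nat_lit 0) (nat_lit 24409196435) (nat_lit 228) (nat_lit 7132969867) (nat_lit 76) (nat_lit 4448000961) (nat_lit 66) (nat_lit 5) (nat_lit 69) (nat_lit 5) (nat_lit 67) (nat_lit 5) (nat_lit 447) (nat_lit 362) (nat_lit 211)) (XT.nd (nat_lit 78) (nat_lit 76) (nat_lit 0) (XT.lf (nat_lit 0) (nat_lit 12015662170) (nat_lit 152) (nat_lit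 21325120964) (nat_lit 228) (nat_lit 3400466261) (nat_lit 64) (nat_lit 5) (nat_lit 66) (nat_lit 5) (nat_lit 67) (nat_lit 5) (nat_lit 448) (nat_lit 362) (nat_lit 210)) (XT.lf (nat_lit 0) (nat_lit 4992925914) (nat_lit 228) (nat_lit 5689478752) (nat_lit 76) (nat_lit 26829044943) (nat_lit 63) (nat_lit 5) (nat_lit 66) (nat_lit 5) (nat_lit 64) (nat_lit 5) (nat_lit 449) (nat_lit 362) (nat_lit 209)))) (XT.nd (nat_lit 156) (nat_lit 228) (nat_lit 0) (XT.nd (nat_lit 78) (nat_lit 0) (nat_lit 0) (XT.lf (nat_lit 0) (nat_lit 13703091593) (nat_lit 228) (nat_lit 24156429920) (nat_lit 76) (nat_lit 440225677) (nat_lit 61) (nat_lit 5) (nat_lit 64) (nat_lit 5) (nat_lit 62) (nat_lit 5) (nat_lit 450) (nat_lit 362) (nat_lit 208)) (XT.lf (nat_lit 0) (nat_lit 22831389834) (nat_lit 228) (nat_lit 4540971390) (nat_lit 76) (nat_lit 11734628558) (nat_lit 61) (nat_lit 5) (nat_lit 64) (nat_lit 5) (nat_lit 62) (nat_lit 5) (nat_lit 451) (nat_lit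 362) (nat_lit 207))) (XT.nd (nat_lit 78) (nat_lit 76) (nat_lit 0) (XT.lf (nat_lit 0) (nat_lit 15962403861) (nat_lit 152) (nat_lit 16417816067) (nat_lit 228) (nat_lit 7553830118) (nat_lit 59) (nat_lit 5) (nat_lit 61) (nat_lit 5) (nat_lit 62) (nat_lit 5) (nat_lit 452) (nat_lit 362) (nat_lit 206)) (XT.lf (nat_lit 0) (nat_lit 1441263107) (nat_lit 228) (nat_lit 3636824856) (nat_lit 76) (nat_lit 35706235717) (nat_lit 58) (nat_lit 5) (nat_lit 61) (nat_lit 5) (nat_lit 59) (nat_lit 5) (nat_lit 453) (nat_lit 362) (nat_lit 205))))) (XT.nd (nat_lit 234) (nat_lit 304) (nat_lit 0) (XT.nd (nat_lit 78) (nat_lit 152) (nat_lit 0) (XT.lf (nat_lit 0) (nat_lit 10782501145) (nat_lit 228) (nat_lit 24154521102) (nat_lit 76) (nat_lit 6713996877) (nat_lit 56) (nat_lit 5) (nat_lit 59) (nat_lit 5) (nat_lit 57) (nat_lit 5) (nat_lit 454) (nat_lit 362) (nat_lit 204)) (XT.nd (nat_lit 78) (nat_lit 152) (nat_lit 0) (XT.lf (nat_lit 0) (nat_lit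 20484827231) (nat_lit 228) (nat_lit 3266611559) (nat_lit 76) (nat_lit 18789851897) (nat_lit 56) (nat_lit 5) (nat_lit 59) (nat_lit 5) (nat_lit 57) (nat_lit 5) (nat_lit 455) (nat_lit 362) (nat_lit 203)) (XT.lf (nat_lit 0) (nat_lit 18599491851) (nat_lit 152) (nat_lit 12051195113) (nat_lit 228) (nat_lit 12802410276) (nat_lit 54) (nat_lit 5) (nat_lit 56) (nat_lit 5) (nat_lit 57) (nat_lit 5) (nat_lit 456) (nat_lit 362) (nat_lit 202)))) (XT.nd (nat_lit 156) (nat_lit 152) (nat_lit 0) (XT.nd (nat_lit 78) (nat_lit 152) (nat_lit 0) (XT.lf (nat_lit 0) (nat_lit 41148537734) (nat_lit 228) (nat_lit 3214469638) (nat_lit 76) (nat_lit 28440902) (nat_lit 54) (nat_lit 5) (nat_lit 57) (nat_lit 5) (nat_lit 55) (nat_lit 4) (nat_lit 457) (nat_lit 362) (nat_lit 201)) (XT.lf (nat_lit 0) (nat_lit 6776401448) (nat_lit 152) (nat_lit 26094967469) (nat_lit 76) (nat_lit 12475620859) (nat_lit 52) (nat_lit 5) (nat_lit 54) (nat_lit 5) (nat_lit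 53) (nat_lit 5) (nat_lit 458) (nat_lit 362) (nat_lit 200))) (XT.nd (nat_lit 78) (nat_lit 152) (nat_lit 0) (XT.lf (nat_lit 0) (nat_lit 17057792021) (nat_lit 152) (nat_lit 3915346463) (nat_lit 76) (nat_lit 25356296120) (nat_lit 52) (nat_lit 5) (nat_lit 54) (nat_lit 5) (nat_lit 53) (nat_lit 5) (nat_lit 459) (nat_lit 362) (nat_lit 199)) (XT.lf (nat_lit 0) (nat_lit 19295413557) (nat_lit 152) (nat_lit 8531765111) (nat_lit 228) (nat_lit 19508788134) (nat_lit 50) (nat_lit 5) (nat_lit 52) (nat_lit 5) (nat_lit 53) (nat_lit 5) (nat_lit 460) (nat_lit 362) (nat_lit 198))))))) (XT.nd (nat_lit 1092) (nat_lit 608) (nat_lit 0) (XT.nd (nat_lit 546) (nat_lit 456) (nat_lit 0) (XT.nd (nat_lit 234) (nat_lit 304) (nat_lit 0) (XT.nd (nat_lit 78) (nat_lit 152) (nat_lit 0) (XT.lf (nat_lit 0) (nat_lit 38994843882) (nat_lit 228) (nat_lit 5141109579) (nat_lit 76) (nat_lit 4234486234) (nat_lit 50) (nat_lit 5) (nat_lit 53) (nat_lit 5) (nat_lit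 51) (nat_lit 4) (nat_lit 461) (nat_lit 362) (nat_lit 197)) (XT.nd (nat_lit 78) (nat_lit 0) (nat_lit 0) (XT.lf (nat_lit 0) (nat_lit 1302086189) (nat_lit 152) (nat_lit 30725383380) (nat_lit 76) (nat_lit 17400335382) (nat_lit 48) (nat_lit 5) (nat_lit 50) (nat_lit 5) (nat_lit 49) (nat_lit 5) (nat_lit 462) (nat_lit 362) (nat_lit 196)) (XT.lf (nat_lit 0) (nat_lit 12158368737) (nat_lit 152) (nat_lit 7252523241) (nat_lit 76) (nat_lit 31101813633) (nat_lit 48) (nat_lit 5) (nat_lit 50) (nat_lit 5) (nat_lit 49) (nat_lit 5) (nat_lit 463) (nat_lit 362) (nat_lit 195)))) (XT.nd (nat_lit 156) (nat_lit 152) (nat_lit 0) (XT.nd (nat_lit 78) (nat_lit 0) (nat_lit 0) (XT.lf (nat_lit 0) (nat_lit 17250962574) (nat_lit 152) (nat_lit 6249651702) (nat_lit 228) (nat_lit 28124731344) (nat_lit 46) (nat_lit 5) (nat_lit 48) (nat_lit 5) (nat_lit 49) (nat_lit 5) (nat_lit 464) (nat_lit 362) (nat_lit 194)) (XT.lf (nat_lit 0) (nat_lit 35321790613)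 (nat_lit 228) (nat_lit 10212113710) (nat_lit 76) (nat_lit 7233301154) (nat_lit 46) (nat_lit 5) (nat_lit 49) (nat_lit 5) (nat_lit 47) (nat_lit 4) (nat_lit 465) (nat_lit 362) (nat_lit 193))) (XT.nd (nat_lit 78) (nat_lit 76) (nat_lit 0) (XT.lf (nat_lit 0) (nat_lit 14893866716) (nat_lit 76) (nat_lit 32803411560) (nat_lit 152) (nat_lit 6240053106) (nat_lit 45) (nat_lit 5) (nat_lit 46) (nat_lit 5) (nat_lit 47) (nat_lit 4) (nat_lit 466) (nat_lit 362) (nat_lit 192)) (XT.lf (nat_lit 0) (nat_lit 5296800427) (nat_lit 152) (nat_lit 14239006767) (nat_lit 76) (nat_lit 35602262092) (nat_lit 44) (nat_lit 5) (nat_lit 46) (nat_lit 5) (nat_lit 45) (nat_lit 5) (nat_lit 467) (nat_lit 362) (nat_lit 191))))) (XT.nd (nat_lit 234) (nat_lit 228) (nat_lit 0) (XT.nd (nat_lit 78) (nat_lit 76) (nat_lit 0) (XT.lf (nat_lit 0) (nat_lit 11461830492) (nat_lit 152) (nat_lit 5697482827) (nat_lit 228) (nat_lit 39210513837) (nat_lit 42) (nat_lit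 5) (nat_lit 44) (nat_lit 5) (nat_lit 45) (nat_lit 5) (nat_lit 468) (nat_lit 362) (nat_lit 190)) (XT.nd (nat_lit 78) (nat_lit 76) (nat_lit 0) (XT.lf (nat_lit 0) (nat_lit 29599968900) (nat_lit 228) (nat_lit 19501966115) (nat_lit 76) (nat_lit 8529935202) (nat_lit 42) (nat_lit 5) (nat_lit 45) (nat_lit 5) (nat_lit 43) (nat_lit 4) (nat_lit 469) (nat_lit 362) (nat_lit 189)) (XT.lf (nat_lit 0) (nat_lit 6731826486) (nat_lit 76) (nat_lit 35798102125) (nat_lit 152) (nat_lit 16398363885) (nat_lit 41) (nat_lit 5) (nat_lit 42) (nat_lit 5) (nat_lit 43) (nat_lit 4) (nat_lit 470) (nat_lit 362) (nat_lit 188)))) (XT.nd (nat_lit 156) (nat_lit 0) (nat_lit 0) (XT.nd (nat_lit 78) (nat_lit 228) (nat_lit 0) (XT.lf (nat_lit 0) (nat_lit 34143125593) (nat_lit 76) (nat_lit 21896613958) (nat_lit 152) (nat_lit 4218109767) (nat_lit 41) (nat_lit 5) (nat_lit 42) (nat_lit 5) (nat_lit 43) (nat_lit 4) (nat_lit 471) (nat_lit 362) (nat_lit 187))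 (XT.lf (nat_lit 0) (nat_lit 673457072) (nat_lit 152) (nat_lit 7493185602) (nat_lit 228) (nat_lit 53458201368) (nat_lit 38) (nat_lit 5) (nat_lit 40) (nat_lit 5) (nat_lit 41) (nat_lit 5) (nat_lit 472) (nat_lit 362) (nat_lit 186))) (XT.nd (nat_lit 78) (nat_lit 0) (nat_lit 0) (XT.lf (nat_lit 0) (nat_lit 21170188263) (nat_lit 228) (nat_lit 34348402877) (nat_lit 76) (nat_lit 7503044061) (nat_lit 38) (nat_lit 5) (nat_lit 41) (nat_lit 5) (nat_lit 39) (nat_lit 4) (nat_lit 473) (nat_lit 362) (nat_lit 185)) (XT.lf (nat_lit 0) (nat_lit 34633304754) (nat_lit 228) (nat_lit 7030375017) (nat_lit 76) (nat_lit 22794566785) (nat_lit 38) (nat_lit 5) (nat_lit 41) (nat_lit 5) (nat_lit 39) (nat_lit 4) (nat_lit 474) (nat_lit 362) (nat_lit 184)))))) (XT.nd (nat_lit 546) (nat_lit 228) (nat_lit 0) (XT.nd (nat_lit 234) (nat_lit 76) (nat_lit 0) (XT.nd (nat_lit 78) (nat_lit 228) (nat_lit 0) (XT.lf (nat_lit 0) (nat_lit 21518499239) (nat_lit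 76) (nat_lit 27184076691) (nat_lit 152) (nat_lit 17229312872) (nat_lit 37) (nat_lit 5) (nat_lit 38) (nat_lit 5) (nat_lit 39) (nat_lit 4) (nat_lit 475) (nat_lit 362) (nat_lit 183)) (XT.nd (nat_lit 78) (nat_lit 228) (nat_lit 0) (XT.lf (nat_lit 0) (nat_lit 51059441946) (nat_lit 76) (nat_lit 12200940296) (nat_lit 152) (nat_lit 4187364736) (nat_lit 37) (nat_lit 5) (nat_lit 38) (nat_lit 5) (nat_lit 39) (nat_lit 4) (nat_lit 476) (nat_lit 362) (nat_lit 182)) (XT.lf (nat_lit 0) (nat_lit 9215458956) (nat_lit 228) (nat_lit 56409323128) (nat_lit 76) (nat_lit 3377131765) (nat_lit 34) (nat_lit 5) (nat_lit 37) (nat_lit 5) (nat_lit 35) (nat_lit 4) (nat_lit 477) (nat_lit 362) (nat_lit 181)))) (XT.nd (nat_lit 156) (nat_lit 0) (nat_lit 0) (XT.nd (nat_lit 78) (nat_lit 76) (nat_lit 0) (XT.lf (nat_lit 0) (nat_lit 23219700061) (nat_lit 228) (nat_lit 27991150058) (nat_lit 76) (nat_lit 19382107340) (nat_lit 34) (nat_lit 5) (nat_lit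 37) (nat_lit 5) (nat_lit 35) (nat_lit 4) (nat_lit 478) (nat_lit 362) (nat_lit 180)) (XT.lf (nat_lit 0) (nat_lit 1296748553) (nat_lit 76) (nat_lit 36355479100) (nat_lit 152) (nat_lit 34579260278) (nat_lit 33) (nat_lit 5) (nat_lit 34) (nat_lit 5) (nat_lit 35) (nat_lit 4) (nat_lit 479) (nat_lit 362) (nat_lit 179))) (XT.nd (nat_lit 78) (nat_lit 0) (nat_lit 0) (XT.lf (nat_lit 0) (nat_lit 32029031019) (nat_lit 76) (nat_lit 20767097988) (nat_lit 152) (nat_lit 21114693696) (nat_lit 33) (nat_lit 5) (nat_lit 34) (nat_lit 5) (nat_lit 35) (nat_lit 4) (nat_lit 480) (nat_lit 362) (nat_lit 178)) (XT.lf (nat_lit 0) (nat_lit 63675472017) (nat_lit 76) (nat_lit 4714741600) (nat_lit 152) (nat_lit 7250448228) (nat_lit 33) (nat_lit 5) (nat_lit 34) (nat_lit 5) (nat_lit 35) (nat_lit 4) (nat_lit 481) (nat_lit 362) (nat_lit 177))))) (XT.nd (nat_lit 312) (nat_lit 0) (nat_lit 0) (XT.nd (nat_lit 156) (nat_lit 76) (nat_lit 0) (XT.nd (nat_lit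 78) (nat_lit 0) (nat_lit 0) (XT.lf (nat_lit 0) (nat_lit 7188621475) (nat_lit 152) (nat_lit 58383733559) (nat_lit 76) (nat_lit 11839132039) (nat_lit 31) (nat_lit 5) (nat_lit 33) (nat_lit 5) (nat_lit 32) (nat_lit 4) (nat_lit 482) (nat_lit 362) (nat_lit 176)) (XT.lf (nat_lit 0) (nat_lit 22079795578) (nat_lit 152) (nat_lit 28163390428) (nat_lit 76) (nat_lit 28985157966) (nat_lit 31) (nat_lit 5) (nat_lit 33) (nat_lit 5) (nat_lit 32) (nat_lit 4) (nat_lit 483) (nat_lit 362) (nat_lit 175))) (XT.nd (nat_lit 78) (nat_lit 0) (nat_lit 0) (XT.lf (nat_lit 0) (nat_lit 3014944527) (nat_lit 76) (nat_lit 34427816904) (nat_lit 152) (nat_lit 43656193729) (nat_lit 30) (nat_lit 5) (nat_lit 31) (nat_lit 5) (nat_lit 32) (nat_lit 4) (nat_lit 484) (nat_lit 362) (nat_lit 174)) (XT.lf (nat_lit 0) (nat_lit 35698573575) (nat_lit 76) (nat_lit 17848556140) (nat_lit 152) (nat_lit 29470139835) (nat_lit 30) (nat_lit 5) (nat_lit 31) (nat_lit 5)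 (nat_lit 32) (nat_lit 4) (nat_lit 485) (nat_lit 362) (nat_lit 173)))) (XT.nd (nat_lit 43602) (nat_lit 0) (nat_lit 19988) (XT.nd (nat_lit 43524) (nat_lit 0) (nat_lit 19988) (XT.lf (nat_lit 0) (nat_lit 69355548534) (nat_lit 76) (nat_lit 775312004) (nat_lit 152) (nat_lit 14862386152) (nat_lit 30) (nat_lit 5) (nat_lit 31) (nat_lit 5) (nat_lit 32) (nat_lit 4) (nat_lit 486) (nat_lit 362) (nat_lit 172)) (XT.lf (nat_lit 0) (nat_lit 1178606660) (nat_lit 0) (nat_lit 1178606660) (nat_lit 988) (nat_lit 1996089728) (nat_lit 293) (nat_lit 5) (nat_lit 293) (nat_lit 3) (nat_lit 306) (nat_lit 3) (nat_lit 363) (nat_lit 363) (nat_lit 294))) (XT.nd (nat_lit 78) (nat_lit 0) (nat_lit 0) (XT.lf (nat_lit 0) (nat_lit 5752769950) (nat_lit 988) (nat_lit 2141210133) (nat_lit 1064) (nat_lit 913735584) (nat_lit 293) (nat_lit 5) (nat_lit 306) (nat_lit 3) (nat_lit 307) (nat_lit 5) (nat_lit 364) (nat_lit 363) (nat_lit 293)) (XT.lf (nat_lit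 76) (nat_lit 2192638203) (nat_lit 0) (nat_lit 4636806743) (nat_lit 1064) (nat_lit 2082216116) (nat_lit 294) (nat_lit 5) (nat_lit 293) (nat_lit 5) (nat_lit 307) (nat_lit 5) (nat_lit 365) (nat_lit 363) (nat_lit 292))))))))
noncomputable def xc156 : XT := (XT.nd (nat_lit 2184) (nat_lit 6308) (nat_lit 0) (XT.nd (nat_lit 1092) (nat_lit 5700) (nat_lit 0) (XT.nd (nat_lit 546) (nat_lit 912) (nat_lit 0) (XT.nd (nat_lit 234) (nat_lit 0) (nat_lit 76) (XT.nd (nat_lit 78) (nat_lit 988) (nat_lit 0) (XT.lf (nat_lit 76) (nat_lit 6680563737) (nat_lit 0) (nat_lit 1243138014) (nat_lit 1064) (nat_lit 1095482081) (nat_lit 294) (nat_lit 5) (nat_lit 293) (nat_lit 5) (nat_lit 307) (nat_lit 5) (nat_lit 366) (nat_lit 363) (nat_lit 291)) (XT.nd (nat_lit 78) (nat_lit 1064) (nat_lit 0) (XT.lf (nat_lit 76) (nat_lit 2173473321) (nat_lit 0) (nat_lit 6884728640) (nat_lit 1064) (nat_lit 71524798) (nat_lit 295) (nat_lit 5) (nat_lit 294) (nat_lit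 5) (nat_lit 308) (nat_lit 5) (nat_lit 367) (nat_lit 363) (nat_lit 290)) (XT.lf (nat_lit 0) (nat_lit 965468487) (nat_lit 1064) (nat_lit 2416989039) (nat_lit 1140) (nat_lit 5860815842) (nat_lit 280) (nat_lit 5) (nat_lit 294) (nat_lit 5) (nat_lit 295) (nat_lit 5) (nat_lit 368) (nat_lit 363) (nat_lit 289)))) (XT.nd (nat_lit 156) (nat_lit 0) (nat_lit 0) (XT.nd (nat_lit 78) (nat_lit 0) (nat_lit 0) (XT.lf (nat_lit 0) (nat_lit 2022936325) (nat_lit 1064) (nat_lit 7081188701) (nat_lit 1140) (nat_lit 256371544) (nat_lit 281) (nat_lit 5) (nat_lit 295) (nat_lit 5) (nat_lit 296) (nat_lit 5) (nat_lit 369) (nat_lit 363) (nat_lit 288)) (XT.lf (nat_lit 0) (nat_lit 3137528232) (nat_lit 1064) (nat_lit 2369495442) (nat_lit 1140) (nat_lit 3973465851) (nat_lit 281) (nat_lit 5) (nat_lit 295) (nat_lit 5) (nat_lit 296) (nat_lit 5) (nat_lit 370) (nat_lit 363) (nat_lit 287))) (XT.nd (nat_lit 78) (nat_lit 0) (nat_lit 76) (XT.lf (nat_lit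 76) (nat_lit 2511885476) (nat_lit 0) (nat_lit 1766033589) (nat_lit 1140) (nat_lit 5326406989) (nat_lit 282) (nat_lit 5) (nat_lit 281) (nat_lit 5) (nat_lit 296) (nat_lit 5) (nat_lit 371) (nat_lit 363) (nat_lit 286)) (XT.lf (nat_lit 0) (nat_lit 5465795117) (nat_lit 1064) (nat_lit 2184703812) (nat_lit 1140) (nat_lit 2080994740) (nat_lit 282) (nat_lit 5) (nat_lit 296) (nat_lit 5) (nat_lit 297) (nat_lit 5) (nat_lit 372) (nat_lit 363) (nat_lit 285))))) (XT.nd (nat_lit 234) (nat_lit 1064) (nat_lit 0) (XT.nd (nat_lit 78) (nat_lit 0) (nat_lit 76) (XT.lf (nat_lit 76) (nat_lit 2888242609) (nat_lit 0) (nat_lit 3816261467) (nat_lit 1140) (nat_lit 3157530115) (nat_lit 283) (nat_lit 5) (nat_lit 282) (nat_lit 5) (nat_lit 297) (nat_lit 5) (nat_lit 373) (nat_lit 363) (nat_lit 284)) (XT.nd (nat_lit 78) (nat_lit 0) (nat_lit 0) (XT.lf (nat_lit 0) (nat_lit 7974639940) (nat_lit 1064) (nat_lit 1860834565) (nat_lit 1140) (nat_lit 161201836)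 (nat_lit 283) (nat_lit 5) (nat_lit 297) (nat_lit 5) (nat_lit 298) (nat_lit 5) (nat_lit 374) (nat_lit 363) (nat_lit 283)) (XT.lf (nat_lit 76) (nat_lit 3413292963) (nat_lit 0) (nat_lit 5911742997) (nat_lit 1140) (nat_lit 809070101) (nat_lit 284) (nat_lit 5) (nat_lit 283) (nat_lit 5) (nat_lit 298) (nat_lit 5) (nat_lit 375) (nat_lit 363) (nat_lit 282)))) (XT.nd (nat_lit 156) (nat_lit 0) (nat_lit 76) (XT.nd (nat_lit 78) (nat_lit 0) (nat_lit 76) (XT.lf (nat_lit 0) (nat_lit 422571468) (nat_lit 1140) (nat_lit 1417127964) (nat_lit 1216) (nat_lit 8436118183) (nat_lit 268) (nat_lit 5) (nat_lit 283) (nat_lit 5) (nat_lit 284) (nat_lit 5) (nat_lit 376) (nat_lit 363) (nat_lit 281)) (XT.lf (nat_lit 0) (nat_lit 1710165989) (nat_lit 1140) (nat_lit 6347533724) (nat_lit 1216) (nat_lit 2362794413) (nat_lit 269) (nat_lit 5) (nat_lit 284) (nat_lit 5) (nat_lit 285) (nat_lit 5) (nat_lit 377) (nat_lit 363) (nat_lit 280))) (XT.nd (nat_lit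 78) (nat_lit 0) (nat_lit 76) (XT.lf (nat_lit 0) (nat_lit 3042429994) (nat_lit 1140) (nat_lit 852084876) (nat_lit 1216) (nat_lit 6674826355) (nat_lit 269) (nat_lit 5) (nat_lit 284) (nat_lit 5) (nat_lit 285) (nat_lit 5) (nat_lit 378) (nat_lit 363) (nat_lit 279)) (XT.lf (nat_lit 0) (nat_lit 4440043860) (nat_lit 1140) (nat_lit 5843645597) (nat_lit 76) (nat_lit 438214027) (nat_lit 270) (nat_lit 5) (nat_lit 285) (nat_lit 5) (nat_lit 271) (nat_lit 5) (nat_lit 379) (nat_lit 363) (nat_lit 278)))))) (XT.nd (nat_lit 546) (nat_lit 2204) (nat_lit 0) (XT.nd (nat_lit 234) (nat_lit 1292) (nat_lit 0) (XT.nd (nat_lit 78) (nat_lit 2356) (nat_lit 0) (XT.lf (nat_lit 0) (nat_lit 5901585310) (nat_lit 1140) (nat_lit 140885087) (nat_lit 76) (nat_lit 4835923116) (nat_lit 270) (nat_lit 5) (nat_lit 285) (nat_lit 5) (nat_lit 271) (nat_lit 5) (nat_lit 380) (nat_lit 363) (nat_lit 277)) (XT.nd (nat_lit 78) (nat_lit 1216) (nat_lit 0) (XT.lf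 (nat_lit 0) (nat_lit 5825831781) (nat_lit 1140) (nat_lit 1612628155) (nat_lit 1216) (nat_lit 3600184262) (nat_lit 255) (nat_lit 5) (nat_lit 270) (nat_lit 5) (nat_lit 271) (nat_lit 5) (nat_lit 381) (nat_lit 363) (nat_lit 276)) (XT.lf (nat_lit 0) (nat_lit 735387929) (nat_lit 1216) (nat_lit 8298950907) (nat_lit 1292) (nat_lit 2168986879) (nat_lit 239) (nat_lit 5) (nat_lit 255) (nat_lit 5) (nat_lit 256) (nat_lit 5) (nat_lit 382) (nat_lit 363) (nat_lit 275)))) (XT.nd (nat_lit 156) (nat_lit 608) (nat_lit 0) (XT.nd (nat_lit 78) (nat_lit 684) (nat_lit 0) (XT.lf (nat_lit 0) (nat_lit 6931448706) (nat_lit 1216) (nat_lit 3791623341) (nat_lit 1292) (nat_lit 648536247) (nat_lit 239) (nat_lit 5) (nat_lit 255) (nat_lit 5) (nat_lit 256) (nat_lit 5) (nat_lit 383) (nat_lit 363) (nat_lit 274)) (XT.lf (nat_lit 0) (nat_lit 902101197) (nat_lit 684) (nat_lit 9780094455) (nat_lit 76) (nat_lit 862414162) (nat_lit 230) (nat_lit 5) (nat_lit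 239) (nat_lit 5) (nat_lit 231) (nat_lit 5) (nat_lit 384) (nat_lit 363) (nat_lit 273))) (XT.nd (nat_lit 78) (nat_lit 608) (nat_lit 0) (XT.lf (nat_lit 0) (nat_lit 2546509092) (nat_lit 684) (nat_lit 3541019251) (nat_lit 76) (nat_lit 5633280923) (nat_lit 230) (nat_lit 5) (nat_lit 239) (nat_lit 5) (nat_lit 231) (nat_lit 5) (nat_lit 385) (nat_lit 363) (nat_lit 272)) (XT.lf (nat_lit 0) (nat_lit 2921354205) (nat_lit 608) (nat_lit 1325097837) (nat_lit 684) (nat_lit 7655665422) (nat_lit 222) (nat_lit 5) (nat_lit 230) (nat_lit 5) (nat_lit 231) (nat_lit 5) (nat_lit 386) (nat_lit 363) (nat_lit 271))))) (XT.nd (nat_lit 234) (nat_lit 1596) (nat_lit 0) (XT.nd (nat_lit 78) (nat_lit 608) (nat_lit 0) (XT.lf (nat_lit 0) (nat_lit 6046486627) (nat_lit 684) (nat_lit 2493709652) (nat_lit 76) (nat_lit 3547204413) (nat_lit 222) (nat_lit 5) (nat_lit 231) (nat_lit 5) (nat_lit 223) (nat_lit 5) (nat_lit 387) (nat_lit 363) (nat_lit 270))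 (XT.nd (nat_lit 78) (nat_lit 0) (nat_lit 0) (XT.lf (nat_lit 0) (nat_lit 4236797765) (nat_lit 608) (nat_lit 3696762059) (nat_lit 684) (nat_lit 4343699805) (nat_lit 214) (nat_lit 5) (nat_lit 222) (nat_lit 5) (nat_lit 223) (nat_lit 5) (nat_lit 388) (nat_lit 363) (nat_lit 269)) (XT.lf (nat_lit 0) (nat_lit 9894694348) (nat_lit 684) (nat_lit 1285517620) (nat_lit 76) (nat_lit 1292086987) (nat_lit 214) (nat_lit 5) (nat_lit 223) (nat_lit 5) (nat_lit 215) (nat_lit 5) (nat_lit 389) (nat_lit 363) (nat_lit 268)))) (XT.nd (nat_lit 156) (nat_lit 456) (nat_lit 0) (XT.nd (nat_lit 78) (nat_lit 608) (nat_lit 0) (XT.lf (nat_lit 0) (nat_lit 5726708301) (nat_lit 532) (nat_lit 6259798011) (nat_lit 608) (nat_lit 684535705) (nat_lit 207) (nat_lit 5) (nat_lit 214) (nat_lit 5) (nat_lit 215) (nat_lit 5) (nat_lit 390) (nat_lit 363) (nat_lit 267)) (XT.lf (nat_lit 0) (nat_lit 68631944) (nat_lit 532) (nat_lit 1166146739) (nat_lit 608) (nat_lit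 11640786869) (nat_lit 199) (nat_lit 5) (nat_lit 206) (nat_lit 5) (nat_lit 207) (nat_lit 5) (nat_lit 391) (nat_lit 363) (nat_lit 266))) (XT.nd (nat_lit 78) (nat_lit 456) (nat_lit 0) (XT.lf (nat_lit 0) (nat_lit 3288692338) (nat_lit 608) (nat_lit 5717557013) (nat_lit 76) (nat_lit 4077055957) (nat_lit 199) (nat_lit 5) (nat_lit 207) (nat_lit 5) (nat_lit 200) (nat_lit 5) (nat_lit 392) (nat_lit 363) (nat_lit 265)) (XT.lf (nat_lit 0) (nat_lit 1583386228) (nat_lit 456) (nat_lit 3828902099) (nat_lit 532) (nat_lit 7884753964) (nat_lit 193) (nat_lit 5) (nat_lit 199) (nat_lit 5) (nat_lit 200) (nat_lit 5) (nat_lit 393) (nat_lit 363) (nat_lit 264))))))) (XT.nd (nat_lit 1092) (nat_lit 2736) (nat_lit 0) (XT.nd (nat_lit 546) (nat_lit 1672) (nat_lit 0) (XT.nd (nat_lit 234) (nat_lit 1368) (nat_lit 0) (XT.nd (nat_lit 78) (nat_lit 532) (nat_lit 0) (XT.lf (nat_lit 0) (nat_lit 7653985017) (nat_lit 532) (nat_lit 4330728473) (nat_lit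 76) (nat_lit 1530852889) (nat_lit 193) (nat_lit 5) (nat_lit 200) (nat_lit 5) (nat_lit 194) (nat_lit 5) (nat_lit 394) (nat_lit 363) (nat_lit 263)) (XT.nd (nat_lit 78) (nat_lit 0) (nat_lit 0) (XT.lf (nat_lit 0) (nat_lit 3279574802) (nat_lit 532) (nat_lit 6734957999) (nat_lit 608) (nat_lit 3724571963) (nat_lit 186) (nat_lit 5) (nat_lit 193) (nat_lit 5) (nat_lit 194) (nat_lit 5) (nat_lit 395) (nat_lit 363) (nat_lit 262)) (XT.lf (nat_lit 0) (nat_lit 11186962351) (nat_lit 532) (nat_lit 1285158738) (nat_lit 608) (nat_lit 1496447880) (nat_lit 186) (nat_lit 5) (nat_lit 193) (nat_lit 5) (nat_lit 194) (nat_lit 5) (nat_lit 396) (nat_lit 363) (nat_lit 261)))) (XT.nd (nat_lit 156) (nat_lit 836) (nat_lit 0) (XT.nd (nat_lit 78) (nat_lit 0) (nat_lit 0) (XT.lf (nat_lit 0) (nat_lit 857908687) (nat_lit 532) (nat_lit 9045161826) (nat_lit 76) (nat_lit 4299373212) (nat_lit 179) (nat_lit 5) (nat_lit 186) (nat_lit 5) (nat_lit 180) (nat_lit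 5) (nat_lit 397) (nat_lit 363) (nat_lit 260)) (XT.lf (nat_lit 0) (nat_lit 3277023772) (nat_lit 532) (nat_lit 1099011108) (nat_lit 76) (nat_lit 10066135053) (nat_lit 179) (nat_lit 5) (nat_lit 186) (nat_lit 5) (nat_lit 180) (nat_lit 5) (nat_lit 398) (nat_lit 363) (nat_lit 259))) (XT.nd (nat_lit 78) (nat_lit 380) (nat_lit 0) (XT.lf (nat_lit 0) (nat_lit 5834907165) (nat_lit 532) (nat_lit 7494142450) (nat_lit 76) (nat_lit 1358058144) (nat_lit 173) (nat_lit 5) (nat_lit 180) (nat_lit 5) (nat_lit 174) (nat_lit 5) (nat_lit 399) (nat_lit 363) (nat_lit 258)) (XT.lf (nat_lit 0) (nat_lit 768997378) (nat_lit 380) (nat_lit 7746323705) (nat_lit 456) (nat_lit 6422704328) (nat_lit 168) (nat_lit 5) (nat_lit 173) (nat_lit 5) (nat_lit 174) (nat_lit 5) (nat_lit 400) (nat_lit 363) (nat_lit 257))))) (XT.nd (nat_lit 234) (nat_lit 1140) (nat_lit 0) (XT.nd (nat_lit 78) (nat_lit 532) (nat_lit 0) (XT.lf (nat_lit 0) (nat_lit 9414107049)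 (nat_lit 380) (nat_lit 1921865642) (nat_lit 456) (nat_lit 3858708494) (nat_lit 168) (nat_lit 5) (nat_lit 173) (nat_lit 5) (nat_lit 174) (nat_lit 5) (nat_lit 401) (nat_lit 363) (nat_lit 256)) (XT.nd (nat_lit 78) (nat_lit 76) (nat_lit 0) (XT.lf (nat_lit 0) (nat_lit 2856673641) (nat_lit 456) (nat_lit 11435800366) (nat_lit 532) (nat_lit 1165030918) (nat_lit 162) (nat_lit 5) (nat_lit 168) (nat_lit 5) (nat_lit 169) (nat_lit 5) (nat_lit 402) (nat_lit 363) (nat_lit 255)) (XT.lf (nat_lit 0) (nat_lit 1640715220) (nat_lit 532) (nat_lit 3909534011) (nat_lit 76) (nat_lit 10175624974) (nat_lit 161) (nat_lit 5) (nat_lit 168) (nat_lit 5) (nat_lit 162) (nat_lit 5) (nat_lit 403) (nat_lit 363) (nat_lit 254)))) (XT.nd (nat_lit 156) (nat_lit 760) (nat_lit 0) (XT.nd (nat_lit 78) (nat_lit 0) (nat_lit 0) (XT.lf (nat_lit 0) (nat_lit 4546968666) (nat_lit 456) (nat_lit 10894651531) (nat_lit 76) (nat_lit 559140545) (nat_lit 156) (nat_lit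 5) (nat_lit 162) (nat_lit 5) (nat_lit 157) (nat_lit 5) (nat_lit 404) (nat_lit 363) (nat_lit 253)) (XT.lf (nat_lit 0) (nat_lit 7620576587) (nat_lit 456) (nat_lit 1884867773) (nat_lit 76) (nat_lit 6776049126) (nat_lit 156) (nat_lit 5) (nat_lit 162) (nat_lit 5) (nat_lit 157) (nat_lit 5) (nat_lit 405) (nat_lit 363) (nat_lit 252))) (XT.nd (nat_lit 78) (nat_lit 380) (nat_lit 0) (XT.lf (nat_lit 0) (nat_lit 7523398921) (nat_lit 380) (nat_lit 3321084602) (nat_lit 456) (nat_lit 5724426448) (nat_lit 151) (nat_lit 5) (nat_lit 156) (nat_lit 5) (nat_lit 157) (nat_lit 5) (nat_lit 406) (nat_lit 363) (nat_lit 251)) (XT.lf (nat_lit 0) (nat_lit 346624043) (nat_lit 380) (nat_lit 13856310234) (nat_lit 456) (nat_lit 2660884225) (nat_lit 146) (nat_lit 5) (nat_lit 151) (nat_lit 5) (nat_lit 152) (nat_lit 5) (nat_lit 407) (nat_lit 363) (nat_lit 250)))))) (XT.nd (nat_lit 546) (nat_lit 1216) (nat_lit 0) (XT.nd (nat_lit 234) (nat_lit 1064)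 (nat_lit 0) (XT.nd (nat_lit 78) (nat_lit 380) (nat_lit 0) (XT.lf (nat_lit 0) (nat_lit 596096427) (nat_lit 456) (nat_lit 7016342357) (nat_lit 76) (nat_lit 9551661499) (nat_lit 145) (nat_lit 5) (nat_lit 151) (nat_lit 5) (nat_lit 146) (nat_lit 5) (nat_lit 408) (nat_lit 363) (nat_lit 249)) (XT.nd (nat_lit 78) (nat_lit 0) (nat_lit 0) (XT.lf (nat_lit 0) (nat_lit 2779055055) (nat_lit 380) (nat_lit 1131425028) (nat_lit 456) (nat_lit 13561728813) (nat_lit 140) (nat_lit 5) (nat_lit 145) (nat_lit 5) (nat_lit 146) (nat_lit 5) (nat_lit 409) (nat_lit 363) (nat_lit 248)) (XT.lf (nat_lit 0) (nat_lit 7435774085) (nat_lit 456) (nat_lit 4847827596) (nat_lit 76) (nat_lit 5502618587) (nat_lit 140) (nat_lit 5) (nat_lit 146) (nat_lit 5) (nat_lit 141) (nat_lit 5) (nat_lit 410) (nat_lit 363) (nat_lit 247)))) (XT.nd (nat_lit 156) (nat_lit 760) (nat_lit 0) (XT.nd (nat_lit 78) (nat_lit 0) (nat_lit 0) (XT.lf (nat_lit 0) (nat_lit 5368412403)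 (nat_lit 304) (nat_lit 5748244045) (nat_lit 380) (nat_lit 6991504401) (nat_lit 136) (nat_lit 5) (nat_lit 140) (nat_lit 5) (nat_lit 141) (nat_lit 5) (nat_lit 411) (nat_lit 363) (nat_lit 246)) (XT.lf (nat_lit 0) (nat_lit 14954035301) (nat_lit 380) (nat_lit 2475873855) (nat_lit 76) (nat_lit 1008472034) (nat_lit 136) (nat_lit 5) (nat_lit 141) (nat_lit 5) (nat_lit 137) (nat_lit 5) (nat_lit 412) (nat_lit 363) (nat_lit 245))) (XT.nd (nat_lit 78) (nat_lit 304) (nat_lit 0) (XT.lf (nat_lit 0) (nat_lit 249852994) (nat_lit 456) (nat_lit 10596256868) (nat_lit 76) (nat_lit 7928635078) (nat_lit 130) (nat_lit 5) (nat_lit 136) (nat_lit 5) (nat_lit 131) (nat_lit 5) (nat_lit 413) (nat_lit 363) (nat_lit 244)) (XT.lf (nat_lit 0) (nat_lit 30931540) (nat_lit 304) (nat_lit 4008285010) (nat_lit 380) (nat_lit 15080556314) (nat_lit 126) (nat_lit 5) (nat_lit 130) (nat_lit 5) (nat_lit 131) (nat_lit 5) (nat_lit 414) (nat_lit 363) (nat_lit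 243))))) (XT.nd (nat_lit 312) (nat_lit 532) (nat_lit 0) (XT.nd (nat_lit 156) (nat_lit 380) (nat_lit 0) (XT.nd (nat_lit 78) (nat_lit 304) (nat_lit 0) (XT.lf (nat_lit 0) (nat_lit 8067257694) (nat_lit 380) (nat_lit 8325877662) (nat_lit 76) (nat_lit 3078269607) (nat_lit 126) (nat_lit 5) (nat_lit 131) (nat_lit 5) (nat_lit 127) (nat_lit 5) (nat_lit 415) (nat_lit 363) (nat_lit 242)) (XT.lf (nat_lit 0) (nat_lit 2756749055) (nat_lit 304) (nat_lit 9513697629) (nat_lit 380) (nat_lit 7561513288) (nat_lit 122) (nat_lit 5) (nat_lit 126) (nat_lit 5) (nat_lit 127) (nat_lit 5) (nat_lit 416) (nat_lit 363) (nat_lit 241))) (XT.nd (nat_lit 78) (nat_lit 380) (nat_lit 0) (XT.lf (nat_lit 0) (nat_lit 14325362876) (nat_lit 304) (nat_lit 2346745565) (nat_lit 380) (nat_lit 3529054927) (nat_lit 122) (nat_lit 5) (nat_lit 126) (nat_lit 5) (nat_lit 127) (nat_lit 5) (nat_lit 417) (nat_lit 363) (nat_lit 240)) (XT.lf (nat_lit 0) (nat_lit 704938488)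 (nat_lit 380) (nat_lit 14880031698) (nat_lit 76) (nat_lit 4993513145) (nat_lit 117) (nat_lit 5) (nat_lit 122) (nat_lit 5) (nat_lit 118) (nat_lit 5) (nat_lit 418) (nat_lit 363) (nat_lit 239)))) (XT.nd (nat_lit 156) (nat_lit 228) (nat_lit 0) (XT.nd (nat_lit 78) (nat_lit 304) (nat_lit 0) (XT.lf (nat_lit 0) (nat_lit 5066826390) (nat_lit 380) (nat_lit 3300746345) (nat_lit 76) (nat_lit 12596350562) (nat_lit 117) (nat_lit 5) (nat_lit 122) (nat_lit 5) (nat_lit 118) (nat_lit 5) (nat_lit 419) (nat_lit 363) (nat_lit 238)) (XT.lf (nat_lit 0) (nat_lit 8780737861) (nat_lit 304) (nat_lit 852218077) (nat_lit 380) (nat_lit 11725771685) (nat_lit 113) (nat_lit 5) (nat_lit 117) (nat_lit 5) (nat_lit 118) (nat_lit 5) (nat_lit 420) (nat_lit 363) (nat_lit 237))) (XT.nd (nat_lit 78) (nat_lit 228) (nat_lit 0) (XT.lf (nat_lit 0) (nat_lit 14425037850) (nat_lit 380) (nat_lit 555231880) (nat_lit 76) (nat_lit 6782439927) (nat_lit 113) (nat_lit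 5) (nat_lit 118) (nat_lit 5) (nat_lit 114) (nat_lit 5) (nat_lit 421) (nat_lit 363) (nat_lit 236)) (XT.lf (nat_lit 0) (nat_lit 12038533692) (nat_lit 228) (nat_lit 7435915837) (nat_lit 304) (nat_lit 2700957160) (nat_lit 110) (nat_lit 5) (nat_lit 113) (nat_lit 5) (nat_lit 114) (nat_lit 5) (nat_lit 422) (nat_lit 363) (nat_lit 235))))))))
noncomputable def xc157 : XT := (XT.nd (nat_lit 2184) (nat_lit 2204) (nat_lit 0) (XT.nd (nat_lit 1092) (nat_lit 1520) (nat_lit 0) (XT.nd (nat_lit 546) (nat_lit 912) (nat_lit 0) (XT.nd (nat_lit 234) (nat_lit 532) (nat_lit 0) (XT.nd (nat_lit 78) (nat_lit 228) (nat_lit 0) (XT.lf (nat_lit 0) (nat_lit 2056520645) (nat_lit 380) (nat_lit 20170545767) (nat_lit 76) (nat_lit 372157793) (nat_lit 105) (nat_lit 5) (nat_lit 110) (nat_lit 5) (nat_lit 106) (nat_lit 5) (nat_lit 423) (nat_lit 363) (nat_lit 234)) (XT.nd (nat_lit 78) (nat_lit 228) (nat_lit 0) (XT.lf (nat_lit 0) (nat_lit 7068990381)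 (nat_lit 380) (nat_lit 7571378634) (nat_lit 76) (nat_lit 8389590682) (nat_lit 105) (nat_lit 5) (nat_lit 110) (nat_lit 5) (nat_lit 106) (nat_lit 5) (nat_lit 424) (nat_lit 363) (nat_lit 233)) (XT.lf (nat_lit 0) (nat_lit 5497201610) (nat_lit 228) (nat_lit 6777334480) (nat_lit 304) (nat_lit 11197802378) (nat_lit 102) (nat_lit 5) (nat_lit 105) (nat_lit 5) (nat_lit 106) (nat_lit 5) (nat_lit 425) (nat_lit 363) (nat_lit 232)))) (XT.nd (nat_lit 156) (nat_lit 304) (nat_lit 0) (XT.nd (nat_lit 78) (nat_lit 228) (nat_lit 0) (XT.lf (nat_lit 0) (nat_lit 17716114652) (nat_lit 304) (nat_lit 4842035113) (nat_lit 76) (nat_lit 1367445047) (nat_lit 102) (nat_lit 5) (nat_lit 106) (nat_lit 5) (nat_lit 103) (nat_lit 5) (nat_lit 426) (nat_lit 363) (nat_lit 231)) (XT.lf (nat_lit 0) (nat_lit 8773703369) (nat_lit 228) (nat_lit 14688919929) (nat_lit 304) (nat_lit 925577207) (nat_lit 99) (nat_lit 5) (nat_lit 102) (nat_lit 5) (nat_lit 103)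 (nat_lit 5) (nat_lit 427) (nat_lit 363) (nat_lit 230))) (XT.nd (nat_lit 78) (nat_lit 228) (nat_lit 0) (XT.lf (nat_lit 0) (nat_lit 4468364090) (nat_lit 304) (nat_lit 2025453703) (nat_lit 76) (nat_lit 18368376201) (nat_lit 98) (nat_lit 5) (nat_lit 102) (nat_lit 5) (nat_lit 99) (nat_lit 5) (nat_lit 428) (nat_lit 363) (nat_lit 229)) (XT.lf (nat_lit 0) (nat_lit 10133126824) (nat_lit 304) (nat_lit 13182003333) (nat_lit 76) (nat_lit 2031175974) (nat_lit 95) (nat_lit 5) (nat_lit 99) (nat_lit 5) (nat_lit 96) (nat_lit 5) (nat_lit 429) (nat_lit 363) (nat_lit 228))))) (XT.nd (nat_lit 234) (nat_lit 380) (nat_lit 0) (XT.nd (nat_lit 78) (nat_lit 304) (nat_lit 0) (XT.lf (nat_lit 0) (nat_lit 915171946) (nat_lit 228) (nat_lit 15137051217) (nat_lit 304) (nat_lit 9790188648) (nat_lit 92) (nat_lit 5) (nat_lit 95) (nat_lit 5) (nat_lit 96) (nat_lit 5) (nat_lit 430) (nat_lit 363) (nat_lit 227)) (XT.nd (nat_lit 78) (nat_lit 304) (nat_lit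 0) (XT.lf (nat_lit 0) (nat_lit 15690496590) (nat_lit 228) (nat_lit 6582279385) (nat_lit 304) (nat_lit 4076910026) (nat_lit 92) (nat_lit 5) (nat_lit 95) (nat_lit 5) (nat_lit 96) (nat_lit 5) (nat_lit 431) (nat_lit 363) (nat_lit 226)) (XT.lf (nat_lit 0) (nat_lit 1824637155) (nat_lit 304) (nat_lit 22808187479) (nat_lit 76) (nat_lit 2237269815) (nat_lit 88) (nat_lit 5) (nat_lit 92) (nat_lit 5) (nat_lit 89) (nat_lit 5) (nat_lit 432) (nat_lit 363) (nat_lit 225)))) (XT.nd (nat_lit 156) (nat_lit 152) (nat_lit 0) (XT.nd (nat_lit 78) (nat_lit 228) (nat_lit 0) (XT.lf (nat_lit 0) (nat_lit 7986181148) (nat_lit 304) (nat_lit 8081149286) (nat_lit 76) (nat_lit 11332628675) (nat_lit 88) (nat_lit 5) (nat_lit 92) (nat_lit 5) (nat_lit 89) (nat_lit 5) (nat_lit 433) (nat_lit 363) (nat_lit 224)) (XT.lf (nat_lit 0) (nat_lit 7214104100) (nat_lit 228) (nat_lit 7179093881) (nat_lit 304) (nat_lit 13550704573) (nat_lit 85) (nat_lit 5) (nat_lit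 88) (nat_lit 5) (nat_lit 89) (nat_lit 5) (nat_lit 434) (nat_lit 363) (nat_lit 223))) (XT.nd (nat_lit 78) (nat_lit 152) (nat_lit 0) (XT.lf (nat_lit 0) (nat_lit 21085172808) (nat_lit 304) (nat_lit 5402079750) (nat_lit 76) (nat_lit 2014130913) (nat_lit 85) (nat_lit 5) (nat_lit 89) (nat_lit 5) (nat_lit 86) (nat_lit 5) (nat_lit 435) (nat_lit 363) (nat_lit 222)) (XT.lf (nat_lit 0) (nat_lit 10505374650) (nat_lit 152) (nat_lit 17636191860) (nat_lit 228) (nat_lit 929114062) (nat_lit 83) (nat_lit 5) (nat_lit 85) (nat_lit 5) (nat_lit 86) (nat_lit 5) (nat_lit 436) (nat_lit 363) (nat_lit 221)))))) (XT.nd (nat_lit 546) (nat_lit 608) (nat_lit 0) (XT.nd (nat_lit 234) (nat_lit 608) (nat_lit 0) (XT.nd (nat_lit 78) (nat_lit 228) (nat_lit 0) (XT.lf (nat_lit 0) (nat_lit 5687055328) (nat_lit 228) (nat_lit 2724511833) (nat_lit 76) (nat_lit 21242430546) (nat_lit 82) (nat_lit 5) (nat_lit 85) (nat_lit 5) (nat_lit 83) (nat_lit 5) (nat_lit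 437) (nat_lit 363) (nat_lit 220)) (XT.nd (nat_lit 78) (nat_lit 0) (nat_lit 0) (XT.lf (nat_lit 0) (nat_lit 12619760005) (nat_lit 304) (nat_lit 16423909118) (nat_lit 76) (nat_lit 1206768940) (nat_lit 79) (nat_lit 5) (nat_lit 83) (nat_lit 5) (nat_lit 80) (nat_lit 5) (nat_lit 438) (nat_lit 363) (nat_lit 219)) (XT.lf (nat_lit 0) (nat_lit 19863434963) (nat_lit 304) (nat_lit 31241721) (nat_lit 76) (nat_lit 10967006645) (nat_lit 79) (nat_lit 5) (nat_lit 83) (nat_lit 5) (nat_lit 80) (nat_lit 5) (nat_lit 439) (nat_lit 363) (nat_lit 218)))) (XT.nd (nat_lit 156) (nat_lit 152) (nat_lit 0) (XT.nd (nat_lit 78) (nat_lit 304) (nat_lit 0) (XT.lf (nat_lit 0) (nat_lit 17175060774) (nat_lit 152) (nat_lit 10306613548) (nat_lit 228) (nat_lit 4004875340) (nat_lit 77) (nat_lit 5) (nat_lit 79) (nat_lit 5) (nat_lit 80) (nat_lit 5) (nat_lit 440) (nat_lit 363) (nat_lit 217)) (XT.lf (nat_lit 0) (nat_lit 2778186774) (nat_lit 228) (nat_lit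 376906973) (nat_lit 304) (nat_lit 28973571021) (nat_lit 73) (nat_lit 5) (nat_lit 76) (nat_lit 5) (nat_lit 77) (nat_lit 5) (nat_lit 441) (nat_lit 363) (nat_lit 216))) (XT.nd (nat_lit 78) (nat_lit 152) (nat_lit 0) (XT.lf (nat_lit 0) (nat_lit 10682236941) (nat_lit 304) (nat_lit 12260925936) (nat_lit 76) (nat_lit 9838706030) (nat_lit 73) (nat_lit 5) (nat_lit 77) (nat_lit 5) (nat_lit 74) (nat_lit 5) (nat_lit 442) (nat_lit 363) (nat_lit 215)) (XT.lf (nat_lit 0) (nat_lit 5430571940) (nat_lit 152) (nat_lit 13053011901) (nat_lit 228) (nat_lit 14969634832) (nat_lit 71) (nat_lit 5) (nat_lit 73) (nat_lit 5) (nat_lit 74) (nat_lit 5) (nat_lit 443) (nat_lit 363) (nat_lit 214))))) (XT.nd (nat_lit 234) (nat_lit 380) (nat_lit 0) (XT.nd (nat_lit 78) (nat_lit 228) (nat_lit 0) (XT.lf (nat_lit 0) (nat_lit 23891299951) (nat_lit 152) (nat_lit 2744034387) (nat_lit 228) (nat_lit 7505884850) (nat_lit 71) (nat_lit 5) (nat_lit 73) (nat_lit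 5) (nat_lit 74) (nat_lit 5) (nat_lit 444) (nat_lit 363) (nat_lit 213)) (XT.nd (nat_lit 78) (nat_lit 0) (nat_lit 0) (XT.lf (nat_lit 0) (nat_lit 326204513) (nat_lit 228) (nat_lit 26722437993) (nat_lit 76) (nat_lit 7796726655) (nat_lit 68) (nat_lit 5) (nat_lit 71) (nat_lit 5) (nat_lit 69) (nat_lit 5) (nat_lit 445) (nat_lit 363) (nat_lit 212)) (XT.lf (nat_lit 0) (nat_lit 8366831099) (nat_lit 228) (nat_lit 8425633947) (nat_lit 76) (nat_lit 18772217109) (nat_lit 68) (nat_lit 5) (nat_lit 71) (nat_lit 5) (nat_lit 69) (nat_lit 5) (nat_lit 446) (nat_lit 363) (nat_lit 211)))) (XT.nd (nat_lit 156) (nat_lit 228) (nat_lit 0) (XT.nd (nat_lit 78) (nat_lit 0) (nat_lit 0) (XT.lf (nat_lit 0) (nat_lit 10614911636) (nat_lit 152) (nat_lit 6128751247) (nat_lit 228) (nat_lit 19559063084) (nat_lit 66) (nat_lit 5) (nat_lit 68) (nat_lit 5) (nat_lit 69) (nat_lit 5) (nat_lit 447) (nat_lit 363) (nat_lit 210)) (XT.lf (nat_lit 0) (nat_lit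 25497379974) (nat_lit 228) (nat_lit 6720815130) (nat_lit 76) (nat_lit 4840949572) (nat_lit 66) (nat_lit 5) (nat_lit 69) (nat_lit 5) (nat_lit 67) (nat_lit 5) (nat_lit 448) (nat_lit 363) (nat_lit 209))) (XT.nd (nat_lit 78) (nat_lit 76) (nat_lit 0) (XT.lf (nat_lit 0) (nat_lit 12996137203) (nat_lit 152) (nat_lit 21696370698) (nat_lit 228) (nat_lit 3140385030) (nat_lit 64) (nat_lit 5) (nat_lit 66) (nat_lit 5) (nat_lit 67) (nat_lit 5) (nat_lit 449) (nat_lit 363) (nat_lit 208)) (XT.lf (nat_lit 0) (nat_lit 5487402465) (nat_lit 228) (nat_lit 5251310266) (nat_lit 76) (nat_lit 27887693601) (nat_lit 63) (nat_lit 5) (nat_lit 66) (nat_lit 5) (nat_lit 64) (nat_lit 5) (nat_lit 450) (nat_lit 363) (nat_lit 207))))))) (XT.nd (nat_lit 1092) (nat_lit 1064) (nat_lit 0) (XT.nd (nat_lit 546) (nat_lit 456) (nat_lit 0) (XT.nd (nat_lit 234) (nat_lit 380) (nat_lit 0) (XT.nd (nat_lit 78) (nat_lit 152) (nat_lit 0) (XT.lf (nat_lit 0) (nat_lit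 14457151649) (nat_lit 228) (nat_lit 24270503746) (nat_lit 76) (nat_lit 710750435) (nat_lit 61) (nat_lit 5) (nat_lit 64) (nat_lit 5) (nat_lit 62) (nat_lit 5) (nat_lit 451) (nat_lit 363) (nat_lit 206)) (XT.nd (nat_lit 78) (nat_lit 152) (nat_lit 0) (XT.lf (nat_lit 0) (nat_lit 23849309498) (nat_lit 228) (nat_lit 4084366481) (nat_lit 76) (nat_lit 12336490703) (nat_lit 61) (nat_lit 5) (nat_lit 64) (nat_lit 5) (nat_lit 62) (nat_lit 5) (nat_lit 452) (nat_lit 363) (nat_lit 205)) (XT.lf (nat_lit 0) (nat_lit 17028297929) (nat_lit 152) (nat_lit 16652250992) (nat_lit 228) (nat_lit 7441612766) (nat_lit 59) (nat_lit 5) (nat_lit 61) (nat_lit 5) (nat_lit 62) (nat_lit 5) (nat_lit 453) (nat_lit 363) (nat_lit 204)))) (XT.nd (nat_lit 156) (nat_lit 152) (nat_lit 0) (XT.nd (nat_lit 78) (nat_lit 152) (nat_lit 0) (XT.lf (nat_lit 0) (nat_lit 1807045096) (nat_lit 228) (nat_lit 3169546349) (nat_lit 76) (nat_lit 37021545856) (nat_lit 58)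 (nat_lit 5) (nat_lit 61) (nat_lit 5) (nat_lit 59) (nat_lit 5) (nat_lit 454) (nat_lit 363) (nat_lit 203)) (XT.lf (nat_lit 0) (nat_lit 11427035322) (nat_lit 228) (nat_lit 24301249922) (nat_lit 76) (nat_lit 7162594070) (nat_lit 56) (nat_lit 5) (nat_lit 59) (nat_lit 5) (nat_lit 57) (nat_lit 5) (nat_lit 455) (nat_lit 363) (nat_lit 202))) (XT.nd (nat_lit 78) (nat_lit 152) (nat_lit 0) (XT.lf (nat_lit 0) (nat_lit 21411079953) (nat_lit 228) (nat_lit 2803535330) (nat_lit 76) (nat_lit 19593525403) (nat_lit 56) (nat_lit 5) (nat_lit 59) (nat_lit 5) (nat_lit 57) (nat_lit 5) (nat_lit 456) (nat_lit 363) (nat_lit 201)) (XT.lf (nat_lit 0) (nat_lit 19713050451) (nat_lit 152) (nat_lit 12165126673) (nat_lit 228) (nat_lit 12869237556) (nat_lit 54) (nat_lit 5) (nat_lit 56) (nat_lit 5) (nat_lit 57) (nat_lit 5) (nat_lit 457) (nat_lit 363) (nat_lit 200))))) (XT.nd (nat_lit 234) (nat_lit 304) (nat_lit 0) (XT.nd (nat_lit 78) (nat_lit 152)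 (nat_lit 0) (XT.lf (nat_lit 0) (nat_lit 42684304229) (nat_lit 228) (nat_lit 2764817125) (nat_lit 76) (nat_lit 264995724) (nat_lit 54) (nat_lit 5) (nat_lit 57) (nat_lit 5) (nat_lit 55) (nat_lit 4) (nat_lit 458) (nat_lit 363) (nat_lit 199)) (XT.nd (nat_lit 78) (nat_lit 0) (nat_lit 0) (XT.lf (nat_lit 0) (nat_lit 7280407157) (nat_lit 152) (nat_lit 26331065587) (nat_lit 76) (nat_lit 13086872012) (nat_lit 52) (nat_lit 5) (nat_lit 54) (nat_lit 5) (nat_lit 53) (nat_lit 5) (nat_lit 459) (nat_lit 363) (nat_lit 198)) (XT.lf (nat_lit 0) (nat_lit 17861480796) (nat_lit 152) (nat_lit 3501980734) (nat_lit 76) (nat_lit 26347065128) (nat_lit 52) (nat_lit 5) (nat_lit 54) (nat_lit 5) (nat_lit 53) (nat_lit 5) (nat_lit 460) (nat_lit 363) (nat_lit 197)))) (XT.nd (nat_lit 156) (nat_lit 152) (nat_lit 0) (XT.nd (nat_lit 78) (nat_lit 0) (nat_lit 0) (XT.lf (nat_lit 0) (nat_lit 20399897909) (nat_lit 152) (nat_lit 8550600189) (nat_lit 228)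 (nat_lit 19796861193) (nat_lit 50) (nat_lit 5) (nat_lit 52) (nat_lit 5) (nat_lit 53) (nat_lit 5) (nat_lit 461) (nat_lit 363) (nat_lit 196)) (XT.lf (nat_lit 0) (nat_lit 40447003171) (nat_lit 228) (nat_lit 4778809722) (nat_lit 76) (nat_lit 4587240094) (nat_lit 50) (nat_lit 5) (nat_lit 53) (nat_lit 5) (nat_lit 51) (nat_lit 4) (nat_lit 462) (nat_lit 363) (nat_lit 195))) (XT.nd (nat_lit 78) (nat_lit 0) (nat_lit 0) (XT.lf (nat_lit 0) (nat_lit 1622948031) (nat_lit 152) (nat_lit 31130038703) (nat_lit 76) (nat_lit 18149169661) (nat_lit 48) (nat_lit 5) (nat_lit 50) (nat_lit 5) (nat_lit 49) (nat_lit 5) (nat_lit 463) (nat_lit 363) (nat_lit 194)) (XT.lf (nat_lit 0) (nat_lit 12796711310) (nat_lit 152) (nat_lit 6968054104) (nat_lit 76) (nat_lit 32255085728) (nat_lit 48) (nat_lit 5) (nat_lit 50) (nat_lit 5) (nat_lit 49) (nat_lit 5) (nat_lit 464) (nat_lit 363) (nat_lit 193)))))) (XT.nd (nat_lit 546) (nat_lit 532) (nat_lit 0)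 (XT.nd (nat_lit 234) (nat_lit 304) (nat_lit 0) (XT.nd (nat_lit 78) (nat_lit 76) (nat_lit 0) (XT.lf (nat_lit 0) (nat_lit 18265614277) (nat_lit 152) (nat_lit 6210419902) (nat_lit 228) (nat_lit 28689932686) (nat_lit 46) (nat_lit 5) (nat_lit 48) (nat_lit 5) (nat_lit 49) (nat_lit 5) (nat_lit 465) (nat_lit 363) (nat_lit 192)) (XT.nd (nat_lit 78) (nat_lit 76) (nat_lit 0) (XT.lf (nat_lit 0) (nat_lit 36646085942) (nat_lit 228) (nat_lit 10030047447) (nat_lit 76) (nat_lit 7666122714) (nat_lit 46) (nat_lit 5) (nat_lit 49) (nat_lit 5) (nat_lit 47) (nat_lit 4) (nat_lit 466) (nat_lit 363) (nat_lit 191)) (XT.lf (nat_lit 0) (nat_lit 15824323866) (nat_lit 76) (nat_lit 33565455415) (nat_lit 152) (nat_lit 6157799037) (nat_lit 45) (nat_lit 5) (nat_lit 46) (nat_lit 5) (nat_lit 47) (nat_lit 4) (nat_lit 467) (nat_lit 363) (nat_lit 190)))) (XT.nd (nat_lit 156) (nat_lit 76) (nat_lit 0) (XT.nd (nat_lit 78) (nat_lit 152) (nat_lit 0) (XT.lf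 (nat_lit 0) (nat_lit 5712206975) (nat_lit 152) (nat_lit 14191493494) (nat_lit 76) (nat_lit 36880791760) (nat_lit 44) (nat_lit 5) (nat_lit 46) (nat_lit 5) (nat_lit 45) (nat_lit 5) (nat_lit 468) (nat_lit 363) (nat_lit 189)) (XT.lf (nat_lit 0) (nat_lit 12275715123) (nat_lit 152) (nat_lit 5651927396) (nat_lit 228) (nat_lit 40125649599) (nat_lit 42) (nat_lit 5) (nat_lit 44) (nat_lit 5) (nat_lit 45) (nat_lit 5) (nat_lit 469) (nat_lit 363) (nat_lit 188))) (XT.nd (nat_lit 78) (nat_lit 76) (nat_lit 0) (XT.lf (nat_lit 0) (nat_lit 30736153150) (nat_lit 228) (nat_lit 19625298271) (nat_lit 76) (nat_lit 8991906669) (nat_lit 42) (nat_lit 5) (nat_lit 45) (nat_lit 5) (nat_lit 43) (nat_lit 4) (nat_lit 470) (nat_lit 363) (nat_lit 187)) (XT.lf (nat_lit 0) (nat_lit 7390981375) (nat_lit 76) (nat_lit 36660196471) (nat_lit 152) (nat_lit 16637580867) (nat_lit 41) (nat_lit 5) (nat_lit 42) (nat_lit 5) (nat_lit 43) (nat_lit 4) (nat_lit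 471) (nat_lit 363) (nat_lit 186))))) (XT.nd (nat_lit 312) (nat_lit 304) (nat_lit 0) (XT.nd (nat_lit 156) (nat_lit 0) (nat_lit 0) (XT.nd (nat_lit 78) (nat_lit 228) (nat_lit 0) (XT.lf (nat_lit 0) (nat_lit 35611302947) (nat_lit 76) (nat_lit 22347834009) (nat_lit 152) (nat_lit 4099280309) (nat_lit 41) (nat_lit 5) (nat_lit 42) (nat_lit 5) (nat_lit 43) (nat_lit 4) (nat_lit 472) (nat_lit 363) (nat_lit 185)) (XT.lf (nat_lit 0) (nat_lit 1137954285) (nat_lit 152) (nat_lit 7511535816) (nat_lit 228) (nat_lit 54816943669) (nat_lit 38) (nat_lit 5) (nat_lit 40) (nat_lit 5) (nat_lit 41) (nat_lit 5) (nat_lit 473) (nat_lit 363) (nat_lit 184))) (XT.nd (nat_lit 78) (nat_lit 0) (nat_lit 0) (XT.lf (nat_lit 0) (nat_lit 22038141121) (nat_lit 228) (nat_lit 34942481550) (nat_lit 76) (nat_lit 7924656608) (nat_lit 38) (nat_lit 5) (nat_lit 41) (nat_lit 5) (nat_lit 39) (nat_lit 4) (nat_lit 474) (nat_lit 363) (nat_lit 183)) (XT.lf (nat_lit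 0) (nat_lit 35898369149) (nat_lit 228) (nat_lit 6817622760) (nat_lit 76) (nat_lit 23669201094) (nat_lit 38) (nat_lit 5) (nat_lit 41) (nat_lit 5) (nat_lit 39) (nat_lit 4) (nat_lit 475) (nat_lit 363) (nat_lit 182)))) (XT.nd (nat_lit 156) (nat_lit 228) (nat_lit 0) (XT.nd (nat_lit 78) (nat_lit 0) (nat_lit 0) (XT.lf (nat_lit 0) (nat_lit 22583564160) (nat_lit 76) (nat_lit 27803602461) (nat_lit 152) (nat_lit 17515955003) (nat_lit 37) (nat_lit 5) (nat_lit 38) (nat_lit 5) (nat_lit 39) (nat_lit 4) (nat_lit 476) (nat_lit 363) (nat_lit 181)) (XT.lf (nat_lit 0) (nat_lit 52998516413) (nat_lit 76) (nat_lit 12376680610) (nat_lit 152) (nat_lit 4089454363) (nat_lit 37) (nat_lit 5) (nat_lit 38) (nat_lit 5) (nat_lit 39) (nat_lit 4) (nat_lit 477) (nat_lit 363) (nat_lit 180))) (XT.nd (nat_lit 78) (nat_lit 0) (nat_lit 0) (XT.lf (nat_lit 0) (nat_lit 9710462335) (nat_lit 228) (nat_lit 57689285652) (nat_lit 76) (nat_lit 3665650214) (nat_lit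 34) (nat_lit 5) (nat_lit 37) (nat_lit 5) (nat_lit 35) (nat_lit 4) (nat_lit 478) (nat_lit 363) (nat_lit 179)) (XT.lf (nat_lit 0) (nat_lit 24128465441) (nat_lit 228) (nat_lit 28430576628) (nat_lit 76) (nat_lit 20145322498) (nat_lit 34) (nat_lit 5) (nat_lit 37) (nat_lit 5) (nat_lit 35) (nat_lit 4) (nat_lit 479) (nat_lit 363) (nat_lit 178))))))))
noncomputable def xc158 : XT := (XT.nd (nat_lit 45708) (nat_lit 0) (nat_lit 8056) (XT.nd (nat_lit 44616) (nat_lit 0) (nat_lit 15808) (XT.nd (nat_lit 44070) (nat_lit 0) (nat_lit 18924) (XT.nd (nat_lit 234) (nat_lit 228) (nat_lit 0) (XT.nd (nat_lit 78) (nat_lit 0) (nat_lit 0) (XT.lf (nat_lit 0) (nat_lit 1732034354) (nat_lit 76) (nat_lit 37259564950) (nat_lit 152) (nat_lit 35400523214) (nat_lit 33) (nat_lit 5) (nat_lit 34) (nat_lit 5) (nat_lit 35) (nat_lit 4) (nat_lit 480) (nat_lit 363) (nat_lit 177)) (XT.nd (nat_lit 78) (nat_lit 0) (nat_lit 0) (XT.lf (nat_lit 0) (nat_lit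 33374740147) (nat_lit 76) (nat_lit 21208966731) (nat_lit 152) (nat_lit 21538314243) (nat_lit 33) (nat_lit 5) (nat_lit 34) (nat_lit 5) (nat_lit 35) (nat_lit 4) (nat_lit 481) (nat_lit 363) (nat_lit 176)) (XT.lf (nat_lit 0) (nat_lit 65959365497) (nat_lit 76) (nat_lit 4680315695) (nat_lit 152) (nat_lit 7264252680) (nat_lit 33) (nat_lit 5) (nat_lit 34) (nat_lit 5) (nat_lit 35) (nat_lit 4) (nat_lit 482) (nat_lit 363) (nat_lit 175)))) (XT.nd (nat_lit 156) (nat_lit 76) (nat_lit 0) (XT.nd (nat_lit 78) (nat_lit 0) (nat_lit 0) (XT.lf (nat_lit 0) (nat_lit 7603486566) (nat_lit 152) (nat_lit 59757085011) (nat_lit 76) (nat_lit 12367269783) (nat_lit 31) (nat_lit 5) (nat_lit 33) (nat_lit 5) (nat_lit 32) (nat_lit 4) (nat_lit 483) (nat_lit 363) (nat_lit 174)) (XT.lf (nat_lit 0) (nat_lit 22935593763) (nat_lit 152) (nat_lit 28641145970) (nat_lit 76) (nat_lit 30022638707) (nat_lit 31) (nat_lit 5) (nat_lit 33) (nat_lit 5) (nat_lit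 32) (nat_lit 4) (nat_lit 484) (nat_lit 363) (nat_lit 173))) (XT.nd (nat_lit 78) (nat_lit 0) (nat_lit 0) (XT.lf (nat_lit 0) (nat_lit 3468939561) (nat_lit 76) (nat_lit 35288370528) (nat_lit 152) (nat_lit 44768862430) (nat_lit 30) (nat_lit 5) (nat_lit 31) (nat_lit 5) (nat_lit 32) (nat_lit 4) (nat_lit 485) (nat_lit 363) (nat_lit 172)) (XT.lf (nat_lit 0) (nat_lit 37122488742) (nat_lit 76) (nat_lit 18216749831) (nat_lit 152) (nat_lit 30162965282) (nat_lit 30) (nat_lit 5) (nat_lit 31) (nat_lit 5) (nat_lit 32) (nat_lit 4) (nat_lit 486) (nat_lit 363) (nat_lit 171))))) (XT.nd (nat_lit 234) (nat_lit 1064) (nat_lit 0) (XT.nd (nat_lit 78) (nat_lit 0) (nat_lit 0) (XT.lf (nat_lit 0) (nat_lit 1688691563) (nat_lit 0) (nat_lit 1688691563) (nat_lit 988) (nat_lit 1077579126) (nat_lit 293) (nat_lit 5) (nat_lit 293) (nat_lit 3) (nat_lit 306) (nat_lit 3) (nat_lit 364) (nat_lit 364) (nat_lit 292)) (XT.nd (nat_lit 78) (nat_lit 0) (nat_lit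 0) (XT.lf (nat_lit 0) (nat_lit 7760090996) (nat_lit 988) (nat_lit 1218592157) (nat_lit 1064) (nat_lit 37335855) (nat_lit 293) (nat_lit 5) (nat_lit 306) (nat_lit 3) (nat_lit 307) (nat_lit 5) (nat_lit 365) (nat_lit 364) (nat_lit 291)) (XT.lf (nat_lit 76) (nat_lit 3235596587) (nat_lit 0) (nat_lit 5589423931) (nat_lit 1064) (nat_lit 299409425) (nat_lit 294) (nat_lit 5) (nat_lit 293) (nat_lit 5) (nat_lit 307) (nat_lit 5) (nat_lit 366) (nat_lit 364) (nat_lit 290)))) (XT.nd (nat_lit 156) (nat_lit 0) (nat_lit 76) (XT.nd (nat_lit 78) (nat_lit 0) (nat_lit 76) (XT.lf (nat_lit 0) (nat_lit 650239764) (nat_lit 1064) (nat_lit 1413444675) (nat_lit 1140) (nat_lit 7172892445) (nat_lit 279) (nat_lit 5) (nat_lit 293) (nat_lit 5) (nat_lit 294) (nat_lit 5) (nat_lit 367) (nat_lit 364) (nat_lit 289)) (XT.lf (nat_lit 0) (nat_lit 1635431010) (nat_lit 1064) (nat_lit 6130053793) (nat_lit 1140) (nat_lit 1586137895) (nat_lit 280) (nat_lit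 5) (nat_lit 294) (nat_lit 5) (nat_lit 295) (nat_lit 5) (nat_lit 368) (nat_lit 364) (nat_lit 288))) (XT.nd (nat_lit 78) (nat_lit 0) (nat_lit 0) (XT.lf (nat_lit 0) (nat_lit 2652358731) (nat_lit 1064) (nat_lit 1485441348) (nat_lit 1140) (nat_lit 5332269441) (nat_lit 280) (nat_lit 5) (nat_lit 294) (nat_lit 5) (nat_lit 295) (nat_lit 5) (nat_lit 369) (nat_lit 364) (nat_lit 287)) (XT.lf (nat_lit 76) (nat_lit 3344567284) (nat_lit 0) (nat_lit 355662348) (nat_lit 1140) (nat_lit 5891841676) (nat_lit 281) (nat_lit 5) (nat_lit 280) (nat_lit 5) (nat_lit 295) (nat_lit 5) (nat_lit 370) (nat_lit 364) (nat_lit 286)))))) (XT.nd (nat_lit 546) (nat_lit 2280) (nat_lit 0) (XT.nd (nat_lit 234) (nat_lit 988) (nat_lit 0) (XT.nd (nat_lit 78) (nat_lit 0) (nat_lit 0) (XT.lf (nat_lit 0) (nat_lit 4797854441) (nat_lit 1064) (nat_lit 1421610226) (nat_lit 1140) (nat_lit 3497733142) (nat_lit 281) (nat_lit 5) (nat_lit 295) (nat_lit 5) (nat_lit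 296) (nat_lit 5) (nat_lit 371) (nat_lit 364) (nat_lit 285)) (XT.nd (nat_lit 78) (nat_lit 0) (nat_lit 76) (XT.lf (nat_lit 76) (nat_lit 3596222217) (nat_lit 0) (nat_lit 2340316231) (nat_lit 1140) (nat_lit 3909309524) (nat_lit 282) (nat_lit 5) (nat_lit 281) (nat_lit 5) (nat_lit 296) (nat_lit 5) (nat_lit 372) (nat_lit 364) (nat_lit 284)) (XT.lf (nat_lit 0) (nat_lit 7110614349) (nat_lit 1064) (nat_lit 1220537052) (nat_lit 1140) (nat_lit 1647182678) (nat_lit 282) (nat_lit 5) (nat_lit 296) (nat_lit 5) (nat_lit 297) (nat_lit 5) (nat_lit 373) (nat_lit 364) (nat_lit 283)))) (XT.nd (nat_lit 156) (nat_lit 1064) (nat_lit 0) (XT.nd (nat_lit 78) (nat_lit 0) (nat_lit 0) (XT.lf (nat_lit 76) (nat_lit 3994502587) (nat_lit 0) (nat_lit 4358651713) (nat_lit 1140) (nat_lit 1760656204) (nat_lit 283) (nat_lit 5) (nat_lit 282) (nat_lit 5) (nat_lit 297) (nat_lit 5) (nat_lit 374) (nat_lit 364) (nat_lit 282)) (XT.lf (nat_lit 76) (nat_lit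 9371508929) (nat_lit 0) (nat_lit 246096853) (nat_lit 1140) (nat_lit 636218991) (nat_lit 283) (nat_lit 5) (nat_lit 282) (nat_lit 5) (nat_lit 297) (nat_lit 5) (nat_lit 375) (nat_lit 364) (nat_lit 281))) (XT.nd (nat_lit 78) (nat_lit 0) (nat_lit 0) (XT.lf (nat_lit 0) (nat_lit 567509488) (nat_lit 1140) (nat_lit 5859721948) (nat_lit 1216) (nat_lit 3968997103) (nat_lit 268) (nat_lit 5) (nat_lit 283) (nat_lit 5) (nat_lit 284) (nat_lit 5) (nat_lit 376) (nat_lit 364) (nat_lit 280)) (XT.lf (nat_lit 0) (nat_lit 1779510928) (nat_lit 1140) (nat_lit 435656415) (nat_lit 1216) (nat_lit 8328011186) (nat_lit 268) (nat_lit 5) (nat_lit 283) (nat_lit 5) (nat_lit 284) (nat_lit 5) (nat_lit 377) (nat_lit 364) (nat_lit 279))))) (XT.nd (nat_lit 234) (nat_lit 2356) (nat_lit 0) (XT.nd (nat_lit 78) (nat_lit 0) (nat_lit 0) (XT.lf (nat_lit 0) (nat_lit 3073434161) (nat_lit 1140) (nat_lit 5481106540) (nat_lit 1216) (nat_lit 2138640670) (nat_lit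 269) (nat_lit 5) (nat_lit 284) (nat_lit 5) (nat_lit 285) (nat_lit 5) (nat_lit 378) (nat_lit 364) (nat_lit 278)) (XT.nd (nat_lit 78) (nat_lit 0) (nat_lit 76) (XT.lf (nat_lit 76) (nat_lit 151377561) (nat_lit 0) (nat_lit 4257531137) (nat_lit 1216) (nat_lit 6438704470) (nat_lit 270) (nat_lit 5) (nat_lit 269) (nat_lit 5) (nat_lit 285) (nat_lit 5) (nat_lit 379) (nat_lit 364) (nat_lit 277)) (XT.lf (nat_lit 0) (nat_lit 5817448033) (nat_lit 1140) (nat_lit 4962800049) (nat_lit 76) (nat_lit 225450382) (nat_lit 270) (nat_lit 5) (nat_lit 285) (nat_lit 5) (nat_lit 271) (nat_lit 5) (nat_lit 380) (nat_lit 364) (nat_lit 276)))) (XT.nd (nat_lit 156) (nat_lit 1292) (nat_lit 0) (XT.nd (nat_lit 78) (nat_lit 0) (nat_lit 0) (XT.lf (nat_lit 0) (nat_lit 897800810) (nat_lit 1140) (nat_lit 6397426209) (nat_lit 1216) (nat_lit 3872500049) (nat_lit 255) (nat_lit 5) (nat_lit 270) (nat_lit 5) (nat_lit 271) (nat_lit 5) (nat_lit 381) (nat_lit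 364) (nat_lit 275)) (XT.lf (nat_lit 0) (nat_lit 7015946983) (nat_lit 1140) (nat_lit 1828207345) (nat_lit 1216) (nat_lit 2489667709) (nat_lit 255) (nat_lit 5) (nat_lit 270) (nat_lit 5) (nat_lit 271) (nat_lit 5) (nat_lit 382) (nat_lit 364) (nat_lit 274))) (XT.nd (nat_lit 78) (nat_lit 76) (nat_lit 0) (XT.lf (nat_lit 0) (nat_lit 1800055701) (nat_lit 1216) (nat_lit 8661872714) (nat_lit 1292) (nat_lit 1042309738) (nat_lit 239) (nat_lit 5) (nat_lit 255) (nat_lit 5) (nat_lit 256) (nat_lit 5) (nat_lit 383) (nat_lit 364) (nat_lit 273)) (XT.lf (nat_lit 0) (nat_lit 479500344) (nat_lit 1292) (nat_lit 3531663935) (nat_lit 76) (nat_lit 7667288774) (nat_lit 238) (nat_lit 5) (nat_lit 255) (nat_lit 5) (nat_lit 239) (nat_lit 5) (nat_lit 384) (nat_lit 364) (nat_lit 272))))))) (XT.nd (nat_lit 1092) (nat_lit 3268) (nat_lit 0) (XT.nd (nat_lit 546) (nat_lit 2052) (nat_lit 0) (XT.nd (nat_lit 234) (nat_lit 1216) (nat_lit 0) (XT.nd (nat_lit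 78) (nat_lit 608) (nat_lit 0) (XT.lf (nat_lit 0) (nat_lit 2039605660) (nat_lit 684) (nat_lit 9013752757) (nat_lit 76) (nat_lit 803827524) (nat_lit 230) (nat_lit 5) (nat_lit 239) (nat_lit 5) (nat_lit 231) (nat_lit 5) (nat_lit 385) (nat_lit 364) (nat_lit 271)) (XT.nd (nat_lit 78) (nat_lit 608) (nat_lit 0) (XT.lf (nat_lit 0) (nat_lit 3701002838) (nat_lit 684) (nat_lit 2618371643) (nat_lit 76) (nat_lit 5720280261) (nat_lit 230) (nat_lit 5) (nat_lit 239) (nat_lit 5) (nat_lit 231) (nat_lit 5) (nat_lit 386) (nat_lit 364) (nat_lit 270)) (XT.lf (nat_lit 0) (nat_lit 4027785976) (nat_lit 608) (nat_lit 1402550417) (nat_lit 684) (nat_lit 6796726716) (nat_lit 222) (nat_lit 5) (nat_lit 230) (nat_lit 5) (nat_lit 231) (nat_lit 5) (nat_lit 387) (nat_lit 364) (nat_lit 269)))) (XT.nd (nat_lit 156) (nat_lit 608) (nat_lit 0) (XT.nd (nat_lit 78) (nat_lit 608) (nat_lit 0) (XT.lf (nat_lit 0) (nat_lit 7253248603) (nat_lit 684) (nat_lit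 1547869083) (nat_lit 76) (nat_lit 3617733177) (nat_lit 222) (nat_lit 5) (nat_lit 231) (nat_lit 5) (nat_lit 223) (nat_lit 5) (nat_lit 388) (nat_lit 364) (nat_lit 268)) (XT.lf (nat_lit 0) (nat_lit 5374547166) (nat_lit 608) (nat_lit 3802236703) (nat_lit 684) (nat_lit 3438238168) (nat_lit 214) (nat_lit 5) (nat_lit 222) (nat_lit 5) (nat_lit 223) (nat_lit 5) (nat_lit 389) (nat_lit 364) (nat_lit 267))) (XT.nd (nat_lit 78) (nat_lit 608) (nat_lit 0) (XT.lf (nat_lit 0) (nat_lit 11167524916) (nat_lit 684) (nat_lit 313259198) (nat_lit 76) (nat_lit 1336016872) (nat_lit 214) (nat_lit 5) (nat_lit 223) (nat_lit 5) (nat_lit 215) (nat_lit 5) (nat_lit 390) (nat_lit 364) (nat_lit 266)) (XT.lf (nat_lit 0) (nat_lit 275716663) (nat_lit 608) (nat_lit 6125361427) (nat_lit 76) (nat_lit 6620922601) (nat_lit 206) (nat_lit 5) (nat_lit 214) (nat_lit 5) (nat_lit 207) (nat_lit 5) (nat_lit 391) (nat_lit 364) (nat_lit 265))))) (XT.nd (nat_lit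 234) (nat_lit 1064) (nat_lit 0) (XT.nd (nat_lit 78) (nat_lit 456) (nat_lit 0) (XT.lf (nat_lit 0) (nat_lit 1081210479) (nat_lit 532) (nat_lit 1139189327) (nat_lit 608) (nat_lit 11012620995) (nat_lit 199) (nat_lit 5) (nat_lit 206) (nat_lit 5) (nat_lit 207) (nat_lit 5) (nat_lit 392) (nat_lit 364) (nat_lit 264)) (XT.nd (nat_lit 78) (nat_lit 456) (nat_lit 0) (XT.lf (nat_lit 0) (nat_lit 4308880472) (nat_lit 608) (nat_lit 4880602295) (nat_lit 76) (nat_lit 4258331816) (nat_lit 199) (nat_lit 5) (nat_lit 207) (nat_lit 5) (nat_lit 200) (nat_lit 5) (nat_lit 393) (nat_lit 364) (nat_lit 263)) (XT.lf (nat_lit 0) (nat_lit 2629482171) (nat_lit 456) (nat_lit 3849460667) (nat_lit 532) (nat_lit 7189548104) (nat_lit 193) (nat_lit 5) (nat_lit 199) (nat_lit 5) (nat_lit 200) (nat_lit 5) (nat_lit 394) (nat_lit 364) (nat_lit 262)))) (XT.nd (nat_lit 156) (nat_lit 532) (nat_lit 0) (XT.nd (nat_lit 78) (nat_lit 532) (nat_lit 0) (XT.lf (nat_lit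 0) (nat_lit 8762432151) (nat_lit 532) (nat_lit 3465358655) (nat_lit 76) (nat_lit 1666553424) (nat_lit 193) (nat_lit 5) (nat_lit 200) (nat_lit 5) (nat_lit 194) (nat_lit 5) (nat_lit 395) (nat_lit 364) (nat_lit 261)) (XT.lf (nat_lit 0) (nat_lit 4363495957) (nat_lit 532) (nat_lit 6814177047) (nat_lit 608) (nat_lit 2947408910) (nat_lit 186) (nat_lit 5) (nat_lit 193) (nat_lit 5) (nat_lit 194) (nat_lit 5) (nat_lit 396) (nat_lit 364) (nat_lit 260))) (XT.nd (nat_lit 78) (nat_lit 532) (nat_lit 0) (XT.lf (nat_lit 0) (nat_lit 12479400261) (nat_lit 532) (nat_lit 1204461373) (nat_lit 608) (nat_lit 678331401) (nat_lit 186) (nat_lit 5) (nat_lit 193) (nat_lit 5) (nat_lit 194) (nat_lit 5) (nat_lit 397) (nat_lit 364) (nat_lit 259)) (XT.lf (nat_lit 0) (nat_lit 1715724757) (nat_lit 532) (nat_lit 8328171597) (nat_lit 76) (nat_lit 4559370170) (nat_lit 179) (nat_lit 5) (nat_lit 186) (nat_lit 5) (nat_lit 180) (nat_lit 5) (nat_lit 398)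 (nat_lit 364) (nat_lit 258)))))) (XT.nd (nat_lit 546) (nat_lit 1520) (nat_lit 0) (XT.nd (nat_lit 234) (nat_lit 912) (nat_lit 0) (XT.nd (nat_lit 78) (nat_lit 836) (nat_lit 0) (XT.lf (nat_lit 0) (nat_lit 4183177990) (nat_lit 532) (nat_lit 172423108) (nat_lit 76) (nat_lit 10495318873) (nat_lit 179) (nat_lit 5) (nat_lit 186) (nat_lit 5) (nat_lit 180) (nat_lit 5) (nat_lit 399) (nat_lit 364) (nat_lit 257)) (XT.nd (nat_lit 78) (nat_lit 380) (nat_lit 0) (XT.lf (nat_lit 0) (nat_lit 6804908222) (nat_lit 532) (nat_lit 6746247121) (nat_lit 76) (nat_lit 1552445426) (nat_lit 173) (nat_lit 5) (nat_lit 180) (nat_lit 5) (nat_lit 174) (nat_lit 5) (nat_lit 400) (nat_lit 364) (nat_lit 256)) (XT.lf (nat_lit 0) (nat_lit 1755250434) (nat_lit 380) (nat_lit 7796588834) (nat_lit 456) (nat_lit 5810631453) (nat_lit 168) (nat_lit 5) (nat_lit 173) (nat_lit 5) (nat_lit 174) (nat_lit 5) (nat_lit 401) (nat_lit 364) (nat_lit 255)))) (XT.nd (nat_lit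 156) (nat_lit 456) (nat_lit 0) (XT.nd (nat_lit 78) (nat_lit 456) (nat_lit 0) (XT.lf (nat_lit 0) (nat_lit 10631659519) (nat_lit 380) (nat_lit 1802701628) (nat_lit 456) (nat_lit 3193155181) (nat_lit 168) (nat_lit 5) (nat_lit 173) (nat_lit 5) (nat_lit 174) (nat_lit 5) (nat_lit 402) (nat_lit 364) (nat_lit 254)) (XT.lf (nat_lit 0) (nat_lit 3889431887) (nat_lit 456) (nat_lit 11578792834) (nat_lit 532) (nat_lit 430347498) (nat_lit 162) (nat_lit 5) (nat_lit 168) (nat_lit 5) (nat_lit 169) (nat_lit 5) (nat_lit 403) (nat_lit 364) (nat_lit 253))) (XT.nd (nat_lit 78) (nat_lit 380) (nat_lit 0) (XT.lf (nat_lit 0) (nat_lit 2422573578) (nat_lit 532) (nat_lit 3092531008) (nat_lit 76) (nat_lit 10660332447) (nat_lit 161) (nat_lit 5) (nat_lit 168) (nat_lit 5) (nat_lit 162) (nat_lit 5) (nat_lit 404) (nat_lit 364) (nat_lit 252)) (XT.lf (nat_lit 0) (nat_lit 5405538592) (nat_lit 456) (nat_lit 10276498551) (nat_lit 76) (nat_lit 776854130)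 (nat_lit 156) (nat_lit 5) (nat_lit 162) (nat_lit 5) (nat_lit 157) (nat_lit 5) (nat_lit 405) (nat_lit 364) (nat_lit 251))))) (XT.nd (nat_lit 312) (nat_lit 684) (nat_lit 0) (XT.nd (nat_lit 156) (nat_lit 456) (nat_lit 0) (XT.nd (nat_lit 78) (nat_lit 380) (nat_lit 0) (XT.lf (nat_lit 0) (nat_lit 8550320938) (nat_lit 456) (nat_lit 1023945335) (nat_lit 76) (nat_lit 7174417365) (nat_lit 156) (nat_lit 5) (nat_lit 162) (nat_lit 5) (nat_lit 157) (nat_lit 5) (nat_lit 406) (nat_lit 364) (nat_lit 250)) (XT.lf (nat_lit 0) (nat_lit 8657574571) (nat_lit 380) (nat_lit 3201682140) (nat_lit 456) (nat_lit 5185822989) (nat_lit 151) (nat_lit 5) (nat_lit 156) (nat_lit 5) (nat_lit 157) (nat_lit 5) (nat_lit 407) (nat_lit 364) (nat_lit 249))) (XT.nd (nat_lit 78) (nat_lit 76) (nat_lit 0) (XT.lf (nat_lit 0) (nat_lit 1275197677) (nat_lit 380) (nat_lit 14034052805) (nat_lit 456) (nat_lit 2039867567) (nat_lit 146) (nat_lit 5) (nat_lit 151)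 (nat_lit 5) (nat_lit 152) (nat_lit 5) (nat_lit 408) (nat_lit 364) (nat_lit 248)) (XT.lf (nat_lit 0) (nat_lit 1281131951) (nat_lit 456) (nat_lit 6321926814) (nat_lit 76) (nat_lit 10055753733) (nat_lit 145) (nat_lit 5) (nat_lit 151) (nat_lit 5) (nat_lit 146) (nat_lit 5) (nat_lit 409) (nat_lit 364) (nat_lit 247)))) (XT.nd (nat_lit 156) (nat_lit 304) (nat_lit 0) (XT.nd (nat_lit 78) (nat_lit 0) (nat_lit 0) (XT.lf (nat_lit 0) (nat_lit 3758460894) (nat_lit 380) (nat_lit 925667821) (nat_lit 456) (nat_lit 13292365921) (nat_lit 140) (nat_lit 5) (nat_lit 145) (nat_lit 5) (nat_lit 146) (nat_lit 5) (nat_lit 410) (nat_lit 364) (nat_lit 246)) (XT.lf (nat_lit 0) (nat_lit 8298302039) (nat_lit 456) (nat_lit 4106261868) (nat_lit 76) (nat_lit 5895874376) (nat_lit 140) (nat_lit 5) (nat_lit 146) (nat_lit 5) (nat_lit 141) (nat_lit 5) (nat_lit 411) (nat_lit 364) (nat_lit 245))) (XT.nd (nat_lit 78) (nat_lit 0) (nat_lit 0) (XT.lf (nat_lit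 0) (nat_lit 6407769246) (nat_lit 304) (nat_lit 5671659531) (nat_lit 380) (nat_lit 6552919154) (nat_lit 136) (nat_lit 5) (nat_lit 140) (nat_lit 5) (nat_lit 141) (nat_lit 5) (nat_lit 412) (nat_lit 364) (nat_lit 244)) (XT.lf (nat_lit 0) (nat_lit 16015924789) (nat_lit 380) (nat_lit 1681248743) (nat_lit 76) (nat_lit 1275786707) (nat_lit 136) (nat_lit 5) (nat_lit 141) (nat_lit 5) (nat_lit 137) (nat_lit 5) (nat_lit 413) (nat_lit 364) (nat_lit 243))))))))
noncomputable def xc159 : XT := (XT.nd (nat_lit 2262) (nat_lit 2356) (nat_lit 0) (XT.nd (nat_lit 1092) (nat_lit 2204) (nat_lit 0) (XT.nd (nat_lit 546) (nat_lit 1140) (nat_lit 0) (XT.nd (nat_lit 234) (nat_lit 684) (nat_lit 0) (XT.nd (nat_lit 78) (nat_lit 304) (nat_lit 0) (XT.lf (nat_lit 0) (nat_lit 867168302) (nat_lit 456) (nat_lit 10041460952) (nat_lit 76) (nat_lit 8410899117) (nat_lit 130) (nat_lit 5) (nat_lit 136) (nat_lit 5) (nat_lit 131) (nat_lit 5) (nat_lit 414)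 (nat_lit 364) (nat_lit 242)) (XT.nd (nat_lit 78) (nat_lit 0) (nat_lit 0) (XT.lf (nat_lit 0) (nat_lit 895987386) (nat_lit 304) (nat_lit 3864770165) (nat_lit 380) (nat_lit 14914438024) (nat_lit 126) (nat_lit 5) (nat_lit 130) (nat_lit 5) (nat_lit 131) (nat_lit 5) (nat_lit 415) (nat_lit 364) (nat_lit 241)) (XT.lf (nat_lit 0) (nat_lit 8894615192) (nat_lit 380) (nat_lit 7721515234) (nat_lit 76) (nat_lit 3421701600) (nat_lit 126) (nat_lit 5) (nat_lit 131) (nat_lit 5) (nat_lit 127) (nat_lit 5) (nat_lit 416) (nat_lit 364) (nat_lit 240)))) (XT.nd (nat_lit 156) (nat_lit 380) (nat_lit 0) (XT.nd (nat_lit 78) (nat_lit 0) (nat_lit 0) (XT.lf (nat_lit 0) (nat_lit 3685216374) (nat_lit 304) (nat_lit 9529764754) (nat_lit 380) (nat_lit 7194494629) (nat_lit 122) (nat_lit 5) (nat_lit 126) (nat_lit 5) (nat_lit 127) (nat_lit 5) (nat_lit 417) (nat_lit 364) (nat_lit 239)) (XT.lf (nat_lit 0) (nat_lit 15576254683) (nat_lit 304) (nat_lit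 2155649094) (nat_lit 380) (nat_lit 3058359528) (nat_lit 122) (nat_lit 5) (nat_lit 126) (nat_lit 5) (nat_lit 127) (nat_lit 5) (nat_lit 418) (nat_lit 364) (nat_lit 238))) (XT.nd (nat_lit 78) (nat_lit 0) (nat_lit 0) (XT.lf (nat_lit 0) (nat_lit 1285433745) (nat_lit 380) (nat_lit 14487802415) (nat_lit 76) (nat_lit 5405683638) (nat_lit 117) (nat_lit 5) (nat_lit 122) (nat_lit 5) (nat_lit 118) (nat_lit 5) (nat_lit 419) (nat_lit 364) (nat_lit 237)) (XT.lf (nat_lit 0) (nat_lit 5761886621) (nat_lit 380) (nat_lit 2585564623) (nat_lit 76) (nat_lit 13228964476) (nat_lit 117) (nat_lit 5) (nat_lit 122) (nat_lit 5) (nat_lit 118) (nat_lit 5) (nat_lit 420) (nat_lit 364) (nat_lit 236))))) (XT.nd (nat_lit 234) (nat_lit 608) (nat_lit 0) (XT.nd (nat_lit 78) (nat_lit 228) (nat_lit 0) (XT.lf (nat_lit 0) (nat_lit 9850381715) (nat_lit 304) (nat_lit 606551088) (nat_lit 380) (nat_lit 11526377283) (nat_lit 113) (nat_lit 5) (nat_lit 117)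 (nat_lit 5) (nat_lit 118) (nat_lit 5) (nat_lit 421) (nat_lit 364) (nat_lit 235)) (XT.nd (nat_lit 78) (nat_lit 0) (nat_lit 0) (XT.lf (nat_lit 0) (nat_lit 228486081) (nat_lit 228) (nat_lit 15153436581) (nat_lit 304) (nat_lit 7017818331) (nat_lit 110) (nat_lit 5) (nat_lit 113) (nat_lit 5) (nat_lit 114) (nat_lit 5) (nat_lit 422) (nat_lit 364) (nat_lit 234)) (XT.lf (nat_lit 0) (nat_lit 13187802933) (nat_lit 228) (nat_lit 7385191179) (nat_lit 304) (nat_lit 2252123169) (nat_lit 110) (nat_lit 5) (nat_lit 113) (nat_lit 5) (nat_lit 114) (nat_lit 5) (nat_lit 423) (nat_lit 364) (nat_lit 233)))) (XT.nd (nat_lit 156) (nat_lit 228) (nat_lit 0) (XT.nd (nat_lit 78) (nat_lit 0) (nat_lit 0) (XT.lf (nat_lit 0) (nat_lit 2632888310) (nat_lit 380) (nat_lit 19972124282) (nat_lit 76) (nat_lit 656632924) (nat_lit 105) (nat_lit 5) (nat_lit 110) (nat_lit 5) (nat_lit 106) (nat_lit 5) (nat_lit 424) (nat_lit 364) (nat_lit 232)) (XT.lf (nat_lit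 0) (nat_lit 7780741689) (nat_lit 380) (nat_lit 7018386149) (nat_lit 76) (nat_lit 8906628303) (nat_lit 105) (nat_lit 5) (nat_lit 110) (nat_lit 5) (nat_lit 106) (nat_lit 5) (nat_lit 425) (nat_lit 364) (nat_lit 231))) (XT.nd (nat_lit 78) (nat_lit 0) (nat_lit 0) (XT.lf (nat_lit 0) (nat_lit 6434603131) (nat_lit 228) (nat_lit 6700722409) (nat_lit 304) (nat_lit 11026297842) (nat_lit 102) (nat_lit 5) (nat_lit 105) (nat_lit 5) (nat_lit 106) (nat_lit 5) (nat_lit 426) (nat_lit 364) (nat_lit 230)) (XT.lf (nat_lit 0) (nat_lit 18728417748) (nat_lit 304) (nat_lit 4225471085) (nat_lit 76) (nat_lit 1674943759) (nat_lit 102) (nat_lit 5) (nat_lit 106) (nat_lit 5) (nat_lit 103) (nat_lit 5) (nat_lit 427) (nat_lit 364) (nat_lit 229)))))) (XT.nd (nat_lit 546) (nat_lit 1140) (nat_lit 0) (XT.nd (nat_lit 234) (nat_lit 532) (nat_lit 0) (XT.nd (nat_lit 78) (nat_lit 304) (nat_lit 0) (XT.lf (nat_lit 0) (nat_lit 9791270678) (nat_lit 228)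 (nat_lit 14849297852) (nat_lit 304) (nat_lit 464953591) (nat_lit 99) (nat_lit 5) (nat_lit 102) (nat_lit 5) (nat_lit 103) (nat_lit 5) (nat_lit 428) (nat_lit 364) (nat_lit 228)) (XT.nd (nat_lit 78) (nat_lit 228) (nat_lit 0) (XT.lf (nat_lit 0) (nat_lit 5067328281) (nat_lit 304) (nat_lit 1344483435) (nat_lit 76) (nat_lit 19182204175) (nat_lit 98) (nat_lit 5) (nat_lit 102) (nat_lit 5) (nat_lit 99) (nat_lit 5) (nat_lit 429) (nat_lit 364) (nat_lit 227)) (XT.lf (nat_lit 0) (nat_lit 10898206199) (nat_lit 304) (nat_lit 12831808143) (nat_lit 76) (nat_lit 2362754693) (nat_lit 95) (nat_lit 5) (nat_lit 99) (nat_lit 5) (nat_lit 96) (nat_lit 5) (nat_lit 430) (nat_lit 364) (nat_lit 226)))) (XT.nd (nat_lit 156) (nat_lit 304) (nat_lit 0) (XT.nd (nat_lit 78) (nat_lit 0) (nat_lit 0) (XT.lf (nat_lit 0) (nat_lit 1680972048) (nat_lit 228) (nat_lit 15307571127) (nat_lit 304) (nat_lit 9615407408) (nat_lit 92) (nat_lit 5) (nat_lit 95)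 (nat_lit 5) (nat_lit 96) (nat_lit 5) (nat_lit 431) (nat_lit 364) (nat_lit 225)) (XT.lf (nat_lit 0) (nat_lit 16878051239) (nat_lit 228) (nat_lit 6504416090) (nat_lit 304) (nat_lit 3744375677) (nat_lit 92) (nat_lit 5) (nat_lit 95) (nat_lit 5) (nat_lit 96) (nat_lit 5) (nat_lit 432) (nat_lit 364) (nat_lit 224))) (XT.nd (nat_lit 78) (nat_lit 0) (nat_lit 0) (XT.lf (nat_lit 0) (nat_lit 2321941461) (nat_lit 304) (nat_lit 22763147870) (nat_lit 76) (nat_lit 2577747734) (nat_lit 88) (nat_lit 5) (nat_lit 92) (nat_lit 5) (nat_lit 89) (nat_lit 5) (nat_lit 433) (nat_lit 364) (nat_lit 223)) (XT.lf (nat_lit 0) (nat_lit 8655441525) (nat_lit 304) (nat_lit 7615539848) (nat_lit 76) (nat_lit 11938005423) (nat_lit 88) (nat_lit 5) (nat_lit 92) (nat_lit 5) (nat_lit 89) (nat_lit 5) (nat_lit 434) (nat_lit 364) (nat_lit 222))))) (XT.nd (nat_lit 312) (nat_lit 684) (nat_lit 0) (XT.nd (nat_lit 156) (nat_lit 228) (nat_lit 0) (XT.nd (nat_lit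 78) (nat_lit 0) (nat_lit 0) (XT.lf (nat_lit 0) (nat_lit 8131629532) (nat_lit 228) (nat_lit 7117263950) (nat_lit 304) (nat_lit 13520530678) (nat_lit 85) (nat_lit 5) (nat_lit 88) (nat_lit 5) (nat_lit 89) (nat_lit 5) (nat_lit 435) (nat_lit 364) (nat_lit 221)) (XT.lf (nat_lit 0) (nat_lit 22131867997) (nat_lit 304) (nat_lit 4873624533) (nat_lit 76) (nat_lit 2338432047) (nat_lit 85) (nat_lit 5) (nat_lit 89) (nat_lit 5) (nat_lit 86) (nat_lit 5) (nat_lit 436) (nat_lit 364) (nat_lit 220))) (XT.nd (nat_lit 78) (nat_lit 76) (nat_lit 0) (XT.lf (nat_lit 0) (nat_lit 11504283718) (nat_lit 152) (nat_lit 17890180064) (nat_lit 228) (nat_lit 536003721) (nat_lit 83) (nat_lit 5) (nat_lit 85) (nat_lit 5) (nat_lit 86) (nat_lit 5) (nat_lit 437) (nat_lit 364) (nat_lit 219)) (XT.lf (nat_lit 0) (nat_lit 6258413447) (nat_lit 228) (nat_lit 2134368974) (nat_lit 76) (nat_lit 22138743092) (nat_lit 82) (nat_lit 5) (nat_lit 85) (nat_lit 5) (nat_lit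 83) (nat_lit 5) (nat_lit 438) (nat_lit 364) (nat_lit 218)))) (XT.nd (nat_lit 156) (nat_lit 304) (nat_lit 0) (XT.nd (nat_lit 78) (nat_lit 152) (nat_lit 0) (XT.lf (nat_lit 0) (nat_lit 13396415915) (nat_lit 304) (nat_lit 16241997127) (nat_lit 76) (nat_lit 1507528569) (nat_lit 79) (nat_lit 5) (nat_lit 83) (nat_lit 5) (nat_lit 80) (nat_lit 5) (nat_lit 439) (nat_lit 364) (nat_lit 217)) (XT.lf (nat_lit 0) (nat_lit 635195853) (nat_lit 152) (nat_lit 20216717088) (nat_lit 228) (nat_lit 10923777911) (nat_lit 77) (nat_lit 5) (nat_lit 79) (nat_lit 5) (nat_lit 80) (nat_lit 5) (nat_lit 440) (nat_lit 364) (nat_lit 216))) (XT.nd (nat_lit 78) (nat_lit 304) (nat_lit 0) (XT.lf (nat_lit 0) (nat_lit 18338871095) (nat_lit 152) (nat_lit 10348700458) (nat_lit 228) (nat_lit 3732067375) (nat_lit 77) (nat_lit 5) (nat_lit 79) (nat_lit 5) (nat_lit 80) (nat_lit 5) (nat_lit 441) (nat_lit 364) (nat_lit 215)) (XT.lf (nat_lit 0) (nat_lit 3511386582)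 (nat_lit 228) (nat_lit 118671115) (nat_lit 304) (nat_lit 29450997528) (nat_lit 73) (nat_lit 5) (nat_lit 76) (nat_lit 5) (nat_lit 77) (nat_lit 5) (nat_lit 442) (nat_lit 364) (nat_lit 214))))))) (XT.nd (nat_lit 1092) (nat_lit 1064) (nat_lit 0) (XT.nd (nat_lit 546) (nat_lit 760) (nat_lit 0) (XT.nd (nat_lit 234) (nat_lit 380) (nat_lit 0) (XT.nd (nat_lit 78) (nat_lit 152) (nat_lit 0) (XT.lf (nat_lit 0) (nat_lit 11374453710) (nat_lit 304) (nat_lit 11989207425) (nat_lit 76) (nat_lit 10390452949) (nat_lit 73) (nat_lit 5) (nat_lit 77) (nat_lit 5) (nat_lit 74) (nat_lit 5) (nat_lit 443) (nat_lit 364) (nat_lit 213)) (XT.nd (nat_lit 78) (nat_lit 0) (nat_lit 0) (XT.lf (nat_lit 0) (nat_lit 6226765325) (nat_lit 152) (nat_lit 13178335471) (nat_lit 228) (nat_lit 15040647456) (nat_lit 71) (nat_lit 5) (nat_lit 73) (nat_lit 5) (nat_lit 74) (nat_lit 5) (nat_lit 444) (nat_lit 364) (nat_lit 212)) (XT.lf (nat_lit 0) (nat_lit 25222870237)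 (nat_lit 152) (nat_lit 2567843975) (nat_lit 228) (nat_lit 7363996910) (nat_lit 71) (nat_lit 5) (nat_lit 73) (nat_lit 5) (nat_lit 74) (nat_lit 5) (nat_lit 445) (nat_lit 364) (nat_lit 211)))) (XT.nd (nat_lit 156) (nat_lit 152) (nat_lit 0) (XT.nd (nat_lit 78) (nat_lit 0) (nat_lit 0) (XT.lf (nat_lit 0) (nat_lit 693835820) (nat_lit 228) (nat_lit 26899955201) (nat_lit 76) (nat_lit 8286151973) (nat_lit 68) (nat_lit 5) (nat_lit 71) (nat_lit 5) (nat_lit 69) (nat_lit 5) (nat_lit 446) (nat_lit 364) (nat_lit 210)) (XT.lf (nat_lit 0) (nat_lit 8965258529) (nat_lit 228) (nat_lit 8072426332) (nat_lit 76) (nat_lit 19583464708) (nat_lit 68) (nat_lit 5) (nat_lit 71) (nat_lit 5) (nat_lit 69) (nat_lit 5) (nat_lit 447) (nat_lit 364) (nat_lit 209))) (XT.nd (nat_lit 78) (nat_lit 0) (nat_lit 0) (XT.lf (nat_lit 0) (nat_lit 11533394671) (nat_lit 152) (nat_lit 6055649404) (nat_lit 228) (nat_lit 19792422624) (nat_lit 66) (nat_lit 5) (nat_lit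 68) (nat_lit 5) (nat_lit 69) (nat_lit 5) (nat_lit 448) (nat_lit 364) (nat_lit 208)) (XT.lf (nat_lit 0) (nat_lit 26597778465) (nat_lit 228) (nat_lit 6332238969) (nat_lit 76) (nat_lit 5230789787) (nat_lit 66) (nat_lit 5) (nat_lit 69) (nat_lit 5) (nat_lit 67) (nat_lit 5) (nat_lit 449) (nat_lit 364) (nat_lit 207))))) (XT.nd (nat_lit 234) (nat_lit 380) (nat_lit 0) (XT.nd (nat_lit 78) (nat_lit 228) (nat_lit 0) (XT.lf (nat_lit 0) (nat_lit 13970435654) (nat_lit 152) (nat_lit 22094171146) (nat_lit 228) (nat_lit 2893287108) (nat_lit 64) (nat_lit 5) (nat_lit 66) (nat_lit 5) (nat_lit 67) (nat_lit 5) (nat_lit 450) (nat_lit 364) (nat_lit 206)) (XT.nd (nat_lit 78) (nat_lit 152) (nat_lit 0) (XT.lf (nat_lit 0) (nat_lit 5976926768) (nat_lit 228) (nat_lit 4834947370) (nat_lit 76) (nat_lit 28963533864) (nat_lit 63) (nat_lit 5) (nat_lit 66) (nat_lit 5) (nat_lit 64) (nat_lit 5) (nat_lit 451) (nat_lit 364) (nat_lit 205)) (XT.lf (nat_lit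 0) (nat_lit 15214145780) (nat_lit 228) (nat_lit 24423051818) (nat_lit 76) (nat_lit 974619831) (nat_lit 61) (nat_lit 5) (nat_lit 64) (nat_lit 5) (nat_lit 62) (nat_lit 5) (nat_lit 452) (nat_lit 364) (nat_lit 204)))) (XT.nd (nat_lit 156) (nat_lit 228) (nat_lit 0) (XT.nd (nat_lit 78) (nat_lit 152) (nat_lit 0) (XT.lf (nat_lit 0) (nat_lit 24878652454) (nat_lit 228) (nat_lit 3648094524) (nat_lit 76) (nat_lit 12942067835) (nat_lit 61) (nat_lit 5) (nat_lit 64) (nat_lit 5) (nat_lit 62) (nat_lit 5) (nat_lit 453) (nat_lit 364) (nat_lit 203)) (XT.lf (nat_lit 0) (nat_lit 18092471358) (nat_lit 152) (nat_lit 16908534935) (nat_lit 228) (nat_lit 7345479250) (nat_lit 59) (nat_lit 5) (nat_lit 61) (nat_lit 5) (nat_lit 62) (nat_lit 5) (nat_lit 454) (nat_lit 364) (nat_lit 202))) (XT.nd (nat_lit 78) (nat_lit 152) (nat_lit 0) (XT.lf (nat_lit 0) (nat_lit 2165285193) (nat_lit 228) (nat_lit 2721336244) (nat_lit 76) (nat_lit 38362301637)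 (nat_lit 58) (nat_lit 5) (nat_lit 61) (nat_lit 5) (nat_lit 59) (nat_lit 5) (nat_lit 455) (nat_lit 364) (nat_lit 201)) (XT.lf (nat_lit 0) (nat_lit 12072475416) (nat_lit 228) (nat_lit 24485554822) (nat_lit 76) (nat_lit 7610460192) (nat_lit 56) (nat_lit 5) (nat_lit 59) (nat_lit 5) (nat_lit 57) (nat_lit 5) (nat_lit 456) (nat_lit 364) (nat_lit 200)))))) (XT.nd (nat_lit 546) (nat_lit 608) (nat_lit 0) (XT.nd (nat_lit 234) (nat_lit 304) (nat_lit 0) (XT.nd (nat_lit 78) (nat_lit 152) (nat_lit 0) (XT.lf (nat_lit 0) (nat_lit 22347226949) (nat_lit 228) (nat_lit 2358774790) (nat_lit 76) (nat_lit 20407533398) (nat_lit 56) (nat_lit 5) (nat_lit 59) (nat_lit 5) (nat_lit 57) (nat_lit 5) (nat_lit 457) (nat_lit 364) (nat_lit 199)) (XT.nd (nat_lit 78) (nat_lit 0) (nat_lit 0) (XT.lf (nat_lit 0) (nat_lit 20828123598) (nat_lit 152) (nat_lit 12296689678) (nat_lit 228) (nat_lit 12956280815) (nat_lit 54) (nat_lit 5) (nat_lit 56) (nat_lit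 5) (nat_lit 57) (nat_lit 5) (nat_lit 458) (nat_lit 364) (nat_lit 198)) (XT.lf (nat_lit 0) (nat_lit 44248847272) (nat_lit 228) (nat_lit 2333022643) (nat_lit 76) (nat_lit 495116954) (nat_lit 54) (nat_lit 5) (nat_lit 57) (nat_lit 5) (nat_lit 55) (nat_lit 4) (nat_lit 459) (nat_lit 364) (nat_lit 197)))) (XT.nd (nat_lit 156) (nat_lit 152) (nat_lit 0) (XT.nd (nat_lit 78) (nat_lit 0) (nat_lit 0) (XT.lf (nat_lit 0) (nat_lit 7782270842) (nat_lit 152) (nat_lit 26605632386) (nat_lit 76) (nat_lit 13702856933) (nat_lit 52) (nat_lit 5) (nat_lit 54) (nat_lit 5) (nat_lit 53) (nat_lit 5) (nat_lit 460) (nat_lit 364) (nat_lit 196)) (XT.lf (nat_lit 0) (nat_lit 18672520823) (nat_lit 152) (nat_lit 3106685624) (nat_lit 76) (nat_lit 27354349665) (nat_lit 52) (nat_lit 5) (nat_lit 54) (nat_lit 5) (nat_lit 53) (nat_lit 5) (nat_lit 461) (nat_lit 364) (nat_lit 195))) (XT.nd (nat_lit 78) (nat_lit 0) (nat_lit 0) (XT.lf (nat_lit 0) (nat_lit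 21507343942) (nat_lit 152) (nat_lit 8583611856) (nat_lit 228) (nat_lit 20110636400) (nat_lit 50) (nat_lit 5) (nat_lit 52) (nat_lit 5) (nat_lit 53) (nat_lit 5) (nat_lit 462) (nat_lit 364) (nat_lit 194)) (XT.lf (nat_lit 0) (nat_lit 41926521263) (nat_lit 228) (nat_lit 4435291986) (nat_lit 76) (nat_lit 4937619361) (nat_lit 50) (nat_lit 5) (nat_lit 53) (nat_lit 5) (nat_lit 51) (nat_lit 4) (nat_lit 463) (nat_lit 364) (nat_lit 193))))) (XT.nd (nat_lit 312) (nat_lit 304) (nat_lit 0) (XT.nd (nat_lit 156) (nat_lit 152) (nat_lit 0) (XT.nd (nat_lit 78) (nat_lit 0) (nat_lit 0) (XT.lf (nat_lit 0) (nat_lit 1937259298) (nat_lit 152) (nat_lit 31576517695) (nat_lit 76) (nat_lit 18907448330) (nat_lit 48) (nat_lit 5) (nat_lit 50) (nat_lit 5) (nat_lit 49) (nat_lit 5) (nat_lit 464) (nat_lit 364) (nat_lit 192)) (XT.lf (nat_lit 0) (nat_lit 13438498889) (nat_lit 152) (nat_lit 6703870320) (nat_lit 76) (nat_lit 33430314590) (nat_lit 48)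 (nat_lit 5) (nat_lit 50) (nat_lit 5) (nat_lit 49) (nat_lit 5) (nat_lit 465) (nat_lit 364) (nat_lit 191))) (XT.nd (nat_lit 78) (nat_lit 0) (nat_lit 0) (XT.lf (nat_lit 0) (nat_lit 19282168648) (nat_lit 152) (nat_lit 6183025881) (nat_lit 228) (nat_lit 29288079438) (nat_lit 46) (nat_lit 5) (nat_lit 48) (nat_lit 5) (nat_lit 49) (nat_lit 5) (nat_lit 466) (nat_lit 364) (nat_lit 190)) (XT.lf (nat_lit 0) (nat_lit 37994918620) (nat_lit 228) (nat_lit 9870557056) (nat_lit 76) (nat_lit 8099539825) (nat_lit 46) (nat_lit 5) (nat_lit 49) (nat_lit 5) (nat_lit 47) (nat_lit 4) (nat_lit 467) (nat_lit 364) (nat_lit 189)))) (XT.nd (nat_lit 156) (nat_lit 152) (nat_lit 0) (XT.nd (nat_lit 78) (nat_lit 76) (nat_lit 0) (XT.lf (nat_lit 0) (nat_lit 16754931750) (nat_lit 76) (nat_lit 34363107652) (nat_lit 152) (nat_lit 6088545204) (nat_lit 45) (nat_lit 5) (nat_lit 46) (nat_lit 5) (nat_lit 47) (nat_lit 4) (nat_lit 468) (nat_lit 364) (nat_lit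 188)) (XT.lf (nat_lit 0) (nat_lit 6125351425) (nat_lit 152) (nat_lit 14169803596) (nat_lit 76) (nat_lit 38185595950) (nat_lit 44) (nat_lit 5) (nat_lit 46) (nat_lit 5) (nat_lit 45) (nat_lit 5) (nat_lit 469) (nat_lit 364) (nat_lit 187))) (XT.nd (nat_lit 78) (nat_lit 0) (nat_lit 0) (XT.lf (nat_lit 0) (nat_lit 13087034665) (nat_lit 152) (nat_lit 5617432135) (nat_lit 228) (nat_lit 41083232214) (nat_lit 42) (nat_lit 5) (nat_lit 44) (nat_lit 5) (nat_lit 45) (nat_lit 5) (nat_lit 470) (nat_lit 364) (nat_lit 186)) (XT.lf (nat_lit 0) (nat_lit 31892176083) (nat_lit 228) (nat_lit 19778835401) (nat_lit 76) (nat_lit 9455907823) (nat_lit 42) (nat_lit 5) (nat_lit 45) (nat_lit 5) (nat_lit 43) (nat_lit 4) (nat_lit 471) (nat_lit 364) (nat_lit 185))))))))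
noncomputable def xc160 : XT := (XT.nd (nat_lit 45786) (nat_lit 0) (nat_lit 9576) (XT.nd (nat_lit 1092) (nat_lit 76) (nat_lit 0) (XT.nd (nat_lit 546) (nat_lit 456) (nat_lit 0) (XT.nd (nat_lit 234) (nat_lit 76) (nat_lit 0) (XT.nd (nat_lit 78) (nat_lit 228) (nat_lit 0) (XT.lf (nat_lit 0) (nat_lit 8043665754) (nat_lit 76) (nat_lit 37560314629) (nat_lit 152) (nat_lit 16898482321) (nat_lit 41) (nat_lit 5) (nat_lit 42) (nat_lit 5) (nat_lit 43) (nat_lit 4) (nat_lit 472) (nat_lit 364) (nat_lit 184)) (XT.nd (nat_lit 78) (nat_lit 228) (nat_lit 0) (XT.lf (nat_lit 0) (nat_lit 37098044887) (nat_lit 76) (nat_lit 22824397441) (nat_lit 152) (nat_lit 3990971366) (nat_lit 41) (nat_lit 5) (nat_lit 42) (nat_lit 5) (nat_lit 43) (nat_lit 4) (nat_lit 473) (nat_lit 364) (nat_lit 183)) (XT.lf (nat_lit 0) (nat_lit 1590882150) (nat_lit 152) (nat_lit 7542287345) (nat_lit 228) (nat_lit 56230512455) (nat_lit 38) (nat_lit 5) (nat_lit 40)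 (nat_lit 5) (nat_lit 41) (nat_lit 5) (nat_lit 474) (nat_lit 364) (nat_lit 182)))) (XT.nd (nat_lit 156) (nat_lit 76) (nat_lit 0) (XT.nd (nat_lit 78) (nat_lit 0) (nat_lit 0) (XT.lf (nat_lit 0) (nat_lit 22918766181) (nat_lit 228) (nat_lit 35579432202) (nat_lit 76) (nat_lit 8347636409) (nat_lit 38) (nat_lit 5) (nat_lit 41) (nat_lit 5) (nat_lit 39) (nat_lit 4) (nat_lit 475) (nat_lit 364) (nat_lit 181)) (XT.lf (nat_lit 0) (nat_lit 37188408405) (nat_lit 228) (nat_lit 6622807953) (nat_lit 76) (nat_lit 24559121887) (nat_lit 38) (nat_lit 5) (nat_lit 41) (nat_lit 5) (nat_lit 39) (nat_lit 4) (nat_lit 476) (nat_lit 364) (nat_lit 180))) (XT.nd (nat_lit 78) (nat_lit 0) (nat_lit 0) (XT.lf (nat_lit 0) (nat_lit 23656499442) (nat_lit 76) (nat_lit 28452965006) (nat_lit 152) (nat_lit 17824412958) (nat_lit 37) (nat_lit 5) (nat_lit 38) (nat_lit 5) (nat_lit 39) (nat_lit 4) (nat_lit 477) (nat_lit 364) (nat_lit 179)) (XT.lf (nat_lit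 0) (nat_lit 54972382931) (nat_lit 76) (nat_lit 12568616438) (nat_lit 152) (nat_lit 4001438290) (nat_lit 37) (nat_lit 5) (nat_lit 38) (nat_lit 5) (nat_lit 39) (nat_lit 4) (nat_lit 478) (nat_lit 364) (nat_lit 178))))) (XT.nd (nat_lit 234) (nat_lit 152) (nat_lit 0) (XT.nd (nat_lit 78) (nat_lit 76) (nat_lit 0) (XT.lf (nat_lit 0) (nat_lit 10207770747) (nat_lit 228) (nat_lit 59031315744) (nat_lit 76) (nat_lit 3952077914) (nat_lit 34) (nat_lit 5) (nat_lit 37) (nat_lit 5) (nat_lit 35) (nat_lit 4) (nat_lit 479) (nat_lit 364) (nat_lit 177)) (XT.nd (nat_lit 78) (nat_lit 76) (nat_lit 0) (XT.lf (nat_lit 0) (nat_lit 25052314106) (nat_lit 228) (nat_lit 28906165308) (nat_lit 76) (nat_lit 20921000807) (nat_lit 34) (nat_lit 5) (nat_lit 37) (nat_lit 5) (nat_lit 35) (nat_lit 4) (nat_lit 480) (nat_lit 364) (nat_lit 176)) (XT.lf (nat_lit 0) (nat_lit 2157624703) (nat_lit 76) (nat_lit 38201483746) (nat_lit 152) (nat_lit 36258829916)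 (nat_lit 33) (nat_lit 5) (nat_lit 34) (nat_lit 5) (nat_lit 35) (nat_lit 4) (nat_lit 481) (nat_lit 364) (nat_lit 175)))) (XT.nd (nat_lit 156) (nat_lit 152) (nat_lit 0) (XT.nd (nat_lit 78) (nat_lit 0) (nat_lit 0) (XT.lf (nat_lit 0) (nat_lit 34738729263) (nat_lit 76) (nat_lit 21674489954) (nat_lit 152) (nat_lit 21986687947) (nat_lit 33) (nat_lit 5) (nat_lit 34) (nat_lit 5) (nat_lit 35) (nat_lit 4) (nat_lit 482) (nat_lit 364) (nat_lit 174)) (XT.lf (nat_lit 0) (nat_lit 68290327929) (nat_lit 76) (nat_lit 4654952565) (nat_lit 152) (nat_lit 7290164996) (nat_lit 33) (nat_lit 5) (nat_lit 34) (nat_lit 5) (nat_lit 35) (nat_lit 4) (nat_lit 483) (nat_lit 364) (nat_lit 173))) (XT.nd (nat_lit 78) (nat_lit 0) (nat_lit 0) (XT.lf (nat_lit 0) (nat_lit 8019362345) (nat_lit 152) (nat_lit 61193344968) (nat_lit 76) (nat_lit 12901322830) (nat_lit 31) (nat_lit 5) (nat_lit 33) (nat_lit 5) (nat_lit 32) (nat_lit 4) (nat_lit 484) (nat_lit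 364) (nat_lit 172)) (XT.lf (nat_lit 0) (nat_lit 23805963694) (nat_lit 152) (nat_lit 29154309871) (nat_lit 76) (nat_lit 31081604232) (nat_lit 31) (nat_lit 5) (nat_lit 33) (nat_lit 5) (nat_lit 32) (nat_lit 4) (nat_lit 485) (nat_lit 364) (nat_lit 171)))))) (XT.nd (nat_lit 44148) (nat_lit 0) (nat_lit 18012) (XT.nd (nat_lit 43836) (nat_lit 0) (nat_lit 18924) (XT.nd (nat_lit 43680) (nat_lit 0) (nat_lit 18848) (XT.lf (nat_lit 0) (nat_lit 3915685378) (nat_lit 76) (nat_lit 36184630388) (nat_lit 152) (nat_lit 45926220780) (nat_lit 30) (nat_lit 5) (nat_lit 31) (nat_lit 5) (nat_lit 32) (nat_lit 4) (nat_lit 486) (nat_lit 364) (nat_lit 170)) (XT.nd (nat_lit 78) (nat_lit 1140) (nat_lit 0) (XT.lf (nat_lit 0) (nat_lit 2186827758) (nat_lit 0) (nat_lit 2186827758) (nat_lit 988) (nat_lit 187676983) (nat_lit 293) (nat_lit 5) (nat_lit 293) (nat_lit 3) (nat_lit 306) (nat_lit 3) (nat_lit 365) (nat_lit 365) (nat_lit 290)) (XT.lf (nat_lit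 0) (nat_lit 487049501) (nat_lit 1140) (nat_lit 337695339) (nat_lit 1140) (nat_lit 8408654606) (nat_lit 278) (nat_lit 3) (nat_lit 293) (nat_lit 3) (nat_lit 293) (nat_lit 5) (nat_lit 366) (nat_lit 365) (nat_lit 289)))) (XT.nd (nat_lit 156) (nat_lit 0) (nat_lit 76) (XT.nd (nat_lit 78) (nat_lit 0) (nat_lit 0) (XT.lf (nat_lit 0) (nat_lit 1403032146) (nat_lit 1064) (nat_lit 5106720641) (nat_lit 1140) (nat_lit 2836549617) (nat_lit 279) (nat_lit 5) (nat_lit 293) (nat_lit 5) (nat_lit 294) (nat_lit 5) (nat_lit 367) (nat_lit 365) (nat_lit 288)) (XT.lf (nat_lit 0) (nat_lit 2325480958) (nat_lit 1064) (nat_lit 527873970) (nat_lit 1140) (nat_lit 6609882979) (nat_lit 279) (nat_lit 5) (nat_lit 293) (nat_lit 5) (nat_lit 294) (nat_lit 5) (nat_lit 368) (nat_lit 365) (nat_lit 287))) (XT.nd (nat_lit 78) (nat_lit 0) (nat_lit 0) (XT.lf (nat_lit 0) (nat_lit 3294131017) (nat_lit 1064) (nat_lit 5339142433) (nat_lit 1140) (nat_lit 949866812)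 (nat_lit 280) (nat_lit 5) (nat_lit 294) (nat_lit 5) (nat_lit 295) (nat_lit 5) (nat_lit 369) (nat_lit 365) (nat_lit 286)) (XT.lf (nat_lit 0) (nat_lit 4294683937) (nat_lit 1064) (nat_lit 583584226) (nat_lit 1140) (nat_lit 4828300418) (nat_lit 280) (nat_lit 5) (nat_lit 294) (nat_lit 5) (nat_lit 295) (nat_lit 5) (nat_lit 370) (nat_lit 365) (nat_lit 285))))) (XT.nd (nat_lit 234) (nat_lit 988) (nat_lit 0) (XT.nd (nat_lit 78) (nat_lit 0) (nat_lit 76) (XT.lf (nat_lit 76) (nat_lit 4382046034) (nat_lit 0) (nat_lit 955436191) (nat_lit 1140) (nat_lit 4495864442) (nat_lit 281) (nat_lit 5) (nat_lit 280) (nat_lit 5) (nat_lit 295) (nat_lit 5) (nat_lit 371) (nat_lit 365) (nat_lit 284)) (XT.nd (nat_lit 78) (nat_lit 0) (nat_lit 0) (XT.lf (nat_lit 0) (nat_lit 6418084129) (nat_lit 1064) (nat_lit 503781504) (nat_lit 1140) (nat_lit 3041880250) (nat_lit 281) (nat_lit 5) (nat_lit 295) (nat_lit 5) (nat_lit 296) (nat_lit 5) (nat_lit 372)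 (nat_lit 365) (nat_lit 283)) (XT.lf (nat_lit 76) (nat_lit 4655169471) (nat_lit 0) (nat_lit 2901902505) (nat_lit 1140) (nat_lit 2540219054) (nat_lit 282) (nat_lit 5) (nat_lit 281) (nat_lit 5) (nat_lit 296) (nat_lit 5) (nat_lit 373) (nat_lit 365) (nat_lit 282)))) (XT.nd (nat_lit 156) (nat_lit 1140) (nat_lit 0) (XT.nd (nat_lit 78) (nat_lit 0) (nat_lit 0) (XT.lf (nat_lit 0) (nat_lit 8719771576) (nat_lit 1064) (nat_lit 286554733) (nat_lit 1140) (nat_lit 1228842569) (nat_lit 282) (nat_lit 5) (nat_lit 296) (nat_lit 5) (nat_lit 297) (nat_lit 5) (nat_lit 374) (nat_lit 365) (nat_lit 281)) (XT.lf (nat_lit 76) (nat_lit 5075420423) (nat_lit 0) (nat_lit 4892750318) (nat_lit 1140) (nat_lit 407500007) (nat_lit 283) (nat_lit 5) (nat_lit 282) (nat_lit 5) (nat_lit 297) (nat_lit 5) (nat_lit 375) (nat_lit 365) (nat_lit 280))) (XT.nd (nat_lit 78) (nat_lit 0) (nat_lit 76) (XT.lf (nat_lit 76) (nat_lit 58977091) (nat_lit 0) (nat_lit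 637460215) (nat_lit 1216) (nat_lit 9824436777) (nat_lit 268) (nat_lit 5) (nat_lit 267) (nat_lit 5) (nat_lit 283) (nat_lit 5) (nat_lit 376) (nat_lit 365) (nat_lit 279)) (XT.lf (nat_lit 0) (nat_lit 1889643817) (nat_lit 1140) (nat_lit 5041353037) (nat_lit 1216) (nat_lit 3737396587) (nat_lit 268) (nat_lit 5) (nat_lit 283) (nat_lit 5) (nat_lit 284) (nat_lit 5) (nat_lit 377) (nat_lit 365) (nat_lit 278))))))) (XT.nd (nat_lit 1092) (nat_lit 3876) (nat_lit 0) (XT.nd (nat_lit 546) (nat_lit 2356) (nat_lit 0) (XT.nd (nat_lit 234) (nat_lit 2280) (nat_lit 0) (XT.nd (nat_lit 78) (nat_lit 0) (nat_lit 76) (XT.lf (nat_lit 76) (nat_lit 526757260) (nat_lit 0) (nat_lit 2578298668) (nat_lit 1216) (nat_lit 7715701047) (nat_lit 269) (nat_lit 5) (nat_lit 268) (nat_lit 5) (nat_lit 284) (nat_lit 5) (nat_lit 378) (nat_lit 365) (nat_lit 277)) (XT.nd (nat_lit 78) (nat_lit 0) (nat_lit 0) (XT.lf (nat_lit 0) (nat_lit 4402288323) (nat_lit 1140)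 (nat_lit 4649354238) (nat_lit 1216) (nat_lit 1924698678) (nat_lit 269) (nat_lit 5) (nat_lit 284) (nat_lit 5) (nat_lit 285) (nat_lit 5) (nat_lit 379) (nat_lit 365) (nat_lit 276)) (XT.lf (nat_lit 76) (nat_lit 1142337862) (nat_lit 0) (nat_lit 4608952332) (nat_lit 1216) (nat_lit 5384927516) (nat_lit 270) (nat_lit 5) (nat_lit 269) (nat_lit 5) (nat_lit 285) (nat_lit 5) (nat_lit 380) (nat_lit 365) (nat_lit 275)))) (XT.nd (nat_lit 156) (nat_lit 1292) (nat_lit 0) (XT.nd (nat_lit 78) (nat_lit 1140) (nat_lit 0) (XT.lf (nat_lit 0) (nat_lit 7164751998) (nat_lit 1140) (nat_lit 4116156746) (nat_lit 76) (nat_lit 19271990) (nat_lit 270) (nat_lit 5) (nat_lit 285) (nat_lit 5) (nat_lit 271) (nat_lit 5) (nat_lit 381) (nat_lit 365) (nat_lit 274)) (XT.lf (nat_lit 0) (nat_lit 1910502066) (nat_lit 1140) (nat_lit 6751679428) (nat_lit 1216) (nat_lit 2805643904) (nat_lit 255) (nat_lit 5) (nat_lit 270) (nat_lit 5) (nat_lit 271) (nat_lit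 5) (nat_lit 382) (nat_lit 365) (nat_lit 273))) (XT.nd (nat_lit 78) (nat_lit 1292) (nat_lit 0) (XT.lf (nat_lit 0) (nat_lit 8183480958) (nat_lit 1140) (nat_lit 2040655928) (nat_lit 1216) (nat_lit 1415783812) (nat_lit 255) (nat_lit 5) (nat_lit 270) (nat_lit 5) (nat_lit 271) (nat_lit 5) (nat_lit 383) (nat_lit 365) (nat_lit 272)) (XT.lf (nat_lit 0) (nat_lit 48785648) (nat_lit 1292) (nat_lit 8979862503) (nat_lit 76) (nat_lit 2787535361) (nat_lit 238) (nat_lit 5) (nat_lit 255) (nat_lit 5) (nat_lit 239) (nat_lit 5) (nat_lit 384) (nat_lit 365) (nat_lit 271))))) (XT.nd (nat_lit 234) (nat_lit 1748) (nat_lit 0) (XT.nd (nat_lit 78) (nat_lit 608) (nat_lit 0) (XT.lf (nat_lit 0) (nat_lit 1563220583) (nat_lit 1292) (nat_lit 2661763830) (nat_lit 76) (nat_lit 7771306328) (nat_lit 238) (nat_lit 5) (nat_lit 255) (nat_lit 5) (nat_lit 239) (nat_lit 5) (nat_lit 385) (nat_lit 365) (nat_lit 270)) (XT.nd (nat_lit 78) (nat_lit 0) (nat_lit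 0) (XT.lf (nat_lit 0) (nat_lit 3147491376) (nat_lit 684) (nat_lit 8285254480) (nat_lit 76) (nat_lit 748331583) (nat_lit 230) (nat_lit 5) (nat_lit 239) (nat_lit 5) (nat_lit 231) (nat_lit 5) (nat_lit 386) (nat_lit 365) (nat_lit 269)) (XT.lf (nat_lit 0) (nat_lit 4828244133) (nat_lit 684) (nat_lit 1727106423) (nat_lit 76) (nat_lit 5814596662) (nat_lit 230) (nat_lit 5) (nat_lit 239) (nat_lit 5) (nat_lit 231) (nat_lit 5) (nat_lit 387) (nat_lit 365) (nat_lit 268)))) (XT.nd (nat_lit 156) (nat_lit 1140) (nat_lit 0) (XT.nd (nat_lit 78) (nat_lit 0) (nat_lit 0) (XT.lf (nat_lit 0) (nat_lit 5108927920) (nat_lit 608) (nat_lit 1480162461) (nat_lit 684) (nat_lit 5974510441) (nat_lit 222) (nat_lit 5) (nat_lit 230) (nat_lit 5) (nat_lit 231) (nat_lit 5) (nat_lit 388) (nat_lit 365) (nat_lit 267)) (XT.lf (nat_lit 0) (nat_lit 8437353155) (nat_lit 684) (nat_lit 632242889) (nat_lit 76) (nat_lit 3692437886) (nat_lit 222) (nat_lit 5)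 (nat_lit 231) (nat_lit 5) (nat_lit 223) (nat_lit 5) (nat_lit 389) (nat_lit 365) (nat_lit 266))) (XT.nd (nat_lit 78) (nat_lit 532) (nat_lit 0) (XT.lf (nat_lit 0) (nat_lit 6488413865) (nat_lit 608) (nat_lit 3911187188) (nat_lit 684) (nat_lit 2565070269) (nat_lit 214) (nat_lit 5) (nat_lit 222) (nat_lit 5) (nat_lit 223) (nat_lit 5) (nat_lit 390) (nat_lit 365) (nat_lit 265)) (XT.lf (nat_lit 0) (nat_lit 642682598) (nat_lit 532) (nat_lit 11786009856) (nat_lit 608) (nat_lit 744463291) (nat_lit 207) (nat_lit 5) (nat_lit 214) (nat_lit 5) (nat_lit 215) (nat_lit 5) (nat_lit 391) (nat_lit 365) (nat_lit 264)))))) (XT.nd (nat_lit 546) (nat_lit 2204) (nat_lit 0) (XT.nd (nat_lit 234) (nat_lit 1064) (nat_lit 0) (XT.nd (nat_lit 78) (nat_lit 532) (nat_lit 0) (XT.lf (nat_lit 0) (nat_lit 1195506638) (nat_lit 608) (nat_lit 5347179843) (nat_lit 76) (nat_lit 6842284613) (nat_lit 206) (nat_lit 5) (nat_lit 214) (nat_lit 5) (nat_lit 207)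 (nat_lit 5) (nat_lit 392) (nat_lit 365) (nat_lit 263)) (XT.nd (nat_lit 78) (nat_lit 0) (nat_lit 0) (XT.lf (nat_lit 0) (nat_lit 2066158412) (nat_lit 532) (nat_lit 1114978906) (nat_lit 608) (nat_lit 10421716300) (nat_lit 199) (nat_lit 5) (nat_lit 206) (nat_lit 5) (nat_lit 207) (nat_lit 5) (nat_lit 393) (nat_lit 365) (nat_lit 262)) (XT.lf (nat_lit 0) (nat_lit 5306774810) (nat_lit 608) (nat_lit 4076429895) (nat_lit 76) (nat_lit 4441661166) (nat_lit 199) (nat_lit 5) (nat_lit 207) (nat_lit 5) (nat_lit 200) (nat_lit 5) (nat_lit 394) (nat_lit 365) (nat_lit 261)))) (XT.nd (nat_lit 156) (nat_lit 608) (nat_lit 0) (XT.nd (nat_lit 78) (nat_lit 0) (nat_lit 0) (XT.lf (nat_lit 0) (nat_lit 3649637591) (nat_lit 456) (nat_lit 3876049686) (nat_lit 532) (nat_lit 6526972243) (nat_lit 193) (nat_lit 5) (nat_lit 199) (nat_lit 5) (nat_lit 200) (nat_lit 5) (nat_lit 395) (nat_lit 365) (nat_lit 260)) (XT.lf (nat_lit 0) (nat_lit 9853684402)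 (nat_lit 532) (nat_lit 2631161556) (nat_lit 76) (nat_lit 1801171525) (nat_lit 193) (nat_lit 5) (nat_lit 200) (nat_lit 5) (nat_lit 194) (nat_lit 5) (nat_lit 396) (nat_lit 365) (nat_lit 259))) (XT.nd (nat_lit 78) (nat_lit 76) (nat_lit 0) (XT.lf (nat_lit 0) (nat_lit 5423361068) (nat_lit 532) (nat_lit 6902823594) (nat_lit 608) (nat_lit 2197957473) (nat_lit 186) (nat_lit 5) (nat_lit 193) (nat_lit 5) (nat_lit 194) (nat_lit 5) (nat_lit 397) (nat_lit 365) (nat_lit 258)) (XT.lf (nat_lit 0) (nat_lit 112548338) (nat_lit 608) (nat_lit 1014503790) (nat_lit 76) (nat_lit 13642000551) (nat_lit 185) (nat_lit 5) (nat_lit 193) (nat_lit 5) (nat_lit 186) (nat_lit 5) (nat_lit 398) (nat_lit 365) (nat_lit 257))))) (XT.nd (nat_lit 312) (nat_lit 912) (nat_lit 0) (XT.nd (nat_lit 156) (nat_lit 380) (nat_lit 0) (XT.nd (nat_lit 78) (nat_lit 456) (nat_lit 0) (XT.lf (nat_lit 0) (nat_lit 2551510582) (nat_lit 532) (nat_lit 7646406712) (nat_lit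 76) (nat_lit 4819646197) (nat_lit 179) (nat_lit 5) (nat_lit 186) (nat_lit 5) (nat_lit 180) (nat_lit 5) (nat_lit 399) (nat_lit 365) (nat_lit 256)) (XT.lf (nat_lit 0) (nat_lit 741346295) (nat_lit 456) (nat_lit 4335923291) (nat_lit 532) (nat_lit 10195856401) (nat_lit 173) (nat_lit 5) (nat_lit 179) (nat_lit 5) (nat_lit 180) (nat_lit 5) (nat_lit 400) (nat_lit 365) (nat_lit 255))) (XT.nd (nat_lit 78) (nat_lit 380) (nat_lit 0) (XT.lf (nat_lit 0) (nat_lit 7758375709) (nat_lit 532) (nat_lit 6031753017) (nat_lit 76) (nat_lit 1743844444) (nat_lit 173) (nat_lit 5) (nat_lit 180) (nat_lit 5) (nat_lit 174) (nat_lit 5) (nat_lit 401) (nat_lit 365) (nat_lit 254)) (XT.lf (nat_lit 0) (nat_lit 2715800431) (nat_lit 380) (nat_lit 7858816612) (nat_lit 456) (nat_lit 5226392563) (nat_lit 168) (nat_lit 5) (nat_lit 173) (nat_lit 5) (nat_lit 174) (nat_lit 5) (nat_lit 402) (nat_lit 365) (nat_lit 253)))) (XT.nd (nat_lit 156) (nat_lit 380)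 (nat_lit 0) (XT.nd (nat_lit 78) (nat_lit 532) (nat_lit 0) (XT.lf (nat_lit 0) (nat_lit 11832058317) (nat_lit 380) (nat_lit 1690112884) (nat_lit 456) (nat_lit 2552485921) (nat_lit 168) (nat_lit 5) (nat_lit 173) (nat_lit 5) (nat_lit 174) (nat_lit 5) (nat_lit 403) (nat_lit 365) (nat_lit 252)) (XT.lf (nat_lit 0) (nat_lit 276689597) (nat_lit 532) (nat_lit 11458076954) (nat_lit 76) (nat_lit 4619324255) (nat_lit 161) (nat_lit 5) (nat_lit 168) (nat_lit 5) (nat_lit 162) (nat_lit 5) (nat_lit 404) (nat_lit 365) (nat_lit 251))) (XT.nd (nat_lit 78) (nat_lit 380) (nat_lit 0) (XT.lf (nat_lit 0) (nat_lit 3185831332) (nat_lit 532) (nat_lit 2304649927) (nat_lit 76) (nat_lit 11149280628) (nat_lit 161) (nat_lit 5) (nat_lit 168) (nat_lit 5) (nat_lit 162) (nat_lit 5) (nat_lit 405) (nat_lit 365) (nat_lit 250)) (XT.lf (nat_lit 0) (nat_lit 6248410627) (nat_lit 456) (nat_lit 9694047419) (nat_lit 76) (nat_lit 989564380) (nat_lit 156) (nat_lit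 5) (nat_lit 162) (nat_lit 5) (nat_lit 157) (nat_lit 5) (nat_lit 406) (nat_lit 365) (nat_lit 249))))))))
noncomputable def xc161 : XT := (XT.nd (nat_lit 2184) (nat_lit 2888) (nat_lit 0) (XT.nd (nat_lit 1092) (nat_lit 2204) (nat_lit 0) (XT.nd (nat_lit 546) (nat_lit 1444) (nat_lit 0) (XT.nd (nat_lit 234) (nat_lit 760) (nat_lit 0) (XT.nd (nat_lit 78) (nat_lit 760) (nat_lit 0) (XT.lf (nat_lit 0) (nat_lit 9467710059) (nat_lit 456) (nat_lit 189861667) (nat_lit 76) (nat_lit 7573537872) (nat_lit 156) (nat_lit 5) (nat_lit 162) (nat_lit 5) (nat_lit 157) (nat_lit 5) (nat_lit 407) (nat_lit 365) (nat_lit 248)) (XT.nd (nat_lit 78) (nat_lit 380) (nat_lit 0) (XT.lf (nat_lit 0) (nat_lit 9773625385) (nat_lit 380) (nat_lit 3091271109) (nat_lit 456) (nat_lit 4671837634) (nat_lit 151) (nat_lit 5) (nat_lit 156) (nat_lit 5) (nat_lit 157) (nat_lit 5) (nat_lit 408) (nat_lit 365) (nat_lit 247)) (XT.lf (nat_lit 0) (nat_lit 2178921523)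 (nat_lit 380) (nat_lit 14230786769) (nat_lit 456) (nat_lit 1440451674) (nat_lit 146) (nat_lit 5) (nat_lit 151) (nat_lit 5) (nat_lit 152) (nat_lit 5) (nat_lit 409) (nat_lit 365) (nat_lit 246)))) (XT.nd (nat_lit 156) (nat_lit 304) (nat_lit 0) (XT.nd (nat_lit 78) (nat_lit 380) (nat_lit 0) (XT.lf (nat_lit 0) (nat_lit 1948421251) (nat_lit 456) (nat_lit 5658624100) (nat_lit 76) (nat_lit 10562480911) (nat_lit 145) (nat_lit 5) (nat_lit 151) (nat_lit 5) (nat_lit 146) (nat_lit 5) (nat_lit 410) (nat_lit 365) (nat_lit 245)) (XT.lf (nat_lit 0) (nat_lit 4715812881) (nat_lit 380) (nat_lit 727497656) (nat_lit 456) (nat_lit 13053739636) (nat_lit 140) (nat_lit 5) (nat_lit 145) (nat_lit 5) (nat_lit 146) (nat_lit 5) (nat_lit 411) (nat_lit 365) (nat_lit 244))) (XT.nd (nat_lit 78) (nat_lit 304) (nat_lit 0) (XT.lf (nat_lit 0) (nat_lit 9149998513) (nat_lit 456) (nat_lit 3393366630) (nat_lit 76) (nat_lit 6287829532) (nat_lit 140) (nat_lit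 5) (nat_lit 146) (nat_lit 5) (nat_lit 141) (nat_lit 5) (nat_lit 412) (nat_lit 365) (nat_lit 243)) (XT.lf (nat_lit 0) (nat_lit 7427888525) (nat_lit 304) (nat_lit 5607072927) (nat_lit 380) (nat_lit 6138393166) (nat_lit 136) (nat_lit 5) (nat_lit 140) (nat_lit 5) (nat_lit 141) (nat_lit 5) (nat_lit 413) (nat_lit 365) (nat_lit 242))))) (XT.nd (nat_lit 234) (nat_lit 684) (nat_lit 0) (XT.nd (nat_lit 78) (nat_lit 760) (nat_lit 0) (XT.lf (nat_lit 0) (nat_lit 17074466845) (nat_lit 380) (nat_lit 912663368) (nat_lit 76) (nat_lit 1537512577) (nat_lit 136) (nat_lit 5) (nat_lit 141) (nat_lit 5) (nat_lit 137) (nat_lit 5) (nat_lit 414) (nat_lit 365) (nat_lit 241)) (XT.nd (nat_lit 78) (nat_lit 304) (nat_lit 0) (XT.lf (nat_lit 0) (nat_lit 1467996922) (nat_lit 456) (nat_lit 9520116768) (nat_lit 76) (nat_lit 8893601230) (nat_lit 130) (nat_lit 5) (nat_lit 136) (nat_lit 5) (nat_lit 131) (nat_lit 5) (nat_lit 415) (nat_lit 365) (nat_lit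 240)) (XT.lf (nat_lit 0) (nat_lit 1737390431) (nat_lit 304) (nat_lit 3732090972) (nat_lit 380) (nat_lit 14778842623) (nat_lit 126) (nat_lit 5) (nat_lit 130) (nat_lit 5) (nat_lit 131) (nat_lit 5) (nat_lit 416) (nat_lit 365) (nat_lit 239)))) (XT.nd (nat_lit 156) (nat_lit 380) (nat_lit 0) (XT.nd (nat_lit 78) (nat_lit 304) (nat_lit 0) (XT.lf (nat_lit 0) (nat_lit 9713192517) (nat_lit 380) (nat_lit 7148052993) (nat_lit 76) (nat_lit 3761023309) (nat_lit 126) (nat_lit 5) (nat_lit 131) (nat_lit 5) (nat_lit 127) (nat_lit 5) (nat_lit 417) (nat_lit 365) (nat_lit 238)) (XT.lf (nat_lit 0) (nat_lit 4592987352) (nat_lit 304) (nat_lit 9561775329) (nat_lit 380) (nat_lit 6850555636) (nat_lit 122) (nat_lit 5) (nat_lit 126) (nat_lit 5) (nat_lit 127) (nat_lit 5) (nat_lit 418) (nat_lit 365) (nat_lit 237))) (XT.nd (nat_lit 78) (nat_lit 380) (nat_lit 0) (XT.lf (nat_lit 0) (nat_lit 16817536970) (nat_lit 304) (nat_lit 1973830831) (nat_lit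 380) (nat_lit 2606640574) (nat_lit 122) (nat_lit 5) (nat_lit 126) (nat_lit 5) (nat_lit 127) (nat_lit 5) (nat_lit 419) (nat_lit 365) (nat_lit 236)) (XT.lf (nat_lit 0) (nat_lit 1851235048) (nat_lit 380) (nat_lit 14131947058) (nat_lit 76) (nat_lit 5815158416) (nat_lit 117) (nat_lit 5) (nat_lit 122) (nat_lit 5) (nat_lit 118) (nat_lit 5) (nat_lit 420) (nat_lit 365) (nat_lit 235)))))) (XT.nd (nat_lit 546) (nat_lit 1064) (nat_lit 0) (XT.nd (nat_lit 234) (nat_lit 608) (nat_lit 0) (XT.nd (nat_lit 78) (nat_lit 532) (nat_lit 0) (XT.lf (nat_lit 0) (nat_lit 6446625055) (nat_lit 380) (nat_lit 1895666097) (nat_lit 76) (nat_lit 13865934642) (nat_lit 117) (nat_lit 5) (nat_lit 122) (nat_lit 5) (nat_lit 118) (nat_lit 5) (nat_lit 421) (nat_lit 365) (nat_lit 234)) (XT.nd (nat_lit 78) (nat_lit 228) (nat_lit 0) (XT.lf (nat_lit 0) (nat_lit 10905834460) (nat_lit 304) (nat_lit 369084004) (nat_lit 380) (nat_lit 11352640320) (nat_lit 113)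 (nat_lit 5) (nat_lit 117) (nat_lit 5) (nat_lit 118) (nat_lit 5) (nat_lit 422) (nat_lit 365) (nat_lit 233)) (XT.lf (nat_lit 0) (nat_lit 1000499140) (nat_lit 228) (nat_lit 15342212366) (nat_lit 304) (nat_lit 6713923071) (nat_lit 110) (nat_lit 5) (nat_lit 113) (nat_lit 5) (nat_lit 114) (nat_lit 5) (nat_lit 423) (nat_lit 365) (nat_lit 232)))) (XT.nd (nat_lit 156) (nat_lit 228) (nat_lit 0) (XT.nd (nat_lit 78) (nat_lit 380) (nat_lit 0) (XT.lf (nat_lit 0) (nat_lit 14326309329) (nat_lit 228) (nat_lit 7348662144) (nat_lit 304) (nat_lit 1820240446) (nat_lit 110) (nat_lit 5) (nat_lit 113) (nat_lit 5) (nat_lit 114) (nat_lit 5) (nat_lit 424) (nat_lit 365) (nat_lit 231)) (XT.lf (nat_lit 0) (nat_lit 3197002723) (nat_lit 380) (nat_lit 19813876511) (nat_lit 76) (nat_lit 933953174) (nat_lit 105) (nat_lit 5) (nat_lit 110) (nat_lit 5) (nat_lit 106) (nat_lit 5) (nat_lit 425) (nat_lit 365) (nat_lit 230))) (XT.nd (nat_lit 78) (nat_lit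 228) (nat_lit 0) (XT.lf (nat_lit 0) (nat_lit 8485161770) (nat_lit 380) (nat_lit 6493586764) (nat_lit 76) (nat_lit 9423944882) (nat_lit 105) (nat_lit 5) (nat_lit 110) (nat_lit 5) (nat_lit 106) (nat_lit 5) (nat_lit 426) (nat_lit 365) (nat_lit 229)) (XT.lf (nat_lit 0) (nat_lit 7355782871) (nat_lit 228) (nat_lit 6637881224) (nat_lit 304) (nat_lit 10878777222) (nat_lit 102) (nat_lit 5) (nat_lit 105) (nat_lit 5) (nat_lit 106) (nat_lit 5) (nat_lit 427) (nat_lit 365) (nat_lit 228))))) (XT.nd (nat_lit 234) (nat_lit 760) (nat_lit 0) (XT.nd (nat_lit 78) (nat_lit 304) (nat_lit 0) (XT.lf (nat_lit 0) (nat_lit 19743488921) (nat_lit 304) (nat_lit 3634142013) (nat_lit 76) (nat_lit 1976370657) (nat_lit 102) (nat_lit 5) (nat_lit 106) (nat_lit 5) (nat_lit 103) (nat_lit 5) (nat_lit 428) (nat_lit 365) (nat_lit 227)) (XT.nd (nat_lit 78) (nat_lit 76) (nat_lit 0) (XT.lf (nat_lit 0) (nat_lit 10796061875) (nat_lit 228) (nat_lit 15030576887)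 (nat_lit 304) (nat_lit 18546904) (nat_lit 99) (nat_lit 5) (nat_lit 102) (nat_lit 5) (nat_lit 103) (nat_lit 5) (nat_lit 429) (nat_lit 365) (nat_lit 226)) (XT.lf (nat_lit 0) (nat_lit 5657573474) (nat_lit 304) (nat_lit 685662619) (nat_lit 76) (nat_lit 20005362531) (nat_lit 98) (nat_lit 5) (nat_lit 102) (nat_lit 5) (nat_lit 99) (nat_lit 5) (nat_lit 430) (nat_lit 365) (nat_lit 225)))) (XT.nd (nat_lit 156) (nat_lit 304) (nat_lit 0) (XT.nd (nat_lit 78) (nat_lit 228) (nat_lit 0) (XT.lf (nat_lit 0) (nat_lit 11659769756) (nat_lit 304) (nat_lit 12513910762) (nat_lit 76) (nat_lit 2688744732) (nat_lit 95) (nat_lit 5) (nat_lit 99) (nat_lit 5) (nat_lit 96) (nat_lit 5) (nat_lit 431) (nat_lit 365) (nat_lit 224)) (XT.lf (nat_lit 0) (nat_lit 2427362132) (nat_lit 228) (nat_lit 15499485953) (nat_lit 304) (nat_lit 9462275796) (nat_lit 92) (nat_lit 5) (nat_lit 95) (nat_lit 5) (nat_lit 96) (nat_lit 5) (nat_lit 432) (nat_lit 365) (nat_lit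 223))) (XT.nd (nat_lit 78) (nat_lit 304) (nat_lit 0) (XT.lf (nat_lit 0) (nat_lit 18060082993) (nat_lit 228) (nat_lit 6440022060) (nat_lit 304) (nat_lit 3427975069) (nat_lit 92) (nat_lit 5) (nat_lit 95) (nat_lit 5) (nat_lit 96) (nat_lit 5) (nat_lit 433) (nat_lit 365) (nat_lit 222)) (XT.lf (nat_lit 0) (nat_lit 2808759843) (nat_lit 304) (nat_lit 22758621028) (nat_lit 76) (nat_lit 2912748018) (nat_lit 88) (nat_lit 5) (nat_lit 92) (nat_lit 5) (nat_lit 89) (nat_lit 5) (nat_lit 434) (nat_lit 365) (nat_lit 221))))))) (XT.nd (nat_lit 1092) (nat_lit 1368) (nat_lit 0) (XT.nd (nat_lit 546) (nat_lit 684) (nat_lit 0) (XT.nd (nat_lit 234) (nat_lit 608) (nat_lit 0) (XT.nd (nat_lit 78) (nat_lit 228) (nat_lit 0) (XT.lf (nat_lit 0) (nat_lit 9320114614) (nat_lit 304) (nat_lit 7176606745) (nat_lit 76) (nat_lit 12546308549) (nat_lit 88) (nat_lit 5) (nat_lit 92) (nat_lit 5) (nat_lit 89) (nat_lit 5) (nat_lit 435) (nat_lit 365) (nat_lit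 220)) (XT.nd (nat_lit 78) (nat_lit 0) (nat_lit 0) (XT.lf (nat_lit 0) (nat_lit 9036434587) (nat_lit 228) (nat_lit 7069491694) (nat_lit 304) (nat_lit 13514519647) (nat_lit 85) (nat_lit 5) (nat_lit 88) (nat_lit 5) (nat_lit 89) (nat_lit 5) (nat_lit 436) (nat_lit 365) (nat_lit 219)) (XT.lf (nat_lit 0) (nat_lit 23186190711) (nat_lit 304) (nat_lit 4368954196) (nat_lit 76) (nat_lit 2657314583) (nat_lit 85) (nat_lit 5) (nat_lit 89) (nat_lit 5) (nat_lit 86) (nat_lit 5) (nat_lit 437) (nat_lit 365) (nat_lit 218)))) (XT.nd (nat_lit 156) (nat_lit 380) (nat_lit 0) (XT.nd (nat_lit 78) (nat_lit 76) (nat_lit 0) (XT.lf (nat_lit 0) (nat_lit 12493910135) (nat_lit 152) (nat_lit 18167579640) (nat_lit 228) (nat_lit 155266259) (nat_lit 83) (nat_lit 5) (nat_lit 85) (nat_lit 5) (nat_lit 86) (nat_lit 5) (nat_lit 438) (nat_lit 365) (nat_lit 217)) (XT.lf (nat_lit 0) (nat_lit 6823907825) (nat_lit 228) (nat_lit 1565090386) (nat_lit 76) (nat_lit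 23047075080) (nat_lit 82) (nat_lit 5) (nat_lit 85) (nat_lit 5) (nat_lit 83) (nat_lit 5) (nat_lit 439) (nat_lit 365) (nat_lit 216))) (XT.nd (nat_lit 78) (nat_lit 152) (nat_lit 0) (XT.lf (nat_lit 0) (nat_lit 14173521052) (nat_lit 304) (nat_lit 16093354256) (nat_lit 76) (nat_lit 1802124357) (nat_lit 79) (nat_lit 5) (nat_lit 83) (nat_lit 5) (nat_lit 80) (nat_lit 5) (nat_lit 440) (nat_lit 365) (nat_lit 215)) (XT.lf (nat_lit 0) (nat_lit 1283920173) (nat_lit 152) (nat_lit 20563887051) (nat_lit 228) (nat_lit 10869982293) (nat_lit 77) (nat_lit 5) (nat_lit 79) (nat_lit 5) (nat_lit 80) (nat_lit 5) (nat_lit 441) (nat_lit 365) (nat_lit 214))))) (XT.nd (nat_lit 234) (nat_lit 380) (nat_lit 0) (XT.nd (nat_lit 78) (nat_lit 304) (nat_lit 0) (XT.lf (nat_lit 0) (nat_lit 19500365814) (nat_lit 152) (nat_lit 10407383268) (nat_lit 228) (nat_lit 3473632352) (nat_lit 77) (nat_lit 5) (nat_lit 79) (nat_lit 5) (nat_lit 80) (nat_lit 5) (nat_lit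 442) (nat_lit 365) (nat_lit 213)) (XT.nd (nat_lit 78) (nat_lit 0) (nat_lit 0) (XT.lf (nat_lit 0) (nat_lit 4098706468) (nat_lit 304) (nat_lit 29834665015) (nat_lit 76) (nat_lit 129266289) (nat_lit 73) (nat_lit 5) (nat_lit 77) (nat_lit 5) (nat_lit 74) (nat_lit 5) (nat_lit 443) (nat_lit 365) (nat_lit 212)) (XT.lf (nat_lit 0) (nat_lit 12066097031) (nat_lit 304) (nat_lit 11746049933) (nat_lit 76) (nat_lit 10944023205) (nat_lit 73) (nat_lit 5) (nat_lit 77) (nat_lit 5) (nat_lit 74) (nat_lit 5) (nat_lit 444) (nat_lit 365) (nat_lit 211)))) (XT.nd (nat_lit 156) (nat_lit 228) (nat_lit 0) (XT.nd (nat_lit 78) (nat_lit 0) (nat_lit 0) (XT.lf (nat_lit 0) (nat_lit 7010491865) (nat_lit 152) (nat_lit 13322703551) (nat_lit 228) (nat_lit 15135493593) (nat_lit 71) (nat_lit 5) (nat_lit 73) (nat_lit 5) (nat_lit 74) (nat_lit 5) (nat_lit 445) (nat_lit 365) (nat_lit 210)) (XT.lf (nat_lit 0) (nat_lit 26559093801) (nat_lit 152) (nat_lit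 2401207465) (nat_lit 228) (nat_lit 7238923334) (nat_lit 71) (nat_lit 5) (nat_lit 73) (nat_lit 5) (nat_lit 74) (nat_lit 5) (nat_lit 446) (nat_lit 365) (nat_lit 209))) (XT.nd (nat_lit 78) (nat_lit 0) (nat_lit 0) (XT.lf (nat_lit 0) (nat_lit 1051954290) (nat_lit 228) (nat_lit 27118627029) (nat_lit 76) (nat_lit 8775591955) (nat_lit 68) (nat_lit 5) (nat_lit 71) (nat_lit 5) (nat_lit 69) (nat_lit 5) (nat_lit 447) (nat_lit 365) (nat_lit 208)) (XT.lf (nat_lit 0) (nat_lit 9561695309) (nat_lit 228) (nat_lit 7743408027) (nat_lit 76) (nat_lit 20404808865) (nat_lit 68) (nat_lit 5) (nat_lit 71) (nat_lit 5) (nat_lit 69) (nat_lit 5) (nat_lit 448) (nat_lit 365) (nat_lit 207)))))) (XT.nd (nat_lit 546) (nat_lit 684) (nat_lit 0) (XT.nd (nat_lit 234) (nat_lit 380) (nat_lit 0) (XT.nd (nat_lit 78) (nat_lit 152) (nat_lit 0) (XT.lf (nat_lit 0) (nat_lit 12444987693) (nat_lit 152) (nat_lit 5995105312) (nat_lit 228) (nat_lit 20053070265)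 (nat_lit 66) (nat_lit 5) (nat_lit 68) (nat_lit 5) (nat_lit 69) (nat_lit 5) (nat_lit 449) (nat_lit 365) (nat_lit 206)) (XT.nd (nat_lit 78) (nat_lit 152) (nat_lit 0) (XT.lf (nat_lit 0) (nat_lit 27711931152) (nat_lit 228) (nat_lit 5965885452) (nat_lit 76) (nat_lit 5618283495) (nat_lit 66) (nat_lit 5) (nat_lit 69) (nat_lit 5) (nat_lit 67) (nat_lit 5) (nat_lit 450) (nat_lit 365) (nat_lit 205)) (XT.lf (nat_lit 0) (nat_lit 14940415285) (nat_lit 152) (nat_lit 22518434048) (nat_lit 228) (nat_lit 2658368809) (nat_lit 64) (nat_lit 5) (nat_lit 66) (nat_lit 5) (nat_lit 67) (nat_lit 5) (nat_lit 451) (nat_lit 365) (nat_lit 204)))) (XT.nd (nat_lit 156) (nat_lit 152) (nat_lit 0) (XT.nd (nat_lit 78) (nat_lit 152) (nat_lit 0) (XT.lf (nat_lit 0) (nat_lit 6462486082) (nat_lit 228) (nat_lit 4439037922) (nat_lit 76) (nat_lit 30057917733) (nat_lit 63) (nat_lit 5) (nat_lit 66) (nat_lit 5) (nat_lit 64) (nat_lit 5) (nat_lit 452) (nat_lit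 365) (nat_lit 203)) (XT.lf (nat_lit 0) (nat_lit 15975292164) (nat_lit 228) (nat_lit 24613216236) (nat_lit 76) (nat_lit 1232482125) (nat_lit 61) (nat_lit 5) (nat_lit 64) (nat_lit 5) (nat_lit 62) (nat_lit 5) (nat_lit 453) (nat_lit 365) (nat_lit 202))) (XT.nd (nat_lit 78) (nat_lit 152) (nat_lit 0) (XT.lf (nat_lit 0) (nat_lit 25920858640) (nat_lit 228) (nat_lit 3230811984) (nat_lit 76) (nat_lit 13552294626) (nat_lit 61) (nat_lit 5) (nat_lit 64) (nat_lit 5) (nat_lit 62) (nat_lit 5) (nat_lit 454) (nat_lit 365) (nat_lit 201)) (XT.lf (nat_lit 0) (nat_lit 19156806900) (nat_lit 152) (nat_lit 17186472869) (nat_lit 228) (nat_lit 7264795557) (nat_lit 59) (nat_lit 5) (nat_lit 61) (nat_lit 5) (nat_lit 62) (nat_lit 5) (nat_lit 455) (nat_lit 365) (nat_lit 200))))) (XT.nd (nat_lit 312) (nat_lit 304) (nat_lit 0) (XT.nd (nat_lit 156) (nat_lit 152) (nat_lit 0) (XT.nd (nat_lit 78) (nat_lit 152) (nat_lit 0) (XT.lf (nat_lit 0) (nat_lit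 2516820000) (nat_lit 228) (nat_lit 2290867277) (nat_lit 76) (nat_lit 39730070869) (nat_lit 58) (nat_lit 5) (nat_lit 61) (nat_lit 5) (nat_lit 59) (nat_lit 5) (nat_lit 456) (nat_lit 365) (nat_lit 199)) (XT.lf (nat_lit 0) (nat_lit 12719906569) (nat_lit 228) (nat_lit 24706658748) (nat_lit 76) (nat_lit 8058387816) (nat_lit 56) (nat_lit 5) (nat_lit 59) (nat_lit 5) (nat_lit 57) (nat_lit 5) (nat_lit 457) (nat_lit 365) (nat_lit 198))) (XT.nd (nat_lit 78) (nat_lit 152) (nat_lit 0) (XT.lf (nat_lit 0) (nat_lit 23294592194) (nat_lit 228) (nat_lit 1931030540) (nat_lit 76) (nat_lit 21232976699) (nat_lit 56) (nat_lit 5) (nat_lit 59) (nat_lit 5) (nat_lit 57) (nat_lit 5) (nat_lit 458) (nat_lit 365) (nat_lit 197)) (XT.lf (nat_lit 0) (nat_lit 21946587471) (nat_lit 152) (nat_lit 12445597160) (nat_lit 228) (nat_lit 13063101140) (nat_lit 54) (nat_lit 5) (nat_lit 56) (nat_lit 5) (nat_lit 57) (nat_lit 5) (nat_lit 459) (nat_lit 365)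 (nat_lit 196)))) (XT.nd (nat_lit 156) (nat_lit 152) (nat_lit 0) (XT.nd (nat_lit 78) (nat_lit 152) (nat_lit 0) (XT.lf (nat_lit 0) (nat_lit 45844023046) (nat_lit 228) (nat_lit 1917822449) (nat_lit 76) (nat_lit 719388277) (nat_lit 54) (nat_lit 5) (nat_lit 57) (nat_lit 5) (nat_lit 55) (nat_lit 4) (nat_lit 460) (nat_lit 365) (nat_lit 195)) (XT.lf (nat_lit 0) (nat_lit 8282919164) (nat_lit 152) (nat_lit 26918020259) (nat_lit 76) (nat_lit 14324498548) (nat_lit 52) (nat_lit 5) (nat_lit 54) (nat_lit 5) (nat_lit 53) (nat_lit 5) (nat_lit 461) (nat_lit 365) (nat_lit 194))) (XT.nd (nat_lit 78) (nat_lit 152) (nat_lit 0) (XT.lf (nat_lit 0) (nat_lit 19492094697) (nat_lit 152) (nat_lit 2728254057) (nat_lit 76) (nat_lit 28379403365) (nat_lit 52) (nat_lit 5) (nat_lit 54) (nat_lit 5) (nat_lit 53) (nat_lit 5) (nat_lit 462) (nat_lit 365) (nat_lit 193)) (XT.lf (nat_lit 0) (nat_lit 22619572551) (nat_lit 152) (nat_lit 8630444051) (nat_lit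 228) (nat_lit 20449905506) (nat_lit 50) (nat_lit 5) (nat_lit 52) (nat_lit 5) (nat_lit 53) (nat_lit 5) (nat_lit 463) (nat_lit 365) (nat_lit 192))))))))
noncomputable def xc162 : XT := (XT.nd (nat_lit 45864) (nat_lit 0) (nat_lit 11704) (XT.nd (nat_lit 1092) (nat_lit 532) (nat_lit 0) (XT.nd (nat_lit 546) (nat_lit 456) (nat_lit 0) (XT.nd (nat_lit 234) (nat_lit 304) (nat_lit 0) (XT.nd (nat_lit 78) (nat_lit 152) (nat_lit 0) (XT.lf (nat_lit 0) (nat_lit 43435149210) (nat_lit 228) (nat_lit 4109417738) (nat_lit 76) (nat_lit 5286296592) (nat_lit 50) (nat_lit 5) (nat_lit 53) (nat_lit 5) (nat_lit 51) (nat_lit 4) (nat_lit 464) (nat_lit 365) (nat_lit 191)) (XT.nd (nat_lit 78) (nat_lit 0) (nat_lit 0) (XT.lf (nat_lit 0) (nat_lit 2245752066) (nat_lit 152) (nat_lit 32064371083) (nat_lit 76) (nat_lit 19676202158) (nat_lit 48) (nat_lit 5) (nat_lit 50) (nat_lit 5) (nat_lit 49) (nat_lit 5) (nat_lit 465) (nat_lit 365) (nat_lit 190))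 (XT.lf (nat_lit 0) (nat_lit 14084736369) (nat_lit 152) (nat_lit 6458926097) (nat_lit 76) (nat_lit 34628884590) (nat_lit 48) (nat_lit 5) (nat_lit 50) (nat_lit 5) (nat_lit 49) (nat_lit 5) (nat_lit 466) (nat_lit 365) (nat_lit 189)))) (XT.nd (nat_lit 156) (nat_lit 152) (nat_lit 0) (XT.nd (nat_lit 78) (nat_lit 0) (nat_lit 0) (XT.lf (nat_lit 0) (nat_lit 20302320899) (nat_lit 152) (nat_lit 6167077674) (nat_lit 228) (nat_lit 29919242107) (nat_lit 46) (nat_lit 5) (nat_lit 48) (nat_lit 5) (nat_lit 49) (nat_lit 5) (nat_lit 467) (nat_lit 365) (nat_lit 188)) (XT.lf (nat_lit 0) (nat_lit 39369896822) (nat_lit 228) (nat_lit 9732710328) (nat_lit 76) (nat_lit 8534281538) (nat_lit 46) (nat_lit 5) (nat_lit 49) (nat_lit 5) (nat_lit 47) (nat_lit 4) (nat_lit 468) (nat_lit 365) (nat_lit 187))) (XT.nd (nat_lit 78) (nat_lit 76) (nat_lit 0) (XT.lf (nat_lit 0) (nat_lit 17687288599) (nat_lit 76) (nat_lit 35196704788) (nat_lit 152) (nat_lit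 6031793695) (nat_lit 45) (nat_lit 5) (nat_lit 46) (nat_lit 5) (nat_lit 47) (nat_lit 4) (nat_lit 469) (nat_lit 365) (nat_lit 186)) (XT.lf (nat_lit 0) (nat_lit 6537011148) (nat_lit 152) (nat_lit 14173147583) (nat_lit 76) (nat_lit 39518156416) (nat_lit 44) (nat_lit 5) (nat_lit 46) (nat_lit 5) (nat_lit 45) (nat_lit 5) (nat_lit 470) (nat_lit 365) (nat_lit 185))))) (XT.nd (nat_lit 234) (nat_lit 228) (nat_lit 0) (XT.nd (nat_lit 78) (nat_lit 76) (nat_lit 0) (XT.lf (nat_lit 0) (nat_lit 13897261020) (nat_lit 152) (nat_lit 5593615498) (nat_lit 228) (nat_lit 42083674441) (nat_lit 42) (nat_lit 5) (nat_lit 44) (nat_lit 5) (nat_lit 45) (nat_lit 5) (nat_lit 471) (nat_lit 365) (nat_lit 184)) (XT.nd (nat_lit 78) (nat_lit 76) (nat_lit 0) (XT.lf (nat_lit 0) (nat_lit 33069450685) (nat_lit 228) (nat_lit 19961962157) (nat_lit 76) (nat_lit 9922678614) (nat_lit 42) (nat_lit 5) (nat_lit 45) (nat_lit 5) (nat_lit 43) (nat_lit 4) (nat_lit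 472) (nat_lit 365) (nat_lit 183)) (XT.lf (nat_lit 0) (nat_lit 8691192088) (nat_lit 76) (nat_lit 38498899225) (nat_lit 152) (nat_lit 17180885963) (nat_lit 41) (nat_lit 5) (nat_lit 42) (nat_lit 5) (nat_lit 43) (nat_lit 4) (nat_lit 473) (nat_lit 365) (nat_lit 182)))) (XT.nd (nat_lit 156) (nat_lit 0) (nat_lit 0) (XT.nd (nat_lit 78) (nat_lit 228) (nat_lit 0) (XT.lf (nat_lit 0) (nat_lit 38605371051) (nat_lit 76) (nat_lit 23326386799) (nat_lit 152) (nat_lit 3892689995) (nat_lit 41) (nat_lit 5) (nat_lit 42) (nat_lit 5) (nat_lit 43) (nat_lit 4) (nat_lit 474) (nat_lit 365) (nat_lit 181)) (XT.lf (nat_lit 0) (nat_lit 2033357635) (nat_lit 152) (nat_lit 7585131942) (nat_lit 228) (nat_lit 57699745179) (nat_lit 38) (nat_lit 5) (nat_lit 40) (nat_lit 5) (nat_lit 41) (nat_lit 5) (nat_lit 475) (nat_lit 365) (nat_lit 180))) (XT.nd (nat_lit 78) (nat_lit 0) (nat_lit 0) (XT.lf (nat_lit 0) (nat_lit 23813210896) (nat_lit 228) (nat_lit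 36259103043) (nat_lit 76) (nat_lit 8772672064) (nat_lit 38) (nat_lit 5) (nat_lit 41) (nat_lit 5) (nat_lit 39) (nat_lit 4) (nat_lit 476) (nat_lit 365) (nat_lit 179)) (XT.lf (nat_lit 0) (nat_lit 38504916705) (nat_lit 228) (nat_lit 6445072652) (nat_lit 76) (nat_lit 25465416478) (nat_lit 38) (nat_lit 5) (nat_lit 41) (nat_lit 5) (nat_lit 39) (nat_lit 4) (nat_lit 477) (nat_lit 365) (nat_lit 178)))))) (XT.nd (nat_lit 546) (nat_lit 152) (nat_lit 0) (XT.nd (nat_lit 234) (nat_lit 76) (nat_lit 0) (XT.nd (nat_lit 78) (nat_lit 228) (nat_lit 0) (XT.lf (nat_lit 0) (nat_lit 24738923577) (nat_lit 76) (nat_lit 29132413577) (nat_lit 152) (nat_lit 18154582528) (nat_lit 37) (nat_lit 5) (nat_lit 38) (nat_lit 5) (nat_lit 39) (nat_lit 4) (nat_lit 478) (nat_lit 365) (nat_lit 177)) (XT.nd (nat_lit 78) (nat_lit 228) (nat_lit 0) (XT.lf (nat_lit 0) (nat_lit 56983427382) (nat_lit 76) (nat_lit 12776606602) (nat_lit 152) (nat_lit 3922876759)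 (nat_lit 37) (nat_lit 5) (nat_lit 38) (nat_lit 5) (nat_lit 39) (nat_lit 4) (nat_lit 479) (nat_lit 365) (nat_lit 176)) (XT.lf (nat_lit 0) (nat_lit 10708173482) (nat_lit 228) (nat_lit 60435916751) (nat_lit 76) (nat_lit 4236969022) (nat_lit 34) (nat_lit 5) (nat_lit 37) (nat_lit 5) (nat_lit 35) (nat_lit 4) (nat_lit 480) (nat_lit 365) (nat_lit 175)))) (XT.nd (nat_lit 156) (nat_lit 0) (nat_lit 0) (XT.nd (nat_lit 78) (nat_lit 76) (nat_lit 0) (XT.lf (nat_lit 0) (nat_lit 25992397716) (nat_lit 228) (nat_lit 29417681854) (nat_lit 76) (nat_lit 21710115074) (nat_lit 34) (nat_lit 5) (nat_lit 37) (nat_lit 5) (nat_lit 35) (nat_lit 4) (nat_lit 481) (nat_lit 365) (nat_lit 174)) (XT.lf (nat_lit 0) (nat_lit 2574534912) (nat_lit 76) (nat_lit 39181755658) (nat_lit 152) (nat_lit 37154579548) (nat_lit 33) (nat_lit 5) (nat_lit 34) (nat_lit 5) (nat_lit 35) (nat_lit 4) (nat_lit 482) (nat_lit 365) (nat_lit 173))) (XT.nd (nat_lit 78) (nat_lit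 0) (nat_lit 0) (XT.lf (nat_lit 0) (nat_lit 36122814896) (nat_lit 76) (nat_lit 22163780380) (nat_lit 152) (nat_lit 22459865998) (nat_lit 33) (nat_lit 5) (nat_lit 34) (nat_lit 5) (nat_lit 35) (nat_lit 4) (nat_lit 483) (nat_lit 365) (nat_lit 172)) (XT.lf (nat_lit 0) (nat_lit 70671002577) (nat_lit 76) (nat_lit 4638344567) (nat_lit 152) (nat_lit 7327877142) (nat_lit 33) (nat_lit 5) (nat_lit 34) (nat_lit 5) (nat_lit 35) (nat_lit 4) (nat_lit 484) (nat_lit 365) (nat_lit 171))))) (XT.nd (nat_lit 43914) (nat_lit 0) (nat_lit 18772) (XT.nd (nat_lit 78) (nat_lit 0) (nat_lit 0) (XT.lf (nat_lit 0) (nat_lit 8436935563) (nat_lit 152) (nat_lit 62693154562) (nat_lit 76) (nat_lit 13442038596) (nat_lit 31) (nat_lit 5) (nat_lit 33) (nat_lit 5) (nat_lit 32) (nat_lit 4) (nat_lit 485) (nat_lit 365) (nat_lit 170)) (XT.nd (nat_lit 43758) (nat_lit 0) (nat_lit 18772) (XT.lf (nat_lit 0) (nat_lit 24691979836) (nat_lit 152) (nat_lit 29702734550)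 (nat_lit 76) (nat_lit 32163252437) (nat_lit 31) (nat_lit 5) (nat_lit 33) (nat_lit 5) (nat_lit 32) (nat_lit 4) (nat_lit 486) (nat_lit 365) (nat_lit 169)) (XT.lf (nat_lit 0) (nat_lit 662791623) (nat_lit 1140) (nat_lit 2004736599) (nat_lit 1140) (nat_lit 2004736599) (nat_lit 278) (nat_lit 3) (nat_lit 293) (nat_lit 3) (nat_lit 293) (nat_lit 5) (nat_lit 366) (nat_lit 366) (nat_lit 288)))) (XT.nd (nat_lit 156) (nat_lit 0) (nat_lit 76) (XT.nd (nat_lit 78) (nat_lit 0) (nat_lit 76) (XT.lf (nat_lit 76) (nat_lit 514930882) (nat_lit 0) (nat_lit 1646683419) (nat_lit 1140) (nat_lit 7298224265) (nat_lit 279) (nat_lit 5) (nat_lit 278) (nat_lit 3) (nat_lit 293) (nat_lit 5) (nat_lit 367) (nat_lit 366) (nat_lit 287)) (XT.lf (nat_lit 0) (nat_lit 3052631849) (nat_lit 1064) (nat_lit 4358976584) (nat_lit 1140) (nat_lit 2166115776) (nat_lit 279) (nat_lit 5) (nat_lit 293) (nat_lit 5) (nat_lit 294) (nat_lit 5) (nat_lit 368) (nat_lit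 366) (nat_lit 286))) (XT.nd (nat_lit 78) (nat_lit 0) (nat_lit 76) (XT.lf (nat_lit 76) (nat_lit 337581786) (nat_lit 0) (nat_lit 3621596740) (nat_lit 1140) (nat_lit 5740318133) (nat_lit 280) (nat_lit 5) (nat_lit 279) (nat_lit 5) (nat_lit 294) (nat_lit 5) (nat_lit 369) (nat_lit 366) (nat_lit 285)) (XT.lf (nat_lit 0) (nat_lit 4910192272) (nat_lit 1064) (nat_lit 4580461985) (nat_lit 1140) (nat_lit 333763684) (nat_lit 280) (nat_lit 5) (nat_lit 294) (nat_lit 5) (nat_lit 295) (nat_lit 5) (nat_lit 370) (nat_lit 366) (nat_lit 284))))))) (XT.nd (nat_lit 1092) (nat_lit 5320) (nat_lit 0) (XT.nd (nat_lit 546) (nat_lit 912) (nat_lit 0) (XT.nd (nat_lit 234) (nat_lit 988) (nat_lit 0) (XT.nd (nat_lit 78) (nat_lit 0) (nat_lit 0) (XT.lf (nat_lit 76) (nat_lit 296791683) (nat_lit 0) (nat_lit 5602631661) (nat_lit 1140) (nat_lit 4053386290) (nat_lit 281) (nat_lit 5) (nat_lit 280) (nat_lit 5) (nat_lit 295) (nat_lit 5) (nat_lit 371)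 (nat_lit 366) (nat_lit 283)) (XT.nd (nat_lit 78) (nat_lit 0) (nat_lit 76) (XT.lf (nat_lit 76) (nat_lit 5396853377) (nat_lit 0) (nat_lit 1539386271) (nat_lit 1140) (nat_lit 3148289169) (nat_lit 281) (nat_lit 5) (nat_lit 280) (nat_lit 5) (nat_lit 295) (nat_lit 5) (nat_lit 372) (nat_lit 366) (nat_lit 282)) (XT.lf (nat_lit 76) (nat_lit 394137816) (nat_lit 0) (nat_lit 7611826267) (nat_lit 1140) (nat_lit 2214193996) (nat_lit 282) (nat_lit 5) (nat_lit 281) (nat_lit 5) (nat_lit 296) (nat_lit 5) (nat_lit 373) (nat_lit 366) (nat_lit 281)))) (XT.nd (nat_lit 156) (nat_lit 1064) (nat_lit 0) (XT.nd (nat_lit 78) (nat_lit 0) (nat_lit 76) (XT.lf (nat_lit 76) (nat_lit 5691290374) (nat_lit 0) (nat_lit 3452129330) (nat_lit 1140) (nat_lit 1215379574) (nat_lit 282) (nat_lit 5) (nat_lit 281) (nat_lit 5) (nat_lit 296) (nat_lit 5) (nat_lit 374) (nat_lit 366) (nat_lit 280)) (XT.lf (nat_lit 76) (nat_lit 632064590) (nat_lit 0) (nat_lit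 9671087864) (nat_lit 1140) (nat_lit 198814543) (nat_lit 283) (nat_lit 5) (nat_lit 282) (nat_lit 5) (nat_lit 297) (nat_lit 5) (nat_lit 375) (nat_lit 366) (nat_lit 279))) (XT.nd (nat_lit 78) (nat_lit 0) (nat_lit 0) (XT.lf (nat_lit 0) (nat_lit 887871720) (nat_lit 1140) (nat_lit 4522881087) (nat_lit 1216) (nat_lit 5236758230) (nat_lit 267) (nat_lit 5) (nat_lit 282) (nat_lit 5) (nat_lit 283) (nat_lit 5) (nat_lit 376) (nat_lit 366) (nat_lit 278)) (XT.lf (nat_lit 76) (nat_lit 983947890) (nat_lit 0) (nat_lit 1003816506) (nat_lit 1216) (nat_lit 8810070771) (nat_lit 268) (nat_lit 5) (nat_lit 267) (nat_lit 5) (nat_lit 283) (nat_lit 5) (nat_lit 377) (nat_lit 366) (nat_lit 277))))) (XT.nd (nat_lit 234) (nat_lit 988) (nat_lit 0) (XT.nd (nat_lit 78) (nat_lit 0) (nat_lit 0) (XT.lf (nat_lit 0) (nat_lit 3176523578) (nat_lit 1140) (nat_lit 4255501941) (nat_lit 1216) (nat_lit 3518977972) (nat_lit 268) (nat_lit 5) (nat_lit 283)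 (nat_lit 5) (nat_lit 284) (nat_lit 5) (nat_lit 378) (nat_lit 366) (nat_lit 276)) (XT.nd (nat_lit 78) (nat_lit 0) (nat_lit 76) (XT.lf (nat_lit 76) (nat_lit 1470464491) (nat_lit 0) (nat_lit 2931022358) (nat_lit 1216) (nat_lit 6707274032) (nat_lit 269) (nat_lit 5) (nat_lit 268) (nat_lit 5) (nat_lit 284) (nat_lit 5) (nat_lit 379) (nat_lit 366) (nat_lit 275)) (XT.lf (nat_lit 0) (nat_lit 5700019276) (nat_lit 1140) (nat_lit 3849834490) (nat_lit 1216) (nat_lit 1720302574) (nat_lit 269) (nat_lit 5) (nat_lit 284) (nat_lit 5) (nat_lit 285) (nat_lit 5) (nat_lit 380) (nat_lit 366) (nat_lit 274)))) (XT.nd (nat_lit 156) (nat_lit 1064) (nat_lit 0) (XT.nd (nat_lit 78) (nat_lit 0) (nat_lit 0) (XT.lf (nat_lit 76) (nat_lit 2106402487) (nat_lit 0) (nat_lit 4958075140) (nat_lit 1216) (nat_lit 4371116601) (nat_lit 270) (nat_lit 5) (nat_lit 269) (nat_lit 5) (nat_lit 285) (nat_lit 5) (nat_lit 381) (nat_lit 366) (nat_lit 273)) (XT.lf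 (nat_lit 76) (nat_lit 8302458252) (nat_lit 0) (nat_lit 184467645) (nat_lit 1216) (nat_lit 3118567056) (nat_lit 270) (nat_lit 5) (nat_lit 269) (nat_lit 5) (nat_lit 285) (nat_lit 5) (nat_lit 382) (nat_lit 366) (nat_lit 272))) (XT.nd (nat_lit 78) (nat_lit 0) (nat_lit 0) (XT.lf (nat_lit 0) (nat_lit 2896997289) (nat_lit 1140) (nat_lit 7107241813) (nat_lit 1216) (nat_lit 1774692902) (nat_lit 255) (nat_lit 5) (nat_lit 270) (nat_lit 5) (nat_lit 271) (nat_lit 5) (nat_lit 383) (nat_lit 366) (nat_lit 271)) (XT.lf (nat_lit 0) (nat_lit 9331102047) (nat_lit 1140) (nat_lit 2250430947) (nat_lit 1216) (nat_lit 375616240) (nat_lit 255) (nat_lit 5) (nat_lit 270) (nat_lit 5) (nat_lit 271) (nat_lit 5) (nat_lit 384) (nat_lit 366) (nat_lit 270)))))) (XT.nd (nat_lit 546) (nat_lit 2204) (nat_lit 0) (XT.nd (nat_lit 234) (nat_lit 1216) (nat_lit 0) (XT.nd (nat_lit 78) (nat_lit 608) (nat_lit 0) (XT.lf (nat_lit 0) (nat_lit 1088438759) (nat_lit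 1292) (nat_lit 8301831170) (nat_lit 76) (nat_lit 2748830247) (nat_lit 238) (nat_lit 5) (nat_lit 255) (nat_lit 5) (nat_lit 239) (nat_lit 5) (nat_lit 385) (nat_lit 366) (nat_lit 269)) (XT.nd (nat_lit 78) (nat_lit 608) (nat_lit 0) (XT.lf (nat_lit 0) (nat_lit 2618068212) (nat_lit 1292) (nat_lit 1821784504) (nat_lit 76) (nat_lit 7885677387) (nat_lit 238) (nat_lit 5) (nat_lit 255) (nat_lit 5) (nat_lit 239) (nat_lit 5) (nat_lit 386) (nat_lit 366) (nat_lit 268)) (XT.lf (nat_lit 0) (nat_lit 4228528942) (nat_lit 684) (nat_lit 7592242824) (nat_lit 76) (nat_lit 695740748) (nat_lit 230) (nat_lit 5) (nat_lit 239) (nat_lit 5) (nat_lit 231) (nat_lit 5) (nat_lit 387) (nat_lit 366) (nat_lit 267)))) (XT.nd (nat_lit 156) (nat_lit 608) (nat_lit 0) (XT.nd (nat_lit 78) (nat_lit 608) (nat_lit 0) (XT.lf (nat_lit 0) (nat_lit 5930967986) (nat_lit 684) (nat_lit 864774674) (nat_lit 76) (nat_lit 5916179432) (nat_lit 230) (nat_lit 5) (nat_lit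 239) (nat_lit 5) (nat_lit 231) (nat_lit 5) (nat_lit 388) (nat_lit 366) (nat_lit 266)) (XT.lf (nat_lit 0) (nat_lit 6167378494) (nat_lit 608) (nat_lit 1558062982) (nat_lit 684) (nat_lit 5186531053) (nat_lit 222) (nat_lit 5) (nat_lit 230) (nat_lit 5) (nat_lit 231) (nat_lit 5) (nat_lit 389) (nat_lit 366) (nat_lit 265))) (XT.nd (nat_lit 78) (nat_lit 0) (nat_lit 0) (XT.lf (nat_lit 0) (nat_lit 260713234) (nat_lit 608) (nat_lit 9343292284) (nat_lit 684) (nat_lit 3513118461) (nat_lit 214) (nat_lit 5) (nat_lit 222) (nat_lit 5) (nat_lit 223) (nat_lit 5) (nat_lit 390) (nat_lit 366) (nat_lit 264)) (XT.lf (nat_lit 0) (nat_lit 7581011689) (nat_lit 608) (nat_lit 4023699902) (nat_lit 684) (nat_lit 1721751810) (nat_lit 214) (nat_lit 5) (nat_lit 222) (nat_lit 5) (nat_lit 223) (nat_lit 5) (nat_lit 391) (nat_lit 366) (nat_lit 263))))) (XT.nd (nat_lit 312) (nat_lit 1064) (nat_lit 0) (XT.nd (nat_lit 156) (nat_lit 532) (nat_lit 0)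 (XT.nd (nat_lit 78) (nat_lit 0) (nat_lit 0) (XT.lf (nat_lit 0) (nat_lit 133135179) (nat_lit 608) (nat_lit 11965091732) (nat_lit 76) (nat_lit 1443461512) (nat_lit 206) (nat_lit 5) (nat_lit 214) (nat_lit 5) (nat_lit 207) (nat_lit 5) (nat_lit 392) (nat_lit 366) (nat_lit 262)) (XT.lf (nat_lit 0) (nat_lit 2090565424) (nat_lit 608) (nat_lit 4600872242) (nat_lit 76) (nat_lit 7068982442) (nat_lit 206) (nat_lit 5) (nat_lit 214) (nat_lit 5) (nat_lit 207) (nat_lit 5) (nat_lit 393) (nat_lit 366) (nat_lit 261))) (XT.nd (nat_lit 78) (nat_lit 0) (nat_lit 0) (XT.lf (nat_lit 0) (nat_lit 3025976719) (nat_lit 532) (nat_lit 1093393774) (nat_lit 608) (nat_lit 9865969895) (nat_lit 199) (nat_lit 5) (nat_lit 206) (nat_lit 5) (nat_lit 207) (nat_lit 5) (nat_lit 394) (nat_lit 366) (nat_lit 260)) (XT.lf (nat_lit 0) (nat_lit 6284743181) (nat_lit 608) (nat_lit 3302700104) (nat_lit 76) (nat_lit 4627299913) (nat_lit 199) (nat_lit 5) (nat_lit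 207) (nat_lit 5) (nat_lit 200) (nat_lit 5) (nat_lit 395) (nat_lit 366) (nat_lit 259)))) (XT.nd (nat_lit 156) (nat_lit 608) (nat_lit 0) (XT.nd (nat_lit 78) (nat_lit 0) (nat_lit 0) (XT.lf (nat_lit 0) (nat_lit 4646364870) (nat_lit 456) (nat_lit 3908539300) (nat_lit 532) (nat_lit 5894934955) (nat_lit 193) (nat_lit 5) (nat_lit 199) (nat_lit 5) (nat_lit 200) (nat_lit 5) (nat_lit 396) (nat_lit 366) (nat_lit 258)) (XT.lf (nat_lit 0) (nat_lit 10930121860) (nat_lit 532) (nat_lit 1825792643) (nat_lit 76) (nat_lit 1934970550) (nat_lit 193) (nat_lit 5) (nat_lit 200) (nat_lit 5) (nat_lit 194) (nat_lit 5) (nat_lit 397) (nat_lit 366) (nat_lit 257))) (XT.nd (nat_lit 78) (nat_lit 76) (nat_lit 0) (XT.lf (nat_lit 0) (nat_lit 6461696015) (nat_lit 532) (nat_lit 7000775712) (nat_lit 608) (nat_lit 1474119872) (nat_lit 186) (nat_lit 5) (nat_lit 193) (nat_lit 5) (nat_lit 194) (nat_lit 5) (nat_lit 398) (nat_lit 366) (nat_lit 256)) (XT.lf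 (nat_lit 0) (nat_lit 867735414) (nat_lit 608) (nat_lit 179582494) (nat_lit 76) (nat_lit 14141988337) (nat_lit 185) (nat_lit 5) (nat_lit 193) (nat_lit 5) (nat_lit 186) (nat_lit 5) (nat_lit 399) (nat_lit 366) (nat_lit 255))))))))
noncomputable def xc163 : XT := (XT.nd (nat_lit 2184) (nat_lit 3496) (nat_lit 0) (XT.nd (nat_lit 1092) (nat_lit 2660) (nat_lit 0) (XT.nd (nat_lit 546) (nat_lit 1596) (nat_lit 0) (XT.nd (nat_lit 234) (nat_lit 912) (nat_lit 0) (XT.nd (nat_lit 78) (nat_lit 456) (nat_lit 0) (XT.lf (nat_lit 0) (nat_lit 3367347144) (nat_lit 532) (nat_lit 6997667108) (nat_lit 76) (nat_lit 5080641391) (nat_lit 179) (nat_lit 5) (nat_lit 186) (nat_lit 5) (nat_lit 180) (nat_lit 5) (nat_lit 400) (nat_lit 366) (nat_lit 254)) (XT.nd (nat_lit 78) (nat_lit 0) (nat_lit 0) (XT.lf (nat_lit 0) (nat_lit 1633109354) (nat_lit 456) (nat_lit 4322595194) (nat_lit 532) (nat_lit 9753583154) (nat_lit 173) (nat_lit 5) (nat_lit 179)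 (nat_lit 5) (nat_lit 180) (nat_lit 5) (nat_lit 401) (nat_lit 366) (nat_lit 253)) (XT.lf (nat_lit 0) (nat_lit 8697433173) (nat_lit 532) (nat_lit 5348456840) (nat_lit 76) (nat_lit 1932671848) (nat_lit 173) (nat_lit 5) (nat_lit 180) (nat_lit 5) (nat_lit 174) (nat_lit 5) (nat_lit 402) (nat_lit 366) (nat_lit 252)))) (XT.nd (nat_lit 156) (nat_lit 532) (nat_lit 0) (XT.nd (nat_lit 78) (nat_lit 0) (nat_lit 0) (XT.lf (nat_lit 0) (nat_lit 3653050184) (nat_lit 380) (nat_lit 7932765778) (nat_lit 456) (nat_lit 4668170830) (nat_lit 168) (nat_lit 5) (nat_lit 173) (nat_lit 5) (nat_lit 174) (nat_lit 5) (nat_lit 403) (nat_lit 366) (nat_lit 251)) (XT.lf (nat_lit 0) (nat_lit 13017870300) (nat_lit 380) (nat_lit 1583714006) (nat_lit 456) (nat_lit 1934872625) (nat_lit 168) (nat_lit 5) (nat_lit 173) (nat_lit 5) (nat_lit 174) (nat_lit 5) (nat_lit 404) (nat_lit 366) (nat_lit 250))) (XT.nd (nat_lit 78) (nat_lit 0) (nat_lit 0) (XT.lf (nat_lit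 0) (nat_lit 955456835) (nat_lit 532) (nat_lit 10946812456) (nat_lit 76) (nat_lit 4922115835) (nat_lit 161) (nat_lit 5) (nat_lit 168) (nat_lit 5) (nat_lit 162) (nat_lit 5) (nat_lit 405) (nat_lit 366) (nat_lit 249)) (XT.lf (nat_lit 0) (nat_lit 3932344670) (nat_lit 532) (nat_lit 1543685729) (nat_lit 76) (nat_lit 11643188030) (nat_lit 161) (nat_lit 5) (nat_lit 168) (nat_lit 5) (nat_lit 162) (nat_lit 5) (nat_lit 406) (nat_lit 366) (nat_lit 248))))) (XT.nd (nat_lit 234) (nat_lit 836) (nat_lit 0) (XT.nd (nat_lit 78) (nat_lit 380) (nat_lit 0) (XT.lf (nat_lit 0) (nat_lit 7077493521) (nat_lit 456) (nat_lit 9145255222) (nat_lit 76) (nat_lit 1197783337) (nat_lit 156) (nat_lit 5) (nat_lit 162) (nat_lit 5) (nat_lit 157) (nat_lit 5) (nat_lit 407) (nat_lit 366) (nat_lit 247)) (XT.nd (nat_lit 78) (nat_lit 0) (nat_lit 0) (XT.lf (nat_lit 0) (nat_lit 631932617) (nat_lit 380) (nat_lit 9748825573) (nat_lit 456) (nat_lit 7348217977)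 (nat_lit 151) (nat_lit 5) (nat_lit 156) (nat_lit 5) (nat_lit 157) (nat_lit 5) (nat_lit 408) (nat_lit 366) (nat_lit 246)) (XT.lf (nat_lit 0) (nat_lit 10874001246) (nat_lit 380) (nat_lit 2989399482) (nat_lit 456) (nat_lit 4180868204) (nat_lit 151) (nat_lit 5) (nat_lit 156) (nat_lit 5) (nat_lit 157) (nat_lit 5) (nat_lit 409) (nat_lit 366) (nat_lit 245)))) (XT.nd (nat_lit 156) (nat_lit 380) (nat_lit 0) (XT.nd (nat_lit 78) (nat_lit 76) (nat_lit 0) (XT.lf (nat_lit 0) (nat_lit 3060075686) (nat_lit 380) (nat_lit 14446297779) (nat_lit 456) (nat_lit 860975132) (nat_lit 146) (nat_lit 5) (nat_lit 151) (nat_lit 5) (nat_lit 152) (nat_lit 5) (nat_lit 410) (nat_lit 366) (nat_lit 244)) (XT.lf (nat_lit 0) (nat_lit 2599630360) (nat_lit 456) (nat_lit 5024385728) (nat_lit 76) (nat_lit 11072638933) (nat_lit 145) (nat_lit 5) (nat_lit 151) (nat_lit 5) (nat_lit 146) (nat_lit 5) (nat_lit 411) (nat_lit 366) (nat_lit 243))) (XT.nd (nat_lit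 78) (nat_lit 0) (nat_lit 0) (XT.lf (nat_lit 0) (nat_lit 5653402038) (nat_lit 380) (nat_lit 536352278) (nat_lit 456) (nat_lit 12844543772) (nat_lit 140) (nat_lit 5) (nat_lit 145) (nat_lit 5) (nat_lit 146) (nat_lit 5) (nat_lit 412) (nat_lit 366) (nat_lit 242)) (XT.lf (nat_lit 0) (nat_lit 9992645715) (nat_lit 456) (nat_lit 2707079124) (nat_lit 76) (nat_lit 6679196933) (nat_lit 140) (nat_lit 5) (nat_lit 146) (nat_lit 5) (nat_lit 141) (nat_lit 5) (nat_lit 413) (nat_lit 366) (nat_lit 241)))))) (XT.nd (nat_lit 546) (nat_lit 1292) (nat_lit 0) (XT.nd (nat_lit 234) (nat_lit 608) (nat_lit 0) (XT.nd (nat_lit 78) (nat_lit 456) (nat_lit 0) (XT.lf (nat_lit 0) (nat_lit 8431087327) (nat_lit 304) (nat_lit 5554023555) (nat_lit 380) (nat_lit 5746511817) (nat_lit 136) (nat_lit 5) (nat_lit 140) (nat_lit 5) (nat_lit 141) (nat_lit 5) (nat_lit 414) (nat_lit 366) (nat_lit 240)) (XT.nd (nat_lit 78) (nat_lit 456) (nat_lit 0) (XT.lf (nat_lit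 0) (nat_lit 18131581907) (nat_lit 380) (nat_lit 168035693) (nat_lit 76) (nat_lit 1794263149) (nat_lit 136) (nat_lit 5) (nat_lit 141) (nat_lit 5) (nat_lit 137) (nat_lit 5) (nat_lit 415) (nat_lit 366) (nat_lit 239)) (XT.lf (nat_lit 0) (nat_lit 2053853751) (nat_lit 456) (nat_lit 9030352176) (nat_lit 76) (nat_lit 9377559932) (nat_lit 130) (nat_lit 5) (nat_lit 136) (nat_lit 5) (nat_lit 131) (nat_lit 5) (nat_lit 416) (nat_lit 366) (nat_lit 238)))) (XT.nd (nat_lit 156) (nat_lit 304) (nat_lit 0) (XT.nd (nat_lit 78) (nat_lit 0) (nat_lit 0) (XT.lf (nat_lit 0) (nat_lit 2557278591) (nat_lit 304) (nat_lit 3609703340) (nat_lit 380) (nat_lit 14672647583) (nat_lit 126) (nat_lit 5) (nat_lit 130) (nat_lit 5) (nat_lit 131) (nat_lit 5) (nat_lit 417) (nat_lit 366) (nat_lit 237)) (XT.lf (nat_lit 0) (nat_lit 10524655094) (nat_lit 380) (nat_lit 6603603359) (nat_lit 76) (nat_lit 4096938806) (nat_lit 126) (nat_lit 5) (nat_lit 131) (nat_lit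 5) (nat_lit 127) (nat_lit 5) (nat_lit 418) (nat_lit 366) (nat_lit 236))) (XT.nd (nat_lit 78) (nat_lit 0) (nat_lit 0) (XT.lf (nat_lit 0) (nat_lit 5482228086) (nat_lit 304) (nat_lit 9609320108) (nat_lit 380) (nat_lit 6528431781) (nat_lit 122) (nat_lit 5) (nat_lit 126) (nat_lit 5) (nat_lit 127) (nat_lit 5) (nat_lit 419) (nat_lit 366) (nat_lit 235)) (XT.lf (nat_lit 0) (nat_lit 18051627267) (nat_lit 304) (nat_lit 1800707425) (nat_lit 380) (nat_lit 2172567439) (nat_lit 122) (nat_lit 5) (nat_lit 126) (nat_lit 5) (nat_lit 127) (nat_lit 5) (nat_lit 420) (nat_lit 366) (nat_lit 234))))) (XT.nd (nat_lit 234) (nat_lit 608) (nat_lit 0) (XT.nd (nat_lit 78) (nat_lit 304) (nat_lit 0) (XT.lf (nat_lit 0) (nat_lit 2403744755) (nat_lit 380) (nat_lit 13810793369) (nat_lit 76) (nat_lit 6222721160) (nat_lit 117) (nat_lit 5) (nat_lit 122) (nat_lit 5) (nat_lit 118) (nat_lit 5) (nat_lit 421) (nat_lit 366) (nat_lit 233)) (XT.nd (nat_lit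 78) (nat_lit 304) (nat_lit 0) (XT.lf (nat_lit 0) (nat_lit 7122521531) (nat_lit 380) (nat_lit 1229126273) (nat_lit 76) (nat_lit 14508231120) (nat_lit 117) (nat_lit 5) (nat_lit 122) (nat_lit 5) (nat_lit 118) (nat_lit 5) (nat_lit 422) (nat_lit 366) (nat_lit 232)) (XT.lf (nat_lit 0) (nat_lit 11949327048) (nat_lit 304) (nat_lit 139169044) (nat_lit 380) (nat_lit 11203514297) (nat_lit 113) (nat_lit 5) (nat_lit 117) (nat_lit 5) (nat_lit 118) (nat_lit 5) (nat_lit 423) (nat_lit 366) (nat_lit 231)))) (XT.nd (nat_lit 156) (nat_lit 380) (nat_lit 0) (XT.nd (nat_lit 78) (nat_lit 0) (nat_lit 0) (XT.lf (nat_lit 0) (nat_lit 1751749364) (nat_lit 228) (nat_lit 15551910999) (nat_lit 304) (nat_lit 6430441327) (nat_lit 110) (nat_lit 5) (nat_lit 113) (nat_lit 5) (nat_lit 114) (nat_lit 5) (nat_lit 424) (nat_lit 366) (nat_lit 230)) (XT.lf (nat_lit 0) (nat_lit 15456327006) (nat_lit 228) (nat_lit 7325852360) (nat_lit 304) (nat_lit 1404071509)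 (nat_lit 110) (nat_lit 5) (nat_lit 113) (nat_lit 5) (nat_lit 114) (nat_lit 5) (nat_lit 425) (nat_lit 366) (nat_lit 229))) (XT.nd (nat_lit 78) (nat_lit 0) (nat_lit 0) (XT.lf (nat_lit 0) (nat_lit 3750192251) (nat_lit 380) (nat_lit 19694359827) (nat_lit 76) (nat_lit 1204804517) (nat_lit 105) (nat_lit 5) (nat_lit 110) (nat_lit 5) (nat_lit 106) (nat_lit 5) (nat_lit 426) (nat_lit 366) (nat_lit 228)) (XT.lf (nat_lit 0) (nat_lit 9183677250) (nat_lit 380) (nat_lit 5995255552) (nat_lit 76) (nat_lit 9942423178) (nat_lit 105) (nat_lit 5) (nat_lit 110) (nat_lit 5) (nat_lit 106) (nat_lit 5) (nat_lit 427) (nat_lit 366) (nat_lit 227))))))) (XT.nd (nat_lit 1092) (nat_lit 1520) (nat_lit 0) (XT.nd (nat_lit 546) (nat_lit 988) (nat_lit 0) (XT.nd (nat_lit 234) (nat_lit 456) (nat_lit 0) (XT.nd (nat_lit 78) (nat_lit 304) (nat_lit 0) (XT.lf (nat_lit 0) (nat_lit 8262799695) (nat_lit 228) (nat_lit 6588301611) (nat_lit 304) (nat_lit 10754287908)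 (nat_lit 102) (nat_lit 5) (nat_lit 105) (nat_lit 5) (nat_lit 106) (nat_lit 5) (nat_lit 428) (nat_lit 366) (nat_lit 226)) (XT.nd (nat_lit 78) (nat_lit 304) (nat_lit 0) (XT.lf (nat_lit 0) (nat_lit 20762995626) (nat_lit 304) (nat_lit 3066294555) (nat_lit 76) (nat_lit 2272421683) (nat_lit 102) (nat_lit 5) (nat_lit 106) (nat_lit 5) (nat_lit 103) (nat_lit 5) (nat_lit 429) (nat_lit 366) (nat_lit 225)) (XT.lf (nat_lit 0) (nat_lit 406730962) (nat_lit 304) (nat_lit 14821622301) (nat_lit 76) (nat_lit 11379341304) (nat_lit 98) (nat_lit 5) (nat_lit 102) (nat_lit 5) (nat_lit 99) (nat_lit 5) (nat_lit 430) (nat_lit 366) (nat_lit 224)))) (XT.nd (nat_lit 156) (nat_lit 228) (nat_lit 0) (XT.nd (nat_lit 78) (nat_lit 228) (nat_lit 0) (XT.lf (nat_lit 0) (nat_lit 6240370095) (nat_lit 304) (nat_lit 47211554) (nat_lit 76) (nat_lit 20838997090) (nat_lit 98) (nat_lit 5) (nat_lit 102) (nat_lit 5) (nat_lit 99) (nat_lit 5) (nat_lit 431) (nat_lit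 366) (nat_lit 223)) (XT.lf (nat_lit 0) (nat_lit 12419231406) (nat_lit 304) (nat_lit 12226823018) (nat_lit 76) (nat_lit 3009870265) (nat_lit 95) (nat_lit 5) (nat_lit 99) (nat_lit 5) (nat_lit 96) (nat_lit 5) (nat_lit 432) (nat_lit 366) (nat_lit 222))) (XT.nd (nat_lit 78) (nat_lit 0) (nat_lit 0) (XT.lf (nat_lit 0) (nat_lit 3156192916) (nat_lit 228) (nat_lit 15712503044) (nat_lit 304) (nat_lit 9329899527) (nat_lit 92) (nat_lit 5) (nat_lit 95) (nat_lit 5) (nat_lit 96) (nat_lit 5) (nat_lit 433) (nat_lit 366) (nat_lit 221)) (XT.lf (nat_lit 0) (nat_lit 19238788317) (nat_lit 228) (nat_lit 6388594093) (nat_lit 304) (nat_lit 3126693406) (nat_lit 92) (nat_lit 5) (nat_lit 95) (nat_lit 5) (nat_lit 96) (nat_lit 5) (nat_lit 434) (nat_lit 366) (nat_lit 220))))) (XT.nd (nat_lit 234) (nat_lit 456) (nat_lit 0) (XT.nd (nat_lit 78) (nat_lit 228) (nat_lit 0) (XT.lf (nat_lit 0) (nat_lit 3286236078) (nat_lit 304) (nat_lit 22793419174)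 (nat_lit 76) (nat_lit 3243007122) (nat_lit 88) (nat_lit 5) (nat_lit 92) (nat_lit 5) (nat_lit 89) (nat_lit 5) (nat_lit 435) (nat_lit 366) (nat_lit 219)) (XT.nd (nat_lit 78) (nat_lit 228) (nat_lit 0) (XT.lf (nat_lit 0) (nat_lit 9981478673) (nat_lit 304) (nat_lit 6762817098) (nat_lit 76) (nat_lit 13158500391) (nat_lit 88) (nat_lit 5) (nat_lit 92) (nat_lit 5) (nat_lit 89) (nat_lit 5) (nat_lit 436) (nat_lit 366) (nat_lit 218)) (XT.lf (nat_lit 0) (nat_lit 9930447946) (nat_lit 228) (nat_lit 7035285395) (nat_lit 304) (nat_lit 13531957356) (nat_lit 85) (nat_lit 5) (nat_lit 88) (nat_lit 5) (nat_lit 89) (nat_lit 5) (nat_lit 437) (nat_lit 366) (nat_lit 217)))) (XT.nd (nat_lit 156) (nat_lit 228) (nat_lit 0) (XT.nd (nat_lit 78) (nat_lit 228) (nat_lit 0) (XT.lf (nat_lit 0) (nat_lit 24249734463) (nat_lit 304) (nat_lit 3886506871) (nat_lit 76) (nat_lit 2971485501) (nat_lit 85) (nat_lit 5) (nat_lit 89) (nat_lit 5) (nat_lit 86)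 (nat_lit 5) (nat_lit 438) (nat_lit 366) (nat_lit 216)) (XT.lf (nat_lit 0) (nat_lit 209936230) (nat_lit 228) (nat_lit 18256130242) (nat_lit 76) (nat_lit 13264172353) (nat_lit 82) (nat_lit 5) (nat_lit 85) (nat_lit 5) (nat_lit 83) (nat_lit 5) (nat_lit 439) (nat_lit 366) (nat_lit 215))) (XT.nd (nat_lit 78) (nat_lit 228) (nat_lit 0) (XT.lf (nat_lit 0) (nat_lit 7384683098) (nat_lit 228) (nat_lit 1015088007) (nat_lit 76) (nat_lit 23968640688) (nat_lit 82) (nat_lit 5) (nat_lit 85) (nat_lit 5) (nat_lit 83) (nat_lit 5) (nat_lit 440) (nat_lit 366) (nat_lit 214)) (XT.lf (nat_lit 0) (nat_lit 14952400602) (nat_lit 304) (nat_lit 15976755520) (nat_lit 76) (nat_lit 2091243165) (nat_lit 79) (nat_lit 5) (nat_lit 83) (nat_lit 5) (nat_lit 80) (nat_lit 5) (nat_lit 441) (nat_lit 366) (nat_lit 213)))))) (XT.nd (nat_lit 546) (nat_lit 684) (nat_lit 0) (XT.nd (nat_lit 234) (nat_lit 380) (nat_lit 0) (XT.nd (nat_lit 78) (nat_lit 304) (nat_lit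 0) (XT.lf (nat_lit 0) (nat_lit 1915960677) (nat_lit 152) (nat_lit 20936358804) (nat_lit 228) (nat_lit 10836472980) (nat_lit 77) (nat_lit 5) (nat_lit 79) (nat_lit 5) (nat_lit 80) (nat_lit 5) (nat_lit 442) (nat_lit 366) (nat_lit 212)) (XT.nd (nat_lit 78) (nat_lit 304) (nat_lit 0) (XT.lf (nat_lit 0) (nat_lit 20661612612) (nat_lit 152) (nat_lit 10482279661) (nat_lit 228) (nat_lit 3228706584) (nat_lit 77) (nat_lit 5) (nat_lit 79) (nat_lit 5) (nat_lit 80) (nat_lit 5) (nat_lit 443) (nat_lit 366) (nat_lit 211)) (XT.lf (nat_lit 0) (nat_lit 4561871264) (nat_lit 304) (nat_lit 30144429514) (nat_lit 76) (nat_lit 367956576) (nat_lit 73) (nat_lit 5) (nat_lit 77) (nat_lit 5) (nat_lit 74) (nat_lit 5) (nat_lit 444) (nat_lit 366) (nat_lit 210)))) (XT.nd (nat_lit 156) (nat_lit 228) (nat_lit 0) (XT.nd (nat_lit 78) (nat_lit 152) (nat_lit 0) (XT.lf (nat_lit 0) (nat_lit 12758374701) (nat_lit 304) (nat_lit 11530202838) (nat_lit 76)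 (nat_lit 11500317007) (nat_lit 73) (nat_lit 5) (nat_lit 77) (nat_lit 5) (nat_lit 74) (nat_lit 5) (nat_lit 445) (nat_lit 366) (nat_lit 209)) (XT.lf (nat_lit 0) (nat_lit 7783464346) (nat_lit 152) (nat_lit 13485810066) (nat_lit 228) (nat_lit 15253642397) (nat_lit 71) (nat_lit 5) (nat_lit 73) (nat_lit 5) (nat_lit 74) (nat_lit 5) (nat_lit 446) (nat_lit 366) (nat_lit 208))) (XT.nd (nat_lit 78) (nat_lit 228) (nat_lit 0) (XT.lf (nat_lit 0) (nat_lit 27902136251) (nat_lit 152) (nat_lit 2243559620) (nat_lit 228) (nat_lit 7129958992) (nat_lit 71) (nat_lit 5) (nat_lit 73) (nat_lit 5) (nat_lit 74) (nat_lit 5) (nat_lit 447) (nat_lit 366) (nat_lit 207)) (XT.lf (nat_lit 0) (nat_lit 1401453719) (nat_lit 228) (nat_lit 27377631379) (nat_lit 76) (nat_lit 9265889050) (nat_lit 68) (nat_lit 5) (nat_lit 71) (nat_lit 5) (nat_lit 69) (nat_lit 5) (nat_lit 448) (nat_lit 366) (nat_lit 206))))) (XT.nd (nat_lit 312) (nat_lit 380) (nat_lit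 0) (XT.nd (nat_lit 156) (nat_lit 152) (nat_lit 0) (XT.nd (nat_lit 78) (nat_lit 152) (nat_lit 0) (XT.lf (nat_lit 0) (nat_lit 10157226557) (nat_lit 228) (nat_lit 7437307878) (nat_lit 76) (nat_lit 21237369963) (nat_lit 68) (nat_lit 5) (nat_lit 71) (nat_lit 5) (nat_lit 69) (nat_lit 5) (nat_lit 449) (nat_lit 366) (nat_lit 205)) (XT.lf (nat_lit 0) (nat_lit 13351461259) (nat_lit 152) (nat_lit 5946648948) (nat_lit 228) (nat_lit 20340660075) (nat_lit 66) (nat_lit 5) (nat_lit 68) (nat_lit 5) (nat_lit 69) (nat_lit 5) (nat_lit 450) (nat_lit 366) (nat_lit 204))) (XT.nd (nat_lit 78) (nat_lit 152) (nat_lit 0) (XT.lf (nat_lit 0) (nat_lit 28841356138) (nat_lit 228) (nat_lit 5620476413) (nat_lit 76) (nat_lit 6004166351) (nat_lit 66) (nat_lit 5) (nat_lit 69) (nat_lit 5) (nat_lit 67) (nat_lit 5) (nat_lit 451) (nat_lit 366) (nat_lit 203)) (XT.lf (nat_lit 0) (nat_lit 15907872311) (nat_lit 152) (nat_lit 22969119284) (nat_lit 228)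 (nat_lit 2434870828) (nat_lit 64) (nat_lit 5) (nat_lit 66) (nat_lit 5) (nat_lit 67) (nat_lit 5) (nat_lit 452) (nat_lit 366) (nat_lit 202)))) (XT.nd (nat_lit 156) (nat_lit 152) (nat_lit 0) (XT.nd (nat_lit 78) (nat_lit 152) (nat_lit 0) (XT.lf (nat_lit 0) (nat_lit 6945032087) (nat_lit 228) (nat_lit 4062304384) (nat_lit 76) (nat_lit 31172189766) (nat_lit 63) (nat_lit 5) (nat_lit 66) (nat_lit 5) (nat_lit 64) (nat_lit 5) (nat_lit 453) (nat_lit 366) (nat_lit 201)) (XT.lf (nat_lit 0) (nat_lit 16741780649) (nat_lit 228) (nat_lit 24840228863) (nat_lit 76) (nat_lit 1484956353) (nat_lit 61) (nat_lit 5) (nat_lit 64) (nat_lit 5) (nat_lit 62) (nat_lit 5) (nat_lit 454) (nat_lit 366) (nat_lit 200))) (XT.nd (nat_lit 78) (nat_lit 152) (nat_lit 0) (XT.lf (nat_lit 0) (nat_lit 26977348205) (nat_lit 228) (nat_lit 2831247159) (nat_lit 76) (nat_lit 14168086537) (nat_lit 61) (nat_lit 5) (nat_lit 64) (nat_lit 5) (nat_lit 62) (nat_lit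 5) (nat_lit 455) (nat_lit 366) (nat_lit 199)) (XT.lf (nat_lit 0) (nat_lit 20223132751) (nat_lit 152) (nat_lit 17485912740) (nat_lit 228) (nat_lit 7198972744) (nat_lit 59) (nat_lit 5) (nat_lit 61) (nat_lit 5) (nat_lit 62) (nat_lit 5) (nat_lit 456) (nat_lit 366) (nat_lit 198))))))))
noncomputable def xc164 : XT := (XT.nd (nat_lit 2184) (nat_lit 0) (nat_lit 0) (XT.nd (nat_lit 1092) (nat_lit 912) (nat_lit 0) (XT.nd (nat_lit 546) (nat_lit 532) (nat_lit 0) (XT.nd (nat_lit 234) (nat_lit 304) (nat_lit 0) (XT.nd (nat_lit 78) (nat_lit 152) (nat_lit 0) (XT.lf (nat_lit 0) (nat_lit 2862450202) (nat_lit 228) (nat_lit 1876881395) (nat_lit 76) (nat_lit 41126422221) (nat_lit 58) (nat_lit 5) (nat_lit 61) (nat_lit 5) (nat_lit 59) (nat_lit 5) (nat_lit 457) (nat_lit 366) (nat_lit 197)) (XT.nd (nat_lit 78) (nat_lit 0) (nat_lit 0) (XT.lf (nat_lit 0) (nat_lit 13370385744) (nat_lit 228) (nat_lit 24963870653) (nat_lit 76) (nat_lit 8507146537)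 (nat_lit 56) (nat_lit 5) (nat_lit 59) (nat_lit 5) (nat_lit 57) (nat_lit 5) (nat_lit 458) (nat_lit 366) (nat_lit 196)) (XT.lf (nat_lit 0) (nat_lit 24254480424) (nat_lit 228) (nat_lit 1519070332) (nat_lit 76) (nat_lit 22070943754) (nat_lit 56) (nat_lit 5) (nat_lit 59) (nat_lit 5) (nat_lit 57) (nat_lit 5) (nat_lit 459) (nat_lit 366) (nat_lit 195)))) (XT.nd (nat_lit 156) (nat_lit 152) (nat_lit 0) (XT.nd (nat_lit 78) (nat_lit 0) (nat_lit 0) (XT.lf (nat_lit 0) (nat_lit 23070269444) (nat_lit 152) (nat_lit 12611600377) (nat_lit 228) (nat_lit 13189306457) (nat_lit 54) (nat_lit 5) (nat_lit 56) (nat_lit 5) (nat_lit 57) (nat_lit 5) (nat_lit 460) (nat_lit 366) (nat_lit 194)) (XT.lf (nat_lit 0) (nat_lit 47471686423) (nat_lit 228) (nat_lit 1518018191) (nat_lit 76) (nat_lit 938366300) (nat_lit 54) (nat_lit 5) (nat_lit 57) (nat_lit 5) (nat_lit 55) (nat_lit 4) (nat_lit 461) (nat_lit 366) (nat_lit 193))) (XT.nd (nat_lit 78) (nat_lit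 0) (nat_lit 0) (XT.lf (nat_lit 0) (nat_lit 8783249700) (nat_lit 152) (nat_lit 27267665590) (nat_lit 76) (nat_lit 14952702640) (nat_lit 52) (nat_lit 5) (nat_lit 54) (nat_lit 5) (nat_lit 53) (nat_lit 5) (nat_lit 462) (nat_lit 366) (nat_lit 192)) (XT.lf (nat_lit 0) (nat_lit 20321365266) (nat_lit 152) (nat_lit 2365543158) (nat_lit 76) (nat_lit 29423473947) (nat_lit 52) (nat_lit 5) (nat_lit 54) (nat_lit 5) (nat_lit 53) (nat_lit 5) (nat_lit 463) (nat_lit 366) (nat_lit 191))))) (XT.nd (nat_lit 234) (nat_lit 228) (nat_lit 0) (XT.nd (nat_lit 78) (nat_lit 152) (nat_lit 0) (XT.lf (nat_lit 0) (nat_lit 23738359832) (nat_lit 152) (nat_lit 8690774885) (nat_lit 228) (nat_lit 20814510236) (nat_lit 50) (nat_lit 5) (nat_lit 52) (nat_lit 5) (nat_lit 53) (nat_lit 5) (nat_lit 464) (nat_lit 366) (nat_lit 190)) (XT.nd (nat_lit 78) (nat_lit 152) (nat_lit 0) (XT.lf (nat_lit 0) (nat_lit 44974637194) (nat_lit 228) (nat_lit 3800111894)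 (nat_lit 76) (nat_lit 5633921828) (nat_lit 50) (nat_lit 5) (nat_lit 53) (nat_lit 5) (nat_lit 51) (nat_lit 4) (nat_lit 465) (nat_lit 366) (nat_lit 189)) (XT.lf (nat_lit 0) (nat_lit 2549127069) (nat_lit 152) (nat_lit 32593233931) (nat_lit 76) (nat_lit 20456449934) (nat_lit 48) (nat_lit 5) (nat_lit 50) (nat_lit 5) (nat_lit 49) (nat_lit 5) (nat_lit 466) (nat_lit 366) (nat_lit 188)))) (XT.nd (nat_lit 156) (nat_lit 76) (nat_lit 0) (XT.nd (nat_lit 78) (nat_lit 152) (nat_lit 0) (XT.lf (nat_lit 0) (nat_lit 14736407043) (nat_lit 152) (nat_lit 6232239236) (nat_lit 76) (nat_lit 35852179973) (nat_lit 48) (nat_lit 5) (nat_lit 50) (nat_lit 5) (nat_lit 49) (nat_lit 5) (nat_lit 467) (nat_lit 366) (nat_lit 187)) (XT.lf (nat_lit 0) (nat_lit 21327723067) (nat_lit 152) (nat_lit 6162214442) (nat_lit 228) (nat_lit 30583546004) (nat_lit 46) (nat_lit 5) (nat_lit 48) (nat_lit 5) (nat_lit 49) (nat_lit 5) (nat_lit 468) (nat_lit 366) (nat_lit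 186))) (XT.nd (nat_lit 78) (nat_lit 76) (nat_lit 0) (XT.lf (nat_lit 0) (nat_lit 40772626910) (nat_lit 228) (nat_lit 9615639475) (nat_lit 76) (nat_lit 8971057951) (nat_lit 46) (nat_lit 5) (nat_lit 49) (nat_lit 5) (nat_lit 47) (nat_lit 4) (nat_lit 469) (nat_lit 366) (nat_lit 185)) (XT.lf (nat_lit 0) (nat_lit 18622949105) (nat_lit 76) (nat_lit 36066635441) (nat_lit 152) (nat_lit 5987082631) (nat_lit 45) (nat_lit 5) (nat_lit 46) (nat_lit 5) (nat_lit 47) (nat_lit 4) (nat_lit 470) (nat_lit 366) (nat_lit 184)))))) (XT.nd (nat_lit 546) (nat_lit 380) (nat_lit 0) (XT.nd (nat_lit 234) (nat_lit 304) (nat_lit 0) (XT.nd (nat_lit 78) (nat_lit 152) (nat_lit 0) (XT.lf (nat_lit 0) (nat_lit 6947938318) (nat_lit 152) (nat_lit 14200802073) (nat_lit 76) (nat_lit 40879959557) (nat_lit 44) (nat_lit 5) (nat_lit 46) (nat_lit 5) (nat_lit 45) (nat_lit 5) (nat_lit 471) (nat_lit 366) (nat_lit 183)) (XT.nd (nat_lit 78) (nat_lit 0) (nat_lit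 0) (XT.lf (nat_lit 0) (nat_lit 14707821339) (nat_lit 152) (nat_lit 5580125441) (nat_lit 228) (nat_lit 43127450826) (nat_lit 42) (nat_lit 5) (nat_lit 44) (nat_lit 5) (nat_lit 45) (nat_lit 5) (nat_lit 472) (nat_lit 366) (nat_lit 182)) (XT.lf (nat_lit 0) (nat_lit 34269385389) (nat_lit 228) (nat_lit 20174132073) (nat_lit 76) (nat_lit 10392942209) (nat_lit 42) (nat_lit 5) (nat_lit 45) (nat_lit 5) (nat_lit 43) (nat_lit 4) (nat_lit 473) (nat_lit 366) (nat_lit 181)))) (XT.nd (nat_lit 156) (nat_lit 228) (nat_lit 0) (XT.nd (nat_lit 78) (nat_lit 0) (nat_lit 0) (XT.lf (nat_lit 0) (nat_lit 9334825731) (nat_lit 76) (nat_lit 39476446236) (nat_lit 152) (nat_lit 17484651851) (nat_lit 41) (nat_lit 5) (nat_lit 42) (nat_lit 5) (nat_lit 43) (nat_lit 4) (nat_lit 474) (nat_lit 366) (nat_lit 180)) (XT.lf (nat_lit 0) (nat_lit 40135277698) (nat_lit 76) (nat_lit 23853926008) (nat_lit 152) (nat_lit 3803974878) (nat_lit 41) (nat_lit 5)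 (nat_lit 42) (nat_lit 5) (nat_lit 43) (nat_lit 4) (nat_lit 475) (nat_lit 366) (nat_lit 179))) (XT.nd (nat_lit 78) (nat_lit 0) (nat_lit 0) (XT.lf (nat_lit 0) (nat_lit 2466447176) (nat_lit 152) (nat_lit 7639791166) (nat_lit 228) (nat_lit 59225550758) (nat_lit 38) (nat_lit 5) (nat_lit 40) (nat_lit 5) (nat_lit 41) (nat_lit 5) (nat_lit 476) (nat_lit 366) (nat_lit 178)) (XT.lf (nat_lit 0) (nat_lit 24722613095) (nat_lit 228) (nat_lit 36981420270) (nat_lit 76) (nat_lit 9200435658) (nat_lit 38) (nat_lit 5) (nat_lit 41) (nat_lit 5) (nat_lit 39) (nat_lit 4) (nat_lit 477) (nat_lit 366) (nat_lit 177))))) (XT.nd (nat_lit 234) (nat_lit 304) (nat_lit 0) (XT.nd (nat_lit 78) (nat_lit 76) (nat_lit 0) (XT.lf (nat_lit 0) (nat_lit 39849390296) (nat_lit 228) (nat_lit 6283613314) (nat_lit 76) (nat_lit 26389168712) (nat_lit 38) (nat_lit 5) (nat_lit 41) (nat_lit 5) (nat_lit 39) (nat_lit 4) (nat_lit 478) (nat_lit 366) (nat_lit 176)) (XT.nd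 (nat_lit 78) (nat_lit 0) (nat_lit 0) (XT.lf (nat_lit 0) (nat_lit 25832424258) (nat_lit 76) (nat_lit 29842241976) (nat_lit 152) (nat_lit 18506399927) (nat_lit 37) (nat_lit 5) (nat_lit 38) (nat_lit 5) (nat_lit 39) (nat_lit 4) (nat_lit 479) (nat_lit 366) (nat_lit 175)) (XT.lf (nat_lit 0) (nat_lit 59034030178) (nat_lit 76) (nat_lit 13000541685) (nat_lit 152) (nat_lit 3853359104) (nat_lit 37) (nat_lit 5) (nat_lit 38) (nat_lit 5) (nat_lit 39) (nat_lit 4) (nat_lit 480) (nat_lit 366) (nat_lit 174)))) (XT.nd (nat_lit 156) (nat_lit 76) (nat_lit 0) (XT.nd (nat_lit 78) (nat_lit 0) (nat_lit 0) (XT.lf (nat_lit 0) (nat_lit 11212442170) (nat_lit 228) (nat_lit 61903685115) (nat_lit 76) (nat_lit 4520858911) (nat_lit 34) (nat_lit 5) (nat_lit 37) (nat_lit 5) (nat_lit 35) (nat_lit 4) (nat_lit 481) (nat_lit 366) (nat_lit 173)) (XT.lf (nat_lit 0) (nat_lit 26949862350) (nat_lit 228) (nat_lit 29964960719) (nat_lit 76) (nat_lit 22513632914)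 (nat_lit 34) (nat_lit 5) (nat_lit 37) (nat_lit 5) (nat_lit 35) (nat_lit 4) (nat_lit 482) (nat_lit 366) (nat_lit 172))) (XT.nd (nat_lit 78) (nat_lit 0) (nat_lit 0) (XT.lf (nat_lit 0) (nat_lit 2983735770) (nat_lit 76) (nat_lit 40200951752) (nat_lit 152) (nat_lit 38088224132) (nat_lit 33) (nat_lit 5) (nat_lit 34) (nat_lit 5) (nat_lit 35) (nat_lit 4) (nat_lit 483) (nat_lit 366) (nat_lit 171)) (XT.lf (nat_lit 0) (nat_lit 37528795275) (nat_lit 76) (nat_lit 22676988378) (nat_lit 152) (nat_lit 22957940810) (nat_lit 33) (nat_lit 5) (nat_lit 34) (nat_lit 5) (nat_lit 35) (nat_lit 4) (nat_lit 484) (nat_lit 366) (nat_lit 170))))))) (XT.nd (nat_lit 44928) (nat_lit 0) (nat_lit 13148) (XT.nd (nat_lit 44382) (nat_lit 0) (nat_lit 17708) (XT.nd (nat_lit 44070) (nat_lit 0) (nat_lit 18696) (XT.nd (nat_lit 43914) (nat_lit 0) (nat_lit 18620) (XT.lf (nat_lit 0) (nat_lit 73104041327) (nat_lit 76) (nat_lit 4630208095) (nat_lit 152) (nat_lit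 7377110381) (nat_lit 33) (nat_lit 5) (nat_lit 34) (nat_lit 5) (nat_lit 35) (nat_lit 4) (nat_lit 485) (nat_lit 366) (nat_lit 169)) (XT.nd (nat_lit 78) (nat_lit 0) (nat_lit 0) (XT.lf (nat_lit 0) (nat_lit 1486075121) (nat_lit 1140) (nat_lit 1650942325) (nat_lit 1140) (nat_lit 1650942325) (nat_lit 278) (nat_lit 3) (nat_lit 293) (nat_lit 3) (nat_lit 293) (nat_lit 5) (nat_lit 367) (nat_lit 367) (nat_lit 286)) (XT.lf (nat_lit 76) (nat_lit 1350135153) (nat_lit 0) (nat_lit 2444207091) (nat_lit 1140) (nat_lit 5901534702) (nat_lit 279) (nat_lit 5) (nat_lit 278) (nat_lit 3) (nat_lit 293) (nat_lit 5) (nat_lit 368) (nat_lit 367) (nat_lit 285)))) (XT.nd (nat_lit 156) (nat_lit 0) (nat_lit 0) (XT.nd (nat_lit 78) (nat_lit 0) (nat_lit 0) (XT.lf (nat_lit 0) (nat_lit 4659441967) (nat_lit 1064) (nat_lit 3640518174) (nat_lit 1140) (nat_lit 1518939452) (nat_lit 279) (nat_lit 5) (nat_lit 293) (nat_lit 5) (nat_lit 294) (nat_lit 5) (nat_lit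 369) (nat_lit 367) (nat_lit 284)) (XT.lf (nat_lit 76) (nat_lit 1188611185) (nat_lit 0) (nat_lit 4368524176) (nat_lit 1140) (nat_lit 4388291715) (nat_lit 280) (nat_lit 5) (nat_lit 279) (nat_lit 5) (nat_lit 294) (nat_lit 5) (nat_lit 370) (nat_lit 367) (nat_lit 283))) (XT.nd (nat_lit 78) (nat_lit 0) (nat_lit 76) (XT.lf (nat_lit 76) (nat_lit 6221155761) (nat_lit 0) (nat_lit 269070443) (nat_lit 1140) (nat_lit 3585283170) (nat_lit 280) (nat_lit 5) (nat_lit 279) (nat_lit 5) (nat_lit 294) (nat_lit 5) (nat_lit 371) (nat_lit 367) (nat_lit 282)) (XT.lf (nat_lit 76) (nat_lit 1163312872) (nat_lit 0) (nat_lit 6309824198) (nat_lit 1140) (nat_lit 2735714864) (nat_lit 281) (nat_lit 5) (nat_lit 280) (nat_lit 5) (nat_lit 295) (nat_lit 5) (nat_lit 372) (nat_lit 367) (nat_lit 281))))) (XT.nd (nat_lit 234) (nat_lit 0) (nat_lit 76) (XT.nd (nat_lit 78) (nat_lit 1064) (nat_lit 0) (XT.lf (nat_lit 76) (nat_lit 6391397269) (nat_lit 0)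 (nat_lit 2108979109) (nat_lit 1140) (nat_lit 1845385402) (nat_lit 281) (nat_lit 5) (nat_lit 280) (nat_lit 5) (nat_lit 295) (nat_lit 5) (nat_lit 373) (nat_lit 367) (nat_lit 280)) (XT.nd (nat_lit 78) (nat_lit 1140) (nat_lit 0) (XT.lf (nat_lit 76) (nat_lit 1276317114) (nat_lit 0) (nat_lit 8289860424) (nat_lit 1140) (nat_lit 920380931) (nat_lit 282) (nat_lit 5) (nat_lit 281) (nat_lit 5) (nat_lit 296) (nat_lit 5) (nat_lit 374) (nat_lit 367) (nat_lit 279)) (XT.lf (nat_lit 0) (nat_lit 67437183) (nat_lit 1140) (nat_lit 3924156955) (nat_lit 1216) (nat_lit 6638915932) (nat_lit 266) (nat_lit 5) (nat_lit 281) (nat_lit 5) (nat_lit 282) (nat_lit 5) (nat_lit 375) (nat_lit 367) (nat_lit 278)))) (XT.nd (nat_lit 156) (nat_lit 0) (nat_lit 0) (XT.nd (nat_lit 78) (nat_lit 0) (nat_lit 0) (XT.lf (nat_lit 0) (nat_lit 1060776589) (nat_lit 1140) (nat_lit 9258844518) (nat_lit 1216) (nat_lit 459065046) (nat_lit 267) (nat_lit 5) (nat_lit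 282) (nat_lit 5) (nat_lit 283) (nat_lit 5) (nat_lit 376) (nat_lit 367) (nat_lit 277)) (XT.lf (nat_lit 0) (nat_lit 2139323010) (nat_lit 1140) (nat_lit 3779745674) (nat_lit 1216) (nat_lit 5010587189) (nat_lit 267) (nat_lit 5) (nat_lit 282) (nat_lit 5) (nat_lit 283) (nat_lit 5) (nat_lit 377) (nat_lit 367) (nat_lit 276))) (XT.nd (nat_lit 78) (nat_lit 0) (nat_lit 76) (XT.lf (nat_lit 76) (nat_lit 1883672272) (nat_lit 0) (nat_lit 1361230920) (nat_lit 1216) (nat_lit 7840421428) (nat_lit 268) (nat_lit 5) (nat_lit 267) (nat_lit 5) (nat_lit 283) (nat_lit 5) (nat_lit 378) (nat_lit 367) (nat_lit 275)) (XT.lf (nat_lit 0) (nat_lit 4431391768) (nat_lit 1140) (nat_lit 3499868209) (nat_lit 1216) (nat_lit 3312981177) (nat_lit 268) (nat_lit 5) (nat_lit 283) (nat_lit 5) (nat_lit 284) (nat_lit 5) (nat_lit 379) (nat_lit 367) (nat_lit 274)))))) (XT.nd (nat_lit 546) (nat_lit 2432) (nat_lit 0) (XT.nd (nat_lit 234) (nat_lit 2280) (nat_lit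 0) (XT.nd (nat_lit 78) (nat_lit 0) (nat_lit 76) (XT.lf (nat_lit 76) (nat_lit 2389217423) (nat_lit 0) (nat_lit 3278520122) (nat_lit 1216) (nat_lit 5739769427) (nat_lit 269) (nat_lit 5) (nat_lit 268) (nat_lit 5) (nat_lit 284) (nat_lit 5) (nat_lit 380) (nat_lit 367) (nat_lit 273)) (XT.nd (nat_lit 78) (nat_lit 0) (nat_lit 0) (XT.lf (nat_lit 0) (nat_lit 6969768372) (nat_lit 1140) (nat_lit 3080231612) (nat_lit 1216) (nat_lit 1524822326) (nat_lit 269) (nat_lit 5) (nat_lit 284) (nat_lit 5) (nat_lit 285) (nat_lit 5) (nat_lit 381) (nat_lit 367) (nat_lit 272)) (XT.lf (nat_lit 76) (nat_lit 3046015044) (nat_lit 0) (nat_lit 5305567736) (nat_lit 1216) (nat_lit 3394361758) (nat_lit 270) (nat_lit 5) (nat_lit 269) (nat_lit 5) (nat_lit 285) (nat_lit 5) (nat_lit 382) (nat_lit 367) (nat_lit 271)))) (XT.nd (nat_lit 156) (nat_lit 1292) (nat_lit 0) (XT.nd (nat_lit 78) (nat_lit 1064) (nat_lit 0) (XT.lf (nat_lit 76) (nat_lit 9402425671)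 (nat_lit 0) (nat_lit 382963171) (nat_lit 1216) (nat_lit 2136504319) (nat_lit 270) (nat_lit 5) (nat_lit 269) (nat_lit 5) (nat_lit 285) (nat_lit 5) (nat_lit 383) (nat_lit 367) (nat_lit 270)) (XT.lf (nat_lit 0) (nat_lit 3859748625) (nat_lit 1140) (nat_lit 7464687555) (nat_lit 1216) (nat_lit 776825838) (nat_lit 255) (nat_lit 5) (nat_lit 270) (nat_lit 5) (nat_lit 271) (nat_lit 5) (nat_lit 384) (nat_lit 367) (nat_lit 269))) (XT.nd (nat_lit 78) (nat_lit 1216) (nat_lit 0) (XT.lf (nat_lit 0) (nat_lit 621244351) (nat_lit 1216) (nat_lit 1830453832) (nat_lit 76) (nat_lit 9833848881) (nat_lit 254) (nat_lit 5) (nat_lit 270) (nat_lit 5) (nat_lit 255) (nat_lit 5) (nat_lit 385) (nat_lit 367) (nat_lit 268)) (XT.lf (nat_lit 0) (nat_lit 2099685137) (nat_lit 1292) (nat_lit 7657845095) (nat_lit 76) (nat_lit 2715986290) (nat_lit 238) (nat_lit 5) (nat_lit 255) (nat_lit 5) (nat_lit 239) (nat_lit 5) (nat_lit 386) (nat_lit 367) (nat_lit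 267))))) (XT.nd (nat_lit 312) (nat_lit 1216) (nat_lit 0) (XT.nd (nat_lit 156) (nat_lit 608) (nat_lit 0) (XT.nd (nat_lit 78) (nat_lit 608) (nat_lit 0) (XT.lf (nat_lit 0) (nat_lit 3646700759) (nat_lit 1292) (nat_lit 1009407932) (nat_lit 76) (nat_lit 8010297354) (nat_lit 238) (nat_lit 5) (nat_lit 255) (nat_lit 5) (nat_lit 239) (nat_lit 5) (nat_lit 387) (nat_lit 367) (nat_lit 266)) (XT.lf (nat_lit 0) (nat_lit 5285362024) (nat_lit 684) (nat_lit 6932490748) (nat_lit 76) (nat_lit 645879835) (nat_lit 230) (nat_lit 5) (nat_lit 239) (nat_lit 5) (nat_lit 231) (nat_lit 5) (nat_lit 388) (nat_lit 367) (nat_lit 265))) (XT.nd (nat_lit 78) (nat_lit 608) (nat_lit 0) (XT.lf (nat_lit 0) (nat_lit 7011787524) (nat_lit 684) (nat_lit 29048632) (nat_lit 76) (nat_lit 6024991869) (nat_lit 230) (nat_lit 5) (nat_lit 239) (nat_lit 5) (nat_lit 231) (nat_lit 5) (nat_lit 389) (nat_lit 367) (nat_lit 264)) (XT.lf (nat_lit 0) (nat_lit 7205621394)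 (nat_lit 608) (nat_lit 1636377731) (nat_lit 684) (nat_lit 4430434363) (nat_lit 222) (nat_lit 5) (nat_lit 230) (nat_lit 5) (nat_lit 231) (nat_lit 5) (nat_lit 390) (nat_lit 367) (nat_lit 263)))) (XT.nd (nat_lit 156) (nat_lit 608) (nat_lit 0) (XT.nd (nat_lit 78) (nat_lit 0) (nat_lit 0) (XT.lf (nat_lit 0) (nat_lit 1140326290) (nat_lit 608) (nat_lit 9618908624) (nat_lit 684) (nat_lit 2725045445) (nat_lit 214) (nat_lit 5) (nat_lit 222) (nat_lit 5) (nat_lit 223) (nat_lit 5) (nat_lit 391) (nat_lit 367) (nat_lit 262)) (XT.lf (nat_lit 0) (nat_lit 8654841709) (nat_lit 608) (nat_lit 4139864852) (nat_lit 684) (nat_lit 905961092) (nat_lit 214) (nat_lit 5) (nat_lit 222) (nat_lit 5) (nat_lit 223) (nat_lit 5) (nat_lit 392) (nat_lit 367) (nat_lit 261))) (XT.nd (nat_lit 78) (nat_lit 0) (nat_lit 0) (XT.lf (nat_lit 0) (nat_lit 971297764) (nat_lit 608) (nat_lit 11443730895) (nat_lit 76) (nat_lit 1507570493) (nat_lit 206) (nat_lit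 5) (nat_lit 214) (nat_lit 5) (nat_lit 207) (nat_lit 5) (nat_lit 393) (nat_lit 367) (nat_lit 260)) (XT.lf (nat_lit 0) (nat_lit 2963154746) (nat_lit 608) (nat_lit 3884225022) (nat_lit 76) (nat_lit 7301251076) (nat_lit 206) (nat_lit 5) (nat_lit 214) (nat_lit 5) (nat_lit 207) (nat_lit 5) (nat_lit 394) (nat_lit 367) (nat_lit 259))))))))
noncomputable def xc165 : XT := (XT.nd (nat_lit 2184) (nat_lit 3876) (nat_lit 0) (XT.nd (nat_lit 1092) (nat_lit 2964) (nat_lit 0) (XT.nd (nat_lit 546) (nat_lit 1748) (nat_lit 0) (XT.nd (nat_lit 234) (nat_lit 1064) (nat_lit 0) (XT.nd (nat_lit 78) (nat_lit 456) (nat_lit 0) (XT.lf (nat_lit 0) (nat_lit 3963050257) (nat_lit 532) (nat_lit 1074320293) (nat_lit 608) (nat_lit 9343400690) (nat_lit 199) (nat_lit 5) (nat_lit 206) (nat_lit 5) (nat_lit 207) (nat_lit 5) (nat_lit 395) (nat_lit 367) (nat_lit 258)) (XT.nd (nat_lit 78) (nat_lit 456) (nat_lit 0) (XT.lf (nat_lit 0) (nat_lit 7245050136)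 (nat_lit 608) (nat_lit 2557193788) (nat_lit 76) (nat_lit 4815500483) (nat_lit 199) (nat_lit 5) (nat_lit 207) (nat_lit 5) (nat_lit 200) (nat_lit 5) (nat_lit 396) (nat_lit 367) (nat_lit 257)) (XT.lf (nat_lit 0) (nat_lit 5622062868) (nat_lit 456) (nat_lit 3946813599) (nat_lit 532) (nat_lit 5291458322) (nat_lit 193) (nat_lit 5) (nat_lit 199) (nat_lit 5) (nat_lit 200) (nat_lit 5) (nat_lit 397) (nat_lit 367) (nat_lit 256)))) (XT.nd (nat_lit 156) (nat_lit 532) (nat_lit 0) (XT.nd (nat_lit 78) (nat_lit 532) (nat_lit 0) (XT.lf (nat_lit 0) (nat_lit 11994029782) (nat_lit 532) (nat_lit 1047025315) (nat_lit 76) (nat_lit 2068204772) (nat_lit 193) (nat_lit 5) (nat_lit 200) (nat_lit 5) (nat_lit 194) (nat_lit 5) (nat_lit 398) (nat_lit 367) (nat_lit 255)) (XT.lf (nat_lit 0) (nat_lit 7480916030) (nat_lit 532) (nat_lit 7107931050) (nat_lit 608) (nat_lit 773903535) (nat_lit 186) (nat_lit 5) (nat_lit 193) (nat_lit 5) (nat_lit 194)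 (nat_lit 5) (nat_lit 399) (nat_lit 367) (nat_lit 254))) (XT.nd (nat_lit 78) (nat_lit 0) (nat_lit 0) (XT.lf (nat_lit 0) (nat_lit 643263837) (nat_lit 456) (nat_lit 965340705) (nat_lit 532) (nat_lit 14014687220) (nat_lit 179) (nat_lit 5) (nat_lit 185) (nat_lit 5) (nat_lit 186) (nat_lit 5) (nat_lit 400) (nat_lit 367) (nat_lit 253)) (XT.lf (nat_lit 0) (nat_lit 4165220462) (nat_lit 532) (nat_lit 6379873673) (nat_lit 76) (nat_lit 5342784271) (nat_lit 179) (nat_lit 5) (nat_lit 186) (nat_lit 5) (nat_lit 180) (nat_lit 5) (nat_lit 401) (nat_lit 367) (nat_lit 252))))) (XT.nd (nat_lit 234) (nat_lit 912) (nat_lit 0) (XT.nd (nat_lit 78) (nat_lit 380) (nat_lit 0) (XT.lf (nat_lit 0) (nat_lit 2501711146) (nat_lit 456) (nat_lit 4317099333) (nat_lit 532) (nat_lit 9340988519) (nat_lit 173) (nat_lit 5) (nat_lit 179) (nat_lit 5) (nat_lit 180) (nat_lit 5) (nat_lit 402) (nat_lit 367) (nat_lit 251)) (XT.nd (nat_lit 78) (nat_lit 380)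 (nat_lit 0) (XT.lf (nat_lit 0) (nat_lit 9624117496) (nat_lit 532) (nat_lit 4694273192) (nat_lit 76) (nat_lit 2119327722) (nat_lit 173) (nat_lit 5) (nat_lit 180) (nat_lit 5) (nat_lit 174) (nat_lit 5) (nat_lit 403) (nat_lit 367) (nat_lit 250)) (XT.lf (nat_lit 0) (nat_lit 4569292402) (nat_lit 380) (nat_lit 8018222280) (nat_lit 456) (nat_lit 4134247145) (nat_lit 168) (nat_lit 5) (nat_lit 173) (nat_lit 5) (nat_lit 174) (nat_lit 5) (nat_lit 404) (nat_lit 367) (nat_lit 249)))) (XT.nd (nat_lit 156) (nat_lit 380) (nat_lit 0) (XT.nd (nat_lit 78) (nat_lit 532) (nat_lit 0) (XT.lf (nat_lit 0) (nat_lit 14191562440) (nat_lit 380) (nat_lit 1483141474) (nat_lit 456) (nat_lit 1338580153) (nat_lit 168) (nat_lit 5) (nat_lit 173) (nat_lit 5) (nat_lit 174) (nat_lit 5) (nat_lit 405) (nat_lit 367) (nat_lit 248)) (XT.lf (nat_lit 0) (nat_lit 1616099567) (nat_lit 532) (nat_lit 10469290911) (nat_lit 76) (nat_lit 5224564730) (nat_lit 161)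 (nat_lit 5) (nat_lit 168) (nat_lit 5) (nat_lit 162) (nat_lit 5) (nat_lit 406) (nat_lit 367) (nat_lit 247))) (XT.nd (nat_lit 78) (nat_lit 380) (nat_lit 0) (XT.lf (nat_lit 0) (nat_lit 4663886881) (nat_lit 532) (nat_lit 807543952) (nat_lit 76) (nat_lit 12142760777) (nat_lit 161) (nat_lit 5) (nat_lit 168) (nat_lit 5) (nat_lit 162) (nat_lit 5) (nat_lit 407) (nat_lit 367) (nat_lit 246)) (XT.lf (nat_lit 0) (nat_lit 7894616683) (nat_lit 456) (nat_lit 8628196516) (nat_lit 76) (nat_lit 1402000394) (nat_lit 156) (nat_lit 5) (nat_lit 162) (nat_lit 5) (nat_lit 157) (nat_lit 5) (nat_lit 408) (nat_lit 367) (nat_lit 245)))))) (XT.nd (nat_lit 546) (nat_lit 1444) (nat_lit 0) (XT.nd (nat_lit 234) (nat_lit 760) (nat_lit 0) (XT.nd (nat_lit 78) (nat_lit 380) (nat_lit 0) (XT.lf (nat_lit 0) (nat_lit 1434547975) (nat_lit 380) (nat_lit 9852348825) (nat_lit 456) (nat_lit 6955922226) (nat_lit 151) (nat_lit 5) (nat_lit 156) (nat_lit 5)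 (nat_lit 157) (nat_lit 5) (nat_lit 409) (nat_lit 367) (nat_lit 244)) (XT.nd (nat_lit 78) (nat_lit 380) (nat_lit 0) (XT.lf (nat_lit 0) (nat_lit 11961053690) (nat_lit 380) (nat_lit 2895643102) (nat_lit 456) (nat_lit 3711398822) (nat_lit 151) (nat_lit 5) (nat_lit 156) (nat_lit 5) (nat_lit 157) (nat_lit 5) (nat_lit 410) (nat_lit 367) (nat_lit 243)) (XT.lf (nat_lit 0) (nat_lit 3920834991) (nat_lit 380) (nat_lit 14680410066) (nat_lit 456) (nat_lit 299859251) (nat_lit 146) (nat_lit 5) (nat_lit 151) (nat_lit 5) (nat_lit 152) (nat_lit 5) (nat_lit 411) (nat_lit 367) (nat_lit 242)))) (XT.nd (nat_lit 156) (nat_lit 304) (nat_lit 0) (XT.nd (nat_lit 78) (nat_lit 380) (nat_lit 0) (XT.lf (nat_lit 0) (nat_lit 3236349097) (nat_lit 456) (nat_lit 4417272927) (nat_lit 76) (nat_lit 11587006427) (nat_lit 145) (nat_lit 5) (nat_lit 151) (nat_lit 5) (nat_lit 146) (nat_lit 5) (nat_lit 412) (nat_lit 367) (nat_lit 241)) (XT.lf (nat_lit 0)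 (nat_lit 6573418625) (nat_lit 380) (nat_lit 351697905) (nat_lit 456) (nat_lit 12663560872) (nat_lit 140) (nat_lit 5) (nat_lit 145) (nat_lit 5) (nat_lit 146) (nat_lit 5) (nat_lit 413) (nat_lit 367) (nat_lit 240))) (XT.nd (nat_lit 78) (nat_lit 304) (nat_lit 0) (XT.lf (nat_lit 0) (nat_lit 10827958356) (nat_lit 456) (nat_lit 2045442497) (nat_lit 76) (nat_lit 7070667680) (nat_lit 140) (nat_lit 5) (nat_lit 146) (nat_lit 5) (nat_lit 141) (nat_lit 5) (nat_lit 414) (nat_lit 367) (nat_lit 239)) (XT.lf (nat_lit 0) (nat_lit 9419586114) (nat_lit 304) (nat_lit 5512084020) (nat_lit 380) (nat_lit 5375940686) (nat_lit 136) (nat_lit 5) (nat_lit 140) (nat_lit 5) (nat_lit 141) (nat_lit 5) (nat_lit 415) (nat_lit 367) (nat_lit 238))))) (XT.nd (nat_lit 234) (nat_lit 684) (nat_lit 0) (XT.nd (nat_lit 78) (nat_lit 380) (nat_lit 0) (XT.lf (nat_lit 0) (nat_lit 565652332) (nat_lit 380) (nat_lit 18628917082) (nat_lit 456) (nat_lit 1486410554)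 (nat_lit 131) (nat_lit 5) (nat_lit 136) (nat_lit 5) (nat_lit 137) (nat_lit 5) (nat_lit 416) (nat_lit 367) (nat_lit 237)) (XT.nd (nat_lit 78) (nat_lit 304) (nat_lit 0) (XT.lf (nat_lit 0) (nat_lit 2626183776) (nat_lit 456) (nat_lit 8570403947) (nat_lit 76) (nat_lit 9863572058) (nat_lit 130) (nat_lit 5) (nat_lit 136) (nat_lit 5) (nat_lit 131) (nat_lit 5) (nat_lit 417) (nat_lit 367) (nat_lit 236)) (XT.lf (nat_lit 0) (nat_lit 3357690461) (nat_lit 304) (nat_lit 3497096749) (nat_lit 380) (nat_lit 14594813703) (nat_lit 126) (nat_lit 5) (nat_lit 130) (nat_lit 5) (nat_lit 131) (nat_lit 5) (nat_lit 418) (nat_lit 367) (nat_lit 235)))) (XT.nd (nat_lit 156) (nat_lit 380) (nat_lit 0) (XT.nd (nat_lit 78) (nat_lit 304) (nat_lit 0) (XT.lf (nat_lit 0) (nat_lit 11330607586) (nat_lit 380) (nat_lit 6086383697) (nat_lit 76) (nat_lit 4430125787) (nat_lit 126) (nat_lit 5) (nat_lit 131) (nat_lit 5) (nat_lit 127) (nat_lit 5) (nat_lit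 419) (nat_lit 367) (nat_lit 234)) (XT.lf (nat_lit 0) (nat_lit 6355009673) (nat_lit 304) (nat_lit 9672028516) (nat_lit 380) (nat_lit 6226932936) (nat_lit 122) (nat_lit 5) (nat_lit 126) (nat_lit 5) (nat_lit 127) (nat_lit 5) (nat_lit 420) (nat_lit 367) (nat_lit 233))) (XT.nd (nat_lit 78) (nat_lit 380) (nat_lit 0) (XT.lf (nat_lit 0) (nat_lit 19280860304) (nat_lit 304) (nat_lit 1635727487) (nat_lit 380) (nat_lit 1754878637) (nat_lit 122) (nat_lit 5) (nat_lit 126) (nat_lit 5) (nat_lit 127) (nat_lit 5) (nat_lit 421) (nat_lit 367) (nat_lit 232)) (XT.lf (nat_lit 0) (nat_lit 2944301490) (nat_lit 380) (nat_lit 13522777551) (nat_lit 76) (nat_lit 6629129434) (nat_lit 117) (nat_lit 5) (nat_lit 122) (nat_lit 5) (nat_lit 118) (nat_lit 5) (nat_lit 422) (nat_lit 367) (nat_lit 231))))))) (XT.nd (nat_lit 1092) (nat_lit 1672) (nat_lit 0) (XT.nd (nat_lit 546) (nat_lit 1064) (nat_lit 0) (XT.nd (nat_lit 234) (nat_lit 608) (nat_lit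 0) (XT.nd (nat_lit 78) (nat_lit 532) (nat_lit 0) (XT.lf (nat_lit 0) (nat_lit 7790997558) (nat_lit 380) (nat_lit 584116936) (nat_lit 76) (nat_lit 15156804888) (nat_lit 117) (nat_lit 5) (nat_lit 122) (nat_lit 5) (nat_lit 118) (nat_lit 5) (nat_lit 423) (nat_lit 367) (nat_lit 230)) (XT.nd (nat_lit 78) (nat_lit 228) (nat_lit 0) (XT.lf (nat_lit 0) (nat_lit 12900000790) (nat_lit 380) (nat_lit 10995021511) (nat_lit 76) (nat_lit 82174267) (nat_lit 113) (nat_lit 5) (nat_lit 118) (nat_lit 5) (nat_lit 114) (nat_lit 5) (nat_lit 424) (nat_lit 367) (nat_lit 229)) (XT.lf (nat_lit 0) (nat_lit 2484135241) (nat_lit 228) (nat_lit 15782284204) (nat_lit 304) (nat_lit 6166290343) (nat_lit 110) (nat_lit 5) (nat_lit 113) (nat_lit 5) (nat_lit 114) (nat_lit 5) (nat_lit 425) (nat_lit 367) (nat_lit 228)))) (XT.nd (nat_lit 156) (nat_lit 228) (nat_lit 0) (XT.nd (nat_lit 78) (nat_lit 380) (nat_lit 0) (XT.lf (nat_lit 0) (nat_lit 16580049240)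 (nat_lit 228) (nat_lit 7316322955) (nat_lit 304) (nat_lit 1002441980) (nat_lit 110) (nat_lit 5) (nat_lit 113) (nat_lit 5) (nat_lit 114) (nat_lit 5) (nat_lit 426) (nat_lit 367) (nat_lit 227)) (XT.lf (nat_lit 0) (nat_lit 4293727754) (nat_lit 380) (nat_lit 19612240315) (nat_lit 76) (nat_lit 1469841807) (nat_lit 105) (nat_lit 5) (nat_lit 110) (nat_lit 5) (nat_lit 106) (nat_lit 5) (nat_lit 427) (nat_lit 367) (nat_lit 226))) (XT.nd (nat_lit 78) (nat_lit 228) (nat_lit 0) (XT.lf (nat_lit 0) (nat_lit 9877663039) (nat_lit 380) (nat_lit 5521763406) (nat_lit 76) (nat_lit 10462922237) (nat_lit 105) (nat_lit 5) (nat_lit 110) (nat_lit 5) (nat_lit 106) (nat_lit 5) (nat_lit 428) (nat_lit 367) (nat_lit 225)) (XT.lf (nat_lit 0) (nat_lit 9157628107) (nat_lit 228) (nat_lit 6551511928) (nat_lit 304) (nat_lit 10651944700) (nat_lit 102) (nat_lit 5) (nat_lit 105) (nat_lit 5) (nat_lit 106) (nat_lit 5) (nat_lit 429) (nat_lit 367) (nat_lit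 224))))) (XT.nd (nat_lit 234) (nat_lit 532) (nat_lit 0) (XT.nd (nat_lit 78) (nat_lit 532) (nat_lit 0) (XT.lf (nat_lit 0) (nat_lit 21788564387) (nat_lit 304) (nat_lit 2520266880) (nat_lit 76) (nat_lit 2563763253) (nat_lit 102) (nat_lit 5) (nat_lit 106) (nat_lit 5) (nat_lit 103) (nat_lit 5) (nat_lit 430) (nat_lit 367) (nat_lit 223)) (XT.nd (nat_lit 78) (nat_lit 228) (nat_lit 0) (XT.lf (nat_lit 0) (nat_lit 819971160) (nat_lit 304) (nat_lit 14626444811) (nat_lit 76) (nat_lit 11947395022) (nat_lit 98) (nat_lit 5) (nat_lit 102) (nat_lit 5) (nat_lit 99) (nat_lit 5) (nat_lit 431) (nat_lit 367) (nat_lit 222)) (XT.lf (nat_lit 0) (nat_lit 583957661) (nat_lit 228) (nat_lit 6238594437) (nat_lit 304) (nat_lit 21105894038) (nat_lit 95) (nat_lit 5) (nat_lit 98) (nat_lit 5) (nat_lit 99) (nat_lit 5) (nat_lit 432) (nat_lit 367) (nat_lit 221)))) (XT.nd (nat_lit 156) (nat_lit 304) (nat_lit 0) (XT.nd (nat_lit 78) (nat_lit 228) (nat_lit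 0) (XT.lf (nat_lit 0) (nat_lit 13177960254) (nat_lit 304) (nat_lit 11969153142) (nat_lit 76) (nat_lit 3326825993) (nat_lit 95) (nat_lit 5) (nat_lit 99) (nat_lit 5) (nat_lit 96) (nat_lit 5) (nat_lit 433) (nat_lit 367) (nat_lit 220)) (XT.lf (nat_lit 0) (nat_lit 3869230969) (nat_lit 228) (nat_lit 15946374612) (nat_lit 304) (nat_lit 9217446110) (nat_lit 92) (nat_lit 5) (nat_lit 95) (nat_lit 5) (nat_lit 96) (nat_lit 5) (nat_lit 434) (nat_lit 367) (nat_lit 219))) (XT.nd (nat_lit 78) (nat_lit 304) (nat_lit 0) (XT.lf (nat_lit 0) (nat_lit 20416293972) (nat_lit 228) (nat_lit 6349665971) (nat_lit 304) (nat_lit 2839571487) (nat_lit 92) (nat_lit 5) (nat_lit 95) (nat_lit 5) (nat_lit 96) (nat_lit 5) (nat_lit 435) (nat_lit 367) (nat_lit 218)) (XT.lf (nat_lit 0) (nat_lit 3755464540) (nat_lit 304) (nat_lit 22866456847) (nat_lit 76) (nat_lit 3569231885) (nat_lit 88) (nat_lit 5) (nat_lit 92) (nat_lit 5) (nat_lit 89) (nat_lit 5)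 (nat_lit 436) (nat_lit 367) (nat_lit 217)))))) (XT.nd (nat_lit 546) (nat_lit 836) (nat_lit 0) (XT.nd (nat_lit 234) (nat_lit 608) (nat_lit 0) (XT.nd (nat_lit 78) (nat_lit 228) (nat_lit 0) (XT.lf (nat_lit 0) (nat_lit 10640769033) (nat_lit 304) (nat_lit 6372725978) (nat_lit 76) (nat_lit 13775521956) (nat_lit 88) (nat_lit 5) (nat_lit 92) (nat_lit 5) (nat_lit 89) (nat_lit 5) (nat_lit 437) (nat_lit 367) (nat_lit 216)) (XT.nd (nat_lit 78) (nat_lit 0) (nat_lit 0) (XT.lf (nat_lit 0) (nat_lit 10815523530) (nat_lit 228) (nat_lit 7014191020) (nat_lit 304) (nat_lit 13572190862) (nat_lit 85) (nat_lit 5) (nat_lit 88) (nat_lit 5) (nat_lit 89) (nat_lit 5) (nat_lit 438) (nat_lit 367) (nat_lit 215)) (XT.lf (nat_lit 0) (nat_lit 25324062231) (nat_lit 304) (nat_lit 3424804450) (nat_lit 76) (nat_lit 3281623072) (nat_lit 85) (nat_lit 5) (nat_lit 89) (nat_lit 5) (nat_lit 86) (nat_lit 5) (nat_lit 439) (nat_lit 367) (nat_lit 214)))) (XT.nd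 (nat_lit 156) (nat_lit 380) (nat_lit 0) (XT.nd (nat_lit 78) (nat_lit 0) (nat_lit 0) (XT.lf (nat_lit 0) (nat_lit 561921734) (nat_lit 228) (nat_lit 18224246100) (nat_lit 76) (nat_lit 13885547384) (nat_lit 82) (nat_lit 5) (nat_lit 85) (nat_lit 5) (nat_lit 83) (nat_lit 5) (nat_lit 440) (nat_lit 367) (nat_lit 213)) (XT.lf (nat_lit 0) (nat_lit 7941842442) (nat_lit 228) (nat_lit 482853220) (nat_lit 76) (nat_lit 24904641520) (nat_lit 82) (nat_lit 5) (nat_lit 85) (nat_lit 5) (nat_lit 83) (nat_lit 5) (nat_lit 441) (nat_lit 367) (nat_lit 212))) (XT.nd (nat_lit 78) (nat_lit 152) (nat_lit 0) (XT.lf (nat_lit 0) (nat_lit 15734344208) (nat_lit 304) (nat_lit 15891066798) (nat_lit 76) (nat_lit 2375542414) (nat_lit 79) (nat_lit 5) (nat_lit 83) (nat_lit 5) (nat_lit 80) (nat_lit 5) (nat_lit 442) (nat_lit 367) (nat_lit 211)) (XT.lf (nat_lit 0) (nat_lit 2532891754) (nat_lit 152) (nat_lit 21334036845) (nat_lit 228) (nat_lit 10822601404)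 (nat_lit 77) (nat_lit 5) (nat_lit 79) (nat_lit 5) (nat_lit 80) (nat_lit 5) (nat_lit 443) (nat_lit 367) (nat_lit 210))))) (XT.nd (nat_lit 312) (nat_lit 380) (nat_lit 0) (XT.nd (nat_lit 156) (nat_lit 152) (nat_lit 0) (XT.nd (nat_lit 78) (nat_lit 304) (nat_lit 0) (XT.lf (nat_lit 0) (nat_lit 21824618522) (nat_lit 152) (nat_lit 10573046378) (nat_lit 228) (nat_lit 2996474805) (nat_lit 77) (nat_lit 5) (nat_lit 79) (nat_lit 5) (nat_lit 80) (nat_lit 5) (nat_lit 444) (nat_lit 367) (nat_lit 209)) (XT.lf (nat_lit 0) (nat_lit 5019401925) (nat_lit 304) (nat_lit 30497084154) (nat_lit 76) (nat_lit 600328385) (nat_lit 73) (nat_lit 5) (nat_lit 77) (nat_lit 5) (nat_lit 74) (nat_lit 5) (nat_lit 445) (nat_lit 367) (nat_lit 208))) (XT.nd (nat_lit 78) (nat_lit 152) (nat_lit 0) (XT.lf (nat_lit 0) (nat_lit 13452460431) (nat_lit 304) (nat_lit 11340498975) (nat_lit 76) (nat_lit 12060213033) (nat_lit 73) (nat_lit 5) (nat_lit 77) (nat_lit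 5) (nat_lit 74) (nat_lit 5) (nat_lit 446) (nat_lit 367) (nat_lit 207)) (XT.lf (nat_lit 0) (nat_lit 8547327147) (nat_lit 152) (nat_lit 13667390126) (nat_lit 228) (nat_lit 15394618619) (nat_lit 71) (nat_lit 5) (nat_lit 73) (nat_lit 5) (nat_lit 74) (nat_lit 5) (nat_lit 447) (nat_lit 367) (nat_lit 206)))) (XT.nd (nat_lit 156) (nat_lit 152) (nat_lit 0) (XT.nd (nat_lit 78) (nat_lit 228) (nat_lit 0) (XT.lf (nat_lit 0) (nat_lit 29254111863) (nat_lit 152) (nat_lit 2094367144) (nat_lit 228) (nat_lit 7036447034) (nat_lit 71) (nat_lit 5) (nat_lit 73) (nat_lit 5) (nat_lit 74) (nat_lit 5) (nat_lit 448) (nat_lit 367) (nat_lit 205)) (XT.lf (nat_lit 0) (nat_lit 1743187029) (nat_lit 228) (nat_lit 27676239553) (nat_lit 76) (nat_lit 9757862645) (nat_lit 68) (nat_lit 5) (nat_lit 71) (nat_lit 5) (nat_lit 69) (nat_lit 5) (nat_lit 449) (nat_lit 367) (nat_lit 204))) (XT.nd (nat_lit 78) (nat_lit 152) (nat_lit 0) (XT.lf (nat_lit 0) (nat_lit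 10752904226) (nat_lit 228) (nat_lit 7152931224) (nat_lit 76) (nat_lit 22082255065) (nat_lit 68) (nat_lit 5) (nat_lit 71) (nat_lit 5) (nat_lit 69) (nat_lit 5) (nat_lit 450) (nat_lit 367) (nat_lit 203)) (XT.lf (nat_lit 0) (nat_lit 14254525537) (nat_lit 152) (nat_lit 5909844794) (nat_lit 228) (nat_lit 20654902596) (nat_lit 66) (nat_lit 5) (nat_lit 68) (nat_lit 5) (nat_lit 69) (nat_lit 5) (nat_lit 451) (nat_lit 367) (nat_lit 202))))))))
noncomputable def xc166 : XT := (XT.nd (nat_lit 2184) (nat_lit 380) (nat_lit 0) (XT.nd (nat_lit 1092) (nat_lit 912) (nat_lit 0) (XT.nd (nat_lit 546) (nat_lit 608) (nat_lit 0) (XT.nd (nat_lit 234) (nat_lit 380) (nat_lit 0) (XT.nd (nat_lit 78) (nat_lit 228) (nat_lit 0) (XT.lf (nat_lit 0) (nat_lit 29987553604) (nat_lit 228) (nat_lit 5294806982) (nat_lit 76) (nat_lit 6389149813) (nat_lit 66) (nat_lit 5) (nat_lit 69) (nat_lit 5) (nat_lit 67) (nat_lit 5) (nat_lit 452) (nat_lit 367) (nat_lit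 201)) (XT.nd (nat_lit 78) (nat_lit 76) (nat_lit 0) (XT.lf (nat_lit 0) (nat_lit 16874546285) (nat_lit 152) (nat_lit 23446233409) (nat_lit 228) (nat_lit 2222075643) (nat_lit 64) (nat_lit 5) (nat_lit 66) (nat_lit 5) (nat_lit 67) (nat_lit 5) (nat_lit 453) (nat_lit 367) (nat_lit 200)) (XT.lf (nat_lit 0) (nat_lit 7425483551) (nat_lit 228) (nat_lit 3703539455) (nat_lit 76) (nat_lit 32307689611) (nat_lit 63) (nat_lit 5) (nat_lit 66) (nat_lit 5) (nat_lit 64) (nat_lit 5) (nat_lit 454) (nat_lit 367) (nat_lit 199)))) (XT.nd (nat_lit 156) (nat_lit 228) (nat_lit 0) (XT.nd (nat_lit 78) (nat_lit 0) (nat_lit 0) (XT.lf (nat_lit 0) (nat_lit 17514775629) (nat_lit 228) (nat_lit 25103407394) (nat_lit 76) (nat_lit 1732634239) (nat_lit 61) (nat_lit 5) (nat_lit 64) (nat_lit 5) (nat_lit 62) (nat_lit 5) (nat_lit 455) (nat_lit 367) (nat_lit 198)) (XT.lf (nat_lit 0) (nat_lit 28049524535) (nat_lit 228) (nat_lit 2448195900) (nat_lit 76) (nat_lit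 14790341944) (nat_lit 61) (nat_lit 5) (nat_lit 64) (nat_lit 5) (nat_lit 62) (nat_lit 5) (nat_lit 456) (nat_lit 367) (nat_lit 197))) (XT.nd (nat_lit 78) (nat_lit 76) (nat_lit 0) (XT.lf (nat_lit 0) (nat_lit 21293227283) (nat_lit 152) (nat_lit 17806743948) (nat_lit 228) (nat_lit 7147464615) (nat_lit 59) (nat_lit 5) (nat_lit 61) (nat_lit 5) (nat_lit 62) (nat_lit 5) (nat_lit 457) (nat_lit 367) (nat_lit 196)) (XT.lf (nat_lit 0) (nat_lit 3202942995) (nat_lit 228) (nat_lit 1478185575) (nat_lit 76) (nat_lit 42552927892) (nat_lit 58) (nat_lit 5) (nat_lit 61) (nat_lit 5) (nat_lit 59) (nat_lit 5) (nat_lit 458) (nat_lit 367) (nat_lit 195))))) (XT.nd (nat_lit 234) (nat_lit 304) (nat_lit 0) (XT.nd (nat_lit 78) (nat_lit 152) (nat_lit 0) (XT.lf (nat_lit 0) (nat_lit 14024944369) (nat_lit 228) (nat_lit 25256581798) (nat_lit 76) (nat_lit 8957484966) (nat_lit 56) (nat_lit 5) (nat_lit 59) (nat_lit 5) (nat_lit 57) (nat_lit 5) (nat_lit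 459) (nat_lit 367) (nat_lit 194)) (XT.nd (nat_lit 78) (nat_lit 152) (nat_lit 0) (XT.lf (nat_lit 0) (nat_lit 25228179936) (nat_lit 228) (nat_lit 1121724991) (nat_lit 76) (nat_lit 22922512875) (nat_lit 56) (nat_lit 5) (nat_lit 59) (nat_lit 5) (nat_lit 57) (nat_lit 5) (nat_lit 460) (nat_lit 367) (nat_lit 193)) (XT.lf (nat_lit 0) (nat_lit 24200952650) (nat_lit 152) (nat_lit 12794487272) (nat_lit 228) (nat_lit 13334549495) (nat_lit 54) (nat_lit 5) (nat_lit 56) (nat_lit 5) (nat_lit 57) (nat_lit 5) (nat_lit 461) (nat_lit 367) (nat_lit 192)))) (XT.nd (nat_lit 156) (nat_lit 152) (nat_lit 0) (XT.nd (nat_lit 78) (nat_lit 152) (nat_lit 0) (XT.lf (nat_lit 0) (nat_lit 49133694199) (nat_lit 228) (nat_lit 1132472931) (nat_lit 76) (nat_lit 1152582305) (nat_lit 54) (nat_lit 5) (nat_lit 57) (nat_lit 5) (nat_lit 55) (nat_lit 4) (nat_lit 462) (nat_lit 367) (nat_lit 191)) (XT.lf (nat_lit 0) (nat_lit 9284133335) (nat_lit 152) (nat_lit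 27654085342) (nat_lit 76) (nat_lit 15588359915) (nat_lit 52) (nat_lit 5) (nat_lit 54) (nat_lit 5) (nat_lit 53) (nat_lit 5) (nat_lit 463) (nat_lit 367) (nat_lit 190))) (XT.nd (nat_lit 78) (nat_lit 152) (nat_lit 0) (XT.lf (nat_lit 0) (nat_lit 21161478209) (nat_lit 152) (nat_lit 2017470409) (nat_lit 76) (nat_lit 30487805540) (nat_lit 52) (nat_lit 5) (nat_lit 54) (nat_lit 5) (nat_lit 53) (nat_lit 5) (nat_lit 464) (nat_lit 367) (nat_lit 189)) (XT.lf (nat_lit 0) (nat_lit 24865441445) (nat_lit 152) (nat_lit 8764315091) (nat_lit 228) (nat_lit 21204340551) (nat_lit 50) (nat_lit 5) (nat_lit 52) (nat_lit 5) (nat_lit 53) (nat_lit 5) (nat_lit 465) (nat_lit 367) (nat_lit 188)))))) (XT.nd (nat_lit 546) (nat_lit 456) (nat_lit 0) (XT.nd (nat_lit 234) (nat_lit 304) (nat_lit 0) (XT.nd (nat_lit 78) (nat_lit 152) (nat_lit 0) (XT.lf (nat_lit 0) (nat_lit 46546737567) (nat_lit 228) (nat_lit 3506359218) (nat_lit 76) (nat_lit 5981124361)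 (nat_lit 50) (nat_lit 5) (nat_lit 53) (nat_lit 5) (nat_lit 51) (nat_lit 4) (nat_lit 466) (nat_lit 367) (nat_lit 187)) (XT.nd (nat_lit 78) (nat_lit 0) (nat_lit 0) (XT.lf (nat_lit 0) (nat_lit 2848055816) (nat_lit 152) (nat_lit 33162822556) (nat_lit 76) (nat_lit 21249200563) (nat_lit 48) (nat_lit 5) (nat_lit 50) (nat_lit 5) (nat_lit 49) (nat_lit 5) (nat_lit 467) (nat_lit 367) (nat_lit 186)) (XT.lf (nat_lit 0) (nat_lit 15394474920) (nat_lit 152) (nat_lit 6022887584) (nat_lit 76) (nat_lit 37101587247) (nat_lit 48) (nat_lit 5) (nat_lit 50) (nat_lit 5) (nat_lit 49) (nat_lit 5) (nat_lit 468) (nat_lit 367) (nat_lit 185)))) (XT.nd (nat_lit 156) (nat_lit 152) (nat_lit 0) (XT.nd (nat_lit 78) (nat_lit 0) (nat_lit 0) (XT.lf (nat_lit 0) (nat_lit 22359988108) (nat_lit 152) (nat_lit 6168104947) (nat_lit 228) (nat_lit 31281169864) (nat_lit 46) (nat_lit 5) (nat_lit 48) (nat_lit 5) (nat_lit 49) (nat_lit 5) (nat_lit 469) (nat_lit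 367) (nat_lit 184)) (XT.lf (nat_lit 0) (nat_lit 42204716248) (nat_lit 228) (nat_lit 9518537763) (nat_lit 76) (nat_lit 9410561984) (nat_lit 46) (nat_lit 5) (nat_lit 49) (nat_lit 5) (nat_lit 47) (nat_lit 4) (nat_lit 470) (nat_lit 367) (nat_lit 183))) (XT.nd (nat_lit 78) (nat_lit 76) (nat_lit 0) (XT.lf (nat_lit 0) (nat_lit 19563428367) (nat_lit 76) (nat_lit 36973339481) (nat_lit 152) (nat_lit 5953984322) (nat_lit 45) (nat_lit 5) (nat_lit 46) (nat_lit 5) (nat_lit 47) (nat_lit 4) (nat_lit 471) (nat_lit 367) (nat_lit 182)) (XT.lf (nat_lit 0) (nat_lit 7358861937) (nat_lit 152) (nat_lit 14252106615) (nat_lit 76) (nat_lit 42272498837) (nat_lit 44) (nat_lit 5) (nat_lit 46) (nat_lit 5) (nat_lit 45) (nat_lit 5) (nat_lit 472) (nat_lit 367) (nat_lit 181))))) (XT.nd (nat_lit 234) (nat_lit 228) (nat_lit 0) (XT.nd (nat_lit 78) (nat_lit 76) (nat_lit 0) (XT.lf (nat_lit 0) (nat_lit 15520101778) (nat_lit 152) (nat_lit 5576637960)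 (nat_lit 228) (nat_lit 44215096720) (nat_lit 42) (nat_lit 5) (nat_lit 44) (nat_lit 5) (nat_lit 45) (nat_lit 5) (nat_lit 473) (nat_lit 367) (nat_lit 180)) (XT.nd (nat_lit 78) (nat_lit 76) (nat_lit 0) (XT.lf (nat_lit 0) (nat_lit 35493386626) (nat_lit 228) (nat_lit 20414864614) (nat_lit 76) (nat_lit 10867406729) (nat_lit 42) (nat_lit 5) (nat_lit 45) (nat_lit 5) (nat_lit 43) (nat_lit 4) (nat_lit 474) (nat_lit 367) (nat_lit 179)) (XT.lf (nat_lit 0) (nat_lit 9975788479) (nat_lit 76) (nat_lit 40493504288) (nat_lit 152) (nat_lit 17809680905) (nat_lit 41) (nat_lit 5) (nat_lit 42) (nat_lit 5) (nat_lit 43) (nat_lit 4) (nat_lit 475) (nat_lit 367) (nat_lit 178)))) (XT.nd (nat_lit 156) (nat_lit 0) (nat_lit 0) (XT.nd (nat_lit 78) (nat_lit 228) (nat_lit 0) (XT.lf (nat_lit 0) (nat_lit 41689741831) (nat_lit 76) (nat_lit 24407179386) (nat_lit 152) (nat_lit 3724394609) (nat_lit 41) (nat_lit 5) (nat_lit 42) (nat_lit 5) (nat_lit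 43) (nat_lit 4) (nat_lit 476) (nat_lit 367) (nat_lit 177)) (XT.lf (nat_lit 0) (nat_lit 2891169984) (nat_lit 152) (nat_lit 7706015032) (nat_lit 228) (nat_lit 60808909066) (nat_lit 38) (nat_lit 5) (nat_lit 40) (nat_lit 5) (nat_lit 41) (nat_lit 5) (nat_lit 477) (nat_lit 367) (nat_lit 176))) (XT.nd (nat_lit 78) (nat_lit 0) (nat_lit 0) (XT.lf (nat_lit 0) (nat_lit 25648103226) (nat_lit 228) (nat_lit 37746385676) (nat_lit 76) (nat_lit 9631584397) (nat_lit 38) (nat_lit 5) (nat_lit 41) (nat_lit 5) (nat_lit 39) (nat_lit 4) (nat_lit 478) (nat_lit 367) (nat_lit 175)) (XT.lf (nat_lit 0) (nat_lit 41223330002) (nat_lit 228) (nat_lit 6137677828) (nat_lit 76) (nat_lit 27331460929) (nat_lit 38) (nat_lit 5) (nat_lit 41) (nat_lit 5) (nat_lit 39) (nat_lit 4) (nat_lit 479) (nat_lit 367) (nat_lit 174))))))) (XT.nd (nat_lit 45006) (nat_lit 0) (nat_lit 14364) (XT.nd (nat_lit 44460) (nat_lit 0) (nat_lit 17708) (XT.nd (nat_lit 234) (nat_lit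 76) (nat_lit 0) (XT.nd (nat_lit 78) (nat_lit 228) (nat_lit 0) (XT.lf (nat_lit 0) (nat_lit 26938562010) (nat_lit 76) (nat_lit 30582787763) (nat_lit 152) (nat_lit 18879840509) (nat_lit 37) (nat_lit 5) (nat_lit 38) (nat_lit 5) (nat_lit 39) (nat_lit 4) (nat_lit 480) (nat_lit 367) (nat_lit 173)) (XT.nd (nat_lit 78) (nat_lit 228) (nat_lit 0) (XT.lf (nat_lit 0) (nat_lit 61126570524) (nat_lit 76) (nat_lit 13240342914) (nat_lit 152) (nat_lit 3792502193) (nat_lit 37) (nat_lit 5) (nat_lit 38) (nat_lit 5) (nat_lit 39) (nat_lit 4) (nat_lit 481) (nat_lit 367) (nat_lit 172)) (XT.lf (nat_lit 0) (nat_lit 11721332621) (nat_lit 228) (nat_lit 63435308687) (nat_lit 76) (nat_lit 4804265637) (nat_lit 34) (nat_lit 5) (nat_lit 37) (nat_lit 5) (nat_lit 35) (nat_lit 4) (nat_lit 482) (nat_lit 367) (nat_lit 171)))) (XT.nd (nat_lit 156) (nat_lit 0) (nat_lit 0) (XT.nd (nat_lit 78) (nat_lit 76) (nat_lit 0) (XT.lf (nat_lit 0) (nat_lit 27925850634)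 (nat_lit 228) (nat_lit 30547902763) (nat_lit 76) (nat_lit 23332518560) (nat_lit 34) (nat_lit 5) (nat_lit 37) (nat_lit 5) (nat_lit 35) (nat_lit 4) (nat_lit 483) (nat_lit 367) (nat_lit 170)) (XT.lf (nat_lit 0) (nat_lit 3386156515) (nat_lit 76) (nat_lit 41259693496) (nat_lit 152) (nat_lit 39060267780) (nat_lit 33) (nat_lit 5) (nat_lit 34) (nat_lit 5) (nat_lit 35) (nat_lit 4) (nat_lit 484) (nat_lit 367) (nat_lit 169))) (XT.nd (nat_lit 43992) (nat_lit 0) (nat_lit 18620) (XT.lf (nat_lit 0) (nat_lit 38958453961) (nat_lit 76) (nat_lit 23214301128) (nat_lit 152) (nat_lit 23481044980) (nat_lit 33) (nat_lit 5) (nat_lit 34) (nat_lit 5) (nat_lit 35) (nat_lit 4) (nat_lit 485) (nat_lit 367) (nat_lit 168)) (XT.lf (nat_lit 0) (nat_lit 2287938693) (nat_lit 1140) (nat_lit 1310295864) (nat_lit 1140) (nat_lit 1310295864) (nat_lit 278) (nat_lit 3) (nat_lit 293) (nat_lit 3) (nat_lit 293) (nat_lit 5) (nat_lit 368) (nat_lit 368) (nat_lit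 284))))) (XT.nd (nat_lit 234) (nat_lit 912) (nat_lit 0) (XT.nd (nat_lit 78) (nat_lit 0) (nat_lit 76) (XT.lf (nat_lit 76) (nat_lit 2163338185) (nat_lit 0) (nat_lit 3222711143) (nat_lit 1140) (nat_lit 4555688585) (nat_lit 279) (nat_lit 5) (nat_lit 278) (nat_lit 3) (nat_lit 293) (nat_lit 5) (nat_lit 369) (nat_lit 368) (nat_lit 283)) (XT.nd (nat_lit 78) (nat_lit 0) (nat_lit 0) (XT.lf (nat_lit 0) (nat_lit 6227475920) (nat_lit 1064) (nat_lit 2949255156) (nat_lit 1140) (nat_lit 893228723) (nat_lit 279) (nat_lit 5) (nat_lit 293) (nat_lit 5) (nat_lit 294) (nat_lit 5) (nat_lit 370) (nat_lit 368) (nat_lit 282)) (XT.lf (nat_lit 76) (nat_lit 2016900255) (nat_lit 0) (nat_lit 5101219578) (nat_lit 1140) (nat_lit 3083201885) (nat_lit 280) (nat_lit 5) (nat_lit 279) (nat_lit 5) (nat_lit 294) (nat_lit 5) (nat_lit 371) (nat_lit 368) (nat_lit 281)))) (XT.nd (nat_lit 156) (nat_lit 988) (nat_lit 0) (XT.nd (nat_lit 78) (nat_lit 0) (nat_lit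 76) (XT.lf (nat_lit 76) (nat_lit 7177334836) (nat_lit 0) (nat_lit 861258748) (nat_lit 1140) (nat_lit 2297949838) (nat_lit 280) (nat_lit 5) (nat_lit 279) (nat_lit 5) (nat_lit 294) (nat_lit 5) (nat_lit 372) (nat_lit 368) (nat_lit 280)) (XT.lf (nat_lit 76) (nat_lit 2006598948) (nat_lit 0) (nat_lit 7007285185) (nat_lit 1140) (nat_lit 1461133453) (nat_lit 281) (nat_lit 5) (nat_lit 280) (nat_lit 5) (nat_lit 295) (nat_lit 5) (nat_lit 373) (nat_lit 368) (nat_lit 279))) (XT.nd (nat_lit 78) (nat_lit 1064) (nat_lit 0) (XT.lf (nat_lit 76) (nat_lit 7367980633) (nat_lit 0) (nat_lit 2665613785) (nat_lit 1140) (nat_lit 583608269) (nat_lit 281) (nat_lit 5) (nat_lit 280) (nat_lit 5) (nat_lit 295) (nat_lit 5) (nat_lit 374) (nat_lit 368) (nat_lit 278)) (XT.lf (nat_lit 0) (nat_lit 327642520) (nat_lit 1140) (nat_lit 8631471102) (nat_lit 1216) (nat_lit 1804048777) (nat_lit 266) (nat_lit 5) (nat_lit 281) (nat_lit 5) (nat_lit 282) (nat_lit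 5) (nat_lit 375) (nat_lit 368) (nat_lit 277)))))) (XT.nd (nat_lit 546) (nat_lit 3344) (nat_lit 0) (XT.nd (nat_lit 234) (nat_lit 0) (nat_lit 76) (XT.nd (nat_lit 78) (nat_lit 0) (nat_lit 76) (XT.lf (nat_lit 0) (nat_lit 1289980817) (nat_lit 1140) (nat_lit 3220556605) (nat_lit 1216) (nat_lit 6401736296) (nat_lit 266) (nat_lit 5) (nat_lit 281) (nat_lit 5) (nat_lit 282) (nat_lit 5) (nat_lit 376) (nat_lit 368) (nat_lit 276)) (XT.nd (nat_lit 78) (nat_lit 0) (nat_lit 0) (XT.lf (nat_lit 0) (nat_lit 2281740799) (nat_lit 1140) (nat_lit 8683384761) (nat_lit 1216) (nat_lit 100726524) (nat_lit 267) (nat_lit 5) (nat_lit 282) (nat_lit 5) (nat_lit 283) (nat_lit 5) (nat_lit 377) (nat_lit 368) (nat_lit 275)) (XT.lf (nat_lit 0) (nat_lit 3358008440) (nat_lit 1140) (nat_lit 3064764168) (nat_lit 1216) (nat_lit 4799632501) (nat_lit 267) (nat_lit 5) (nat_lit 282) (nat_lit 5) (nat_lit 283) (nat_lit 5) (nat_lit 378) (nat_lit 368) (nat_lit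 274)))) (XT.nd (nat_lit 156) (nat_lit 0) (nat_lit 76) (XT.nd (nat_lit 78) (nat_lit 0) (nat_lit 76) (XT.lf (nat_lit 76) (nat_lit 2760435003) (nat_lit 0) (nat_lit 1710579412) (nat_lit 1216) (nat_lit 6912516467) (nat_lit 268) (nat_lit 5) (nat_lit 267) (nat_lit 5) (nat_lit 283) (nat_lit 5) (nat_lit 379) (nat_lit 368) (nat_lit 273)) (XT.lf (nat_lit 0) (nat_lit 5657341799) (nat_lit 1140) (nat_lit 2772270429) (nat_lit 1216) (nat_lit 3118689648) (nat_lit 268) (nat_lit 5) (nat_lit 283) (nat_lit 5) (nat_lit 284) (nat_lit 5) (nat_lit 380) (nat_lit 368) (nat_lit 272))) (XT.nd (nat_lit 78) (nat_lit 0) (nat_lit 76) (XT.lf (nat_lit 76) (nat_lit 3285325088) (nat_lit 0) (nat_lit 3621542606) (nat_lit 1216) (nat_lit 4810329156) (nat_lit 269) (nat_lit 5) (nat_lit 268) (nat_lit 5) (nat_lit 284) (nat_lit 5) (nat_lit 381) (nat_lit 368) (nat_lit 271)) (XT.lf (nat_lit 0) (nat_lit 8214537282) (nat_lit 1140) (nat_lit 2338348888) (nat_lit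 1216) (nat_lit 1337661609) (nat_lit 269) (nat_lit 5) (nat_lit 284) (nat_lit 5) (nat_lit 285) (nat_lit 5) (nat_lit 382) (nat_lit 368) (nat_lit 270))))) (XT.nd (nat_lit 312) (nat_lit 2432) (nat_lit 0) (XT.nd (nat_lit 156) (nat_lit 1140) (nat_lit 0) (XT.nd (nat_lit 78) (nat_lit 0) (nat_lit 0) (XT.lf (nat_lit 76) (nat_lit 3963505856) (nat_lit 0) (nat_lit 5652076027) (nat_lit 1216) (nat_lit 2451901593) (nat_lit 270) (nat_lit 5) (nat_lit 269) (nat_lit 5) (nat_lit 285) (nat_lit 5) (nat_lit 383) (nat_lit 368) (nat_lit 269)) (XT.lf (nat_lit 76) (nat_lit 10486547336) (nat_lit 0) (nat_lit 576336784) (nat_lit 1216) (nat_lit 1186724674) (nat_lit 270) (nat_lit 5) (nat_lit 269) (nat_lit 5) (nat_lit 285) (nat_lit 5) (nat_lit 384) (nat_lit 368) (nat_lit 268))) (XT.nd (nat_lit 78) (nat_lit 0) (nat_lit 0) (XT.lf (nat_lit 0) (nat_lit 186919286) (nat_lit 1216) (nat_lit 7635770559) (nat_lit 76) (nat_lit 4612298817) (nat_lit 254)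 (nat_lit 5) (nat_lit 270) (nat_lit 5) (nat_lit 255) (nat_lit 5) (nat_lit 385) (nat_lit 368) (nat_lit 267)) (XT.lf (nat_lit 0) (nat_lit 1583023885) (nat_lit 1216) (nat_lit 1064690854) (nat_lit 76) (nat_lit 9977717225) (nat_lit 254) (nat_lit 5) (nat_lit 270) (nat_lit 5) (nat_lit 255) (nat_lit 5) (nat_lit 386) (nat_lit 368) (nat_lit 266)))) (XT.nd (nat_lit 156) (nat_lit 1216) (nat_lit 0) (XT.nd (nat_lit 78) (nat_lit 0) (nat_lit 0) (XT.lf (nat_lit 0) (nat_lit 3085093653) (nat_lit 1292) (nat_lit 7045803645) (nat_lit 76) (nat_lit 2688776214) (nat_lit 238) (nat_lit 5) (nat_lit 255) (nat_lit 5) (nat_lit 239) (nat_lit 5) (nat_lit 387) (nat_lit 368) (nat_lit 265)) (XT.lf (nat_lit 0) (nat_lit 4651653200) (nat_lit 1292) (nat_lit 222431138) (nat_lit 76) (nat_lit 8145082329) (nat_lit 238) (nat_lit 5) (nat_lit 255) (nat_lit 5) (nat_lit 239) (nat_lit 5) (nat_lit 388) (nat_lit 368) (nat_lit 264))) (XT.nd (nat_lit 78) (nat_lit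 608) (nat_lit 0) (XT.lf (nat_lit 0) (nat_lit 6320515601) (nat_lit 684) (nat_lit 6303893351) (nat_lit 76) (nat_lit 598583466) (nat_lit 230) (nat_lit 5) (nat_lit 239) (nat_lit 5) (nat_lit 231) (nat_lit 5) (nat_lit 389) (nat_lit 368) (nat_lit 263)) (XT.lf (nat_lit 0) (nat_lit 797854871) (nat_lit 608) (nat_lit 7283016637) (nat_lit 684) (nat_lit 5350825383) (nat_lit 222) (nat_lit 5) (nat_lit 230) (nat_lit 5) (nat_lit 231) (nat_lit 5) (nat_lit 390) (nat_lit 368) (nat_lit 262))))))))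
noncomputable def xc167 : XT := (XT.nd (nat_lit 2262) (nat_lit 4180) (nat_lit 0) (XT.nd (nat_lit 1092) (nat_lit 3572) (nat_lit 0) (XT.nd (nat_lit 546) (nat_lit 1976) (nat_lit 0) (XT.nd (nat_lit 234) (nat_lit 1140) (nat_lit 0) (XT.nd (nat_lit 78) (nat_lit 608) (nat_lit 0) (XT.lf (nat_lit 0) (nat_lit 8226033173) (nat_lit 608) (nat_lit 1715229511) (nat_lit 684) (nat_lit 3703989659) (nat_lit 222) (nat_lit 5) (nat_lit 230) (nat_lit 5) (nat_lit 231) (nat_lit 5) (nat_lit 391) (nat_lit 368) (nat_lit 261)) (XT.nd (nat_lit 78) (nat_lit 0) (nat_lit 0) (XT.lf (nat_lit 0) (nat_lit 1996283330) (nat_lit 608) (nat_lit 9903062244) (nat_lit 684) (nat_lit 1964618874) (nat_lit 214) (nat_lit 5) (nat_lit 222) (nat_lit 5) (nat_lit 223) (nat_lit 5) (nat_lit 392) (nat_lit 368) (nat_lit 260)) (XT.lf (nat_lit 0) (nat_lit 9712299825) (nat_lit 608) (nat_lit 4259775713) (nat_lit 684) (nat_lit 115491446) (nat_lit 214) (nat_lit 5) (nat_lit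 222) (nat_lit 5) (nat_lit 223) (nat_lit 5) (nat_lit 393) (nat_lit 368) (nat_lit 259)))) (XT.nd (nat_lit 156) (nat_lit 532) (nat_lit 0) (XT.nd (nat_lit 78) (nat_lit 0) (nat_lit 0) (XT.lf (nat_lit 0) (nat_lit 1786720541) (nat_lit 608) (nat_lit 10957262834) (nat_lit 76) (nat_lit 1572408444) (nat_lit 206) (nat_lit 5) (nat_lit 214) (nat_lit 5) (nat_lit 207) (nat_lit 5) (nat_lit 394) (nat_lit 368) (nat_lit 258)) (XT.lf (nat_lit 0) (nat_lit 3815431761) (nat_lit 608) (nat_lit 3195140134) (nat_lit 76) (nat_lit 7539328255) (nat_lit 206) (nat_lit 5) (nat_lit 214) (nat_lit 5) (nat_lit 207) (nat_lit 5) (nat_lit 395) (nat_lit 368) (nat_lit 257))) (XT.nd (nat_lit 78) (nat_lit 0) (nat_lit 0) (XT.lf (nat_lit 0) (nat_lit 4879655250) (nat_lit 532) (nat_lit 1057652461) (nat_lit 608) (nat_lit 8852142430) (nat_lit 199) (nat_lit 5) (nat_lit 206) (nat_lit 5) (nat_lit 207) (nat_lit 5) (nat_lit 396) (nat_lit 368) (nat_lit 256)) (XT.lf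 (nat_lit 0) (nat_lit 8189863851) (nat_lit 608) (nat_lit 1837805049) (nat_lit 76) (nat_lit 5006512367) (nat_lit 199) (nat_lit 5) (nat_lit 207) (nat_lit 5) (nat_lit 200) (nat_lit 5) (nat_lit 397) (nat_lit 368) (nat_lit 255))))) (XT.nd (nat_lit 234) (nat_lit 988) (nat_lit 0) (XT.nd (nat_lit 78) (nat_lit 532) (nat_lit 0) (XT.lf (nat_lit 0) (nat_lit 6579024360) (nat_lit 456) (nat_lit 3990770011) (nat_lit 532) (nat_lit 4714671219) (nat_lit 193) (nat_lit 5) (nat_lit 199) (nat_lit 5) (nat_lit 200) (nat_lit 5) (nat_lit 398) (nat_lit 368) (nat_lit 254)) (XT.nd (nat_lit 78) (nat_lit 532) (nat_lit 0) (XT.lf (nat_lit 0) (nat_lit 13047605286) (nat_lit 532) (nat_lit 292743638) (nat_lit 76) (nat_lit 2201120088) (nat_lit 193) (nat_lit 5) (nat_lit 200) (nat_lit 5) (nat_lit 194) (nat_lit 5) (nat_lit 399) (nat_lit 368) (nat_lit 253)) (XT.lf (nat_lit 0) (nat_lit 8483333081) (nat_lit 532) (nat_lit 7224206089) (nat_lit 608) (nat_lit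 95414605) (nat_lit 186) (nat_lit 5) (nat_lit 193) (nat_lit 5) (nat_lit 194) (nat_lit 5) (nat_lit 400) (nat_lit 368) (nat_lit 252)))) (XT.nd (nat_lit 156) (nat_lit 456) (nat_lit 0) (XT.nd (nat_lit 78) (nat_lit 0) (nat_lit 0) (XT.lf (nat_lit 0) (nat_lit 1446721495) (nat_lit 456) (nat_lit 885653010) (nat_lit 532) (nat_lit 13739116365) (nat_lit 179) (nat_lit 5) (nat_lit 185) (nat_lit 5) (nat_lit 186) (nat_lit 5) (nat_lit 401) (nat_lit 368) (nat_lit 251)) (XT.lf (nat_lit 0) (nat_lit 4947027772) (nat_lit 532) (nat_lit 5791061148) (nat_lit 76) (nat_lit 5606492852) (nat_lit 179) (nat_lit 5) (nat_lit 186) (nat_lit 5) (nat_lit 180) (nat_lit 5) (nat_lit 402) (nat_lit 368) (nat_lit 250))) (XT.nd (nat_lit 78) (nat_lit 0) (nat_lit 0) (XT.lf (nat_lit 0) (nat_lit 3349322111) (nat_lit 456) (nat_lit 4319198121) (nat_lit 532) (nat_lit 8956497533) (nat_lit 173) (nat_lit 5) (nat_lit 179) (nat_lit 5) (nat_lit 180) (nat_lit 5) (nat_lit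 403) (nat_lit 368) (nat_lit 249)) (XT.lf (nat_lit 0) (nat_lit 10540384925) (nat_lit 532) (nat_lit 4067227552) (nat_lit 76) (nat_lit 2304196760) (nat_lit 173) (nat_lit 5) (nat_lit 180) (nat_lit 5) (nat_lit 174) (nat_lit 5) (nat_lit 404) (nat_lit 368) (nat_lit 248)))))) (XT.nd (nat_lit 546) (nat_lit 1900) (nat_lit 0) (XT.nd (nat_lit 234) (nat_lit 760) (nat_lit 0) (XT.nd (nat_lit 78) (nat_lit 532) (nat_lit 0) (XT.lf (nat_lit 0) (nat_lit 5466716835) (nat_lit 380) (nat_lit 8114998121) (nat_lit 456) (nat_lit 3622994317) (nat_lit 168) (nat_lit 5) (nat_lit 173) (nat_lit 5) (nat_lit 174) (nat_lit 5) (nat_lit 405) (nat_lit 368) (nat_lit 247)) (XT.nd (nat_lit 78) (nat_lit 532) (nat_lit 0) (XT.lf (nat_lit 0) (nat_lit 15355508985) (nat_lit 380) (nat_lit 1388052391) (nat_lit 456) (nat_lit 761960623) (nat_lit 168) (nat_lit 5) (nat_lit 173) (nat_lit 5) (nat_lit 174) (nat_lit 5) (nat_lit 406) (nat_lit 368) (nat_lit 246)) (XT.lf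 (nat_lit 0) (nat_lit 2260283400) (nat_lit 532) (nat_lit 10023707164) (nat_lit 76) (nat_lit 5527201775) (nat_lit 161) (nat_lit 5) (nat_lit 168) (nat_lit 5) (nat_lit 162) (nat_lit 5) (nat_lit 407) (nat_lit 368) (nat_lit 245)))) (XT.nd (nat_lit 156) (nat_lit 380) (nat_lit 0) (XT.nd (nat_lit 78) (nat_lit 380) (nat_lit 0) (XT.lf (nat_lit 0) (nat_lit 5382153823) (nat_lit 532) (nat_lit 94233888) (nat_lit 76) (nat_lit 12648694187) (nat_lit 161) (nat_lit 5) (nat_lit 168) (nat_lit 5) (nat_lit 162) (nat_lit 5) (nat_lit 408) (nat_lit 368) (nat_lit 244)) (XT.lf (nat_lit 0) (nat_lit 8701535639) (nat_lit 456) (nat_lit 8141056585) (nat_lit 76) (nat_lit 1602683798) (nat_lit 156) (nat_lit 5) (nat_lit 162) (nat_lit 5) (nat_lit 157) (nat_lit 5) (nat_lit 409) (nat_lit 368) (nat_lit 243))) (XT.nd (nat_lit 78) (nat_lit 0) (nat_lit 0) (XT.lf (nat_lit 0) (nat_lit 2216256654) (nat_lit 380) (nat_lit 9969823790) (nat_lit 456) (nat_lit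 6587031516) (nat_lit 151) (nat_lit 5) (nat_lit 156) (nat_lit 5) (nat_lit 157) (nat_lit 5) (nat_lit 410) (nat_lit 368) (nat_lit 242)) (XT.lf (nat_lit 0) (nat_lit 13037042815) (nat_lit 380) (nat_lit 2809604144) (nat_lit 456) (nat_lit 3261994791) (nat_lit 151) (nat_lit 5) (nat_lit 156) (nat_lit 5) (nat_lit 157) (nat_lit 5) (nat_lit 411) (nat_lit 368) (nat_lit 241))))) (XT.nd (nat_lit 312) (nat_lit 1064) (nat_lit 0) (XT.nd (nat_lit 156) (nat_lit 380) (nat_lit 0) (XT.nd (nat_lit 78) (nat_lit 0) (nat_lit 0) (XT.lf (nat_lit 0) (nat_lit 239627986) (nat_lit 456) (nat_lit 14690937259) (nat_lit 76) (nat_lit 4521228037) (nat_lit 145) (nat_lit 5) (nat_lit 151) (nat_lit 5) (nat_lit 146) (nat_lit 5) (nat_lit 412) (nat_lit 368) (nat_lit 240)) (XT.lf (nat_lit 0) (nat_lit 3860096018) (nat_lit 456) (nat_lit 3835450109) (nat_lit 76) (nat_lit 12106346591) (nat_lit 145) (nat_lit 5) (nat_lit 151) (nat_lit 5) (nat_lit 146) (nat_lit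 5) (nat_lit 413) (nat_lit 368) (nat_lit 239))) (XT.nd (nat_lit 78) (nat_lit 0) (nat_lit 0) (XT.lf (nat_lit 0) (nat_lit 7477958847) (nat_lit 380) (nat_lit 173027482) (nat_lit 456) (nat_lit 12509657525) (nat_lit 140) (nat_lit 5) (nat_lit 145) (nat_lit 5) (nat_lit 146) (nat_lit 5) (nat_lit 414) (nat_lit 368) (nat_lit 238)) (XT.lf (nat_lit 0) (nat_lit 11657588577) (nat_lit 456) (nat_lit 1406599343) (nat_lit 76) (nat_lit 7462912924) (nat_lit 140) (nat_lit 5) (nat_lit 146) (nat_lit 5) (nat_lit 141) (nat_lit 5) (nat_lit 415) (nat_lit 368) (nat_lit 237)))) (XT.nd (nat_lit 156) (nat_lit 380) (nat_lit 0) (XT.nd (nat_lit 78) (nat_lit 380) (nat_lit 0) (XT.lf (nat_lit 0) (nat_lit 10395515358) (nat_lit 304) (nat_lit 5480858510) (nat_lit 380) (nat_lit 5025420919) (nat_lit 136) (nat_lit 5) (nat_lit 140) (nat_lit 5) (nat_lit 141) (nat_lit 5) (nat_lit 416) (nat_lit 368) (nat_lit 236)) (XT.lf (nat_lit 0) (nat_lit 1282191762) (nat_lit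 380) (nat_lit 18979059190) (nat_lit 456) (nat_lit 1025295461) (nat_lit 131) (nat_lit 5) (nat_lit 136) (nat_lit 5) (nat_lit 137) (nat_lit 5) (nat_lit 417) (nat_lit 368) (nat_lit 235))) (XT.nd (nat_lit 78) (nat_lit 304) (nat_lit 0) (XT.lf (nat_lit 0) (nat_lit 3186366606) (nat_lit 456) (nat_lit 8138611556) (nat_lit 76) (nat_lit 10352414773) (nat_lit 130) (nat_lit 5) (nat_lit 136) (nat_lit 5) (nat_lit 131) (nat_lit 5) (nat_lit 418) (nat_lit 368) (nat_lit 234)) (XT.lf (nat_lit 0) (nat_lit 4140571719) (nat_lit 304) (nat_lit 3393792392) (nat_lit 380) (nat_lit 14544380889) (nat_lit 126) (nat_lit 5) (nat_lit 130) (nat_lit 5) (nat_lit 131) (nat_lit 5) (nat_lit 419) (nat_lit 368) (nat_lit 233))))))) (XT.nd (nat_lit 1092) (nat_lit 1824) (nat_lit 0) (XT.nd (nat_lit 546) (nat_lit 1140) (nat_lit 0) (XT.nd (nat_lit 234) (nat_lit 912) (nat_lit 0) (XT.nd (nat_lit 78) (nat_lit 304) (nat_lit 0) (XT.lf (nat_lit 0) (nat_lit 12132598430)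 (nat_lit 380) (nat_lit 5594710186) (nat_lit 76) (nat_lit 4761237514) (nat_lit 126) (nat_lit 5) (nat_lit 131) (nat_lit 5) (nat_lit 127) (nat_lit 5) (nat_lit 420) (nat_lit 368) (nat_lit 232)) (XT.nd (nat_lit 78) (nat_lit 0) (nat_lit 0) (XT.lf (nat_lit 0) (nat_lit 7213314545) (nat_lit 304) (nat_lit 9749566886) (nat_lit 380) (nat_lit 5944939153) (nat_lit 122) (nat_lit 5) (nat_lit 126) (nat_lit 5) (nat_lit 127) (nat_lit 5) (nat_lit 421) (nat_lit 368) (nat_lit 231)) (XT.lf (nat_lit 0) (nat_lit 20507494444) (nat_lit 304) (nat_lit 1478369714) (nat_lit 380) (nat_lit 1352377646) (nat_lit 122) (nat_lit 5) (nat_lit 126) (nat_lit 5) (nat_lit 127) (nat_lit 5) (nat_lit 422) (nat_lit 368) (nat_lit 230)))) (XT.nd (nat_lit 156) (nat_lit 228) (nat_lit 0) (XT.nd (nat_lit 78) (nat_lit 304) (nat_lit 0) (XT.lf (nat_lit 0) (nat_lit 3474184303) (nat_lit 380) (nat_lit 13266438426) (nat_lit 76) (nat_lit 7035116749) (nat_lit 117) (nat_lit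 5) (nat_lit 122) (nat_lit 5) (nat_lit 118) (nat_lit 5) (nat_lit 423) (nat_lit 368) (nat_lit 229)) (XT.lf (nat_lit 0) (nat_lit 41917766) (nat_lit 304) (nat_lit 8411905636) (nat_lit 380) (nat_lit 15771075209) (nat_lit 113) (nat_lit 5) (nat_lit 117) (nat_lit 5) (nat_lit 118) (nat_lit 5) (nat_lit 424) (nat_lit 368) (nat_lit 228))) (XT.nd (nat_lit 78) (nat_lit 228) (nat_lit 0) (XT.lf (nat_lit 0) (nat_lit 13711383626) (nat_lit 380) (nat_lit 10677719343) (nat_lit 76) (nat_lit 294575609) (nat_lit 113) (nat_lit 5) (nat_lit 118) (nat_lit 5) (nat_lit 114) (nat_lit 5) (nat_lit 425) (nat_lit 368) (nat_lit 227)) (XT.lf (nat_lit 0) (nat_lit 3199467476) (nat_lit 228) (nat_lit 16033126540) (nat_lit 304) (nat_lit 5920452186) (nat_lit 110) (nat_lit 5) (nat_lit 113) (nat_lit 5) (nat_lit 114) (nat_lit 5) (nat_lit 426) (nat_lit 368) (nat_lit 226))))) (XT.nd (nat_lit 234) (nat_lit 760) (nat_lit 0) (XT.nd (nat_lit 78) (nat_lit 380)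 (nat_lit 0) (XT.lf (nat_lit 0) (nat_lit 17699594579) (nat_lit 228) (nat_lit 7319670712) (nat_lit 304) (nat_lit 614236727) (nat_lit 110) (nat_lit 5) (nat_lit 113) (nat_lit 5) (nat_lit 114) (nat_lit 5) (nat_lit 427) (nat_lit 368) (nat_lit 225)) (XT.nd (nat_lit 78) (nat_lit 0) (nat_lit 0) (XT.lf (nat_lit 0) (nat_lit 4828826452) (nat_lit 380) (nat_lit 19566287319) (nat_lit 76) (nat_lit 1729690812) (nat_lit 105) (nat_lit 5) (nat_lit 110) (nat_lit 5) (nat_lit 106) (nat_lit 5) (nat_lit 428) (nat_lit 368) (nat_lit 224)) (XT.lf (nat_lit 0) (nat_lit 10568446197) (nat_lit 380) (nat_lit 5071571448) (nat_lit 76) (nat_lit 10986279566) (nat_lit 105) (nat_lit 5) (nat_lit 110) (nat_lit 5) (nat_lit 106) (nat_lit 5) (nat_lit 429) (nat_lit 368) (nat_lit 223)))) (XT.nd (nat_lit 156) (nat_lit 532) (nat_lit 0) (XT.nd (nat_lit 78) (nat_lit 0) (nat_lit 0) (XT.lf (nat_lit 0) (nat_lit 10042164116) (nat_lit 228) (nat_lit 6527076297) (nat_lit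 304) (nat_lit 10570926319) (nat_lit 102) (nat_lit 5) (nat_lit 105) (nat_lit 5) (nat_lit 106) (nat_lit 5) (nat_lit 430) (nat_lit 368) (nat_lit 222)) (XT.lf (nat_lit 0) (nat_lit 22821784795) (nat_lit 304) (nat_lit 1994483132) (nat_lit 76) (nat_lit 2851034261) (nat_lit 102) (nat_lit 5) (nat_lit 106) (nat_lit 5) (nat_lit 103) (nat_lit 5) (nat_lit 431) (nat_lit 368) (nat_lit 221))) (XT.nd (nat_lit 78) (nat_lit 228) (nat_lit 0) (XT.lf (nat_lit 0) (nat_lit 1222587326) (nat_lit 304) (nat_lit 14462140635) (nat_lit 76) (nat_lit 12519478367) (nat_lit 98) (nat_lit 5) (nat_lit 102) (nat_lit 5) (nat_lit 99) (nat_lit 5) (nat_lit 432) (nat_lit 368) (nat_lit 220)) (XT.lf (nat_lit 0) (nat_lit 1198661191) (nat_lit 228) (nat_lit 6201314804) (nat_lit 304) (nat_lit 21355064910) (nat_lit 95) (nat_lit 5) (nat_lit 98) (nat_lit 5) (nat_lit 99) (nat_lit 5) (nat_lit 433) (nat_lit 368) (nat_lit 219)))))) (XT.nd (nat_lit 546) (nat_lit 1064)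 (nat_lit 0) (XT.nd (nat_lit 234) (nat_lit 532) (nat_lit 0) (XT.nd (nat_lit 78) (nat_lit 228) (nat_lit 0) (XT.lf (nat_lit 0) (nat_lit 13937284268) (nat_lit 304) (nat_lit 11739600565) (nat_lit 76) (nat_lit 3640279203) (nat_lit 95) (nat_lit 5) (nat_lit 99) (nat_lit 5) (nat_lit 96) (nat_lit 5) (nat_lit 434) (nat_lit 368) (nat_lit 218)) (XT.nd (nat_lit 78) (nat_lit 0) (nat_lit 0) (XT.lf (nat_lit 0) (nat_lit 4568164215) (nat_lit 228) (nat_lit 16200896001) (nat_lit 304) (nat_lit 9124141609) (nat_lit 92) (nat_lit 5) (nat_lit 95) (nat_lit 5) (nat_lit 96) (nat_lit 5) (nat_lit 435) (nat_lit 368) (nat_lit 217)) (XT.lf (nat_lit 0) (nat_lit 21594662711) (nat_lit 228) (nat_lit 6322806582) (nat_lit 304) (nat_lit 2565702433) (nat_lit 92) (nat_lit 5) (nat_lit 95) (nat_lit 5) (nat_lit 96) (nat_lit 5) (nat_lit 436) (nat_lit 368) (nat_lit 216)))) (XT.nd (nat_lit 156) (nat_lit 228) (nat_lit 0) (XT.nd (nat_lit 78) (nat_lit 0) (nat_lit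 0) (XT.lf (nat_lit 0) (nat_lit 4217493524) (nat_lit 304) (nat_lit 22976746055) (nat_lit 76) (nat_lit 3892101612) (nat_lit 88) (nat_lit 5) (nat_lit 92) (nat_lit 5) (nat_lit 89) (nat_lit 5) (nat_lit 437) (nat_lit 368) (nat_lit 215)) (XT.lf (nat_lit 0) (nat_lit 11299181472) (nat_lit 304) (nat_lit 6004971352) (nat_lit 76) (nat_lit 14398295158) (nat_lit 88) (nat_lit 5) (nat_lit 92) (nat_lit 5) (nat_lit 89) (nat_lit 5) (nat_lit 438) (nat_lit 368) (nat_lit 214))) (XT.nd (nat_lit 78) (nat_lit 0) (nat_lit 0) (XT.lf (nat_lit 0) (nat_lit 11693445873) (nat_lit 228) (nat_lit 7005790343) (nat_lit 304) (nat_lit 13634625496) (nat_lit 85) (nat_lit 5) (nat_lit 88) (nat_lit 5) (nat_lit 89) (nat_lit 5) (nat_lit 439) (nat_lit 368) (nat_lit 213)) (XT.lf (nat_lit 0) (nat_lit 26410710042) (nat_lit 304) (nat_lit 2982447607) (nat_lit 76) (nat_lit 3588378868) (nat_lit 85) (nat_lit 5) (nat_lit 89) (nat_lit 5) (nat_lit 86) (nat_lit 5) (nat_lit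 440) (nat_lit 368) (nat_lit 212))))) (XT.nd (nat_lit 312) (nat_lit 456) (nat_lit 0) (XT.nd (nat_lit 156) (nat_lit 152) (nat_lit 0) (XT.nd (nat_lit 78) (nat_lit 228) (nat_lit 0) (XT.lf (nat_lit 0) (nat_lit 904622931) (nat_lit 228) (nat_lit 18224675010) (nat_lit 76) (nat_lit 14512736729) (nat_lit 82) (nat_lit 5) (nat_lit 85) (nat_lit 5) (nat_lit 83) (nat_lit 5) (nat_lit 441) (nat_lit 368) (nat_lit 211)) (XT.lf (nat_lit 0) (nat_lit 33705771) (nat_lit 228) (nat_lit 8463068901) (nat_lit 304) (nat_lit 25822887271) (nat_lit 79) (nat_lit 5) (nat_lit 82) (nat_lit 5) (nat_lit 83) (nat_lit 5) (nat_lit 442) (nat_lit 368) (nat_lit 210))) (XT.nd (nat_lit 78) (nat_lit 152) (nat_lit 0) (XT.lf (nat_lit 0) (nat_lit 16520609229) (nat_lit 304) (nat_lit 15835240231) (nat_lit 76) (nat_lit 2655652079) (nat_lit 79) (nat_lit 5) (nat_lit 83) (nat_lit 5) (nat_lit 80) (nat_lit 5) (nat_lit 443) (nat_lit 368) (nat_lit 209)) (XT.lf (nat_lit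 0) (nat_lit 3136215915) (nat_lit 152) (nat_lit 21756871860) (nat_lit 228) (nat_lit 10827771702) (nat_lit 77) (nat_lit 5) (nat_lit 79) (nat_lit 5) (nat_lit 80) (nat_lit 5) (nat_lit 444) (nat_lit 368) (nat_lit 208)))) (XT.nd (nat_lit 156) (nat_lit 152) (nat_lit 0) (XT.nd (nat_lit 78) (nat_lit 304) (nat_lit 0) (XT.lf (nat_lit 0) (nat_lit 22991335144) (nat_lit 152) (nat_lit 10679377487) (nat_lit 228) (nat_lit 2776167355) (nat_lit 77) (nat_lit 5) (nat_lit 79) (nat_lit 5) (nat_lit 80) (nat_lit 5) (nat_lit 445) (nat_lit 368) (nat_lit 207)) (XT.lf (nat_lit 0) (nat_lit 5472250477) (nat_lit 304) (nat_lit 30891987020) (nat_lit 76) (nat_lit 826965923) (nat_lit 73) (nat_lit 5) (nat_lit 77) (nat_lit 5) (nat_lit 74) (nat_lit 5) (nat_lit 446) (nat_lit 368) (nat_lit 206))) (XT.nd (nat_lit 78) (nat_lit 152) (nat_lit 0) (XT.lf (nat_lit 0) (nat_lit 14149496859) (nat_lit 304) (nat_lit 11175850199) (nat_lit 76) (nat_lit 12624570575)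 (nat_lit 73) (nat_lit 5) (nat_lit 77) (nat_lit 5) (nat_lit 74) (nat_lit 5) (nat_lit 447) (nat_lit 368) (nat_lit 205)) (XT.lf (nat_lit 0) (nat_lit 9303661062) (nat_lit 152) (nat_lit 13867218369) (nat_lit 228) (nat_lit 15558000160) (nat_lit 71) (nat_lit 5) (nat_lit 73) (nat_lit 5) (nat_lit 74) (nat_lit 5) (nat_lit 448) (nat_lit 368) (nat_lit 204))))))))
noncomputable def xc168 : XT := (XT.nd (nat_lit 2184) (nat_lit 608) (nat_lit 0) (XT.nd (nat_lit 1092) (nat_lit 988) (nat_lit 0) (XT.nd (nat_lit 546) (nat_lit 684) (nat_lit 0) (XT.nd (nat_lit 234) (nat_lit 380) (nat_lit 0) (XT.nd (nat_lit 78) (nat_lit 228) (nat_lit 0) (XT.lf (nat_lit 0) (nat_lit 30617088715) (nat_lit 152) (nat_lit 1953126838) (nat_lit 228) (nat_lit 6957776350) (nat_lit 71) (nat_lit 5) (nat_lit 73) (nat_lit 5) (nat_lit 74) (nat_lit 5) (nat_lit 449) (nat_lit 368) (nat_lit 203)) (XT.nd (nat_lit 78) (nat_lit 0) (nat_lit 0) (XT.lf (nat_lit 0) (nat_lit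 2077968923) (nat_lit 228) (nat_lit 28013812284) (nat_lit 76) (nat_lit 10252311149) (nat_lit 68) (nat_lit 5) (nat_lit 71) (nat_lit 5) (nat_lit 69) (nat_lit 5) (nat_lit 450) (nat_lit 368) (nat_lit 202)) (XT.lf (nat_lit 0) (nat_lit 11349749880) (nat_lit 228) (nat_lit 6889155611) (nat_lit 76) (nat_lit 22940560217) (nat_lit 68) (nat_lit 5) (nat_lit 71) (nat_lit 5) (nat_lit 69) (nat_lit 5) (nat_lit 451) (nat_lit 368) (nat_lit 201)))) (XT.nd (nat_lit 156) (nat_lit 228) (nat_lit 0) (XT.nd (nat_lit 78) (nat_lit 0) (nat_lit 0) (XT.lf (nat_lit 0) (nat_lit 15155835014) (nat_lit 152) (nat_lit 5884290083) (nat_lit 228) (nat_lit 20995562699) (nat_lit 66) (nat_lit 5) (nat_lit 68) (nat_lit 5) (nat_lit 69) (nat_lit 5) (nat_lit 452) (nat_lit 368) (nat_lit 200)) (XT.lf (nat_lit 0) (nat_lit 31152008926) (nat_lit 228) (nat_lit 4987741375) (nat_lit 76) (nat_lit 6773923064) (nat_lit 66) (nat_lit 5) (nat_lit 69) (nat_lit 5) (nat_lit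 67) (nat_lit 5) (nat_lit 453) (nat_lit 368) (nat_lit 199))) (XT.nd (nat_lit 78) (nat_lit 76) (nat_lit 0) (XT.lf (nat_lit 0) (nat_lit 17842124747) (nat_lit 152) (nat_lit 23949828297) (nat_lit 228) (nat_lit 2019305062) (nat_lit 64) (nat_lit 5) (nat_lit 66) (nat_lit 5) (nat_lit 67) (nat_lit 5) (nat_lit 454) (nat_lit 368) (nat_lit 198)) (XT.lf (nat_lit 0) (nat_lit 7904728877) (nat_lit 228) (nat_lit 3361601940) (nat_lit 76) (nat_lit 33465754452) (nat_lit 63) (nat_lit 5) (nat_lit 66) (nat_lit 5) (nat_lit 64) (nat_lit 5) (nat_lit 455) (nat_lit 368) (nat_lit 197))))) (XT.nd (nat_lit 234) (nat_lit 380) (nat_lit 0) (XT.nd (nat_lit 78) (nat_lit 152) (nat_lit 0) (XT.lf (nat_lit 0) (nat_lit 18295418784) (nat_lit 228) (nat_lit 25402151680) (nat_lit 76) (nat_lit 1976082015) (nat_lit 61) (nat_lit 5) (nat_lit 64) (nat_lit 5) (nat_lit 62) (nat_lit 5) (nat_lit 456) (nat_lit 368) (nat_lit 196)) (XT.nd (nat_lit 78) (nat_lit 152)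 (nat_lit 0) (XT.lf (nat_lit 0) (nat_lit 29138777151) (nat_lit 228) (nat_lit 2080517567) (nat_lit 76) (nat_lit 15419944192) (nat_lit 61) (nat_lit 5) (nat_lit 64) (nat_lit 5) (nat_lit 62) (nat_lit 5) (nat_lit 457) (nat_lit 368) (nat_lit 195)) (XT.lf (nat_lit 0) (nat_lit 22368823564) (nat_lit 152) (nat_lit 18148895957) (nat_lit 228) (nat_lit 7109765534) (nat_lit 59) (nat_lit 5) (nat_lit 61) (nat_lit 5) (nat_lit 62) (nat_lit 5) (nat_lit 458) (nat_lit 368) (nat_lit 194)))) (XT.nd (nat_lit 156) (nat_lit 152) (nat_lit 0) (XT.nd (nat_lit 78) (nat_lit 152) (nat_lit 0) (XT.lf (nat_lit 0) (nat_lit 3539034384) (nat_lit 228) (nat_lit 1093647872) (nat_lit 76) (nat_lit 44011166217) (nat_lit 58) (nat_lit 5) (nat_lit 61) (nat_lit 5) (nat_lit 59) (nat_lit 5) (nat_lit 459) (nat_lit 368) (nat_lit 193)) (XT.lf (nat_lit 0) (nat_lit 14684590854) (nat_lit 228) (nat_lit 25584262309) (nat_lit 76) (nat_lit 9410132631) (nat_lit 56) (nat_lit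 5) (nat_lit 59) (nat_lit 5) (nat_lit 57) (nat_lit 5) (nat_lit 460) (nat_lit 368) (nat_lit 192))) (XT.nd (nat_lit 78) (nat_lit 152) (nat_lit 0) (XT.lf (nat_lit 0) (nat_lit 26216965290) (nat_lit 228) (nat_lit 737884563) (nat_lit 76) (nat_lit 23788754393) (nat_lit 56) (nat_lit 5) (nat_lit 59) (nat_lit 5) (nat_lit 57) (nat_lit 5) (nat_lit 461) (nat_lit 368) (nat_lit 191)) (XT.lf (nat_lit 0) (nat_lit 25340380347) (nat_lit 152) (nat_lit 12994081041) (nat_lit 228) (nat_lit 13498525884) (nat_lit 54) (nat_lit 5) (nat_lit 56) (nat_lit 5) (nat_lit 57) (nat_lit 5) (nat_lit 462) (nat_lit 368) (nat_lit 190)))))) (XT.nd (nat_lit 546) (nat_lit 532) (nat_lit 0) (XT.nd (nat_lit 234) (nat_lit 304) (nat_lit 0) (XT.nd (nat_lit 78) (nat_lit 152) (nat_lit 0) (XT.lf (nat_lit 0) (nat_lit 50831908233) (nat_lit 228) (nat_lit 760107402) (nat_lit 76) (nat_lit 1362543896) (nat_lit 54) (nat_lit 5) (nat_lit 57) (nat_lit 5) (nat_lit 55) (nat_lit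 4) (nat_lit 463) (nat_lit 368) (nat_lit 189)) (XT.nd (nat_lit 78) (nat_lit 0) (nat_lit 0) (XT.lf (nat_lit 0) (nat_lit 9786416544) (nat_lit 152) (nat_lit 28076873880) (nat_lit 76) (nat_lit 16232347969) (nat_lit 52) (nat_lit 5) (nat_lit 54) (nat_lit 5) (nat_lit 53) (nat_lit 5) (nat_lit 464) (nat_lit 368) (nat_lit 188)) (XT.lf (nat_lit 0) (nat_lit 22013564506) (nat_lit 152) (nat_lit 1683010033) (nat_lit 76) (nat_lit 31573640926) (nat_lit 52) (nat_lit 5) (nat_lit 54) (nat_lit 5) (nat_lit 53) (nat_lit 5) (nat_lit 465) (nat_lit 368) (nat_lit 187)))) (XT.nd (nat_lit 156) (nat_lit 152) (nat_lit 0) (XT.nd (nat_lit 78) (nat_lit 0) (nat_lit 0) (XT.lf (nat_lit 0) (nat_lit 26002516779) (nat_lit 152) (nat_lit 8850806576) (nat_lit 228) (nat_lit 21619333061) (nat_lit 50) (nat_lit 5) (nat_lit 52) (nat_lit 5) (nat_lit 53) (nat_lit 5) (nat_lit 466) (nat_lit 368) (nat_lit 186)) (XT.lf (nat_lit 0) (nat_lit 48153207804) (nat_lit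 228) (nat_lit 3227200825) (nat_lit 76) (nat_lit 6328514429) (nat_lit 50) (nat_lit 5) (nat_lit 53) (nat_lit 5) (nat_lit 51) (nat_lit 4) (nat_lit 467) (nat_lit 368) (nat_lit 185))) (XT.nd (nat_lit 78) (nat_lit 0) (nat_lit 0) (XT.lf (nat_lit 0) (nat_lit 3143182602) (nat_lit 152) (nat_lit 33772931672) (nat_lit 76) (nat_lit 22055455100) (nat_lit 48) (nat_lit 5) (nat_lit 50) (nat_lit 5) (nat_lit 49) (nat_lit 5) (nat_lit 468) (nat_lit 368) (nat_lit 184)) (XT.lf (nat_lit 0) (nat_lit 16059886946) (nat_lit 152) (nat_lit 5830005706) (nat_lit 76) (nat_lit 38378497505) (nat_lit 48) (nat_lit 5) (nat_lit 50) (nat_lit 5) (nat_lit 49) (nat_lit 5) (nat_lit 469) (nat_lit 368) (nat_lit 183))))) (XT.nd (nat_lit 234) (nat_lit 304) (nat_lit 0) (XT.nd (nat_lit 78) (nat_lit 76) (nat_lit 0) (XT.lf (nat_lit 0) (nat_lit 23400693821) (nat_lit 152) (nat_lit 6184446117) (nat_lit 228) (nat_lit 32012344596) (nat_lit 46) (nat_lit 5) (nat_lit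 48) (nat_lit 5) (nat_lit 49) (nat_lit 5) (nat_lit 470) (nat_lit 368) (nat_lit 182)) (XT.nd (nat_lit 78) (nat_lit 76) (nat_lit 0) (XT.lf (nat_lit 0) (nat_lit 43667775948) (nat_lit 228) (nat_lit 9440656347) (nat_lit 76) (nat_lit 9853471071) (nat_lit 46) (nat_lit 5) (nat_lit 49) (nat_lit 5) (nat_lit 47) (nat_lit 4) (nat_lit 471) (nat_lit 368) (nat_lit 181)) (XT.lf (nat_lit 0) (nat_lit 20510205654) (nat_lit 76) (nat_lit 37917307293) (nat_lit 152) (nat_lit 5932103533) (nat_lit 45) (nat_lit 5) (nat_lit 46) (nat_lit 5) (nat_lit 47) (nat_lit 4) (nat_lit 472) (nat_lit 368) (nat_lit 180)))) (XT.nd (nat_lit 156) (nat_lit 76) (nat_lit 0) (XT.nd (nat_lit 78) (nat_lit 152) (nat_lit 0) (XT.lf (nat_lit 0) (nat_lit 7770489771) (nat_lit 152) (nat_lit 14326460728) (nat_lit 76) (nat_lit 43697277150) (nat_lit 44) (nat_lit 5) (nat_lit 46) (nat_lit 5) (nat_lit 45) (nat_lit 5) (nat_lit 473) (nat_lit 368) (nat_lit 179)) (XT.lf (nat_lit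 0) (nat_lit 16335451083) (nat_lit 152) (nat_lit 5582855711) (nat_lit 228) (nat_lit 45347207431) (nat_lit 42) (nat_lit 5) (nat_lit 44) (nat_lit 5) (nat_lit 45) (nat_lit 5) (nat_lit 474) (nat_lit 368) (nat_lit 178))) (XT.nd (nat_lit 78) (nat_lit 76) (nat_lit 0) (XT.lf (nat_lit 0) (nat_lit 36742861309) (nat_lit 228) (nat_lit 20683742430) (nat_lit 76) (nat_lit 11346766902) (nat_lit 42) (nat_lit 5) (nat_lit 45) (nat_lit 5) (nat_lit 43) (nat_lit 4) (nat_lit 475) (nat_lit 368) (nat_lit 177)) (XT.lf (nat_lit 0) (nat_lit 10615261941) (nat_lit 76) (nat_lit 41550674074) (nat_lit 152) (nat_lit 18155913550) (nat_lit 41) (nat_lit 5) (nat_lit 42) (nat_lit 5) (nat_lit 43) (nat_lit 4) (nat_lit 476) (nat_lit 368) (nat_lit 176))))))) (XT.nd (nat_lit 45084) (nat_lit 0) (nat_lit 15580) (XT.nd (nat_lit 546) (nat_lit 76) (nat_lit 0) (XT.nd (nat_lit 234) (nat_lit 304) (nat_lit 0) (XT.nd (nat_lit 78) (nat_lit 228) (nat_lit 0) (XT.lf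 (nat_lit 0) (nat_lit 43270725161) (nat_lit 76) (nat_lit 24986350746) (nat_lit 152) (nat_lit 3653546076) (nat_lit 41) (nat_lit 5) (nat_lit 42) (nat_lit 5) (nat_lit 43) (nat_lit 4) (nat_lit 477) (nat_lit 368) (nat_lit 175)) (XT.nd (nat_lit 78) (nat_lit 0) (nat_lit 0) (XT.lf (nat_lit 0) (nat_lit 3308501174) (nat_lit 152) (nat_lit 7783580751) (nat_lit 228) (nat_lit 62450870545) (nat_lit 38) (nat_lit 5) (nat_lit 40) (nat_lit 5) (nat_lit 41) (nat_lit 5) (nat_lit 478) (nat_lit 368) (nat_lit 174)) (XT.lf (nat_lit 0) (nat_lit 26590806514) (nat_lit 228) (nat_lit 38554074445) (nat_lit 76) (nat_lit 10066762177) (nat_lit 38) (nat_lit 5) (nat_lit 41) (nat_lit 5) (nat_lit 39) (nat_lit 4) (nat_lit 479) (nat_lit 368) (nat_lit 173)))) (XT.nd (nat_lit 156) (nat_lit 228) (nat_lit 0) (XT.nd (nat_lit 78) (nat_lit 76) (nat_lit 0) (XT.lf (nat_lit 0) (nat_lit 42628243680) (nat_lit 228) (nat_lit 6006562724) (nat_lit 76) (nat_lit 28293375871)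 (nat_lit 38) (nat_lit 5) (nat_lit 41) (nat_lit 5) (nat_lit 39) (nat_lit 4) (nat_lit 480) (nat_lit 368) (nat_lit 172)) (XT.lf (nat_lit 0) (nat_lit 28058873667) (nat_lit 76) (nat_lit 31354431570) (nat_lit 152) (nat_lit 19274917584) (nat_lit 37) (nat_lit 5) (nat_lit 38) (nat_lit 5) (nat_lit 39) (nat_lit 4) (nat_lit 481) (nat_lit 368) (nat_lit 171))) (XT.nd (nat_lit 78) (nat_lit 228) (nat_lit 0) (XT.lf (nat_lit 0) (nat_lit 63263430549) (nat_lit 76) (nat_lit 13495961138) (nat_lit 152) (nat_lit 3739948966) (nat_lit 37) (nat_lit 5) (nat_lit 38) (nat_lit 5) (nat_lit 39) (nat_lit 4) (nat_lit 482) (nat_lit 368) (nat_lit 170)) (XT.lf (nat_lit 0) (nat_lit 12235586594) (nat_lit 228) (nat_lit 65031565251) (nat_lit 76) (nat_lit 5087691333) (nat_lit 34) (nat_lit 5) (nat_lit 37) (nat_lit 5) (nat_lit 35) (nat_lit 4) (nat_lit 483) (nat_lit 368) (nat_lit 169))))) (XT.nd (nat_lit 44226) (nat_lit 0) (nat_lit 18620) (XT.nd (nat_lit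 78) (nat_lit 76) (nat_lit 0) (XT.lf (nat_lit 0) (nat_lit 28921503817) (nat_lit 228) (nat_lit 31166473150) (nat_lit 76) (nat_lit 24167734628) (nat_lit 34) (nat_lit 5) (nat_lit 37) (nat_lit 5) (nat_lit 35) (nat_lit 4) (nat_lit 484) (nat_lit 368) (nat_lit 168)) (XT.nd (nat_lit 44070) (nat_lit 0) (nat_lit 18620) (XT.lf (nat_lit 0) (nat_lit 3782687645) (nat_lit 76) (nat_lit 42358652358) (nat_lit 152) (nat_lit 40071266051) (nat_lit 33) (nat_lit 5) (nat_lit 34) (nat_lit 5) (nat_lit 35) (nat_lit 4) (nat_lit 485) (nat_lit 368) (nat_lit 167)) (XT.lf (nat_lit 0) (nat_lit 3070387126) (nat_lit 1140) (nat_lit 981827635) (nat_lit 1140) (nat_lit 981827635) (nat_lit 278) (nat_lit 3) (nat_lit 293) (nat_lit 3) (nat_lit 293) (nat_lit 5) (nat_lit 369) (nat_lit 369) (nat_lit 282)))) (XT.nd (nat_lit 156) (nat_lit 0) (nat_lit 76) (XT.nd (nat_lit 78) (nat_lit 0) (nat_lit 76) (XT.lf (nat_lit 76) (nat_lit 2956581225) (nat_lit 0) (nat_lit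 3984090223) (nat_lit 1140) (nat_lit 3256887324) (nat_lit 279) (nat_lit 5) (nat_lit 278) (nat_lit 3) (nat_lit 293) (nat_lit 5) (nat_lit 370) (nat_lit 369) (nat_lit 281)) (XT.lf (nat_lit 0) (nat_lit 7760563460) (nat_lit 1064) (nat_lit 2283204991) (nat_lit 1140) (nat_lit 287280829) (nat_lit 279) (nat_lit 5) (nat_lit 293) (nat_lit 5) (nat_lit 294) (nat_lit 5) (nat_lit 371) (nat_lit 369) (nat_lit 280))) (XT.nd (nat_lit 78) (nat_lit 0) (nat_lit 0) (XT.lf (nat_lit 76) (nat_lit 2824537751) (nat_lit 0) (nat_lit 5821359263) (nat_lit 1140) (nat_lit 1821434032) (nat_lit 280) (nat_lit 5) (nat_lit 279) (nat_lit 5) (nat_lit 294) (nat_lit 5) (nat_lit 372) (nat_lit 369) (nat_lit 279)) (XT.lf (nat_lit 76) (nat_lit 8118024287) (nat_lit 0) (nat_lit 1437682042) (nat_lit 1140) (nat_lit 1052069003) (nat_lit 280) (nat_lit 5) (nat_lit 279) (nat_lit 5) (nat_lit 294) (nat_lit 5) (nat_lit 373) (nat_lit 369) (nat_lit 278)))))) (XT.nd (nat_lit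 546) (nat_lit 2052) (nat_lit 0) (XT.nd (nat_lit 234) (nat_lit 0) (nat_lit 76) (XT.nd (nat_lit 78) (nat_lit 1140) (nat_lit 0) (XT.lf (nat_lit 76) (nat_lit 2828778903) (nat_lit 0) (nat_lit 7696499180) (nat_lit 1140) (nat_lit 226192025) (nat_lit 281) (nat_lit 5) (nat_lit 280) (nat_lit 5) (nat_lit 295) (nat_lit 5) (nat_lit 374) (nat_lit 369) (nat_lit 277)) (XT.nd (nat_lit 78) (nat_lit 0) (nat_lit 76) (XT.lf (nat_lit 0) (nat_lit 627916263) (nat_lit 1140) (nat_lit 2576369327) (nat_lit 1216) (nat_lit 7694551402) (nat_lit 265) (nat_lit 5) (nat_lit 280) (nat_lit 5) (nat_lit 281) (nat_lit 5) (nat_lit 375) (nat_lit 369) (nat_lit 276)) (XT.lf (nat_lit 0) (nat_lit 1522443173) (nat_lit 1140) (nat_lit 8093012265) (nat_lit 1216) (nat_lit 1434532265) (nat_lit 266) (nat_lit 5) (nat_lit 281) (nat_lit 5) (nat_lit 282) (nat_lit 5) (nat_lit 376) (nat_lit 369) (nat_lit 275)))) (XT.nd (nat_lit 156) (nat_lit 0) (nat_lit 76) (XT.nd (nat_lit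 78) (nat_lit 0) (nat_lit 0) (XT.lf (nat_lit 0) (nat_lit 2479137890) (nat_lit 1140) (nat_lit 2542995662) (nat_lit 1216) (nat_lit 6182489380) (nat_lit 266) (nat_lit 5) (nat_lit 281) (nat_lit 5) (nat_lit 282) (nat_lit 5) (nat_lit 377) (nat_lit 369) (nat_lit 274)) (XT.lf (nat_lit 76) (nat_lit 3221576661) (nat_lit 0) (nat_lit 251917303) (nat_lit 1216) (nat_lit 7890144102) (nat_lit 267) (nat_lit 5) (nat_lit 266) (nat_lit 5) (nat_lit 282) (nat_lit 5) (nat_lit 378) (nat_lit 369) (nat_lit 273))) (XT.nd (nat_lit 78) (nat_lit 0) (nat_lit 0) (XT.lf (nat_lit 0) (nat_lit 4546981081) (nat_lit 1140) (nat_lit 2375885266) (nat_lit 1216) (nat_lit 4603087681) (nat_lit 267) (nat_lit 5) (nat_lit 282) (nat_lit 5) (nat_lit 283) (nat_lit 5) (nat_lit 379) (nat_lit 369) (nat_lit 272)) (XT.lf (nat_lit 76) (nat_lit 3616414765) (nat_lit 0) (nat_lit 2052698534) (nat_lit 1216) (nat_lit 6023542066) (nat_lit 268) (nat_lit 5) (nat_lit 267) (nat_lit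 5) (nat_lit 283) (nat_lit 5) (nat_lit 380) (nat_lit 369) (nat_lit 271))))) (XT.nd (nat_lit 312) (nat_lit 2280) (nat_lit 0) (XT.nd (nat_lit 156) (nat_lit 0) (nat_lit 76) (XT.nd (nat_lit 78) (nat_lit 0) (nat_lit 0) (XT.lf (nat_lit 0) (nat_lit 6857327184) (nat_lit 1140) (nat_lit 2070639008) (nat_lit 1216) (nat_lit 2935427863) (nat_lit 268) (nat_lit 5) (nat_lit 283) (nat_lit 5) (nat_lit 284) (nat_lit 5) (nat_lit 381) (nat_lit 369) (nat_lit 270)) (XT.lf (nat_lit 76) (nat_lit 4160990262) (nat_lit 0) (nat_lit 3960810885) (nat_lit 1216) (nat_lit 3916243937) (nat_lit 269) (nat_lit 5) (nat_lit 268) (nat_lit 5) (nat_lit 284) (nat_lit 5) (nat_lit 382) (nat_lit 369) (nat_lit 269))) (XT.nd (nat_lit 78) (nat_lit 0) (nat_lit 0) (XT.lf (nat_lit 0) (nat_lit 9437197228) (nat_lit 1140) (nat_lit 1622101324) (nat_lit 1216) (nat_lit 1158255792) (nat_lit 269) (nat_lit 5) (nat_lit 284) (nat_lit 5) (nat_lit 285) (nat_lit 5) (nat_lit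 383) (nat_lit 369) (nat_lit 268)) (XT.lf (nat_lit 76) (nat_lit 4861099279) (nat_lit 0) (nat_lit 5998225413) (nat_lit 1216) (nat_lit 1541114200) (nat_lit 270) (nat_lit 5) (nat_lit 269) (nat_lit 5) (nat_lit 285) (nat_lit 5) (nat_lit 384) (nat_lit 369) (nat_lit 267)))) (XT.nd (nat_lit 156) (nat_lit 1216) (nat_lit 0) (XT.nd (nat_lit 78) (nat_lit 1140) (nat_lit 0) (XT.lf (nat_lit 76) (nat_lit 11557151763) (nat_lit 0) (nat_lit 765070678) (nat_lit 1216) (nat_lit 266652200) (nat_lit 270) (nat_lit 5) (nat_lit 269) (nat_lit 5) (nat_lit 285) (nat_lit 5) (nat_lit 385) (nat_lit 369) (nat_lit 266)) (XT.lf (nat_lit 0) (nat_lit 1108198907) (nat_lit 1216) (nat_lit 7068070284) (nat_lit 76) (nat_lit 4603923003) (nat_lit 254) (nat_lit 5) (nat_lit 270) (nat_lit 5) (nat_lit 255) (nat_lit 5) (nat_lit 386) (nat_lit 369) (nat_lit 265))) (XT.nd (nat_lit 78) (nat_lit 1216) (nat_lit 0) (XT.lf (nat_lit 0) (nat_lit 2519516584) (nat_lit 1216)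 (nat_lit 323065179) (nat_lit 76) (nat_lit 10134578083) (nat_lit 254) (nat_lit 5) (nat_lit 270) (nat_lit 5) (nat_lit 255) (nat_lit 5) (nat_lit 387) (nat_lit 369) (nat_lit 264)) (XT.lf (nat_lit 0) (nat_lit 4047113859) (nat_lit 1292) (nat_lit 6463722384) (nat_lit 76) (nat_lit 2666989068) (nat_lit 238) (nat_lit 5) (nat_lit 255) (nat_lit 5) (nat_lit 239) (nat_lit 5) (nat_lit 388) (nat_lit 369) (nat_lit 263))))))))
noncomputable def xc169 : XT := (XT.nd (nat_lit 2184) (nat_lit 4788) (nat_lit 0) (XT.nd (nat_lit 1092) (nat_lit 2964) (nat_lit 0) (XT.nd (nat_lit 546) (nat_lit 2052) (nat_lit 0) (XT.nd (nat_lit 234) (nat_lit 1216) (nat_lit 0) (XT.nd (nat_lit 78) (nat_lit 608) (nat_lit 0) (XT.lf (nat_lit 0) (nat_lit 552012703) (nat_lit 608) (nat_lit 5088639480) (nat_lit 684) (nat_lit 7743261940) (nat_lit 230) (nat_lit 5) (nat_lit 238) (nat_lit 5) (nat_lit 239) (nat_lit 5) (nat_lit 389) (nat_lit 369) (nat_lit 262)) (XT.nd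 (nat_lit 78) (nat_lit 608) (nat_lit 0) (XT.lf (nat_lit 0) (nat_lit 7336403778) (nat_lit 684) (nat_lit 5704460695) (nat_lit 76) (nat_lit 553695496) (nat_lit 230) (nat_lit 5) (nat_lit 239) (nat_lit 5) (nat_lit 231) (nat_lit 5) (nat_lit 390) (nat_lit 369) (nat_lit 261)) (XT.lf (nat_lit 0) (nat_lit 1602609098) (nat_lit 608) (nat_lit 7530400775) (nat_lit 684) (nat_lit 4677022247) (nat_lit 222) (nat_lit 5) (nat_lit 230) (nat_lit 5) (nat_lit 231) (nat_lit 5) (nat_lit 391) (nat_lit 369) (nat_lit 260)))) (XT.nd (nat_lit 156) (nat_lit 608) (nat_lit 0) (XT.nd (nat_lit 78) (nat_lit 608) (nat_lit 0) (XT.lf (nat_lit 0) (nat_lit 9230890460) (nat_lit 608) (nat_lit 1794738473) (nat_lit 684) (nat_lit 3005082263) (nat_lit 222) (nat_lit 5) (nat_lit 230) (nat_lit 5) (nat_lit 231) (nat_lit 5) (nat_lit 392) (nat_lit 369) (nat_lit 259)) (XT.lf (nat_lit 0) (nat_lit 2830747427) (nat_lit 608) (nat_lit 10195993835) (nat_lit 684) (nat_lit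 1229723965) (nat_lit 214) (nat_lit 5) (nat_lit 222) (nat_lit 5) (nat_lit 223) (nat_lit 5) (nat_lit 393) (nat_lit 369) (nat_lit 258))) (XT.nd (nat_lit 78) (nat_lit 532) (nat_lit 0) (XT.lf (nat_lit 0) (nat_lit 639037816) (nat_lit 684) (nat_lit 3738039035) (nat_lit 76) (nat_lit 10110193117) (nat_lit 213) (nat_lit 5) (nat_lit 222) (nat_lit 5) (nat_lit 214) (nat_lit 5) (nat_lit 394) (nat_lit 369) (nat_lit 257)) (XT.lf (nat_lit 0) (nat_lit 2581470092) (nat_lit 608) (nat_lit 10503833498) (nat_lit 76) (nat_lit 1638065792) (nat_lit 206) (nat_lit 5) (nat_lit 214) (nat_lit 5) (nat_lit 207) (nat_lit 5) (nat_lit 395) (nat_lit 369) (nat_lit 256))))) (XT.nd (nat_lit 234) (nat_lit 1520) (nat_lit 0) (XT.nd (nat_lit 78) (nat_lit 532) (nat_lit 0) (XT.lf (nat_lit 0) (nat_lit 4649455816) (nat_lit 608) (nat_lit 2531628103) (nat_lit 76) (nat_lit 7783454796) (nat_lit 206) (nat_lit 5) (nat_lit 214) (nat_lit 5) (nat_lit 207) (nat_lit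 5) (nat_lit 396) (nat_lit 369) (nat_lit 255)) (XT.nd (nat_lit 78) (nat_lit 0) (nat_lit 0) (XT.lf (nat_lit 0) (nat_lit 5777966375) (nat_lit 532) (nat_lit 1043291508) (nat_lit 608) (nat_lit 8390437138) (nat_lit 199) (nat_lit 5) (nat_lit 206) (nat_lit 5) (nat_lit 207) (nat_lit 5) (nat_lit 397) (nat_lit 369) (nat_lit 254)) (XT.lf (nat_lit 0) (nat_lit 9121262670) (nat_lit 608) (nat_lit 1142534306) (nat_lit 76) (nat_lit 5200582626) (nat_lit 199) (nat_lit 5) (nat_lit 207) (nat_lit 5) (nat_lit 200) (nat_lit 5) (nat_lit 398) (nat_lit 369) (nat_lit 253)))) (XT.nd (nat_lit 156) (nat_lit 532) (nat_lit 0) (XT.nd (nat_lit 78) (nat_lit 532) (nat_lit 0) (XT.lf (nat_lit 0) (nat_lit 7519443074) (nat_lit 456) (nat_lit 4040318734) (nat_lit 532) (nat_lit 4162802983) (nat_lit 193) (nat_lit 5) (nat_lit 199) (nat_lit 5) (nat_lit 200) (nat_lit 5) (nat_lit 399) (nat_lit 369) (nat_lit 252)) (XT.lf (nat_lit 0) (nat_lit 447802774) (nat_lit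 532) (nat_lit 13649465482) (nat_lit 608) (nat_lit 1890456463) (nat_lit 186) (nat_lit 5) (nat_lit 193) (nat_lit 5) (nat_lit 194) (nat_lit 5) (nat_lit 400) (nat_lit 369) (nat_lit 251))) (XT.nd (nat_lit 78) (nat_lit 456) (nat_lit 0) (XT.lf (nat_lit 0) (nat_lit 552159145) (nat_lit 608) (nat_lit 6791800575) (nat_lit 76) (nat_lit 8913427990) (nat_lit 185) (nat_lit 5) (nat_lit 193) (nat_lit 5) (nat_lit 186) (nat_lit 5) (nat_lit 401) (nat_lit 369) (nat_lit 250)) (XT.lf (nat_lit 0) (nat_lit 2229268906) (nat_lit 456) (nat_lit 809811519) (nat_lit 532) (nat_lit 13495232290) (nat_lit 179) (nat_lit 5) (nat_lit 185) (nat_lit 5) (nat_lit 186) (nat_lit 5) (nat_lit 402) (nat_lit 369) (nat_lit 249)))))) (XT.nd (nat_lit 546) (nat_lit 1216) (nat_lit 0) (XT.nd (nat_lit 234) (nat_lit 1292) (nat_lit 0) (XT.nd (nat_lit 78) (nat_lit 456) (nat_lit 0) (XT.lf (nat_lit 0) (nat_lit 5714583384) (nat_lit 532) (nat_lit 5229371420) (nat_lit 76)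 (nat_lit 5872175669) (nat_lit 179) (nat_lit 5) (nat_lit 186) (nat_lit 5) (nat_lit 180) (nat_lit 5) (nat_lit 403) (nat_lit 369) (nat_lit 248)) (XT.nd (nat_lit 78) (nat_lit 0) (nat_lit 0) (XT.lf (nat_lit 0) (nat_lit 4178013322) (nat_lit 456) (nat_lit 4328673968) (nat_lit 532) (nat_lit 8598629500) (nat_lit 173) (nat_lit 5) (nat_lit 179) (nat_lit 5) (nat_lit 180) (nat_lit 5) (nat_lit 404) (nat_lit 369) (nat_lit 247)) (XT.lf (nat_lit 0) (nat_lit 11448116790) (nat_lit 532) (nat_lit 3465449641) (nat_lit 76) (nat_lit 2487649373) (nat_lit 173) (nat_lit 5) (nat_lit 180) (nat_lit 5) (nat_lit 174) (nat_lit 5) (nat_lit 405) (nat_lit 369) (nat_lit 246)))) (XT.nd (nat_lit 156) (nat_lit 912) (nat_lit 0) (XT.nd (nat_lit 78) (nat_lit 0) (nat_lit 0) (XT.lf (nat_lit 0) (nat_lit 6347417050) (nat_lit 380) (nat_lit 8222930271) (nat_lit 456) (nat_lit 3132871588) (nat_lit 168) (nat_lit 5) (nat_lit 173) (nat_lit 5) (nat_lit 174) (nat_lit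 5) (nat_lit 406) (nat_lit 369) (nat_lit 245)) (XT.lf (nat_lit 0) (nat_lit 16511998245) (nat_lit 380) (nat_lit 1298123289) (nat_lit 456) (nat_lit 203448026) (nat_lit 168) (nat_lit 5) (nat_lit 173) (nat_lit 5) (nat_lit 174) (nat_lit 5) (nat_lit 407) (nat_lit 369) (nat_lit 244))) (XT.nd (nat_lit 78) (nat_lit 380) (nat_lit 0) (XT.lf (nat_lit 0) (nat_lit 2889597082) (nat_lit 532) (nat_lit 9608363639) (nat_lit 76) (nat_lit 5830542669) (nat_lit 161) (nat_lit 5) (nat_lit 168) (nat_lit 5) (nat_lit 162) (nat_lit 5) (nat_lit 408) (nat_lit 369) (nat_lit 243)) (XT.lf (nat_lit 0) (nat_lit 610041987) (nat_lit 380) (nat_lit 5484591207) (nat_lit 456) (nat_lit 12557496384) (nat_lit 156) (nat_lit 5) (nat_lit 161) (nat_lit 5) (nat_lit 162) (nat_lit 5) (nat_lit 409) (nat_lit 369) (nat_lit 242))))) (XT.nd (nat_lit 234) (nat_lit 836) (nat_lit 0) (XT.nd (nat_lit 78) (nat_lit 380) (nat_lit 0) (XT.lf (nat_lit 0) (nat_lit 9499937214)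 (nat_lit 456) (nat_lit 7682125095) (nat_lit 76) (nat_lit 1800282073) (nat_lit 156) (nat_lit 5) (nat_lit 162) (nat_lit 5) (nat_lit 157) (nat_lit 5) (nat_lit 410) (nat_lit 369) (nat_lit 241)) (XT.nd (nat_lit 78) (nat_lit 0) (nat_lit 0) (XT.lf (nat_lit 0) (nat_lit 2979013784) (nat_lit 380) (nat_lit 10101046415) (nat_lit 456) (nat_lit 6240228873) (nat_lit 151) (nat_lit 5) (nat_lit 156) (nat_lit 5) (nat_lit 157) (nat_lit 5) (nat_lit 411) (nat_lit 369) (nat_lit 240)) (XT.lf (nat_lit 0) (nat_lit 14104143839) (nat_lit 380) (nat_lit 2730909657) (nat_lit 456) (nat_lit 2831297752) (nat_lit 151) (nat_lit 5) (nat_lit 156) (nat_lit 5) (nat_lit 157) (nat_lit 5) (nat_lit 412) (nat_lit 369) (nat_lit 239)))) (XT.nd (nat_lit 156) (nat_lit 380) (nat_lit 0) (XT.nd (nat_lit 78) (nat_lit 0) (nat_lit 0) (XT.lf (nat_lit 0) (nat_lit 758133765) (nat_lit 456) (nat_lit 14438130420) (nat_lit 76) (nat_lit 4823593005) (nat_lit 145) (nat_lit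 5) (nat_lit 151) (nat_lit 5) (nat_lit 146) (nat_lit 5) (nat_lit 413) (nat_lit 369) (nat_lit 238)) (XT.lf (nat_lit 0) (nat_lit 4472323112) (nat_lit 456) (nat_lit 3277178703) (nat_lit 76) (nat_lit 12631408956) (nat_lit 145) (nat_lit 5) (nat_lit 151) (nat_lit 5) (nat_lit 146) (nat_lit 5) (nat_lit 414) (nat_lit 369) (nat_lit 237))) (XT.nd (nat_lit 78) (nat_lit 0) (nat_lit 0) (XT.lf (nat_lit 0) (nat_lit 8368891581) (nat_lit 456) (nat_lit 12381640348) (nat_lit 76) (nat_lit 138221) (nat_lit 140) (nat_lit 5) (nat_lit 146) (nat_lit 5) (nat_lit 141) (nat_lit 5) (nat_lit 415) (nat_lit 369) (nat_lit 236)) (XT.lf (nat_lit 0) (nat_lit 12483130608) (nat_lit 456) (nat_lit 788785608) (nat_lit 76) (nat_lit 7856585601) (nat_lit 140) (nat_lit 5) (nat_lit 146) (nat_lit 5) (nat_lit 141) (nat_lit 5) (nat_lit 416) (nat_lit 369) (nat_lit 235))))))) (XT.nd (nat_lit 1092) (nat_lit 2128) (nat_lit 0) (XT.nd (nat_lit 546) (nat_lit 1292)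 (nat_lit 0) (XT.nd (nat_lit 234) (nat_lit 608) (nat_lit 0) (XT.nd (nat_lit 78) (nat_lit 456) (nat_lit 0) (XT.lf (nat_lit 0) (nat_lit 11360921831) (nat_lit 304) (nat_lit 5459981192) (nat_lit 380) (nat_lit 4693764857) (nat_lit 136) (nat_lit 5) (nat_lit 140) (nat_lit 5) (nat_lit 141) (nat_lit 5) (nat_lit 417) (nat_lit 369) (nat_lit 234)) (XT.nd (nat_lit 78) (nat_lit 76) (nat_lit 0) (XT.lf (nat_lit 0) (nat_lit 1980069202) (nat_lit 380) (nat_lit 19351687253) (nat_lit 456) (nat_lit 579376590) (nat_lit 131) (nat_lit 5) (nat_lit 136) (nat_lit 5) (nat_lit 137) (nat_lit 5) (nat_lit 418) (nat_lit 369) (nat_lit 233)) (XT.lf (nat_lit 0) (nat_lit 3735720745) (nat_lit 456) (nat_lit 7733411330) (nat_lit 76) (nat_lit 10844847479) (nat_lit 130) (nat_lit 5) (nat_lit 136) (nat_lit 5) (nat_lit 131) (nat_lit 5) (nat_lit 419) (nat_lit 369) (nat_lit 232)))) (XT.nd (nat_lit 156) (nat_lit 304) (nat_lit 0) (XT.nd (nat_lit 78) (nat_lit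 0) (nat_lit 0) (XT.lf (nat_lit 0) (nat_lit 4907781183) (nat_lit 304) (nat_lit 3299341426) (nat_lit 380) (nat_lit 14520464201) (nat_lit 126) (nat_lit 5) (nat_lit 130) (nat_lit 5) (nat_lit 131) (nat_lit 5) (nat_lit 420) (nat_lit 369) (nat_lit 231)) (XT.lf (nat_lit 0) (nat_lit 12932124142) (nat_lit 380) (nat_lit 5126992039) (nat_lit 76) (nat_lit 5090904645) (nat_lit 126) (nat_lit 5) (nat_lit 131) (nat_lit 5) (nat_lit 127) (nat_lit 5) (nat_lit 421) (nat_lit 369) (nat_lit 230))) (XT.nd (nat_lit 78) (nat_lit 0) (nat_lit 0) (XT.lf (nat_lit 0) (nat_lit 8059042458) (nat_lit 304) (nat_lit 9841636807) (nat_lit 380) (nat_lit 5681396696) (nat_lit 122) (nat_lit 5) (nat_lit 126) (nat_lit 5) (nat_lit 127) (nat_lit 5) (nat_lit 422) (nat_lit 369) (nat_lit 229)) (XT.lf (nat_lit 0) (nat_lit 21733717799) (nat_lit 304) (nat_lit 1328141111) (nat_lit 380) (nat_lit 963928944) (nat_lit 122) (nat_lit 5) (nat_lit 126) (nat_lit 5) (nat_lit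 127) (nat_lit 5) (nat_lit 423) (nat_lit 369) (nat_lit 228))))) (XT.nd (nat_lit 234) (nat_lit 608) (nat_lit 0) (XT.nd (nat_lit 78) (nat_lit 304) (nat_lit 0) (XT.lf (nat_lit 0) (nat_lit 3994616607) (nat_lit 380) (nat_lit 13040411924) (nat_lit 76) (nat_lit 7441394525) (nat_lit 117) (nat_lit 5) (nat_lit 122) (nat_lit 5) (nat_lit 118) (nat_lit 5) (nat_lit 424) (nat_lit 369) (nat_lit 227)) (XT.nd (nat_lit 78) (nat_lit 0) (nat_lit 0) (XT.lf (nat_lit 0) (nat_lit 661077113) (nat_lit 304) (nat_lit 8456384889) (nat_lit 380) (nat_lit 15821783430) (nat_lit 113) (nat_lit 5) (nat_lit 117) (nat_lit 5) (nat_lit 118) (nat_lit 5) (nat_lit 425) (nat_lit 369) (nat_lit 226)) (XT.lf (nat_lit 0) (nat_lit 14522746637) (nat_lit 380) (nat_lit 10388047329) (nat_lit 76) (nat_lit 501297799) (nat_lit 113) (nat_lit 5) (nat_lit 118) (nat_lit 5) (nat_lit 114) (nat_lit 5) (nat_lit 426) (nat_lit 369) (nat_lit 225)))) (XT.nd (nat_lit 156) (nat_lit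 380) (nat_lit 0) (XT.nd (nat_lit 78) (nat_lit 0) (nat_lit 0) (XT.lf (nat_lit 0) (nat_lit 3899474667) (nat_lit 228) (nat_lit 16304273800) (nat_lit 304) (nat_lit 5691970108) (nat_lit 110) (nat_lit 5) (nat_lit 113) (nat_lit 5) (nat_lit 114) (nat_lit 5) (nat_lit 427) (nat_lit 369) (nat_lit 224)) (XT.lf (nat_lit 0) (nat_lit 18817012676) (nat_lit 228) (nat_lit 7335526333) (nat_lit 304) (nat_lit 238396214) (nat_lit 110) (nat_lit 5) (nat_lit 113) (nat_lit 5) (nat_lit 114) (nat_lit 5) (nat_lit 428) (nat_lit 369) (nat_lit 223))) (XT.nd (nat_lit 78) (nat_lit 0) (nat_lit 0) (XT.lf (nat_lit 0) (nat_lit 5356655582) (nat_lit 380) (nat_lit 19555368307) (nat_lit 76) (nat_lit 1984950140) (nat_lit 105) (nat_lit 5) (nat_lit 110) (nat_lit 5) (nat_lit 106) (nat_lit 5) (nat_lit 429) (nat_lit 369) (nat_lit 222)) (XT.lf (nat_lit 0) (nat_lit 11257309619) (nat_lit 380) (nat_lit 4643225746) (nat_lit 76) (nat_lit 11513313199) (nat_lit 105)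 (nat_lit 5) (nat_lit 110) (nat_lit 5) (nat_lit 106) (nat_lit 5) (nat_lit 430) (nat_lit 369) (nat_lit 221)))))) (XT.nd (nat_lit 546) (nat_lit 1140) (nat_lit 0) (XT.nd (nat_lit 234) (nat_lit 456) (nat_lit 0) (XT.nd (nat_lit 78) (nat_lit 304) (nat_lit 0) (XT.lf (nat_lit 0) (nat_lit 10918230779) (nat_lit 228) (nat_lit 6514592810) (nat_lit 304) (nat_lit 10510472129) (nat_lit 102) (nat_lit 5) (nat_lit 105) (nat_lit 5) (nat_lit 106) (nat_lit 5) (nat_lit 431) (nat_lit 369) (nat_lit 220)) (XT.nd (nat_lit 78) (nat_lit 304) (nat_lit 0) (XT.lf (nat_lit 0) (nat_lit 23864213319) (nat_lit 304) (nat_lit 1487448218) (nat_lit 76) (nat_lit 3134847984) (nat_lit 102) (nat_lit 5) (nat_lit 106) (nat_lit 5) (nat_lit 103) (nat_lit 5) (nat_lit 432) (nat_lit 369) (nat_lit 219)) (XT.lf (nat_lit 0) (nat_lit 1615582254) (nat_lit 304) (nat_lit 14327527599) (nat_lit 76) (nat_lit 13096459168) (nat_lit 98) (nat_lit 5) (nat_lit 102) (nat_lit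 5) (nat_lit 99) (nat_lit 5) (nat_lit 433) (nat_lit 369) (nat_lit 218)))) (XT.nd (nat_lit 156) (nat_lit 228) (nat_lit 0) (XT.nd (nat_lit 78) (nat_lit 0) (nat_lit 0) (XT.lf (nat_lit 0) (nat_lit 1797524975) (nat_lit 228) (nat_lit 6175800410) (nat_lit 304) (nat_lit 21633754420) (nat_lit 95) (nat_lit 5) (nat_lit 98) (nat_lit 5) (nat_lit 99) (nat_lit 5) (nat_lit 434) (nat_lit 369) (nat_lit 217)) (XT.lf (nat_lit 0) (nat_lit 14698493763) (nat_lit 304) (nat_lit 11536951019) (nat_lit 76) (nat_lit 3950871715) (nat_lit 95) (nat_lit 5) (nat_lit 99) (nat_lit 5) (nat_lit 96) (nat_lit 5) (nat_lit 435) (nat_lit 369) (nat_lit 216))) (XT.nd (nat_lit 78) (nat_lit 0) (nat_lit 0) (XT.lf (nat_lit 0) (nat_lit 5254607121) (nat_lit 228) (nat_lit 16475904077) (nat_lit 304) (nat_lit 9049267606) (nat_lit 92) (nat_lit 5) (nat_lit 95) (nat_lit 5) (nat_lit 96) (nat_lit 5) (nat_lit 436) (nat_lit 369) (nat_lit 215)) (XT.lf (nat_lit 0) (nat_lit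 22775898689) (nat_lit 228) (nat_lit 6307618154) (nat_lit 304) (nat_lit 2304228602) (nat_lit 92) (nat_lit 5) (nat_lit 95) (nat_lit 5) (nat_lit 96) (nat_lit 5) (nat_lit 437) (nat_lit 369) (nat_lit 214))))) (XT.nd (nat_lit 312) (nat_lit 608) (nat_lit 0) (XT.nd (nat_lit 156) (nat_lit 228) (nat_lit 0) (XT.nd (nat_lit 78) (nat_lit 0) (nat_lit 0) (XT.lf (nat_lit 0) (nat_lit 4673328395) (nat_lit 304) (nat_lit 23123391732) (nat_lit 76) (nat_lit 4212270042) (nat_lit 88) (nat_lit 5) (nat_lit 92) (nat_lit 5) (nat_lit 89) (nat_lit 5) (nat_lit 438) (nat_lit 369) (nat_lit 213)) (XT.lf (nat_lit 0) (nat_lit 11957875426) (nat_lit 304) (nat_lit 5658269323) (nat_lit 76) (nat_lit 15027724966) (nat_lit 88) (nat_lit 5) (nat_lit 92) (nat_lit 5) (nat_lit 89) (nat_lit 5) (nat_lit 439) (nat_lit 369) (nat_lit 212))) (XT.nd (nat_lit 78) (nat_lit 0) (nat_lit 0) (XT.lf (nat_lit 0) (nat_lit 12565935212) (nat_lit 228) (nat_lit 7009699176) (nat_lit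 304) (nat_lit 13718722145) (nat_lit 85) (nat_lit 5) (nat_lit 88) (nat_lit 5) (nat_lit 89) (nat_lit 5) (nat_lit 440) (nat_lit 369) (nat_lit 211)) (XT.lf (nat_lit 0) (nat_lit 27511190400) (nat_lit 304) (nat_lit 2558111085) (nat_lit 76) (nat_lit 3892379658) (nat_lit 85) (nat_lit 5) (nat_lit 89) (nat_lit 5) (nat_lit 86) (nat_lit 5) (nat_lit 441) (nat_lit 369) (nat_lit 210)))) (XT.nd (nat_lit 156) (nat_lit 152) (nat_lit 0) (XT.nd (nat_lit 78) (nat_lit 228) (nat_lit 0) (XT.lf (nat_lit 0) (nat_lit 1238900411) (nat_lit 228) (nat_lit 18256476554) (nat_lit 76) (nat_lit 15146651138) (nat_lit 82) (nat_lit 5) (nat_lit 85) (nat_lit 5) (nat_lit 83) (nat_lit 5) (nat_lit 442) (nat_lit 369) (nat_lit 209)) (XT.lf (nat_lit 0) (nat_lit 544607231) (nat_lit 228) (nat_lit 8510165061) (nat_lit 304) (nat_lit 26285334791) (nat_lit 79) (nat_lit 5) (nat_lit 82) (nat_lit 5) (nat_lit 83) (nat_lit 5) (nat_lit 443) (nat_lit 369) (nat_lit 208)))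 (XT.nd (nat_lit 78) (nat_lit 152) (nat_lit 0) (XT.lf (nat_lit 0) (nat_lit 17312423844) (nat_lit 304) (nat_lit 15808309908) (nat_lit 76) (nat_lit 2932176568) (nat_lit 79) (nat_lit 5) (nat_lit 83) (nat_lit 5) (nat_lit 80) (nat_lit 5) (nat_lit 444) (nat_lit 369) (nat_lit 207)) (XT.lf (nat_lit 0) (nat_lit 3727368477) (nat_lit 152) (nat_lit 22204859295) (nat_lit 228) (nat_lit 10851438160) (nat_lit 77) (nat_lit 5) (nat_lit 79) (nat_lit 5) (nat_lit 80) (nat_lit 5) (nat_lit 445) (nat_lit 369) (nat_lit 206))))))))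
noncomputable def xc170 : XT := (XT.nd (nat_lit 2184) (nat_lit 836) (nat_lit 0) (XT.nd (nat_lit 1092) (nat_lit 1064) (nat_lit 0) (XT.nd (nat_lit 546) (nat_lit 684) (nat_lit 0) (XT.nd (nat_lit 234) (nat_lit 380) (nat_lit 0) (XT.nd (nat_lit 78) (nat_lit 304) (nat_lit 0) (XT.lf (nat_lit 0) (nat_lit 24163663629) (nat_lit 152) (nat_lit 10801002773) (nat_lit 228) (nat_lit 2567057529) (nat_lit 77) (nat_lit 5) (nat_lit 79) (nat_lit 5) (nat_lit 80) (nat_lit 5) (nat_lit 446) (nat_lit 369) (nat_lit 205)) (XT.nd (nat_lit 78) (nat_lit 0) (nat_lit 0) (XT.lf (nat_lit 0) (nat_lit 5921333151) (nat_lit 304) (nat_lit 31328587655) (nat_lit 76) (nat_lit 1048426503) (nat_lit 73) (nat_lit 5) (nat_lit 77) (nat_lit 5) (nat_lit 74) (nat_lit 5) (nat_lit 447) (nat_lit 369) (nat_lit 204)) (XT.lf (nat_lit 0) (nat_lit 14850598426) (nat_lit 304) (nat_lit 11035243204) (nat_lit 76) (nat_lit 13194231579) (nat_lit 73) (nat_lit 5) (nat_lit 77)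 (nat_lit 5) (nat_lit 74) (nat_lit 5) (nat_lit 448) (nat_lit 369) (nat_lit 203)))) (XT.nd (nat_lit 156) (nat_lit 228) (nat_lit 0) (XT.nd (nat_lit 78) (nat_lit 0) (nat_lit 0) (XT.lf (nat_lit 0) (nat_lit 10053987880) (nat_lit 152) (nat_lit 14085107425) (nat_lit 228) (nat_lit 15743415801) (nat_lit 71) (nat_lit 5) (nat_lit 73) (nat_lit 5) (nat_lit 74) (nat_lit 5) (nat_lit 449) (nat_lit 369) (nat_lit 202)) (XT.lf (nat_lit 0) (nat_lit 31993093596) (nat_lit 152) (nat_lit 1819363851) (nat_lit 228) (nat_lit 6893379190) (nat_lit 71) (nat_lit 5) (nat_lit 73) (nat_lit 5) (nat_lit 74) (nat_lit 5) (nat_lit 450) (nat_lit 369) (nat_lit 201))) (XT.nd (nat_lit 78) (nat_lit 0) (nat_lit 0) (XT.lf (nat_lit 0) (nat_lit 2406578405) (nat_lit 228) (nat_lit 28389796021) (nat_lit 76) (nat_lit 10750013979) (nat_lit 68) (nat_lit 5) (nat_lit 71) (nat_lit 5) (nat_lit 69) (nat_lit 5) (nat_lit 451) (nat_lit 369) (nat_lit 200)) (XT.lf (nat_lit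 0) (nat_lit 11948757342) (nat_lit 228) (nat_lit 6644926755) (nat_lit 76) (nat_lit 23813372650) (nat_lit 68) (nat_lit 5) (nat_lit 71) (nat_lit 5) (nat_lit 69) (nat_lit 5) (nat_lit 452) (nat_lit 369) (nat_lit 199))))) (XT.nd (nat_lit 234) (nat_lit 380) (nat_lit 0) (XT.nd (nat_lit 78) (nat_lit 152) (nat_lit 0) (XT.lf (nat_lit 0) (nat_lit 16056992967) (nat_lit 152) (nat_lit 5869613154) (nat_lit 228) (nat_lit 21362457599) (nat_lit 66) (nat_lit 5) (nat_lit 68) (nat_lit 5) (nat_lit 69) (nat_lit 5) (nat_lit 453) (nat_lit 369) (nat_lit 198)) (XT.nd (nat_lit 78) (nat_lit 152) (nat_lit 0) (XT.lf (nat_lit 0) (nat_lit 32336195656) (nat_lit 228) (nat_lit 4698208930) (nat_lit 76) (nat_lit 7159154854) (nat_lit 66) (nat_lit 5) (nat_lit 69) (nat_lit 5) (nat_lit 67) (nat_lit 5) (nat_lit 454) (nat_lit 369) (nat_lit 197)) (XT.lf (nat_lit 0) (nat_lit 18812247640) (nat_lit 152) (nat_lit 24479999916) (nat_lit 228) (nat_lit 1825917913)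 (nat_lit 64) (nat_lit 5) (nat_lit 66) (nat_lit 5) (nat_lit 67) (nat_lit 5) (nat_lit 455) (nat_lit 369) (nat_lit 196)))) (XT.nd (nat_lit 156) (nat_lit 152) (nat_lit 0) (XT.nd (nat_lit 78) (nat_lit 152) (nat_lit 0) (XT.lf (nat_lit 0) (nat_lit 8383628514) (nat_lit 228) (nat_lit 3035412860) (nat_lit 76) (nat_lit 34647721385) (nat_lit 63) (nat_lit 5) (nat_lit 66) (nat_lit 5) (nat_lit 64) (nat_lit 5) (nat_lit 456) (nat_lit 369) (nat_lit 195)) (XT.lf (nat_lit 0) (nat_lit 19084831717) (nat_lit 228) (nat_lit 25735940298) (nat_lit 76) (nat_lit 2215842135) (nat_lit 61) (nat_lit 5) (nat_lit 64) (nat_lit 5) (nat_lit 62) (nat_lit 5) (nat_lit 457) (nat_lit 369) (nat_lit 194))) (XT.nd (nat_lit 78) (nat_lit 152) (nat_lit 0) (XT.lf (nat_lit 0) (nat_lit 30246484514) (nat_lit 228) (nat_lit 1727131218) (nat_lit 76) (nat_lit 16057763546) (nat_lit 61) (nat_lit 5) (nat_lit 64) (nat_lit 5) (nat_lit 62) (nat_lit 5) (nat_lit 458) (nat_lit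 369) (nat_lit 193)) (XT.lf (nat_lit 0) (nat_lit 23451613658) (nat_lit 152) (nat_lit 18512336999) (nat_lit 228) (nat_lit 7085408373) (nat_lit 59) (nat_lit 5) (nat_lit 61) (nat_lit 5) (nat_lit 62) (nat_lit 5) (nat_lit 459) (nat_lit 369) (nat_lit 192)))))) (XT.nd (nat_lit 546) (nat_lit 532) (nat_lit 0) (XT.nd (nat_lit 234) (nat_lit 304) (nat_lit 0) (XT.nd (nat_lit 78) (nat_lit 152) (nat_lit 0) (XT.lf (nat_lit 0) (nat_lit 3871431354) (nat_lit 228) (nat_lit 722193691) (nat_lit 76) (nat_lit 45502724212) (nat_lit 58) (nat_lit 5) (nat_lit 61) (nat_lit 5) (nat_lit 59) (nat_lit 5) (nat_lit 460) (nat_lit 369) (nat_lit 191)) (XT.nd (nat_lit 78) (nat_lit 0) (nat_lit 0) (XT.lf (nat_lit 0) (nat_lit 15350313003) (nat_lit 228) (nat_lit 25946457967) (nat_lit 76) (nat_lit 9865801786) (nat_lit 56) (nat_lit 5) (nat_lit 59) (nat_lit 5) (nat_lit 57) (nat_lit 5) (nat_lit 461) (nat_lit 369) (nat_lit 190)) (XT.lf (nat_lit 0) (nat_lit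 27222099903) (nat_lit 228) (nat_lit 366494681) (nat_lit 76) (nat_lit 24670732730) (nat_lit 56) (nat_lit 5) (nat_lit 59) (nat_lit 5) (nat_lit 57) (nat_lit 5) (nat_lit 462) (nat_lit 369) (nat_lit 189)))) (XT.nd (nat_lit 156) (nat_lit 152) (nat_lit 0) (XT.nd (nat_lit 78) (nat_lit 0) (nat_lit 0) (XT.lf (nat_lit 0) (nat_lit 26490260074) (nat_lit 152) (nat_lit 13210238802) (nat_lit 228) (nat_lit 13680972380) (nat_lit 54) (nat_lit 5) (nat_lit 56) (nat_lit 5) (nat_lit 57) (nat_lit 5) (nat_lit 463) (nat_lit 369) (nat_lit 188)) (XT.lf (nat_lit 0) (nat_lit 52568198507) (nat_lit 228) (nat_lit 399896469) (nat_lit 76) (nat_lit 1568736569) (nat_lit 54) (nat_lit 5) (nat_lit 57) (nat_lit 5) (nat_lit 55) (nat_lit 4) (nat_lit 464) (nat_lit 369) (nat_lit 187))) (XT.nd (nat_lit 78) (nat_lit 0) (nat_lit 0) (XT.lf (nat_lit 0) (nat_lit 10290923555) (nat_lit 152) (nat_lit 28535700011) (nat_lit 76) (nat_lit 16885533185) (nat_lit 52)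 (nat_lit 5) (nat_lit 54) (nat_lit 5) (nat_lit 53) (nat_lit 5) (nat_lit 465) (nat_lit 369) (nat_lit 186)) (XT.lf (nat_lit 0) (nat_lit 22878742814) (nat_lit 152) (nat_lit 1361189572) (nat_lit 76) (nat_lit 32682223724) (nat_lit 52) (nat_lit 5) (nat_lit 54) (nat_lit 5) (nat_lit 53) (nat_lit 5) (nat_lit 466) (nat_lit 369) (nat_lit 185))))) (XT.nd (nat_lit 234) (nat_lit 228) (nat_lit 0) (XT.nd (nat_lit 78) (nat_lit 152) (nat_lit 0) (XT.lf (nat_lit 0) (nat_lit 27151252940) (nat_lit 152) (nat_lit 8950021067) (nat_lit 228) (nat_lit 22059469556) (nat_lit 50) (nat_lit 5) (nat_lit 52) (nat_lit 5) (nat_lit 53) (nat_lit 5) (nat_lit 467) (nat_lit 369) (nat_lit 184)) (XT.nd (nat_lit 78) (nat_lit 152) (nat_lit 0) (XT.lf (nat_lit 0) (nat_lit 49795813379) (nat_lit 228) (nat_lit 2961730896) (nat_lit 76) (nat_lit 6676684819) (nat_lit 50) (nat_lit 5) (nat_lit 53) (nat_lit 5) (nat_lit 51) (nat_lit 4) (nat_lit 468) (nat_lit 369) (nat_lit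 183)) (XT.lf (nat_lit 0) (nat_lit 3435126409) (nat_lit 152) (nat_lit 34423431752) (nat_lit 76) (nat_lit 22876208695) (nat_lit 48) (nat_lit 5) (nat_lit 50) (nat_lit 5) (nat_lit 49) (nat_lit 5) (nat_lit 469) (nat_lit 369) (nat_lit 182)))) (XT.nd (nat_lit 156) (nat_lit 76) (nat_lit 0) (XT.nd (nat_lit 78) (nat_lit 152) (nat_lit 0) (XT.lf (nat_lit 0) (nat_lit 16733575135) (nat_lit 152) (nat_lit 5652781731) (nat_lit 76) (nat_lit 39684308684) (nat_lit 48) (nat_lit 5) (nat_lit 50) (nat_lit 5) (nat_lit 49) (nat_lit 5) (nat_lit 470) (nat_lit 369) (nat_lit 181)) (XT.lf (nat_lit 0) (nat_lit 24451386584) (nat_lit 152) (nat_lit 6210961707) (nat_lit 228) (nat_lit 32777352162) (nat_lit 46) (nat_lit 5) (nat_lit 48) (nat_lit 5) (nat_lit 49) (nat_lit 5) (nat_lit 471) (nat_lit 369) (nat_lit 180))) (XT.nd (nat_lit 78) (nat_lit 76) (nat_lit 0) (XT.lf (nat_lit 0) (nat_lit 45163423528) (nat_lit 228) (nat_lit 9381301291) (nat_lit 76)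 (nat_lit 10300448780) (nat_lit 46) (nat_lit 5) (nat_lit 49) (nat_lit 5) (nat_lit 47) (nat_lit 4) (nat_lit 472) (nat_lit 369) (nat_lit 179)) (XT.lf (nat_lit 0) (nat_lit 21464727994) (nat_lit 76) (nat_lit 38899079154) (nat_lit 152) (nat_lit 5921075860) (nat_lit 45) (nat_lit 5) (nat_lit 46) (nat_lit 5) (nat_lit 47) (nat_lit 4) (nat_lit 473) (nat_lit 369) (nat_lit 178))))))) (XT.nd (nat_lit 45162) (nat_lit 0) (nat_lit 16644) (XT.nd (nat_lit 546) (nat_lit 304) (nat_lit 0) (XT.nd (nat_lit 234) (nat_lit 304) (nat_lit 0) (XT.nd (nat_lit 78) (nat_lit 152) (nat_lit 0) (XT.lf (nat_lit 0) (nat_lit 8183510182) (nat_lit 152) (nat_lit 14423321110) (nat_lit 76) (nat_lit 45155809141) (nat_lit 44) (nat_lit 5) (nat_lit 46) (nat_lit 5) (nat_lit 45) (nat_lit 5) (nat_lit 474) (nat_lit 369) (nat_lit 177)) (XT.nd (nat_lit 78) (nat_lit 0) (nat_lit 0) (XT.lf (nat_lit 0) (nat_lit 17155184002) (nat_lit 152) (nat_lit 5598506724) (nat_lit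 228) (nat_lit 46524437500) (nat_lit 42) (nat_lit 5) (nat_lit 44) (nat_lit 5) (nat_lit 45) (nat_lit 5) (nat_lit 475) (nat_lit 369) (nat_lit 176)) (XT.lf (nat_lit 0) (nat_lit 38019219242) (nat_lit 228) (nat_lit 20980408796) (nat_lit 76) (nat_lit 11831705653) (nat_lit 42) (nat_lit 5) (nat_lit 45) (nat_lit 5) (nat_lit 43) (nat_lit 4) (nat_lit 476) (nat_lit 369) (nat_lit 175)))) (XT.nd (nat_lit 156) (nat_lit 228) (nat_lit 0) (XT.nd (nat_lit 78) (nat_lit 0) (nat_lit 0) (XT.lf (nat_lit 0) (nat_lit 11254390746) (nat_lit 76) (nat_lit 42648607867) (nat_lit 152) (nat_lit 18523328460) (nat_lit 41) (nat_lit 5) (nat_lit 42) (nat_lit 5) (nat_lit 43) (nat_lit 4) (nat_lit 477) (nat_lit 369) (nat_lit 174)) (XT.lf (nat_lit 0) (nat_lit 44880177932) (nat_lit 76) (nat_lit 25591682599) (nat_lit 152) (nat_lit 3591052947) (nat_lit 41) (nat_lit 5) (nat_lit 42) (nat_lit 5) (nat_lit 43) (nat_lit 4) (nat_lit 478) (nat_lit 369) (nat_lit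 173))) (XT.nd (nat_lit 78) (nat_lit 0) (nat_lit 0) (XT.lf (nat_lit 0) (nat_lit 3719374731) (nat_lit 152) (nat_lit 7872291556) (nat_lit 228) (nat_lit 64152555968) (nat_lit 38) (nat_lit 5) (nat_lit 40) (nat_lit 5) (nat_lit 41) (nat_lit 5) (nat_lit 479) (nat_lit 369) (nat_lit 172)) (XT.lf (nat_lit 0) (nat_lit 27551845057) (nat_lit 228) (nat_lit 39404633146) (nat_lit 76) (nat_lit 10506601075) (nat_lit 38) (nat_lit 5) (nat_lit 41) (nat_lit 5) (nat_lit 39) (nat_lit 4) (nat_lit 480) (nat_lit 369) (nat_lit 171))))) (XT.nd (nat_lit 234) (nat_lit 228) (nat_lit 0) (XT.nd (nat_lit 78) (nat_lit 76) (nat_lit 0) (XT.lf (nat_lit 0) (nat_lit 44065648610) (nat_lit 228) (nat_lit 5889610546) (nat_lit 76) (nat_lit 29275998538) (nat_lit 38) (nat_lit 5) (nat_lit 41) (nat_lit 5) (nat_lit 39) (nat_lit 4) (nat_lit 481) (nat_lit 369) (nat_lit 170)) (XT.nd (nat_lit 78) (nat_lit 0) (nat_lit 0) (XT.lf (nat_lit 0) (nat_lit 29194875711) (nat_lit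 76) (nat_lit 32157596494) (nat_lit 152) (nat_lit 19691681333) (nat_lit 37) (nat_lit 5) (nat_lit 38) (nat_lit 5) (nat_lit 39) (nat_lit 4) (nat_lit 482) (nat_lit 369) (nat_lit 169)) (XT.lf (nat_lit 0) (nat_lit 65446999325) (nat_lit 76) (nat_lit 13767375872) (nat_lit 152) (nat_lit 3695367068) (nat_lit 37) (nat_lit 5) (nat_lit 38) (nat_lit 5) (nat_lit 39) (nat_lit 4) (nat_lit 483) (nat_lit 369) (nat_lit 168)))) (XT.nd (nat_lit 44226) (nat_lit 0) (nat_lit 18544) (XT.nd (nat_lit 78) (nat_lit 0) (nat_lit 0) (XT.lf (nat_lit 0) (nat_lit 12755933477) (nat_lit 228) (nat_lit 66693321241) (nat_lit 76) (nat_lit 5371623540) (nat_lit 34) (nat_lit 5) (nat_lit 37) (nat_lit 5) (nat_lit 35) (nat_lit 4) (nat_lit 484) (nat_lit 369) (nat_lit 167)) (XT.lf (nat_lit 0) (nat_lit 29937963772) (nat_lit 228) (nat_lit 31820699415) (nat_lit 76) (nat_lit 25020243820) (nat_lit 34) (nat_lit 5) (nat_lit 37) (nat_lit 5) (nat_lit 35) (nat_lit 4)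 (nat_lit 485) (nat_lit 369) (nat_lit 166))) (XT.nd (nat_lit 78) (nat_lit 0) (nat_lit 0) (XT.lf (nat_lit 0) (nat_lit 3835333382) (nat_lit 1140) (nat_lit 664617269) (nat_lit 1140) (nat_lit 664617269) (nat_lit 278) (nat_lit 3) (nat_lit 293) (nat_lit 3) (nat_lit 293) (nat_lit 5) (nat_lit 370) (nat_lit 370) (nat_lit 280)) (XT.lf (nat_lit 76) (nat_lit 3731811695) (nat_lit 0) (nat_lit 4730154307) (nat_lit 1140) (nat_lit 2001523985) (nat_lit 279) (nat_lit 5) (nat_lit 278) (nat_lit 3) (nat_lit 293) (nat_lit 5) (nat_lit 371) (nat_lit 370) (nat_lit 279)))))) (XT.nd (nat_lit 546) (nat_lit 836) (nat_lit 0) (XT.nd (nat_lit 234) (nat_lit 0) (nat_lit 76) (XT.nd (nat_lit 78) (nat_lit 1064) (nat_lit 0) (XT.lf (nat_lit 76) (nat_lit 8958804545) (nat_lit 0) (nat_lit 306504369) (nat_lit 1140) (nat_lit 1336928244) (nat_lit 279) (nat_lit 5) (nat_lit 278) (nat_lit 3) (nat_lit 293) (nat_lit 5) (nat_lit 372) (nat_lit 370) (nat_lit 278))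 (XT.nd (nat_lit 78) (nat_lit 1140) (nat_lit 0) (XT.lf (nat_lit 76) (nat_lit 3613516024) (nat_lit 0) (nat_lit 6530549101) (nat_lit 1140) (nat_lit 599553431) (nat_lit 280) (nat_lit 5) (nat_lit 279) (nat_lit 5) (nat_lit 294) (nat_lit 5) (nat_lit 373) (nat_lit 370) (nat_lit 277)) (XT.lf (nat_lit 0) (nat_lit 152673741) (nat_lit 1140) (nat_lit 1845576727) (nat_lit 1216) (nat_lit 8891079803) (nat_lit 264) (nat_lit 5) (nat_lit 279) (nat_lit 5) (nat_lit 280) (nat_lit 5) (nat_lit 374) (nat_lit 370) (nat_lit 276)))) (XT.nd (nat_lit 156) (nat_lit 0) (nat_lit 76) (XT.nd (nat_lit 78) (nat_lit 0) (nat_lit 0) (XT.lf (nat_lit 0) (nat_lit 953415860) (nat_lit 1140) (nat_lit 7415849806) (nat_lit 1216) (nat_lit 2668839883) (nat_lit 265) (nat_lit 5) (nat_lit 280) (nat_lit 5) (nat_lit 281) (nat_lit 5) (nat_lit 375) (nat_lit 370) (nat_lit 275)) (XT.lf (nat_lit 0) (nat_lit 1794178422) (nat_lit 1140) (nat_lit 1932997678) (nat_lit 1216)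 (nat_lit 7463697994) (nat_lit 265) (nat_lit 5) (nat_lit 280) (nat_lit 5) (nat_lit 281) (nat_lit 5) (nat_lit 376) (nat_lit 370) (nat_lit 274))) (XT.nd (nat_lit 78) (nat_lit 0) (nat_lit 0) (XT.lf (nat_lit 0) (nat_lit 2685065641) (nat_lit 1140) (nat_lit 7584173856) (nat_lit 1216) (nat_lit 1078248811) (nat_lit 266) (nat_lit 5) (nat_lit 281) (nat_lit 5) (nat_lit 282) (nat_lit 5) (nat_lit 377) (nat_lit 370) (nat_lit 273)) (XT.lf (nat_lit 0) (nat_lit 3637928699) (nat_lit 1140) (nat_lit 1889548855) (nat_lit 1216) (nat_lit 5980275302) (nat_lit 266) (nat_lit 5) (nat_lit 281) (nat_lit 5) (nat_lit 282) (nat_lit 5) (nat_lit 378) (nat_lit 370) (nat_lit 272))))) (XT.nd (nat_lit 312) (nat_lit 988) (nat_lit 0) (XT.nd (nat_lit 156) (nat_lit 0) (nat_lit 76) (XT.nd (nat_lit 78) (nat_lit 0) (nat_lit 76) (XT.lf (nat_lit 76) (nat_lit 4040806357) (nat_lit 0) (nat_lit 596670051) (nat_lit 1216) (nat_lit 7034815079) (nat_lit 267) (nat_lit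 5) (nat_lit 266) (nat_lit 5) (nat_lit 282) (nat_lit 5) (nat_lit 379) (nat_lit 370) (nat_lit 271)) (XT.lf (nat_lit 0) (nat_lit 5709153910) (nat_lit 1140) (nat_lit 1711162364) (nat_lit 1216) (nat_lit 4420194548) (nat_lit 267) (nat_lit 5) (nat_lit 282) (nat_lit 5) (nat_lit 283) (nat_lit 5) (nat_lit 380) (nat_lit 370) (nat_lit 270))) (XT.nd (nat_lit 78) (nat_lit 0) (nat_lit 76) (XT.lf (nat_lit 76) (nat_lit 4453690986) (nat_lit 0) (nat_lit 2388388019) (nat_lit 1216) (nat_lit 5170833402) (nat_lit 268) (nat_lit 5) (nat_lit 267) (nat_lit 5) (nat_lit 283) (nat_lit 5) (nat_lit 381) (nat_lit 370) (nat_lit 269)) (XT.lf (nat_lit 0) (nat_lit 8034170698) (nat_lit 1140) (nat_lit 1393009348) (nat_lit 1216) (nat_lit 2762558966) (nat_lit 268) (nat_lit 5) (nat_lit 283) (nat_lit 5) (nat_lit 284) (nat_lit 5) (nat_lit 382) (nat_lit 370) (nat_lit 268)))) (XT.nd (nat_lit 156) (nat_lit 1140) (nat_lit 0) (XT.nd (nat_lit 78) (nat_lit 0)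 (nat_lit 76) (XT.lf (nat_lit 76) (nat_lit 5018316361) (nat_lit 0) (nat_lit 4297018566) (nat_lit 1216) (nat_lit 3054944288) (nat_lit 269) (nat_lit 5) (nat_lit 268) (nat_lit 5) (nat_lit 284) (nat_lit 5) (nat_lit 383) (nat_lit 370) (nat_lit 267)) (XT.lf (nat_lit 0) (nat_lit 10640497731) (nat_lit 1140) (nat_lit 929508796) (nat_lit 1216) (nat_lit 986070047) (nat_lit 269) (nat_lit 5) (nat_lit 284) (nat_lit 5) (nat_lit 285) (nat_lit 5) (nat_lit 384) (nat_lit 370) (nat_lit 266))) (XT.nd (nat_lit 78) (nat_lit 1216) (nat_lit 0) (XT.lf (nat_lit 76) (nat_lit 5740920613) (nat_lit 0) (nat_lit 6344622458) (nat_lit 1216) (nat_lit 659508582) (nat_lit 270) (nat_lit 5) (nat_lit 269) (nat_lit 5) (nat_lit 285) (nat_lit 5) (nat_lit 385) (nat_lit 370) (nat_lit 265)) (XT.lf (nat_lit 0) (nat_lit 613944146) (nat_lit 1216) (nat_lit 329481236) (nat_lit 1292) (nat_lit 11996332591) (nat_lit 253) (nat_lit 5) (nat_lit 269) (nat_lit 5) (nat_lit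 270) (nat_lit 5) (nat_lit 386) (nat_lit 370) (nat_lit 264))))))))
noncomputable def xc171 : XT := (XT.nd (nat_lit 2184) (nat_lit 4788) (nat_lit 0) (XT.nd (nat_lit 1092) (nat_lit 3648) (nat_lit 0) (XT.nd (nat_lit 546) (nat_lit 2204) (nat_lit 0) (XT.nd (nat_lit 234) (nat_lit 1216) (nat_lit 0) (XT.nd (nat_lit 78) (nat_lit 1216) (nat_lit 0) (XT.lf (nat_lit 0) (nat_lit 2004553595) (nat_lit 1216) (nat_lit 6529077053) (nat_lit 76) (nat_lit 4603719665) (nat_lit 254) (nat_lit 5) (nat_lit 270) (nat_lit 5) (nat_lit 255) (nat_lit 5) (nat_lit 387) (nat_lit 370) (nat_lit 263)) (XT.nd (nat_lit 78) (nat_lit 0) (nat_lit 0) (XT.lf (nat_lit 0) (nat_lit 404292593) (nat_lit 1216) (nat_lit 3032665429) (nat_lit 1292) (nat_lit 9903916880) (nat_lit 238) (nat_lit 5) (nat_lit 254) (nat_lit 5) (nat_lit 255) (nat_lit 5) (nat_lit 388) (nat_lit 370) (nat_lit 262)) (XT.lf (nat_lit 0) (nat_lit 4988083686) (nat_lit 1292) (nat_lit 5909726269)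 (nat_lit 76) (nat_lit 2650429381) (nat_lit 238) (nat_lit 5) (nat_lit 255) (nat_lit 5) (nat_lit 239) (nat_lit 5) (nat_lit 389) (nat_lit 370) (nat_lit 261)))) (XT.nd (nat_lit 156) (nat_lit 608) (nat_lit 0) (XT.nd (nat_lit 78) (nat_lit 0) (nat_lit 0) (XT.lf (nat_lit 0) (nat_lit 1309148441) (nat_lit 608) (nat_lit 5303528007) (nat_lit 684) (nat_lit 7148346645) (nat_lit 230) (nat_lit 5) (nat_lit 238) (nat_lit 5) (nat_lit 239) (nat_lit 5) (nat_lit 390) (nat_lit 370) (nat_lit 260)) (XT.lf (nat_lit 0) (nat_lit 8335337166) (nat_lit 684) (nat_lit 5132311023) (nat_lit 76) (nat_lit 511068473) (nat_lit 230) (nat_lit 5) (nat_lit 239) (nat_lit 5) (nat_lit 231) (nat_lit 5) (nat_lit 391) (nat_lit 370) (nat_lit 259))) (XT.nd (nat_lit 78) (nat_lit 0) (nat_lit 0) (XT.lf (nat_lit 0) (nat_lit 2386683770) (nat_lit 608) (nat_lit 7783547824) (nat_lit 684) (nat_lit 4030898851) (nat_lit 222) (nat_lit 5) (nat_lit 230) (nat_lit 5) (nat_lit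 231) (nat_lit 5) (nat_lit 392) (nat_lit 370) (nat_lit 258)) (XT.lf (nat_lit 0) (nat_lit 10222376784) (nat_lit 608) (nat_lit 1875022400) (nat_lit 684) (nat_lit 2331706514) (nat_lit 222) (nat_lit 5) (nat_lit 230) (nat_lit 5) (nat_lit 231) (nat_lit 5) (nat_lit 393) (nat_lit 370) (nat_lit 257))))) (XT.nd (nat_lit 234) (nat_lit 988) (nat_lit 0) (XT.nd (nat_lit 78) (nat_lit 608) (nat_lit 0) (XT.lf (nat_lit 0) (nat_lit 3645781639) (nat_lit 608) (nat_lit 10497952190) (nat_lit 684) (nat_lit 518351498) (nat_lit 214) (nat_lit 5) (nat_lit 222) (nat_lit 5) (nat_lit 223) (nat_lit 5) (nat_lit 394) (nat_lit 370) (nat_lit 256)) (XT.nd (nat_lit 78) (nat_lit 532) (nat_lit 0) (XT.lf (nat_lit 0) (nat_lit 1370502986) (nat_lit 684) (nat_lit 3126886154) (nat_lit 76) (nat_lit 10402858499) (nat_lit 213) (nat_lit 5) (nat_lit 222) (nat_lit 5) (nat_lit 214) (nat_lit 5) (nat_lit 395) (nat_lit 370) (nat_lit 255)) (XT.lf (nat_lit 0) (nat_lit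 3357517207) (nat_lit 608) (nat_lit 10081699731) (nat_lit 76) (nat_lit 1704631740) (nat_lit 206) (nat_lit 5) (nat_lit 214) (nat_lit 5) (nat_lit 207) (nat_lit 5) (nat_lit 396) (nat_lit 370) (nat_lit 254)))) (XT.nd (nat_lit 156) (nat_lit 456) (nat_lit 0) (XT.nd (nat_lit 78) (nat_lit 532) (nat_lit 0) (XT.lf (nat_lit 0) (nat_lit 5467194841) (nat_lit 608) (nat_lit 1891801440) (nat_lit 76) (nat_lit 8033874920) (nat_lit 206) (nat_lit 5) (nat_lit 214) (nat_lit 5) (nat_lit 207) (nat_lit 5) (nat_lit 397) (nat_lit 370) (nat_lit 253)) (XT.lf (nat_lit 0) (nat_lit 6660063466) (nat_lit 532) (nat_lit 1031145511) (nat_lit 608) (nat_lit 7956628936) (nat_lit 199) (nat_lit 5) (nat_lit 206) (nat_lit 5) (nat_lit 207) (nat_lit 5) (nat_lit 398) (nat_lit 370) (nat_lit 252))) (XT.nd (nat_lit 78) (nat_lit 456) (nat_lit 0) (XT.lf (nat_lit 0) (nat_lit 10041241302) (nat_lit 608) (nat_lit 469481752) (nat_lit 76) (nat_lit 5397956395) (nat_lit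 199) (nat_lit 5) (nat_lit 207) (nat_lit 5) (nat_lit 200) (nat_lit 5) (nat_lit 399) (nat_lit 370) (nat_lit 251)) (XT.lf (nat_lit 0) (nat_lit 8445420356) (nat_lit 456) (nat_lit 4095382215) (nat_lit 532) (nat_lit 3634177436) (nat_lit 193) (nat_lit 5) (nat_lit 199) (nat_lit 5) (nat_lit 200) (nat_lit 5) (nat_lit 400) (nat_lit 370) (nat_lit 250)))))) (XT.nd (nat_lit 546) (nat_lit 1748) (nat_lit 0) (XT.nd (nat_lit 234) (nat_lit 836) (nat_lit 0) (XT.nd (nat_lit 78) (nat_lit 532) (nat_lit 0) (XT.lf (nat_lit 0) (nat_lit 1173207523) (nat_lit 532) (nat_lit 13970214664) (nat_lit 608) (nat_lit 1305009731) (nat_lit 186) (nat_lit 5) (nat_lit 193) (nat_lit 5) (nat_lit 194) (nat_lit 5) (nat_lit 401) (nat_lit 370) (nat_lit 249)) (XT.nd (nat_lit 78) (nat_lit 456) (nat_lit 0) (XT.lf (nat_lit 0) (nat_lit 1180014757) (nat_lit 608) (nat_lit 6291940642) (nat_lit 76) (nat_lit 9254600809) (nat_lit 185) (nat_lit 5) (nat_lit 193) (nat_lit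 5) (nat_lit 186) (nat_lit 5) (nat_lit 402) (nat_lit 370) (nat_lit 248)) (XT.lf (nat_lit 0) (nat_lit 2992862748) (nat_lit 456) (nat_lit 737573598) (nat_lit 532) (nat_lit 13281692081) (nat_lit 179) (nat_lit 5) (nat_lit 185) (nat_lit 5) (nat_lit 186) (nat_lit 5) (nat_lit 403) (nat_lit 370) (nat_lit 247)))) (XT.nd (nat_lit 156) (nat_lit 380) (nat_lit 0) (XT.nd (nat_lit 78) (nat_lit 456) (nat_lit 0) (XT.lf (nat_lit 0) (nat_lit 6469624222) (nat_lit 532) (nat_lit 4693047206) (nat_lit 76) (nat_lit 6140232759) (nat_lit 179) (nat_lit 5) (nat_lit 186) (nat_lit 5) (nat_lit 180) (nat_lit 5) (nat_lit 404) (nat_lit 370) (nat_lit 246)) (XT.lf (nat_lit 0) (nat_lit 4989762947) (nat_lit 456) (nat_lit 4345328327) (nat_lit 532) (nat_lit 8265992704) (nat_lit 173) (nat_lit 5) (nat_lit 179) (nat_lit 5) (nat_lit 180) (nat_lit 5) (nat_lit 405) (nat_lit 370) (nat_lit 245))) (XT.nd (nat_lit 78) (nat_lit 380) (nat_lit 0) (XT.lf (nat_lit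 0) (nat_lit 12349124924) (nat_lit 532) (nat_lit 2887167173) (nat_lit 76) (nat_lit 2670042743) (nat_lit 173) (nat_lit 5) (nat_lit 180) (nat_lit 5) (nat_lit 174) (nat_lit 5) (nat_lit 406) (nat_lit 370) (nat_lit 244)) (XT.lf (nat_lit 0) (nat_lit 7213396834) (nat_lit 380) (nat_lit 8341879661) (nat_lit 456) (nat_lit 2662419469) (nat_lit 168) (nat_lit 5) (nat_lit 173) (nat_lit 5) (nat_lit 174) (nat_lit 5) (nat_lit 407) (nat_lit 370) (nat_lit 243))))) (XT.nd (nat_lit 234) (nat_lit 836) (nat_lit 0) (XT.nd (nat_lit 78) (nat_lit 836) (nat_lit 0) (XT.lf (nat_lit 0) (nat_lit 331842533) (nat_lit 456) (nat_lit 877855516) (nat_lit 76) (nat_lit 17328045546) (nat_lit 167) (nat_lit 5) (nat_lit 173) (nat_lit 5) (nat_lit 168) (nat_lit 5) (nat_lit 408) (nat_lit 370) (nat_lit 242)) (XT.nd (nat_lit 78) (nat_lit 380) (nat_lit 0) (XT.lf (nat_lit 0) (nat_lit 3505557481) (nat_lit 532) (nat_lit 9221664279) (nat_lit 76) (nat_lit 6135089302)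 (nat_lit 161) (nat_lit 5) (nat_lit 168) (nat_lit 5) (nat_lit 162) (nat_lit 5) (nat_lit 409) (nat_lit 370) (nat_lit 241)) (XT.lf (nat_lit 0) (nat_lit 1296676357) (nat_lit 380) (nat_lit 5501077042) (nat_lit 456) (nat_lit 12398167304) (nat_lit 156) (nat_lit 5) (nat_lit 161) (nat_lit 5) (nat_lit 162) (nat_lit 5) (nat_lit 410) (nat_lit 370) (nat_lit 240)))) (XT.nd (nat_lit 156) (nat_lit 456) (nat_lit 0) (XT.nd (nat_lit 78) (nat_lit 380) (nat_lit 0) (XT.lf (nat_lit 0) (nat_lit 10291444432) (nat_lit 456) (nat_lit 7249790103) (nat_lit 76) (nat_lit 1995225365) (nat_lit 156) (nat_lit 5) (nat_lit 162) (nat_lit 5) (nat_lit 157) (nat_lit 5) (nat_lit 411) (nat_lit 370) (nat_lit 239)) (XT.lf (nat_lit 0) (nat_lit 3724684915) (nat_lit 380) (nat_lit 10245842263) (nat_lit 456) (nat_lit 5914273717) (nat_lit 151) (nat_lit 5) (nat_lit 156) (nat_lit 5) (nat_lit 157) (nat_lit 5) (nat_lit 412) (nat_lit 370) (nat_lit 238))) (XT.nd (nat_lit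 78) (nat_lit 456) (nat_lit 0) (XT.lf (nat_lit 0) (nat_lit 15164453316) (nat_lit 380) (nat_lit 2659210205) (nat_lit 456) (nat_lit 2418021129) (nat_lit 151) (nat_lit 5) (nat_lit 156) (nat_lit 5) (nat_lit 157) (nat_lit 5) (nat_lit 413) (nat_lit 370) (nat_lit 237)) (XT.lf (nat_lit 0) (nat_lit 1262843034) (nat_lit 456) (nat_lit 14217551119) (nat_lit 76) (nat_lit 5125458045) (nat_lit 145) (nat_lit 5) (nat_lit 151) (nat_lit 5) (nat_lit 146) (nat_lit 5) (nat_lit 414) (nat_lit 370) (nat_lit 236))))))) (XT.nd (nat_lit 1092) (nat_lit 2128) (nat_lit 0) (XT.nd (nat_lit 546) (nat_lit 1216) (nat_lit 0) (XT.nd (nat_lit 234) (nat_lit 1064) (nat_lit 0) (XT.nd (nat_lit 78) (nat_lit 380) (nat_lit 0) (XT.lf (nat_lit 0) (nat_lit 5074420238) (nat_lit 456) (nat_lit 2740811333) (nat_lit 76) (nat_lit 13162931080) (nat_lit 145) (nat_lit 5) (nat_lit 151) (nat_lit 5) (nat_lit 146) (nat_lit 5) (nat_lit 415) (nat_lit 370) (nat_lit 235)) (XT.nd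 (nat_lit 78) (nat_lit 0) (nat_lit 0) (XT.lf (nat_lit 0) (nat_lit 9081914032) (nat_lit 456) (nat_lit 12112301485) (nat_lit 76) (nat_lit 164982455) (nat_lit 140) (nat_lit 5) (nat_lit 146) (nat_lit 5) (nat_lit 141) (nat_lit 5) (nat_lit 416) (nat_lit 370) (nat_lit 234)) (XT.lf (nat_lit 0) (nat_lit 13306125209) (nat_lit 456) (nat_lit 190324833) (nat_lit 76) (nat_lit 8252322088) (nat_lit 140) (nat_lit 5) (nat_lit 146) (nat_lit 5) (nat_lit 141) (nat_lit 5) (nat_lit 417) (nat_lit 370) (nat_lit 233)))) (XT.nd (nat_lit 156) (nat_lit 380) (nat_lit 0) (XT.nd (nat_lit 78) (nat_lit 380) (nat_lit 0) (XT.lf (nat_lit 0) (nat_lit 12317774571) (nat_lit 304) (nat_lit 5449114709) (nat_lit 380) (nat_lit 4379851919) (nat_lit 136) (nat_lit 5) (nat_lit 140) (nat_lit 5) (nat_lit 141) (nat_lit 5) (nat_lit 418) (nat_lit 370) (nat_lit 232)) (XT.lf (nat_lit 0) (nat_lit 2661030038) (nat_lit 380) (nat_lit 19746788051) (nat_lit 456) (nat_lit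 147443405) (nat_lit 131) (nat_lit 5) (nat_lit 136) (nat_lit 5) (nat_lit 137) (nat_lit 5) (nat_lit 419) (nat_lit 370) (nat_lit 231))) (XT.nd (nat_lit 78) (nat_lit 304) (nat_lit 0) (XT.lf (nat_lit 0) (nat_lit 4275507648) (nat_lit 456) (nat_lit 7353330935) (nat_lit 76) (nat_lit 11341613643) (nat_lit 130) (nat_lit 5) (nat_lit 136) (nat_lit 5) (nat_lit 131) (nat_lit 5) (nat_lit 420) (nat_lit 370) (nat_lit 230)) (XT.lf (nat_lit 0) (nat_lit 5661096542) (nat_lit 304) (nat_lit 3213323329) (nat_lit 380) (nat_lit 14522250137) (nat_lit 126) (nat_lit 5) (nat_lit 130) (nat_lit 5) (nat_lit 131) (nat_lit 5) (nat_lit 421) (nat_lit 370) (nat_lit 229))))) (XT.nd (nat_lit 234) (nat_lit 912) (nat_lit 0) (XT.nd (nat_lit 78) (nat_lit 304) (nat_lit 0) (XT.lf (nat_lit 0) (nat_lit 13730633401) (nat_lit 380) (nat_lit 4681726061) (nat_lit 76) (nat_lit 5419736983) (nat_lit 126) (nat_lit 5) (nat_lit 131) (nat_lit 5) (nat_lit 127) (nat_lit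 5) (nat_lit 422) (nat_lit 370) (nat_lit 228)) (XT.nd (nat_lit 78) (nat_lit 0) (nat_lit 0) (XT.lf (nat_lit 0) (nat_lit 8894016180) (nat_lit 304) (nat_lit 9947973586) (nat_lit 380) (nat_lit 5435314295) (nat_lit 122) (nat_lit 5) (nat_lit 126) (nat_lit 5) (nat_lit 127) (nat_lit 5) (nat_lit 423) (nat_lit 370) (nat_lit 227)) (XT.lf (nat_lit 0) (nat_lit 22961654040) (nat_lit 304) (nat_lit 1184575320) (nat_lit 380) (nat_lit 588454287) (nat_lit 122) (nat_lit 5) (nat_lit 126) (nat_lit 5) (nat_lit 127) (nat_lit 5) (nat_lit 424) (nat_lit 370) (nat_lit 226)))) (XT.nd (nat_lit 156) (nat_lit 228) (nat_lit 0) (XT.nd (nat_lit 78) (nat_lit 304) (nat_lit 0) (XT.lf (nat_lit 0) (nat_lit 4506769909) (nat_lit 380) (nat_lit 12843425908) (nat_lit 76) (nat_lit 7848653962) (nat_lit 117) (nat_lit 5) (nat_lit 122) (nat_lit 5) (nat_lit 118) (nat_lit 5) (nat_lit 425) (nat_lit 370) (nat_lit 225)) (XT.lf (nat_lit 0) (nat_lit 1263341150) (nat_lit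 304) (nat_lit 8514131562) (nat_lit 380) (nat_lit 15898261766) (nat_lit 113) (nat_lit 5) (nat_lit 117) (nat_lit 5) (nat_lit 118) (nat_lit 5) (nat_lit 426) (nat_lit 370) (nat_lit 224))) (XT.nd (nat_lit 78) (nat_lit 228) (nat_lit 0) (XT.lf (nat_lit 0) (nat_lit 15335487668) (nat_lit 380) (nat_lit 10124701857) (nat_lit 76) (nat_lit 702862251) (nat_lit 113) (nat_lit 5) (nat_lit 118) (nat_lit 5) (nat_lit 114) (nat_lit 5) (nat_lit 427) (nat_lit 370) (nat_lit 223)) (XT.lf (nat_lit 0) (nat_lit 4585808673) (nat_lit 228) (nat_lit 16595601528) (nat_lit 304) (nat_lit 5479945119) (nat_lit 110) (nat_lit 5) (nat_lit 113) (nat_lit 5) (nat_lit 114) (nat_lit 5) (nat_lit 428) (nat_lit 370) (nat_lit 222)))))) (XT.nd (nat_lit 546) (nat_lit 988) (nat_lit 0) (XT.nd (nat_lit 234) (nat_lit 760) (nat_lit 0) (XT.nd (nat_lit 78) (nat_lit 304) (nat_lit 0) (XT.lf (nat_lit 0) (nat_lit 123626529) (nat_lit 304) (nat_lit 7238677901) (nat_lit 76)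 (nat_lit 19809414905) (nat_lit 109) (nat_lit 5) (nat_lit 113) (nat_lit 5) (nat_lit 110) (nat_lit 5) (nat_lit 429) (nat_lit 370) (nat_lit 221)) (XT.nd (nat_lit 78) (nat_lit 0) (nat_lit 0) (XT.lf (nat_lit 0) (nat_lit 5878335867) (nat_lit 380) (nat_lit 19578444069) (nat_lit 76) (nat_lit 2236193058) (nat_lit 105) (nat_lit 5) (nat_lit 110) (nat_lit 5) (nat_lit 106) (nat_lit 5) (nat_lit 430) (nat_lit 370) (nat_lit 220)) (XT.lf (nat_lit 0) (nat_lit 11945495526) (nat_lit 380) (nat_lit 4235352337) (nat_lit 76) (nat_lit 12044823676) (nat_lit 105) (nat_lit 5) (nat_lit 110) (nat_lit 5) (nat_lit 106) (nat_lit 5) (nat_lit 431) (nat_lit 370) (nat_lit 219)))) (XT.nd (nat_lit 156) (nat_lit 532) (nat_lit 0) (XT.nd (nat_lit 78) (nat_lit 0) (nat_lit 0) (XT.lf (nat_lit 0) (nat_lit 11787583470) (nat_lit 228) (nat_lit 6513691848) (nat_lit 304) (nat_lit 10469879063) (nat_lit 102) (nat_lit 5) (nat_lit 105) (nat_lit 5) (nat_lit 106)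 (nat_lit 5) (nat_lit 432) (nat_lit 370) (nat_lit 218)) (XT.lf (nat_lit 0) (nat_lit 24917376952) (nat_lit 304) (nat_lit 997742880) (nat_lit 76) (nat_lit 3415793880) (nat_lit 102) (nat_lit 5) (nat_lit 106) (nat_lit 5) (nat_lit 103) (nat_lit 5) (nat_lit 433) (nat_lit 370) (nat_lit 217))) (XT.nd (nat_lit 78) (nat_lit 228) (nat_lit 0) (XT.lf (nat_lit 0) (nat_lit 1999912958) (nat_lit 304) (nat_lit 14221509092) (nat_lit 76) (nat_lit 13679188413) (nat_lit 98) (nat_lit 5) (nat_lit 102) (nat_lit 5) (nat_lit 99) (nat_lit 5) (nat_lit 434) (nat_lit 370) (nat_lit 216)) (XT.lf (nat_lit 0) (nat_lit 2382041684) (nat_lit 228) (nat_lit 6161664640) (nat_lit 304) (nat_lit 21941582739) (nat_lit 95) (nat_lit 5) (nat_lit 98) (nat_lit 5) (nat_lit 99) (nat_lit 5) (nat_lit 435) (nat_lit 370) (nat_lit 215))))) (XT.nd (nat_lit 312) (nat_lit 456) (nat_lit 0) (XT.nd (nat_lit 156) (nat_lit 304) (nat_lit 0) (XT.nd (nat_lit 78) (nat_lit 228)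 (nat_lit 0) (XT.lf (nat_lit 0) (nat_lit 15462844718) (nat_lit 304) (nat_lit 11360071932) (nat_lit 76) (nat_lit 4259221730) (nat_lit 95) (nat_lit 5) (nat_lit 99) (nat_lit 5) (nat_lit 96) (nat_lit 5) (nat_lit 436) (nat_lit 370) (nat_lit 214)) (XT.lf (nat_lit 0) (nat_lit 5930105623) (nat_lit 228) (nat_lit 16771275738) (nat_lit 304) (nat_lit 8992158349) (nat_lit 92) (nat_lit 5) (nat_lit 95) (nat_lit 5) (nat_lit 96) (nat_lit 5) (nat_lit 437) (nat_lit 370) (nat_lit 213))) (XT.nd (nat_lit 78) (nat_lit 304) (nat_lit 0) (XT.lf (nat_lit 0) (nat_lit 23961952628) (nat_lit 228) (nat_lit 6303734600) (nat_lit 304) (nat_lit 2054338679) (nat_lit 92) (nat_lit 5) (nat_lit 95) (nat_lit 5) (nat_lit 96) (nat_lit 5) (nat_lit 438) (nat_lit 370) (nat_lit 212)) (XT.lf (nat_lit 0) (nat_lit 5123934568) (nat_lit 304) (nat_lit 23305587494) (nat_lit 76) (nat_lit 4530367224) (nat_lit 88) (nat_lit 5) (nat_lit 92) (nat_lit 5) (nat_lit 89) (nat_lit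 5) (nat_lit 439) (nat_lit 370) (nat_lit 211)))) (XT.nd (nat_lit 156) (nat_lit 228) (nat_lit 0) (XT.nd (nat_lit 78) (nat_lit 228) (nat_lit 0) (XT.lf (nat_lit 0) (nat_lit 12617977048) (nat_lit 304) (nat_lit 5331409645) (nat_lit 76) (nat_lit 15664701454) (nat_lit 88) (nat_lit 5) (nat_lit 92) (nat_lit 5) (nat_lit 89) (nat_lit 5) (nat_lit 440) (nat_lit 370) (nat_lit 210)) (XT.lf (nat_lit 0) (nat_lit 13434652322) (nat_lit 228) (nat_lit 7025565722) (nat_lit 304) (nat_lit 13823994699) (nat_lit 85) (nat_lit 5) (nat_lit 88) (nat_lit 5) (nat_lit 89) (nat_lit 5) (nat_lit 441) (nat_lit 370) (nat_lit 209))) (XT.nd (nat_lit 78) (nat_lit 228) (nat_lit 0) (XT.lf (nat_lit 0) (nat_lit 28626995579) (nat_lit 304) (nat_lit 2150539260) (nat_lit 76) (nat_lit 4194229211) (nat_lit 85) (nat_lit 5) (nat_lit 89) (nat_lit 5) (nat_lit 86) (nat_lit 5) (nat_lit 442) (nat_lit 370) (nat_lit 208)) (XT.lf (nat_lit 0) (nat_lit 1565575192) (nat_lit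 228) (nat_lit 18318791734) (nat_lit 76) (nat_lit 15788186412) (nat_lit 82) (nat_lit 5) (nat_lit 85) (nat_lit 5) (nat_lit 83) (nat_lit 5) (nat_lit 443) (nat_lit 370) (nat_lit 207))))))))
noncomputable def xc172 : XT := (XT.nd (nat_lit 2184) (nat_lit 1064) (nat_lit 0) (XT.nd (nat_lit 1092) (nat_lit 1140) (nat_lit 0) (XT.nd (nat_lit 546) (nat_lit 608) (nat_lit 0) (XT.nd (nat_lit 234) (nat_lit 456) (nat_lit 0) (XT.nd (nat_lit 78) (nat_lit 152) (nat_lit 0) (XT.lf (nat_lit 0) (nat_lit 1041565947) (nat_lit 228) (nat_lit 8570545036) (nat_lit 304) (nat_lit 26779579539) (nat_lit 79) (nat_lit 5) (nat_lit 82) (nat_lit 5) (nat_lit 83) (nat_lit 5) (nat_lit 444) (nat_lit 370) (nat_lit 206)) (XT.nd (nat_lit 78) (nat_lit 152) (nat_lit 0) (XT.lf (nat_lit 0) (nat_lit 18110990016) (nat_lit 304) (nat_lit 15809387812) (nat_lit 76) (nat_lit 3205696513) (nat_lit 79) (nat_lit 5) (nat_lit 83) (nat_lit 5) (nat_lit 80) (nat_lit 5) (nat_lit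 445) (nat_lit 370) (nat_lit 205)) (XT.lf (nat_lit 0) (nat_lit 4307721989) (nat_lit 152) (nat_lit 22678038046) (nat_lit 228) (nat_lit 10893102812) (nat_lit 77) (nat_lit 5) (nat_lit 79) (nat_lit 5) (nat_lit 80) (nat_lit 5) (nat_lit 446) (nat_lit 370) (nat_lit 204)))) (XT.nd (nat_lit 156) (nat_lit 152) (nat_lit 0) (XT.nd (nat_lit 78) (nat_lit 304) (nat_lit 0) (XT.lf (nat_lit 0) (nat_lit 25343459419) (nat_lit 152) (nat_lit 10937686226) (nat_lit 228) (nat_lit 2368459068) (nat_lit 77) (nat_lit 5) (nat_lit 79) (nat_lit 5) (nat_lit 80) (nat_lit 5) (nat_lit 447) (nat_lit 370) (nat_lit 203)) (XT.lf (nat_lit 0) (nat_lit 6367533011) (nat_lit 304) (nat_lit 31806423438) (nat_lit 76) (nat_lit 1265242295) (nat_lit 73) (nat_lit 5) (nat_lit 77) (nat_lit 5) (nat_lit 74) (nat_lit 5) (nat_lit 448) (nat_lit 370) (nat_lit 202))) (XT.nd (nat_lit 78) (nat_lit 152) (nat_lit 0) (XT.lf (nat_lit 0) (nat_lit 15556854111) (nat_lit 304) (nat_lit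 10917735601) (nat_lit 76) (nat_lit 13770022601) (nat_lit 73) (nat_lit 5) (nat_lit 77) (nat_lit 5) (nat_lit 74) (nat_lit 5) (nat_lit 449) (nat_lit 370) (nat_lit 201)) (XT.lf (nat_lit 0) (nat_lit 10799774721) (nat_lit 152) (nat_lit 14320906480) (nat_lit 228) (nat_lit 15950543080) (nat_lit 71) (nat_lit 5) (nat_lit 73) (nat_lit 5) (nat_lit 74) (nat_lit 5) (nat_lit 450) (nat_lit 370) (nat_lit 200))))) (XT.nd (nat_lit 234) (nat_lit 380) (nat_lit 0) (XT.nd (nat_lit 78) (nat_lit 228) (nat_lit 0) (XT.lf (nat_lit 0) (nat_lit 33384116699) (nat_lit 152) (nat_lit 1692630041) (nat_lit 228) (nat_lit 6842728920) (nat_lit 71) (nat_lit 5) (nat_lit 73) (nat_lit 5) (nat_lit 74) (nat_lit 5) (nat_lit 451) (nat_lit 370) (nat_lit 199)) (XT.nd (nat_lit 78) (nat_lit 0) (nat_lit 0) (XT.lf (nat_lit 0) (nat_lit 2729761161) (nat_lit 228) (nat_lit 28803719489) (nat_lit 76) (nat_lit 11251733453) (nat_lit 68) (nat_lit 5) (nat_lit 71) (nat_lit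 5) (nat_lit 69) (nat_lit 5) (nat_lit 452) (nat_lit 370) (nat_lit 198)) (XT.lf (nat_lit 0) (nat_lit 12550895212) (nat_lit 228) (nat_lit 6419254739) (nat_lit 76) (nat_lit 24701772911) (nat_lit 68) (nat_lit 5) (nat_lit 71) (nat_lit 5) (nat_lit 69) (nat_lit 5) (nat_lit 453) (nat_lit 370) (nat_lit 197)))) (XT.nd (nat_lit 156) (nat_lit 228) (nat_lit 0) (XT.nd (nat_lit 78) (nat_lit 0) (nat_lit 0) (XT.lf (nat_lit 0) (nat_lit 16959555713) (nat_lit 152) (nat_lit 5865471902) (nat_lit 228) (nat_lit 21755455014) (nat_lit 66) (nat_lit 5) (nat_lit 68) (nat_lit 5) (nat_lit 69) (nat_lit 5) (nat_lit 454) (nat_lit 370) (nat_lit 196)) (XT.lf (nat_lit 0) (nat_lit 33541578408) (nat_lit 228) (nat_lit 4425200361) (nat_lit 76) (nat_lit 7545495244) (nat_lit 66) (nat_lit 5) (nat_lit 69) (nat_lit 5) (nat_lit 67) (nat_lit 5) (nat_lit 455) (nat_lit 370) (nat_lit 195))) (XT.nd (nat_lit 78) (nat_lit 76) (nat_lit 0) (XT.lf (nat_lit 0) (nat_lit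 19786511525) (nat_lit 152) (nat_lit 25036887207) (nat_lit 228) (nat_lit 1641307853) (nat_lit 64) (nat_lit 5) (nat_lit 66) (nat_lit 5) (nat_lit 67) (nat_lit 5) (nat_lit 456) (nat_lit 370) (nat_lit 194)) (XT.lf (nat_lit 0) (nat_lit 8863017256) (nat_lit 228) (nat_lit 2723951787) (nat_lit 76) (nat_lit 35854929725) (nat_lit 63) (nat_lit 5) (nat_lit 66) (nat_lit 5) (nat_lit 64) (nat_lit 5) (nat_lit 457) (nat_lit 370) (nat_lit 193)))))) (XT.nd (nat_lit 546) (nat_lit 456) (nat_lit 0) (XT.nd (nat_lit 234) (nat_lit 380) (nat_lit 0) (XT.nd (nat_lit 78) (nat_lit 152) (nat_lit 0) (XT.lf (nat_lit 0) (nat_lit 19884118462) (nat_lit 228) (nat_lit 26104327366) (nat_lit 76) (nat_lit 2452434902) (nat_lit 61) (nat_lit 5) (nat_lit 64) (nat_lit 5) (nat_lit 62) (nat_lit 5) (nat_lit 458) (nat_lit 370) (nat_lit 192)) (XT.nd (nat_lit 78) (nat_lit 152) (nat_lit 0) (XT.lf (nat_lit 0) (nat_lit 31374016713) (nat_lit 228) (nat_lit 1387012008)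 (nat_lit 76) (nat_lit 16704659077) (nat_lit 61) (nat_lit 5) (nat_lit 64) (nat_lit 5) (nat_lit 62) (nat_lit 5) (nat_lit 459) (nat_lit 370) (nat_lit 191)) (XT.lf (nat_lit 0) (nat_lit 24543252733) (nat_lit 152) (nat_lit 18897072896) (nat_lit 228) (nat_lit 7073962586) (nat_lit 59) (nat_lit 5) (nat_lit 61) (nat_lit 5) (nat_lit 62) (nat_lit 5) (nat_lit 460) (nat_lit 370) (nat_lit 190)))) (XT.nd (nat_lit 156) (nat_lit 152) (nat_lit 0) (XT.nd (nat_lit 78) (nat_lit 152) (nat_lit 0) (XT.lf (nat_lit 0) (nat_lit 4200813939) (nat_lit 228) (nat_lit 362802271) (nat_lit 76) (nat_lit 47029200045) (nat_lit 58) (nat_lit 5) (nat_lit 61) (nat_lit 5) (nat_lit 59) (nat_lit 5) (nat_lit 461) (nat_lit 370) (nat_lit 189)) (XT.lf (nat_lit 0) (nat_lit 16023080310) (nat_lit 228) (nat_lit 26342787222) (nat_lit 76) (nat_lit 10325189145) (nat_lit 56) (nat_lit 5) (nat_lit 59) (nat_lit 5) (nat_lit 57) (nat_lit 5) (nat_lit 462) (nat_lit 370) (nat_lit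 188))) (XT.nd (nat_lit 78) (nat_lit 152) (nat_lit 0) (XT.lf (nat_lit 0) (nat_lit 28244838546) (nat_lit 228) (nat_lit 6553129) (nat_lit 76) (nat_lit 25569508406) (nat_lit 56) (nat_lit 5) (nat_lit 59) (nat_lit 5) (nat_lit 57) (nat_lit 5) (nat_lit 463) (nat_lit 370) (nat_lit 187)) (XT.lf (nat_lit 0) (nat_lit 27652267637) (nat_lit 152) (nat_lit 13442850359) (nat_lit 228) (nat_lit 13881665214) (nat_lit 54) (nat_lit 5) (nat_lit 56) (nat_lit 5) (nat_lit 57) (nat_lit 5) (nat_lit 464) (nat_lit 370) (nat_lit 186))))) (XT.nd (nat_lit 234) (nat_lit 304) (nat_lit 0) (XT.nd (nat_lit 78) (nat_lit 152) (nat_lit 0) (XT.lf (nat_lit 0) (nat_lit 54344446108) (nat_lit 228) (nat_lit 50865787) (nat_lit 76) (nat_lit 1771625188) (nat_lit 54) (nat_lit 5) (nat_lit 57) (nat_lit 5) (nat_lit 55) (nat_lit 4) (nat_lit 465) (nat_lit 370) (nat_lit 185)) (XT.nd (nat_lit 78) (nat_lit 0) (nat_lit 0) (XT.lf (nat_lit 0) (nat_lit 10798458420) (nat_lit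 152) (nat_lit 29030304251) (nat_lit 76) (nat_lit 17548772549) (nat_lit 52) (nat_lit 5) (nat_lit 54) (nat_lit 5) (nat_lit 53) (nat_lit 5) (nat_lit 466) (nat_lit 370) (nat_lit 184)) (XT.lf (nat_lit 0) (nat_lit 23758121757) (nat_lit 152) (nat_lit 1051086657) (nat_lit 76) (nat_lit 33814800502) (nat_lit 52) (nat_lit 5) (nat_lit 54) (nat_lit 5) (nat_lit 53) (nat_lit 5) (nat_lit 467) (nat_lit 370) (nat_lit 183)))) (XT.nd (nat_lit 156) (nat_lit 152) (nat_lit 0) (XT.nd (nat_lit 78) (nat_lit 0) (nat_lit 0) (XT.lf (nat_lit 0) (nat_lit 28313288555) (nat_lit 152) (nat_lit 9061758849) (nat_lit 228) (nat_lit 22524775656) (nat_lit 50) (nat_lit 5) (nat_lit 52) (nat_lit 5) (nat_lit 53) (nat_lit 5) (nat_lit 468) (nat_lit 370) (nat_lit 182)) (XT.lf (nat_lit 0) (nat_lit 51476330575) (nat_lit 228) (nat_lit 2709093564) (nat_lit 76) (nat_lit 7026212394) (nat_lit 50) (nat_lit 5) (nat_lit 53) (nat_lit 5) (nat_lit 51) (nat_lit 4) (nat_lit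 469) (nat_lit 370) (nat_lit 181))) (XT.nd (nat_lit 78) (nat_lit 0) (nat_lit 0) (XT.lf (nat_lit 0) (nat_lit 3724482707) (nat_lit 152) (nat_lit 35114266602) (nat_lit 76) (nat_lit 23712452484) (nat_lit 48) (nat_lit 5) (nat_lit 50) (nat_lit 5) (nat_lit 49) (nat_lit 5) (nat_lit 470) (nat_lit 370) (nat_lit 180)) (XT.lf (nat_lit 0) (nat_lit 17416458609) (nat_lit 152) (nat_lit 5490454404) (nat_lit 76) (nat_lit 41020427779) (nat_lit 48) (nat_lit 5) (nat_lit 50) (nat_lit 5) (nat_lit 49) (nat_lit 5) (nat_lit 471) (nat_lit 370) (nat_lit 179))))))) (XT.nd (nat_lit 45240) (nat_lit 0) (nat_lit 17480) (XT.nd (nat_lit 546) (nat_lit 532) (nat_lit 0) (XT.nd (nat_lit 234) (nat_lit 304) (nat_lit 0) (XT.nd (nat_lit 78) (nat_lit 76) (nat_lit 0) (XT.lf (nat_lit 0) (nat_lit 25513584933) (nat_lit 152) (nat_lit 6247401036) (nat_lit 228) (nat_lit 33576524578) (nat_lit 46) (nat_lit 5) (nat_lit 48) (nat_lit 5) (nat_lit 49) (nat_lit 5) (nat_lit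 472) (nat_lit 370) (nat_lit 178)) (XT.nd (nat_lit 78) (nat_lit 76) (nat_lit 0) (XT.lf (nat_lit 0) (nat_lit 46693285515) (nat_lit 228) (nat_lit 9339830775) (nat_lit 76) (nat_lit 10752146358) (nat_lit 46) (nat_lit 5) (nat_lit 49) (nat_lit 5) (nat_lit 47) (nat_lit 4) (nat_lit 473) (nat_lit 370) (nat_lit 177)) (XT.lf (nat_lit 0) (nat_lit 22428413609) (nat_lit 76) (nat_lit 39919244706) (nat_lit 152) (nat_lit 5920566199) (nat_lit 45) (nat_lit 5) (nat_lit 46) (nat_lit 5) (nat_lit 47) (nat_lit 4) (nat_lit 474) (nat_lit 370) (nat_lit 176)))) (XT.nd (nat_lit 156) (nat_lit 76) (nat_lit 0) (XT.nd (nat_lit 78) (nat_lit 152) (nat_lit 0) (XT.lf (nat_lit 0) (nat_lit 8598593880) (nat_lit 152) (nat_lit 14542199045) (nat_lit 76) (nat_lit 46649623462) (nat_lit 44) (nat_lit 5) (nat_lit 46) (nat_lit 5) (nat_lit 45) (nat_lit 5) (nat_lit 475) (nat_lit 370) (nat_lit 175)) (XT.lf (nat_lit 0) (nat_lit 17980584537) (nat_lit 152) (nat_lit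 5623343199) (nat_lit 228) (nat_lit 47747500105) (nat_lit 42) (nat_lit 5) (nat_lit 44) (nat_lit 5) (nat_lit 45) (nat_lit 5) (nat_lit 476) (nat_lit 370) (nat_lit 174))) (XT.nd (nat_lit 78) (nat_lit 76) (nat_lit 0) (XT.lf (nat_lit 0) (nat_lit 39323875463) (nat_lit 228) (nat_lit 21304565233) (nat_lit 76) (nat_lit 12322895623) (nat_lit 42) (nat_lit 5) (nat_lit 45) (nat_lit 5) (nat_lit 43) (nat_lit 4) (nat_lit 477) (nat_lit 370) (nat_lit 173)) (XT.lf (nat_lit 0) (nat_lit 11894285591) (nat_lit 76) (nat_lit 43788009143) (nat_lit 152) (nat_lit 18911941409) (nat_lit 41) (nat_lit 5) (nat_lit 42) (nat_lit 5) (nat_lit 43) (nat_lit 4) (nat_lit 478) (nat_lit 370) (nat_lit 172))))) (XT.nd (nat_lit 234) (nat_lit 304) (nat_lit 0) (XT.nd (nat_lit 78) (nat_lit 228) (nat_lit 0) (XT.lf (nat_lit 0) (nat_lit 46520042613) (nat_lit 76) (nat_lit 26223455446) (nat_lit 152) (nat_lit 3536564240) (nat_lit 41) (nat_lit 5) (nat_lit 42) (nat_lit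 5) (nat_lit 43) (nat_lit 4) (nat_lit 479) (nat_lit 370) (nat_lit 171)) (XT.nd (nat_lit 78) (nat_lit 0) (nat_lit 0) (XT.lf (nat_lit 0) (nat_lit 4124686317) (nat_lit 152) (nat_lit 7971975603) (nat_lit 228) (nat_lit 65915156311) (nat_lit 38) (nat_lit 5) (nat_lit 40) (nat_lit 5) (nat_lit 41) (nat_lit 5) (nat_lit 480) (nat_lit 370) (nat_lit 170)) (XT.lf (nat_lit 0) (nat_lit 28532339845) (nat_lit 228) (nat_lit 40298277907) (nat_lit 76) (nat_lit 10951722789) (nat_lit 38) (nat_lit 5) (nat_lit 41) (nat_lit 5) (nat_lit 39) (nat_lit 4) (nat_lit 481) (nat_lit 370) (nat_lit 169)))) (XT.nd (nat_lit 156) (nat_lit 228) (nat_lit 0) (XT.nd (nat_lit 78) (nat_lit 76) (nat_lit 0) (XT.lf (nat_lit 0) (nat_lit 45537073832) (nat_lit 228) (nat_lit 5786207373) (nat_lit 76) (nat_lit 30280417991) (nat_lit 38) (nat_lit 5) (nat_lit 41) (nat_lit 5) (nat_lit 39) (nat_lit 4) (nat_lit 482) (nat_lit 370) (nat_lit 168)) (XT.lf (nat_lit 0) (nat_lit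 30348067476) (nat_lit 76) (nat_lit 32992747592) (nat_lit 152) (nat_lit 20130217824) (nat_lit 37) (nat_lit 5) (nat_lit 38) (nat_lit 5) (nat_lit 39) (nat_lit 4) (nat_lit 483) (nat_lit 370) (nat_lit 167))) (XT.nd (nat_lit 78) (nat_lit 228) (nat_lit 0) (XT.lf (nat_lit 0) (nat_lit 67679676774) (nat_lit 76) (nat_lit 14054594433) (nat_lit 152) (nat_lit 3658447547) (nat_lit 37) (nat_lit 5) (nat_lit 38) (nat_lit 5) (nat_lit 39) (nat_lit 4) (nat_lit 484) (nat_lit 370) (nat_lit 166)) (XT.lf (nat_lit 0) (nat_lit 13283091909) (nat_lit 228) (nat_lit 68421530656) (nat_lit 76) (nat_lit 5656536472) (nat_lit 34) (nat_lit 5) (nat_lit 37) (nat_lit 5) (nat_lit 35) (nat_lit 4) (nat_lit 485) (nat_lit 370) (nat_lit 165)))))) (XT.nd (nat_lit 546) (nat_lit 0) (nat_lit 152) (XT.nd (nat_lit 234) (nat_lit 1064) (nat_lit 0) (XT.nd (nat_lit 78) (nat_lit 0) (nat_lit 0) (XT.lf (nat_lit 0) (nat_lit 4584604565) (nat_lit 1140) (nat_lit 357790592)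 (nat_lit 1140) (nat_lit 357790592) (nat_lit 278) (nat_lit 3) (nat_lit 293) (nat_lit 3) (nat_lit 293) (nat_lit 5) (nat_lit 371) (nat_lit 371) (nat_lit 278)) (XT.nd (nat_lit 78) (nat_lit 0) (nat_lit 0) (XT.lf (nat_lit 76) (nat_lit 4490889274) (nat_lit 0) (nat_lit 5462634274) (nat_lit 1140) (nat_lit 786171497) (nat_lit 279) (nat_lit 5) (nat_lit 278) (nat_lit 3) (nat_lit 293) (nat_lit 5) (nat_lit 372) (nat_lit 371) (nat_lit 277)) (XT.lf (nat_lit 76) (nat_lit 9855843660) (nat_lit 0) (nat_lit 889073615) (nat_lit 1140) (nat_lit 138785404) (nat_lit 279) (nat_lit 5) (nat_lit 278) (nat_lit 3) (nat_lit 293) (nat_lit 5) (nat_lit 373) (nat_lit 371) (nat_lit 276)))) (XT.nd (nat_lit 156) (nat_lit 0) (nat_lit 76) (XT.nd (nat_lit 78) (nat_lit 0) (nat_lit 0) (XT.lf (nat_lit 0) (nat_lit 574276676) (nat_lit 1140) (nat_lit 6650253587) (nat_lit 1216) (nat_lit 3805661521) (nat_lit 264) (nat_lit 5) (nat_lit 279) (nat_lit 5) (nat_lit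 280) (nat_lit 5) (nat_lit 374) (nat_lit 371) (nat_lit 275)) (XT.lf (nat_lit 0) (nat_lit 1302658109) (nat_lit 1140) (nat_lit 1233161651) (nat_lit 1216) (nat_lit 8645323026) (nat_lit 264) (nat_lit 5) (nat_lit 279) (nat_lit 5) (nat_lit 280) (nat_lit 5) (nat_lit 375) (nat_lit 371) (nat_lit 274))) (XT.nd (nat_lit 78) (nat_lit 0) (nat_lit 0) (XT.lf (nat_lit 0) (nat_lit 2096022870) (nat_lit 1140) (nat_lit 6938652748) (nat_lit 1216) (nat_lit 2300662409) (nat_lit 265) (nat_lit 5) (nat_lit 280) (nat_lit 5) (nat_lit 281) (nat_lit 5) (nat_lit 376) (nat_lit 371) (nat_lit 273)) (XT.lf (nat_lit 0) (nat_lit 2929561575) (nat_lit 1140) (nat_lit 1311693869) (nat_lit 1216) (nat_lit 7252421876) (nat_lit 265) (nat_lit 5) (nat_lit 280) (nat_lit 5) (nat_lit 281) (nat_lit 5) (nat_lit 377) (nat_lit 371) (nat_lit 272))))) (XT.nd (nat_lit 312) (nat_lit 0) (nat_lit 76) (XT.nd (nat_lit 156) (nat_lit 0) (nat_lit 0) (XT.nd (nat_lit 78) (nat_lit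 0) (nat_lit 0) (XT.lf (nat_lit 0) (nat_lit 3818449332) (nat_lit 1140) (nat_lit 7103216860) (nat_lit 1216) (nat_lit 734199422) (nat_lit 266) (nat_lit 5) (nat_lit 281) (nat_lit 5) (nat_lit 282) (nat_lit 5) (nat_lit 378) (nat_lit 371) (nat_lit 271)) (XT.lf (nat_lit 0) (nat_lit 4769233280) (nat_lit 1140) (nat_lit 1258388514) (nat_lit 1216) (nat_lit 5794249723) (nat_lit 266) (nat_lit 5) (nat_lit 281) (nat_lit 5) (nat_lit 282) (nat_lit 5) (nat_lit 379) (nat_lit 371) (nat_lit 270))) (XT.nd (nat_lit 78) (nat_lit 0) (nat_lit 76) (XT.lf (nat_lit 76) (nat_lit 4843133759) (nat_lit 0) (nat_lit 932408996) (nat_lit 1216) (nat_lit 6216513367) (nat_lit 267) (nat_lit 5) (nat_lit 266) (nat_lit 5) (nat_lit 282) (nat_lit 5) (nat_lit 380) (nat_lit 371) (nat_lit 269)) (XT.lf (nat_lit 0) (nat_lit 6847308908) (nat_lit 1140) (nat_lit 1068747155) (nat_lit 1216) (nat_lit 4250240518) (nat_lit 267) (nat_lit 5) (nat_lit 282) (nat_lit 5) (nat_lit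 283) (nat_lit 5) (nat_lit 381) (nat_lit 371) (nat_lit 268)))) (XT.nd (nat_lit 156) (nat_lit 0) (nat_lit 76) (XT.nd (nat_lit 78) (nat_lit 0) (nat_lit 76) (XT.lf (nat_lit 76) (nat_lit 5274250324) (nat_lit 0) (nat_lit 2718413238) (nat_lit 1216) (nat_lit 4351865722) (nat_lit 268) (nat_lit 5) (nat_lit 267) (nat_lit 5) (nat_lit 283) (nat_lit 5) (nat_lit 382) (nat_lit 371) (nat_lit 267)) (XT.lf (nat_lit 0) (nat_lit 9190573044) (nat_lit 1140) (nat_lit 737515406) (nat_lit 1216) (nat_lit 2599482551) (nat_lit 268) (nat_lit 5) (nat_lit 283) (nat_lit 5) (nat_lit 284) (nat_lit 5) (nat_lit 383) (nat_lit 371) (nat_lit 266))) (XT.nd (nat_lit 78) (nat_lit 0) (nat_lit 76) (XT.lf (nat_lit 76) (nat_lit 5859313953) (nat_lit 0) (nat_lit 4630833783) (nat_lit 1216) (nat_lit 2223992026) (nat_lit 269) (nat_lit 5) (nat_lit 268) (nat_lit 5) (nat_lit 284) (nat_lit 5) (nat_lit 384) (nat_lit 371) (nat_lit 265)) (XT.lf (nat_lit 0) (nat_lit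 11827074889) (nat_lit 1140) (nat_lit 258689594) (nat_lit 1216) (nat_lit 820597553) (nat_lit 269) (nat_lit 5) (nat_lit 284) (nat_lit 5) (nat_lit 285) (nat_lit 5) (nat_lit 385) (nat_lit 371) (nat_lit 264))))))))
noncomputable def xc173 : XT := (XT.nd (nat_lit 2184) (nat_lit 5016) (nat_lit 0) (XT.nd (nat_lit 1092) (nat_lit 3648) (nat_lit 0) (XT.nd (nat_lit 546) (nat_lit 2356) (nat_lit 0) (XT.nd (nat_lit 234) (nat_lit 1748) (nat_lit 0) (XT.nd (nat_lit 78) (nat_lit 0) (nat_lit 0) (XT.lf (nat_lit 0) (nat_lit 191472763) (nat_lit 1216) (nat_lit 6498450224) (nat_lit 1292) (nat_lit 6411596391) (nat_lit 253) (nat_lit 5) (nat_lit 269) (nat_lit 5) (nat_lit 270) (nat_lit 5) (nat_lit 386) (nat_lit 371) (nat_lit 263)) (XT.nd (nat_lit 78) (nat_lit 0) (nat_lit 76) (XT.lf (nat_lit 76) (nat_lit 356201567) (nat_lit 0) (nat_lit 1112120012) (nat_lit 1292) (nat_lit 11834206297) (nat_lit 254) (nat_lit 5) (nat_lit 253) (nat_lit 5) (nat_lit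 270) (nat_lit 5) (nat_lit 387) (nat_lit 371) (nat_lit 262)) (XT.lf (nat_lit 0) (nat_lit 2878252953) (nat_lit 1216) (nat_lit 6017026525) (nat_lit 76) (nat_lit 4611450420) (nat_lit 254) (nat_lit 5) (nat_lit 270) (nat_lit 5) (nat_lit 255) (nat_lit 5) (nat_lit 388) (nat_lit 371) (nat_lit 261)))) (XT.nd (nat_lit 156) (nat_lit 608) (nat_lit 0) (XT.nd (nat_lit 78) (nat_lit 0) (nat_lit 0) (XT.lf (nat_lit 0) (nat_lit 1117403789) (nat_lit 1216) (nat_lit 3219267992) (nat_lit 1292) (nat_lit 9380206904) (nat_lit 238) (nat_lit 5) (nat_lit 254) (nat_lit 5) (nat_lit 255) (nat_lit 5) (nat_lit 389) (nat_lit 371) (nat_lit 260)) (XT.lf (nat_lit 0) (nat_lit 5910236718) (nat_lit 1292) (nat_lit 5382043237) (nat_lit 76) (nat_lit 2638916380) (nat_lit 238) (nat_lit 5) (nat_lit 255) (nat_lit 5) (nat_lit 239) (nat_lit 5) (nat_lit 390) (nat_lit 371) (nat_lit 259))) (XT.nd (nat_lit 78) (nat_lit 0) (nat_lit 0) (XT.lf (nat_lit 0) (nat_lit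 2046486197) (nat_lit 608) (nat_lit 5521290971) (nat_lit 684) (nat_lit 6583069310) (nat_lit 230) (nat_lit 5) (nat_lit 238) (nat_lit 5) (nat_lit 239) (nat_lit 5) (nat_lit 391) (nat_lit 371) (nat_lit 258)) (XT.lf (nat_lit 0) (nat_lit 9319529881) (nat_lit 684) (nat_lit 4585664374) (nat_lit 76) (nat_lit 470563137) (nat_lit 230) (nat_lit 5) (nat_lit 239) (nat_lit 5) (nat_lit 231) (nat_lit 5) (nat_lit 392) (nat_lit 371) (nat_lit 257))))) (XT.nd (nat_lit 234) (nat_lit 1064) (nat_lit 0) (XT.nd (nat_lit 78) (nat_lit 684) (nat_lit 0) (XT.lf (nat_lit 0) (nat_lit 3152031478) (nat_lit 608) (nat_lit 8042725883) (nat_lit 684) (nat_lit 3410536285) (nat_lit 222) (nat_lit 5) (nat_lit 230) (nat_lit 5) (nat_lit 231) (nat_lit 5) (nat_lit 393) (nat_lit 371) (nat_lit 256)) (XT.nd (nat_lit 78) (nat_lit 684) (nat_lit 0) (XT.lf (nat_lit 0) (nat_lit 11202589054) (nat_lit 608) (nat_lit 1956196979) (nat_lit 684) (nat_lit 1681959136) (nat_lit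 222) (nat_lit 5) (nat_lit 230) (nat_lit 5) (nat_lit 231) (nat_lit 5) (nat_lit 394) (nat_lit 371) (nat_lit 255)) (XT.lf (nat_lit 0) (nat_lit 168063915) (nat_lit 684) (nat_lit 10639433371) (nat_lit 76) (nat_lit 4273594442) (nat_lit 213) (nat_lit 5) (nat_lit 222) (nat_lit 5) (nat_lit 214) (nat_lit 5) (nat_lit 395) (nat_lit 371) (nat_lit 254)))) (XT.nd (nat_lit 156) (nat_lit 532) (nat_lit 0) (XT.nd (nat_lit 78) (nat_lit 532) (nat_lit 0) (XT.lf (nat_lit 0) (nat_lit 2083023520) (nat_lit 684) (nat_lit 2538918724) (nat_lit 76) (nat_lit 10704914646) (nat_lit 213) (nat_lit 5) (nat_lit 222) (nat_lit 5) (nat_lit 214) (nat_lit 5) (nat_lit 396) (nat_lit 371) (nat_lit 253)) (XT.lf (nat_lit 0) (nat_lit 4116743064) (nat_lit 608) (nat_lit 9689223047) (nat_lit 76) (nat_lit 1772194459) (nat_lit 206) (nat_lit 5) (nat_lit 214) (nat_lit 5) (nat_lit 207) (nat_lit 5) (nat_lit 397) (nat_lit 371) (nat_lit 252))) (XT.nd (nat_lit 78) (nat_lit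 532) (nat_lit 0) (XT.lf (nat_lit 0) (nat_lit 6270531406) (nat_lit 608) (nat_lit 1273868419) (nat_lit 76) (nat_lit 8290836572) (nat_lit 206) (nat_lit 5) (nat_lit 214) (nat_lit 5) (nat_lit 207) (nat_lit 5) (nat_lit 398) (nat_lit 371) (nat_lit 251)) (XT.lf (nat_lit 0) (nat_lit 7527937855) (nat_lit 532) (nat_lit 1021129040) (nat_lit 608) (nat_lit 7549158216) (nat_lit 199) (nat_lit 5) (nat_lit 206) (nat_lit 5) (nat_lit 207) (nat_lit 5) (nat_lit 399) (nat_lit 371) (nat_lit 250)))))) (XT.nd (nat_lit 546) (nat_lit 1672) (nat_lit 0) (XT.nd (nat_lit 234) (nat_lit 988) (nat_lit 0) (XT.nd (nat_lit 78) (nat_lit 532) (nat_lit 0) (XT.lf (nat_lit 0) (nat_lit 186804044) (nat_lit 456) (nat_lit 10766708320) (nat_lit 532) (nat_lit 5413868987) (nat_lit 193) (nat_lit 5) (nat_lit 199) (nat_lit 5) (nat_lit 200) (nat_lit 5) (nat_lit 400) (nat_lit 371) (nat_lit 249)) (XT.nd (nat_lit 78) (nat_lit 532) (nat_lit 0) (XT.lf (nat_lit 0) (nat_lit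 9358971476) (nat_lit 456) (nat_lit 4155894656) (nat_lit 532) (nat_lit 3127207249) (nat_lit 193) (nat_lit 5) (nat_lit 199) (nat_lit 5) (nat_lit 200) (nat_lit 5) (nat_lit 401) (nat_lit 371) (nat_lit 248)) (XT.lf (nat_lit 0) (nat_lit 1879504386) (nat_lit 532) (nat_lit 14305680061) (nat_lit 608) (nat_lit 738862233) (nat_lit 186) (nat_lit 5) (nat_lit 193) (nat_lit 5) (nat_lit 194) (nat_lit 5) (nat_lit 402) (nat_lit 371) (nat_lit 247)))) (XT.nd (nat_lit 156) (nat_lit 456) (nat_lit 0) (XT.nd (nat_lit 78) (nat_lit 456) (nat_lit 0) (XT.lf (nat_lit 0) (nat_lit 1791615443) (nat_lit 608) (nat_lit 5817475229) (nat_lit 76) (nat_lit 9601774114) (nat_lit 185) (nat_lit 5) (nat_lit 193) (nat_lit 5) (nat_lit 186) (nat_lit 5) (nat_lit 403) (nat_lit 371) (nat_lit 246)) (XT.lf (nat_lit 0) (nat_lit 3739370070) (nat_lit 456) (nat_lit 668709886) (nat_lit 532) (nat_lit 13097244194) (nat_lit 179) (nat_lit 5) (nat_lit 185) (nat_lit 5)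 (nat_lit 186) (nat_lit 5) (nat_lit 404) (nat_lit 371) (nat_lit 245))) (XT.nd (nat_lit 78) (nat_lit 456) (nat_lit 0) (XT.lf (nat_lit 0) (nat_lit 7213815065) (nat_lit 532) (nat_lit 4180426089) (nat_lit 76) (nat_lit 6411056595) (nat_lit 179) (nat_lit 5) (nat_lit 186) (nat_lit 5) (nat_lit 180) (nat_lit 5) (nat_lit 405) (nat_lit 371) (nat_lit 244)) (XT.lf (nat_lit 0) (nat_lit 5786462363) (nat_lit 456) (nat_lit 4368980797) (nat_lit 532) (nat_lit 7957279413) (nat_lit 173) (nat_lit 5) (nat_lit 179) (nat_lit 5) (nat_lit 180) (nat_lit 5) (nat_lit 406) (nat_lit 371) (nat_lit 243))))) (XT.nd (nat_lit 234) (nat_lit 1216) (nat_lit 0) (XT.nd (nat_lit 78) (nat_lit 456) (nat_lit 0) (XT.lf (nat_lit 0) (nat_lit 13245156812) (nat_lit 532) (nat_lit 2330699939) (nat_lit 76) (nat_lit 2851721826) (nat_lit 173) (nat_lit 5) (nat_lit 180) (nat_lit 5) (nat_lit 174) (nat_lit 5) (nat_lit 407) (nat_lit 371) (nat_lit 242)) (XT.nd (nat_lit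 78) (nat_lit 76) (nat_lit 0) (XT.lf (nat_lit 0) (nat_lit 8066576260) (nat_lit 380) (nat_lit 8471730247) (nat_lit 456) (nat_lit 2210254851) (nat_lit 168) (nat_lit 5) (nat_lit 173) (nat_lit 5) (nat_lit 174) (nat_lit 5) (nat_lit 408) (nat_lit 371) (nat_lit 241)) (XT.lf (nat_lit 0) (nat_lit 848259207) (nat_lit 456) (nat_lit 275716678) (nat_lit 76) (nat_lit 17954541851) (nat_lit 167) (nat_lit 5) (nat_lit 173) (nat_lit 5) (nat_lit 168) (nat_lit 5) (nat_lit 409) (nat_lit 371) (nat_lit 240)))) (XT.nd (nat_lit 156) (nat_lit 380) (nat_lit 0) (XT.nd (nat_lit 78) (nat_lit 380) (nat_lit 0) (XT.lf (nat_lit 0) (nat_lit 4109614285) (nat_lit 532) (nat_lit 8862108845) (nat_lit 76) (nat_lit 6441331021) (nat_lit 161) (nat_lit 5) (nat_lit 168) (nat_lit 5) (nat_lit 162) (nat_lit 5) (nat_lit 410) (nat_lit 371) (nat_lit 239)) (XT.lf (nat_lit 0) (nat_lit 1965544702) (nat_lit 380) (nat_lit 5526556238) (nat_lit 456) (nat_lit 12264830042)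 (nat_lit 156) (nat_lit 5) (nat_lit 161) (nat_lit 5) (nat_lit 162) (nat_lit 5) (nat_lit 411) (nat_lit 371) (nat_lit 238))) (XT.nd (nat_lit 78) (nat_lit 380) (nat_lit 0) (XT.lf (nat_lit 0) (nat_lit 11077621172) (nat_lit 456) (nat_lit 6842532422) (nat_lit 76) (nat_lit 2187926720) (nat_lit 156) (nat_lit 5) (nat_lit 162) (nat_lit 5) (nat_lit 157) (nat_lit 5) (nat_lit 412) (nat_lit 371) (nat_lit 237)) (XT.lf (nat_lit 0) (nat_lit 4455051834) (nat_lit 380) (nat_lit 10404065354) (nat_lit 456) (nat_lit 5607997507) (nat_lit 151) (nat_lit 5) (nat_lit 156) (nat_lit 5) (nat_lit 157) (nat_lit 5) (nat_lit 413) (nat_lit 371) (nat_lit 236))))))) (XT.nd (nat_lit 1092) (nat_lit 2128) (nat_lit 0) (XT.nd (nat_lit 546) (nat_lit 1292) (nat_lit 0) (XT.nd (nat_lit 234) (nat_lit 1140) (nat_lit 0) (XT.nd (nat_lit 78) (nat_lit 456) (nat_lit 0) (XT.lf (nat_lit 0) (nat_lit 16219995044) (nat_lit 380) (nat_lit 2594178573) (nat_lit 456) (nat_lit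 2020945819) (nat_lit 151) (nat_lit 5) (nat_lit 156) (nat_lit 5) (nat_lit 157) (nat_lit 5) (nat_lit 414) (nat_lit 371) (nat_lit 235)) (XT.nd (nat_lit 78) (nat_lit 0) (nat_lit 0) (XT.lf (nat_lit 0) (nat_lit 1755026803) (nat_lit 456) (nat_lit 14027880826) (nat_lit 76) (nat_lit 5427357568) (nat_lit 145) (nat_lit 5) (nat_lit 151) (nat_lit 5) (nat_lit 146) (nat_lit 5) (nat_lit 415) (nat_lit 371) (nat_lit 234)) (XT.lf (nat_lit 0) (nat_lit 5667719329) (nat_lit 456) (nat_lit 2224786327) (nat_lit 76) (nat_lit 13701640159) (nat_lit 145) (nat_lit 5) (nat_lit 151) (nat_lit 5) (nat_lit 146) (nat_lit 5) (nat_lit 416) (nat_lit 371) (nat_lit 233)))) (XT.nd (nat_lit 156) (nat_lit 456) (nat_lit 0) (XT.nd (nat_lit 78) (nat_lit 304) (nat_lit 0) (XT.lf (nat_lit 0) (nat_lit 9789809008) (nat_lit 456) (nat_lit 11871666313) (nat_lit 76) (nat_lit 325309520) (nat_lit 140) (nat_lit 5) (nat_lit 146) (nat_lit 5) (nat_lit 141) (nat_lit 5)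 (nat_lit 417) (nat_lit 371) (nat_lit 232)) (XT.lf (nat_lit 0) (nat_lit 398146555) (nat_lit 304) (nat_lit 13733744547) (nat_lit 380) (nat_lit 8256424454) (nat_lit 136) (nat_lit 5) (nat_lit 140) (nat_lit 5) (nat_lit 141) (nat_lit 5) (nat_lit 418) (nat_lit 371) (nat_lit 231))) (XT.nd (nat_lit 78) (nat_lit 456) (nat_lit 0) (XT.lf (nat_lit 0) (nat_lit 13267970533) (nat_lit 304) (nat_lit 5447948770) (nat_lit 380) (nat_lit 4082624719) (nat_lit 136) (nat_lit 5) (nat_lit 140) (nat_lit 5) (nat_lit 141) (nat_lit 5) (nat_lit 419) (nat_lit 371) (nat_lit 230)) (XT.lf (nat_lit 0) (nat_lit 266354312) (nat_lit 456) (nat_lit 19895343483) (nat_lit 76) (nat_lit 3057695714) (nat_lit 130) (nat_lit 5) (nat_lit 136) (nat_lit 5) (nat_lit 131) (nat_lit 5) (nat_lit 420) (nat_lit 371) (nat_lit 229))))) (XT.nd (nat_lit 234) (nat_lit 988) (nat_lit 0) (XT.nd (nat_lit 78) (nat_lit 304) (nat_lit 0) (XT.lf (nat_lit 0) (nat_lit 4806935552) (nat_lit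 456) (nat_lit 6996984182) (nat_lit 76) (nat_lit 11843442541) (nat_lit 130) (nat_lit 5) (nat_lit 136) (nat_lit 5) (nat_lit 131) (nat_lit 5) (nat_lit 421) (nat_lit 371) (nat_lit 228)) (XT.nd (nat_lit 78) (nat_lit 0) (nat_lit 0) (XT.lf (nat_lit 0) (nat_lit 6402219779) (nat_lit 304) (nat_lit 3135344352) (nat_lit 380) (nat_lit 14548993153) (nat_lit 126) (nat_lit 5) (nat_lit 130) (nat_lit 5) (nat_lit 131) (nat_lit 5) (nat_lit 422) (nat_lit 371) (nat_lit 227)) (XT.lf (nat_lit 0) (nat_lit 14529530946) (nat_lit 380) (nat_lit 4257491501) (nat_lit 76) (nat_lit 5748325133) (nat_lit 126) (nat_lit 5) (nat_lit 131) (nat_lit 5) (nat_lit 127) (nat_lit 5) (nat_lit 423) (nat_lit 371) (nat_lit 226)))) (XT.nd (nat_lit 156) (nat_lit 684) (nat_lit 0) (XT.nd (nat_lit 78) (nat_lit 0) (nat_lit 0) (XT.lf (nat_lit 0) (nat_lit 9719986866) (nat_lit 304) (nat_lit 10068344809) (nat_lit 380) (nat_lit 5205759621) (nat_lit 122) (nat_lit 5) (nat_lit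 126) (nat_lit 5) (nat_lit 127) (nat_lit 5) (nat_lit 424) (nat_lit 371) (nat_lit 225)) (XT.lf (nat_lit 0) (nat_lit 24193367933) (nat_lit 304) (nat_lit 1047231042) (nat_lit 380) (nat_lit 224929175) (nat_lit 122) (nat_lit 5) (nat_lit 126) (nat_lit 5) (nat_lit 127) (nat_lit 5) (nat_lit 425) (nat_lit 371) (nat_lit 224))) (XT.nd (nat_lit 78) (nat_lit 304) (nat_lit 0) (XT.lf (nat_lit 0) (nat_lit 5011767335) (nat_lit 380) (nat_lit 12674295305) (nat_lit 76) (nat_lit 8257567819) (nat_lit 117) (nat_lit 5) (nat_lit 122) (nat_lit 5) (nat_lit 118) (nat_lit 5) (nat_lit 426) (nat_lit 371) (nat_lit 223)) (XT.lf (nat_lit 0) (nat_lit 1850239144) (nat_lit 304) (nat_lit 8584858672) (nat_lit 380) (nat_lit 15999891335) (nat_lit 113) (nat_lit 5) (nat_lit 117) (nat_lit 5) (nat_lit 118) (nat_lit 5) (nat_lit 427) (nat_lit 371) (nat_lit 222)))))) (XT.nd (nat_lit 546) (nat_lit 1292) (nat_lit 0) (XT.nd (nat_lit 234) (nat_lit 532) (nat_lit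 0) (XT.nd (nat_lit 78) (nat_lit 304) (nat_lit 0) (XT.lf (nat_lit 0) (nat_lit 16150966222) (nat_lit 380) (nat_lit 9886462620) (nat_lit 76) (nat_lit 899766309) (nat_lit 113) (nat_lit 5) (nat_lit 118) (nat_lit 5) (nat_lit 114) (nat_lit 5) (nat_lit 428) (nat_lit 371) (nat_lit 221)) (XT.nd (nat_lit 78) (nat_lit 76) (nat_lit 0) (XT.lf (nat_lit 0) (nat_lit 5260049694) (nat_lit 228) (nat_lit 16907023645) (nat_lit 304) (nat_lit 5283532754) (nat_lit 110) (nat_lit 5) (nat_lit 113) (nat_lit 5) (nat_lit 114) (nat_lit 5) (nat_lit 429) (nat_lit 371) (nat_lit 220)) (XT.lf (nat_lit 0) (nat_lit 470801346) (nat_lit 304) (nat_lit 6927888418) (nat_lit 76) (nat_lit 20577798687) (nat_lit 109) (nat_lit 5) (nat_lit 113) (nat_lit 5) (nat_lit 110) (nat_lit 5) (nat_lit 430) (nat_lit 371) (nat_lit 219)))) (XT.nd (nat_lit 156) (nat_lit 228) (nat_lit 0) (XT.nd (nat_lit 78) (nat_lit 0) (nat_lit 0) (XT.lf (nat_lit 0) (nat_lit 6394944796) (nat_lit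 380) (nat_lit 19634564205) (nat_lit 76) (nat_lit 2483969220) (nat_lit 105) (nat_lit 5) (nat_lit 110) (nat_lit 5) (nat_lit 106) (nat_lit 5) (nat_lit 431) (nat_lit 371) (nat_lit 218)) (XT.lf (nat_lit 0) (nat_lit 12634208793) (nat_lit 380) (nat_lit 3846652532) (nat_lit 76) (nat_lit 12581595930) (nat_lit 105) (nat_lit 5) (nat_lit 110) (nat_lit 5) (nat_lit 106) (nat_lit 5) (nat_lit 432) (nat_lit 371) (nat_lit 217))) (XT.nd (nat_lit 78) (nat_lit 0) (nat_lit 0) (XT.lf (nat_lit 0) (nat_lit 12651914875) (nat_lit 228) (nat_lit 6524034504) (nat_lit 304) (nat_lit 10448498736) (nat_lit 102) (nat_lit 5) (nat_lit 105) (nat_lit 5) (nat_lit 106) (nat_lit 5) (nat_lit 433) (nat_lit 371) (nat_lit 216)) (XT.lf (nat_lit 0) (nat_lit 25982776697) (nat_lit 304) (nat_lit 524019041) (nat_lit 76) (nat_lit 3694439302) (nat_lit 102) (nat_lit 5) (nat_lit 106) (nat_lit 5) (nat_lit 103) (nat_lit 5) (nat_lit 434) (nat_lit 371) (nat_lit 215)))))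 (XT.nd (nat_lit 312) (nat_lit 532) (nat_lit 0) (XT.nd (nat_lit 156) (nat_lit 228) (nat_lit 0) (XT.nd (nat_lit 78) (nat_lit 228) (nat_lit 0) (XT.lf (nat_lit 0) (nat_lit 2376493660) (nat_lit 304) (nat_lit 14143069686) (nat_lit 76) (nat_lit 14268502203) (nat_lit 98) (nat_lit 5) (nat_lit 102) (nat_lit 5) (nat_lit 99) (nat_lit 5) (nat_lit 435) (nat_lit 371) (nat_lit 214)) (XT.lf (nat_lit 0) (nat_lit 2953635802) (nat_lit 228) (nat_lit 6158551734) (nat_lit 304) (nat_lit 22278231284) (nat_lit 95) (nat_lit 5) (nat_lit 98) (nat_lit 5) (nat_lit 99) (nat_lit 5) (nat_lit 436) (nat_lit 371) (nat_lit 213))) (XT.nd (nat_lit 78) (nat_lit 228) (nat_lit 0) (XT.lf (nat_lit 0) (nat_lit 16231561939) (nat_lit 304) (nat_lit 11207908101) (nat_lit 76) (nat_lit 4565925579) (nat_lit 95) (nat_lit 5) (nat_lit 99) (nat_lit 5) (nat_lit 96) (nat_lit 5) (nat_lit 437) (nat_lit 371) (nat_lit 212)) (XT.lf (nat_lit 0) (nat_lit 6596141781) (nat_lit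 228) (nat_lit 17086926535) (nat_lit 304) (nat_lit 8952198069) (nat_lit 92) (nat_lit 5) (nat_lit 95) (nat_lit 5) (nat_lit 96) (nat_lit 5) (nat_lit 438) (nat_lit 371) (nat_lit 211)))) (XT.nd (nat_lit 156) (nat_lit 228) (nat_lit 0) (XT.nd (nat_lit 78) (nat_lit 304) (nat_lit 0) (XT.lf (nat_lit 0) (nat_lit 25154726730) (nat_lit 228) (nat_lit 6310819964) (nat_lit 304) (nat_lit 1815264925) (nat_lit 92) (nat_lit 5) (nat_lit 95) (nat_lit 5) (nat_lit 96) (nat_lit 5) (nat_lit 439) (nat_lit 371) (nat_lit 210)) (XT.lf (nat_lit 0) (nat_lit 5570240333) (nat_lit 304) (nat_lit 23522611665) (nat_lit 76) (nat_lit 4847001288) (nat_lit 88) (nat_lit 5) (nat_lit 92) (nat_lit 5) (nat_lit 89) (nat_lit 5) (nat_lit 440) (nat_lit 371) (nat_lit 209))) (XT.nd (nat_lit 78) (nat_lit 228) (nat_lit 0) (XT.lf (nat_lit 0) (nat_lit 13280582115) (nat_lit 304) (nat_lit 5023251495) (nat_lit 76) (nat_lit 16310101767) (nat_lit 88) (nat_lit 5) (nat_lit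 92) (nat_lit 5) (nat_lit 89) (nat_lit 5) (nat_lit 441) (nat_lit 371) (nat_lit 208)) (XT.lf (nat_lit 0) (nat_lit 14301203112) (nat_lit 228) (nat_lit 7053069022) (nat_lit 304) (nat_lit 13950007678) (nat_lit 85) (nat_lit 5) (nat_lit 88) (nat_lit 5) (nat_lit 89) (nat_lit 5) (nat_lit 442) (nat_lit 371) (nat_lit 207))))))))
noncomputable def xc174 : XT := (XT.nd (nat_lit 2184) (nat_lit 988) (nat_lit 0) (XT.nd (nat_lit 1092) (nat_lit 1216) (nat_lit 0) (XT.nd (nat_lit 546) (nat_lit 532) (nat_lit 0) (XT.nd (nat_lit 234) (nat_lit 456) (nat_lit 0) (XT.nd (nat_lit 78) (nat_lit 456) (nat_lit 0) (XT.lf (nat_lit 0) (nat_lit 29759600778) (nat_lit 304) (nat_lit 1758541951) (nat_lit 76) (nat_lit 4494510007) (nat_lit 85) (nat_lit 5) (nat_lit 89) (nat_lit 5) (nat_lit 86) (nat_lit 5) (nat_lit 443) (nat_lit 371) (nat_lit 206)) (XT.nd (nat_lit 78) (nat_lit 228) (nat_lit 0) (XT.lf (nat_lit 0) (nat_lit 1885431287) (nat_lit 228) (nat_lit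 18410839115) (nat_lit 76) (nat_lit 16438225387) (nat_lit 82) (nat_lit 5) (nat_lit 85) (nat_lit 5) (nat_lit 83) (nat_lit 5) (nat_lit 444) (nat_lit 371) (nat_lit 205)) (XT.lf (nat_lit 0) (nat_lit 1525843841) (nat_lit 228) (nat_lit 8643925902) (nat_lit 304) (nat_lit 27305546531) (nat_lit 79) (nat_lit 5) (nat_lit 82) (nat_lit 5) (nat_lit 83) (nat_lit 5) (nat_lit 445) (nat_lit 371) (nat_lit 204)))) (XT.nd (nat_lit 156) (nat_lit 304) (nat_lit 0) (XT.nd (nat_lit 78) (nat_lit 152) (nat_lit 0) (XT.lf (nat_lit 0) (nat_lit 18917486327) (nat_lit 304) (nat_lit 15837660028) (nat_lit 76) (nat_lit 3476770461) (nat_lit 79) (nat_lit 5) (nat_lit 83) (nat_lit 5) (nat_lit 80) (nat_lit 5) (nat_lit 446) (nat_lit 371) (nat_lit 203)) (XT.lf (nat_lit 0) (nat_lit 4878590426) (nat_lit 152) (nat_lit 23176489255) (nat_lit 228) (nat_lit 10952313191) (nat_lit 77) (nat_lit 5) (nat_lit 79) (nat_lit 5) (nat_lit 80) (nat_lit 5) (nat_lit 447) (nat_lit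 371) (nat_lit 202))) (XT.nd (nat_lit 78) (nat_lit 304) (nat_lit 0) (XT.lf (nat_lit 0) (nat_lit 26532536772) (nat_lit 152) (nat_lit 11089224647) (nat_lit 228) (nat_lit 2179723805) (nat_lit 77) (nat_lit 5) (nat_lit 79) (nat_lit 5) (nat_lit 80) (nat_lit 5) (nat_lit 448) (nat_lit 371) (nat_lit 201)) (XT.lf (nat_lit 0) (nat_lit 6811702431) (nat_lit 304) (nat_lit 32325116240) (nat_lit 76) (nat_lit 1477921966) (nat_lit 73) (nat_lit 5) (nat_lit 77) (nat_lit 5) (nat_lit 74) (nat_lit 5) (nat_lit 449) (nat_lit 371) (nat_lit 200))))) (XT.nd (nat_lit 234) (nat_lit 380) (nat_lit 0) (XT.nd (nat_lit 78) (nat_lit 152) (nat_lit 0) (XT.lf (nat_lit 0) (nat_lit 16269330055) (nat_lit 304) (nat_lit 10822452230) (nat_lit 76) (nat_lit 14352756679) (nat_lit 73) (nat_lit 5) (nat_lit 77) (nat_lit 5) (nat_lit 74) (nat_lit 5) (nat_lit 450) (nat_lit 371) (nat_lit 199)) (XT.nd (nat_lit 78) (nat_lit 0) (nat_lit 0) (XT.lf (nat_lit 0) (nat_lit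 11542438152) (nat_lit 152) (nat_lit 14574499961) (nat_lit 228) (nat_lit 16179106319) (nat_lit 71) (nat_lit 5) (nat_lit 73) (nat_lit 5) (nat_lit 74) (nat_lit 5) (nat_lit 451) (nat_lit 371) (nat_lit 198)) (XT.lf (nat_lit 0) (nat_lit 34792116112) (nat_lit 152) (nat_lit 1572502424) (nat_lit 228) (nat_lit 6805337920) (nat_lit 71) (nat_lit 5) (nat_lit 73) (nat_lit 5) (nat_lit 74) (nat_lit 5) (nat_lit 452) (nat_lit 371) (nat_lit 197)))) (XT.nd (nat_lit 156) (nat_lit 152) (nat_lit 0) (XT.nd (nat_lit 78) (nat_lit 0) (nat_lit 0) (XT.lf (nat_lit 0) (nat_lit 3048231811) (nat_lit 228) (nat_lit 29255190474) (nat_lit 76) (nat_lit 11758216604) (nat_lit 68) (nat_lit 5) (nat_lit 71) (nat_lit 5) (nat_lit 69) (nat_lit 5) (nat_lit 453) (nat_lit 371) (nat_lit 196)) (XT.lf (nat_lit 0) (nat_lit 13157109267) (nat_lit 228) (nat_lit 6211210439) (nat_lit 76) (nat_lit 25606836921) (nat_lit 68) (nat_lit 5) (nat_lit 71) (nat_lit 5) (nat_lit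 69) (nat_lit 5) (nat_lit 454) (nat_lit 371) (nat_lit 195))) (XT.nd (nat_lit 78) (nat_lit 0) (nat_lit 0) (XT.lf (nat_lit 0) (nat_lit 17865036660) (nat_lit 152) (nat_lit 5871552332) (nat_lit 228) (nat_lit 22174471465) (nat_lit 66) (nat_lit 5) (nat_lit 68) (nat_lit 5) (nat_lit 69) (nat_lit 5) (nat_lit 455) (nat_lit 371) (nat_lit 194)) (XT.lf (nat_lit 0) (nat_lit 34769615639) (nat_lit 228) (nat_lit 4167764236) (nat_lit 76) (nat_lit 7933577270) (nat_lit 66) (nat_lit 5) (nat_lit 69) (nat_lit 5) (nat_lit 67) (nat_lit 5) (nat_lit 456) (nat_lit 371) (nat_lit 193)))))) (XT.nd (nat_lit 546) (nat_lit 456) (nat_lit 0) (XT.nd (nat_lit 234) (nat_lit 380) (nat_lit 0) (XT.nd (nat_lit 78) (nat_lit 228) (nat_lit 0) (XT.lf (nat_lit 0) (nat_lit 20766473594) (nat_lit 152) (nat_lit 25620671073) (nat_lit 228) (nat_lit 1464901319) (nat_lit 64) (nat_lit 5) (nat_lit 66) (nat_lit 5) (nat_lit 67) (nat_lit 5) (nat_lit 457) (nat_lit 371)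 (nat_lit 192)) (XT.nd (nat_lit 78) (nat_lit 152) (nat_lit 0) (XT.lf (nat_lit 0) (nat_lit 9343706422) (nat_lit 228) (nat_lit 2426253375) (nat_lit 76) (nat_lit 37088723246) (nat_lit 63) (nat_lit 5) (nat_lit 66) (nat_lit 5) (nat_lit 64) (nat_lit 5) (nat_lit 458) (nat_lit 371) (nat_lit 191)) (XT.lf (nat_lit 0) (nat_lit 20694367904) (nat_lit 228) (nat_lit 26506939568) (nat_lit 76) (nat_lit 2686360012) (nat_lit 61) (nat_lit 5) (nat_lit 64) (nat_lit 5) (nat_lit 62) (nat_lit 5) (nat_lit 459) (nat_lit 371) (nat_lit 190)))) (XT.nd (nat_lit 156) (nat_lit 228) (nat_lit 0) (XT.nd (nat_lit 78) (nat_lit 152) (nat_lit 0) (XT.lf (nat_lit 0) (nat_lit 32522738076) (nat_lit 228) (nat_lit 1059187787) (nat_lit 76) (nat_lit 17361480464) (nat_lit 61) (nat_lit 5) (nat_lit 64) (nat_lit 5) (nat_lit 62) (nat_lit 5) (nat_lit 460) (nat_lit 371) (nat_lit 189)) (XT.lf (nat_lit 0) (nat_lit 25645362988) (nat_lit 152) (nat_lit 19303145972) (nat_lit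 228) (nat_lit 7075032404) (nat_lit 59) (nat_lit 5) (nat_lit 61) (nat_lit 5) (nat_lit 62) (nat_lit 5) (nat_lit 461) (nat_lit 371) (nat_lit 188))) (XT.nd (nat_lit 78) (nat_lit 152) (nat_lit 0) (XT.lf (nat_lit 0) (nat_lit 4527837174) (nat_lit 228) (nat_lit 14503352) (nat_lit 76) (nat_lit 48592205471) (nat_lit 58) (nat_lit 5) (nat_lit 61) (nat_lit 5) (nat_lit 59) (nat_lit 5) (nat_lit 462) (nat_lit 371) (nat_lit 187)) (XT.lf (nat_lit 0) (nat_lit 16703846162) (nat_lit 228) (nat_lit 26772938418) (nat_lit 76) (nat_lit 10788977533) (nat_lit 56) (nat_lit 5) (nat_lit 59) (nat_lit 5) (nat_lit 57) (nat_lit 5) (nat_lit 463) (nat_lit 371) (nat_lit 186))))) (XT.nd (nat_lit 234) (nat_lit 228) (nat_lit 0) (XT.nd (nat_lit 78) (nat_lit 76) (nat_lit 0) (XT.lf (nat_lit 0) (nat_lit 349717653) (nat_lit 152) (nat_lit 28940073811) (nat_lit 228) (nat_lit 26139784029) (nat_lit 54) (nat_lit 5) (nat_lit 56) (nat_lit 5) (nat_lit 57) (nat_lit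 5) (nat_lit 464) (nat_lit 371) (nat_lit 185)) (XT.nd (nat_lit 78) (nat_lit 76) (nat_lit 0) (XT.lf (nat_lit 0) (nat_lit 28828050919) (nat_lit 152) (nat_lit 13691837059) (nat_lit 228) (nat_lit 14100418557) (nat_lit 54) (nat_lit 5) (nat_lit 56) (nat_lit 5) (nat_lit 57) (nat_lit 5) (nat_lit 465) (nat_lit 371) (nat_lit 184)) (XT.lf (nat_lit 0) (nat_lit 293641354) (nat_lit 76) (nat_lit 55871727454) (nat_lit 152) (nat_lit 1680836690) (nat_lit 53) (nat_lit 5) (nat_lit 54) (nat_lit 5) (nat_lit 55) (nat_lit 4) (nat_lit 466) (nat_lit 371) (nat_lit 183)))) (XT.nd (nat_lit 156) (nat_lit 152) (nat_lit 0) (XT.nd (nat_lit 78) (nat_lit 0) (nat_lit 0) (XT.lf (nat_lit 0) (nat_lit 11309806987) (nat_lit 152) (nat_lit 29560496290) (nat_lit 76) (nat_lit 18222915402) (nat_lit 52) (nat_lit 5) (nat_lit 54) (nat_lit 5) (nat_lit 53) (nat_lit 5) (nat_lit 467) (nat_lit 371) (nat_lit 182)) (XT.lf (nat_lit 0) (nat_lit 24652802123) (nat_lit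 152) (nat_lit 751825966) (nat_lit 76) (nat_lit 34972622844) (nat_lit 52) (nat_lit 5) (nat_lit 54) (nat_lit 5) (nat_lit 53) (nat_lit 5) (nat_lit 468) (nat_lit 371) (nat_lit 181))) (XT.nd (nat_lit 78) (nat_lit 0) (nat_lit 0) (XT.lf (nat_lit 0) (nat_lit 29490237431) (nat_lit 152) (nat_lit 9185847595) (nat_lit 228) (nat_lit 23015319578) (nat_lit 50) (nat_lit 5) (nat_lit 52) (nat_lit 5) (nat_lit 53) (nat_lit 5) (nat_lit 469) (nat_lit 371) (nat_lit 180)) (XT.lf (nat_lit 0) (nat_lit 53196549227) (nat_lit 228) (nat_lit 2468479993) (nat_lit 76) (nat_lit 7377659554) (nat_lit 50) (nat_lit 5) (nat_lit 53) (nat_lit 5) (nat_lit 51) (nat_lit 4) (nat_lit 470) (nat_lit 371) (nat_lit 179))))))) (XT.nd (nat_lit 1092) (nat_lit 0) (nat_lit 0) (XT.nd (nat_lit 546) (nat_lit 380) (nat_lit 0) (XT.nd (nat_lit 234) (nat_lit 304) (nat_lit 0) (XT.nd (nat_lit 78) (nat_lit 152) (nat_lit 0) (XT.lf (nat_lit 0) (nat_lit 4011825168) (nat_lit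 152) (nat_lit 35845451125) (nat_lit 76) (nat_lit 24565175412) (nat_lit 48) (nat_lit 5) (nat_lit 50) (nat_lit 5) (nat_lit 49) (nat_lit 5) (nat_lit 471) (nat_lit 371) (nat_lit 178)) (XT.nd (nat_lit 78) (nat_lit 152) (nat_lit 0) (XT.lf (nat_lit 0) (nat_lit 18109445551) (nat_lit 152) (nat_lit 5342310294) (nat_lit 76) (nat_lit 42388272993) (nat_lit 48) (nat_lit 5) (nat_lit 50) (nat_lit 5) (nat_lit 49) (nat_lit 5) (nat_lit 472) (nat_lit 371) (nat_lit 177)) (XT.lf (nat_lit 0) (nat_lit 26588782991) (nat_lit 152) (nat_lit 6293537817) (nat_lit 228) (nat_lit 34410243023) (nat_lit 46) (nat_lit 5) (nat_lit 48) (nat_lit 5) (nat_lit 49) (nat_lit 5) (nat_lit 473) (nat_lit 371) (nat_lit 176)))) (XT.nd (nat_lit 156) (nat_lit 228) (nat_lit 0) (XT.nd (nat_lit 78) (nat_lit 76) (nat_lit 0) (XT.lf (nat_lit 0) (nat_lit 48258999983) (nat_lit 228) (nat_lit 9315652472) (nat_lit 76) (nat_lit 11209204211) (nat_lit 46) (nat_lit 5) (nat_lit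 49) (nat_lit 5) (nat_lit 47) (nat_lit 4) (nat_lit 474) (nat_lit 371) (nat_lit 175)) (XT.lf (nat_lit 0) (nat_lit 23402655192) (nat_lit 76) (nat_lit 40978442537) (nat_lit 152) (nat_lit 5930267325) (nat_lit 45) (nat_lit 5) (nat_lit 46) (nat_lit 5) (nat_lit 47) (nat_lit 4) (nat_lit 475) (nat_lit 371) (nat_lit 174))) (XT.nd (nat_lit 78) (nat_lit 152) (nat_lit 0) (XT.lf (nat_lit 0) (nat_lit 9016395597) (nat_lit 152) (nat_lit 14682657967) (nat_lit 76) (nat_lit 48180265005) (nat_lit 44) (nat_lit 5) (nat_lit 46) (nat_lit 5) (nat_lit 45) (nat_lit 5) (nat_lit 476) (nat_lit 371) (nat_lit 173)) (XT.lf (nat_lit 0) (nat_lit 18812909053) (nat_lit 152) (nat_lit 5657140369) (nat_lit 228) (nat_lit 49017166583) (nat_lit 42) (nat_lit 5) (nat_lit 44) (nat_lit 5) (nat_lit 45) (nat_lit 5) (nat_lit 477) (nat_lit 371) (nat_lit 172))))) (XT.nd (nat_lit 234) (nat_lit 304) (nat_lit 0) (XT.nd (nat_lit 78) (nat_lit 76) (nat_lit 0) (XT.lf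 (nat_lit 0) (nat_lit 40658252527) (nat_lit 228) (nat_lit 21655969296) (nat_lit 76) (nat_lit 12821000629) (nat_lit 42) (nat_lit 5) (nat_lit 45) (nat_lit 5) (nat_lit 43) (nat_lit 4) (nat_lit 478) (nat_lit 371) (nat_lit 171)) (XT.nd (nat_lit 78) (nat_lit 0) (nat_lit 0) (XT.lf (nat_lit 0) (nat_lit 12536026142) (nat_lit 76) (nat_lit 44969632300) (nat_lit 152) (nat_lit 19321804219) (nat_lit 41) (nat_lit 5) (nat_lit 42) (nat_lit 5) (nat_lit 43) (nat_lit 4) (nat_lit 479) (nat_lit 371) (nat_lit 170)) (XT.lf (nat_lit 0) (nat_lit 48192257467) (nat_lit 76) (nat_lit 26881987151) (nat_lit 152) (nat_lit 3489752980) (nat_lit 41) (nat_lit 5) (nat_lit 42) (nat_lit 5) (nat_lit 43) (nat_lit 4) (nat_lit 480) (nat_lit 371) (nat_lit 169)))) (XT.nd (nat_lit 156) (nat_lit 76) (nat_lit 0) (XT.nd (nat_lit 78) (nat_lit 0) (nat_lit 0) (XT.lf (nat_lit 0) (nat_lit 4525295928) (nat_lit 152) (nat_lit 8082484952) (nat_lit 228) (nat_lit 67739932770)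 (nat_lit 38) (nat_lit 5) (nat_lit 40) (nat_lit 5) (nat_lit 41) (nat_lit 5) (nat_lit 481) (nat_lit 371) (nat_lit 168)) (XT.lf (nat_lit 0) (nat_lit 29533412723) (nat_lit 228) (nat_lit 41235292760) (nat_lit 76) (nat_lit 11402740003) (nat_lit 38) (nat_lit 5) (nat_lit 41) (nat_lit 5) (nat_lit 39) (nat_lit 4) (nat_lit 482) (nat_lit 371) (nat_lit 167))) (XT.nd (nat_lit 78) (nat_lit 76) (nat_lit 0) (XT.lf (nat_lit 0) (nat_lit 47044062438) (nat_lit 228) (nat_lit 5695780503) (nat_lit 76) (nat_lit 31307729104) (nat_lit 38) (nat_lit 5) (nat_lit 41) (nat_lit 5) (nat_lit 39) (nat_lit 4) (nat_lit 483) (nat_lit 371) (nat_lit 166)) (XT.lf (nat_lit 0) (nat_lit 31519934229) (nat_lit 76) (nat_lit 33860391462) (nat_lit 152) (nat_lit 20590648113) (nat_lit 37) (nat_lit 5) (nat_lit 38) (nat_lit 5) (nat_lit 39) (nat_lit 4) (nat_lit 484) (nat_lit 371) (nat_lit 165)))))) (XT.nd (nat_lit 44772) (nat_lit 0) (nat_lit 17328) (XT.nd (nat_lit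 44460) (nat_lit 0) (nat_lit 17176) (XT.nd (nat_lit 44304) (nat_lit 0) (nat_lit 17176) (XT.lf (nat_lit 0) (nat_lit 69963877493) (nat_lit 76) (nat_lit 14357651141) (nat_lit 152) (nat_lit 3628903647) (nat_lit 37) (nat_lit 5) (nat_lit 38) (nat_lit 5) (nat_lit 39) (nat_lit 4) (nat_lit 485) (nat_lit 371) (nat_lit 164)) (XT.nd (nat_lit 78) (nat_lit 1140) (nat_lit 0) (XT.lf (nat_lit 0) (nat_lit 5319947568) (nat_lit 1140) (nat_lit 60516774) (nat_lit 1140) (nat_lit 60516774) (nat_lit 278) (nat_lit 3) (nat_lit 293) (nat_lit 3) (nat_lit 293) (nat_lit 5) (nat_lit 372) (nat_lit 372) (nat_lit 276)) (XT.lf (nat_lit 0) (nat_lit 384770796) (nat_lit 1140) (nat_lit 5794530973) (nat_lit 1216) (nat_lit 4846935433) (nat_lit 263) (nat_lit 5) (nat_lit 278) (nat_lit 3) (nat_lit 279) (nat_lit 5) (nat_lit 373) (nat_lit 372) (nat_lit 275)))) (XT.nd (nat_lit 156) (nat_lit 0) (nat_lit 76) (XT.nd (nat_lit 78) (nat_lit 0) (nat_lit 76) (XT.lf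 (nat_lit 0) (nat_lit 1004234823) (nat_lit 1140) (nat_lit 441830293) (nat_lit 1216) (nat_lit 9729352769) (nat_lit 263) (nat_lit 5) (nat_lit 278) (nat_lit 3) (nat_lit 279) (nat_lit 5) (nat_lit 374) (nat_lit 372) (nat_lit 274)) (XT.lf (nat_lit 0) (nat_lit 1703547847) (nat_lit 1140) (nat_lit 6201428788) (nat_lit 1216) (nat_lit 3422269065) (nat_lit 264) (nat_lit 5) (nat_lit 279) (nat_lit 5) (nat_lit 280) (nat_lit 5) (nat_lit 375) (nat_lit 372) (nat_lit 273))) (XT.nd (nat_lit 78) (nat_lit 0) (nat_lit 76) (XT.lf (nat_lit 0) (nat_lit 2421391125) (nat_lit 1140) (nat_lit 640707562) (nat_lit 1216) (nat_lit 8421612521) (nat_lit 264) (nat_lit 5) (nat_lit 279) (nat_lit 5) (nat_lit 280) (nat_lit 5) (nat_lit 376) (nat_lit 372) (nat_lit 272)) (XT.lf (nat_lit 0) (nat_lit 3208959673) (nat_lit 1140) (nat_lit 6487303845) (nat_lit 1216) (nat_lit 1947170574) (nat_lit 265) (nat_lit 5) (nat_lit 280) (nat_lit 5) (nat_lit 281) (nat_lit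 5) (nat_lit 377) (nat_lit 372) (nat_lit 271))))) (XT.nd (nat_lit 312) (nat_lit 0) (nat_lit 152) (XT.nd (nat_lit 156) (nat_lit 0) (nat_lit 76) (XT.nd (nat_lit 78) (nat_lit 0) (nat_lit 76) (XT.lf (nat_lit 0) (nat_lit 4036920380) (nat_lit 1140) (nat_lit 710745185) (nat_lit 1216) (nat_lit 7059788991) (nat_lit 265) (nat_lit 5) (nat_lit 280) (nat_lit 5) (nat_lit 281) (nat_lit 5) (nat_lit 378) (nat_lit 372) (nat_lit 270)) (XT.lf (nat_lit 0) (nat_lit 4925397685) (nat_lit 1140) (nat_lit 6648500932) (nat_lit 1216) (nat_lit 401435270) (nat_lit 266) (nat_lit 5) (nat_lit 281) (nat_lit 5) (nat_lit 282) (nat_lit 5) (nat_lit 379) (nat_lit 372) (nat_lit 269))) (XT.nd (nat_lit 78) (nat_lit 0) (nat_lit 0) (XT.lf (nat_lit 0) (nat_lit 5875800446) (nat_lit 1140) (nat_lit 647778583) (nat_lit 1216) (nat_lit 5623620773) (nat_lit 266) (nat_lit 5) (nat_lit 281) (nat_lit 5) (nat_lit 282) (nat_lit 5) (nat_lit 380) (nat_lit 372) (nat_lit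 268)) (XT.lf (nat_lit 76) (nat_lit 5630432872) (nat_lit 0) (nat_lit 1259974859) (nat_lit 1216) (nat_lit 5432751285) (nat_lit 267) (nat_lit 5) (nat_lit 266) (nat_lit 5) (nat_lit 282) (nat_lit 5) (nat_lit 381) (nat_lit 372) (nat_lit 267)))) (XT.nd (nat_lit 156) (nat_lit 0) (nat_lit 76) (XT.nd (nat_lit 78) (nat_lit 0) (nat_lit 0) (XT.lf (nat_lit 0) (nat_lit 7964105668) (nat_lit 1140) (nat_lit 446883583) (nat_lit 1216) (nat_lit 4092556041) (nat_lit 267) (nat_lit 5) (nat_lit 282) (nat_lit 5) (nat_lit 283) (nat_lit 5) (nat_lit 382) (nat_lit 372) (nat_lit 266)) (XT.lf (nat_lit 76) (nat_lit 6079992782) (nat_lit 0) (nat_lit 3043507513) (nat_lit 1216) (nat_lit 3564245917) (nat_lit 268) (nat_lit 5) (nat_lit 267) (nat_lit 5) (nat_lit 283) (nat_lit 5) (nat_lit 383) (nat_lit 372) (nat_lit 265))) (XT.nd (nat_lit 78) (nat_lit 0) (nat_lit 0) (XT.lf (nat_lit 0) (nat_lit 10329121064) (nat_lit 1140) (nat_lit 102383614) (nat_lit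 1216) (nat_lit 2445632563) (nat_lit 268) (nat_lit 5) (nat_lit 283) (nat_lit 5) (nat_lit 284) (nat_lit 5) (nat_lit 384) (nat_lit 372) (nat_lit 264)) (XT.lf (nat_lit 76) (nat_lit 6685906928) (nat_lit 0) (nat_lit 4962901092) (nat_lit 1216) (nat_lit 1421072243) (nat_lit 269) (nat_lit 5) (nat_lit 268) (nat_lit 5) (nat_lit 284) (nat_lit 5) (nat_lit 385) (nat_lit 372) (nat_lit 263))))))))
noncomputable def xc175 : XT := (XT.nd (nat_lit 2262) (nat_lit 5016) (nat_lit 0) (XT.nd (nat_lit 1092) (nat_lit 4180) (nat_lit 0) (XT.nd (nat_lit 546) (nat_lit 1824) (nat_lit 0) (XT.nd (nat_lit 234) (nat_lit 1748) (nat_lit 0) (XT.nd (nat_lit 78) (nat_lit 1216) (nat_lit 0) (XT.lf (nat_lit 76) (nat_lit 399950156) (nat_lit 0) (nat_lit 12603353632) (nat_lit 1216) (nat_lit 265252226) (nat_lit 270) (nat_lit 5) (nat_lit 269) (nat_lit 5) (nat_lit 285) (nat_lit 5) (nat_lit 386) (nat_lit 372) (nat_lit 262)) (XT.nd (nat_lit 78) (nat_lit 0) (nat_lit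 0) (XT.lf (nat_lit 0) (nat_lit 1005503432) (nat_lit 1216) (nat_lit 6024844055) (nat_lit 1292) (nat_lit 6439634835) (nat_lit 253) (nat_lit 5) (nat_lit 269) (nat_lit 5) (nat_lit 270) (nat_lit 5) (nat_lit 387) (nat_lit 372) (nat_lit 261)) (XT.lf (nat_lit 76) (nat_lit 1028892783) (nat_lit 0) (nat_lit 1274586204) (nat_lit 1292) (nat_lit 11374067180) (nat_lit 254) (nat_lit 5) (nat_lit 253) (nat_lit 5) (nat_lit 270) (nat_lit 5) (nat_lit 388) (nat_lit 372) (nat_lit 260)))) (XT.nd (nat_lit 156) (nat_lit 608) (nat_lit 0) (XT.nd (nat_lit 78) (nat_lit 1216) (nat_lit 0) (XT.lf (nat_lit 0) (nat_lit 3731461462) (nat_lit 1216) (nat_lit 5530252149) (nat_lit 76) (nat_lit 4626897490) (nat_lit 254) (nat_lit 5) (nat_lit 270) (nat_lit 5) (nat_lit 255) (nat_lit 5) (nat_lit 389) (nat_lit 372) (nat_lit 259)) (XT.lf (nat_lit 0) (nat_lit 1811669063) (nat_lit 1216) (nat_lit 3405979504) (nat_lit 1292) (nat_lit 8887904484) (nat_lit 238)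 (nat_lit 5) (nat_lit 254) (nat_lit 5) (nat_lit 255) (nat_lit 5) (nat_lit 390) (nat_lit 372) (nat_lit 258))) (XT.nd (nat_lit 78) (nat_lit 608) (nat_lit 0) (XT.lf (nat_lit 0) (nat_lit 6815709076) (nat_lit 1292) (nat_lit 4878998152) (nat_lit 76) (nat_lit 2632283247) (nat_lit 238) (nat_lit 5) (nat_lit 255) (nat_lit 5) (nat_lit 239) (nat_lit 5) (nat_lit 391) (nat_lit 372) (nat_lit 257)) (XT.lf (nat_lit 0) (nat_lit 2765872396) (nat_lit 608) (nat_lit 5742219665) (nat_lit 684) (nat_lit 6045593217) (nat_lit 230) (nat_lit 5) (nat_lit 238) (nat_lit 5) (nat_lit 239) (nat_lit 5) (nat_lit 392) (nat_lit 372) (nat_lit 256))))) (XT.nd (nat_lit 234) (nat_lit 1216) (nat_lit 0) (XT.nd (nat_lit 78) (nat_lit 608) (nat_lit 0) (XT.lf (nat_lit 0) (nat_lit 10291106162) (nat_lit 684) (nat_lit 4062836550) (nat_lit 76) (nat_lit 432047936) (nat_lit 230) (nat_lit 5) (nat_lit 239) (nat_lit 5) (nat_lit 231) (nat_lit 5) (nat_lit 393) (nat_lit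 372) (nat_lit 255)) (XT.nd (nat_lit 78) (nat_lit 0) (nat_lit 0) (XT.lf (nat_lit 0) (nat_lit 3900515691) (nat_lit 608) (nat_lit 8308205627) (nat_lit 684) (nat_lit 2814115894) (nat_lit 222) (nat_lit 5) (nat_lit 230) (nat_lit 5) (nat_lit 231) (nat_lit 5) (nat_lit 394) (nat_lit 372) (nat_lit 254)) (XT.lf (nat_lit 0) (nat_lit 12173543685) (nat_lit 608) (nat_lit 2038376061) (nat_lit 684) (nat_lit 1054032979) (nat_lit 222) (nat_lit 5) (nat_lit 230) (nat_lit 5) (nat_lit 231) (nat_lit 5) (nat_lit 395) (nat_lit 372) (nat_lit 253)))) (XT.nd (nat_lit 156) (nat_lit 532) (nat_lit 0) (XT.nd (nat_lit 78) (nat_lit 0) (nat_lit 0) (XT.lf (nat_lit 0) (nat_lit 824955779) (nat_lit 684) (nat_lit 10296699854) (nat_lit 76) (nat_lit 4392064791) (nat_lit 213) (nat_lit 5) (nat_lit 222) (nat_lit 5) (nat_lit 214) (nat_lit 5) (nat_lit 396) (nat_lit 372) (nat_lit 252)) (XT.lf (nat_lit 0) (nat_lit 2778378251) (nat_lit 684) (nat_lit 1972448889)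 (nat_lit 76) (nat_lit 11016608217) (nat_lit 213) (nat_lit 5) (nat_lit 222) (nat_lit 5) (nat_lit 214) (nat_lit 5) (nat_lit 397) (nat_lit 372) (nat_lit 251))) (XT.nd (nat_lit 78) (nat_lit 0) (nat_lit 0) (XT.lf (nat_lit 0) (nat_lit 4860945083) (nat_lit 608) (nat_lit 9324863754) (nat_lit 76) (nat_lit 1840841268) (nat_lit 206) (nat_lit 5) (nat_lit 214) (nat_lit 5) (nat_lit 207) (nat_lit 5) (nat_lit 398) (nat_lit 372) (nat_lit 250)) (XT.lf (nat_lit 0) (nat_lit 7061268443) (nat_lit 608) (nat_lit 676127205) (nat_lit 76) (nat_lit 8554591742) (nat_lit 206) (nat_lit 5) (nat_lit 214) (nat_lit 5) (nat_lit 207) (nat_lit 5) (nat_lit 399) (nat_lit 372) (nat_lit 249)))))) (XT.nd (nat_lit 546) (nat_lit 2128) (nat_lit 0) (XT.nd (nat_lit 234) (nat_lit 1064) (nat_lit 0) (XT.nd (nat_lit 78) (nat_lit 456) (nat_lit 0) (XT.lf (nat_lit 0) (nat_lit 8383498382) (nat_lit 532) (nat_lit 1013162821) (nat_lit 608) (nat_lit 7166556152) (nat_lit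 199) (nat_lit 5) (nat_lit 206) (nat_lit 5) (nat_lit 207) (nat_lit 5) (nat_lit 400) (nat_lit 372) (nat_lit 248)) (XT.nd (nat_lit 78) (nat_lit 0) (nat_lit 0) (XT.lf (nat_lit 0) (nat_lit 833367883) (nat_lit 456) (nat_lit 11029176536) (nat_lit 532) (nat_lit 4978231164) (nat_lit 193) (nat_lit 5) (nat_lit 199) (nat_lit 5) (nat_lit 200) (nat_lit 5) (nat_lit 401) (nat_lit 372) (nat_lit 247)) (XT.lf (nat_lit 0) (nat_lit 10262031609) (nat_lit 456) (nat_lit 4221801559) (nat_lit 532) (nat_lit 2640388620) (nat_lit 193) (nat_lit 5) (nat_lit 199) (nat_lit 5) (nat_lit 200) (nat_lit 5) (nat_lit 402) (nat_lit 372) (nat_lit 246)))) (XT.nd (nat_lit 156) (nat_lit 456) (nat_lit 0) (XT.nd (nat_lit 78) (nat_lit 76) (nat_lit 0) (XT.lf (nat_lit 0) (nat_lit 2568466233) (nat_lit 532) (nat_lit 14656010757) (nat_lit 608) (nat_lit 190476879) (nat_lit 186) (nat_lit 5) (nat_lit 193) (nat_lit 5) (nat_lit 194) (nat_lit 5) (nat_lit 403) (nat_lit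 372) (nat_lit 245)) (XT.lf (nat_lit 0) (nat_lit 2388487899) (nat_lit 608) (nat_lit 5366847603) (nat_lit 76) (nat_lit 9955371008) (nat_lit 185) (nat_lit 5) (nat_lit 193) (nat_lit 5) (nat_lit 186) (nat_lit 5) (nat_lit 404) (nat_lit 372) (nat_lit 244))) (XT.nd (nat_lit 78) (nat_lit 0) (nat_lit 0) (XT.lf (nat_lit 0) (nat_lit 4470574115) (nat_lit 456) (nat_lit 603003514) (nat_lit 532) (nat_lit 12940723637) (nat_lit 179) (nat_lit 5) (nat_lit 185) (nat_lit 5) (nat_lit 186) (nat_lit 5) (nat_lit 405) (nat_lit 372) (nat_lit 243)) (XT.lf (nat_lit 0) (nat_lit 7948753522) (nat_lit 532) (nat_lit 3689934891) (nat_lit 76) (nat_lit 6685032984) (nat_lit 179) (nat_lit 5) (nat_lit 186) (nat_lit 5) (nat_lit 180) (nat_lit 5) (nat_lit 406) (nat_lit 372) (nat_lit 242))))) (XT.nd (nat_lit 312) (nat_lit 760) (nat_lit 0) (XT.nd (nat_lit 156) (nat_lit 912) (nat_lit 0) (XT.nd (nat_lit 78) (nat_lit 0) (nat_lit 0) (XT.lf (nat_lit 0) (nat_lit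 6569921940) (nat_lit 456) (nat_lit 4399468281) (nat_lit 532) (nat_lit 7671261182) (nat_lit 173) (nat_lit 5) (nat_lit 179) (nat_lit 5) (nat_lit 180) (nat_lit 5) (nat_lit 407) (nat_lit 372) (nat_lit 241)) (XT.lf (nat_lit 0) (nat_lit 14137900470) (nat_lit 532) (nat_lit 1794454240) (nat_lit 76) (nat_lit 3033020300) (nat_lit 173) (nat_lit 5) (nat_lit 180) (nat_lit 5) (nat_lit 174) (nat_lit 5) (nat_lit 408) (nat_lit 372) (nat_lit 240))) (XT.nd (nat_lit 78) (nat_lit 532) (nat_lit 0) (XT.lf (nat_lit 0) (nat_lit 8908797434) (nat_lit 380) (nat_lit 8612388135) (nat_lit 456) (nat_lit 1775066406) (nat_lit 168) (nat_lit 5) (nat_lit 173) (nat_lit 5) (nat_lit 174) (nat_lit 5) (nat_lit 409) (nat_lit 372) (nat_lit 239)) (XT.lf (nat_lit 0) (nat_lit 314547268) (nat_lit 456) (nat_lit 1039571777) (nat_lit 532) (nat_lit 18282186967) (nat_lit 161) (nat_lit 5) (nat_lit 167) (nat_lit 5) (nat_lit 168) (nat_lit 5) (nat_lit 410) (nat_lit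 372) (nat_lit 238)))) (XT.nd (nat_lit 156) (nat_lit 380) (nat_lit 0) (XT.nd (nat_lit 78) (nat_lit 380) (nat_lit 0) (XT.lf (nat_lit 0) (nat_lit 4703154462) (nat_lit 532) (nat_lit 8528287539) (nat_lit 76) (nat_lit 6749745841) (nat_lit 161) (nat_lit 5) (nat_lit 168) (nat_lit 5) (nat_lit 162) (nat_lit 5) (nat_lit 411) (nat_lit 372) (nat_lit 237)) (XT.lf (nat_lit 0) (nat_lit 2618316355) (nat_lit 380) (nat_lit 5560810729) (nat_lit 456) (nat_lit 12156497933) (nat_lit 156) (nat_lit 5) (nat_lit 161) (nat_lit 5) (nat_lit 162) (nat_lit 5) (nat_lit 412) (nat_lit 372) (nat_lit 236))) (XT.nd (nat_lit 78) (nat_lit 380) (nat_lit 0) (XT.lf (nat_lit 0) (nat_lit 11859976584) (nat_lit 456) (nat_lit 6458920294) (nat_lit 76) (nat_lit 2378783292) (nat_lit 156) (nat_lit 5) (nat_lit 162) (nat_lit 5) (nat_lit 157) (nat_lit 5) (nat_lit 413) (nat_lit 372) (nat_lit 235)) (XT.lf (nat_lit 0) (nat_lit 5171818076) (nat_lit 380) (nat_lit 10575597083)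 (nat_lit 456) (nat_lit 5320299622) (nat_lit 151) (nat_lit 5) (nat_lit 156) (nat_lit 5) (nat_lit 157) (nat_lit 5) (nat_lit 414) (nat_lit 372) (nat_lit 234))))))) (XT.nd (nat_lit 1092) (nat_lit 2128) (nat_lit 0) (XT.nd (nat_lit 546) (nat_lit 1292) (nat_lit 0) (XT.nd (nat_lit 234) (nat_lit 1140) (nat_lit 0) (XT.nd (nat_lit 78) (nat_lit 456) (nat_lit 0) (XT.lf (nat_lit 0) (nat_lit 17272725659) (nat_lit 380) (nat_lit 2535508559) (nat_lit 456) (nat_lit 1638916126) (nat_lit 151) (nat_lit 5) (nat_lit 156) (nat_lit 5) (nat_lit 157) (nat_lit 5) (nat_lit 415) (nat_lit 372) (nat_lit 233)) (XT.nd (nat_lit 78) (nat_lit 0) (nat_lit 0) (XT.lf (nat_lit 0) (nat_lit 2235897495) (nat_lit 456) (nat_lit 13867892643) (nat_lit 76) (nat_lit 5729810476) (nat_lit 145) (nat_lit 5) (nat_lit 151) (nat_lit 5) (nat_lit 146) (nat_lit 5) (nat_lit 416) (nat_lit 372) (nat_lit 232)) (XT.lf (nat_lit 0) (nat_lit 6253498373) (nat_lit 456) (nat_lit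 1727622531) (nat_lit 76) (nat_lit 14248254588) (nat_lit 145) (nat_lit 5) (nat_lit 151) (nat_lit 5) (nat_lit 146) (nat_lit 5) (nat_lit 417) (nat_lit 372) (nat_lit 231)))) (XT.nd (nat_lit 156) (nat_lit 456) (nat_lit 0) (XT.nd (nat_lit 78) (nat_lit 304) (nat_lit 0) (XT.lf (nat_lit 0) (nat_lit 10493944938) (nat_lit 456) (nat_lit 11658484399) (nat_lit 76) (nat_lit 481527088) (nat_lit 140) (nat_lit 5) (nat_lit 146) (nat_lit 5) (nat_lit 141) (nat_lit 5) (nat_lit 418) (nat_lit 372) (nat_lit 230)) (XT.lf (nat_lit 0) (nat_lit 973841169) (nat_lit 304) (nat_lit 13985912825) (nat_lit 380) (nat_lit 8087978589) (nat_lit 136) (nat_lit 5) (nat_lit 140) (nat_lit 5) (nat_lit 141) (nat_lit 5) (nat_lit 419) (nat_lit 372) (nat_lit 229))) (XT.nd (nat_lit 78) (nat_lit 456) (nat_lit 0) (XT.lf (nat_lit 0) (nat_lit 14213339958) (nat_lit 304) (nat_lit 5456198826) (nat_lit 380) (nat_lit 3801085403) (nat_lit 136) (nat_lit 5) (nat_lit 140)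 (nat_lit 5) (nat_lit 141) (nat_lit 5) (nat_lit 420) (nat_lit 372) (nat_lit 228)) (XT.lf (nat_lit 0) (nat_lit 665765013) (nat_lit 456) (nat_lit 19932061378) (nat_lit 76) (nat_lit 3306300846) (nat_lit 130) (nat_lit 5) (nat_lit 136) (nat_lit 5) (nat_lit 131) (nat_lit 5) (nat_lit 421) (nat_lit 372) (nat_lit 227))))) (XT.nd (nat_lit 234) (nat_lit 988) (nat_lit 0) (XT.nd (nat_lit 78) (nat_lit 304) (nat_lit 0) (XT.lf (nat_lit 0) (nat_lit 5331163105) (nat_lit 456) (nat_lit 6663066126) (nat_lit 76) (nat_lit 12351050924) (nat_lit 130) (nat_lit 5) (nat_lit 136) (nat_lit 5) (nat_lit 131) (nat_lit 5) (nat_lit 422) (nat_lit 372) (nat_lit 226)) (XT.nd (nat_lit 78) (nat_lit 0) (nat_lit 0) (XT.lf (nat_lit 0) (nat_lit 7132782311) (nat_lit 304) (nat_lit 3065036054) (nat_lit 380) (nat_lit 14600012397) (nat_lit 126) (nat_lit 5) (nat_lit 130) (nat_lit 5) (nat_lit 131) (nat_lit 5) (nat_lit 423) (nat_lit 372) (nat_lit 225)) (XT.lf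 (nat_lit 0) (nat_lit 15330181265) (nat_lit 380) (nat_lit 3852945211) (nat_lit 76) (nat_lit 6077242075) (nat_lit 126) (nat_lit 5) (nat_lit 131) (nat_lit 5) (nat_lit 127) (nat_lit 5) (nat_lit 424) (nat_lit 372) (nat_lit 224)))) (XT.nd (nat_lit 156) (nat_lit 608) (nat_lit 0) (XT.nd (nat_lit 78) (nat_lit 76) (nat_lit 0) (XT.lf (nat_lit 0) (nat_lit 10538639164) (nat_lit 304) (nat_lit 10202549000) (nat_lit 380) (nat_lit 4991855962) (nat_lit 122) (nat_lit 5) (nat_lit 126) (nat_lit 5) (nat_lit 127) (nat_lit 5) (nat_lit 425) (nat_lit 372) (nat_lit 223)) (XT.lf (nat_lit 0) (nat_lit 125130136) (nat_lit 380) (nat_lit 789296837) (nat_lit 76) (nat_lit 25304476909) (nat_lit 121) (nat_lit 5) (nat_lit 126) (nat_lit 5) (nat_lit 122) (nat_lit 5) (nat_lit 426) (nat_lit 372) (nat_lit 222))) (XT.nd (nat_lit 78) (nat_lit 304) (nat_lit 0) (XT.lf (nat_lit 0) (nat_lit 5510686977) (nat_lit 380) (nat_lit 12531917527) (nat_lit 76) (nat_lit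 8668792109) (nat_lit 117) (nat_lit 5) (nat_lit 122) (nat_lit 5) (nat_lit 118) (nat_lit 5) (nat_lit 427) (nat_lit 372) (nat_lit 221)) (XT.lf (nat_lit 0) (nat_lit 2423229360) (nat_lit 304) (nat_lit 8668309949) (nat_lit 380) (nat_lit 16126114595) (nat_lit 113) (nat_lit 5) (nat_lit 117) (nat_lit 5) (nat_lit 118) (nat_lit 5) (nat_lit 428) (nat_lit 372) (nat_lit 220)))))) (XT.nd (nat_lit 546) (nat_lit 1292) (nat_lit 0) (XT.nd (nat_lit 234) (nat_lit 532) (nat_lit 0) (XT.nd (nat_lit 78) (nat_lit 304) (nat_lit 0) (XT.lf (nat_lit 0) (nat_lit 16970506920) (nat_lit 380) (nat_lit 9672188091) (nat_lit 76) (nat_lit 1092484805) (nat_lit 113) (nat_lit 5) (nat_lit 118) (nat_lit 5) (nat_lit 114) (nat_lit 5) (nat_lit 429) (nat_lit 372) (nat_lit 219)) (XT.nd (nat_lit 78) (nat_lit 76) (nat_lit 0) (XT.lf (nat_lit 0) (nat_lit 5923711078) (nat_lit 228) (nat_lit 17238491184) (nat_lit 304) (nat_lit 5101940029) (nat_lit 110) (nat_lit 5)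 (nat_lit 113) (nat_lit 5) (nat_lit 114) (nat_lit 5) (nat_lit 430) (nat_lit 372) (nat_lit 218)) (XT.lf (nat_lit 0) (nat_lit 808675054) (nat_lit 304) (nat_lit 6638081729) (nat_lit 76) (nat_lit 21359239853) (nat_lit 109) (nat_lit 5) (nat_lit 113) (nat_lit 5) (nat_lit 110) (nat_lit 5) (nat_lit 431) (nat_lit 372) (nat_lit 217)))) (XT.nd (nat_lit 156) (nat_lit 228) (nat_lit 0) (XT.nd (nat_lit 78) (nat_lit 0) (nat_lit 0) (XT.lf (nat_lit 0) (nat_lit 6907519743) (nat_lit 380) (nat_lit 19722862903) (nat_lit 76) (nat_lit 2728806300) (nat_lit 105) (nat_lit 5) (nat_lit 110) (nat_lit 5) (nat_lit 106) (nat_lit 5) (nat_lit 432) (nat_lit 372) (nat_lit 216)) (XT.lf (nat_lit 0) (nat_lit 13324620109) (nat_lit 380) (nat_lit 3475898488) (nat_lit 76) (nat_lit 13124401093) (nat_lit 105) (nat_lit 5) (nat_lit 110) (nat_lit 5) (nat_lit 106) (nat_lit 5) (nat_lit 433) (nat_lit 372) (nat_lit 215))) (XT.nd (nat_lit 78) (nat_lit 0) (nat_lit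 0) (XT.lf (nat_lit 0) (nat_lit 13512859729) (nat_lit 228) (nat_lit 6545311106) (nat_lit 304) (nat_lit 10445734734) (nat_lit 102) (nat_lit 5) (nat_lit 105) (nat_lit 5) (nat_lit 106) (nat_lit 5) (nat_lit 434) (nat_lit 372) (nat_lit 214)) (XT.lf (nat_lit 0) (nat_lit 27061890911) (nat_lit 304) (nat_lit 64995407) (nat_lit 76) (nat_lit 3971331116) (nat_lit 102) (nat_lit 5) (nat_lit 106) (nat_lit 5) (nat_lit 103) (nat_lit 5) (nat_lit 435) (nat_lit 372) (nat_lit 213))))) (XT.nd (nat_lit 312) (nat_lit 532) (nat_lit 0) (XT.nd (nat_lit 156) (nat_lit 228) (nat_lit 0) (XT.nd (nat_lit 78) (nat_lit 228) (nat_lit 0) (XT.lf (nat_lit 0) (nat_lit 2746198605) (nat_lit 304) (nat_lit 14091271025) (nat_lit 76) (nat_lit 14865223626) (nat_lit 98) (nat_lit 5) (nat_lit 102) (nat_lit 5) (nat_lit 99) (nat_lit 5) (nat_lit 436) (nat_lit 372) (nat_lit 212)) (XT.lf (nat_lit 0) (nat_lit 3513668071) (nat_lit 228) (nat_lit 6166135278) (nat_lit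 304) (nat_lit 22643440380) (nat_lit 95) (nat_lit 5) (nat_lit 98) (nat_lit 5) (nat_lit 99) (nat_lit 5) (nat_lit 437) (nat_lit 372) (nat_lit 211))) (XT.nd (nat_lit 78) (nat_lit 228) (nat_lit 0) (XT.lf (nat_lit 0) (nat_lit 17005842081) (nat_lit 304) (nat_lit 11079477619) (nat_lit 76) (nat_lit 4871559390) (nat_lit 95) (nat_lit 5) (nat_lit 99) (nat_lit 5) (nat_lit 96) (nat_lit 5) (nat_lit 438) (nat_lit 372) (nat_lit 210)) (XT.lf (nat_lit 0) (nat_lit 7254138193) (nat_lit 228) (nat_lit 17422809405) (nat_lit 304) (nat_lit 8928818464) (nat_lit 92) (nat_lit 5) (nat_lit 95) (nat_lit 5) (nat_lit 96) (nat_lit 5) (nat_lit 439) (nat_lit 372) (nat_lit 209)))) (XT.nd (nat_lit 156) (nat_lit 228) (nat_lit 0) (XT.nd (nat_lit 78) (nat_lit 304) (nat_lit 0) (XT.lf (nat_lit 0) (nat_lit 26356079366) (nat_lit 228) (nat_lit 6328566964) (nat_lit 304) (nat_lit 1586280594) (nat_lit 92) (nat_lit 5) (nat_lit 95) (nat_lit 5) (nat_lit 96) (nat_lit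 5) (nat_lit 440) (nat_lit 372) (nat_lit 208)) (XT.lf (nat_lit 0) (nat_lit 6013139538) (nat_lit 304) (nat_lit 23773823568) (nat_lit 76) (nat_lit 5162760132) (nat_lit 88) (nat_lit 5) (nat_lit 92) (nat_lit 5) (nat_lit 89) (nat_lit 5) (nat_lit 441) (nat_lit 372) (nat_lit 207))) (XT.nd (nat_lit 78) (nat_lit 228) (nat_lit 0) (XT.lf (nat_lit 0) (nat_lit 13946758797) (nat_lit 304) (nat_lit 4732719479) (nat_lit 76) (nat_lit 16964792009) (nat_lit 88) (nat_lit 5) (nat_lit 92) (nat_lit 5) (nat_lit 89) (nat_lit 5) (nat_lit 442) (nat_lit 372) (nat_lit 206)) (XT.lf (nat_lit 0) (nat_lit 15167142985) (nat_lit 228) (nat_lit 7091917506) (nat_lit 304) (nat_lit 14096374002) (nat_lit 85) (nat_lit 5) (nat_lit 88) (nat_lit 5) (nat_lit 89) (nat_lit 5) (nat_lit 443) (nat_lit 372) (nat_lit 205))))))))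
noncomputable def xc176 : XT := (XT.nd (nat_lit 2184) (nat_lit 912) (nat_lit 0) (XT.nd (nat_lit 1092) (nat_lit 1216) (nat_lit 0) (XT.nd (nat_lit 546) (nat_lit 532) (nat_lit 0) (XT.nd (nat_lit 234) (nat_lit 456) (nat_lit 0) (XT.nd (nat_lit 78) (nat_lit 456) (nat_lit 0) (XT.lf (nat_lit 0) (nat_lit 30910467161) (nat_lit 304) (nat_lit 1380990465) (nat_lit 76) (nat_lit 4793784858) (nat_lit 85) (nat_lit 5) (nat_lit 89) (nat_lit 5) (nat_lit 86) (nat_lit 5) (nat_lit 444) (nat_lit 372) (nat_lit 204)) (XT.nd (nat_lit 78) (nat_lit 228) (nat_lit 0) (XT.lf (nat_lit 0) (nat_lit 2199218129) (nat_lit 228) (nat_lit 18531911229) (nat_lit 76) (nat_lit 17097639830) (nat_lit 82) (nat_lit 5) (nat_lit 85) (nat_lit 5) (nat_lit 83) (nat_lit 5) (nat_lit 445) (nat_lit 372) (nat_lit 203)) (XT.lf (nat_lit 0) (nat_lit 1998644244) (nat_lit 228) (nat_lit 8730055362) (nat_lit 304) (nat_lit 27863217599) (nat_lit 79) (nat_lit 5) (nat_lit 82)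 (nat_lit 5) (nat_lit 83) (nat_lit 5) (nat_lit 446) (nat_lit 372) (nat_lit 202)))) (XT.nd (nat_lit 156) (nat_lit 304) (nat_lit 0) (XT.nd (nat_lit 78) (nat_lit 152) (nat_lit 0) (XT.lf (nat_lit 0) (nat_lit 19733070687) (nat_lit 304) (nat_lit 15892383175) (nat_lit 76) (nat_lit 3745936477) (nat_lit 79) (nat_lit 5) (nat_lit 83) (nat_lit 5) (nat_lit 80) (nat_lit 5) (nat_lit 447) (nat_lit 372) (nat_lit 201)) (XT.lf (nat_lit 0) (nat_lit 5441233159) (nat_lit 152) (nat_lit 23700335228) (nat_lit 228) (nat_lit 11028660223) (nat_lit 77) (nat_lit 5) (nat_lit 79) (nat_lit 5) (nat_lit 80) (nat_lit 5) (nat_lit 448) (nat_lit 372) (nat_lit 200))) (XT.nd (nat_lit 78) (nat_lit 304) (nat_lit 0) (XT.lf (nat_lit 0) (nat_lit 27732673089) (nat_lit 152) (nat_lit 11255446332) (nat_lit 228) (nat_lit 2000239438) (nat_lit 77) (nat_lit 5) (nat_lit 79) (nat_lit 5) (nat_lit 80) (nat_lit 5) (nat_lit 449) (nat_lit 372) (nat_lit 199)) (XT.lf (nat_lit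 0) (nat_lit 7254665465) (nat_lit 304) (nat_lit 32884369301) (nat_lit 76) (nat_lit 1686952247) (nat_lit 73) (nat_lit 5) (nat_lit 77) (nat_lit 5) (nat_lit 74) (nat_lit 5) (nat_lit 450) (nat_lit 372) (nat_lit 198))))) (XT.nd (nat_lit 234) (nat_lit 380) (nat_lit 0) (XT.nd (nat_lit 78) (nat_lit 152) (nat_lit 0) (XT.lf (nat_lit 0) (nat_lit 16989072055) (nat_lit 304) (nat_lit 10748581694) (nat_lit 76) (nat_lit 14943235129) (nat_lit 73) (nat_lit 5) (nat_lit 77) (nat_lit 5) (nat_lit 74) (nat_lit 5) (nat_lit 451) (nat_lit 372) (nat_lit 197)) (XT.nd (nat_lit 78) (nat_lit 0) (nat_lit 0) (XT.lf (nat_lit 0) (nat_lit 12283348104) (nat_lit 152) (nat_lit 14845806301) (nat_lit 228) (nat_lit 16428874783) (nat_lit 71) (nat_lit 5) (nat_lit 73) (nat_lit 5) (nat_lit 74) (nat_lit 5) (nat_lit 452) (nat_lit 372) (nat_lit 196)) (XT.lf (nat_lit 0) (nat_lit 36219022127) (nat_lit 152) (nat_lit 1458581711) (nat_lit 228) (nat_lit 6780755605)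 (nat_lit 71) (nat_lit 5) (nat_lit 73) (nat_lit 5) (nat_lit 74) (nat_lit 5) (nat_lit 453) (nat_lit 372) (nat_lit 195)))) (XT.nd (nat_lit 156) (nat_lit 152) (nat_lit 0) (XT.nd (nat_lit 78) (nat_lit 0) (nat_lit 0) (XT.lf (nat_lit 0) (nat_lit 3362676046) (nat_lit 228) (nat_lit 29743892846) (nat_lit 76) (nat_lit 12270196911) (nat_lit 68) (nat_lit 5) (nat_lit 71) (nat_lit 5) (nat_lit 69) (nat_lit 5) (nat_lit 454) (nat_lit 372) (nat_lit 194)) (XT.lf (nat_lit 0) (nat_lit 13768324759) (nat_lit 228) (nat_lit 6019922149) (nat_lit 76) (nat_lit 26529637960) (nat_lit 68) (nat_lit 5) (nat_lit 71) (nat_lit 5) (nat_lit 69) (nat_lit 5) (nat_lit 455) (nat_lit 372) (nat_lit 193))) (XT.nd (nat_lit 78) (nat_lit 0) (nat_lit 0) (XT.lf (nat_lit 0) (nat_lit 18774910162) (nat_lit 152) (nat_lit 5887567196) (nat_lit 228) (nat_lit 22619470715) (nat_lit 66) (nat_lit 5) (nat_lit 68) (nat_lit 5) (nat_lit 69) (nat_lit 5) (nat_lit 456) (nat_lit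 372) (nat_lit 192)) (XT.lf (nat_lit 0) (nat_lit 36021762340) (nat_lit 228) (nat_lit 3925003652) (nat_lit 76) (nat_lit 8324018530) (nat_lit 66) (nat_lit 5) (nat_lit 69) (nat_lit 5) (nat_lit 67) (nat_lit 5) (nat_lit 457) (nat_lit 372) (nat_lit 191)))))) (XT.nd (nat_lit 546) (nat_lit 456) (nat_lit 0) (XT.nd (nat_lit 234) (nat_lit 380) (nat_lit 0) (XT.nd (nat_lit 78) (nat_lit 228) (nat_lit 0) (XT.lf (nat_lit 0) (nat_lit 21753655494) (nat_lit 152) (nat_lit 26231573465) (nat_lit 228) (nat_lit 1296155580) (nat_lit 64) (nat_lit 5) (nat_lit 66) (nat_lit 5) (nat_lit 67) (nat_lit 5) (nat_lit 458) (nat_lit 372) (nat_lit 190)) (XT.nd (nat_lit 78) (nat_lit 152) (nat_lit 0) (XT.lf (nat_lit 0) (nat_lit 9826485942) (nat_lit 228) (nat_lit 2141404096) (nat_lit 76) (nat_lit 38350452367) (nat_lit 63) (nat_lit 5) (nat_lit 66) (nat_lit 5) (nat_lit 64) (nat_lit 5) (nat_lit 459) (nat_lit 372) (nat_lit 189)) (XT.lf (nat_lit 0) (nat_lit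 21516656088) (nat_lit 228) (nat_lit 26943473405) (nat_lit 76) (nat_lit 2918098011) (nat_lit 61) (nat_lit 5) (nat_lit 64) (nat_lit 5) (nat_lit 62) (nat_lit 5) (nat_lit 460) (nat_lit 372) (nat_lit 188)))) (XT.nd (nat_lit 156) (nat_lit 228) (nat_lit 0) (XT.nd (nat_lit 78) (nat_lit 152) (nat_lit 0) (XT.lf (nat_lit 0) (nat_lit 33694009681) (nat_lit 228) (nat_lit 742735896) (nat_lit 76) (nat_lit 18029069731) (nat_lit 61) (nat_lit 5) (nat_lit 64) (nat_lit 5) (nat_lit 62) (nat_lit 5) (nat_lit 461) (nat_lit 372) (nat_lit 187)) (XT.lf (nat_lit 0) (nat_lit 26759537407) (nat_lit 152) (nat_lit 19730634063) (nat_lit 228) (nat_lit 7088255137) (nat_lit 59) (nat_lit 5) (nat_lit 61) (nat_lit 5) (nat_lit 62) (nat_lit 5) (nat_lit 462) (nat_lit 372) (nat_lit 186))) (XT.nd (nat_lit 78) (nat_lit 0) (nat_lit 0) (XT.lf (nat_lit 0) (nat_lit 330066752) (nat_lit 152) (nat_lit 4526239002) (nat_lit 228) (nat_lit 49866474260) (nat_lit 56)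 (nat_lit 5) (nat_lit 58) (nat_lit 5) (nat_lit 59) (nat_lit 5) (nat_lit 463) (nat_lit 372) (nat_lit 185)) (XT.lf (nat_lit 0) (nat_lit 17393549957) (nat_lit 228) (nat_lit 27236667225) (nat_lit 76) (nat_lit 11257837465) (nat_lit 56) (nat_lit 5) (nat_lit 59) (nat_lit 5) (nat_lit 57) (nat_lit 5) (nat_lit 464) (nat_lit 372) (nat_lit 184))))) (XT.nd (nat_lit 234) (nat_lit 228) (nat_lit 0) (XT.nd (nat_lit 78) (nat_lit 76) (nat_lit 0) (XT.lf (nat_lit 0) (nat_lit 696340496) (nat_lit 152) (nat_lit 29658471355) (nat_lit 228) (nat_lit 26732039090) (nat_lit 54) (nat_lit 5) (nat_lit 56) (nat_lit 5) (nat_lit 57) (nat_lit 5) (nat_lit 465) (nat_lit 372) (nat_lit 183)) (XT.nd (nat_lit 78) (nat_lit 76) (nat_lit 0) (XT.lf (nat_lit 0) (nat_lit 30019233527) (nat_lit 152) (nat_lit 13957150744) (nat_lit 228) (nat_lit 14337083094) (nat_lit 54) (nat_lit 5) (nat_lit 56) (nat_lit 5) (nat_lit 57) (nat_lit 5) (nat_lit 466) (nat_lit 372) (nat_lit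 182)) (XT.lf (nat_lit 0) (nat_lit 629602839) (nat_lit 76) (nat_lit 57400859904) (nat_lit 152) (nat_lit 1545704180) (nat_lit 53) (nat_lit 5) (nat_lit 54) (nat_lit 5) (nat_lit 55) (nat_lit 4) (nat_lit 467) (nat_lit 372) (nat_lit 181)))) (XT.nd (nat_lit 156) (nat_lit 152) (nat_lit 0) (XT.nd (nat_lit 78) (nat_lit 0) (nat_lit 0) (XT.lf (nat_lit 0) (nat_lit 11825738782) (nat_lit 152) (nat_lit 30126152644) (nat_lit 76) (nat_lit 18908805123) (nat_lit 52) (nat_lit 5) (nat_lit 54) (nat_lit 5) (nat_lit 53) (nat_lit 5) (nat_lit 468) (nat_lit 372) (nat_lit 180)) (XT.lf (nat_lit 0) (nat_lit 25563878988) (nat_lit 152) (nat_lit 462576343) (nat_lit 76) (nat_lit 36156949353) (nat_lit 52) (nat_lit 5) (nat_lit 54) (nat_lit 5) (nat_lit 53) (nat_lit 5) (nat_lit 469) (nat_lit 372) (nat_lit 179))) (XT.nd (nat_lit 78) (nat_lit 0) (nat_lit 0) (XT.lf (nat_lit 0) (nat_lit 30683692050) (nat_lit 152) (nat_lit 9322141261) (nat_lit 228) (nat_lit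 23531211019) (nat_lit 50) (nat_lit 5) (nat_lit 52) (nat_lit 5) (nat_lit 53) (nat_lit 5) (nat_lit 470) (nat_lit 372) (nat_lit 178)) (XT.lf (nat_lit 0) (nat_lit 54958275409) (nat_lit 228) (nat_lit 2239125610) (nat_lit 76) (nat_lit 7731575625) (nat_lit 50) (nat_lit 5) (nat_lit 53) (nat_lit 5) (nat_lit 51) (nat_lit 4) (nat_lit 471) (nat_lit 372) (nat_lit 177))))))) (XT.nd (nat_lit 45474) (nat_lit 0) (nat_lit 16340) (XT.nd (nat_lit 546) (nat_lit 304) (nat_lit 0) (XT.nd (nat_lit 234) (nat_lit 304) (nat_lit 0) (XT.nd (nat_lit 78) (nat_lit 152) (nat_lit 0) (XT.lf (nat_lit 0) (nat_lit 4297707287) (nat_lit 152) (nat_lit 36617069278) (nat_lit 76) (nat_lit 25435365996) (nat_lit 48) (nat_lit 5) (nat_lit 50) (nat_lit 5) (nat_lit 49) (nat_lit 5) (nat_lit 472) (nat_lit 372) (nat_lit 176)) (XT.nd (nat_lit 78) (nat_lit 152) (nat_lit 0) (XT.lf (nat_lit 0) (nat_lit 18813435096) (nat_lit 152) (nat_lit 5207681174) (nat_lit 76) (nat_lit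 43789275865) (nat_lit 48) (nat_lit 5) (nat_lit 50) (nat_lit 5) (nat_lit 49) (nat_lit 5) (nat_lit 473) (nat_lit 372) (nat_lit 175)) (XT.lf (nat_lit 0) (nat_lit 27678453748) (nat_lit 152) (nat_lit 6349169052) (nat_lit 228) (nat_lit 35278937068) (nat_lit 46) (nat_lit 5) (nat_lit 48) (nat_lit 5) (nat_lit 49) (nat_lit 5) (nat_lit 474) (nat_lit 372) (nat_lit 174)))) (XT.nd (nat_lit 156) (nat_lit 228) (nat_lit 0) (XT.nd (nat_lit 78) (nat_lit 76) (nat_lit 0) (XT.lf (nat_lit 0) (nat_lit 49862219037) (nat_lit 228) (nat_lit 9308221089) (nat_lit 76) (nat_lit 11672253325) (nat_lit 46) (nat_lit 5) (nat_lit 49) (nat_lit 5) (nat_lit 47) (nat_lit 4) (nat_lit 475) (nat_lit 372) (nat_lit 173)) (XT.lf (nat_lit 0) (nat_lit 24388823050) (nat_lit 76) (nat_lit 42077359852) (nat_lit 152) (nat_lit 5949898542) (nat_lit 45) (nat_lit 5) (nat_lit 46) (nat_lit 5) (nat_lit 47) (nat_lit 4) (nat_lit 476) (nat_lit 372) (nat_lit 172))) (XT.nd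 (nat_lit 78) (nat_lit 152) (nat_lit 0) (XT.lf (nat_lit 0) (nat_lit 9437555671) (nat_lit 152) (nat_lit 14844311192) (nat_lit 76) (nat_lit 49749297085) (nat_lit 44) (nat_lit 5) (nat_lit 46) (nat_lit 5) (nat_lit 45) (nat_lit 5) (nat_lit 477) (nat_lit 372) (nat_lit 171)) (XT.lf (nat_lit 0) (nat_lit 19653389246) (nat_lit 152) (nat_lit 5699695445) (nat_lit 228) (nat_lit 50334266060) (nat_lit 42) (nat_lit 5) (nat_lit 44) (nat_lit 5) (nat_lit 45) (nat_lit 5) (nat_lit 478) (nat_lit 372) (nat_lit 170))))) (XT.nd (nat_lit 234) (nat_lit 228) (nat_lit 0) (XT.nd (nat_lit 78) (nat_lit 76) (nat_lit 0) (XT.lf (nat_lit 0) (nat_lit 42023782741) (nat_lit 228) (nat_lit 22034432526) (nat_lit 76) (nat_lit 13326677058) (nat_lit 42) (nat_lit 5) (nat_lit 45) (nat_lit 5) (nat_lit 43) (nat_lit 4) (nat_lit 479) (nat_lit 372) (nat_lit 169)) (XT.nd (nat_lit 78) (nat_lit 0) (nat_lit 0) (XT.lf (nat_lit 0) (nat_lit 13180663796) (nat_lit 76)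 (nat_lit 46194282474) (nat_lit 152) (nat_lit 19753003796) (nat_lit 41) (nat_lit 5) (nat_lit 42) (nat_lit 5) (nat_lit 43) (nat_lit 4) (nat_lit 480) (nat_lit 372) (nat_lit 168)) (XT.lf (nat_lit 0) (nat_lit 49898760016) (nat_lit 76) (nat_lit 27567632401) (nat_lit 152) (nat_lit 3450314939) (nat_lit 41) (nat_lit 5) (nat_lit 42) (nat_lit 5) (nat_lit 43) (nat_lit 4) (nat_lit 481) (nat_lit 372) (nat_lit 167)))) (XT.nd (nat_lit 156) (nat_lit 0) (nat_lit 0) (XT.nd (nat_lit 78) (nat_lit 0) (nat_lit 0) (XT.lf (nat_lit 0) (nat_lit 4922030412) (nat_lit 152) (nat_lit 8203694613) (nat_lit 228) (nat_lit 69628216877) (nat_lit 38) (nat_lit 5) (nat_lit 40) (nat_lit 5) (nat_lit 41) (nat_lit 5) (nat_lit 482) (nat_lit 372) (nat_lit 166)) (XT.lf (nat_lit 0) (nat_lit 30556188300) (nat_lit 228) (nat_lit 42216028153) (nat_lit 76) (nat_lit 11860257710) (nat_lit 38) (nat_lit 5) (nat_lit 41) (nat_lit 5) (nat_lit 39) (nat_lit 4) (nat_lit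 483) (nat_lit 372) (nat_lit 165))) (XT.nd (nat_lit 44460) (nat_lit 0) (nat_lit 17100) (XT.lf (nat_lit 0) (nat_lit 48588173821) (nat_lit 228) (nat_lit 5617796258) (nat_lit 76) (nat_lit 32359034285) (nat_lit 38) (nat_lit 5) (nat_lit 41) (nat_lit 5) (nat_lit 39) (nat_lit 4) (nat_lit 484) (nat_lit 372) (nat_lit 164)) (XT.lf (nat_lit 0) (nat_lit 225759126) (nat_lit 0) (nat_lit 225759126) (nat_lit 1140) (nat_lit 5135263111) (nat_lit 263) (nat_lit 5) (nat_lit 263) (nat_lit 3) (nat_lit 278) (nat_lit 3) (nat_lit 373) (nat_lit 373) (nat_lit 274)))))) (XT.nd (nat_lit 546) (nat_lit 760) (nat_lit 0) (XT.nd (nat_lit 234) (nat_lit 0) (nat_lit 76) (XT.nd (nat_lit 78) (nat_lit 0) (nat_lit 0) (XT.lf (nat_lit 0) (nat_lit 1507376387) (nat_lit 1140) (nat_lit 5370803422) (nat_lit 1216) (nat_lit 4445022084) (nat_lit 263) (nat_lit 5) (nat_lit 278) (nat_lit 3) (nat_lit 279) (nat_lit 5) (nat_lit 374) (nat_lit 373) (nat_lit 273)) (XT.nd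 (nat_lit 78) (nat_lit 0) (nat_lit 76) (XT.lf (nat_lit 76) (nat_lit 127562724) (nat_lit 0) (nat_lit 1986726777) (nat_lit 1216) (nat_lit 9363516827) (nat_lit 264) (nat_lit 5) (nat_lit 263) (nat_lit 5) (nat_lit 279) (nat_lit 5) (nat_lit 375) (nat_lit 373) (nat_lit 272)) (XT.lf (nat_lit 0) (nat_lit 2802861343) (nat_lit 1140) (nat_lit 5776356178) (nat_lit 1216) (nat_lit 3055936947) (nat_lit 264) (nat_lit 5) (nat_lit 279) (nat_lit 5) (nat_lit 280) (nat_lit 5) (nat_lit 376) (nat_lit 373) (nat_lit 271)))) (XT.nd (nat_lit 156) (nat_lit 0) (nat_lit 76) (XT.nd (nat_lit 78) (nat_lit 0) (nat_lit 76) (XT.lf (nat_lit 0) (nat_lit 3511709616) (nat_lit 1140) (nat_lit 66612795) (nat_lit 1216) (nat_lit 8218920907) (nat_lit 264) (nat_lit 5) (nat_lit 279) (nat_lit 5) (nat_lit 280) (nat_lit 5) (nat_lit 377) (nat_lit 373) (nat_lit 270)) (XT.lf (nat_lit 0) (nat_lit 4295007064) (nat_lit 1140) (nat_lit 6060272960) (nat_lit 1216) (nat_lit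 1607327885) (nat_lit 265) (nat_lit 5) (nat_lit 280) (nat_lit 5) (nat_lit 281) (nat_lit 5) (nat_lit 378) (nat_lit 373) (nat_lit 269))) (XT.nd (nat_lit 78) (nat_lit 0) (nat_lit 76) (XT.lf (nat_lit 0) (nat_lit 5118978089) (nat_lit 1140) (nat_lit 128523851) (nat_lit 1216) (nat_lit 6884924596) (nat_lit 265) (nat_lit 5) (nat_lit 280) (nat_lit 5) (nat_lit 281) (nat_lit 5) (nat_lit 379) (nat_lit 373) (nat_lit 268)) (XT.lf (nat_lit 0) (nat_lit 6008586963) (nat_lit 1140) (nat_lit 6218478692) (nat_lit 1216) (nat_lit 79054599) (nat_lit 266) (nat_lit 5) (nat_lit 281) (nat_lit 5) (nat_lit 282) (nat_lit 5) (nat_lit 380) (nat_lit 373) (nat_lit 267))))) (XT.nd (nat_lit 312) (nat_lit 988) (nat_lit 0) (XT.nd (nat_lit 156) (nat_lit 0) (nat_lit 76) (XT.nd (nat_lit 78) (nat_lit 0) (nat_lit 0) (XT.lf (nat_lit 0) (nat_lit 6960256351) (nat_lit 1140) (nat_lit 56068962) (nat_lit 1216) (nat_lit 5467646164) (nat_lit 266) (nat_lit 5) (nat_lit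 281) (nat_lit 5) (nat_lit 282) (nat_lit 5) (nat_lit 381) (nat_lit 373) (nat_lit 266)) (XT.lf (nat_lit 76) (nat_lit 6404497239) (nat_lit 0) (nat_lit 1580169801) (nat_lit 1216) (nat_lit 4681173089) (nat_lit 267) (nat_lit 5) (nat_lit 266) (nat_lit 5) (nat_lit 282) (nat_lit 5) (nat_lit 382) (nat_lit 373) (nat_lit 265))) (XT.nd (nat_lit 78) (nat_lit 0) (nat_lit 0) (XT.lf (nat_lit 76) (nat_lit 159204523) (nat_lit 0) (nat_lit 8904415381) (nat_lit 1216) (nat_lit 3788838047) (nat_lit 268) (nat_lit 5) (nat_lit 267) (nat_lit 5) (nat_lit 283) (nat_lit 5) (nat_lit 383) (nat_lit 373) (nat_lit 264)) (XT.lf (nat_lit 76) (nat_lit 6872737507) (nat_lit 0) (nat_lit 3364374317) (nat_lit 1216) (nat_lit 2805704563) (nat_lit 268) (nat_lit 5) (nat_lit 267) (nat_lit 5) (nat_lit 283) (nat_lit 5) (nat_lit 384) (nat_lit 373) (nat_lit 263)))) (XT.nd (nat_lit 156) (nat_lit 1140) (nat_lit 0) (XT.nd (nat_lit 78) (nat_lit 0) (nat_lit 0) (XT.lf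 (nat_lit 76) (nat_lit 524303935) (nat_lit 0) (nat_lit 10933031499) (nat_lit 1216) (nat_lit 1781211316) (nat_lit 269) (nat_lit 5) (nat_lit 268) (nat_lit 5) (nat_lit 284) (nat_lit 5) (nat_lit 385) (nat_lit 373) (nat_lit 262)) (XT.lf (nat_lit 76) (nat_lit 7499938332) (nat_lit 0) (nat_lit 5293843261) (nat_lit 1216) (nat_lit 643985735) (nat_lit 269) (nat_lit 5) (nat_lit 268) (nat_lit 5) (nat_lit 284) (nat_lit 5) (nat_lit 386) (nat_lit 373) (nat_lit 261))) (XT.nd (nat_lit 78) (nat_lit 0) (nat_lit 0) (XT.lf (nat_lit 0) (nat_lit 516865675) (nat_lit 1216) (nat_lit 12602950711) (nat_lit 1292) (nat_lit 523008459) (nat_lit 253) (nat_lit 5) (nat_lit 269) (nat_lit 5) (nat_lit 270) (nat_lit 5) (nat_lit 387) (nat_lit 373) (nat_lit 260)) (XT.lf (nat_lit 0) (nat_lit 1797556071) (nat_lit 1216) (nat_lit 5575407762) (nat_lit 1292) (nat_lit 6477946467) (nat_lit 253) (nat_lit 5) (nat_lit 269) (nat_lit 5) (nat_lit 270) (nat_lit 5)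 (nat_lit 388) (nat_lit 373) (nat_lit 259))))))))
noncomputable def xc177 : XT := (XT.nd (nat_lit 2184) (nat_lit 5016) (nat_lit 0) (XT.nd (nat_lit 1092) (nat_lit 3192) (nat_lit 0) (XT.nd (nat_lit 546) (nat_lit 2204) (nat_lit 0) (XT.nd (nat_lit 234) (nat_lit 1216) (nat_lit 0) (XT.nd (nat_lit 78) (nat_lit 1140) (nat_lit 0) (XT.lf (nat_lit 76) (nat_lit 1683762931) (nat_lit 0) (nat_lit 1434515365) (nat_lit 1292) (nat_lit 10946917713) (nat_lit 254) (nat_lit 5) (nat_lit 253) (nat_lit 5) (nat_lit 270) (nat_lit 5) (nat_lit 389) (nat_lit 373) (nat_lit 258)) (XT.nd (nat_lit 78) (nat_lit 1216) (nat_lit 0) (XT.lf (nat_lit 0) (nat_lit 4566245271) (nat_lit 1216) (nat_lit 5067179441) (nat_lit 76) (nat_lit 4649862732) (nat_lit 254) (nat_lit 5) (nat_lit 270) (nat_lit 5) (nat_lit 255) (nat_lit 5) (nat_lit 390) (nat_lit 373) (nat_lit 257)) (XT.lf (nat_lit 0) (nat_lit 2488832935) (nat_lit 1216) (nat_lit 3593118331) (nat_lit 1292)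 (nat_lit 8425247032) (nat_lit 238) (nat_lit 5) (nat_lit 254) (nat_lit 5) (nat_lit 255) (nat_lit 5) (nat_lit 391) (nat_lit 373) (nat_lit 256)))) (XT.nd (nat_lit 156) (nat_lit 608) (nat_lit 0) (XT.nd (nat_lit 78) (nat_lit 608) (nat_lit 0) (XT.lf (nat_lit 0) (nat_lit 7706545940) (nat_lit 1292) (nat_lit 4399007100) (nat_lit 76) (nat_lit 2630376426) (nat_lit 238) (nat_lit 5) (nat_lit 255) (nat_lit 5) (nat_lit 239) (nat_lit 5) (nat_lit 392) (nat_lit 373) (nat_lit 255)) (XT.lf (nat_lit 0) (nat_lit 3469068770) (nat_lit 608) (nat_lit 5966602350) (nat_lit 684) (nat_lit 5534183021) (nat_lit 230) (nat_lit 5) (nat_lit 238) (nat_lit 5) (nat_lit 239) (nat_lit 5) (nat_lit 393) (nat_lit 373) (nat_lit 254))) (XT.nd (nat_lit 78) (nat_lit 608) (nat_lit 0) (XT.lf (nat_lit 0) (nat_lit 11252106653) (nat_lit 684) (nat_lit 3562233423) (nat_lit 76) (nat_lit 395398576) (nat_lit 230) (nat_lit 5) (nat_lit 239) (nat_lit 5) (nat_lit 231)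 (nat_lit 5) (nat_lit 394) (nat_lit 373) (nat_lit 253)) (XT.lf (nat_lit 0) (nat_lit 4633916559) (nat_lit 608) (nat_lit 8580260702) (nat_lit 684) (nat_lit 2239913224) (nat_lit 222) (nat_lit 5) (nat_lit 230) (nat_lit 5) (nat_lit 231) (nat_lit 5) (nat_lit 395) (nat_lit 373) (nat_lit 252))))) (XT.nd (nat_lit 234) (nat_lit 1520) (nat_lit 0) (XT.nd (nat_lit 78) (nat_lit 684) (nat_lit 0) (XT.lf (nat_lit 0) (nat_lit 13137182420) (nat_lit 608) (nat_lit 2121671911) (nat_lit 684) (nat_lit 446211107) (nat_lit 222) (nat_lit 5) (nat_lit 230) (nat_lit 5) (nat_lit 231) (nat_lit 5) (nat_lit 396) (nat_lit 373) (nat_lit 251)) (XT.nd (nat_lit 78) (nat_lit 0) (nat_lit 0) (XT.lf (nat_lit 0) (nat_lit 1464135544) (nat_lit 684) (nat_lit 9981681047) (nat_lit 76) (nat_lit 4514648222) (nat_lit 213) (nat_lit 5) (nat_lit 222) (nat_lit 5) (nat_lit 214) (nat_lit 5) (nat_lit 397) (nat_lit 373) (nat_lit 250)) (XT.lf (nat_lit 0) (nat_lit 3458264639)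 (nat_lit 684) (nat_lit 1425874975) (nat_lit 76) (nat_lit 11338195286) (nat_lit 213) (nat_lit 5) (nat_lit 222) (nat_lit 5) (nat_lit 214) (nat_lit 5) (nat_lit 398) (nat_lit 373) (nat_lit 249)))) (XT.nd (nat_lit 156) (nat_lit 988) (nat_lit 0) (XT.nd (nat_lit 78) (nat_lit 0) (nat_lit 0) (XT.lf (nat_lit 0) (nat_lit 5591842459) (nat_lit 608) (nat_lit 8987175427) (nat_lit 76) (nat_lit 1910658810) (nat_lit 206) (nat_lit 5) (nat_lit 214) (nat_lit 5) (nat_lit 207) (nat_lit 5) (nat_lit 399) (nat_lit 373) (nat_lit 248)) (XT.lf (nat_lit 0) (nat_lit 7841134674) (nat_lit 608) (nat_lit 96960303) (nat_lit 76) (nat_lit 8825396780) (nat_lit 206) (nat_lit 5) (nat_lit 214) (nat_lit 5) (nat_lit 207) (nat_lit 5) (nat_lit 400) (nat_lit 373) (nat_lit 247))) (XT.nd (nat_lit 78) (nat_lit 456) (nat_lit 0) (XT.lf (nat_lit 0) (nat_lit 9228577084) (nat_lit 532) (nat_lit 1007173418) (nat_lit 608) (nat_lit 6807439526) (nat_lit 199) (nat_lit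 5) (nat_lit 206) (nat_lit 5) (nat_lit 207) (nat_lit 5) (nat_lit 401) (nat_lit 373) (nat_lit 246)) (XT.lf (nat_lit 0) (nat_lit 1462534928) (nat_lit 456) (nat_lit 11302993641) (nat_lit 532) (nat_lit 4563854946) (nat_lit 193) (nat_lit 5) (nat_lit 199) (nat_lit 5) (nat_lit 200) (nat_lit 5) (nat_lit 402) (nat_lit 373) (nat_lit 245)))))) (XT.nd (nat_lit 546) (nat_lit 1672) (nat_lit 0) (XT.nd (nat_lit 234) (nat_lit 912) (nat_lit 0) (XT.nd (nat_lit 78) (nat_lit 608) (nat_lit 0) (XT.lf (nat_lit 0) (nat_lit 11156461497) (nat_lit 456) (nat_lit 4293059305) (nat_lit 532) (nat_lit 2172296246) (nat_lit 193) (nat_lit 5) (nat_lit 199) (nat_lit 5) (nat_lit 200) (nat_lit 5) (nat_lit 403) (nat_lit 373) (nat_lit 244)) (XT.nd (nat_lit 78) (nat_lit 0) (nat_lit 0) (XT.lf (nat_lit 0) (nat_lit 334942057) (nat_lit 608) (nat_lit 14683052781) (nat_lit 76) (nat_lit 2903460127) (nat_lit 185) (nat_lit 5) (nat_lit 193) (nat_lit 5) (nat_lit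 186) (nat_lit 5) (nat_lit 404) (nat_lit 373) (nat_lit 243)) (XT.lf (nat_lit 0) (nat_lit 2972088989) (nat_lit 608) (nat_lit 4938587424) (nat_lit 76) (nat_lit 10315813335) (nat_lit 185) (nat_lit 5) (nat_lit 193) (nat_lit 5) (nat_lit 186) (nat_lit 5) (nat_lit 405) (nat_lit 373) (nat_lit 242)))) (XT.nd (nat_lit 156) (nat_lit 456) (nat_lit 0) (XT.nd (nat_lit 78) (nat_lit 0) (nat_lit 0) (XT.lf (nat_lit 0) (nat_lit 5188179832) (nat_lit 456) (nat_lit 540249366) (nat_lit 532) (nat_lit 12811047445) (nat_lit 179) (nat_lit 5) (nat_lit 185) (nat_lit 5) (nat_lit 186) (nat_lit 5) (nat_lit 406) (nat_lit 373) (nat_lit 241)) (XT.lf (nat_lit 0) (nat_lit 8675974734) (nat_lit 532) (nat_lit 3220084365) (nat_lit 76) (nat_lit 6962541926) (nat_lit 179) (nat_lit 5) (nat_lit 186) (nat_lit 5) (nat_lit 180) (nat_lit 5) (nat_lit 407) (nat_lit 373) (nat_lit 240))) (XT.nd (nat_lit 78) (nat_lit 0) (nat_lit 0) (XT.lf (nat_lit 0) (nat_lit 7341876519)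 (nat_lit 456) (nat_lit 4436644204) (nat_lit 532) (nat_lit 7406784432) (nat_lit 173) (nat_lit 5) (nat_lit 179) (nat_lit 5) (nat_lit 180) (nat_lit 5) (nat_lit 408) (nat_lit 373) (nat_lit 239)) (XT.lf (nat_lit 0) (nat_lit 15028989084) (nat_lit 532) (nat_lit 1276917618) (nat_lit 76) (nat_lit 3214261470) (nat_lit 173) (nat_lit 5) (nat_lit 180) (nat_lit 5) (nat_lit 174) (nat_lit 5) (nat_lit 409) (nat_lit 373) (nat_lit 238))))) (XT.nd (nat_lit 234) (nat_lit 760) (nat_lit 0) (XT.nd (nat_lit 78) (nat_lit 532) (nat_lit 0) (XT.lf (nat_lit 0) (nat_lit 9741829937) (nat_lit 380) (nat_lit 8763780782) (nat_lit 456) (nat_lit 1355610235) (nat_lit 168) (nat_lit 5) (nat_lit 173) (nat_lit 5) (nat_lit 174) (nat_lit 5) (nat_lit 410) (nat_lit 373) (nat_lit 237)) (XT.nd (nat_lit 78) (nat_lit 0) (nat_lit 0) (XT.lf (nat_lit 0) (nat_lit 893488228) (nat_lit 456) (nat_lit 956713207) (nat_lit 532) (nat_lit 18361383991) (nat_lit 161) (nat_lit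 5) (nat_lit 167) (nat_lit 5) (nat_lit 168) (nat_lit 5) (nat_lit 411) (nat_lit 373) (nat_lit 236)) (XT.lf (nat_lit 0) (nat_lit 5287506470) (nat_lit 532) (nat_lit 8218875940) (nat_lit 76) (nat_lit 7060801595) (nat_lit 161) (nat_lit 5) (nat_lit 168) (nat_lit 5) (nat_lit 162) (nat_lit 5) (nat_lit 412) (nat_lit 373) (nat_lit 235)))) (XT.nd (nat_lit 156) (nat_lit 380) (nat_lit 0) (XT.nd (nat_lit 78) (nat_lit 0) (nat_lit 0) (XT.lf (nat_lit 0) (nat_lit 3256584303) (nat_lit 380) (nat_lit 5603643915) (nat_lit 456) (nat_lit 12072256109) (nat_lit 156) (nat_lit 5) (nat_lit 161) (nat_lit 5) (nat_lit 162) (nat_lit 5) (nat_lit 413) (nat_lit 373) (nat_lit 234)) (XT.lf (nat_lit 0) (nat_lit 12639969279) (nat_lit 456) (nat_lit 6097604390) (nat_lit 76) (nat_lit 2568177492) (nat_lit 156) (nat_lit 5) (nat_lit 162) (nat_lit 5) (nat_lit 157) (nat_lit 5) (nat_lit 414) (nat_lit 373) (nat_lit 233))) (XT.nd (nat_lit 78) (nat_lit 0) (nat_lit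 0) (XT.lf (nat_lit 0) (nat_lit 5876614137) (nat_lit 380) (nat_lit 10760345219) (nat_lit 456) (nat_lit 5050143496) (nat_lit 151) (nat_lit 5) (nat_lit 156) (nat_lit 5) (nat_lit 157) (nat_lit 5) (nat_lit 415) (nat_lit 373) (nat_lit 232)) (XT.lf (nat_lit 0) (nat_lit 18324539971) (nat_lit 380) (nat_lit 2482913838) (nat_lit 456) (nat_lit 1270835926) (nat_lit 151) (nat_lit 5) (nat_lit 156) (nat_lit 5) (nat_lit 157) (nat_lit 5) (nat_lit 416) (nat_lit 373) (nat_lit 231))))))) (XT.nd (nat_lit 1092) (nat_lit 2128) (nat_lit 0) (XT.nd (nat_lit 546) (nat_lit 1292) (nat_lit 0) (XT.nd (nat_lit 234) (nat_lit 760) (nat_lit 0) (XT.nd (nat_lit 78) (nat_lit 380) (nat_lit 0) (XT.lf (nat_lit 0) (nat_lit 2706612733) (nat_lit 456) (nat_lit 13736446524) (nat_lit 76) (nat_lit 6033321513) (nat_lit 145) (nat_lit 5) (nat_lit 151) (nat_lit 5) (nat_lit 146) (nat_lit 5) (nat_lit 417) (nat_lit 373) (nat_lit 230)) (XT.nd (nat_lit 78) (nat_lit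 380) (nat_lit 0) (XT.lf (nat_lit 0) (nat_lit 6832985182) (nat_lit 456) (nat_lit 1247914411) (nat_lit 76) (nat_lit 14803485452) (nat_lit 145) (nat_lit 5) (nat_lit 151) (nat_lit 5) (nat_lit 146) (nat_lit 5) (nat_lit 418) (nat_lit 373) (nat_lit 229)) (XT.lf (nat_lit 0) (nat_lit 11195643914) (nat_lit 456) (nat_lit 11471589008) (nat_lit 76) (nat_lit 634023878) (nat_lit 140) (nat_lit 5) (nat_lit 146) (nat_lit 5) (nat_lit 141) (nat_lit 5) (nat_lit 419) (nat_lit 373) (nat_lit 228)))) (XT.nd (nat_lit 156) (nat_lit 456) (nat_lit 0) (XT.nd (nat_lit 78) (nat_lit 0) (nat_lit 0) (XT.lf (nat_lit 0) (nat_lit 1534445054) (nat_lit 304) (nat_lit 14254821854) (nat_lit 380) (nat_lit 7938367405) (nat_lit 136) (nat_lit 5) (nat_lit 140) (nat_lit 5) (nat_lit 141) (nat_lit 5) (nat_lit 420) (nat_lit 373) (nat_lit 227)) (XT.lf (nat_lit 0) (nat_lit 15155651466) (nat_lit 304) (nat_lit 5473604834) (nat_lit 380) (nat_lit 3534292197) (nat_lit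 136) (nat_lit 5) (nat_lit 140) (nat_lit 5) (nat_lit 141) (nat_lit 5) (nat_lit 421) (nat_lit 373) (nat_lit 226))) (XT.nd (nat_lit 78) (nat_lit 0) (nat_lit 0) (XT.lf (nat_lit 0) (nat_lit 1054688922) (nat_lit 456) (nat_lit 20002035276) (nat_lit 76) (nat_lit 3553358907) (nat_lit 130) (nat_lit 5) (nat_lit 136) (nat_lit 5) (nat_lit 131) (nat_lit 5) (nat_lit 422) (nat_lit 373) (nat_lit 225)) (XT.lf (nat_lit 0) (nat_lit 5849302812) (nat_lit 456) (nat_lit 6350348456) (nat_lit 76) (nat_lit 12865144623) (nat_lit 130) (nat_lit 5) (nat_lit 136) (nat_lit 5) (nat_lit 131) (nat_lit 5) (nat_lit 423) (nat_lit 373) (nat_lit 224))))) (XT.nd (nat_lit 234) (nat_lit 684) (nat_lit 0) (XT.nd (nat_lit 78) (nat_lit 304) (nat_lit 0) (XT.lf (nat_lit 0) (nat_lit 7854349849) (nat_lit 304) (nat_lit 3002053940) (nat_lit 380) (nat_lit 14674688657) (nat_lit 126) (nat_lit 5) (nat_lit 130) (nat_lit 5) (nat_lit 131) (nat_lit 5) (nat_lit 424) (nat_lit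 373) (nat_lit 223)) (XT.nd (nat_lit 78) (nat_lit 304) (nat_lit 0) (XT.lf (nat_lit 0) (nat_lit 16133912125) (nat_lit 380) (nat_lit 3466817067) (nat_lit 76) (nat_lit 6407044669) (nat_lit 126) (nat_lit 5) (nat_lit 131) (nat_lit 5) (nat_lit 127) (nat_lit 5) (nat_lit 425) (nat_lit 373) (nat_lit 222)) (XT.lf (nat_lit 0) (nat_lit 11351596050) (nat_lit 304) (nat_lit 10350414372) (nat_lit 380) (nat_lit 4792779096) (nat_lit 122) (nat_lit 5) (nat_lit 126) (nat_lit 5) (nat_lit 127) (nat_lit 5) (nat_lit 426) (nat_lit 373) (nat_lit 221)))) (XT.nd (nat_lit 156) (nat_lit 304) (nat_lit 0) (XT.nd (nat_lit 78) (nat_lit 304) (nat_lit 0) (XT.lf (nat_lit 0) (nat_lit 460947696) (nat_lit 380) (nat_lit 323955886) (nat_lit 76) (nat_lit 26210522243) (nat_lit 121) (nat_lit 5) (nat_lit 126) (nat_lit 5) (nat_lit 122) (nat_lit 5) (nat_lit 427) (nat_lit 373) (nat_lit 220)) (XT.lf (nat_lit 0) (nat_lit 6004565058) (nat_lit 380) (nat_lit 12415268175)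 (nat_lit 76) (nat_lit 9082967716) (nat_lit 117) (nat_lit 5) (nat_lit 122) (nat_lit 5) (nat_lit 118) (nat_lit 5) (nat_lit 428) (nat_lit 373) (nat_lit 219))) (XT.nd (nat_lit 78) (nat_lit 0) (nat_lit 0) (XT.lf (nat_lit 0) (nat_lit 2983703639) (nat_lit 304) (nat_lit 8764258501) (nat_lit 380) (nat_lit 16276432599) (nat_lit 113) (nat_lit 5) (nat_lit 117) (nat_lit 5) (nat_lit 118) (nat_lit 5) (nat_lit 429) (nat_lit 373) (nat_lit 218)) (XT.lf (nat_lit 0) (nat_lit 17795402796) (nat_lit 380) (nat_lit 9480811264) (nat_lit 76) (nat_lit 1281471535) (nat_lit 113) (nat_lit 5) (nat_lit 118) (nat_lit 5) (nat_lit 114) (nat_lit 5) (nat_lit 430) (nat_lit 373) (nat_lit 217)))))) (XT.nd (nat_lit 546) (nat_lit 988) (nat_lit 0) (XT.nd (nat_lit 234) (nat_lit 532) (nat_lit 0) (XT.nd (nat_lit 78) (nat_lit 380) (nat_lit 0) (XT.lf (nat_lit 0) (nat_lit 6578243876) (nat_lit 228) (nat_lit 17589991126) (nat_lit 304) (nat_lit 4934422579) (nat_lit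 110) (nat_lit 5) (nat_lit 113) (nat_lit 5) (nat_lit 114) (nat_lit 5) (nat_lit 431) (nat_lit 373) (nat_lit 216)) (XT.nd (nat_lit 78) (nat_lit 304) (nat_lit 0) (XT.lf (nat_lit 0) (nat_lit 1138100417) (nat_lit 304) (nat_lit 6368147604) (nat_lit 76) (nat_lit 22154703830) (nat_lit 109) (nat_lit 5) (nat_lit 113) (nat_lit 5) (nat_lit 110) (nat_lit 5) (nat_lit 432) (nat_lit 373) (nat_lit 215)) (XT.lf (nat_lit 0) (nat_lit 7417060920) (nat_lit 380) (nat_lit 19842554985) (nat_lit 76) (nat_lit 2971211542) (nat_lit 105) (nat_lit 5) (nat_lit 110) (nat_lit 5) (nat_lit 106) (nat_lit 5) (nat_lit 433) (nat_lit 373) (nat_lit 214)))) (XT.nd (nat_lit 156) (nat_lit 304) (nat_lit 0) (XT.nd (nat_lit 78) (nat_lit 228) (nat_lit 0) (XT.lf (nat_lit 0) (nat_lit 14017868988) (nat_lit 380) (nat_lit 3121929030) (nat_lit 76) (nat_lit 13673998226) (nat_lit 105) (nat_lit 5) (nat_lit 110) (nat_lit 5) (nat_lit 106) (nat_lit 5) (nat_lit 434) (nat_lit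 373) (nat_lit 213)) (XT.lf (nat_lit 0) (nat_lit 14371999322) (nat_lit 228) (nat_lit 6577239830) (nat_lit 304) (nat_lit 10461040074) (nat_lit 102) (nat_lit 5) (nat_lit 105) (nat_lit 5) (nat_lit 106) (nat_lit 5) (nat_lit 435) (nat_lit 373) (nat_lit 212))) (XT.nd (nat_lit 78) (nat_lit 76) (nat_lit 0) (XT.lf (nat_lit 0) (nat_lit 388120299) (nat_lit 228) (nat_lit 27771789062) (nat_lit 304) (nat_lit 3862607790) (nat_lit 99) (nat_lit 5) (nat_lit 102) (nat_lit 5) (nat_lit 103) (nat_lit 5) (nat_lit 436) (nat_lit 373) (nat_lit 211)) (XT.lf (nat_lit 0) (nat_lit 3109864737) (nat_lit 304) (nat_lit 14065247961) (nat_lit 76) (nat_lit 15470164552) (nat_lit 98) (nat_lit 5) (nat_lit 102) (nat_lit 5) (nat_lit 99) (nat_lit 5) (nat_lit 437) (nat_lit 373) (nat_lit 210))))) (XT.nd (nat_lit 312) (nat_lit 532) (nat_lit 0) (XT.nd (nat_lit 156) (nat_lit 228) (nat_lit 0) (XT.nd (nat_lit 78) (nat_lit 0) (nat_lit 0) (XT.lf (nat_lit 0) (nat_lit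 4063439689) (nat_lit 228) (nat_lit 6184116783) (nat_lit 304) (nat_lit 23037007101) (nat_lit 95) (nat_lit 5) (nat_lit 98) (nat_lit 5) (nat_lit 99) (nat_lit 5) (nat_lit 438) (nat_lit 373) (nat_lit 209)) (XT.lf (nat_lit 0) (nat_lit 17786856521) (nat_lit 304) (nat_lit 10973868052) (nat_lit 76) (nat_lit 5176680669) (nat_lit 95) (nat_lit 5) (nat_lit 99) (nat_lit 5) (nat_lit 96) (nat_lit 5) (nat_lit 439) (nat_lit 373) (nat_lit 208))) (XT.nd (nat_lit 78) (nat_lit 0) (nat_lit 0) (XT.lf (nat_lit 0) (nat_lit 7905462177) (nat_lit 228) (nat_lit 17778913495) (nat_lit 304) (nat_lit 8921496339) (nat_lit 92) (nat_lit 5) (nat_lit 95) (nat_lit 5) (nat_lit 96) (nat_lit 5) (nat_lit 440) (nat_lit 373) (nat_lit 207)) (XT.lf (nat_lit 0) (nat_lit 27567829551) (nat_lit 228) (nat_lit 6356695631) (nat_lit 304) (nat_lit 1366697480) (nat_lit 92) (nat_lit 5) (nat_lit 95) (nat_lit 5) (nat_lit 96) (nat_lit 5) (nat_lit 441) (nat_lit 373) (nat_lit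 206)))) (XT.nd (nat_lit 156) (nat_lit 228) (nat_lit 0) (XT.nd (nat_lit 78) (nat_lit 0) (nat_lit 0) (XT.lf (nat_lit 0) (nat_lit 6453494131) (nat_lit 304) (nat_lit 24058660062) (nat_lit 76) (nat_lit 5478213023) (nat_lit 88) (nat_lit 5) (nat_lit 92) (nat_lit 5) (nat_lit 89) (nat_lit 5) (nat_lit 442) (nat_lit 373) (nat_lit 205)) (XT.lf (nat_lit 0) (nat_lit 14617550305) (nat_lit 304) (nat_lit 4458799885) (nat_lit 76) (nat_lit 17629629058) (nat_lit 88) (nat_lit 5) (nat_lit 92) (nat_lit 5) (nat_lit 89) (nat_lit 5) (nat_lit 443) (nat_lit 373) (nat_lit 204))) (XT.nd (nat_lit 78) (nat_lit 0) (nat_lit 0) (XT.lf (nat_lit 0) (nat_lit 16033980991) (nat_lit 228) (nat_lit 7141847632) (nat_lit 304) (nat_lit 14262752915) (nat_lit 85) (nat_lit 5) (nat_lit 88) (nat_lit 5) (nat_lit 89) (nat_lit 5) (nat_lit 444) (nat_lit 373) (nat_lit 203)) (XT.lf (nat_lit 0) (nat_lit 32081044781) (nat_lit 304) (nat_lit 1016813859) (nat_lit 76) (nat_lit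 5092598452) (nat_lit 85) (nat_lit 5) (nat_lit 89) (nat_lit 5) (nat_lit 86) (nat_lit 5) (nat_lit 445) (nat_lit 373) (nat_lit 202))))))))
noncomputable def xc178 : XT := (XT.nd (nat_lit 2184) (nat_lit 760) (nat_lit 0) (XT.nd (nat_lit 1092) (nat_lit 1216) (nat_lit 0) (XT.nd (nat_lit 546) (nat_lit 684) (nat_lit 0) (XT.nd (nat_lit 234) (nat_lit 456) (nat_lit 0) (XT.nd (nat_lit 78) (nat_lit 228) (nat_lit 0) (XT.lf (nat_lit 0) (nat_lit 2507652872) (nat_lit 228) (nat_lit 18681371197) (nat_lit 76) (nat_lit 17767292260) (nat_lit 82) (nat_lit 5) (nat_lit 85) (nat_lit 5) (nat_lit 83) (nat_lit 5) (nat_lit 446) (nat_lit 373) (nat_lit 201)) (XT.nd (nat_lit 78) (nat_lit 0) (nat_lit 0) (XT.lf (nat_lit 0) (nat_lit 2461115673) (nat_lit 228) (nat_lit 8828710424) (nat_lit 304) (nat_lit 28452629700) (nat_lit 79) (nat_lit 5) (nat_lit 82) (nat_lit 5) (nat_lit 83) (nat_lit 5) (nat_lit 447) (nat_lit 373) (nat_lit 200)) (XT.lf (nat_lit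 0) (nat_lit 20558882932) (nat_lit 304) (nat_lit 15972881078) (nat_lit 76) (nat_lit 4013713668) (nat_lit 79) (nat_lit 5) (nat_lit 83) (nat_lit 5) (nat_lit 80) (nat_lit 5) (nat_lit 448) (nat_lit 373) (nat_lit 199)))) (XT.nd (nat_lit 156) (nat_lit 304) (nat_lit 0) (XT.nd (nat_lit 78) (nat_lit 0) (nat_lit 0) (XT.lf (nat_lit 0) (nat_lit 5996858710) (nat_lit 152) (nat_lit 24249738436) (nat_lit 228) (nat_lit 11121776261) (nat_lit 77) (nat_lit 5) (nat_lit 79) (nat_lit 5) (nat_lit 80) (nat_lit 5) (nat_lit 449) (nat_lit 373) (nat_lit 198)) (XT.lf (nat_lit 0) (nat_lit 28945613045) (nat_lit 152) (nat_lit 11436209870) (nat_lit 228) (nat_lit 1829427428) (nat_lit 77) (nat_lit 5) (nat_lit 79) (nat_lit 5) (nat_lit 80) (nat_lit 5) (nat_lit 450) (nat_lit 373) (nat_lit 197))) (XT.nd (nat_lit 78) (nat_lit 0) (nat_lit 0) (XT.lf (nat_lit 0) (nat_lit 7697220088) (nat_lit 304) (nat_lit 33483964358) (nat_lit 76) (nat_lit 1892799406)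 (nat_lit 73) (nat_lit 5) (nat_lit 77) (nat_lit 5) (nat_lit 74) (nat_lit 5) (nat_lit 451) (nat_lit 373) (nat_lit 196)) (XT.lf (nat_lit 0) (nat_lit 17717107963) (nat_lit 304) (nat_lit 10695373104) (nat_lit 76) (nat_lit 15542249261) (nat_lit 73) (nat_lit 5) (nat_lit 77) (nat_lit 5) (nat_lit 74) (nat_lit 5) (nat_lit 452) (nat_lit 373) (nat_lit 195))))) (XT.nd (nat_lit 234) (nat_lit 304) (nat_lit 0) (XT.nd (nat_lit 78) (nat_lit 228) (nat_lit 0) (XT.lf (nat_lit 0) (nat_lit 13023831588) (nat_lit 152) (nat_lit 15134776815) (nat_lit 228) (nat_lit 16699660975) (nat_lit 71) (nat_lit 5) (nat_lit 73) (nat_lit 5) (nat_lit 74) (nat_lit 5) (nat_lit 453) (nat_lit 373) (nat_lit 194)) (XT.nd (nat_lit 78) (nat_lit 228) (nat_lit 0) (XT.lf (nat_lit 0) (nat_lit 37666741374) (nat_lit 152) (nat_lit 1350490935) (nat_lit 228) (nat_lit 6768566574) (nat_lit 71) (nat_lit 5) (nat_lit 73) (nat_lit 5) (nat_lit 74) (nat_lit 5) (nat_lit 454)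 (nat_lit 373) (nat_lit 193)) (XT.lf (nat_lit 0) (nat_lit 3673752652) (nat_lit 228) (nat_lit 30269583803) (nat_lit 76) (nat_lit 12788395955) (nat_lit 68) (nat_lit 5) (nat_lit 71) (nat_lit 5) (nat_lit 69) (nat_lit 5) (nat_lit 455) (nat_lit 373) (nat_lit 192)))) (XT.nd (nat_lit 156) (nat_lit 152) (nat_lit 0) (XT.nd (nat_lit 78) (nat_lit 152) (nat_lit 0) (XT.lf (nat_lit 0) (nat_lit 14385448603) (nat_lit 228) (nat_lit 5844572407) (nat_lit 76) (nat_lit 27471248590) (nat_lit 68) (nat_lit 5) (nat_lit 71) (nat_lit 5) (nat_lit 69) (nat_lit 5) (nat_lit 456) (nat_lit 373) (nat_lit 191)) (XT.lf (nat_lit 0) (nat_lit 19690615193) (nat_lit 152) (nat_lit 5913254720) (nat_lit 228) (nat_lit 23090462326) (nat_lit 66) (nat_lit 5) (nat_lit 68) (nat_lit 5) (nat_lit 69) (nat_lit 5) (nat_lit 457) (nat_lit 373) (nat_lit 190))) (XT.nd (nat_lit 78) (nat_lit 152) (nat_lit 0) (XT.lf (nat_lit 0) (nat_lit 37299472645) (nat_lit 228) (nat_lit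 3696073102) (nat_lit 76) (nat_lit 8717422696) (nat_lit 66) (nat_lit 5) (nat_lit 69) (nat_lit 5) (nat_lit 67) (nat_lit 5) (nat_lit 458) (nat_lit 373) (nat_lit 189)) (XT.lf (nat_lit 0) (nat_lit 22749546988) (nat_lit 152) (nat_lit 26869856573) (nat_lit 228) (nat_lit 1134556903) (nat_lit 64) (nat_lit 5) (nat_lit 66) (nat_lit 5) (nat_lit 67) (nat_lit 5) (nat_lit 459) (nat_lit 373) (nat_lit 188)))))) (XT.nd (nat_lit 546) (nat_lit 456) (nat_lit 0) (XT.nd (nat_lit 234) (nat_lit 532) (nat_lit 0) (XT.nd (nat_lit 78) (nat_lit 152) (nat_lit 0) (XT.lf (nat_lit 0) (nat_lit 10312126337) (nat_lit 228) (nat_lit 1868539159) (nat_lit 76) (nat_lit 39641476281) (nat_lit 63) (nat_lit 5) (nat_lit 66) (nat_lit 5) (nat_lit 64) (nat_lit 5) (nat_lit 460) (nat_lit 373) (nat_lit 187)) (XT.nd (nat_lit 78) (nat_lit 0) (nat_lit 0) (XT.lf (nat_lit 0) (nat_lit 22352048453) (nat_lit 228) (nat_lit 27413692631) (nat_lit 76) (nat_lit 3148111682)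 (nat_lit 61) (nat_lit 5) (nat_lit 64) (nat_lit 5) (nat_lit 62) (nat_lit 5) (nat_lit 461) (nat_lit 373) (nat_lit 186)) (XT.lf (nat_lit 0) (nat_lit 34889191800) (nat_lit 228) (nat_lit 436780133) (nat_lit 76) (nat_lit 18708262920) (nat_lit 61) (nat_lit 5) (nat_lit 64) (nat_lit 5) (nat_lit 62) (nat_lit 5) (nat_lit 462) (nat_lit 373) (nat_lit 185)))) (XT.nd (nat_lit 156) (nat_lit 152) (nat_lit 0) (XT.nd (nat_lit 78) (nat_lit 228) (nat_lit 0) (XT.lf (nat_lit 0) (nat_lit 27887343352) (nat_lit 152) (nat_lit 20179649618) (nat_lit 228) (nat_lit 7113299586) (nat_lit 59) (nat_lit 5) (nat_lit 61) (nat_lit 5) (nat_lit 62) (nat_lit 5) (nat_lit 463) (nat_lit 373) (nat_lit 184)) (XT.lf (nat_lit 0) (nat_lit 665449488) (nat_lit 152) (nat_lit 4518259004) (nat_lit 228) (nat_lit 51175281498) (nat_lit 56) (nat_lit 5) (nat_lit 58) (nat_lit 5) (nat_lit 59) (nat_lit 5) (nat_lit 464) (nat_lit 373) (nat_lit 183))) (XT.nd (nat_lit 78) (nat_lit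 152) (nat_lit 0) (XT.lf (nat_lit 0) (nat_lit 18093119118) (nat_lit 228) (nat_lit 27733794251) (nat_lit 76) (nat_lit 11732428660) (nat_lit 56) (nat_lit 5) (nat_lit 59) (nat_lit 5) (nat_lit 57) (nat_lit 5) (nat_lit 465) (nat_lit 373) (nat_lit 182)) (XT.lf (nat_lit 0) (nat_lit 1034066711) (nat_lit 152) (nat_lit 30407020227) (nat_lit 228) (nat_lit 27353079855) (nat_lit 54) (nat_lit 5) (nat_lit 56) (nat_lit 5) (nat_lit 57) (nat_lit 5) (nat_lit 466) (nat_lit 373) (nat_lit 181))))) (XT.nd (nat_lit 234) (nat_lit 304) (nat_lit 0) (XT.nd (nat_lit 78) (nat_lit 152) (nat_lit 0) (XT.lf (nat_lit 0) (nat_lit 31227418300) (nat_lit 152) (nat_lit 14238772772) (nat_lit 228) (nat_lit 14591544706) (nat_lit 54) (nat_lit 5) (nat_lit 56) (nat_lit 5) (nat_lit 57) (nat_lit 5) (nat_lit 467) (nat_lit 373) (nat_lit 180)) (XT.nd (nat_lit 78) (nat_lit 76) (nat_lit 0) (XT.lf (nat_lit 0) (nat_lit 956863290) (nat_lit 76) (nat_lit 58984305842)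 (nat_lit 152) (nat_lit 1417169461) (nat_lit 53) (nat_lit 5) (nat_lit 54) (nat_lit 5) (nat_lit 55) (nat_lit 4) (nat_lit 468) (nat_lit 373) (nat_lit 179)) (XT.lf (nat_lit 0) (nat_lit 12347008811) (nat_lit 152) (nat_lit 30727214503) (nat_lit 76) (nat_lit 19607280756) (nat_lit 52) (nat_lit 5) (nat_lit 54) (nat_lit 5) (nat_lit 53) (nat_lit 5) (nat_lit 469) (nat_lit 373) (nat_lit 178)))) (XT.nd (nat_lit 156) (nat_lit 152) (nat_lit 0) (XT.nd (nat_lit 78) (nat_lit 152) (nat_lit 0) (XT.lf (nat_lit 0) (nat_lit 26492443771) (nat_lit 152) (nat_lit 182548079) (nat_lit 76) (nat_lit 37369047620) (nat_lit 52) (nat_lit 5) (nat_lit 54) (nat_lit 5) (nat_lit 53) (nat_lit 5) (nat_lit 470) (nat_lit 373) (nat_lit 177)) (XT.lf (nat_lit 0) (nat_lit 31895226939) (nat_lit 152) (nat_lit 9470519081) (nat_lit 228) (nat_lit 24072600128) (nat_lit 50) (nat_lit 5) (nat_lit 52) (nat_lit 5) (nat_lit 53) (nat_lit 5) (nat_lit 471) (nat_lit 373)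 (nat_lit 176))) (XT.nd (nat_lit 78) (nat_lit 152) (nat_lit 0) (XT.lf (nat_lit 0) (nat_lit 56763334074) (nat_lit 228) (nat_lit 2020307500) (nat_lit 76) (nat_lit 8088498182) (nat_lit 50) (nat_lit 5) (nat_lit 53) (nat_lit 5) (nat_lit 51) (nat_lit 4) (nat_lit 472) (nat_lit 373) (nat_lit 175)) (XT.lf (nat_lit 0) (nat_lit 4582663921) (nat_lit 152) (nat_lit 37429272202) (nat_lit 76) (nat_lit 26324014045) (nat_lit 48) (nat_lit 5) (nat_lit 50) (nat_lit 5) (nat_lit 49) (nat_lit 5) (nat_lit 473) (nat_lit 373) (nat_lit 174))))))) (XT.nd (nat_lit 45552) (nat_lit 0) (nat_lit 16264) (XT.nd (nat_lit 546) (nat_lit 304) (nat_lit 0) (XT.nd (nat_lit 234) (nat_lit 304) (nat_lit 0) (XT.nd (nat_lit 78) (nat_lit 152) (nat_lit 0) (XT.lf (nat_lit 0) (nat_lit 19529319135) (nat_lit 152) (nat_lit 5085941557) (nat_lit 76) (nat_lit 45224883334) (nat_lit 48) (nat_lit 5) (nat_lit 50) (nat_lit 5) (nat_lit 49) (nat_lit 5) (nat_lit 474) (nat_lit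 373) (nat_lit 173)) (XT.nd (nat_lit 78) (nat_lit 0) (nat_lit 0) (XT.lf (nat_lit 0) (nat_lit 28784052217) (nat_lit 152) (nat_lit 6414114008) (nat_lit 228) (nat_lit 36183084005) (nat_lit 46) (nat_lit 5) (nat_lit 48) (nat_lit 5) (nat_lit 49) (nat_lit 5) (nat_lit 475) (nat_lit 373) (nat_lit 172)) (XT.lf (nat_lit 0) (nat_lit 51504611252) (nat_lit 228) (nat_lit 9317036053) (nat_lit 76) (nat_lit 12141916624) (nat_lit 46) (nat_lit 5) (nat_lit 49) (nat_lit 5) (nat_lit 47) (nat_lit 4) (nat_lit 476) (nat_lit 373) (nat_lit 171)))) (XT.nd (nat_lit 156) (nat_lit 152) (nat_lit 0) (XT.nd (nat_lit 78) (nat_lit 76) (nat_lit 0) (XT.lf (nat_lit 0) (nat_lit 25388268120) (nat_lit 76) (nat_lit 43216732245) (nat_lit 152) (nat_lit 5979204432) (nat_lit 45) (nat_lit 5) (nat_lit 46) (nat_lit 5) (nat_lit 47) (nat_lit 4) (nat_lit 477) (nat_lit 373) (nat_lit 170)) (XT.lf (nat_lit 0) (nat_lit 9862701575) (nat_lit 152) (nat_lit 15026819796)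 (nat_lit 76) (nat_lit 51358303596) (nat_lit 44) (nat_lit 5) (nat_lit 46) (nat_lit 5) (nat_lit 45) (nat_lit 5) (nat_lit 478) (nat_lit 373) (nat_lit 169))) (XT.nd (nat_lit 78) (nat_lit 0) (nat_lit 0) (XT.lf (nat_lit 0) (nat_lit 20503234981) (nat_lit 152) (nat_lit 5750826627) (nat_lit 228) (nat_lit 51699685200) (nat_lit 42) (nat_lit 5) (nat_lit 44) (nat_lit 5) (nat_lit 45) (nat_lit 5) (nat_lit 479) (nat_lit 373) (nat_lit 168)) (XT.lf (nat_lit 0) (nat_lit 43421910342) (nat_lit 228) (nat_lit 22439818553) (nat_lit 76) (nat_lit 13840575221) (nat_lit 42) (nat_lit 5) (nat_lit 45) (nat_lit 5) (nat_lit 43) (nat_lit 4) (nat_lit 480) (nat_lit 373) (nat_lit 167))))) (XT.nd (nat_lit 234) (nat_lit 0) (nat_lit 0) (XT.nd (nat_lit 78) (nat_lit 228) (nat_lit 0) (XT.lf (nat_lit 0) (nat_lit 13829224317) (nat_lit 76) (nat_lit 47462815450) (nat_lit 152) (nat_lit 20205661258) (nat_lit 41) (nat_lit 5) (nat_lit 42) (nat_lit 5) (nat_lit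 43) (nat_lit 4) (nat_lit 481) (nat_lit 373) (nat_lit 166)) (XT.nd (nat_lit 78) (nat_lit 228) (nat_lit 0) (XT.lf (nat_lit 0) (nat_lit 51641490396) (nat_lit 76) (nat_lit 28280782248) (nat_lit 152) (nat_lit 3417967443) (nat_lit 41) (nat_lit 5) (nat_lit 42) (nat_lit 5) (nat_lit 43) (nat_lit 4) (nat_lit 482) (nat_lit 373) (nat_lit 165)) (XT.lf (nat_lit 0) (nat_lit 5315685864) (nat_lit 152) (nat_lit 8335501664) (nat_lit 228) (nat_lit 71581410752) (nat_lit 38) (nat_lit 5) (nat_lit 40) (nat_lit 5) (nat_lit 41) (nat_lit 5) (nat_lit 483) (nat_lit 373) (nat_lit 164)))) (XT.nd (nat_lit 44616) (nat_lit 0) (nat_lit 17100) (XT.nd (nat_lit 44538) (nat_lit 0) (nat_lit 17100) (XT.lf (nat_lit 0) (nat_lit 31601795804) (nat_lit 228) (nat_lit 43240899619) (nat_lit 76) (nat_lit 12324874479) (nat_lit 38) (nat_lit 5) (nat_lit 41) (nat_lit 5) (nat_lit 39) (nat_lit 4) (nat_lit 484) (nat_lit 373) (nat_lit 163)) (XT.lf (nat_lit 0) (nat_lit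 503509657) (nat_lit 0) (nat_lit 503509657) (nat_lit 1140) (nat_lit 4730868691) (nat_lit 263) (nat_lit 5) (nat_lit 263) (nat_lit 3) (nat_lit 278) (nat_lit 3) (nat_lit 374) (nat_lit 374) (nat_lit 272))) (XT.nd (nat_lit 78) (nat_lit 0) (nat_lit 0) (XT.lf (nat_lit 0) (nat_lit 2599880614) (nat_lit 1140) (nat_lit 4968666633) (nat_lit 1216) (nat_lit 4062469822) (nat_lit 263) (nat_lit 5) (nat_lit 278) (nat_lit 3) (nat_lit 279) (nat_lit 5) (nat_lit 375) (nat_lit 374) (nat_lit 271)) (XT.lf (nat_lit 76) (nat_lit 689128332) (nat_lit 0) (nat_lit 2510730730) (nat_lit 1216) (nat_lit 8591168306) (nat_lit 264) (nat_lit 5) (nat_lit 263) (nat_lit 5) (nat_lit 279) (nat_lit 5) (nat_lit 376) (nat_lit 374) (nat_lit 270)))))) (XT.nd (nat_lit 546) (nat_lit 912) (nat_lit 0) (XT.nd (nat_lit 234) (nat_lit 0) (nat_lit 76) (XT.nd (nat_lit 78) (nat_lit 0) (nat_lit 0) (XT.lf (nat_lit 0) (nat_lit 3874982870) (nat_lit 1140) (nat_lit 5373611917)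 (nat_lit 1216) (nat_lit 2705537395) (nat_lit 264) (nat_lit 5) (nat_lit 279) (nat_lit 5) (nat_lit 280) (nat_lit 5) (nat_lit 377) (nat_lit 374) (nat_lit 269)) (XT.nd (nat_lit 78) (nat_lit 0) (nat_lit 76) (XT.lf (nat_lit 76) (nat_lit 500410868) (nat_lit 0) (nat_lit 4080718241) (nat_lit 1216) (nat_lit 7540686309) (nat_lit 265) (nat_lit 5) (nat_lit 264) (nat_lit 5) (nat_lit 280) (nat_lit 5) (nat_lit 378) (nat_lit 374) (nat_lit 268)) (XT.lf (nat_lit 0) (nat_lit 5356818535) (nat_lit 1140) (nat_lit 5656116402) (nat_lit 1216) (nat_lit 1280151542) (nat_lit 265) (nat_lit 5) (nat_lit 280) (nat_lit 5) (nat_lit 281) (nat_lit 5) (nat_lit 379) (nat_lit 374) (nat_lit 267)))) (XT.nd (nat_lit 156) (nat_lit 0) (nat_lit 76) (XT.nd (nat_lit 78) (nat_lit 0) (nat_lit 0) (XT.lf (nat_lit 76) (nat_lit 445205814) (nat_lit 0) (nat_lit 5737408838) (nat_lit 1216) (nat_lit 6286083800) (nat_lit 266) (nat_lit 5) (nat_lit 265) (nat_lit 5) (nat_lit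 281) (nat_lit 5) (nat_lit 380) (nat_lit 374) (nat_lit 266)) (XT.lf (nat_lit 76) (nat_lit 6834413438) (nat_lit 0) (nat_lit 238453284) (nat_lit 1216) (nat_lit 5575529230) (nat_lit 266) (nat_lit 5) (nat_lit 265) (nat_lit 5) (nat_lit 281) (nat_lit 5) (nat_lit 381) (nat_lit 374) (nat_lit 265))) (XT.nd (nat_lit 78) (nat_lit 0) (nat_lit 0) (XT.lf (nat_lit 76) (nat_lit 528625222) (nat_lit 0) (nat_lit 7501568823) (nat_lit 1216) (nat_lit 4802086709) (nat_lit 267) (nat_lit 5) (nat_lit 266) (nat_lit 5) (nat_lit 282) (nat_lit 5) (nat_lit 382) (nat_lit 374) (nat_lit 264)) (XT.lf (nat_lit 76) (nat_lit 7167045372) (nat_lit 0) (nat_lit 1893759922) (nat_lit 1216) (nat_lit 3959547074) (nat_lit 267) (nat_lit 5) (nat_lit 266) (nat_lit 5) (nat_lit 282) (nat_lit 5) (nat_lit 383) (nat_lit 374) (nat_lit 263))))) (XT.nd (nat_lit 312) (nat_lit 0) (nat_lit 76) (XT.nd (nat_lit 156) (nat_lit 1140) (nat_lit 0) (XT.nd (nat_lit 78) (nat_lit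 0) (nat_lit 0) (XT.lf (nat_lit 76) (nat_lit 756548563) (nat_lit 0) (nat_lit 9394423161) (nat_lit 1216) (nat_lit 3062242285) (nat_lit 268) (nat_lit 5) (nat_lit 267) (nat_lit 5) (nat_lit 283) (nat_lit 5) (nat_lit 384) (nat_lit 374) (nat_lit 262)) (XT.lf (nat_lit 76) (nat_lit 7654228277) (nat_lit 0) (nat_lit 3681689351) (nat_lit 1216) (nat_lit 2074088415) (nat_lit 268) (nat_lit 5) (nat_lit 267) (nat_lit 5) (nat_lit 283) (nat_lit 5) (nat_lit 385) (nat_lit 374) (nat_lit 261))) (XT.nd (nat_lit 78) (nat_lit 1216) (nat_lit 0) (XT.lf (nat_lit 76) (nat_lit 1135619650) (nat_lit 0) (nat_lit 11437775005) (nat_lit 1216) (nat_lit 1038804282) (nat_lit 269) (nat_lit 5) (nat_lit 268) (nat_lit 5) (nat_lit 284) (nat_lit 5) (nat_lit 386) (nat_lit 374) (nat_lit 260)) (XT.lf (nat_lit 0) (nat_lit 107224190) (nat_lit 1216) (nat_lit 5515956042) (nat_lit 1292) (nat_lit 8194868952) (nat_lit 252) (nat_lit 5) (nat_lit 268) (nat_lit 5) (nat_lit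 269) (nat_lit 5) (nat_lit 387) (nat_lit 374) (nat_lit 259)))) (XT.nd (nat_lit 156) (nat_lit 0) (nat_lit 0) (XT.nd (nat_lit 78) (nat_lit 0) (nat_lit 0) (XT.lf (nat_lit 0) (nat_lit 1272068282) (nat_lit 1216) (nat_lit 12369212422) (nat_lit 1292) (nat_lit 388332292) (nat_lit 253) (nat_lit 5) (nat_lit 269) (nat_lit 5) (nat_lit 270) (nat_lit 5) (nat_lit 388) (nat_lit 374) (nat_lit 258)) (XT.lf (nat_lit 0) (nat_lit 2569634828) (nat_lit 1216) (nat_lit 5148663383) (nat_lit 1292) (nat_lit 6526298045) (nat_lit 253) (nat_lit 5) (nat_lit 269) (nat_lit 5) (nat_lit 270) (nat_lit 5) (nat_lit 389) (nat_lit 374) (nat_lit 257))) (XT.nd (nat_lit 78) (nat_lit 0) (nat_lit 76) (XT.lf (nat_lit 76) (nat_lit 2322458837) (nat_lit 0) (nat_lit 1592256806) (nat_lit 1292) (nat_lit 10551061429) (nat_lit 254) (nat_lit 5) (nat_lit 253) (nat_lit 5) (nat_lit 270) (nat_lit 5) (nat_lit 390) (nat_lit 374) (nat_lit 256)) (XT.lf (nat_lit 0) (nat_lit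 5384578624) (nat_lit 1216) (nat_lit 4626320591) (nat_lit 76) (nat_lit 4680166717) (nat_lit 254) (nat_lit 5) (nat_lit 270) (nat_lit 5) (nat_lit 255) (nat_lit 5) (nat_lit 391) (nat_lit 374) (nat_lit 255))))))))
noncomputable def xc179 : XT := (XT.nd (nat_lit 2184) (nat_lit 5016) (nat_lit 0) (XT.nd (nat_lit 1092) (nat_lit 3040) (nat_lit 0) (XT.nd (nat_lit 546) (nat_lit 2128) (nat_lit 0) (XT.nd (nat_lit 234) (nat_lit 1292) (nat_lit 0) (XT.nd (nat_lit 78) (nat_lit 608) (nat_lit 0) (XT.lf (nat_lit 0) (nat_lit 3150559663) (nat_lit 1216) (nat_lit 3780994303) (nat_lit 1292) (nat_lit 7990574349) (nat_lit 238) (nat_lit 5) (nat_lit 254) (nat_lit 5) (nat_lit 255) (nat_lit 5) (nat_lit 392) (nat_lit 374) (nat_lit 254)) (XT.nd (nat_lit 78) (nat_lit 608) (nat_lit 0) (XT.lf (nat_lit 0) (nat_lit 8584707717) (nat_lit 1292) (nat_lit 3940572000) (nat_lit 76) (nat_lit 2633054975) (nat_lit 238) (nat_lit 5) (nat_lit 255) (nat_lit 5)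 (nat_lit 239) (nat_lit 5) (nat_lit 393) (nat_lit 374) (nat_lit 253)) (XT.lf (nat_lit 0) (nat_lit 4157757859) (nat_lit 608) (nat_lit 6194724838) (nat_lit 684) (nat_lit 5047198810) (nat_lit 230) (nat_lit 5) (nat_lit 238) (nat_lit 5) (nat_lit 239) (nat_lit 5) (nat_lit 394) (nat_lit 374) (nat_lit 252)))) (XT.nd (nat_lit 156) (nat_lit 684) (nat_lit 0) (XT.nd (nat_lit 78) (nat_lit 608) (nat_lit 0) (XT.lf (nat_lit 0) (nat_lit 12204494347) (nat_lit 684) (nat_lit 3082345573) (nat_lit 76) (nat_lit 360497598) (nat_lit 230) (nat_lit 5) (nat_lit 239) (nat_lit 5) (nat_lit 231) (nat_lit 5) (nat_lit 395) (nat_lit 374) (nat_lit 251)) (XT.lf (nat_lit 0) (nat_lit 5353936410) (nat_lit 608) (nat_lit 8859168104) (nat_lit 684) (nat_lit 1686292309) (nat_lit 222) (nat_lit 5) (nat_lit 230) (nat_lit 5) (nat_lit 231) (nat_lit 5) (nat_lit 396) (nat_lit 374) (nat_lit 250))) (XT.nd (nat_lit 78) (nat_lit 608) (nat_lit 0) (XT.lf (nat_lit 0)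 (nat_lit 140345631) (nat_lit 684) (nat_lit 2064432600) (nat_lit 76) (nat_lit 13953615001) (nat_lit 221) (nat_lit 5) (nat_lit 230) (nat_lit 5) (nat_lit 222) (nat_lit 5) (nat_lit 397) (nat_lit 374) (nat_lit 249)) (XT.lf (nat_lit 0) (nat_lit 2087219845) (nat_lit 684) (nat_lit 9693027224) (nat_lit 76) (nat_lit 4641436041) (nat_lit 213) (nat_lit 5) (nat_lit 222) (nat_lit 5) (nat_lit 214) (nat_lit 5) (nat_lit 398) (nat_lit 374) (nat_lit 248))))) (XT.nd (nat_lit 234) (nat_lit 1064) (nat_lit 0) (XT.nd (nat_lit 78) (nat_lit 1064) (nat_lit 0) (XT.lf (nat_lit 0) (nat_lit 4124304068) (nat_lit 684) (nat_lit 897676220) (nat_lit 76) (nat_lit 11669941506) (nat_lit 213) (nat_lit 5) (nat_lit 222) (nat_lit 5) (nat_lit 214) (nat_lit 5) (nat_lit 399) (nat_lit 374) (nat_lit 247)) (XT.nd (nat_lit 78) (nat_lit 532) (nat_lit 0) (XT.lf (nat_lit 0) (nat_lit 6311081401) (nat_lit 608) (nat_lit 8674799702) (nat_lit 76) (nat_lit 1981733220)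 (nat_lit 206) (nat_lit 5) (nat_lit 214) (nat_lit 5) (nat_lit 207) (nat_lit 5) (nat_lit 400) (nat_lit 374) (nat_lit 246)) (XT.lf (nat_lit 0) (nat_lit 474428490) (nat_lit 532) (nat_lit 8141921759) (nat_lit 608) (nat_lit 8633644716) (nat_lit 199) (nat_lit 5) (nat_lit 206) (nat_lit 5) (nat_lit 207) (nat_lit 5) (nat_lit 401) (nat_lit 374) (nat_lit 245)))) (XT.nd (nat_lit 156) (nat_lit 608) (nat_lit 0) (XT.nd (nat_lit 78) (nat_lit 456) (nat_lit 0) (XT.lf (nat_lit 0) (nat_lit 10064934585) (nat_lit 532) (nat_lit 1003092940) (nat_lit 608) (nat_lit 6470505855) (nat_lit 199) (nat_lit 5) (nat_lit 206) (nat_lit 5) (nat_lit 207) (nat_lit 5) (nat_lit 402) (nat_lit 374) (nat_lit 244)) (XT.lf (nat_lit 0) (nat_lit 2075895383) (nat_lit 456) (nat_lit 11588300634) (nat_lit 532) (nat_lit 4169407457) (nat_lit 193) (nat_lit 5) (nat_lit 199) (nat_lit 5) (nat_lit 200) (nat_lit 5) (nat_lit 403) (nat_lit 374) (nat_lit 243))) (XT.nd (nat_lit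 78) (nat_lit 608) (nat_lit 0) (XT.lf (nat_lit 0) (nat_lit 12044052825) (nat_lit 456) (nat_lit 4369634757) (nat_lit 532) (nat_lit 1721578592) (nat_lit 193) (nat_lit 5) (nat_lit 199) (nat_lit 5) (nat_lit 200) (nat_lit 5) (nat_lit 404) (nat_lit 374) (nat_lit 242)) (XT.lf (nat_lit 0) (nat_lit 842025711) (nat_lit 608) (nat_lit 14551441833) (nat_lit 76) (nat_lit 3050545675) (nat_lit 185) (nat_lit 5) (nat_lit 193) (nat_lit 5) (nat_lit 186) (nat_lit 5) (nat_lit 405) (nat_lit 374) (nat_lit 241)))))) (XT.nd (nat_lit 546) (nat_lit 1216) (nat_lit 0) (XT.nd (nat_lit 234) (nat_lit 1368) (nat_lit 0) (XT.nd (nat_lit 78) (nat_lit 456) (nat_lit 0) (XT.lf (nat_lit 0) (nat_lit 3543810291) (nat_lit 608) (nat_lit 4531305697) (nat_lit 76) (nat_lit 10683522438) (nat_lit 185) (nat_lit 5) (nat_lit 193) (nat_lit 5) (nat_lit 186) (nat_lit 5) (nat_lit 406) (nat_lit 374) (nat_lit 240)) (XT.nd (nat_lit 78) (nat_lit 0) (nat_lit 0) (XT.lf (nat_lit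 0) (nat_lit 5893819093) (nat_lit 456) (nat_lit 480253385) (nat_lit 532) (nat_lit 12707210426) (nat_lit 179) (nat_lit 5) (nat_lit 185) (nat_lit 5) (nat_lit 186) (nat_lit 5) (nat_lit 407) (nat_lit 374) (nat_lit 239)) (XT.lf (nat_lit 0) (nat_lit 9396955839) (nat_lit 532) (nat_lit 2769464187) (nat_lit 76) (nat_lit 7243958435) (nat_lit 179) (nat_lit 5) (nat_lit 186) (nat_lit 5) (nat_lit 180) (nat_lit 5) (nat_lit 408) (nat_lit 374) (nat_lit 238)))) (XT.nd (nat_lit 156) (nat_lit 912) (nat_lit 0) (XT.nd (nat_lit 78) (nat_lit 0) (nat_lit 0) (XT.lf (nat_lit 0) (nat_lit 8103990595) (nat_lit 456) (nat_lit 4480377779) (nat_lit 532) (nat_lit 7162766281) (nat_lit 173) (nat_lit 5) (nat_lit 179) (nat_lit 5) (nat_lit 180) (nat_lit 5) (nat_lit 409) (nat_lit 374) (nat_lit 237)) (XT.lf (nat_lit 0) (nat_lit 15920005425) (nat_lit 532) (nat_lit 776653887) (nat_lit 76) (nat_lit 3395759123) (nat_lit 173) (nat_lit 5) (nat_lit 180) (nat_lit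 5) (nat_lit 174) (nat_lit 5) (nat_lit 410) (nat_lit 374) (nat_lit 236))) (XT.nd (nat_lit 78) (nat_lit 532) (nat_lit 0) (XT.lf (nat_lit 0) (nat_lit 10567375984) (nat_lit 380) (nat_lit 8925856239) (nat_lit 456) (nat_lit 950705762) (nat_lit 168) (nat_lit 5) (nat_lit 173) (nat_lit 5) (nat_lit 174) (nat_lit 5) (nat_lit 411) (nat_lit 374) (nat_lit 235)) (XT.lf (nat_lit 0) (nat_lit 1457105526) (nat_lit 456) (nat_lit 877915571) (nat_lit 532) (nat_lit 18469894863) (nat_lit 161) (nat_lit 5) (nat_lit 167) (nat_lit 5) (nat_lit 168) (nat_lit 5) (nat_lit 412) (nat_lit 374) (nat_lit 234))))) (XT.nd (nat_lit 234) (nat_lit 836) (nat_lit 0) (XT.nd (nat_lit 78) (nat_lit 380) (nat_lit 0) (XT.lf (nat_lit 0) (nat_lit 5863944252) (nat_lit 532) (nat_lit 7932630244) (nat_lit 76) (nat_lit 7374957040) (nat_lit 161) (nat_lit 5) (nat_lit 168) (nat_lit 5) (nat_lit 162) (nat_lit 5) (nat_lit 413) (nat_lit 374) (nat_lit 233)) (XT.nd (nat_lit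 78) (nat_lit 0) (nat_lit 0) (XT.lf (nat_lit 0) (nat_lit 3881870160) (nat_lit 380) (nat_lit 5654879696) (nat_lit 456) (nat_lit 12011257837) (nat_lit 156) (nat_lit 5) (nat_lit 161) (nat_lit 5) (nat_lit 162) (nat_lit 5) (nat_lit 414) (nat_lit 374) (nat_lit 232)) (XT.lf (nat_lit 0) (nat_lit 13419011320) (nat_lit 456) (nat_lit 5757313072) (nat_lit 76) (nat_lit 2756478073) (nat_lit 156) (nat_lit 5) (nat_lit 162) (nat_lit 5) (nat_lit 157) (nat_lit 5) (nat_lit 415) (nat_lit 374) (nat_lit 231)))) (XT.nd (nat_lit 156) (nat_lit 456) (nat_lit 0) (XT.nd (nat_lit 78) (nat_lit 0) (nat_lit 0) (XT.lf (nat_lit 0) (nat_lit 6571002408) (nat_lit 380) (nat_lit 10958242975) (nat_lit 456) (nat_lit 4796552963) (nat_lit 151) (nat_lit 5) (nat_lit 156) (nat_lit 5) (nat_lit 157) (nat_lit 5) (nat_lit 416) (nat_lit 374) (nat_lit 230)) (XT.lf (nat_lit 0) (nat_lit 19377276021) (nat_lit 380) (nat_lit 2436126884) (nat_lit 456) (nat_lit 915665044)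 (nat_lit 151) (nat_lit 5) (nat_lit 156) (nat_lit 5) (nat_lit 157) (nat_lit 5) (nat_lit 417) (nat_lit 374) (nat_lit 229))) (XT.nd (nat_lit 78) (nat_lit 0) (nat_lit 0) (XT.lf (nat_lit 0) (nat_lit 3168278939) (nat_lit 456) (nat_lit 13632484778) (nat_lit 76) (nat_lit 6338382543) (nat_lit 145) (nat_lit 5) (nat_lit 151) (nat_lit 5) (nat_lit 146) (nat_lit 5) (nat_lit 418) (nat_lit 374) (nat_lit 228)) (XT.lf (nat_lit 0) (nat_lit 7407360974) (nat_lit 456) (nat_lit 784327435) (nat_lit 76) (nat_lit 15368037962) (nat_lit 145) (nat_lit 5) (nat_lit 151) (nat_lit 5) (nat_lit 146) (nat_lit 5) (nat_lit 419) (nat_lit 374) (nat_lit 227))))))) (XT.nd (nat_lit 1092) (nat_lit 2280) (nat_lit 0) (XT.nd (nat_lit 546) (nat_lit 1292) (nat_lit 0) (XT.nd (nat_lit 234) (nat_lit 760) (nat_lit 0) (XT.nd (nat_lit 78) (nat_lit 304) (nat_lit 0) (XT.lf (nat_lit 0) (nat_lit 11896185330) (nat_lit 456) (nat_lit 11309892655) (nat_lit 76) (nat_lit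 783170881) (nat_lit 140) (nat_lit 5) (nat_lit 146) (nat_lit 5) (nat_lit 141) (nat_lit 5) (nat_lit 420) (nat_lit 374) (nat_lit 226)) (XT.nd (nat_lit 78) (nat_lit 0) (nat_lit 0) (XT.lf (nat_lit 0) (nat_lit 2081363173) (nat_lit 304) (nat_lit 14540447133) (nat_lit 380) (nat_lit 7806784671) (nat_lit 136) (nat_lit 5) (nat_lit 140) (nat_lit 5) (nat_lit 141) (nat_lit 5) (nat_lit 421) (nat_lit 374) (nat_lit 225)) (XT.lf (nat_lit 0) (nat_lit 16096616901) (nat_lit 304) (nat_lit 5499930090) (nat_lit 380) (nat_lit 3281356151) (nat_lit 136) (nat_lit 5) (nat_lit 140) (nat_lit 5) (nat_lit 141) (nat_lit 5) (nat_lit 422) (nat_lit 374) (nat_lit 224)))) (XT.nd (nat_lit 156) (nat_lit 304) (nat_lit 0) (XT.nd (nat_lit 78) (nat_lit 0) (nat_lit 0) (XT.lf (nat_lit 0) (nat_lit 1434101254) (nat_lit 456) (nat_lit 20104417059) (nat_lit 76) (nat_lit 3799340423) (nat_lit 130) (nat_lit 5) (nat_lit 136) (nat_lit 5) (nat_lit 131) (nat_lit 5)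 (nat_lit 423) (nat_lit 374) (nat_lit 223)) (XT.lf (nat_lit 0) (nat_lit 6362424289) (nat_lit 456) (nat_lit 6057675147) (nat_lit 76) (nat_lit 13386420077) (nat_lit 130) (nat_lit 5) (nat_lit 136) (nat_lit 5) (nat_lit 131) (nat_lit 5) (nat_lit 424) (nat_lit 374) (nat_lit 222))) (XT.nd (nat_lit 78) (nat_lit 0) (nat_lit 0) (XT.lf (nat_lit 0) (nat_lit 8568427012) (nat_lit 304) (nat_lit 2946076161) (nat_lit 380) (nat_lit 14772461496) (nat_lit 126) (nat_lit 5) (nat_lit 130) (nat_lit 5) (nat_lit 131) (nat_lit 5) (nat_lit 425) (nat_lit 374) (nat_lit 221)) (XT.lf (nat_lit 0) (nat_lit 16942017926) (nat_lit 380) (nat_lit 3097905658) (nat_lit 76) (nat_lit 6738275080) (nat_lit 126) (nat_lit 5) (nat_lit 131) (nat_lit 5) (nat_lit 127) (nat_lit 5) (nat_lit 426) (nat_lit 374) (nat_lit 220))))) (XT.nd (nat_lit 234) (nat_lit 608) (nat_lit 0) (XT.nd (nat_lit 78) (nat_lit 380) (nat_lit 0) (XT.lf (nat_lit 0) (nat_lit 12160423422) (nat_lit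 304) (nat_lit 10511797670) (nat_lit 380) (nat_lit 4607754338) (nat_lit 122) (nat_lit 5) (nat_lit 126) (nat_lit 5) (nat_lit 127) (nat_lit 5) (nat_lit 427) (nat_lit 374) (nat_lit 219)) (XT.nd (nat_lit 78) (nat_lit 0) (nat_lit 0) (XT.lf (nat_lit 0) (nat_lit 129806545) (nat_lit 304) (nat_lit 659219205) (nat_lit 380) (nat_lit 27006756878) (nat_lit 117) (nat_lit 5) (nat_lit 121) (nat_lit 5) (nat_lit 122) (nat_lit 5) (nat_lit 428) (nat_lit 374) (nat_lit 218)) (XT.lf (nat_lit 0) (nat_lit 6494398939) (nat_lit 380) (nat_lit 12323396993) (nat_lit 76) (nat_lit 9500721942) (nat_lit 117) (nat_lit 5) (nat_lit 122) (nat_lit 5) (nat_lit 118) (nat_lit 5) (nat_lit 429) (nat_lit 374) (nat_lit 217)))) (XT.nd (nat_lit 156) (nat_lit 304) (nat_lit 0) (XT.nd (nat_lit 78) (nat_lit 0) (nat_lit 0) (XT.lf (nat_lit 0) (nat_lit 3532991729) (nat_lit 304) (nat_lit 8872505563) (nat_lit 380) (nat_lit 16450402423) (nat_lit 113) (nat_lit 5) (nat_lit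 117) (nat_lit 5) (nat_lit 118) (nat_lit 5) (nat_lit 430) (nat_lit 374) (nat_lit 216)) (XT.lf (nat_lit 0) (nat_lit 18626918445) (nat_lit 380) (nat_lit 9311335639) (nat_lit 76) (nat_lit 1467160647) (nat_lit 113) (nat_lit 5) (nat_lit 118) (nat_lit 5) (nat_lit 114) (nat_lit 5) (nat_lit 431) (nat_lit 374) (nat_lit 215))) (XT.nd (nat_lit 78) (nat_lit 76) (nat_lit 0) (XT.lf (nat_lit 0) (nat_lit 7225041156) (nat_lit 228) (nat_lit 17961545330) (nat_lit 304) (nat_lit 4780281959) (nat_lit 110) (nat_lit 5) (nat_lit 113) (nat_lit 5) (nat_lit 114) (nat_lit 5) (nat_lit 432) (nat_lit 374) (nat_lit 214)) (XT.lf (nat_lit 0) (nat_lit 1459890815) (nat_lit 304) (nat_lit 6117042369) (nat_lit 76) (nat_lit 22965152071) (nat_lit 109) (nat_lit 5) (nat_lit 113) (nat_lit 5) (nat_lit 110) (nat_lit 5) (nat_lit 433) (nat_lit 374) (nat_lit 213)))))) (XT.nd (nat_lit 546) (nat_lit 1216) (nat_lit 0) (XT.nd (nat_lit 234) (nat_lit 532) (nat_lit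 0) (XT.nd (nat_lit 78) (nat_lit 228) (nat_lit 0) (XT.lf (nat_lit 0) (nat_lit 7924534180) (nat_lit 380) (nat_lit 19992932205) (nat_lit 76) (nat_lit 3211673229) (nat_lit 105) (nat_lit 5) (nat_lit 110) (nat_lit 5) (nat_lit 106) (nat_lit 5) (nat_lit 434) (nat_lit 374) (nat_lit 212)) (XT.nd (nat_lit 78) (nat_lit 228) (nat_lit 0) (XT.lf (nat_lit 0) (nat_lit 14715066643) (nat_lit 380) (nat_lit 2783645707) (nat_lit 76) (nat_lit 14231135979) (nat_lit 105) (nat_lit 5) (nat_lit 110) (nat_lit 5) (nat_lit 106) (nat_lit 5) (nat_lit 435) (nat_lit 374) (nat_lit 211)) (XT.lf (nat_lit 0) (nat_lit 15230865778) (nat_lit 228) (nat_lit 6619565405) (nat_lit 304) (nat_lit 10493914823) (nat_lit 102) (nat_lit 5) (nat_lit 105) (nat_lit 5) (nat_lit 106) (nat_lit 5) (nat_lit 436) (nat_lit 374) (nat_lit 210)))) (XT.nd (nat_lit 156) (nat_lit 228) (nat_lit 0) (XT.nd (nat_lit 78) (nat_lit 76) (nat_lit 0) (XT.lf (nat_lit 0) (nat_lit 829962713)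 (nat_lit 228) (nat_lit 28445097449) (nat_lit 304) (nat_lit 3699963499) (nat_lit 99) (nat_lit 5) (nat_lit 102) (nat_lit 5) (nat_lit 103) (nat_lit 5) (nat_lit 437) (nat_lit 374) (nat_lit 209)) (XT.lf (nat_lit 0) (nat_lit 3468294219) (nat_lit 304) (nat_lit 14064204934) (nat_lit 76) (nat_lit 16084127362) (nat_lit 98) (nat_lit 5) (nat_lit 102) (nat_lit 5) (nat_lit 99) (nat_lit 5) (nat_lit 438) (nat_lit 374) (nat_lit 208))) (XT.nd (nat_lit 78) (nat_lit 0) (nat_lit 0) (XT.lf (nat_lit 0) (nat_lit 4604196282) (nat_lit 228) (nat_lit 6212224363) (nat_lit 304) (nat_lit 23458783266) (nat_lit 95) (nat_lit 5) (nat_lit 98) (nat_lit 5) (nat_lit 99) (nat_lit 5) (nat_lit 439) (nat_lit 374) (nat_lit 207)) (XT.lf (nat_lit 0) (nat_lit 18575754117) (nat_lit 304) (nat_lit 10890232838) (nat_lit 76) (nat_lit 5481829799) (nat_lit 95) (nat_lit 5) (nat_lit 99) (nat_lit 5) (nat_lit 96) (nat_lit 5) (nat_lit 440) (nat_lit 374) (nat_lit 206)))))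 (XT.nd (nat_lit 312) (nat_lit 684) (nat_lit 0) (XT.nd (nat_lit 156) (nat_lit 304) (nat_lit 0) (XT.nd (nat_lit 78) (nat_lit 0) (nat_lit 0) (XT.lf (nat_lit 0) (nat_lit 8551429736) (nat_lit 228) (nat_lit 18155263091) (nat_lit 304) (nat_lit 8929751392) (nat_lit 92) (nat_lit 5) (nat_lit 95) (nat_lit 5) (nat_lit 96) (nat_lit 5) (nat_lit 441) (nat_lit 374) (nat_lit 205)) (XT.lf (nat_lit 0) (nat_lit 28791761227) (nat_lit 228) (nat_lit 6394952026) (nat_lit 304) (nat_lit 1155863611) (nat_lit 92) (nat_lit 5) (nat_lit 95) (nat_lit 5) (nat_lit 96) (nat_lit 5) (nat_lit 442) (nat_lit 374) (nat_lit 204))) (XT.nd (nat_lit 78) (nat_lit 0) (nat_lit 0) (XT.lf (nat_lit 0) (nat_lit 6892136570) (nat_lit 304) (nat_lit 24376632312) (nat_lit 76) (nat_lit 5793912121) (nat_lit 88) (nat_lit 5) (nat_lit 92) (nat_lit 5) (nat_lit 89) (nat_lit 5) (nat_lit 443) (nat_lit 374) (nat_lit 203)) (XT.lf (nat_lit 0) (nat_lit 15293977412) (nat_lit 304)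 (nat_lit 4200537132) (nat_lit 76) (nat_lit 18305462305) (nat_lit 88) (nat_lit 5) (nat_lit 92) (nat_lit 5) (nat_lit 89) (nat_lit 5) (nat_lit 444) (nat_lit 374) (nat_lit 202)))) (XT.nd (nat_lit 156) (nat_lit 456) (nat_lit 0) (XT.nd (nat_lit 78) (nat_lit 0) (nat_lit 0) (XT.lf (nat_lit 0) (nat_lit 16903183770) (nat_lit 228) (nat_lit 7202622621) (nat_lit 304) (nat_lit 14448848050) (nat_lit 85) (nat_lit 5) (nat_lit 88) (nat_lit 5) (nat_lit 89) (nat_lit 5) (nat_lit 445) (nat_lit 374) (nat_lit 201)) (XT.lf (nat_lit 0) (nat_lit 33272775404) (nat_lit 304) (nat_lit 664995417) (nat_lit 76) (nat_lit 5391478817) (nat_lit 85) (nat_lit 5) (nat_lit 89) (nat_lit 5) (nat_lit 86) (nat_lit 5) (nat_lit 446) (nat_lit 374) (nat_lit 200))) (XT.nd (nat_lit 78) (nat_lit 228) (nat_lit 0) (XT.lf (nat_lit 0) (nat_lit 2811422564) (nat_lit 228) (nat_lit 18858649575) (nat_lit 76) (nat_lit 18448037709) (nat_lit 82) (nat_lit 5) (nat_lit 85) (nat_lit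 5) (nat_lit 83) (nat_lit 5) (nat_lit 447) (nat_lit 374) (nat_lit 199)) (XT.lf (nat_lit 0) (nat_lit 2914355403) (nat_lit 228) (nat_lit 8939696160) (nat_lit 304) (nat_lit 29073873378) (nat_lit 79) (nat_lit 5) (nat_lit 82) (nat_lit 5) (nat_lit 83) (nat_lit 5) (nat_lit 448) (nat_lit 374) (nat_lit 198))))))))
noncomputable def xc180 : XT := (XT.nd (nat_lit 2184) (nat_lit 608) (nat_lit 0) (XT.nd (nat_lit 1092) (nat_lit 1140) (nat_lit 0) (XT.nd (nat_lit 546) (nat_lit 760) (nat_lit 0) (XT.nd (nat_lit 234) (nat_lit 456) (nat_lit 0) (XT.nd (nat_lit 78) (nat_lit 152) (nat_lit 0) (XT.lf (nat_lit 0) (nat_lit 21396047313) (nat_lit 304) (nat_lit 16078541643) (nat_lit 76) (nat_lit 4280603631) (nat_lit 79) (nat_lit 5) (nat_lit 83) (nat_lit 5) (nat_lit 80) (nat_lit 5) (nat_lit 449) (nat_lit 374) (nat_lit 197)) (XT.nd (nat_lit 78) (nat_lit 0) (nat_lit 0) (XT.lf (nat_lit 0) (nat_lit 6546628320) (nat_lit 152) (nat_lit 24824900635)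 (nat_lit 228) (nat_lit 11231333246) (nat_lit 77) (nat_lit 5) (nat_lit 79) (nat_lit 5) (nat_lit 80) (nat_lit 5) (nat_lit 450) (nat_lit 374) (nat_lit 196)) (XT.lf (nat_lit 0) (nat_lit 30173072552) (nat_lit 152) (nat_lit 11631403006) (nat_lit 228) (nat_lit 1666741025) (nat_lit 77) (nat_lit 5) (nat_lit 79) (nat_lit 5) (nat_lit 80) (nat_lit 5) (nat_lit 451) (nat_lit 374) (nat_lit 195)))) (XT.nd (nat_lit 156) (nat_lit 152) (nat_lit 0) (XT.nd (nat_lit 78) (nat_lit 0) (nat_lit 0) (XT.lf (nat_lit 0) (nat_lit 8140140328) (nat_lit 304) (nat_lit 34123758977) (nat_lit 76) (nat_lit 2095910649) (nat_lit 73) (nat_lit 5) (nat_lit 77) (nat_lit 5) (nat_lit 74) (nat_lit 5) (nat_lit 452) (nat_lit 374) (nat_lit 194)) (XT.lf (nat_lit 0) (nat_lit 18454449976) (nat_lit 304) (nat_lit 10662133024) (nat_lit 76) (nat_lit 16150582041) (nat_lit 73) (nat_lit 5) (nat_lit 77) (nat_lit 5) (nat_lit 74) (nat_lit 5) (nat_lit 453) (nat_lit 374) (nat_lit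 193))) (XT.nd (nat_lit 78) (nat_lit 0) (nat_lit 0) (XT.lf (nat_lit 0) (nat_lit 13765176228) (nat_lit 152) (nat_lit 15441394656) (nat_lit 228) (nat_lit 16991319057) (nat_lit 71) (nat_lit 5) (nat_lit 73) (nat_lit 5) (nat_lit 74) (nat_lit 5) (nat_lit 454) (nat_lit 374) (nat_lit 192)) (XT.lf (nat_lit 0) (nat_lit 39137160792) (nat_lit 152) (nat_lit 1247874144) (nat_lit 228) (nat_lit 6768388865) (nat_lit 71) (nat_lit 5) (nat_lit 73) (nat_lit 5) (nat_lit 74) (nat_lit 5) (nat_lit 455) (nat_lit 374) (nat_lit 191))))) (XT.nd (nat_lit 234) (nat_lit 380) (nat_lit 0) (XT.nd (nat_lit 78) (nat_lit 152) (nat_lit 0) (XT.lf (nat_lit 0) (nat_lit 3982095427) (nat_lit 228) (nat_lit 30832091311) (nat_lit 76) (nat_lit 13313525010) (nat_lit 68) (nat_lit 5) (nat_lit 71) (nat_lit 5) (nat_lit 69) (nat_lit 5) (nat_lit 456) (nat_lit 374) (nat_lit 190)) (XT.nd (nat_lit 78) (nat_lit 152) (nat_lit 0) (XT.lf (nat_lit 0) (nat_lit 15009371475)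 (nat_lit 228) (nat_lit 5684395010) (nat_lit 76) (nat_lit 28432742530) (nat_lit 68) (nat_lit 5) (nat_lit 71) (nat_lit 5) (nat_lit 69) (nat_lit 5) (nat_lit 457) (nat_lit 374) (nat_lit 189)) (XT.lf (nat_lit 0) (nat_lit 20613558859) (nat_lit 152) (nat_lit 5948377415) (nat_lit 228) (nat_lit 23587500345) (nat_lit 66) (nat_lit 5) (nat_lit 68) (nat_lit 5) (nat_lit 69) (nat_lit 5) (nat_lit 458) (nat_lit 374) (nat_lit 188)))) (XT.nd (nat_lit 156) (nat_lit 228) (nat_lit 0) (XT.nd (nat_lit 78) (nat_lit 152) (nat_lit 0) (XT.lf (nat_lit 0) (nat_lit 38604202356) (nat_lit 228) (nat_lit 3480175525) (nat_lit 76) (nat_lit 9114380960) (nat_lit 66) (nat_lit 5) (nat_lit 69) (nat_lit 5) (nat_lit 67) (nat_lit 5) (nat_lit 459) (nat_lit 374) (nat_lit 187)) (XT.lf (nat_lit 0) (nat_lit 23755609445) (nat_lit 152) (nat_lit 27535822101) (nat_lit 228) (nat_lit 979618831) (nat_lit 64) (nat_lit 5) (nat_lit 66) (nat_lit 5) (nat_lit 67) (nat_lit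 5) (nat_lit 460) (nat_lit 374) (nat_lit 186))) (XT.nd (nat_lit 78) (nat_lit 152) (nat_lit 0) (XT.lf (nat_lit 0) (nat_lit 10801380614) (nat_lit 228) (nat_lit 1606839598) (nat_lit 76) (nat_lit 40963165045) (nat_lit 63) (nat_lit 5) (nat_lit 66) (nat_lit 5) (nat_lit 64) (nat_lit 5) (nat_lit 461) (nat_lit 374) (nat_lit 185)) (XT.lf (nat_lit 0) (nat_lit 23201601973) (nat_lit 228) (nat_lit 27917425895) (nat_lit 76) (nat_lit 3376847361) (nat_lit 61) (nat_lit 5) (nat_lit 64) (nat_lit 5) (nat_lit 62) (nat_lit 5) (nat_lit 462) (nat_lit 374) (nat_lit 184)))))) (XT.nd (nat_lit 546) (nat_lit 532) (nat_lit 0) (XT.nd (nat_lit 234) (nat_lit 228) (nat_lit 0) (XT.nd (nat_lit 78) (nat_lit 380) (nat_lit 0) (XT.lf (nat_lit 0) (nat_lit 36109646259) (nat_lit 228) (nat_lit 140487891) (nat_lit 76) (nat_lit 19399891709) (nat_lit 61) (nat_lit 5) (nat_lit 64) (nat_lit 5) (nat_lit 62) (nat_lit 5) (nat_lit 463) (nat_lit 374) (nat_lit 183))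 (XT.nd (nat_lit 78) (nat_lit 228) (nat_lit 0) (XT.lf (nat_lit 0) (nat_lit 29030326007) (nat_lit 152) (nat_lit 20650338883) (nat_lit 228) (nat_lit 7149864560) (nat_lit 59) (nat_lit 5) (nat_lit 61) (nat_lit 5) (nat_lit 62) (nat_lit 5) (nat_lit 464) (nat_lit 374) (nat_lit 182)) (XT.lf (nat_lit 0) (nat_lit 992209780) (nat_lit 152) (nat_lit 4518292430) (nat_lit 228) (nat_lit 52534098252) (nat_lit 56) (nat_lit 5) (nat_lit 58) (nat_lit 5) (nat_lit 59) (nat_lit 5) (nat_lit 465) (nat_lit 374) (nat_lit 181)))) (XT.nd (nat_lit 156) (nat_lit 76) (nat_lit 0) (XT.nd (nat_lit 78) (nat_lit 152) (nat_lit 0) (XT.lf (nat_lit 0) (nat_lit 18803471051) (nat_lit 228) (nat_lit 28264202847) (nat_lit 76) (nat_lit 12213401492) (nat_lit 56) (nat_lit 5) (nat_lit 59) (nat_lit 5) (nat_lit 57) (nat_lit 5) (nat_lit 466) (nat_lit 374) (nat_lit 180)) (XT.lf (nat_lit 0) (nat_lit 1363737030) (nat_lit 152) (nat_lit 31186131324) (nat_lit 228) (nat_lit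 28003137415) (nat_lit 54) (nat_lit 5) (nat_lit 56) (nat_lit 5) (nat_lit 57) (nat_lit 5) (nat_lit 467) (nat_lit 374) (nat_lit 179))) (XT.nd (nat_lit 78) (nat_lit 76) (nat_lit 0) (XT.lf (nat_lit 0) (nat_lit 32454190672) (nat_lit 152) (nat_lit 14536713131) (nat_lit 228) (nat_lit 14863723245) (nat_lit 54) (nat_lit 5) (nat_lit 56) (nat_lit 5) (nat_lit 57) (nat_lit 5) (nat_lit 468) (nat_lit 374) (nat_lit 178)) (XT.lf (nat_lit 0) (nat_lit 1276239720) (nat_lit 76) (nat_lit 60623210208) (nat_lit 152) (nat_lit 1294819012) (nat_lit 53) (nat_lit 5) (nat_lit 54) (nat_lit 5) (nat_lit 55) (nat_lit 4) (nat_lit 469) (nat_lit 374) (nat_lit 177))))) (XT.nd (nat_lit 234) (nat_lit 304) (nat_lit 0) (XT.nd (nat_lit 78) (nat_lit 152) (nat_lit 0) (XT.lf (nat_lit 0) (nat_lit 12874359282) (nat_lit 152) (nat_lit 31363685740) (nat_lit 76) (nat_lit 20319178583) (nat_lit 52) (nat_lit 5) (nat_lit 54) (nat_lit 5) (nat_lit 53) (nat_lit 5) (nat_lit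 470) (nat_lit 374) (nat_lit 176)) (XT.nd (nat_lit 78) (nat_lit 0) (nat_lit 0) (XT.lf (nat_lit 0) (nat_lit 90781117) (nat_lit 152) (nat_lit 27349677743) (nat_lit 228) (nat_lit 38520287666) (nat_lit 50) (nat_lit 5) (nat_lit 52) (nat_lit 5) (nat_lit 53) (nat_lit 5) (nat_lit 471) (nat_lit 374) (nat_lit 175)) (XT.lf (nat_lit 0) (nat_lit 33126401899) (nat_lit 152) (nat_lit 9630884612) (nat_lit 228) (nat_lit 24639676594) (nat_lit 50) (nat_lit 5) (nat_lit 52) (nat_lit 5) (nat_lit 53) (nat_lit 5) (nat_lit 472) (nat_lit 374) (nat_lit 174)))) (XT.nd (nat_lit 156) (nat_lit 152) (nat_lit 0) (XT.nd (nat_lit 78) (nat_lit 152) (nat_lit 0) (XT.lf (nat_lit 0) (nat_lit 58613571641) (nat_lit 228) (nat_lit 1811341951) (nat_lit 76) (nat_lit 8448954324) (nat_lit 50) (nat_lit 5) (nat_lit 53) (nat_lit 5) (nat_lit 51) (nat_lit 4) (nat_lit 473) (nat_lit 374) (nat_lit 173)) (XT.lf (nat_lit 0) (nat_lit 4867212757) (nat_lit 152) (nat_lit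 38282276531) (nat_lit 76) (nat_lit 27232112324) (nat_lit 48) (nat_lit 5) (nat_lit 50) (nat_lit 5) (nat_lit 49) (nat_lit 5) (nat_lit 474) (nat_lit 374) (nat_lit 172))) (XT.nd (nat_lit 78) (nat_lit 152) (nat_lit 0) (XT.lf (nat_lit 0) (nat_lit 20257984067) (nat_lit 152) (nat_lit 4976506370) (nat_lit 76) (nat_lit 46696559793) (nat_lit 48) (nat_lit 5) (nat_lit 50) (nat_lit 5) (nat_lit 49) (nat_lit 5) (nat_lit 475) (nat_lit 374) (nat_lit 171)) (XT.lf (nat_lit 0) (nat_lit 29907018458) (nat_lit 152) (nat_lit 6488213256) (nat_lit 228) (nat_lit 37123208275) (nat_lit 46) (nat_lit 5) (nat_lit 48) (nat_lit 5) (nat_lit 49) (nat_lit 5) (nat_lit 476) (nat_lit 374) (nat_lit 170))))))) (XT.nd (nat_lit 45630) (nat_lit 0) (nat_lit 14592) (XT.nd (nat_lit 546) (nat_lit 228) (nat_lit 0) (XT.nd (nat_lit 234) (nat_lit 228) (nat_lit 0) (XT.nd (nat_lit 78) (nat_lit 152) (nat_lit 0) (XT.lf (nat_lit 0) (nat_lit 53187864062) (nat_lit 228)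 (nat_lit 9341639350) (nat_lit 76) (nat_lit 12618810280) (nat_lit 46) (nat_lit 5) (nat_lit 49) (nat_lit 5) (nat_lit 47) (nat_lit 4) (nat_lit 477) (nat_lit 374) (nat_lit 169)) (XT.nd (nat_lit 78) (nat_lit 76) (nat_lit 0) (XT.lf (nat_lit 0) (nat_lit 26402324852) (nat_lit 76) (nat_lit 44397343551) (nat_lit 152) (nat_lit 6017953676) (nat_lit 45) (nat_lit 5) (nat_lit 46) (nat_lit 5) (nat_lit 47) (nat_lit 4) (nat_lit 478) (nat_lit 374) (nat_lit 168)) (XT.lf (nat_lit 0) (nat_lit 10292449372) (nat_lit 152) (nat_lit 15229890643) (nat_lit 76) (nat_lit 53008891142) (nat_lit 44) (nat_lit 5) (nat_lit 46) (nat_lit 5) (nat_lit 45) (nat_lit 5) (nat_lit 479) (nat_lit 374) (nat_lit 167)))) (XT.nd (nat_lit 156) (nat_lit 76) (nat_lit 0) (XT.nd (nat_lit 78) (nat_lit 0) (nat_lit 0) (XT.lf (nat_lit 0) (nat_lit 21363637015) (nat_lit 152) (nat_lit 5810372181) (nat_lit 228) (nat_lit 53114368054) (nat_lit 42) (nat_lit 5) (nat_lit 44) (nat_lit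 5) (nat_lit 45) (nat_lit 5) (nat_lit 480) (nat_lit 374) (nat_lit 166)) (XT.lf (nat_lit 0) (nat_lit 44854093638) (nat_lit 228) (nat_lit 22872041341) (nat_lit 76) (nat_lit 14363340645) (nat_lit 42) (nat_lit 5) (nat_lit 45) (nat_lit 5) (nat_lit 43) (nat_lit 4) (nat_lit 481) (nat_lit 374) (nat_lit 165))) (XT.nd (nat_lit 78) (nat_lit 0) (nat_lit 0) (XT.lf (nat_lit 0) (nat_lit 14482710347) (nat_lit 76) (nat_lit 48776137655) (nat_lit 152) (nat_lit 20679931151) (nat_lit 41) (nat_lit 5) (nat_lit 42) (nat_lit 5) (nat_lit 43) (nat_lit 4) (nat_lit 482) (nat_lit 374) (nat_lit 164)) (XT.lf (nat_lit 0) (nat_lit 53422394622) (nat_lit 76) (nat_lit 29021863718) (nat_lit 152) (nat_lit 3392448268) (nat_lit 41) (nat_lit 5) (nat_lit 42) (nat_lit 5) (nat_lit 43) (nat_lit 4) (nat_lit 483) (nat_lit 374) (nat_lit 163))))) (XT.nd (nat_lit 44772) (nat_lit 0) (nat_lit 17100) (XT.nd (nat_lit 44616) (nat_lit 0) (nat_lit 17100) (XT.lf (nat_lit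 0) (nat_lit 5707029886) (nat_lit 152) (nat_lit 8477824432) (nat_lit 228) (nat_lit 73600987460) (nat_lit 38) (nat_lit 5) (nat_lit 40) (nat_lit 5) (nat_lit 41) (nat_lit 5) (nat_lit 484) (nat_lit 374) (nat_lit 162)) (XT.nd (nat_lit 78) (nat_lit 0) (nat_lit 0) (XT.lf (nat_lit 0) (nat_lit 774037473) (nat_lit 0) (nat_lit 774037473) (nat_lit 1140) (nat_lit 4346399886) (nat_lit 263) (nat_lit 5) (nat_lit 263) (nat_lit 3) (nat_lit 278) (nat_lit 3) (nat_lit 375) (nat_lit 375) (nat_lit 270)) (XT.lf (nat_lit 0) (nat_lit 3665041644) (nat_lit 1140) (nat_lit 4586799220) (nat_lit 1216) (nat_lit 3698055931) (nat_lit 263) (nat_lit 5) (nat_lit 278) (nat_lit 3) (nat_lit 279) (nat_lit 5) (nat_lit 376) (nat_lit 375) (nat_lit 269)))) (XT.nd (nat_lit 156) (nat_lit 0) (nat_lit 76) (XT.nd (nat_lit 78) (nat_lit 0) (nat_lit 76) (XT.lf (nat_lit 76) (nat_lit 1235524424) (nat_lit 0) (nat_lit 3023796218) (nat_lit 1216) (nat_lit 7856110419)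 (nat_lit 264) (nat_lit 5) (nat_lit 263) (nat_lit 5) (nat_lit 279) (nat_lit 5) (nat_lit 377) (nat_lit 375) (nat_lit 268)) (XT.lf (nat_lit 0) (nat_lit 4922550753) (nat_lit 1140) (nat_lit 4991852092) (nat_lit 1216) (nat_lit 2370002922) (nat_lit 264) (nat_lit 5) (nat_lit 279) (nat_lit 5) (nat_lit 280) (nat_lit 5) (nat_lit 378) (nat_lit 375) (nat_lit 267))) (XT.nd (nat_lit 78) (nat_lit 0) (nat_lit 76) (XT.lf (nat_lit 76) (nat_lit 1053068159) (nat_lit 0) (nat_lit 4574855613) (nat_lit 1216) (nat_lit 6829866421) (nat_lit 265) (nat_lit 5) (nat_lit 264) (nat_lit 5) (nat_lit 280) (nat_lit 5) (nat_lit 379) (nat_lit 375) (nat_lit 266)) (XT.lf (nat_lit 0) (nat_lit 6396928558) (nat_lit 1140) (nat_lit 5273471921) (nat_lit 1216) (nat_lit 964709186) (nat_lit 265) (nat_lit 5) (nat_lit 280) (nat_lit 5) (nat_lit 281) (nat_lit 5) (nat_lit 380) (nat_lit 375) (nat_lit 265)))))) (XT.nd (nat_lit 546) (nat_lit 2660) (nat_lit 0) (XT.nd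 (nat_lit 234) (nat_lit 0) (nat_lit 76) (XT.nd (nat_lit 78) (nat_lit 0) (nat_lit 0) (XT.lf (nat_lit 76) (nat_lit 1005474982) (nat_lit 0) (nat_lit 6221667087) (nat_lit 1216) (nat_lit 5589469901) (nat_lit 266) (nat_lit 5) (nat_lit 265) (nat_lit 5) (nat_lit 281) (nat_lit 5) (nat_lit 381) (nat_lit 375) (nat_lit 264)) (XT.nd (nat_lit 78) (nat_lit 0) (nat_lit 76) (XT.lf (nat_lit 76) (nat_lit 7570429330) (nat_lit 0) (nat_lit 548651527) (nat_lit 1216) (nat_lit 4883381113) (nat_lit 266) (nat_lit 5) (nat_lit 265) (nat_lit 5) (nat_lit 281) (nat_lit 5) (nat_lit 382) (nat_lit 375) (nat_lit 263)) (XT.lf (nat_lit 76) (nat_lit 1098283218) (nat_lit 0) (nat_lit 7985047953) (nat_lit 1216) (nat_lit 4109196681) (nat_lit 267) (nat_lit 5) (nat_lit 266) (nat_lit 5) (nat_lit 282) (nat_lit 5) (nat_lit 383) (nat_lit 375) (nat_lit 262)))) (XT.nd (nat_lit 156) (nat_lit 0) (nat_lit 76) (XT.nd (nat_lit 78) (nat_lit 0) (nat_lit 76) (XT.lf (nat_lit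 76) (nat_lit 7919725897) (nat_lit 0) (nat_lit 2201477638) (nat_lit 1216) (nat_lit 3265758119) (nat_lit 267) (nat_lit 5) (nat_lit 266) (nat_lit 5) (nat_lit 282) (nat_lit 5) (nat_lit 384) (nat_lit 375) (nat_lit 261)) (XT.lf (nat_lit 76) (nat_lit 1337797102) (nat_lit 0) (nat_lit 9886337219) (nat_lit 1216) (nat_lit 2362083062) (nat_lit 268) (nat_lit 5) (nat_lit 267) (nat_lit 5) (nat_lit 283) (nat_lit 5) (nat_lit 385) (nat_lit 375) (nat_lit 260))) (XT.nd (nat_lit 78) (nat_lit 0) (nat_lit 76) (XT.lf (nat_lit 76) (nat_lit 8426138701) (nat_lit 0) (nat_lit 3996102520) (nat_lit 1216) (nat_lit 1367353309) (nat_lit 268) (nat_lit 5) (nat_lit 267) (nat_lit 5) (nat_lit 283) (nat_lit 5) (nat_lit 386) (nat_lit 375) (nat_lit 259)) (XT.lf (nat_lit 76) (nat_lit 1731085730) (nat_lit 0) (nat_lit 11947514495) (nat_lit 1216) (nat_lit 319809701) (nat_lit 269) (nat_lit 5) (nat_lit 268) (nat_lit 5) (nat_lit 284) (nat_lit 5) (nat_lit 387)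 (nat_lit 375) (nat_lit 258))))) (XT.nd (nat_lit 312) (nat_lit 1672) (nat_lit 0) (XT.nd (nat_lit 156) (nat_lit 0) (nat_lit 76) (XT.nd (nat_lit 78) (nat_lit 0) (nat_lit 76) (XT.lf (nat_lit 0) (nat_lit 824538402) (nat_lit 1216) (nat_lit 5121879884) (nat_lit 1292) (nat_lit 8264452658) (nat_lit 252) (nat_lit 5) (nat_lit 268) (nat_lit 5) (nat_lit 269) (nat_lit 5) (nat_lit 388) (nat_lit 375) (nat_lit 257)) (XT.lf (nat_lit 0) (nat_lit 2007465354) (nat_lit 1216) (nat_lit 12163583345) (nat_lit 1292) (nat_lit 258247488) (nat_lit 253) (nat_lit 5) (nat_lit 269) (nat_lit 5) (nat_lit 270) (nat_lit 5) (nat_lit 389) (nat_lit 375) (nat_lit 256))) (XT.nd (nat_lit 78) (nat_lit 0) (nat_lit 0) (XT.lf (nat_lit 0) (nat_lit 3323651080) (nat_lit 1216) (nat_lit 4743215081) (nat_lit 1292) (nat_lit 6584480411) (nat_lit 253) (nat_lit 5) (nat_lit 269) (nat_lit 5) (nat_lit 270) (nat_lit 5) (nat_lit 390) (nat_lit 375) (nat_lit 255)) (XT.lf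 (nat_lit 76) (nat_lit 2946551508) (nat_lit 0) (nat_lit 1748145899) (nat_lit 1292) (nat_lit 10184905161) (nat_lit 254) (nat_lit 5) (nat_lit 253) (nat_lit 5) (nat_lit 270) (nat_lit 5) (nat_lit 391) (nat_lit 375) (nat_lit 254)))) (XT.nd (nat_lit 156) (nat_lit 608) (nat_lit 0) (XT.nd (nat_lit 78) (nat_lit 1216) (nat_lit 0) (XT.lf (nat_lit 0) (nat_lit 6188349930) (nat_lit 1216) (nat_lit 4206269383) (nat_lit 76) (nat_lit 4717647883) (nat_lit 254) (nat_lit 5) (nat_lit 270) (nat_lit 5) (nat_lit 255) (nat_lit 5) (nat_lit 392) (nat_lit 375) (nat_lit 253)) (XT.lf (nat_lit 0) (nat_lit 3798438448) (nat_lit 1216) (nat_lit 3969909496) (nat_lit 1292) (nat_lit 7582322786) (nat_lit 238) (nat_lit 5) (nat_lit 254) (nat_lit 5) (nat_lit 255) (nat_lit 5) (nat_lit 393) (nat_lit 375) (nat_lit 252))) (XT.nd (nat_lit 78) (nat_lit 608) (nat_lit 0) (XT.lf (nat_lit 0) (nat_lit 9452075888) (nat_lit 1292) (nat_lit 3502275527) (nat_lit 76)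 (nat_lit 2640189952) (nat_lit 238) (nat_lit 5) (nat_lit 255) (nat_lit 5) (nat_lit 239) (nat_lit 5) (nat_lit 394) (nat_lit 375) (nat_lit 251)) (XT.lf (nat_lit 0) (nat_lit 4833548212) (nat_lit 608) (nat_lit 6426871058) (nat_lit 684) (nat_lit 4583090500) (nat_lit 230) (nat_lit 5) (nat_lit 238) (nat_lit 5) (nat_lit 239) (nat_lit 5) (nat_lit 395) (nat_lit 375) (nat_lit 250))))))))
noncomputable def xc181 : XT := (XT.nd (nat_lit 2184) (nat_lit 4484) (nat_lit 0) (XT.nd (nat_lit 1092) (nat_lit 3268) (nat_lit 0) (XT.nd (nat_lit 546) (nat_lit 1520) (nat_lit 0) (XT.nd (nat_lit 234) (nat_lit 1672) (nat_lit 0) (XT.nd (nat_lit 78) (nat_lit 684) (nat_lit 0) (XT.lf (nat_lit 0) (nat_lit 13150160231) (nat_lit 684) (nat_lit 2621743217) (nat_lit 76) (nat_lit 327233975) (nat_lit 230) (nat_lit 5) (nat_lit 239) (nat_lit 5) (nat_lit 231) (nat_lit 5) (nat_lit 396) (nat_lit 375) (nat_lit 249)) (XT.nd (nat_lit 78) (nat_lit 76) (nat_lit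 0) (XT.lf (nat_lit 0) (nat_lit 6062204944) (nat_lit 608) (nat_lit 9145208564) (nat_lit 684) (nat_lit 1151700277) (nat_lit 222) (nat_lit 5) (nat_lit 230) (nat_lit 5) (nat_lit 231) (nat_lit 5) (nat_lit 397) (nat_lit 375) (nat_lit 248)) (XT.lf (nat_lit 0) (nat_lit 701606307) (nat_lit 684) (nat_lit 1583365318) (nat_lit 76) (nat_lit 14341247487) (nat_lit 221) (nat_lit 5) (nat_lit 230) (nat_lit 5) (nat_lit 222) (nat_lit 5) (nat_lit 398) (nat_lit 375) (nat_lit 247)))) (XT.nd (nat_lit 156) (nat_lit 1064) (nat_lit 0) (XT.nd (nat_lit 78) (nat_lit 0) (nat_lit 0) (XT.lf (nat_lit 0) (nat_lit 2695750507) (nat_lit 684) (nat_lit 9429473377) (nat_lit 76) (nat_lit 4772524133) (nat_lit 213) (nat_lit 5) (nat_lit 222) (nat_lit 5) (nat_lit 214) (nat_lit 5) (nat_lit 399) (nat_lit 375) (nat_lit 246)) (XT.lf (nat_lit 0) (nat_lit 4778046847) (nat_lit 684) (nat_lit 386407805) (nat_lit 76) (nat_lit 12012122286) (nat_lit 213) (nat_lit 5)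 (nat_lit 222) (nat_lit 5) (nat_lit 214) (nat_lit 5) (nat_lit 400) (nat_lit 375) (nat_lit 245))) (XT.nd (nat_lit 78) (nat_lit 532) (nat_lit 0) (XT.lf (nat_lit 0) (nat_lit 7020240093) (nat_lit 608) (nat_lit 8386461368) (nat_lit 76) (nat_lit 2054150290) (nat_lit 206) (nat_lit 5) (nat_lit 214) (nat_lit 5) (nat_lit 207) (nat_lit 5) (nat_lit 401) (nat_lit 375) (nat_lit 244)) (XT.lf (nat_lit 0) (nat_lit 1031865411) (nat_lit 532) (nat_lit 8352882634) (nat_lit 608) (nat_lit 8367259050) (nat_lit 199) (nat_lit 5) (nat_lit 206) (nat_lit 5) (nat_lit 207) (nat_lit 5) (nat_lit 402) (nat_lit 375) (nat_lit 243))))) (XT.nd (nat_lit 234) (nat_lit 1064) (nat_lit 0) (XT.nd (nat_lit 78) (nat_lit 456) (nat_lit 0) (XT.lf (nat_lit 0) (nat_lit 10894265211) (nat_lit 532) (nat_lit 1000858759) (nat_lit 608) (nat_lit 6154528790) (nat_lit 199) (nat_lit 5) (nat_lit 206) (nat_lit 5) (nat_lit 207) (nat_lit 5) (nat_lit 403) (nat_lit 375) (nat_lit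 242)) (XT.nd (nat_lit 78) (nat_lit 0) (nat_lit 0) (XT.lf (nat_lit 0) (nat_lit 2674965917) (nat_lit 456) (nat_lit 11885254190) (nat_lit 532) (nat_lit 3793628960) (nat_lit 193) (nat_lit 5) (nat_lit 199) (nat_lit 5) (nat_lit 200) (nat_lit 5) (nat_lit 404) (nat_lit 375) (nat_lit 241)) (XT.lf (nat_lit 0) (nat_lit 12926533315) (nat_lit 456) (nat_lit 4451504903) (nat_lit 532) (nat_lit 1286953406) (nat_lit 193) (nat_lit 5) (nat_lit 199) (nat_lit 5) (nat_lit 200) (nat_lit 5) (nat_lit 405) (nat_lit 375) (nat_lit 240)))) (XT.nd (nat_lit 156) (nat_lit 456) (nat_lit 0) (XT.nd (nat_lit 78) (nat_lit 0) (nat_lit 0) (XT.lf (nat_lit 0) (nat_lit 1335790008) (nat_lit 608) (nat_lit 14448723583) (nat_lit 76) (nat_lit 3198600592) (nat_lit 185) (nat_lit 5) (nat_lit 193) (nat_lit 5) (nat_lit 186) (nat_lit 5) (nat_lit 406) (nat_lit 375) (nat_lit 239)) (XT.lf (nat_lit 0) (nat_lit 4104982392) (nat_lit 608) (nat_lit 4143690008) (nat_lit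 76) (nat_lit 11058919904) (nat_lit 185) (nat_lit 5) (nat_lit 193) (nat_lit 5) (nat_lit 186) (nat_lit 5) (nat_lit 407) (nat_lit 375) (nat_lit 238))) (XT.nd (nat_lit 78) (nat_lit 0) (nat_lit 0) (XT.lf (nat_lit 0) (nat_lit 6589055635) (nat_lit 456) (nat_lit 422831914) (nat_lit 532) (nat_lit 12628281162) (nat_lit 179) (nat_lit 5) (nat_lit 185) (nat_lit 5) (nat_lit 186) (nat_lit 5) (nat_lit 408) (nat_lit 375) (nat_lit 237)) (XT.lf (nat_lit 0) (nat_lit 10113120205) (nat_lit 532) (nat_lit 2336738225) (nat_lit 76) (nat_lit 7529653332) (nat_lit 179) (nat_lit 5) (nat_lit 186) (nat_lit 5) (nat_lit 180) (nat_lit 5) (nat_lit 409) (nat_lit 375) (nat_lit 236)))))) (XT.nd (nat_lit 546) (nat_lit 1520) (nat_lit 0) (XT.nd (nat_lit 234) (nat_lit 912) (nat_lit 0) (XT.nd (nat_lit 78) (nat_lit 380) (nat_lit 0) (XT.lf (nat_lit 0) (nat_lit 8857863241) (nat_lit 456) (nat_lit 4530553321) (nat_lit 532) (nat_lit 6938190617) (nat_lit 173)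 (nat_lit 5) (nat_lit 179) (nat_lit 5) (nat_lit 180) (nat_lit 5) (nat_lit 410) (nat_lit 375) (nat_lit 235)) (XT.nd (nat_lit 78) (nat_lit 380) (nat_lit 0) (XT.lf (nat_lit 0) (nat_lit 16812486037) (nat_lit 532) (nat_lit 292298438) (nat_lit 76) (nat_lit 3577818350) (nat_lit 173) (nat_lit 5) (nat_lit 180) (nat_lit 5) (nat_lit 174) (nat_lit 5) (nat_lit 411) (nat_lit 375) (nat_lit 234)) (XT.lf (nat_lit 0) (nat_lit 11387075319) (nat_lit 380) (nat_lit 9098582473) (nat_lit 456) (nat_lit 559231855) (nat_lit 168) (nat_lit 5) (nat_lit 173) (nat_lit 5) (nat_lit 174) (nat_lit 5) (nat_lit 412) (nat_lit 375) (nat_lit 233)))) (XT.nd (nat_lit 156) (nat_lit 380) (nat_lit 0) (XT.nd (nat_lit 78) (nat_lit 0) (nat_lit 0) (XT.lf (nat_lit 0) (nat_lit 2006816101) (nat_lit 456) (nat_lit 802924890) (nat_lit 532) (nat_lit 18607052649) (nat_lit 161) (nat_lit 5) (nat_lit 167) (nat_lit 5) (nat_lit 168) (nat_lit 5) (nat_lit 413) (nat_lit 375)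 (nat_lit 232)) (XT.lf (nat_lit 0) (nat_lit 6433691016) (nat_lit 532) (nat_lit 7668382763) (nat_lit 76) (nat_lit 7692662908) (nat_lit 161) (nat_lit 5) (nat_lit 168) (nat_lit 5) (nat_lit 162) (nat_lit 5) (nat_lit 414) (nat_lit 375) (nat_lit 231))) (XT.nd (nat_lit 78) (nat_lit 0) (nat_lit 0) (XT.lf (nat_lit 0) (nat_lit 4495628865) (nat_lit 380) (nat_lit 5714361568) (nat_lit 456) (nat_lit 11972721073) (nat_lit 156) (nat_lit 5) (nat_lit 161) (nat_lit 5) (nat_lit 162) (nat_lit 5) (nat_lit 415) (nat_lit 375) (nat_lit 230)) (XT.lf (nat_lit 0) (nat_lit 14198472000) (nat_lit 456) (nat_lit 5436847952) (nat_lit 76) (nat_lit 2944041164) (nat_lit 156) (nat_lit 5) (nat_lit 162) (nat_lit 5) (nat_lit 157) (nat_lit 5) (nat_lit 416) (nat_lit 375) (nat_lit 229))))) (XT.nd (nat_lit 234) (nat_lit 684) (nat_lit 0) (XT.nd (nat_lit 78) (nat_lit 456) (nat_lit 0) (XT.lf (nat_lit 0) (nat_lit 7256481850) (nat_lit 380) (nat_lit 11169248159)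 (nat_lit 456) (nat_lit 4558608814) (nat_lit 151) (nat_lit 5) (nat_lit 156) (nat_lit 5) (nat_lit 157) (nat_lit 5) (nat_lit 417) (nat_lit 375) (nat_lit 228)) (XT.nd (nat_lit 78) (nat_lit 456) (nat_lit 0) (XT.lf (nat_lit 0) (nat_lit 20432719904) (nat_lit 380) (nat_lit 2394897967) (nat_lit 456) (nat_lit 572415833) (nat_lit 151) (nat_lit 5) (nat_lit 156) (nat_lit 5) (nat_lit 157) (nat_lit 5) (nat_lit 418) (nat_lit 375) (nat_lit 227)) (XT.lf (nat_lit 0) (nat_lit 3621954721) (nat_lit 456) (nat_lit 13555027857) (nat_lit 76) (nat_lit 6645473773) (nat_lit 145) (nat_lit 5) (nat_lit 151) (nat_lit 5) (nat_lit 146) (nat_lit 5) (nat_lit 419) (nat_lit 375) (nat_lit 226)))) (XT.nd (nat_lit 156) (nat_lit 304) (nat_lit 0) (XT.nd (nat_lit 78) (nat_lit 380) (nat_lit 0) (XT.lf (nat_lit 0) (nat_lit 7977763758) (nat_lit 456) (nat_lit 335593700) (nat_lit 76) (nat_lit 15942612842) (nat_lit 145) (nat_lit 5) (nat_lit 151) (nat_lit 5) (nat_lit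 146) (nat_lit 5) (nat_lit 420) (nat_lit 375) (nat_lit 225)) (XT.lf (nat_lit 0) (nat_lit 12596809317) (nat_lit 456) (nat_lit 11172382929) (nat_lit 76) (nat_lit 929322513) (nat_lit 140) (nat_lit 5) (nat_lit 146) (nat_lit 5) (nat_lit 141) (nat_lit 5) (nat_lit 421) (nat_lit 375) (nat_lit 224))) (XT.nd (nat_lit 78) (nat_lit 0) (nat_lit 0) (XT.lf (nat_lit 0) (nat_lit 2615936001) (nat_lit 304) (nat_lit 14842793664) (nat_lit 380) (nat_lit 7692478686) (nat_lit 136) (nat_lit 5) (nat_lit 140) (nat_lit 5) (nat_lit 141) (nat_lit 5) (nat_lit 422) (nat_lit 375) (nat_lit 223)) (XT.lf (nat_lit 0) (nat_lit 17037895925) (nat_lit 304) (nat_lit 5534960145) (nat_lit 380) (nat_lit 3041438073) (nat_lit 136) (nat_lit 5) (nat_lit 140) (nat_lit 5) (nat_lit 141) (nat_lit 5) (nat_lit 423) (nat_lit 375) (nat_lit 222))))))) (XT.nd (nat_lit 1092) (nat_lit 1900) (nat_lit 0) (XT.nd (nat_lit 546) (nat_lit 1140) (nat_lit 0) (XT.nd (nat_lit 234)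 (nat_lit 684) (nat_lit 0) (XT.nd (nat_lit 78) (nat_lit 304) (nat_lit 0) (XT.lf (nat_lit 0) (nat_lit 1804932439) (nat_lit 456) (nat_lit 20238439122) (nat_lit 76) (nat_lit 4044700359) (nat_lit 130) (nat_lit 5) (nat_lit 136) (nat_lit 5) (nat_lit 131) (nat_lit 5) (nat_lit 424) (nat_lit 375) (nat_lit 221)) (XT.nd (nat_lit 78) (nat_lit 304) (nat_lit 0) (XT.lf (nat_lit 0) (nat_lit 6871557355) (nat_lit 456) (nat_lit 5783958364) (nat_lit 76) (nat_lit 13915565809) (nat_lit 130) (nat_lit 5) (nat_lit 136) (nat_lit 5) (nat_lit 131) (nat_lit 5) (nat_lit 425) (nat_lit 375) (nat_lit 220)) (XT.lf (nat_lit 0) (nat_lit 9276461693) (nat_lit 304) (nat_lit 2896802308) (nat_lit 380) (nat_lit 14892826573) (nat_lit 126) (nat_lit 5) (nat_lit 130) (nat_lit 5) (nat_lit 131) (nat_lit 5) (nat_lit 426) (nat_lit 375) (nat_lit 219)))) (XT.nd (nat_lit 156) (nat_lit 380) (nat_lit 0) (XT.nd (nat_lit 78) (nat_lit 304) (nat_lit 0) (XT.lf (nat_lit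 0) (nat_lit 17755762898) (nat_lit 380) (nat_lit 2745074216) (nat_lit 76) (nat_lit 7071462139) (nat_lit 126) (nat_lit 5) (nat_lit 131) (nat_lit 5) (nat_lit 127) (nat_lit 5) (nat_lit 427) (nat_lit 375) (nat_lit 218)) (XT.lf (nat_lit 0) (nat_lit 12966634456) (nat_lit 304) (nat_lit 10686583089) (nat_lit 380) (nat_lit 4436053770) (nat_lit 122) (nat_lit 5) (nat_lit 126) (nat_lit 5) (nat_lit 127) (nat_lit 5) (nat_lit 428) (nat_lit 375) (nat_lit 217))) (XT.nd (nat_lit 78) (nat_lit 0) (nat_lit 0) (XT.lf (nat_lit 0) (nat_lit 576835708) (nat_lit 304) (nat_lit 535154756) (nat_lit 380) (nat_lit 27508612846) (nat_lit 117) (nat_lit 5) (nat_lit 121) (nat_lit 5) (nat_lit 122) (nat_lit 5) (nat_lit 429) (nat_lit 375) (nat_lit 216)) (XT.lf (nat_lit 0) (nat_lit 6981149965) (nat_lit 380) (nat_lit 12255424072) (nat_lit 76) (nat_lit 9922669977) (nat_lit 117) (nat_lit 5) (nat_lit 122) (nat_lit 5) (nat_lit 118) (nat_lit 5) (nat_lit 430)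 (nat_lit 375) (nat_lit 215))))) (XT.nd (nat_lit 234) (nat_lit 608) (nat_lit 0) (XT.nd (nat_lit 78) (nat_lit 228) (nat_lit 0) (XT.lf (nat_lit 0) (nat_lit 4072365382) (nat_lit 304) (nat_lit 8992879341) (nat_lit 380) (nat_lit 16647634777) (nat_lit 113) (nat_lit 5) (nat_lit 117) (nat_lit 5) (nat_lit 118) (nat_lit 5) (nat_lit 431) (nat_lit 375) (nat_lit 214)) (XT.nd (nat_lit 78) (nat_lit 228) (nat_lit 0) (XT.lf (nat_lit 0) (nat_lit 19466293032) (nat_lit 380) (nat_lit 9162831460) (nat_lit 76) (nat_lit 1649967970) (nat_lit 113) (nat_lit 5) (nat_lit 118) (nat_lit 5) (nat_lit 114) (nat_lit 5) (nat_lit 432) (nat_lit 375) (nat_lit 213)) (XT.lf (nat_lit 0) (nat_lit 7865442087) (nat_lit 228) (nat_lit 18353209551) (nat_lit 304) (nat_lit 4638863105) (nat_lit 110) (nat_lit 5) (nat_lit 113) (nat_lit 5) (nat_lit 114) (nat_lit 5) (nat_lit 433) (nat_lit 375) (nat_lit 212)))) (XT.nd (nat_lit 156) (nat_lit 228) (nat_lit 0) (XT.nd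 (nat_lit 78) (nat_lit 304) (nat_lit 0) (XT.lf (nat_lit 0) (nat_lit 1774822789) (nat_lit 304) (nat_lit 5883785177) (nat_lit 76) (nat_lit 23791543835) (nat_lit 109) (nat_lit 5) (nat_lit 113) (nat_lit 5) (nat_lit 110) (nat_lit 5) (nat_lit 434) (nat_lit 375) (nat_lit 211)) (XT.lf (nat_lit 0) (nat_lit 8430873686) (nat_lit 380) (nat_lit 20173359788) (nat_lit 76) (nat_lit 3450662072) (nat_lit 105) (nat_lit 5) (nat_lit 110) (nat_lit 5) (nat_lit 106) (nat_lit 5) (nat_lit 435) (nat_lit 375) (nat_lit 210))) (XT.nd (nat_lit 78) (nat_lit 228) (nat_lit 0) (XT.lf (nat_lit 0) (nat_lit 15417298720) (nat_lit 380) (nat_lit 2460009075) (nat_lit 76) (nat_lit 14796554181) (nat_lit 105) (nat_lit 5) (nat_lit 110) (nat_lit 5) (nat_lit 106) (nat_lit 5) (nat_lit 436) (nat_lit 375) (nat_lit 209)) (XT.lf (nat_lit 0) (nat_lit 16090946127) (nat_lit 228) (nat_lit 6672057901) (nat_lit 304) (nat_lit 10543903864) (nat_lit 102) (nat_lit 5) (nat_lit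 105) (nat_lit 5) (nat_lit 106) (nat_lit 5) (nat_lit 437) (nat_lit 375) (nat_lit 208)))))) (XT.nd (nat_lit 546) (nat_lit 836) (nat_lit 0) (XT.nd (nat_lit 234) (nat_lit 532) (nat_lit 0) (XT.nd (nat_lit 78) (nat_lit 304) (nat_lit 0) (XT.lf (nat_lit 0) (nat_lit 1260365228) (nat_lit 228) (nat_lit 29147780861) (nat_lit 304) (nat_lit 3548428212) (nat_lit 99) (nat_lit 5) (nat_lit 102) (nat_lit 5) (nat_lit 103) (nat_lit 5) (nat_lit 438) (nat_lit 375) (nat_lit 207)) (XT.nd (nat_lit 78) (nat_lit 228) (nat_lit 0) (XT.lf (nat_lit 0) (nat_lit 3822256837) (nat_lit 304) (nat_lit 14087412573) (nat_lit 76) (nat_lit 16707906601) (nat_lit 98) (nat_lit 5) (nat_lit 102) (nat_lit 5) (nat_lit 99) (nat_lit 5) (nat_lit 439) (nat_lit 375) (nat_lit 206)) (XT.lf (nat_lit 0) (nat_lit 5137131675) (nat_lit 228) (nat_lit 6250211488) (nat_lit 304) (nat_lit 23908673593) (nat_lit 95) (nat_lit 5) (nat_lit 98) (nat_lit 5) (nat_lit 99) (nat_lit 5)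 (nat_lit 440) (nat_lit 375) (nat_lit 205)))) (XT.nd (nat_lit 156) (nat_lit 304) (nat_lit 0) (XT.nd (nat_lit 78) (nat_lit 228) (nat_lit 0) (XT.lf (nat_lit 0) (nat_lit 19373663842) (nat_lit 304) (nat_lit 10827787920) (nat_lit 76) (nat_lit 5787531475) (nat_lit 95) (nat_lit 5) (nat_lit 99) (nat_lit 5) (nat_lit 96) (nat_lit 5) (nat_lit 441) (nat_lit 375) (nat_lit 204)) (XT.lf (nat_lit 0) (nat_lit 9193309317) (nat_lit 228) (nat_lit 18551916641) (nat_lit 304) (nat_lit 8953144134) (nat_lit 92) (nat_lit 5) (nat_lit 95) (nat_lit 5) (nat_lit 96) (nat_lit 5) (nat_lit 442) (nat_lit 375) (nat_lit 203))) (XT.nd (nat_lit 78) (nat_lit 304) (nat_lit 0) (XT.lf (nat_lit 0) (nat_lit 30029627354) (nat_lit 228) (nat_lit 6443107049) (nat_lit 304) (nat_lit 953161073) (nat_lit 92) (nat_lit 5) (nat_lit 95) (nat_lit 5) (nat_lit 96) (nat_lit 5) (nat_lit 443) (nat_lit 375) (nat_lit 202)) (XT.lf (nat_lit 0) (nat_lit 7329872122) (nat_lit 304)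 (nat_lit 24727322786) (nat_lit 76) (nat_lit 6110393927) (nat_lit 88) (nat_lit 5) (nat_lit 92) (nat_lit 5) (nat_lit 89) (nat_lit 5) (nat_lit 444) (nat_lit 375) (nat_lit 201))))) (XT.nd (nat_lit 312) (nat_lit 380) (nat_lit 0) (XT.nd (nat_lit 156) (nat_lit 228) (nat_lit 0) (XT.nd (nat_lit 78) (nat_lit 228) (nat_lit 0) (XT.lf (nat_lit 0) (nat_lit 15977040865) (nat_lit 304) (nat_lit 3957030436) (nat_lit 76) (nat_lit 18993135342) (nat_lit 88) (nat_lit 5) (nat_lit 92) (nat_lit 5) (nat_lit 89) (nat_lit 5) (nat_lit 445) (nat_lit 375) (nat_lit 200)) (XT.lf (nat_lit 0) (nat_lit 17776179321) (nat_lit 228) (nat_lit 7274031265) (nat_lit 304) (nat_lit 14654405629) (nat_lit 85) (nat_lit 5) (nat_lit 88) (nat_lit 5) (nat_lit 89) (nat_lit 5) (nat_lit 446) (nat_lit 375) (nat_lit 199))) (XT.nd (nat_lit 78) (nat_lit 228) (nat_lit 0) (XT.lf (nat_lit 0) (nat_lit 34487095229) (nat_lit 304) (nat_lit 324569318) (nat_lit 76) (nat_lit 5690938717)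 (nat_lit 85) (nat_lit 5) (nat_lit 89) (nat_lit 5) (nat_lit 86) (nat_lit 5) (nat_lit 447) (nat_lit 375) (nat_lit 198)) (XT.lf (nat_lit 0) (nat_lit 3111186210) (nat_lit 228) (nat_lit 19063241415) (nat_lit 76) (nat_lit 19140725406) (nat_lit 82) (nat_lit 5) (nat_lit 85) (nat_lit 5) (nat_lit 83) (nat_lit 5) (nat_lit 448) (nat_lit 375) (nat_lit 197)))) (XT.nd (nat_lit 156) (nat_lit 152) (nat_lit 0) (XT.nd (nat_lit 78) (nat_lit 0) (nat_lit 0) (XT.lf (nat_lit 0) (nat_lit 3359412853) (nat_lit 228) (nat_lit 9062844556) (nat_lit 304) (nat_lit 29727091359) (nat_lit 79) (nat_lit 5) (nat_lit 82) (nat_lit 5) (nat_lit 83) (nat_lit 5) (nat_lit 449) (nat_lit 375) (nat_lit 196)) (XT.lf (nat_lit 0) (nat_lit 22245674885) (nat_lit 304) (nat_lit 16208813939) (nat_lit 76) (nat_lit 4547091825) (nat_lit 79) (nat_lit 5) (nat_lit 83) (nat_lit 5) (nat_lit 80) (nat_lit 5) (nat_lit 450) (nat_lit 375) (nat_lit 195))) (XT.nd (nat_lit 78) (nat_lit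 0) (nat_lit 0) (XT.lf (nat_lit 0) (nat_lit 7091659320) (nat_lit 152) (nat_lit 25426062063) (nat_lit 228) (nat_lit 11357040984) (nat_lit 77) (nat_lit 5) (nat_lit 79) (nat_lit 5) (nat_lit 80) (nat_lit 5) (nat_lit 451) (nat_lit 375) (nat_lit 194)) (XT.lf (nat_lit 0) (nat_lit 31416742544) (nat_lit 152) (nat_lit 11840941610) (nat_lit 228) (nat_lit 1511663392) (nat_lit 77) (nat_lit 5) (nat_lit 79) (nat_lit 5) (nat_lit 80) (nat_lit 5) (nat_lit 452) (nat_lit 375) (nat_lit 193))))))))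
noncomputable def xc182 : XT := (XT.nd (nat_lit 2184) (nat_lit 228) (nat_lit 0) (XT.nd (nat_lit 1092) (nat_lit 912) (nat_lit 0) (XT.nd (nat_lit 546) (nat_lit 760) (nat_lit 0) (XT.nd (nat_lit 234) (nat_lit 380) (nat_lit 0) (XT.nd (nat_lit 78) (nat_lit 152) (nat_lit 0) (XT.lf (nat_lit 0) (nat_lit 8584178299) (nat_lit 304) (nat_lit 34803684102) (nat_lit 76) (nat_lit 2296715447) (nat_lit 73) (nat_lit 5) (nat_lit 77) (nat_lit 5) (nat_lit 74) (nat_lit 5) (nat_lit 453) (nat_lit 375) (nat_lit 192)) (XT.nd (nat_lit 78) (nat_lit 152) (nat_lit 0) (XT.lf (nat_lit 0) (nat_lit 19202096836) (nat_lit 304) (nat_lit 10648222603) (nat_lit 76) (nat_lit 16769009675) (nat_lit 73) (nat_lit 5) (nat_lit 77) (nat_lit 5) (nat_lit 74) (nat_lit 5) (nat_lit 454) (nat_lit 375) (nat_lit 191)) (XT.lf (nat_lit 0) (nat_lit 14508633628) (nat_lit 152) (nat_lit 15765673856) (nat_lit 228) (nat_lit 17303743380) (nat_lit 71) (nat_lit 5) (nat_lit 73)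 (nat_lit 5) (nat_lit 74) (nat_lit 5) (nat_lit 455) (nat_lit 375) (nat_lit 190)))) (XT.nd (nat_lit 156) (nat_lit 152) (nat_lit 0) (XT.nd (nat_lit 78) (nat_lit 228) (nat_lit 0) (XT.lf (nat_lit 0) (nat_lit 40632151454) (nat_lit 152) (nat_lit 1150395185) (nat_lit 228) (nat_lit 6779872328) (nat_lit 71) (nat_lit 5) (nat_lit 73) (nat_lit 5) (nat_lit 74) (nat_lit 5) (nat_lit 456) (nat_lit 375) (nat_lit 189)) (XT.lf (nat_lit 0) (nat_lit 4288315001) (nat_lit 228) (nat_lit 31431311750) (nat_lit 76) (nat_lit 13846286568) (nat_lit 68) (nat_lit 5) (nat_lit 71) (nat_lit 5) (nat_lit 69) (nat_lit 5) (nat_lit 457) (nat_lit 375) (nat_lit 188))) (XT.nd (nat_lit 78) (nat_lit 152) (nat_lit 0) (XT.lf (nat_lit 0) (nat_lit 15640969815) (nat_lit 228) (nat_lit 5538672200) (nat_lit 76) (nat_lit 29415196464) (nat_lit 68) (nat_lit 5) (nat_lit 71) (nat_lit 5) (nat_lit 69) (nat_lit 5) (nat_lit 458) (nat_lit 375) (nat_lit 187)) (XT.lf (nat_lit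 0) (nat_lit 21545119750) (nat_lit 152) (nat_lit 5992720954) (nat_lit 228) (nat_lit 24110682099) (nat_lit 66) (nat_lit 5) (nat_lit 68) (nat_lit 5) (nat_lit 69) (nat_lit 5) (nat_lit 459) (nat_lit 375) (nat_lit 186))))) (XT.nd (nat_lit 234) (nat_lit 532) (nat_lit 0) (XT.nd (nat_lit 78) (nat_lit 228) (nat_lit 0) (XT.lf (nat_lit 0) (nat_lit 39937411405) (nat_lit 228) (nat_lit 3276559515) (nat_lit 76) (nat_lit 9515473415) (nat_lit 66) (nat_lit 5) (nat_lit 69) (nat_lit 5) (nat_lit 67) (nat_lit 5) (nat_lit 460) (nat_lit 375) (nat_lit 185)) (XT.nd (nat_lit 78) (nat_lit 76) (nat_lit 0) (XT.lf (nat_lit 0) (nat_lit 24773279187) (nat_lit 152) (nat_lit 28229810640) (nat_lit 228) (nat_lit 830880541) (nat_lit 64) (nat_lit 5) (nat_lit 66) (nat_lit 5) (nat_lit 67) (nat_lit 5) (nat_lit 461) (nat_lit 375) (nat_lit 184)) (XT.lf (nat_lit 0) (nat_lit 11294986069) (nat_lit 228) (nat_lit 1355529530) (nat_lit 76) (nat_lit 42316901617)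 (nat_lit 63) (nat_lit 5) (nat_lit 66) (nat_lit 5) (nat_lit 64) (nat_lit 5) (nat_lit 462) (nat_lit 375) (nat_lit 183)))) (XT.nd (nat_lit 156) (nat_lit 228) (nat_lit 0) (XT.nd (nat_lit 78) (nat_lit 152) (nat_lit 0) (XT.lf (nat_lit 0) (nat_lit 24066367221) (nat_lit 228) (nat_lit 28454564551) (nat_lit 76) (nat_lit 3604736181) (nat_lit 61) (nat_lit 5) (nat_lit 64) (nat_lit 5) (nat_lit 62) (nat_lit 5) (nat_lit 463) (nat_lit 375) (nat_lit 182)) (XT.lf (nat_lit 0) (nat_lit 149856787) (nat_lit 152) (nat_lit 37208322471) (nat_lit 228) (nat_lit 19956368693) (nat_lit 59) (nat_lit 5) (nat_lit 61) (nat_lit 5) (nat_lit 62) (nat_lit 5) (nat_lit 464) (nat_lit 375) (nat_lit 181))) (XT.nd (nat_lit 78) (nat_lit 228) (nat_lit 0) (XT.lf (nat_lit 0) (nat_lit 30190011690) (nat_lit 152) (nat_lit 21142881170) (nat_lit 228) (nat_lit 7197677479) (nat_lit 59) (nat_lit 5) (nat_lit 61) (nat_lit 5) (nat_lit 62) (nat_lit 5) (nat_lit 465) (nat_lit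 375) (nat_lit 180)) (XT.lf (nat_lit 0) (nat_lit 1311161490) (nat_lit 152) (nat_lit 4526105935) (nat_lit 228) (nat_lit 53943807983) (nat_lit 56) (nat_lit 5) (nat_lit 58) (nat_lit 5) (nat_lit 59) (nat_lit 5) (nat_lit 466) (nat_lit 375) (nat_lit 179)))))) (XT.nd (nat_lit 546) (nat_lit 456) (nat_lit 0) (XT.nd (nat_lit 234) (nat_lit 304) (nat_lit 0) (XT.nd (nat_lit 78) (nat_lit 152) (nat_lit 0) (XT.lf (nat_lit 0) (nat_lit 19525515006) (nat_lit 228) (nat_lit 28827837075) (nat_lit 76) (nat_lit 12701398383) (nat_lit 56) (nat_lit 5) (nat_lit 59) (nat_lit 5) (nat_lit 57) (nat_lit 5) (nat_lit 467) (nat_lit 375) (nat_lit 178)) (XT.nd (nat_lit 78) (nat_lit 0) (nat_lit 0) (XT.lf (nat_lit 0) (nat_lit 1686153824) (nat_lit 152) (nat_lit 31996256211) (nat_lit 228) (nat_lit 28682486099) (nat_lit 54) (nat_lit 5) (nat_lit 56) (nat_lit 5) (nat_lit 57) (nat_lit 5) (nat_lit 468) (nat_lit 375) (nat_lit 177)) (XT.lf (nat_lit 0) (nat_lit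 33701121910) (nat_lit 152) (nat_lit 14851009619) (nat_lit 228) (nat_lit 15153571410) (nat_lit 54) (nat_lit 5) (nat_lit 56) (nat_lit 5) (nat_lit 57) (nat_lit 5) (nat_lit 469) (nat_lit 375) (nat_lit 176)))) (XT.nd (nat_lit 156) (nat_lit 152) (nat_lit 0) (XT.nd (nat_lit 78) (nat_lit 76) (nat_lit 0) (XT.lf (nat_lit 0) (nat_lit 1588511765) (nat_lit 76) (nat_lit 62318780104) (nat_lit 152) (nat_lit 1178262005) (nat_lit 53) (nat_lit 5) (nat_lit 54) (nat_lit 5) (nat_lit 55) (nat_lit 4) (nat_lit 470) (nat_lit 375) (nat_lit 175)) (XT.lf (nat_lit 0) (nat_lit 13408521258) (nat_lit 152) (nat_lit 32035631095) (nat_lit 76) (nat_lit 21045333640) (nat_lit 52) (nat_lit 5) (nat_lit 54) (nat_lit 5) (nat_lit 53) (nat_lit 5) (nat_lit 471) (nat_lit 375) (nat_lit 174))) (XT.nd (nat_lit 78) (nat_lit 0) (nat_lit 0) (XT.lf (nat_lit 0) (nat_lit 359832853) (nat_lit 152) (nat_lit 28050022405) (nat_lit 228) (nat_lit 39525312279) (nat_lit 50)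 (nat_lit 5) (nat_lit 52) (nat_lit 5) (nat_lit 53) (nat_lit 5) (nat_lit 472) (nat_lit 375) (nat_lit 173)) (XT.lf (nat_lit 0) (nat_lit 34378765123) (nat_lit 152) (nat_lit 9803164869) (nat_lit 228) (nat_lit 25232668817) (nat_lit 50) (nat_lit 5) (nat_lit 52) (nat_lit 5) (nat_lit 53) (nat_lit 5) (nat_lit 473) (nat_lit 375) (nat_lit 172))))) (XT.nd (nat_lit 234) (nat_lit 304) (nat_lit 0) (XT.nd (nat_lit 78) (nat_lit 152) (nat_lit 0) (XT.lf (nat_lit 0) (nat_lit 60510858558) (nat_lit 228) (nat_lit 1611582131) (nat_lit 76) (nat_lit 8813461879) (nat_lit 50) (nat_lit 5) (nat_lit 53) (nat_lit 5) (nat_lit 51) (nat_lit 4) (nat_lit 474) (nat_lit 375) (nat_lit 171)) (XT.nd (nat_lit 78) (nat_lit 0) (nat_lit 0) (XT.lf (nat_lit 0) (nat_lit 5151855701) (nat_lit 152) (nat_lit 39176362852) (nat_lit 76) (nat_lit 28160658179) (nat_lit 48) (nat_lit 5) (nat_lit 50) (nat_lit 5) (nat_lit 49) (nat_lit 5) (nat_lit 475) (nat_lit 375) (nat_lit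 170)) (XT.lf (nat_lit 0) (nat_lit 21000312483) (nat_lit 152) (nat_lit 4878828770) (nat_lit 76) (nat_lit 48205789096) (nat_lit 48) (nat_lit 5) (nat_lit 50) (nat_lit 5) (nat_lit 49) (nat_lit 5) (nat_lit 476) (nat_lit 375) (nat_lit 169)))) (XT.nd (nat_lit 156) (nat_lit 152) (nat_lit 0) (XT.nd (nat_lit 78) (nat_lit 0) (nat_lit 0) (XT.lf (nat_lit 0) (nat_lit 31048780501) (nat_lit 152) (nat_lit 6571327772) (nat_lit 228) (nat_lit 38099881006) (nat_lit 46) (nat_lit 5) (nat_lit 48) (nat_lit 5) (nat_lit 49) (nat_lit 5) (nat_lit 477) (nat_lit 375) (nat_lit 168)) (XT.lf (nat_lit 0) (nat_lit 54913686120) (nat_lit 228) (nat_lit 9381613496) (nat_lit 76) (nat_lit 13103544970) (nat_lit 46) (nat_lit 5) (nat_lit 49) (nat_lit 5) (nat_lit 47) (nat_lit 4) (nat_lit 478) (nat_lit 375) (nat_lit 167))) (XT.nd (nat_lit 78) (nat_lit 76) (nat_lit 0) (XT.lf (nat_lit 0) (nat_lit 27432313995) (nat_lit 76) (nat_lit 45620025794) (nat_lit 152)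 (nat_lit 6065937955) (nat_lit 45) (nat_lit 5) (nat_lit 46) (nat_lit 5) (nat_lit 47) (nat_lit 4) (nat_lit 479) (nat_lit 375) (nat_lit 166)) (XT.lf (nat_lit 0) (nat_lit 10727405104) (nat_lit 152) (nat_lit 15453274546) (nat_lit 76) (nat_lit 54702691138) (nat_lit 44) (nat_lit 5) (nat_lit 46) (nat_lit 5) (nat_lit 45) (nat_lit 5) (nat_lit 480) (nat_lit 375) (nat_lit 165))))))) (XT.nd (nat_lit 45708) (nat_lit 0) (nat_lit 13072) (XT.nd (nat_lit 45162) (nat_lit 0) (nat_lit 16948) (XT.nd (nat_lit 234) (nat_lit 0) (nat_lit 0) (XT.nd (nat_lit 78) (nat_lit 76) (nat_lit 0) (XT.lf (nat_lit 0) (nat_lit 22235769600) (nat_lit 152) (nat_lit 5878189573) (nat_lit 228) (nat_lit 54579316013) (nat_lit 42) (nat_lit 5) (nat_lit 44) (nat_lit 5) (nat_lit 45) (nat_lit 5) (nat_lit 481) (nat_lit 375) (nat_lit 164)) (XT.nd (nat_lit 78) (nat_lit 76) (nat_lit 0) (XT.lf (nat_lit 0) (nat_lit 46321807111) (nat_lit 228) (nat_lit 23331063578) (nat_lit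 76) (nat_lit 14895615327) (nat_lit 42) (nat_lit 5) (nat_lit 45) (nat_lit 5) (nat_lit 43) (nat_lit 4) (nat_lit 482) (nat_lit 375) (nat_lit 163)) (XT.lf (nat_lit 0) (nat_lit 15142103807) (nat_lit 76) (nat_lit 50135206253) (nat_lit 152) (nat_lit 21176000737) (nat_lit 41) (nat_lit 5) (nat_lit 42) (nat_lit 5) (nat_lit 43) (nat_lit 4) (nat_lit 483) (nat_lit 375) (nat_lit 162)))) (XT.nd (nat_lit 44772) (nat_lit 0) (nat_lit 16872) (XT.nd (nat_lit 44694) (nat_lit 0) (nat_lit 16872) (XT.lf (nat_lit 0) (nat_lit 55243427772) (nat_lit 76) (nat_lit 29791339502) (nat_lit 152) (nat_lit 3373514581) (nat_lit 41) (nat_lit 5) (nat_lit 42) (nat_lit 5) (nat_lit 43) (nat_lit 4) (nat_lit 484) (nat_lit 375) (nat_lit 161)) (XT.lf (nat_lit 0) (nat_lit 1038018826) (nat_lit 0) (nat_lit 1038018826) (nat_lit 1140) (nat_lit 3980614235) (nat_lit 263) (nat_lit 5) (nat_lit 263) (nat_lit 3) (nat_lit 278) (nat_lit 3) (nat_lit 376) (nat_lit 376)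 (nat_lit 268))) (XT.nd (nat_lit 78) (nat_lit 0) (nat_lit 0) (XT.lf (nat_lit 0) (nat_lit 4705490217) (nat_lit 1140) (nat_lit 4223953189) (nat_lit 1216) (nat_lit 3350624543) (nat_lit 263) (nat_lit 5) (nat_lit 278) (nat_lit 3) (nat_lit 279) (nat_lit 5) (nat_lit 377) (nat_lit 376) (nat_lit 267)) (XT.lf (nat_lit 76) (nat_lit 1768133791) (nat_lit 0) (nat_lit 3527125399) (nat_lit 1216) (nat_lit 7155991172) (nat_lit 264) (nat_lit 5) (nat_lit 263) (nat_lit 5) (nat_lit 279) (nat_lit 5) (nat_lit 378) (nat_lit 376) (nat_lit 266))))) (XT.nd (nat_lit 234) (nat_lit 0) (nat_lit 76) (XT.nd (nat_lit 78) (nat_lit 0) (nat_lit 0) (XT.lf (nat_lit 0) (nat_lit 5948084186) (nat_lit 1140) (nat_lit 4629808066) (nat_lit 1216) (nat_lit 2048322734) (nat_lit 264) (nat_lit 5) (nat_lit 279) (nat_lit 5) (nat_lit 280) (nat_lit 5) (nat_lit 379) (nat_lit 376) (nat_lit 265)) (XT.nd (nat_lit 78) (nat_lit 0) (nat_lit 76) (XT.lf (nat_lit 76) (nat_lit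 1591442150) (nat_lit 0) (nat_lit 5062479097) (nat_lit 1216) (nat_lit 6151511893) (nat_lit 265) (nat_lit 5) (nat_lit 264) (nat_lit 5) (nat_lit 280) (nat_lit 5) (nat_lit 380) (nat_lit 376) (nat_lit 264)) (XT.lf (nat_lit 0) (nat_lit 7417760410) (nat_lit 1140) (nat_lit 4911053990) (nat_lit 1216) (nat_lit 660115818) (nat_lit 265) (nat_lit 5) (nat_lit 280) (nat_lit 5) (nat_lit 281) (nat_lit 5) (nat_lit 381) (nat_lit 376) (nat_lit 263)))) (XT.nd (nat_lit 156) (nat_lit 0) (nat_lit 76) (XT.nd (nat_lit 78) (nat_lit 0) (nat_lit 0) (XT.lf (nat_lit 76) (nat_lit 1551157182) (nat_lit 0) (nat_lit 6702535201) (nat_lit 1216) (nat_lit 4922771479) (nat_lit 266) (nat_lit 5) (nat_lit 265) (nat_lit 5) (nat_lit 281) (nat_lit 5) (nat_lit 382) (nat_lit 376) (nat_lit 262)) (XT.lf (nat_lit 76) (nat_lit 8298045074) (nat_lit 0) (nat_lit 850759715) (nat_lit 1216) (nat_lit 4219802432) (nat_lit 266) (nat_lit 5) (nat_lit 265) (nat_lit 5) (nat_lit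 281) (nat_lit 5) (nat_lit 383) (nat_lit 376) (nat_lit 261))) (XT.nd (nat_lit 78) (nat_lit 0) (nat_lit 0) (XT.lf (nat_lit 76) (nat_lit 1653240612) (nat_lit 0) (nat_lit 8468196400) (nat_lit 1216) (nat_lit 3443564458) (nat_lit 267) (nat_lit 5) (nat_lit 266) (nat_lit 5) (nat_lit 282) (nat_lit 5) (nat_lit 384) (nat_lit 376) (nat_lit 260)) (XT.lf (nat_lit 76) (nat_lit 8664122428) (nat_lit 0) (nat_lit 2504023917) (nat_lit 1216) (nat_lit 2597800645) (nat_lit 267) (nat_lit 5) (nat_lit 266) (nat_lit 5) (nat_lit 282) (nat_lit 5) (nat_lit 385) (nat_lit 376) (nat_lit 259)))))) (XT.nd (nat_lit 546) (nat_lit 2964) (nat_lit 0) (XT.nd (nat_lit 234) (nat_lit 0) (nat_lit 0) (XT.nd (nat_lit 78) (nat_lit 1140) (nat_lit 0) (XT.lf (nat_lit 76) (nat_lit 1904419923) (nat_lit 0) (nat_lit 10380949170) (nat_lit 1216) (nat_lit 1686384624) (nat_lit 268) (nat_lit 5) (nat_lit 267) (nat_lit 5) (nat_lit 283) (nat_lit 5) (nat_lit 386) (nat_lit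 376) (nat_lit 258)) (XT.nd (nat_lit 78) (nat_lit 1140) (nat_lit 0) (XT.lf (nat_lit 76) (nat_lit 9190077141) (nat_lit 0) (nat_lit 4308239803) (nat_lit 1216) (nat_lit 683557471) (nat_lit 268) (nat_lit 5) (nat_lit 267) (nat_lit 5) (nat_lit 283) (nat_lit 5) (nat_lit 387) (nat_lit 376) (nat_lit 257)) (XT.lf (nat_lit 0) (nat_lit 370322395) (nat_lit 1216) (nat_lit 12088920364) (nat_lit 1292) (nat_lit 1938127354) (nat_lit 252) (nat_lit 5) (nat_lit 268) (nat_lit 5) (nat_lit 269) (nat_lit 5) (nat_lit 388) (nat_lit 376) (nat_lit 256)))) (XT.nd (nat_lit 156) (nat_lit 0) (nat_lit 76) (XT.nd (nat_lit 78) (nat_lit 0) (nat_lit 76) (XT.lf (nat_lit 0) (nat_lit 1522379923) (nat_lit 1216) (nat_lit 4748102178) (nat_lit 1292) (nat_lit 8346242055) (nat_lit 252) (nat_lit 5) (nat_lit 268) (nat_lit 5) (nat_lit 269) (nat_lit 5) (nat_lit 389) (nat_lit 376) (nat_lit 255)) (XT.lf (nat_lit 0) (nat_lit 2724900196) (nat_lit 1216) (nat_lit 11984890649)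 (nat_lit 1292) (nat_lit 132396295) (nat_lit 253) (nat_lit 5) (nat_lit 269) (nat_lit 5) (nat_lit 270) (nat_lit 5) (nat_lit 390) (nat_lit 376) (nat_lit 254))) (XT.nd (nat_lit 78) (nat_lit 0) (nat_lit 0) (XT.lf (nat_lit 0) (nat_lit 4061429429) (nat_lit 1216) (nat_lit 4357744352) (nat_lit 1292) (nat_lit 6652307428) (nat_lit 253) (nat_lit 5) (nat_lit 269) (nat_lit 5) (nat_lit 270) (nat_lit 5) (nat_lit 391) (nat_lit 376) (nat_lit 253)) (XT.lf (nat_lit 76) (nat_lit 3557541047) (nat_lit 0) (nat_lit 1902505054) (nat_lit 1292) (nat_lit 9846953296) (nat_lit 254) (nat_lit 5) (nat_lit 253) (nat_lit 5) (nat_lit 270) (nat_lit 5) (nat_lit 392) (nat_lit 376) (nat_lit 252))))) (XT.nd (nat_lit 312) (nat_lit 1292) (nat_lit 0) (XT.nd (nat_lit 156) (nat_lit 608) (nat_lit 0) (XT.nd (nat_lit 78) (nat_lit 1216) (nat_lit 0) (XT.lf (nat_lit 0) (nat_lit 6979367520) (nat_lit 1216) (nat_lit 3805696388) (nat_lit 76) (nat_lit 4762161733) (nat_lit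 254) (nat_lit 5) (nat_lit 270) (nat_lit 5) (nat_lit 255) (nat_lit 5) (nat_lit 393) (nat_lit 376) (nat_lit 251)) (XT.lf (nat_lit 0) (nat_lit 4433988353) (nat_lit 1216) (nat_lit 4160158976) (nat_lit 1292) (nat_lit 7199019735) (nat_lit 238) (nat_lit 5) (nat_lit 254) (nat_lit 5) (nat_lit 255) (nat_lit 5) (nat_lit 394) (nat_lit 376) (nat_lit 250))) (XT.nd (nat_lit 78) (nat_lit 608) (nat_lit 0) (XT.lf (nat_lit 0) (nat_lit 10310458542) (nat_lit 1292) (nat_lit 3082776319) (nat_lit 76) (nat_lit 2651663845) (nat_lit 238) (nat_lit 5) (nat_lit 255) (nat_lit 5) (nat_lit 239) (nat_lit 5) (nat_lit 395) (nat_lit 376) (nat_lit 249)) (XT.lf (nat_lit 0) (nat_lit 5497979314) (nat_lit 608) (nat_lit 6663323598) (nat_lit 684) (nat_lit 4140392553) (nat_lit 230) (nat_lit 5) (nat_lit 238) (nat_lit 5) (nat_lit 239) (nat_lit 5) (nat_lit 396) (nat_lit 376) (nat_lit 248)))) (XT.nd (nat_lit 156) (nat_lit 684) (nat_lit 0) (XT.nd (nat_lit 78)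 (nat_lit 608) (nat_lit 0) (XT.lf (nat_lit 0) (nat_lit 14090928638) (nat_lit 684) (nat_lit 2179071426) (nat_lit 76) (nat_lit 295502732) (nat_lit 230) (nat_lit 5) (nat_lit 239) (nat_lit 5) (nat_lit 231) (nat_lit 5) (nat_lit 397) (nat_lit 376) (nat_lit 247)) (XT.lf (nat_lit 0) (nat_lit 6760284159) (nat_lit 608) (nat_lit 9438666920) (nat_lit 684) (nat_lit 634662256) (nat_lit 222) (nat_lit 5) (nat_lit 230) (nat_lit 5) (nat_lit 231) (nat_lit 5) (nat_lit 398) (nat_lit 376) (nat_lit 246))) (XT.nd (nat_lit 78) (nat_lit 608) (nat_lit 0) (XT.lf (nat_lit 0) (nat_lit 1247727836) (nat_lit 684) (nat_lit 1119036454) (nat_lit 76) (nat_lit 14742287094) (nat_lit 221) (nat_lit 5) (nat_lit 230) (nat_lit 5) (nat_lit 222) (nat_lit 5) (nat_lit 399) (nat_lit 376) (nat_lit 245)) (XT.lf (nat_lit 0) (nat_lit 3291199389) (nat_lit 684) (nat_lit 9189834567) (nat_lit 76) (nat_lit 4908012997) (nat_lit 213) (nat_lit 5) (nat_lit 222) (nat_lit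 5) (nat_lit 214) (nat_lit 5) (nat_lit 400) (nat_lit 376) (nat_lit 244))))))))
noncomputable def xc183 : XT := (XT.nd (nat_lit 2262) (nat_lit 4104) (nat_lit 0) (XT.nd (nat_lit 1092) (nat_lit 2964) (nat_lit 0) (XT.nd (nat_lit 546) (nat_lit 1824) (nat_lit 0) (XT.nd (nat_lit 234) (nat_lit 1064) (nat_lit 0) (XT.nd (nat_lit 78) (nat_lit 532) (nat_lit 0) (XT.lf (nat_lit 0) (nat_lit 111479217) (nat_lit 532) (nat_lit 5310569347) (nat_lit 608) (nat_lit 12254615373) (nat_lit 206) (nat_lit 5) (nat_lit 213) (nat_lit 5) (nat_lit 214) (nat_lit 5) (nat_lit 401) (nat_lit 376) (nat_lit 243)) (XT.nd (nat_lit 78) (nat_lit 532) (nat_lit 0) (XT.lf (nat_lit 0) (nat_lit 7720833392) (nat_lit 608) (nat_lit 8120963754) (nat_lit 76) (nat_lit 2127995623) (nat_lit 206) (nat_lit 5) (nat_lit 214) (nat_lit 5) (nat_lit 207) (nat_lit 5) (nat_lit 402) (nat_lit 376) (nat_lit 242)) (XT.lf (nat_lit 0) (nat_lit 1574843304) (nat_lit 532) (nat_lit 8572083707)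 (nat_lit 608) (nat_lit 8123041637) (nat_lit 199) (nat_lit 5) (nat_lit 206) (nat_lit 5) (nat_lit 207) (nat_lit 5) (nat_lit 403) (nat_lit 376) (nat_lit 241)))) (XT.nd (nat_lit 156) (nat_lit 608) (nat_lit 0) (XT.nd (nat_lit 78) (nat_lit 456) (nat_lit 0) (XT.lf (nat_lit 0) (nat_lit 11718201839) (nat_lit 532) (nat_lit 1000413254) (nat_lit 608) (nat_lit 5858353795) (nat_lit 199) (nat_lit 5) (nat_lit 206) (nat_lit 5) (nat_lit 207) (nat_lit 5) (nat_lit 404) (nat_lit 376) (nat_lit 240)) (XT.lf (nat_lit 0) (nat_lit 3261194415) (nat_lit 456) (nat_lit 12194026479) (nat_lit 532) (nat_lit 3435328564) (nat_lit 193) (nat_lit 5) (nat_lit 199) (nat_lit 5) (nat_lit 200) (nat_lit 5) (nat_lit 405) (nat_lit 376) (nat_lit 239))) (XT.nd (nat_lit 78) (nat_lit 608) (nat_lit 0) (XT.lf (nat_lit 0) (nat_lit 13805571567) (nat_lit 456) (nat_lit 4538656520) (nat_lit 532) (nat_lit 867203498) (nat_lit 193) (nat_lit 5) (nat_lit 199) (nat_lit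 5) (nat_lit 200) (nat_lit 5) (nat_lit 406) (nat_lit 376) (nat_lit 238)) (XT.lf (nat_lit 0) (nat_lit 1817473216) (nat_lit 608) (nat_lit 14373879602) (nat_lit 76) (nat_lit 3347851613) (nat_lit 185) (nat_lit 5) (nat_lit 193) (nat_lit 5) (nat_lit 186) (nat_lit 5) (nat_lit 407) (nat_lit 376) (nat_lit 237))))) (XT.nd (nat_lit 234) (nat_lit 1368) (nat_lit 0) (XT.nd (nat_lit 78) (nat_lit 456) (nat_lit 0) (XT.lf (nat_lit 0) (nat_lit 4656878959) (nat_lit 608) (nat_lit 3774500040) (nat_lit 76) (nat_lit 11442428281) (nat_lit 185) (nat_lit 5) (nat_lit 193) (nat_lit 5) (nat_lit 186) (nat_lit 5) (nat_lit 408) (nat_lit 376) (nat_lit 236)) (XT.nd (nat_lit 78) (nat_lit 0) (nat_lit 0) (XT.lf (nat_lit 0) (nat_lit 7275389731) (nat_lit 456) (nat_lit 367811082) (nat_lit 532) (nat_lit 12573398258) (nat_lit 179) (nat_lit 5) (nat_lit 185) (nat_lit 5) (nat_lit 186) (nat_lit 5) (nat_lit 409) (nat_lit 376) (nat_lit 235)) (XT.lf (nat_lit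 0) (nat_lit 10825841449) (nat_lit 532) (nat_lit 1920640082) (nat_lit 76) (nat_lit 7819994005) (nat_lit 179) (nat_lit 5) (nat_lit 186) (nat_lit 5) (nat_lit 180) (nat_lit 5) (nat_lit 410) (nat_lit 376) (nat_lit 234)))) (XT.nd (nat_lit 156) (nat_lit 532) (nat_lit 0) (XT.nd (nat_lit 78) (nat_lit 380) (nat_lit 0) (XT.lf (nat_lit 0) (nat_lit 9605032758) (nat_lit 456) (nat_lit 4587069609) (nat_lit 532) (nat_lit 6732104407) (nat_lit 173) (nat_lit 5) (nat_lit 179) (nat_lit 5) (nat_lit 180) (nat_lit 5) (nat_lit 411) (nat_lit 376) (nat_lit 233)) (XT.lf (nat_lit 0) (nat_lit 180977723) (nat_lit 380) (nat_lit 17528687177) (nat_lit 456) (nat_lit 3581498269) (nat_lit 168) (nat_lit 5) (nat_lit 173) (nat_lit 5) (nat_lit 174) (nat_lit 5) (nat_lit 412) (nat_lit 376) (nat_lit 232))) (XT.nd (nat_lit 78) (nat_lit 532) (nat_lit 0) (XT.lf (nat_lit 0) (nat_lit 12202509857) (nat_lit 380) (nat_lit 9281946720) (nat_lit 456) (nat_lit 180123166)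 (nat_lit 168) (nat_lit 5) (nat_lit 173) (nat_lit 5) (nat_lit 174) (nat_lit 5) (nat_lit 413) (nat_lit 376) (nat_lit 231)) (XT.lf (nat_lit 0) (nat_lit 2543971672) (nat_lit 456) (nat_lit 731501138) (nat_lit 532) (nat_lit 18772259177) (nat_lit 161) (nat_lit 5) (nat_lit 167) (nat_lit 5) (nat_lit 168) (nat_lit 5) (nat_lit 414) (nat_lit 376) (nat_lit 230)))))) (XT.nd (nat_lit 546) (nat_lit 1368) (nat_lit 0) (XT.nd (nat_lit 234) (nat_lit 1216) (nat_lit 0) (XT.nd (nat_lit 78) (nat_lit 380) (nat_lit 0) (XT.lf (nat_lit 0) (nat_lit 6997922819) (nat_lit 532) (nat_lit 7425037707) (nat_lit 76) (nat_lit 8014362916) (nat_lit 161) (nat_lit 5) (nat_lit 168) (nat_lit 5) (nat_lit 162) (nat_lit 5) (nat_lit 415) (nat_lit 376) (nat_lit 229)) (XT.nd (nat_lit 78) (nat_lit 0) (nat_lit 0) (XT.lf (nat_lit 0) (nat_lit 5099253127) (nat_lit 380) (nat_lit 5781951791) (nat_lit 456) (nat_lit 11955925235) (nat_lit 156) (nat_lit 5) (nat_lit 161)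 (nat_lit 5) (nat_lit 162) (nat_lit 5) (nat_lit 416) (nat_lit 376) (nat_lit 228)) (XT.lf (nat_lit 0) (nat_lit 14979681452) (nat_lit 456) (nat_lit 5135079686) (nat_lit 76) (nat_lit 3131211253) (nat_lit 156) (nat_lit 5) (nat_lit 162) (nat_lit 5) (nat_lit 157) (nat_lit 5) (nat_lit 417) (nat_lit 376) (nat_lit 227)))) (XT.nd (nat_lit 156) (nat_lit 836) (nat_lit 0) (XT.nd (nat_lit 78) (nat_lit 0) (nat_lit 0) (XT.lf (nat_lit 0) (nat_lit 7934492425) (nat_lit 380) (nat_lit 11393342377) (nat_lit 456) (nat_lit 4335445561) (nat_lit 151) (nat_lit 5) (nat_lit 156) (nat_lit 5) (nat_lit 157) (nat_lit 5) (nat_lit 418) (nat_lit 376) (nat_lit 226)) (XT.lf (nat_lit 0) (nat_lit 21492610354) (nat_lit 380) (nat_lit 2358994200) (nat_lit 456) (nat_lit 240149941) (nat_lit 151) (nat_lit 5) (nat_lit 156) (nat_lit 5) (nat_lit 157) (nat_lit 5) (nat_lit 419) (nat_lit 376) (nat_lit 225))) (XT.nd (nat_lit 78) (nat_lit 380) (nat_lit 0) (XT.lf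 (nat_lit 0) (nat_lit 4068654096) (nat_lit 456) (nat_lit 13503170383) (nat_lit 76) (nat_lit 6955064920) (nat_lit 145) (nat_lit 5) (nat_lit 151) (nat_lit 5) (nat_lit 146) (nat_lit 5) (nat_lit 420) (nat_lit 376) (nat_lit 224)) (XT.lf (nat_lit 0) (nat_lit 101472276) (nat_lit 380) (nat_lit 8444794695) (nat_lit 456) (nat_lit 16427410805) (nat_lit 140) (nat_lit 5) (nat_lit 145) (nat_lit 5) (nat_lit 146) (nat_lit 5) (nat_lit 421) (nat_lit 376) (nat_lit 223))))) (XT.nd (nat_lit 312) (nat_lit 608) (nat_lit 0) (XT.nd (nat_lit 156) (nat_lit 456) (nat_lit 0) (XT.nd (nat_lit 78) (nat_lit 304) (nat_lit 0) (XT.lf (nat_lit 0) (nat_lit 13298720032) (nat_lit 456) (nat_lit 11058118555) (nat_lit 76) (nat_lit 1072817708) (nat_lit 140) (nat_lit 5) (nat_lit 146) (nat_lit 5) (nat_lit 141) (nat_lit 5) (nat_lit 422) (nat_lit 376) (nat_lit 222)) (XT.lf (nat_lit 0) (nat_lit 3139443709) (nat_lit 304) (nat_lit 15161895098) (nat_lit 380) (nat_lit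 7594749393) (nat_lit 136) (nat_lit 5) (nat_lit 140) (nat_lit 5) (nat_lit 141) (nat_lit 5) (nat_lit 423) (nat_lit 376) (nat_lit 221))) (XT.nd (nat_lit 78) (nat_lit 456) (nat_lit 0) (XT.lf (nat_lit 0) (nat_lit 17981100403) (nat_lit 304) (nat_lit 5578501788) (nat_lit 380) (nat_lit 2813745630) (nat_lit 136) (nat_lit 5) (nat_lit 140) (nat_lit 5) (nat_lit 141) (nat_lit 5) (nat_lit 424) (nat_lit 376) (nat_lit 220)) (XT.lf (nat_lit 0) (nat_lit 2168071031) (nat_lit 456) (nat_lit 20403410706) (nat_lit 76) (nat_lit 4289879360) (nat_lit 130) (nat_lit 5) (nat_lit 136) (nat_lit 5) (nat_lit 131) (nat_lit 5) (nat_lit 425) (nat_lit 376) (nat_lit 219)))) (XT.nd (nat_lit 156) (nat_lit 304) (nat_lit 0) (XT.nd (nat_lit 78) (nat_lit 304) (nat_lit 0) (XT.lf (nat_lit 0) (nat_lit 7377694968) (nat_lit 456) (nat_lit 5528174600) (nat_lit 76) (nat_lit 14453263841) (nat_lit 130) (nat_lit 5) (nat_lit 136) (nat_lit 5) (nat_lit 131) (nat_lit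 5) (nat_lit 426) (nat_lit 376) (nat_lit 218)) (XT.lf (nat_lit 0) (nat_lit 9979849210) (nat_lit 304) (nat_lit 2853952264) (nat_lit 380) (nat_lit 15035333147) (nat_lit 126) (nat_lit 5) (nat_lit 130) (nat_lit 5) (nat_lit 131) (nat_lit 5) (nat_lit 427) (nat_lit 376) (nat_lit 217))) (XT.nd (nat_lit 78) (nat_lit 304) (nat_lit 0) (XT.lf (nat_lit 0) (nat_lit 18576384163) (nat_lit 380) (nat_lit 2407246772) (nat_lit 76) (nat_lit 7407122647) (nat_lit 126) (nat_lit 5) (nat_lit 131) (nat_lit 5) (nat_lit 127) (nat_lit 5) (nat_lit 428) (nat_lit 376) (nat_lit 216)) (XT.lf (nat_lit 0) (nat_lit 13771693752) (nat_lit 304) (nat_lit 10874681278) (nat_lit 380) (nat_lit 4276993618) (nat_lit 122) (nat_lit 5) (nat_lit 126) (nat_lit 5) (nat_lit 127) (nat_lit 5) (nat_lit 429) (nat_lit 376) (nat_lit 215))))))) (XT.nd (nat_lit 1092) (nat_lit 1824) (nat_lit 0) (XT.nd (nat_lit 546) (nat_lit 988) (nat_lit 0) (XT.nd (nat_lit 234) (nat_lit 608)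 (nat_lit 0) (XT.nd (nat_lit 78) (nat_lit 304) (nat_lit 0) (XT.lf (nat_lit 0) (nat_lit 1011837987) (nat_lit 304) (nat_lit 415625437) (nat_lit 380) (nat_lit 28043224858) (nat_lit 117) (nat_lit 5) (nat_lit 121) (nat_lit 5) (nat_lit 122) (nat_lit 5) (nat_lit 430) (nat_lit 376) (nat_lit 214)) (XT.nd (nat_lit 78) (nat_lit 304) (nat_lit 0) (XT.lf (nat_lit 0) (nat_lit 7465746174) (nat_lit 380) (nat_lit 12210536289) (nat_lit 76) (nat_lit 10349416320) (nat_lit 117) (nat_lit 5) (nat_lit 122) (nat_lit 5) (nat_lit 118) (nat_lit 5) (nat_lit 431) (nat_lit 376) (nat_lit 213)) (XT.lf (nat_lit 0) (nat_lit 4603042235) (nat_lit 304) (nat_lit 9125233930) (nat_lit 380) (nat_lit 16867791769) (nat_lit 113) (nat_lit 5) (nat_lit 117) (nat_lit 5) (nat_lit 118) (nat_lit 5) (nat_lit 432) (nat_lit 376) (nat_lit 212)))) (XT.nd (nat_lit 156) (nat_lit 380) (nat_lit 0) (XT.nd (nat_lit 78) (nat_lit 228) (nat_lit 0) (XT.lf (nat_lit 0) (nat_lit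 20314743162) (nat_lit 380) (nat_lit 9034432166) (nat_lit 76) (nat_lit 1830292254) (nat_lit 113) (nat_lit 5) (nat_lit 118) (nat_lit 5) (nat_lit 114) (nat_lit 5) (nat_lit 433) (nat_lit 376) (nat_lit 211)) (XT.lf (nat_lit 0) (nat_lit 8500735820) (nat_lit 228) (nat_lit 18765072557) (nat_lit 304) (nat_lit 4509551937) (nat_lit 110) (nat_lit 5) (nat_lit 113) (nat_lit 5) (nat_lit 114) (nat_lit 5) (nat_lit 434) (nat_lit 376) (nat_lit 210))) (XT.nd (nat_lit 78) (nat_lit 304) (nat_lit 0) (XT.lf (nat_lit 0) (nat_lit 2083638450) (nat_lit 304) (nat_lit 5667454484) (nat_lit 76) (nat_lit 24634837894) (nat_lit 109) (nat_lit 5) (nat_lit 113) (nat_lit 5) (nat_lit 110) (nat_lit 5) (nat_lit 435) (nat_lit 376) (nat_lit 209)) (XT.lf (nat_lit 0) (nat_lit 8936984439) (nat_lit 380) (nat_lit 20383273200) (nat_lit 76) (nat_lit 3688632539) (nat_lit 105) (nat_lit 5) (nat_lit 110) (nat_lit 5) (nat_lit 106) (nat_lit 5) (nat_lit 436) (nat_lit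 376) (nat_lit 208))))) (XT.nd (nat_lit 234) (nat_lit 532) (nat_lit 0) (XT.nd (nat_lit 78) (nat_lit 456) (nat_lit 0) (XT.lf (nat_lit 0) (nat_lit 16125627917) (nat_lit 380) (nat_lit 2150035191) (nat_lit 76) (nat_lit 15370985374) (nat_lit 105) (nat_lit 5) (nat_lit 110) (nat_lit 5) (nat_lit 106) (nat_lit 5) (nat_lit 437) (nat_lit 376) (nat_lit 207)) (XT.nd (nat_lit 78) (nat_lit 228) (nat_lit 0) (XT.lf (nat_lit 0) (nat_lit 16953686175) (nat_lit 228) (nat_lit 6734511592) (nat_lit 304) (nat_lit 10610594810) (nat_lit 102) (nat_lit 5) (nat_lit 105) (nat_lit 5) (nat_lit 106) (nat_lit 5) (nat_lit 438) (nat_lit 376) (nat_lit 206)) (XT.lf (nat_lit 0) (nat_lit 1680402251) (nat_lit 228) (nat_lit 29880193821) (nat_lit 304) (nat_lit 3407417403) (nat_lit 99) (nat_lit 5) (nat_lit 102) (nat_lit 5) (nat_lit 103) (nat_lit 5) (nat_lit 439) (nat_lit 376) (nat_lit 205)))) (XT.nd (nat_lit 156) (nat_lit 228) (nat_lit 0) (XT.nd (nat_lit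 78) (nat_lit 228) (nat_lit 0) (XT.lf (nat_lit 0) (nat_lit 4172492258) (nat_lit 304) (nat_lit 14134204514) (nat_lit 76) (nat_lit 17342290578) (nat_lit 98) (nat_lit 5) (nat_lit 102) (nat_lit 5) (nat_lit 99) (nat_lit 5) (nat_lit 440) (nat_lit 376) (nat_lit 204)) (XT.lf (nat_lit 0) (nat_lit 5663391449) (nat_lit 228) (nat_lit 6297855824) (nat_lit 304) (nat_lit 24386633989) (nat_lit 95) (nat_lit 5) (nat_lit 98) (nat_lit 5) (nat_lit 99) (nat_lit 5) (nat_lit 441) (nat_lit 376) (nat_lit 203))) (XT.nd (nat_lit 78) (nat_lit 228) (nat_lit 0) (XT.lf (nat_lit 0) (nat_lit 20181697304) (nat_lit 304) (nat_lit 10785808565) (nat_lit 76) (nat_lit 6094296058) (nat_lit 95) (nat_lit 5) (nat_lit 99) (nat_lit 5) (nat_lit 96) (nat_lit 5) (nat_lit 442) (nat_lit 376) (nat_lit 202)) (XT.lf (nat_lit 0) (nat_lit 9832325383) (nat_lit 228) (nat_lit 18968965851) (nat_lit 304) (nat_lit 8991273947) (nat_lit 92) (nat_lit 5) (nat_lit 95) (nat_lit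 5) (nat_lit 96) (nat_lit 5) (nat_lit 443) (nat_lit 376) (nat_lit 201)))))) (XT.nd (nat_lit 546) (nat_lit 836) (nat_lit 0) (XT.nd (nat_lit 234) (nat_lit 684) (nat_lit 0) (XT.nd (nat_lit 78) (nat_lit 304) (nat_lit 0) (XT.lf (nat_lit 0) (nat_lit 31283153832) (nat_lit 228) (nat_lit 6500955320) (nat_lit 304) (nat_lit 758003953) (nat_lit 92) (nat_lit 5) (nat_lit 95) (nat_lit 5) (nat_lit 96) (nat_lit 5) (nat_lit 444) (nat_lit 376) (nat_lit 200)) (XT.nd (nat_lit 78) (nat_lit 0) (nat_lit 0) (XT.lf (nat_lit 0) (nat_lit 7767481033) (nat_lit 304) (nat_lit 25110382460) (nat_lit 76) (nat_lit 6428180664) (nat_lit 88) (nat_lit 5) (nat_lit 92) (nat_lit 5) (nat_lit 89) (nat_lit 5) (nat_lit 445) (nat_lit 376) (nat_lit 199)) (XT.lf (nat_lit 0) (nat_lit 16667723691) (nat_lit 304) (nat_lit 3727430660) (nat_lit 76) (nat_lit 19693487577) (nat_lit 88) (nat_lit 5) (nat_lit 92) (nat_lit 5) (nat_lit 89) (nat_lit 5) (nat_lit 446) (nat_lit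 376) (nat_lit 198)))) (XT.nd (nat_lit 156) (nat_lit 304) (nat_lit 0) (XT.nd (nat_lit 78) (nat_lit 152) (nat_lit 0) (XT.lf (nat_lit 0) (nat_lit 18654360579) (nat_lit 228) (nat_lit 7355886820) (nat_lit 304) (nat_lit 14879212779) (nat_lit 85) (nat_lit 5) (nat_lit 88) (nat_lit 5) (nat_lit 89) (nat_lit 5) (nat_lit 447) (nat_lit 376) (nat_lit 197)) (XT.lf (nat_lit 0) (nat_lit 5489631) (nat_lit 152) (nat_lit 35720000664) (nat_lit 228) (nat_lit 5986040116) (nat_lit 83) (nat_lit 5) (nat_lit 85) (nat_lit 5) (nat_lit 86) (nat_lit 5) (nat_lit 448) (nat_lit 376) (nat_lit 196))) (XT.nd (nat_lit 78) (nat_lit 228) (nat_lit 0) (XT.lf (nat_lit 0) (nat_lit 3407576721) (nat_lit 228) (nat_lit 19294703510) (nat_lit 76) (nat_lit 19846200411) (nat_lit 82) (nat_lit 5) (nat_lit 85) (nat_lit 5) (nat_lit 83) (nat_lit 5) (nat_lit 449) (nat_lit 376) (nat_lit 195)) (XT.lf (nat_lit 0) (nat_lit 3797292787) (nat_lit 228) (nat_lit 9198013436)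 (nat_lit 304) (nat_lit 30412477272) (nat_lit 79) (nat_lit 5) (nat_lit 82) (nat_lit 5) (nat_lit 83) (nat_lit 5) (nat_lit 450) (nat_lit 376) (nat_lit 194))))) (XT.nd (nat_lit 312) (nat_lit 380) (nat_lit 0) (XT.nd (nat_lit 156) (nat_lit 304) (nat_lit 0) (XT.nd (nat_lit 78) (nat_lit 152) (nat_lit 0) (XT.lf (nat_lit 0) (nat_lit 23108865804) (nat_lit 304) (nat_lit 16363205462) (nat_lit 76) (nat_lit 4813648877) (nat_lit 79) (nat_lit 5) (nat_lit 83) (nat_lit 5) (nat_lit 80) (nat_lit 5) (nat_lit 451) (nat_lit 376) (nat_lit 193)) (XT.lf (nat_lit 0) (nat_lit 7633028338) (nat_lit 152) (nat_lit 26053500734) (nat_lit 228) (nat_lit 11498645551) (nat_lit 77) (nat_lit 5) (nat_lit 79) (nat_lit 5) (nat_lit 80) (nat_lit 5) (nat_lit 452) (nat_lit 376) (nat_lit 192))) (XT.nd (nat_lit 78) (nat_lit 304) (nat_lit 0) (XT.lf (nat_lit 0) (nat_lit 32678292625) (nat_lit 152) (nat_lit 12064768701) (nat_lit 228) (nat_lit 1363705854) (nat_lit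 77) (nat_lit 5) (nat_lit 79) (nat_lit 5) (nat_lit 80) (nat_lit 5) (nat_lit 453) (nat_lit 376) (nat_lit 191)) (XT.lf (nat_lit 0) (nat_lit 9030066134) (nat_lit 304) (nat_lit 35523741798) (nat_lit 76) (nat_lit 2495626786) (nat_lit 73) (nat_lit 5) (nat_lit 77) (nat_lit 5) (nat_lit 74) (nat_lit 5) (nat_lit 454) (nat_lit 376) (nat_lit 190)))) (XT.nd (nat_lit 156) (nat_lit 228) (nat_lit 0) (XT.nd (nat_lit 78) (nat_lit 152) (nat_lit 0) (XT.lf (nat_lit 0) (nat_lit 19961035941) (nat_lit 304) (nat_lit 10653054886) (nat_lit 76) (nat_lit 17398303147) (nat_lit 73) (nat_lit 5) (nat_lit 77) (nat_lit 5) (nat_lit 74) (nat_lit 5) (nat_lit 455) (nat_lit 376) (nat_lit 189)) (XT.lf (nat_lit 0) (nat_lit 15255422577) (nat_lit 152) (nat_lit 16107658457) (nat_lit 228) (nat_lit 17636867135) (nat_lit 71) (nat_lit 5) (nat_lit 73) (nat_lit 5) (nat_lit 74) (nat_lit 5) (nat_lit 456) (nat_lit 376) (nat_lit 188))) (XT.nd (nat_lit 78) (nat_lit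 228) (nat_lit 0) (XT.lf (nat_lit 0) (nat_lit 42153572251) (nat_lit 152) (nat_lit 1057736540) (nat_lit 228) (nat_lit 6802697094) (nat_lit 71) (nat_lit 5) (nat_lit 73) (nat_lit 5) (nat_lit 74) (nat_lit 5) (nat_lit 457) (nat_lit 376) (nat_lit 187)) (XT.lf (nat_lit 0) (nat_lit 4593000564) (nat_lit 228) (nat_lit 32067207743) (nat_lit 76) (nat_lit 14387375804) (nat_lit 68) (nat_lit 5) (nat_lit 71) (nat_lit 5) (nat_lit 69) (nat_lit 5) (nat_lit 458) (nat_lit 376) (nat_lit 186))))))))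
noncomputable def xc184 : XT := (XT.nd (nat_lit 46956) (nat_lit 0) (nat_lit 10868) (XT.nd (nat_lit 1092) (nat_lit 760) (nat_lit 0) (XT.nd (nat_lit 546) (nat_lit 532) (nat_lit 0) (XT.nd (nat_lit 234) (nat_lit 532) (nat_lit 0) (XT.nd (nat_lit 78) (nat_lit 152) (nat_lit 0) (XT.lf (nat_lit 0) (nat_lit 16281107756) (nat_lit 228) (nat_lit 5406732017) (nat_lit 76) (nat_lit 30419691814) (nat_lit 68) (nat_lit 5) (nat_lit 71) (nat_lit 5) (nat_lit 69) (nat_lit 5) (nat_lit 459) (nat_lit 376) (nat_lit 185)) (XT.nd (nat_lit 78) (nat_lit 0) (nat_lit 0) (XT.lf (nat_lit 0) (nat_lit 22486651139) (nat_lit 152) (nat_lit 6046093135) (nat_lit 228) (nat_lit 24660147103) (nat_lit 66) (nat_lit 5) (nat_lit 68) (nat_lit 5) (nat_lit 69) (nat_lit 5) (nat_lit 460) (nat_lit 376) (nat_lit 184)) (XT.lf (nat_lit 0) (nat_lit 41300566246) (nat_lit 228) (nat_lit 3084516707) (nat_lit 76) (nat_lit 9921270379) (nat_lit 66) (nat_lit 5) (nat_lit 69)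 (nat_lit 5) (nat_lit 67) (nat_lit 5) (nat_lit 461) (nat_lit 376) (nat_lit 183)))) (XT.nd (nat_lit 156) (nat_lit 304) (nat_lit 0) (XT.nd (nat_lit 78) (nat_lit 76) (nat_lit 0) (XT.lf (nat_lit 0) (nat_lit 25803970690) (nat_lit 152) (nat_lit 28952201119) (nat_lit 228) (nat_lit 687905314) (nat_lit 64) (nat_lit 5) (nat_lit 66) (nat_lit 5) (nat_lit 67) (nat_lit 5) (nat_lit 462) (nat_lit 376) (nat_lit 182)) (XT.lf (nat_lit 0) (nat_lit 11793666018) (nat_lit 228) (nat_lit 1113873560) (nat_lit 76) (nat_lit 43704083866) (nat_lit 63) (nat_lit 5) (nat_lit 66) (nat_lit 5) (nat_lit 64) (nat_lit 5) (nat_lit 463) (nat_lit 376) (nat_lit 181))) (XT.nd (nat_lit 78) (nat_lit 152) (nat_lit 0) (XT.lf (nat_lit 0) (nat_lit 24947390370) (nat_lit 228) (nat_lit 29025060643) (nat_lit 76) (nat_lit 3832195261) (nat_lit 61) (nat_lit 5) (nat_lit 64) (nat_lit 5) (nat_lit 62) (nat_lit 5) (nat_lit 464) (nat_lit 376) (nat_lit 180)) (XT.lf (nat_lit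 0) (nat_lit 434717444) (nat_lit 152) (nat_lit 38201302359) (nat_lit 228) (nat_lit 20393231581) (nat_lit 59) (nat_lit 5) (nat_lit 61) (nat_lit 5) (nat_lit 62) (nat_lit 5) (nat_lit 465) (nat_lit 376) (nat_lit 179))))) (XT.nd (nat_lit 234) (nat_lit 304) (nat_lit 0) (XT.nd (nat_lit 78) (nat_lit 228) (nat_lit 0) (XT.lf (nat_lit 0) (nat_lit 31367911025) (nat_lit 152) (nat_lit 21657488202) (nat_lit 228) (nat_lit 7256493073) (nat_lit 59) (nat_lit 5) (nat_lit 61) (nat_lit 5) (nat_lit 62) (nat_lit 5) (nat_lit 466) (nat_lit 376) (nat_lit 178)) (XT.nd (nat_lit 78) (nat_lit 0) (nat_lit 0) (XT.lf (nat_lit 0) (nat_lit 1623081325) (nat_lit 152) (nat_lit 4541486373) (nat_lit 228) (nat_lit 55405356066) (nat_lit 56) (nat_lit 5) (nat_lit 58) (nat_lit 5) (nat_lit 59) (nat_lit 5) (nat_lit 467) (nat_lit 376) (nat_lit 177)) (XT.lf (nat_lit 0) (nat_lit 20260153888) (nat_lit 228) (nat_lit 29424699845) (nat_lit 76) (nat_lit 13197055140)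 (nat_lit 56) (nat_lit 5) (nat_lit 59) (nat_lit 5) (nat_lit 57) (nat_lit 5) (nat_lit 468) (nat_lit 376) (nat_lit 176)))) (XT.nd (nat_lit 156) (nat_lit 152) (nat_lit 0) (XT.nd (nat_lit 78) (nat_lit 0) (nat_lit 0) (XT.lf (nat_lit 0) (nat_lit 2002083601) (nat_lit 152) (nat_lit 32837886708) (nat_lit 228) (nat_lit 29391442689) (nat_lit 54) (nat_lit 5) (nat_lit 56) (nat_lit 5) (nat_lit 57) (nat_lit 5) (nat_lit 469) (nat_lit 376) (nat_lit 175)) (XT.lf (nat_lit 0) (nat_lit 34969772229) (nat_lit 152) (nat_lit 15181727102) (nat_lit 228) (nat_lit 15461073705) (nat_lit 54) (nat_lit 5) (nat_lit 56) (nat_lit 5) (nat_lit 57) (nat_lit 5) (nat_lit 470) (nat_lit 376) (nat_lit 174))) (XT.nd (nat_lit 78) (nat_lit 76) (nat_lit 0) (XT.lf (nat_lit 0) (nat_lit 1894424120) (nat_lit 76) (nat_lit 64072285056) (nat_lit 152) (nat_lit 1067128974) (nat_lit 53) (nat_lit 5) (nat_lit 54) (nat_lit 5) (nat_lit 55) (nat_lit 4) (nat_lit 471) (nat_lit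 376) (nat_lit 173)) (XT.lf (nat_lit 0) (nat_lit 13950216236) (nat_lit 152) (nat_lit 32743174515) (nat_lit 76) (nat_lit 21786581198) (nat_lit 52) (nat_lit 5) (nat_lit 54) (nat_lit 5) (nat_lit 53) (nat_lit 5) (nat_lit 472) (nat_lit 376) (nat_lit 172)))))) (XT.nd (nat_lit 546) (nat_lit 304) (nat_lit 0) (XT.nd (nat_lit 234) (nat_lit 304) (nat_lit 0) (XT.nd (nat_lit 78) (nat_lit 0) (nat_lit 0) (XT.lf (nat_lit 0) (nat_lit 621667807) (nat_lit 152) (nat_lit 28778274259) (nat_lit 228) (nat_lit 40569131769) (nat_lit 50) (nat_lit 5) (nat_lit 52) (nat_lit 5) (nat_lit 53) (nat_lit 5) (nat_lit 473) (nat_lit 376) (nat_lit 171)) (XT.nd (nat_lit 78) (nat_lit 0) (nat_lit 0) (XT.lf (nat_lit 0) (nat_lit 35653856202) (nat_lit 152) (nat_lit 9987309506) (nat_lit 228) (nat_lit 25851843175) (nat_lit 50) (nat_lit 5) (nat_lit 52) (nat_lit 5) (nat_lit 53) (nat_lit 5) (nat_lit 474) (nat_lit 376) (nat_lit 170)) (XT.lf (nat_lit 0) (nat_lit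 62457091816) (nat_lit 228) (nat_lit 1420415899) (nat_lit 76) (nat_lit 9182530572) (nat_lit 50) (nat_lit 5) (nat_lit 53) (nat_lit 5) (nat_lit 51) (nat_lit 4) (nat_lit 475) (nat_lit 376) (nat_lit 169)))) (XT.nd (nat_lit 156) (nat_lit 152) (nat_lit 0) (XT.nd (nat_lit 78) (nat_lit 0) (nat_lit 0) (XT.lf (nat_lit 0) (nat_lit 5437080202) (nat_lit 152) (nat_lit 40111874329) (nat_lit 76) (nat_lit 29110655118) (nat_lit 48) (nat_lit 5) (nat_lit 50) (nat_lit 5) (nat_lit 49) (nat_lit 5) (nat_lit 476) (nat_lit 376) (nat_lit 168)) (XT.lf (nat_lit 0) (nat_lit 21757184799) (nat_lit 152) (nat_lit 4792398090) (nat_lit 76) (nat_lit 49754076549) (nat_lit 48) (nat_lit 5) (nat_lit 50) (nat_lit 5) (nat_lit 49) (nat_lit 5) (nat_lit 477) (nat_lit 376) (nat_lit 167))) (XT.nd (nat_lit 78) (nat_lit 0) (nat_lit 0) (XT.lf (nat_lit 0) (nat_lit 32210757149) (nat_lit 152) (nat_lit 6663338110) (nat_lit 228) (nat_lit 39113719630) (nat_lit 46)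 (nat_lit 5) (nat_lit 48) (nat_lit 5) (nat_lit 49) (nat_lit 5) (nat_lit 478) (nat_lit 376) (nat_lit 166)) (XT.lf (nat_lit 0) (nat_lit 56683809623) (nat_lit 228) (nat_lit 9436579636) (nat_lit 76) (nat_lit 13596727086) (nat_lit 46) (nat_lit 5) (nat_lit 49) (nat_lit 5) (nat_lit 47) (nat_lit 4) (nat_lit 479) (nat_lit 376) (nat_lit 165))))) (XT.nd (nat_lit 234) (nat_lit 0) (nat_lit 0) (XT.nd (nat_lit 78) (nat_lit 228) (nat_lit 0) (XT.lf (nat_lit 0) (nat_lit 28479545265) (nat_lit 76) (nat_lit 46885659217) (nat_lit 152) (nat_lit 6122970924) (nat_lit 45) (nat_lit 5) (nat_lit 46) (nat_lit 5) (nat_lit 47) (nat_lit 4) (nat_lit 480) (nat_lit 376) (nat_lit 164)) (XT.nd (nat_lit 78) (nat_lit 152) (nat_lit 0) (XT.lf (nat_lit 0) (nat_lit 11168166130) (nat_lit 152) (nat_lit 15696764558) (nat_lit 76) (nat_lit 56441361902) (nat_lit 44) (nat_lit 5) (nat_lit 46) (nat_lit 5) (nat_lit 45) (nat_lit 5) (nat_lit 481) (nat_lit 376) (nat_lit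 163)) (XT.lf (nat_lit 0) (nat_lit 23120792989) (nat_lit 152) (nat_lit 5954154665) (nat_lit 228) (nat_lit 56095587865) (nat_lit 42) (nat_lit 5) (nat_lit 44) (nat_lit 5) (nat_lit 45) (nat_lit 5) (nat_lit 482) (nat_lit 376) (nat_lit 162)))) (XT.nd (nat_lit 44928) (nat_lit 0) (nat_lit 16796) (XT.nd (nat_lit 44850) (nat_lit 0) (nat_lit 16796) (XT.lf (nat_lit 0) (nat_lit 47826543485) (nat_lit 228) (nat_lit 23816895190) (nat_lit 76) (nat_lit 15438038941) (nat_lit 42) (nat_lit 5) (nat_lit 45) (nat_lit 5) (nat_lit 43) (nat_lit 4) (nat_lit 483) (nat_lit 376) (nat_lit 161)) (XT.lf (nat_lit 0) (nat_lit 1296098997) (nat_lit 0) (nat_lit 1296098997) (nat_lit 1140) (nat_lit 3632337642) (nat_lit 263) (nat_lit 5) (nat_lit 263) (nat_lit 3) (nat_lit 278) (nat_lit 3) (nat_lit 377) (nat_lit 377) (nat_lit 266))) (XT.nd (nat_lit 78) (nat_lit 0) (nat_lit 0) (XT.lf (nat_lit 0) (nat_lit 5723737895) (nat_lit 1140) (nat_lit 3878949656)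 (nat_lit 1216) (nat_lit 3019082703) (nat_lit 263) (nat_lit 5) (nat_lit 278) (nat_lit 3) (nat_lit 279) (nat_lit 5) (nat_lit 378) (nat_lit 377) (nat_lit 265)) (XT.lf (nat_lit 76) (nat_lit 2288275207) (nat_lit 0) (nat_lit 4021868649) (nat_lit 1216) (nat_lit 6488587243) (nat_lit 264) (nat_lit 5) (nat_lit 263) (nat_lit 5) (nat_lit 279) (nat_lit 5) (nat_lit 379) (nat_lit 377) (nat_lit 264))))))) (XT.nd (nat_lit 1092) (nat_lit 5092) (nat_lit 0) (XT.nd (nat_lit 546) (nat_lit 912) (nat_lit 0) (XT.nd (nat_lit 234) (nat_lit 0) (nat_lit 76) (XT.nd (nat_lit 78) (nat_lit 0) (nat_lit 0) (XT.lf (nat_lit 0) (nat_lit 6953991045) (nat_lit 1140) (nat_lit 4286282110) (nat_lit 1216) (nat_lit 1739539335) (nat_lit 264) (nat_lit 5) (nat_lit 279) (nat_lit 5) (nat_lit 280) (nat_lit 5) (nat_lit 380) (nat_lit 377) (nat_lit 263)) (XT.nd (nat_lit 78) (nat_lit 0) (nat_lit 76) (XT.lf (nat_lit 76) (nat_lit 2116876003) (nat_lit 0) (nat_lit 5544618165)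 (nat_lit 1216) (nat_lit 5503508922) (nat_lit 265) (nat_lit 5) (nat_lit 264) (nat_lit 5) (nat_lit 280) (nat_lit 5) (nat_lit 381) (nat_lit 377) (nat_lit 262)) (XT.lf (nat_lit 0) (nat_lit 8421633589) (nat_lit 1140) (nat_lit 4567649359) (nat_lit 1216) (nat_lit 365530903) (nat_lit 265) (nat_lit 5) (nat_lit 280) (nat_lit 5) (nat_lit 281) (nat_lit 5) (nat_lit 382) (nat_lit 377) (nat_lit 261)))) (XT.nd (nat_lit 156) (nat_lit 0) (nat_lit 76) (XT.nd (nat_lit 78) (nat_lit 0) (nat_lit 0) (XT.lf (nat_lit 76) (nat_lit 2083617008) (nat_lit 0) (nat_lit 7180940036) (nat_lit 1216) (nat_lit 4283969075) (nat_lit 266) (nat_lit 5) (nat_lit 265) (nat_lit 5) (nat_lit 281) (nat_lit 5) (nat_lit 383) (nat_lit 377) (nat_lit 260)) (XT.lf (nat_lit 76) (nat_lit 9018758379) (nat_lit 0) (nat_lit 1145533748) (nat_lit 1216) (nat_lit 3582818302) (nat_lit 266) (nat_lit 5) (nat_lit 265) (nat_lit 5) (nat_lit 281) (nat_lit 5) (nat_lit 384) (nat_lit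 377) (nat_lit 259))) (XT.nd (nat_lit 78) (nat_lit 0) (nat_lit 0) (XT.lf (nat_lit 76) (nat_lit 2194881281) (nat_lit 0) (nat_lit 8951855835) (nat_lit 1216) (nat_lit 2803249822) (nat_lit 267) (nat_lit 5) (nat_lit 266) (nat_lit 5) (nat_lit 282) (nat_lit 5) (nat_lit 385) (nat_lit 377) (nat_lit 258)) (XT.lf (nat_lit 76) (nat_lit 9401758189) (nat_lit 0) (nat_lit 2802070404) (nat_lit 1216) (nat_lit 1953771975) (nat_lit 267) (nat_lit 5) (nat_lit 266) (nat_lit 5) (nat_lit 282) (nat_lit 5) (nat_lit 386) (nat_lit 377) (nat_lit 257))))) (XT.nd (nat_lit 234) (nat_lit 0) (nat_lit 0) (XT.nd (nat_lit 78) (nat_lit 1140) (nat_lit 0) (XT.lf (nat_lit 76) (nat_lit 2457818811) (nat_lit 0) (nat_lit 10879032215) (nat_lit 1216) (nat_lit 1033270884) (nat_lit 268) (nat_lit 5) (nat_lit 267) (nat_lit 5) (nat_lit 283) (nat_lit 5) (nat_lit 387) (nat_lit 377) (nat_lit 256)) (XT.nd (nat_lit 78) (nat_lit 1140) (nat_lit 0) (XT.lf (nat_lit 76)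 (nat_lit 9947591388) (nat_lit 0) (nat_lit 4618705026) (nat_lit 1216) (nat_lit 20855187) (nat_lit 268) (nat_lit 5) (nat_lit 267) (nat_lit 5) (nat_lit 283) (nat_lit 5) (nat_lit 388) (nat_lit 377) (nat_lit 255)) (XT.lf (nat_lit 0) (nat_lit 1034932426) (nat_lit 1216) (nat_lit 11939516031) (nat_lit 1292) (nat_lit 1834966144) (nat_lit 252) (nat_lit 5) (nat_lit 268) (nat_lit 5) (nat_lit 269) (nat_lit 5) (nat_lit 389) (nat_lit 377) (nat_lit 254)))) (XT.nd (nat_lit 156) (nat_lit 0) (nat_lit 76) (XT.nd (nat_lit 78) (nat_lit 0) (nat_lit 76) (XT.lf (nat_lit 0) (nat_lit 2202517688) (nat_lit 1216) (nat_lit 4393388016) (nat_lit 1292) (nat_lit 8440022490) (nat_lit 252) (nat_lit 5) (nat_lit 268) (nat_lit 5) (nat_lit 269) (nat_lit 5) (nat_lit 390) (nat_lit 377) (nat_lit 253)) (XT.lf (nat_lit 0) (nat_lit 3426131490) (nat_lit 1216) (nat_lit 11832042047) (nat_lit 1292) (nat_lit 10438674) (nat_lit 253) (nat_lit 5) (nat_lit 269) (nat_lit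 5) (nat_lit 270) (nat_lit 5) (nat_lit 391) (nat_lit 377) (nat_lit 252))) (XT.nd (nat_lit 78) (nat_lit 0) (nat_lit 0) (XT.lf (nat_lit 0) (nat_lit 4784713368) (nat_lit 1216) (nat_lit 3991005497) (nat_lit 1292) (nat_lit 6729614990) (nat_lit 253) (nat_lit 5) (nat_lit 269) (nat_lit 5) (nat_lit 270) (nat_lit 5) (nat_lit 392) (nat_lit 377) (nat_lit 251)) (XT.lf (nat_lit 76) (nat_lit 4156861296) (nat_lit 0) (nat_lit 2055644659) (nat_lit 1292) (nat_lit 9535802352) (nat_lit 254) (nat_lit 5) (nat_lit 253) (nat_lit 5) (nat_lit 270) (nat_lit 5) (nat_lit 393) (nat_lit 377) (nat_lit 250)))))) (XT.nd (nat_lit 546) (nat_lit 2736) (nat_lit 0) (XT.nd (nat_lit 234) (nat_lit 1292) (nat_lit 0) (XT.nd (nat_lit 78) (nat_lit 1216) (nat_lit 0) (XT.lf (nat_lit 0) (nat_lit 7759365090) (nat_lit 1216) (nat_lit 3423344444) (nat_lit 76) (nat_lit 4813580090) (nat_lit 254) (nat_lit 5) (nat_lit 270) (nat_lit 5) (nat_lit 255) (nat_lit 5) (nat_lit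 394) (nat_lit 377) (nat_lit 249)) (XT.nd (nat_lit 78) (nat_lit 0) (nat_lit 0) (XT.lf (nat_lit 0) (nat_lit 5058662969) (nat_lit 1216) (nat_lit 4352031514) (nat_lit 1292) (nat_lit 6839278445) (nat_lit 238) (nat_lit 5) (nat_lit 254) (nat_lit 5) (nat_lit 255) (nat_lit 5) (nat_lit 395) (nat_lit 377) (nat_lit 248)) (XT.lf (nat_lit 0) (nat_lit 11161595635) (nat_lit 1292) (nat_lit 2680804454) (nat_lit 76) (nat_lit 2667370038) (nat_lit 238) (nat_lit 5) (nat_lit 255) (nat_lit 5) (nat_lit 239) (nat_lit 5) (nat_lit 396) (nat_lit 377) (nat_lit 247)))) (XT.nd (nat_lit 156) (nat_lit 684) (nat_lit 0) (XT.nd (nat_lit 78) (nat_lit 0) (nat_lit 0) (XT.lf (nat_lit 0) (nat_lit 6152526248) (nat_lit 608) (nat_lit 6904364232) (nat_lit 684) (nat_lit 3717718985) (nat_lit 230) (nat_lit 5) (nat_lit 238) (nat_lit 5) (nat_lit 239) (nat_lit 5) (nat_lit 397) (nat_lit 377) (nat_lit 246)) (XT.lf (nat_lit 0) (nat_lit 15028562332) (nat_lit 684)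 (nat_lit 1753045618) (nat_lit 76) (nat_lit 265204592) (nat_lit 230) (nat_lit 5) (nat_lit 239) (nat_lit 5) (nat_lit 231) (nat_lit 5) (nat_lit 398) (nat_lit 377) (nat_lit 245))) (XT.nd (nat_lit 78) (nat_lit 76) (nat_lit 0) (XT.lf (nat_lit 0) (nat_lit 7449673008) (nat_lit 608) (nat_lit 9739832488) (nat_lit 684) (nat_lit 133776561) (nat_lit 222) (nat_lit 5) (nat_lit 230) (nat_lit 5) (nat_lit 231) (nat_lit 5) (nat_lit 399) (nat_lit 377) (nat_lit 244)) (XT.lf (nat_lit 0) (nat_lit 1780091654) (nat_lit 684) (nat_lit 670158849) (nat_lit 76) (nat_lit 15157033964) (nat_lit 221) (nat_lit 5) (nat_lit 230) (nat_lit 5) (nat_lit 222) (nat_lit 5) (nat_lit 400) (nat_lit 377) (nat_lit 243))))) (XT.nd (nat_lit 312) (nat_lit 1064) (nat_lit 0) (XT.nd (nat_lit 156) (nat_lit 532) (nat_lit 0) (XT.nd (nat_lit 78) (nat_lit 532) (nat_lit 0) (XT.lf (nat_lit 0) (nat_lit 3874972949) (nat_lit 684) (nat_lit 8973001550) (nat_lit 76) (nat_lit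 5048007784) (nat_lit 213) (nat_lit 5) (nat_lit 222) (nat_lit 5) (nat_lit 214) (nat_lit 5) (nat_lit 401) (nat_lit 377) (nat_lit 242)) (XT.lf (nat_lit 0) (nat_lit 602522941) (nat_lit 532) (nat_lit 5457785415) (nat_lit 608) (nat_lit 12132207986) (nat_lit 206) (nat_lit 5) (nat_lit 213) (nat_lit 5) (nat_lit 214) (nat_lit 5) (nat_lit 402) (nat_lit 377) (nat_lit 241))) (XT.nd (nat_lit 78) (nat_lit 532) (nat_lit 0) (XT.lf (nat_lit 0) (nat_lit 8414317284) (nat_lit 608) (nat_lit 7877184376) (nat_lit 76) (nat_lit 2203354792) (nat_lit 206) (nat_lit 5) (nat_lit 214) (nat_lit 5) (nat_lit 207) (nat_lit 5) (nat_lit 403) (nat_lit 377) (nat_lit 240)) (XT.lf (nat_lit 0) (nat_lit 2104718381) (nat_lit 532) (nat_lit 8799662463) (nat_lit 608) (nat_lit 7899926227) (nat_lit 199) (nat_lit 5) (nat_lit 206) (nat_lit 5) (nat_lit 207) (nat_lit 5) (nat_lit 404) (nat_lit 377) (nat_lit 239)))) (XT.nd (nat_lit 156) (nat_lit 608) (nat_lit 0)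 (XT.nd (nat_lit 78) (nat_lit 456) (nat_lit 0) (XT.lf (nat_lit 0) (nat_lit 12538320493) (nat_lit 532) (nat_lit 1001703559) (nat_lit 608) (nat_lit 5580894061) (nat_lit 199) (nat_lit 5) (nat_lit 206) (nat_lit 5) (nat_lit 207) (nat_lit 5) (nat_lit 405) (nat_lit 377) (nat_lit 238)) (XT.lf (nat_lit 0) (nat_lit 3835964473) (nat_lit 456) (nat_lit 12514805011) (nat_lit 532) (nat_lit 3093380158) (nat_lit 193) (nat_lit 5) (nat_lit 199) (nat_lit 5) (nat_lit 200) (nat_lit 5) (nat_lit 406) (nat_lit 377) (nat_lit 237))) (XT.nd (nat_lit 78) (nat_lit 608) (nat_lit 0) (XT.lf (nat_lit 0) (nat_lit 14682781652) (nat_lit 456) (nat_lit 4631085864) (nat_lit 532) (nat_lit 461172747) (nat_lit 193) (nat_lit 5) (nat_lit 199) (nat_lit 5) (nat_lit 200) (nat_lit 5) (nat_lit 407) (nat_lit 377) (nat_lit 236)) (XT.lf (nat_lit 0) (nat_lit 2288256728) (nat_lit 608) (nat_lit 14325969127) (nat_lit 76) (nat_lit 3498520927) (nat_lit 185) (nat_lit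 5) (nat_lit 193) (nat_lit 5) (nat_lit 186) (nat_lit 5) (nat_lit 408) (nat_lit 377) (nat_lit 235))))))))
noncomputable def xc185 : XT := (XT.nd (nat_lit 2184) (nat_lit 3648) (nat_lit 0) (XT.nd (nat_lit 1092) (nat_lit 2356) (nat_lit 0) (XT.nd (nat_lit 546) (nat_lit 1596) (nat_lit 0) (XT.nd (nat_lit 234) (nat_lit 1368) (nat_lit 0) (XT.nd (nat_lit 78) (nat_lit 456) (nat_lit 0) (XT.lf (nat_lit 0) (nat_lit 5200720585) (nat_lit 608) (nat_lit 3422563329) (nat_lit 76) (nat_lit 11834471776) (nat_lit 185) (nat_lit 5) (nat_lit 193) (nat_lit 5) (nat_lit 186) (nat_lit 5) (nat_lit 409) (nat_lit 377) (nat_lit 234)) (XT.nd (nat_lit 78) (nat_lit 0) (nat_lit 0) (XT.lf (nat_lit 0) (nat_lit 7954262627) (nat_lit 456) (nat_lit 315026214) (nat_lit 532) (nat_lit 12541766821) (nat_lit 179) (nat_lit 5) (nat_lit 185) (nat_lit 5) (nat_lit 186) (nat_lit 5) (nat_lit 410) (nat_lit 377) (nat_lit 233)) (XT.lf (nat_lit 0) (nat_lit 11536447249)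 (nat_lit 532) (nat_lit 1519968880) (nat_lit 76) (nat_lit 8115345144) (nat_lit 179) (nat_lit 5) (nat_lit 186) (nat_lit 5) (nat_lit 180) (nat_lit 5) (nat_lit 411) (nat_lit 377) (nat_lit 232)))) (XT.nd (nat_lit 156) (nat_lit 532) (nat_lit 0) (XT.nd (nat_lit 78) (nat_lit 380) (nat_lit 0) (XT.lf (nat_lit 0) (nat_lit 10346981102) (nat_lit 456) (nat_lit 4649839288) (nat_lit 532) (nat_lit 6543614219) (nat_lit 173) (nat_lit 5) (nat_lit 179) (nat_lit 5) (nat_lit 180) (nat_lit 5) (nat_lit 412) (nat_lit 377) (nat_lit 231)) (XT.lf (nat_lit 0) (nat_lit 646428685) (nat_lit 380) (nat_lit 17967564077) (nat_lit 456) (nat_lit 3304588223) (nat_lit 168) (nat_lit 5) (nat_lit 173) (nat_lit 5) (nat_lit 174) (nat_lit 5) (nat_lit 413) (nat_lit 377) (nat_lit 230))) (XT.nd (nat_lit 78) (nat_lit 456) (nat_lit 0) (XT.lf (nat_lit 0) (nat_lit 183971925) (nat_lit 456) (nat_lit 9290125232) (nat_lit 76) (nat_lit 12829378413) (nat_lit 167) (nat_lit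 5) (nat_lit 173) (nat_lit 5) (nat_lit 168) (nat_lit 5) (nat_lit 414) (nat_lit 377) (nat_lit 229)) (XT.lf (nat_lit 0) (nat_lit 3069862966) (nat_lit 456) (nat_lit 663417425) (nat_lit 532) (nat_lit 18964981998) (nat_lit 161) (nat_lit 5) (nat_lit 167) (nat_lit 5) (nat_lit 168) (nat_lit 5) (nat_lit 415) (nat_lit 377) (nat_lit 228))))) (XT.nd (nat_lit 234) (nat_lit 1216) (nat_lit 0) (XT.nd (nat_lit 78) (nat_lit 380) (nat_lit 0) (XT.lf (nat_lit 0) (nat_lit 7557771968) (nat_lit 532) (nat_lit 7201567197) (nat_lit 76) (nat_lit 8340494738) (nat_lit 161) (nat_lit 5) (nat_lit 168) (nat_lit 5) (nat_lit 162) (nat_lit 5) (nat_lit 416) (nat_lit 377) (nat_lit 227)) (XT.nd (nat_lit 78) (nat_lit 0) (nat_lit 0) (XT.lf (nat_lit 0) (nat_lit 5694077640) (nat_lit 380) (nat_lit 5857530597) (nat_lit 456) (nat_lit 11960208167) (nat_lit 156) (nat_lit 5) (nat_lit 161) (nat_lit 5) (nat_lit 162) (nat_lit 5) (nat_lit 417) (nat_lit 377) (nat_lit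 226)) (XT.lf (nat_lit 0) (nat_lit 15763934082) (nat_lit 456) (nat_lit 4850944025) (nat_lit 76) (nat_lit 3318322116) (nat_lit 156) (nat_lit 5) (nat_lit 162) (nat_lit 5) (nat_lit 157) (nat_lit 5) (nat_lit 418) (nat_lit 377) (nat_lit 225)))) (XT.nd (nat_lit 156) (nat_lit 760) (nat_lit 0) (XT.nd (nat_lit 78) (nat_lit 76) (nat_lit 0) (XT.lf (nat_lit 0) (nat_lit 8606419288) (nat_lit 380) (nat_lit 11630530312) (nat_lit 456) (nat_lit 4126248378) (nat_lit 151) (nat_lit 5) (nat_lit 156) (nat_lit 5) (nat_lit 157) (nat_lit 5) (nat_lit 419) (nat_lit 377) (nat_lit 224)) (XT.lf (nat_lit 0) (nat_lit 80424136) (nat_lit 456) (nat_lit 2246962389) (nat_lit 76) (nat_lit 22477406859) (nat_lit 150) (nat_lit 5) (nat_lit 156) (nat_lit 5) (nat_lit 151) (nat_lit 5) (nat_lit 420) (nat_lit 377) (nat_lit 223))) (XT.nd (nat_lit 78) (nat_lit 380) (nat_lit 0) (XT.lf (nat_lit 0) (nat_lit 4509349532) (nat_lit 456) (nat_lit 13476077439) (nat_lit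 76) (nat_lit 7267616324) (nat_lit 145) (nat_lit 5) (nat_lit 151) (nat_lit 5) (nat_lit 146) (nat_lit 5) (nat_lit 421) (nat_lit 377) (nat_lit 222)) (XT.lf (nat_lit 0) (nat_lit 532467363) (nat_lit 380) (nat_lit 8583656501) (nat_lit 456) (nat_lit 16597269195) (nat_lit 140) (nat_lit 5) (nat_lit 145) (nat_lit 5) (nat_lit 146) (nat_lit 5) (nat_lit 422) (nat_lit 377) (nat_lit 221)))))) (XT.nd (nat_lit 546) (nat_lit 1292) (nat_lit 0) (XT.nd (nat_lit 234) (nat_lit 760) (nat_lit 0) (XT.nd (nat_lit 78) (nat_lit 304) (nat_lit 0) (XT.lf (nat_lit 0) (nat_lit 14003088774) (nat_lit 456) (nat_lit 10966225707) (nat_lit 76) (nat_lit 1213980956) (nat_lit 140) (nat_lit 5) (nat_lit 146) (nat_lit 5) (nat_lit 141) (nat_lit 5) (nat_lit 423) (nat_lit 377) (nat_lit 220)) (XT.nd (nat_lit 78) (nat_lit 0) (nat_lit 0) (XT.lf (nat_lit 0) (nat_lit 3653110127) (nat_lit 304) (nat_lit 15497812960) (nat_lit 380) (nat_lit 7512945675) (nat_lit 136)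 (nat_lit 5) (nat_lit 140) (nat_lit 5) (nat_lit 141) (nat_lit 5) (nat_lit 424) (nat_lit 377) (nat_lit 219)) (XT.lf (nat_lit 0) (nat_lit 18927798567) (nat_lit 304) (nat_lit 5630382093) (nat_lit 380) (nat_lit 2597530620) (nat_lit 136) (nat_lit 5) (nat_lit 140) (nat_lit 5) (nat_lit 141) (nat_lit 5) (nat_lit 425) (nat_lit 377) (nat_lit 218)))) (XT.nd (nat_lit 156) (nat_lit 304) (nat_lit 0) (XT.nd (nat_lit 78) (nat_lit 0) (nat_lit 0) (XT.lf (nat_lit 0) (nat_lit 2524366456) (nat_lit 456) (nat_lit 20598714469) (nat_lit 76) (nat_lit 4535304923) (nat_lit 130) (nat_lit 5) (nat_lit 136) (nat_lit 5) (nat_lit 131) (nat_lit 5) (nat_lit 426) (nat_lit 377) (nat_lit 217)) (XT.lf (nat_lit 0) (nat_lit 7881796005) (nat_lit 456) (nat_lit 5289361044) (nat_lit 76) (nat_lit 15000191060) (nat_lit 130) (nat_lit 5) (nat_lit 136) (nat_lit 5) (nat_lit 131) (nat_lit 5) (nat_lit 427) (nat_lit 377) (nat_lit 216))) (XT.nd (nat_lit 78) (nat_lit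 0) (nat_lit 0) (XT.lf (nat_lit 0) (nat_lit 10679936238) (nat_lit 304) (nat_lit 2817265136) (nat_lit 380) (nat_lit 15199581732) (nat_lit 126) (nat_lit 5) (nat_lit 130) (nat_lit 5) (nat_lit 131) (nat_lit 5) (nat_lit 428) (nat_lit 377) (nat_lit 215)) (XT.lf (nat_lit 0) (nat_lit 19405094652) (nat_lit 380) (nat_lit 2083404536) (nat_lit 76) (nat_lit 7745762609) (nat_lit 126) (nat_lit 5) (nat_lit 131) (nat_lit 5) (nat_lit 127) (nat_lit 5) (nat_lit 429) (nat_lit 377) (nat_lit 214))))) (XT.nd (nat_lit 234) (nat_lit 608) (nat_lit 0) (XT.nd (nat_lit 78) (nat_lit 380) (nat_lit 0) (XT.lf (nat_lit 0) (nat_lit 14577021265) (nat_lit 304) (nat_lit 11076028414) (nat_lit 380) (nat_lit 4129931795) (nat_lit 122) (nat_lit 5) (nat_lit 126) (nat_lit 5) (nat_lit 127) (nat_lit 5) (nat_lit 430) (nat_lit 377) (nat_lit 213)) (XT.nd (nat_lit 78) (nat_lit 0) (nat_lit 0) (XT.lf (nat_lit 0) (nat_lit 1435912805) (nat_lit 304) (nat_lit 300293312)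 (nat_lit 380) (nat_lit 28610559520) (nat_lit 117) (nat_lit 5) (nat_lit 121) (nat_lit 5) (nat_lit 122) (nat_lit 5) (nat_lit 431) (nat_lit 377) (nat_lit 212)) (XT.lf (nat_lit 0) (nat_lit 7949084862) (nat_lit 380) (nat_lit 12187983960) (nat_lit 76) (nat_lit 10781556122) (nat_lit 117) (nat_lit 5) (nat_lit 122) (nat_lit 5) (nat_lit 118) (nat_lit 5) (nat_lit 432) (nat_lit 377) (nat_lit 211)))) (XT.nd (nat_lit 156) (nat_lit 304) (nat_lit 0) (XT.nd (nat_lit 78) (nat_lit 0) (nat_lit 0) (XT.lf (nat_lit 0) (nat_lit 5126189485) (nat_lit 304) (nat_lit 9269448302) (nat_lit 380) (nat_lit 17110584829) (nat_lit 113) (nat_lit 5) (nat_lit 117) (nat_lit 5) (nat_lit 118) (nat_lit 5) (nat_lit 433) (nat_lit 377) (nat_lit 210)) (XT.lf (nat_lit 0) (nat_lit 21173465632) (nat_lit 380) (nat_lit 8925331058) (nat_lit 76) (nat_lit 2008516363) (nat_lit 113) (nat_lit 5) (nat_lit 118) (nat_lit 5) (nat_lit 114) (nat_lit 5) (nat_lit 434) (nat_lit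 377) (nat_lit 209))) (XT.nd (nat_lit 78) (nat_lit 76) (nat_lit 0) (XT.lf (nat_lit 0) (nat_lit 9132165163) (nat_lit 228) (nat_lit 19197255310) (nat_lit 304) (nat_lit 4391773116) (nat_lit 110) (nat_lit 5) (nat_lit 113) (nat_lit 5) (nat_lit 114) (nat_lit 5) (nat_lit 435) (nat_lit 377) (nat_lit 208)) (XT.lf (nat_lit 0) (nat_lit 2387047760) (nat_lit 304) (nat_lit 5467184736) (nat_lit 76) (nat_lit 25495994204) (nat_lit 109) (nat_lit 5) (nat_lit 113) (nat_lit 5) (nat_lit 110) (nat_lit 5) (nat_lit 436) (nat_lit 377) (nat_lit 207))))))) (XT.nd (nat_lit 1092) (nat_lit 1596) (nat_lit 0) (XT.nd (nat_lit 546) (nat_lit 988) (nat_lit 0) (XT.nd (nat_lit 234) (nat_lit 532) (nat_lit 0) (XT.nd (nat_lit 78) (nat_lit 228) (nat_lit 0) (XT.lf (nat_lit 0) (nat_lit 9443744686) (nat_lit 380) (nat_lit 20622175128) (nat_lit 76) (nat_lit 3926024105) (nat_lit 105) (nat_lit 5) (nat_lit 110) (nat_lit 5) (nat_lit 106) (nat_lit 5) (nat_lit 437)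 (nat_lit 377) (nat_lit 206)) (XT.nd (nat_lit 78) (nat_lit 228) (nat_lit 0) (XT.lf (nat_lit 0) (nat_lit 16841096477) (nat_lit 380) (nat_lit 1852792297) (nat_lit 76) (nat_lit 15955156285) (nat_lit 105) (nat_lit 5) (nat_lit 110) (nat_lit 5) (nat_lit 106) (nat_lit 5) (nat_lit 438) (nat_lit 377) (nat_lit 205)) (XT.lf (nat_lit 0) (nat_lit 17820494201) (nat_lit 228) (nat_lit 6806743898) (nat_lit 304) (nat_lit 10693616047) (nat_lit 102) (nat_lit 5) (nat_lit 105) (nat_lit 5) (nat_lit 106) (nat_lit 5) (nat_lit 439) (nat_lit 377) (nat_lit 204)))) (XT.nd (nat_lit 156) (nat_lit 228) (nat_lit 0) (XT.nd (nat_lit 78) (nat_lit 76) (nat_lit 0) (XT.lf (nat_lit 0) (nat_lit 2091099045) (nat_lit 228) (nat_lit 30642731726) (nat_lit 304) (nat_lit 3276381696) (nat_lit 99) (nat_lit 5) (nat_lit 102) (nat_lit 5) (nat_lit 103) (nat_lit 5) (nat_lit 440) (nat_lit 377) (nat_lit 203)) (XT.lf (nat_lit 0) (nat_lit 4519712192) (nat_lit 304) (nat_lit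 14203974419) (nat_lit 76) (nat_lit 17988062905) (nat_lit 98) (nat_lit 5) (nat_lit 102) (nat_lit 5) (nat_lit 99) (nat_lit 5) (nat_lit 441) (nat_lit 377) (nat_lit 202))) (XT.nd (nat_lit 78) (nat_lit 0) (nat_lit 0) (XT.lf (nat_lit 0) (nat_lit 6184076323) (nat_lit 228) (nat_lit 6354958141) (nat_lit 304) (nat_lit 24892669984) (nat_lit 95) (nat_lit 5) (nat_lit 98) (nat_lit 5) (nat_lit 99) (nat_lit 5) (nat_lit 442) (nat_lit 377) (nat_lit 201)) (XT.lf (nat_lit 0) (nat_lit 21000951171) (nat_lit 304) (nat_lit 10763626395) (nat_lit 76) (nat_lit 6402620875) (nat_lit 95) (nat_lit 5) (nat_lit 99) (nat_lit 5) (nat_lit 96) (nat_lit 5) (nat_lit 443) (nat_lit 377) (nat_lit 200))))) (XT.nd (nat_lit 234) (nat_lit 456) (nat_lit 0) (XT.nd (nat_lit 78) (nat_lit 304) (nat_lit 0) (XT.lf (nat_lit 0) (nat_lit 10469661802) (nat_lit 228) (nat_lit 19406534884) (nat_lit 304) (nat_lit 9043777261) (nat_lit 92) (nat_lit 5) (nat_lit 95) (nat_lit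 5) (nat_lit 96) (nat_lit 5) (nat_lit 444) (nat_lit 377) (nat_lit 199)) (XT.nd (nat_lit 78) (nat_lit 304) (nat_lit 0) (XT.lf (nat_lit 0) (nat_lit 32554043260) (nat_lit 228) (nat_lit 6568314133) (nat_lit 304) (nat_lit 569836396) (nat_lit 92) (nat_lit 5) (nat_lit 95) (nat_lit 5) (nat_lit 96) (nat_lit 5) (nat_lit 445) (nat_lit 377) (nat_lit 198)) (XT.lf (nat_lit 0) (nat_lit 8205720610) (nat_lit 304) (nat_lit 25525528216) (nat_lit 76) (nat_lit 6747781594) (nat_lit 88) (nat_lit 5) (nat_lit 92) (nat_lit 5) (nat_lit 89) (nat_lit 5) (nat_lit 446) (nat_lit 377) (nat_lit 197)))) (XT.nd (nat_lit 156) (nat_lit 228) (nat_lit 0) (XT.nd (nat_lit 78) (nat_lit 228) (nat_lit 0) (XT.lf (nat_lit 0) (nat_lit 17366993407) (nat_lit 304) (nat_lit 3510937349) (nat_lit 76) (nat_lit 20407355806) (nat_lit 88) (nat_lit 5) (nat_lit 92) (nat_lit 5) (nat_lit 89) (nat_lit 5) (nat_lit 447) (nat_lit 377) (nat_lit 196)) (XT.lf (nat_lit 0) (nat_lit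 19539088841) (nat_lit 228) (nat_lit 7448025973) (nat_lit 304) (nat_lit 15123095978) (nat_lit 85) (nat_lit 5) (nat_lit 88) (nat_lit 5) (nat_lit 89) (nat_lit 5) (nat_lit 448) (nat_lit 377) (nat_lit 195))) (XT.nd (nat_lit 78) (nat_lit 76) (nat_lit 0) (XT.lf (nat_lit 0) (nat_lit 332216091) (nat_lit 152) (nat_lit 36660212561) (nat_lit 228) (nat_lit 5964557130) (nat_lit 83) (nat_lit 5) (nat_lit 85) (nat_lit 5) (nat_lit 86) (nat_lit 5) (nat_lit 449) (nat_lit 377) (nat_lit 194)) (XT.lf (nat_lit 0) (nat_lit 3701202764) (nat_lit 228) (nat_lit 19552651838) (nat_lit 76) (nat_lit 20565305193) (nat_lit 82) (nat_lit 5) (nat_lit 85) (nat_lit 5) (nat_lit 83) (nat_lit 5) (nat_lit 450) (nat_lit 377) (nat_lit 193)))))) (XT.nd (nat_lit 546) (nat_lit 760) (nat_lit 0) (XT.nd (nat_lit 234) (nat_lit 456) (nat_lit 0) (XT.nd (nat_lit 78) (nat_lit 152) (nat_lit 0) (XT.lf (nat_lit 0) (nat_lit 4228958340) (nat_lit 228) (nat_lit 9345085467)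 (nat_lit 304) (nat_lit 31130274508) (nat_lit 79) (nat_lit 5) (nat_lit 82) (nat_lit 5) (nat_lit 83) (nat_lit 5) (nat_lit 451) (nat_lit 377) (nat_lit 192)) (XT.nd (nat_lit 78) (nat_lit 152) (nat_lit 0) (XT.lf (nat_lit 0) (nat_lit 23986711544) (nat_lit 304) (nat_lit 16541279593) (nat_lit 76) (nat_lit 5080731826) (nat_lit 79) (nat_lit 5) (nat_lit 83) (nat_lit 5) (nat_lit 80) (nat_lit 5) (nat_lit 452) (nat_lit 377) (nat_lit 191)) (XT.lf (nat_lit 0) (nat_lit 8171774339) (nat_lit 152) (nat_lit 26707531817) (nat_lit 228) (nat_lit 11655927791) (nat_lit 77) (nat_lit 5) (nat_lit 79) (nat_lit 5) (nat_lit 80) (nat_lit 5) (nat_lit 453) (nat_lit 377) (nat_lit 190)))) (XT.nd (nat_lit 156) (nat_lit 152) (nat_lit 0) (XT.nd (nat_lit 78) (nat_lit 304) (nat_lit 0) (XT.lf (nat_lit 0) (nat_lit 33959374560) (nat_lit 152) (nat_lit 12302853570) (nat_lit 228) (nat_lit 1222406228) (nat_lit 77) (nat_lit 5) (nat_lit 79) (nat_lit 5) (nat_lit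 80) (nat_lit 5) (nat_lit 454) (nat_lit 377) (nat_lit 189)) (XT.lf (nat_lit 0) (nat_lit 9478517826) (nat_lit 304) (nat_lit 36284003183) (nat_lit 76) (nat_lit 2693042368) (nat_lit 73) (nat_lit 5) (nat_lit 77) (nat_lit 5) (nat_lit 74) (nat_lit 5) (nat_lit 455) (nat_lit 377) (nat_lit 188))) (XT.nd (nat_lit 78) (nat_lit 152) (nat_lit 0) (XT.lf (nat_lit 0) (nat_lit 20732245377) (nat_lit 304) (nat_lit 10676092291) (nat_lit 76) (nat_lit 18039229695) (nat_lit 73) (nat_lit 5) (nat_lit 77) (nat_lit 5) (nat_lit 74) (nat_lit 5) (nat_lit 456) (nat_lit 377) (nat_lit 187)) (XT.lf (nat_lit 0) (nat_lit 16006732102) (nat_lit 152) (nat_lit 16467421705) (nat_lit 228) (nat_lit 17990661106) (nat_lit 71) (nat_lit 5) (nat_lit 73) (nat_lit 5) (nat_lit 74) (nat_lit 5) (nat_lit 457) (nat_lit 377) (nat_lit 186))))) (XT.nd (nat_lit 312) (nat_lit 380) (nat_lit 0) (XT.nd (nat_lit 156) (nat_lit 152) (nat_lit 0) (XT.nd (nat_lit 78) (nat_lit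 228) (nat_lit 0) (XT.lf (nat_lit 0) (nat_lit 43703273445) (nat_lit 152) (nat_lit 969598243) (nat_lit 228) (nat_lit 6836572140) (nat_lit 71) (nat_lit 5) (nat_lit 73) (nat_lit 5) (nat_lit 74) (nat_lit 5) (nat_lit 458) (nat_lit 377) (nat_lit 185)) (XT.lf (nat_lit 0) (nat_lit 4896721500) (nat_lit 228) (nat_lit 32739806161) (nat_lit 76) (nat_lit 14937481986) (nat_lit 68) (nat_lit 5) (nat_lit 71) (nat_lit 5) (nat_lit 69) (nat_lit 5) (nat_lit 459) (nat_lit 377) (nat_lit 184))) (XT.nd (nat_lit 78) (nat_lit 152) (nat_lit 0) (XT.lf (nat_lit 0) (nat_lit 16930638969) (nat_lit 228) (nat_lit 5287945807) (nat_lit 76) (nat_lit 31447316459) (nat_lit 68) (nat_lit 5) (nat_lit 71) (nat_lit 5) (nat_lit 69) (nat_lit 5) (nat_lit 460) (nat_lit 377) (nat_lit 183)) (XT.lf (nat_lit 0) (nat_lit 23439484057) (nat_lit 152) (nat_lit 6108322901) (nat_lit 228) (nat_lit 25236076072) (nat_lit 66) (nat_lit 5) (nat_lit 68) (nat_lit 5) (nat_lit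 69) (nat_lit 5) (nat_lit 461) (nat_lit 377) (nat_lit 182)))) (XT.nd (nat_lit 156) (nat_lit 228) (nat_lit 0) (XT.nd (nat_lit 78) (nat_lit 152) (nat_lit 0) (XT.lf (nat_lit 0) (nat_lit 42695142192) (nat_lit 228) (nat_lit 2903379294) (nat_lit 76) (nat_lit 10332333658) (nat_lit 66) (nat_lit 5) (nat_lit 69) (nat_lit 5) (nat_lit 67) (nat_lit 5) (nat_lit 462) (nat_lit 377) (nat_lit 181)) (XT.lf (nat_lit 0) (nat_lit 26849079657) (nat_lit 152) (nat_lit 29703410342) (nat_lit 228) (nat_lit 550279070) (nat_lit 64) (nat_lit 5) (nat_lit 66) (nat_lit 5) (nat_lit 67) (nat_lit 5) (nat_lit 463) (nat_lit 377) (nat_lit 180))) (XT.nd (nat_lit 78) (nat_lit 152) (nat_lit 0) (XT.lf (nat_lit 0) (nat_lit 12298131449) (nat_lit 228) (nat_lit 881174341) (nat_lit 76) (nat_lit 45126126544) (nat_lit 63) (nat_lit 5) (nat_lit 66) (nat_lit 5) (nat_lit 64) (nat_lit 5) (nat_lit 464) (nat_lit 377) (nat_lit 179)) (XT.lf (nat_lit 0) (nat_lit 25845715119)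 (nat_lit 228) (nat_lit 29628925060) (nat_lit 76) (nat_lit 4059628829) (nat_lit 61) (nat_lit 5) (nat_lit 64) (nat_lit 5) (nat_lit 62) (nat_lit 5) (nat_lit 465) (nat_lit 377) (nat_lit 178))))))))
noncomputable def xc186 : XT := (XT.nd (nat_lit 47034) (nat_lit 0) (nat_lit 9044) (XT.nd (nat_lit 1092) (nat_lit 304) (nat_lit 0) (XT.nd (nat_lit 546) (nat_lit 532) (nat_lit 0) (XT.nd (nat_lit 234) (nat_lit 228) (nat_lit 0) (XT.nd (nat_lit 78) (nat_lit 228) (nat_lit 0) (XT.lf (nat_lit 0) (nat_lit 712029826) (nat_lit 152) (nat_lit 39231147834) (nat_lit 228) (nat_lit 20852489955) (nat_lit 59) (nat_lit 5) (nat_lit 61) (nat_lit 5) (nat_lit 62) (nat_lit 5) (nat_lit 466) (nat_lit 377) (nat_lit 177)) (XT.nd (nat_lit 78) (nat_lit 228) (nat_lit 0) (XT.lf (nat_lit 0) (nat_lit 32565522005) (nat_lit 152) (nat_lit 22194403531) (nat_lit 228) (nat_lit 7326092163) (nat_lit 59) (nat_lit 5) (nat_lit 61) (nat_lit 5) (nat_lit 62) (nat_lit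 5) (nat_lit 467) (nat_lit 377) (nat_lit 176)) (XT.lf (nat_lit 0) (nat_lit 1928711261) (nat_lit 152) (nat_lit 4564239834) (nat_lit 228) (nat_lit 56919749609) (nat_lit 56) (nat_lit 5) (nat_lit 58) (nat_lit 5) (nat_lit 59) (nat_lit 5) (nat_lit 468) (nat_lit 377) (nat_lit 175)))) (XT.nd (nat_lit 156) (nat_lit 76) (nat_lit 0) (XT.nd (nat_lit 78) (nat_lit 152) (nat_lit 0) (XT.lf (nat_lit 0) (nat_lit 21008285993) (nat_lit 228) (nat_lit 30054851207) (nat_lit 76) (nat_lit 13701002240) (nat_lit 56) (nat_lit 5) (nat_lit 59) (nat_lit 5) (nat_lit 57) (nat_lit 5) (nat_lit 469) (nat_lit 377) (nat_lit 174)) (XT.lf (nat_lit 0) (nat_lit 2312259374) (nat_lit 152) (nat_lit 33711554566) (nat_lit 228) (nat_lit 30130365730) (nat_lit 54) (nat_lit 5) (nat_lit 56) (nat_lit 5) (nat_lit 57) (nat_lit 5) (nat_lit 470) (nat_lit 377) (nat_lit 173))) (XT.nd (nat_lit 78) (nat_lit 76) (nat_lit 0) (XT.lf (nat_lit 0) (nat_lit 36261693809) (nat_lit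 152) (nat_lit 15528956834) (nat_lit 228) (nat_lit 15786245489) (nat_lit 54) (nat_lit 5) (nat_lit 56) (nat_lit 5) (nat_lit 57) (nat_lit 5) (nat_lit 471) (nat_lit 377) (nat_lit 172)) (XT.lf (nat_lit 0) (nat_lit 2194688838) (nat_lit 76) (nat_lit 65885057386) (nat_lit 152) (nat_lit 961070554) (nat_lit 53) (nat_lit 5) (nat_lit 54) (nat_lit 5) (nat_lit 55) (nat_lit 4) (nat_lit 472) (nat_lit 377) (nat_lit 171))))) (XT.nd (nat_lit 234) (nat_lit 304) (nat_lit 0) (XT.nd (nat_lit 78) (nat_lit 152) (nat_lit 0) (XT.lf (nat_lit 0) (nat_lit 14500157676) (nat_lit 152) (nat_lit 33486497640) (nat_lit 76) (nat_lit 22543758188) (nat_lit 52) (nat_lit 5) (nat_lit 54) (nat_lit 5) (nat_lit 53) (nat_lit 5) (nat_lit 473) (nat_lit 377) (nat_lit 170)) (XT.nd (nat_lit 78) (nat_lit 0) (nat_lit 0) (XT.lf (nat_lit 0) (nat_lit 876947089) (nat_lit 152) (nat_lit 29534874615) (nat_lit 228) (nat_lit 41652413773) (nat_lit 50) (nat_lit 5) (nat_lit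 52) (nat_lit 5) (nat_lit 53) (nat_lit 5) (nat_lit 474) (nat_lit 377) (nat_lit 169)) (XT.lf (nat_lit 0) (nat_lit 36953209021) (nat_lit 152) (nat_lit 10183290080) (nat_lit 228) (nat_lit 26497503374) (nat_lit 50) (nat_lit 5) (nat_lit 52) (nat_lit 5) (nat_lit 53) (nat_lit 5) (nat_lit 475) (nat_lit 377) (nat_lit 168)))) (XT.nd (nat_lit 156) (nat_lit 152) (nat_lit 0) (XT.nd (nat_lit 78) (nat_lit 152) (nat_lit 0) (XT.lf (nat_lit 0) (nat_lit 64454197445) (nat_lit 228) (nat_lit 1237263747) (nat_lit 76) (nat_lit 9556663136) (nat_lit 50) (nat_lit 5) (nat_lit 53) (nat_lit 5) (nat_lit 51) (nat_lit 4) (nat_lit 476) (nat_lit 377) (nat_lit 167)) (XT.lf (nat_lit 0) (nat_lit 5723360512) (nat_lit 152) (nat_lit 41089215469) (nat_lit 76) (nat_lit 30083114363) (nat_lit 48) (nat_lit 5) (nat_lit 50) (nat_lit 5) (nat_lit 49) (nat_lit 5) (nat_lit 477) (nat_lit 377) (nat_lit 166))) (XT.nd (nat_lit 78) (nat_lit 152) (nat_lit 0) (XT.lf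 (nat_lit 0) (nat_lit 22529480832) (nat_lit 152) (nat_lit 4716737907) (nat_lit 76) (nat_lit 51342950877) (nat_lit 48) (nat_lit 5) (nat_lit 50) (nat_lit 5) (nat_lit 49) (nat_lit 5) (nat_lit 478) (nat_lit 377) (nat_lit 165)) (XT.lf (nat_lit 0) (nat_lit 33394360694) (nat_lit 152) (nat_lit 6764143621) (nat_lit 228) (nat_lit 40165387598) (nat_lit 46) (nat_lit 5) (nat_lit 48) (nat_lit 5) (nat_lit 49) (nat_lit 5) (nat_lit 479) (nat_lit 377) (nat_lit 164)))))) (XT.nd (nat_lit 45396) (nat_lit 0) (nat_lit 16872) (XT.nd (nat_lit 234) (nat_lit 152) (nat_lit 0) (XT.nd (nat_lit 78) (nat_lit 152) (nat_lit 0) (XT.lf (nat_lit 0) (nat_lit 58499992608) (nat_lit 228) (nat_lit 9506195769) (nat_lit 76) (nat_lit 14098959907) (nat_lit 46) (nat_lit 5) (nat_lit 49) (nat_lit 5) (nat_lit 47) (nat_lit 4) (nat_lit 480) (nat_lit 377) (nat_lit 163)) (XT.nd (nat_lit 78) (nat_lit 76) (nat_lit 0) (XT.lf (nat_lit 0) (nat_lit 29545319926) (nat_lit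 76) (nat_lit 48195172389) (nat_lit 152) (nat_lit 6188887246) (nat_lit 45) (nat_lit 5) (nat_lit 46) (nat_lit 5) (nat_lit 47) (nat_lit 4) (nat_lit 481) (nat_lit 377) (nat_lit 162)) (XT.lf (nat_lit 0) (nat_lit 11615322410) (nat_lit 152) (nat_lit 15960194382) (nat_lit 76) (nat_lit 58226590722) (nat_lit 44) (nat_lit 5) (nat_lit 46) (nat_lit 5) (nat_lit 45) (nat_lit 5) (nat_lit 482) (nat_lit 377) (nat_lit 161)))) (XT.nd (nat_lit 45006) (nat_lit 0) (nat_lit 16796) (XT.nd (nat_lit 44928) (nat_lit 0) (nat_lit 16796) (XT.lf (nat_lit 0) (nat_lit 24019855841) (nat_lit 152) (nat_lit 6038160966) (nat_lit 228) (nat_lit 57664299946) (nat_lit 42) (nat_lit 5) (nat_lit 44) (nat_lit 5) (nat_lit 45) (nat_lit 5) (nat_lit 483) (nat_lit 377) (nat_lit 160)) (XT.lf (nat_lit 0) (nat_lit 1548894311) (nat_lit 0) (nat_lit 1548894311) (nat_lit 1140) (nat_lit 3300460358) (nat_lit 263) (nat_lit 5) (nat_lit 263) (nat_lit 3) (nat_lit 278) (nat_lit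 3) (nat_lit 378) (nat_lit 378) (nat_lit 264))) (XT.nd (nat_lit 78) (nat_lit 0) (nat_lit 0) (XT.lf (nat_lit 0) (nat_lit 6722184852) (nat_lit 1140) (nat_lit 3550674796) (nat_lit 1216) (nat_lit 2702396652) (nat_lit 263) (nat_lit 5) (nat_lit 278) (nat_lit 3) (nat_lit 279) (nat_lit 5) (nat_lit 379) (nat_lit 378) (nat_lit 263)) (XT.lf (nat_lit 76) (nat_lit 2797207564) (nat_lit 0) (nat_lit 4509128054) (nat_lit 1216) (nat_lit 5851796406) (nat_lit 264) (nat_lit 5) (nat_lit 263) (nat_lit 5) (nat_lit 279) (nat_lit 5) (nat_lit 380) (nat_lit 378) (nat_lit 262))))) (XT.nd (nat_lit 234) (nat_lit 0) (nat_lit 76) (XT.nd (nat_lit 78) (nat_lit 0) (nat_lit 0) (XT.lf (nat_lit 0) (nat_lit 7942575271) (nat_lit 1140) (nat_lit 3960143268) (nat_lit 1216) (nat_lit 1442745328) (nat_lit 264) (nat_lit 5) (nat_lit 279) (nat_lit 5) (nat_lit 280) (nat_lit 5) (nat_lit 381) (nat_lit 378) (nat_lit 261)) (XT.nd (nat_lit 78) (nat_lit 0) (nat_lit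 76) (XT.lf (nat_lit 76) (nat_lit 2630651477) (nat_lit 0) (nat_lit 6022262861) (nat_lit 1216) (nat_lit 4883857542) (nat_lit 265) (nat_lit 5) (nat_lit 264) (nat_lit 5) (nat_lit 280) (nat_lit 5) (nat_lit 382) (nat_lit 378) (nat_lit 260)) (XT.lf (nat_lit 0) (nat_lit 9410770830) (nat_lit 1140) (nat_lit 4242112857) (nat_lit 1216) (nat_lit 80155619) (nat_lit 265) (nat_lit 5) (nat_lit 280) (nat_lit 5) (nat_lit 281) (nat_lit 5) (nat_lit 383) (nat_lit 378) (nat_lit 259)))) (XT.nd (nat_lit 156) (nat_lit 0) (nat_lit 76) (XT.nd (nat_lit 78) (nat_lit 0) (nat_lit 0) (XT.lf (nat_lit 76) (nat_lit 2604156540) (nat_lit 0) (nat_lit 7657777210) (nat_lit 1216) (nat_lit 3671150087) (nat_lit 266) (nat_lit 5) (nat_lit 265) (nat_lit 5) (nat_lit 281) (nat_lit 5) (nat_lit 384) (nat_lit 378) (nat_lit 258)) (XT.lf (nat_lit 76) (nat_lit 9734011443) (nat_lit 0) (nat_lit 1433694879) (nat_lit 1216) (nat_lit 2970557162) (nat_lit 266) (nat_lit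 5) (nat_lit 265) (nat_lit 5) (nat_lit 281) (nat_lit 5) (nat_lit 385) (nat_lit 378) (nat_lit 257))) (XT.nd (nat_lit 78) (nat_lit 0) (nat_lit 0) (XT.lf (nat_lit 76) (nat_lit 2724525863) (nat_lit 0) (nat_lit 9436844296) (nat_lit 1216) (nat_lit 2186412666) (nat_lit 267) (nat_lit 5) (nat_lit 266) (nat_lit 5) (nat_lit 282) (nat_lit 5) (nat_lit 386) (nat_lit 378) (nat_lit 256)) (XT.lf (nat_lit 76) (nat_lit 10134100395) (nat_lit 0) (nat_lit 3096261435) (nat_lit 1216) (nat_lit 1331866057) (nat_lit 267) (nat_lit 5) (nat_lit 266) (nat_lit 5) (nat_lit 282) (nat_lit 5) (nat_lit 387) (nat_lit 378) (nat_lit 255))))))) (XT.nd (nat_lit 1092) (nat_lit 4560) (nat_lit 0) (XT.nd (nat_lit 546) (nat_lit 2280) (nat_lit 0) (XT.nd (nat_lit 234) (nat_lit 0) (nat_lit 76) (XT.nd (nat_lit 78) (nat_lit 1216) (nat_lit 0) (XT.lf (nat_lit 76) (nat_lit 2999331951) (nat_lit 0) (nat_lit 11381343016) (nat_lit 1216) (nat_lit 400959294) (nat_lit 268)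 (nat_lit 5) (nat_lit 267) (nat_lit 5) (nat_lit 283) (nat_lit 5) (nat_lit 388) (nat_lit 378) (nat_lit 254)) (XT.nd (nat_lit 78) (nat_lit 0) (nat_lit 76) (XT.lf (nat_lit 0) (nat_lit 610361777) (nat_lit 1216) (nat_lit 4311556316) (nat_lit 1292) (nat_lit 10083647852) (nat_lit 251) (nat_lit 5) (nat_lit 267) (nat_lit 5) (nat_lit 268) (nat_lit 5) (nat_lit 389) (nat_lit 378) (nat_lit 253)) (XT.lf (nat_lit 0) (nat_lit 1681967163) (nat_lit 1216) (nat_lit 11815024592) (nat_lit 1292) (nat_lit 1737969665) (nat_lit 252) (nat_lit 5) (nat_lit 268) (nat_lit 5) (nat_lit 269) (nat_lit 5) (nat_lit 390) (nat_lit 378) (nat_lit 252)))) (XT.nd (nat_lit 156) (nat_lit 0) (nat_lit 76) (XT.nd (nat_lit 78) (nat_lit 0) (nat_lit 0) (XT.lf (nat_lit 0) (nat_lit 2866638621) (nat_lit 1216) (nat_lit 4056571288) (nat_lit 1292) (nat_lit 8545606211) (nat_lit 252) (nat_lit 5) (nat_lit 268) (nat_lit 5) (nat_lit 269) (nat_lit 5) (nat_lit 391) (nat_lit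 378) (nat_lit 251)) (XT.lf (nat_lit 76) (nat_lit 4003799913) (nat_lit 0) (nat_lit 110097199) (nat_lit 1292) (nat_lit 11594982697) (nat_lit 253) (nat_lit 5) (nat_lit 252) (nat_lit 5) (nat_lit 269) (nat_lit 5) (nat_lit 392) (nat_lit 378) (nat_lit 250))) (XT.nd (nat_lit 78) (nat_lit 0) (nat_lit 0) (XT.lf (nat_lit 0) (nat_lit 5495170648) (nat_lit 1216) (nat_lit 3641821357) (nat_lit 1292) (nat_lit 6816260099) (nat_lit 253) (nat_lit 5) (nat_lit 269) (nat_lit 5) (nat_lit 270) (nat_lit 5) (nat_lit 393) (nat_lit 378) (nat_lit 249)) (XT.lf (nat_lit 76) (nat_lit 4745884241) (nat_lit 0) (nat_lit 2207863959) (nat_lit 1292) (nat_lit 9250135878) (nat_lit 254) (nat_lit 5) (nat_lit 253) (nat_lit 5) (nat_lit 270) (nat_lit 5) (nat_lit 394) (nat_lit 378) (nat_lit 248))))) (XT.nd (nat_lit 234) (nat_lit 1292) (nat_lit 0) (XT.nd (nat_lit 78) (nat_lit 1216) (nat_lit 0) (XT.lf (nat_lit 0) (nat_lit 8530006862) (nat_lit 1216) (nat_lit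 3058024383) (nat_lit 76) (nat_lit 4871790401) (nat_lit 254) (nat_lit 5) (nat_lit 270) (nat_lit 5) (nat_lit 255) (nat_lit 5) (nat_lit 395) (nat_lit 378) (nat_lit 247)) (XT.nd (nat_lit 78) (nat_lit 0) (nat_lit 0) (XT.lf (nat_lit 0) (nat_lit 5673854817) (nat_lit 1216) (nat_lit 4545810263) (nat_lit 1292) (nat_lit 6501793135) (nat_lit 238) (nat_lit 5) (nat_lit 254) (nat_lit 5) (nat_lit 255) (nat_lit 5) (nat_lit 396) (nat_lit 378) (nat_lit 246)) (XT.lf (nat_lit 0) (nat_lit 12007163964) (nat_lit 1292) (nat_lit 2295157181) (nat_lit 76) (nat_lit 2687212308) (nat_lit 238) (nat_lit 5) (nat_lit 255) (nat_lit 5) (nat_lit 239) (nat_lit 5) (nat_lit 397) (nat_lit 378) (nat_lit 245)))) (XT.nd (nat_lit 156) (nat_lit 684) (nat_lit 0) (XT.nd (nat_lit 78) (nat_lit 0) (nat_lit 0) (XT.lf (nat_lit 0) (nat_lit 6798604114) (nat_lit 608) (nat_lit 7150274428) (nat_lit 684) (nat_lit 3313758666) (nat_lit 230) (nat_lit 5) (nat_lit 238) (nat_lit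 5) (nat_lit 239) (nat_lit 5) (nat_lit 398) (nat_lit 378) (nat_lit 244)) (XT.lf (nat_lit 0) (nat_lit 15964767336) (nat_lit 684) (nat_lit 1342447287) (nat_lit 76) (nat_lit 236245637) (nat_lit 230) (nat_lit 5) (nat_lit 239) (nat_lit 5) (nat_lit 231) (nat_lit 5) (nat_lit 399) (nat_lit 378) (nat_lit 243))) (XT.nd (nat_lit 78) (nat_lit 0) (nat_lit 0) (XT.lf (nat_lit 0) (nat_lit 345415406) (nat_lit 684) (nat_lit 9700096006) (nat_lit 76) (nat_lit 7782908397) (nat_lit 221) (nat_lit 5) (nat_lit 230) (nat_lit 5) (nat_lit 222) (nat_lit 5) (nat_lit 400) (nat_lit 378) (nat_lit 242)) (XT.lf (nat_lit 0) (nat_lit 2300015266) (nat_lit 684) (nat_lit 235509445) (nat_lit 76) (nat_lit 15585803101) (nat_lit 221) (nat_lit 5) (nat_lit 230) (nat_lit 5) (nat_lit 222) (nat_lit 5) (nat_lit 401) (nat_lit 378) (nat_lit 241)))))) (XT.nd (nat_lit 546) (nat_lit 2432) (nat_lit 0) (XT.nd (nat_lit 234) (nat_lit 988) (nat_lit 0) (XT.nd (nat_lit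 78) (nat_lit 532) (nat_lit 0) (XT.lf (nat_lit 0) (nat_lit 4448416574) (nat_lit 684) (nat_lit 8777936668) (nat_lit 76) (nat_lit 5192618343) (nat_lit 213) (nat_lit 5) (nat_lit 222) (nat_lit 5) (nat_lit 214) (nat_lit 5) (nat_lit 402) (nat_lit 378) (nat_lit 240)) (XT.nd (nat_lit 78) (nat_lit 0) (nat_lit 0) (XT.lf (nat_lit 0) (nat_lit 1080302038) (nat_lit 532) (nat_lit 5610112612) (nat_lit 608) (nat_lit 12034259013) (nat_lit 206) (nat_lit 5) (nat_lit 213) (nat_lit 5) (nat_lit 214) (nat_lit 5) (nat_lit 403) (nat_lit 378) (nat_lit 239)) (XT.lf (nat_lit 0) (nat_lit 9102093103) (nat_lit 608) (nat_lit 7654070847) (nat_lit 76) (nat_lit 2280313480) (nat_lit 206) (nat_lit 5) (nat_lit 214) (nat_lit 5) (nat_lit 207) (nat_lit 5) (nat_lit 404) (nat_lit 378) (nat_lit 238)))) (XT.nd (nat_lit 156) (nat_lit 456) (nat_lit 0) (XT.nd (nat_lit 78) (nat_lit 0) (nat_lit 0) (XT.lf (nat_lit 0) (nat_lit 2622784786) (nat_lit 532) (nat_lit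 9035766810) (nat_lit 608) (nat_lit 7696913967) (nat_lit 199) (nat_lit 5) (nat_lit 206) (nat_lit 5) (nat_lit 207) (nat_lit 5) (nat_lit 405) (nat_lit 378) (nat_lit 237)) (XT.lf (nat_lit 0) (nat_lit 13356144724) (nat_lit 532) (nat_lit 1004681339) (nat_lit 608) (nat_lit 5321126662) (nat_lit 199) (nat_lit 5) (nat_lit 206) (nat_lit 5) (nat_lit 207) (nat_lit 5) (nat_lit 406) (nat_lit 378) (nat_lit 236))) (XT.nd (nat_lit 78) (nat_lit 0) (nat_lit 0) (XT.lf (nat_lit 0) (nat_lit 4400599658) (nat_lit 456) (nat_lit 12847792509) (nat_lit 532) (nat_lit 2766718595) (nat_lit 193) (nat_lit 5) (nat_lit 199) (nat_lit 5) (nat_lit 200) (nat_lit 5) (nat_lit 407) (nat_lit 378) (nat_lit 235)) (XT.lf (nat_lit 0) (nat_lit 15559727480) (nat_lit 456) (nat_lit 4728798389) (nat_lit 532) (nat_lit 67762329) (nat_lit 193) (nat_lit 5) (nat_lit 199) (nat_lit 5) (nat_lit 200) (nat_lit 5) (nat_lit 408) (nat_lit 378) (nat_lit 234))))) (XT.nd (nat_lit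 312) (nat_lit 1368) (nat_lit 0) (XT.nd (nat_lit 156) (nat_lit 456) (nat_lit 0) (XT.nd (nat_lit 78) (nat_lit 0) (nat_lit 0) (XT.lf (nat_lit 0) (nat_lit 2749268758) (nat_lit 608) (nat_lit 14304125180) (nat_lit 76) (nat_lit 3650826698) (nat_lit 185) (nat_lit 5) (nat_lit 193) (nat_lit 5) (nat_lit 186) (nat_lit 5) (nat_lit 409) (nat_lit 378) (nat_lit 233)) (XT.lf (nat_lit 0) (nat_lit 5737678443) (nat_lit 608) (nat_lit 3086771277) (nat_lit 76) (nat_lit 12235476941) (nat_lit 185) (nat_lit 5) (nat_lit 193) (nat_lit 5) (nat_lit 186) (nat_lit 5) (nat_lit 410) (nat_lit 378) (nat_lit 232))) (XT.nd (nat_lit 78) (nat_lit 0) (nat_lit 0) (XT.lf (nat_lit 0) (nat_lit 8627060743) (nat_lit 456) (nat_lit 264321284) (nat_lit 532) (nat_lit 12532655149) (nat_lit 179) (nat_lit 5) (nat_lit 185) (nat_lit 5) (nat_lit 186) (nat_lit 5) (nat_lit 411) (nat_lit 378) (nat_lit 231)) (XT.lf (nat_lit 0) (nat_lit 12246222971) (nat_lit 532) (nat_lit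 1133585286) (nat_lit 76) (nat_lit 8416069442) (nat_lit 179) (nat_lit 5) (nat_lit 186) (nat_lit 5) (nat_lit 180) (nat_lit 5) (nat_lit 412) (nat_lit 378) (nat_lit 230)))) (XT.nd (nat_lit 156) (nat_lit 532) (nat_lit 0) (XT.nd (nat_lit 78) (nat_lit 380) (nat_lit 0) (XT.lf (nat_lit 0) (nat_lit 11085138071) (nat_lit 456) (nat_lit 4718788317) (nat_lit 532) (nat_lit 6371882942) (nat_lit 173) (nat_lit 5) (nat_lit 179) (nat_lit 5) (nat_lit 180) (nat_lit 5) (nat_lit 413) (nat_lit 378) (nat_lit 229)) (XT.lf (nat_lit 0) (nat_lit 1099436051) (nat_lit 380) (nat_lit 18424600506) (nat_lit 456) (nat_lit 3041434424) (nat_lit 168) (nat_lit 5) (nat_lit 173) (nat_lit 5) (nat_lit 174) (nat_lit 5) (nat_lit 414) (nat_lit 378) (nat_lit 228))) (XT.nd (nat_lit 78) (nat_lit 456) (nat_lit 0) (XT.lf (nat_lit 0) (nat_lit 534366650) (nat_lit 456) (nat_lit 9140868433) (nat_lit 76) (nat_lit 13286886589) (nat_lit 167) (nat_lit 5) (nat_lit 173)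 (nat_lit 5) (nat_lit 168) (nat_lit 5) (nat_lit 415) (nat_lit 378) (nat_lit 227)) (XT.lf (nat_lit 0) (nat_lit 3585723720) (nat_lit 456) (nat_lit 598459219) (nat_lit 532) (nat_lit 19184751560) (nat_lit 161) (nat_lit 5) (nat_lit 167) (nat_lit 5) (nat_lit 168) (nat_lit 5) (nat_lit 416) (nat_lit 378) (nat_lit 226))))))))
noncomputable def xc187 : XT := (XT.nd (nat_lit 2184) (nat_lit 3192) (nat_lit 0) (XT.nd (nat_lit 1092) (nat_lit 2356) (nat_lit 0) (XT.nd (nat_lit 546) (nat_lit 1064) (nat_lit 0) (XT.nd (nat_lit 234) (nat_lit 1216) (nat_lit 0) (XT.nd (nat_lit 78) (nat_lit 380) (nat_lit 0) (XT.lf (nat_lit 0) (nat_lit 8114330242) (nat_lit 532) (nat_lit 6997007520) (nat_lit 76) (nat_lit 8671490930) (nat_lit 161) (nat_lit 5) (nat_lit 168) (nat_lit 5) (nat_lit 162) (nat_lit 5) (nat_lit 417) (nat_lit 378) (nat_lit 225)) (XT.nd (nat_lit 78) (nat_lit 0) (nat_lit 0) (XT.lf (nat_lit 0) (nat_lit 6281383067) (nat_lit 380) (nat_lit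 5940995466) (nat_lit 456) (nat_lit 11984963299) (nat_lit 156) (nat_lit 5) (nat_lit 161) (nat_lit 5) (nat_lit 162) (nat_lit 5) (nat_lit 418) (nat_lit 378) (nat_lit 224)) (XT.lf (nat_lit 0) (nat_lit 16552491831) (nat_lit 456) (nat_lit 4583438081) (nat_lit 76) (nat_lit 3505697706) (nat_lit 156) (nat_lit 5) (nat_lit 162) (nat_lit 5) (nat_lit 157) (nat_lit 5) (nat_lit 419) (nat_lit 378) (nat_lit 223)))) (XT.nd (nat_lit 156) (nat_lit 760) (nat_lit 0) (XT.nd (nat_lit 78) (nat_lit 76) (nat_lit 0) (XT.lf (nat_lit 0) (nat_lit 9273596776) (nat_lit 380) (nat_lit 11880839062) (nat_lit 456) (nat_lit 3930250223) (nat_lit 151) (nat_lit 5) (nat_lit 156) (nat_lit 5) (nat_lit 157) (nat_lit 5) (nat_lit 420) (nat_lit 378) (nat_lit 222)) (XT.lf (nat_lit 0) (nat_lit 387249906) (nat_lit 456) (nat_lit 1911149133) (nat_lit 76) (nat_lit 23241314771) (nat_lit 150) (nat_lit 5) (nat_lit 156) (nat_lit 5) (nat_lit 151) (nat_lit 5) (nat_lit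 421) (nat_lit 378) (nat_lit 221))) (XT.nd (nat_lit 78) (nat_lit 380) (nat_lit 0) (XT.lf (nat_lit 0) (nat_lit 4944974831) (nat_lit 456) (nat_lit 13472981068) (nat_lit 76) (nat_lit 7583580016) (nat_lit 145) (nat_lit 5) (nat_lit 151) (nat_lit 5) (nat_lit 146) (nat_lit 5) (nat_lit 422) (nat_lit 378) (nat_lit 220)) (XT.lf (nat_lit 0) (nat_lit 951826169) (nat_lit 380) (nat_lit 8733255899) (nat_lit 456) (nat_lit 16790762788) (nat_lit 140) (nat_lit 5) (nat_lit 145) (nat_lit 5) (nat_lit 146) (nat_lit 5) (nat_lit 423) (nat_lit 378) (nat_lit 219))))) (XT.nd (nat_lit 234) (nat_lit 760) (nat_lit 0) (XT.nd (nat_lit 78) (nat_lit 304) (nat_lit 0) (XT.lf (nat_lit 0) (nat_lit 14711056959) (nat_lit 456) (nat_lit 10895894535) (nat_lit 76) (nat_lit 1353123277) (nat_lit 140) (nat_lit 5) (nat_lit 146) (nat_lit 5) (nat_lit 141) (nat_lit 5) (nat_lit 424) (nat_lit 378) (nat_lit 218)) (XT.nd (nat_lit 78) (nat_lit 0) (nat_lit 0) (XT.lf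 (nat_lit 0) (nat_lit 4158106491) (nat_lit 304) (nat_lit 15850635942) (nat_lit 380) (nat_lit 7446462805) (nat_lit 136) (nat_lit 5) (nat_lit 140) (nat_lit 5) (nat_lit 141) (nat_lit 5) (nat_lit 425) (nat_lit 378) (nat_lit 217)) (XT.lf (nat_lit 0) (nat_lit 19879518991) (nat_lit 304) (nat_lit 5690447530) (nat_lit 380) (nat_lit 2392086402) (nat_lit 136) (nat_lit 5) (nat_lit 140) (nat_lit 5) (nat_lit 141) (nat_lit 5) (nat_lit 426) (nat_lit 378) (nat_lit 216)))) (XT.nd (nat_lit 156) (nat_lit 304) (nat_lit 0) (XT.nd (nat_lit 78) (nat_lit 0) (nat_lit 0) (XT.lf (nat_lit 0) (nat_lit 2874631612) (nat_lit 456) (nat_lit 20823803287) (nat_lit 76) (nat_lit 4781392521) (nat_lit 130) (nat_lit 5) (nat_lit 136) (nat_lit 5) (nat_lit 131) (nat_lit 5) (nat_lit 427) (nat_lit 378) (nat_lit 215)) (XT.lf (nat_lit 0) (nat_lit 8384787907) (nat_lit 456) (nat_lit 5066612151) (nat_lit 76) (nat_lit 15557020530) (nat_lit 130) (nat_lit 5) (nat_lit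 136) (nat_lit 5) (nat_lit 131) (nat_lit 5) (nat_lit 428) (nat_lit 378) (nat_lit 214))) (XT.nd (nat_lit 78) (nat_lit 0) (nat_lit 0) (XT.lf (nat_lit 0) (nat_lit 11378024542) (nat_lit 304) (nat_lit 2786498242) (nat_lit 380) (nat_lit 15385221924) (nat_lit 126) (nat_lit 5) (nat_lit 130) (nat_lit 5) (nat_lit 131) (nat_lit 5) (nat_lit 429) (nat_lit 378) (nat_lit 213)) (XT.lf (nat_lit 0) (nat_lit 20243085896) (nat_lit 380) (nat_lit 1772582478) (nat_lit 76) (nat_lit 8087878425) (nat_lit 126) (nat_lit 5) (nat_lit 131) (nat_lit 5) (nat_lit 127) (nat_lit 5) (nat_lit 430) (nat_lit 378) (nat_lit 212)))))) (XT.nd (nat_lit 546) (nat_lit 1064) (nat_lit 0) (XT.nd (nat_lit 234) (nat_lit 608) (nat_lit 0) (XT.nd (nat_lit 78) (nat_lit 380) (nat_lit 0) (XT.lf (nat_lit 0) (nat_lit 15383996057) (nat_lit 304) (nat_lit 11290585351) (nat_lit 380) (nat_lit 3994265574) (nat_lit 122) (nat_lit 5) (nat_lit 126) (nat_lit 5) (nat_lit 127) (nat_lit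 5) (nat_lit 431) (nat_lit 378) (nat_lit 211)) (XT.nd (nat_lit 78) (nat_lit 0) (nat_lit 0) (XT.lf (nat_lit 0) (nat_lit 1850108748) (nat_lit 304) (nat_lit 188837518) (nat_lit 380) (nat_lit 29210640767) (nat_lit 117) (nat_lit 5) (nat_lit 121) (nat_lit 5) (nat_lit 122) (nat_lit 5) (nat_lit 432) (nat_lit 378) (nat_lit 210)) (XT.lf (nat_lit 0) (nat_lit 8432035023) (nat_lit 380) (nat_lit 12187077699) (nat_lit 76) (nat_lit 11219676491) (nat_lit 117) (nat_lit 5) (nat_lit 122) (nat_lit 5) (nat_lit 118) (nat_lit 5) (nat_lit 433) (nat_lit 378) (nat_lit 209)))) (XT.nd (nat_lit 156) (nat_lit 304) (nat_lit 0) (XT.nd (nat_lit 78) (nat_lit 0) (nat_lit 0) (XT.lf (nat_lit 0) (nat_lit 5642927364) (nat_lit 304) (nat_lit 9425425384) (nat_lit 380) (nat_lit 17375772773) (nat_lit 113) (nat_lit 5) (nat_lit 117) (nat_lit 5) (nat_lit 118) (nat_lit 5) (nat_lit 434) (nat_lit 378) (nat_lit 208)) (XT.lf (nat_lit 0) (nat_lit 22043640074) (nat_lit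 380) (nat_lit 8834778168) (nat_lit 76) (nat_lit 2185008390) (nat_lit 113) (nat_lit 5) (nat_lit 118) (nat_lit 5) (nat_lit 114) (nat_lit 5) (nat_lit 435) (nat_lit 378) (nat_lit 207))) (XT.nd (nat_lit 78) (nat_lit 76) (nat_lit 0) (XT.lf (nat_lit 0) (nat_lit 9760930069) (nat_lit 228) (nat_lit 19649910246) (nat_lit 304) (nat_lit 4284987919) (nat_lit 110) (nat_lit 5) (nat_lit 113) (nat_lit 5) (nat_lit 114) (nat_lit 5) (nat_lit 436) (nat_lit 378) (nat_lit 206)) (XT.lf (nat_lit 0) (nat_lit 2685730696) (nat_lit 304) (nat_lit 5282163252) (nat_lit 76) (nat_lit 26375975522) (nat_lit 109) (nat_lit 5) (nat_lit 113) (nat_lit 5) (nat_lit 110) (nat_lit 5) (nat_lit 437) (nat_lit 378) (nat_lit 205))))) (XT.nd (nat_lit 234) (nat_lit 532) (nat_lit 0) (XT.nd (nat_lit 78) (nat_lit 228) (nat_lit 0) (XT.lf (nat_lit 0) (nat_lit 9952008213) (nat_lit 380) (nat_lit 20889632663) (nat_lit 76) (nat_lit 4163262450) (nat_lit 105) (nat_lit 5)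 (nat_lit 110) (nat_lit 5) (nat_lit 106) (nat_lit 5) (nat_lit 438) (nat_lit 378) (nat_lit 204)) (XT.nd (nat_lit 78) (nat_lit 228) (nat_lit 0) (XT.lf (nat_lit 0) (nat_lit 17564728581) (nat_lit 380) (nat_lit 1567397699) (nat_lit 76) (nat_lit 16549789247) (nat_lit 105) (nat_lit 5) (nat_lit 110) (nat_lit 5) (nat_lit 106) (nat_lit 5) (nat_lit 439) (nat_lit 378) (nat_lit 203)) (XT.lf (nat_lit 0) (nat_lit 18692744469) (nat_lit 228) (nat_lit 6888594399) (nat_lit 304) (nat_lit 10792634910) (nat_lit 102) (nat_lit 5) (nat_lit 105) (nat_lit 5) (nat_lit 106) (nat_lit 5) (nat_lit 440) (nat_lit 378) (nat_lit 202)))) (XT.nd (nat_lit 156) (nat_lit 228) (nat_lit 0) (XT.nd (nat_lit 78) (nat_lit 76) (nat_lit 0) (XT.lf (nat_lit 0) (nat_lit 2493434925) (nat_lit 228) (nat_lit 31435830334) (nat_lit 304) (nat_lit 3154804894) (nat_lit 99) (nat_lit 5) (nat_lit 102) (nat_lit 5) (nat_lit 103) (nat_lit 5) (nat_lit 441) (nat_lit 378) (nat_lit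 201)) (XT.lf (nat_lit 0) (nat_lit 4864602423) (nat_lit 304) (nat_lit 14296173177) (nat_lit 76) (nat_lit 18646003981) (nat_lit 98) (nat_lit 5) (nat_lit 102) (nat_lit 5) (nat_lit 99) (nat_lit 5) (nat_lit 442) (nat_lit 378) (nat_lit 200))) (XT.nd (nat_lit 78) (nat_lit 0) (nat_lit 0) (XT.lf (nat_lit 0) (nat_lit 6700245357) (nat_lit 228) (nat_lit 6421341302) (nat_lit 304) (nat_lit 25426835300) (nat_lit 95) (nat_lit 5) (nat_lit 98) (nat_lit 5) (nat_lit 99) (nat_lit 5) (nat_lit 443) (nat_lit 378) (nat_lit 199)) (XT.lf (nat_lit 0) (nat_lit 21832509490) (nat_lit 304) (nat_lit 10760626594) (nat_lit 76) (nat_lit 6712991457) (nat_lit 95) (nat_lit 5) (nat_lit 99) (nat_lit 5) (nat_lit 96) (nat_lit 5) (nat_lit 444) (nat_lit 378) (nat_lit 198))))))) (XT.nd (nat_lit 1092) (nat_lit 1368) (nat_lit 0) (XT.nd (nat_lit 546) (nat_lit 836) (nat_lit 0) (XT.nd (nat_lit 234) (nat_lit 456) (nat_lit 0) (XT.nd (nat_lit 78) (nat_lit 304)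 (nat_lit 0) (XT.lf (nat_lit 0) (nat_lit 11106465067) (nat_lit 228) (nat_lit 19864779623) (nat_lit 304) (nat_lit 9110325846) (nat_lit 92) (nat_lit 5) (nat_lit 95) (nat_lit 5) (nat_lit 96) (nat_lit 5) (nat_lit 445) (nat_lit 378) (nat_lit 197)) (XT.nd (nat_lit 78) (nat_lit 304) (nat_lit 0) (XT.lf (nat_lit 0) (nat_lit 33843978549) (nat_lit 228) (nat_lit 6645022482) (nat_lit 304) (nat_lit 388130777) (nat_lit 92) (nat_lit 5) (nat_lit 95) (nat_lit 5) (nat_lit 96) (nat_lit 5) (nat_lit 446) (nat_lit 378) (nat_lit 196)) (XT.lf (nat_lit 0) (nat_lit 8645327184) (nat_lit 304) (nat_lit 25972540441) (nat_lit 76) (nat_lit 7069694266) (nat_lit 88) (nat_lit 5) (nat_lit 92) (nat_lit 5) (nat_lit 89) (nat_lit 5) (nat_lit 447) (nat_lit 378) (nat_lit 195)))) (XT.nd (nat_lit 156) (nat_lit 228) (nat_lit 0) (XT.nd (nat_lit 78) (nat_lit 228) (nat_lit 0) (XT.lf (nat_lit 0) (nat_lit 18075804138) (nat_lit 304) (nat_lit 3306795934) (nat_lit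 76) (nat_lit 21135575727) (nat_lit 88) (nat_lit 5) (nat_lit 92) (nat_lit 5) (nat_lit 89) (nat_lit 5) (nat_lit 448) (nat_lit 378) (nat_lit 194)) (XT.lf (nat_lit 0) (nat_lit 20431697027) (nat_lit 228) (nat_lit 7550307876) (nat_lit 304) (nat_lit 15385919611) (nat_lit 85) (nat_lit 5) (nat_lit 88) (nat_lit 5) (nat_lit 89) (nat_lit 5) (nat_lit 449) (nat_lit 378) (nat_lit 193))) (XT.nd (nat_lit 78) (nat_lit 76) (nat_lit 0) (XT.lf (nat_lit 0) (nat_lit 649998363) (nat_lit 152) (nat_lit 37636173031) (nat_lit 228) (nat_lit 5953971561) (nat_lit 83) (nat_lit 5) (nat_lit 85) (nat_lit 5) (nat_lit 86) (nat_lit 5) (nat_lit 450) (nat_lit 378) (nat_lit 192)) (XT.lf (nat_lit 0) (nat_lit 3992650517) (nat_lit 228) (nat_lit 19836759174) (nat_lit 76) (nat_lit 21298881155) (nat_lit 82) (nat_lit 5) (nat_lit 85) (nat_lit 5) (nat_lit 83) (nat_lit 5) (nat_lit 451) (nat_lit 378) (nat_lit 191))))) (XT.nd (nat_lit 234) (nat_lit 456) (nat_lit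 0) (XT.nd (nat_lit 78) (nat_lit 152) (nat_lit 0) (XT.lf (nat_lit 0) (nat_lit 4655333895) (nat_lit 228) (nat_lit 9503967230) (nat_lit 304) (nat_lit 31880775181) (nat_lit 79) (nat_lit 5) (nat_lit 82) (nat_lit 5) (nat_lit 83) (nat_lit 5) (nat_lit 452) (nat_lit 378) (nat_lit 190)) (XT.nd (nat_lit 78) (nat_lit 152) (nat_lit 0) (XT.lf (nat_lit 0) (nat_lit 24880297022) (nat_lit 304) (nat_lit 16742653213) (nat_lit 76) (nat_lit 5348785303) (nat_lit 79) (nat_lit 5) (nat_lit 83) (nat_lit 5) (nat_lit 80) (nat_lit 5) (nat_lit 453) (nat_lit 378) (nat_lit 189)) (XT.lf (nat_lit 0) (nat_lit 8708901506) (nat_lit 152) (nat_lit 27388507099) (nat_lit 228) (nat_lit 11828701933) (nat_lit 77) (nat_lit 5) (nat_lit 79) (nat_lit 5) (nat_lit 80) (nat_lit 5) (nat_lit 454) (nat_lit 378) (nat_lit 188)))) (XT.nd (nat_lit 156) (nat_lit 152) (nat_lit 0) (XT.nd (nat_lit 78) (nat_lit 304) (nat_lit 0) (XT.lf (nat_lit 0) (nat_lit 35261625639) (nat_lit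 152) (nat_lit 12555190951) (nat_lit 228) (nat_lit 1087327258) (nat_lit 77) (nat_lit 5) (nat_lit 79) (nat_lit 5) (nat_lit 80) (nat_lit 5) (nat_lit 455) (nat_lit 378) (nat_lit 187)) (XT.lf (nat_lit 0) (nat_lit 9930230990) (nat_lit 304) (nat_lit 37084606539) (nat_lit 76) (nat_lit 2889345730) (nat_lit 73) (nat_lit 5) (nat_lit 77) (nat_lit 5) (nat_lit 74) (nat_lit 5) (nat_lit 456) (nat_lit 378) (nat_lit 186))) (XT.nd (nat_lit 78) (nat_lit 152) (nat_lit 0) (XT.lf (nat_lit 0) (nat_lit 21516695873) (nat_lit 304) (nat_lit 10716844244) (nat_lit 76) (nat_lit 18692554247) (nat_lit 73) (nat_lit 5) (nat_lit 77) (nat_lit 5) (nat_lit 74) (nat_lit 5) (nat_lit 457) (nat_lit 378) (nat_lit 185)) (XT.lf (nat_lit 0) (nat_lit 16763724382) (nat_lit 152) (nat_lit 16845065334) (nat_lit 228) (nat_lit 18365132525) (nat_lit 71) (nat_lit 5) (nat_lit 73) (nat_lit 5) (nat_lit 74) (nat_lit 5) (nat_lit 458) (nat_lit 378) (nat_lit 184)))))) (XT.nd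 (nat_lit 546) (nat_lit 760) (nat_lit 0) (XT.nd (nat_lit 234) (nat_lit 380) (nat_lit 0) (XT.nd (nat_lit 78) (nat_lit 228) (nat_lit 0) (XT.lf (nat_lit 0) (nat_lit 45283100111) (nat_lit 152) (nat_lit 885696848) (nat_lit 228) (nat_lit 6881233950) (nat_lit 71) (nat_lit 5) (nat_lit 73) (nat_lit 5) (nat_lit 74) (nat_lit 5) (nat_lit 459) (nat_lit 378) (nat_lit 183)) (XT.nd (nat_lit 78) (nat_lit 0) (nat_lit 0) (XT.lf (nat_lit 0) (nat_lit 5200028951) (nat_lit 228) (nat_lit 33449196297) (nat_lit 76) (nat_lit 15497289836) (nat_lit 68) (nat_lit 5) (nat_lit 71) (nat_lit 5) (nat_lit 69) (nat_lit 5) (nat_lit 460) (nat_lit 378) (nat_lit 182)) (XT.lf (nat_lit 0) (nat_lit 17590408435) (nat_lit 228) (nat_lit 5181725883) (nat_lit 76) (nat_lit 32499166429) (nat_lit 68) (nat_lit 5) (nat_lit 71) (nat_lit 5) (nat_lit 69) (nat_lit 5) (nat_lit 461) (nat_lit 378) (nat_lit 181)))) (XT.nd (nat_lit 156) (nat_lit 228) (nat_lit 0) (XT.nd (nat_lit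 78) (nat_lit 0) (nat_lit 0) (XT.lf (nat_lit 0) (nat_lit 24404930228) (nat_lit 152) (nat_lit 6179259431) (nat_lit 228) (nat_lit 25838690030) (nat_lit 66) (nat_lit 5) (nat_lit 68) (nat_lit 5) (nat_lit 69) (nat_lit 5) (nat_lit 462) (nat_lit 378) (nat_lit 180)) (XT.lf (nat_lit 0) (nat_lit 44122625695) (nat_lit 228) (nat_lit 2732517704) (nat_lit 76) (nat_lit 10749217768) (nat_lit 66) (nat_lit 5) (nat_lit 69) (nat_lit 5) (nat_lit 67) (nat_lit 5) (nat_lit 463) (nat_lit 378) (nat_lit 179))) (XT.nd (nat_lit 78) (nat_lit 76) (nat_lit 0) (XT.lf (nat_lit 0) (nat_lit 27909985966) (nat_lit 152) (nat_lit 30483892602) (nat_lit 228) (nat_lit 417609006) (nat_lit 64) (nat_lit 5) (nat_lit 66) (nat_lit 5) (nat_lit 67) (nat_lit 5) (nat_lit 464) (nat_lit 378) (nat_lit 178)) (XT.lf (nat_lit 0) (nat_lit 12809082604) (nat_lit 228) (nat_lit 656770260) (nat_lit 76) (nat_lit 46584463232) (nat_lit 63) (nat_lit 5) (nat_lit 66) (nat_lit 5)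 (nat_lit 64) (nat_lit 5) (nat_lit 465) (nat_lit 378) (nat_lit 177))))) (XT.nd (nat_lit 312) (nat_lit 228) (nat_lit 0) (XT.nd (nat_lit 156) (nat_lit 228) (nat_lit 0) (XT.nd (nat_lit 78) (nat_lit 152) (nat_lit 0) (XT.lf (nat_lit 0) (nat_lit 26762384562) (nat_lit 228) (nat_lit 30266225839) (nat_lit 76) (nat_lit 4287429298) (nat_lit 61) (nat_lit 5) (nat_lit 64) (nat_lit 5) (nat_lit 62) (nat_lit 5) (nat_lit 466) (nat_lit 378) (nat_lit 176)) (XT.lf (nat_lit 0) (nat_lit 982491351) (nat_lit 152) (nat_lit 40298558661) (nat_lit 228) (nat_lit 21334282419) (nat_lit 59) (nat_lit 5) (nat_lit 61) (nat_lit 5) (nat_lit 62) (nat_lit 5) (nat_lit 467) (nat_lit 378) (nat_lit 175))) (XT.nd (nat_lit 78) (nat_lit 228) (nat_lit 0) (XT.lf (nat_lit 0) (nat_lit 33784332937) (nat_lit 152) (nat_lit 22753902037) (nat_lit 228) (nat_lit 7406280525) (nat_lit 59) (nat_lit 5) (nat_lit 61) (nat_lit 5) (nat_lit 62) (nat_lit 5) (nat_lit 468) (nat_lit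 378) (nat_lit 174)) (XT.lf (nat_lit 0) (nat_lit 2228760832) (nat_lit 152) (nat_lit 4594190754) (nat_lit 228) (nat_lit 58488057397) (nat_lit 56) (nat_lit 5) (nat_lit 58) (nat_lit 5) (nat_lit 59) (nat_lit 5) (nat_lit 469) (nat_lit 378) (nat_lit 173)))) (XT.nd (nat_lit 156) (nat_lit 76) (nat_lit 0) (XT.nd (nat_lit 78) (nat_lit 152) (nat_lit 0) (XT.lf (nat_lit 0) (nat_lit 21770806689) (nat_lit 228) (nat_lit 30718406788) (nat_lit 76) (nat_lit 14213866077) (nat_lit 56) (nat_lit 5) (nat_lit 59) (nat_lit 5) (nat_lit 57) (nat_lit 5) (nat_lit 470) (nat_lit 378) (nat_lit 172)) (XT.lf (nat_lit 0) (nat_lit 2617382895) (nat_lit 152) (nat_lit 34617831221) (nat_lit 228) (nat_lit 30899654927) (nat_lit 54) (nat_lit 5) (nat_lit 56) (nat_lit 5) (nat_lit 57) (nat_lit 5) (nat_lit 471) (nat_lit 378) (nat_lit 171))) (XT.nd (nat_lit 78) (nat_lit 76) (nat_lit 0) (XT.lf (nat_lit 0) (nat_lit 37578433691) (nat_lit 152) (nat_lit 15892815848)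 (nat_lit 228) (nat_lit 16129132102) (nat_lit 54) (nat_lit 5) (nat_lit 56) (nat_lit 5) (nat_lit 57) (nat_lit 5) (nat_lit 472) (nat_lit 378) (nat_lit 170)) (XT.lf (nat_lit 0) (nat_lit 2489987504) (nat_lit 76) (nat_lit 67758492677) (nat_lit 152) (nat_lit 859756297) (nat_lit 53) (nat_lit 5) (nat_lit 54) (nat_lit 5) (nat_lit 55) (nat_lit 4) (nat_lit 473) (nat_lit 378) (nat_lit 169))))))))
noncomputable def xc188 : XT := (XT.nd (nat_lit 47112) (nat_lit 0) (nat_lit 7296) (XT.nd (nat_lit 46020) (nat_lit 0) (nat_lit 15732) (XT.nd (nat_lit 546) (nat_lit 152) (nat_lit 0) (XT.nd (nat_lit 234) (nat_lit 304) (nat_lit 0) (XT.nd (nat_lit 78) (nat_lit 152) (nat_lit 0) (XT.lf (nat_lit 0) (nat_lit 15059052455) (nat_lit 152) (nat_lit 34265838435) (nat_lit 76) (nat_lit 23317704597) (nat_lit 52) (nat_lit 5) (nat_lit 54) (nat_lit 5) (nat_lit 53) (nat_lit 5) (nat_lit 474) (nat_lit 378) (nat_lit 168)) (XT.nd (nat_lit 78) (nat_lit 0)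 (nat_lit 0) (XT.lf (nat_lit 0) (nat_lit 1126301262) (nat_lit 152) (nat_lit 30320300746) (nat_lit 228) (nat_lit 42775874443) (nat_lit 50) (nat_lit 5) (nat_lit 52) (nat_lit 5) (nat_lit 53) (nat_lit 5) (nat_lit 475) (nat_lit 378) (nat_lit 167)) (XT.lf (nat_lit 0) (nat_lit 38278354574) (nat_lit 152) (nat_lit 10391099358) (nat_lit 228) (nat_lit 27169989889) (nat_lit 50) (nat_lit 5) (nat_lit 52) (nat_lit 5) (nat_lit 53) (nat_lit 5) (nat_lit 476) (nat_lit 378) (nat_lit 166)))) (XT.nd (nat_lit 156) (nat_lit 152) (nat_lit 0) (XT.nd (nat_lit 78) (nat_lit 152) (nat_lit 0) (XT.lf (nat_lit 0) (nat_lit 66504132988) (nat_lit 228) (nat_lit 1061576844) (nat_lit 76) (nat_lit 9936356382) (nat_lit 50) (nat_lit 5) (nat_lit 53) (nat_lit 5) (nat_lit 51) (nat_lit 4) (nat_lit 477) (nat_lit 378) (nat_lit 165)) (XT.lf (nat_lit 0) (nat_lit 6011158889) (nat_lit 152) (nat_lit 42108851034) (nat_lit 76) (nat_lit 31079056368) (nat_lit 48) (nat_lit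 5) (nat_lit 50) (nat_lit 5) (nat_lit 49) (nat_lit 5) (nat_lit 478) (nat_lit 378) (nat_lit 164))) (XT.nd (nat_lit 78) (nat_lit 152) (nat_lit 0) (XT.lf (nat_lit 0) (nat_lit 23318081337) (nat_lit 152) (nat_lit 4651404220) (nat_lit 76) (nat_lit 52973966174) (nat_lit 48) (nat_lit 5) (nat_lit 50) (nat_lit 5) (nat_lit 49) (nat_lit 5) (nat_lit 479) (nat_lit 378) (nat_lit 163)) (XT.lf (nat_lit 0) (nat_lit 34600999537) (nat_lit 152) (nat_lit 6873661735) (nat_lit 228) (nat_lit 41255594188) (nat_lit 46) (nat_lit 5) (nat_lit 48) (nat_lit 5) (nat_lit 49) (nat_lit 5) (nat_lit 480) (nat_lit 378) (nat_lit 162))))) (XT.nd (nat_lit 45162) (nat_lit 0) (nat_lit 16644) (XT.nd (nat_lit 78) (nat_lit 152) (nat_lit 0) (XT.lf (nat_lit 0) (nat_lit 60364021226) (nat_lit 228) (nat_lit 9590155083) (nat_lit 76) (nat_lit 14610844727) (nat_lit 46) (nat_lit 5) (nat_lit 49) (nat_lit 5) (nat_lit 47) (nat_lit 4) (nat_lit 481) (nat_lit 378) (nat_lit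 161)) (XT.nd (nat_lit 78) (nat_lit 76) (nat_lit 0) (XT.lf (nat_lit 0) (nat_lit 30630933274) (nat_lit 76) (nat_lit 49549542402) (nat_lit 152) (nat_lit 6263541699) (nat_lit 45) (nat_lit 5) (nat_lit 46) (nat_lit 5) (nat_lit 47) (nat_lit 4) (nat_lit 482) (nat_lit 378) (nat_lit 160)) (XT.lf (nat_lit 0) (nat_lit 12069457730) (nat_lit 152) (nat_lit 16243436906) (nat_lit 76) (nat_lit 60060095921) (nat_lit 44) (nat_lit 5) (nat_lit 46) (nat_lit 5) (nat_lit 45) (nat_lit 5) (nat_lit 483) (nat_lit 378) (nat_lit 159)))) (XT.nd (nat_lit 156) (nat_lit 0) (nat_lit 0) (XT.nd (nat_lit 78) (nat_lit 0) (nat_lit 0) (XT.lf (nat_lit 0) (nat_lit 1796994041) (nat_lit 0) (nat_lit 1796994041) (nat_lit 1140) (nat_lit 2983933201) (nat_lit 263) (nat_lit 5) (nat_lit 263) (nat_lit 3) (nat_lit 278) (nat_lit 3) (nat_lit 379) (nat_lit 379) (nat_lit 262)) (XT.lf (nat_lit 0) (nat_lit 7703127257) (nat_lit 1140) (nat_lit 3238076038) (nat_lit 1216)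 (nat_lit 2399588325) (nat_lit 263) (nat_lit 5) (nat_lit 278) (nat_lit 3) (nat_lit 279) (nat_lit 5) (nat_lit 380) (nat_lit 379) (nat_lit 261))) (XT.nd (nat_lit 78) (nat_lit 0) (nat_lit 76) (XT.lf (nat_lit 76) (nat_lit 3296133783) (nat_lit 0) (nat_lit 4989960708) (nat_lit 1216) (nat_lit 5243630387) (nat_lit 264) (nat_lit 5) (nat_lit 263) (nat_lit 5) (nat_lit 279) (nat_lit 5) (nat_lit 381) (nat_lit 379) (nat_lit 260)) (XT.lf (nat_lit 0) (nat_lit 8916043872) (nat_lit 1140) (nat_lit 3650323468) (nat_lit 1216) (nat_lit 1157080391) (nat_lit 264) (nat_lit 5) (nat_lit 279) (nat_lit 5) (nat_lit 280) (nat_lit 5) (nat_lit 382) (nat_lit 379) (nat_lit 259)))))) (XT.nd (nat_lit 546) (nat_lit 0) (nat_lit 0) (XT.nd (nat_lit 234) (nat_lit 988) (nat_lit 0) (XT.nd (nat_lit 78) (nat_lit 0) (nat_lit 0) (XT.lf (nat_lit 76) (nat_lit 3133992922) (nat_lit 0) (nat_lit 6496366651) (nat_lit 1216) (nat_lit 4290664862) (nat_lit 265) (nat_lit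 5) (nat_lit 264) (nat_lit 5) (nat_lit 280) (nat_lit 5) (nat_lit 383) (nat_lit 379) (nat_lit 258)) (XT.nd (nat_lit 78) (nat_lit 0) (nat_lit 76) (XT.lf (nat_lit 76) (nat_lit 10188548038) (nat_lit 0) (nat_lit 200685827) (nat_lit 1216) (nat_lit 3734606728) (nat_lit 265) (nat_lit 5) (nat_lit 264) (nat_lit 5) (nat_lit 280) (nat_lit 5) (nat_lit 384) (nat_lit 379) (nat_lit 257)) (XT.lf (nat_lit 76) (nat_lit 3114019404) (nat_lit 0) (nat_lit 8133913554) (nat_lit 1216) (nat_lit 3082502367) (nat_lit 266) (nat_lit 5) (nat_lit 265) (nat_lit 5) (nat_lit 281) (nat_lit 5) (nat_lit 385) (nat_lit 379) (nat_lit 256)))) (XT.nd (nat_lit 156) (nat_lit 1064) (nat_lit 0) (XT.nd (nat_lit 78) (nat_lit 0) (nat_lit 76) (XT.lf (nat_lit 76) (nat_lit 10445195055) (nat_lit 0) (nat_lit 1715931967) (nat_lit 1216) (nat_lit 2381244534) (nat_lit 266) (nat_lit 5) (nat_lit 265) (nat_lit 5) (nat_lit 281) (nat_lit 5) (nat_lit 386) (nat_lit 379) (nat_lit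 255)) (XT.lf (nat_lit 76) (nat_lit 3243435872) (nat_lit 0) (nat_lit 9923958284) (nat_lit 1216) (nat_lit 1591306913) (nat_lit 267) (nat_lit 5) (nat_lit 266) (nat_lit 5) (nat_lit 282) (nat_lit 5) (nat_lit 387) (nat_lit 379) (nat_lit 254))) (XT.nd (nat_lit 78) (nat_lit 1140) (nat_lit 0) (XT.lf (nat_lit 76) (nat_lit 10862564410) (nat_lit 0) (nat_lit 3387215937) (nat_lit 1216) (nat_lit 730367540) (nat_lit 267) (nat_lit 5) (nat_lit 266) (nat_lit 5) (nat_lit 282) (nat_lit 5) (nat_lit 388) (nat_lit 379) (nat_lit 253)) (XT.lf (nat_lit 0) (nat_lit 208103289) (nat_lit 1216) (nat_lit 11678418750) (nat_lit 1292) (nat_lit 3320033357) (nat_lit 251) (nat_lit 5) (nat_lit 267) (nat_lit 5) (nat_lit 268) (nat_lit 5) (nat_lit 389) (nat_lit 379) (nat_lit 252))))) (XT.nd (nat_lit 234) (nat_lit 0) (nat_lit 76) (XT.nd (nat_lit 78) (nat_lit 0) (nat_lit 76) (XT.lf (nat_lit 0) (nat_lit 1223849793) (nat_lit 1216) (nat_lit 4000725593) (nat_lit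 1292) (nat_lit 10213053665) (nat_lit 251) (nat_lit 5) (nat_lit 267) (nat_lit 5) (nat_lit 268) (nat_lit 5) (nat_lit 390) (nat_lit 379) (nat_lit 251)) (XT.nd (nat_lit 78) (nat_lit 0) (nat_lit 0) (XT.lf (nat_lit 0) (nat_lit 2313052782) (nat_lit 1216) (nat_lit 11714506040) (nat_lit 1292) (nat_lit 1646791324) (nat_lit 252) (nat_lit 5) (nat_lit 268) (nat_lit 5) (nat_lit 269) (nat_lit 5) (nat_lit 391) (nat_lit 379) (nat_lit 250)) (XT.lf (nat_lit 0) (nat_lit 3516352929) (nat_lit 1216) (nat_lit 3736550669) (nat_lit 1292) (nat_lit 8662831260) (nat_lit 252) (nat_lit 5) (nat_lit 268) (nat_lit 5) (nat_lit 269) (nat_lit 5) (nat_lit 392) (nat_lit 379) (nat_lit 249)))) (XT.nd (nat_lit 156) (nat_lit 0) (nat_lit 76) (XT.nd (nat_lit 78) (nat_lit 0) (nat_lit 76) (XT.lf (nat_lit 76) (nat_lit 4561301101) (nat_lit 0) (nat_lit 227513619) (nat_lit 1292) (nat_lit 11374558995) (nat_lit 253) (nat_lit 5) (nat_lit 252) (nat_lit 5) (nat_lit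 269) (nat_lit 5) (nat_lit 393) (nat_lit 379) (nat_lit 248)) (XT.lf (nat_lit 0) (nat_lit 6194398356) (nat_lit 1216) (nat_lit 3309079292) (nat_lit 1292) (nat_lit 6912120001) (nat_lit 253) (nat_lit 5) (nat_lit 269) (nat_lit 5) (nat_lit 270) (nat_lit 5) (nat_lit 394) (nat_lit 379) (nat_lit 247))) (XT.nd (nat_lit 78) (nat_lit 0) (nat_lit 76) (XT.lf (nat_lit 76) (nat_lit 5325924173) (nat_lit 0) (nat_lit 2359451900) (nat_lit 1292) (nat_lit 8988719656) (nat_lit 254) (nat_lit 5) (nat_lit 253) (nat_lit 5) (nat_lit 270) (nat_lit 5) (nat_lit 395) (nat_lit 379) (nat_lit 246)) (XT.lf (nat_lit 0) (nat_lit 9292892477) (nat_lit 1216) (nat_lit 2708611006) (nat_lit 76) (nat_lit 4936695087) (nat_lit 254) (nat_lit 5) (nat_lit 270) (nat_lit 5) (nat_lit 255) (nat_lit 5) (nat_lit 396) (nat_lit 379) (nat_lit 245))))))) (XT.nd (nat_lit 1092) (nat_lit 3420) (nat_lit 0) (XT.nd (nat_lit 546) (nat_lit 2128) (nat_lit 0) (XT.nd (nat_lit 234)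 (nat_lit 1292) (nat_lit 0) (XT.nd (nat_lit 78) (nat_lit 608) (nat_lit 0) (XT.lf (nat_lit 0) (nat_lit 6280899530) (nat_lit 1216) (nat_lit 4741773414) (nat_lit 1292) (nat_lit 6185334379) (nat_lit 238) (nat_lit 5) (nat_lit 254) (nat_lit 5) (nat_lit 255) (nat_lit 5) (nat_lit 397) (nat_lit 379) (nat_lit 244)) (XT.nd (nat_lit 78) (nat_lit 608) (nat_lit 0) (XT.lf (nat_lit 0) (nat_lit 12848781900) (nat_lit 1292) (nat_lit 1924694896) (nat_lit 76) (nat_lit 2711104356) (nat_lit 238) (nat_lit 5) (nat_lit 255) (nat_lit 5) (nat_lit 239) (nat_lit 5) (nat_lit 398) (nat_lit 379) (nat_lit 243)) (XT.lf (nat_lit 0) (nat_lit 7437572209) (nat_lit 608) (nat_lit 7401335841) (nat_lit 684) (nat_lit 2927270881) (nat_lit 230) (nat_lit 5) (nat_lit 238) (nat_lit 5) (nat_lit 239) (nat_lit 5) (nat_lit 399) (nat_lit 379) (nat_lit 242)))) (XT.nd (nat_lit 156) (nat_lit 608) (nat_lit 0) (XT.nd (nat_lit 78) (nat_lit 684) (nat_lit 0) (XT.lf (nat_lit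 0) (nat_lit 16901197521) (nat_lit 684) (nat_lit 946119990) (nat_lit 76) (nat_lit 208536991) (nat_lit 230) (nat_lit 5) (nat_lit 239) (nat_lit 5) (nat_lit 231) (nat_lit 5) (nat_lit 400) (nat_lit 379) (nat_lit 241)) (XT.lf (nat_lit 0) (nat_lit 808710744) (nat_lit 684) (nat_lit 9549589984) (nat_lit 76) (nat_lit 7991209356) (nat_lit 221) (nat_lit 5) (nat_lit 230) (nat_lit 5) (nat_lit 222) (nat_lit 5) (nat_lit 401) (nat_lit 379) (nat_lit 240))) (XT.nd (nat_lit 78) (nat_lit 0) (nat_lit 0) (XT.lf (nat_lit 0) (nat_lit 189777942) (nat_lit 608) (nat_lit 2620802699) (nat_lit 684) (nat_lit 15840970801) (nat_lit 213) (nat_lit 5) (nat_lit 221) (nat_lit 5) (nat_lit 222) (nat_lit 5) (nat_lit 402) (nat_lit 379) (nat_lit 239)) (XT.lf (nat_lit 0) (nat_lit 5012818677) (nat_lit 684) (nat_lit 8603669971) (nat_lit 76) (nat_lit 5341959269) (nat_lit 213) (nat_lit 5) (nat_lit 222) (nat_lit 5) (nat_lit 214) (nat_lit 5) (nat_lit 403) (nat_lit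 379) (nat_lit 238))))) (XT.nd (nat_lit 234) (nat_lit 1064) (nat_lit 0) (XT.nd (nat_lit 78) (nat_lit 532) (nat_lit 0) (XT.lf (nat_lit 0) (nat_lit 1546025653) (nat_lit 532) (nat_lit 5767664397) (nat_lit 608) (nat_lit 11959887395) (nat_lit 206) (nat_lit 5) (nat_lit 213) (nat_lit 5) (nat_lit 214) (nat_lit 5) (nat_lit 404) (nat_lit 379) (nat_lit 237)) (XT.nd (nat_lit 78) (nat_lit 532) (nat_lit 0) (XT.lf (nat_lit 0) (nat_lit 9785511538) (nat_lit 608) (nat_lit 7450637020) (nat_lit 76) (nat_lit 2358957633) (nat_lit 206) (nat_lit 5) (nat_lit 214) (nat_lit 5) (nat_lit 207) (nat_lit 5) (nat_lit 405) (nat_lit 379) (nat_lit 236)) (XT.lf (nat_lit 0) (nat_lit 3130278636) (nat_lit 532) (nat_lit 9280555030) (nat_lit 608) (nat_lit 7513069716) (nat_lit 199) (nat_lit 5) (nat_lit 206) (nat_lit 5) (nat_lit 207) (nat_lit 5) (nat_lit 406) (nat_lit 379) (nat_lit 235)))) (XT.nd (nat_lit 156) (nat_lit 608) (nat_lit 0) (XT.nd (nat_lit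 78) (nat_lit 456) (nat_lit 0) (XT.lf (nat_lit 0) (nat_lit 14173149751) (nat_lit 532) (nat_lit 1009302572) (nat_lit 608) (nat_lit 5078088937) (nat_lit 199) (nat_lit 5) (nat_lit 206) (nat_lit 5) (nat_lit 207) (nat_lit 5) (nat_lit 407) (nat_lit 379) (nat_lit 234)) (XT.lf (nat_lit 0) (nat_lit 4956367530) (nat_lit 456) (nat_lit 13193206818) (nat_lit 532) (nat_lit 2454336076) (nat_lit 193) (nat_lit 5) (nat_lit 199) (nat_lit 5) (nat_lit 200) (nat_lit 5) (nat_lit 408) (nat_lit 379) (nat_lit 233))) (XT.nd (nat_lit 78) (nat_lit 532) (nat_lit 0) (XT.lf (nat_lit 0) (nat_lit 307944144) (nat_lit 532) (nat_lit 4520754713) (nat_lit 76) (nat_lit 16126873181) (nat_lit 192) (nat_lit 5) (nat_lit 199) (nat_lit 5) (nat_lit 193) (nat_lit 5) (nat_lit 409) (nat_lit 379) (nat_lit 232)) (XT.lf (nat_lit 0) (nat_lit 3201587830) (nat_lit 608) (nat_lit 14307550923) (nat_lit 76) (nat_lit 3804983550) (nat_lit 185) (nat_lit 5) (nat_lit 193)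 (nat_lit 5) (nat_lit 186) (nat_lit 5) (nat_lit 410) (nat_lit 379) (nat_lit 231)))))) (XT.nd (nat_lit 546) (nat_lit 1596) (nat_lit 0) (XT.nd (nat_lit 234) (nat_lit 1368) (nat_lit 0) (XT.nd (nat_lit 78) (nat_lit 456) (nat_lit 0) (XT.lf (nat_lit 0) (nat_lit 6268877738) (nat_lit 608) (nat_lit 2766075374) (nat_lit 76) (nat_lit 12645873338) (nat_lit 185) (nat_lit 5) (nat_lit 193) (nat_lit 5) (nat_lit 186) (nat_lit 5) (nat_lit 411) (nat_lit 379) (nat_lit 230)) (XT.nd (nat_lit 78) (nat_lit 0) (nat_lit 0) (XT.lf (nat_lit 0) (nat_lit 9295119655) (nat_lit 456) (nat_lit 215548389) (nat_lit 532) (nat_lit 12545391636) (nat_lit 179) (nat_lit 5) (nat_lit 185) (nat_lit 5) (nat_lit 186) (nat_lit 5) (nat_lit 412) (nat_lit 379) (nat_lit 229)) (XT.lf (nat_lit 0) (nat_lit 12956415112) (nat_lit 532) (nat_lit 760407757) (nat_lit 76) (nat_lit 8722528285) (nat_lit 179) (nat_lit 5) (nat_lit 186) (nat_lit 5) (nat_lit 180) (nat_lit 5) (nat_lit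 413) (nat_lit 379) (nat_lit 228)))) (XT.nd (nat_lit 156) (nat_lit 532) (nat_lit 0) (XT.nd (nat_lit 78) (nat_lit 380) (nat_lit 0) (XT.lf (nat_lit 0) (nat_lit 11820885291) (nat_lit 456) (nat_lit 4793855455) (nat_lit 532) (nat_lit 6216126712) (nat_lit 173) (nat_lit 5) (nat_lit 179) (nat_lit 5) (nat_lit 180) (nat_lit 5) (nat_lit 414) (nat_lit 379) (nat_lit 227)) (XT.lf (nat_lit 0) (nat_lit 1541142393) (nat_lit 380) (nat_lit 18900054617) (nat_lit 456) (nat_lit 2791183022) (nat_lit 168) (nat_lit 5) (nat_lit 173) (nat_lit 5) (nat_lit 174) (nat_lit 5) (nat_lit 415) (nat_lit 379) (nat_lit 226))) (XT.nd (nat_lit 78) (nat_lit 456) (nat_lit 0) (XT.lf (nat_lit 0) (nat_lit 875475949) (nat_lit 456) (nat_lit 9011700617) (nat_lit 76) (nat_lit 13753950933) (nat_lit 167) (nat_lit 5) (nat_lit 173) (nat_lit 5) (nat_lit 168) (nat_lit 5) (nat_lit 416) (nat_lit 379) (nat_lit 225)) (XT.lf (nat_lit 0) (nat_lit 4092734458) (nat_lit 456)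 (nat_lit 536423620) (nat_lit 532) (nat_lit 19431158563) (nat_lit 161) (nat_lit 5) (nat_lit 167) (nat_lit 5) (nat_lit 168) (nat_lit 5) (nat_lit 417) (nat_lit 379) (nat_lit 224))))) (XT.nd (nat_lit 312) (nat_lit 836) (nat_lit 0) (XT.nd (nat_lit 156) (nat_lit 380) (nat_lit 0) (XT.nd (nat_lit 78) (nat_lit 380) (nat_lit 0) (XT.lf (nat_lit 0) (nat_lit 8668651953) (nat_lit 532) (nat_lit 6810455597) (nat_lit 76) (nat_lit 9007779828) (nat_lit 161) (nat_lit 5) (nat_lit 168) (nat_lit 5) (nat_lit 162) (nat_lit 5) (nat_lit 418) (nat_lit 379) (nat_lit 223)) (XT.lf (nat_lit 0) (nat_lit 6862399824) (nat_lit 380) (nat_lit 6032260442) (nat_lit 456) (nat_lit 12029636986) (nat_lit 156) (nat_lit 5) (nat_lit 161) (nat_lit 5) (nat_lit 162) (nat_lit 5) (nat_lit 419) (nat_lit 379) (nat_lit 222))) (XT.nd (nat_lit 78) (nat_lit 380) (nat_lit 0) (XT.lf (nat_lit 0) (nat_lit 17346587301) (nat_lit 456) (nat_lit 4331616815) (nat_lit 76) (nat_lit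 3693652996) (nat_lit 156) (nat_lit 5) (nat_lit 162) (nat_lit 5) (nat_lit 157) (nat_lit 5) (nat_lit 420) (nat_lit 379) (nat_lit 221)) (XT.lf (nat_lit 0) (nat_lit 9937312181) (nat_lit 380) (nat_lit 12144317528) (nat_lit 456) (nat_lit 3746729125) (nat_lit 151) (nat_lit 5) (nat_lit 156) (nat_lit 5) (nat_lit 157) (nat_lit 5) (nat_lit 421) (nat_lit 379) (nat_lit 220)))) (XT.nd (nat_lit 156) (nat_lit 380) (nat_lit 0) (XT.nd (nat_lit 78) (nat_lit 380) (nat_lit 0) (XT.lf (nat_lit 0) (nat_lit 685805895) (nat_lit 456) (nat_lit 1588408079) (nat_lit 76) (nat_lit 24022997335) (nat_lit 150) (nat_lit 5) (nat_lit 156) (nat_lit 5) (nat_lit 151) (nat_lit 5) (nat_lit 422) (nat_lit 379) (nat_lit 219)) (XT.lf (nat_lit 0) (nat_lit 5376427868) (nat_lit 456) (nat_lit 13493177010) (nat_lit 76) (nat_lit 7903400738) (nat_lit 145) (nat_lit 5) (nat_lit 151) (nat_lit 5) (nat_lit 146) (nat_lit 5) (nat_lit 423) (nat_lit 379) (nat_lit 218)))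 (XT.nd (nat_lit 78) (nat_lit 0) (nat_lit 0) (XT.lf (nat_lit 0) (nat_lit 1360609802) (nat_lit 380) (nat_lit 8893537770) (nat_lit 456) (nat_lit 17007536400) (nat_lit 140) (nat_lit 5) (nat_lit 145) (nat_lit 5) (nat_lit 146) (nat_lit 5) (nat_lit 424) (nat_lit 379) (nat_lit 217)) (XT.lf (nat_lit 0) (nat_lit 15423738957) (nat_lit 456) (nat_lit 10846375913) (nat_lit 76) (nat_lit 1490543153) (nat_lit 140) (nat_lit 5) (nat_lit 146) (nat_lit 5) (nat_lit 141) (nat_lit 5) (nat_lit 425) (nat_lit 379) (nat_lit 216))))))))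
noncomputable def xc189 : XT := (XT.nd (nat_lit 2184) (nat_lit 2508) (nat_lit 0) (XT.nd (nat_lit 1092) (nat_lit 1976) (nat_lit 0) (XT.nd (nat_lit 546) (nat_lit 1292) (nat_lit 0) (XT.nd (nat_lit 234) (nat_lit 608) (nat_lit 0) (XT.nd (nat_lit 78) (nat_lit 456) (nat_lit 0) (XT.lf (nat_lit 0) (nat_lit 4655554993) (nat_lit 304) (nat_lit 16220479267) (nat_lit 380) (nat_lit 7394740051) (nat_lit 136) (nat_lit 5) (nat_lit 140) (nat_lit 5) (nat_lit 141) (nat_lit 5) (nat_lit 426) (nat_lit 379) (nat_lit 215)) (XT.nd (nat_lit 78) (nat_lit 456) (nat_lit 0) (XT.lf (nat_lit 0) (nat_lit 20837754374) (nat_lit 304) (nat_lit 5758563137) (nat_lit 380) (nat_lit 2196745462) (nat_lit 136) (nat_lit 5) (nat_lit 140) (nat_lit 5) (nat_lit 141) (nat_lit 5) (nat_lit 427) (nat_lit 379) (nat_lit 214)) (XT.lf (nat_lit 0) (nat_lit 3219645340) (nat_lit 456) (nat_lit 21078197265) (nat_lit 76) (nat_lit 5028546663) (nat_lit 130) (nat_lit 5) (nat_lit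 136) (nat_lit 5) (nat_lit 131) (nat_lit 5) (nat_lit 428) (nat_lit 379) (nat_lit 213)))) (XT.nd (nat_lit 156) (nat_lit 304) (nat_lit 0) (XT.nd (nat_lit 78) (nat_lit 304) (nat_lit 0) (XT.lf (nat_lit 0) (nat_lit 8887569194) (nat_lit 456) (nat_lit 4859076418) (nat_lit 76) (nat_lit 16124422764) (nat_lit 130) (nat_lit 5) (nat_lit 136) (nat_lit 5) (nat_lit 131) (nat_lit 5) (nat_lit 429) (nat_lit 379) (nat_lit 212)) (XT.lf (nat_lit 0) (nat_lit 12075374532) (nat_lit 304) (nat_lit 2761426162) (nat_lit 380) (nat_lit 15591950359) (nat_lit 126) (nat_lit 5) (nat_lit 130) (nat_lit 5) (nat_lit 131) (nat_lit 5) (nat_lit 430) (nat_lit 379) (nat_lit 211))) (XT.nd (nat_lit 78) (nat_lit 304) (nat_lit 0) (XT.lf (nat_lit 0) (nat_lit 21091530707) (nat_lit 380) (nat_lit 1473866093) (nat_lit 76) (nat_lit 8433958022) (nat_lit 126) (nat_lit 5) (nat_lit 131) (nat_lit 5) (nat_lit 127) (nat_lit 5) (nat_lit 431) (nat_lit 379) (nat_lit 210))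 (XT.lf (nat_lit 0) (nat_lit 16193959858) (nat_lit 304) (nat_lit 11518336831) (nat_lit 380) (nat_lit 3869429413) (nat_lit 122) (nat_lit 5) (nat_lit 126) (nat_lit 5) (nat_lit 127) (nat_lit 5) (nat_lit 432) (nat_lit 379) (nat_lit 209))))) (XT.nd (nat_lit 234) (nat_lit 608) (nat_lit 0) (XT.nd (nat_lit 78) (nat_lit 304) (nat_lit 0) (XT.lf (nat_lit 0) (nat_lit 2255426846) (nat_lit 304) (nat_lit 80953210) (nat_lit 380) (nat_lit 29843548228) (nat_lit 117) (nat_lit 5) (nat_lit 121) (nat_lit 5) (nat_lit 122) (nat_lit 5) (nat_lit 433) (nat_lit 379) (nat_lit 208)) (XT.nd (nat_lit 78) (nat_lit 304) (nat_lit 0) (XT.lf (nat_lit 0) (nat_lit 8915439674) (nat_lit 380) (nat_lit 12207185477) (nat_lit 76) (nat_lit 11664357733) (nat_lit 117) (nat_lit 5) (nat_lit 122) (nat_lit 5) (nat_lit 118) (nat_lit 5) (nat_lit 434) (nat_lit 379) (nat_lit 207)) (XT.lf (nat_lit 0) (nat_lit 6154332438) (nat_lit 304) (nat_lit 9593091183) (nat_lit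 380) (nat_lit 17663160010) (nat_lit 113) (nat_lit 5) (nat_lit 117) (nat_lit 5) (nat_lit 118) (nat_lit 5) (nat_lit 435) (nat_lit 379) (nat_lit 206)))) (XT.nd (nat_lit 156) (nat_lit 380) (nat_lit 0) (XT.nd (nat_lit 78) (nat_lit 228) (nat_lit 0) (XT.lf (nat_lit 0) (nat_lit 22926431484) (nat_lit 380) (nat_lit 8762077313) (nat_lit 76) (nat_lit 2360122726) (nat_lit 113) (nat_lit 5) (nat_lit 118) (nat_lit 5) (nat_lit 114) (nat_lit 5) (nat_lit 436) (nat_lit 379) (nat_lit 205)) (XT.lf (nat_lit 0) (nat_lit 10388190954) (nat_lit 228) (nat_lit 20123220614) (nat_lit 304) (nat_lit 4188692245) (nat_lit 110) (nat_lit 5) (nat_lit 113) (nat_lit 5) (nat_lit 114) (nat_lit 5) (nat_lit 437) (nat_lit 379) (nat_lit 204))) (XT.nd (nat_lit 78) (nat_lit 304) (nat_lit 0) (XT.lf (nat_lit 0) (nat_lit 2980339286) (nat_lit 304) (nat_lit 5111627276) (nat_lit 76) (nat_lit 27275748984) (nat_lit 109) (nat_lit 5) (nat_lit 113) (nat_lit 5) (nat_lit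 110) (nat_lit 5) (nat_lit 438) (nat_lit 379) (nat_lit 203)) (XT.lf (nat_lit 0) (nat_lit 10462606528) (nat_lit 380) (nat_lit 21185274685) (nat_lit 76) (nat_lit 4400760588) (nat_lit 105) (nat_lit 5) (nat_lit 110) (nat_lit 5) (nat_lit 106) (nat_lit 5) (nat_lit 439) (nat_lit 379) (nat_lit 202)))))) (XT.nd (nat_lit 546) (nat_lit 988) (nat_lit 0) (XT.nd (nat_lit 234) (nat_lit 532) (nat_lit 0) (XT.nd (nat_lit 78) (nat_lit 456) (nat_lit 0) (XT.lf (nat_lit 0) (nat_lit 18297532641) (nat_lit 380) (nat_lit 1293014815) (nat_lit 76) (nat_lit 17155603569) (nat_lit 105) (nat_lit 5) (nat_lit 110) (nat_lit 5) (nat_lit 106) (nat_lit 5) (nat_lit 440) (nat_lit 379) (nat_lit 201)) (XT.nd (nat_lit 78) (nat_lit 228) (nat_lit 0) (XT.lf (nat_lit 0) (nat_lit 19571780590) (nat_lit 228) (nat_lit 6979923910) (nat_lit 304) (nat_lit 10907355970) (nat_lit 102) (nat_lit 5) (nat_lit 105) (nat_lit 5) (nat_lit 106) (nat_lit 5) (nat_lit 441) (nat_lit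 379) (nat_lit 200)) (XT.lf (nat_lit 0) (nat_lit 2888346286) (nat_lit 228) (nat_lit 32259965340) (nat_lit 304) (nat_lit 3042202125) (nat_lit 99) (nat_lit 5) (nat_lit 102) (nat_lit 5) (nat_lit 103) (nat_lit 5) (nat_lit 442) (nat_lit 379) (nat_lit 199)))) (XT.nd (nat_lit 156) (nat_lit 228) (nat_lit 0) (XT.nd (nat_lit 78) (nat_lit 228) (nat_lit 0) (XT.lf (nat_lit 0) (nat_lit 5207824750) (nat_lit 304) (nat_lit 14410306299) (nat_lit 76) (nat_lit 19316892432) (nat_lit 98) (nat_lit 5) (nat_lit 102) (nat_lit 5) (nat_lit 99) (nat_lit 5) (nat_lit 443) (nat_lit 379) (nat_lit 198)) (XT.lf (nat_lit 0) (nat_lit 7212918986) (nat_lit 228) (nat_lit 6496849310) (nat_lit 304) (nat_lit 25989230533) (nat_lit 95) (nat_lit 5) (nat_lit 98) (nat_lit 5) (nat_lit 99) (nat_lit 5) (nat_lit 444) (nat_lit 379) (nat_lit 197))) (XT.nd (nat_lit 78) (nat_lit 228) (nat_lit 0) (XT.lf (nat_lit 0) (nat_lit 22677445924) (nat_lit 304) (nat_lit 10776245286)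 (nat_lit 76) (nat_lit 7025882715) (nat_lit 95) (nat_lit 5) (nat_lit 99) (nat_lit 5) (nat_lit 96) (nat_lit 5) (nat_lit 445) (nat_lit 379) (nat_lit 196)) (XT.lf (nat_lit 0) (nat_lit 11743847359) (nat_lit 228) (nat_lit 20343887016) (nat_lit 304) (nat_lit 9190625222) (nat_lit 92) (nat_lit 5) (nat_lit 95) (nat_lit 5) (nat_lit 96) (nat_lit 5) (nat_lit 446) (nat_lit 379) (nat_lit 195))))) (XT.nd (nat_lit 234) (nat_lit 684) (nat_lit 0) (XT.nd (nat_lit 78) (nat_lit 304) (nat_lit 0) (XT.lf (nat_lit 0) (nat_lit 35154626392) (nat_lit 228) (nat_lit 6730940151) (nat_lit 304) (nat_lit 212385963) (nat_lit 92) (nat_lit 5) (nat_lit 95) (nat_lit 5) (nat_lit 96) (nat_lit 5) (nat_lit 447) (nat_lit 379) (nat_lit 194)) (XT.nd (nat_lit 78) (nat_lit 0) (nat_lit 0) (XT.lf (nat_lit 0) (nat_lit 9087017999) (nat_lit 304) (nat_lit 26451260794) (nat_lit 76) (nat_lit 7394405722) (nat_lit 88) (nat_lit 5) (nat_lit 92) (nat_lit 5) (nat_lit 89)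 (nat_lit 5) (nat_lit 448) (nat_lit 379) (nat_lit 193)) (XT.lf (nat_lit 0) (nat_lit 18795098649) (nat_lit 304) (nat_lit 3114295093) (nat_lit 76) (nat_lit 21878983414) (nat_lit 88) (nat_lit 5) (nat_lit 92) (nat_lit 5) (nat_lit 89) (nat_lit 5) (nat_lit 449) (nat_lit 379) (nat_lit 192)))) (XT.nd (nat_lit 156) (nat_lit 304) (nat_lit 0) (XT.nd (nat_lit 78) (nat_lit 152) (nat_lit 0) (XT.lf (nat_lit 0) (nat_lit 21333492806) (nat_lit 228) (nat_lit 7662613251) (nat_lit 304) (nat_lit 15667584628) (nat_lit 85) (nat_lit 5) (nat_lit 88) (nat_lit 5) (nat_lit 89) (nat_lit 5) (nat_lit 450) (nat_lit 379) (nat_lit 191)) (XT.lf (nat_lit 0) (nat_lit 959644218) (nat_lit 152) (nat_lit 38648521577) (nat_lit 228) (nat_lit 5953947779) (nat_lit 83) (nat_lit 5) (nat_lit 85) (nat_lit 5) (nat_lit 86) (nat_lit 5) (nat_lit 451) (nat_lit 379) (nat_lit 190))) (XT.nd (nat_lit 78) (nat_lit 228) (nat_lit 0) (XT.lf (nat_lit 0) (nat_lit 4282485335)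 (nat_lit 228) (nat_lit 20146752873) (nat_lit 76) (nat_lit 22047770114) (nat_lit 82) (nat_lit 5) (nat_lit 85) (nat_lit 5) (nat_lit 83) (nat_lit 5) (nat_lit 452) (nat_lit 379) (nat_lit 189)) (XT.lf (nat_lit 0) (nat_lit 5077307801) (nat_lit 228) (nat_lit 9674588367) (nat_lit 304) (nat_lit 32664319218) (nat_lit 79) (nat_lit 5) (nat_lit 82) (nat_lit 5) (nat_lit 83) (nat_lit 5) (nat_lit 453) (nat_lit 379) (nat_lit 188))))))) (XT.nd (nat_lit 1092) (nat_lit 1140) (nat_lit 0) (XT.nd (nat_lit 546) (nat_lit 760) (nat_lit 0) (XT.nd (nat_lit 234) (nat_lit 456) (nat_lit 0) (XT.nd (nat_lit 78) (nat_lit 152) (nat_lit 0) (XT.lf (nat_lit 0) (nat_lit 25790702664) (nat_lit 304) (nat_lit 16966994485) (nat_lit 76) (nat_lit 5618242662) (nat_lit 79) (nat_lit 5) (nat_lit 83) (nat_lit 5) (nat_lit 80) (nat_lit 5) (nat_lit 454) (nat_lit 379) (nat_lit 187)) (XT.nd (nat_lit 78) (nat_lit 0) (nat_lit 0) (XT.lf (nat_lit 0) (nat_lit 9245381991)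 (nat_lit 152) (nat_lit 28096814520) (nat_lit 228) (nat_lit 12016814296) (nat_lit 77) (nat_lit 5) (nat_lit 79) (nat_lit 5) (nat_lit 80) (nat_lit 5) (nat_lit 455) (nat_lit 379) (nat_lit 186)) (XT.lf (nat_lit 0) (nat_lit 36586671921) (nat_lit 152) (nat_lit 12821800280) (nat_lit 228) (nat_lit 958055138) (nat_lit 77) (nat_lit 5) (nat_lit 79) (nat_lit 5) (nat_lit 80) (nat_lit 5) (nat_lit 456) (nat_lit 379) (nat_lit 185)))) (XT.nd (nat_lit 156) (nat_lit 152) (nat_lit 0) (XT.nd (nat_lit 78) (nat_lit 0) (nat_lit 0) (XT.lf (nat_lit 0) (nat_lit 10385888536) (nat_lit 304) (nat_lit 37925755595) (nat_lit 76) (nat_lit 3084907326) (nat_lit 73) (nat_lit 5) (nat_lit 77) (nat_lit 5) (nat_lit 74) (nat_lit 5) (nat_lit 457) (nat_lit 379) (nat_lit 184)) (XT.lf (nat_lit 0) (nat_lit 22315352687) (nat_lit 304) (nat_lit 10774864969) (nat_lit 76) (nat_lit 19359040801) (nat_lit 73) (nat_lit 5) (nat_lit 77) (nat_lit 5) (nat_lit 74) (nat_lit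 5) (nat_lit 458) (nat_lit 379) (nat_lit 183))) (XT.nd (nat_lit 78) (nat_lit 0) (nat_lit 0) (XT.lf (nat_lit 0) (nat_lit 17527537534) (nat_lit 152) (nat_lit 17240718903) (nat_lit 228) (nat_lit 18760324022) (nat_lit 71) (nat_lit 5) (nat_lit 73) (nat_lit 5) (nat_lit 74) (nat_lit 5) (nat_lit 459) (nat_lit 379) (nat_lit 182)) (XT.lf (nat_lit 0) (nat_lit 46894895464) (nat_lit 152) (nat_lit 805764462) (nat_lit 228) (nat_lit 6936445261) (nat_lit 71) (nat_lit 5) (nat_lit 73) (nat_lit 5) (nat_lit 74) (nat_lit 5) (nat_lit 460) (nat_lit 379) (nat_lit 181))))) (XT.nd (nat_lit 234) (nat_lit 380) (nat_lit 0) (XT.nd (nat_lit 78) (nat_lit 152) (nat_lit 0) (XT.lf (nat_lit 0) (nat_lit 5503457293) (nat_lit 228) (nat_lit 34195528206) (nat_lit 76) (nat_lit 16067480837) (nat_lit 68) (nat_lit 5) (nat_lit 71) (nat_lit 5) (nat_lit 69) (nat_lit 5) (nat_lit 461) (nat_lit 379) (nat_lit 180)) (XT.nd (nat_lit 78) (nat_lit 152) (nat_lit 0)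 (XT.lf (nat_lit 0) (nat_lit 18261254157) (nat_lit 228) (nat_lit 5087523310) (nat_lit 76) (nat_lit 33576347544) (nat_lit 68) (nat_lit 5) (nat_lit 71) (nat_lit 5) (nat_lit 69) (nat_lit 5) (nat_lit 462) (nat_lit 379) (nat_lit 179)) (XT.lf (nat_lit 0) (nat_lit 25384284892) (nat_lit 152) (nat_lit 6258771292) (nat_lit 228) (nat_lit 26468249521) (nat_lit 66) (nat_lit 5) (nat_lit 68) (nat_lit 5) (nat_lit 69) (nat_lit 5) (nat_lit 463) (nat_lit 379) (nat_lit 178)))) (XT.nd (nat_lit 156) (nat_lit 228) (nat_lit 0) (XT.nd (nat_lit 78) (nat_lit 152) (nat_lit 0) (XT.lf (nat_lit 0) (nat_lit 45584516586) (nat_lit 228) (nat_lit 2571338396) (nat_lit 76) (nat_lit 11172471094) (nat_lit 66) (nat_lit 5) (nat_lit 69) (nat_lit 5) (nat_lit 67) (nat_lit 5) (nat_lit 464) (nat_lit 379) (nat_lit 177)) (XT.lf (nat_lit 0) (nat_lit 28988056514) (nat_lit 152) (nat_lit 31294139374) (nat_lit 228) (nat_lit 289522293) (nat_lit 64) (nat_lit 5) (nat_lit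 66) (nat_lit 5) (nat_lit 67) (nat_lit 5) (nat_lit 465) (nat_lit 379) (nat_lit 176))) (XT.nd (nat_lit 78) (nat_lit 152) (nat_lit 0) (XT.lf (nat_lit 0) (nat_lit 13327210498) (nat_lit 228) (nat_lit 440033258) (nat_lit 76) (nat_lit 48080548257) (nat_lit 63) (nat_lit 5) (nat_lit 66) (nat_lit 5) (nat_lit 64) (nat_lit 5) (nat_lit 466) (nat_lit 379) (nat_lit 175)) (XT.lf (nat_lit 0) (nat_lit 27698443006) (nat_lit 228) (nat_lit 30937086615) (nat_lit 76) (nat_lit 4515978281) (nat_lit 61) (nat_lit 5) (nat_lit 64) (nat_lit 5) (nat_lit 62) (nat_lit 5) (nat_lit 467) (nat_lit 379) (nat_lit 174)))))) (XT.nd (nat_lit 546) (nat_lit 532) (nat_lit 0) (XT.nd (nat_lit 234) (nat_lit 228) (nat_lit 0) (XT.nd (nat_lit 78) (nat_lit 228) (nat_lit 0) (XT.lf (nat_lit 0) (nat_lit 1246767326) (nat_lit 152) (nat_lit 41404278916) (nat_lit 228) (nat_lit 21838782344) (nat_lit 59) (nat_lit 5) (nat_lit 61) (nat_lit 5) (nat_lit 62) (nat_lit 5) (nat_lit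 468) (nat_lit 379) (nat_lit 173)) (XT.nd (nat_lit 78) (nat_lit 228) (nat_lit 0) (XT.lf (nat_lit 0) (nat_lit 35025825289) (nat_lit 152) (nat_lit 23336289482) (nat_lit 228) (nat_lit 7496887828) (nat_lit 59) (nat_lit 5) (nat_lit 61) (nat_lit 5) (nat_lit 62) (nat_lit 5) (nat_lit 469) (nat_lit 379) (nat_lit 172)) (XT.lf (nat_lit 0) (nat_lit 2523909295) (nat_lit 152) (nat_lit 4631181078) (nat_lit 228) (nat_lit 60111409931) (nat_lit 56) (nat_lit 5) (nat_lit 58) (nat_lit 5) (nat_lit 59) (nat_lit 5) (nat_lit 470) (nat_lit 379) (nat_lit 171)))) (XT.nd (nat_lit 156) (nat_lit 76) (nat_lit 0) (XT.nd (nat_lit 78) (nat_lit 152) (nat_lit 0) (XT.lf (nat_lit 0) (nat_lit 22548610045) (nat_lit 228) (nat_lit 31415536373) (nat_lit 76) (nat_lit 14736270154) (nat_lit 56) (nat_lit 5) (nat_lit 59) (nat_lit 5) (nat_lit 57) (nat_lit 5) (nat_lit 471) (nat_lit 379) (nat_lit 170)) (XT.lf (nat_lit 0) (nat_lit 2918126778) (nat_lit 152) (nat_lit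 35557327623) (nat_lit 228) (nat_lit 31699750642) (nat_lit 54) (nat_lit 5) (nat_lit 56) (nat_lit 5) (nat_lit 57) (nat_lit 5) (nat_lit 472) (nat_lit 379) (nat_lit 169))) (XT.nd (nat_lit 78) (nat_lit 76) (nat_lit 0) (XT.lf (nat_lit 0) (nat_lit 38921536601) (nat_lit 152) (nat_lit 16273446406) (nat_lit 228) (nat_lit 16489808071) (nat_lit 54) (nat_lit 5) (nat_lit 56) (nat_lit 5) (nat_lit 57) (nat_lit 5) (nat_lit 473) (nat_lit 379) (nat_lit 168)) (XT.lf (nat_lit 0) (nat_lit 2780973303) (nat_lit 76) (nat_lit 69694050332) (nat_lit 152) (nat_lit 762873545) (nat_lit 53) (nat_lit 5) (nat_lit 54) (nat_lit 5) (nat_lit 55) (nat_lit 4) (nat_lit 474) (nat_lit 379) (nat_lit 167))))) (XT.nd (nat_lit 312) (nat_lit 304) (nat_lit 0) (XT.nd (nat_lit 156) (nat_lit 0) (nat_lit 0) (XT.nd (nat_lit 78) (nat_lit 152) (nat_lit 0) (XT.lf (nat_lit 0) (nat_lit 15627602281) (nat_lit 152) (nat_lit 35081489962) (nat_lit 76) (nat_lit 24109264827)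 (nat_lit 52) (nat_lit 5) (nat_lit 54) (nat_lit 5) (nat_lit 53) (nat_lit 5) (nat_lit 475) (nat_lit 379) (nat_lit 166)) (XT.lf (nat_lit 0) (nat_lit 1370332321) (nat_lit 152) (nat_lit 31135065666) (nat_lit 228) (nat_lit 43940278262) (nat_lit 50) (nat_lit 5) (nat_lit 52) (nat_lit 5) (nat_lit 53) (nat_lit 5) (nat_lit 476) (nat_lit 379) (nat_lit 165))) (XT.nd (nat_lit 78) (nat_lit 0) (nat_lit 0) (XT.lf (nat_lit 0) (nat_lit 39630823678) (nat_lit 152) (nat_lit 10610750686) (nat_lit 228) (nat_lit 27869679476) (nat_lit 50) (nat_lit 5) (nat_lit 52) (nat_lit 5) (nat_lit 53) (nat_lit 5) (nat_lit 477) (nat_lit 379) (nat_lit 164)) (XT.lf (nat_lit 0) (nat_lit 68608889949) (nat_lit 228) (nat_lit 892835200) (nat_lit 76) (nat_lit 10322102227) (nat_lit 50) (nat_lit 5) (nat_lit 53) (nat_lit 5) (nat_lit 51) (nat_lit 4) (nat_lit 478) (nat_lit 379) (nat_lit 163)))) (XT.nd (nat_lit 156) (nat_lit 152) (nat_lit 0) (XT.nd (nat_lit 78)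 (nat_lit 0) (nat_lit 0) (XT.lf (nat_lit 0) (nat_lit 6300926743) (nat_lit 152) (nat_lit 43171305085) (nat_lit 76) (nat_lit 32099512303) (nat_lit 48) (nat_lit 5) (nat_lit 50) (nat_lit 5) (nat_lit 49) (nat_lit 5) (nat_lit 479) (nat_lit 379) (nat_lit 162)) (XT.lf (nat_lit 0) (nat_lit 24123869493) (nat_lit 152) (nat_lit 4595983745) (nat_lit 76) (nat_lit 54648703843) (nat_lit 48) (nat_lit 5) (nat_lit 50) (nat_lit 5) (nat_lit 49) (nat_lit 5) (nat_lit 480) (nat_lit 379) (nat_lit 161))) (XT.nd (nat_lit 78) (nat_lit 0) (nat_lit 0) (XT.lf (nat_lit 0) (nat_lit 35832080727) (nat_lit 152) (nat_lit 6991827290) (nat_lit 228) (nat_lit 42385094383) (nat_lit 46) (nat_lit 5) (nat_lit 48) (nat_lit 5) (nat_lit 49) (nat_lit 5) (nat_lit 481) (nat_lit 379) (nat_lit 160)) (XT.lf (nat_lit 0) (nat_lit 62277712001) (nat_lit 228) (nat_lit 9688184404) (nat_lit 76) (nat_lit 15132981949) (nat_lit 46) (nat_lit 5) (nat_lit 49) (nat_lit 5) (nat_lit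 47) (nat_lit 4) (nat_lit 482) (nat_lit 379) (nat_lit 159))))))))
noncomputable def xc190 : XT := (XT.nd (nat_lit 47190) (nat_lit 0) (nat_lit 5472) (XT.nd (nat_lit 46098) (nat_lit 0) (nat_lit 12236) (XT.nd (nat_lit 45552) (nat_lit 0) (nat_lit 15656) (XT.nd (nat_lit 45240) (nat_lit 0) (nat_lit 16568) (XT.nd (nat_lit 45084) (nat_lit 0) (nat_lit 16568) (XT.lf (nat_lit 0) (nat_lit 31737677041) (nat_lit 76) (nat_lit 50949795138) (nat_lit 152) (nat_lit 6346808337) (nat_lit 45) (nat_lit 5) (nat_lit 46) (nat_lit 5) (nat_lit 47) (nat_lit 4) (nat_lit 483) (nat_lit 379) (nat_lit 158)) (XT.nd (nat_lit 78) (nat_lit 0) (nat_lit 0) (XT.lf (nat_lit 0) (nat_lit 2040962210) (nat_lit 0) (nat_lit 2040962210) (nat_lit 1140) (nat_lit 2681763980) (nat_lit 263) (nat_lit 5) (nat_lit 263) (nat_lit 3) (nat_lit 278) (nat_lit 3) (nat_lit 380) (nat_lit 380) (nat_lit 260)) (XT.lf (nat_lit 0) (nat_lit 8668764255) (nat_lit 1140) (nat_lit 2940158463)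 (nat_lit 1216) (nat_lit 2109732043) (nat_lit 263) (nat_lit 5) (nat_lit 278) (nat_lit 3) (nat_lit 279) (nat_lit 5) (nat_lit 381) (nat_lit 380) (nat_lit 259)))) (XT.nd (nat_lit 156) (nat_lit 0) (nat_lit 76) (XT.nd (nat_lit 78) (nat_lit 0) (nat_lit 76) (XT.lf (nat_lit 76) (nat_lit 3786204517) (nat_lit 0) (nat_lit 5465381853) (nat_lit 1216) (nat_lit 4662208116) (nat_lit 264) (nat_lit 5) (nat_lit 263) (nat_lit 5) (nat_lit 279) (nat_lit 5) (nat_lit 382) (nat_lit 380) (nat_lit 258)) (XT.lf (nat_lit 0) (nat_lit 9876513540) (nat_lit 1140) (nat_lit 3355813851) (nat_lit 1216) (nat_lit 881728426) (nat_lit 264) (nat_lit 5) (nat_lit 279) (nat_lit 5) (nat_lit 280) (nat_lit 5) (nat_lit 383) (nat_lit 380) (nat_lit 257))) (XT.nd (nat_lit 78) (nat_lit 0) (nat_lit 0) (XT.lf (nat_lit 76) (nat_lit 3628071058) (nat_lit 0) (nat_lit 6967849134) (nat_lit 1216) (nat_lit 3722138691) (nat_lit 265) (nat_lit 5) (nat_lit 264) (nat_lit 5) (nat_lit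 280) (nat_lit 5) (nat_lit 384) (nat_lit 380) (nat_lit 256)) (XT.lf (nat_lit 76) (nat_lit 10882610642) (nat_lit 0) (nat_lit 475241822) (nat_lit 1216) (nat_lit 3169706952) (nat_lit 265) (nat_lit 5) (nat_lit 264) (nat_lit 5) (nat_lit 280) (nat_lit 5) (nat_lit 385) (nat_lit 380) (nat_lit 255))))) (XT.nd (nat_lit 234) (nat_lit 1064) (nat_lit 0) (XT.nd (nat_lit 78) (nat_lit 0) (nat_lit 0) (XT.lf (nat_lit 76) (nat_lit 3614394616) (nat_lit 0) (nat_lit 8610189447) (nat_lit 1216) (nat_lit 2516308173) (nat_lit 266) (nat_lit 5) (nat_lit 265) (nat_lit 5) (nat_lit 281) (nat_lit 5) (nat_lit 386) (nat_lit 380) (nat_lit 254)) (XT.nd (nat_lit 78) (nat_lit 0) (nat_lit 76) (XT.lf (nat_lit 76) (nat_lit 11153652490) (nat_lit 0) (nat_lit 1992903602) (nat_lit 1216) (nat_lit 1813197147) (nat_lit 266) (nat_lit 5) (nat_lit 265) (nat_lit 5) (nat_lit 281) (nat_lit 5) (nat_lit 387) (nat_lit 380) (nat_lit 253)) (XT.lf (nat_lit 76) (nat_lit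 3752817592) (nat_lit 0) (nat_lit 10413974760) (nat_lit 1216) (nat_lit 1016274762) (nat_lit 267) (nat_lit 5) (nat_lit 266) (nat_lit 5) (nat_lit 282) (nat_lit 5) (nat_lit 388) (nat_lit 380) (nat_lit 252)))) (XT.nd (nat_lit 156) (nat_lit 0) (nat_lit 0) (XT.nd (nat_lit 78) (nat_lit 1140) (nat_lit 0) (XT.lf (nat_lit 76) (nat_lit 11588517696) (nat_lit 0) (nat_lit 3675529238) (nat_lit 1216) (nat_lit 147646180) (nat_lit 267) (nat_lit 5) (nat_lit 266) (nat_lit 5) (nat_lit 282) (nat_lit 5) (nat_lit 389) (nat_lit 380) (nat_lit 251)) (XT.lf (nat_lit 0) (nat_lit 792188293) (nat_lit 1216) (nat_lit 11601414602) (nat_lit 1292) (nat_lit 3251572588) (nat_lit 251) (nat_lit 5) (nat_lit 267) (nat_lit 5) (nat_lit 268) (nat_lit 5) (nat_lit 390) (nat_lit 380) (nat_lit 250))) (XT.nd (nat_lit 78) (nat_lit 0) (nat_lit 76) (XT.lf (nat_lit 0) (nat_lit 1821576845) (nat_lit 1216) (nat_lit 3705837932) (nat_lit 1292) (nat_lit 10356278508) (nat_lit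 251) (nat_lit 5) (nat_lit 267) (nat_lit 5) (nat_lit 268) (nat_lit 5) (nat_lit 391) (nat_lit 380) (nat_lit 249)) (XT.lf (nat_lit 0) (nat_lit 2929740627) (nat_lit 1216) (nat_lit 11637089030) (nat_lit 1292) (nat_lit 1561104639) (nat_lit 252) (nat_lit 5) (nat_lit 268) (nat_lit 5) (nat_lit 269) (nat_lit 5) (nat_lit 392) (nat_lit 380) (nat_lit 248)))))) (XT.nd (nat_lit 546) (nat_lit 2432) (nat_lit 0) (XT.nd (nat_lit 234) (nat_lit 1064) (nat_lit 0) (XT.nd (nat_lit 78) (nat_lit 0) (nat_lit 0) (XT.lf (nat_lit 0) (nat_lit 4153199111) (nat_lit 1216) (nat_lit 3432285838) (nat_lit 1292) (nat_lit 8791560446) (nat_lit 252) (nat_lit 5) (nat_lit 268) (nat_lit 5) (nat_lit 269) (nat_lit 5) (nat_lit 393) (nat_lit 380) (nat_lit 247)) (XT.nd (nat_lit 78) (nat_lit 0) (nat_lit 76) (XT.lf (nat_lit 76) (nat_lit 5110419511) (nat_lit 0) (nat_lit 341901949) (nat_lit 1292) (nat_lit 11180143789) (nat_lit 253) (nat_lit 5) (nat_lit 252) (nat_lit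 5) (nat_lit 269) (nat_lit 5) (nat_lit 394) (nat_lit 380) (nat_lit 246)) (XT.lf (nat_lit 0) (nat_lit 6883927723) (nat_lit 1216) (nat_lit 2991727384) (nat_lit 1292) (nat_lit 7017091385) (nat_lit 253) (nat_lit 5) (nat_lit 269) (nat_lit 5) (nat_lit 270) (nat_lit 5) (nat_lit 395) (nat_lit 380) (nat_lit 245)))) (XT.nd (nat_lit 156) (nat_lit 1140) (nat_lit 0) (XT.nd (nat_lit 78) (nat_lit 0) (nat_lit 76) (XT.lf (nat_lit 76) (nat_lit 5898241633) (nat_lit 0) (nat_lit 2510687924) (nat_lit 1292) (nat_lit 8750397177) (nat_lit 254) (nat_lit 5) (nat_lit 253) (nat_lit 5) (nat_lit 270) (nat_lit 5) (nat_lit 396) (nat_lit 380) (nat_lit 244)) (XT.lf (nat_lit 0) (nat_lit 10049561624) (nat_lit 1216) (nat_lit 2374039278) (nat_lit 76) (nat_lit 5008210940) (nat_lit 254) (nat_lit 5) (nat_lit 270) (nat_lit 5) (nat_lit 255) (nat_lit 5) (nat_lit 397) (nat_lit 380) (nat_lit 243))) (XT.nd (nat_lit 78) (nat_lit 0) (nat_lit 0) (XT.lf (nat_lit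 0) (nat_lit 6881079808) (nat_lit 1216) (nat_lit 4940194817) (nat_lit 1292) (nat_lit 5888744774) (nat_lit 238) (nat_lit 5) (nat_lit 254) (nat_lit 5) (nat_lit 255) (nat_lit 5) (nat_lit 398) (nat_lit 380) (nat_lit 242)) (XT.lf (nat_lit 0) (nat_lit 13688013871) (nat_lit 1292) (nat_lit 1568337335) (nat_lit 76) (nat_lit 2738969374) (nat_lit 238) (nat_lit 5) (nat_lit 255) (nat_lit 5) (nat_lit 239) (nat_lit 5) (nat_lit 399) (nat_lit 380) (nat_lit 241))))) (XT.nd (nat_lit 234) (nat_lit 1140) (nat_lit 0) (XT.nd (nat_lit 78) (nat_lit 684) (nat_lit 0) (XT.lf (nat_lit 0) (nat_lit 8070737995) (nat_lit 608) (nat_lit 7657830795) (nat_lit 684) (nat_lit 2557081141) (nat_lit 230) (nat_lit 5) (nat_lit 238) (nat_lit 5) (nat_lit 239) (nat_lit 5) (nat_lit 400) (nat_lit 380) (nat_lit 240)) (XT.nd (nat_lit 78) (nat_lit 684) (nat_lit 0) (XT.lf (nat_lit 0) (nat_lit 17839458977) (nat_lit 684) (nat_lit 562965542) (nat_lit 76) (nat_lit 181994518)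 (nat_lit 230) (nat_lit 5) (nat_lit 239) (nat_lit 5) (nat_lit 231) (nat_lit 5) (nat_lit 401) (nat_lit 380) (nat_lit 239)) (XT.lf (nat_lit 0) (nat_lit 1259904742) (nat_lit 684) (nat_lit 9419913198) (nat_lit 76) (nat_lit 8207205139) (nat_lit 221) (nat_lit 5) (nat_lit 230) (nat_lit 5) (nat_lit 222) (nat_lit 5) (nat_lit 402) (nat_lit 380) (nat_lit 238)))) (XT.nd (nat_lit 156) (nat_lit 532) (nat_lit 0) (XT.nd (nat_lit 78) (nat_lit 0) (nat_lit 0) (XT.lf (nat_lit 0) (nat_lit 607555721) (nat_lit 608) (nat_lit 2705801290) (nat_lit 684) (nat_lit 15885027665) (nat_lit 213) (nat_lit 5) (nat_lit 221) (nat_lit 5) (nat_lit 222) (nat_lit 5) (nat_lit 403) (nat_lit 380) (nat_lit 237)) (XT.lf (nat_lit 0) (nat_lit 5569414573) (nat_lit 684) (nat_lit 8449295580) (nat_lit 76) (nat_lit 5496149969) (nat_lit 213) (nat_lit 5) (nat_lit 222) (nat_lit 5) (nat_lit 214) (nat_lit 5) (nat_lit 404) (nat_lit 380) (nat_lit 236))) (XT.nd (nat_lit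 78) (nat_lit 0) (nat_lit 0) (XT.lf (nat_lit 0) (nat_lit 2000846948) (nat_lit 532) (nat_lit 5930559922) (nat_lit 608) (nat_lit 11908278333) (nat_lit 206) (nat_lit 5) (nat_lit 213) (nat_lit 5) (nat_lit 214) (nat_lit 5) (nat_lit 405) (nat_lit 380) (nat_lit 235)) (XT.lf (nat_lit 0) (nat_lit 10465876434) (nat_lit 608) (nat_lit 7265959361) (nat_lit 76) (nat_lit 2439373594) (nat_lit 206) (nat_lit 5) (nat_lit 214) (nat_lit 5) (nat_lit 207) (nat_lit 5) (nat_lit 406) (nat_lit 380) (nat_lit 234))))))) (XT.nd (nat_lit 1092) (nat_lit 2964) (nat_lit 0) (XT.nd (nat_lit 546) (nat_lit 1748) (nat_lit 0) (XT.nd (nat_lit 234) (nat_lit 1064) (nat_lit 0) (XT.nd (nat_lit 78) (nat_lit 456) (nat_lit 0) (XT.lf (nat_lit 0) (nat_lit 3628381836) (nat_lit 532) (nat_lit 9534195752) (nat_lit 608) (nat_lit 7347518579) (nat_lit 199) (nat_lit 5) (nat_lit 206) (nat_lit 5) (nat_lit 207) (nat_lit 5) (nat_lit 407) (nat_lit 380) (nat_lit 233)) (XT.nd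 (nat_lit 78) (nat_lit 456) (nat_lit 0) (XT.lf (nat_lit 0) (nat_lit 14990766419) (nat_lit 532) (nat_lit 1015527348) (nat_lit 608) (nat_lit 4850875074) (nat_lit 199) (nat_lit 5) (nat_lit 206) (nat_lit 5) (nat_lit 207) (nat_lit 5) (nat_lit 408) (nat_lit 380) (nat_lit 232)) (XT.lf (nat_lit 0) (nat_lit 5504483461) (nat_lit 456) (nat_lit 13551280837) (nat_lit 532) (nat_lit 2155278744) (nat_lit 193) (nat_lit 5) (nat_lit 199) (nat_lit 5) (nat_lit 200) (nat_lit 5) (nat_lit 409) (nat_lit 380) (nat_lit 231)))) (XT.nd (nat_lit 156) (nat_lit 456) (nat_lit 0) (XT.nd (nat_lit 78) (nat_lit 532) (nat_lit 0) (XT.lf (nat_lit 0) (nat_lit 671954255) (nat_lit 532) (nat_lit 4261399587) (nat_lit 76) (nat_lit 16640116261) (nat_lit 192) (nat_lit 5) (nat_lit 199) (nat_lit 5) (nat_lit 193) (nat_lit 5) (nat_lit 410) (nat_lit 380) (nat_lit 230)) (XT.lf (nat_lit 0) (nat_lit 3646246089) (nat_lit 608) (nat_lit 14335516246) (nat_lit 76) (nat_lit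 3961203045) (nat_lit 185) (nat_lit 5) (nat_lit 193) (nat_lit 5) (nat_lit 186) (nat_lit 5) (nat_lit 411) (nat_lit 380) (nat_lit 229))) (XT.nd (nat_lit 78) (nat_lit 456) (nat_lit 0) (XT.lf (nat_lit 0) (nat_lit 6795400986) (nat_lit 608) (nat_lit 2459483650) (nat_lit 76) (nat_lit 13066094187) (nat_lit 185) (nat_lit 5) (nat_lit 193) (nat_lit 5) (nat_lit 186) (nat_lit 5) (nat_lit 412) (nat_lit 380) (nat_lit 228)) (XT.lf (nat_lit 0) (nat_lit 9959727877) (nat_lit 456) (nat_lit 168567266) (nat_lit 532) (nat_lit 12579361861) (nat_lit 179) (nat_lit 5) (nat_lit 185) (nat_lit 5) (nat_lit 186) (nat_lit 5) (nat_lit 413) (nat_lit 380) (nat_lit 227))))) (XT.nd (nat_lit 234) (nat_lit 912) (nat_lit 0) (XT.nd (nat_lit 78) (nat_lit 836) (nat_lit 0) (XT.lf (nat_lit 0) (nat_lit 13668234583) (nat_lit 532) (nat_lit 399408991) (nat_lit 76) (nat_lit 9035082406) (nat_lit 179) (nat_lit 5) (nat_lit 186) (nat_lit 5) (nat_lit 180) (nat_lit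 5) (nat_lit 414) (nat_lit 380) (nat_lit 226)) (XT.nd (nat_lit 78) (nat_lit 380) (nat_lit 0) (XT.lf (nat_lit 0) (nat_lit 12555559995) (nat_lit 456) (nat_lit 4874991779) (nat_lit 532) (nat_lit 6075612004) (nat_lit 173) (nat_lit 5) (nat_lit 179) (nat_lit 5) (nat_lit 180) (nat_lit 5) (nat_lit 415) (nat_lit 380) (nat_lit 225)) (XT.lf (nat_lit 0) (nat_lit 1972637537) (nat_lit 380) (nat_lit 19394208763) (nat_lit 456) (nat_lit 2553027256) (nat_lit 168) (nat_lit 5) (nat_lit 173) (nat_lit 5) (nat_lit 174) (nat_lit 5) (nat_lit 416) (nat_lit 380) (nat_lit 224)))) (XT.nd (nat_lit 156) (nat_lit 380) (nat_lit 0) (XT.nd (nat_lit 78) (nat_lit 456) (nat_lit 0) (XT.lf (nat_lit 0) (nat_lit 1208157702) (nat_lit 456) (nat_lit 8901814224) (nat_lit 76) (nat_lit 14231097452) (nat_lit 167) (nat_lit 5) (nat_lit 173) (nat_lit 5) (nat_lit 168) (nat_lit 5) (nat_lit 417) (nat_lit 380) (nat_lit 223)) (XT.lf (nat_lit 0) (nat_lit 4592026085)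 (nat_lit 456) (nat_lit 477118670) (nat_lit 532) (nat_lit 19703851502) (nat_lit 161) (nat_lit 5) (nat_lit 167) (nat_lit 5) (nat_lit 168) (nat_lit 5) (nat_lit 418) (nat_lit 380) (nat_lit 222))) (XT.nd (nat_lit 78) (nat_lit 380) (nat_lit 0) (XT.lf (nat_lit 0) (nat_lit 9221756855) (nat_lit 532) (nat_lit 6641065666) (nat_lit 76) (nat_lit 9349786406) (nat_lit 161) (nat_lit 5) (nat_lit 168) (nat_lit 5) (nat_lit 162) (nat_lit 5) (nat_lit 419) (nat_lit 380) (nat_lit 221)) (XT.lf (nat_lit 0) (nat_lit 7438311657) (nat_lit 380) (nat_lit 6131255507) (nat_lit 456) (nat_lit 12093726008) (nat_lit 156) (nat_lit 5) (nat_lit 161) (nat_lit 5) (nat_lit 162) (nat_lit 5) (nat_lit 420) (nat_lit 380) (nat_lit 220)))))) (XT.nd (nat_lit 546) (nat_lit 1444) (nat_lit 0) (XT.nd (nat_lit 234) (nat_lit 1064) (nat_lit 0) (XT.nd (nat_lit 78) (nat_lit 456) (nat_lit 0) (XT.lf (nat_lit 0) (nat_lit 18147426728) (nat_lit 456) (nat_lit 4094589725)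 (nat_lit 76) (nat_lit 3882494784) (nat_lit 156) (nat_lit 5) (nat_lit 162) (nat_lit 5) (nat_lit 157) (nat_lit 5) (nat_lit 421) (nat_lit 380) (nat_lit 219)) (XT.nd (nat_lit 78) (nat_lit 76) (nat_lit 0) (XT.lf (nat_lit 0) (nat_lit 10598809341) (nat_lit 380) (nat_lit 12421035870) (nat_lit 456) (nat_lit 3575005629) (nat_lit 151) (nat_lit 5) (nat_lit 156) (nat_lit 5) (nat_lit 157) (nat_lit 5) (nat_lit 422) (nat_lit 380) (nat_lit 218)) (XT.lf (nat_lit 0) (nat_lit 976847121) (nat_lit 456) (nat_lit 1277802684) (nat_lit 76) (nat_lit 24823282995) (nat_lit 150) (nat_lit 5) (nat_lit 156) (nat_lit 5) (nat_lit 151) (nat_lit 5) (nat_lit 423) (nat_lit 380) (nat_lit 217)))) (XT.nd (nat_lit 156) (nat_lit 304) (nat_lit 0) (XT.nd (nat_lit 78) (nat_lit 380) (nat_lit 0) (XT.lf (nat_lit 0) (nat_lit 5804573181) (nat_lit 456) (nat_lit 13536021627) (nat_lit 76) (nat_lit 8227516919) (nat_lit 145) (nat_lit 5) (nat_lit 151) (nat_lit 5) (nat_lit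 146) (nat_lit 5) (nat_lit 424) (nat_lit 380) (nat_lit 216)) (XT.lf (nat_lit 0) (nat_lit 1759830253) (nat_lit 380) (nat_lit 9064467002) (nat_lit 456) (nat_lit 17247285282) (nat_lit 140) (nat_lit 5) (nat_lit 145) (nat_lit 5) (nat_lit 146) (nat_lit 5) (nat_lit 425) (nat_lit 380) (nat_lit 215))) (XT.nd (nat_lit 78) (nat_lit 304) (nat_lit 0) (XT.lf (nat_lit 0) (nat_lit 16142224798) (nat_lit 456) (nat_lit 10816978370) (nat_lit 76) (nat_lit 1626527407) (nat_lit 140) (nat_lit 5) (nat_lit 146) (nat_lit 5) (nat_lit 141) (nat_lit 5) (nat_lit 426) (nat_lit 380) (nat_lit 214)) (XT.lf (nat_lit 0) (nat_lit 5146532141) (nat_lit 304) (nat_lit 16607484112) (nat_lit 380) (nat_lit 7357258435) (nat_lit 136) (nat_lit 5) (nat_lit 140) (nat_lit 5) (nat_lit 141) (nat_lit 5) (nat_lit 427) (nat_lit 380) (nat_lit 213))))) (XT.nd (nat_lit 312) (nat_lit 684) (nat_lit 0) (XT.nd (nat_lit 156) (nat_lit 304) (nat_lit 0) (XT.nd (nat_lit 78) (nat_lit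 456) (nat_lit 0) (XT.lf (nat_lit 0) (nat_lit 21803965158) (nat_lit 304) (nat_lit 5834611747) (nat_lit 380) (nat_lit 2010877130) (nat_lit 136) (nat_lit 5) (nat_lit 140) (nat_lit 5) (nat_lit 141) (nat_lit 5) (nat_lit 428) (nat_lit 380) (nat_lit 212)) (XT.lf (nat_lit 0) (nat_lit 3560154748) (nat_lit 456) (nat_lit 21361480953) (nat_lit 76) (nat_lit 5277161916) (nat_lit 130) (nat_lit 5) (nat_lit 136) (nat_lit 5) (nat_lit 131) (nat_lit 5) (nat_lit 429) (nat_lit 380) (nat_lit 211))) (XT.nd (nat_lit 78) (nat_lit 304) (nat_lit 0) (XT.lf (nat_lit 0) (nat_lit 9391011850) (nat_lit 456) (nat_lit 4665953341) (nat_lit 76) (nat_lit 16703066954) (nat_lit 130) (nat_lit 5) (nat_lit 136) (nat_lit 5) (nat_lit 131) (nat_lit 5) (nat_lit 430) (nat_lit 380) (nat_lit 210)) (XT.lf (nat_lit 0) (nat_lit 12773208634) (nat_lit 304) (nat_lit 2741839852) (nat_lit 380) (nat_lit 15819508831) (nat_lit 126) (nat_lit 5) (nat_lit 130) (nat_lit 5)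 (nat_lit 131) (nat_lit 5) (nat_lit 431) (nat_lit 380) (nat_lit 209)))) (XT.nd (nat_lit 156) (nat_lit 380) (nat_lit 0) (XT.nd (nat_lit 78) (nat_lit 304) (nat_lit 0) (XT.lf (nat_lit 0) (nat_lit 21951585737) (nat_lit 380) (nat_lit 1186388364) (nat_lit 76) (nat_lit 8784481942) (nat_lit 126) (nat_lit 5) (nat_lit 131) (nat_lit 5) (nat_lit 127) (nat_lit 5) (nat_lit 432) (nat_lit 380) (nat_lit 208)) (XT.lf (nat_lit 0) (nat_lit 17008220466) (nat_lit 304) (nat_lit 11759290762) (nat_lit 380) (nat_lit 3754892888) (nat_lit 122) (nat_lit 5) (nat_lit 126) (nat_lit 5) (nat_lit 127) (nat_lit 5) (nat_lit 433) (nat_lit 380) (nat_lit 207))) (XT.nd (nat_lit 78) (nat_lit 0) (nat_lit 0) (XT.lf (nat_lit 0) (nat_lit 2629401591) (nat_lit 380) (nat_lit 30485993650) (nat_lit 76) (nat_lit 23187939) (nat_lit 117) (nat_lit 5) (nat_lit 122) (nat_lit 5) (nat_lit 118) (nat_lit 5) (nat_lit 434) (nat_lit 380) (nat_lit 206)) (XT.lf (nat_lit 0)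 (nat_lit 9400118059) (nat_lit 380) (nat_lit 12247729863) (nat_lit 76) (nat_lit 12116174549) (nat_lit 117) (nat_lit 5) (nat_lit 122) (nat_lit 5) (nat_lit 118) (nat_lit 5) (nat_lit 435) (nat_lit 380) (nat_lit 205))))))))
noncomputable def xc191 : XT := (XT.nd (nat_lit 2262) (nat_lit 1520) (nat_lit 0) (XT.nd (nat_lit 1092) (nat_lit 1672) (nat_lit 0) (XT.nd (nat_lit 546) (nat_lit 1064) (nat_lit 0) (XT.nd (nat_lit 234) (nat_lit 608) (nat_lit 0) (XT.nd (nat_lit 78) (nat_lit 228) (nat_lit 0) (XT.lf (nat_lit 0) (nat_lit 6661440735) (nat_lit 304) (nat_lit 9772393993) (nat_lit 380) (nat_lit 17972594874) (nat_lit 113) (nat_lit 5) (nat_lit 117) (nat_lit 5) (nat_lit 118) (nat_lit 5) (nat_lit 436) (nat_lit 380) (nat_lit 204)) (XT.nd (nat_lit 78) (nat_lit 228) (nat_lit 0) (XT.lf (nat_lit 0) (nat_lit 23822992651) (nat_lit 380) (nat_lit 8706583331) (nat_lit 76) (nat_lit 2534201064) (nat_lit 113) (nat_lit 5) (nat_lit 118) (nat_lit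 5) (nat_lit 114) (nat_lit 5) (nat_lit 437) (nat_lit 380) (nat_lit 203)) (XT.lf (nat_lit 0) (nat_lit 11015071844) (nat_lit 228) (nat_lit 20617399899) (nat_lit 304) (nat_lit 4102414742) (nat_lit 110) (nat_lit 5) (nat_lit 113) (nat_lit 5) (nat_lit 114) (nat_lit 5) (nat_lit 438) (nat_lit 380) (nat_lit 202)))) (XT.nd (nat_lit 156) (nat_lit 228) (nat_lit 0) (XT.nd (nat_lit 78) (nat_lit 304) (nat_lit 0) (XT.lf (nat_lit 0) (nat_lit 3271499554) (nat_lit 304) (nat_lit 4954861216) (nat_lit 76) (nat_lit 28196287638) (nat_lit 109) (nat_lit 5) (nat_lit 113) (nat_lit 5) (nat_lit 110) (nat_lit 5) (nat_lit 439) (nat_lit 380) (nat_lit 201)) (XT.lf (nat_lit 0) (nat_lit 10976350939) (nat_lit 380) (nat_lit 21508789416) (nat_lit 76) (nat_lit 4638919955) (nat_lit 105) (nat_lit 5) (nat_lit 110) (nat_lit 5) (nat_lit 106) (nat_lit 5) (nat_lit 440) (nat_lit 380) (nat_lit 200))) (XT.nd (nat_lit 78) (nat_lit 228) (nat_lit 0) (XT.lf (nat_lit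 0) (nat_lit 19040503489) (nat_lit 380) (nat_lit 1028850397) (nat_lit 76) (nat_lit 17773316870) (nat_lit 105) (nat_lit 5) (nat_lit 110) (nat_lit 5) (nat_lit 106) (nat_lit 5) (nat_lit 441) (nat_lit 380) (nat_lit 199)) (XT.lf (nat_lit 0) (nat_lit 20458918725) (nat_lit 228) (nat_lit 7080613624) (nat_lit 304) (nat_lit 11037519445) (nat_lit 102) (nat_lit 5) (nat_lit 105) (nat_lit 5) (nat_lit 106) (nat_lit 5) (nat_lit 442) (nat_lit 380) (nat_lit 198))))) (XT.nd (nat_lit 234) (nat_lit 532) (nat_lit 0) (XT.nd (nat_lit 78) (nat_lit 304) (nat_lit 0) (XT.lf (nat_lit 0) (nat_lit 3276729460) (nat_lit 228) (nat_lit 33115652034) (nat_lit 304) (nat_lit 2938118094) (nat_lit 99) (nat_lit 5) (nat_lit 102) (nat_lit 5) (nat_lit 103) (nat_lit 5) (nat_lit 443) (nat_lit 380) (nat_lit 197)) (XT.nd (nat_lit 78) (nat_lit 228) (nat_lit 0) (XT.lf (nat_lit 0) (nat_lit 5550018823) (nat_lit 304) (nat_lit 14545931472) (nat_lit 76) (nat_lit 20001506502)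 (nat_lit 98) (nat_lit 5) (nat_lit 102) (nat_lit 5) (nat_lit 99) (nat_lit 5) (nat_lit 444) (nat_lit 380) (nat_lit 196)) (XT.lf (nat_lit 0) (nat_lit 7723081905) (nat_lit 228) (nat_lit 6581346428) (nat_lit 304) (nat_lit 26580001968) (nat_lit 95) (nat_lit 5) (nat_lit 98) (nat_lit 5) (nat_lit 99) (nat_lit 5) (nat_lit 445) (nat_lit 380) (nat_lit 195)))) (XT.nd (nat_lit 156) (nat_lit 304) (nat_lit 0) (XT.nd (nat_lit 78) (nat_lit 228) (nat_lit 0) (XT.lf (nat_lit 0) (nat_lit 23536825905) (nat_lit 304) (nat_lit 10809967081) (nat_lit 76) (nat_lit 7341760067) (nat_lit 95) (nat_lit 5) (nat_lit 99) (nat_lit 5) (nat_lit 96) (nat_lit 5) (nat_lit 446) (nat_lit 380) (nat_lit 194)) (XT.lf (nat_lit 0) (nat_lit 12382889466) (nat_lit 228) (nat_lit 20844074496) (nat_lit 304) (nat_lit 9284413165) (nat_lit 92) (nat_lit 5) (nat_lit 95) (nat_lit 5) (nat_lit 96) (nat_lit 5) (nat_lit 447) (nat_lit 380) (nat_lit 193))) (XT.nd (nat_lit 78)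 (nat_lit 304) (nat_lit 0) (XT.lf (nat_lit 0) (nat_lit 36487640606) (nat_lit 228) (nat_lit 6825946869) (nat_lit 304) (nat_lit 42125684) (nat_lit 92) (nat_lit 5) (nat_lit 95) (nat_lit 5) (nat_lit 96) (nat_lit 5) (nat_lit 448) (nat_lit 380) (nat_lit 192)) (XT.lf (nat_lit 0) (nat_lit 9531492992) (nat_lit 304) (nat_lit 26961590153) (nat_lit 76) (nat_lit 7722393638) (nat_lit 88) (nat_lit 5) (nat_lit 92) (nat_lit 5) (nat_lit 89) (nat_lit 5) (nat_lit 449) (nat_lit 380) (nat_lit 191)))))) (XT.nd (nat_lit 546) (nat_lit 836) (nat_lit 0) (XT.nd (nat_lit 234) (nat_lit 456) (nat_lit 0) (XT.nd (nat_lit 78) (nat_lit 380) (nat_lit 0) (XT.lf (nat_lit 0) (nat_lit 19525810301) (nat_lit 304) (nat_lit 2932764271) (nat_lit 76) (nat_lit 22638416746) (nat_lit 88) (nat_lit 5) (nat_lit 92) (nat_lit 5) (nat_lit 89) (nat_lit 5) (nat_lit 450) (nat_lit 380) (nat_lit 190)) (XT.nd (nat_lit 78) (nat_lit 152) (nat_lit 0) (XT.lf (nat_lit 0) (nat_lit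 22245761582) (nat_lit 228) (nat_lit 7784843556) (nat_lit 304) (nat_lit 15968027313) (nat_lit 85) (nat_lit 5) (nat_lit 88) (nat_lit 5) (nat_lit 89) (nat_lit 5) (nat_lit 451) (nat_lit 380) (nat_lit 189)) (XT.lf (nat_lit 0) (nat_lit 1261923886) (nat_lit 152) (nat_lit 39697941740) (nat_lit 228) (nat_lit 5964178119) (nat_lit 83) (nat_lit 5) (nat_lit 85) (nat_lit 5) (nat_lit 86) (nat_lit 5) (nat_lit 452) (nat_lit 380) (nat_lit 188)))) (XT.nd (nat_lit 156) (nat_lit 152) (nat_lit 0) (XT.nd (nat_lit 78) (nat_lit 228) (nat_lit 0) (XT.lf (nat_lit 0) (nat_lit 4571253328) (nat_lit 228) (nat_lit 20482412811) (nat_lit 76) (nat_lit 22812815740) (nat_lit 82) (nat_lit 5) (nat_lit 85) (nat_lit 5) (nat_lit 83) (nat_lit 5) (nat_lit 453) (nat_lit 380) (nat_lit 187)) (XT.lf (nat_lit 0) (nat_lit 5495734952) (nat_lit 228) (nat_lit 9856900784) (nat_lit 304) (nat_lit 33481293551) (nat_lit 79) (nat_lit 5) (nat_lit 82) (nat_lit 5) (nat_lit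 83) (nat_lit 5) (nat_lit 454) (nat_lit 380) (nat_lit 186))) (XT.nd (nat_lit 78) (nat_lit 152) (nat_lit 0) (XT.lf (nat_lit 0) (nat_lit 26719006392) (nat_lit 304) (nat_lit 17214020792) (nat_lit 76) (nat_lit 5889527052) (nat_lit 79) (nat_lit 5) (nat_lit 83) (nat_lit 5) (nat_lit 80) (nat_lit 5) (nat_lit 455) (nat_lit 380) (nat_lit 185)) (XT.lf (nat_lit 0) (nat_lit 9782158512) (nat_lit 152) (nat_lit 28832877791) (nat_lit 228) (nat_lit 12220142086) (nat_lit 77) (nat_lit 5) (nat_lit 79) (nat_lit 5) (nat_lit 80) (nat_lit 5) (nat_lit 456) (nat_lit 380) (nat_lit 184))))) (XT.nd (nat_lit 312) (nat_lit 380) (nat_lit 0) (XT.nd (nat_lit 156) (nat_lit 152) (nat_lit 0) (XT.nd (nat_lit 78) (nat_lit 304) (nat_lit 0) (XT.lf (nat_lit 0) (nat_lit 37936131362) (nat_lit 152) (nat_lit 13102725002) (nat_lit 228) (nat_lit 834198114) (nat_lit 77) (nat_lit 5) (nat_lit 79) (nat_lit 5) (nat_lit 80) (nat_lit 5) (nat_lit 457) (nat_lit 380)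 (nat_lit 183)) (XT.lf (nat_lit 0) (nat_lit 10846160278) (nat_lit 304) (nat_lit 38807717968) (nat_lit 76) (nat_lit 3280085543) (nat_lit 73) (nat_lit 5) (nat_lit 77) (nat_lit 5) (nat_lit 74) (nat_lit 5) (nat_lit 458) (nat_lit 380) (nat_lit 182))) (XT.nd (nat_lit 78) (nat_lit 152) (nat_lit 0) (XT.lf (nat_lit 0) (nat_lit 23129177429) (nat_lit 304) (nat_lit 10849751409) (nat_lit 76) (nat_lit 20039453770) (nat_lit 73) (nat_lit 5) (nat_lit 77) (nat_lit 5) (nat_lit 74) (nat_lit 5) (nat_lit 459) (nat_lit 380) (nat_lit 181)) (XT.lf (nat_lit 0) (nat_lit 18299288271) (nat_lit 152) (nat_lit 17654539216) (nat_lit 228) (nat_lit 19176312666) (nat_lit 71) (nat_lit 5) (nat_lit 73) (nat_lit 5) (nat_lit 74) (nat_lit 5) (nat_lit 460) (nat_lit 380) (nat_lit 180)))) (XT.nd (nat_lit 156) (nat_lit 152) (nat_lit 0) (XT.nd (nat_lit 78) (nat_lit 228) (nat_lit 0) (XT.lf (nat_lit 0) (nat_lit 48540504087) (nat_lit 152) (nat_lit 729547828)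 (nat_lit 228) (nat_lit 7001993884) (nat_lit 71) (nat_lit 5) (nat_lit 73) (nat_lit 5) (nat_lit 74) (nat_lit 5) (nat_lit 461) (nat_lit 380) (nat_lit 179)) (XT.lf (nat_lit 0) (nat_lit 5807525544) (nat_lit 228) (nat_lit 34979011189) (nat_lit 76) (nat_lit 16648734507) (nat_lit 68) (nat_lit 5) (nat_lit 71) (nat_lit 5) (nat_lit 69) (nat_lit 5) (nat_lit 462) (nat_lit 380) (nat_lit 178))) (XT.nd (nat_lit 78) (nat_lit 152) (nat_lit 0) (XT.lf (nat_lit 0) (nat_lit 18944008804) (nat_lit 228) (nat_lit 5004825841) (nat_lit 76) (nat_lit 34679977043) (nat_lit 68) (nat_lit 5) (nat_lit 71) (nat_lit 5) (nat_lit 69) (nat_lit 5) (nat_lit 463) (nat_lit 380) (nat_lit 177)) (XT.lf (nat_lit 0) (nat_lit 26378829517) (nat_lit 152) (nat_lit 6346745645) (nat_lit 228) (nat_lit 27125053902) (nat_lit 66) (nat_lit 5) (nat_lit 68) (nat_lit 5) (nat_lit 69) (nat_lit 5) (nat_lit 464) (nat_lit 380) (nat_lit 176))))))) (XT.nd (nat_lit 1092) (nat_lit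 304) (nat_lit 0) (XT.nd (nat_lit 546) (nat_lit 456) (nat_lit 0) (XT.nd (nat_lit 234) (nat_lit 532) (nat_lit 0) (XT.nd (nat_lit 78) (nat_lit 228) (nat_lit 0) (XT.lf (nat_lit 0) (nat_lit 47082330262) (nat_lit 228) (nat_lit 2419281792) (nat_lit 76) (nat_lit 11602637020) (nat_lit 66) (nat_lit 5) (nat_lit 69) (nat_lit 5) (nat_lit 67) (nat_lit 5) (nat_lit 465) (nat_lit 380) (nat_lit 175)) (XT.nd (nat_lit 78) (nat_lit 76) (nat_lit 0) (XT.lf (nat_lit 0) (nat_lit 30084647938) (nat_lit 152) (nat_lit 32134679074) (nat_lit 228) (nat_lit 165664853) (nat_lit 64) (nat_lit 5) (nat_lit 66) (nat_lit 5) (nat_lit 67) (nat_lit 5) (nat_lit 466) (nat_lit 380) (nat_lit 174)) (XT.lf (nat_lit 0) (nat_lit 13853198381) (nat_lit 228) (nat_lit 230366776) (nat_lit 76) (nat_lit 49615858595) (nat_lit 63) (nat_lit 5) (nat_lit 66) (nat_lit 5) (nat_lit 64) (nat_lit 5) (nat_lit 467) (nat_lit 380) (nat_lit 173)))) (XT.nd (nat_lit 156) (nat_lit 228)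 (nat_lit 0) (XT.nd (nat_lit 78) (nat_lit 152) (nat_lit 0) (XT.lf (nat_lit 0) (nat_lit 28654937730) (nat_lit 228) (nat_lit 31641685216) (nat_lit 76) (nat_lit 4745647566) (nat_lit 61) (nat_lit 5) (nat_lit 64) (nat_lit 5) (nat_lit 62) (nat_lit 5) (nat_lit 468) (nat_lit 380) (nat_lit 172)) (XT.lf (nat_lit 0) (nat_lit 1505493029) (nat_lit 152) (nat_lit 42549096976) (nat_lit 228) (nat_lit 22366197161) (nat_lit 59) (nat_lit 5) (nat_lit 61) (nat_lit 5) (nat_lit 62) (nat_lit 5) (nat_lit 469) (nat_lit 380) (nat_lit 171))) (XT.nd (nat_lit 78) (nat_lit 228) (nat_lit 0) (XT.lf (nat_lit 0) (nat_lit 36291476439) (nat_lit 152) (nat_lit 23941902140) (nat_lit 228) (nat_lit 7597766643) (nat_lit 59) (nat_lit 5) (nat_lit 61) (nat_lit 5) (nat_lit 62) (nat_lit 5) (nat_lit 470) (nat_lit 380) (nat_lit 170)) (XT.lf (nat_lit 0) (nat_lit 2814807682) (nat_lit 152) (nat_lit 4675069475) (nat_lit 228) (nat_lit 61790999577) (nat_lit 56) (nat_lit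 5) (nat_lit 58) (nat_lit 5) (nat_lit 59) (nat_lit 5) (nat_lit 471) (nat_lit 380) (nat_lit 169))))) (XT.nd (nat_lit 234) (nat_lit 304) (nat_lit 0) (XT.nd (nat_lit 78) (nat_lit 152) (nat_lit 0) (XT.lf (nat_lit 0) (nat_lit 23342590408) (nat_lit 228) (nat_lit 32146462623) (nat_lit 76) (nat_lit 15268836244) (nat_lit 56) (nat_lit 5) (nat_lit 59) (nat_lit 5) (nat_lit 57) (nat_lit 5) (nat_lit 472) (nat_lit 380) (nat_lit 168)) (XT.nd (nat_lit 78) (nat_lit 0) (nat_lit 0) (XT.lf (nat_lit 0) (nat_lit 3215136503) (nat_lit 152) (nat_lit 36530694134) (nat_lit 228) (nat_lit 32531133458) (nat_lit 54) (nat_lit 5) (nat_lit 56) (nat_lit 5) (nat_lit 57) (nat_lit 5) (nat_lit 473) (nat_lit 380) (nat_lit 167)) (XT.lf (nat_lit 0) (nat_lit 40292547671) (nat_lit 152) (nat_lit 16671015509) (nat_lit 228) (nat_lit 16868376389) (nat_lit 54) (nat_lit 5) (nat_lit 56) (nat_lit 5) (nat_lit 57) (nat_lit 5) (nat_lit 474) (nat_lit 380) (nat_lit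 166)))) (XT.nd (nat_lit 156) (nat_lit 152) (nat_lit 0) (XT.nd (nat_lit 78) (nat_lit 76) (nat_lit 0) (XT.lf (nat_lit 0) (nat_lit 3068272964) (nat_lit 76) (nat_lit 71693254229) (nat_lit 152) (nat_lit 670126384) (nat_lit 53) (nat_lit 5) (nat_lit 54) (nat_lit 5) (nat_lit 55) (nat_lit 4) (nat_lit 475) (nat_lit 380) (nat_lit 165)) (XT.lf (nat_lit 0) (nat_lit 16206505053) (nat_lit 152) (nat_lit 35933799280) (nat_lit 76) (nat_lit 24919289017) (nat_lit 52) (nat_lit 5) (nat_lit 54) (nat_lit 5) (nat_lit 53) (nat_lit 5) (nat_lit 476) (nat_lit 380) (nat_lit 164))) (XT.nd (nat_lit 78) (nat_lit 0) (nat_lit 0) (XT.lf (nat_lit 0) (nat_lit 1609615560) (nat_lit 152) (nat_lit 31979717974) (nat_lit 228) (nat_lit 45146437960) (nat_lit 50) (nat_lit 5) (nat_lit 52) (nat_lit 5) (nat_lit 53) (nat_lit 5) (nat_lit 477) (nat_lit 380) (nat_lit 163)) (XT.lf (nat_lit 0) (nat_lit 41012149621) (nat_lit 152) (nat_lit 10842277418) (nat_lit 228)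 (nat_lit 28596984762) (nat_lit 50) (nat_lit 5) (nat_lit 52) (nat_lit 5) (nat_lit 53) (nat_lit 5) (nat_lit 478) (nat_lit 380) (nat_lit 162)))))) (XT.nd (nat_lit 45630) (nat_lit 0) (nat_lit 15504) (XT.nd (nat_lit 234) (nat_lit 152) (nat_lit 0) (XT.nd (nat_lit 78) (nat_lit 152) (nat_lit 0) (XT.lf (nat_lit 0) (nat_lit 70770496237) (nat_lit 228) (nat_lit 730545933) (nat_lit 76) (nat_lit 10714388682) (nat_lit 50) (nat_lit 5) (nat_lit 53) (nat_lit 5) (nat_lit 51) (nat_lit 4) (nat_lit 479) (nat_lit 380) (nat_lit 161)) (XT.nd (nat_lit 78) (nat_lit 0) (nat_lit 0) (XT.lf (nat_lit 0) (nat_lit 6593105726) (nat_lit 152) (nat_lit 44277160158) (nat_lit 76) (nat_lit 33145525520) (nat_lit 48) (nat_lit 5) (nat_lit 50) (nat_lit 5) (nat_lit 49) (nat_lit 5) (nat_lit 480) (nat_lit 380) (nat_lit 160)) (XT.lf (nat_lit 0) (nat_lit 24947732355) (nat_lit 152) (nat_lit 4550092306) (nat_lit 76) (nat_lit 56368774519) (nat_lit 48) (nat_lit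 5) (nat_lit 50) (nat_lit 5) (nat_lit 49) (nat_lit 5) (nat_lit 481) (nat_lit 380) (nat_lit 159)))) (XT.nd (nat_lit 45240) (nat_lit 0) (nat_lit 16492) (XT.nd (nat_lit 78) (nat_lit 0) (nat_lit 0) (XT.lf (nat_lit 0) (nat_lit 37089012424) (nat_lit 152) (nat_lit 7118591915) (nat_lit 228) (nat_lit 43554688850) (nat_lit 46) (nat_lit 5) (nat_lit 48) (nat_lit 5) (nat_lit 49) (nat_lit 5) (nat_lit 482) (nat_lit 380) (nat_lit 158)) (XT.lf (nat_lit 0) (nat_lit 64242914073) (nat_lit 228) (nat_lit 9800042744) (nat_lit 76) (nat_lit 15665972142) (nat_lit 46) (nat_lit 5) (nat_lit 49) (nat_lit 5) (nat_lit 47) (nat_lit 4) (nat_lit 483) (nat_lit 380) (nat_lit 157))) (XT.nd (nat_lit 78) (nat_lit 0) (nat_lit 0) (XT.lf (nat_lit 0) (nat_lit 2281339297) (nat_lit 0) (nat_lit 2281339297) (nat_lit 1140) (nat_lit 2393014132) (nat_lit 263) (nat_lit 5) (nat_lit 263) (nat_lit 3) (nat_lit 278) (nat_lit 3) (nat_lit 381) (nat_lit 381) (nat_lit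 258)) (XT.lf (nat_lit 0) (nat_lit 9621204579) (nat_lit 1140) (nat_lit 2655981412) (nat_lit 1216) (nat_lit 1831951396) (nat_lit 263) (nat_lit 5) (nat_lit 278) (nat_lit 3) (nat_lit 279) (nat_lit 5) (nat_lit 382) (nat_lit 381) (nat_lit 257))))) (XT.nd (nat_lit 312) (nat_lit 988) (nat_lit 0) (XT.nd (nat_lit 156) (nat_lit 0) (nat_lit 76) (XT.nd (nat_lit 78) (nat_lit 0) (nat_lit 76) (XT.lf (nat_lit 76) (nat_lit 4268521656) (nat_lit 0) (nat_lit 5936367839) (nat_lit 1216) (nat_lit 4105749369) (nat_lit 264) (nat_lit 5) (nat_lit 263) (nat_lit 5) (nat_lit 279) (nat_lit 5) (nat_lit 383) (nat_lit 381) (nat_lit 256)) (XT.lf (nat_lit 0) (nat_lit 10826016931) (nat_lit 1140) (nat_lit 3075661307) (nat_lit 1216) (nat_lit 615914866) (nat_lit 264) (nat_lit 5) (nat_lit 279) (nat_lit 5) (nat_lit 280) (nat_lit 5) (nat_lit 384) (nat_lit 381) (nat_lit 255))) (XT.nd (nat_lit 78) (nat_lit 0) (nat_lit 0) (XT.lf (nat_lit 76) (nat_lit 4114006551)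 (nat_lit 0) (nat_lit 7437598609) (nat_lit 1216) (nat_lit 3176581514) (nat_lit 265) (nat_lit 5) (nat_lit 264) (nat_lit 5) (nat_lit 280) (nat_lit 5) (nat_lit 385) (nat_lit 381) (nat_lit 254)) (XT.lf (nat_lit 76) (nat_lit 11575199021) (nat_lit 0) (nat_lit 742619466) (nat_lit 1216) (nat_lit 2626719191) (nat_lit 265) (nat_lit 5) (nat_lit 264) (nat_lit 5) (nat_lit 280) (nat_lit 5) (nat_lit 386) (nat_lit 381) (nat_lit 253)))) (XT.nd (nat_lit 156) (nat_lit 1140) (nat_lit 0) (XT.nd (nat_lit 78) (nat_lit 0) (nat_lit 0) (XT.lf (nat_lit 76) (nat_lit 4106420225) (nat_lit 0) (nat_lit 9087421029) (nat_lit 1216) (nat_lit 1970938464) (nat_lit 266) (nat_lit 5) (nat_lit 265) (nat_lit 5) (nat_lit 281) (nat_lit 5) (nat_lit 387) (nat_lit 381) (nat_lit 252)) (XT.lf (nat_lit 76) (nat_lit 11860683200) (nat_lit 0) (nat_lit 2265240126) (nat_lit 1216) (nat_lit 1264817377) (nat_lit 266) (nat_lit 5) (nat_lit 265) (nat_lit 5) (nat_lit 281)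 (nat_lit 5) (nat_lit 388) (nat_lit 381) (nat_lit 251))) (XT.nd (nat_lit 78) (nat_lit 1216) (nat_lit 0) (XT.lf (nat_lit 76) (nat_lit 4253825764) (nat_lit 0) (nat_lit 10907653054) (nat_lit 1216) (nat_lit 459741271) (nat_lit 267) (nat_lit 5) (nat_lit 266) (nat_lit 5) (nat_lit 282) (nat_lit 5) (nat_lit 389) (nat_lit 381) (nat_lit 250)) (XT.lf (nat_lit 0) (nat_lit 409694720) (nat_lit 1216) (nat_lit 3547942943) (nat_lit 1292) (nat_lit 11899451727) (nat_lit 250) (nat_lit 5) (nat_lit 266) (nat_lit 5) (nat_lit 267) (nat_lit 5) (nat_lit 390) (nat_lit 381) (nat_lit 249))))))))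
noncomputable def xc192 : XT := (XT.nd (nat_lit 2184) (nat_lit 5472) (nat_lit 0) (XT.nd (nat_lit 1092) (nat_lit 3496) (nat_lit 0) (XT.nd (nat_lit 546) (nat_lit 2888) (nat_lit 0) (XT.nd (nat_lit 234) (nat_lit 0) (nat_lit 76) (XT.nd (nat_lit 78) (nat_lit 0) (nat_lit 0) (XT.lf (nat_lit 0) (nat_lit 1360625357) (nat_lit 1216) (nat_lit 11546632352) (nat_lit 1292) (nat_lit 3190705429) (nat_lit 251) (nat_lit 5) (nat_lit 267) (nat_lit 5) (nat_lit 268) (nat_lit 5) (nat_lit 391) (nat_lit 381) (nat_lit 248)) (XT.nd (nat_lit 78) (nat_lit 0) (nat_lit 76) (XT.lf (nat_lit 0) (nat_lit 2405031350) (nat_lit 1216) (nat_lit 3425921140) (nat_lit 1292) (nat_lit 10513166536) (nat_lit 251) (nat_lit 5) (nat_lit 267) (nat_lit 5) (nat_lit 268) (nat_lit 5) (nat_lit 392) (nat_lit 381) (nat_lit 247)) (XT.lf (nat_lit 0) (nat_lit 3533512063) (nat_lit 1216) (nat_lit 11581967379) (nat_lit 1292) (nat_lit 1480602097) (nat_lit 252) (nat_lit 5) (nat_lit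 268) (nat_lit 5) (nat_lit 269) (nat_lit 5) (nat_lit 393) (nat_lit 381) (nat_lit 246)))) (XT.nd (nat_lit 156) (nat_lit 0) (nat_lit 76) (XT.nd (nat_lit 78) (nat_lit 0) (nat_lit 0) (XT.lf (nat_lit 0) (nat_lit 4778648694) (nat_lit 1216) (nat_lit 3142793907) (nat_lit 1292) (nat_lit 8931680384) (nat_lit 252) (nat_lit 5) (nat_lit 268) (nat_lit 5) (nat_lit 269) (nat_lit 5) (nat_lit 394) (nat_lit 381) (nat_lit 245)) (XT.lf (nat_lit 76) (nat_lit 5652344950) (nat_lit 0) (nat_lit 453547378) (nat_lit 1292) (nat_lit 11010644740) (nat_lit 253) (nat_lit 5) (nat_lit 252) (nat_lit 5) (nat_lit 269) (nat_lit 5) (nat_lit 395) (nat_lit 381) (nat_lit 244))) (XT.nd (nat_lit 78) (nat_lit 0) (nat_lit 0) (XT.lf (nat_lit 0) (nat_lit 7565228678) (nat_lit 1216) (nat_lit 2688770858) (nat_lit 1292) (nat_lit 7131089643) (nat_lit 253) (nat_lit 5) (nat_lit 269) (nat_lit 5) (nat_lit 270) (nat_lit 5) (nat_lit 396) (nat_lit 381) (nat_lit 243)) (XT.lf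 (nat_lit 76) (nat_lit 6464047148) (nat_lit 0) (nat_lit 2661842728) (nat_lit 1292) (nat_lit 8534085387) (nat_lit 254) (nat_lit 5) (nat_lit 253) (nat_lit 5) (nat_lit 270) (nat_lit 5) (nat_lit 397) (nat_lit 381) (nat_lit 242))))) (XT.nd (nat_lit 234) (nat_lit 1900) (nat_lit 0) (XT.nd (nat_lit 78) (nat_lit 1216) (nat_lit 0) (XT.lf (nat_lit 0) (nat_lit 10801498441) (nat_lit 1216) (nat_lit 2053300745) (nat_lit 76) (nat_lit 5086268561) (nat_lit 254) (nat_lit 5) (nat_lit 270) (nat_lit 5) (nat_lit 255) (nat_lit 5) (nat_lit 398) (nat_lit 381) (nat_lit 241)) (XT.nd (nat_lit 78) (nat_lit 0) (nat_lit 0) (XT.lf (nat_lit 0) (nat_lit 7475629172) (nat_lit 1216) (nat_lit 5141344577) (nat_lit 1292) (nat_lit 5610934842) (nat_lit 238) (nat_lit 5) (nat_lit 254) (nat_lit 5) (nat_lit 255) (nat_lit 5) (nat_lit 399) (nat_lit 381) (nat_lit 240)) (XT.lf (nat_lit 0) (nat_lit 14526374632) (nat_lit 1292) (nat_lit 1225059990) (nat_lit 76)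 (nat_lit 2770739631) (nat_lit 238) (nat_lit 5) (nat_lit 255) (nat_lit 5) (nat_lit 239) (nat_lit 5) (nat_lit 400) (nat_lit 381) (nat_lit 239)))) (XT.nd (nat_lit 156) (nat_lit 1292) (nat_lit 0) (XT.nd (nat_lit 78) (nat_lit 0) (nat_lit 0) (XT.lf (nat_lit 0) (nat_lit 8699360860) (nat_lit 608) (nat_lit 7920042746) (nat_lit 684) (nat_lit 2202077234) (nat_lit 230) (nat_lit 5) (nat_lit 238) (nat_lit 5) (nat_lit 239) (nat_lit 5) (nat_lit 401) (nat_lit 381) (nat_lit 238)) (XT.lf (nat_lit 0) (nat_lit 18781114167) (nat_lit 684) (nat_lit 191940428) (nat_lit 76) (nat_lit 156538545) (nat_lit 230) (nat_lit 5) (nat_lit 239) (nat_lit 5) (nat_lit 231) (nat_lit 5) (nat_lit 402) (nat_lit 381) (nat_lit 237))) (XT.nd (nat_lit 78) (nat_lit 608) (nat_lit 0) (XT.lf (nat_lit 0) (nat_lit 1700126878) (nat_lit 684) (nat_lit 9310235653) (nat_lit 76) (nat_lit 8431043598) (nat_lit 221) (nat_lit 5) (nat_lit 230) (nat_lit 5) (nat_lit 222) (nat_lit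 5) (nat_lit 403) (nat_lit 381) (nat_lit 236)) (XT.lf (nat_lit 0) (nat_lit 1014211502) (nat_lit 608) (nat_lit 2792983916) (nat_lit 684) (nat_lit 15955157286) (nat_lit 213) (nat_lit 5) (nat_lit 221) (nat_lit 5) (nat_lit 222) (nat_lit 5) (nat_lit 404) (nat_lit 381) (nat_lit 235)))))) (XT.nd (nat_lit 546) (nat_lit 1900) (nat_lit 0) (XT.nd (nat_lit 234) (nat_lit 1064) (nat_lit 0) (XT.nd (nat_lit 78) (nat_lit 532) (nat_lit 0) (XT.lf (nat_lit 0) (nat_lit 6119390153) (nat_lit 684) (nat_lit 8313968253) (nat_lit 76) (nat_lit 5655314722) (nat_lit 213) (nat_lit 5) (nat_lit 222) (nat_lit 5) (nat_lit 214) (nat_lit 5) (nat_lit 405) (nat_lit 381) (nat_lit 234)) (XT.nd (nat_lit 78) (nat_lit 0) (nat_lit 0) (XT.lf (nat_lit 0) (nat_lit 2445866725) (nat_lit 532) (nat_lit 6098924068) (nat_lit 608) (nat_lit 11878679965) (nat_lit 206) (nat_lit 5) (nat_lit 213) (nat_lit 5) (nat_lit 214) (nat_lit 5) (nat_lit 406) (nat_lit 381) (nat_lit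 233)) (XT.lf (nat_lit 0) (nat_lit 11144448399) (nat_lit 608) (nat_lit 7099173537) (nat_lit 76) (nat_lit 2521648243) (nat_lit 206) (nat_lit 5) (nat_lit 214) (nat_lit 5) (nat_lit 207) (nat_lit 5) (nat_lit 407) (nat_lit 381) (nat_lit 232)))) (XT.nd (nat_lit 156) (nat_lit 532) (nat_lit 0) (XT.nd (nat_lit 78) (nat_lit 0) (nat_lit 0) (XT.lf (nat_lit 0) (nat_lit 4118225694) (nat_lit 532) (nat_lit 9796867935) (nat_lit 608) (nat_lit 7199442650) (nat_lit 199) (nat_lit 5) (nat_lit 206) (nat_lit 5) (nat_lit 207) (nat_lit 5) (nat_lit 408) (nat_lit 381) (nat_lit 231)) (XT.lf (nat_lit 0) (nat_lit 15810384948) (nat_lit 532) (nat_lit 1023319684) (nat_lit 608) (nat_lit 4638632892) (nat_lit 199) (nat_lit 5) (nat_lit 206) (nat_lit 5) (nat_lit 207) (nat_lit 5) (nat_lit 409) (nat_lit 381) (nat_lit 230))) (XT.nd (nat_lit 78) (nat_lit 76) (nat_lit 0) (XT.lf (nat_lit 0) (nat_lit 6046114247) (nat_lit 456) (nat_lit 13922262484) (nat_lit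 532) (nat_lit 1868643475) (nat_lit 193) (nat_lit 5) (nat_lit 199) (nat_lit 5) (nat_lit 200) (nat_lit 5) (nat_lit 410) (nat_lit 381) (nat_lit 229)) (XT.lf (nat_lit 0) (nat_lit 1026519317) (nat_lit 532) (nat_lit 4016937147) (nat_lit 76) (nat_lit 17167066836) (nat_lit 192) (nat_lit 5) (nat_lit 199) (nat_lit 5) (nat_lit 193) (nat_lit 5) (nat_lit 411) (nat_lit 381) (nat_lit 228))))) (XT.nd (nat_lit 234) (nat_lit 912) (nat_lit 0) (XT.nd (nat_lit 78) (nat_lit 456) (nat_lit 0) (XT.lf (nat_lit 0) (nat_lit 4084232419) (nat_lit 608) (nat_lit 14387354563) (nat_lit 76) (nat_lit 4119694135) (nat_lit 185) (nat_lit 5) (nat_lit 193) (nat_lit 5) (nat_lit 186) (nat_lit 5) (nat_lit 412) (nat_lit 381) (nat_lit 227)) (XT.nd (nat_lit 78) (nat_lit 456) (nat_lit 0) (XT.lf (nat_lit 0) (nat_lit 7318291120) (nat_lit 608) (nat_lit 2166057315) (nat_lit 76) (nat_lit 13496577012) (nat_lit 185) (nat_lit 5) (nat_lit 193) (nat_lit 5) (nat_lit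 186) (nat_lit 5) (nat_lit 413) (nat_lit 381) (nat_lit 226)) (XT.lf (nat_lit 0) (nat_lit 10622130452) (nat_lit 456) (nat_lit 123244818) (nat_lit 532) (nat_lit 12634005867) (nat_lit 179) (nat_lit 5) (nat_lit 185) (nat_lit 5) (nat_lit 186) (nat_lit 5) (nat_lit 414) (nat_lit 381) (nat_lit 225)))) (XT.nd (nat_lit 156) (nat_lit 456) (nat_lit 0) (XT.nd (nat_lit 78) (nat_lit 456) (nat_lit 0) (XT.lf (nat_lit 0) (nat_lit 14382859825) (nat_lit 532) (nat_lit 49612584) (nat_lit 76) (nat_lit 9354092530) (nat_lit 179) (nat_lit 5) (nat_lit 186) (nat_lit 5) (nat_lit 180) (nat_lit 5) (nat_lit 415) (nat_lit 381) (nat_lit 224)) (XT.lf (nat_lit 0) (nat_lit 13290458623) (nat_lit 456) (nat_lit 4962160244) (nat_lit 532) (nat_lit 5949652908) (nat_lit 173) (nat_lit 5) (nat_lit 179) (nat_lit 5) (nat_lit 180) (nat_lit 5) (nat_lit 416) (nat_lit 381) (nat_lit 223))) (XT.nd (nat_lit 78) (nat_lit 76) (nat_lit 0) (XT.lf (nat_lit 0) (nat_lit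 2394961986) (nat_lit 380) (nat_lit 19907369278) (nat_lit 456) (nat_lit 2326204691) (nat_lit 168) (nat_lit 5) (nat_lit 173) (nat_lit 5) (nat_lit 174) (nat_lit 5) (nat_lit 417) (nat_lit 381) (nat_lit 222)) (XT.lf (nat_lit 0) (nat_lit 1533230292) (nat_lit 456) (nat_lit 8810458423) (nat_lit 76) (nat_lit 14718854197) (nat_lit 167) (nat_lit 5) (nat_lit 173) (nat_lit 5) (nat_lit 168) (nat_lit 5) (nat_lit 418) (nat_lit 381) (nat_lit 221))))))) (XT.nd (nat_lit 1092) (nat_lit 2356) (nat_lit 0) (XT.nd (nat_lit 546) (nat_lit 1444) (nat_lit 0) (XT.nd (nat_lit 234) (nat_lit 836) (nat_lit 0) (XT.nd (nat_lit 78) (nat_lit 380) (nat_lit 0) (XT.lf (nat_lit 0) (nat_lit 5084683270) (nat_lit 456) (nat_lit 420362706) (nat_lit 532) (nat_lit 20002534380) (nat_lit 161) (nat_lit 5) (nat_lit 167) (nat_lit 5) (nat_lit 168) (nat_lit 5) (nat_lit 419) (nat_lit 381) (nat_lit 220)) (XT.nd (nat_lit 78) (nat_lit 380) (nat_lit 0) (XT.lf (nat_lit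 0) (nat_lit 9774632902) (nat_lit 532) (nat_lit 6488046152) (nat_lit 76) (nat_lit 9697933107) (nat_lit 161) (nat_lit 5) (nat_lit 168) (nat_lit 5) (nat_lit 162) (nat_lit 5) (nat_lit 420) (nat_lit 381) (nat_lit 219)) (XT.lf (nat_lit 0) (nat_lit 8010259045) (nat_lit 380) (nat_lit 6237925996) (nat_lit 456) (nat_lit 12176775240) (nat_lit 156) (nat_lit 5) (nat_lit 161) (nat_lit 5) (nat_lit 162) (nat_lit 5) (nat_lit 421) (nat_lit 381) (nat_lit 218)))) (XT.nd (nat_lit 156) (nat_lit 456) (nat_lit 0) (XT.nd (nat_lit 78) (nat_lit 380) (nat_lit 0) (XT.lf (nat_lit 0) (nat_lit 18956192832) (nat_lit 456) (nat_lit 3871517723) (nat_lit 76) (nat_lit 4072522458) (nat_lit 156) (nat_lit 5) (nat_lit 162) (nat_lit 5) (nat_lit 157) (nat_lit 5) (nat_lit 422) (nat_lit 381) (nat_lit 217)) (XT.lf (nat_lit 0) (nat_lit 11259292044) (nat_lit 380) (nat_lit 12711085002) (nat_lit 456) (nat_lit 3414440387) (nat_lit 151) (nat_lit 5) (nat_lit 156)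 (nat_lit 5) (nat_lit 157) (nat_lit 5) (nat_lit 423) (nat_lit 381) (nat_lit 216))) (XT.nd (nat_lit 78) (nat_lit 380) (nat_lit 0) (XT.lf (nat_lit 0) (nat_lit 1261093668) (nat_lit 456) (nat_lit 978444581) (nat_lit 76) (nat_lit 25643008104) (nat_lit 150) (nat_lit 5) (nat_lit 156) (nat_lit 5) (nat_lit 151) (nat_lit 5) (nat_lit 424) (nat_lit 381) (nat_lit 215)) (XT.lf (nat_lit 0) (nat_lit 6230244429) (nat_lit 456) (nat_lit 13600929033) (nat_lit 76) (nat_lit 8556361617) (nat_lit 145) (nat_lit 5) (nat_lit 151) (nat_lit 5) (nat_lit 146) (nat_lit 5) (nat_lit 425) (nat_lit 381) (nat_lit 214))))) (XT.nd (nat_lit 234) (nat_lit 760) (nat_lit 0) (XT.nd (nat_lit 78) (nat_lit 304) (nat_lit 0) (XT.lf (nat_lit 0) (nat_lit 2150453567) (nat_lit 380) (nat_lit 9246027836) (nat_lit 456) (nat_lit 17509753129) (nat_lit 140) (nat_lit 5) (nat_lit 145) (nat_lit 5) (nat_lit 146) (nat_lit 5) (nat_lit 426) (nat_lit 381) (nat_lit 213)) (XT.nd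 (nat_lit 78) (nat_lit 304) (nat_lit 0) (XT.lf (nat_lit 0) (nat_lit 16867582759) (nat_lit 456) (nat_lit 10807065231) (nat_lit 76) (nat_lit 1761352035) (nat_lit 140) (nat_lit 5) (nat_lit 146) (nat_lit 5) (nat_lit 141) (nat_lit 5) (nat_lit 427) (nat_lit 381) (nat_lit 212)) (XT.lf (nat_lit 0) (nat_lit 5632071944) (nat_lit 304) (nat_lit 17011817097) (nat_lit 380) (nat_lit 7333538619) (nat_lit 136) (nat_lit 5) (nat_lit 140) (nat_lit 5) (nat_lit 141) (nat_lit 5) (nat_lit 428) (nat_lit 381) (nat_lit 211)))) (XT.nd (nat_lit 156) (nat_lit 304) (nat_lit 0) (XT.nd (nat_lit 78) (nat_lit 456) (nat_lit 0) (XT.lf (nat_lit 0) (nat_lit 22779582985) (nat_lit 304) (nat_lit 5918493266) (nat_lit 380) (nat_lit 1833885415) (nat_lit 136) (nat_lit 5) (nat_lit 140) (nat_lit 5) (nat_lit 141) (nat_lit 5) (nat_lit 429) (nat_lit 381) (nat_lit 210)) (XT.lf (nat_lit 0) (nat_lit 3896877430) (nat_lit 456) (nat_lit 21673300751) (nat_lit 76) (nat_lit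 5527623868) (nat_lit 130) (nat_lit 5) (nat_lit 136) (nat_lit 5) (nat_lit 131) (nat_lit 5) (nat_lit 430) (nat_lit 381) (nat_lit 209))) (XT.nd (nat_lit 78) (nat_lit 304) (nat_lit 0) (XT.lf (nat_lit 0) (nat_lit 9895963603) (nat_lit 456) (nat_lit 4486490552) (nat_lit 76) (nat_lit 17293622161) (nat_lit 130) (nat_lit 5) (nat_lit 136) (nat_lit 5) (nat_lit 131) (nat_lit 5) (nat_lit 431) (nat_lit 381) (nat_lit 208)) (XT.lf (nat_lit 0) (nat_lit 13472714503) (nat_lit 304) (nat_lit 2727545802) (nat_lit 380) (nat_lit 16067682521) (nat_lit 126) (nat_lit 5) (nat_lit 130) (nat_lit 5) (nat_lit 131) (nat_lit 5) (nat_lit 432) (nat_lit 381) (nat_lit 207)))))) (XT.nd (nat_lit 546) (nat_lit 1140) (nat_lit 0) (XT.nd (nat_lit 234) (nat_lit 532) (nat_lit 0) (XT.nd (nat_lit 78) (nat_lit 684) (nat_lit 0) (XT.lf (nat_lit 0) (nat_lit 22824393945) (nat_lit 380) (nat_lit 909326879) (nat_lit 76) (nat_lit 9139924383) (nat_lit 126) (nat_lit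 5) (nat_lit 131) (nat_lit 5) (nat_lit 127) (nat_lit 5) (nat_lit 433) (nat_lit 381) (nat_lit 206)) (XT.nd (nat_lit 78) (nat_lit 380) (nat_lit 0) (XT.lf (nat_lit 0) (nat_lit 17828054990) (nat_lit 304) (nat_lit 12013477560) (nat_lit 380) (nat_lit 3650158765) (nat_lit 122) (nat_lit 5) (nat_lit 126) (nat_lit 5) (nat_lit 127) (nat_lit 5) (nat_lit 434) (nat_lit 381) (nat_lit 205)) (XT.lf (nat_lit 0) (nat_lit 2919172178) (nat_lit 380) (nat_lit 31084387850) (nat_lit 76) (nat_lit 122802106) (nat_lit 117) (nat_lit 5) (nat_lit 122) (nat_lit 5) (nat_lit 118) (nat_lit 5) (nat_lit 435) (nat_lit 381) (nat_lit 204)))) (XT.nd (nat_lit 156) (nat_lit 228) (nat_lit 0) (XT.nd (nat_lit 78) (nat_lit 304) (nat_lit 0) (XT.lf (nat_lit 0) (nat_lit 9886867755) (nat_lit 380) (nat_lit 12308185439) (nat_lit 76) (nat_lit 12575697192) (nat_lit 117) (nat_lit 5) (nat_lit 122) (nat_lit 5) (nat_lit 118) (nat_lit 5) (nat_lit 436) (nat_lit 381) (nat_lit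 203)) (XT.lf (nat_lit 0) (nat_lit 7165250705) (nat_lit 304) (nat_lit 9963303652) (nat_lit 380) (nat_lit 18303968087) (nat_lit 113) (nat_lit 5) (nat_lit 117) (nat_lit 5) (nat_lit 118) (nat_lit 5) (nat_lit 437) (nat_lit 381) (nat_lit 202))) (XT.nd (nat_lit 78) (nat_lit 228) (nat_lit 0) (XT.lf (nat_lit 0) (nat_lit 24734466503) (nat_lit 380) (nat_lit 8667699483) (nat_lit 76) (nat_lit 2707573365) (nat_lit 113) (nat_lit 5) (nat_lit 118) (nat_lit 5) (nat_lit 114) (nat_lit 5) (nat_lit 438) (nat_lit 381) (nat_lit 201)) (XT.lf (nat_lit 0) (nat_lit 11642663372) (nat_lit 228) (nat_lit 21132691306) (nat_lit 304) (nat_lit 4025715037) (nat_lit 110) (nat_lit 5) (nat_lit 113) (nat_lit 5) (nat_lit 114) (nat_lit 5) (nat_lit 439) (nat_lit 381) (nat_lit 200))))) (XT.nd (nat_lit 312) (nat_lit 532) (nat_lit 0) (XT.nd (nat_lit 156) (nat_lit 228) (nat_lit 0) (XT.nd (nat_lit 78) (nat_lit 304) (nat_lit 0) (XT.lf (nat_lit 0) (nat_lit 3559813349)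 (nat_lit 304) (nat_lit 4811194038) (nat_lit 76) (nat_lit 29138571955) (nat_lit 109) (nat_lit 5) (nat_lit 113) (nat_lit 5) (nat_lit 110) (nat_lit 5) (nat_lit 440) (nat_lit 381) (nat_lit 199)) (XT.lf (nat_lit 0) (nat_lit 11494034545) (nat_lit 380) (nat_lit 21859922164) (nat_lit 76) (nat_lit 4878131430) (nat_lit 105) (nat_lit 5) (nat_lit 110) (nat_lit 5) (nat_lit 106) (nat_lit 5) (nat_lit 441) (nat_lit 381) (nat_lit 198))) (XT.nd (nat_lit 78) (nat_lit 228) (nat_lit 0) (XT.lf (nat_lit 0) (nat_lit 19794624494) (nat_lit 380) (nat_lit 774151894) (nat_lit 76) (nat_lit 18403646353) (nat_lit 105) (nat_lit 5) (nat_lit 110) (nat_lit 5) (nat_lit 106) (nat_lit 5) (nat_lit 442) (nat_lit 381) (nat_lit 197)) (XT.lf (nat_lit 0) (nat_lit 21355450654) (nat_lit 228) (nat_lit 7190564314) (nat_lit 304) (nat_lit 11182899714) (nat_lit 102) (nat_lit 5) (nat_lit 105) (nat_lit 5) (nat_lit 106) (nat_lit 5) (nat_lit 443) (nat_lit 381) (nat_lit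 196)))) (XT.nd (nat_lit 156) (nat_lit 228) (nat_lit 0) (XT.nd (nat_lit 78) (nat_lit 76) (nat_lit 0) (XT.lf (nat_lit 0) (nat_lit 3659443434) (nat_lit 228) (nat_lit 34003445031) (nat_lit 304) (nat_lit 2842125437) (nat_lit 99) (nat_lit 5) (nat_lit 102) (nat_lit 5) (nat_lit 103) (nat_lit 5) (nat_lit 444) (nat_lit 381) (nat_lit 195)) (XT.lf (nat_lit 0) (nat_lit 5891803893) (nat_lit 304) (nat_lit 14702656276) (nat_lit 76) (nat_lit 20700625406) (nat_lit 98) (nat_lit 5) (nat_lit 102) (nat_lit 5) (nat_lit 99) (nat_lit 5) (nat_lit 445) (nat_lit 381) (nat_lit 194))) (XT.nd (nat_lit 78) (nat_lit 0) (nat_lit 0) (XT.lf (nat_lit 0) (nat_lit 8231685805) (nat_lit 228) (nat_lit 6674716351) (nat_lit 304) (nat_lit 27199340492) (nat_lit 95) (nat_lit 5) (nat_lit 98) (nat_lit 5) (nat_lit 99) (nat_lit 5) (nat_lit 446) (nat_lit 381) (nat_lit 193)) (XT.lf (nat_lit 0) (nat_lit 24411708703) (nat_lit 304) (nat_lit 10861322777) (nat_lit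 76) (nat_lit 7661080520) (nat_lit 95) (nat_lit 5) (nat_lit 99) (nat_lit 5) (nat_lit 96) (nat_lit 5) (nat_lit 447) (nat_lit 381) (nat_lit 192))))))))
noncomputable def xc193 : XT := (XT.nd (nat_lit 2184) (nat_lit 456) (nat_lit 0) (XT.nd (nat_lit 1092) (nat_lit 1292) (nat_lit 0) (XT.nd (nat_lit 546) (nat_lit 836) (nat_lit 0) (XT.nd (nat_lit 234) (nat_lit 456) (nat_lit 0) (XT.nd (nat_lit 78) (nat_lit 304) (nat_lit 0) (XT.lf (nat_lit 0) (nat_lit 13024643551) (nat_lit 228) (nat_lit 21365589462) (nat_lit 304) (nat_lit 9391458320) (nat_lit 92) (nat_lit 5) (nat_lit 95) (nat_lit 5) (nat_lit 96) (nat_lit 5) (nat_lit 448) (nat_lit 381) (nat_lit 191)) (XT.nd (nat_lit 78) (nat_lit 228) (nat_lit 0) (XT.lf (nat_lit 0) (nat_lit 120700827) (nat_lit 304) (nat_lit 6808021849) (nat_lit 76) (nat_lit 37722745690) (nat_lit 91) (nat_lit 5) (nat_lit 95) (nat_lit 5) (nat_lit 92) (nat_lit 5) (nat_lit 449) (nat_lit 381) (nat_lit 190))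 (XT.lf (nat_lit 0) (nat_lit 9979436513) (nat_lit 304) (nat_lit 27503486717) (nat_lit 76) (nat_lit 8054127416) (nat_lit 88) (nat_lit 5) (nat_lit 92) (nat_lit 5) (nat_lit 89) (nat_lit 5) (nat_lit 450) (nat_lit 381) (nat_lit 189)))) (XT.nd (nat_lit 156) (nat_lit 228) (nat_lit 0) (XT.nd (nat_lit 78) (nat_lit 228) (nat_lit 0) (XT.lf (nat_lit 0) (nat_lit 20268864932) (nat_lit 304) (nat_lit 2761571335) (nat_lit 76) (nat_lit 23414716791) (nat_lit 88) (nat_lit 5) (nat_lit 92) (nat_lit 5) (nat_lit 89) (nat_lit 5) (nat_lit 451) (nat_lit 381) (nat_lit 188)) (XT.lf (nat_lit 0) (nat_lit 23169769354) (nat_lit 228) (nat_lit 7916920211) (nat_lit 304) (nat_lit 16287218143) (nat_lit 85) (nat_lit 5) (nat_lit 88) (nat_lit 5) (nat_lit 89) (nat_lit 5) (nat_lit 452) (nat_lit 381) (nat_lit 187))) (XT.nd (nat_lit 78) (nat_lit 76) (nat_lit 0) (XT.lf (nat_lit 0) (nat_lit 1557572480) (nat_lit 152) (nat_lit 40785160995) (nat_lit 228) (nat_lit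 5984381534) (nat_lit 83) (nat_lit 5) (nat_lit 85) (nat_lit 5) (nat_lit 86) (nat_lit 5) (nat_lit 453) (nat_lit 381) (nat_lit 186)) (XT.lf (nat_lit 0) (nat_lit 4859482861) (nat_lit 228) (nat_lit 20843569473) (nat_lit 76) (nat_lit 23594864951) (nat_lit 82) (nat_lit 5) (nat_lit 85) (nat_lit 5) (nat_lit 83) (nat_lit 5) (nat_lit 454) (nat_lit 381) (nat_lit 185))))) (XT.nd (nat_lit 234) (nat_lit 456) (nat_lit 0) (XT.nd (nat_lit 78) (nat_lit 152) (nat_lit 0) (XT.lf (nat_lit 0) (nat_lit 5911439235) (nat_lit 228) (nat_lit 10050877925) (nat_lit 304) (nat_lit 34332131412) (nat_lit 79) (nat_lit 5) (nat_lit 82) (nat_lit 5) (nat_lit 83) (nat_lit 5) (nat_lit 455) (nat_lit 381) (nat_lit 184)) (XT.nd (nat_lit 78) (nat_lit 152) (nat_lit 0) (XT.lf (nat_lit 0) (nat_lit 27666285555) (nat_lit 304) (nat_lit 17483496814) (nat_lit 76) (nat_lit 6163052443) (nat_lit 79) (nat_lit 5) (nat_lit 83) (nat_lit 5) (nat_lit 80) (nat_lit 5) (nat_lit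 456) (nat_lit 381) (nat_lit 183)) (XT.lf (nat_lit 0) (nat_lit 10320146843) (nat_lit 152) (nat_lit 29597156080) (nat_lit 228) (nat_lit 12438592292) (nat_lit 77) (nat_lit 5) (nat_lit 79) (nat_lit 5) (nat_lit 80) (nat_lit 5) (nat_lit 457) (nat_lit 381) (nat_lit 182)))) (XT.nd (nat_lit 156) (nat_lit 152) (nat_lit 0) (XT.nd (nat_lit 78) (nat_lit 304) (nat_lit 0) (XT.lf (nat_lit 0) (nat_lit 39311616833) (nat_lit 152) (nat_lit 13398031951) (nat_lit 228) (nat_lit 715385168) (nat_lit 77) (nat_lit 5) (nat_lit 79) (nat_lit 5) (nat_lit 80) (nat_lit 5) (nat_lit 458) (nat_lit 381) (nat_lit 181)) (XT.lf (nat_lit 0) (nat_lit 11311704466) (nat_lit 304) (nat_lit 39730823771) (nat_lit 76) (nat_lit 3475227667) (nat_lit 73) (nat_lit 5) (nat_lit 77) (nat_lit 5) (nat_lit 74) (nat_lit 5) (nat_lit 459) (nat_lit 381) (nat_lit 180))) (XT.nd (nat_lit 78) (nat_lit 152) (nat_lit 0) (XT.lf (nat_lit 0) (nat_lit 23959129819) (nat_lit 304) (nat_lit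 10941141295) (nat_lit 76) (nat_lit 20734559284) (nat_lit 73) (nat_lit 5) (nat_lit 77) (nat_lit 5) (nat_lit 74) (nat_lit 5) (nat_lit 460) (nat_lit 381) (nat_lit 179)) (XT.lf (nat_lit 0) (nat_lit 19080074452) (nat_lit 152) (nat_lit 18086709793) (nat_lit 228) (nat_lit 19613209101) (nat_lit 71) (nat_lit 5) (nat_lit 73) (nat_lit 5) (nat_lit 74) (nat_lit 5) (nat_lit 461) (nat_lit 381) (nat_lit 178)))))) (XT.nd (nat_lit 546) (nat_lit 684) (nat_lit 0) (XT.nd (nat_lit 234) (nat_lit 380) (nat_lit 0) (XT.nd (nat_lit 78) (nat_lit 228) (nat_lit 0) (XT.lf (nat_lit 0) (nat_lit 50221775067) (nat_lit 152) (nat_lit 656807468) (nat_lit 228) (nat_lit 7077691618) (nat_lit 71) (nat_lit 5) (nat_lit 73) (nat_lit 5) (nat_lit 74) (nat_lit 5) (nat_lit 462) (nat_lit 381) (nat_lit 177)) (XT.nd (nat_lit 78) (nat_lit 0) (nat_lit 0) (XT.lf (nat_lit 0) (nat_lit 6112738711) (nat_lit 228) (nat_lit 35799912429) (nat_lit 76) (nat_lit 17241729623)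 (nat_lit 68) (nat_lit 5) (nat_lit 71) (nat_lit 5) (nat_lit 69) (nat_lit 5) (nat_lit 463) (nat_lit 381) (nat_lit 176)) (XT.lf (nat_lit 0) (nat_lit 19639501301) (nat_lit 228) (nat_lit 4933155960) (nat_lit 76) (nat_lit 35811185171) (nat_lit 68) (nat_lit 5) (nat_lit 71) (nat_lit 5) (nat_lit 69) (nat_lit 5) (nat_lit 464) (nat_lit 381) (nat_lit 175)))) (XT.nd (nat_lit 156) (nat_lit 228) (nat_lit 0) (XT.nd (nat_lit 78) (nat_lit 0) (nat_lit 0) (XT.lf (nat_lit 0) (nat_lit 27389834405) (nat_lit 152) (nat_lit 6443087514) (nat_lit 228) (nat_lit 27809440730) (nat_lit 66) (nat_lit 5) (nat_lit 68) (nat_lit 5) (nat_lit 69) (nat_lit 5) (nat_lit 465) (nat_lit 381) (nat_lit 174)) (XT.lf (nat_lit 0) (nat_lit 48617599849) (nat_lit 228) (nat_lit 2275820320) (nat_lit 76) (nat_lit 12040255006) (nat_lit 66) (nat_lit 5) (nat_lit 69) (nat_lit 5) (nat_lit 67) (nat_lit 5) (nat_lit 466) (nat_lit 381) (nat_lit 173))) (XT.nd (nat_lit 78) (nat_lit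 76) (nat_lit 0) (XT.lf (nat_lit 0) (nat_lit 31201109263) (nat_lit 152) (nat_lit 33006076896) (nat_lit 228) (nat_lit 45700207) (nat_lit 64) (nat_lit 5) (nat_lit 66) (nat_lit 5) (nat_lit 67) (nat_lit 5) (nat_lit 467) (nat_lit 381) (nat_lit 172)) (XT.lf (nat_lit 0) (nat_lit 14387723136) (nat_lit 228) (nat_lit 27203805) (nat_lit 76) (nat_lit 51191895754) (nat_lit 63) (nat_lit 5) (nat_lit 66) (nat_lit 5) (nat_lit 64) (nat_lit 5) (nat_lit 468) (nat_lit 381) (nat_lit 171))))) (XT.nd (nat_lit 234) (nat_lit 380) (nat_lit 0) (XT.nd (nat_lit 78) (nat_lit 152) (nat_lit 0) (XT.lf (nat_lit 0) (nat_lit 29632920704) (nat_lit 228) (nat_lit 32380252393) (nat_lit 76) (nat_lit 4976800043) (nat_lit 61) (nat_lit 5) (nat_lit 64) (nat_lit 5) (nat_lit 62) (nat_lit 5) (nat_lit 469) (nat_lit 381) (nat_lit 170)) (XT.nd (nat_lit 78) (nat_lit 0) (nat_lit 0) (XT.lf (nat_lit 0) (nat_lit 1759275676) (nat_lit 152) (nat_lit 43733845587) (nat_lit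 228) (nat_lit 22916767718) (nat_lit 59) (nat_lit 5) (nat_lit 61) (nat_lit 5) (nat_lit 62) (nat_lit 5) (nat_lit 470) (nat_lit 381) (nat_lit 169)) (XT.lf (nat_lit 0) (nat_lit 37582762340) (nat_lit 152) (nat_lit 24571106488) (nat_lit 228) (nat_lit 7708791528) (nat_lit 59) (nat_lit 5) (nat_lit 61) (nat_lit 5) (nat_lit 62) (nat_lit 5) (nat_lit 471) (nat_lit 381) (nat_lit 168)))) (XT.nd (nat_lit 156) (nat_lit 152) (nat_lit 0) (XT.nd (nat_lit 78) (nat_lit 0) (nat_lit 0) (XT.lf (nat_lit 0) (nat_lit 3102080745) (nat_lit 152) (nat_lit 4725730613) (nat_lit 228) (nat_lit 63528080820) (nat_lit 56) (nat_lit 5) (nat_lit 58) (nat_lit 5) (nat_lit 59) (nat_lit 5) (nat_lit 472) (nat_lit 381) (nat_lit 167)) (XT.lf (nat_lit 0) (nat_lit 24153643935) (nat_lit 228) (nat_lit 32911459913) (nat_lit 76) (nat_lit 15812185510) (nat_lit 56) (nat_lit 5) (nat_lit 59) (nat_lit 5) (nat_lit 57) (nat_lit 5) (nat_lit 473) (nat_lit 381) (nat_lit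 166))) (XT.nd (nat_lit 78) (nat_lit 0) (nat_lit 0) (XT.lf (nat_lit 0) (nat_lit 3509032318) (nat_lit 152) (nat_lit 37538620503) (nat_lit 228) (nat_lit 33394323846) (nat_lit 54) (nat_lit 5) (nat_lit 56) (nat_lit 5) (nat_lit 57) (nat_lit 5) (nat_lit 474) (nat_lit 381) (nat_lit 165)) (XT.lf (nat_lit 0) (nat_lit 41693015092) (nat_lit 152) (nat_lit 17085714465) (nat_lit 228) (nat_lit 17264967859) (nat_lit 54) (nat_lit 5) (nat_lit 56) (nat_lit 5) (nat_lit 57) (nat_lit 5) (nat_lit 475) (nat_lit 381) (nat_lit 164))))))) (XT.nd (nat_lit 46332) (nat_lit 0) (nat_lit 13148) (XT.nd (nat_lit 45786) (nat_lit 0) (nat_lit 16340) (XT.nd (nat_lit 234) (nat_lit 152) (nat_lit 0) (XT.nd (nat_lit 78) (nat_lit 228) (nat_lit 0) (XT.lf (nat_lit 0) (nat_lit 3352488617) (nat_lit 76) (nat_lit 73757693469) (nat_lit 152) (nat_lit 581234635) (nat_lit 53) (nat_lit 5) (nat_lit 54) (nat_lit 5) (nat_lit 55) (nat_lit 4) (nat_lit 476) (nat_lit 381)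 (nat_lit 163)) (XT.nd (nat_lit 78) (nat_lit 152) (nat_lit 0) (XT.lf (nat_lit 0) (nat_lit 16796456170) (nat_lit 152) (nat_lit 36823166467) (nat_lit 76) (nat_lit 25748634344) (nat_lit 52) (nat_lit 5) (nat_lit 54) (nat_lit 5) (nat_lit 53) (nat_lit 5) (nat_lit 477) (nat_lit 381) (nat_lit 162)) (XT.lf (nat_lit 0) (nat_lit 1844701340) (nat_lit 152) (nat_lit 32854841757) (nat_lit 228) (nat_lit 46395214499) (nat_lit 50) (nat_lit 5) (nat_lit 52) (nat_lit 5) (nat_lit 53) (nat_lit 5) (nat_lit 478) (nat_lit 381) (nat_lit 161)))) (XT.nd (nat_lit 156) (nat_lit 152) (nat_lit 0) (XT.nd (nat_lit 78) (nat_lit 0) (nat_lit 0) (XT.lf (nat_lit 0) (nat_lit 42423870724) (nat_lit 152) (nat_lit 11085732385) (nat_lit 228) (nat_lit 29352353917) (nat_lit 50) (nat_lit 5) (nat_lit 52) (nat_lit 5) (nat_lit 53) (nat_lit 5) (nat_lit 479) (nat_lit 381) (nat_lit 160)) (XT.lf (nat_lit 0) (nat_lit 72991018599) (nat_lit 228) (nat_lit 574241628) (nat_lit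 76) (nat_lit 11113700811) (nat_lit 50) (nat_lit 5) (nat_lit 53) (nat_lit 5) (nat_lit 51) (nat_lit 4) (nat_lit 480) (nat_lit 381) (nat_lit 159))) (XT.nd (nat_lit 78) (nat_lit 0) (nat_lit 0) (XT.lf (nat_lit 0) (nat_lit 6888128779) (nat_lit 152) (nat_lit 45427056564) (nat_lit 76) (nat_lit 34218152995) (nat_lit 48) (nat_lit 5) (nat_lit 50) (nat_lit 5) (nat_lit 49) (nat_lit 5) (nat_lit 481) (nat_lit 381) (nat_lit 158)) (XT.lf (nat_lit 0) (nat_lit 25790562268) (nat_lit 152) (nat_lit 4513373329) (nat_lit 76) (nat_lit 58135819997) (nat_lit 48) (nat_lit 5) (nat_lit 50) (nat_lit 5) (nat_lit 49) (nat_lit 5) (nat_lit 482) (nat_lit 381) (nat_lit 157))))) (XT.nd (nat_lit 234) (nat_lit 0) (nat_lit 76) (XT.nd (nat_lit 78) (nat_lit 0) (nat_lit 0) (XT.lf (nat_lit 0) (nat_lit 2518643856) (nat_lit 0) (nat_lit 2518643856) (nat_lit 1140) (nat_lit 2116795537) (nat_lit 263) (nat_lit 5) (nat_lit 263) (nat_lit 3) (nat_lit 278) (nat_lit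 3) (nat_lit 382) (nat_lit 382) (nat_lit 256)) (XT.nd (nat_lit 78) (nat_lit 0) (nat_lit 0) (XT.lf (nat_lit 0) (nat_lit 10562472818) (nat_lit 1140) (nat_lit 2384655288) (nat_lit 1216) (nat_lit 1565416291) (nat_lit 263) (nat_lit 5) (nat_lit 278) (nat_lit 3) (nat_lit 279) (nat_lit 5) (nat_lit 383) (nat_lit 382) (nat_lit 255)) (XT.lf (nat_lit 76) (nat_lit 4744141640) (nat_lit 0) (nat_lit 6403858940) (nat_lit 1216) (nat_lit 3572568763) (nat_lit 264) (nat_lit 5) (nat_lit 263) (nat_lit 5) (nat_lit 279) (nat_lit 5) (nat_lit 384) (nat_lit 382) (nat_lit 254)))) (XT.nd (nat_lit 156) (nat_lit 0) (nat_lit 0) (XT.nd (nat_lit 78) (nat_lit 0) (nat_lit 0) (XT.lf (nat_lit 0) (nat_lit 11766508614) (nat_lit 1140) (nat_lit 2808965212) (nat_lit 1216) (nat_lit 358904129) (nat_lit 264) (nat_lit 5) (nat_lit 279) (nat_lit 5) (nat_lit 280) (nat_lit 5) (nat_lit 385) (nat_lit 382) (nat_lit 253)) (XT.lf (nat_lit 76) (nat_lit 4592873408) (nat_lit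 0) (nat_lit 7906474517) (nat_lit 1216) (nat_lit 2652384815) (nat_lit 265) (nat_lit 5) (nat_lit 264) (nat_lit 5) (nat_lit 280) (nat_lit 5) (nat_lit 386) (nat_lit 382) (nat_lit 252))) (XT.nd (nat_lit 78) (nat_lit 0) (nat_lit 76) (XT.lf (nat_lit 76) (nat_lit 12267548836) (nat_lit 0) (nat_lit 1003488293) (nat_lit 1216) (nat_lit 2104070142) (nat_lit 265) (nat_lit 5) (nat_lit 264) (nat_lit 5) (nat_lit 280) (nat_lit 5) (nat_lit 387) (nat_lit 382) (nat_lit 251)) (XT.lf (nat_lit 76) (nat_lit 4591186750) (nat_lit 0) (nat_lit 9566402317) (nat_lit 1216) (nat_lit 1444847507) (nat_lit 266) (nat_lit 5) (nat_lit 265) (nat_lit 5) (nat_lit 281) (nat_lit 5) (nat_lit 388) (nat_lit 382) (nat_lit 250)))))) (XT.nd (nat_lit 546) (nat_lit 2204) (nat_lit 0) (XT.nd (nat_lit 234) (nat_lit 0) (nat_lit 76) (XT.nd (nat_lit 78) (nat_lit 1140) (nat_lit 0) (XT.lf (nat_lit 76) (nat_lit 12567546335) (nat_lit 0) (nat_lit 2533545541) (nat_lit 1216)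 (nat_lit 734588005) (nat_lit 266) (nat_lit 5) (nat_lit 265) (nat_lit 5) (nat_lit 281) (nat_lit 5) (nat_lit 389) (nat_lit 382) (nat_lit 249)) (XT.nd (nat_lit 78) (nat_lit 0) (nat_lit 0) (XT.lf (nat_lit 0) (nat_lit 78233770) (nat_lit 1216) (nat_lit 11326712908) (nat_lit 1292) (nat_lit 4668543296) (nat_lit 250) (nat_lit 5) (nat_lit 266) (nat_lit 5) (nat_lit 267) (nat_lit 5) (nat_lit 390) (nat_lit 382) (nat_lit 248)) (XT.lf (nat_lit 0) (nat_lit 948710741) (nat_lit 1216) (nat_lit 3288214869) (nat_lit 1292) (nat_lit 12079853865) (nat_lit 250) (nat_lit 5) (nat_lit 266) (nat_lit 5) (nat_lit 267) (nat_lit 5) (nat_lit 391) (nat_lit 382) (nat_lit 247)))) (XT.nd (nat_lit 156) (nat_lit 0) (nat_lit 76) (XT.nd (nat_lit 78) (nat_lit 0) (nat_lit 0) (XT.lf (nat_lit 0) (nat_lit 1914849167) (nat_lit 1216) (nat_lit 11513330419) (nat_lit 1292) (nat_lit 3137105886) (nat_lit 251) (nat_lit 5) (nat_lit 267) (nat_lit 5) (nat_lit 268)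 (nat_lit 5) (nat_lit 392) (nat_lit 382) (nat_lit 246)) (XT.lf (nat_lit 0) (nat_lit 2975633794) (nat_lit 1216) (nat_lit 3160057121) (nat_lit 1292) (nat_lit 10683589973) (nat_lit 251) (nat_lit 5) (nat_lit 267) (nat_lit 5) (nat_lit 268) (nat_lit 5) (nat_lit 393) (nat_lit 382) (nat_lit 245))) (XT.nd (nat_lit 78) (nat_lit 0) (nat_lit 0) (XT.lf (nat_lit 0) (nat_lit 4125783065) (nat_lit 1216) (nat_lit 11548396783) (nat_lit 1292) (nat_lit 1404994068) (nat_lit 252) (nat_lit 5) (nat_lit 268) (nat_lit 5) (nat_lit 269) (nat_lit 5) (nat_lit 394) (nat_lit 382) (nat_lit 244)) (XT.lf (nat_lit 0) (nat_lit 5394110718) (nat_lit 1216) (nat_lit 2867146057) (nat_lit 1292) (nat_lit 9083100609) (nat_lit 252) (nat_lit 5) (nat_lit 268) (nat_lit 5) (nat_lit 269) (nat_lit 5) (nat_lit 395) (nat_lit 382) (nat_lit 243))))) (XT.nd (nat_lit 312) (nat_lit 2356) (nat_lit 0) (XT.nd (nat_lit 156) (nat_lit 0) (nat_lit 76) (XT.nd (nat_lit 78) (nat_lit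 0) (nat_lit 76) (XT.lf (nat_lit 76) (nat_lit 6188220185) (nat_lit 0) (nat_lit 562722063) (nat_lit 1292) (nat_lit 10865044239) (nat_lit 253) (nat_lit 5) (nat_lit 252) (nat_lit 5) (nat_lit 269) (nat_lit 5) (nat_lit 396) (nat_lit 382) (nat_lit 242)) (XT.lf (nat_lit 0) (nat_lit 8239714169) (nat_lit 1216) (nat_lit 2399268701) (nat_lit 1292) (nat_lit 7254048175) (nat_lit 253) (nat_lit 5) (nat_lit 269) (nat_lit 5) (nat_lit 270) (nat_lit 5) (nat_lit 397) (nat_lit 382) (nat_lit 241))) (XT.nd (nat_lit 78) (nat_lit 0) (nat_lit 76) (XT.lf (nat_lit 76) (nat_lit 7024504773) (nat_lit 0) (nat_lit 2813178984) (nat_lit 1292) (nat_lit 8338770684) (nat_lit 254) (nat_lit 5) (nat_lit 253) (nat_lit 5) (nat_lit 270) (nat_lit 5) (nat_lit 398) (nat_lit 382) (nat_lit 240)) (XT.lf (nat_lit 0) (nat_lit 11550135693) (nat_lit 1216) (nat_lit 1745440147) (nat_lit 76) (nat_lit 5170811838) (nat_lit 254) (nat_lit 5) (nat_lit 270) (nat_lit 5) (nat_lit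 255) (nat_lit 5) (nat_lit 399) (nat_lit 382) (nat_lit 239)))) (XT.nd (nat_lit 156) (nat_lit 1292) (nat_lit 0) (XT.nd (nat_lit 78) (nat_lit 0) (nat_lit 0) (XT.lf (nat_lit 0) (nat_lit 8065735515) (nat_lit 1216) (nat_lit 5345489632) (nat_lit 1292) (nat_lit 5350879180) (nat_lit 238) (nat_lit 5) (nat_lit 254) (nat_lit 5) (nat_lit 255) (nat_lit 5) (nat_lit 400) (nat_lit 382) (nat_lit 238)) (XT.lf (nat_lit 0) (nat_lit 15365333319) (nat_lit 1292) (nat_lit 893890718) (nat_lit 76) (nat_lit 2806356095) (nat_lit 238) (nat_lit 5) (nat_lit 255) (nat_lit 5) (nat_lit 239) (nat_lit 5) (nat_lit 401) (nat_lit 382) (nat_lit 237))) (XT.nd (nat_lit 78) (nat_lit 684) (nat_lit 0) (XT.lf (nat_lit 0) (nat_lit 9324655689) (nat_lit 608) (nat_lit 8188256741) (nat_lit 684) (nat_lit 1861205494) (nat_lit 230) (nat_lit 5) (nat_lit 238) (nat_lit 5) (nat_lit 239) (nat_lit 5) (nat_lit 402) (nat_lit 382) (nat_lit 236)) (XT.lf (nat_lit 0) (nat_lit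 36817204) (nat_lit 684) (nat_lit 19520853378) (nat_lit 76) (nat_lit 134101084) (nat_lit 221) (nat_lit 5) (nat_lit 230) (nat_lit 5) (nat_lit 222) (nat_lit 5) (nat_lit 403) (nat_lit 382) (nat_lit 235))))))))
noncomputable def xc194 : XT := (XT.nd (nat_lit 2184) (nat_lit 4332) (nat_lit 0) (XT.nd (nat_lit 1092) (nat_lit 3268) (nat_lit 0) (XT.nd (nat_lit 546) (nat_lit 1976) (nat_lit 0) (XT.nd (nat_lit 234) (nat_lit 1064) (nat_lit 0) (XT.nd (nat_lit 78) (nat_lit 608) (nat_lit 0) (XT.lf (nat_lit 0) (nat_lit 2130454837) (nat_lit 684) (nat_lit 9219785968) (nat_lit 76) (nat_lit 8662881781) (nat_lit 221) (nat_lit 5) (nat_lit 230) (nat_lit 5) (nat_lit 222) (nat_lit 5) (nat_lit 404) (nat_lit 382) (nat_lit 234)) (XT.nd (nat_lit 78) (nat_lit 0) (nat_lit 0) (XT.lf (nat_lit 0) (nat_lit 1410769535) (nat_lit 608) (nat_lit 2882437103) (nat_lit 684) (nat_lit 16050721036) (nat_lit 213) (nat_lit 5) (nat_lit 221) (nat_lit 5) (nat_lit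 222) (nat_lit 5) (nat_lit 405) (nat_lit 382) (nat_lit 233)) (XT.lf (nat_lit 0) (nat_lit 6663885368) (nat_lit 684) (nat_lit 8196900173) (nat_lit 76) (nat_lit 5819582755) (nat_lit 213) (nat_lit 5) (nat_lit 222) (nat_lit 5) (nat_lit 214) (nat_lit 5) (nat_lit 406) (nat_lit 382) (nat_lit 232)))) (XT.nd (nat_lit 156) (nat_lit 532) (nat_lit 0) (XT.nd (nat_lit 78) (nat_lit 0) (nat_lit 0) (XT.lf (nat_lit 0) (nat_lit 2882136843) (nat_lit 532) (nat_lit 6272887500) (nat_lit 608) (nat_lit 11870400231) (nat_lit 206) (nat_lit 5) (nat_lit 213) (nat_lit 5) (nat_lit 214) (nat_lit 5) (nat_lit 407) (nat_lit 382) (nat_lit 231)) (XT.lf (nat_lit 0) (nat_lit 11822448241) (nat_lit 608) (nat_lit 6949471200) (nat_lit 76) (nat_lit 2605869131) (nat_lit 206) (nat_lit 5) (nat_lit 214) (nat_lit 5) (nat_lit 207) (nat_lit 5) (nat_lit 408) (nat_lit 382) (nat_lit 230))) (XT.nd (nat_lit 78) (nat_lit 0) (nat_lit 0) (XT.lf (nat_lit 0) (nat_lit 4600894345)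 (nat_lit 532) (nat_lit 10068760880) (nat_lit 608) (nat_lit 7068077935) (nat_lit 199) (nat_lit 5) (nat_lit 206) (nat_lit 5) (nat_lit 207) (nat_lit 5) (nat_lit 409) (nat_lit 382) (nat_lit 229)) (XT.lf (nat_lit 0) (nat_lit 16633358517) (nat_lit 532) (nat_lit 1032647340) (nat_lit 608) (nat_lit 4440560816) (nat_lit 199) (nat_lit 5) (nat_lit 206) (nat_lit 5) (nat_lit 207) (nat_lit 5) (nat_lit 410) (nat_lit 382) (nat_lit 228))))) (XT.nd (nat_lit 234) (nat_lit 912) (nat_lit 0) (XT.nd (nat_lit 78) (nat_lit 608) (nat_lit 0) (XT.lf (nat_lit 0) (nat_lit 6582381530) (nat_lit 456) (nat_lit 14306414685) (nat_lit 532) (nat_lit 1593574839) (nat_lit 193) (nat_lit 5) (nat_lit 199) (nat_lit 5) (nat_lit 200) (nat_lit 5) (nat_lit 411) (nat_lit 382) (nat_lit 227)) (XT.nd (nat_lit 78) (nat_lit 532) (nat_lit 0) (XT.lf (nat_lit 0) (nat_lit 1372525034) (nat_lit 532) (nat_lit 3786512632) (nat_lit 76) (nat_lit 17708233131) (nat_lit 192)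 (nat_lit 5) (nat_lit 199) (nat_lit 5) (nat_lit 193) (nat_lit 5) (nat_lit 412) (nat_lit 382) (nat_lit 226)) (XT.lf (nat_lit 0) (nat_lit 4516495415) (nat_lit 608) (nat_lit 14462459817) (nat_lit 76) (nat_lit 4280663599) (nat_lit 185) (nat_lit 5) (nat_lit 193) (nat_lit 5) (nat_lit 186) (nat_lit 5) (nat_lit 413) (nat_lit 382) (nat_lit 225)))) (XT.nd (nat_lit 156) (nat_lit 456) (nat_lit 0) (XT.nd (nat_lit 78) (nat_lit 456) (nat_lit 0) (XT.lf (nat_lit 0) (nat_lit 7838554440) (nat_lit 608) (nat_lit 1884907595) (nat_lit 76) (nat_lit 13937764264) (nat_lit 185) (nat_lit 5) (nat_lit 193) (nat_lit 5) (nat_lit 186) (nat_lit 5) (nat_lit 414) (nat_lit 382) (nat_lit 224)) (XT.lf (nat_lit 0) (nat_lit 11283532360) (nat_lit 456) (nat_lit 79454684) (nat_lit 532) (nat_lit 12708815609) (nat_lit 179) (nat_lit 5) (nat_lit 185) (nat_lit 5) (nat_lit 186) (nat_lit 5) (nat_lit 415) (nat_lit 382) (nat_lit 223))) (XT.nd (nat_lit 78) (nat_lit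 0) (nat_lit 0) (XT.lf (nat_lit 0) (nat_lit 295679919) (nat_lit 456) (nat_lit 14808602126) (nat_lit 532) (nat_lit 9387082329) (nat_lit 173) (nat_lit 5) (nat_lit 179) (nat_lit 5) (nat_lit 180) (nat_lit 5) (nat_lit 416) (nat_lit 382) (nat_lit 222)) (XT.lf (nat_lit 0) (nat_lit 14026840236) (nat_lit 456) (nat_lit 5055335269) (nat_lit 532) (nat_lit 5837608555) (nat_lit 173) (nat_lit 5) (nat_lit 179) (nat_lit 5) (nat_lit 180) (nat_lit 5) (nat_lit 417) (nat_lit 382) (nat_lit 221)))))) (XT.nd (nat_lit 546) (nat_lit 1596) (nat_lit 0) (XT.nd (nat_lit 234) (nat_lit 760) (nat_lit 0) (XT.nd (nat_lit 78) (nat_lit 532) (nat_lit 0) (XT.lf (nat_lit 0) (nat_lit 2809110141) (nat_lit 380) (nat_lit 20439866304) (nat_lit 456) (nat_lit 2109994619) (nat_lit 168) (nat_lit 5) (nat_lit 173) (nat_lit 5) (nat_lit 174) (nat_lit 5) (nat_lit 418) (nat_lit 382) (nat_lit 220)) (XT.nd (nat_lit 78) (nat_lit 456) (nat_lit 0) (XT.lf (nat_lit 0) (nat_lit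 1851475158) (nat_lit 456) (nat_lit 8736936161) (nat_lit 76) (nat_lit 15217752107) (nat_lit 167) (nat_lit 5) (nat_lit 173) (nat_lit 5) (nat_lit 168) (nat_lit 5) (nat_lit 419) (nat_lit 382) (nat_lit 219)) (XT.lf (nat_lit 0) (nat_lit 5571747665) (nat_lit 456) (nat_lit 365983744) (nat_lit 532) (nat_lit 20326964575) (nat_lit 161) (nat_lit 5) (nat_lit 167) (nat_lit 5) (nat_lit 168) (nat_lit 5) (nat_lit 420) (nat_lit 382) (nat_lit 218)))) (XT.nd (nat_lit 156) (nat_lit 380) (nat_lit 0) (XT.nd (nat_lit 78) (nat_lit 380) (nat_lit 0) (XT.lf (nat_lit 0) (nat_lit 10328238880) (nat_lit 532) (nat_lit 6350656729) (nat_lit 76) (nat_lit 10052640643) (nat_lit 161) (nat_lit 5) (nat_lit 168) (nat_lit 5) (nat_lit 162) (nat_lit 5) (nat_lit 421) (nat_lit 382) (nat_lit 217)) (XT.lf (nat_lit 0) (nat_lit 8579342420) (nat_lit 380) (nat_lit 6352232051) (nat_lit 456) (nat_lit 12278375464) (nat_lit 156) (nat_lit 5) (nat_lit 161) (nat_lit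 5) (nat_lit 162) (nat_lit 5) (nat_lit 422) (nat_lit 382) (nat_lit 216))) (XT.nd (nat_lit 78) (nat_lit 380) (nat_lit 0) (XT.lf (nat_lit 0) (nat_lit 19774047532) (nat_lit 456) (nat_lit 3661610192) (nat_lit 76) (nat_lit 4264028729) (nat_lit 156) (nat_lit 5) (nat_lit 162) (nat_lit 5) (nat_lit 157) (nat_lit 5) (nat_lit 423) (nat_lit 382) (nat_lit 215)) (XT.lf (nat_lit 0) (nat_lit 11919927270) (nat_lit 380) (nat_lit 13014576149) (nat_lit 456) (nat_lit 3264431888) (nat_lit 151) (nat_lit 5) (nat_lit 156) (nat_lit 5) (nat_lit 157) (nat_lit 5) (nat_lit 424) (nat_lit 382) (nat_lit 214))))) (XT.nd (nat_lit 234) (nat_lit 760) (nat_lit 0) (XT.nd (nat_lit 78) (nat_lit 760) (nat_lit 0) (XT.lf (nat_lit 0) (nat_lit 1539232948) (nat_lit 456) (nat_lit 689490647) (nat_lit 76) (nat_lit 26483018131) (nat_lit 150) (nat_lit 5) (nat_lit 156) (nat_lit 5) (nat_lit 151) (nat_lit 5) (nat_lit 425) (nat_lit 382) (nat_lit 213)) (XT.nd (nat_lit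 78) (nat_lit 380) (nat_lit 0) (XT.lf (nat_lit 0) (nat_lit 6654246731) (nat_lit 456) (nat_lit 13687368401) (nat_lit 76) (nat_lit 8890363419) (nat_lit 145) (nat_lit 5) (nat_lit 151) (nat_lit 5) (nat_lit 146) (nat_lit 5) (nat_lit 426) (nat_lit 382) (nat_lit 212)) (XT.lf (nat_lit 0) (nat_lit 2533402849) (nat_lit 380) (nat_lit 9438223286) (nat_lit 456) (nat_lit 17794730225) (nat_lit 140) (nat_lit 5) (nat_lit 145) (nat_lit 5) (nat_lit 146) (nat_lit 5) (nat_lit 427) (nat_lit 382) (nat_lit 211)))) (XT.nd (nat_lit 156) (nat_lit 456) (nat_lit 0) (XT.nd (nat_lit 78) (nat_lit 304) (nat_lit 0) (XT.lf (nat_lit 0) (nat_lit 17600861837) (nat_lit 456) (nat_lit 10816051917) (nat_lit 76) (nat_lit 1895282996) (nat_lit 140) (nat_lit 5) (nat_lit 146) (nat_lit 5) (nat_lit 141) (nat_lit 5) (nat_lit 428) (nat_lit 382) (nat_lit 210)) (XT.lf (nat_lit 0) (nat_lit 6113168929) (nat_lit 304) (nat_lit 17433669830) (nat_lit 380) (nat_lit 7323138925)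 (nat_lit 136) (nat_lit 5) (nat_lit 140) (nat_lit 5) (nat_lit 141) (nat_lit 5) (nat_lit 429) (nat_lit 382) (nat_lit 209))) (XT.nd (nat_lit 78) (nat_lit 456) (nat_lit 0) (XT.lf (nat_lit 0) (nat_lit 23766013996) (nat_lit 304) (nat_lit 6010124006) (nat_lit 380) (nat_lit 1665206975) (nat_lit 136) (nat_lit 5) (nat_lit 140) (nat_lit 5) (nat_lit 141) (nat_lit 5) (nat_lit 430) (nat_lit 382) (nat_lit 208)) (XT.lf (nat_lit 0) (nat_lit 4230503556) (nat_lit 456) (nat_lit 22013362502) (nat_lit 76) (nat_lit 5780310059) (nat_lit 130) (nat_lit 5) (nat_lit 136) (nat_lit 5) (nat_lit 131) (nat_lit 5) (nat_lit 431) (nat_lit 382) (nat_lit 207))))))) (XT.nd (nat_lit 1092) (nat_lit 1976) (nat_lit 0) (XT.nd (nat_lit 546) (nat_lit 1064) (nat_lit 0) (XT.nd (nat_lit 234) (nat_lit 988) (nat_lit 0) (XT.nd (nat_lit 78) (nat_lit 304) (nat_lit 0) (XT.lf (nat_lit 0) (nat_lit 10403250087) (nat_lit 456) (nat_lit 4319981122) (nat_lit 76) (nat_lit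 17896758471) (nat_lit 130) (nat_lit 5) (nat_lit 136) (nat_lit 5) (nat_lit 131) (nat_lit 5) (nat_lit 432) (nat_lit 382) (nat_lit 206)) (XT.nd (nat_lit 78) (nat_lit 0) (nat_lit 0) (XT.lf (nat_lit 0) (nat_lit 14175048083) (nat_lit 304) (nat_lit 2718365252) (nat_lit 380) (nat_lit 16336298373) (nat_lit 126) (nat_lit 5) (nat_lit 130) (nat_lit 5) (nat_lit 131) (nat_lit 5) (nat_lit 433) (nat_lit 382) (nat_lit 205)) (XT.lf (nat_lit 0) (nat_lit 23711086962) (nat_lit 380) (nat_lit 641901118) (nat_lit 76) (nat_lit 9500754203) (nat_lit 126) (nat_lit 5) (nat_lit 131) (nat_lit 5) (nat_lit 127) (nat_lit 5) (nat_lit 434) (nat_lit 382) (nat_lit 204)))) (XT.nd (nat_lit 156) (nat_lit 304) (nat_lit 0) (XT.nd (nat_lit 78) (nat_lit 380) (nat_lit 0) (XT.lf (nat_lit 0) (nat_lit 18654712936) (nat_lit 304) (nat_lit 12280949541) (nat_lit 380) (nat_lit 3554761172) (nat_lit 122) (nat_lit 5) (nat_lit 126) (nat_lit 5) (nat_lit 127) (nat_lit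 5) (nat_lit 435) (nat_lit 382) (nat_lit 203)) (XT.lf (nat_lit 0) (nat_lit 3205530017) (nat_lit 380) (nat_lit 31718884223) (nat_lit 76) (nat_lit 219726369) (nat_lit 117) (nat_lit 5) (nat_lit 122) (nat_lit 5) (nat_lit 118) (nat_lit 5) (nat_lit 436) (nat_lit 382) (nat_lit 202))) (XT.nd (nat_lit 78) (nat_lit 304) (nat_lit 0) (XT.lf (nat_lit 0) (nat_lit 10376466675) (nat_lit 380) (nat_lit 12388076378) (nat_lit 76) (nat_lit 13043492574) (nat_lit 117) (nat_lit 5) (nat_lit 122) (nat_lit 5) (nat_lit 118) (nat_lit 5) (nat_lit 437) (nat_lit 382) (nat_lit 201)) (XT.lf (nat_lit 0) (nat_lit 7666726040) (nat_lit 304) (nat_lit 10165810868) (nat_lit 380) (nat_lit 18657211331) (nat_lit 113) (nat_lit 5) (nat_lit 117) (nat_lit 5) (nat_lit 118) (nat_lit 5) (nat_lit 438) (nat_lit 382) (nat_lit 200))))) (XT.nd (nat_lit 234) (nat_lit 760) (nat_lit 0) (XT.nd (nat_lit 78) (nat_lit 304) (nat_lit 0) (XT.lf (nat_lit 0) (nat_lit 25661988360)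 (nat_lit 380) (nat_lit 8644875017) (nat_lit 76) (nat_lit 2880558761) (nat_lit 113) (nat_lit 5) (nat_lit 118) (nat_lit 5) (nat_lit 114) (nat_lit 5) (nat_lit 439) (nat_lit 382) (nat_lit 199)) (XT.nd (nat_lit 78) (nat_lit 76) (nat_lit 0) (XT.lf (nat_lit 0) (nat_lit 12272025631) (nat_lit 228) (nat_lit 21669367313) (nat_lit 304) (nat_lit 3958182079) (nat_lit 110) (nat_lit 5) (nat_lit 113) (nat_lit 5) (nat_lit 114) (nat_lit 5) (nat_lit 440) (nat_lit 382) (nat_lit 198)) (XT.lf (nat_lit 0) (nat_lit 3845860091) (nat_lit 304) (nat_lit 4679996807) (nat_lit 76) (nat_lit 30103591295) (nat_lit 109) (nat_lit 5) (nat_lit 113) (nat_lit 5) (nat_lit 110) (nat_lit 5) (nat_lit 441) (nat_lit 382) (nat_lit 197)))) (XT.nd (nat_lit 156) (nat_lit 456) (nat_lit 0) (XT.nd (nat_lit 78) (nat_lit 0) (nat_lit 0) (XT.lf (nat_lit 0) (nat_lit 12016434125) (nat_lit 380) (nat_lit 22238473213) (nat_lit 76) (nat_lit 5118776322) (nat_lit 105) (nat_lit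 5) (nat_lit 110) (nat_lit 5) (nat_lit 106) (nat_lit 5) (nat_lit 442) (nat_lit 382) (nat_lit 196)) (XT.lf (nat_lit 0) (nat_lit 20560869582) (nat_lit 380) (nat_lit 528204979) (nat_lit 76) (nat_lit 19047310064) (nat_lit 105) (nat_lit 5) (nat_lit 110) (nat_lit 5) (nat_lit 106) (nat_lit 5) (nat_lit 443) (nat_lit 382) (nat_lit 195))) (XT.nd (nat_lit 78) (nat_lit 228) (nat_lit 0) (XT.lf (nat_lit 0) (nat_lit 22262646710) (nat_lit 228) (nat_lit 7309695590) (nat_lit 304) (nat_lit 11343303932) (nat_lit 102) (nat_lit 5) (nat_lit 105) (nat_lit 5) (nat_lit 106) (nat_lit 5) (nat_lit 444) (nat_lit 382) (nat_lit 194)) (XT.lf (nat_lit 0) (nat_lit 4037312410) (nat_lit 228) (nat_lit 34923938085) (nat_lit 304) (nat_lit 2753823171) (nat_lit 99) (nat_lit 5) (nat_lit 102) (nat_lit 5) (nat_lit 103) (nat_lit 5) (nat_lit 445) (nat_lit 382) (nat_lit 193)))))) (XT.nd (nat_lit 546) (nat_lit 1140) (nat_lit 0) (XT.nd (nat_lit 234) (nat_lit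 532) (nat_lit 0) (XT.nd (nat_lit 78) (nat_lit 228) (nat_lit 0) (XT.lf (nat_lit 0) (nat_lit 6233780466) (nat_lit 304) (nat_lit 14880136058) (nat_lit 76) (nat_lit 21415030640) (nat_lit 98) (nat_lit 5) (nat_lit 102) (nat_lit 5) (nat_lit 99) (nat_lit 5) (nat_lit 446) (nat_lit 382) (nat_lit 192)) (XT.nd (nat_lit 78) (nat_lit 0) (nat_lit 0) (XT.lf (nat_lit 0) (nat_lit 8739651972) (nat_lit 228) (nat_lit 6776861442) (nat_lit 304) (nat_lit 27847480633) (nat_lit 95) (nat_lit 5) (nat_lit 98) (nat_lit 5) (nat_lit 99) (nat_lit 5) (nat_lit 447) (nat_lit 382) (nat_lit 191)) (XT.lf (nat_lit 0) (nat_lit 25303149437) (nat_lit 304) (nat_lit 10929887208) (nat_lit 76) (nat_lit 7984293698) (nat_lit 95) (nat_lit 5) (nat_lit 99) (nat_lit 5) (nat_lit 96) (nat_lit 5) (nat_lit 448) (nat_lit 382) (nat_lit 190)))) (XT.nd (nat_lit 156) (nat_lit 228) (nat_lit 0) (XT.nd (nat_lit 78) (nat_lit 76) (nat_lit 0) (XT.lf (nat_lit 0) (nat_lit 13670135804)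 (nat_lit 228) (nat_lit 21908708839) (nat_lit 304) (nat_lit 9511558899) (nat_lit 92) (nat_lit 5) (nat_lit 95) (nat_lit 5) (nat_lit 96) (nat_lit 5) (nat_lit 449) (nat_lit 382) (nat_lit 189)) (XT.lf (nat_lit 0) (nat_lit 278194600) (nat_lit 304) (nat_lit 6761837587) (nat_lit 76) (nat_lit 38946334457) (nat_lit 91) (nat_lit 5) (nat_lit 95) (nat_lit 5) (nat_lit 92) (nat_lit 5) (nat_lit 450) (nat_lit 382) (nat_lit 188))) (XT.nd (nat_lit 78) (nat_lit 0) (nat_lit 0) (XT.lf (nat_lit 0) (nat_lit 10431518949) (nat_lit 304) (nat_lit 28076964266) (nat_lit 76) (nat_lit 8390069242) (nat_lit 88) (nat_lit 5) (nat_lit 92) (nat_lit 5) (nat_lit 89) (nat_lit 5) (nat_lit 451) (nat_lit 382) (nat_lit 187)) (XT.lf (nat_lit 0) (nat_lit 21025182667) (nat_lit 304) (nat_lit 2600120366) (nat_lit 76) (nat_lit 24208729172) (nat_lit 88) (nat_lit 5) (nat_lit 92) (nat_lit 5) (nat_lit 89) (nat_lit 5) (nat_lit 452) (nat_lit 382) (nat_lit 186)))))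 (XT.nd (nat_lit 312) (nat_lit 456) (nat_lit 0) (XT.nd (nat_lit 156) (nat_lit 304) (nat_lit 0) (XT.nd (nat_lit 78) (nat_lit 152) (nat_lit 0) (XT.lf (nat_lit 0) (nat_lit 24106765464) (nat_lit 228) (nat_lit 8058783881) (nat_lit 304) (nat_lit 16625160741) (nat_lit 85) (nat_lit 5) (nat_lit 88) (nat_lit 5) (nat_lit 89) (nat_lit 5) (nat_lit 453) (nat_lit 382) (nat_lit 185)) (XT.lf (nat_lit 0) (nat_lit 1847292281) (nat_lit 152) (nat_lit 41910950722) (nat_lit 228) (nat_lit 6014302340) (nat_lit 83) (nat_lit 5) (nat_lit 85) (nat_lit 5) (nat_lit 86) (nat_lit 5) (nat_lit 454) (nat_lit 382) (nat_lit 184))) (XT.nd (nat_lit 78) (nat_lit 228) (nat_lit 0) (XT.lf (nat_lit 0) (nat_lit 5147685986) (nat_lit 228) (nat_lit 21230102195) (nat_lit 76) (nat_lit 24394769284) (nat_lit 82) (nat_lit 5) (nat_lit 85) (nat_lit 5) (nat_lit 83) (nat_lit 5) (nat_lit 455) (nat_lit 382) (nat_lit 183)) (XT.lf (nat_lit 0) (nat_lit 6325215850) (nat_lit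 228) (nat_lit 10256514090) (nat_lit 304) (nat_lit 35217311731) (nat_lit 79) (nat_lit 5) (nat_lit 82) (nat_lit 5) (nat_lit 83) (nat_lit 5) (nat_lit 456) (nat_lit 382) (nat_lit 182)))) (XT.nd (nat_lit 156) (nat_lit 304) (nat_lit 0) (XT.nd (nat_lit 78) (nat_lit 152) (nat_lit 0) (XT.lf (nat_lit 0) (nat_lit 28633618802) (nat_lit 304) (nat_lit 17775232747) (nat_lit 76) (nat_lit 6439224608) (nat_lit 79) (nat_lit 5) (nat_lit 83) (nat_lit 5) (nat_lit 80) (nat_lit 5) (nat_lit 457) (nat_lit 382) (nat_lit 181)) (XT.lf (nat_lit 0) (nat_lit 10860238171) (nat_lit 152) (nat_lit 30390143771) (nat_lit 228) (nat_lit 12672100654) (nat_lit 77) (nat_lit 5) (nat_lit 79) (nat_lit 5) (nat_lit 80) (nat_lit 5) (nat_lit 458) (nat_lit 382) (nat_lit 180))) (XT.nd (nat_lit 78) (nat_lit 304) (nat_lit 0) (XT.lf (nat_lit 0) (nat_lit 40714739049) (nat_lit 152) (nat_lit 13707810782) (nat_lit 228) (nat_lit 601264774) (nat_lit 77) (nat_lit 5) (nat_lit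 79) (nat_lit 5) (nat_lit 80) (nat_lit 5) (nat_lit 459) (nat_lit 382) (nat_lit 179)) (XT.lf (nat_lit 0) (nat_lit 11783169258) (nat_lit 304) (nat_lit 40695464351) (nat_lit 76) (nat_lit 3670670809) (nat_lit 73) (nat_lit 5) (nat_lit 77) (nat_lit 5) (nat_lit 74) (nat_lit 5) (nat_lit 460) (nat_lit 382) (nat_lit 178))))))))
noncomputable def xc195 : XT := (XT.nd (nat_lit 47502) (nat_lit 0) (nat_lit 9500) (XT.nd (nat_lit 1092) (nat_lit 608) (nat_lit 0) (XT.nd (nat_lit 546) (nat_lit 760) (nat_lit 0) (XT.nd (nat_lit 234) (nat_lit 380) (nat_lit 0) (XT.nd (nat_lit 78) (nat_lit 152) (nat_lit 0) (XT.lf (nat_lit 0) (nat_lit 24806169401) (nat_lit 304) (nat_lit 11048711327) (nat_lit 76) (nat_lit 21445126462) (nat_lit 73) (nat_lit 5) (nat_lit 77) (nat_lit 5) (nat_lit 74) (nat_lit 5) (nat_lit 461) (nat_lit 382) (nat_lit 177)) (XT.nd (nat_lit 78) (nat_lit 0) (nat_lit 0) (XT.lf (nat_lit 0) (nat_lit 19870977518) (nat_lit 152) (nat_lit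 18537440412) (nat_lit 228) (nat_lit 20071156749) (nat_lit 71) (nat_lit 5) (nat_lit 73) (nat_lit 5) (nat_lit 74) (nat_lit 5) (nat_lit 462) (nat_lit 382) (nat_lit 176)) (XT.lf (nat_lit 0) (nat_lit 51940565049) (nat_lit 152) (nat_lit 587316861) (nat_lit 228) (nat_lit 7163373217) (nat_lit 71) (nat_lit 5) (nat_lit 73) (nat_lit 5) (nat_lit 74) (nat_lit 5) (nat_lit 463) (nat_lit 382) (nat_lit 175)))) (XT.nd (nat_lit 156) (nat_lit 152) (nat_lit 0) (XT.nd (nat_lit 78) (nat_lit 0) (nat_lit 0) (XT.lf (nat_lit 0) (nat_lit 6419589060) (nat_lit 228) (nat_lit 36658555767) (nat_lit 76) (nat_lit 17847145411) (nat_lit 68) (nat_lit 5) (nat_lit 71) (nat_lit 5) (nat_lit 69) (nat_lit 5) (nat_lit 464) (nat_lit 382) (nat_lit 174)) (XT.lf (nat_lit 0) (nat_lit 20348558367) (nat_lit 228) (nat_lit 4872069052) (nat_lit 76) (nat_lit 36971116744) (nat_lit 68) (nat_lit 5) (nat_lit 71) (nat_lit 5) (nat_lit 69) (nat_lit 5) (nat_lit 465) (nat_lit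 382) (nat_lit 173))) (XT.nd (nat_lit 78) (nat_lit 0) (nat_lit 0) (XT.lf (nat_lit 0) (nat_lit 28418561205) (nat_lit 152) (nat_lit 6547719096) (nat_lit 228) (nat_lit 28521785231) (nat_lit 66) (nat_lit 5) (nat_lit 68) (nat_lit 5) (nat_lit 69) (nat_lit 5) (nat_lit 466) (nat_lit 382) (nat_lit 172)) (XT.lf (nat_lit 0) (nat_lit 50191878318) (nat_lit 228) (nat_lit 2140456580) (nat_lit 76) (nat_lit 12485861634) (nat_lit 66) (nat_lit 5) (nat_lit 69) (nat_lit 5) (nat_lit 67) (nat_lit 5) (nat_lit 467) (nat_lit 382) (nat_lit 171))))) (XT.nd (nat_lit 234) (nat_lit 380) (nat_lit 0) (XT.nd (nat_lit 78) (nat_lit 152) (nat_lit 0) (XT.lf (nat_lit 0) (nat_lit 69312172) (nat_lit 228) (nat_lit 33838922625) (nat_lit 76) (nat_lit 32268772347) (nat_lit 63) (nat_lit 5) (nat_lit 66) (nat_lit 5) (nat_lit 64) (nat_lit 5) (nat_lit 468) (nat_lit 382) (nat_lit 170)) (XT.nd (nat_lit 78) (nat_lit 0) (nat_lit 0) (XT.lf (nat_lit 0) (nat_lit 173378182)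 (nat_lit 152) (nat_lit 14759745068) (nat_lit 228) (nat_lit 52638476079) (nat_lit 61) (nat_lit 5) (nat_lit 63) (nat_lit 5) (nat_lit 64) (nat_lit 5) (nat_lit 469) (nat_lit 382) (nat_lit 169)) (XT.lf (nat_lit 0) (nat_lit 30633450263) (nat_lit 228) (nat_lit 33153070673) (nat_lit 76) (nat_lit 5209790583) (nat_lit 61) (nat_lit 5) (nat_lit 64) (nat_lit 5) (nat_lit 62) (nat_lit 5) (nat_lit 470) (nat_lit 382) (nat_lit 168)))) (XT.nd (nat_lit 156) (nat_lit 228) (nat_lit 0) (XT.nd (nat_lit 78) (nat_lit 0) (nat_lit 0) (XT.lf (nat_lit 0) (nat_lit 2008696284) (nat_lit 152) (nat_lit 44959402007) (nat_lit 228) (nat_lit 23490767725) (nat_lit 59) (nat_lit 5) (nat_lit 61) (nat_lit 5) (nat_lit 62) (nat_lit 5) (nat_lit 471) (nat_lit 382) (nat_lit 167)) (XT.lf (nat_lit 0) (nat_lit 38901160102) (nat_lit 152) (nat_lit 25224298956) (nat_lit 228) (nat_lit 7829858163) (nat_lit 59) (nat_lit 5) (nat_lit 61) (nat_lit 5) (nat_lit 62) (nat_lit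 5) (nat_lit 472) (nat_lit 382) (nat_lit 166))) (XT.nd (nat_lit 78) (nat_lit 0) (nat_lit 0) (XT.lf (nat_lit 0) (nat_lit 3386328795) (nat_lit 152) (nat_lit 4783054472) (nat_lit 228) (nat_lit 65323970616) (nat_lit 56) (nat_lit 5) (nat_lit 58) (nat_lit 5) (nat_lit 59) (nat_lit 5) (nat_lit 473) (nat_lit 382) (nat_lit 165)) (XT.lf (nat_lit 0) (nat_lit 24982670083) (nat_lit 228) (nat_lit 33710853301) (nat_lit 76) (nat_lit 16366939593) (nat_lit 56) (nat_lit 5) (nat_lit 59) (nat_lit 5) (nat_lit 57) (nat_lit 5) (nat_lit 474) (nat_lit 382) (nat_lit 164)))))) (XT.nd (nat_lit 546) (nat_lit 152) (nat_lit 0) (XT.nd (nat_lit 234) (nat_lit 228) (nat_lit 0) (XT.nd (nat_lit 78) (nat_lit 76) (nat_lit 0) (XT.lf (nat_lit 0) (nat_lit 3800411046) (nat_lit 152) (nat_lit 38581835904) (nat_lit 228) (nat_lit 34289881889) (nat_lit 54) (nat_lit 5) (nat_lit 56) (nat_lit 5) (nat_lit 57) (nat_lit 5) (nat_lit 475) (nat_lit 382) (nat_lit 163))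 (XT.nd (nat_lit 78) (nat_lit 76) (nat_lit 0) (XT.lf (nat_lit 0) (nat_lit 43124492689) (nat_lit 152) (nat_lit 17517758507) (nat_lit 228) (nat_lit 17679740514) (nat_lit 54) (nat_lit 5) (nat_lit 56) (nat_lit 5) (nat_lit 57) (nat_lit 5) (nat_lit 476) (nat_lit 382) (nat_lit 162)) (XT.lf (nat_lit 0) (nat_lit 3634199541) (nat_lit 76) (nat_lit 75889023211) (nat_lit 152) (nat_lit 495932925) (nat_lit 53) (nat_lit 5) (nat_lit 54) (nat_lit 5) (nat_lit 55) (nat_lit 4) (nat_lit 477) (nat_lit 382) (nat_lit 161)))) (XT.nd (nat_lit 156) (nat_lit 0) (nat_lit 0) (XT.nd (nat_lit 78) (nat_lit 152) (nat_lit 0) (XT.lf (nat_lit 0) (nat_lit 17398149804) (nat_lit 152) (nat_lit 37750043767) (nat_lit 76) (nat_lit 26598166290) (nat_lit 52) (nat_lit 5) (nat_lit 54) (nat_lit 5) (nat_lit 53) (nat_lit 5) (nat_lit 478) (nat_lit 382) (nat_lit 160)) (XT.lf (nat_lit 0) (nat_lit 2076116763) (nat_lit 152) (nat_lit 33761056567) (nat_lit 228) (nat_lit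 47687517159) (nat_lit 50) (nat_lit 5) (nat_lit 52) (nat_lit 5) (nat_lit 53) (nat_lit 5) (nat_lit 479) (nat_lit 382) (nat_lit 159))) (XT.nd (nat_lit 78) (nat_lit 0) (nat_lit 0) (XT.lf (nat_lit 0) (nat_lit 43867532849) (nat_lit 152) (nat_lit 11341187423) (nat_lit 228) (nat_lit 30136270384) (nat_lit 50) (nat_lit 5) (nat_lit 52) (nat_lit 5) (nat_lit 53) (nat_lit 5) (nat_lit 480) (nat_lit 382) (nat_lit 158)) (XT.lf (nat_lit 0) (nat_lit 75272565044) (nat_lit 228) (nat_lit 423478790) (nat_lit 76) (nat_lit 11520521646) (nat_lit 50) (nat_lit 5) (nat_lit 53) (nat_lit 5) (nat_lit 51) (nat_lit 4) (nat_lit 481) (nat_lit 382) (nat_lit 157))))) (XT.nd (nat_lit 45552) (nat_lit 0) (nat_lit 16340) (XT.nd (nat_lit 45396) (nat_lit 0) (nat_lit 16340) (XT.lf (nat_lit 0) (nat_lit 7186421130) (nat_lit 152) (nat_lit 46621691808) (nat_lit 76) (nat_lit 35318466752) (nat_lit 48) (nat_lit 5) (nat_lit 50) (nat_lit 5) (nat_lit 49) (nat_lit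 5) (nat_lit 482) (nat_lit 382) (nat_lit 156)) (XT.nd (nat_lit 78) (nat_lit 0) (nat_lit 0) (XT.lf (nat_lit 0) (nat_lit 2753374045) (nat_lit 0) (nat_lit 2753374045) (nat_lit 1140) (nat_lit 1852267526) (nat_lit 263) (nat_lit 5) (nat_lit 263) (nat_lit 3) (nat_lit 278) (nat_lit 3) (nat_lit 383) (nat_lit 383) (nat_lit 254)) (XT.lf (nat_lit 0) (nat_lit 11494515352) (nat_lit 1140) (nat_lit 2125338536) (nat_lit 1216) (nat_lit 1309340184) (nat_lit 263) (nat_lit 5) (nat_lit 278) (nat_lit 3) (nat_lit 279) (nat_lit 5) (nat_lit 384) (nat_lit 383) (nat_lit 253)))) (XT.nd (nat_lit 156) (nat_lit 0) (nat_lit 76) (XT.nd (nat_lit 78) (nat_lit 0) (nat_lit 76) (XT.lf (nat_lit 76) (nat_lit 5214078610) (nat_lit 0) (nat_lit 6868762026) (nat_lit 1216) (nat_lit 3061070091) (nat_lit 264) (nat_lit 5) (nat_lit 263) (nat_lit 5) (nat_lit 279) (nat_lit 5) (nat_lit 385) (nat_lit 383) (nat_lit 252)) (XT.lf (nat_lit 0) (nat_lit 12699870707) (nat_lit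 1140) (nat_lit 2554874348) (nat_lit 1216) (nat_lit 109997219) (nat_lit 264) (nat_lit 5) (nat_lit 279) (nat_lit 5) (nat_lit 280) (nat_lit 5) (nat_lit 386) (nat_lit 383) (nat_lit 251))) (XT.nd (nat_lit 78) (nat_lit 0) (nat_lit 0) (XT.lf (nat_lit 76) (nat_lit 5065702178) (nat_lit 0) (nat_lit 8375309765) (nat_lit 1216) (nat_lit 2148023713) (nat_lit 265) (nat_lit 5) (nat_lit 264) (nat_lit 5) (nat_lit 280) (nat_lit 5) (nat_lit 387) (nat_lit 383) (nat_lit 250)) (XT.lf (nat_lit 76) (nat_lit 12960859348) (nat_lit 0) (nat_lit 1258487129) (nat_lit 1216) (nat_lit 1600267347) (nat_lit 265) (nat_lit 5) (nat_lit 264) (nat_lit 5) (nat_lit 280) (nat_lit 5) (nat_lit 388) (nat_lit 383) (nat_lit 249))))))) (XT.nd (nat_lit 1092) (nat_lit 4940) (nat_lit 0) (XT.nd (nat_lit 546) (nat_lit 912) (nat_lit 0) (XT.nd (nat_lit 234) (nat_lit 0) (nat_lit 0) (XT.nd (nat_lit 78) (nat_lit 1140) (nat_lit 0) (XT.lf (nat_lit 76) (nat_lit 5069740448)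 (nat_lit 0) (nat_lit 10047907212) (nat_lit 1216) (nat_lit 936567793) (nat_lit 266) (nat_lit 5) (nat_lit 265) (nat_lit 5) (nat_lit 281) (nat_lit 5) (nat_lit 389) (nat_lit 383) (nat_lit 248)) (XT.nd (nat_lit 78) (nat_lit 1140) (nat_lit 0) (XT.lf (nat_lit 76) (nat_lit 13275464081) (nat_lit 0) (nat_lit 2798399310) (nat_lit 1216) (nat_lit 221067257) (nat_lit 266) (nat_lit 5) (nat_lit 265) (nat_lit 5) (nat_lit 281) (nat_lit 5) (nat_lit 390) (nat_lit 383) (nat_lit 247)) (XT.lf (nat_lit 0) (nat_lit 591964453) (nat_lit 1216) (nat_lit 11311012972) (nat_lit 1292) (nat_lit 4637161329) (nat_lit 250) (nat_lit 5) (nat_lit 266) (nat_lit 5) (nat_lit 267) (nat_lit 5) (nat_lit 391) (nat_lit 383) (nat_lit 246)))) (XT.nd (nat_lit 156) (nat_lit 0) (nat_lit 76) (XT.nd (nat_lit 78) (nat_lit 0) (nat_lit 76) (XT.lf (nat_lit 0) (nat_lit 1473661064) (nat_lit 1216) (nat_lit 3041714399) (nat_lit 1292) (nat_lit 12275804563) (nat_lit 250)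 (nat_lit 5) (nat_lit 266) (nat_lit 5) (nat_lit 267) (nat_lit 5) (nat_lit 392) (nat_lit 383) (nat_lit 245)) (XT.lf (nat_lit 0) (nat_lit 2456228140) (nat_lit 1216) (nat_lit 11500825814) (nat_lit 1292) (nat_lit 3090469976) (nat_lit 251) (nat_lit 5) (nat_lit 267) (nat_lit 5) (nat_lit 268) (nat_lit 5) (nat_lit 393) (nat_lit 383) (nat_lit 244))) (XT.nd (nat_lit 78) (nat_lit 0) (nat_lit 76) (XT.lf (nat_lit 0) (nat_lit 3534741156) (nat_lit 1216) (nat_lit 2907378720) (nat_lit 1292) (nat_lit 10867448074) (nat_lit 251) (nat_lit 5) (nat_lit 267) (nat_lit 5) (nat_lit 268) (nat_lit 5) (nat_lit 394) (nat_lit 383) (nat_lit 243)) (XT.lf (nat_lit 0) (nat_lit 4707908560) (nat_lit 1216) (nat_lit 11535691728) (nat_lit 1292) (nat_lit 1334007786) (nat_lit 252) (nat_lit 5) (nat_lit 268) (nat_lit 5) (nat_lit 269) (nat_lit 5) (nat_lit 395) (nat_lit 383) (nat_lit 242))))) (XT.nd (nat_lit 234) (nat_lit 1064) (nat_lit 0) (XT.nd (nat_lit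 78) (nat_lit 0) (nat_lit 0) (XT.lf (nat_lit 0) (nat_lit 6000935984) (nat_lit 1216) (nat_lit 2604464362) (nat_lit 1292) (nat_lit 9245752750) (nat_lit 252) (nat_lit 5) (nat_lit 268) (nat_lit 5) (nat_lit 269) (nat_lit 5) (nat_lit 396) (nat_lit 383) (nat_lit 241)) (XT.nd (nat_lit 78) (nat_lit 0) (nat_lit 76) (XT.lf (nat_lit 76) (nat_lit 6719144279) (nat_lit 0) (nat_lit 669685979) (nat_lit 1292) (nat_lit 10742395469) (nat_lit 253) (nat_lit 5) (nat_lit 252) (nat_lit 5) (nat_lit 269) (nat_lit 5) (nat_lit 397) (nat_lit 383) (nat_lit 240)) (XT.lf (nat_lit 0) (nat_lit 8908744250) (nat_lit 1216) (nat_lit 2122330481) (nat_lit 1292) (nat_lit 7385917752) (nat_lit 253) (nat_lit 5) (nat_lit 269) (nat_lit 5) (nat_lit 270) (nat_lit 5) (nat_lit 398) (nat_lit 383) (nat_lit 239)))) (XT.nd (nat_lit 156) (nat_lit 1140) (nat_lit 0) (XT.nd (nat_lit 78) (nat_lit 0) (nat_lit 76) (XT.lf (nat_lit 76) (nat_lit 7580735450) (nat_lit 0) (nat_lit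 2964952028) (nat_lit 1292) (nat_lit 8163505144) (nat_lit 254) (nat_lit 5) (nat_lit 253) (nat_lit 5) (nat_lit 270) (nat_lit 5) (nat_lit 399) (nat_lit 383) (nat_lit 238)) (XT.lf (nat_lit 0) (nat_lit 12296858727) (nat_lit 1216) (nat_lit 1449552224) (nat_lit 76) (nat_lit 5261797462) (nat_lit 254) (nat_lit 5) (nat_lit 270) (nat_lit 5) (nat_lit 255) (nat_lit 5) (nat_lit 400) (nat_lit 383) (nat_lit 237))) (XT.nd (nat_lit 78) (nat_lit 0) (nat_lit 0) (XT.lf (nat_lit 0) (nat_lit 8652544481) (nat_lit 1216) (nat_lit 5552894304) (nat_lit 1292) (nat_lit 5107612825) (nat_lit 238) (nat_lit 5) (nat_lit 254) (nat_lit 5) (nat_lit 255) (nat_lit 5) (nat_lit 401) (nat_lit 383) (nat_lit 236)) (XT.lf (nat_lit 0) (nat_lit 16206317305) (nat_lit 1292) (nat_lit 573906542) (nat_lit 76) (nat_lit 2845768075) (nat_lit 238) (nat_lit 5) (nat_lit 255) (nat_lit 5) (nat_lit 239) (nat_lit 5) (nat_lit 402) (nat_lit 383) (nat_lit 235)))))) (XT.nd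 (nat_lit 546) (nat_lit 2508) (nat_lit 0) (XT.nd (nat_lit 234) (nat_lit 1140) (nat_lit 0) (XT.nd (nat_lit 78) (nat_lit 684) (nat_lit 0) (XT.lf (nat_lit 0) (nat_lit 9947796248) (nat_lit 608) (nat_lit 8462759861) (nat_lit 684) (nat_lit 1533467281) (nat_lit 230) (nat_lit 5) (nat_lit 238) (nat_lit 5) (nat_lit 239) (nat_lit 5) (nat_lit 403) (nat_lit 383) (nat_lit 234)) (XT.nd (nat_lit 78) (nat_lit 0) (nat_lit 0) (XT.lf (nat_lit 0) (nat_lit 406197597) (nat_lit 684) (nat_lit 19747491839) (nat_lit 76) (nat_lit 117645355) (nat_lit 221) (nat_lit 5) (nat_lit 230) (nat_lit 5) (nat_lit 222) (nat_lit 5) (nat_lit 404) (nat_lit 383) (nat_lit 233)) (XT.lf (nat_lit 0) (nat_lit 2551917877) (nat_lit 684) (nat_lit 9147848342) (nat_lit 76) (nat_lit 8902885942) (nat_lit 221) (nat_lit 5) (nat_lit 230) (nat_lit 5) (nat_lit 222) (nat_lit 5) (nat_lit 405) (nat_lit 383) (nat_lit 232)))) (XT.nd (nat_lit 156) (nat_lit 532) (nat_lit 0) (XT.nd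 (nat_lit 78) (nat_lit 0) (nat_lit 0) (XT.lf (nat_lit 0) (nat_lit 1798206854) (nat_lit 608) (nat_lit 2974248768) (nat_lit 684) (nat_lit 16171142688) (nat_lit 213) (nat_lit 5) (nat_lit 221) (nat_lit 5) (nat_lit 222) (nat_lit 5) (nat_lit 406) (nat_lit 383) (nat_lit 231)) (XT.lf (nat_lit 0) (nat_lit 7203997528) (nat_lit 684) (nat_lit 8097357911) (nat_lit 76) (nat_lit 5989088318) (nat_lit 213) (nat_lit 5) (nat_lit 222) (nat_lit 5) (nat_lit 214) (nat_lit 5) (nat_lit 407) (nat_lit 383) (nat_lit 230))) (XT.nd (nat_lit 78) (nat_lit 0) (nat_lit 0) (XT.lf (nat_lit 0) (nat_lit 3310663458) (nat_lit 532) (nat_lit 6452586718) (nat_lit 608) (nat_lit 11882803939) (nat_lit 206) (nat_lit 5) (nat_lit 213) (nat_lit 5) (nat_lit 214) (nat_lit 5) (nat_lit 408) (nat_lit 383) (nat_lit 229)) (XT.lf (nat_lit 0) (nat_lit 12501060221) (nat_lit 608) (nat_lit 6816096968) (nat_lit 76) (nat_lit 2692124610) (nat_lit 206) (nat_lit 5) (nat_lit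 214) (nat_lit 5) (nat_lit 207) (nat_lit 5) (nat_lit 409) (nat_lit 383) (nat_lit 228))))) (XT.nd (nat_lit 312) (nat_lit 1444) (nat_lit 0) (XT.nd (nat_lit 156) (nat_lit 532) (nat_lit 0) (XT.nd (nat_lit 78) (nat_lit 0) (nat_lit 0) (XT.lf (nat_lit 0) (nat_lit 5077427991) (nat_lit 532) (nat_lit 10350074256) (nat_lit 608) (nat_lit 6952711474) (nat_lit 199) (nat_lit 5) (nat_lit 206) (nat_lit 5) (nat_lit 207) (nat_lit 5) (nat_lit 410) (nat_lit 383) (nat_lit 227)) (XT.lf (nat_lit 0) (nat_lit 17461006666) (nat_lit 532) (nat_lit 1043481662) (nat_lit 608) (nat_lit 4255905021) (nat_lit 199) (nat_lit 5) (nat_lit 206) (nat_lit 5) (nat_lit 207) (nat_lit 5) (nat_lit 411) (nat_lit 383) (nat_lit 226))) (XT.nd (nat_lit 78) (nat_lit 76) (nat_lit 0) (XT.lf (nat_lit 0) (nat_lit 7114365046) (nat_lit 456) (nat_lit 14704015389) (nat_lit 532) (nat_lit 1329262242) (nat_lit 193) (nat_lit 5) (nat_lit 199) (nat_lit 5) (nat_lit 200) (nat_lit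 5) (nat_lit 412) (nat_lit 383) (nat_lit 225)) (XT.lf (nat_lit 0) (nat_lit 1710816571) (nat_lit 532) (nat_lit 3569320349) (nat_lit 76) (nat_lit 18264133053) (nat_lit 192) (nat_lit 5) (nat_lit 199) (nat_lit 5) (nat_lit 193) (nat_lit 5) (nat_lit 413) (nat_lit 383) (nat_lit 224)))) (XT.nd (nat_lit 156) (nat_lit 912) (nat_lit 0) (XT.nd (nat_lit 78) (nat_lit 0) (nat_lit 0) (XT.lf (nat_lit 0) (nat_lit 4943946186) (nat_lit 608) (nat_lit 14560283670) (nat_lit 76) (nat_lit 4444316460) (nat_lit 185) (nat_lit 5) (nat_lit 193) (nat_lit 5) (nat_lit 186) (nat_lit 5) (nat_lit 414) (nat_lit 383) (nat_lit 223)) (XT.lf (nat_lit 0) (nat_lit 8357163411) (nat_lit 608) (nat_lit 1615192743) (nat_lit 76) (nat_lit 14390103942) (nat_lit 185) (nat_lit 5) (nat_lit 193) (nat_lit 5) (nat_lit 186) (nat_lit 5) (nat_lit 415) (nat_lit 383) (nat_lit 222))) (XT.nd (nat_lit 78) (nat_lit 456) (nat_lit 0) (XT.lf (nat_lit 0) (nat_lit 11945101762) (nat_lit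 456) (nat_lit 37076821) (nat_lit 532) (nat_lit 12803332566) (nat_lit 179) (nat_lit 5) (nat_lit 185) (nat_lit 5) (nat_lit 186) (nat_lit 5) (nat_lit 416) (nat_lit 383) (nat_lit 221)) (XT.lf (nat_lit 0) (nat_lit 632383185) (nat_lit 456) (nat_lit 15198792441) (nat_lit 532) (nat_lit 9386623012) (nat_lit 173) (nat_lit 5) (nat_lit 179) (nat_lit 5) (nat_lit 180) (nat_lit 5) (nat_lit 417) (nat_lit 383) (nat_lit 220))))))))
noncomputable def xc196 : XT := (XT.nd (nat_lit 2184) (nat_lit 3496) (nat_lit 0) (XT.nd (nat_lit 1092) (nat_lit 2584) (nat_lit 0) (XT.nd (nat_lit 546) (nat_lit 1520) (nat_lit 0) (XT.nd (nat_lit 234) (nat_lit 836) (nat_lit 0) (XT.nd (nat_lit 78) (nat_lit 456) (nat_lit 0) (XT.lf (nat_lit 0) (nat_lit 14765929782) (nat_lit 456) (nat_lit 5154502367) (nat_lit 532) (nat_lit 5738880708) (nat_lit 173) (nat_lit 5) (nat_lit 179) (nat_lit 5) (nat_lit 180) (nat_lit 5) (nat_lit 418) (nat_lit 383) (nat_lit 219))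 (XT.nd (nat_lit 78) (nat_lit 76) (nat_lit 0) (XT.lf (nat_lit 0) (nat_lit 3216033360) (nat_lit 380) (nat_lit 20992053665) (nat_lit 456) (nat_lit 1903715598) (nat_lit 168) (nat_lit 5) (nat_lit 173) (nat_lit 5) (nat_lit 174) (nat_lit 5) (nat_lit 419) (nat_lit 383) (nat_lit 218)) (XT.lf (nat_lit 0) (nat_lit 2163639224) (nat_lit 456) (nat_lit 8680601401) (nat_lit 76) (nat_lit 15728325848) (nat_lit 167) (nat_lit 5) (nat_lit 173) (nat_lit 5) (nat_lit 168) (nat_lit 5) (nat_lit 420) (nat_lit 383) (nat_lit 217)))) (XT.nd (nat_lit 156) (nat_lit 380) (nat_lit 0) (XT.nd (nat_lit 78) (nat_lit 0) (nat_lit 0) (XT.lf (nat_lit 0) (nat_lit 6054220952) (nat_lit 456) (nat_lit 313818904) (nat_lit 532) (nat_lit 20676950875) (nat_lit 161) (nat_lit 5) (nat_lit 167) (nat_lit 5) (nat_lit 168) (nat_lit 5) (nat_lit 421) (nat_lit 383) (nat_lit 216)) (XT.lf (nat_lit 0) (nat_lit 10883506908) (nat_lit 532) (nat_lit 6228205550) (nat_lit 76)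 (nat_lit 10414328774) (nat_lit 161) (nat_lit 5) (nat_lit 168) (nat_lit 5) (nat_lit 162) (nat_lit 5) (nat_lit 422) (nat_lit 383) (nat_lit 215))) (XT.nd (nat_lit 78) (nat_lit 0) (nat_lit 0) (XT.lf (nat_lit 0) (nat_lit 9146625231) (nat_lit 380) (nat_lit 6474148127) (nat_lit 456) (nat_lit 12398161328) (nat_lit 156) (nat_lit 5) (nat_lit 161) (nat_lit 5) (nat_lit 162) (nat_lit 5) (nat_lit 423) (nat_lit 383) (nat_lit 214)) (XT.lf (nat_lit 0) (nat_lit 20602134557) (nat_lit 456) (nat_lit 3464122214) (nat_lit 76) (nat_lit 4457300329) (nat_lit 156) (nat_lit 5) (nat_lit 162) (nat_lit 5) (nat_lit 157) (nat_lit 5) (nat_lit 424) (nat_lit 383) (nat_lit 213))))) (XT.nd (nat_lit 234) (nat_lit 684) (nat_lit 0) (XT.nd (nat_lit 78) (nat_lit 456) (nat_lit 0) (XT.lf (nat_lit 0) (nat_lit 12581848270) (nat_lit 380) (nat_lit 13331640446) (nat_lit 456) (nat_lit 3124414321) (nat_lit 151) (nat_lit 5) (nat_lit 156) (nat_lit 5) (nat_lit 157)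 (nat_lit 5) (nat_lit 425) (nat_lit 383) (nat_lit 212)) (XT.nd (nat_lit 78) (nat_lit 380) (nat_lit 0) (XT.lf (nat_lit 0) (nat_lit 1811921831) (nat_lit 456) (nat_lit 410140235) (nat_lit 76) (nat_lit 27344168854) (nat_lit 150) (nat_lit 5) (nat_lit 156) (nat_lit 5) (nat_lit 151) (nat_lit 5) (nat_lit 426) (nat_lit 383) (nat_lit 211)) (XT.lf (nat_lit 0) (nat_lit 7077358880) (nat_lit 456) (nat_lit 13794861446) (nat_lit 76) (nat_lit 9229947310) (nat_lit 145) (nat_lit 5) (nat_lit 151) (nat_lit 5) (nat_lit 146) (nat_lit 5) (nat_lit 427) (nat_lit 383) (nat_lit 210)))) (XT.nd (nat_lit 156) (nat_lit 304) (nat_lit 0) (XT.nd (nat_lit 78) (nat_lit 0) (nat_lit 0) (XT.lf (nat_lit 0) (nat_lit 2909561098) (nat_lit 380) (nat_lit 9641074589) (nat_lit 456) (nat_lit 18102051726) (nat_lit 140) (nat_lit 5) (nat_lit 145) (nat_lit 5) (nat_lit 146) (nat_lit 5) (nat_lit 428) (nat_lit 383) (nat_lit 209)) (XT.lf (nat_lit 0) (nat_lit 18343094116)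 (nat_lit 456) (nat_lit 10843403424) (nat_lit 76) (nat_lit 2028576965) (nat_lit 140) (nat_lit 5) (nat_lit 146) (nat_lit 5) (nat_lit 141) (nat_lit 5) (nat_lit 429) (nat_lit 383) (nat_lit 208))) (XT.nd (nat_lit 78) (nat_lit 0) (nat_lit 0) (XT.lf (nat_lit 0) (nat_lit 6590781008) (nat_lit 304) (nat_lit 17873258509) (nat_lit 380) (nat_lit 7325653478) (nat_lit 136) (nat_lit 5) (nat_lit 140) (nat_lit 5) (nat_lit 141) (nat_lit 5) (nat_lit 430) (nat_lit 383) (nat_lit 207)) (XT.lf (nat_lit 0) (nat_lit 24764642000) (nat_lit 304) (nat_lit 6109436060) (nat_lit 380) (nat_lit 1504309190) (nat_lit 136) (nat_lit 5) (nat_lit 140) (nat_lit 5) (nat_lit 141) (nat_lit 5) (nat_lit 431) (nat_lit 383) (nat_lit 206)))))) (XT.nd (nat_lit 546) (nat_lit 1140) (nat_lit 0) (XT.nd (nat_lit 234) (nat_lit 684) (nat_lit 0) (XT.nd (nat_lit 78) (nat_lit 304) (nat_lit 0) (XT.lf (nat_lit 0) (nat_lit 4561697863) (nat_lit 456) (nat_lit 22381429255)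 (nat_lit 76) (nat_lit 6035590860) (nat_lit 130) (nat_lit 5) (nat_lit 136) (nat_lit 5) (nat_lit 131) (nat_lit 5) (nat_lit 432) (nat_lit 383) (nat_lit 205)) (XT.nd (nat_lit 78) (nat_lit 304) (nat_lit 0) (XT.lf (nat_lit 0) (nat_lit 10913676911) (nat_lit 456) (nat_lit 4165761020) (nat_lit 76) (nat_lit 18513148119) (nat_lit 130) (nat_lit 5) (nat_lit 136) (nat_lit 5) (nat_lit 131) (nat_lit 5) (nat_lit 433) (nat_lit 383) (nat_lit 204)) (XT.lf (nat_lit 0) (nat_lit 14881336518) (nat_lit 304) (nat_lit 2714133455) (nat_lit 380) (nat_lit 16625223572) (nat_lit 126) (nat_lit 5) (nat_lit 130) (nat_lit 5) (nat_lit 131) (nat_lit 5) (nat_lit 434) (nat_lit 383) (nat_lit 203)))) (XT.nd (nat_lit 156) (nat_lit 380) (nat_lit 0) (XT.nd (nat_lit 78) (nat_lit 304) (nat_lit 0) (XT.lf (nat_lit 0) (nat_lit 24612787371) (nat_lit 380) (nat_lit 383369890) (nat_lit 76) (nat_lit 9867435881) (nat_lit 126) (nat_lit 5) (nat_lit 131) (nat_lit 5)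 (nat_lit 127) (nat_lit 5) (nat_lit 435) (nat_lit 383) (nat_lit 202)) (XT.lf (nat_lit 0) (nat_lit 19489419171) (nat_lit 304) (nat_lit 12561780378) (nat_lit 380) (nat_lit 3468263885) (nat_lit 122) (nat_lit 5) (nat_lit 126) (nat_lit 5) (nat_lit 127) (nat_lit 5) (nat_lit 436) (nat_lit 383) (nat_lit 201))) (XT.nd (nat_lit 78) (nat_lit 0) (nat_lit 0) (XT.lf (nat_lit 0) (nat_lit 3489067652) (nat_lit 380) (nat_lit 32389523931) (nat_lit 76) (nat_lit 314205991) (nat_lit 117) (nat_lit 5) (nat_lit 122) (nat_lit 5) (nat_lit 118) (nat_lit 5) (nat_lit 437) (nat_lit 383) (nat_lit 200)) (XT.lf (nat_lit 0) (nat_lit 10869674981) (nat_lit 380) (nat_lit 12486974185) (nat_lit 76) (nat_lit 13520125343) (nat_lit 117) (nat_lit 5) (nat_lit 122) (nat_lit 5) (nat_lit 118) (nat_lit 5) (nat_lit 438) (nat_lit 383) (nat_lit 199))))) (XT.nd (nat_lit 234) (nat_lit 608) (nat_lit 0) (XT.nd (nat_lit 78) (nat_lit 228) (nat_lit 0) (XT.lf (nat_lit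 0) (nat_lit 8166798340) (nat_lit 304) (nat_lit 10379926589) (nat_lit 380) (nat_lit 19032295945) (nat_lit 113) (nat_lit 5) (nat_lit 117) (nat_lit 5) (nat_lit 118) (nat_lit 5) (nat_lit 439) (nat_lit 383) (nat_lit 198)) (XT.nd (nat_lit 78) (nat_lit 228) (nat_lit 0) (XT.lf (nat_lit 0) (nat_lit 26606688110) (nat_lit 380) (nat_lit 8637602878) (nat_lit 76) (nat_lit 3053466423) (nat_lit 113) (nat_lit 5) (nat_lit 118) (nat_lit 5) (nat_lit 114) (nat_lit 5) (nat_lit 440) (nat_lit 383) (nat_lit 197)) (XT.lf (nat_lit 0) (nat_lit 12904190885) (nat_lit 228) (nat_lit 22227729289) (nat_lit 304) (nat_lit 3899432577) (nat_lit 110) (nat_lit 5) (nat_lit 113) (nat_lit 5) (nat_lit 114) (nat_lit 5) (nat_lit 441) (nat_lit 383) (nat_lit 196)))) (XT.nd (nat_lit 156) (nat_lit 228) (nat_lit 0) (XT.nd (nat_lit 78) (nat_lit 304) (nat_lit 0) (XT.lf (nat_lit 0) (nat_lit 4130198417) (nat_lit 304) (nat_lit 4560680384) (nat_lit 76) (nat_lit 31092345354)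 (nat_lit 109) (nat_lit 5) (nat_lit 113) (nat_lit 5) (nat_lit 110) (nat_lit 5) (nat_lit 442) (nat_lit 383) (nat_lit 195)) (XT.lf (nat_lit 0) (nat_lit 12544311958) (nat_lit 380) (nat_lit 22644295883) (nat_lit 76) (nat_lit 5361227301) (nat_lit 105) (nat_lit 5) (nat_lit 110) (nat_lit 5) (nat_lit 106) (nat_lit 5) (nat_lit 443) (nat_lit 383) (nat_lit 194))) (XT.nd (nat_lit 78) (nat_lit 228) (nat_lit 0) (XT.lf (nat_lit 0) (nat_lit 21340205193) (nat_lit 380) (nat_lit 290331200) (nat_lit 76) (nat_lit 19705028093) (nat_lit 105) (nat_lit 5) (nat_lit 110) (nat_lit 5) (nat_lit 106) (nat_lit 5) (nat_lit 444) (nat_lit 383) (nat_lit 193)) (XT.lf (nat_lit 0) (nat_lit 23181758589) (nat_lit 228) (nat_lit 7437945216) (nat_lit 304) (nat_lit 11518570744) (nat_lit 102) (nat_lit 5) (nat_lit 105) (nat_lit 5) (nat_lit 106) (nat_lit 5) (nat_lit 445) (nat_lit 383) (nat_lit 192))))))) (XT.nd (nat_lit 1092) (nat_lit 1596) (nat_lit 0) (XT.nd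 (nat_lit 546) (nat_lit 836) (nat_lit 0) (XT.nd (nat_lit 234) (nat_lit 532) (nat_lit 0) (XT.nd (nat_lit 78) (nat_lit 304) (nat_lit 0) (XT.lf (nat_lit 0) (nat_lit 4411128240) (nat_lit 228) (nat_lit 35877763969) (nat_lit 304) (nat_lit 2672835237) (nat_lit 99) (nat_lit 5) (nat_lit 102) (nat_lit 5) (nat_lit 103) (nat_lit 5) (nat_lit 446) (nat_lit 383) (nat_lit 191)) (XT.nd (nat_lit 78) (nat_lit 228) (nat_lit 0) (XT.lf (nat_lit 0) (nat_lit 6576531892) (nat_lit 304) (nat_lit 15078071947) (nat_lit 76) (nat_lit 22145507266) (nat_lit 98) (nat_lit 5) (nat_lit 102) (nat_lit 5) (nat_lit 99) (nat_lit 5) (nat_lit 447) (nat_lit 383) (nat_lit 190)) (XT.lf (nat_lit 0) (nat_lit 9247873762) (nat_lit 228) (nat_lit 6887702021) (nat_lit 304) (nat_lit 28524699686) (nat_lit 95) (nat_lit 5) (nat_lit 98) (nat_lit 5) (nat_lit 99) (nat_lit 5) (nat_lit 448) (nat_lit 383) (nat_lit 189)))) (XT.nd (nat_lit 156) (nat_lit 304) (nat_lit 0) (XT.nd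 (nat_lit 78) (nat_lit 228) (nat_lit 0) (XT.lf (nat_lit 0) (nat_lit 26212201006) (nat_lit 304) (nat_lit 11015277223) (nat_lit 76) (nat_lit 8311842833) (nat_lit 95) (nat_lit 5) (nat_lit 99) (nat_lit 5) (nat_lit 96) (nat_lit 5) (nat_lit 449) (nat_lit 383) (nat_lit 188)) (XT.lf (nat_lit 0) (nat_lit 14320368963) (nat_lit 228) (nat_lit 22473738690) (nat_lit 304) (nat_lit 9644541474) (nat_lit 92) (nat_lit 5) (nat_lit 95) (nat_lit 5) (nat_lit 96) (nat_lit 5) (nat_lit 450) (nat_lit 383) (nat_lit 187))) (XT.nd (nat_lit 78) (nat_lit 228) (nat_lit 0) (XT.lf (nat_lit 0) (nat_lit 431580261) (nat_lit 304) (nat_lit 6728643213) (nat_lit 76) (nat_lit 40201355084) (nat_lit 91) (nat_lit 5) (nat_lit 95) (nat_lit 5) (nat_lit 92) (nat_lit 5) (nat_lit 451) (nat_lit 383) (nat_lit 186)) (XT.lf (nat_lit 0) (nat_lit 10888398292) (nat_lit 304) (nat_lit 28682090563) (nat_lit 76) (nat_lit 8730675083) (nat_lit 88) (nat_lit 5) (nat_lit 92)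 (nat_lit 5) (nat_lit 89) (nat_lit 5) (nat_lit 452) (nat_lit 383) (nat_lit 185))))) (XT.nd (nat_lit 234) (nat_lit 456) (nat_lit 0) (XT.nd (nat_lit 78) (nat_lit 380) (nat_lit 0) (XT.lf (nat_lit 0) (nat_lit 21795679675) (nat_lit 304) (nat_lit 2447849578) (nat_lit 76) (nat_lit 25021305381) (nat_lit 88) (nat_lit 5) (nat_lit 92) (nat_lit 5) (nat_lit 89) (nat_lit 5) (nat_lit 453) (nat_lit 383) (nat_lit 184)) (XT.nd (nat_lit 78) (nat_lit 152) (nat_lit 0) (XT.lf (nat_lit 0) (nat_lit 25057985235) (nat_lit 228) (nat_lit 8210393815) (nat_lit 304) (nat_lit 16981890918) (nat_lit 85) (nat_lit 5) (nat_lit 88) (nat_lit 5) (nat_lit 89) (nat_lit 5) (nat_lit 454) (nat_lit 383) (nat_lit 183)) (XT.lf (nat_lit 0) (nat_lit 2131754905) (nat_lit 152) (nat_lit 43076126258) (nat_lit 228) (nat_lit 6053709033) (nat_lit 83) (nat_lit 5) (nat_lit 85) (nat_lit 5) (nat_lit 86) (nat_lit 5) (nat_lit 455) (nat_lit 383) (nat_lit 182)))) (XT.nd (nat_lit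 156) (nat_lit 152) (nat_lit 0) (XT.nd (nat_lit 78) (nat_lit 228) (nat_lit 0) (XT.lf (nat_lit 0) (nat_lit 5436359791) (nat_lit 228) (nat_lit 21641937523) (nat_lit 76) (nat_lit 25213386218) (nat_lit 82) (nat_lit 5) (nat_lit 85) (nat_lit 5) (nat_lit 83) (nat_lit 5) (nat_lit 456) (nat_lit 383) (nat_lit 181)) (XT.lf (nat_lit 0) (nat_lit 6737833516) (nat_lit 228) (nat_lit 10473823829) (nat_lit 304) (nat_lit 36137358632) (nat_lit 79) (nat_lit 5) (nat_lit 82) (nat_lit 5) (nat_lit 83) (nat_lit 5) (nat_lit 457) (nat_lit 383) (nat_lit 180))) (XT.nd (nat_lit 78) (nat_lit 152) (nat_lit 0) (XT.lf (nat_lit 0) (nat_lit 29622087900) (nat_lit 304) (nat_lit 18089082650) (nat_lit 76) (nat_lit 6718442058) (nat_lit 79) (nat_lit 5) (nat_lit 83) (nat_lit 5) (nat_lit 80) (nat_lit 5) (nat_lit 458) (nat_lit 383) (nat_lit 179)) (XT.lf (nat_lit 0) (nat_lit 11403301346) (nat_lit 152) (nat_lit 31212370291) (nat_lit 228) (nat_lit 12920630713)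 (nat_lit 77) (nat_lit 5) (nat_lit 79) (nat_lit 5) (nat_lit 80) (nat_lit 5) (nat_lit 459) (nat_lit 383) (nat_lit 178)))))) (XT.nd (nat_lit 546) (nat_lit 912) (nat_lit 0) (XT.nd (nat_lit 234) (nat_lit 380) (nat_lit 0) (XT.nd (nat_lit 78) (nat_lit 304) (nat_lit 0) (XT.lf (nat_lit 0) (nat_lit 42147109405) (nat_lit 152) (nat_lit 14032173462) (nat_lit 228) (nat_lit 491503727) (nat_lit 77) (nat_lit 5) (nat_lit 79) (nat_lit 5) (nat_lit 80) (nat_lit 5) (nat_lit 460) (nat_lit 383) (nat_lit 177)) (XT.nd (nat_lit 78) (nat_lit 0) (nat_lit 0) (XT.lf (nat_lit 0) (nat_lit 12261194129) (nat_lit 304) (nat_lit 41702091188) (nat_lit 76) (nat_lit 3866742777) (nat_lit 73) (nat_lit 5) (nat_lit 77) (nat_lit 5) (nat_lit 74) (nat_lit 5) (nat_lit 461) (nat_lit 383) (nat_lit 176)) (XT.lf (nat_lit 0) (nat_lit 25671257195) (nat_lit 304) (nat_lit 11172175488) (nat_lit 76) (nat_lit 22171928648) (nat_lit 73) (nat_lit 5) (nat_lit 77) (nat_lit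 5) (nat_lit 74) (nat_lit 5) (nat_lit 462) (nat_lit 383) (nat_lit 175)))) (XT.nd (nat_lit 156) (nat_lit 228) (nat_lit 0) (XT.nd (nat_lit 78) (nat_lit 0) (nat_lit 0) (XT.lf (nat_lit 0) (nat_lit 20673064834) (nat_lit 152) (nat_lit 19006966701) (nat_lit 228) (nat_lit 20550331112) (nat_lit 71) (nat_lit 5) (nat_lit 73) (nat_lit 5) (nat_lit 74) (nat_lit 5) (nat_lit 463) (nat_lit 383) (nat_lit 174)) (XT.lf (nat_lit 0) (nat_lit 53698741215) (nat_lit 152) (nat_lit 520861685) (nat_lit 228) (nat_lit 7258895443) (nat_lit 71) (nat_lit 5) (nat_lit 73) (nat_lit 5) (nat_lit 74) (nat_lit 5) (nat_lit 464) (nat_lit 383) (nat_lit 173))) (XT.nd (nat_lit 78) (nat_lit 0) (nat_lit 0) (XT.lf (nat_lit 0) (nat_lit 6728557340) (nat_lit 228) (nat_lit 37555320608) (nat_lit 76) (nat_lit 18465662704) (nat_lit 68) (nat_lit 5) (nat_lit 71) (nat_lit 5) (nat_lit 69) (nat_lit 5) (nat_lit 465) (nat_lit 383) (nat_lit 172)) (XT.lf (nat_lit 0) (nat_lit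 21072006000) (nat_lit 228) (nat_lit 4821151674) (nat_lit 76) (nat_lit 38160932704) (nat_lit 68) (nat_lit 5) (nat_lit 71) (nat_lit 5) (nat_lit 69) (nat_lit 5) (nat_lit 466) (nat_lit 383) (nat_lit 171))))) (XT.nd (nat_lit 312) (nat_lit 380) (nat_lit 0) (XT.nd (nat_lit 156) (nat_lit 380) (nat_lit 0) (XT.nd (nat_lit 78) (nat_lit 0) (nat_lit 0) (XT.lf (nat_lit 0) (nat_lit 29466265339) (nat_lit 152) (nat_lit 6660579132) (nat_lit 228) (nat_lit 29262499848) (nat_lit 66) (nat_lit 5) (nat_lit 68) (nat_lit 5) (nat_lit 69) (nat_lit 5) (nat_lit 467) (nat_lit 383) (nat_lit 170)) (XT.lf (nat_lit 0) (nat_lit 51806740592) (nat_lit 228) (nat_lit 2012721602) (nat_lit 76) (nat_lit 12939991614) (nat_lit 66) (nat_lit 5) (nat_lit 69) (nat_lit 5) (nat_lit 67) (nat_lit 5) (nat_lit 468) (nat_lit 383) (nat_lit 169))) (XT.nd (nat_lit 78) (nat_lit 152) (nat_lit 0) (XT.lf (nat_lit 0) (nat_lit 180228240) (nat_lit 228) (nat_lit 34661842858)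 (nat_lit 76) (nat_lit 33316966603) (nat_lit 63) (nat_lit 5) (nat_lit 66) (nat_lit 5) (nat_lit 64) (nat_lit 5) (nat_lit 469) (nat_lit 383) (nat_lit 168)) (XT.lf (nat_lit 0) (nat_lit 368942194) (nat_lit 152) (nat_lit 15119671338) (nat_lit 228) (nat_lit 54106894747) (nat_lit 61) (nat_lit 5) (nat_lit 63) (nat_lit 5) (nat_lit 64) (nat_lit 5) (nat_lit 470) (nat_lit 383) (nat_lit 167)))) (XT.nd (nat_lit 156) (nat_lit 228) (nat_lit 0) (XT.nd (nat_lit 78) (nat_lit 152) (nat_lit 0) (XT.lf (nat_lit 0) (nat_lit 31657592745) (nat_lit 228) (nat_lit 33960473340) (nat_lit 76) (nat_lit 5444966890) (nat_lit 61) (nat_lit 5) (nat_lit 64) (nat_lit 5) (nat_lit 62) (nat_lit 5) (nat_lit 471) (nat_lit 383) (nat_lit 166)) (XT.lf (nat_lit 0) (nat_lit 2254311436) (nat_lit 152) (nat_lit 46226688217) (nat_lit 228) (nat_lit 24088503271) (nat_lit 59) (nat_lit 5) (nat_lit 61) (nat_lit 5) (nat_lit 62) (nat_lit 5) (nat_lit 472) (nat_lit 383)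 (nat_lit 165))) (XT.nd (nat_lit 78) (nat_lit 228) (nat_lit 0) (XT.lf (nat_lit 0) (nat_lit 40248150500) (nat_lit 152) (nat_lit 25901905740) (nat_lit 228) (nat_lit 7960882562) (nat_lit 59) (nat_lit 5) (nat_lit 61) (nat_lit 5) (nat_lit 62) (nat_lit 5) (nat_lit 473) (nat_lit 383) (nat_lit 164)) (XT.lf (nat_lit 0) (nat_lit 3668129449) (nat_lit 152) (nat_lit 4846945711) (nat_lit 228) (nat_lit 67180048837) (nat_lit 56) (nat_lit 5) (nat_lit 58) (nat_lit 5) (nat_lit 59) (nat_lit 5) (nat_lit 474) (nat_lit 383) (nat_lit 163))))))))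
noncomputable def xc197 : XT := (XT.nd (nat_lit 47580) (nat_lit 0) (nat_lit 6536) (XT.nd (nat_lit 46488) (nat_lit 0) (nat_lit 14288) (XT.nd (nat_lit 546) (nat_lit 0) (nat_lit 0) (XT.nd (nat_lit 234) (nat_lit 304) (nat_lit 0) (XT.nd (nat_lit 78) (nat_lit 152) (nat_lit 0) (XT.lf (nat_lit 0) (nat_lit 25830573062) (nat_lit 228) (nat_lit 34545017613) (nat_lit 76) (nat_lit 16933721669) (nat_lit 56) (nat_lit 5) (nat_lit 59) (nat_lit 5) (nat_lit 57) (nat_lit 5) (nat_lit 475) (nat_lit 383) (nat_lit 162)) (XT.nd (nat_lit 78) (nat_lit 0) (nat_lit 0) (XT.lf (nat_lit 0) (nat_lit 4089847789) (nat_lit 152) (nat_lit 39661109047) (nat_lit 228) (nat_lit 35218407103) (nat_lit 54) (nat_lit 5) (nat_lit 56) (nat_lit 5) (nat_lit 57) (nat_lit 5) (nat_lit 476) (nat_lit 383) (nat_lit 161)) (XT.lf (nat_lit 0) (nat_lit 44588542432) (nat_lit 152) (nat_lit 17967386472) (nat_lit 228) (nat_lit 18112879096) (nat_lit 54) (nat_lit 5) (nat_lit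 56) (nat_lit 5) (nat_lit 57) (nat_lit 5) (nat_lit 477) (nat_lit 383) (nat_lit 160)))) (XT.nd (nat_lit 156) (nat_lit 152) (nat_lit 0) (XT.nd (nat_lit 78) (nat_lit 76) (nat_lit 0) (XT.lf (nat_lit 0) (nat_lit 3913963830) (nat_lit 76) (nat_lit 78088965599) (nat_lit 152) (nat_lit 413969787) (nat_lit 53) (nat_lit 5) (nat_lit 54) (nat_lit 5) (nat_lit 55) (nat_lit 4) (nat_lit 478) (nat_lit 383) (nat_lit 159)) (XT.lf (nat_lit 0) (nat_lit 18012280129) (nat_lit 152) (nat_lit 38714934850) (nat_lit 76) (nat_lit 27468759893) (nat_lit 52) (nat_lit 5) (nat_lit 54) (nat_lit 5) (nat_lit 53) (nat_lit 5) (nat_lit 479) (nat_lit 383) (nat_lit 158))) (XT.nd (nat_lit 78) (nat_lit 0) (nat_lit 0) (XT.lf (nat_lit 0) (nat_lit 2304367259) (nat_lit 152) (nat_lit 34699017454) (nat_lit 228) (nat_lit 49024303692) (nat_lit 50) (nat_lit 5) (nat_lit 52) (nat_lit 5) (nat_lit 53) (nat_lit 5) (nat_lit 480) (nat_lit 383) (nat_lit 157)) (XT.lf (nat_lit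 0) (nat_lit 45344691837) (nat_lit 152) (nat_lit 11608732939) (nat_lit 228) (nat_lit 30949252689) (nat_lit 50) (nat_lit 5) (nat_lit 52) (nat_lit 5) (nat_lit 53) (nat_lit 5) (nat_lit 481) (nat_lit 383) (nat_lit 156))))) (XT.nd (nat_lit 45630) (nat_lit 0) (nat_lit 16188) (XT.nd (nat_lit 45474) (nat_lit 0) (nat_lit 16188) (XT.lf (nat_lit 0) (nat_lit 77617287275) (nat_lit 228) (nat_lit 277836385) (nat_lit 76) (nat_lit 11935333082) (nat_lit 50) (nat_lit 5) (nat_lit 53) (nat_lit 5) (nat_lit 51) (nat_lit 4) (nat_lit 482) (nat_lit 383) (nat_lit 155)) (XT.nd (nat_lit 78) (nat_lit 0) (nat_lit 0) (XT.lf (nat_lit 0) (nat_lit 2986009081) (nat_lit 0) (nat_lit 2986009081) (nat_lit 1140) (nat_lit 1598634046) (nat_lit 263) (nat_lit 5) (nat_lit 263) (nat_lit 3) (nat_lit 278) (nat_lit 3) (nat_lit 384) (nat_lit 384) (nat_lit 252)) (XT.lf (nat_lit 0) (nat_lit 12419205982) (nat_lit 1140) (nat_lit 1877234794) (nat_lit 1216) (nat_lit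 1062977449) (nat_lit 263) (nat_lit 5) (nat_lit 278) (nat_lit 3) (nat_lit 279) (nat_lit 5) (nat_lit 385) (nat_lit 384) (nat_lit 251)))) (XT.nd (nat_lit 156) (nat_lit 0) (nat_lit 76) (XT.nd (nat_lit 78) (nat_lit 0) (nat_lit 0) (XT.lf (nat_lit 76) (nat_lit 5679307378) (nat_lit 0) (nat_lit 7331953097) (nat_lit 1216) (nat_lit 2569740977) (nat_lit 264) (nat_lit 5) (nat_lit 263) (nat_lit 5) (nat_lit 279) (nat_lit 5) (nat_lit 386) (nat_lit 384) (nat_lit 250)) (XT.lf (nat_lit 76) (nat_lit 13495120092) (nat_lit 0) (nat_lit 134087068) (nat_lit 1216) (nat_lit 2179785854) (nat_lit 264) (nat_lit 5) (nat_lit 263) (nat_lit 5) (nat_lit 279) (nat_lit 5) (nat_lit 387) (nat_lit 384) (nat_lit 249))) (XT.nd (nat_lit 78) (nat_lit 0) (nat_lit 0) (XT.lf (nat_lit 76) (nat_lit 5533482997) (nat_lit 0) (nat_lit 8844912929) (nat_lit 1216) (nat_lit 1662051901) (nat_lit 265) (nat_lit 5) (nat_lit 264) (nat_lit 5) (nat_lit 280) (nat_lit 5) (nat_lit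 388) (nat_lit 384) (nat_lit 248)) (XT.lf (nat_lit 76) (nat_lit 13656296540) (nat_lit 0) (nat_lit 1508226083) (nat_lit 1216) (nat_lit 1113894276) (nat_lit 265) (nat_lit 5) (nat_lit 264) (nat_lit 5) (nat_lit 280) (nat_lit 5) (nat_lit 389) (nat_lit 384) (nat_lit 247)))))) (XT.nd (nat_lit 546) (nat_lit 836) (nat_lit 0) (XT.nd (nat_lit 234) (nat_lit 0) (nat_lit 76) (XT.nd (nat_lit 78) (nat_lit 1216) (nat_lit 0) (XT.lf (nat_lit 76) (nat_lit 5543086405) (nat_lit 0) (nat_lit 10532691422) (nat_lit 1216) (nat_lit 444705226) (nat_lit 266) (nat_lit 5) (nat_lit 265) (nat_lit 5) (nat_lit 281) (nat_lit 5) (nat_lit 390) (nat_lit 384) (nat_lit 246)) (XT.nd (nat_lit 78) (nat_lit 0) (nat_lit 76) (XT.lf (nat_lit 0) (nat_lit 271708341) (nat_lit 1216) (nat_lit 2785906017) (nat_lit 1292) (nat_lit 13711172778) (nat_lit 249) (nat_lit 5) (nat_lit 265) (nat_lit 5) (nat_lit 266) (nat_lit 5) (nat_lit 391) (nat_lit 384) (nat_lit 245)) (XT.lf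 (nat_lit 0) (nat_lit 1091751542) (nat_lit 1216) (nat_lit 11315249268) (nat_lit 1292) (nat_lit 4614679161) (nat_lit 250) (nat_lit 5) (nat_lit 266) (nat_lit 5) (nat_lit 267) (nat_lit 5) (nat_lit 392) (nat_lit 384) (nat_lit 244)))) (XT.nd (nat_lit 156) (nat_lit 0) (nat_lit 76) (XT.nd (nat_lit 78) (nat_lit 0) (nat_lit 76) (XT.lf (nat_lit 0) (nat_lit 1985859396) (nat_lit 1216) (nat_lit 2807631761) (nat_lit 1292) (nat_lit 12487188401) (nat_lit 250) (nat_lit 5) (nat_lit 266) (nat_lit 5) (nat_lit 267) (nat_lit 5) (nat_lit 393) (nat_lit 384) (nat_lit 243)) (XT.lf (nat_lit 0) (nat_lit 2986068721) (nat_lit 1216) (nat_lit 11508491254) (nat_lit 1292) (nat_lit 3050514562) (nat_lit 251) (nat_lit 5) (nat_lit 267) (nat_lit 5) (nat_lit 268) (nat_lit 5) (nat_lit 394) (nat_lit 384) (nat_lit 242))) (XT.nd (nat_lit 78) (nat_lit 0) (nat_lit 76) (XT.lf (nat_lit 0) (nat_lit 4083651096) (nat_lit 1216) (nat_lit 2667066748) (nat_lit 1292)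 (nat_lit 11064666163) (nat_lit 251) (nat_lit 5) (nat_lit 267) (nat_lit 5) (nat_lit 268) (nat_lit 5) (nat_lit 395) (nat_lit 384) (nat_lit 241)) (XT.lf (nat_lit 0) (nat_lit 5281186540) (nat_lit 1216) (nat_lit 11543222600) (nat_lit 1292) (nat_lit 1267386392) (nat_lit 252) (nat_lit 5) (nat_lit 268) (nat_lit 5) (nat_lit 269) (nat_lit 5) (nat_lit 396) (nat_lit 384) (nat_lit 240))))) (XT.nd (nat_lit 234) (nat_lit 1064) (nat_lit 0) (XT.nd (nat_lit 78) (nat_lit 0) (nat_lit 0) (XT.lf (nat_lit 0) (nat_lit 6600421076) (nat_lit 1216) (nat_lit 2353918798) (nat_lit 1292) (nat_lit 9419589771) (nat_lit 252) (nat_lit 5) (nat_lit 268) (nat_lit 5) (nat_lit 269) (nat_lit 5) (nat_lit 397) (nat_lit 384) (nat_lit 239)) (XT.nd (nat_lit 78) (nat_lit 0) (nat_lit 76) (XT.lf (nat_lit 76) (nat_lit 7246175754) (nat_lit 0) (nat_lit 774687722) (nat_lit 1292) (nat_lit 10641818716) (nat_lit 253) (nat_lit 5) (nat_lit 252) (nat_lit 5) (nat_lit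 269) (nat_lit 5) (nat_lit 398) (nat_lit 384) (nat_lit 238)) (XT.lf (nat_lit 0) (nat_lit 9573629969) (nat_lit 1216) (nat_lit 1857113336) (nat_lit 1292) (nat_lit 7526665924) (nat_lit 253) (nat_lit 5) (nat_lit 269) (nat_lit 5) (nat_lit 270) (nat_lit 5) (nat_lit 399) (nat_lit 384) (nat_lit 237)))) (XT.nd (nat_lit 156) (nat_lit 1140) (nat_lit 0) (XT.nd (nat_lit 78) (nat_lit 0) (nat_lit 76) (XT.lf (nat_lit 76) (nat_lit 8133820189) (nat_lit 0) (nat_lit 3117410510) (nat_lit 1292) (nat_lit 8007402984) (nat_lit 254) (nat_lit 5) (nat_lit 253) (nat_lit 5) (nat_lit 270) (nat_lit 5) (nat_lit 400) (nat_lit 384) (nat_lit 236)) (XT.lf (nat_lit 0) (nat_lit 13043009246) (nat_lit 1216) (nat_lit 1164778703) (nat_lit 76) (nat_lit 5359194480) (nat_lit 254) (nat_lit 5) (nat_lit 270) (nat_lit 5) (nat_lit 255) (nat_lit 5) (nat_lit 401) (nat_lit 384) (nat_lit 235))) (XT.nd (nat_lit 78) (nat_lit 0) (nat_lit 0) (XT.lf (nat_lit 0) (nat_lit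 9237162667) (nat_lit 1216) (nat_lit 5763820829) (nat_lit 1292) (nat_lit 4880227834) (nat_lit 238) (nat_lit 5) (nat_lit 254) (nat_lit 5) (nat_lit 255) (nat_lit 5) (nat_lit 402) (nat_lit 384) (nat_lit 234)) (XT.lf (nat_lit 0) (nat_lit 17050715880) (nat_lit 1292) (nat_lit 264230631) (nat_lit 76) (nat_lit 2888932895) (nat_lit 238) (nat_lit 5) (nat_lit 255) (nat_lit 5) (nat_lit 239) (nat_lit 5) (nat_lit 403) (nat_lit 384) (nat_lit 233))))))) (XT.nd (nat_lit 1092) (nat_lit 3268) (nat_lit 0) (XT.nd (nat_lit 546) (nat_lit 2052) (nat_lit 0) (XT.nd (nat_lit 234) (nat_lit 1140) (nat_lit 0) (XT.nd (nat_lit 78) (nat_lit 684) (nat_lit 0) (XT.lf (nat_lit 0) (nat_lit 10569918408) (nat_lit 608) (nat_lit 8743841656) (nat_lit 684) (nat_lit 1217915660) (nat_lit 230) (nat_lit 5) (nat_lit 238) (nat_lit 5) (nat_lit 239) (nat_lit 5) (nat_lit 404) (nat_lit 384) (nat_lit 232)) (XT.nd (nat_lit 78) (nat_lit 0) (nat_lit 0) (XT.lf (nat_lit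 0) (nat_lit 765518860) (nat_lit 684) (nat_lit 20001536784) (nat_lit 76) (nat_lit 101871519) (nat_lit 221) (nat_lit 5) (nat_lit 230) (nat_lit 5) (nat_lit 222) (nat_lit 5) (nat_lit 405) (nat_lit 384) (nat_lit 231)) (XT.lf (nat_lit 0) (nat_lit 2965500010) (nat_lit 684) (nat_lit 9093759705) (nat_lit 76) (nat_lit 9151231553) (nat_lit 221) (nat_lit 5) (nat_lit 230) (nat_lit 5) (nat_lit 222) (nat_lit 5) (nat_lit 406) (nat_lit 384) (nat_lit 230)))) (XT.nd (nat_lit 156) (nat_lit 532) (nat_lit 0) (XT.nd (nat_lit 78) (nat_lit 0) (nat_lit 0) (XT.lf (nat_lit 0) (nat_lit 2177456322) (nat_lit 608) (nat_lit 3068508328) (nat_lit 684) (nat_lit 16315905605) (nat_lit 213) (nat_lit 5) (nat_lit 221) (nat_lit 5) (nat_lit 222) (nat_lit 5) (nat_lit 407) (nat_lit 384) (nat_lit 229)) (XT.lf (nat_lit 0) (nat_lit 7740784433) (nat_lit 684) (nat_lit 8014659582) (nat_lit 76) (nat_lit 6163970771) (nat_lit 213) (nat_lit 5) (nat_lit 222) (nat_lit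 5) (nat_lit 214) (nat_lit 5) (nat_lit 408) (nat_lit 384) (nat_lit 228))) (XT.nd (nat_lit 78) (nat_lit 0) (nat_lit 0) (XT.lf (nat_lit 0) (nat_lit 3732410084) (nat_lit 532) (nat_lit 6638164125) (nat_lit 608) (nat_lit 11915310021) (nat_lit 206) (nat_lit 5) (nat_lit 213) (nat_lit 5) (nat_lit 214) (nat_lit 5) (nat_lit 409) (nat_lit 384) (nat_lit 227)) (XT.lf (nat_lit 0) (nat_lit 13181435164) (nat_lit 608) (nat_lit 6698345577) (nat_lit 76) (nat_lit 2780503962) (nat_lit 206) (nat_lit 5) (nat_lit 214) (nat_lit 5) (nat_lit 207) (nat_lit 5) (nat_lit 410) (nat_lit 384) (nat_lit 226))))) (XT.nd (nat_lit 234) (nat_lit 1064) (nat_lit 0) (XT.nd (nat_lit 78) (nat_lit 456) (nat_lit 0) (XT.lf (nat_lit 0) (nat_lit 5548825971) (nat_lit 532) (nat_lit 10641018136) (nat_lit 608) (nat_lit 6852678625) (nat_lit 199) (nat_lit 5) (nat_lit 206) (nat_lit 5) (nat_lit 207) (nat_lit 5) (nat_lit 411) (nat_lit 384) (nat_lit 225)) (XT.nd (nat_lit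 78) (nat_lit 456) (nat_lit 0) (XT.lf (nat_lit 0) (nat_lit 18294618555) (nat_lit 532) (nat_lit 1055797425) (nat_lit 608) (nat_lit 4083956740) (nat_lit 199) (nat_lit 5) (nat_lit 206) (nat_lit 5) (nat_lit 207) (nat_lit 5) (nat_lit 412) (nat_lit 384) (nat_lit 224)) (XT.lf (nat_lit 0) (nat_lit 7643105706) (nat_lit 456) (nat_lit 15115357609) (nat_lit 532) (nat_lit 1074937223) (nat_lit 193) (nat_lit 5) (nat_lit 199) (nat_lit 5) (nat_lit 200) (nat_lit 5) (nat_lit 413) (nat_lit 384) (nat_lit 223)))) (XT.nd (nat_lit 156) (nat_lit 456) (nat_lit 0) (XT.nd (nat_lit 78) (nat_lit 532) (nat_lit 0) (XT.lf (nat_lit 0) (nat_lit 2042201192) (nat_lit 532) (nat_lit 3364600863) (nat_lit 76) (nat_lit 18835294793) (nat_lit 192) (nat_lit 5) (nat_lit 199) (nat_lit 5) (nat_lit 193) (nat_lit 5) (nat_lit 414) (nat_lit 384) (nat_lit 222)) (XT.lf (nat_lit 0) (nat_lit 5367461017) (nat_lit 608) (nat_lit 14680332880) (nat_lit 76) (nat_lit 4610856391)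 (nat_lit 185) (nat_lit 5) (nat_lit 193) (nat_lit 5) (nat_lit 186) (nat_lit 5) (nat_lit 415) (nat_lit 384) (nat_lit 221))) (XT.nd (nat_lit 78) (nat_lit 456) (nat_lit 0) (XT.lf (nat_lit 0) (nat_lit 8875059328) (nat_lit 608) (nat_lit 1356115224) (nat_lit 76) (nat_lit 14854050203) (nat_lit 185) (nat_lit 5) (nat_lit 193) (nat_lit 5) (nat_lit 186) (nat_lit 5) (nat_lit 416) (nat_lit 384) (nat_lit 220)) (XT.lf (nat_lit 0) (nat_lit 12604008679) (nat_lit 532) (nat_lit 12913181108) (nat_lit 76) (nat_lit 3924772) (nat_lit 179) (nat_lit 5) (nat_lit 186) (nat_lit 5) (nat_lit 180) (nat_lit 5) (nat_lit 417) (nat_lit 384) (nat_lit 219)))))) (XT.nd (nat_lit 546) (nat_lit 1520) (nat_lit 0) (XT.nd (nat_lit 234) (nat_lit 912) (nat_lit 0) (XT.nd (nat_lit 78) (nat_lit 380) (nat_lit 0) (XT.lf (nat_lit 0) (nat_lit 960368602) (nat_lit 456) (nat_lit 15603792175) (nat_lit 532) (nat_lit 9402341990) (nat_lit 173) (nat_lit 5) (nat_lit 179)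 (nat_lit 5) (nat_lit 180) (nat_lit 5) (nat_lit 418) (nat_lit 384) (nat_lit 218)) (XT.nd (nat_lit 78) (nat_lit 380) (nat_lit 0) (XT.lf (nat_lit 0) (nat_lit 15508921191) (nat_lit 456) (nat_lit 5259657789) (nat_lit 532) (nat_lit 5652911486) (nat_lit 173) (nat_lit 5) (nat_lit 179) (nat_lit 5) (nat_lit 180) (nat_lit 5) (nat_lit 419) (nat_lit 384) (nat_lit 217)) (XT.lf (nat_lit 0) (nat_lit 3616642852) (nat_lit 380) (nat_lit 21564308792) (nat_lit 456) (nat_lit 1706723135) (nat_lit 168) (nat_lit 5) (nat_lit 173) (nat_lit 5) (nat_lit 174) (nat_lit 5) (nat_lit 420) (nat_lit 384) (nat_lit 216)))) (XT.nd (nat_lit 156) (nat_lit 380) (nat_lit 0) (XT.nd (nat_lit 78) (nat_lit 456) (nat_lit 0) (XT.lf (nat_lit 0) (nat_lit 2470437185) (nat_lit 456) (nat_lit 8640856519) (nat_lit 76) (nat_lit 16251114615) (nat_lit 167) (nat_lit 5) (nat_lit 173) (nat_lit 5) (nat_lit 168) (nat_lit 5) (nat_lit 421) (nat_lit 384) (nat_lit 215)) (XT.lf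 (nat_lit 0) (nat_lit 6533067730) (nat_lit 456) (nat_lit 263713863) (nat_lit 532) (nat_lit 21052351646) (nat_lit 161) (nat_lit 5) (nat_lit 167) (nat_lit 5) (nat_lit 168) (nat_lit 5) (nat_lit 422) (nat_lit 384) (nat_lit 214))) (XT.nd (nat_lit 78) (nat_lit 380) (nat_lit 0) (XT.lf (nat_lit 0) (nat_lit 11441344815) (nat_lit 532) (nat_lit 6120046644) (nat_lit 76) (nat_lit 10783417050) (nat_lit 161) (nat_lit 5) (nat_lit 168) (nat_lit 5) (nat_lit 162) (nat_lit 5) (nat_lit 423) (nat_lit 384) (nat_lit 213)) (XT.lf (nat_lit 0) (nat_lit 9713136854) (nat_lit 380) (nat_lit 6603662527) (nat_lit 456) (nat_lit 12535809438) (nat_lit 156) (nat_lit 5) (nat_lit 161) (nat_lit 5) (nat_lit 162) (nat_lit 5) (nat_lit 424) (nat_lit 384) (nat_lit 212))))) (XT.nd (nat_lit 312) (nat_lit 684) (nat_lit 0) (XT.nd (nat_lit 156) (nat_lit 456) (nat_lit 0) (XT.nd (nat_lit 78) (nat_lit 380) (nat_lit 0) (XT.lf (nat_lit 0) (nat_lit 21441581948) (nat_lit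 456) (nat_lit 3278351958) (nat_lit 76) (nat_lit 4652618676) (nat_lit 156) (nat_lit 5) (nat_lit 162) (nat_lit 5) (nat_lit 157) (nat_lit 5) (nat_lit 425) (nat_lit 384) (nat_lit 211)) (XT.lf (nat_lit 0) (nat_lit 13246157505) (nat_lit 380) (nat_lit 13662428582) (nat_lit 456) (nat_lit 2993855561) (nat_lit 151) (nat_lit 5) (nat_lit 156) (nat_lit 5) (nat_lit 157) (nat_lit 5) (nat_lit 426) (nat_lit 384) (nat_lit 210))) (XT.nd (nat_lit 78) (nat_lit 380) (nat_lit 0) (XT.lf (nat_lit 0) (nat_lit 2079788672) (nat_lit 456) (nat_lit 139632555) (nat_lit 76) (nat_lit 28227327532) (nat_lit 150) (nat_lit 5) (nat_lit 156) (nat_lit 5) (nat_lit 151) (nat_lit 5) (nat_lit 427) (nat_lit 384) (nat_lit 209)) (XT.lf (nat_lit 0) (nat_lit 7500335456) (nat_lit 456) (nat_lit 13922980070) (nat_lit 76) (nat_lit 9575535510) (nat_lit 145) (nat_lit 5) (nat_lit 151) (nat_lit 5) (nat_lit 146) (nat_lit 5) (nat_lit 428) (nat_lit 384) (nat_lit 208))))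 (XT.nd (nat_lit 156) (nat_lit 304) (nat_lit 0) (XT.nd (nat_lit 78) (nat_lit 0) (nat_lit 0) (XT.lf (nat_lit 0) (nat_lit 3279773903) (nat_lit 380) (nat_lit 9854620715) (nat_lit 456) (nat_lit 18431596071) (nat_lit 140) (nat_lit 5) (nat_lit 145) (nat_lit 5) (nat_lit 146) (nat_lit 5) (nat_lit 429) (nat_lit 384) (nat_lit 207)) (XT.lf (nat_lit 0) (nat_lit 19095297038) (nat_lit 456) (nat_lit 10888631956) (nat_lit 76) (nat_lit 2161482043) (nat_lit 140) (nat_lit 5) (nat_lit 146) (nat_lit 5) (nat_lit 141) (nat_lit 5) (nat_lit 430) (nat_lit 384) (nat_lit 206))) (XT.nd (nat_lit 78) (nat_lit 0) (nat_lit 0) (XT.lf (nat_lit 0) (nat_lit 7065832190) (nat_lit 304) (nat_lit 18330823579) (nat_lit 380) (nat_lit 7340710466) (nat_lit 136) (nat_lit 5) (nat_lit 140) (nat_lit 5) (nat_lit 141) (nat_lit 5) (nat_lit 431) (nat_lit 384) (nat_lit 205)) (XT.lf (nat_lit 0) (nat_lit 25776831504) (nat_lit 304) (nat_lit 6216376729) (nat_lit 380)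 (nat_lit 1350688353) (nat_lit 136) (nat_lit 5) (nat_lit 140) (nat_lit 5) (nat_lit 141) (nat_lit 5) (nat_lit 432) (nat_lit 384) (nat_lit 204))))))))
noncomputable def xc198 : XT := (XT.nd (nat_lit 2184) (nat_lit 2052) (nat_lit 0) (XT.nd (nat_lit 1092) (nat_lit 1900) (nat_lit 0) (XT.nd (nat_lit 546) (nat_lit 1140) (nat_lit 0) (XT.nd (nat_lit 234) (nat_lit 684) (nat_lit 0) (XT.nd (nat_lit 78) (nat_lit 304) (nat_lit 0) (XT.lf (nat_lit 0) (nat_lit 4891101537) (nat_lit 456) (nat_lit 22777319184) (nat_lit 76) (nat_lit 6293830327) (nat_lit 130) (nat_lit 5) (nat_lit 136) (nat_lit 5) (nat_lit 131) (nat_lit 5) (nat_lit 433) (nat_lit 384) (nat_lit 203)) (XT.nd (nat_lit 78) (nat_lit 304) (nat_lit 0) (XT.lf (nat_lit 0) (nat_lit 11428031624) (nat_lit 456) (nat_lit 4023206716) (nat_lit 76) (nat_lit 19143466583) (nat_lit 130) (nat_lit 5) (nat_lit 136) (nat_lit 5) (nat_lit 131) (nat_lit 5) (nat_lit 434) (nat_lit 384) (nat_lit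 202)) (XT.lf (nat_lit 0) (nat_lit 15592680933) (nat_lit 304) (nat_lit 2714698986) (nat_lit 380) (nat_lit 16934364150) (nat_lit 126) (nat_lit 5) (nat_lit 130) (nat_lit 5) (nat_lit 131) (nat_lit 5) (nat_lit 435) (nat_lit 384) (nat_lit 201)))) (XT.nd (nat_lit 156) (nat_lit 380) (nat_lit 0) (XT.nd (nat_lit 78) (nat_lit 304) (nat_lit 0) (XT.lf (nat_lit 0) (nat_lit 25530610902) (nat_lit 380) (nat_lit 133028908) (nat_lit 76) (nat_lit 10240430446) (nat_lit 126) (nat_lit 5) (nat_lit 131) (nat_lit 5) (nat_lit 127) (nat_lit 5) (nat_lit 436) (nat_lit 384) (nat_lit 200)) (XT.lf (nat_lit 0) (nat_lit 20333376746) (nat_lit 304) (nat_lit 12856064604) (nat_lit 380) (nat_lit 3390258712) (nat_lit 122) (nat_lit 5) (nat_lit 126) (nat_lit 5) (nat_lit 127) (nat_lit 5) (nat_lit 437) (nat_lit 384) (nat_lit 199))) (XT.nd (nat_lit 78) (nat_lit 0) (nat_lit 0) (XT.lf (nat_lit 0) (nat_lit 3770355513) (nat_lit 380) (nat_lit 33096409178) (nat_lit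 76) (nat_lit 406474881) (nat_lit 117) (nat_lit 5) (nat_lit 122) (nat_lit 5) (nat_lit 118) (nat_lit 5) (nat_lit 438) (nat_lit 384) (nat_lit 198)) (XT.lf (nat_lit 0) (nat_lit 11367236911) (nat_lit 380) (nat_lit 12604495575) (nat_lit 76) (nat_lit 14006158919) (nat_lit 117) (nat_lit 5) (nat_lit 122) (nat_lit 5) (nat_lit 118) (nat_lit 5) (nat_lit 439) (nat_lit 384) (nat_lit 197))))) (XT.nd (nat_lit 234) (nat_lit 608) (nat_lit 0) (XT.nd (nat_lit 78) (nat_lit 228) (nat_lit 0) (XT.lf (nat_lit 0) (nat_lit 8666369657) (nat_lit 304) (nat_lit 10605681438) (nat_lit 380) (nat_lit 19429231714) (nat_lit 113) (nat_lit 5) (nat_lit 117) (nat_lit 5) (nat_lit 118) (nat_lit 5) (nat_lit 440) (nat_lit 384) (nat_lit 196)) (XT.nd (nat_lit 78) (nat_lit 228) (nat_lit 0) (XT.lf (nat_lit 0) (nat_lit 27569692316) (nat_lit 380) (nat_lit 8645417560) (nat_lit 76) (nat_lit 3226596384) (nat_lit 113) (nat_lit 5) (nat_lit 118) (nat_lit 5) (nat_lit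 114) (nat_lit 5) (nat_lit 441) (nat_lit 384) (nat_lit 195)) (XT.lf (nat_lit 0) (nat_lit 13540166159) (nat_lit 228) (nat_lit 22808107174) (nat_lit 304) (nat_lit 3849109526) (nat_lit 110) (nat_lit 5) (nat_lit 113) (nat_lit 5) (nat_lit 114) (nat_lit 5) (nat_lit 442) (nat_lit 384) (nat_lit 194)))) (XT.nd (nat_lit 156) (nat_lit 228) (nat_lit 0) (XT.nd (nat_lit 78) (nat_lit 304) (nat_lit 0) (XT.lf (nat_lit 0) (nat_lit 4413367753) (nat_lit 304) (nat_lit 4452693247) (nat_lit 76) (nat_lit 32105845586) (nat_lit 109) (nat_lit 5) (nat_lit 113) (nat_lit 5) (nat_lit 110) (nat_lit 5) (nat_lit 443) (nat_lit 384) (nat_lit 193)) (XT.lf (nat_lit 0) (nat_lit 13078417553) (nat_lit 380) (nat_lit 23077294732) (nat_lit 76) (nat_lit 5605849292) (nat_lit 105) (nat_lit 5) (nat_lit 110) (nat_lit 5) (nat_lit 106) (nat_lit 5) (nat_lit 444) (nat_lit 384) (nat_lit 192))) (XT.nd (nat_lit 78) (nat_lit 228) (nat_lit 0) (XT.lf (nat_lit 0) (nat_lit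 22133592161) (nat_lit 380) (nat_lit 59885770) (nat_lit 76) (nat_lit 20377523762) (nat_lit 105) (nat_lit 5) (nat_lit 110) (nat_lit 5) (nat_lit 106) (nat_lit 5) (nat_lit 445) (nat_lit 384) (nat_lit 191)) (XT.lf (nat_lit 0) (nat_lit 24114022053) (nat_lit 228) (nat_lit 7575268471) (nat_lit 304) (nat_lit 11708569090) (nat_lit 102) (nat_lit 5) (nat_lit 105) (nat_lit 5) (nat_lit 106) (nat_lit 5) (nat_lit 446) (nat_lit 384) (nat_lit 190)))))) (XT.nd (nat_lit 546) (nat_lit 836) (nat_lit 0) (XT.nd (nat_lit 234) (nat_lit 532) (nat_lit 0) (XT.nd (nat_lit 78) (nat_lit 304) (nat_lit 0) (XT.lf (nat_lit 0) (nat_lit 4781652735) (nat_lit 228) (nat_lit 36865594429) (nat_lit 304) (nat_lit 2598809126) (nat_lit 99) (nat_lit 5) (nat_lit 102) (nat_lit 5) (nat_lit 103) (nat_lit 5) (nat_lit 447) (nat_lit 384) (nat_lit 189)) (XT.nd (nat_lit 78) (nat_lit 228) (nat_lit 0) (XT.lf (nat_lit 0) (nat_lit 6920625862) (nat_lit 304) (nat_lit 15296209003)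 (nat_lit 76) (nat_lit 22892845155) (nat_lit 98) (nat_lit 5) (nat_lit 102) (nat_lit 5) (nat_lit 99) (nat_lit 5) (nat_lit 448) (nat_lit 384) (nat_lit 188)) (XT.lf (nat_lit 0) (nat_lit 9757218949) (nat_lit 228) (nat_lit 7007175701) (nat_lit 304) (nat_lit 29231316944) (nat_lit 95) (nat_lit 5) (nat_lit 98) (nat_lit 5) (nat_lit 99) (nat_lit 5) (nat_lit 449) (nat_lit 384) (nat_lit 187)))) (XT.nd (nat_lit 156) (nat_lit 304) (nat_lit 0) (XT.nd (nat_lit 78) (nat_lit 228) (nat_lit 0) (XT.lf (nat_lit 0) (nat_lit 27139915971) (nat_lit 304) (nat_lit 11117149810) (nat_lit 76) (nat_lit 8644165716) (nat_lit 95) (nat_lit 5) (nat_lit 99) (nat_lit 5) (nat_lit 96) (nat_lit 5) (nat_lit 450) (nat_lit 384) (nat_lit 186)) (XT.lf (nat_lit 0) (nat_lit 14976324725) (nat_lit 228) (nat_lit 23061013898) (nat_lit 304) (nat_lit 9790259854) (nat_lit 92) (nat_lit 5) (nat_lit 95) (nat_lit 5) (nat_lit 96) (nat_lit 5) (nat_lit 451) (nat_lit 384)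 (nat_lit 185))) (XT.nd (nat_lit 78) (nat_lit 228) (nat_lit 0) (XT.lf (nat_lit 0) (nat_lit 581241613) (nat_lit 304) (nat_lit 6708003213) (nat_lit 76) (nat_lit 41489053380) (nat_lit 91) (nat_lit 5) (nat_lit 95) (nat_lit 5) (nat_lit 92) (nat_lit 5) (nat_lit 452) (nat_lit 384) (nat_lit 184)) (XT.lf (nat_lit 0) (nat_lit 11350721628) (nat_lit 304) (nat_lit 29318985903) (nat_lit 76) (nat_lit 9076395660) (nat_lit 88) (nat_lit 5) (nat_lit 92) (nat_lit 5) (nat_lit 89) (nat_lit 5) (nat_lit 453) (nat_lit 384) (nat_lit 183))))) (XT.nd (nat_lit 234) (nat_lit 456) (nat_lit 0) (XT.nd (nat_lit 78) (nat_lit 380) (nat_lit 0) (XT.lf (nat_lit 0) (nat_lit 22581269859) (nat_lit 304) (nat_lit 2304229359) (nat_lit 76) (nat_lit 25853304080) (nat_lit 88) (nat_lit 5) (nat_lit 92) (nat_lit 5) (nat_lit 89) (nat_lit 5) (nat_lit 454) (nat_lit 384) (nat_lit 182)) (XT.nd (nat_lit 78) (nat_lit 152) (nat_lit 0) (XT.lf (nat_lit 0) (nat_lit 26024652501)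 (nat_lit 228) (nat_lit 8371727231) (nat_lit 304) (nat_lit 17357475796) (nat_lit 85) (nat_lit 5) (nat_lit 88) (nat_lit 5) (nat_lit 89) (nat_lit 5) (nat_lit 455) (nat_lit 384) (nat_lit 181)) (XT.lf (nat_lit 0) (nat_lit 2411603353) (nat_lit 152) (nat_lit 44281547019) (nat_lit 228) (nat_lit 6102393188) (nat_lit 83) (nat_lit 5) (nat_lit 85) (nat_lit 5) (nat_lit 86) (nat_lit 5) (nat_lit 456) (nat_lit 384) (nat_lit 180)))) (XT.nd (nat_lit 156) (nat_lit 152) (nat_lit 0) (XT.nd (nat_lit 78) (nat_lit 228) (nat_lit 0) (XT.lf (nat_lit 0) (nat_lit 5725987701) (nat_lit 228) (nat_lit 22079047720) (nat_lit 76) (nat_lit 26051580486) (nat_lit 82) (nat_lit 5) (nat_lit 85) (nat_lit 5) (nat_lit 83) (nat_lit 5) (nat_lit 457) (nat_lit 384) (nat_lit 179)) (XT.lf (nat_lit 0) (nat_lit 7150036569) (nat_lit 228) (nat_lit 10702841368) (nat_lit 304) (nat_lit 37092841017) (nat_lit 79) (nat_lit 5) (nat_lit 82) (nat_lit 5) (nat_lit 83) (nat_lit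 5) (nat_lit 458) (nat_lit 384) (nat_lit 178))) (XT.nd (nat_lit 78) (nat_lit 152) (nat_lit 0) (XT.lf (nat_lit 0) (nat_lit 30632779506) (nat_lit 304) (nat_lit 18424942913) (nat_lit 76) (nat_lit 7001096943) (nat_lit 79) (nat_lit 5) (nat_lit 83) (nat_lit 5) (nat_lit 80) (nat_lit 5) (nat_lit 459) (nat_lit 384) (nat_lit 177)) (XT.lf (nat_lit 0) (nat_lit 11950185032) (nat_lit 152) (nat_lit 32064399997) (nat_lit 228) (nat_lit 13184172945) (nat_lit 77) (nat_lit 5) (nat_lit 79) (nat_lit 5) (nat_lit 80) (nat_lit 5) (nat_lit 460) (nat_lit 384) (nat_lit 176))))))) (XT.nd (nat_lit 1092) (nat_lit 684) (nat_lit 0) (XT.nd (nat_lit 546) (nat_lit 684) (nat_lit 0) (XT.nd (nat_lit 234) (nat_lit 380) (nat_lit 0) (XT.nd (nat_lit 78) (nat_lit 304) (nat_lit 0) (XT.lf (nat_lit 0) (nat_lit 43610342731) (nat_lit 152) (nat_lit 14371253809) (nat_lit 228) (nat_lit 385786033) (nat_lit 77) (nat_lit 5) (nat_lit 79) (nat_lit 5) (nat_lit 80) (nat_lit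 5) (nat_lit 461) (nat_lit 384) (nat_lit 175)) (XT.nd (nat_lit 78) (nat_lit 0) (nat_lit 0) (XT.lf (nat_lit 0) (nat_lit 12746411226) (nat_lit 304) (nat_lit 42751214915) (nat_lit 76) (nat_lit 4063762917) (nat_lit 73) (nat_lit 5) (nat_lit 77) (nat_lit 5) (nat_lit 74) (nat_lit 5) (nat_lit 462) (nat_lit 384) (nat_lit 174)) (XT.lf (nat_lit 0) (nat_lit 26555357312) (nat_lit 304) (nat_lit 11311283463) (nat_lit 76) (nat_lit 22915744621) (nat_lit 73) (nat_lit 5) (nat_lit 77) (nat_lit 5) (nat_lit 74) (nat_lit 5) (nat_lit 463) (nat_lit 384) (nat_lit 173)))) (XT.nd (nat_lit 156) (nat_lit 228) (nat_lit 0) (XT.nd (nat_lit 78) (nat_lit 0) (nat_lit 0) (XT.lf (nat_lit 0) (nat_lit 21487391938) (nat_lit 152) (nat_lit 19495549797) (nat_lit 228) (nat_lit 21050939133) (nat_lit 71) (nat_lit 5) (nat_lit 73) (nat_lit 5) (nat_lit 74) (nat_lit 5) (nat_lit 464) (nat_lit 384) (nat_lit 172)) (XT.lf (nat_lit 0) (nat_lit 55498184188) (nat_lit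 152) (nat_lit 457239084) (nat_lit 228) (nat_lit 7364136177) (nat_lit 71) (nat_lit 5) (nat_lit 73) (nat_lit 5) (nat_lit 74) (nat_lit 5) (nat_lit 465) (nat_lit 384) (nat_lit 171))) (XT.nd (nat_lit 78) (nat_lit 0) (nat_lit 0) (XT.lf (nat_lit 0) (nat_lit 7040113945) (nat_lit 228) (nat_lit 38490640956) (nat_lit 76) (nat_lit 19097965067) (nat_lit 68) (nat_lit 5) (nat_lit 71) (nat_lit 5) (nat_lit 69) (nat_lit 5) (nat_lit 466) (nat_lit 384) (nat_lit 170)) (XT.lf (nat_lit 0) (nat_lit 21810670923) (nat_lit 228) (nat_lit 4780019943) (nat_lit 76) (nat_lit 39381811639) (nat_lit 68) (nat_lit 5) (nat_lit 71) (nat_lit 5) (nat_lit 69) (nat_lit 5) (nat_lit 467) (nat_lit 384) (nat_lit 169))))) (XT.nd (nat_lit 234) (nat_lit 304) (nat_lit 0) (XT.nd (nat_lit 78) (nat_lit 228) (nat_lit 0) (XT.lf (nat_lit 0) (nat_lit 30534198343) (nat_lit 152) (nat_lit 6781622318) (nat_lit 228) (nat_lit 30032033869) (nat_lit 66) (nat_lit 5) (nat_lit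 68) (nat_lit 5) (nat_lit 69) (nat_lit 5) (nat_lit 468) (nat_lit 384) (nat_lit 168)) (XT.nd (nat_lit 78) (nat_lit 228) (nat_lit 0) (XT.lf (nat_lit 0) (nat_lit 53463785607) (nat_lit 228) (nat_lit 1892173214) (nat_lit 76) (nat_lit 13403178761) (nat_lit 66) (nat_lit 5) (nat_lit 69) (nat_lit 5) (nat_lit 67) (nat_lit 5) (nat_lit 469) (nat_lit 384) (nat_lit 167)) (XT.lf (nat_lit 0) (nat_lit 288224118) (nat_lit 228) (nat_lit 35520486488) (nat_lit 76) (nat_lit 34392006834) (nat_lit 63) (nat_lit 5) (nat_lit 66) (nat_lit 5) (nat_lit 64) (nat_lit 5) (nat_lit 470) (nat_lit 384) (nat_lit 166)))) (XT.nd (nat_lit 156) (nat_lit 152) (nat_lit 0) (XT.nd (nat_lit 78) (nat_lit 0) (nat_lit 0) (XT.lf (nat_lit 0) (nat_lit 559445531) (nat_lit 152) (nat_lit 15495152247) (nat_lit 228) (nat_lit 55625722653) (nat_lit 61) (nat_lit 5) (nat_lit 63) (nat_lit 5) (nat_lit 64) (nat_lit 5) (nat_lit 471) (nat_lit 384) (nat_lit 165)) (XT.lf (nat_lit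 0) (nat_lit 32706424094) (nat_lit 228) (nat_lit 34802843527) (nat_lit 76) (nat_lit 5682670303) (nat_lit 61) (nat_lit 5) (nat_lit 64) (nat_lit 5) (nat_lit 62) (nat_lit 5) (nat_lit 472) (nat_lit 384) (nat_lit 164))) (XT.nd (nat_lit 78) (nat_lit 0) (nat_lit 0) (XT.lf (nat_lit 0) (nat_lit 2496654949) (nat_lit 152) (nat_lit 47536671209) (nat_lit 228) (nat_lit 24710312402) (nat_lit 59) (nat_lit 5) (nat_lit 61) (nat_lit 5) (nat_lit 62) (nat_lit 5) (nat_lit 473) (nat_lit 384) (nat_lit 163)) (XT.lf (nat_lit 0) (nat_lit 41625220423) (nat_lit 152) (nat_lit 26604382665) (nat_lit 228) (nat_lit 8101800333) (nat_lit 59) (nat_lit 5) (nat_lit 61) (nat_lit 5) (nat_lit 62) (nat_lit 5) (nat_lit 474) (nat_lit 384) (nat_lit 162)))))) (XT.nd (nat_lit 546) (nat_lit 0) (nat_lit 0) (XT.nd (nat_lit 234) (nat_lit 304) (nat_lit 0) (XT.nd (nat_lit 78) (nat_lit 152) (nat_lit 0) (XT.lf (nat_lit 0) (nat_lit 3948039287) (nat_lit 152) (nat_lit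 4917323075) (nat_lit 228) (nat_lit 69097758816) (nat_lit 56) (nat_lit 5) (nat_lit 58) (nat_lit 5) (nat_lit 59) (nat_lit 5) (nat_lit 475) (nat_lit 384) (nat_lit 161)) (XT.nd (nat_lit 78) (nat_lit 152) (nat_lit 0) (XT.lf (nat_lit 0) (nat_lit 26698263255) (nat_lit 228) (nat_lit 35414376637) (nat_lit 76) (nat_lit 17513157476) (nat_lit 56) (nat_lit 5) (nat_lit 59) (nat_lit 5) (nat_lit 57) (nat_lit 5) (nat_lit 476) (nat_lit 384) (nat_lit 160)) (XT.lf (nat_lit 0) (nat_lit 4377897555) (nat_lit 152) (nat_lit 40777248348) (nat_lit 228) (nat_lit 36180538312) (nat_lit 54) (nat_lit 5) (nat_lit 56) (nat_lit 5) (nat_lit 57) (nat_lit 5) (nat_lit 477) (nat_lit 384) (nat_lit 159)))) (XT.nd (nat_lit 156) (nat_lit 228) (nat_lit 0) (XT.nd (nat_lit 78) (nat_lit 76) (nat_lit 0) (XT.lf (nat_lit 0) (nat_lit 46086736892) (nat_lit 152) (nat_lit 18434860521) (nat_lit 228) (nat_lit 18564594591) (nat_lit 54) (nat_lit 5) (nat_lit 56) (nat_lit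 5) (nat_lit 57) (nat_lit 5) (nat_lit 478) (nat_lit 384) (nat_lit 158)) (XT.lf (nat_lit 0) (nat_lit 4192319970) (nat_lit 76) (nat_lit 80359310777) (nat_lit 152) (nat_lit 335106832) (nat_lit 53) (nat_lit 5) (nat_lit 54) (nat_lit 5) (nat_lit 55) (nat_lit 4) (nat_lit 479) (nat_lit 384) (nat_lit 157))) (XT.nd (nat_lit 78) (nat_lit 152) (nat_lit 0) (XT.lf (nat_lit 0) (nat_lit 18639542520) (nat_lit 152) (nat_lit 39718394178) (nat_lit 76) (nat_lit 28361300977) (nat_lit 52) (nat_lit 5) (nat_lit 54) (nat_lit 5) (nat_lit 53) (nat_lit 5) (nat_lit 480) (nat_lit 384) (nat_lit 156)) (XT.lf (nat_lit 0) (nat_lit 2529938086) (nat_lit 152) (nat_lit 35669415059) (nat_lit 228) (nat_lit 50406580563) (nat_lit 50) (nat_lit 5) (nat_lit 52) (nat_lit 5) (nat_lit 53) (nat_lit 5) (nat_lit 481) (nat_lit 384) (nat_lit 155))))) (XT.nd (nat_lit 45786) (nat_lit 0) (nat_lit 15124) (XT.nd (nat_lit 45630) (nat_lit 0) (nat_lit 16188) (XT.nd (nat_lit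 45552) (nat_lit 0) (nat_lit 16188) (XT.lf (nat_lit 0) (nat_lit 46856915902) (nat_lit 152) (nat_lit 11888477530) (nat_lit 228) (nat_lit 31791854309) (nat_lit 50) (nat_lit 5) (nat_lit 52) (nat_lit 5) (nat_lit 53) (nat_lit 5) (nat_lit 482) (nat_lit 384) (nat_lit 154)) (XT.lf (nat_lit 0) (nat_lit 3217010613) (nat_lit 0) (nat_lit 3217010613) (nat_lit 1140) (nat_lit 1355140993) (nat_lit 263) (nat_lit 5) (nat_lit 263) (nat_lit 3) (nat_lit 278) (nat_lit 3) (nat_lit 385) (nat_lit 385) (nat_lit 250))) (XT.nd (nat_lit 78) (nat_lit 0) (nat_lit 0) (XT.lf (nat_lit 0) (nat_lit 13338351272) (nat_lit 1140) (nat_lit 1639590202) (nat_lit 1216) (nat_lit 825620906) (nat_lit 263) (nat_lit 5) (nat_lit 278) (nat_lit 3) (nat_lit 279) (nat_lit 5) (nat_lit 386) (nat_lit 385) (nat_lit 249)) (XT.lf (nat_lit 76) (nat_lit 6140766258) (nat_lit 0) (nat_lit 7794279689) (nat_lit 1216) (nat_lit 2097147829) (nat_lit 264) (nat_lit 5) (nat_lit 263)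 (nat_lit 5) (nat_lit 279) (nat_lit 5) (nat_lit 387) (nat_lit 385) (nat_lit 248)))) (XT.nd (nat_lit 156) (nat_lit 1064) (nat_lit 0) (XT.nd (nat_lit 78) (nat_lit 0) (nat_lit 76) (XT.lf (nat_lit 76) (nat_lit 14182575305) (nat_lit 0) (nat_lit 373418416) (nat_lit 1216) (nat_lit 1711504306) (nat_lit 264) (nat_lit 5) (nat_lit 263) (nat_lit 5) (nat_lit 279) (nat_lit 5) (nat_lit 388) (nat_lit 385) (nat_lit 247)) (XT.lf (nat_lit 76) (nat_lit 5997168469) (nat_lit 0) (nat_lit 9316070357) (nat_lit 1216) (nat_lit 1193096865) (nat_lit 265) (nat_lit 5) (nat_lit 264) (nat_lit 5) (nat_lit 280) (nat_lit 5) (nat_lit 389) (nat_lit 385) (nat_lit 246))) (XT.nd (nat_lit 78) (nat_lit 1140) (nat_lit 0) (XT.lf (nat_lit 76) (nat_lit 14354996098) (nat_lit 0) (nat_lit 1753288438) (nat_lit 1216) (nat_lit 643605674) (nat_lit 265) (nat_lit 5) (nat_lit 264) (nat_lit 5) (nat_lit 280) (nat_lit 5) (nat_lit 390) (nat_lit 385) (nat_lit 245)) (XT.lf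 (nat_lit 0) (nat_lit 31439696) (nat_lit 1216) (nat_lit 10989737116) (nat_lit 1292) (nat_lit 5980434285) (nat_lit 249) (nat_lit 5) (nat_lit 265) (nat_lit 5) (nat_lit 266) (nat_lit 5) (nat_lit 391) (nat_lit 385) (nat_lit 244))))))))
noncomputable def xc199 : XT := (XT.nd (nat_lit 2184) (nat_lit 5624) (nat_lit 0) (XT.nd (nat_lit 1092) (nat_lit 4332) (nat_lit 0) (XT.nd (nat_lit 546) (nat_lit 1444) (nat_lit 0) (XT.nd (nat_lit 234) (nat_lit 0) (nat_lit 152) (XT.nd (nat_lit 78) (nat_lit 0) (nat_lit 76) (XT.lf (nat_lit 0) (nat_lit 746410995) (nat_lit 1216) (nat_lit 2566009012) (nat_lit 1292) (nat_lit 13945237987) (nat_lit 249) (nat_lit 5) (nat_lit 265) (nat_lit 5) (nat_lit 266) (nat_lit 5) (nat_lit 392) (nat_lit 385) (nat_lit 243)) (XT.nd (nat_lit 78) (nat_lit 0) (nat_lit 0) (XT.lf (nat_lit 0) (nat_lit 1578861856) (nat_lit 1216) (nat_lit 11338848425) (nat_lit 1292) (nat_lit 4600798858) (nat_lit 250) (nat_lit 5) (nat_lit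 266) (nat_lit 5) (nat_lit 267) (nat_lit 5) (nat_lit 393) (nat_lit 385) (nat_lit 242)) (XT.lf (nat_lit 0) (nat_lit 2486559224) (nat_lit 1216) (nat_lit 2585202149) (nat_lit 1292) (nat_lit 12713919899) (nat_lit 250) (nat_lit 5) (nat_lit 266) (nat_lit 5) (nat_lit 267) (nat_lit 5) (nat_lit 394) (nat_lit 385) (nat_lit 241)))) (XT.nd (nat_lit 156) (nat_lit 0) (nat_lit 76) (XT.nd (nat_lit 78) (nat_lit 0) (nat_lit 0) (XT.lf (nat_lit 0) (nat_lit 3505619428) (nat_lit 1216) (nat_lit 11535752463) (nat_lit 1292) (nat_lit 3016976258) (nat_lit 251) (nat_lit 5) (nat_lit 267) (nat_lit 5) (nat_lit 268) (nat_lit 5) (nat_lit 395) (nat_lit 385) (nat_lit 240)) (XT.lf (nat_lit 0) (nat_lit 4623605916) (nat_lit 1216) (nat_lit 2438347169) (nat_lit 1292) (nat_lit 11275194750) (nat_lit 251) (nat_lit 5) (nat_lit 267) (nat_lit 5) (nat_lit 268) (nat_lit 5) (nat_lit 396) (nat_lit 385) (nat_lit 239))) (XT.nd (nat_lit 78) (nat_lit 0) (nat_lit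 0) (XT.lf (nat_lit 0) (nat_lit 5846861954) (nat_lit 1216) (nat_lit 11570412972) (nat_lit 1292) (nat_lit 1204888021) (nat_lit 252) (nat_lit 5) (nat_lit 268) (nat_lit 5) (nat_lit 269) (nat_lit 5) (nat_lit 397) (nat_lit 385) (nat_lit 238)) (XT.lf (nat_lit 0) (nat_lit 7193812172) (nat_lit 1216) (nat_lit 2114724414) (nat_lit 1292) (nat_lit 9604585267) (nat_lit 252) (nat_lit 5) (nat_lit 268) (nat_lit 5) (nat_lit 269) (nat_lit 5) (nat_lit 398) (nat_lit 385) (nat_lit 237))))) (XT.nd (nat_lit 234) (nat_lit 1672) (nat_lit 0) (XT.nd (nat_lit 78) (nat_lit 0) (nat_lit 76) (XT.lf (nat_lit 76) (nat_lit 7770335602) (nat_lit 0) (nat_lit 877965269) (nat_lit 1292) (nat_lit 10562497901) (nat_lit 253) (nat_lit 5) (nat_lit 252) (nat_lit 5) (nat_lit 269) (nat_lit 5) (nat_lit 399) (nat_lit 385) (nat_lit 236)) (XT.nd (nat_lit 78) (nat_lit 0) (nat_lit 0) (XT.lf (nat_lit 0) (nat_lit 10235637050) (nat_lit 1216) (nat_lit 1602819140) (nat_lit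 1292) (nat_lit 7676276477) (nat_lit 253) (nat_lit 5) (nat_lit 269) (nat_lit 5) (nat_lit 270) (nat_lit 5) (nat_lit 400) (nat_lit 385) (nat_lit 235)) (XT.lf (nat_lit 76) (nat_lit 8684803101) (nat_lit 0) (nat_lit 3270797016) (nat_lit 1292) (nat_lit 7869637219) (nat_lit 254) (nat_lit 5) (nat_lit 253) (nat_lit 5) (nat_lit 270) (nat_lit 5) (nat_lit 401) (nat_lit 385) (nat_lit 234)))) (XT.nd (nat_lit 156) (nat_lit 608) (nat_lit 0) (XT.nd (nat_lit 78) (nat_lit 1216) (nat_lit 0) (XT.lf (nat_lit 0) (nat_lit 13789888889) (nat_lit 1216) (nat_lit 890305448) (nat_lit 76) (nat_lit 5462983882) (nat_lit 254) (nat_lit 5) (nat_lit 270) (nat_lit 5) (nat_lit 255) (nat_lit 5) (nat_lit 402) (nat_lit 385) (nat_lit 233)) (XT.lf (nat_lit 0) (nat_lit 9820660666) (nat_lit 1216) (nat_lit 5978529869) (nat_lit 1292) (nat_lit 4667870058) (nat_lit 238) (nat_lit 5) (nat_lit 254) (nat_lit 5) (nat_lit 255) (nat_lit 5) (nat_lit 403) (nat_lit 385)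 (nat_lit 232))) (XT.nd (nat_lit 78) (nat_lit 0) (nat_lit 0) (XT.lf (nat_lit 0) (nat_lit 36686439) (nat_lit 608) (nat_lit 17863549960) (nat_lit 684) (nat_lit 2899481798) (nat_lit 230) (nat_lit 5) (nat_lit 238) (nat_lit 5) (nat_lit 239) (nat_lit 5) (nat_lit 404) (nat_lit 385) (nat_lit 231)) (XT.lf (nat_lit 0) (nat_lit 11192123202) (nat_lit 608) (nat_lit 9031794571) (nat_lit 684) (nat_lit 913652264) (nat_lit 230) (nat_lit 5) (nat_lit 238) (nat_lit 5) (nat_lit 239) (nat_lit 5) (nat_lit 405) (nat_lit 385) (nat_lit 230)))))) (XT.nd (nat_lit 546) (nat_lit 1976) (nat_lit 0) (XT.nd (nat_lit 234) (nat_lit 1064) (nat_lit 0) (XT.nd (nat_lit 78) (nat_lit 608) (nat_lit 0) (XT.lf (nat_lit 0) (nat_lit 1115692772) (nat_lit 684) (nat_lit 20282627462) (nat_lit 76) (nat_lit 86732550) (nat_lit 221) (nat_lit 5) (nat_lit 230) (nat_lit 5) (nat_lit 222) (nat_lit 5) (nat_lit 406) (nat_lit 385) (nat_lit 229)) (XT.nd (nat_lit 78) (nat_lit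 608) (nat_lit 0) (XT.lf (nat_lit 0) (nat_lit 3372143016) (nat_lit 684) (nat_lit 9056907035) (nat_lit 76) (nat_lit 9408103340) (nat_lit 221) (nat_lit 5) (nat_lit 230) (nat_lit 5) (nat_lit 222) (nat_lit 5) (nat_lit 407) (nat_lit 385) (nat_lit 228)) (XT.lf (nat_lit 0) (nat_lit 2549409537) (nat_lit 608) (nat_lit 3165306812) (nat_lit 684) (nat_lit 16484550118) (nat_lit 213) (nat_lit 5) (nat_lit 221) (nat_lit 5) (nat_lit 222) (nat_lit 5) (nat_lit 408) (nat_lit 385) (nat_lit 227)))) (XT.nd (nat_lit 156) (nat_lit 532) (nat_lit 0) (XT.nd (nat_lit 78) (nat_lit 532) (nat_lit 0) (XT.lf (nat_lit 0) (nat_lit 8275267349) (nat_lit 684) (nat_lit 7948172170) (nat_lit 76) (nat_lit 6344374674) (nat_lit 213) (nat_lit 5) (nat_lit 222) (nat_lit 5) (nat_lit 214) (nat_lit 5) (nat_lit 409) (nat_lit 385) (nat_lit 226)) (XT.lf (nat_lit 0) (nat_lit 4148300496) (nat_lit 532) (nat_lit 6829768097) (nat_lit 608) (nat_lit 11967388951) (nat_lit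 206) (nat_lit 5) (nat_lit 213) (nat_lit 5) (nat_lit 214) (nat_lit 5) (nat_lit 410) (nat_lit 385) (nat_lit 225))) (XT.nd (nat_lit 78) (nat_lit 532) (nat_lit 0) (XT.lf (nat_lit 0) (nat_lit 13864693410) (nat_lit 608) (nat_lit 6595559212) (nat_lit 76) (nat_lit 2871097528) (nat_lit 206) (nat_lit 5) (nat_lit 214) (nat_lit 5) (nat_lit 207) (nat_lit 5) (nat_lit 411) (nat_lit 385) (nat_lit 224)) (XT.lf (nat_lit 0) (nat_lit 6016049671) (nat_lit 532) (nat_lit 10941813062) (nat_lit 608) (nat_lit 6767360506) (nat_lit 199) (nat_lit 5) (nat_lit 206) (nat_lit 5) (nat_lit 207) (nat_lit 5) (nat_lit 412) (nat_lit 385) (nat_lit 223))))) (XT.nd (nat_lit 234) (nat_lit 1444) (nat_lit 0) (XT.nd (nat_lit 78) (nat_lit 532) (nat_lit 0) (XT.lf (nat_lit 0) (nat_lit 19135456064) (nat_lit 532) (nat_lit 1069572689) (nat_lit 608) (nat_lit 3924049737) (nat_lit 199) (nat_lit 5) (nat_lit 206) (nat_lit 5) (nat_lit 207) (nat_lit 5) (nat_lit 413)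 (nat_lit 385) (nat_lit 222)) (XT.nd (nat_lit 78) (nat_lit 76) (nat_lit 0) (XT.lf (nat_lit 0) (nat_lit 8169608519) (nat_lit 456) (nat_lit 15540749488) (nat_lit 532) (nat_lit 829870903) (nat_lit 193) (nat_lit 5) (nat_lit 199) (nat_lit 5) (nat_lit 200) (nat_lit 5) (nat_lit 414) (nat_lit 385) (nat_lit 221)) (XT.lf (nat_lit 0) (nat_lit 2367450755) (nat_lit 532) (nat_lit 3171638336) (nat_lit 76) (nat_lit 19422257443) (nat_lit 192) (nat_lit 5) (nat_lit 199) (nat_lit 5) (nat_lit 193) (nat_lit 5) (nat_lit 415) (nat_lit 385) (nat_lit 220)))) (XT.nd (nat_lit 156) (nat_lit 912) (nat_lit 0) (XT.nd (nat_lit 78) (nat_lit 0) (nat_lit 0) (XT.lf (nat_lit 0) (nat_lit 5787883891) (nat_lit 608) (nat_lit 14822166846) (nat_lit 76) (nat_lit 4780486105) (nat_lit 185) (nat_lit 5) (nat_lit 193) (nat_lit 5) (nat_lit 186) (nat_lit 5) (nat_lit 416) (nat_lit 385) (nat_lit 219)) (XT.lf (nat_lit 0) (nat_lit 9393154840) (nat_lit 608) (nat_lit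 1106919049) (nat_lit 76) (nat_lit 15330063964) (nat_lit 185) (nat_lit 5) (nat_lit 193) (nat_lit 5) (nat_lit 186) (nat_lit 5) (nat_lit 417) (nat_lit 385) (nat_lit 218))) (XT.nd (nat_lit 78) (nat_lit 456) (nat_lit 0) (XT.lf (nat_lit 0) (nat_lit 13229778892) (nat_lit 532) (nat_lit 13006417370) (nat_lit 76) (nat_lit 43036475) (nat_lit 179) (nat_lit 5) (nat_lit 186) (nat_lit 5) (nat_lit 180) (nat_lit 5) (nat_lit 418) (nat_lit 385) (nat_lit 217)) (XT.lf (nat_lit 0) (nat_lit 1280454918) (nat_lit 456) (nat_lit 16023867446) (nat_lit 532) (nat_lit 9433795121) (nat_lit 173) (nat_lit 5) (nat_lit 179) (nat_lit 5) (nat_lit 180) (nat_lit 5) (nat_lit 419) (nat_lit 385) (nat_lit 216))))))) (XT.nd (nat_lit 1092) (nat_lit 2812) (nat_lit 0) (XT.nd (nat_lit 546) (nat_lit 1520) (nat_lit 0) (XT.nd (nat_lit 234) (nat_lit 836) (nat_lit 0) (XT.nd (nat_lit 78) (nat_lit 456) (nat_lit 0) (XT.lf (nat_lit 0) (nat_lit 16256980339) (nat_lit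 456) (nat_lit 5370808207) (nat_lit 532) (nat_lit 5579181230) (nat_lit 173) (nat_lit 5) (nat_lit 179) (nat_lit 5) (nat_lit 180) (nat_lit 5) (nat_lit 420) (nat_lit 385) (nat_lit 215)) (XT.nd (nat_lit 78) (nat_lit 76) (nat_lit 0) (XT.lf (nat_lit 0) (nat_lit 4011812408) (nat_lit 380) (nat_lit 22157032681) (nat_lit 456) (nat_lit 1518407504) (nat_lit 168) (nat_lit 5) (nat_lit 173) (nat_lit 5) (nat_lit 174) (nat_lit 5) (nat_lit 421) (nat_lit 385) (nat_lit 214)) (XT.lf (nat_lit 0) (nat_lit 2772553679) (nat_lit 456) (nat_lit 8617149871) (nat_lit 76) (nat_lit 16786662940) (nat_lit 167) (nat_lit 5) (nat_lit 173) (nat_lit 5) (nat_lit 168) (nat_lit 5) (nat_lit 422) (nat_lit 385) (nat_lit 213)))) (XT.nd (nat_lit 156) (nat_lit 380) (nat_lit 0) (XT.nd (nat_lit 78) (nat_lit 0) (nat_lit 0) (XT.lf (nat_lit 0) (nat_lit 7009218259) (nat_lit 456) (nat_lit 215522340) (nat_lit 532) (nat_lit 21453073147) (nat_lit 161) (nat_lit 5) (nat_lit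 167) (nat_lit 5) (nat_lit 168) (nat_lit 5) (nat_lit 423) (nat_lit 385) (nat_lit 212)) (XT.lf (nat_lit 0) (nat_lit 12002638415) (nat_lit 532) (nat_lit 6025577470) (nat_lit 76) (nat_lit 11160325551) (nat_lit 161) (nat_lit 5) (nat_lit 168) (nat_lit 5) (nat_lit 162) (nat_lit 5) (nat_lit 424) (nat_lit 385) (nat_lit 211))) (XT.nd (nat_lit 78) (nat_lit 0) (nat_lit 0) (XT.lf (nat_lit 0) (nat_lit 10279875351) (nat_lit 380) (nat_lit 6740776980) (nat_lit 456) (nat_lit 12691036583) (nat_lit 156) (nat_lit 5) (nat_lit 161) (nat_lit 5) (nat_lit 162) (nat_lit 5) (nat_lit 425) (nat_lit 385) (nat_lit 210)) (XT.lf (nat_lit 0) (nat_lit 22293504449) (nat_lit 456) (nat_lit 3103638209) (nat_lit 76) (nat_lit 4850260520) (nat_lit 156) (nat_lit 5) (nat_lit 162) (nat_lit 5) (nat_lit 157) (nat_lit 5) (nat_lit 426) (nat_lit 385) (nat_lit 209))))) (XT.nd (nat_lit 234) (nat_lit 684) (nat_lit 0) (XT.nd (nat_lit 78) (nat_lit 456) (nat_lit 0)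 (XT.lf (nat_lit 0) (nat_lit 13913929436) (nat_lit 380) (nat_lit 14007110490) (nat_lit 456) (nat_lit 2872255269) (nat_lit 151) (nat_lit 5) (nat_lit 156) (nat_lit 5) (nat_lit 157) (nat_lit 5) (nat_lit 427) (nat_lit 385) (nat_lit 208)) (XT.nd (nat_lit 78) (nat_lit 0) (nat_lit 0) (XT.lf (nat_lit 0) (nat_lit 125198877) (nat_lit 380) (nat_lit 2219439828) (nat_lit 456) (nat_lit 29009378674) (nat_lit 145) (nat_lit 5) (nat_lit 150) (nat_lit 5) (nat_lit 151) (nat_lit 5) (nat_lit 428) (nat_lit 385) (nat_lit 207)) (XT.lf (nat_lit 0) (nat_lit 7923908824) (nat_lit 456) (nat_lit 14071344164) (nat_lit 76) (nat_lit 9927548282) (nat_lit 145) (nat_lit 5) (nat_lit 151) (nat_lit 5) (nat_lit 146) (nat_lit 5) (nat_lit 429) (nat_lit 385) (nat_lit 206)))) (XT.nd (nat_lit 156) (nat_lit 304) (nat_lit 0) (XT.nd (nat_lit 78) (nat_lit 0) (nat_lit 0) (XT.lf (nat_lit 0) (nat_lit 3644851984) (nat_lit 380) (nat_lit 10078917917) (nat_lit 456)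 (nat_lit 18783283507) (nat_lit 140) (nat_lit 5) (nat_lit 145) (nat_lit 5) (nat_lit 146) (nat_lit 5) (nat_lit 430) (nat_lit 385) (nat_lit 205)) (XT.lf (nat_lit 0) (nat_lit 19858475582) (nat_lit 456) (nat_lit 10951294713) (nat_lit 76) (nat_lit 2294238438) (nat_lit 140) (nat_lit 5) (nat_lit 146) (nat_lit 5) (nat_lit 141) (nat_lit 5) (nat_lit 431) (nat_lit 385) (nat_lit 204))) (XT.nd (nat_lit 78) (nat_lit 0) (nat_lit 0) (XT.lf (nat_lit 0) (nat_lit 7539215159) (nat_lit 304) (nat_lit 18806629440) (nat_lit 380) (nat_lit 7367970506) (nat_lit 136) (nat_lit 5) (nat_lit 140) (nat_lit 5) (nat_lit 141) (nat_lit 5) (nat_lit 432) (nat_lit 385) (nat_lit 203)) (XT.lf (nat_lit 0) (nat_lit 26803930627) (nat_lit 304) (nat_lit 6330907985) (nat_lit 380) (nat_lit 1203867960) (nat_lit 136) (nat_lit 5) (nat_lit 140) (nat_lit 5) (nat_lit 141) (nat_lit 5) (nat_lit 433) (nat_lit 385) (nat_lit 202)))))) (XT.nd (nat_lit 546) (nat_lit 1368)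 (nat_lit 0) (XT.nd (nat_lit 234) (nat_lit 684) (nat_lit 0) (XT.nd (nat_lit 78) (nat_lit 304) (nat_lit 0) (XT.lf (nat_lit 0) (nat_lit 5219334006) (nat_lit 456) (nat_lit 23200903678) (nat_lit 76) (nat_lit 6555387005) (nat_lit 130) (nat_lit 5) (nat_lit 136) (nat_lit 5) (nat_lit 131) (nat_lit 5) (nat_lit 434) (nat_lit 385) (nat_lit 201)) (XT.nd (nat_lit 78) (nat_lit 304) (nat_lit 0) (XT.lf (nat_lit 0) (nat_lit 11947085605) (nat_lit 456) (nat_lit 3891732935) (nat_lit 76) (nat_lit 19788393656) (nat_lit 130) (nat_lit 5) (nat_lit 136) (nat_lit 5) (nat_lit 131) (nat_lit 5) (nat_lit 435) (nat_lit 385) (nat_lit 200)) (XT.lf (nat_lit 0) (nat_lit 16310159088) (nat_lit 304) (nat_lit 2719923089) (nat_lit 380) (nat_lit 17263663687) (nat_lit 126) (nat_lit 5) (nat_lit 130) (nat_lit 5) (nat_lit 131) (nat_lit 5) (nat_lit 436) (nat_lit 385) (nat_lit 199)))) (XT.nd (nat_lit 156) (nat_lit 380) (nat_lit 0) (XT.nd (nat_lit 78) (nat_lit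 0) (nat_lit 0) (XT.lf (nat_lit 0) (nat_lit 111976563) (nat_lit 304) (nat_lit 26354768378) (nat_lit 380) (nat_lit 10509296194) (nat_lit 122) (nat_lit 5) (nat_lit 126) (nat_lit 5) (nat_lit 127) (nat_lit 5) (nat_lit 437) (nat_lit 385) (nat_lit 198)) (XT.lf (nat_lit 0) (nat_lit 21187769603) (nat_lit 304) (nat_lit 13163917165) (nat_lit 380) (nat_lit 3320363976) (nat_lit 122) (nat_lit 5) (nat_lit 126) (nat_lit 5) (nat_lit 127) (nat_lit 5) (nat_lit 438) (nat_lit 385) (nat_lit 197))) (XT.nd (nat_lit 78) (nat_lit 0) (nat_lit 0) (XT.lf (nat_lit 0) (nat_lit 4049943538) (nat_lit 380) (nat_lit 33839701614) (nat_lit 76) (nat_lit 496756328) (nat_lit 117) (nat_lit 5) (nat_lit 122) (nat_lit 5) (nat_lit 118) (nat_lit 5) (nat_lit 439) (nat_lit 385) (nat_lit 196)) (XT.lf (nat_lit 0) (nat_lit 11869882523) (nat_lit 380) (nat_lit 12740300501) (nat_lit 76) (nat_lit 14502156501) (nat_lit 117) (nat_lit 5) (nat_lit 122) (nat_lit 5) (nat_lit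 118) (nat_lit 5) (nat_lit 440) (nat_lit 385) (nat_lit 195))))) (XT.nd (nat_lit 312) (nat_lit 760) (nat_lit 0) (XT.nd (nat_lit 156) (nat_lit 304) (nat_lit 0) (XT.nd (nat_lit 78) (nat_lit 0) (nat_lit 0) (XT.lf (nat_lit 0) (nat_lit 9166314905) (nat_lit 304) (nat_lit 10843125187) (nat_lit 380) (nat_lit 19848065769) (nat_lit 113) (nat_lit 5) (nat_lit 117) (nat_lit 5) (nat_lit 118) (nat_lit 5) (nat_lit 441) (nat_lit 385) (nat_lit 194)) (XT.lf (nat_lit 0) (nat_lit 28552126249) (nat_lit 380) (nat_lit 8667893100) (nat_lit 76) (nat_lit 3400240319) (nat_lit 113) (nat_lit 5) (nat_lit 118) (nat_lit 5) (nat_lit 114) (nat_lit 5) (nat_lit 442) (nat_lit 385) (nat_lit 193))) (XT.nd (nat_lit 78) (nat_lit 76) (nat_lit 0) (XT.lf (nat_lit 0) (nat_lit 14180935709) (nat_lit 228) (nat_lit 23410859208) (nat_lit 304) (nat_lit 3806880834) (nat_lit 110) (nat_lit 5) (nat_lit 113) (nat_lit 5) (nat_lit 114) (nat_lit 5) (nat_lit 443) (nat_lit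 385) (nat_lit 192)) (XT.lf (nat_lit 0) (nat_lit 4695889799) (nat_lit 304) (nat_lit 4355519451) (nat_lit 76) (nat_lit 33145116599) (nat_lit 109) (nat_lit 5) (nat_lit 113) (nat_lit 5) (nat_lit 110) (nat_lit 5) (nat_lit 444) (nat_lit 385) (nat_lit 191)))) (XT.nd (nat_lit 156) (nat_lit 228) (nat_lit 0) (XT.nd (nat_lit 78) (nat_lit 228) (nat_lit 0) (XT.lf (nat_lit 0) (nat_lit 13619489314) (nat_lit 380) (nat_lit 23537423898) (nat_lit 76) (nat_lit 5853000331) (nat_lit 105) (nat_lit 5) (nat_lit 110) (nat_lit 5) (nat_lit 106) (nat_lit 5) (nat_lit 445) (nat_lit 385) (nat_lit 190)) (XT.lf (nat_lit 0) (nat_lit 167003363) (nat_lit 228) (nat_lit 22776589507) (nat_lit 304) (nat_lit 20900126751) (nat_lit 102) (nat_lit 5) (nat_lit 105) (nat_lit 5) (nat_lit 106) (nat_lit 5) (nat_lit 446) (nat_lit 385) (nat_lit 189))) (XT.nd (nat_lit 78) (nat_lit 228) (nat_lit 0) (XT.lf (nat_lit 0) (nat_lit 25060659517) (nat_lit 228) (nat_lit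 7721637561) (nat_lit 304) (nat_lit 11913197097) (nat_lit 102) (nat_lit 5) (nat_lit 105) (nat_lit 5) (nat_lit 106) (nat_lit 5) (nat_lit 447) (nat_lit 385) (nat_lit 188)) (XT.lf (nat_lit 0) (nat_lit 5149619847) (nat_lit 228) (nat_lit 37888140207) (nat_lit 304) (nat_lit 2531414583) (nat_lit 99) (nat_lit 5) (nat_lit 102) (nat_lit 5) (nat_lit 103) (nat_lit 5) (nat_lit 448) (nat_lit 385) (nat_lit 187))))))))
noncomputable def xc200 : XT := (XT.nd (nat_lit 2184) (nat_lit 304) (nat_lit 0) (XT.nd (nat_lit 1092) (nat_lit 1596) (nat_lit 0) (XT.nd (nat_lit 546) (nat_lit 836) (nat_lit 0) (XT.nd (nat_lit 234) (nat_lit 532) (nat_lit 0) (XT.nd (nat_lit 78) (nat_lit 228) (nat_lit 0) (XT.lf (nat_lit 0) (nat_lit 7266615845) (nat_lit 304) (nat_lit 15534334502) (nat_lit 76) (nat_lit 23657840209) (nat_lit 98) (nat_lit 5) (nat_lit 102) (nat_lit 5) (nat_lit 99) (nat_lit 5) (nat_lit 449) (nat_lit 385) (nat_lit 186)) (XT.nd (nat_lit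 78) (nat_lit 0) (nat_lit 0) (XT.lf (nat_lit 0) (nat_lit 10268531967) (nat_lit 228) (nat_lit 7135236782) (nat_lit 304) (nat_lit 29967693033) (nat_lit 95) (nat_lit 5) (nat_lit 98) (nat_lit 5) (nat_lit 99) (nat_lit 5) (nat_lit 450) (nat_lit 385) (nat_lit 185)) (XT.lf (nat_lit 0) (nat_lit 28087348379) (nat_lit 304) (nat_lit 11235200331) (nat_lit 76) (nat_lit 8981695606) (nat_lit 95) (nat_lit 5) (nat_lit 99) (nat_lit 5) (nat_lit 96) (nat_lit 5) (nat_lit 451) (nat_lit 385) (nat_lit 184)))) (XT.nd (nat_lit 156) (nat_lit 228) (nat_lit 0) (XT.nd (nat_lit 78) (nat_lit 76) (nat_lit 0) (XT.lf (nat_lit 0) (nat_lit 15638966049) (nat_lit 228) (nat_lit 23670897898) (nat_lit 304) (nat_lit 9948594039) (nat_lit 92) (nat_lit 5) (nat_lit 95) (nat_lit 5) (nat_lit 96) (nat_lit 5) (nat_lit 452) (nat_lit 385) (nat_lit 183)) (XT.lf (nat_lit 0) (nat_lit 727544865) (nat_lit 304) (nat_lit 6699516384) (nat_lit 76) (nat_lit 42810695141) (nat_lit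 91) (nat_lit 5) (nat_lit 95) (nat_lit 5) (nat_lit 92) (nat_lit 5) (nat_lit 453) (nat_lit 385) (nat_lit 182))) (XT.nd (nat_lit 78) (nat_lit 0) (nat_lit 0) (XT.lf (nat_lit 0) (nat_lit 11819126570) (nat_lit 304) (nat_lit 29987821785) (nat_lit 76) (nat_lit 9427677372) (nat_lit 88) (nat_lit 5) (nat_lit 92) (nat_lit 5) (nat_lit 89) (nat_lit 5) (nat_lit 454) (nat_lit 385) (nat_lit 181)) (XT.lf (nat_lit 0) (nat_lit 23382866492) (nat_lit 304) (nat_lit 2168760419) (nat_lit 76) (nat_lit 26705592371) (nat_lit 88) (nat_lit 5) (nat_lit 92) (nat_lit 5) (nat_lit 89) (nat_lit 5) (nat_lit 455) (nat_lit 385) (nat_lit 180))))) (XT.nd (nat_lit 234) (nat_lit 380) (nat_lit 0) (XT.nd (nat_lit 78) (nat_lit 228) (nat_lit 0) (XT.lf (nat_lit 0) (nat_lit 27007982055) (nat_lit 228) (nat_lit 8542778757) (nat_lit 304) (nat_lit 17752013012) (nat_lit 85) (nat_lit 5) (nat_lit 88) (nat_lit 5) (nat_lit 89) (nat_lit 5) (nat_lit 456) (nat_lit 385)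 (nat_lit 179)) (XT.nd (nat_lit 78) (nat_lit 76) (nat_lit 0) (XT.lf (nat_lit 0) (nat_lit 2687453953) (nat_lit 152) (nat_lit 45528116695) (nat_lit 228) (nat_lit 6160168428) (nat_lit 83) (nat_lit 5) (nat_lit 85) (nat_lit 5) (nat_lit 86) (nat_lit 5) (nat_lit 457) (nat_lit 385) (nat_lit 178)) (XT.lf (nat_lit 0) (nat_lit 6017040700) (nat_lit 228) (nat_lit 22541449382) (nat_lit 76) (nat_lit 26910225348) (nat_lit 82) (nat_lit 5) (nat_lit 85) (nat_lit 5) (nat_lit 83) (nat_lit 5) (nat_lit 458) (nat_lit 385) (nat_lit 177)))) (XT.nd (nat_lit 156) (nat_lit 152) (nat_lit 0) (XT.nd (nat_lit 78) (nat_lit 0) (nat_lit 0) (XT.lf (nat_lit 0) (nat_lit 7562546948) (nat_lit 228) (nat_lit 10943620100) (nat_lit 304) (nat_lit 38084372242) (nat_lit 79) (nat_lit 5) (nat_lit 82) (nat_lit 5) (nat_lit 83) (nat_lit 5) (nat_lit 459) (nat_lit 385) (nat_lit 176)) (XT.lf (nat_lit 0) (nat_lit 31666786899) (nat_lit 304) (nat_lit 18782750852) (nat_lit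 76) (nat_lit 7287575910) (nat_lit 79) (nat_lit 5) (nat_lit 83) (nat_lit 5) (nat_lit 80) (nat_lit 5) (nat_lit 460) (nat_lit 385) (nat_lit 175))) (XT.nd (nat_lit 78) (nat_lit 0) (nat_lit 0) (XT.lf (nat_lit 0) (nat_lit 12501719752) (nat_lit 152) (nat_lit 32946832136) (nat_lit 228) (nat_lit 13462743953) (nat_lit 77) (nat_lit 5) (nat_lit 79) (nat_lit 5) (nat_lit 80) (nat_lit 5) (nat_lit 461) (nat_lit 385) (nat_lit 174)) (XT.lf (nat_lit 0) (nat_lit 45106059973) (nat_lit 152) (nat_lit 14725207092) (nat_lit 228) (nat_lit 283811866) (nat_lit 77) (nat_lit 5) (nat_lit 79) (nat_lit 5) (nat_lit 80) (nat_lit 5) (nat_lit 462) (nat_lit 385) (nat_lit 173)))))) (XT.nd (nat_lit 546) (nat_lit 760) (nat_lit 0) (XT.nd (nat_lit 234) (nat_lit 380) (nat_lit 0) (XT.nd (nat_lit 78) (nat_lit 152) (nat_lit 0) (XT.lf (nat_lit 0) (nat_lit 13239446672) (nat_lit 304) (nat_lit 43843404479) (nat_lit 76) (nat_lit 4262042905) (nat_lit 73) (nat_lit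 5) (nat_lit 77) (nat_lit 5) (nat_lit 74) (nat_lit 5) (nat_lit 463) (nat_lit 385) (nat_lit 172)) (XT.nd (nat_lit 78) (nat_lit 152) (nat_lit 0) (XT.lf (nat_lit 0) (nat_lit 27459438525) (nat_lit 304) (nat_lit 11465819168) (nat_lit 76) (nat_lit 23677359776) (nat_lit 73) (nat_lit 5) (nat_lit 77) (nat_lit 5) (nat_lit 74) (nat_lit 5) (nat_lit 464) (nat_lit 385) (nat_lit 171)) (XT.lf (nat_lit 0) (nat_lit 22315004703) (nat_lit 152) (nat_lit 20003476047) (nat_lit 228) (nat_lit 21573218637) (nat_lit 71) (nat_lit 5) (nat_lit 73) (nat_lit 5) (nat_lit 74) (nat_lit 5) (nat_lit 465) (nat_lit 385) (nat_lit 170)))) (XT.nd (nat_lit 156) (nat_lit 152) (nat_lit 0) (XT.nd (nat_lit 78) (nat_lit 228) (nat_lit 0) (XT.lf (nat_lit 0) (nat_lit 57340790886) (nat_lit 152) (nat_lit 396256991) (nat_lit 228) (nat_lit 7478993593) (nat_lit 71) (nat_lit 5) (nat_lit 73) (nat_lit 5) (nat_lit 74) (nat_lit 5) (nat_lit 466) (nat_lit 385) (nat_lit 169))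 (XT.lf (nat_lit 0) (nat_lit 7354720027) (nat_lit 228) (nat_lit 39465004571) (nat_lit 76) (nat_lit 19744739897) (nat_lit 68) (nat_lit 5) (nat_lit 71) (nat_lit 5) (nat_lit 69) (nat_lit 5) (nat_lit 467) (nat_lit 385) (nat_lit 168))) (XT.nd (nat_lit 78) (nat_lit 152) (nat_lit 0) (XT.lf (nat_lit 0) (nat_lit 22565381986) (nat_lit 228) (nat_lit 4748318003) (nat_lit 76) (nat_lit 40634951306) (nat_lit 68) (nat_lit 5) (nat_lit 71) (nat_lit 5) (nat_lit 69) (nat_lit 5) (nat_lit 468) (nat_lit 385) (nat_lit 167)) (XT.lf (nat_lit 0) (nat_lit 31623610139) (nat_lit 152) (nat_lit 6910818759) (nat_lit 228) (nat_lit 30830873126) (nat_lit 66) (nat_lit 5) (nat_lit 68) (nat_lit 5) (nat_lit 69) (nat_lit 5) (nat_lit 469) (nat_lit 385) (nat_lit 166))))) (XT.nd (nat_lit 234) (nat_lit 380) (nat_lit 0) (XT.nd (nat_lit 78) (nat_lit 380) (nat_lit 0) (XT.lf (nat_lit 0) (nat_lit 55164638375) (nat_lit 228) (nat_lit 1778394499) (nat_lit 76) (nat_lit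 13875956938) (nat_lit 66) (nat_lit 5) (nat_lit 69) (nat_lit 5) (nat_lit 67) (nat_lit 5) (nat_lit 470) (nat_lit 385) (nat_lit 165)) (XT.nd (nat_lit 78) (nat_lit 152) (nat_lit 0) (XT.lf (nat_lit 0) (nat_lit 393570842) (nat_lit 228) (nat_lit 36415291717) (nat_lit 76) (nat_lit 35494962471) (nat_lit 63) (nat_lit 5) (nat_lit 66) (nat_lit 5) (nat_lit 64) (nat_lit 5) (nat_lit 471) (nat_lit 385) (nat_lit 164)) (XT.lf (nat_lit 0) (nat_lit 745363661) (nat_lit 152) (nat_lit 15886381373) (nat_lit 228) (nat_lit 57196107174) (nat_lit 61) (nat_lit 5) (nat_lit 63) (nat_lit 5) (nat_lit 64) (nat_lit 5) (nat_lit 472) (nat_lit 385) (nat_lit 163)))) (XT.nd (nat_lit 156) (nat_lit 228) (nat_lit 0) (XT.nd (nat_lit 78) (nat_lit 152) (nat_lit 0) (XT.lf (nat_lit 0) (nat_lit 33781031434) (nat_lit 228) (nat_lit 35680613427) (nat_lit 76) (nat_lit 5923236571) (nat_lit 61) (nat_lit 5) (nat_lit 64) (nat_lit 5) (nat_lit 62) (nat_lit 5) (nat_lit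 473) (nat_lit 385) (nat_lit 162)) (XT.lf (nat_lit 0) (nat_lit 2736239460) (nat_lit 152) (nat_lit 48890363337) (nat_lit 228) (nat_lit 25356564778) (nat_lit 59) (nat_lit 5) (nat_lit 61) (nat_lit 5) (nat_lit 62) (nat_lit 5) (nat_lit 474) (nat_lit 385) (nat_lit 161))) (XT.nd (nat_lit 78) (nat_lit 228) (nat_lit 0) (XT.lf (nat_lit 0) (nat_lit 43033865251) (nat_lit 152) (nat_lit 27332215108) (nat_lit 228) (nat_lit 8252565998) (nat_lit 59) (nat_lit 5) (nat_lit 61) (nat_lit 5) (nat_lit 62) (nat_lit 5) (nat_lit 475) (nat_lit 385) (nat_lit 160)) (XT.lf (nat_lit 0) (nat_lit 4226595419) (nat_lit 152) (nat_lit 4994118847) (nat_lit 228) (nat_lit 71078607985) (nat_lit 56) (nat_lit 5) (nat_lit 58) (nat_lit 5) (nat_lit 59) (nat_lit 5) (nat_lit 476) (nat_lit 385) (nat_lit 159))))))) (XT.nd (nat_lit 46722) (nat_lit 0) (nat_lit 12236) (XT.nd (nat_lit 46176) (nat_lit 0) (nat_lit 14972) (XT.nd (nat_lit 234) (nat_lit 152) (nat_lit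 0) (XT.nd (nat_lit 78) (nat_lit 152) (nat_lit 0) (XT.lf (nat_lit 0) (nat_lit 27586658603) (nat_lit 228) (nat_lit 36319402428) (nat_lit 76) (nat_lit 18105876319) (nat_lit 56) (nat_lit 5) (nat_lit 59) (nat_lit 5) (nat_lit 57) (nat_lit 5) (nat_lit 477) (nat_lit 385) (nat_lit 158)) (XT.nd (nat_lit 78) (nat_lit 0) (nat_lit 0) (XT.lf (nat_lit 0) (nat_lit 4665096800) (nat_lit 152) (nat_lit 41931102163) (nat_lit 228) (nat_lit 37176953610) (nat_lit 54) (nat_lit 5) (nat_lit 56) (nat_lit 5) (nat_lit 57) (nat_lit 5) (nat_lit 478) (nat_lit 385) (nat_lit 157)) (XT.lf (nat_lit 0) (nat_lit 47620661637) (nat_lit 152) (nat_lit 18920465914) (nat_lit 228) (nat_lit 19035123835) (nat_lit 54) (nat_lit 5) (nat_lit 56) (nat_lit 5) (nat_lit 57) (nat_lit 5) (nat_lit 479) (nat_lit 385) (nat_lit 156)))) (XT.nd (nat_lit 45786) (nat_lit 0) (nat_lit 16036) (XT.nd (nat_lit 78) (nat_lit 76) (nat_lit 0) (XT.lf (nat_lit 0) (nat_lit 4469788340)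 (nat_lit 76) (nat_lit 82701917992) (nat_lit 152) (nat_lit 259117952) (nat_lit 53) (nat_lit 5) (nat_lit 54) (nat_lit 5) (nat_lit 55) (nat_lit 4) (nat_lit 480) (nat_lit 385) (nat_lit 155)) (XT.lf (nat_lit 0) (nat_lit 19280634713) (nat_lit 152) (nat_lit 40761026484) (nat_lit 76) (nat_lit 29276687360) (nat_lit 52) (nat_lit 5) (nat_lit 54) (nat_lit 5) (nat_lit 53) (nat_lit 5) (nat_lit 481) (nat_lit 385) (nat_lit 154))) (XT.nd (nat_lit 78) (nat_lit 0) (nat_lit 0) (XT.lf (nat_lit 0) (nat_lit 3446824033) (nat_lit 0) (nat_lit 3446824033) (nat_lit 1140) (nat_lit 1121073690) (nat_lit 263) (nat_lit 5) (nat_lit 263) (nat_lit 3) (nat_lit 278) (nat_lit 3) (nat_lit 386) (nat_lit 386) (nat_lit 248)) (XT.lf (nat_lit 0) (nat_lit 14253695618) (nat_lit 1140) (nat_lit 1411690873) (nat_lit 1216) (nat_lit 596599480) (nat_lit 263) (nat_lit 5) (nat_lit 278) (nat_lit 3) (nat_lit 279) (nat_lit 5) (nat_lit 387) (nat_lit 386) (nat_lit 247)))))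 (XT.nd (nat_lit 234) (nat_lit 1064) (nat_lit 0) (XT.nd (nat_lit 78) (nat_lit 0) (nat_lit 0) (XT.lf (nat_lit 76) (nat_lit 6599359741) (nat_lit 0) (nat_lit 8256563164) (nat_lit 1216) (nat_lit 1641931075) (nat_lit 264) (nat_lit 5) (nat_lit 263) (nat_lit 5) (nat_lit 279) (nat_lit 5) (nat_lit 388) (nat_lit 386) (nat_lit 246)) (XT.nd (nat_lit 78) (nat_lit 0) (nat_lit 76) (XT.lf (nat_lit 76) (nat_lit 14874431686) (nat_lit 0) (nat_lit 606422022) (nat_lit 1216) (nat_lit 1259809447) (nat_lit 264) (nat_lit 5) (nat_lit 263) (nat_lit 5) (nat_lit 279) (nat_lit 5) (nat_lit 389) (nat_lit 386) (nat_lit 245)) (XT.lf (nat_lit 76) (nat_lit 6457676399) (nat_lit 0) (nat_lit 9789548169) (nat_lit 1216) (nat_lit 739855373) (nat_lit 265) (nat_lit 5) (nat_lit 264) (nat_lit 5) (nat_lit 280) (nat_lit 5) (nat_lit 390) (nat_lit 386) (nat_lit 244)))) (XT.nd (nat_lit 156) (nat_lit 0) (nat_lit 0) (XT.nd (nat_lit 78) (nat_lit 1140) (nat_lit 0)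 (XT.lf (nat_lit 76) (nat_lit 15058066249) (nat_lit 0) (nat_lit 1994232433) (nat_lit 1216) (nat_lit 188123167) (nat_lit 265) (nat_lit 5) (nat_lit 264) (nat_lit 5) (nat_lit 280) (nat_lit 5) (nat_lit 391) (nat_lit 386) (nat_lit 243)) (XT.lf (nat_lit 0) (nat_lit 485345414) (nat_lit 1216) (nat_lit 11024794097) (nat_lit 1292) (nat_lit 5987740543) (nat_lit 249) (nat_lit 5) (nat_lit 265) (nat_lit 5) (nat_lit 266) (nat_lit 5) (nat_lit 392) (nat_lit 386) (nat_lit 242))) (XT.nd (nat_lit 78) (nat_lit 0) (nat_lit 76) (XT.lf (nat_lit 0) (nat_lit 1208572769) (nat_lit 1216) (nat_lit 2356935756) (nat_lit 1292) (nat_lit 14196501175) (nat_lit 249) (nat_lit 5) (nat_lit 265) (nat_lit 5) (nat_lit 266) (nat_lit 5) (nat_lit 393) (nat_lit 386) (nat_lit 241)) (XT.lf (nat_lit 0) (nat_lit 2054503484) (nat_lit 1216) (nat_lit 11381287117) (nat_lit 1292) (nat_lit 4595245975) (nat_lit 250) (nat_lit 5) (nat_lit 266) (nat_lit 5) (nat_lit 267)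 (nat_lit 5) (nat_lit 394) (nat_lit 386) (nat_lit 240)))))) (XT.nd (nat_lit 546) (nat_lit 2812) (nat_lit 0) (XT.nd (nat_lit 234) (nat_lit 0) (nat_lit 152) (XT.nd (nat_lit 78) (nat_lit 0) (nat_lit 76) (XT.lf (nat_lit 0) (nat_lit 2976957722) (nat_lit 1216) (nat_lit 2373703106) (nat_lit 1292) (nat_lit 12955942497) (nat_lit 250) (nat_lit 5) (nat_lit 266) (nat_lit 5) (nat_lit 267) (nat_lit 5) (nat_lit 395) (nat_lit 386) (nat_lit 239)) (XT.nd (nat_lit 78) (nat_lit 0) (nat_lit 0) (XT.lf (nat_lit 0) (nat_lit 4016074697) (nat_lit 1216) (nat_lit 11582085638) (nat_lit 1292) (nat_lit 2989610402) (nat_lit 251) (nat_lit 5) (nat_lit 267) (nat_lit 5) (nat_lit 268) (nat_lit 5) (nat_lit 396) (nat_lit 386) (nat_lit 238)) (XT.lf (nat_lit 0) (nat_lit 5155796313) (nat_lit 1216) (nat_lit 2220488459) (nat_lit 1292) (nat_lit 11499008705) (nat_lit 251) (nat_lit 5) (nat_lit 267) (nat_lit 5) (nat_lit 268) (nat_lit 5) (nat_lit 397) (nat_lit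 386) (nat_lit 237)))) (XT.nd (nat_lit 156) (nat_lit 0) (nat_lit 0) (XT.nd (nat_lit 78) (nat_lit 0) (nat_lit 0) (XT.lf (nat_lit 0) (nat_lit 6406130399) (nat_lit 1216) (nat_lit 11616737062) (nat_lit 1292) (nat_lit 1146284956) (nat_lit 252) (nat_lit 5) (nat_lit 268) (nat_lit 5) (nat_lit 269) (nat_lit 5) (nat_lit 398) (nat_lit 386) (nat_lit 236)) (XT.lf (nat_lit 0) (nat_lit 7782308660) (nat_lit 1216) (nat_lit 1886138672) (nat_lit 1292) (nat_lit 9800732820) (nat_lit 252) (nat_lit 5) (nat_lit 268) (nat_lit 5) (nat_lit 269) (nat_lit 5) (nat_lit 399) (nat_lit 386) (nat_lit 235))) (XT.nd (nat_lit 78) (nat_lit 0) (nat_lit 76) (XT.lf (nat_lit 76) (nat_lit 8292610130) (nat_lit 0) (nat_lit 979746697) (nat_lit 1292) (nat_lit 10503677319) (nat_lit 253) (nat_lit 5) (nat_lit 252) (nat_lit 5) (nat_lit 269) (nat_lit 5) (nat_lit 400) (nat_lit 386) (nat_lit 234)) (XT.lf (nat_lit 0) (nat_lit 10895989395) (nat_lit 1216) (nat_lit 1358691822)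 (nat_lit 1292) (nat_lit 7834748931) (nat_lit 253) (nat_lit 5) (nat_lit 269) (nat_lit 5) (nat_lit 270) (nat_lit 5) (nat_lit 401) (nat_lit 386) (nat_lit 233))))) (XT.nd (nat_lit 312) (nat_lit 1292) (nat_lit 0) (XT.nd (nat_lit 156) (nat_lit 1748) (nat_lit 0) (XT.nd (nat_lit 78) (nat_lit 0) (nat_lit 76) (XT.lf (nat_lit 76) (nat_lit 9234694264) (nat_lit 0) (nat_lit 3425348668) (nat_lit 1292) (nat_lit 7749436531) (nat_lit 254) (nat_lit 5) (nat_lit 253) (nat_lit 5) (nat_lit 270) (nat_lit 5) (nat_lit 402) (nat_lit 386) (nat_lit 232)) (XT.lf (nat_lit 0) (nat_lit 14538762637) (nat_lit 1216) (nat_lit 625359775) (nat_lit 76) (nat_lit 5573158220) (nat_lit 254) (nat_lit 5) (nat_lit 270) (nat_lit 5) (nat_lit 255) (nat_lit 5) (nat_lit 403) (nat_lit 386) (nat_lit 231))) (XT.nd (nat_lit 78) (nat_lit 608) (nat_lit 0) (XT.lf (nat_lit 0) (nat_lit 10404075962) (nat_lit 1216) (nat_lit 6197281011) (nat_lit 1292) (nat_lit 4469736105)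 (nat_lit 238) (nat_lit 5) (nat_lit 254) (nat_lit 5) (nat_lit 255) (nat_lit 5) (nat_lit 404) (nat_lit 386) (nat_lit 230)) (XT.lf (nat_lit 0) (nat_lit 334007655) (nat_lit 608) (nat_lit 18424347396) (nat_lit 684) (nat_lit 2655591625) (nat_lit 230) (nat_lit 5) (nat_lit 238) (nat_lit 5) (nat_lit 239) (nat_lit 5) (nat_lit 405) (nat_lit 386) (nat_lit 229)))) (XT.nd (nat_lit 156) (nat_lit 608) (nat_lit 0) (XT.nd (nat_lit 78) (nat_lit 684) (nat_lit 0) (XT.lf (nat_lit 0) (nat_lit 11815479736) (nat_lit 608) (nat_lit 9326914366) (nat_lit 684) (nat_lit 619824329) (nat_lit 230) (nat_lit 5) (nat_lit 238) (nat_lit 5) (nat_lit 239) (nat_lit 5) (nat_lit 406) (nat_lit 386) (nat_lit 228)) (XT.lf (nat_lit 0) (nat_lit 1457588804) (nat_lit 684) (nat_lit 20590460207) (nat_lit 76) (nat_lit 72183886) (nat_lit 221) (nat_lit 5) (nat_lit 230) (nat_lit 5) (nat_lit 222) (nat_lit 5) (nat_lit 407) (nat_lit 386) (nat_lit 227))) (XT.nd (nat_lit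 78) (nat_lit 608) (nat_lit 0) (XT.lf (nat_lit 0) (nat_lit 3772749296) (nat_lit 684) (nat_lit 9036724849) (nat_lit 76) (nat_lit 9673695333) (nat_lit 221) (nat_lit 5) (nat_lit 230) (nat_lit 5) (nat_lit 222) (nat_lit 5) (nat_lit 408) (nat_lit 386) (nat_lit 226)) (XT.lf (nat_lit 0) (nat_lit 2914919559) (nat_lit 608) (nat_lit 3264736970) (nat_lit 684) (nat_lit 16676671074) (nat_lit 213) (nat_lit 5) (nat_lit 221) (nat_lit 5) (nat_lit 222) (nat_lit 5) (nat_lit 409) (nat_lit 386) (nat_lit 225))))))))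
noncomputable def xc201 : XT := (XT.nd (nat_lit 2184) (nat_lit 4180) (nat_lit 0) (XT.nd (nat_lit 1092) (nat_lit 3116) (nat_lit 0) (XT.nd (nat_lit 546) (nat_lit 1900) (nat_lit 0) (XT.nd (nat_lit 234) (nat_lit 1064) (nat_lit 0) (XT.nd (nat_lit 78) (nat_lit 532) (nat_lit 0) (XT.lf (nat_lit 0) (nat_lit 8808433827) (nat_lit 684) (nat_lit 7897309012) (nat_lit 76) (nat_lit 6530449887) (nat_lit 213) (nat_lit 5) (nat_lit 222) (nat_lit 5) (nat_lit 214) (nat_lit 5) (nat_lit 410) (nat_lit 386) (nat_lit 224)) (XT.nd (nat_lit 78) (nat_lit 0) (nat_lit 0) (XT.lf (nat_lit 0) (nat_lit 4559221478) (nat_lit 532) (nat_lit 7027553070) (nat_lit 608) (nat_lit 12038560330) (nat_lit 206) (nat_lit 5) (nat_lit 213) (nat_lit 5) (nat_lit 214) (nat_lit 5) (nat_lit 411) (nat_lit 386) (nat_lit 223)) (XT.lf (nat_lit 0) (nat_lit 14551927634) (nat_lit 608) (nat_lit 6507124988) (nat_lit 76) (nat_lit 2963996828) (nat_lit 206) (nat_lit 5) (nat_lit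 214) (nat_lit 5) (nat_lit 207) (nat_lit 5) (nat_lit 412) (nat_lit 386) (nat_lit 222)))) (XT.nd (nat_lit 156) (nat_lit 532) (nat_lit 0) (XT.nd (nat_lit 78) (nat_lit 0) (nat_lit 0) (XT.lf (nat_lit 0) (nat_lit 6480025290) (nat_lit 532) (nat_lit 11252690115) (nat_lit 608) (nat_lit 6696181607) (nat_lit 199) (nat_lit 5) (nat_lit 206) (nat_lit 5) (nat_lit 207) (nat_lit 5) (nat_lit 413) (nat_lit 386) (nat_lit 221)) (XT.lf (nat_lit 0) (nat_lit 19984756765) (nat_lit 532) (nat_lit 1084788668) (nat_lit 608) (nat_lit 3775557914) (nat_lit 199) (nat_lit 5) (nat_lit 206) (nat_lit 5) (nat_lit 207) (nat_lit 5) (nat_lit 414) (nat_lit 386) (nat_lit 220))) (XT.nd (nat_lit 78) (nat_lit 76) (nat_lit 0) (XT.lf (nat_lit 0) (nat_lit 8694845367) (nat_lit 456) (nat_lit 15980514391) (nat_lit 532) (nat_lit 593371577) (nat_lit 193) (nat_lit 5) (nat_lit 199) (nat_lit 5) (nat_lit 200) (nat_lit 5) (nat_lit 415) (nat_lit 386) (nat_lit 219)) (XT.lf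 (nat_lit 0) (nat_lit 2687304071) (nat_lit 532) (nat_lit 2989758027) (nat_lit 76) (nat_lit 20025571605) (nat_lit 192) (nat_lit 5) (nat_lit 199) (nat_lit 5) (nat_lit 193) (nat_lit 5) (nat_lit 416) (nat_lit 386) (nat_lit 218))))) (XT.nd (nat_lit 234) (nat_lit 912) (nat_lit 0) (XT.nd (nat_lit 78) (nat_lit 456) (nat_lit 0) (XT.lf (nat_lit 0) (nat_lit 6206028884) (nat_lit 608) (nat_lit 14985395315) (nat_lit 76) (nat_lit 4953407732) (nat_lit 185) (nat_lit 5) (nat_lit 193) (nat_lit 5) (nat_lit 186) (nat_lit 5) (nat_lit 417) (nat_lit 386) (nat_lit 217)) (XT.nd (nat_lit 78) (nat_lit 456) (nat_lit 0) (XT.lf (nat_lit 0) (nat_lit 9912336356) (nat_lit 608) (nat_lit 866887266) (nat_lit 76) (nat_lit 15818613498) (nat_lit 185) (nat_lit 5) (nat_lit 193) (nat_lit 5) (nat_lit 186) (nat_lit 5) (nat_lit 418) (nat_lit 386) (nat_lit 216)) (XT.lf (nat_lit 0) (nat_lit 13860106091) (nat_lit 532) (nat_lit 13119336659) (nat_lit 76) (nat_lit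 81083116) (nat_lit 179) (nat_lit 5) (nat_lit 186) (nat_lit 5) (nat_lit 180) (nat_lit 5) (nat_lit 419) (nat_lit 386) (nat_lit 215)))) (XT.nd (nat_lit 156) (nat_lit 456) (nat_lit 0) (XT.nd (nat_lit 78) (nat_lit 0) (nat_lit 0) (XT.lf (nat_lit 0) (nat_lit 1593423432) (nat_lit 456) (nat_lit 16459302580) (nat_lit 532) (nat_lit 9480578294) (nat_lit 173) (nat_lit 5) (nat_lit 179) (nat_lit 5) (nat_lit 180) (nat_lit 5) (nat_lit 420) (nat_lit 386) (nat_lit 214)) (XT.lf (nat_lit 0) (nat_lit 17011247872) (nat_lit 456) (nat_lit 5487970426) (nat_lit 532) (nat_lit 5517206492) (nat_lit 173) (nat_lit 5) (nat_lit 179) (nat_lit 5) (nat_lit 180) (nat_lit 5) (nat_lit 421) (nat_lit 386) (nat_lit 213))) (XT.nd (nat_lit 78) (nat_lit 76) (nat_lit 0) (XT.lf (nat_lit 0) (nat_lit 4402381005) (nat_lit 380) (nat_lit 22770649896) (nat_lit 456) (nat_lit 1338191678) (nat_lit 168) (nat_lit 5) (nat_lit 173) (nat_lit 5) (nat_lit 174) (nat_lit 5)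 (nat_lit 422) (nat_lit 386) (nat_lit 212)) (XT.lf (nat_lit 0) (nat_lit 3070645342) (nat_lit 456) (nat_lit 8608973498) (nat_lit 76) (nat_lit 17335521463) (nat_lit 167) (nat_lit 5) (nat_lit 173) (nat_lit 5) (nat_lit 168) (nat_lit 5) (nat_lit 423) (nat_lit 386) (nat_lit 211)))))) (XT.nd (nat_lit 546) (nat_lit 1444) (nat_lit 0) (XT.nd (nat_lit 234) (nat_lit 836) (nat_lit 0) (XT.nd (nat_lit 78) (nat_lit 380) (nat_lit 0) (XT.lf (nat_lit 0) (nat_lit 7483571060) (nat_lit 456) (nat_lit 169105610) (nat_lit 532) (nat_lit 21879067973) (nat_lit 161) (nat_lit 5) (nat_lit 167) (nat_lit 5) (nat_lit 168) (nat_lit 5) (nat_lit 424) (nat_lit 386) (nat_lit 210)) (XT.nd (nat_lit 78) (nat_lit 380) (nat_lit 0) (XT.lf (nat_lit 0) (nat_lit 12568253675) (nat_lit 532) (nat_lit 5944236608) (nat_lit 76) (nat_lit 11545475584) (nat_lit 161) (nat_lit 5) (nat_lit 168) (nat_lit 5) (nat_lit 162) (nat_lit 5) (nat_lit 425) (nat_lit 386) (nat_lit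 209)) (XT.lf (nat_lit 0) (nat_lit 10847810109) (nat_lit 380) (nat_lit 6885506254) (nat_lit 456) (nat_lit 12863598071) (nat_lit 156) (nat_lit 5) (nat_lit 161) (nat_lit 5) (nat_lit 162) (nat_lit 5) (nat_lit 426) (nat_lit 386) (nat_lit 208)))) (XT.nd (nat_lit 156) (nat_lit 456) (nat_lit 0) (XT.nd (nat_lit 78) (nat_lit 380) (nat_lit 0) (XT.lf (nat_lit 0) (nat_lit 23159005825) (nat_lit 456) (nat_lit 2939358057) (nat_lit 76) (nat_lit 5050498550) (nat_lit 156) (nat_lit 5) (nat_lit 162) (nat_lit 5) (nat_lit 157) (nat_lit 5) (nat_lit 427) (nat_lit 386) (nat_lit 207)) (XT.lf (nat_lit 0) (nat_lit 14586213193) (nat_lit 380) (nat_lit 14365875083) (nat_lit 456) (nat_lit 2759143110) (nat_lit 151) (nat_lit 5) (nat_lit 156) (nat_lit 5) (nat_lit 157) (nat_lit 5) (nat_lit 428) (nat_lit 386) (nat_lit 206))) (XT.nd (nat_lit 78) (nat_lit 0) (nat_lit 0) (XT.lf (nat_lit 0) (nat_lit 385230401) (nat_lit 380) (nat_lit 2221911088) (nat_lit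 456) (nat_lit 29681674804) (nat_lit 145) (nat_lit 5) (nat_lit 150) (nat_lit 5) (nat_lit 151) (nat_lit 5) (nat_lit 429) (nat_lit 386) (nat_lit 205)) (XT.lf (nat_lit 0) (nat_lit 8348791046) (nat_lit 456) (nat_lit 14239619555) (nat_lit 76) (nat_lit 10286404711) (nat_lit 145) (nat_lit 5) (nat_lit 151) (nat_lit 5) (nat_lit 146) (nat_lit 5) (nat_lit 430) (nat_lit 386) (nat_lit 204))))) (XT.nd (nat_lit 234) (nat_lit 760) (nat_lit 0) (XT.nd (nat_lit 78) (nat_lit 304) (nat_lit 0) (XT.lf (nat_lit 0) (nat_lit 4005573606) (nat_lit 380) (nat_lit 10314039325) (nat_lit 456) (nat_lit 19157074739) (nat_lit 140) (nat_lit 5) (nat_lit 145) (nat_lit 5) (nat_lit 146) (nat_lit 5) (nat_lit 431) (nat_lit 386) (nat_lit 203)) (XT.nd (nat_lit 78) (nat_lit 304) (nat_lit 0) (XT.lf (nat_lit 0) (nat_lit 20633624357) (nat_lit 456) (nat_lit 11030991814) (nat_lit 76) (nat_lit 2427079101) (nat_lit 140) (nat_lit 5) (nat_lit 146) (nat_lit 5) (nat_lit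 141) (nat_lit 5) (nat_lit 432) (nat_lit 386) (nat_lit 202)) (XT.lf (nat_lit 0) (nat_lit 8011793729) (nat_lit 304) (nat_lit 19300964201) (nat_lit 380) (nat_lit 7407125113) (nat_lit 136) (nat_lit 5) (nat_lit 140) (nat_lit 5) (nat_lit 141) (nat_lit 5) (nat_lit 433) (nat_lit 386) (nat_lit 201)))) (XT.nd (nat_lit 156) (nat_lit 304) (nat_lit 0) (XT.nd (nat_lit 78) (nat_lit 456) (nat_lit 0) (XT.lf (nat_lit 0) (nat_lit 27847273901) (nat_lit 304) (nat_lit 6453005980) (nat_lit 380) (nat_lit 1063397098) (nat_lit 136) (nat_lit 5) (nat_lit 140) (nat_lit 5) (nat_lit 141) (nat_lit 5) (nat_lit 434) (nat_lit 386) (nat_lit 200)) (XT.lf (nat_lit 0) (nat_lit 5546994641) (nat_lit 456) (nat_lit 23652105563) (nat_lit 76) (nat_lit 6820614707) (nat_lit 130) (nat_lit 5) (nat_lit 136) (nat_lit 5) (nat_lit 131) (nat_lit 5) (nat_lit 435) (nat_lit 386) (nat_lit 199))) (XT.nd (nat_lit 78) (nat_lit 304) (nat_lit 0) (XT.lf (nat_lit 0) (nat_lit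 12471595857) (nat_lit 456) (nat_lit 3770790530) (nat_lit 76) (nat_lit 20448614487) (nat_lit 130) (nat_lit 5) (nat_lit 136) (nat_lit 5) (nat_lit 131) (nat_lit 5) (nat_lit 436) (nat_lit 386) (nat_lit 198)) (XT.lf (nat_lit 0) (nat_lit 17034827917) (nat_lit 304) (nat_lit 2729679075) (nat_lit 380) (nat_lit 17613102122) (nat_lit 126) (nat_lit 5) (nat_lit 130) (nat_lit 5) (nat_lit 131) (nat_lit 5) (nat_lit 437) (nat_lit 386) (nat_lit 197))))))) (XT.nd (nat_lit 1092) (nat_lit 1824) (nat_lit 0) (XT.nd (nat_lit 546) (nat_lit 1140) (nat_lit 0) (XT.nd (nat_lit 234) (nat_lit 532) (nat_lit 0) (XT.nd (nat_lit 78) (nat_lit 380) (nat_lit 0) (XT.lf (nat_lit 0) (nat_lit 352609213) (nat_lit 304) (nat_lit 27069848928) (nat_lit 380) (nat_lit 10657970713) (nat_lit 122) (nat_lit 5) (nat_lit 126) (nat_lit 5) (nat_lit 127) (nat_lit 5) (nat_lit 438) (nat_lit 386) (nat_lit 196)) (XT.nd (nat_lit 78) (nat_lit 380) (nat_lit 0) (XT.lf (nat_lit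 0) (nat_lit 22053765171) (nat_lit 304) (nat_lit 13485473028) (nat_lit 380) (nat_lit 3258223083) (nat_lit 122) (nat_lit 5) (nat_lit 126) (nat_lit 5) (nat_lit 127) (nat_lit 5) (nat_lit 439) (nat_lit 386) (nat_lit 195)) (XT.lf (nat_lit 0) (nat_lit 4328362723) (nat_lit 380) (nat_lit 34619620874) (nat_lit 76) (nat_lit 585263692) (nat_lit 117) (nat_lit 5) (nat_lit 122) (nat_lit 5) (nat_lit 118) (nat_lit 5) (nat_lit 440) (nat_lit 386) (nat_lit 194)))) (XT.nd (nat_lit 156) (nat_lit 228) (nat_lit 0) (XT.nd (nat_lit 78) (nat_lit 304) (nat_lit 0) (XT.lf (nat_lit 0) (nat_lit 12378329366) (nat_lit 380) (nat_lit 12894090304) (nat_lit 76) (nat_lit 15008682046) (nat_lit 117) (nat_lit 5) (nat_lit 122) (nat_lit 5) (nat_lit 118) (nat_lit 5) (nat_lit 441) (nat_lit 386) (nat_lit 193)) (XT.lf (nat_lit 0) (nat_lit 9667484160) (nat_lit 304) (nat_lit 11092326291) (nat_lit 380) (nat_lit 20288881578) (nat_lit 113) (nat_lit 5) (nat_lit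 117) (nat_lit 5) (nat_lit 118) (nat_lit 5) (nat_lit 442) (nat_lit 386) (nat_lit 192))) (XT.nd (nat_lit 78) (nat_lit 228) (nat_lit 0) (XT.lf (nat_lit 0) (nat_lit 29555115868) (nat_lit 380) (nat_lit 8704641188) (nat_lit 76) (nat_lit 3574682295) (nat_lit 113) (nat_lit 5) (nat_lit 118) (nat_lit 5) (nat_lit 114) (nat_lit 5) (nat_lit 443) (nat_lit 386) (nat_lit 191)) (XT.lf (nat_lit 0) (nat_lit 14827463380) (nat_lit 228) (nat_lit 24036371730) (nat_lit 304) (nat_lit 3772438020) (nat_lit 110) (nat_lit 5) (nat_lit 113) (nat_lit 5) (nat_lit 114) (nat_lit 5) (nat_lit 444) (nat_lit 386) (nat_lit 190))))) (XT.nd (nat_lit 234) (nat_lit 532) (nat_lit 0) (XT.nd (nat_lit 78) (nat_lit 532) (nat_lit 0) (XT.lf (nat_lit 0) (nat_lit 4978269946) (nat_lit 304) (nat_lit 4268676699) (nat_lit 76) (nat_lit 34211197542) (nat_lit 109) (nat_lit 5) (nat_lit 113) (nat_lit 5) (nat_lit 110) (nat_lit 5) (nat_lit 445) (nat_lit 386) (nat_lit 189))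 (XT.nd (nat_lit 78) (nat_lit 228) (nat_lit 0) (XT.lf (nat_lit 0) (nat_lit 14168256136) (nat_lit 380) (nat_lit 24024685576) (nat_lit 76) (nat_lit 6103032380) (nat_lit 105) (nat_lit 5) (nat_lit 110) (nat_lit 5) (nat_lit 106) (nat_lit 5) (nat_lit 446) (nat_lit 386) (nat_lit 188)) (XT.lf (nat_lit 0) (nat_lit 388728807) (nat_lit 228) (nat_lit 23381354217) (nat_lit 304) (nat_lit 21384772237) (nat_lit 102) (nat_lit 5) (nat_lit 105) (nat_lit 5) (nat_lit 106) (nat_lit 5) (nat_lit 447) (nat_lit 386) (nat_lit 187)))) (XT.nd (nat_lit 156) (nat_lit 304) (nat_lit 0) (XT.nd (nat_lit 78) (nat_lit 228) (nat_lit 0) (XT.lf (nat_lit 0) (nat_lit 26022882548) (nat_lit 228) (nat_lit 7877041081) (nat_lit 304) (nat_lit 12132381052) (nat_lit 102) (nat_lit 5) (nat_lit 105) (nat_lit 5) (nat_lit 106) (nat_lit 5) (nat_lit 448) (nat_lit 386) (nat_lit 186)) (XT.lf (nat_lit 0) (nat_lit 5515737748) (nat_lit 228) (nat_lit 38946151125) (nat_lit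 304) (nat_lit 2470342394) (nat_lit 99) (nat_lit 5) (nat_lit 102) (nat_lit 5) (nat_lit 103) (nat_lit 5) (nat_lit 449) (nat_lit 386) (nat_lit 185))) (XT.nd (nat_lit 78) (nat_lit 228) (nat_lit 0) (XT.lf (nat_lit 0) (nat_lit 7615042453) (nat_lit 304) (nat_lit 15792276337) (nat_lit 76) (nat_lit 24441295559) (nat_lit 98) (nat_lit 5) (nat_lit 102) (nat_lit 5) (nat_lit 99) (nat_lit 5) (nat_lit 450) (nat_lit 386) (nat_lit 184)) (XT.lf (nat_lit 0) (nat_lit 10782636045) (nat_lit 228) (nat_lit 7271855682) (nat_lit 304) (nat_lit 30734229320) (nat_lit 95) (nat_lit 5) (nat_lit 98) (nat_lit 5) (nat_lit 99) (nat_lit 5) (nat_lit 451) (nat_lit 386) (nat_lit 183)))))) (XT.nd (nat_lit 546) (nat_lit 912) (nat_lit 0) (XT.nd (nat_lit 234) (nat_lit 608) (nat_lit 0) (XT.nd (nat_lit 78) (nat_lit 304) (nat_lit 0) (XT.lf (nat_lit 0) (nat_lit 29055555529) (nat_lit 304) (nat_lit 11369160880) (nat_lit 76) (nat_lit 9324862110) (nat_lit 95)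 (nat_lit 5) (nat_lit 99) (nat_lit 5) (nat_lit 96) (nat_lit 5) (nat_lit 452) (nat_lit 386) (nat_lit 182)) (XT.nd (nat_lit 78) (nat_lit 76) (nat_lit 0) (XT.lf (nat_lit 0) (nat_lit 16309239359) (nat_lit 228) (nat_lit 24303782478) (nat_lit 304) (nat_lit 10119449248) (nat_lit 92) (nat_lit 5) (nat_lit 95) (nat_lit 5) (nat_lit 96) (nat_lit 5) (nat_lit 453) (nat_lit 386) (nat_lit 181)) (XT.lf (nat_lit 0) (nat_lit 870839779) (nat_lit 304) (nat_lit 6702814133) (nat_lit 76) (nat_lit 44167567754) (nat_lit 91) (nat_lit 5) (nat_lit 95) (nat_lit 5) (nat_lit 92) (nat_lit 5) (nat_lit 454) (nat_lit 386) (nat_lit 180)))) (XT.nd (nat_lit 156) (nat_lit 380) (nat_lit 0) (XT.nd (nat_lit 78) (nat_lit 0) (nat_lit 0) (XT.lf (nat_lit 0) (nat_lit 12294242637) (nat_lit 304) (nat_lit 30688819719) (nat_lit 76) (nat_lit 9784963196) (nat_lit 88) (nat_lit 5) (nat_lit 92) (nat_lit 5) (nat_lit 89) (nat_lit 5) (nat_lit 455) (nat_lit 386) (nat_lit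 179)) (XT.lf (nat_lit 0) (nat_lit 24201383817) (nat_lit 304) (nat_lit 2040972049) (nat_lit 76) (nat_lit 27579047038) (nat_lit 88) (nat_lit 5) (nat_lit 92) (nat_lit 5) (nat_lit 89) (nat_lit 5) (nat_lit 456) (nat_lit 386) (nat_lit 178))) (XT.nd (nat_lit 78) (nat_lit 152) (nat_lit 0) (XT.lf (nat_lit 0) (nat_lit 28009182002) (nat_lit 228) (nat_lit 8723559914) (nat_lit 304) (nat_lit 18165629998) (nat_lit 85) (nat_lit 5) (nat_lit 88) (nat_lit 5) (nat_lit 89) (nat_lit 5) (nat_lit 457) (nat_lit 386) (nat_lit 177)) (XT.lf (nat_lit 0) (nat_lit 2959898195) (nat_lit 152) (nat_lit 46816783521) (nat_lit 228) (nat_lit 6226869460) (nat_lit 83) (nat_lit 5) (nat_lit 85) (nat_lit 5) (nat_lit 86) (nat_lit 5) (nat_lit 458) (nat_lit 386) (nat_lit 176))))) (XT.nd (nat_lit 312) (nat_lit 456) (nat_lit 0) (XT.nd (nat_lit 156) (nat_lit 152) (nat_lit 0) (XT.nd (nat_lit 78) (nat_lit 228) (nat_lit 0) (XT.lf (nat_lit 0) (nat_lit 6309978509)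 (nat_lit 228) (nat_lit 23029202176) (nat_lit 76) (nat_lit 27790203846) (nat_lit 82) (nat_lit 5) (nat_lit 85) (nat_lit 5) (nat_lit 83) (nat_lit 5) (nat_lit 459) (nat_lit 386) (nat_lit 175)) (XT.lf (nat_lit 0) (nat_lit 7976066095) (nat_lit 228) (nat_lit 11196232116) (nat_lit 304) (nat_lit 39112609881) (nat_lit 79) (nat_lit 5) (nat_lit 82) (nat_lit 5) (nat_lit 83) (nat_lit 5) (nat_lit 460) (nat_lit 386) (nat_lit 174))) (XT.nd (nat_lit 78) (nat_lit 152) (nat_lit 0) (XT.lf (nat_lit 0) (nat_lit 32725211665) (nat_lit 304) (nat_lit 19162483402) (nat_lit 76) (nat_lit 7578260929) (nat_lit 79) (nat_lit 5) (nat_lit 83) (nat_lit 5) (nat_lit 80) (nat_lit 5) (nat_lit 461) (nat_lit 386) (nat_lit 173)) (XT.lf (nat_lit 0) (nat_lit 13058719849) (nat_lit 152) (nat_lit 33860300857) (nat_lit 228) (nat_lit 13756385740) (nat_lit 77) (nat_lit 5) (nat_lit 79) (nat_lit 5) (nat_lit 80) (nat_lit 5) (nat_lit 462) (nat_lit 386) (nat_lit 172))))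 (XT.nd (nat_lit 156) (nat_lit 152) (nat_lit 0) (XT.nd (nat_lit 78) (nat_lit 304) (nat_lit 0) (XT.lf (nat_lit 0) (nat_lit 46635890806) (nat_lit 152) (nat_lit 15094209671) (nat_lit 228) (nat_lit 185296580) (nat_lit 77) (nat_lit 5) (nat_lit 79) (nat_lit 5) (nat_lit 80) (nat_lit 5) (nat_lit 463) (nat_lit 386) (nat_lit 171)) (XT.lf (nat_lit 0) (nat_lit 13740921813) (nat_lit 304) (nat_lit 44979286421) (nat_lit 76) (nat_lit 4461887509) (nat_lit 73) (nat_lit 5) (nat_lit 77) (nat_lit 5) (nat_lit 74) (nat_lit 5) (nat_lit 464) (nat_lit 386) (nat_lit 170))) (XT.nd (nat_lit 78) (nat_lit 152) (nat_lit 0) (XT.lf (nat_lit 0) (nat_lit 28384475799) (nat_lit 304) (nat_lit 11635599380) (nat_lit 76) (nat_lit 24457567284) (nat_lit 73) (nat_lit 5) (nat_lit 77) (nat_lit 5) (nat_lit 74) (nat_lit 5) (nat_lit 465) (nat_lit 386) (nat_lit 169)) (XT.lf (nat_lit 0) (nat_lit 23156941419) (nat_lit 152) (nat_lit 20531056769) (nat_lit 228) (nat_lit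 22117437848) (nat_lit 71) (nat_lit 5) (nat_lit 73) (nat_lit 5) (nat_lit 74) (nat_lit 5) (nat_lit 466) (nat_lit 386) (nat_lit 168))))))))
noncomputable def xc202 : XT := (XT.nd (nat_lit 47970) (nat_lit 0) (nat_lit 7448) (XT.nd (nat_lit 46878) (nat_lit 0) (nat_lit 14820) (XT.nd (nat_lit 546) (nat_lit 608) (nat_lit 0) (XT.nd (nat_lit 234) (nat_lit 532) (nat_lit 0) (XT.nd (nat_lit 78) (nat_lit 228) (nat_lit 0) (XT.lf (nat_lit 0) (nat_lit 59228477306) (nat_lit 152) (nat_lit 337733478) (nat_lit 228) (nat_lit 7603385392) (nat_lit 71) (nat_lit 5) (nat_lit 73) (nat_lit 5) (nat_lit 74) (nat_lit 5) (nat_lit 467) (nat_lit 386) (nat_lit 167)) (XT.nd (nat_lit 78) (nat_lit 0) (nat_lit 0) (XT.lf (nat_lit 0) (nat_lit 7672828555) (nat_lit 228) (nat_lit 40478952244) (nat_lit 76) (nat_lit 20406679490) (nat_lit 68) (nat_lit 5) (nat_lit 71) (nat_lit 5) (nat_lit 69) (nat_lit 5) (nat_lit 468) (nat_lit 386) (nat_lit 166)) (XT.lf (nat_lit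 0) (nat_lit 23336971530) (nat_lit 228) (nat_lit 4725716608) (nat_lit 76) (nat_lit 41921570132) (nat_lit 68) (nat_lit 5) (nat_lit 71) (nat_lit 5) (nat_lit 69) (nat_lit 5) (nat_lit 469) (nat_lit 386) (nat_lit 165)))) (XT.nd (nat_lit 156) (nat_lit 380) (nat_lit 0) (XT.nd (nat_lit 78) (nat_lit 0) (nat_lit 0) (XT.lf (nat_lit 0) (nat_lit 32735751233) (nat_lit 152) (nat_lit 7048153476) (nat_lit 228) (nat_lit 31659539768) (nat_lit 66) (nat_lit 5) (nat_lit 68) (nat_lit 5) (nat_lit 69) (nat_lit 5) (nat_lit 470) (nat_lit 386) (nat_lit 164)) (XT.lf (nat_lit 0) (nat_lit 56910952019) (nat_lit 228) (nat_lit 1670992340) (nat_lit 76) (nat_lit 14358860979) (nat_lit 66) (nat_lit 5) (nat_lit 69) (nat_lit 5) (nat_lit 67) (nat_lit 5) (nat_lit 471) (nat_lit 386) (nat_lit 163))) (XT.nd (nat_lit 78) (nat_lit 152) (nat_lit 0) (XT.lf (nat_lit 0) (nat_lit 496526993) (nat_lit 228) (nat_lit 37346746259) (nat_lit 76) (nat_lit 36626919868)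 (nat_lit 63) (nat_lit 5) (nat_lit 66) (nat_lit 5) (nat_lit 64) (nat_lit 5) (nat_lit 472) (nat_lit 386) (nat_lit 162)) (XT.lf (nat_lit 0) (nat_lit 927150308) (nat_lit 152) (nat_lit 16293573775) (nat_lit 228) (nat_lit 58819251055) (nat_lit 61) (nat_lit 5) (nat_lit 63) (nat_lit 5) (nat_lit 64) (nat_lit 5) (nat_lit 473) (nat_lit 386) (nat_lit 161))))) (XT.nd (nat_lit 234) (nat_lit 456) (nat_lit 0) (XT.nd (nat_lit 78) (nat_lit 152) (nat_lit 0) (XT.lf (nat_lit 0) (nat_lit 34882514613) (nat_lit 228) (nat_lit 36594263610) (nat_lit 76) (nat_lit 6166996595) (nat_lit 61) (nat_lit 5) (nat_lit 64) (nat_lit 5) (nat_lit 62) (nat_lit 5) (nat_lit 474) (nat_lit 386) (nat_lit 160)) (XT.nd (nat_lit 78) (nat_lit 0) (nat_lit 0) (XT.lf (nat_lit 0) (nat_lit 2973557921) (nat_lit 152) (nat_lit 50288822746) (nat_lit 228) (nat_lit 26027661386) (nat_lit 59) (nat_lit 5) (nat_lit 61) (nat_lit 5) (nat_lit 62) (nat_lit 5) (nat_lit 475) (nat_lit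 386) (nat_lit 159)) (XT.lf (nat_lit 0) (nat_lit 44475591186) (nat_lit 152) (nat_lit 28085917977) (nat_lit 228) (nat_lit 8413152361) (nat_lit 59) (nat_lit 5) (nat_lit 61) (nat_lit 5) (nat_lit 62) (nat_lit 5) (nat_lit 476) (nat_lit 386) (nat_lit 158)))) (XT.nd (nat_lit 234) (nat_lit 228) (nat_lit 0) (XT.nd (nat_lit 78) (nat_lit 0) (nat_lit 0) (XT.lf (nat_lit 0) (nat_lit 4504316981) (nat_lit 152) (nat_lit 5077278335) (nat_lit 228) (nat_lit 73124168604) (nat_lit 56) (nat_lit 5) (nat_lit 58) (nat_lit 5) (nat_lit 59) (nat_lit 5) (nat_lit 477) (nat_lit 386) (nat_lit 157)) (XT.lf (nat_lit 0) (nat_lit 28496685971) (nat_lit 228) (nat_lit 37260614712) (nat_lit 76) (nat_lit 18712512047) (nat_lit 56) (nat_lit 5) (nat_lit 59) (nat_lit 5) (nat_lit 57) (nat_lit 5) (nat_lit 478) (nat_lit 386) (nat_lit 156))) (XT.nd (nat_lit 78) (nat_lit 76) (nat_lit 0) (XT.lf (nat_lit 0) (nat_lit 49191917586) (nat_lit 152) (nat_lit 19424510825)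 (nat_lit 228) (nat_lit 19524729162) (nat_lit 54) (nat_lit 5) (nat_lit 56) (nat_lit 5) (nat_lit 57) (nat_lit 5) (nat_lit 480) (nat_lit 386) (nat_lit 154)) (XT.lf (nat_lit 0) (nat_lit 4746872630) (nat_lit 76) (nat_lit 85118716782) (nat_lit 152) (nat_lit 185788572) (nat_lit 53) (nat_lit 5) (nat_lit 54) (nat_lit 5) (nat_lit 55) (nat_lit 4) (nat_lit 481) (nat_lit 386) (nat_lit 153)))))) (XT.nd (nat_lit 546) (nat_lit 0) (nat_lit 76) (XT.nd (nat_lit 234) (nat_lit 1140) (nat_lit 0) (XT.nd (nat_lit 78) (nat_lit 0) (nat_lit 0) (XT.lf (nat_lit 0) (nat_lit 3675879711) (nat_lit 0) (nat_lit 3675879711) (nat_lit 1140) (nat_lit 895754507) (nat_lit 263) (nat_lit 5) (nat_lit 263) (nat_lit 3) (nat_lit 278) (nat_lit 3) (nat_lit 387) (nat_lit 387) (nat_lit 246)) (XT.nd (nat_lit 78) (nat_lit 0) (nat_lit 0) (XT.lf (nat_lit 0) (nat_lit 15166926062) (nat_lit 1140) (nat_lit 1192860494) (nat_lit 1216) (nat_lit 375275999) (nat_lit 263)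 (nat_lit 5) (nat_lit 278) (nat_lit 3) (nat_lit 279) (nat_lit 5) (nat_lit 388) (nat_lit 387) (nat_lit 245)) (XT.lf (nat_lit 76) (nat_lit 7055961040) (nat_lit 0) (nat_lit 8719600887) (nat_lit 1216) (nat_lit 1202800669) (nat_lit 264) (nat_lit 5) (nat_lit 263) (nat_lit 5) (nat_lit 279) (nat_lit 5) (nat_lit 389) (nat_lit 387) (nat_lit 244)))) (XT.nd (nat_lit 156) (nat_lit 1140) (nat_lit 0) (XT.nd (nat_lit 78) (nat_lit 0) (nat_lit 76) (XT.lf (nat_lit 76) (nat_lit 15571752507) (nat_lit 0) (nat_lit 833683447) (nat_lit 1216) (nat_lit 823440295) (nat_lit 264) (nat_lit 5) (nat_lit 263) (nat_lit 5) (nat_lit 279) (nat_lit 5) (nat_lit 390) (nat_lit 387) (nat_lit 243)) (XT.lf (nat_lit 76) (nat_lit 6915892387) (nat_lit 0) (nat_lit 10266094168) (nat_lit 1216) (nat_lit 301089211) (nat_lit 265) (nat_lit 5) (nat_lit 264) (nat_lit 5) (nat_lit 280) (nat_lit 5) (nat_lit 391) (nat_lit 387) (nat_lit 242))) (XT.nd (nat_lit 78) (nat_lit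 0) (nat_lit 76) (XT.lf (nat_lit 0) (nat_lit 248816943) (nat_lit 1216) (nat_lit 1980263447) (nat_lit 1292) (nat_lit 15515260960) (nat_lit 248) (nat_lit 5) (nat_lit 264) (nat_lit 5) (nat_lit 265) (nat_lit 5) (nat_lit 392) (nat_lit 387) (nat_lit 241)) (XT.lf (nat_lit 0) (nat_lit 926866402) (nat_lit 1216) (nat_lit 11077816051) (nat_lit 1292) (nat_lit 6005145621) (nat_lit 249) (nat_lit 5) (nat_lit 265) (nat_lit 5) (nat_lit 266) (nat_lit 5) (nat_lit 393) (nat_lit 387) (nat_lit 240))))) (XT.nd (nat_lit 234) (nat_lit 0) (nat_lit 152) (XT.nd (nat_lit 78) (nat_lit 0) (nat_lit 76) (XT.lf (nat_lit 0) (nat_lit 1659354831) (nat_lit 1216) (nat_lit 2158010945) (nat_lit 1292) (nat_lit 14464894134) (nat_lit 249) (nat_lit 5) (nat_lit 265) (nat_lit 5) (nat_lit 266) (nat_lit 5) (nat_lit 394) (nat_lit 387) (nat_lit 239)) (XT.nd (nat_lit 78) (nat_lit 0) (nat_lit 0) (XT.lf (nat_lit 0) (nat_lit 2519829580) (nat_lit 1216) (nat_lit 11442089703)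 (nat_lit 1292) (nat_lit 4597768404) (nat_lit 250) (nat_lit 5) (nat_lit 266) (nat_lit 5) (nat_lit 267) (nat_lit 5) (nat_lit 395) (nat_lit 387) (nat_lit 238)) (XT.lf (nat_lit 0) (nat_lit 3458199455) (nat_lit 1216) (nat_lit 2172452037) (nat_lit 1292) (nat_lit 13213227617) (nat_lit 250) (nat_lit 5) (nat_lit 266) (nat_lit 5) (nat_lit 267) (nat_lit 5) (nat_lit 396) (nat_lit 387) (nat_lit 237)))) (XT.nd (nat_lit 156) (nat_lit 0) (nat_lit 76) (XT.nd (nat_lit 78) (nat_lit 0) (nat_lit 0) (XT.lf (nat_lit 0) (nat_lit 4518578510) (nat_lit 1216) (nat_lit 11647015076) (nat_lit 1292) (nat_lit 2968190086) (nat_lit 251) (nat_lit 5) (nat_lit 267) (nat_lit 5) (nat_lit 268) (nat_lit 5) (nat_lit 397) (nat_lit 387) (nat_lit 236)) (XT.lf (nat_lit 0) (nat_lit 5681364933) (nat_lit 1216) (nat_lit 2012799102) (nat_lit 1292) (nat_lit 11736106511) (nat_lit 251) (nat_lit 5) (nat_lit 267) (nat_lit 5) (nat_lit 268) (nat_lit 5) (nat_lit 398)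 (nat_lit 387) (nat_lit 235))) (XT.nd (nat_lit 78) (nat_lit 0) (nat_lit 0) (XT.lf (nat_lit 0) (nat_lit 6960141615) (nat_lit 1216) (nat_lit 11681717354) (nat_lit 1292) (nat_lit 1091362819) (nat_lit 252) (nat_lit 5) (nat_lit 268) (nat_lit 5) (nat_lit 269) (nat_lit 5) (nat_lit 399) (nat_lit 387) (nat_lit 234)) (XT.lf (nat_lit 0) (nat_lit 8367066565) (nat_lit 1216) (nat_lit 1667458930) (nat_lit 1292) (nat_lit 10008045402) (nat_lit 252) (nat_lit 5) (nat_lit 268) (nat_lit 5) (nat_lit 269) (nat_lit 5) (nat_lit 400) (nat_lit 387) (nat_lit 233))))))) (XT.nd (nat_lit 1092) (nat_lit 3648) (nat_lit 0) (XT.nd (nat_lit 546) (nat_lit 2356) (nat_lit 0) (XT.nd (nat_lit 234) (nat_lit 1672) (nat_lit 0) (XT.nd (nat_lit 78) (nat_lit 0) (nat_lit 76) (XT.lf (nat_lit 76) (nat_lit 8813953671) (nat_lit 0) (nat_lit 1080250861) (nat_lit 1292) (nat_lit 10464658579) (nat_lit 253) (nat_lit 5) (nat_lit 252) (nat_lit 5) (nat_lit 269) (nat_lit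 5) (nat_lit 401) (nat_lit 387) (nat_lit 232)) (XT.nd (nat_lit 78) (nat_lit 0) (nat_lit 0) (XT.lf (nat_lit 0) (nat_lit 11555872407) (nat_lit 1216) (nat_lit 1124014842) (nat_lit 1292) (nat_lit 8002098082) (nat_lit 253) (nat_lit 5) (nat_lit 269) (nat_lit 5) (nat_lit 270) (nat_lit 5) (nat_lit 402) (nat_lit 387) (nat_lit 231)) (XT.lf (nat_lit 76) (nat_lit 9784472456) (nat_lit 0) (nat_lit 3581297687) (nat_lit 1292) (nat_lit 7646082314) (nat_lit 254) (nat_lit 5) (nat_lit 253) (nat_lit 5) (nat_lit 270) (nat_lit 5) (nat_lit 403) (nat_lit 387) (nat_lit 230)))) (XT.nd (nat_lit 156) (nat_lit 608) (nat_lit 0) (XT.nd (nat_lit 78) (nat_lit 1216) (nat_lit 0) (XT.lf (nat_lit 0) (nat_lit 15290862061) (nat_lit 1216) (nat_lit 369207913) (nat_lit 76) (nat_lit 5689721260) (nat_lit 254) (nat_lit 5) (nat_lit 270) (nat_lit 5) (nat_lit 255) (nat_lit 5) (nat_lit 404) (nat_lit 387) (nat_lit 229)) (XT.lf (nat_lit 0) (nat_lit 10988415674)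 (nat_lit 1216) (nat_lit 6420333238) (nat_lit 1292) (nat_lit 4285070478) (nat_lit 238) (nat_lit 5) (nat_lit 254) (nat_lit 5) (nat_lit 255) (nat_lit 5) (nat_lit 405) (nat_lit 387) (nat_lit 228))) (XT.nd (nat_lit 78) (nat_lit 0) (nat_lit 0) (XT.lf (nat_lit 0) (nat_lit 623244232) (nat_lit 608) (nat_lit 19000539913) (nat_lit 684) (nat_lit 2423378303) (nat_lit 230) (nat_lit 5) (nat_lit 238) (nat_lit 5) (nat_lit 239) (nat_lit 5) (nat_lit 406) (nat_lit 387) (nat_lit 227)) (XT.lf (nat_lit 0) (nat_lit 12441027960) (nat_lit 608) (nat_lit 9629500531) (nat_lit 684) (nat_lit 335621903) (nat_lit 230) (nat_lit 5) (nat_lit 238) (nat_lit 5) (nat_lit 239) (nat_lit 5) (nat_lit 407) (nat_lit 387) (nat_lit 226))))) (XT.nd (nat_lit 234) (nat_lit 1064) (nat_lit 0) (XT.nd (nat_lit 78) (nat_lit 608) (nat_lit 0) (XT.lf (nat_lit 0) (nat_lit 1792036846) (nat_lit 684) (nat_lit 20924786250) (nat_lit 76) (nat_lit 58183279) (nat_lit 221) (nat_lit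 5) (nat_lit 230) (nat_lit 5) (nat_lit 222) (nat_lit 5) (nat_lit 408) (nat_lit 387) (nat_lit 225)) (XT.nd (nat_lit 78) (nat_lit 608) (nat_lit 0) (XT.lf (nat_lit 0) (nat_lit 4168184569) (nat_lit 684) (nat_lit 9032692843) (nat_lit 76) (nat_lit 9948210927) (nat_lit 221) (nat_lit 5) (nat_lit 230) (nat_lit 5) (nat_lit 222) (nat_lit 5) (nat_lit 409) (nat_lit 387) (nat_lit 224)) (XT.lf (nat_lit 0) (nat_lit 3274803508) (nat_lit 608) (nat_lit 3366893381) (nat_lit 684) (nat_lit 16891915547) (nat_lit 213) (nat_lit 5) (nat_lit 221) (nat_lit 5) (nat_lit 222) (nat_lit 5) (nat_lit 410) (nat_lit 387) (nat_lit 223)))) (XT.nd (nat_lit 156) (nat_lit 532) (nat_lit 0) (XT.nd (nat_lit 78) (nat_lit 532) (nat_lit 0) (XT.lf (nat_lit 0) (nat_lit 9341240389) (nat_lit 684) (nat_lit 7861527441) (nat_lit 76) (nat_lit 6722351669) (nat_lit 213) (nat_lit 5) (nat_lit 222) (nat_lit 5) (nat_lit 214) (nat_lit 5) (nat_lit 411) (nat_lit 387) (nat_lit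 222)) (XT.lf (nat_lit 0) (nat_lit 4966025426) (nat_lit 532) (nat_lit 7231679625) (nat_lit 608) (nat_lit 12128390635) (nat_lit 206) (nat_lit 5) (nat_lit 213) (nat_lit 5) (nat_lit 214) (nat_lit 5) (nat_lit 412) (nat_lit 387) (nat_lit 221))) (XT.nd (nat_lit 78) (nat_lit 532) (nat_lit 0) (XT.lf (nat_lit 0) (nat_lit 15244205532) (nat_lit 608) (nat_lit 6432472584) (nat_lit 76) (nat_lit 3059294690) (nat_lit 206) (nat_lit 5) (nat_lit 214) (nat_lit 5) (nat_lit 207) (nat_lit 5) (nat_lit 413) (nat_lit 387) (nat_lit 220)) (XT.lf (nat_lit 0) (nat_lit 6941646455) (nat_lit 532) (nat_lit 11573891011) (nat_lit 608) (nat_lit 6638607527) (nat_lit 199) (nat_lit 5) (nat_lit 206) (nat_lit 5) (nat_lit 207) (nat_lit 5) (nat_lit 414) (nat_lit 387) (nat_lit 219)))))) (XT.nd (nat_lit 546) (nat_lit 1672) (nat_lit 0) (XT.nd (nat_lit 234) (nat_lit 1444) (nat_lit 0) (XT.nd (nat_lit 78) (nat_lit 532) (nat_lit 0) (XT.lf (nat_lit 0) (nat_lit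 20843736755) (nat_lit 532) (nat_lit 1101429601) (nat_lit 608) (nat_lit 3637893070) (nat_lit 199) (nat_lit 5) (nat_lit 206) (nat_lit 5) (nat_lit 207) (nat_lit 5) (nat_lit 415) (nat_lit 387) (nat_lit 218)) (XT.nd (nat_lit 78) (nat_lit 76) (nat_lit 0) (XT.lf (nat_lit 0) (nat_lit 9219757645) (nat_lit 456) (nat_lit 16434991014) (nat_lit 532) (nat_lit 364782439) (nat_lit 193) (nat_lit 5) (nat_lit 199) (nat_lit 5) (nat_lit 200) (nat_lit 5) (nat_lit 416) (nat_lit 387) (nat_lit 217)) (XT.lf (nat_lit 0) (nat_lit 3002469138) (nat_lit 532) (nat_lit 2818323933) (nat_lit 76) (nat_lit 20645800002) (nat_lit 192) (nat_lit 5) (nat_lit 199) (nat_lit 5) (nat_lit 193) (nat_lit 5) (nat_lit 417) (nat_lit 387) (nat_lit 216)))) (XT.nd (nat_lit 156) (nat_lit 912) (nat_lit 0) (XT.nd (nat_lit 78) (nat_lit 0) (nat_lit 0) (XT.lf (nat_lit 0) (nat_lit 6622682441) (nat_lit 608) (nat_lit 15169676248) (nat_lit 76) (nat_lit 5129823182) (nat_lit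 185) (nat_lit 5) (nat_lit 193) (nat_lit 5) (nat_lit 186) (nat_lit 5) (nat_lit 418) (nat_lit 387) (nat_lit 215)) (XT.lf (nat_lit 0) (nat_lit 10433466340) (nat_lit 608) (nat_lit 635339586) (nat_lit 76) (nat_lit 16320175028) (nat_lit 185) (nat_lit 5) (nat_lit 193) (nat_lit 5) (nat_lit 186) (nat_lit 5) (nat_lit 419) (nat_lit 387) (nat_lit 214))) (XT.nd (nat_lit 78) (nat_lit 456) (nat_lit 0) (XT.lf (nat_lit 0) (nat_lit 14495943049) (nat_lit 532) (nat_lit 13251560145) (nat_lit 76) (nat_lit 118161237) (nat_lit 179) (nat_lit 5) (nat_lit 186) (nat_lit 5) (nat_lit 180) (nat_lit 5) (nat_lit 420) (nat_lit 387) (nat_lit 213)) (XT.lf (nat_lit 0) (nat_lit 1900020429) (nat_lit 456) (nat_lit 16910400077) (nat_lit 532) (nat_lit 9542325570) (nat_lit 173) (nat_lit 5) (nat_lit 179) (nat_lit 5) (nat_lit 180) (nat_lit 5) (nat_lit 421) (nat_lit 387) (nat_lit 212))))) (XT.nd (nat_lit 312) (nat_lit 760) (nat_lit 0) (XT.nd (nat_lit 156)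 (nat_lit 532) (nat_lit 0) (XT.nd (nat_lit 78) (nat_lit 380) (nat_lit 0) (XT.lf (nat_lit 0) (nat_lit 17772841904) (nat_lit 456) (nat_lit 5611171111) (nat_lit 532) (nat_lit 5466538150) (nat_lit 173) (nat_lit 5) (nat_lit 179) (nat_lit 5) (nat_lit 180) (nat_lit 5) (nat_lit 422) (nat_lit 387) (nat_lit 211)) (XT.lf (nat_lit 0) (nat_lit 4789155258) (nat_lit 380) (nat_lit 23405608619) (nat_lit 456) (nat_lit 1165529386) (nat_lit 168) (nat_lit 5) (nat_lit 173) (nat_lit 5) (nat_lit 174) (nat_lit 5) (nat_lit 423) (nat_lit 387) (nat_lit 210))) (XT.nd (nat_lit 78) (nat_lit 456) (nat_lit 0) (XT.lf (nat_lit 0) (nat_lit 3365342751) (nat_lit 456) (nat_lit 8615860980) (nat_lit 76) (nat_lit 17898247711) (nat_lit 167) (nat_lit 5) (nat_lit 173) (nat_lit 5) (nat_lit 168) (nat_lit 5) (nat_lit 424) (nat_lit 387) (nat_lit 209)) (XT.lf (nat_lit 0) (nat_lit 7956995388) (nat_lit 456) (nat_lit 124332044) (nat_lit 532) (nat_lit 22330333623)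 (nat_lit 161) (nat_lit 5) (nat_lit 167) (nat_lit 5) (nat_lit 168) (nat_lit 5) (nat_lit 425) (nat_lit 387) (nat_lit 208)))) (XT.nd (nat_lit 156) (nat_lit 380) (nat_lit 0) (XT.nd (nat_lit 78) (nat_lit 380) (nat_lit 0) (XT.lf (nat_lit 0) (nat_lit 13139038779) (nat_lit 532) (nat_lit 5875501603) (nat_lit 76) (nat_lit 11939290381) (nat_lit 161) (nat_lit 5) (nat_lit 168) (nat_lit 5) (nat_lit 162) (nat_lit 5) (nat_lit 426) (nat_lit 387) (nat_lit 207)) (XT.lf (nat_lit 0) (nat_lit 11417884339) (nat_lit 380) (nat_lit 7037877798) (nat_lit 456) (nat_lit 13053286191) (nat_lit 156) (nat_lit 5) (nat_lit 161) (nat_lit 5) (nat_lit 162) (nat_lit 5) (nat_lit 427) (nat_lit 387) (nat_lit 206))) (XT.nd (nat_lit 78) (nat_lit 380) (nat_lit 0) (XT.lf (nat_lit 0) (nat_lit 24039181073) (nat_lit 456) (nat_lit 2784924699) (nat_lit 76) (nat_lit 5253601982) (nat_lit 156) (nat_lit 5) (nat_lit 162) (nat_lit 5) (nat_lit 157) (nat_lit 5) (nat_lit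 428) (nat_lit 387) (nat_lit 205)) (XT.lf (nat_lit 0) (nat_lit 15264035119) (nat_lit 380) (nat_lit 14738930021) (nat_lit 456) (nat_lit 2654077062) (nat_lit 151) (nat_lit 5) (nat_lit 156) (nat_lit 5) (nat_lit 157) (nat_lit 5) (nat_lit 429) (nat_lit 387) (nat_lit 204))))))))
noncomputable def xc203 : XT := (XT.nd (nat_lit 2184) (nat_lit 2584) (nat_lit 0) (XT.nd (nat_lit 1092) (nat_lit 1900) (nat_lit 0) (XT.nd (nat_lit 546) (nat_lit 1292) (nat_lit 0) (XT.nd (nat_lit 234) (nat_lit 760) (nat_lit 0) (XT.nd (nat_lit 78) (nat_lit 380) (nat_lit 0) (XT.lf (nat_lit 0) (nat_lit 638351606) (nat_lit 380) (nat_lit 2228136773) (nat_lit 456) (nat_lit 30385504980) (nat_lit 145) (nat_lit 5) (nat_lit 150) (nat_lit 5) (nat_lit 151) (nat_lit 5) (nat_lit 430) (nat_lit 387) (nat_lit 203)) (XT.nd (nat_lit 78) (nat_lit 380) (nat_lit 0) (XT.lf (nat_lit 0) (nat_lit 8775675701) (nat_lit 456) (nat_lit 14427516094) (nat_lit 76) (nat_lit 10652523462)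 (nat_lit 145) (nat_lit 5) (nat_lit 151) (nat_lit 5) (nat_lit 146) (nat_lit 5) (nat_lit 431) (nat_lit 387) (nat_lit 202)) (XT.lf (nat_lit 0) (nat_lit 4362686862) (nat_lit 380) (nat_lit 10560074577) (nat_lit 456) (nat_lit 19552969682) (nat_lit 140) (nat_lit 5) (nat_lit 145) (nat_lit 5) (nat_lit 146) (nat_lit 5) (nat_lit 432) (nat_lit 387) (nat_lit 201)))) (XT.nd (nat_lit 156) (nat_lit 456) (nat_lit 0) (XT.nd (nat_lit 78) (nat_lit 304) (nat_lit 0) (XT.lf (nat_lit 0) (nat_lit 21421729617) (nat_lit 456) (nat_lit 11127364363) (nat_lit 76) (nat_lit 2560230348) (nat_lit 140) (nat_lit 5) (nat_lit 146) (nat_lit 5) (nat_lit 141) (nat_lit 5) (nat_lit 433) (nat_lit 387) (nat_lit 200)) (XT.lf (nat_lit 0) (nat_lit 8484405167) (nat_lit 304) (nat_lit 19814139491) (nat_lit 380) (nat_lit 7457895273) (nat_lit 136) (nat_lit 5) (nat_lit 140) (nat_lit 5) (nat_lit 141) (nat_lit 5) (nat_lit 434) (nat_lit 387) (nat_lit 199))) (XT.nd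 (nat_lit 78) (nat_lit 456) (nat_lit 0) (XT.lf (nat_lit 0) (nat_lit 28908184958) (nat_lit 304) (nat_lit 6582660591) (nat_lit 380) (nat_lit 928848921) (nat_lit 136) (nat_lit 5) (nat_lit 140) (nat_lit 5) (nat_lit 141) (nat_lit 5) (nat_lit 435) (nat_lit 387) (nat_lit 198)) (XT.lf (nat_lit 0) (nat_lit 5874664367) (nat_lit 456) (nat_lit 24130897474) (nat_lit 76) (nat_lit 7089863267) (nat_lit 130) (nat_lit 5) (nat_lit 136) (nat_lit 5) (nat_lit 131) (nat_lit 5) (nat_lit 436) (nat_lit 387) (nat_lit 197))))) (XT.nd (nat_lit 234) (nat_lit 684) (nat_lit 0) (XT.nd (nat_lit 78) (nat_lit 608) (nat_lit 0) (XT.lf (nat_lit 0) (nat_lit 13002306730) (nat_lit 456) (nat_lit 3659864483) (nat_lit 76) (nat_lit 21124820609) (nat_lit 130) (nat_lit 5) (nat_lit 136) (nat_lit 5) (nat_lit 131) (nat_lit 5) (nat_lit 437) (nat_lit 387) (nat_lit 196)) (XT.nd (nat_lit 78) (nat_lit 304) (nat_lit 0) (XT.lf (nat_lit 0) (nat_lit 17767725951) (nat_lit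 304) (nat_lit 2743851749) (nat_lit 380) (nat_lit 17982694663) (nat_lit 126) (nat_lit 5) (nat_lit 130) (nat_lit 5) (nat_lit 131) (nat_lit 5) (nat_lit 438) (nat_lit 387) (nat_lit 195)) (XT.lf (nat_lit 0) (nat_lit 586840382) (nat_lit 304) (nat_lit 27810719491) (nat_lit 380) (nat_lit 10820669241) (nat_lit 122) (nat_lit 5) (nat_lit 126) (nat_lit 5) (nat_lit 127) (nat_lit 5) (nat_lit 439) (nat_lit 387) (nat_lit 194)))) (XT.nd (nat_lit 156) (nat_lit 304) (nat_lit 0) (XT.nd (nat_lit 78) (nat_lit 380) (nat_lit 0) (XT.lf (nat_lit 0) (nat_lit 22932516856) (nat_lit 304) (nat_lit 13820886826) (nat_lit 380) (nat_lit 3203503179) (nat_lit 122) (nat_lit 5) (nat_lit 126) (nat_lit 5) (nat_lit 127) (nat_lit 5) (nat_lit 440) (nat_lit 387) (nat_lit 193)) (XT.lf (nat_lit 0) (nat_lit 4606126582) (nat_lit 380) (nat_lit 35436443275) (nat_lit 76) (nat_lit 672201069) (nat_lit 117) (nat_lit 5) (nat_lit 122) (nat_lit 5) (nat_lit 118) (nat_lit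 5) (nat_lit 441) (nat_lit 387) (nat_lit 192))) (XT.nd (nat_lit 78) (nat_lit 304) (nat_lit 0) (XT.lf (nat_lit 0) (nat_lit 12893284080) (nat_lit 380) (nat_lit 13065605998) (nat_lit 76) (nat_lit 15526301212) (nat_lit 117) (nat_lit 5) (nat_lit 122) (nat_lit 5) (nat_lit 118) (nat_lit 5) (nat_lit 442) (nat_lit 387) (nat_lit 191)) (XT.lf (nat_lit 0) (nat_lit 10170704846) (nat_lit 304) (nat_lit 11353371459) (nat_lit 380) (nat_lit 20751798037) (nat_lit 113) (nat_lit 5) (nat_lit 117) (nat_lit 5) (nat_lit 118) (nat_lit 5) (nat_lit 443) (nat_lit 387) (nat_lit 190)))))) (XT.nd (nat_lit 546) (nat_lit 836) (nat_lit 0) (XT.nd (nat_lit 234) (nat_lit 760) (nat_lit 0) (XT.nd (nat_lit 78) (nat_lit 304) (nat_lit 0) (XT.lf (nat_lit 0) (nat_lit 30579789733) (nat_lit 380) (nat_lit 8755309405) (nat_lit 76) (nat_lit 3750199479) (nat_lit 113) (nat_lit 5) (nat_lit 118) (nat_lit 5) (nat_lit 114) (nat_lit 5) (nat_lit 444) (nat_lit 387) (nat_lit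 189)) (XT.nd (nat_lit 78) (nat_lit 76) (nat_lit 0) (XT.lf (nat_lit 0) (nat_lit 15480694859) (nat_lit 228) (nat_lit 24685059023) (nat_lit 304) (nat_lit 3745494996) (nat_lit 110) (nat_lit 5) (nat_lit 113) (nat_lit 5) (nat_lit 114) (nat_lit 5) (nat_lit 445) (nat_lit 387) (nat_lit 188)) (XT.lf (nat_lit 0) (nat_lit 5260998621) (nat_lit 304) (nat_lit 4191714533) (nat_lit 76) (nat_lit 35305143464) (nat_lit 109) (nat_lit 5) (nat_lit 113) (nat_lit 5) (nat_lit 110) (nat_lit 5) (nat_lit 446) (nat_lit 387) (nat_lit 187)))) (XT.nd (nat_lit 156) (nat_lit 228) (nat_lit 0) (XT.nd (nat_lit 78) (nat_lit 228) (nat_lit 0) (XT.lf (nat_lit 0) (nat_lit 14725438934) (nat_lit 380) (nat_lit 24539128623) (nat_lit 76) (nat_lit 6356292114) (nat_lit 105) (nat_lit 5) (nat_lit 110) (nat_lit 5) (nat_lit 106) (nat_lit 5) (nat_lit 447) (nat_lit 387) (nat_lit 186)) (XT.lf (nat_lit 0) (nat_lit 604665666) (nat_lit 228) (nat_lit 24008769983) (nat_lit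 304) (nat_lit 21892129037) (nat_lit 102) (nat_lit 5) (nat_lit 105) (nat_lit 5) (nat_lit 106) (nat_lit 5) (nat_lit 448) (nat_lit 387) (nat_lit 185))) (XT.nd (nat_lit 78) (nat_lit 228) (nat_lit 0) (XT.lf (nat_lit 0) (nat_lit 27001894262) (nat_lit 228) (nat_lit 8041483517) (nat_lit 304) (nat_lit 12366074457) (nat_lit 102) (nat_lit 5) (nat_lit 105) (nat_lit 5) (nat_lit 106) (nat_lit 5) (nat_lit 449) (nat_lit 387) (nat_lit 184)) (XT.lf (nat_lit 0) (nat_lit 5880690798) (nat_lit 228) (nat_lit 40040416243) (nat_lit 304) (nat_lit 2415303240) (nat_lit 99) (nat_lit 5) (nat_lit 102) (nat_lit 5) (nat_lit 103) (nat_lit 5) (nat_lit 450) (nat_lit 387) (nat_lit 183))))) (XT.nd (nat_lit 234) (nat_lit 532) (nat_lit 0) (XT.nd (nat_lit 78) (nat_lit 228) (nat_lit 0) (XT.lf (nat_lit 0) (nat_lit 7966434751) (nat_lit 304) (nat_lit 16069901541) (nat_lit 76) (nat_lit 25244022732) (nat_lit 98) (nat_lit 5) (nat_lit 102) (nat_lit 5) (nat_lit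 99) (nat_lit 5) (nat_lit 451) (nat_lit 387) (nat_lit 182)) (XT.nd (nat_lit 78) (nat_lit 0) (nat_lit 0) (XT.lf (nat_lit 0) (nat_lit 11300335241) (nat_lit 228) (nat_lit 7417018419) (nat_lit 304) (nat_lit 31531367422) (nat_lit 95) (nat_lit 5) (nat_lit 98) (nat_lit 5) (nat_lit 99) (nat_lit 5) (nat_lit 452) (nat_lit 387) (nat_lit 181)) (XT.lf (nat_lit 0) (nat_lit 30045599703) (nat_lit 304) (nat_lit 11518798757) (nat_lit 76) (nat_lit 9674092030) (nat_lit 95) (nat_lit 5) (nat_lit 99) (nat_lit 5) (nat_lit 96) (nat_lit 5) (nat_lit 453) (nat_lit 387) (nat_lit 180)))) (XT.nd (nat_lit 156) (nat_lit 228) (nat_lit 0) (XT.nd (nat_lit 78) (nat_lit 76) (nat_lit 0) (XT.lf (nat_lit 0) (nat_lit 16988076657) (nat_lit 228) (nat_lit 24960087622) (nat_lit 304) (nat_lit 10302755026) (nat_lit 92) (nat_lit 5) (nat_lit 95) (nat_lit 5) (nat_lit 96) (nat_lit 5) (nat_lit 454) (nat_lit 387) (nat_lit 179)) (XT.lf (nat_lit 0) (nat_lit 1011460748)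 (nat_lit 304) (nat_lit 6717558900) (nat_lit 76) (nat_lit 45560981777) (nat_lit 91) (nat_lit 5) (nat_lit 95) (nat_lit 5) (nat_lit 92) (nat_lit 5) (nat_lit 455) (nat_lit 387) (nat_lit 178))) (XT.nd (nat_lit 78) (nat_lit 0) (nat_lit 0) (XT.lf (nat_lit 0) (nat_lit 12776692567) (nat_lit 304) (nat_lit 31422250152) (nat_lit 76) (nat_lit 10148693544) (nat_lit 88) (nat_lit 5) (nat_lit 92) (nat_lit 5) (nat_lit 89) (nat_lit 5) (nat_lit 456) (nat_lit 387) (nat_lit 177)) (XT.lf (nat_lit 0) (nat_lit 25037738584) (nat_lit 304) (nat_lit 1920420473) (nat_lit 76) (nat_lit 28474555781) (nat_lit 88) (nat_lit 5) (nat_lit 92) (nat_lit 5) (nat_lit 89) (nat_lit 5) (nat_lit 457) (nat_lit 387) (nat_lit 176))))))) (XT.nd (nat_lit 1092) (nat_lit 912) (nat_lit 0) (XT.nd (nat_lit 546) (nat_lit 836) (nat_lit 0) (XT.nd (nat_lit 234) (nat_lit 380) (nat_lit 0) (XT.nd (nat_lit 78) (nat_lit 228) (nat_lit 0) (XT.lf (nat_lit 0) (nat_lit 29029456035)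 (nat_lit 228) (nat_lit 8914098641) (nat_lit 304) (nat_lit 18598483331) (nat_lit 85) (nat_lit 5) (nat_lit 88) (nat_lit 5) (nat_lit 89) (nat_lit 5) (nat_lit 458) (nat_lit 387) (nat_lit 175)) (XT.nd (nat_lit 78) (nat_lit 76) (nat_lit 0) (XT.lf (nat_lit 0) (nat_lit 3229504475) (nat_lit 152) (nat_lit 48148540609) (nat_lit 228) (nat_lit 6302351177) (nat_lit 83) (nat_lit 5) (nat_lit 85) (nat_lit 5) (nat_lit 86) (nat_lit 5) (nat_lit 459) (nat_lit 387) (nat_lit 174)) (XT.lf (nat_lit 0) (nat_lit 6605250707) (nat_lit 228) (nat_lit 23542407691) (nat_lit 76) (nat_lit 28692410045) (nat_lit 82) (nat_lit 5) (nat_lit 85) (nat_lit 5) (nat_lit 83) (nat_lit 5) (nat_lit 460) (nat_lit 387) (nat_lit 173)))) (XT.nd (nat_lit 156) (nat_lit 152) (nat_lit 0) (XT.nd (nat_lit 78) (nat_lit 0) (nat_lit 0) (XT.lf (nat_lit 0) (nat_lit 8391276760) (nat_lit 228) (nat_lit 11460767786) (nat_lit 304) (nat_lit 40178255564) (nat_lit 79) (nat_lit 5)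 (nat_lit 82) (nat_lit 5) (nat_lit 83) (nat_lit 5) (nat_lit 461) (nat_lit 387) (nat_lit 172)) (XT.lf (nat_lit 0) (nat_lit 33809165355) (nat_lit 304) (nat_lit 19564155930) (nat_lit 76) (nat_lit 7873530090) (nat_lit 79) (nat_lit 5) (nat_lit 83) (nat_lit 5) (nat_lit 80) (nat_lit 5) (nat_lit 462) (nat_lit 387) (nat_lit 171))) (XT.nd (nat_lit 78) (nat_lit 0) (nat_lit 0) (XT.lf (nat_lit 0) (nat_lit 13621985361) (nat_lit 152) (nat_lit 34805475286) (nat_lit 228) (nat_lit 14065165037) (nat_lit 77) (nat_lit 5) (nat_lit 79) (nat_lit 5) (nat_lit 80) (nat_lit 5) (nat_lit 463) (nat_lit 387) (nat_lit 170)) (XT.lf (nat_lit 0) (nat_lit 48201476187) (nat_lit 152) (nat_lit 15478458683) (nat_lit 228) (nat_lit 89969774) (nat_lit 77) (nat_lit 5) (nat_lit 79) (nat_lit 5) (nat_lit 80) (nat_lit 5) (nat_lit 464) (nat_lit 387) (nat_lit 169))))) (XT.nd (nat_lit 234) (nat_lit 380) (nat_lit 0) (XT.nd (nat_lit 78) (nat_lit 152) (nat_lit 0)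 (XT.lf (nat_lit 0) (nat_lit 14251454436) (nat_lit 304) (nat_lit 46159544273) (nat_lit 76) (nat_lit 4663595313) (nat_lit 73) (nat_lit 5) (nat_lit 77) (nat_lit 5) (nat_lit 74) (nat_lit 5) (nat_lit 465) (nat_lit 387) (nat_lit 168)) (XT.nd (nat_lit 78) (nat_lit 152) (nat_lit 0) (XT.lf (nat_lit 0) (nat_lit 29331451790) (nat_lit 304) (nat_lit 11820472468) (nat_lit 76) (nat_lit 25257169234) (nat_lit 73) (nat_lit 5) (nat_lit 77) (nat_lit 5) (nat_lit 74) (nat_lit 5) (nat_lit 466) (nat_lit 387) (nat_lit 167)) (XT.lf (nat_lit 0) (nat_lit 24014234801) (nat_lit 152) (nat_lit 21078628062) (nat_lit 228) (nat_lit 22683894956) (nat_lit 71) (nat_lit 5) (nat_lit 73) (nat_lit 5) (nat_lit 74) (nat_lit 5) (nat_lit 467) (nat_lit 387) (nat_lit 166)))) (XT.nd (nat_lit 156) (nat_lit 152) (nat_lit 0) (XT.nd (nat_lit 78) (nat_lit 228) (nat_lit 0) (XT.lf (nat_lit 0) (nat_lit 61163181276) (nat_lit 152) (nat_lit 281496152) (nat_lit 228) (nat_lit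 7737248093) (nat_lit 71) (nat_lit 5) (nat_lit 73) (nat_lit 5) (nat_lit 74) (nat_lit 5) (nat_lit 468) (nat_lit 387) (nat_lit 165)) (XT.lf (nat_lit 0) (nat_lit 7994885339) (nat_lit 228) (nat_lit 41533077185) (nat_lit 76) (nat_lit 21084482095) (nat_lit 68) (nat_lit 5) (nat_lit 71) (nat_lit 5) (nat_lit 69) (nat_lit 5) (nat_lit 469) (nat_lit 387) (nat_lit 164))) (XT.nd (nat_lit 78) (nat_lit 152) (nat_lit 0) (XT.lf (nat_lit 0) (nat_lit 24126276722) (nat_lit 228) (nat_lit 4711911769) (nat_lit 76) (nat_lit 43242908713) (nat_lit 68) (nat_lit 5) (nat_lit 71) (nat_lit 5) (nat_lit 69) (nat_lit 5) (nat_lit 470) (nat_lit 387) (nat_lit 163)) (XT.lf (nat_lit 0) (nat_lit 33871874848) (nat_lit 152) (nat_lit 7193625937) (nat_lit 228) (nat_lit 32518592100) (nat_lit 66) (nat_lit 5) (nat_lit 68) (nat_lit 5) (nat_lit 69) (nat_lit 5) (nat_lit 471) (nat_lit 387) (nat_lit 162)))))) (XT.nd (nat_lit 702) (nat_lit 0) (nat_lit 0) (XT.nd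 (nat_lit 234) (nat_lit 532) (nat_lit 0) (XT.nd (nat_lit 78) (nat_lit 380) (nat_lit 0) (XT.lf (nat_lit 0) (nat_lit 58704409804) (nat_lit 228) (nat_lit 1569596054) (nat_lit 76) (nat_lit 14852427574) (nat_lit 66) (nat_lit 5) (nat_lit 69) (nat_lit 5) (nat_lit 67) (nat_lit 5) (nat_lit 472) (nat_lit 387) (nat_lit 161)) (XT.nd (nat_lit 78) (nat_lit 152) (nat_lit 0) (XT.lf (nat_lit 0) (nat_lit 597339501) (nat_lit 228) (nat_lit 38315386738) (nat_lit 76) (nat_lit 37788983683) (nat_lit 63) (nat_lit 5) (nat_lit 66) (nat_lit 5) (nat_lit 64) (nat_lit 5) (nat_lit 473) (nat_lit 387) (nat_lit 160)) (XT.lf (nat_lit 0) (nat_lit 1105238864) (nat_lit 152) (nat_lit 16716965737) (nat_lit 228) (nat_lit 60496412871) (nat_lit 61) (nat_lit 5) (nat_lit 63) (nat_lit 5) (nat_lit 64) (nat_lit 5) (nat_lit 474) (nat_lit 387) (nat_lit 159)))) (XT.nd (nat_lit 156) (nat_lit 380) (nat_lit 0) (XT.nd (nat_lit 78) (nat_lit 152) (nat_lit 0) (XT.lf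 (nat_lit 0) (nat_lit 36011987728) (nat_lit 228) (nat_lit 37544322435) (nat_lit 76) (nat_lit 6414277137) (nat_lit 61) (nat_lit 5) (nat_lit 64) (nat_lit 5) (nat_lit 62) (nat_lit 5) (nat_lit 475) (nat_lit 387) (nat_lit 158)) (XT.lf (nat_lit 0) (nat_lit 3209085025) (nat_lit 152) (nat_lit 51733153851) (nat_lit 228) (nat_lit 26724034318) (nat_lit 59) (nat_lit 5) (nat_lit 61) (nat_lit 5) (nat_lit 62) (nat_lit 5) (nat_lit 476) (nat_lit 387) (nat_lit 157))) (XT.nd (nat_lit 234) (nat_lit 380) (nat_lit 0) (XT.lf (nat_lit 0) (nat_lit 45951917531) (nat_lit 152) (nat_lit 28866035733) (nat_lit 228) (nat_lit 8583549932) (nat_lit 59) (nat_lit 5) (nat_lit 61) (nat_lit 5) (nat_lit 62) (nat_lit 5) (nat_lit 477) (nat_lit 387) (nat_lit 156)) (XT.lf (nat_lit 0) (nat_lit 5239005483) (nat_lit 152) (nat_lit 44355548321) (nat_lit 228) (nat_lit 39275545387) (nat_lit 54) (nat_lit 5) (nat_lit 56) (nat_lit 5) (nat_lit 57) (nat_lit 5) (nat_lit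 480) (nat_lit 387) (nat_lit 153))))) (XT.nd (nat_lit 46098) (nat_lit 0) (nat_lit 14744) (XT.nd (nat_lit 45942) (nat_lit 0) (nat_lit 15884) (XT.nd (nat_lit 45864) (nat_lit 0) (nat_lit 15884) (XT.lf (nat_lit 0) (nat_lit 50802123318) (nat_lit 152) (nat_lit 19947326207) (nat_lit 228) (nat_lit 20033698121) (nat_lit 54) (nat_lit 5) (nat_lit 56) (nat_lit 5) (nat_lit 57) (nat_lit 5) (nat_lit 481) (nat_lit 387) (nat_lit 152)) (XT.lf (nat_lit 0) (nat_lit 3904594181) (nat_lit 0) (nat_lit 3904594181) (nat_lit 1140) (nat_lit 678540619) (nat_lit 263) (nat_lit 5) (nat_lit 263) (nat_lit 3) (nat_lit 278) (nat_lit 3) (nat_lit 388) (nat_lit 388) (nat_lit 244))) (XT.nd (nat_lit 78) (nat_lit 0) (nat_lit 0) (XT.lf (nat_lit 0) (nat_lit 16079676869) (nat_lit 1140) (nat_lit 982458067) (nat_lit 1216) (nat_lit 161045104) (nat_lit 263) (nat_lit 5) (nat_lit 278) (nat_lit 3) (nat_lit 279) (nat_lit 5) (nat_lit 389) (nat_lit 388) (nat_lit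 243)) (XT.lf (nat_lit 76) (nat_lit 7511414503) (nat_lit 0) (nat_lit 9184168297) (nat_lit 1216) (nat_lit 778531840) (nat_lit 264) (nat_lit 5) (nat_lit 263) (nat_lit 5) (nat_lit 279) (nat_lit 5) (nat_lit 390) (nat_lit 388) (nat_lit 242)))) (XT.nd (nat_lit 156) (nat_lit 0) (nat_lit 0) (XT.nd (nat_lit 78) (nat_lit 1140) (nat_lit 0) (XT.lf (nat_lit 76) (nat_lit 16275579482) (nat_lit 0) (nat_lit 1055761313) (nat_lit 1216) (nat_lit 401198989) (nat_lit 264) (nat_lit 5) (nat_lit 263) (nat_lit 5) (nat_lit 279) (nat_lit 5) (nat_lit 391) (nat_lit 388) (nat_lit 241)) (XT.lf (nat_lit 0) (nat_lit 121951762) (nat_lit 1216) (nat_lit 10623256426) (nat_lit 1292) (nat_lit 7249489059) (nat_lit 248) (nat_lit 5) (nat_lit 264) (nat_lit 5) (nat_lit 265) (nat_lit 5) (nat_lit 392) (nat_lit 388) (nat_lit 240))) (XT.nd (nat_lit 78) (nat_lit 0) (nat_lit 76) (XT.lf (nat_lit 0) (nat_lit 669895096) (nat_lit 1216) (nat_lit 1789223414) (nat_lit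 1292) (nat_lit 15804970336) (nat_lit 248) (nat_lit 5) (nat_lit 264) (nat_lit 5) (nat_lit 265) (nat_lit 5) (nat_lit 393) (nat_lit 388) (nat_lit 239)) (XT.lf (nat_lit 0) (nat_lit 1357123733) (nat_lit 1216) (nat_lit 11148371034) (nat_lit 1292) (nat_lit 6032385353) (nat_lit 249) (nat_lit 5) (nat_lit 265) (nat_lit 5) (nat_lit 266) (nat_lit 5) (nat_lit 394) (nat_lit 388) (nat_lit 238))))))))
noncomputable def xc204 : XT := (XT.nd (nat_lit 2184) (nat_lit 5624) (nat_lit 0) (XT.nd (nat_lit 1092) (nat_lit 4332) (nat_lit 0) (XT.nd (nat_lit 546) (nat_lit 1444) (nat_lit 0) (XT.nd (nat_lit 234) (nat_lit 0) (nat_lit 152) (XT.nd (nat_lit 78) (nat_lit 0) (nat_lit 76) (XT.lf (nat_lit 0) (nat_lit 2099864931) (nat_lit 1216) (nat_lit 1968596421) (nat_lit 1292) (nat_lit 14750380145) (nat_lit 249) (nat_lit 5) (nat_lit 265) (nat_lit 5) (nat_lit 266) (nat_lit 5) (nat_lit 395) (nat_lit 388) (nat_lit 237)) (XT.nd (nat_lit 78) (nat_lit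 0) (nat_lit 0) (XT.lf (nat_lit 0) (nat_lit 2975941944) (nat_lit 1216) (nat_lit 11520826023) (nat_lit 1292) (nat_lit 4608135286) (nat_lit 250) (nat_lit 5) (nat_lit 266) (nat_lit 5) (nat_lit 267) (nat_lit 5) (nat_lit 396) (nat_lit 388) (nat_lit 236)) (XT.lf (nat_lit 0) (nat_lit 3931379882) (nat_lit 1216) (nat_lit 1980803878) (nat_lit 1292) (nat_lit 13485773794) (nat_lit 250) (nat_lit 5) (nat_lit 266) (nat_lit 5) (nat_lit 267) (nat_lit 5) (nat_lit 397) (nat_lit 388) (nat_lit 235)))) (XT.nd (nat_lit 156) (nat_lit 0) (nat_lit 76) (XT.nd (nat_lit 78) (nat_lit 0) (nat_lit 0) (XT.lf (nat_lit 0) (nat_lit 5014227837) (nat_lit 1216) (nat_lit 11730110955) (nat_lit 1292) (nat_lit 2952505250) (nat_lit 251) (nat_lit 5) (nat_lit 267) (nat_lit 5) (nat_lit 268) (nat_lit 5) (nat_lit 398) (nat_lit 388) (nat_lit 234)) (XT.lf (nat_lit 0) (nat_lit 6201409737) (nat_lit 1216) (nat_lit 1814625236) (nat_lit 1292) (nat_lit 11986509572)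 (nat_lit 251) (nat_lit 5) (nat_lit 267) (nat_lit 5) (nat_lit 268) (nat_lit 5) (nat_lit 399) (nat_lit 388) (nat_lit 233))) (XT.nd (nat_lit 78) (nat_lit 0) (nat_lit 0) (XT.lf (nat_lit 0) (nat_lit 7510002800) (nat_lit 1216) (nat_lit 11764922367) (nat_lit 1292) (nat_lit 1039919818) (nat_lit 252) (nat_lit 5) (nat_lit 268) (nat_lit 5) (nat_lit 269) (nat_lit 5) (nat_lit 400) (nat_lit 388) (nat_lit 232)) (XT.lf (nat_lit 0) (nat_lit 8949201801) (nat_lit 1216) (nat_lit 1458020069) (nat_lit 1292) (nat_lit 10226554835) (nat_lit 252) (nat_lit 5) (nat_lit 268) (nat_lit 5) (nat_lit 269) (nat_lit 5) (nat_lit 401) (nat_lit 388) (nat_lit 231))))) (XT.nd (nat_lit 234) (nat_lit 1672) (nat_lit 0) (XT.nd (nat_lit 78) (nat_lit 0) (nat_lit 76) (XT.lf (nat_lit 76) (nat_lit 9335291159) (nat_lit 0) (nat_lit 1179688044) (nat_lit 1292) (nat_lit 10444797734) (nat_lit 253) (nat_lit 5) (nat_lit 252) (nat_lit 5) (nat_lit 269) (nat_lit 5) (nat_lit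 402) (nat_lit 388) (nat_lit 230)) (XT.nd (nat_lit 78) (nat_lit 0) (nat_lit 0) (XT.lf (nat_lit 0) (nat_lit 12216436157) (nat_lit 1216) (nat_lit 898108806) (nat_lit 1292) (nat_lit 8178353581) (nat_lit 253) (nat_lit 5) (nat_lit 269) (nat_lit 5) (nat_lit 270) (nat_lit 5) (nat_lit 403) (nat_lit 388) (nat_lit 229)) (XT.lf (nat_lit 76) (nat_lit 10335087754) (nat_lit 0) (nat_lit 3738871935) (nat_lit 1292) (nat_lit 7558905906) (nat_lit 254) (nat_lit 5) (nat_lit 253) (nat_lit 5) (nat_lit 270) (nat_lit 5) (nat_lit 404) (nat_lit 388) (nat_lit 228)))) (XT.nd (nat_lit 156) (nat_lit 608) (nat_lit 0) (XT.nd (nat_lit 78) (nat_lit 1216) (nat_lit 0) (XT.lf (nat_lit 0) (nat_lit 16047388418) (nat_lit 1216) (nat_lit 121152606) (nat_lit 76) (nat_lit 5812687658) (nat_lit 254) (nat_lit 5) (nat_lit 270) (nat_lit 5) (nat_lit 255) (nat_lit 5) (nat_lit 405) (nat_lit 388) (nat_lit 227)) (XT.lf (nat_lit 0) (nat_lit 11574659183) (nat_lit 1216)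 (nat_lit 6647945401) (nat_lit 1292) (nat_lit 4113162879) (nat_lit 238) (nat_lit 5) (nat_lit 254) (nat_lit 5) (nat_lit 255) (nat_lit 5) (nat_lit 406) (nat_lit 388) (nat_lit 226))) (XT.nd (nat_lit 78) (nat_lit 0) (nat_lit 0) (XT.lf (nat_lit 0) (nat_lit 905129746) (nat_lit 608) (nat_lit 19592671385) (nat_lit 684) (nat_lit 2202101831) (nat_lit 230) (nat_lit 5) (nat_lit 238) (nat_lit 5) (nat_lit 239) (nat_lit 5) (nat_lit 407) (nat_lit 388) (nat_lit 225)) (XT.lf (nat_lit 0) (nat_lit 13069781310) (nat_lit 608) (nat_lit 9939856687) (nat_lit 684) (nat_lit 60275200) (nat_lit 230) (nat_lit 5) (nat_lit 238) (nat_lit 5) (nat_lit 239) (nat_lit 5) (nat_lit 408) (nat_lit 388) (nat_lit 224)))))) (XT.nd (nat_lit 546) (nat_lit 1976) (nat_lit 0) (XT.nd (nat_lit 234) (nat_lit 1064) (nat_lit 0) (XT.nd (nat_lit 78) (nat_lit 608) (nat_lit 0) (XT.lf (nat_lit 0) (nat_lit 2119829790) (nat_lit 684) (nat_lit 21285409690) (nat_lit 76) (nat_lit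 44690656) (nat_lit 221) (nat_lit 5) (nat_lit 230) (nat_lit 5) (nat_lit 222) (nat_lit 5) (nat_lit 409) (nat_lit 388) (nat_lit 223)) (XT.nd (nat_lit 78) (nat_lit 608) (nat_lit 0) (XT.lf (nat_lit 0) (nat_lit 4559280435) (nat_lit 684) (nat_lit 9044333680) (nat_lit 76) (nat_lit 10231862962) (nat_lit 221) (nat_lit 5) (nat_lit 230) (nat_lit 5) (nat_lit 222) (nat_lit 5) (nat_lit 410) (nat_lit 388) (nat_lit 222)) (XT.lf (nat_lit 0) (nat_lit 3629845013) (nat_lit 608) (nat_lit 3471872566) (nat_lit 684) (nat_lit 17129980716) (nat_lit 213) (nat_lit 5) (nat_lit 221) (nat_lit 5) (nat_lit 222) (nat_lit 5) (nat_lit 411) (nat_lit 388) (nat_lit 221)))) (XT.nd (nat_lit 156) (nat_lit 532) (nat_lit 0) (XT.nd (nat_lit 78) (nat_lit 532) (nat_lit 0) (XT.lf (nat_lit 0) (nat_lit 9874615075) (nat_lit 684) (nat_lit 7840326567) (nat_lit 76) (nat_lit 6920240793) (nat_lit 213) (nat_lit 5) (nat_lit 222) (nat_lit 5) (nat_lit 214) (nat_lit 5)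 (nat_lit 412) (nat_lit 388) (nat_lit 220)) (XT.lf (nat_lit 0) (nat_lit 5369532821) (nat_lit 532) (nat_lit 7442314586) (nat_lit 608) (nat_lit 12236491101) (nat_lit 206) (nat_lit 5) (nat_lit 213) (nat_lit 5) (nat_lit 214) (nat_lit 5) (nat_lit 413) (nat_lit 388) (nat_lit 219))) (XT.nd (nat_lit 78) (nat_lit 532) (nat_lit 0) (XT.lf (nat_lit 0) (nat_lit 15942572389) (nat_lit 608) (nat_lit 6371072031) (nat_lit 76) (nat_lit 3157085366) (nat_lit 206) (nat_lit 5) (nat_lit 214) (nat_lit 5) (nat_lit 207) (nat_lit 5) (nat_lit 414) (nat_lit 388) (nat_lit 218)) (XT.lf (nat_lit 0) (nat_lit 7401776710) (nat_lit 532) (nat_lit 11905668201) (nat_lit 608) (nat_lit 6594142858) (nat_lit 199) (nat_lit 5) (nat_lit 206) (nat_lit 5) (nat_lit 207) (nat_lit 5) (nat_lit 415) (nat_lit 388) (nat_lit 217))))) (XT.nd (nat_lit 234) (nat_lit 1444) (nat_lit 0) (XT.nd (nat_lit 78) (nat_lit 532) (nat_lit 0) (XT.lf (nat_lit 0) (nat_lit 21713593384)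 (nat_lit 532) (nat_lit 1119482645) (nat_lit 608) (nat_lit 3510502780) (nat_lit 199) (nat_lit 5) (nat_lit 206) (nat_lit 5) (nat_lit 207) (nat_lit 5) (nat_lit 416) (nat_lit 388) (nat_lit 216)) (XT.nd (nat_lit 78) (nat_lit 76) (nat_lit 0) (XT.lf (nat_lit 0) (nat_lit 9745258770) (nat_lit 456) (nat_lit 16904533525) (nat_lit 532) (nat_lit 143479437) (nat_lit 193) (nat_lit 5) (nat_lit 199) (nat_lit 5) (nat_lit 200) (nat_lit 5) (nat_lit 417) (nat_lit 388) (nat_lit 215)) (XT.lf (nat_lit 0) (nat_lit 3313625261) (nat_lit 532) (nat_lit 2656736564) (nat_lit 76) (nat_lit 21283518095) (nat_lit 192) (nat_lit 5) (nat_lit 199) (nat_lit 5) (nat_lit 193) (nat_lit 5) (nat_lit 418) (nat_lit 388) (nat_lit 214)))) (XT.nd (nat_lit 156) (nat_lit 912) (nat_lit 0) (XT.nd (nat_lit 78) (nat_lit 0) (nat_lit 0) (XT.lf (nat_lit 0) (nat_lit 7038605530) (nat_lit 608) (nat_lit 15374713818) (nat_lit 76) (nat_lit 5309934504) (nat_lit 185) (nat_lit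 5) (nat_lit 193) (nat_lit 5) (nat_lit 186) (nat_lit 5) (nat_lit 419) (nat_lit 388) (nat_lit 213)) (XT.lf (nat_lit 0) (nat_lit 10957385491) (nat_lit 608) (nat_lit 411630145) (nat_lit 76) (nat_lit 16835233314) (nat_lit 185) (nat_lit 5) (nat_lit 193) (nat_lit 5) (nat_lit 186) (nat_lit 5) (nat_lit 420) (nat_lit 388) (nat_lit 212))) (XT.nd (nat_lit 78) (nat_lit 456) (nat_lit 0) (XT.lf (nat_lit 0) (nat_lit 15138224277) (nat_lit 532) (nat_lit 13402753275) (nat_lit 76) (nat_lit 154362901) (nat_lit 179) (nat_lit 5) (nat_lit 186) (nat_lit 5) (nat_lit 180) (nat_lit 5) (nat_lit 421) (nat_lit 388) (nat_lit 211)) (XT.lf (nat_lit 0) (nat_lit 2200959485) (nat_lit 456) (nat_lit 17377480597) (nat_lit 532) (nat_lit 9618707438) (nat_lit 173) (nat_lit 5) (nat_lit 179) (nat_lit 5) (nat_lit 180) (nat_lit 5) (nat_lit 422) (nat_lit 388) (nat_lit 210))))))) (XT.nd (nat_lit 1092) (nat_lit 2812) (nat_lit 0) (XT.nd (nat_lit 546) (nat_lit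 1520) (nat_lit 0) (XT.nd (nat_lit 234) (nat_lit 836) (nat_lit 0) (XT.nd (nat_lit 78) (nat_lit 456) (nat_lit 0) (XT.lf (nat_lit 0) (nat_lit 18542860601) (nat_lit 456) (nat_lit 5740446552) (nat_lit 532) (nat_lit 5426759634) (nat_lit 173) (nat_lit 5) (nat_lit 179) (nat_lit 5) (nat_lit 180) (nat_lit 5) (nat_lit 423) (nat_lit 388) (nat_lit 209)) (XT.nd (nat_lit 78) (nat_lit 76) (nat_lit 0) (XT.lf (nat_lit 0) (nat_lit 5172911755) (nat_lit 380) (nat_lit 24062380729) (nat_lit 456) (nat_lit 999903279) (nat_lit 168) (nat_lit 5) (nat_lit 173) (nat_lit 5) (nat_lit 174) (nat_lit 5) (nat_lit 424) (nat_lit 388) (nat_lit 208)) (XT.lf (nat_lit 0) (nat_lit 3657252273) (nat_lit 456) (nat_lit 8637385426) (nat_lit 76) (nat_lit 18475406853) (nat_lit 167) (nat_lit 5) (nat_lit 173) (nat_lit 5) (nat_lit 168) (nat_lit 5) (nat_lit 425) (nat_lit 388) (nat_lit 207)))) (XT.nd (nat_lit 156) (nat_lit 380) (nat_lit 0) (XT.nd (nat_lit 78) (nat_lit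 0) (nat_lit 0) (XT.lf (nat_lit 0) (nat_lit 8430333581) (nat_lit 456) (nat_lit 81076677) (nat_lit 532) (nat_lit 22806911188) (nat_lit 161) (nat_lit 5) (nat_lit 167) (nat_lit 5) (nat_lit 168) (nat_lit 5) (nat_lit 426) (nat_lit 388) (nat_lit 206)) (XT.lf (nat_lit 0) (nat_lit 13715826112) (nat_lit 532) (nat_lit 5818886923) (nat_lit 76) (nat_lit 12342195767) (nat_lit 161) (nat_lit 5) (nat_lit 168) (nat_lit 5) (nat_lit 162) (nat_lit 5) (nat_lit 427) (nat_lit 388) (nat_lit 205))) (XT.nd (nat_lit 78) (nat_lit 0) (nat_lit 0) (XT.lf (nat_lit 0) (nat_lit 11991017462) (nat_lit 380) (nat_lit 7197931426) (nat_lit 456) (nat_lit 13259928775) (nat_lit 156) (nat_lit 5) (nat_lit 161) (nat_lit 5) (nat_lit 162) (nat_lit 5) (nat_lit 428) (nat_lit 388) (nat_lit 204)) (XT.lf (nat_lit 0) (nat_lit 24935118569) (nat_lit 456) (nat_lit 2639785382) (nat_lit 76) (nat_lit 5459837127) (nat_lit 156) (nat_lit 5) (nat_lit 162) (nat_lit 5) (nat_lit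 157) (nat_lit 5) (nat_lit 429) (nat_lit 388) (nat_lit 203))))) (XT.nd (nat_lit 234) (nat_lit 684) (nat_lit 0) (XT.nd (nat_lit 78) (nat_lit 456) (nat_lit 0) (XT.lf (nat_lit 0) (nat_lit 15948401201) (nat_lit 380) (nat_lit 15126501528) (nat_lit 456) (nat_lit 2556641837) (nat_lit 151) (nat_lit 5) (nat_lit 156) (nat_lit 5) (nat_lit 157) (nat_lit 5) (nat_lit 430) (nat_lit 388) (nat_lit 202)) (XT.nd (nat_lit 78) (nat_lit 0) (nat_lit 0) (XT.lf (nat_lit 0) (nat_lit 885199669) (nat_lit 380) (nat_lit 2238018253) (nat_lit 456) (nat_lit 31121162817) (nat_lit 145) (nat_lit 5) (nat_lit 150) (nat_lit 5) (nat_lit 151) (nat_lit 5) (nat_lit 431) (nat_lit 388) (nat_lit 201)) (XT.lf (nat_lit 0) (nat_lit 9205239614) (nat_lit 456) (nat_lit 14634785871) (nat_lit 76) (nat_lit 11026323513) (nat_lit 145) (nat_lit 5) (nat_lit 151) (nat_lit 5) (nat_lit 146) (nat_lit 5) (nat_lit 432) (nat_lit 388) (nat_lit 200)))) (XT.nd (nat_lit 156) (nat_lit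 304) (nat_lit 0) (XT.nd (nat_lit 78) (nat_lit 0) (nat_lit 0) (XT.lf (nat_lit 0) (nat_lit 4716911843) (nat_lit 380) (nat_lit 10817129499) (nat_lit 456) (nat_lit 19971006317) (nat_lit 140) (nat_lit 5) (nat_lit 145) (nat_lit 5) (nat_lit 146) (nat_lit 5) (nat_lit 433) (nat_lit 388) (nat_lit 199)) (XT.lf (nat_lit 0) (nat_lit 22223771202) (nat_lit 456) (nat_lit 11240092631) (nat_lit 76) (nat_lit 2693912433) (nat_lit 140) (nat_lit 5) (nat_lit 146) (nat_lit 5) (nat_lit 141) (nat_lit 5) (nat_lit 434) (nat_lit 388) (nat_lit 198))) (XT.nd (nat_lit 78) (nat_lit 0) (nat_lit 0) (XT.lf (nat_lit 0) (nat_lit 8957862410) (nat_lit 304) (nat_lit 20346490308) (nat_lit 380) (nat_lit 7520030102) (nat_lit 136) (nat_lit 5) (nat_lit 140) (nat_lit 5) (nat_lit 141) (nat_lit 5) (nat_lit 435) (nat_lit 388) (nat_lit 197)) (XT.lf (nat_lit 0) (nat_lit 29987979136) (nat_lit 304) (nat_lit 6719875003) (nat_lit 380) (nat_lit 799819214) (nat_lit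 136) (nat_lit 5) (nat_lit 140) (nat_lit 5) (nat_lit 141) (nat_lit 5) (nat_lit 436) (nat_lit 388) (nat_lit 196)))))) (XT.nd (nat_lit 546) (nat_lit 1368) (nat_lit 0) (XT.nd (nat_lit 234) (nat_lit 684) (nat_lit 0) (XT.nd (nat_lit 78) (nat_lit 304) (nat_lit 0) (XT.lf (nat_lit 0) (nat_lit 6202907208) (nat_lit 456) (nat_lit 24637300356) (nat_lit 76) (nat_lit 7363479250) (nat_lit 130) (nat_lit 5) (nat_lit 136) (nat_lit 5) (nat_lit 131) (nat_lit 5) (nat_lit 437) (nat_lit 388) (nat_lit 195)) (XT.nd (nat_lit 78) (nat_lit 304) (nat_lit 0) (XT.lf (nat_lit 0) (nat_lit 13539951572) (nat_lit 456) (nat_lit 3558472027) (nat_lit 76) (nat_lit 21817710941) (nat_lit 130) (nat_lit 5) (nat_lit 136) (nat_lit 5) (nat_lit 131) (nat_lit 5) (nat_lit 438) (nat_lit 388) (nat_lit 194)) (XT.lf (nat_lit 0) (nat_lit 18509875646) (nat_lit 304) (nat_lit 2762336876) (nat_lit 380) (nat_lit 18372490779) (nat_lit 126) (nat_lit 5) (nat_lit 130) (nat_lit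 5) (nat_lit 131) (nat_lit 5) (nat_lit 439) (nat_lit 388) (nat_lit 193)))) (XT.nd (nat_lit 156) (nat_lit 380) (nat_lit 0) (XT.nd (nat_lit 78) (nat_lit 0) (nat_lit 0) (XT.lf (nat_lit 0) (nat_lit 815259895) (nat_lit 304) (nat_lit 28577904772) (nat_lit 380) (nat_lit 10997263496) (nat_lit 122) (nat_lit 5) (nat_lit 126) (nat_lit 5) (nat_lit 127) (nat_lit 5) (nat_lit 440) (nat_lit 388) (nat_lit 192)) (XT.lf (nat_lit 0) (nat_lit 23825166441) (nat_lit 304) (nat_lit 14170332554) (nat_lit 380) (nat_lit 3155893885) (nat_lit 122) (nat_lit 5) (nat_lit 126) (nat_lit 5) (nat_lit 127) (nat_lit 5) (nat_lit 441) (nat_lit 388) (nat_lit 191))) (XT.nd (nat_lit 78) (nat_lit 0) (nat_lit 0) (XT.lf (nat_lit 0) (nat_lit 4883732548) (nat_lit 380) (nat_lit 36290500637) (nat_lit 76) (nat_lit 757763901) (nat_lit 117) (nat_lit 5) (nat_lit 122) (nat_lit 5) (nat_lit 118) (nat_lit 5) (nat_lit 442) (nat_lit 388) (nat_lit 190)) (XT.lf (nat_lit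 0) (nat_lit 13415443931) (nat_lit 380) (nat_lit 13254626667) (nat_lit 76) (nat_lit 16055582287) (nat_lit 117) (nat_lit 5) (nat_lit 122) (nat_lit 5) (nat_lit 118) (nat_lit 5) (nat_lit 443) (nat_lit 388) (nat_lit 189))))) (XT.nd (nat_lit 312) (nat_lit 760) (nat_lit 0) (XT.nd (nat_lit 156) (nat_lit 304) (nat_lit 0) (XT.nd (nat_lit 78) (nat_lit 0) (nat_lit 0) (XT.lf (nat_lit 0) (nat_lit 10676783821) (nat_lit 304) (nat_lit 11626365267) (nat_lit 380) (nat_lit 21236968634) (nat_lit 113) (nat_lit 5) (nat_lit 117) (nat_lit 5) (nat_lit 118) (nat_lit 5) (nat_lit 444) (nat_lit 388) (nat_lit 188)) (XT.lf (nat_lit 0) (nat_lit 31627280879) (nat_lit 380) (nat_lit 8819579565) (nat_lit 76) (nat_lit 3927062815) (nat_lit 113) (nat_lit 5) (nat_lit 118) (nat_lit 5) (nat_lit 114) (nat_lit 5) (nat_lit 445) (nat_lit 388) (nat_lit 187))) (XT.nd (nat_lit 78) (nat_lit 76) (nat_lit 0) (XT.lf (nat_lit 0) (nat_lit 16141559835) (nat_lit 228)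 (nat_lit 25357363212) (nat_lit 304) (nat_lit 3725786922) (nat_lit 110) (nat_lit 5) (nat_lit 113) (nat_lit 5) (nat_lit 114) (nat_lit 5) (nat_lit 446) (nat_lit 388) (nat_lit 186)) (XT.lf (nat_lit 0) (nat_lit 5544552565) (nat_lit 304) (nat_lit 4124212630) (nat_lit 76) (nat_lit 36428026674) (nat_lit 109) (nat_lit 5) (nat_lit 113) (nat_lit 5) (nat_lit 110) (nat_lit 5) (nat_lit 447) (nat_lit 388) (nat_lit 185)))) (XT.nd (nat_lit 156) (nat_lit 228) (nat_lit 0) (XT.nd (nat_lit 78) (nat_lit 228) (nat_lit 0) (XT.lf (nat_lit 0) (nat_lit 15291752120) (nat_lit 380) (nat_lit 25080847284) (nat_lit 76) (nat_lit 6613121666) (nat_lit 105) (nat_lit 5) (nat_lit 110) (nat_lit 5) (nat_lit 106) (nat_lit 5) (nat_lit 448) (nat_lit 388) (nat_lit 184)) (XT.lf (nat_lit 0) (nat_lit 815354411) (nat_lit 228) (nat_lit 24659257552) (nat_lit 304) (nat_lit 22422409388) (nat_lit 102) (nat_lit 5) (nat_lit 105) (nat_lit 5) (nat_lit 106) (nat_lit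 5) (nat_lit 449) (nat_lit 388) (nat_lit 183))) (XT.nd (nat_lit 78) (nat_lit 228) (nat_lit 0) (XT.lf (nat_lit 0) (nat_lit 27998891648) (nat_lit 228) (nat_lit 8214984789) (nat_lit 304) (nat_lit 12614257156) (nat_lit 102) (nat_lit 5) (nat_lit 105) (nat_lit 5) (nat_lit 106) (nat_lit 5) (nat_lit 450) (nat_lit 388) (nat_lit 182)) (XT.lf (nat_lit 0) (nat_lit 6245141419) (nat_lit 228) (nat_lit 41171764072) (nat_lit 304) (nat_lit 2366026616) (nat_lit 99) (nat_lit 5) (nat_lit 102) (nat_lit 5) (nat_lit 103) (nat_lit 5) (nat_lit 451) (nat_lit 388) (nat_lit 181))))))))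
noncomputable def xc205 : XT := (XT.nd (nat_lit 48204) (nat_lit 0) (nat_lit 11020) (XT.nd (nat_lit 1092) (nat_lit 1672) (nat_lit 0) (XT.nd (nat_lit 546) (nat_lit 912) (nat_lit 0) (XT.nd (nat_lit 234) (nat_lit 532) (nat_lit 0) (XT.nd (nat_lit 78) (nat_lit 228) (nat_lit 0) (XT.lf (nat_lit 0) (nat_lit 8321311501) (nat_lit 304) (nat_lit 16367114917) (nat_lit 76) (nat_lit 26066842806) (nat_lit 98) (nat_lit 5) (nat_lit 102) (nat_lit 5) (nat_lit 99) (nat_lit 5) (nat_lit 452) (nat_lit 388) (nat_lit 180)) (XT.nd (nat_lit 78) (nat_lit 0) (nat_lit 0) (XT.lf (nat_lit 0) (nat_lit 11822416384) (nat_lit 228) (nat_lit 7570726131) (nat_lit 304) (nat_lit 32359588794) (nat_lit 95) (nat_lit 5) (nat_lit 98) (nat_lit 5) (nat_lit 99) (nat_lit 5) (nat_lit 453) (nat_lit 388) (nat_lit 179)) (XT.lf (nat_lit 0) (nat_lit 31058549849) (nat_lit 304) (nat_lit 11683915033) (nat_lit 76) (nat_lit 10029810179) (nat_lit 95) (nat_lit 5) (nat_lit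 99) (nat_lit 5) (nat_lit 96) (nat_lit 5) (nat_lit 454) (nat_lit 388) (nat_lit 178)))) (XT.nd (nat_lit 156) (nat_lit 228) (nat_lit 0) (XT.nd (nat_lit 78) (nat_lit 76) (nat_lit 0) (XT.lf (nat_lit 0) (nat_lit 17676397547) (nat_lit 228) (nat_lit 25640261417) (nat_lit 304) (nat_lit 10498464409) (nat_lit 92) (nat_lit 5) (nat_lit 95) (nat_lit 5) (nat_lit 96) (nat_lit 5) (nat_lit 455) (nat_lit 388) (nat_lit 177)) (XT.lf (nat_lit 0) (nat_lit 1149727820) (nat_lit 304) (nat_lit 6743442669) (nat_lit 76) (nat_lit 46992272527) (nat_lit 91) (nat_lit 5) (nat_lit 95) (nat_lit 5) (nat_lit 92) (nat_lit 5) (nat_lit 456) (nat_lit 388) (nat_lit 176))) (XT.nd (nat_lit 78) (nat_lit 0) (nat_lit 0) (XT.lf (nat_lit 0) (nat_lit 13267093590) (nat_lit 304) (nat_lit 32188431505) (nat_lit 76) (nat_lit 10519307101) (nat_lit 88) (nat_lit 5) (nat_lit 92) (nat_lit 5) (nat_lit 89) (nat_lit 5) (nat_lit 457) (nat_lit 388) (nat_lit 175)) (XT.lf (nat_lit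 0) (nat_lit 25892851563) (nat_lit 304) (nat_lit 1806687309) (nat_lit 76) (nat_lit 29393018425) (nat_lit 88) (nat_lit 5) (nat_lit 92) (nat_lit 5) (nat_lit 89) (nat_lit 5) (nat_lit 458) (nat_lit 388) (nat_lit 174))))) (XT.nd (nat_lit 234) (nat_lit 456) (nat_lit 0) (XT.nd (nat_lit 78) (nat_lit 228) (nat_lit 0) (XT.lf (nat_lit 0) (nat_lit 30070005634) (nat_lit 228) (nat_lit 9114438867) (nat_lit 304) (nat_lit 19050758157) (nat_lit 85) (nat_lit 5) (nat_lit 88) (nat_lit 5) (nat_lit 89) (nat_lit 5) (nat_lit 459) (nat_lit 388) (nat_lit 173)) (XT.nd (nat_lit 78) (nat_lit 76) (nat_lit 0) (XT.lf (nat_lit 0) (nat_lit 3496819749) (nat_lit 152) (nat_lit 49524426352) (nat_lit 228) (nat_lit 6386487819) (nat_lit 83) (nat_lit 5) (nat_lit 85) (nat_lit 5) (nat_lit 86) (nat_lit 5) (nat_lit 460) (nat_lit 388) (nat_lit 172)) (XT.lf (nat_lit 0) (nat_lit 6903297796) (nat_lit 228) (nat_lit 24081208388) (nat_lit 76) (nat_lit 29617750244)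 (nat_lit 82) (nat_lit 5) (nat_lit 85) (nat_lit 5) (nat_lit 83) (nat_lit 5) (nat_lit 461) (nat_lit 388) (nat_lit 171)))) (XT.nd (nat_lit 156) (nat_lit 228) (nat_lit 0) (XT.nd (nat_lit 78) (nat_lit 0) (nat_lit 0) (XT.lf (nat_lit 0) (nat_lit 8808844719) (nat_lit 228) (nat_lit 11737335382) (nat_lit 304) (nat_lit 41282054911) (nat_lit 79) (nat_lit 5) (nat_lit 82) (nat_lit 5) (nat_lit 83) (nat_lit 5) (nat_lit 462) (nat_lit 388) (nat_lit 170)) (XT.lf (nat_lit 0) (nat_lit 34919771112) (nat_lit 304) (nat_lit 19987821134) (nat_lit 76) (nat_lit 8173758363) (nat_lit 79) (nat_lit 5) (nat_lit 83) (nat_lit 5) (nat_lit 80) (nat_lit 5) (nat_lit 463) (nat_lit 388) (nat_lit 169))) (XT.nd (nat_lit 78) (nat_lit 76) (nat_lit 0) (XT.lf (nat_lit 0) (nat_lit 14192303812) (nat_lit 152) (nat_lit 35783059663) (nat_lit 228) (nat_lit 14389172704) (nat_lit 77) (nat_lit 5) (nat_lit 79) (nat_lit 5) (nat_lit 80) (nat_lit 5) (nat_lit 464) (nat_lit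 388) (nat_lit 168)) (XT.lf (nat_lit 0) (nat_lit 2378251) (nat_lit 228) (nat_lit 15875769514) (nat_lit 76) (nat_lit 49802068584) (nat_lit 76) (nat_lit 5) (nat_lit 79) (nat_lit 5) (nat_lit 77) (nat_lit 5) (nat_lit 465) (nat_lit 388) (nat_lit 167)))))) (XT.nd (nat_lit 546) (nat_lit 912) (nat_lit 0) (XT.nd (nat_lit 234) (nat_lit 380) (nat_lit 0) (XT.nd (nat_lit 78) (nat_lit 152) (nat_lit 0) (XT.lf (nat_lit 0) (nat_lit 14771659931) (nat_lit 304) (nat_lit 47384918083) (nat_lit 76) (nat_lit 4867459417) (nat_lit 73) (nat_lit 5) (nat_lit 77) (nat_lit 5) (nat_lit 74) (nat_lit 5) (nat_lit 466) (nat_lit 388) (nat_lit 166)) (XT.nd (nat_lit 78) (nat_lit 152) (nat_lit 0) (XT.lf (nat_lit 0) (nat_lit 30301358316) (nat_lit 304) (nat_lit 12020317207) (nat_lit 76) (nat_lit 26076977752) (nat_lit 73) (nat_lit 5) (nat_lit 77) (nat_lit 5) (nat_lit 74) (nat_lit 5) (nat_lit 467) (nat_lit 388) (nat_lit 165)) (XT.lf (nat_lit 0) (nat_lit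 24887913933) (nat_lit 152) (nat_lit 21646550661) (nat_lit 228) (nat_lit 23272917764) (nat_lit 71) (nat_lit 5) (nat_lit 73) (nat_lit 5) (nat_lit 74) (nat_lit 5) (nat_lit 468) (nat_lit 388) (nat_lit 164)))) (XT.nd (nat_lit 156) (nat_lit 152) (nat_lit 0) (XT.nd (nat_lit 78) (nat_lit 228) (nat_lit 0) (XT.lf (nat_lit 0) (nat_lit 63146865148) (nat_lit 152) (nat_lit 227381577) (nat_lit 228) (nat_lit 7880536370) (nat_lit 71) (nat_lit 5) (nat_lit 73) (nat_lit 5) (nat_lit 74) (nat_lit 5) (nat_lit 469) (nat_lit 388) (nat_lit 163)) (XT.lf (nat_lit 0) (nat_lit 8321330002) (nat_lit 228) (nat_lit 42628024513) (nat_lit 76) (nat_lit 21778852943) (nat_lit 68) (nat_lit 5) (nat_lit 71) (nat_lit 5) (nat_lit 69) (nat_lit 5) (nat_lit 470) (nat_lit 388) (nat_lit 162))) (XT.nd (nat_lit 78) (nat_lit 152) (nat_lit 0) (XT.lf (nat_lit 0) (nat_lit 24934140851) (nat_lit 228) (nat_lit 4706623504) (nat_lit 76) (nat_lit 44600231300) (nat_lit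 68) (nat_lit 5) (nat_lit 71) (nat_lit 5) (nat_lit 69) (nat_lit 5) (nat_lit 471) (nat_lit 388) (nat_lit 161)) (XT.lf (nat_lit 0) (nat_lit 35033239010) (nat_lit 152) (nat_lit 7347249643) (nat_lit 228) (nat_lit 33408624498) (nat_lit 66) (nat_lit 5) (nat_lit 68) (nat_lit 5) (nat_lit 69) (nat_lit 5) (nat_lit 472) (nat_lit 388) (nat_lit 160))))) (XT.nd (nat_lit 234) (nat_lit 532) (nat_lit 0) (XT.nd (nat_lit 78) (nat_lit 380) (nat_lit 0) (XT.lf (nat_lit 0) (nat_lit 60546727152) (nat_lit 228) (nat_lit 1473856094) (nat_lit 76) (nat_lit 15357196146) (nat_lit 66) (nat_lit 5) (nat_lit 69) (nat_lit 5) (nat_lit 67) (nat_lit 5) (nat_lit 473) (nat_lit 388) (nat_lit 159)) (XT.nd (nat_lit 78) (nat_lit 152) (nat_lit 0) (XT.lf (nat_lit 0) (nat_lit 696244414) (nat_lit 228) (nat_lit 39321798185) (nat_lit 76) (nat_lit 38982278246) (nat_lit 63) (nat_lit 5) (nat_lit 66) (nat_lit 5) (nat_lit 64) (nat_lit 5) (nat_lit 474) (nat_lit 388)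 (nat_lit 158)) (XT.lf (nat_lit 0) (nat_lit 1280043732) (nat_lit 152) (nat_lit 17156814561) (nat_lit 228) (nat_lit 62228907560) (nat_lit 61) (nat_lit 5) (nat_lit 63) (nat_lit 5) (nat_lit 64) (nat_lit 5) (nat_lit 475) (nat_lit 388) (nat_lit 157)))) (XT.nd (nat_lit 312) (nat_lit 380) (nat_lit 0) (XT.nd (nat_lit 78) (nat_lit 152) (nat_lit 0) (XT.lf (nat_lit 0) (nat_lit 37170580631) (nat_lit 228) (nat_lit 38531365574) (nat_lit 76) (nat_lit 6665401506) (nat_lit 61) (nat_lit 5) (nat_lit 64) (nat_lit 5) (nat_lit 62) (nat_lit 5) (nat_lit 476) (nat_lit 388) (nat_lit 156)) (XT.lf (nat_lit 0) (nat_lit 3443278555) (nat_lit 152) (nat_lit 53224507901) (nat_lit 228) (nat_lit 27446146610) (nat_lit 59) (nat_lit 5) (nat_lit 61) (nat_lit 5) (nat_lit 62) (nat_lit 5) (nat_lit 477) (nat_lit 388) (nat_lit 155))) (XT.nd (nat_lit 78) (nat_lit 152) (nat_lit 0) (XT.lf (nat_lit 0) (nat_lit 30385396816) (nat_lit 228) (nat_lit 39253913174)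 (nat_lit 76) (nat_lit 19970098025) (nat_lit 56) (nat_lit 5) (nat_lit 59) (nat_lit 5) (nat_lit 57) (nat_lit 5) (nat_lit 480) (nat_lit 388) (nat_lit 152)) (XT.lf (nat_lit 0) (nat_lit 5526707885) (nat_lit 152) (nat_lit 45628040069) (nat_lit 228) (nat_lit 40379274936) (nat_lit 54) (nat_lit 5) (nat_lit 56) (nat_lit 5) (nat_lit 57) (nat_lit 5) (nat_lit 481) (nat_lit 388) (nat_lit 151))))))) (XT.nd (nat_lit 1092) (nat_lit 3648) (nat_lit 0) (XT.nd (nat_lit 546) (nat_lit 0) (nat_lit 152) (XT.nd (nat_lit 234) (nat_lit 1216) (nat_lit 0) (XT.nd (nat_lit 78) (nat_lit 0) (nat_lit 0) (XT.lf (nat_lit 0) (nat_lit 4133371255) (nat_lit 0) (nat_lit 4133371255) (nat_lit 1140) (nat_lit 468821878) (nat_lit 263) (nat_lit 5) (nat_lit 263) (nat_lit 3) (nat_lit 278) (nat_lit 3) (nat_lit 389) (nat_lit 389) (nat_lit 242)) (XT.nd (nat_lit 78) (nat_lit 0) (nat_lit 0) (XT.lf (nat_lit 0) (nat_lit 16946393899) (nat_lit 0) (nat_lit 47597515)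 (nat_lit 1140) (nat_lit 732735800) (nat_lit 263) (nat_lit 5) (nat_lit 263) (nat_lit 3) (nat_lit 278) (nat_lit 3) (nat_lit 390) (nat_lit 389) (nat_lit 241)) (XT.lf (nat_lit 76) (nat_lit 7966537908) (nat_lit 0) (nat_lit 9651020882) (nat_lit 1216) (nat_lit 367961082) (nat_lit 264) (nat_lit 5) (nat_lit 263) (nat_lit 5) (nat_lit 279) (nat_lit 5) (nat_lit 391) (nat_lit 389) (nat_lit 240)))) (XT.nd (nat_lit 156) (nat_lit 0) (nat_lit 76) (XT.nd (nat_lit 78) (nat_lit 0) (nat_lit 76) (XT.lf (nat_lit 0) (nat_lit 7895966) (nat_lit 1216) (nat_lit 1265213343) (nat_lit 1292) (nat_lit 16978959487) (nat_lit 247) (nat_lit 5) (nat_lit 263) (nat_lit 5) (nat_lit 264) (nat_lit 5) (nat_lit 392) (nat_lit 389) (nat_lit 239)) (XT.lf (nat_lit 0) (nat_lit 527176960) (nat_lit 1216) (nat_lit 10698800783) (nat_lit 1292) (nat_lit 7296344166) (nat_lit 248) (nat_lit 5) (nat_lit 264) (nat_lit 5) (nat_lit 265) (nat_lit 5) (nat_lit 393) (nat_lit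 389) (nat_lit 238))) (XT.nd (nat_lit 78) (nat_lit 0) (nat_lit 76) (XT.lf (nat_lit 0) (nat_lit 1079862479) (nat_lit 1216) (nat_lit 1606828917) (nat_lit 1292) (nat_lit 16113459674) (nat_lit 248) (nat_lit 5) (nat_lit 264) (nat_lit 5) (nat_lit 265) (nat_lit 5) (nat_lit 394) (nat_lit 389) (nat_lit 237)) (XT.lf (nat_lit 0) (nat_lit 1777186431) (nat_lit 1216) (nat_lit 11236069880) (nat_lit 1292) (nat_lit 6069220202) (nat_lit 249) (nat_lit 5) (nat_lit 265) (nat_lit 5) (nat_lit 266) (nat_lit 5) (nat_lit 395) (nat_lit 389) (nat_lit 236))))) (XT.nd (nat_lit 234) (nat_lit 0) (nat_lit 152) (XT.nd (nat_lit 78) (nat_lit 0) (nat_lit 76) (XT.lf (nat_lit 0) (nat_lit 2531160866) (nat_lit 1216) (nat_lit 1788088989) (nat_lit 1292) (nat_lit 15052952995) (nat_lit 249) (nat_lit 5) (nat_lit 265) (nat_lit 5) (nat_lit 266) (nat_lit 5) (nat_lit 396) (nat_lit 389) (nat_lit 235)) (XT.nd (nat_lit 78) (nat_lit 0) (nat_lit 0) (XT.lf (nat_lit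 0) (nat_lit 3423894420) (nat_lit 1216) (nat_lit 11617109328) (nat_lit 1292) (nat_lit 4626135994) (nat_lit 250) (nat_lit 5) (nat_lit 266) (nat_lit 5) (nat_lit 267) (nat_lit 5) (nat_lit 397) (nat_lit 389) (nat_lit 234)) (XT.lf (nat_lit 0) (nat_lit 4397548674) (nat_lit 1216) (nat_lit 1798148892) (nat_lit 1292) (nat_lit 13773605891) (nat_lit 250) (nat_lit 5) (nat_lit 266) (nat_lit 5) (nat_lit 267) (nat_lit 5) (nat_lit 398) (nat_lit 389) (nat_lit 233)))) (XT.nd (nat_lit 156) (nat_lit 0) (nat_lit 76) (XT.nd (nat_lit 78) (nat_lit 0) (nat_lit 0) (XT.lf (nat_lit 0) (nat_lit 5504075892) (nat_lit 1216) (nat_lit 11830987256) (nat_lit 1292) (nat_lit 2942361830) (nat_lit 251) (nat_lit 5) (nat_lit 267) (nat_lit 5) (nat_lit 268) (nat_lit 5) (nat_lit 399) (nat_lit 389) (nat_lit 232)) (XT.lf (nat_lit 0) (nat_lit 6716987193) (nat_lit 1216) (nat_lit 1625348432) (nat_lit 1292) (nat_lit 12250261580) (nat_lit 251) (nat_lit 5) (nat_lit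 267) (nat_lit 5) (nat_lit 268) (nat_lit 5) (nat_lit 400) (nat_lit 389) (nat_lit 231))) (XT.nd (nat_lit 78) (nat_lit 0) (nat_lit 0) (XT.lf (nat_lit 0) (nat_lit 8056781757) (nat_lit 1216) (nat_lit 11865964573) (nat_lit 1292) (nat_lit 991766025) (nat_lit 252) (nat_lit 5) (nat_lit 268) (nat_lit 5) (nat_lit 269) (nat_lit 5) (nat_lit 401) (nat_lit 389) (nat_lit 230)) (XT.lf (nat_lit 0) (nat_lit 9529793265) (nat_lit 1216) (nat_lit 1257192259) (nat_lit 1292) (nat_lit 10456311299) (nat_lit 252) (nat_lit 5) (nat_lit 268) (nat_lit 5) (nat_lit 269) (nat_lit 5) (nat_lit 402) (nat_lit 389) (nat_lit 229)))))) (XT.nd (nat_lit 546) (nat_lit 2280) (nat_lit 0) (XT.nd (nat_lit 234) (nat_lit 1748) (nat_lit 0) (XT.nd (nat_lit 78) (nat_lit 0) (nat_lit 76) (XT.lf (nat_lit 76) (nat_lit 9857520577) (nat_lit 0) (nat_lit 1278260565) (nat_lit 1292) (nat_lit 10443502583) (nat_lit 253) (nat_lit 5) (nat_lit 252) (nat_lit 5) (nat_lit 269) (nat_lit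 5) (nat_lit 403) (nat_lit 389) (nat_lit 228)) (XT.nd (nat_lit 78) (nat_lit 0) (nat_lit 0) (XT.lf (nat_lit 0) (nat_lit 12878798387) (nat_lit 1216) (nat_lit 680329211) (nat_lit 1292) (nat_lit 8363559553) (nat_lit 253) (nat_lit 5) (nat_lit 269) (nat_lit 5) (nat_lit 270) (nat_lit 5) (nat_lit 404) (nat_lit 389) (nat_lit 227)) (XT.lf (nat_lit 76) (nat_lit 10887464002) (nat_lit 0) (nat_lit 3898295438) (nat_lit 1292) (nat_lit 7487285981) (nat_lit 254) (nat_lit 5) (nat_lit 253) (nat_lit 5) (nat_lit 270) (nat_lit 5) (nat_lit 405) (nat_lit 389) (nat_lit 226)))) (XT.nd (nat_lit 156) (nat_lit 684) (nat_lit 0) (XT.nd (nat_lit 78) (nat_lit 0) (nat_lit 0) (XT.lf (nat_lit 0) (nat_lit 121846819) (nat_lit 1216) (nat_lit 16688840046) (nat_lit 1292) (nat_lit 5821407119) (nat_lit 238) (nat_lit 5) (nat_lit 254) (nat_lit 5) (nat_lit 255) (nat_lit 5) (nat_lit 406) (nat_lit 389) (nat_lit 225)) (XT.lf (nat_lit 0) (nat_lit 12163760623)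 (nat_lit 1216) (nat_lit 6880376660) (nat_lit 1292) (nat_lit 3953345669) (nat_lit 238) (nat_lit 5) (nat_lit 254) (nat_lit 5) (nat_lit 255) (nat_lit 5) (nat_lit 407) (nat_lit 389) (nat_lit 224))) (XT.nd (nat_lit 78) (nat_lit 76) (nat_lit 0) (XT.lf (nat_lit 0) (nat_lit 1180363746) (nat_lit 608) (nat_lit 20201297295) (nat_lit 684) (nat_lit 1991062594) (nat_lit 230) (nat_lit 5) (nat_lit 238) (nat_lit 5) (nat_lit 239) (nat_lit 5) (nat_lit 408) (nat_lit 389) (nat_lit 223)) (XT.lf (nat_lit 0) (nat_lit 202909595) (nat_lit 684) (nat_lit 10053332413) (nat_lit 76) (nat_lit 13497770639) (nat_lit 229) (nat_lit 5) (nat_lit 238) (nat_lit 5) (nat_lit 230) (nat_lit 5) (nat_lit 409) (nat_lit 389) (nat_lit 222))))) (XT.nd (nat_lit 312) (nat_lit 1064) (nat_lit 0) (XT.nd (nat_lit 156) (nat_lit 608) (nat_lit 0) (XT.nd (nat_lit 78) (nat_lit 0) (nat_lit 0) (XT.lf (nat_lit 0) (nat_lit 2441725974) (nat_lit 684) (nat_lit 21672185623) (nat_lit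 76) (nat_lit 31667984) (nat_lit 221) (nat_lit 5) (nat_lit 230) (nat_lit 5) (nat_lit 222) (nat_lit 5) (nat_lit 410) (nat_lit 389) (nat_lit 221)) (XT.lf (nat_lit 0) (nat_lit 4946836799) (nat_lit 684) (nat_lit 9071210916) (nat_lit 76) (nat_lit 10524873811) (nat_lit 221) (nat_lit 5) (nat_lit 230) (nat_lit 5) (nat_lit 222) (nat_lit 5) (nat_lit 411) (nat_lit 389) (nat_lit 220))) (XT.nd (nat_lit 78) (nat_lit 0) (nat_lit 0) (XT.lf (nat_lit 0) (nat_lit 3980796542) (nat_lit 608) (nat_lit 3579773096) (nat_lit 684) (nat_lit 17390611877) (nat_lit 213) (nat_lit 5) (nat_lit 221) (nat_lit 5) (nat_lit 222) (nat_lit 5) (nat_lit 412) (nat_lit 389) (nat_lit 219)) (XT.lf (nat_lit 0) (nat_lit 10409459876) (nat_lit 684) (nat_lit 7833245198) (nat_lit 76) (nat_lit 7124283661) (nat_lit 213) (nat_lit 5) (nat_lit 222) (nat_lit 5) (nat_lit 214) (nat_lit 5) (nat_lit 413) (nat_lit 389) (nat_lit 218)))) (XT.nd (nat_lit 156) (nat_lit 532) (nat_lit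 0) (XT.nd (nat_lit 78) (nat_lit 0) (nat_lit 0) (XT.lf (nat_lit 0) (nat_lit 5770534568) (nat_lit 532) (nat_lit 7659631127) (nat_lit 608) (nat_lit 12362515749) (nat_lit 206) (nat_lit 5) (nat_lit 213) (nat_lit 5) (nat_lit 214) (nat_lit 5) (nat_lit 414) (nat_lit 389) (nat_lit 217)) (XT.lf (nat_lit 0) (nat_lit 16648053530) (nat_lit 608) (nat_lit 6322431610) (nat_lit 76) (nat_lit 3257464659) (nat_lit 206) (nat_lit 5) (nat_lit 214) (nat_lit 5) (nat_lit 207) (nat_lit 5) (nat_lit 415) (nat_lit 389) (nat_lit 216))) (XT.nd (nat_lit 78) (nat_lit 0) (nat_lit 0) (XT.lf (nat_lit 0) (nat_lit 7861251881) (nat_lit 532) (nat_lit 12248285000) (nat_lit 608) (nat_lit 6562329200) (nat_lit 199) (nat_lit 5) (nat_lit 206) (nat_lit 5) (nat_lit 207) (nat_lit 5) (nat_lit 416) (nat_lit 389) (nat_lit 215)) (XT.lf (nat_lit 0) (nat_lit 22595507855) (nat_lit 532) (nat_lit 1138937758) (nat_lit 608) (nat_lit 3392868403) (nat_lit 199) (nat_lit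 5) (nat_lit 206) (nat_lit 5) (nat_lit 207) (nat_lit 5) (nat_lit 417) (nat_lit 389) (nat_lit 214))))))))
noncomputable def xc206 : XT := (XT.nd (nat_lit 2184) (nat_lit 3572) (nat_lit 0) (XT.nd (nat_lit 1092) (nat_lit 2888) (nat_lit 0) (XT.nd (nat_lit 546) (nat_lit 1672) (nat_lit 0) (XT.nd (nat_lit 234) (nat_lit 912) (nat_lit 0) (XT.nd (nat_lit 78) (nat_lit 532) (nat_lit 0) (XT.lf (nat_lit 0) (nat_lit 69742739) (nat_lit 532) (nat_lit 17319064718) (nat_lit 76) (nat_lit 10201789564) (nat_lit 192) (nat_lit 5) (nat_lit 199) (nat_lit 5) (nat_lit 193) (nat_lit 5) (nat_lit 418) (nat_lit 389) (nat_lit 213)) (XT.nd (nat_lit 78) (nat_lit 532) (nat_lit 0) (XT.lf (nat_lit 0) (nat_lit 3621425053) (nat_lit 532) (nat_lit 2504430851) (nat_lit 76) (nat_lit 21939314705) (nat_lit 192) (nat_lit 5) (nat_lit 199) (nat_lit 5) (nat_lit 193) (nat_lit 5) (nat_lit 419) (nat_lit 389) (nat_lit 212)) (XT.lf (nat_lit 0) (nat_lit 7454535696)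 (nat_lit 608) (nat_lit 15600256565) (nat_lit 76) (nat_lit 5493944223) (nat_lit 185) (nat_lit 5) (nat_lit 193) (nat_lit 5) (nat_lit 186) (nat_lit 5) (nat_lit 420) (nat_lit 389) (nat_lit 211)))) (XT.nd (nat_lit 156) (nat_lit 456) (nat_lit 0) (XT.nd (nat_lit 78) (nat_lit 456) (nat_lit 0) (XT.lf (nat_lit 0) (nat_lit 11484914823) (nat_lit 608) (nat_lit 195145391) (nat_lit 76) (nat_lit 17364282240) (nat_lit 185) (nat_lit 5) (nat_lit 193) (nat_lit 5) (nat_lit 186) (nat_lit 5) (nat_lit 421) (nat_lit 389) (nat_lit 210)) (XT.lf (nat_lit 0) (nat_lit 15787868164) (nat_lit 532) (nat_lit 13572623907) (nat_lit 76) (nat_lit 189775980) (nat_lit 179) (nat_lit 5) (nat_lit 186) (nat_lit 5) (nat_lit 180) (nat_lit 5) (nat_lit 422) (nat_lit 389) (nat_lit 209))) (XT.nd (nat_lit 78) (nat_lit 0) (nat_lit 0) (XT.lf (nat_lit 0) (nat_lit 2496923648) (nat_lit 456) (nat_lit 17860882983) (nat_lit 532) (nat_lit 9709429185) (nat_lit 173) (nat_lit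 5) (nat_lit 179) (nat_lit 5) (nat_lit 180) (nat_lit 5) (nat_lit 423) (nat_lit 389) (nat_lit 208)) (XT.lf (nat_lit 0) (nat_lit 19322384651) (nat_lit 456) (nat_lit 5875842442) (nat_lit 532) (nat_lit 5397485262) (nat_lit 173) (nat_lit 5) (nat_lit 179) (nat_lit 5) (nat_lit 180) (nat_lit 5) (nat_lit 424) (nat_lit 389) (nat_lit 207))))) (XT.nd (nat_lit 234) (nat_lit 760) (nat_lit 0) (XT.nd (nat_lit 78) (nat_lit 532) (nat_lit 0) (XT.lf (nat_lit 0) (nat_lit 5554399266) (nat_lit 380) (nat_lit 24741461927) (nat_lit 456) (nat_lit 840823188) (nat_lit 168) (nat_lit 5) (nat_lit 173) (nat_lit 5) (nat_lit 174) (nat_lit 5) (nat_lit 425) (nat_lit 389) (nat_lit 206)) (XT.nd (nat_lit 78) (nat_lit 456) (nat_lit 0) (XT.lf (nat_lit 0) (nat_lit 3946957814) (nat_lit 456) (nat_lit 8673157584) (nat_lit 76) (nat_lit 19067572453) (nat_lit 167) (nat_lit 5) (nat_lit 173) (nat_lit 5) (nat_lit 168) (nat_lit 5) (nat_lit 426) (nat_lit 389) (nat_lit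 205)) (XT.lf (nat_lit 0) (nat_lit 8904403293) (nat_lit 456) (nat_lit 39220799) (nat_lit 532) (nat_lit 23308884153) (nat_lit 161) (nat_lit 5) (nat_lit 167) (nat_lit 5) (nat_lit 168) (nat_lit 5) (nat_lit 427) (nat_lit 389) (nat_lit 204)))) (XT.nd (nat_lit 156) (nat_lit 380) (nat_lit 0) (XT.nd (nat_lit 78) (nat_lit 380) (nat_lit 0) (XT.lf (nat_lit 0) (nat_lit 14299434150) (nat_lit 532) (nat_lit 5773942052) (nat_lit 76) (nat_lit 12754620821) (nat_lit 161) (nat_lit 5) (nat_lit 168) (nat_lit 5) (nat_lit 162) (nat_lit 5) (nat_lit 428) (nat_lit 389) (nat_lit 203)) (XT.lf (nat_lit 0) (nat_lit 12568107392) (nat_lit 380) (nat_lit 7365719019) (nat_lit 456) (nat_lit 13483387867) (nat_lit 156) (nat_lit 5) (nat_lit 161) (nat_lit 5) (nat_lit 162) (nat_lit 5) (nat_lit 429) (nat_lit 389) (nat_lit 202))) (XT.nd (nat_lit 78) (nat_lit 380) (nat_lit 0) (XT.lf (nat_lit 0) (nat_lit 25847902132) (nat_lit 456) (nat_lit 2503419458) (nat_lit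 76) (nat_lit 5669467934) (nat_lit 156) (nat_lit 5) (nat_lit 162) (nat_lit 5) (nat_lit 157) (nat_lit 5) (nat_lit 430) (nat_lit 389) (nat_lit 201)) (XT.lf (nat_lit 0) (nat_lit 16640299394) (nat_lit 380) (nat_lit 15528834237) (nat_lit 456) (nat_lit 2466447382) (nat_lit 151) (nat_lit 5) (nat_lit 156) (nat_lit 5) (nat_lit 157) (nat_lit 5) (nat_lit 431) (nat_lit 389) (nat_lit 200)))))) (XT.nd (nat_lit 546) (nat_lit 1292) (nat_lit 0) (XT.nd (nat_lit 234) (nat_lit 760) (nat_lit 0) (XT.nd (nat_lit 78) (nat_lit 380) (nat_lit 0) (XT.lf (nat_lit 0) (nat_lit 1126382404) (nat_lit 380) (nat_lit 2251466065) (nat_lit 456) (nat_lit 31888988188) (nat_lit 145) (nat_lit 5) (nat_lit 150) (nat_lit 5) (nat_lit 151) (nat_lit 5) (nat_lit 432) (nat_lit 389) (nat_lit 199)) (XT.nd (nat_lit 78) (nat_lit 380) (nat_lit 0) (XT.lf (nat_lit 0) (nat_lit 9638144508) (nat_lit 456) (nat_lit 14861221562) (nat_lit 76) (nat_lit 11408224866) (nat_lit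 145) (nat_lit 5) (nat_lit 151) (nat_lit 5) (nat_lit 146) (nat_lit 5) (nat_lit 433) (nat_lit 389) (nat_lit 198)) (XT.lf (nat_lit 0) (nat_lit 5068942692) (nat_lit 380) (nat_lit 11085325809) (nat_lit 456) (nat_lit 20411259652) (nat_lit 140) (nat_lit 5) (nat_lit 145) (nat_lit 5) (nat_lit 146) (nat_lit 5) (nat_lit 434) (nat_lit 389) (nat_lit 197)))) (XT.nd (nat_lit 156) (nat_lit 456) (nat_lit 0) (XT.nd (nat_lit 78) (nat_lit 304) (nat_lit 0) (XT.lf (nat_lit 0) (nat_lit 23040724414) (nat_lit 456) (nat_lit 11368894370) (nat_lit 76) (nat_lit 2828340113) (nat_lit 140) (nat_lit 5) (nat_lit 146) (nat_lit 5) (nat_lit 141) (nat_lit 5) (nat_lit 435) (nat_lit 389) (nat_lit 196)) (XT.lf (nat_lit 0) (nat_lit 9432956174) (nat_lit 304) (nat_lit 20898374915) (nat_lit 380) (nat_lit 7593305593) (nat_lit 136) (nat_lit 5) (nat_lit 140) (nat_lit 5) (nat_lit 141) (nat_lit 5) (nat_lit 436) (nat_lit 389) (nat_lit 195))) (XT.nd (nat_lit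 78) (nat_lit 456) (nat_lit 0) (XT.lf (nat_lit 0) (nat_lit 31087965978) (nat_lit 304) (nat_lit 6864665328) (nat_lit 380) (nat_lit 675925041) (nat_lit 136) (nat_lit 5) (nat_lit 140) (nat_lit 5) (nat_lit 141) (nat_lit 5) (nat_lit 437) (nat_lit 389) (nat_lit 194)) (XT.lf (nat_lit 0) (nat_lit 6532271745) (nat_lit 456) (nat_lit 25171382095) (nat_lit 76) (nat_lit 7641806650) (nat_lit 130) (nat_lit 5) (nat_lit 136) (nat_lit 5) (nat_lit 131) (nat_lit 5) (nat_lit 438) (nat_lit 389) (nat_lit 193))))) (XT.nd (nat_lit 234) (nat_lit 684) (nat_lit 0) (XT.nd (nat_lit 78) (nat_lit 608) (nat_lit 0) (XT.lf (nat_lit 0) (nat_lit 14085254314) (nat_lit 456) (nat_lit 3466160875) (nat_lit 76) (nat_lit 22527992777) (nat_lit 130) (nat_lit 5) (nat_lit 136) (nat_lit 5) (nat_lit 131) (nat_lit 5) (nat_lit 439) (nat_lit 389) (nat_lit 192)) (XT.nd (nat_lit 78) (nat_lit 304) (nat_lit 0) (XT.lf (nat_lit 0) (nat_lit 19262285607) (nat_lit 304)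 (nat_lit 2785040685) (nat_lit 380) (nat_lit 18782573295) (nat_lit 126) (nat_lit 5) (nat_lit 130) (nat_lit 5) (nat_lit 131) (nat_lit 5) (nat_lit 440) (nat_lit 389) (nat_lit 191)) (XT.lf (nat_lit 0) (nat_lit 1038430390) (nat_lit 304) (nat_lit 29371959510) (nat_lit 380) (nat_lit 11187652867) (nat_lit 122) (nat_lit 5) (nat_lit 126) (nat_lit 5) (nat_lit 127) (nat_lit 5) (nat_lit 441) (nat_lit 389) (nat_lit 190)))) (XT.nd (nat_lit 156) (nat_lit 304) (nat_lit 0) (XT.nd (nat_lit 78) (nat_lit 380) (nat_lit 0) (XT.lf (nat_lit 0) (nat_lit 24732846384) (nat_lit 304) (nat_lit 14534003302) (nat_lit 380) (nat_lit 3115106105) (nat_lit 122) (nat_lit 5) (nat_lit 126) (nat_lit 5) (nat_lit 127) (nat_lit 5) (nat_lit 442) (nat_lit 389) (nat_lit 189)) (XT.lf (nat_lit 0) (nat_lit 5161663290) (nat_lit 380) (nat_lit 37182179237) (nat_lit 76) (nat_lit 842139575) (nat_lit 117) (nat_lit 5) (nat_lit 122) (nat_lit 5) (nat_lit 118) (nat_lit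 5) (nat_lit 443) (nat_lit 389) (nat_lit 188))) (XT.nd (nat_lit 78) (nat_lit 304) (nat_lit 0) (XT.lf (nat_lit 0) (nat_lit 13945498283) (nat_lit 380) (nat_lit 13460967973) (nat_lit 76) (nat_lit 16597097093) (nat_lit 117) (nat_lit 5) (nat_lit 122) (nat_lit 5) (nat_lit 118) (nat_lit 5) (nat_lit 444) (nat_lit 389) (nat_lit 187)) (XT.lf (nat_lit 0) (nat_lit 11186509364) (nat_lit 304) (nat_lit 11911429828) (nat_lit 380) (nat_lit 21744580715) (nat_lit 113) (nat_lit 5) (nat_lit 117) (nat_lit 5) (nat_lit 118) (nat_lit 5) (nat_lit 445) (nat_lit 389) (nat_lit 186))))))) (XT.nd (nat_lit 1092) (nat_lit 1672) (nat_lit 0) (XT.nd (nat_lit 546) (nat_lit 836) (nat_lit 0) (XT.nd (nat_lit 234) (nat_lit 760) (nat_lit 0) (XT.nd (nat_lit 78) (nat_lit 304) (nat_lit 0) (XT.lf (nat_lit 0) (nat_lit 32698728634) (nat_lit 380) (nat_lit 8897166177) (nat_lit 76) (nat_lit 4105537676) (nat_lit 113) (nat_lit 5) (nat_lit 118) (nat_lit 5) (nat_lit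 114) (nat_lit 5) (nat_lit 446) (nat_lit 389) (nat_lit 185)) (XT.nd (nat_lit 78) (nat_lit 76) (nat_lit 0) (XT.lf (nat_lit 0) (nat_lit 16810974064) (nat_lit 228) (nat_lit 26053754217) (nat_lit 304) (nat_lit 3713069133) (nat_lit 110) (nat_lit 5) (nat_lit 113) (nat_lit 5) (nat_lit 114) (nat_lit 5) (nat_lit 447) (nat_lit 389) (nat_lit 184)) (XT.lf (nat_lit 0) (nat_lit 5829396057) (nat_lit 304) (nat_lit 4065779202) (nat_lit 76) (nat_lit 37580938080) (nat_lit 109) (nat_lit 5) (nat_lit 113) (nat_lit 5) (nat_lit 110) (nat_lit 5) (nat_lit 448) (nat_lit 389) (nat_lit 183)))) (XT.nd (nat_lit 156) (nat_lit 228) (nat_lit 0) (XT.nd (nat_lit 78) (nat_lit 228) (nat_lit 0) (XT.lf (nat_lit 0) (nat_lit 15867905020) (nat_lit 380) (nat_lit 25649980028) (nat_lit 76) (nat_lit 6873859353) (nat_lit 105) (nat_lit 5) (nat_lit 110) (nat_lit 5) (nat_lit 106) (nat_lit 5) (nat_lit 449) (nat_lit 389) (nat_lit 182)) (XT.lf (nat_lit 0) (nat_lit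 1021310731) (nat_lit 228) (nat_lit 25333265149) (nat_lit 304) (nat_lit 22975858820) (nat_lit 102) (nat_lit 5) (nat_lit 105) (nat_lit 5) (nat_lit 106) (nat_lit 5) (nat_lit 450) (nat_lit 389) (nat_lit 181))) (XT.nd (nat_lit 78) (nat_lit 228) (nat_lit 0) (XT.lf (nat_lit 0) (nat_lit 29015067803) (nat_lit 228) (nat_lit 8397579837) (nat_lit 304) (nat_lit 12876934532) (nat_lit 102) (nat_lit 5) (nat_lit 105) (nat_lit 5) (nat_lit 106) (nat_lit 5) (nat_lit 451) (nat_lit 389) (nat_lit 180)) (XT.lf (nat_lit 0) (nat_lit 6609731873) (nat_lit 228) (nat_lit 42341062853) (nat_lit 304) (nat_lit 2322259823) (nat_lit 99) (nat_lit 5) (nat_lit 102) (nat_lit 5) (nat_lit 103) (nat_lit 5) (nat_lit 452) (nat_lit 389) (nat_lit 179))))) (XT.nd (nat_lit 234) (nat_lit 532) (nat_lit 0) (XT.nd (nat_lit 78) (nat_lit 228) (nat_lit 0) (XT.lf (nat_lit 0) (nat_lit 8680182354) (nat_lit 304) (nat_lit 16683857773) (nat_lit 76) (nat_lit 26910587550)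 (nat_lit 98) (nat_lit 5) (nat_lit 102) (nat_lit 5) (nat_lit 99) (nat_lit 5) (nat_lit 453) (nat_lit 389) (nat_lit 178)) (XT.nd (nat_lit 78) (nat_lit 0) (nat_lit 0) (XT.lf (nat_lit 0) (nat_lit 12349650932) (nat_lit 228) (nat_lit 7732994639) (nat_lit 304) (nat_lit 33219414397) (nat_lit 95) (nat_lit 5) (nat_lit 98) (nat_lit 5) (nat_lit 99) (nat_lit 5) (nat_lit 454) (nat_lit 389) (nat_lit 177)) (XT.lf (nat_lit 0) (nat_lit 32095483228) (nat_lit 304) (nat_lit 11864343234) (nat_lit 76) (nat_lit 10392440169) (nat_lit 95) (nat_lit 5) (nat_lit 99) (nat_lit 5) (nat_lit 96) (nat_lit 5) (nat_lit 455) (nat_lit 389) (nat_lit 176)))) (XT.nd (nat_lit 156) (nat_lit 228) (nat_lit 0) (XT.nd (nat_lit 78) (nat_lit 76) (nat_lit 0) (XT.lf (nat_lit 0) (nat_lit 18375111183) (nat_lit 228) (nat_lit 26344780002) (nat_lit 304) (nat_lit 10706553162) (nat_lit 92) (nat_lit 5) (nat_lit 95) (nat_lit 5) (nat_lit 96) (nat_lit 5) (nat_lit 456) (nat_lit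 389) (nat_lit 175)) (XT.lf (nat_lit 0) (nat_lit 1285947668) (nat_lit 304) (nat_lit 6780185577) (nat_lit 76) (nat_lit 48462801659) (nat_lit 91) (nat_lit 5) (nat_lit 95) (nat_lit 5) (nat_lit 92) (nat_lit 5) (nat_lit 457) (nat_lit 389) (nat_lit 174))) (XT.nd (nat_lit 78) (nat_lit 0) (nat_lit 0) (XT.lf (nat_lit 0) (nat_lit 13766058651) (nat_lit 304) (nat_lit 32987729325) (nat_lit 76) (nat_lit 10897241625) (nat_lit 88) (nat_lit 5) (nat_lit 92) (nat_lit 5) (nat_lit 89) (nat_lit 5) (nat_lit 458) (nat_lit 389) (nat_lit 173)) (XT.lf (nat_lit 0) (nat_lit 26767649006) (nat_lit 304) (nat_lit 1699378098) (nat_lit 76) (nat_lit 30335348115) (nat_lit 88) (nat_lit 5) (nat_lit 92) (nat_lit 5) (nat_lit 89) (nat_lit 5) (nat_lit 459) (nat_lit 389) (nat_lit 172)))))) (XT.nd (nat_lit 546) (nat_lit 760) (nat_lit 0) (XT.nd (nat_lit 234) (nat_lit 456) (nat_lit 0) (XT.nd (nat_lit 78) (nat_lit 228) (nat_lit 0) (XT.lf (nat_lit 0) (nat_lit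 31132032204) (nat_lit 228) (nat_lit 9324640124) (nat_lit 304) (nat_lit 19522667673) (nat_lit 85) (nat_lit 5) (nat_lit 88) (nat_lit 5) (nat_lit 89) (nat_lit 5) (nat_lit 460) (nat_lit 389) (nat_lit 171)) (XT.nd (nat_lit 78) (nat_lit 76) (nat_lit 0) (XT.lf (nat_lit 0) (nat_lit 3762371093) (nat_lit 152) (nat_lit 50945524892) (nat_lit 228) (nat_lit 6479172195) (nat_lit 83) (nat_lit 5) (nat_lit 85) (nat_lit 5) (nat_lit 86) (nat_lit 5) (nat_lit 461) (nat_lit 389) (nat_lit 170)) (XT.lf (nat_lit 0) (nat_lit 7204552227) (nat_lit 228) (nat_lit 24645786657) (nat_lit 76) (nat_lit 30567144188) (nat_lit 82) (nat_lit 5) (nat_lit 85) (nat_lit 5) (nat_lit 83) (nat_lit 5) (nat_lit 462) (nat_lit 389) (nat_lit 169)))) (XT.nd (nat_lit 156) (nat_lit 228) (nat_lit 0) (XT.nd (nat_lit 78) (nat_lit 0) (nat_lit 0) (XT.lf (nat_lit 0) (nat_lit 9229420416) (nat_lit 228) (nat_lit 12026060744) (nat_lit 304) (nat_lit 42424797527) (nat_lit 79)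 (nat_lit 5) (nat_lit 82) (nat_lit 5) (nat_lit 83) (nat_lit 5) (nat_lit 463) (nat_lit 389) (nat_lit 168)) (XT.lf (nat_lit 0) (nat_lit 36058165259) (nat_lit 304) (nat_lit 20433568057) (nat_lit 76) (nat_lit 8479318338) (nat_lit 79) (nat_lit 5) (nat_lit 83) (nat_lit 5) (nat_lit 80) (nat_lit 5) (nat_lit 464) (nat_lit 389) (nat_lit 167))) (XT.nd (nat_lit 78) (nat_lit 76) (nat_lit 0) (XT.lf (nat_lit 0) (nat_lit 14770451935) (nat_lit 152) (nat_lit 36793793529) (nat_lit 228) (nat_lit 14728523175) (nat_lit 77) (nat_lit 5) (nat_lit 79) (nat_lit 5) (nat_lit 80) (nat_lit 5) (nat_lit 465) (nat_lit 389) (nat_lit 166)) (XT.lf (nat_lit 0) (nat_lit 90336125) (nat_lit 228) (nat_lit 16202338568) (nat_lit 76) (nat_lit 51355297419) (nat_lit 76) (nat_lit 5) (nat_lit 79) (nat_lit 5) (nat_lit 77) (nat_lit 5) (nat_lit 466) (nat_lit 389) (nat_lit 165))))) (XT.nd (nat_lit 312) (nat_lit 380) (nat_lit 0) (XT.nd (nat_lit 156) (nat_lit 152)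 (nat_lit 0) (XT.nd (nat_lit 78) (nat_lit 0) (nat_lit 0) (XT.lf (nat_lit 0) (nat_lit 15302152420) (nat_lit 304) (nat_lit 48656204038) (nat_lit 76) (nat_lit 5073768094) (nat_lit 73) (nat_lit 5) (nat_lit 77) (nat_lit 5) (nat_lit 74) (nat_lit 5) (nat_lit 467) (nat_lit 389) (nat_lit 164)) (XT.lf (nat_lit 0) (nat_lit 31295197795) (nat_lit 304) (nat_lit 12235041687) (nat_lit 76) (nat_lit 26917816108) (nat_lit 73) (nat_lit 5) (nat_lit 77) (nat_lit 5) (nat_lit 74) (nat_lit 5) (nat_lit 468) (nat_lit 389) (nat_lit 163))) (XT.nd (nat_lit 78) (nat_lit 0) (nat_lit 0) (XT.lf (nat_lit 0) (nat_lit 25779006142) (nat_lit 152) (nat_lit 22235209841) (nat_lit 228) (nat_lit 23884863389) (nat_lit 71) (nat_lit 5) (nat_lit 73) (nat_lit 5) (nat_lit 74) (nat_lit 5) (nat_lit 469) (nat_lit 389) (nat_lit 162)) (XT.lf (nat_lit 0) (nat_lit 65181518472) (nat_lit 152) (nat_lit 175234734) (nat_lit 228) (nat_lit 8033222453) (nat_lit 71) (nat_lit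 5) (nat_lit 73) (nat_lit 5) (nat_lit 74) (nat_lit 5) (nat_lit 470) (nat_lit 389) (nat_lit 161)))) (XT.nd (nat_lit 156) (nat_lit 152) (nat_lit 0) (XT.nd (nat_lit 78) (nat_lit 0) (nat_lit 0) (XT.lf (nat_lit 0) (nat_lit 8652596919) (nat_lit 228) (nat_lit 43764490862) (nat_lit 76) (nat_lit 22490505255) (nat_lit 68) (nat_lit 5) (nat_lit 71) (nat_lit 5) (nat_lit 69) (nat_lit 5) (nat_lit 471) (nat_lit 389) (nat_lit 160)) (XT.lf (nat_lit 0) (nat_lit 25761414608) (nat_lit 228) (nat_lit 4709594649) (nat_lit 76) (nat_lit 45994827291) (nat_lit 68) (nat_lit 5) (nat_lit 71) (nat_lit 5) (nat_lit 69) (nat_lit 5) (nat_lit 472) (nat_lit 389) (nat_lit 159))) (XT.nd (nat_lit 78) (nat_lit 0) (nat_lit 0) (XT.lf (nat_lit 0) (nat_lit 36221108568) (nat_lit 152) (nat_lit 7509051738) (nat_lit 228) (nat_lit 34330267373) (nat_lit 66) (nat_lit 5) (nat_lit 68) (nat_lit 5) (nat_lit 69) (nat_lit 5) (nat_lit 473) (nat_lit 389) (nat_lit 158))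 (XT.lf (nat_lit 0) (nat_lit 62439653666) (nat_lit 228) (nat_lit 1383442838) (nat_lit 76) (nat_lit 15873709697) (nat_lit 66) (nat_lit 5) (nat_lit 69) (nat_lit 5) (nat_lit 67) (nat_lit 5) (nat_lit 474) (nat_lit 389) (nat_lit 157))))))))
noncomputable def xc207 : XT := (XT.nd (nat_lit 48438) (nat_lit 0) (nat_lit 5016) (XT.nd (nat_lit 47268) (nat_lit 0) (nat_lit 11932) (XT.nd (nat_lit 46722) (nat_lit 0) (nat_lit 14516) (XT.nd (nat_lit 390) (nat_lit 380) (nat_lit 0) (XT.nd (nat_lit 78) (nat_lit 152) (nat_lit 0) (XT.lf (nat_lit 0) (nat_lit 793467620) (nat_lit 228) (nat_lit 40366613640) (nat_lit 76) (nat_lit 40207948925) (nat_lit 63) (nat_lit 5) (nat_lit 66) (nat_lit 5) (nat_lit 64) (nat_lit 5) (nat_lit 475) (nat_lit 389) (nat_lit 156)) (XT.nd (nat_lit 78) (nat_lit 0) (nat_lit 0) (XT.lf (nat_lit 0) (nat_lit 1451961589) (nat_lit 152) (nat_lit 17613398395) (nat_lit 228) (nat_lit 64018107055) (nat_lit 61) (nat_lit 5)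 (nat_lit 63) (nat_lit 5) (nat_lit 64) (nat_lit 5) (nat_lit 476) (nat_lit 389) (nat_lit 155)) (XT.lf (nat_lit 0) (nat_lit 38359440411) (nat_lit 228) (nat_lit 39556015625) (nat_lit 76) (nat_lit 6920690212) (nat_lit 61) (nat_lit 5) (nat_lit 64) (nat_lit 5) (nat_lit 62) (nat_lit 5) (nat_lit 477) (nat_lit 389) (nat_lit 154)))) (XT.nd (nat_lit 46176) (nat_lit 0) (nat_lit 14516) (XT.nd (nat_lit 46098) (nat_lit 0) (nat_lit 15732) (XT.lf (nat_lit 0) (nat_lit 5337425270) (nat_lit 152) (nat_lit 5364577854) (nat_lit 228) (nat_lit 79665832008) (nat_lit 56) (nat_lit 5) (nat_lit 58) (nat_lit 5) (nat_lit 59) (nat_lit 5) (nat_lit 480) (nat_lit 389) (nat_lit 151)) (XT.lf (nat_lit 0) (nat_lit 4362603092) (nat_lit 0) (nat_lit 4362603092) (nat_lit 1140) (nat_lit 266018820) (nat_lit 263) (nat_lit 5) (nat_lit 263) (nat_lit 3) (nat_lit 278) (nat_lit 3) (nat_lit 390) (nat_lit 390) (nat_lit 240))) (XT.nd (nat_lit 78) (nat_lit 1216) (nat_lit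 0) (XT.lf (nat_lit 0) (nat_lit 17659117170) (nat_lit 0) (nat_lit 253356895) (nat_lit 1140) (nat_lit 333615514) (nat_lit 263) (nat_lit 5) (nat_lit 263) (nat_lit 3) (nat_lit 278) (nat_lit 3) (nat_lit 391) (nat_lit 390) (nat_lit 239)) (XT.lf (nat_lit 0) (nat_lit 29431877) (nat_lit 1216) (nat_lit 10091166980) (nat_lit 1292) (nat_lit 8392395566) (nat_lit 247) (nat_lit 5) (nat_lit 263) (nat_lit 5) (nat_lit 264) (nat_lit 5) (nat_lit 392) (nat_lit 390) (nat_lit 238))))) (XT.nd (nat_lit 234) (nat_lit 0) (nat_lit 152) (XT.nd (nat_lit 78) (nat_lit 0) (nat_lit 76) (XT.lf (nat_lit 0) (nat_lit 397488319) (nat_lit 1216) (nat_lit 1084974341) (nat_lit 1292) (nat_lit 17305323208) (nat_lit 247) (nat_lit 5) (nat_lit 263) (nat_lit 5) (nat_lit 264) (nat_lit 5) (nat_lit 393) (nat_lit 390) (nat_lit 237)) (XT.nd (nat_lit 78) (nat_lit 0) (nat_lit 0) (XT.lf (nat_lit 0) (nat_lit 921507347) (nat_lit 1216) (nat_lit 10790569466) (nat_lit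 1292) (nat_lit 7354399760) (nat_lit 248) (nat_lit 5) (nat_lit 264) (nat_lit 5) (nat_lit 265) (nat_lit 5) (nat_lit 394) (nat_lit 390) (nat_lit 236)) (XT.lf (nat_lit 0) (nat_lit 1479748720) (nat_lit 1216) (nat_lit 1432514037) (nat_lit 1292) (nat_lit 16440713240) (nat_lit 248) (nat_lit 5) (nat_lit 264) (nat_lit 5) (nat_lit 265) (nat_lit 5) (nat_lit 395) (nat_lit 390) (nat_lit 235)))) (XT.nd (nat_lit 156) (nat_lit 0) (nat_lit 76) (XT.nd (nat_lit 78) (nat_lit 0) (nat_lit 0) (XT.lf (nat_lit 0) (nat_lit 2188074826) (nat_lit 1216) (nat_lit 11340564283) (nat_lit 1292) (nat_lit 6115434134) (nat_lit 249) (nat_lit 5) (nat_lit 265) (nat_lit 5) (nat_lit 266) (nat_lit 5) (nat_lit 396) (nat_lit 390) (nat_lit 234)) (XT.lf (nat_lit 0) (nat_lit 2954253752) (nat_lit 1216) (nat_lit 1615918364) (nat_lit 1292) (nat_lit 15372636076) (nat_lit 249) (nat_lit 5) (nat_lit 265) (nat_lit 5) (nat_lit 266) (nat_lit 5) (nat_lit 397) (nat_lit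 390) (nat_lit 233))) (XT.nd (nat_lit 78) (nat_lit 0) (nat_lit 0) (XT.lf (nat_lit 0) (nat_lit 3864696102) (nat_lit 1216) (nat_lit 11730594353) (nat_lit 1292) (nat_lit 4651579184) (nat_lit 250) (nat_lit 5) (nat_lit 266) (nat_lit 5) (nat_lit 267) (nat_lit 5) (nat_lit 398) (nat_lit 390) (nat_lit 232)) (XT.lf (nat_lit 0) (nat_lit 4857712852) (nat_lit 1216) (nat_lit 1623910587) (nat_lit 1292) (nat_lit 14076774369) (nat_lit 250) (nat_lit 5) (nat_lit 266) (nat_lit 5) (nat_lit 267) (nat_lit 5) (nat_lit 399) (nat_lit 390) (nat_lit 231)))))) (XT.nd (nat_lit 546) (nat_lit 2888) (nat_lit 0) (XT.nd (nat_lit 234) (nat_lit 0) (nat_lit 76) (XT.nd (nat_lit 78) (nat_lit 0) (nat_lit 0) (XT.lf (nat_lit 0) (nat_lit 5989135221) (nat_lit 1216) (nat_lit 11949299824) (nat_lit 1292) (nat_lit 2937580957) (nat_lit 251) (nat_lit 5) (nat_lit 267) (nat_lit 5) (nat_lit 268) (nat_lit 5) (nat_lit 400) (nat_lit 390) (nat_lit 230)) (XT.nd (nat_lit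 78) (nat_lit 0) (nat_lit 76) (XT.lf (nat_lit 0) (nat_lit 7229115307) (nat_lit 1216) (nat_lit 1444383594) (nat_lit 1292) (nat_lit 12527427945) (nat_lit 251) (nat_lit 5) (nat_lit 267) (nat_lit 5) (nat_lit 268) (nat_lit 5) (nat_lit 401) (nat_lit 390) (nat_lit 229)) (XT.lf (nat_lit 0) (nat_lit 8601509880) (nat_lit 1216) (nat_lit 11984498450) (nat_lit 1292) (nat_lit 946722714) (nat_lit 252) (nat_lit 5) (nat_lit 268) (nat_lit 5) (nat_lit 269) (nat_lit 5) (nat_lit 402) (nat_lit 390) (nat_lit 228)))) (XT.nd (nat_lit 156) (nat_lit 0) (nat_lit 76) (XT.nd (nat_lit 78) (nat_lit 0) (nat_lit 0) (XT.lf (nat_lit 0) (nat_lit 10109885773) (nat_lit 1216) (nat_lit 1064378841) (nat_lit 1292) (nat_lit 10697382878) (nat_lit 252) (nat_lit 5) (nat_lit 268) (nat_lit 5) (nat_lit 269) (nat_lit 5) (nat_lit 403) (nat_lit 390) (nat_lit 227)) (XT.lf (nat_lit 76) (nat_lit 10381515289) (nat_lit 0) (nat_lit 1376163364) (nat_lit 1292) (nat_lit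 10460230148) (nat_lit 253) (nat_lit 5) (nat_lit 252) (nat_lit 5) (nat_lit 269) (nat_lit 5) (nat_lit 404) (nat_lit 390) (nat_lit 226))) (XT.nd (nat_lit 78) (nat_lit 0) (nat_lit 0) (XT.lf (nat_lit 0) (nat_lit 13544047386) (nat_lit 1216) (nat_lit 470064321) (nat_lit 1292) (nat_lit 8557774253) (nat_lit 253) (nat_lit 5) (nat_lit 269) (nat_lit 5) (nat_lit 270) (nat_lit 5) (nat_lit 405) (nat_lit 390) (nat_lit 225)) (XT.lf (nat_lit 76) (nat_lit 11442501171) (nat_lit 0) (nat_lit 4059788882) (nat_lit 1292) (nat_lit 7430646098) (nat_lit 254) (nat_lit 5) (nat_lit 253) (nat_lit 5) (nat_lit 270) (nat_lit 5) (nat_lit 406) (nat_lit 390) (nat_lit 224))))) (XT.nd (nat_lit 312) (nat_lit 1216) (nat_lit 0) (XT.nd (nat_lit 156) (nat_lit 684) (nat_lit 0) (XT.nd (nat_lit 78) (nat_lit 0) (nat_lit 0) (XT.lf (nat_lit 0) (nat_lit 360319373) (nat_lit 1216) (nat_lit 17221537186) (nat_lit 1292) (nat_lit 5721086131) (nat_lit 238) (nat_lit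 5) (nat_lit 254) (nat_lit 5) (nat_lit 255) (nat_lit 5) (nat_lit 407) (nat_lit 390) (nat_lit 223)) (XT.lf (nat_lit 0) (nat_lit 12756651256) (nat_lit 1216) (nat_lit 7117886931) (nat_lit 1292) (nat_lit 3804991475) (nat_lit 238) (nat_lit 5) (nat_lit 254) (nat_lit 5) (nat_lit 255) (nat_lit 5) (nat_lit 408) (nat_lit 390) (nat_lit 222))) (XT.nd (nat_lit 78) (nat_lit 76) (nat_lit 0) (XT.lf (nat_lit 0) (nat_lit 1449613954) (nat_lit 608) (nat_lit 20826985349) (nat_lit 684) (nat_lit 1789598986) (nat_lit 230) (nat_lit 5) (nat_lit 238) (nat_lit 5) (nat_lit 239) (nat_lit 5) (nat_lit 409) (nat_lit 390) (nat_lit 221)) (XT.lf (nat_lit 0) (nat_lit 457636321) (nat_lit 684) (nat_lit 10122859007) (nat_lit 76) (nat_lit 13878581991) (nat_lit 229) (nat_lit 5) (nat_lit 238) (nat_lit 5) (nat_lit 230) (nat_lit 5) (nat_lit 410) (nat_lit 390) (nat_lit 220)))) (XT.nd (nat_lit 156) (nat_lit 608) (nat_lit 0) (XT.nd (nat_lit 78) (nat_lit 0)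 (nat_lit 0) (XT.lf (nat_lit 0) (nat_lit 2758451492) (nat_lit 684) (nat_lit 22085018401) (nat_lit 76) (nat_lit 19079150) (nat_lit 221) (nat_lit 5) (nat_lit 230) (nat_lit 5) (nat_lit 222) (nat_lit 5) (nat_lit 411) (nat_lit 390) (nat_lit 219)) (XT.lf (nat_lit 0) (nat_lit 5331624175) (nat_lit 684) (nat_lit 9112927058) (nat_lit 76) (nat_lit 10827475487) (nat_lit 221) (nat_lit 5) (nat_lit 230) (nat_lit 5) (nat_lit 222) (nat_lit 5) (nat_lit 412) (nat_lit 390) (nat_lit 218))) (XT.nd (nat_lit 78) (nat_lit 0) (nat_lit 0) (XT.lf (nat_lit 0) (nat_lit 4328381602) (nat_lit 608) (nat_lit 3690695700) (nat_lit 684) (nat_lit 17673600607) (nat_lit 213) (nat_lit 5) (nat_lit 221) (nat_lit 5) (nat_lit 222) (nat_lit 5) (nat_lit 413) (nat_lit 390) (nat_lit 217)) (XT.lf (nat_lit 0) (nat_lit 10946653040) (nat_lit 684) (nat_lit 7839859892) (nat_lit 76) (nat_lit 7334652423) (nat_lit 213) (nat_lit 5) (nat_lit 222) (nat_lit 5) (nat_lit 214)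 (nat_lit 5) (nat_lit 414) (nat_lit 390) (nat_lit 216))))))) (XT.nd (nat_lit 1092) (nat_lit 2964) (nat_lit 0) (XT.nd (nat_lit 546) (nat_lit 1824) (nat_lit 0) (XT.nd (nat_lit 234) (nat_lit 1064) (nat_lit 0) (XT.nd (nat_lit 78) (nat_lit 532) (nat_lit 0) (XT.lf (nat_lit 0) (nat_lit 6169794221) (nat_lit 532) (nat_lit 7883808885) (nat_lit 608) (nat_lit 12506159545) (nat_lit 206) (nat_lit 5) (nat_lit 213) (nat_lit 5) (nat_lit 214) (nat_lit 5) (nat_lit 415) (nat_lit 390) (nat_lit 215)) (XT.nd (nat_lit 78) (nat_lit 532) (nat_lit 0) (XT.lf (nat_lit 0) (nat_lit 17361656668) (nat_lit 608) (nat_lit 6286095904) (nat_lit 76) (nat_lit 3360530038) (nat_lit 206) (nat_lit 5) (nat_lit 214) (nat_lit 5) (nat_lit 207) (nat_lit 5) (nat_lit 416) (nat_lit 390) (nat_lit 214)) (XT.lf (nat_lit 0) (nat_lit 8320882321) (nat_lit 532) (nat_lit 12602015718) (nat_lit 608) (nat_lit 6542743289) (nat_lit 199) (nat_lit 5) (nat_lit 206) (nat_lit 5)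 (nat_lit 207) (nat_lit 5) (nat_lit 417) (nat_lit 390) (nat_lit 213)))) (XT.nd (nat_lit 156) (nat_lit 532) (nat_lit 0) (XT.nd (nat_lit 78) (nat_lit 532) (nat_lit 0) (XT.lf (nat_lit 0) (nat_lit 23490647734) (nat_lit 532) (nat_lit 1159787607) (nat_lit 608) (nat_lit 3284503206) (nat_lit 199) (nat_lit 5) (nat_lit 206) (nat_lit 5) (nat_lit 207) (nat_lit 5) (nat_lit 418) (nat_lit 390) (nat_lit 212)) (XT.lf (nat_lit 0) (nat_lit 274156414) (nat_lit 532) (nat_lit 17613386358) (nat_lit 76) (nat_lit 10524630695) (nat_lit 192) (nat_lit 5) (nat_lit 199) (nat_lit 5) (nat_lit 193) (nat_lit 5) (nat_lit 419) (nat_lit 390) (nat_lit 211))) (XT.nd (nat_lit 78) (nat_lit 532) (nat_lit 0) (XT.lf (nat_lit 0) (nat_lit 3926496341) (nat_lit 532) (nat_lit 2360874163) (nat_lit 76) (nat_lit 22613792636) (nat_lit 192) (nat_lit 5) (nat_lit 199) (nat_lit 5) (nat_lit 193) (nat_lit 5) (nat_lit 420) (nat_lit 390) (nat_lit 210)) (XT.lf (nat_lit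 0) (nat_lit 7871189016) (nat_lit 608) (nat_lit 15846095662) (nat_lit 76) (nat_lit 5682055682) (nat_lit 185) (nat_lit 5) (nat_lit 193) (nat_lit 5) (nat_lit 186) (nat_lit 5) (nat_lit 421) (nat_lit 390) (nat_lit 209))))) (XT.nd (nat_lit 234) (nat_lit 912) (nat_lit 0) (XT.nd (nat_lit 78) (nat_lit 456) (nat_lit 0) (XT.lf (nat_lit 0) (nat_lit 14990433) (nat_lit 456) (nat_lit 12002011319) (nat_lit 532) (nat_lit 17892979062) (nat_lit 179) (nat_lit 5) (nat_lit 185) (nat_lit 5) (nat_lit 186) (nat_lit 5) (nat_lit 422) (nat_lit 390) (nat_lit 208)) (XT.nd (nat_lit 78) (nat_lit 456) (nat_lit 0) (XT.lf (nat_lit 0) (nat_lit 16445779032) (nat_lit 532) (nat_lit 13760920575) (nat_lit 76) (nat_lit 224484427) (nat_lit 179) (nat_lit 5) (nat_lit 186) (nat_lit 5) (nat_lit 180) (nat_lit 5) (nat_lit 423) (nat_lit 390) (nat_lit 207)) (XT.lf (nat_lit 0) (nat_lit 2788567504) (nat_lit 456) (nat_lit 18360964321) (nat_lit 532) (nat_lit 9814229380)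 (nat_lit 173) (nat_lit 5) (nat_lit 179) (nat_lit 5) (nat_lit 180) (nat_lit 5) (nat_lit 424) (nat_lit 390) (nat_lit 206)))) (XT.nd (nat_lit 156) (nat_lit 532) (nat_lit 0) (XT.nd (nat_lit 78) (nat_lit 380) (nat_lit 0) (XT.lf (nat_lit 0) (nat_lit 20112479634) (nat_lit 456) (nat_lit 6017413685) (nat_lit 532) (nat_lit 5378358674) (nat_lit 173) (nat_lit 5) (nat_lit 179) (nat_lit 5) (nat_lit 180) (nat_lit 5) (nat_lit 425) (nat_lit 390) (nat_lit 205)) (XT.lf (nat_lit 0) (nat_lit 5934340848) (nat_lit 380) (nat_lit 25443371894) (nat_lit 456) (nat_lit 687824500) (nat_lit 168) (nat_lit 5) (nat_lit 173) (nat_lit 5) (nat_lit 174) (nat_lit 5) (nat_lit 426) (nat_lit 390) (nat_lit 204))) (XT.nd (nat_lit 78) (nat_lit 456) (nat_lit 0) (XT.lf (nat_lit 0) (nat_lit 4235022475) (nat_lit 456) (nat_lit 8722824076) (nat_lit 76) (nat_lit 19675327211) (nat_lit 167) (nat_lit 5) (nat_lit 173) (nat_lit 5) (nat_lit 168) (nat_lit 5) (nat_lit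 427) (nat_lit 390) (nat_lit 203)) (XT.lf (nat_lit 0) (nat_lit 9378664155) (nat_lit 532) (nat_lit 23835041836) (nat_lit 76) (nat_lit 1322118) (nat_lit 161) (nat_lit 5) (nat_lit 168) (nat_lit 5) (nat_lit 162) (nat_lit 5) (nat_lit 428) (nat_lit 390) (nat_lit 202)))))) (XT.nd (nat_lit 546) (nat_lit 1368) (nat_lit 0) (XT.nd (nat_lit 234) (nat_lit 1216) (nat_lit 0) (XT.nd (nat_lit 78) (nat_lit 380) (nat_lit 0) (XT.lf (nat_lit 0) (nat_lit 14890669275) (nat_lit 532) (nat_lit 5740249691) (nat_lit 76) (nat_lit 13176998517) (nat_lit 161) (nat_lit 5) (nat_lit 168) (nat_lit 5) (nat_lit 162) (nat_lit 5) (nat_lit 429) (nat_lit 390) (nat_lit 201)) (XT.nd (nat_lit 78) (nat_lit 0) (nat_lit 0) (XT.lf (nat_lit 0) (nat_lit 13150032700) (nat_lit 380) (nat_lit 7541304267) (nat_lit 456) (nat_lit 13723558491) (nat_lit 156) (nat_lit 5) (nat_lit 161) (nat_lit 5) (nat_lit 162) (nat_lit 5) (nat_lit 430) (nat_lit 390) (nat_lit 200)) (XT.lf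 (nat_lit 0) (nat_lit 26778613026) (nat_lit 456) (nat_lit 2375336552) (nat_lit 76) (nat_lit 5882756508) (nat_lit 156) (nat_lit 5) (nat_lit 162) (nat_lit 5) (nat_lit 157) (nat_lit 5) (nat_lit 431) (nat_lit 390) (nat_lit 199)))) (XT.nd (nat_lit 156) (nat_lit 380) (nat_lit 0) (XT.nd (nat_lit 78) (nat_lit 456) (nat_lit 0) (XT.lf (nat_lit 0) (nat_lit 17340701851) (nat_lit 380) (nat_lit 15946191076) (nat_lit 456) (nat_lit 2383127476) (nat_lit 151) (nat_lit 5) (nat_lit 156) (nat_lit 5) (nat_lit 157) (nat_lit 5) (nat_lit 432) (nat_lit 390) (nat_lit 198)) (XT.lf (nat_lit 0) (nat_lit 1362480169) (nat_lit 380) (nat_lit 2268399494) (nat_lit 456) (nat_lit 32689366465) (nat_lit 145) (nat_lit 5) (nat_lit 150) (nat_lit 5) (nat_lit 151) (nat_lit 5) (nat_lit 433) (nat_lit 390) (nat_lit 197))) (XT.nd (nat_lit 78) (nat_lit 380) (nat_lit 0) (XT.lf (nat_lit 0) (nat_lit 10075038589) (nat_lit 456) (nat_lit 15106654886) (nat_lit 76)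 (nat_lit 11798649242) (nat_lit 145) (nat_lit 5) (nat_lit 151) (nat_lit 5) (nat_lit 146) (nat_lit 5) (nat_lit 434) (nat_lit 390) (nat_lit 196)) (XT.lf (nat_lit 0) (nat_lit 5419449557) (nat_lit 380) (nat_lit 11364800868) (nat_lit 456) (nat_lit 20873840768) (nat_lit 140) (nat_lit 5) (nat_lit 145) (nat_lit 5) (nat_lit 146) (nat_lit 5) (nat_lit 435) (nat_lit 390) (nat_lit 195))))) (XT.nd (nat_lit 312) (nat_lit 608) (nat_lit 0) (XT.nd (nat_lit 156) (nat_lit 456) (nat_lit 0) (XT.nd (nat_lit 78) (nat_lit 304) (nat_lit 0) (XT.lf (nat_lit 0) (nat_lit 23873561828) (nat_lit 456) (nat_lit 11513523234) (nat_lit 76) (nat_lit 2963723173) (nat_lit 140) (nat_lit 5) (nat_lit 146) (nat_lit 5) (nat_lit 141) (nat_lit 5) (nat_lit 436) (nat_lit 390) (nat_lit 194)) (XT.lf (nat_lit 0) (nat_lit 9910456964) (nat_lit 304) (nat_lit 21470174779) (nat_lit 380) (nat_lit 7677523451) (nat_lit 136) (nat_lit 5) (nat_lit 140) (nat_lit 5) (nat_lit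 141) (nat_lit 5) (nat_lit 437) (nat_lit 390) (nat_lit 193))) (XT.nd (nat_lit 78) (nat_lit 456) (nat_lit 0) (XT.lf (nat_lit 0) (nat_lit 32209451661) (nat_lit 304) (nat_lit 7017060256) (nat_lit 380) (nat_lit 556803462) (nat_lit 136) (nat_lit 5) (nat_lit 140) (nat_lit 5) (nat_lit 141) (nat_lit 5) (nat_lit 438) (nat_lit 390) (nat_lit 192)) (XT.lf (nat_lit 0) (nat_lit 6863292514) (nat_lit 456) (nat_lit 25733256264) (nat_lit 76) (nat_lit 7925187556) (nat_lit 130) (nat_lit 5) (nat_lit 136) (nat_lit 5) (nat_lit 131) (nat_lit 5) (nat_lit 439) (nat_lit 390) (nat_lit 191)))) (XT.nd (nat_lit 156) (nat_lit 304) (nat_lit 0) (XT.nd (nat_lit 78) (nat_lit 304) (nat_lit 0) (XT.lf (nat_lit 0) (nat_lit 14638930989) (nat_lit 456) (nat_lit 3382507552) (nat_lit 76) (nat_lit 23256382761) (nat_lit 130) (nat_lit 5) (nat_lit 136) (nat_lit 5) (nat_lit 131) (nat_lit 5) (nat_lit 440) (nat_lit 390) (nat_lit 190)) (XT.lf (nat_lit 0) (nat_lit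 20025952735) (nat_lit 304) (nat_lit 2811879399) (nat_lit 380) (nat_lit 19213057556) (nat_lit 126) (nat_lit 5) (nat_lit 130) (nat_lit 5) (nat_lit 131) (nat_lit 5) (nat_lit 441) (nat_lit 390) (nat_lit 189))) (XT.nd (nat_lit 78) (nat_lit 0) (nat_lit 0) (XT.lf (nat_lit 0) (nat_lit 1256889078) (nat_lit 304) (nat_lit 30193468559) (nat_lit 380) (nat_lit 11391763428) (nat_lit 122) (nat_lit 5) (nat_lit 126) (nat_lit 5) (nat_lit 127) (nat_lit 5) (nat_lit 442) (nat_lit 390) (nat_lit 188)) (XT.lf (nat_lit 0) (nat_lit 25656682044) (nat_lit 304) (nat_lit 14912111035) (nat_lit 380) (nat_lit 3080870915) (nat_lit 122) (nat_lit 5) (nat_lit 126) (nat_lit 5) (nat_lit 127) (nat_lit 5) (nat_lit 443) (nat_lit 390) (nat_lit 187))))))))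
noncomputable def xc208 : XT := (XT.nd (nat_lit 2184) (nat_lit 912) (nat_lit 0) (XT.nd (nat_lit 1092) (nat_lit 1596) (nat_lit 0) (XT.nd (nat_lit 546) (nat_lit 988) (nat_lit 0) (XT.nd (nat_lit 234) (nat_lit 608) (nat_lit 0) (XT.nd (nat_lit 78) (nat_lit 304) (nat_lit 0) (XT.lf (nat_lit 0) (nat_lit 5440387979) (nat_lit 380) (nat_lit 38111918892) (nat_lit 76) (nat_lit 925507972) (nat_lit 117) (nat_lit 5) (nat_lit 122) (nat_lit 5) (nat_lit 118) (nat_lit 5) (nat_lit 444) (nat_lit 390) (nat_lit 186)) (XT.nd (nat_lit 78) (nat_lit 304) (nat_lit 0) (XT.lf (nat_lit 0) (nat_lit 14484130018) (nat_lit 380) (nat_lit 13684480777) (nat_lit 76) (nat_lit 17151421860) (nat_lit 117) (nat_lit 5) (nat_lit 122) (nat_lit 5) (nat_lit 118) (nat_lit 5) (nat_lit 445) (nat_lit 390) (nat_lit 185)) (XT.lf (nat_lit 0) (nat_lit 11700653074) (nat_lit 304) (nat_lit 12208704481) (nat_lit 380) (nat_lit 22274854815) (nat_lit 113) (nat_lit 5) (nat_lit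 117) (nat_lit 5) (nat_lit 118) (nat_lit 5) (nat_lit 446) (nat_lit 390) (nat_lit 184)))) (XT.nd (nat_lit 156) (nat_lit 380) (nat_lit 0) (XT.nd (nat_lit 78) (nat_lit 228) (nat_lit 0) (XT.lf (nat_lit 0) (nat_lit 33795280396) (nat_lit 380) (nat_lit 8987814997) (nat_lit 76) (nat_lit 4285884480) (nat_lit 113) (nat_lit 5) (nat_lit 118) (nat_lit 5) (nat_lit 114) (nat_lit 5) (nat_lit 447) (nat_lit 390) (nat_lit 183)) (XT.lf (nat_lit 0) (nat_lit 17489841352) (nat_lit 228) (nat_lit 26774729751) (nat_lit 304) (nat_lit 3707116125) (nat_lit 110) (nat_lit 5) (nat_lit 113) (nat_lit 5) (nat_lit 114) (nat_lit 5) (nat_lit 448) (nat_lit 390) (nat_lit 182))) (XT.nd (nat_lit 78) (nat_lit 304) (nat_lit 0) (XT.lf (nat_lit 0) (nat_lit 6115982071) (nat_lit 304) (nat_lit 4016049489) (nat_lit 76) (nat_lit 38764988529) (nat_lit 109) (nat_lit 5) (nat_lit 113) (nat_lit 5) (nat_lit 110) (nat_lit 5) (nat_lit 449) (nat_lit 390) (nat_lit 181))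 (XT.lf (nat_lit 0) (nat_lit 16454603249) (nat_lit 380) (nat_lit 26246708503) (nat_lit 76) (nat_lit 7138840367) (nat_lit 105) (nat_lit 5) (nat_lit 110) (nat_lit 5) (nat_lit 106) (nat_lit 5) (nat_lit 450) (nat_lit 390) (nat_lit 180))))) (XT.nd (nat_lit 234) (nat_lit 532) (nat_lit 0) (XT.nd (nat_lit 78) (nat_lit 228) (nat_lit 0) (XT.lf (nat_lit 0) (nat_lit 1223027145) (nat_lit 228) (nat_lit 26031268448) (nat_lit 304) (nat_lit 23552755615) (nat_lit 102) (nat_lit 5) (nat_lit 105) (nat_lit 5) (nat_lit 106) (nat_lit 5) (nat_lit 451) (nat_lit 390) (nat_lit 179)) (XT.nd (nat_lit 78) (nat_lit 228) (nat_lit 0) (XT.lf (nat_lit 0) (nat_lit 30051614102) (nat_lit 228) (nat_lit 8589318247) (nat_lit 304) (nat_lit 13154136772) (nat_lit 102) (nat_lit 5) (nat_lit 105) (nat_lit 5) (nat_lit 106) (nat_lit 5) (nat_lit 452) (nat_lit 390) (nat_lit 178)) (XT.lf (nat_lit 0) (nat_lit 6975085957) (nat_lit 228) (nat_lit 43549220895) (nat_lit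 304) (nat_lit 2283767006) (nat_lit 99) (nat_lit 5) (nat_lit 102) (nat_lit 5) (nat_lit 103) (nat_lit 5) (nat_lit 453) (nat_lit 390) (nat_lit 177)))) (XT.nd (nat_lit 156) (nat_lit 228) (nat_lit 0) (XT.nd (nat_lit 78) (nat_lit 228) (nat_lit 0) (XT.lf (nat_lit 0) (nat_lit 9043548998) (nat_lit 304) (nat_lit 17020106760) (nat_lit 76) (nat_lit 27776100538) (nat_lit 98) (nat_lit 5) (nat_lit 102) (nat_lit 5) (nat_lit 99) (nat_lit 5) (nat_lit 454) (nat_lit 390) (nat_lit 176)) (XT.lf (nat_lit 0) (nat_lit 12882796748) (nat_lit 228) (nat_lit 7903854045) (nat_lit 304) (nat_lit 34111404444) (nat_lit 95) (nat_lit 5) (nat_lit 98) (nat_lit 5) (nat_lit 99) (nat_lit 5) (nat_lit 455) (nat_lit 390) (nat_lit 175))) (XT.nd (nat_lit 78) (nat_lit 228) (nat_lit 0) (XT.lf (nat_lit 0) (nat_lit 33157487024) (nat_lit 304) (nat_lit 12059948099) (nat_lit 76) (nat_lit 10762405178) (nat_lit 95) (nat_lit 5) (nat_lit 99) (nat_lit 5) (nat_lit 96)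 (nat_lit 5) (nat_lit 456) (nat_lit 390) (nat_lit 174)) (XT.lf (nat_lit 0) (nat_lit 19085118132) (nat_lit 228) (nat_lit 27074147572) (nat_lit 304) (nat_lit 10927019077) (nat_lit 92) (nat_lit 5) (nat_lit 95) (nat_lit 5) (nat_lit 96) (nat_lit 5) (nat_lit 457) (nat_lit 390) (nat_lit 173)))))) (XT.nd (nat_lit 546) (nat_lit 608) (nat_lit 0) (XT.nd (nat_lit 234) (nat_lit 684) (nat_lit 0) (XT.nd (nat_lit 78) (nat_lit 228) (nat_lit 0) (XT.lf (nat_lit 0) (nat_lit 1420414508) (nat_lit 304) (nat_lit 6827534615) (nat_lit 76) (nat_lit 49973958736) (nat_lit 91) (nat_lit 5) (nat_lit 95) (nat_lit 5) (nat_lit 92) (nat_lit 5) (nat_lit 458) (nat_lit 390) (nat_lit 172)) (XT.nd (nat_lit 78) (nat_lit 0) (nat_lit 0) (XT.lf (nat_lit 0) (nat_lit 14274197591) (nat_lit 304) (nat_lit 33820555544) (nat_lit 76) (nat_lit 11282934735) (nat_lit 88) (nat_lit 5) (nat_lit 92) (nat_lit 5) (nat_lit 89) (nat_lit 5) (nat_lit 459) (nat_lit 390) (nat_lit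 171)) (XT.lf (nat_lit 0) (nat_lit 27663064089) (nat_lit 304) (nat_lit 1598120936) (nat_lit 76) (nat_lit 31302472502) (nat_lit 88) (nat_lit 5) (nat_lit 92) (nat_lit 5) (nat_lit 89) (nat_lit 5) (nat_lit 460) (nat_lit 390) (nat_lit 170)))) (XT.nd (nat_lit 156) (nat_lit 304) (nat_lit 0) (XT.nd (nat_lit 78) (nat_lit 152) (nat_lit 0) (XT.lf (nat_lit 0) (nat_lit 32216739141) (nat_lit 228) (nat_lit 9544777189) (nat_lit 304) (nat_lit 20014452682) (nat_lit 85) (nat_lit 5) (nat_lit 88) (nat_lit 5) (nat_lit 89) (nat_lit 5) (nat_lit 461) (nat_lit 390) (nat_lit 169)) (XT.lf (nat_lit 0) (nat_lit 4026667197) (nat_lit 152) (nat_lit 52412966659) (nat_lit 228) (nat_lit 6580314957) (nat_lit 83) (nat_lit 5) (nat_lit 85) (nat_lit 5) (nat_lit 86) (nat_lit 5) (nat_lit 462) (nat_lit 390) (nat_lit 168))) (XT.nd (nat_lit 78) (nat_lit 228) (nat_lit 0) (XT.lf (nat_lit 0) (nat_lit 7509439381) (nat_lit 228) (nat_lit 25236363968) (nat_lit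 76) (nat_lit 31541526255) (nat_lit 82) (nat_lit 5) (nat_lit 85) (nat_lit 5) (nat_lit 83) (nat_lit 5) (nat_lit 463) (nat_lit 390) (nat_lit 167)) (XT.lf (nat_lit 0) (nat_lit 9653640531) (nat_lit 228) (nat_lit 12327086981) (nat_lit 304) (nat_lit 43607317085) (nat_lit 79) (nat_lit 5) (nat_lit 82) (nat_lit 5) (nat_lit 83) (nat_lit 5) (nat_lit 464) (nat_lit 390) (nat_lit 166))))) (XT.nd (nat_lit 234) (nat_lit 380) (nat_lit 0) (XT.nd (nat_lit 78) (nat_lit 228) (nat_lit 0) (XT.lf (nat_lit 0) (nat_lit 37225498880) (nat_lit 304) (nat_lit 20901521171) (nat_lit 76) (nat_lit 8790580935) (nat_lit 79) (nat_lit 5) (nat_lit 83) (nat_lit 5) (nat_lit 80) (nat_lit 5) (nat_lit 465) (nat_lit 390) (nat_lit 165)) (XT.nd (nat_lit 78) (nat_lit 76) (nat_lit 0) (XT.lf (nat_lit 0) (nat_lit 15357197323) (nat_lit 152) (nat_lit 37838451972) (nat_lit 228) (nat_lit 15083353977) (nat_lit 77) (nat_lit 5) (nat_lit 79) (nat_lit 5) (nat_lit 80) (nat_lit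 5) (nat_lit 466) (nat_lit 390) (nat_lit 164)) (XT.lf (nat_lit 0) (nat_lit 175887689) (nat_lit 228) (nat_lit 16547298318) (nat_lit 76) (nat_lit 52951726703) (nat_lit 76) (nat_lit 5) (nat_lit 79) (nat_lit 5) (nat_lit 77) (nat_lit 5) (nat_lit 467) (nat_lit 390) (nat_lit 163)))) (XT.nd (nat_lit 156) (nat_lit 152) (nat_lit 0) (XT.nd (nat_lit 78) (nat_lit 0) (nat_lit 0) (XT.lf (nat_lit 0) (nat_lit 15843545857) (nat_lit 304) (nat_lit 49974254202) (nat_lit 76) (nat_lit 5282805431) (nat_lit 73) (nat_lit 5) (nat_lit 77) (nat_lit 5) (nat_lit 74) (nat_lit 5) (nat_lit 468) (nat_lit 390) (nat_lit 162)) (XT.lf (nat_lit 0) (nat_lit 32313984665) (nat_lit 304) (nat_lit 12464582300) (nat_lit 76) (nat_lit 27780519809) (nat_lit 73) (nat_lit 5) (nat_lit 77) (nat_lit 5) (nat_lit 74) (nat_lit 5) (nat_lit 469) (nat_lit 390) (nat_lit 161))) (XT.nd (nat_lit 78) (nat_lit 0) (nat_lit 0) (XT.lf (nat_lit 0) (nat_lit 26688538821) (nat_lit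 152) (nat_lit 22845015369) (nat_lit 228) (nat_lit 24520118021) (nat_lit 71) (nat_lit 5) (nat_lit 73) (nat_lit 5) (nat_lit 74) (nat_lit 5) (nat_lit 470) (nat_lit 390) (nat_lit 160)) (XT.lf (nat_lit 0) (nat_lit 67269160623) (nat_lit 152) (nat_lit 124908506) (nat_lit 228) (nat_lit 8195295563) (nat_lit 71) (nat_lit 5) (nat_lit 73) (nat_lit 5) (nat_lit 74) (nat_lit 5) (nat_lit 471) (nat_lit 390) (nat_lit 159))))))) (XT.nd (nat_lit 47346) (nat_lit 0) (nat_lit 12312) (XT.nd (nat_lit 46800) (nat_lit 0) (nat_lit 14212) (XT.nd (nat_lit 234) (nat_lit 532) (nat_lit 0) (XT.nd (nat_lit 78) (nat_lit 152) (nat_lit 0) (XT.lf (nat_lit 0) (nat_lit 8989116119) (nat_lit 228) (nat_lit 44943224073) (nat_lit 76) (nat_lit 23220161240) (nat_lit 68) (nat_lit 5) (nat_lit 71) (nat_lit 5) (nat_lit 69) (nat_lit 5) (nat_lit 472) (nat_lit 390) (nat_lit 158)) (XT.nd (nat_lit 78) (nat_lit 152) (nat_lit 0) (XT.lf (nat_lit 0) (nat_lit 26608957330)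 (nat_lit 228) (nat_lit 4720589755) (nat_lit 76) (nat_lit 47428012718) (nat_lit 68) (nat_lit 5) (nat_lit 71) (nat_lit 5) (nat_lit 69) (nat_lit 5) (nat_lit 473) (nat_lit 390) (nat_lit 157)) (XT.lf (nat_lit 0) (nat_lit 37436757178) (nat_lit 152) (nat_lit 7679072660) (nat_lit 228) (nat_lit 35284187215) (nat_lit 66) (nat_lit 5) (nat_lit 68) (nat_lit 5) (nat_lit 69) (nat_lit 5) (nat_lit 474) (nat_lit 390) (nat_lit 156)))) (XT.nd (nat_lit 156) (nat_lit 304) (nat_lit 0) (XT.nd (nat_lit 78) (nat_lit 228) (nat_lit 0) (XT.lf (nat_lit 0) (nat_lit 64384975145) (nat_lit 228) (nat_lit 1298045436) (nat_lit 76) (nat_lit 16402515641) (nat_lit 66) (nat_lit 5) (nat_lit 69) (nat_lit 5) (nat_lit 67) (nat_lit 5) (nat_lit 475) (nat_lit 390) (nat_lit 155)) (XT.lf (nat_lit 0) (nat_lit 889225531) (nat_lit 228) (nat_lit 41450513840) (nat_lit 76) (nat_lit 41467163480) (nat_lit 63) (nat_lit 5) (nat_lit 66) (nat_lit 5) (nat_lit 64) (nat_lit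 5) (nat_lit 476) (nat_lit 390) (nat_lit 154))) (XT.nd (nat_lit 234) (nat_lit 152) (nat_lit 0) (XT.lf (nat_lit 0) (nat_lit 1621372585) (nat_lit 152) (nat_lit 18087016104) (nat_lit 228) (nat_lit 65865440981) (nat_lit 61) (nat_lit 5) (nat_lit 63) (nat_lit 5) (nat_lit 64) (nat_lit 5) (nat_lit 477) (nat_lit 390) (nat_lit 153)) (XT.lf (nat_lit 0) (nat_lit 50603935195) (nat_lit 152) (nat_lit 31370768211) (nat_lit 228) (nat_lit 9153769700) (nat_lit 59) (nat_lit 5) (nat_lit 61) (nat_lit 5) (nat_lit 62) (nat_lit 5) (nat_lit 480) (nat_lit 390) (nat_lit 150))))) (XT.nd (nat_lit 234) (nat_lit 0) (nat_lit 76) (XT.nd (nat_lit 78) (nat_lit 1292) (nat_lit 0) (XT.lf (nat_lit 0) (nat_lit 4592671211) (nat_lit 0) (nat_lit 4592671211) (nat_lit 1140) (nat_lit 69580763) (nat_lit 263) (nat_lit 5) (nat_lit 263) (nat_lit 3) (nat_lit 278) (nat_lit 3) (nat_lit 391) (nat_lit 391) (nat_lit 238)) (XT.nd (nat_lit 78) (nat_lit 0) (nat_lit 76)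 (XT.lf (nat_lit 0) (nat_lit 52265200) (nat_lit 1292) (nat_lit 400766618) (nat_lit 1292) (nat_lit 18328699701) (nat_lit 246) (nat_lit 3) (nat_lit 263) (nat_lit 3) (nat_lit 263) (nat_lit 5) (nat_lit 392) (nat_lit 391) (nat_lit 237)) (XT.lf (nat_lit 0) (nat_lit 408329857) (nat_lit 1216) (nat_lit 10182061793) (nat_lit 1292) (nat_lit 8466492615) (nat_lit 247) (nat_lit 5) (nat_lit 263) (nat_lit 5) (nat_lit 264) (nat_lit 5) (nat_lit 393) (nat_lit 391) (nat_lit 236)))) (XT.nd (nat_lit 156) (nat_lit 0) (nat_lit 76) (XT.nd (nat_lit 78) (nat_lit 0) (nat_lit 76) (XT.lf (nat_lit 0) (nat_lit 776417847) (nat_lit 1216) (nat_lit 911853477) (nat_lit 1292) (nat_lit 17651983081) (nat_lit 247) (nat_lit 5) (nat_lit 263) (nat_lit 5) (nat_lit 264) (nat_lit 5) (nat_lit 394) (nat_lit 391) (nat_lit 235)) (XT.lf (nat_lit 0) (nat_lit 1305939331) (nat_lit 1216) (nat_lit 10898247961) (nat_lit 1292) (nat_lit 7423429594) (nat_lit 248) (nat_lit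 5) (nat_lit 264) (nat_lit 5) (nat_lit 265) (nat_lit 5) (nat_lit 395) (nat_lit 391) (nat_lit 234))) (XT.nd (nat_lit 78) (nat_lit 0) (nat_lit 76) (XT.lf (nat_lit 0) (nat_lit 1870536098) (nat_lit 1216) (nat_lit 1265743255) (nat_lit 1292) (nat_lit 16786748075) (nat_lit 248) (nat_lit 5) (nat_lit 264) (nat_lit 5) (nat_lit 265) (nat_lit 5) (nat_lit 396) (nat_lit 391) (nat_lit 233)) (XT.lf (nat_lit 0) (nat_lit 2590763732) (nat_lit 1216) (nat_lit 11461545003) (nat_lit 1292) (nat_lit 6170833557) (nat_lit 249) (nat_lit 5) (nat_lit 265) (nat_lit 5) (nat_lit 266) (nat_lit 5) (nat_lit 397) (nat_lit 391) (nat_lit 232)))))) (XT.nd (nat_lit 546) (nat_lit 2128) (nat_lit 0) (XT.nd (nat_lit 234) (nat_lit 0) (nat_lit 152) (XT.nd (nat_lit 78) (nat_lit 0) (nat_lit 76) (XT.lf (nat_lit 0) (nat_lit 3370111132) (nat_lit 1216) (nat_lit 1451545227) (nat_lit 1292) (nat_lit 15709481565) (nat_lit 249) (nat_lit 5) (nat_lit 265) (nat_lit 5)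 (nat_lit 266) (nat_lit 5) (nat_lit 398) (nat_lit 391) (nat_lit 231)) (XT.nd (nat_lit 78) (nat_lit 0) (nat_lit 0) (XT.lf (nat_lit 0) (nat_lit 4299314382) (nat_lit 1216) (nat_lit 11860975513) (nat_lit 1292) (nat_lit 4684291900) (nat_lit 250) (nat_lit 5) (nat_lit 266) (nat_lit 5) (nat_lit 267) (nat_lit 5) (nat_lit 399) (nat_lit 391) (nat_lit 230)) (XT.lf (nat_lit 0) (nat_lit 5312839768) (nat_lit 1216) (nat_lit 1457543758) (nat_lit 1292) (nat_lit 14395354630) (nat_lit 250) (nat_lit 5) (nat_lit 266) (nat_lit 5) (nat_lit 267) (nat_lit 5) (nat_lit 400) (nat_lit 391) (nat_lit 229)))) (XT.nd (nat_lit 156) (nat_lit 0) (nat_lit 76) (XT.nd (nat_lit 78) (nat_lit 0) (nat_lit 0) (XT.lf (nat_lit 0) (nat_lit 6470380635) (nat_lit 1216) (nat_lit 12084744556) (nat_lit 1292) (nat_lit 2937998209) (nat_lit 251) (nat_lit 5) (nat_lit 267) (nat_lit 5) (nat_lit 268) (nat_lit 5) (nat_lit 401) (nat_lit 391) (nat_lit 228)) (XT.lf (nat_lit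 0) (nat_lit 7738776491) (nat_lit 1216) (nat_lit 1271176983) (nat_lit 1292) (nat_lit 12818095271) (nat_lit 251) (nat_lit 5) (nat_lit 267) (nat_lit 5) (nat_lit 268) (nat_lit 5) (nat_lit 402) (nat_lit 391) (nat_lit 227))) (XT.nd (nat_lit 78) (nat_lit 0) (nat_lit 0) (XT.lf (nat_lit 0) (nat_lit 9145184991) (nat_lit 1216) (nat_lit 12120218661) (nat_lit 1292) (nat_lit 904621716) (nat_lit 252) (nat_lit 5) (nat_lit 268) (nat_lit 5) (nat_lit 269) (nat_lit 5) (nat_lit 403) (nat_lit 391) (nat_lit 226)) (XT.lf (nat_lit 0) (nat_lit 10690492846) (nat_lit 1216) (nat_lit 879014340) (nat_lit 1292) (nat_lit 10949855161) (nat_lit 252) (nat_lit 5) (nat_lit 268) (nat_lit 5) (nat_lit 269) (nat_lit 5) (nat_lit 404) (nat_lit 391) (nat_lit 225))))) (XT.nd (nat_lit 312) (nat_lit 1292) (nat_lit 0) (XT.nd (nat_lit 156) (nat_lit 1064) (nat_lit 0) (XT.nd (nat_lit 78) (nat_lit 0) (nat_lit 76) (XT.lf (nat_lit 76) (nat_lit 10908126263) (nat_lit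 0) (nat_lit 1473584548) (nat_lit 1292) (nat_lit 10494484303) (nat_lit 253) (nat_lit 5) (nat_lit 252) (nat_lit 5) (nat_lit 269) (nat_lit 5) (nat_lit 405) (nat_lit 391) (nat_lit 224)) (XT.lf (nat_lit 0) (nat_lit 14213244711) (nat_lit 1216) (nat_lit 266733160) (nat_lit 1292) (nat_lit 8761069751) (nat_lit 253) (nat_lit 5) (nat_lit 269) (nat_lit 5) (nat_lit 270) (nat_lit 5) (nat_lit 406) (nat_lit 391) (nat_lit 223))) (XT.nd (nat_lit 78) (nat_lit 1140) (nat_lit 0) (XT.lf (nat_lit 76) (nat_lit 12001077600) (nat_lit 0) (nat_lit 4223570088) (nat_lit 1292) (nat_lit 7388452405) (nat_lit 254) (nat_lit 5) (nat_lit 253) (nat_lit 5) (nat_lit 270) (nat_lit 5) (nat_lit 407) (nat_lit 391) (nat_lit 222)) (XT.lf (nat_lit 0) (nat_lit 592466639) (nat_lit 1216) (nat_lit 17768376477) (nat_lit 1292) (nat_lit 5633539527) (nat_lit 238) (nat_lit 5) (nat_lit 254) (nat_lit 5) (nat_lit 255) (nat_lit 5) (nat_lit 408) (nat_lit 391) (nat_lit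 221)))) (XT.nd (nat_lit 156) (nat_lit 684) (nat_lit 0) (XT.nd (nat_lit 78) (nat_lit 608) (nat_lit 0) (XT.lf (nat_lit 0) (nat_lit 13354241750) (nat_lit 1216) (nat_lit 7360737301) (nat_lit 1292) (nat_lit 3667510940) (nat_lit 238) (nat_lit 5) (nat_lit 254) (nat_lit 5) (nat_lit 255) (nat_lit 5) (nat_lit 409) (nat_lit 391) (nat_lit 220)) (XT.lf (nat_lit 0) (nat_lit 1713518336) (nat_lit 608) (nat_lit 21470316104) (nat_lit 684) (nat_lit 1597085159) (nat_lit 230) (nat_lit 5) (nat_lit 238) (nat_lit 5) (nat_lit 239) (nat_lit 5) (nat_lit 410) (nat_lit 391) (nat_lit 219))) (XT.nd (nat_lit 78) (nat_lit 608) (nat_lit 0) (XT.lf (nat_lit 0) (nat_lit 705731929) (nat_lit 684) (nat_lit 10207793360) (nat_lit 76) (nat_lit 14272202372) (nat_lit 229) (nat_lit 5) (nat_lit 238) (nat_lit 5) (nat_lit 230) (nat_lit 5) (nat_lit 411) (nat_lit 391) (nat_lit 218)) (XT.lf (nat_lit 0) (nat_lit 3070702388) (nat_lit 684) (nat_lit 22523860035)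 (nat_lit 76) (nat_lit 6889838) (nat_lit 221) (nat_lit 5) (nat_lit 230) (nat_lit 5) (nat_lit 222) (nat_lit 5) (nat_lit 412) (nat_lit 391) (nat_lit 217))))))))
noncomputable def xc209 : XT := (XT.nd (nat_lit 2184) (nat_lit 4332) (nat_lit 0) (XT.nd (nat_lit 1092) (nat_lit 3268) (nat_lit 0) (XT.nd (nat_lit 546) (nat_lit 1976) (nat_lit 0) (XT.nd (nat_lit 234) (nat_lit 1064) (nat_lit 0) (XT.nd (nat_lit 78) (nat_lit 608) (nat_lit 0) (XT.lf (nat_lit 0) (nat_lit 5714385862) (nat_lit 684) (nat_lit 9169121746) (nat_lit 76) (nat_lit 11139909764) (nat_lit 221) (nat_lit 5) (nat_lit 230) (nat_lit 5) (nat_lit 222) (nat_lit 5) (nat_lit 413) (nat_lit 391) (nat_lit 216)) (XT.nd (nat_lit 78) (nat_lit 0) (nat_lit 0) (XT.lf (nat_lit 0) (nat_lit 4673296830) (nat_lit 608) (nat_lit 3804743381) (nat_lit 684) (nat_lit 17978783056) (nat_lit 213) (nat_lit 5) (nat_lit 221) (nat_lit 5) (nat_lit 222) (nat_lit 5) (nat_lit 414) (nat_lit 391)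 (nat_lit 215)) (XT.lf (nat_lit 0) (nat_lit 11487051281) (nat_lit 684) (nat_lit 7859783126) (nat_lit 76) (nat_lit 7551525111) (nat_lit 213) (nat_lit 5) (nat_lit 222) (nat_lit 5) (nat_lit 214) (nat_lit 5) (nat_lit 415) (nat_lit 391) (nat_lit 214)))) (XT.nd (nat_lit 156) (nat_lit 532) (nat_lit 0) (XT.nd (nat_lit 78) (nat_lit 0) (nat_lit 0) (XT.lf (nat_lit 0) (nat_lit 6568050095) (nat_lit 532) (nat_lit 8115034080) (nat_lit 608) (nat_lit 12667156684) (nat_lit 206) (nat_lit 5) (nat_lit 213) (nat_lit 5) (nat_lit 214) (nat_lit 5) (nat_lit 416) (nat_lit 391) (nat_lit 213)) (XT.lf (nat_lit 0) (nat_lit 18084374153) (nat_lit 608) (nat_lit 6261643948) (nat_lit 76) (nat_lit 3466380757) (nat_lit 206) (nat_lit 5) (nat_lit 214) (nat_lit 5) (nat_lit 207) (nat_lit 5) (nat_lit 417) (nat_lit 391) (nat_lit 212))) (XT.nd (nat_lit 78) (nat_lit 0) (nat_lit 0) (XT.lf (nat_lit 0) (nat_lit 8781455046) (nat_lit 532) (nat_lit 12967145818)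 (nat_lit 608) (nat_lit 6534995249) (nat_lit 199) (nat_lit 5) (nat_lit 206) (nat_lit 5) (nat_lit 207) (nat_lit 5) (nat_lit 418) (nat_lit 391) (nat_lit 211)) (XT.lf (nat_lit 0) (nat_lit 24400169357) (nat_lit 532) (nat_lit 1182027477) (nat_lit 608) (nat_lit 3184950595) (nat_lit 199) (nat_lit 5) (nat_lit 206) (nat_lit 5) (nat_lit 207) (nat_lit 5) (nat_lit 419) (nat_lit 391) (nat_lit 210))))) (XT.nd (nat_lit 234) (nat_lit 912) (nat_lit 0) (XT.nd (nat_lit 78) (nat_lit 532) (nat_lit 0) (XT.lf (nat_lit 0) (nat_lit 473088423) (nat_lit 532) (nat_lit 17929467936) (nat_lit 76) (nat_lit 10856193392) (nat_lit 192) (nat_lit 5) (nat_lit 199) (nat_lit 5) (nat_lit 193) (nat_lit 5) (nat_lit 420) (nat_lit 391) (nat_lit 209)) (XT.nd (nat_lit 78) (nat_lit 532) (nat_lit 0) (XT.lf (nat_lit 0) (nat_lit 4229443966) (nat_lit 532) (nat_lit 2225564454) (nat_lit 76) (nat_lit 23307569304) (nat_lit 192) (nat_lit 5) (nat_lit 199) (nat_lit 5)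 (nat_lit 193) (nat_lit 5) (nat_lit 421) (nat_lit 391) (nat_lit 208)) (XT.lf (nat_lit 0) (nat_lit 8289261957) (nat_lit 608) (nat_lit 16112063318) (nat_lit 76) (nat_lit 5874473364) (nat_lit 185) (nat_lit 5) (nat_lit 193) (nat_lit 5) (nat_lit 186) (nat_lit 5) (nat_lit 422) (nat_lit 391) (nat_lit 207)))) (XT.nd (nat_lit 156) (nat_lit 456) (nat_lit 0) (XT.nd (nat_lit 78) (nat_lit 0) (nat_lit 0) (XT.lf (nat_lit 0) (nat_lit 222802269) (nat_lit 456) (nat_lit 12333340953) (nat_lit 532) (nat_lit 18245716118) (nat_lit 179) (nat_lit 5) (nat_lit 185) (nat_lit 5) (nat_lit 186) (nat_lit 5) (nat_lit 423) (nat_lit 391) (nat_lit 206)) (XT.lf (nat_lit 0) (nat_lit 17112849097) (nat_lit 532) (nat_lit 13967430868) (nat_lit 76) (nat_lit 258568539) (nat_lit 179) (nat_lit 5) (nat_lit 186) (nat_lit 5) (nat_lit 180) (nat_lit 5) (nat_lit 424) (nat_lit 391) (nat_lit 205))) (XT.nd (nat_lit 78) (nat_lit 0) (nat_lit 0) (XT.lf (nat_lit 0) (nat_lit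 3076519135) (nat_lit 456) (nat_lit 18878100017) (nat_lit 532) (nat_lit 9932878449) (nat_lit 173) (nat_lit 5) (nat_lit 179) (nat_lit 5) (nat_lit 180) (nat_lit 5) (nat_lit 425) (nat_lit 391) (nat_lit 204)) (XT.lf (nat_lit 0) (nat_lit 20914198300) (nat_lit 456) (nat_lit 6165224218) (nat_lit 532) (nat_lit 5369051365) (nat_lit 173) (nat_lit 5) (nat_lit 179) (nat_lit 5) (nat_lit 180) (nat_lit 5) (nat_lit 426) (nat_lit 391) (nat_lit 203)))))) (XT.nd (nat_lit 546) (nat_lit 1596) (nat_lit 0) (XT.nd (nat_lit 234) (nat_lit 760) (nat_lit 0) (XT.nd (nat_lit 78) (nat_lit 532) (nat_lit 0) (XT.lf (nat_lit 0) (nat_lit 6313435834) (nat_lit 380) (nat_lit 26168654492) (nat_lit 456) (nat_lit 540466602) (nat_lit 168) (nat_lit 5) (nat_lit 173) (nat_lit 5) (nat_lit 174) (nat_lit 5) (nat_lit 427) (nat_lit 391) (nat_lit 202)) (XT.nd (nat_lit 78) (nat_lit 456) (nat_lit 0) (XT.lf (nat_lit 0) (nat_lit 4521990131) (nat_lit 456) (nat_lit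 8786065745) (nat_lit 76) (nat_lit 20299263702) (nat_lit 167) (nat_lit 5) (nat_lit 173) (nat_lit 5) (nat_lit 168) (nat_lit 5) (nat_lit 428) (nat_lit 391) (nat_lit 201)) (XT.lf (nat_lit 0) (nat_lit 9817550391) (nat_lit 532) (nat_lit 24349208992) (nat_lit 76) (nat_lit 39943405) (nat_lit 161) (nat_lit 5) (nat_lit 168) (nat_lit 5) (nat_lit 162) (nat_lit 5) (nat_lit 429) (nat_lit 391) (nat_lit 200)))) (XT.nd (nat_lit 156) (nat_lit 380) (nat_lit 0) (XT.nd (nat_lit 78) (nat_lit 380) (nat_lit 0) (XT.lf (nat_lit 0) (nat_lit 15490327520) (nat_lit 532) (nat_lit 5717424076) (nat_lit 76) (nat_lit 13609766358) (nat_lit 161) (nat_lit 5) (nat_lit 168) (nat_lit 5) (nat_lit 162) (nat_lit 5) (nat_lit 430) (nat_lit 391) (nat_lit 199)) (XT.lf (nat_lit 0) (nat_lit 13737654698) (nat_lit 380) (nat_lit 7724762432) (nat_lit 456) (nat_lit 13980367506) (nat_lit 156) (nat_lit 5) (nat_lit 161) (nat_lit 5) (nat_lit 162) (nat_lit 5) (nat_lit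 431) (nat_lit 391) (nat_lit 198))) (XT.nd (nat_lit 78) (nat_lit 380) (nat_lit 0) (XT.lf (nat_lit 0) (nat_lit 27728331894) (nat_lit 456) (nat_lit 2255074838) (nat_lit 76) (nat_lit 6099963622) (nat_lit 156) (nat_lit 5) (nat_lit 162) (nat_lit 5) (nat_lit 157) (nat_lit 5) (nat_lit 432) (nat_lit 391) (nat_lit 197)) (XT.lf (nat_lit 0) (nat_lit 18050567052) (nat_lit 380) (nat_lit 16378853188) (nat_lit 456) (nat_lit 2306338400) (nat_lit 151) (nat_lit 5) (nat_lit 156) (nat_lit 5) (nat_lit 157) (nat_lit 5) (nat_lit 433) (nat_lit 391) (nat_lit 196))))) (XT.nd (nat_lit 234) (nat_lit 760) (nat_lit 0) (XT.nd (nat_lit 78) (nat_lit 380) (nat_lit 0) (XT.lf (nat_lit 0) (nat_lit 1594047657) (nat_lit 380) (nat_lit 2288746178) (nat_lit 456) (nat_lit 33522727854) (nat_lit 145) (nat_lit 5) (nat_lit 150) (nat_lit 5) (nat_lit 151) (nat_lit 5) (nat_lit 434) (nat_lit 391) (nat_lit 195)) (XT.nd (nat_lit 78) (nat_lit 380) (nat_lit 0) (XT.lf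 (nat_lit 0) (nat_lit 10516558053) (nat_lit 456) (nat_lit 15370955180) (nat_lit 76) (nat_lit 12198020757) (nat_lit 145) (nat_lit 5) (nat_lit 151) (nat_lit 5) (nat_lit 146) (nat_lit 5) (nat_lit 435) (nat_lit 391) (nat_lit 194)) (XT.lf (nat_lit 0) (nat_lit 5769080442) (nat_lit 380) (nat_lit 11655707458) (nat_lit 456) (nat_lit 21358895964) (nat_lit 140) (nat_lit 5) (nat_lit 145) (nat_lit 5) (nat_lit 146) (nat_lit 5) (nat_lit 436) (nat_lit 391) (nat_lit 193)))) (XT.nd (nat_lit 156) (nat_lit 456) (nat_lit 0) (XT.nd (nat_lit 78) (nat_lit 304) (nat_lit 0) (XT.lf (nat_lit 0) (nat_lit 24723255044) (nat_lit 456) (nat_lit 11673767306) (nat_lit 76) (nat_lit 3100266931) (nat_lit 140) (nat_lit 5) (nat_lit 146) (nat_lit 5) (nat_lit 141) (nat_lit 5) (nat_lit 437) (nat_lit 391) (nat_lit 192)) (XT.lf (nat_lit 0) (nat_lit 10391116987) (nat_lit 304) (nat_lit 22062294554) (nat_lit 380) (nat_lit 7772509999) (nat_lit 136) (nat_lit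 5) (nat_lit 140) (nat_lit 5) (nat_lit 141) (nat_lit 5) (nat_lit 438) (nat_lit 391) (nat_lit 191))) (XT.nd (nat_lit 78) (nat_lit 456) (nat_lit 0) (XT.lf (nat_lit 0) (nat_lit 33353741341) (nat_lit 304) (nat_lit 7177100735) (nat_lit 380) (nat_lit 442110327) (nat_lit 136) (nat_lit 5) (nat_lit 140) (nat_lit 5) (nat_lit 141) (nat_lit 5) (nat_lit 439) (nat_lit 391) (nat_lit 190)) (XT.lf (nat_lit 0) (nat_lit 7196491333) (nat_lit 456) (nat_lit 26323080992) (nat_lit 76) (nat_lit 8213962795) (nat_lit 130) (nat_lit 5) (nat_lit 136) (nat_lit 5) (nat_lit 131) (nat_lit 5) (nat_lit 440) (nat_lit 391) (nat_lit 189))))))) (XT.nd (nat_lit 1092) (nat_lit 1976) (nat_lit 0) (XT.nd (nat_lit 546) (nat_lit 1064) (nat_lit 0) (XT.nd (nat_lit 234) (nat_lit 684) (nat_lit 0) (XT.nd (nat_lit 78) (nat_lit 608) (nat_lit 0) (XT.lf (nat_lit 0) (nat_lit 15201691194) (nat_lit 456) (nat_lit 3307115827) (nat_lit 76) (nat_lit 24003607848) (nat_lit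 130) (nat_lit 5) (nat_lit 136) (nat_lit 5) (nat_lit 131) (nat_lit 5) (nat_lit 441) (nat_lit 391) (nat_lit 188)) (XT.nd (nat_lit 78) (nat_lit 304) (nat_lit 0) (XT.lf (nat_lit 0) (nat_lit 20801864279) (nat_lit 304) (nat_lit 2842778804) (nat_lit 380) (nat_lit 19664090683) (nat_lit 126) (nat_lit 5) (nat_lit 130) (nat_lit 5) (nat_lit 131) (nat_lit 5) (nat_lit 442) (nat_lit 391) (nat_lit 187)) (XT.lf (nat_lit 0) (nat_lit 1471149409) (nat_lit 304) (nat_lit 31043047018) (nat_lit 380) (nat_lit 11609547036) (nat_lit 122) (nat_lit 5) (nat_lit 126) (nat_lit 5) (nat_lit 127) (nat_lit 5) (nat_lit 443) (nat_lit 391) (nat_lit 186)))) (XT.nd (nat_lit 156) (nat_lit 304) (nat_lit 0) (XT.nd (nat_lit 78) (nat_lit 380) (nat_lit 0) (XT.lf (nat_lit 0) (nat_lit 26597793824) (nat_lit 304) (nat_lit 15304886408) (nat_lit 380) (nat_lit 3052938503) (nat_lit 122) (nat_lit 5) (nat_lit 126) (nat_lit 5) (nat_lit 127) (nat_lit 5) (nat_lit 444)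 (nat_lit 391) (nat_lit 185)) (XT.lf (nat_lit 0) (nat_lit 5720363489) (nat_lit 380) (nat_lit 39080212153) (nat_lit 76) (nat_lit 1008042002) (nat_lit 117) (nat_lit 5) (nat_lit 122) (nat_lit 5) (nat_lit 118) (nat_lit 5) (nat_lit 445) (nat_lit 391) (nat_lit 184))) (XT.nd (nat_lit 78) (nat_lit 304) (nat_lit 0) (XT.lf (nat_lit 0) (nat_lit 15032016900) (nat_lit 380) (nat_lit 13925049855) (nat_lit 76) (nat_lit 17719138099) (nat_lit 117) (nat_lit 5) (nat_lit 122) (nat_lit 5) (nat_lit 118) (nat_lit 5) (nat_lit 446) (nat_lit 391) (nat_lit 183)) (XT.lf (nat_lit 0) (nat_lit 12219971685) (nat_lit 304) (nat_lit 12518345537) (nat_lit 380) (nat_lit 22828044072) (nat_lit 113) (nat_lit 5) (nat_lit 117) (nat_lit 5) (nat_lit 118) (nat_lit 5) (nat_lit 447) (nat_lit 391) (nat_lit 182))))) (XT.nd (nat_lit 234) (nat_lit 760) (nat_lit 0) (XT.nd (nat_lit 78) (nat_lit 304) (nat_lit 0) (XT.lf (nat_lit 0) (nat_lit 34918093377) (nat_lit 380)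 (nat_lit 9091301681) (nat_lit 76) (nat_lit 4468359284) (nat_lit 113) (nat_lit 5) (nat_lit 118) (nat_lit 5) (nat_lit 114) (nat_lit 5) (nat_lit 448) (nat_lit 391) (nat_lit 181)) (XT.nd (nat_lit 78) (nat_lit 76) (nat_lit 0) (XT.lf (nat_lit 0) (nat_lit 18179055459) (nat_lit 228) (nat_lit 27520815369) (nat_lit 304) (nat_lit 3707720614) (nat_lit 110) (nat_lit 5) (nat_lit 113) (nat_lit 5) (nat_lit 114) (nat_lit 5) (nat_lit 449) (nat_lit 391) (nat_lit 180)) (XT.lf (nat_lit 0) (nat_lit 6404753392) (nat_lit 304) (nat_lit 3974684345) (nat_lit 76) (nat_lit 39981310140) (nat_lit 109) (nat_lit 5) (nat_lit 113) (nat_lit 5) (nat_lit 110) (nat_lit 5) (nat_lit 450) (nat_lit 391) (nat_lit 179)))) (XT.nd (nat_lit 156) (nat_lit 228) (nat_lit 0) (XT.nd (nat_lit 78) (nat_lit 228) (nat_lit 0) (XT.lf (nat_lit 0) (nat_lit 17052550025) (nat_lit 380) (nat_lit 26871256591) (nat_lit 76) (nat_lit 7408397447) (nat_lit 105) (nat_lit 5) (nat_lit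 110) (nat_lit 5) (nat_lit 106) (nat_lit 5) (nat_lit 451) (nat_lit 391) (nat_lit 178)) (XT.lf (nat_lit 0) (nat_lit 1420974527) (nat_lit 228) (nat_lit 26753770593) (nat_lit 304) (nat_lit 24153410326) (nat_lit 102) (nat_lit 5) (nat_lit 105) (nat_lit 5) (nat_lit 106) (nat_lit 5) (nat_lit 452) (nat_lit 391) (nat_lit 177))) (XT.nd (nat_lit 78) (nat_lit 228) (nat_lit 0) (XT.lf (nat_lit 0) (nat_lit 31109722299) (nat_lit 228) (nat_lit 8790263902) (nat_lit 304) (nat_lit 13445918198) (nat_lit 102) (nat_lit 5) (nat_lit 105) (nat_lit 5) (nat_lit 106) (nat_lit 5) (nat_lit 453) (nat_lit 391) (nat_lit 176)) (XT.lf (nat_lit 0) (nat_lit 7341810614) (nat_lit 228) (nat_lit 44797186970) (nat_lit 304) (nat_lit 2250328267) (nat_lit 99) (nat_lit 5) (nat_lit 102) (nat_lit 5) (nat_lit 103) (nat_lit 5) (nat_lit 454) (nat_lit 391) (nat_lit 175)))))) (XT.nd (nat_lit 546) (nat_lit 1140) (nat_lit 0) (XT.nd (nat_lit 234) (nat_lit 532) (nat_lit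 0) (XT.nd (nat_lit 78) (nat_lit 228) (nat_lit 0) (XT.lf (nat_lit 0) (nat_lit 9411906248) (nat_lit 304) (nat_lit 17375872799) (nat_lit 76) (nat_lit 28664238265) (nat_lit 98) (nat_lit 5) (nat_lit 102) (nat_lit 5) (nat_lit 99) (nat_lit 5) (nat_lit 455) (nat_lit 391) (nat_lit 174)) (XT.nd (nat_lit 78) (nat_lit 0) (nat_lit 0) (XT.lf (nat_lit 0) (nat_lit 13422599802) (nat_lit 228) (nat_lit 8083348370) (nat_lit 304) (nat_lit 35036158223) (nat_lit 95) (nat_lit 5) (nat_lit 98) (nat_lit 5) (nat_lit 99) (nat_lit 5) (nat_lit 456) (nat_lit 391) (nat_lit 173)) (XT.lf (nat_lit 0) (nat_lit 34245659933) (nat_lit 304) (nat_lit 12270624446) (nat_lit 76) (nat_lit 11140128689) (nat_lit 95) (nat_lit 5) (nat_lit 99) (nat_lit 5) (nat_lit 96) (nat_lit 5) (nat_lit 457) (nat_lit 391) (nat_lit 172)))) (XT.nd (nat_lit 156) (nat_lit 228) (nat_lit 0) (XT.nd (nat_lit 78) (nat_lit 76) (nat_lit 0) (XT.lf (nat_lit 0) (nat_lit 19807312183) (nat_lit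 228) (nat_lit 27828896432) (nat_lit 304) (nat_lit 11159881323) (nat_lit 92) (nat_lit 5) (nat_lit 95) (nat_lit 5) (nat_lit 96) (nat_lit 5) (nat_lit 458) (nat_lit 391) (nat_lit 171)) (XT.lf (nat_lit 0) (nat_lit 1553410966) (nat_lit 304) (nat_lit 6885262408) (nat_lit 76) (nat_lit 51527162820) (nat_lit 91) (nat_lit 5) (nat_lit 95) (nat_lit 5) (nat_lit 92) (nat_lit 5) (nat_lit 459) (nat_lit 391) (nat_lit 170))) (XT.nd (nat_lit 78) (nat_lit 0) (nat_lit 0) (XT.lf (nat_lit 0) (nat_lit 14792118288) (nat_lit 304) (nat_lit 34687367837) (nat_lit 76) (nat_lit 11676824663) (nat_lit 88) (nat_lit 5) (nat_lit 92) (nat_lit 5) (nat_lit 89) (nat_lit 5) (nat_lit 460) (nat_lit 391) (nat_lit 169)) (XT.lf (nat_lit 0) (nat_lit 28580038312) (nat_lit 304) (nat_lit 1502565172) (nat_lit 76) (nat_lit 32295334916) (nat_lit 88) (nat_lit 5) (nat_lit 92) (nat_lit 5) (nat_lit 89) (nat_lit 5) (nat_lit 461) (nat_lit 391) (nat_lit 168))))) (XT.nd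 (nat_lit 312) (nat_lit 456) (nat_lit 0) (XT.nd (nat_lit 156) (nat_lit 304) (nat_lit 0) (XT.nd (nat_lit 78) (nat_lit 152) (nat_lit 0) (XT.lf (nat_lit 0) (nat_lit 33325333850) (nat_lit 228) (nat_lit 9774939773) (nat_lit 304) (nat_lit 20526381199) (nat_lit 85) (nat_lit 5) (nat_lit 88) (nat_lit 5) (nat_lit 89) (nat_lit 5) (nat_lit 462) (nat_lit 391) (nat_lit 167)) (XT.lf (nat_lit 0) (nat_lit 4290199772) (nat_lit 152) (nat_lit 53927928965) (nat_lit 228) (nat_lit 6689843922) (nat_lit 83) (nat_lit 5) (nat_lit 85) (nat_lit 5) (nat_lit 86) (nat_lit 5) (nat_lit 463) (nat_lit 391) (nat_lit 166))) (XT.nd (nat_lit 78) (nat_lit 228) (nat_lit 0) (XT.lf (nat_lit 0) (nat_lit 7818378503) (nat_lit 228) (nat_lit 25853200114) (nat_lit 76) (nat_lit 32541846641) (nat_lit 82) (nat_lit 5) (nat_lit 85) (nat_lit 5) (nat_lit 83) (nat_lit 5) (nat_lit 464) (nat_lit 391) (nat_lit 165)) (XT.lf (nat_lit 0) (nat_lit 10082129473) (nat_lit 228)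 (nat_lit 12640574220) (nat_lit 304) (nat_lit 44830491478) (nat_lit 79) (nat_lit 5) (nat_lit 82) (nat_lit 5) (nat_lit 83) (nat_lit 5) (nat_lit 465) (nat_lit 391) (nat_lit 164)))) (XT.nd (nat_lit 156) (nat_lit 304) (nat_lit 0) (XT.nd (nat_lit 78) (nat_lit 152) (nat_lit 0) (XT.lf (nat_lit 0) (nat_lit 38422939371) (nat_lit 304) (nat_lit 21391839568) (nat_lit 76) (nat_lit 9107916091) (nat_lit 79) (nat_lit 5) (nat_lit 83) (nat_lit 5) (nat_lit 80) (nat_lit 5) (nat_lit 466) (nat_lit 391) (nat_lit 163)) (XT.lf (nat_lit 0) (nat_lit 15953300018) (nat_lit 152) (nat_lit 38917845929) (nat_lit 228) (nat_lit 15453825287) (nat_lit 77) (nat_lit 5) (nat_lit 79) (nat_lit 5) (nat_lit 80) (nat_lit 5) (nat_lit 467) (nat_lit 391) (nat_lit 162))) (XT.nd (nat_lit 78) (nat_lit 228) (nat_lit 0) (XT.lf (nat_lit 0) (nat_lit 259250360) (nat_lit 228) (nat_lit 16910707174) (nat_lit 76) (nat_lit 54592847419) (nat_lit 76) (nat_lit 5) (nat_lit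 79) (nat_lit 5) (nat_lit 77) (nat_lit 5) (nat_lit 468) (nat_lit 391) (nat_lit 161)) (XT.lf (nat_lit 0) (nat_lit 16396455082) (nat_lit 304) (nat_lit 51339976354) (nat_lit 76) (nat_lit 5494851942) (nat_lit 73) (nat_lit 5) (nat_lit 77) (nat_lit 5) (nat_lit 74) (nat_lit 5) (nat_lit 469) (nat_lit 391) (nat_lit 160))))))))
noncomputable def xc210 : XT := (XT.nd (nat_lit 48594) (nat_lit 0) (nat_lit 5852) (XT.nd (nat_lit 47502) (nat_lit 0) (nat_lit 12996) (XT.nd (nat_lit 780) (nat_lit 532) (nat_lit 0) (XT.nd (nat_lit 234) (nat_lit 380) (nat_lit 0) (XT.nd (nat_lit 78) (nat_lit 152) (nat_lit 0) (XT.lf (nat_lit 0) (nat_lit 33358746778) (nat_lit 304) (nat_lit 12708902804) (nat_lit 76) (nat_lit 28665937683) (nat_lit 73) (nat_lit 5) (nat_lit 77) (nat_lit 5) (nat_lit 74) (nat_lit 5) (nat_lit 470) (nat_lit 391) (nat_lit 159)) (XT.nd (nat_lit 78) (nat_lit 0) (nat_lit 0) (XT.lf (nat_lit 0) (nat_lit 27617541196) (nat_lit 152)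 (nat_lit 23476401491) (nat_lit 228) (nat_lit 25179096743) (nat_lit 71) (nat_lit 5) (nat_lit 73) (nat_lit 5) (nat_lit 74) (nat_lit 5) (nat_lit 471) (nat_lit 391) (nat_lit 158)) (XT.lf (nat_lit 0) (nat_lit 69411843414) (nat_lit 152) (nat_lit 76263199) (nat_lit 228) (nat_lit 8366761403) (nat_lit 71) (nat_lit 5) (nat_lit 73) (nat_lit 5) (nat_lit 74) (nat_lit 5) (nat_lit 472) (nat_lit 391) (nat_lit 157)))) (XT.nd (nat_lit 156) (nat_lit 152) (nat_lit 0) (XT.nd (nat_lit 78) (nat_lit 0) (nat_lit 0) (XT.lf (nat_lit 0) (nat_lit 9331314150) (nat_lit 228) (nat_lit 46165022996) (nat_lit 76) (nat_lit 23968553076) (nat_lit 68) (nat_lit 5) (nat_lit 71) (nat_lit 5) (nat_lit 69) (nat_lit 5) (nat_lit 473) (nat_lit 391) (nat_lit 156)) (XT.lf (nat_lit 0) (nat_lit 27477638232) (nat_lit 228) (nat_lit 4739394051) (nat_lit 76) (nat_lit 48901131740) (nat_lit 68) (nat_lit 5) (nat_lit 71) (nat_lit 5) (nat_lit 69) (nat_lit 5) (nat_lit 474)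 (nat_lit 391) (nat_lit 155))) (XT.nd (nat_lit 78) (nat_lit 0) (nat_lit 0) (XT.lf (nat_lit 0) (nat_lit 38681469238) (nat_lit 152) (nat_lit 7857365821) (nat_lit 228) (nat_lit 36271086684) (nat_lit 66) (nat_lit 5) (nat_lit 68) (nat_lit 5) (nat_lit 69) (nat_lit 5) (nat_lit 475) (nat_lit 391) (nat_lit 154)) (XT.lf (nat_lit 0) (nat_lit 66384515604) (nat_lit 228) (nat_lit 1217370731) (nat_lit 76) (nat_lit 16944166614) (nat_lit 66) (nat_lit 5) (nat_lit 69) (nat_lit 5) (nat_lit 67) (nat_lit 5) (nat_lit 476) (nat_lit 391) (nat_lit 153))))) (XT.nd (nat_lit 46410) (nat_lit 0) (nat_lit 14288) (XT.nd (nat_lit 46254) (nat_lit 0) (nat_lit 14212) (XT.lf (nat_lit 0) (nat_lit 4142208308) (nat_lit 152) (nat_lit 57992936050) (nat_lit 228) (nat_lit 29772012373) (nat_lit 59) (nat_lit 5) (nat_lit 61) (nat_lit 5) (nat_lit 62) (nat_lit 5) (nat_lit 480) (nat_lit 391) (nat_lit 149)) (XT.nd (nat_lit 78) (nat_lit 0) (nat_lit 0) (XT.lf (nat_lit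 0) (nat_lit 118654511) (nat_lit 1292) (nat_lit 4704094770) (nat_lit 1292) (nat_lit 4704094770) (nat_lit 246) (nat_lit 3) (nat_lit 263) (nat_lit 3) (nat_lit 263) (nat_lit 5) (nat_lit 392) (nat_lit 392) (nat_lit 236)) (XT.lf (nat_lit 0) (nat_lit 420676251) (nat_lit 1292) (nat_lit 223787975) (nat_lit 1292) (nat_lit 18689559051) (nat_lit 246) (nat_lit 3) (nat_lit 263) (nat_lit 3) (nat_lit 263) (nat_lit 5) (nat_lit 393) (nat_lit 392) (nat_lit 235)))) (XT.nd (nat_lit 156) (nat_lit 0) (nat_lit 76) (XT.nd (nat_lit 78) (nat_lit 0) (nat_lit 0) (XT.lf (nat_lit 0) (nat_lit 776895168) (nat_lit 1216) (nat_lit 10287843945) (nat_lit 1292) (nat_lit 8553011836) (nat_lit 247) (nat_lit 5) (nat_lit 263) (nat_lit 5) (nat_lit 264) (nat_lit 5) (nat_lit 394) (nat_lit 392) (nat_lit 234)) (XT.lf (nat_lit 0) (nat_lit 1145647678) (nat_lit 1216) (nat_lit 745345293) (nat_lit 1292) (nat_lit 18018944945) (nat_lit 247) (nat_lit 5) (nat_lit 263)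 (nat_lit 5) (nat_lit 264) (nat_lit 5) (nat_lit 395) (nat_lit 392) (nat_lit 233))) (XT.nd (nat_lit 78) (nat_lit 0) (nat_lit 0) (XT.lf (nat_lit 0) (nat_lit 1681423255) (nat_lit 1216) (nat_lit 11021558309) (nat_lit 1292) (nat_lit 7503232907) (nat_lit 248) (nat_lit 5) (nat_lit 264) (nat_lit 5) (nat_lit 265) (nat_lit 5) (nat_lit 396) (nat_lit 392) (nat_lit 232)) (XT.lf (nat_lit 0) (nat_lit 2253162612) (nat_lit 1216) (nat_lit 1106009639) (nat_lit 1292) (nat_lit 17151613066) (nat_lit 248) (nat_lit 5) (nat_lit 264) (nat_lit 5) (nat_lit 265) (nat_lit 5) (nat_lit 397) (nat_lit 392) (nat_lit 231)))))) (XT.nd (nat_lit 546) (nat_lit 1444) (nat_lit 0) (XT.nd (nat_lit 234) (nat_lit 0) (nat_lit 76) (XT.nd (nat_lit 78) (nat_lit 0) (nat_lit 0) (XT.lf (nat_lit 0) (nat_lit 2986185447) (nat_lit 1216) (nat_lit 11598740200) (nat_lit 1292) (nat_lit 6235246337) (nat_lit 249) (nat_lit 5) (nat_lit 265) (nat_lit 5) (nat_lit 266) (nat_lit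 5) (nat_lit 398) (nat_lit 392) (nat_lit 230)) (XT.nd (nat_lit 78) (nat_lit 0) (nat_lit 76) (XT.lf (nat_lit 0) (nat_lit 3779659906) (nat_lit 1216) (nat_lit 1294459396) (nat_lit 1292) (nat_lit 16063569675) (nat_lit 249) (nat_lit 5) (nat_lit 265) (nat_lit 5) (nat_lit 266) (nat_lit 5) (nat_lit 399) (nat_lit 392) (nat_lit 229)) (XT.lf (nat_lit 0) (nat_lit 4728677824) (nat_lit 1216) (nat_lit 12007985218) (nat_lit 1292) (nat_lit 4724118744) (nat_lit 250) (nat_lit 5) (nat_lit 266) (nat_lit 5) (nat_lit 267) (nat_lit 5) (nat_lit 400) (nat_lit 392) (nat_lit 228)))) (XT.nd (nat_lit 156) (nat_lit 0) (nat_lit 76) (XT.nd (nat_lit 78) (nat_lit 0) (nat_lit 76) (XT.lf (nat_lit 0) (nat_lit 5763859923) (nat_lit 1216) (nat_lit 1298532634) (nat_lit 1292) (nat_lit 14729446421) (nat_lit 250) (nat_lit 5) (nat_lit 266) (nat_lit 5) (nat_lit 267) (nat_lit 5) (nat_lit 401) (nat_lit 392) (nat_lit 227)) (XT.lf (nat_lit 0) (nat_lit 6948751981)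 (nat_lit 1216) (nat_lit 12237055708) (nat_lit 1292) (nat_lit 2943462901) (nat_lit 251) (nat_lit 5) (nat_lit 267) (nat_lit 5) (nat_lit 268) (nat_lit 5) (nat_lit 402) (nat_lit 392) (nat_lit 226))) (XT.nd (nat_lit 78) (nat_lit 0) (nat_lit 76) (XT.lf (nat_lit 0) (nat_lit 8246920298) (nat_lit 1216) (nat_lit 1105204347) (nat_lit 1292) (nat_lit 13122370892) (nat_lit 251) (nat_lit 5) (nat_lit 267) (nat_lit 5) (nat_lit 268) (nat_lit 5) (nat_lit 403) (nat_lit 392) (nat_lit 225)) (XT.lf (nat_lit 0) (nat_lit 9688774036) (nat_lit 1216) (nat_lit 12272858360) (nat_lit 1292) (nat_lit 865304830) (nat_lit 252) (nat_lit 5) (nat_lit 268) (nat_lit 5) (nat_lit 269) (nat_lit 5) (nat_lit 404) (nat_lit 392) (nat_lit 224))))) (XT.nd (nat_lit 234) (nat_lit 1672) (nat_lit 0) (XT.nd (nat_lit 78) (nat_lit 0) (nat_lit 0) (XT.lf (nat_lit 0) (nat_lit 11272599374) (nat_lit 1216) (nat_lit 700562575) (nat_lit 1292) (nat_lit 11213830877) (nat_lit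 252) (nat_lit 5) (nat_lit 268) (nat_lit 5) (nat_lit 269) (nat_lit 5) (nat_lit 405) (nat_lit 392) (nat_lit 223)) (XT.nd (nat_lit 78) (nat_lit 0) (nat_lit 76) (XT.lf (nat_lit 76) (nat_lit 11438184185) (nat_lit 0) (nat_lit 1570705915) (nat_lit 1292) (nat_lit 10545813554) (nat_lit 253) (nat_lit 5) (nat_lit 252) (nat_lit 5) (nat_lit 269) (nat_lit 5) (nat_lit 406) (nat_lit 392) (nat_lit 222)) (XT.lf (nat_lit 0) (nat_lit 14887427804) (nat_lit 1216) (nat_lit 69783613) (nat_lit 1292) (nat_lit 8973531658) (nat_lit 253) (nat_lit 5) (nat_lit 269) (nat_lit 5) (nat_lit 270) (nat_lit 5) (nat_lit 407) (nat_lit 392) (nat_lit 221)))) (XT.nd (nat_lit 156) (nat_lit 608) (nat_lit 0) (XT.nd (nat_lit 78) (nat_lit 1140) (nat_lit 0) (XT.lf (nat_lit 76) (nat_lit 12564052141) (nat_lit 0) (nat_lit 4389854473) (nat_lit 1292) (nat_lit 7360211476) (nat_lit 254) (nat_lit 5) (nat_lit 253) (nat_lit 5) (nat_lit 270) (nat_lit 5) (nat_lit 408)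 (nat_lit 392) (nat_lit 220)) (XT.lf (nat_lit 0) (nat_lit 818872634) (nat_lit 1216) (nat_lit 18329887735) (nat_lit 1292) (nat_lit 5558244471) (nat_lit 238) (nat_lit 5) (nat_lit 254) (nat_lit 5) (nat_lit 255) (nat_lit 5) (nat_lit 409) (nat_lit 392) (nat_lit 219))) (XT.nd (nat_lit 78) (nat_lit 608) (nat_lit 0) (XT.lf (nat_lit 0) (nat_lit 13957424338) (nat_lit 1216) (nat_lit 7609190452) (nat_lit 1292) (nat_lit 3540350596) (nat_lit 238) (nat_lit 5) (nat_lit 254) (nat_lit 5) (nat_lit 255) (nat_lit 5) (nat_lit 410) (nat_lit 392) (nat_lit 218)) (XT.lf (nat_lit 0) (nat_lit 1972687071) (nat_lit 608) (nat_lit 22131883590) (nat_lit 684) (nat_lit 1412928907) (nat_lit 230) (nat_lit 5) (nat_lit 238) (nat_lit 5) (nat_lit 239) (nat_lit 5) (nat_lit 411) (nat_lit 392) (nat_lit 217))))))) (XT.nd (nat_lit 1092) (nat_lit 3268) (nat_lit 0) (XT.nd (nat_lit 546) (nat_lit 2052) (nat_lit 0) (XT.nd (nat_lit 234) (nat_lit 1140) (nat_lit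 0) (XT.nd (nat_lit 78) (nat_lit 608) (nat_lit 0) (XT.lf (nat_lit 0) (nat_lit 947816807) (nat_lit 684) (nat_lit 10307832969) (nat_lit 76) (nat_lit 14678936565) (nat_lit 229) (nat_lit 5) (nat_lit 238) (nat_lit 5) (nat_lit 230) (nat_lit 5) (nat_lit 412) (nat_lit 392) (nat_lit 216)) (XT.nd (nat_lit 78) (nat_lit 0) (nat_lit 0) (XT.lf (nat_lit 0) (nat_lit 3374164333) (nat_lit 608) (nat_lit 5030748) (nat_lit 684) (nat_lit 22983726336) (nat_lit 221) (nat_lit 5) (nat_lit 229) (nat_lit 5) (nat_lit 230) (nat_lit 5) (nat_lit 413) (nat_lit 392) (nat_lit 215)) (XT.lf (nat_lit 0) (nat_lit 6095840024) (nat_lit 684) (nat_lit 9239470048) (nat_lit 76) (nat_lit 11462428306) (nat_lit 221) (nat_lit 5) (nat_lit 230) (nat_lit 5) (nat_lit 222) (nat_lit 5) (nat_lit 414) (nat_lit 392) (nat_lit 214)))) (XT.nd (nat_lit 156) (nat_lit 532) (nat_lit 0) (XT.nd (nat_lit 78) (nat_lit 0) (nat_lit 0) (XT.lf (nat_lit 0) (nat_lit 5016213974) (nat_lit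 608) (nat_lit 3922021518) (nat_lit 684) (nat_lit 18306038367) (nat_lit 213) (nat_lit 5) (nat_lit 221) (nat_lit 5) (nat_lit 222) (nat_lit 5) (nat_lit 415) (nat_lit 392) (nat_lit 213)) (XT.lf (nat_lit 0) (nat_lit 12031491879) (nat_lit 684) (nat_lit 7892661583) (nat_lit 76) (nat_lit 7775085772) (nat_lit 213) (nat_lit 5) (nat_lit 222) (nat_lit 5) (nat_lit 214) (nat_lit 5) (nat_lit 416) (nat_lit 392) (nat_lit 212))) (XT.nd (nat_lit 78) (nat_lit 0) (nat_lit 0) (XT.lf (nat_lit 0) (nat_lit 6966017271) (nat_lit 532) (nat_lit 8353499646) (nat_lit 608) (nat_lit 12845278983) (nat_lit 206) (nat_lit 5) (nat_lit 213) (nat_lit 5) (nat_lit 214) (nat_lit 5) (nat_lit 417) (nat_lit 392) (nat_lit 211)) (XT.lf (nat_lit 0) (nat_lit 18817185125) (nat_lit 608) (nat_lit 6248687505) (nat_lit 76) (nat_lit 3575117978) (nat_lit 206) (nat_lit 5) (nat_lit 214) (nat_lit 5) (nat_lit 207) (nat_lit 5) (nat_lit 418) (nat_lit 392) (nat_lit 210)))))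 (XT.nd (nat_lit 234) (nat_lit 988) (nat_lit 0) (XT.nd (nat_lit 78) (nat_lit 532) (nat_lit 0) (XT.lf (nat_lit 0) (nat_lit 9243735776) (nat_lit 532) (nat_lit 13343972077) (nat_lit 608) (nat_lit 6538726944) (nat_lit 199) (nat_lit 5) (nat_lit 206) (nat_lit 5) (nat_lit 207) (nat_lit 5) (nat_lit 419) (nat_lit 392) (nat_lit 209)) (XT.nd (nat_lit 78) (nat_lit 532) (nat_lit 0) (XT.lf (nat_lit 0) (nat_lit 25325220144) (nat_lit 532) (nat_lit 1205655179) (nat_lit 608) (nat_lit 3093782450) (nat_lit 199) (nat_lit 5) (nat_lit 206) (nat_lit 5) (nat_lit 207) (nat_lit 5) (nat_lit 420) (nat_lit 392) (nat_lit 208)) (XT.lf (nat_lit 0) (nat_lit 667041013) (nat_lit 532) (nat_lit 18267219999) (nat_lit 76) (nat_lit 11196794620) (nat_lit 192) (nat_lit 5) (nat_lit 199) (nat_lit 5) (nat_lit 193) (nat_lit 5) (nat_lit 421) (nat_lit 392) (nat_lit 207)))) (XT.nd (nat_lit 156) (nat_lit 456) (nat_lit 0) (XT.nd (nat_lit 78) (nat_lit 532) (nat_lit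 0) (XT.lf (nat_lit 0) (nat_lit 4530851496) (nat_lit 532) (nat_lit 2098028498) (nat_lit 76) (nat_lit 24021277380) (nat_lit 192) (nat_lit 5) (nat_lit 199) (nat_lit 5) (nat_lit 193) (nat_lit 5) (nat_lit 422) (nat_lit 392) (nat_lit 206)) (XT.lf (nat_lit 0) (nat_lit 8709433142) (nat_lit 608) (nat_lit 16398031294) (nat_lit 76) (nat_lit 6071403212) (nat_lit 185) (nat_lit 5) (nat_lit 193) (nat_lit 5) (nat_lit 186) (nat_lit 5) (nat_lit 423) (nat_lit 392) (nat_lit 205))) (XT.nd (nat_lit 78) (nat_lit 0) (nat_lit 0) (XT.lf (nat_lit 0) (nat_lit 424945027) (nat_lit 456) (nat_lit 12676259736) (nat_lit 532) (nat_lit 18619600642) (nat_lit 179) (nat_lit 5) (nat_lit 185) (nat_lit 5) (nat_lit 186) (nat_lit 5) (nat_lit 424) (nat_lit 392) (nat_lit 204)) (XT.lf (nat_lit 0) (nat_lit 17789960363) (nat_lit 532) (nat_lit 14191979928) (nat_lit 76) (nat_lit 292105196) (nat_lit 179) (nat_lit 5) (nat_lit 186) (nat_lit 5) (nat_lit 180) (nat_lit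 5) (nat_lit 425) (nat_lit 392) (nat_lit 203)))))) (XT.nd (nat_lit 546) (nat_lit 1520) (nat_lit 0) (XT.nd (nat_lit 234) (nat_lit 912) (nat_lit 0) (XT.nd (nat_lit 78) (nat_lit 380) (nat_lit 0) (XT.lf (nat_lit 0) (nat_lit 3361381968) (nat_lit 456) (nat_lit 19412683914) (nat_lit 532) (nat_lit 10065177357) (nat_lit 173) (nat_lit 5) (nat_lit 179) (nat_lit 5) (nat_lit 180) (nat_lit 5) (nat_lit 426) (nat_lit 392) (nat_lit 202)) (XT.nd (nat_lit 78) (nat_lit 380) (nat_lit 0) (XT.lf (nat_lit 0) (nat_lit 21728582753) (nat_lit 456) (nat_lit 6319346863) (nat_lit 532) (nat_lit 5369261307) (nat_lit 173) (nat_lit 5) (nat_lit 179) (nat_lit 5) (nat_lit 180) (nat_lit 5) (nat_lit 427) (nat_lit 392) (nat_lit 201)) (XT.lf (nat_lit 0) (nat_lit 6692361730) (nat_lit 380) (nat_lit 26917877987) (nat_lit 456) (nat_lit 398331431) (nat_lit 168) (nat_lit 5) (nat_lit 173) (nat_lit 5) (nat_lit 174) (nat_lit 5) (nat_lit 428) (nat_lit 392) (nat_lit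 200)))) (XT.nd (nat_lit 156) (nat_lit 380) (nat_lit 0) (XT.nd (nat_lit 78) (nat_lit 456) (nat_lit 0) (XT.lf (nat_lit 0) (nat_lit 4808386928) (nat_lit 456) (nat_lit 8862596107) (nat_lit 76) (nat_lit 20939985110) (nat_lit 167) (nat_lit 5) (nat_lit 173) (nat_lit 5) (nat_lit 168) (nat_lit 5) (nat_lit 429) (nat_lit 392) (nat_lit 199)) (XT.lf (nat_lit 0) (nat_lit 10260560560) (nat_lit 532) (nat_lit 24890332731) (nat_lit 76) (nat_lit 77508586) (nat_lit 161) (nat_lit 5) (nat_lit 168) (nat_lit 5) (nat_lit 162) (nat_lit 5) (nat_lit 430) (nat_lit 392) (nat_lit 198))) (XT.nd (nat_lit 78) (nat_lit 380) (nat_lit 0) (XT.lf (nat_lit 0) (nat_lit 16099196236) (nat_lit 532) (nat_lit 5705109390) (nat_lit 76) (nat_lit 14053366999) (nat_lit 161) (nat_lit 5) (nat_lit 168) (nat_lit 5) (nat_lit 162) (nat_lit 5) (nat_lit 431) (nat_lit 392) (nat_lit 197)) (XT.lf (nat_lit 0) (nat_lit 14331819419) (nat_lit 380) (nat_lit 7916180145) (nat_lit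 456) (nat_lit 14253772556) (nat_lit 156) (nat_lit 5) (nat_lit 161) (nat_lit 5) (nat_lit 162) (nat_lit 5) (nat_lit 432) (nat_lit 392) (nat_lit 196))))) (XT.nd (nat_lit 312) (nat_lit 684) (nat_lit 0) (XT.nd (nat_lit 156) (nat_lit 456) (nat_lit 0) (XT.nd (nat_lit 78) (nat_lit 380) (nat_lit 0) (XT.lf (nat_lit 0) (nat_lit 28698140637) (nat_lit 456) (nat_lit 2142199408) (nat_lit 76) (nat_lit 6321349202) (nat_lit 156) (nat_lit 5) (nat_lit 162) (nat_lit 5) (nat_lit 157) (nat_lit 5) (nat_lit 433) (nat_lit 392) (nat_lit 195)) (XT.lf (nat_lit 0) (nat_lit 18770841860) (nat_lit 380) (nat_lit 16827119886) (nat_lit 456) (nat_lit 2235757698) (nat_lit 151) (nat_lit 5) (nat_lit 156) (nat_lit 5) (nat_lit 157) (nat_lit 5) (nat_lit 434) (nat_lit 392) (nat_lit 194))) (XT.nd (nat_lit 78) (nat_lit 0) (nat_lit 0) (XT.lf (nat_lit 0) (nat_lit 1821615607) (nat_lit 380) (nat_lit 2312441742) (nat_lit 456) (nat_lit 34389546832) (nat_lit 145)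 (nat_lit 5) (nat_lit 150) (nat_lit 5) (nat_lit 151) (nat_lit 5) (nat_lit 435) (nat_lit 392) (nat_lit 193)) (XT.lf (nat_lit 0) (nat_lit 10963328531) (nat_lit 456) (nat_lit 15654028079) (nat_lit 76) (nat_lit 12606766580) (nat_lit 145) (nat_lit 5) (nat_lit 151) (nat_lit 5) (nat_lit 146) (nat_lit 5) (nat_lit 436) (nat_lit 392) (nat_lit 192)))) (XT.nd (nat_lit 156) (nat_lit 304) (nat_lit 0) (XT.nd (nat_lit 78) (nat_lit 0) (nat_lit 0) (XT.lf (nat_lit 0) (nat_lit 6118462967) (nat_lit 380) (nat_lit 11958213599) (nat_lit 456) (nat_lit 21866605978) (nat_lit 140) (nat_lit 5) (nat_lit 145) (nat_lit 5) (nat_lit 146) (nat_lit 5) (nat_lit 437) (nat_lit 392) (nat_lit 191)) (XT.lf (nat_lit 0) (nat_lit 25590776393) (nat_lit 456) (nat_lit 11849447736) (nat_lit 76) (nat_lit 3238172728) (nat_lit 140) (nat_lit 5) (nat_lit 146) (nat_lit 5) (nat_lit 141) (nat_lit 5) (nat_lit 438) (nat_lit 392) (nat_lit 190))) (XT.nd (nat_lit 78) (nat_lit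 0) (nat_lit 0) (XT.lf (nat_lit 0) (nat_lit 10875671983) (nat_lit 304) (nat_lit 22675162101) (nat_lit 380) (nat_lit 7878115165) (nat_lit 136) (nat_lit 5) (nat_lit 140) (nat_lit 5) (nat_lit 141) (nat_lit 5) (nat_lit 439) (nat_lit 392) (nat_lit 189)) (XT.lf (nat_lit 0) (nat_lit 34522141432) (nat_lit 304) (nat_lit 7344839689) (nat_lit 380) (nat_lit 331519138) (nat_lit 136) (nat_lit 5) (nat_lit 140) (nat_lit 5) (nat_lit 141) (nat_lit 5) (nat_lit 440) (nat_lit 392) (nat_lit 188))))))))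
noncomputable def xc211 : XT := (XT.nd (nat_lit 2184) (nat_lit 836) (nat_lit 0) (XT.nd (nat_lit 1092) (nat_lit 1900) (nat_lit 0) (XT.nd (nat_lit 546) (nat_lit 1140) (nat_lit 0) (XT.nd (nat_lit 234) (nat_lit 684) (nat_lit 0) (XT.nd (nat_lit 78) (nat_lit 304) (nat_lit 0) (XT.lf (nat_lit 0) (nat_lit 7532378573) (nat_lit 456) (nat_lit 26941057934) (nat_lit 76) (nat_lit 8508472556) (nat_lit 130) (nat_lit 5) (nat_lit 136) (nat_lit 5) (nat_lit 131) (nat_lit 5) (nat_lit 441) (nat_lit 392) (nat_lit 187)) (XT.nd (nat_lit 78) (nat_lit 304) (nat_lit 0) (XT.lf (nat_lit 0) (nat_lit 15774239503) (nat_lit 456) (nat_lit 3239615236) (nat_lit 76) (nat_lit 24770406256) (nat_lit 130) (nat_lit 5) (nat_lit 136) (nat_lit 5) (nat_lit 131) (nat_lit 5) (nat_lit 442) (nat_lit 392) (nat_lit 186)) (XT.lf (nat_lit 0) (nat_lit 21590999821) (nat_lit 304) (nat_lit 2877673841) (nat_lit 380) (nat_lit 20135850901) (nat_lit 126) (nat_lit 5) (nat_lit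 130) (nat_lit 5) (nat_lit 131) (nat_lit 5) (nat_lit 443) (nat_lit 392) (nat_lit 185)))) (XT.nd (nat_lit 156) (nat_lit 380) (nat_lit 0) (XT.nd (nat_lit 78) (nat_lit 0) (nat_lit 0) (XT.lf (nat_lit 0) (nat_lit 1681702648) (nat_lit 304) (nat_lit 31921340410) (nat_lit 380) (nat_lit 11840980496) (nat_lit 122) (nat_lit 5) (nat_lit 126) (nat_lit 5) (nat_lit 127) (nat_lit 5) (nat_lit 444) (nat_lit 392) (nat_lit 184)) (XT.lf (nat_lit 0) (nat_lit 27557299247) (nat_lit 304) (nat_lit 15712578613) (nat_lit 380) (nat_lit 3031077192) (nat_lit 122) (nat_lit 5) (nat_lit 126) (nat_lit 5) (nat_lit 127) (nat_lit 5) (nat_lit 445) (nat_lit 392) (nat_lit 183))) (XT.nd (nat_lit 78) (nat_lit 0) (nat_lit 0) (XT.lf (nat_lit 0) (nat_lit 6002035540) (nat_lit 380) (nat_lit 40087603619) (nat_lit 76) (nat_lit 1089908101) (nat_lit 117) (nat_lit 5) (nat_lit 122) (nat_lit 5) (nat_lit 118) (nat_lit 5) (nat_lit 446) (nat_lit 392) (nat_lit 182))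 (XT.lf (nat_lit 0) (nat_lit 15589832889) (nat_lit 380) (nat_lit 14182592711) (nat_lit 76) (nat_lit 18300833444) (nat_lit 117) (nat_lit 5) (nat_lit 122) (nat_lit 5) (nat_lit 118) (nat_lit 5) (nat_lit 447) (nat_lit 392) (nat_lit 181))))) (XT.nd (nat_lit 234) (nat_lit 608) (nat_lit 0) (XT.nd (nat_lit 78) (nat_lit 228) (nat_lit 0) (XT.lf (nat_lit 0) (nat_lit 12745208802) (nat_lit 304) (nat_lit 12840526048) (nat_lit 380) (nat_lit 23404433715) (nat_lit 113) (nat_lit 5) (nat_lit 117) (nat_lit 5) (nat_lit 118) (nat_lit 5) (nat_lit 448) (nat_lit 392) (nat_lit 180)) (XT.nd (nat_lit 78) (nat_lit 228) (nat_lit 0) (XT.lf (nat_lit 0) (nat_lit 36068336310) (nat_lit 380) (nat_lit 9207430526) (nat_lit 76) (nat_lit 4653214350) (nat_lit 113) (nat_lit 5) (nat_lit 118) (nat_lit 5) (nat_lit 114) (nat_lit 5) (nat_lit 449) (nat_lit 392) (nat_lit 179)) (XT.lf (nat_lit 0) (nat_lit 18879501934) (nat_lit 228) (nat_lit 28292564559) (nat_lit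 304) (nat_lit 3714692647) (nat_lit 110) (nat_lit 5) (nat_lit 113) (nat_lit 5) (nat_lit 114) (nat_lit 5) (nat_lit 450) (nat_lit 392) (nat_lit 178)))) (XT.nd (nat_lit 156) (nat_lit 228) (nat_lit 0) (XT.nd (nat_lit 78) (nat_lit 304) (nat_lit 0) (XT.lf (nat_lit 0) (nat_lit 6696143669) (nat_lit 304) (nat_lit 3941368905) (nat_lit 76) (nat_lit 41231057631) (nat_lit 109) (nat_lit 5) (nat_lit 113) (nat_lit 5) (nat_lit 110) (nat_lit 5) (nat_lit 451) (nat_lit 392) (nat_lit 177)) (XT.lf (nat_lit 0) (nat_lit 17662447460) (nat_lit 380) (nat_lit 27523889560) (nat_lit 76) (nat_lit 7682861520) (nat_lit 105) (nat_lit 5) (nat_lit 110) (nat_lit 5) (nat_lit 106) (nat_lit 5) (nat_lit 452) (nat_lit 392) (nat_lit 176))) (XT.nd (nat_lit 78) (nat_lit 0) (nat_lit 0) (XT.lf (nat_lit 0) (nat_lit 1615603544) (nat_lit 228) (nat_lit 27501302262) (nat_lit 304) (nat_lit 24778165377) (nat_lit 102) (nat_lit 5) (nat_lit 105) (nat_lit 5) (nat_lit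 106) (nat_lit 5) (nat_lit 453) (nat_lit 392) (nat_lit 175)) (XT.lf (nat_lit 0) (nat_lit 32190586571) (nat_lit 228) (nat_lit 9000494685) (nat_lit 304) (nat_lit 13752356658) (nat_lit 102) (nat_lit 5) (nat_lit 105) (nat_lit 5) (nat_lit 106) (nat_lit 5) (nat_lit 454) (nat_lit 392) (nat_lit 174)))))) (XT.nd (nat_lit 546) (nat_lit 836) (nat_lit 0) (XT.nd (nat_lit 234) (nat_lit 532) (nat_lit 0) (XT.nd (nat_lit 78) (nat_lit 304) (nat_lit 0) (XT.lf (nat_lit 0) (nat_lit 7710497469) (nat_lit 228) (nat_lit 46085950773) (nat_lit 304) (nat_lit 2221738813) (nat_lit 99) (nat_lit 5) (nat_lit 102) (nat_lit 5) (nat_lit 103) (nat_lit 5) (nat_lit 455) (nat_lit 392) (nat_lit 173)) (XT.nd (nat_lit 78) (nat_lit 228) (nat_lit 0) (XT.lf (nat_lit 0) (nat_lit 9785743104) (nat_lit 304) (nat_lit 17751200107) (nat_lit 76) (nat_lit 29575871238) (nat_lit 98) (nat_lit 5) (nat_lit 102) (nat_lit 5) (nat_lit 99) (nat_lit 5) (nat_lit 456) (nat_lit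 392) (nat_lit 172)) (XT.lf (nat_lit 0) (nat_lit 13969795802) (nat_lit 228) (nat_lit 8271535224) (nat_lit 304) (nat_lit 35994313990) (nat_lit 95) (nat_lit 5) (nat_lit 98) (nat_lit 5) (nat_lit 99) (nat_lit 5) (nat_lit 457) (nat_lit 392) (nat_lit 171)))) (XT.nd (nat_lit 156) (nat_lit 304) (nat_lit 0) (XT.nd (nat_lit 78) (nat_lit 228) (nat_lit 0) (XT.lf (nat_lit 0) (nat_lit 35361113714) (nat_lit 304) (nat_lit 12496296110) (nat_lit 76) (nat_lit 11526035214) (nat_lit 95) (nat_lit 5) (nat_lit 99) (nat_lit 5) (nat_lit 96) (nat_lit 5) (nat_lit 458) (nat_lit 392) (nat_lit 170)) (XT.lf (nat_lit 0) (nat_lit 20542582078) (nat_lit 228) (nat_lit 28609587089) (nat_lit 304) (nat_lit 11405179858) (nat_lit 92) (nat_lit 5) (nat_lit 95) (nat_lit 5) (nat_lit 96) (nat_lit 5) (nat_lit 459) (nat_lit 392) (nat_lit 169))) (XT.nd (nat_lit 78) (nat_lit 228) (nat_lit 0) (XT.lf (nat_lit 0) (nat_lit 1685208904) (nat_lit 304) (nat_lit 6953166075)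 (nat_lit 76) (nat_lit 53123864048) (nat_lit 91) (nat_lit 5) (nat_lit 95) (nat_lit 5) (nat_lit 92) (nat_lit 5) (nat_lit 460) (nat_lit 392) (nat_lit 168)) (XT.lf (nat_lit 0) (nat_lit 15320427760) (nat_lit 304) (nat_lit 35588669073) (nat_lit 76) (nat_lit 12079350995) (nat_lit 88) (nat_lit 5) (nat_lit 92) (nat_lit 5) (nat_lit 89) (nat_lit 5) (nat_lit 461) (nat_lit 392) (nat_lit 167))))) (XT.nd (nat_lit 234) (nat_lit 456) (nat_lit 0) (XT.nd (nat_lit 78) (nat_lit 380) (nat_lit 0) (XT.lf (nat_lit 0) (nat_lit 29519522881) (nat_lit 304) (nat_lit 1412380187) (nat_lit 76) (nat_lit 33314895538) (nat_lit 88) (nat_lit 5) (nat_lit 92) (nat_lit 5) (nat_lit 89) (nat_lit 5) (nat_lit 462) (nat_lit 392) (nat_lit 166)) (XT.nd (nat_lit 78) (nat_lit 152) (nat_lit 0) (XT.lf (nat_lit 0) (nat_lit 34459029708) (nat_lit 228) (nat_lit 10015232238) (nat_lit 304) (nat_lit 21058748124) (nat_lit 85) (nat_lit 5) (nat_lit 88) (nat_lit 5) (nat_lit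 89) (nat_lit 5) (nat_lit 463) (nat_lit 392) (nat_lit 165)) (XT.lf (nat_lit 0) (nat_lit 4553444891) (nat_lit 152) (nat_lit 55491636667) (nat_lit 228) (nat_lit 6807703456) (nat_lit 83) (nat_lit 5) (nat_lit 85) (nat_lit 5) (nat_lit 86) (nat_lit 5) (nat_lit 464) (nat_lit 392) (nat_lit 164)))) (XT.nd (nat_lit 156) (nat_lit 152) (nat_lit 0) (XT.nd (nat_lit 78) (nat_lit 228) (nat_lit 0) (XT.lf (nat_lit 0) (nat_lit 8131783605) (nat_lit 228) (nat_lit 26496592542) (nat_lit 76) (nat_lit 33569072536) (nat_lit 82) (nat_lit 5) (nat_lit 85) (nat_lit 5) (nat_lit 83) (nat_lit 5) (nat_lit 465) (nat_lit 392) (nat_lit 163)) (XT.lf (nat_lit 0) (nat_lit 10515500819) (nat_lit 228) (nat_lit 12966699384) (nat_lit 304) (nat_lit 46095243040) (nat_lit 79) (nat_lit 5) (nat_lit 82) (nat_lit 5) (nat_lit 83) (nat_lit 5) (nat_lit 466) (nat_lit 392) (nat_lit 162))) (XT.nd (nat_lit 78) (nat_lit 152) (nat_lit 0) (XT.lf (nat_lit 0) (nat_lit 39651671972)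 (nat_lit 304) (nat_lit 21904716220) (nat_lit 76) (nat_lit 9431693424) (nat_lit 79) (nat_lit 5) (nat_lit 83) (nat_lit 5) (nat_lit 80) (nat_lit 5) (nat_lit 467) (nat_lit 392) (nat_lit 161)) (XT.lf (nat_lit 0) (nat_lit 16559514039) (nat_lit 152) (nat_lit 40032822533) (nat_lit 228) (nat_lit 15840119555) (nat_lit 77) (nat_lit 5) (nat_lit 79) (nat_lit 5) (nat_lit 80) (nat_lit 5) (nat_lit 468) (nat_lit 392) (nat_lit 160))))))) (XT.nd (nat_lit 47658) (nat_lit 0) (nat_lit 12388) (XT.nd (nat_lit 546) (nat_lit 152) (nat_lit 0) (XT.nd (nat_lit 234) (nat_lit 380) (nat_lit 0) (XT.nd (nat_lit 78) (nat_lit 228) (nat_lit 0) (XT.lf (nat_lit 0) (nat_lit 340631453) (nat_lit 228) (nat_lit 17292653620) (nat_lit 76) (nat_lit 56280184086) (nat_lit 76) (nat_lit 5) (nat_lit 79) (nat_lit 5) (nat_lit 77) (nat_lit 5) (nat_lit 469) (nat_lit 392) (nat_lit 159)) (XT.nd (nat_lit 78) (nat_lit 0) (nat_lit 0) (XT.lf (nat_lit 0) (nat_lit 16961496864)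 (nat_lit 304) (nat_lit 52754333931) (nat_lit 76) (nat_lit 5710185150) (nat_lit 73) (nat_lit 5) (nat_lit 77) (nat_lit 5) (nat_lit 74) (nat_lit 5) (nat_lit 470) (nat_lit 392) (nat_lit 158)) (XT.lf (nat_lit 0) (nat_lit 34430526782) (nat_lit 304) (nat_lit 12967993467) (nat_lit 76) (nat_lit 29574932949) (nat_lit 73) (nat_lit 5) (nat_lit 77) (nat_lit 5) (nat_lit 74) (nat_lit 5) (nat_lit 471) (nat_lit 392) (nat_lit 157)))) (XT.nd (nat_lit 156) (nat_lit 228) (nat_lit 0) (XT.nd (nat_lit 78) (nat_lit 0) (nat_lit 0) (XT.lf (nat_lit 0) (nat_lit 28567046045) (nat_lit 152) (nat_lit 24129826970) (nat_lit 228) (nat_lit 25862243405) (nat_lit 71) (nat_lit 5) (nat_lit 73) (nat_lit 5) (nat_lit 74) (nat_lit 5) (nat_lit 472) (nat_lit 392) (nat_lit 156)) (XT.lf (nat_lit 0) (nat_lit 71611653680) (nat_lit 152) (nat_lit 29166080) (nat_lit 228) (nat_lit 8547641681) (nat_lit 71) (nat_lit 5) (nat_lit 73) (nat_lit 5) (nat_lit 74) (nat_lit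 5) (nat_lit 473) (nat_lit 392) (nat_lit 155))) (XT.nd (nat_lit 78) (nat_lit 0) (nat_lit 0) (XT.lf (nat_lit 0) (nat_lit 9679614916) (nat_lit 228) (nat_lit 47430737378) (nat_lit 76) (nat_lit 24736423882) (nat_lit 68) (nat_lit 5) (nat_lit 71) (nat_lit 5) (nat_lit 69) (nat_lit 5) (nat_lit 474) (nat_lit 392) (nat_lit 154)) (XT.lf (nat_lit 0) (nat_lit 28368337614) (nat_lit 228) (nat_lit 4765812467) (nat_lit 76) (nat_lit 50415558132) (nat_lit 68) (nat_lit 5) (nat_lit 71) (nat_lit 5) (nat_lit 69) (nat_lit 5) (nat_lit 475) (nat_lit 392) (nat_lit 153))))) (XT.nd (nat_lit 46800) (nat_lit 0) (nat_lit 13756) (XT.nd (nat_lit 46644) (nat_lit 0) (nat_lit 13680) (XT.lf (nat_lit 0) (nat_lit 39956541785) (nat_lit 152) (nat_lit 8043997325) (nat_lit 228) (nat_lit 37291704771) (nat_lit 66) (nat_lit 5) (nat_lit 68) (nat_lit 5) (nat_lit 69) (nat_lit 5) (nat_lit 476) (nat_lit 392) (nat_lit 152)) (XT.nd (nat_lit 78) (nat_lit 0) (nat_lit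 0) (XT.lf (nat_lit 0) (nat_lit 300293319) (nat_lit 1292) (nat_lit 4753469244) (nat_lit 1292) (nat_lit 4753469244) (nat_lit 246) (nat_lit 3) (nat_lit 263) (nat_lit 3) (nat_lit 263) (nat_lit 5) (nat_lit 393) (nat_lit 393) (nat_lit 234)) (XT.lf (nat_lit 0) (nat_lit 779081340) (nat_lit 1292) (nat_lit 52349441) (nat_lit 1292) (nat_lit 19072093649) (nat_lit 246) (nat_lit 3) (nat_lit 263) (nat_lit 3) (nat_lit 263) (nat_lit 5) (nat_lit 394) (nat_lit 393) (nat_lit 233)))) (XT.nd (nat_lit 156) (nat_lit 0) (nat_lit 76) (XT.nd (nat_lit 78) (nat_lit 0) (nat_lit 0) (XT.lf (nat_lit 0) (nat_lit 1136063476) (nat_lit 1216) (nat_lit 10408261992) (nat_lit 1292) (nat_lit 8651740416) (nat_lit 247) (nat_lit 5) (nat_lit 263) (nat_lit 5) (nat_lit 264) (nat_lit 5) (nat_lit 395) (nat_lit 393) (nat_lit 232)) (XT.lf (nat_lit 0) (nat_lit 1506096189) (nat_lit 1216) (nat_lit 584970437) (nat_lit 1292) (nat_lit 18406249434) (nat_lit 247) (nat_lit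 5) (nat_lit 263) (nat_lit 5) (nat_lit 264) (nat_lit 5) (nat_lit 396) (nat_lit 393) (nat_lit 231))) (XT.nd (nat_lit 78) (nat_lit 0) (nat_lit 0) (XT.lf (nat_lit 0) (nat_lit 2048866371) (nat_lit 1216) (nat_lit 11160257570) (nat_lit 1292) (nat_lit 7593633339) (nat_lit 248) (nat_lit 5) (nat_lit 264) (nat_lit 5) (nat_lit 265) (nat_lit 5) (nat_lit 397) (nat_lit 393) (nat_lit 230)) (XT.lf (nat_lit 0) (nat_lit 2628524887) (nat_lit 1216) (nat_lit 952833143) (nat_lit 1292) (nat_lit 17535388104) (nat_lit 248) (nat_lit 5) (nat_lit 264) (nat_lit 5) (nat_lit 265) (nat_lit 5) (nat_lit 398) (nat_lit 393) (nat_lit 229)))))) (XT.nd (nat_lit 546) (nat_lit 1520) (nat_lit 0) (XT.nd (nat_lit 234) (nat_lit 0) (nat_lit 76) (XT.nd (nat_lit 78) (nat_lit 0) (nat_lit 0) (XT.lf (nat_lit 0) (nat_lit 3375232603) (nat_lit 1216) (nat_lit 11751913874) (nat_lit 1292) (nat_lit 6308520876) (nat_lit 249) (nat_lit 5) (nat_lit 265) (nat_lit 5) (nat_lit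 266) (nat_lit 5) (nat_lit 399) (nat_lit 393) (nat_lit 228)) (XT.nd (nat_lit 78) (nat_lit 0) (nat_lit 76) (XT.lf (nat_lit 0) (nat_lit 4183789113) (nat_lit 1216) (nat_lit 1144178099) (nat_lit 1292) (nat_lit 16435007979) (nat_lit 249) (nat_lit 5) (nat_lit 265) (nat_lit 5) (nat_lit 266) (nat_lit 5) (nat_lit 400) (nat_lit 393) (nat_lit 227)) (XT.lf (nat_lit 0) (nat_lit 5153678897) (nat_lit 1216) (nat_lit 12171392311) (nat_lit 1292) (nat_lit 4770921096) (nat_lit 250) (nat_lit 5) (nat_lit 266) (nat_lit 5) (nat_lit 267) (nat_lit 5) (nat_lit 401) (nat_lit 393) (nat_lit 226)))) (XT.nd (nat_lit 156) (nat_lit 0) (nat_lit 76) (XT.nd (nat_lit 78) (nat_lit 0) (nat_lit 76) (XT.lf (nat_lit 0) (nat_lit 6211669642) (nat_lit 1216) (nat_lit 1146389134) (nat_lit 1292) (nat_lit 15079173298) (nat_lit 250) (nat_lit 5) (nat_lit 266) (nat_lit 5) (nat_lit 267) (nat_lit 5) (nat_lit 402) (nat_lit 393) (nat_lit 225)) (XT.lf (nat_lit 0) (nat_lit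 7425156786) (nat_lit 1216) (nat_lit 12406004326) (nat_lit 1292) (nat_lit 2953837431) (nat_lit 251) (nat_lit 5) (nat_lit 267) (nat_lit 5) (nat_lit 268) (nat_lit 5) (nat_lit 403) (nat_lit 393) (nat_lit 224))) (XT.nd (nat_lit 78) (nat_lit 0) (nat_lit 76) (XT.lf (nat_lit 0) (nat_lit 8754466009) (nat_lit 1216) (nat_lit 945969163) (nat_lit 1292) (nat_lit 13440382449) (nat_lit 251) (nat_lit 5) (nat_lit 267) (nat_lit 5) (nat_lit 268) (nat_lit 5) (nat_lit 404) (nat_lit 393) (nat_lit 223)) (XT.lf (nat_lit 0) (nat_lit 10233215648) (nat_lit 1216) (nat_lit 12442187611) (nat_lit 1292) (nat_lit 828623257) (nat_lit 252) (nat_lit 5) (nat_lit 268) (nat_lit 5) (nat_lit 269) (nat_lit 5) (nat_lit 405) (nat_lit 393) (nat_lit 222))))) (XT.nd (nat_lit 312) (nat_lit 1748) (nat_lit 0) (XT.nd (nat_lit 156) (nat_lit 0) (nat_lit 76) (XT.nd (nat_lit 78) (nat_lit 0) (nat_lit 0) (XT.lf (nat_lit 0) (nat_lit 11857164142) (nat_lit 1216) (nat_lit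 528514889) (nat_lit 1292) (nat_lit 11489429573) (nat_lit 252) (nat_lit 5) (nat_lit 268) (nat_lit 5) (nat_lit 269) (nat_lit 5) (nat_lit 406) (nat_lit 393) (nat_lit 221)) (XT.lf (nat_lit 76) (nat_lit 11972501484) (nat_lit 0) (nat_lit 1667703452) (nat_lit 1292) (nat_lit 10613808963) (nat_lit 253) (nat_lit 5) (nat_lit 252) (nat_lit 5) (nat_lit 269) (nat_lit 5) (nat_lit 407) (nat_lit 393) (nat_lit 220))) (XT.nd (nat_lit 78) (nat_lit 0) (nat_lit 0) (XT.lf (nat_lit 76) (nat_lit 123723657) (nat_lit 0) (nat_lit 15445078125) (nat_lit 1292) (nat_lit 9072724528) (nat_lit 254) (nat_lit 5) (nat_lit 253) (nat_lit 5) (nat_lit 270) (nat_lit 5) (nat_lit 408) (nat_lit 393) (nat_lit 219)) (XT.lf (nat_lit 76) (nat_lit 13132266205) (nat_lit 0) (nat_lit 4558855492) (nat_lit 1292) (nat_lit 7345468286) (nat_lit 254) (nat_lit 5) (nat_lit 253) (nat_lit 5) (nat_lit 270) (nat_lit 5) (nat_lit 409) (nat_lit 393) (nat_lit 218)))) (XT.nd (nat_lit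 156) (nat_lit 684) (nat_lit 0) (XT.nd (nat_lit 78) (nat_lit 0) (nat_lit 0) (XT.lf (nat_lit 0) (nat_lit 1040094479) (nat_lit 1216) (nat_lit 18906610612) (nat_lit 1292) (nat_lit 5494714453) (nat_lit 238) (nat_lit 5) (nat_lit 254) (nat_lit 5) (nat_lit 255) (nat_lit 5) (nat_lit 410) (nat_lit 393) (nat_lit 217)) (XT.lf (nat_lit 0) (nat_lit 14567074899) (nat_lit 1216) (nat_lit 7863511064) (nat_lit 1292) (nat_lit 3422990869) (nat_lit 238) (nat_lit 5) (nat_lit 254) (nat_lit 5) (nat_lit 255) (nat_lit 5) (nat_lit 411) (nat_lit 393) (nat_lit 216))) (XT.nd (nat_lit 78) (nat_lit 76) (nat_lit 0) (XT.lf (nat_lit 0) (nat_lit 2227704411) (nat_lit 608) (nat_lit 22812295939) (nat_lit 684) (nat_lit 1236569666) (nat_lit 230) (nat_lit 5) (nat_lit 238) (nat_lit 5) (nat_lit 239) (nat_lit 5) (nat_lit 412) (nat_lit 393) (nat_lit 215)) (XT.lf (nat_lit 0) (nat_lit 1184482927) (nat_lit 684) (nat_lit 10422710157) (nat_lit 76) (nat_lit 15099103061)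 (nat_lit 229) (nat_lit 5) (nat_lit 238) (nat_lit 5) (nat_lit 230) (nat_lit 5) (nat_lit 413) (nat_lit 393) (nat_lit 214))))))))
noncomputable def xc212 : XT := (XT.nd (nat_lit 2184) (nat_lit 4560) (nat_lit 0) (XT.nd (nat_lit 1092) (nat_lit 2812) (nat_lit 0) (XT.nd (nat_lit 546) (nat_lit 1976) (nat_lit 0) (XT.nd (nat_lit 234) (nat_lit 1064) (nat_lit 0) (XT.nd (nat_lit 78) (nat_lit 608) (nat_lit 0) (XT.lf (nat_lit 0) (nat_lit 3667841595) (nat_lit 608) (nat_lit 16745925) (nat_lit 684) (nat_lit 23463022558) (nat_lit 221) (nat_lit 5) (nat_lit 229) (nat_lit 5) (nat_lit 230) (nat_lit 5) (nat_lit 414) (nat_lit 393) (nat_lit 213)) (XT.nd (nat_lit 78) (nat_lit 608) (nat_lit 0) (XT.lf (nat_lit 0) (nat_lit 6476681656) (nat_lit 684) (nat_lit 9323680872) (nat_lit 76) (nat_lit 11795292812) (nat_lit 221) (nat_lit 5) (nat_lit 230) (nat_lit 5) (nat_lit 222) (nat_lit 5) (nat_lit 415) (nat_lit 393) (nat_lit 212)) (XT.lf (nat_lit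 0) (nat_lit 5357781776) (nat_lit 608) (nat_lit 4042637991) (nat_lit 684) (nat_lit 18655287215) (nat_lit 213) (nat_lit 5) (nat_lit 221) (nat_lit 5) (nat_lit 222) (nat_lit 5) (nat_lit 416) (nat_lit 393) (nat_lit 211)))) (XT.nd (nat_lit 156) (nat_lit 532) (nat_lit 0) (XT.nd (nat_lit 78) (nat_lit 532) (nat_lit 0) (XT.lf (nat_lit 0) (nat_lit 12580794690) (nat_lit 684) (nat_lit 7938174547) (nat_lit 76) (nat_lit 8005524610) (nat_lit 213) (nat_lit 5) (nat_lit 222) (nat_lit 5) (nat_lit 214) (nat_lit 5) (nat_lit 417) (nat_lit 393) (nat_lit 210)) (XT.lf (nat_lit 0) (nat_lit 7364389508) (nat_lit 532) (nat_lit 8599405364) (nat_lit 608) (nat_lit 13040334401) (nat_lit 206) (nat_lit 5) (nat_lit 213) (nat_lit 5) (nat_lit 214) (nat_lit 5) (nat_lit 418) (nat_lit 393) (nat_lit 209))) (XT.nd (nat_lit 78) (nat_lit 532) (nat_lit 0) (XT.lf (nat_lit 0) (nat_lit 19561057590) (nat_lit 608) (nat_lit 6246869440) (nat_lit 76) (nat_lit 3686844888)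 (nat_lit 206) (nat_lit 5) (nat_lit 214) (nat_lit 5) (nat_lit 207) (nat_lit 5) (nat_lit 419) (nat_lit 393) (nat_lit 208)) (XT.lf (nat_lit 0) (nat_lit 9708470866) (nat_lit 532) (nat_lit 13732802771) (nat_lit 608) (nat_lit 6553610439) (nat_lit 199) (nat_lit 5) (nat_lit 206) (nat_lit 5) (nat_lit 207) (nat_lit 5) (nat_lit 420) (nat_lit 393) (nat_lit 207))))) (XT.nd (nat_lit 234) (nat_lit 1444) (nat_lit 0) (XT.nd (nat_lit 78) (nat_lit 532) (nat_lit 0) (XT.lf (nat_lit 0) (nat_lit 26266940842) (nat_lit 532) (nat_lit 1230670982) (nat_lit 608) (nat_lit 3010597561) (nat_lit 199) (nat_lit 5) (nat_lit 206) (nat_lit 5) (nat_lit 207) (nat_lit 5) (nat_lit 421) (nat_lit 393) (nat_lit 206)) (XT.nd (nat_lit 78) (nat_lit 0) (nat_lit 0) (XT.lf (nat_lit 0) (nat_lit 856493224) (nat_lit 532) (nat_lit 18626593018) (nat_lit 76) (nat_lit 11546757679) (nat_lit 192) (nat_lit 5) (nat_lit 199) (nat_lit 5) (nat_lit 193) (nat_lit 5) (nat_lit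 422) (nat_lit 393) (nat_lit 205)) (XT.lf (nat_lit 0) (nat_lit 4831282847) (nat_lit 532) (nat_lit 1977820245) (nat_lit 76) (nat_lit 24755565430) (nat_lit 192) (nat_lit 5) (nat_lit 199) (nat_lit 5) (nat_lit 193) (nat_lit 5) (nat_lit 423) (nat_lit 393) (nat_lit 204)))) (XT.nd (nat_lit 156) (nat_lit 456) (nat_lit 0) (XT.nd (nat_lit 78) (nat_lit 456) (nat_lit 0) (XT.lf (nat_lit 0) (nat_lit 9132365044) (nat_lit 608) (nat_lit 16703909528) (nat_lit 76) (nat_lit 6273052940) (nat_lit 185) (nat_lit 5) (nat_lit 193) (nat_lit 5) (nat_lit 186) (nat_lit 5) (nat_lit 424) (nat_lit 393) (nat_lit 203)) (XT.lf (nat_lit 0) (nat_lit 621931938) (nat_lit 456) (nat_lit 13031020669) (nat_lit 532) (nat_lit 19014660563) (nat_lit 179) (nat_lit 5) (nat_lit 185) (nat_lit 5) (nat_lit 186) (nat_lit 5) (nat_lit 425) (nat_lit 393) (nat_lit 202))) (XT.nd (nat_lit 78) (nat_lit 456) (nat_lit 0) (XT.lf (nat_lit 0) (nat_lit 18477986437) (nat_lit 532)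 (nat_lit 14434429055) (nat_lit 76) (nat_lit 325168098) (nat_lit 179) (nat_lit 5) (nat_lit 186) (nat_lit 5) (nat_lit 180) (nat_lit 5) (nat_lit 426) (nat_lit 393) (nat_lit 201)) (XT.lf (nat_lit 0) (nat_lit 3643736538) (nat_lit 456) (nat_lit 19965128429) (nat_lit 532) (nat_lit 10210956368) (nat_lit 173) (nat_lit 5) (nat_lit 179) (nat_lit 5) (nat_lit 180) (nat_lit 5) (nat_lit 427) (nat_lit 393) (nat_lit 200)))))) (XT.nd (nat_lit 546) (nat_lit 1520) (nat_lit 0) (XT.nd (nat_lit 234) (nat_lit 836) (nat_lit 0) (XT.nd (nat_lit 78) (nat_lit 456) (nat_lit 0) (XT.lf (nat_lit 0) (nat_lit 22556666557) (nat_lit 456) (nat_lit 6479863190) (nat_lit 532) (nat_lit 5378711662) (nat_lit 173) (nat_lit 5) (nat_lit 179) (nat_lit 5) (nat_lit 180) (nat_lit 5) (nat_lit 428) (nat_lit 393) (nat_lit 199)) (XT.nd (nat_lit 78) (nat_lit 76) (nat_lit 0) (XT.lf (nat_lit 0) (nat_lit 7071776017) (nat_lit 380) (nat_lit 27691635329) (nat_lit 456)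 (nat_lit 261022095) (nat_lit 168) (nat_lit 5) (nat_lit 173) (nat_lit 5) (nat_lit 174) (nat_lit 5) (nat_lit 429) (nat_lit 393) (nat_lit 198)) (XT.lf (nat_lit 0) (nat_lit 5094722704) (nat_lit 456) (nat_lit 8952159908) (nat_lit 76) (nat_lit 21598105952) (nat_lit 167) (nat_lit 5) (nat_lit 173) (nat_lit 5) (nat_lit 168) (nat_lit 5) (nat_lit 430) (nat_lit 393) (nat_lit 197)))) (XT.nd (nat_lit 156) (nat_lit 380) (nat_lit 0) (XT.nd (nat_lit 78) (nat_lit 0) (nat_lit 0) (XT.lf (nat_lit 0) (nat_lit 10708337465) (nat_lit 532) (nat_lit 25458559793) (nat_lit 76) (nat_lit 114113116) (nat_lit 161) (nat_lit 5) (nat_lit 168) (nat_lit 5) (nat_lit 162) (nat_lit 5) (nat_lit 431) (nat_lit 393) (nat_lit 196)) (XT.lf (nat_lit 0) (nat_lit 16718055704) (nat_lit 532) (nat_lit 5702978283) (nat_lit 76) (nat_lit 14508248856) (nat_lit 161) (nat_lit 5) (nat_lit 168) (nat_lit 5) (nat_lit 162) (nat_lit 5) (nat_lit 432) (nat_lit 393) (nat_lit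 195))) (XT.nd (nat_lit 78) (nat_lit 0) (nat_lit 0) (XT.lf (nat_lit 0) (nat_lit 14933359524) (nat_lit 380) (nat_lit 8115655219) (nat_lit 456) (nat_lit 14543761097) (nat_lit 156) (nat_lit 5) (nat_lit 161) (nat_lit 5) (nat_lit 162) (nat_lit 5) (nat_lit 433) (nat_lit 393) (nat_lit 194)) (XT.lf (nat_lit 0) (nat_lit 29689124245) (nat_lit 456) (nat_lit 2036300742) (nat_lit 76) (nat_lit 6547172797) (nat_lit 156) (nat_lit 5) (nat_lit 162) (nat_lit 5) (nat_lit 157) (nat_lit 5) (nat_lit 434) (nat_lit 393) (nat_lit 193))))) (XT.nd (nat_lit 234) (nat_lit 684) (nat_lit 0) (XT.nd (nat_lit 78) (nat_lit 456) (nat_lit 0) (XT.lf (nat_lit 0) (nat_lit 19502463483) (nat_lit 380) (nat_lit 17291308639) (nat_lit 456) (nat_lit 2171082993) (nat_lit 151) (nat_lit 5) (nat_lit 156) (nat_lit 5) (nat_lit 157) (nat_lit 5) (nat_lit 435) (nat_lit 393) (nat_lit 192)) (XT.nd (nat_lit 78) (nat_lit 0) (nat_lit 0) (XT.lf (nat_lit 0) (nat_lit 2045692410)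 (nat_lit 380) (nat_lit 2339429453) (nat_lit 456) (nat_lit 35290341676) (nat_lit 145) (nat_lit 5) (nat_lit 150) (nat_lit 5) (nat_lit 151) (nat_lit 5) (nat_lit 436) (nat_lit 393) (nat_lit 191)) (XT.lf (nat_lit 0) (nat_lit 11415966473) (nat_lit 456) (nat_lit 15955814293) (nat_lit 76) (nat_lit 13025317584) (nat_lit 145) (nat_lit 5) (nat_lit 151) (nat_lit 5) (nat_lit 146) (nat_lit 5) (nat_lit 437) (nat_lit 393) (nat_lit 190)))) (XT.nd (nat_lit 156) (nat_lit 304) (nat_lit 0) (XT.nd (nat_lit 78) (nat_lit 0) (nat_lit 0) (XT.lf (nat_lit 0) (nat_lit 6468206047) (nat_lit 380) (nat_lit 12272502393) (nat_lit 456) (nat_lit 22397185301) (nat_lit 140) (nat_lit 5) (nat_lit 145) (nat_lit 5) (nat_lit 146) (nat_lit 5) (nat_lit 438) (nat_lit 393) (nat_lit 189)) (XT.lf (nat_lit 0) (nat_lit 26477100589) (nat_lit 456) (nat_lit 12040417463) (nat_lit 76) (nat_lit 3377638381) (nat_lit 140) (nat_lit 5) (nat_lit 146) (nat_lit 5) (nat_lit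 141) (nat_lit 5) (nat_lit 439) (nat_lit 393) (nat_lit 188))) (XT.nd (nat_lit 78) (nat_lit 0) (nat_lit 0) (XT.lf (nat_lit 0) (nat_lit 11364842968) (nat_lit 304) (nat_lit 23309228549) (nat_lit 380) (nat_lit 7994211533) (nat_lit 136) (nat_lit 5) (nat_lit 140) (nat_lit 5) (nat_lit 141) (nat_lit 5) (nat_lit 440) (nat_lit 393) (nat_lit 187)) (XT.lf (nat_lit 0) (nat_lit 35715961816) (nat_lit 304) (nat_lit 7520341759) (nat_lit 380) (nat_lit 224719968) (nat_lit 136) (nat_lit 5) (nat_lit 140) (nat_lit 5) (nat_lit 141) (nat_lit 5) (nat_lit 441) (nat_lit 393) (nat_lit 186))))))) (XT.nd (nat_lit 1092) (nat_lit 1976) (nat_lit 0) (XT.nd (nat_lit 546) (nat_lit 1140) (nat_lit 0) (XT.nd (nat_lit 234) (nat_lit 684) (nat_lit 0) (XT.nd (nat_lit 78) (nat_lit 304) (nat_lit 0) (XT.lf (nat_lit 0) (nat_lit 7871454371) (nat_lit 456) (nat_lit 27587431356) (nat_lit 76) (nat_lit 8809056998) (nat_lit 130) (nat_lit 5) (nat_lit 136) (nat_lit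 5) (nat_lit 131) (nat_lit 5) (nat_lit 442) (nat_lit 393) (nat_lit 185)) (XT.nd (nat_lit 78) (nat_lit 304) (nat_lit 0) (XT.lf (nat_lit 0) (nat_lit 16357276824) (nat_lit 456) (nat_lit 3179659697) (nat_lit 76) (nat_lit 25557528409) (nat_lit 130) (nat_lit 5) (nat_lit 136) (nat_lit 5) (nat_lit 131) (nat_lit 5) (nat_lit 443) (nat_lit 393) (nat_lit 184)) (XT.lf (nat_lit 0) (nat_lit 22394333184) (nat_lit 304) (nat_lit 2916508225) (nat_lit 380) (nat_lit 20628546936) (nat_lit 126) (nat_lit 5) (nat_lit 130) (nat_lit 5) (nat_lit 131) (nat_lit 5) (nat_lit 444) (nat_lit 393) (nat_lit 183)))) (XT.nd (nat_lit 156) (nat_lit 380) (nat_lit 0) (XT.nd (nat_lit 78) (nat_lit 0) (nat_lit 0) (XT.lf (nat_lit 0) (nat_lit 1889019366) (nat_lit 304) (nat_lit 32829024908) (nat_lit 380) (nat_lit 12086064798) (nat_lit 122) (nat_lit 5) (nat_lit 126) (nat_lit 5) (nat_lit 127) (nat_lit 5) (nat_lit 445) (nat_lit 393) (nat_lit 182)) (XT.lf (nat_lit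 0) (nat_lit 28536314962) (nat_lit 304) (nat_lit 16135455277) (nat_lit 380) (nat_lit 3015072504) (nat_lit 122) (nat_lit 5) (nat_lit 126) (nat_lit 5) (nat_lit 127) (nat_lit 5) (nat_lit 446) (nat_lit 393) (nat_lit 181))) (XT.nd (nat_lit 78) (nat_lit 0) (nat_lit 0) (XT.lf (nat_lit 0) (nat_lit 6285839793) (nat_lit 380) (nat_lit 41134689359) (nat_lit 76) (nat_lit 1171266705) (nat_lit 117) (nat_lit 5) (nat_lit 122) (nat_lit 5) (nat_lit 118) (nat_lit 5) (nat_lit 447) (nat_lit 393) (nat_lit 180)) (XT.lf (nat_lit 0) (nat_lit 16158249417) (nat_lit 380) (nat_lit 14457058484) (nat_lit 76) (nat_lit 18897102487) (nat_lit 117) (nat_lit 5) (nat_lit 122) (nat_lit 5) (nat_lit 118) (nat_lit 5) (nat_lit 448) (nat_lit 393) (nat_lit 179))))) (XT.nd (nat_lit 234) (nat_lit 608) (nat_lit 0) (XT.nd (nat_lit 78) (nat_lit 228) (nat_lit 0) (XT.lf (nat_lit 0) (nat_lit 13277096564) (nat_lit 304) (nat_lit 13175435623) (nat_lit 380) (nat_lit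 24004340616) (nat_lit 113) (nat_lit 5) (nat_lit 117) (nat_lit 5) (nat_lit 118) (nat_lit 5) (nat_lit 449) (nat_lit 393) (nat_lit 178)) (XT.nd (nat_lit 78) (nat_lit 228) (nat_lit 0) (XT.lf (nat_lit 0) (nat_lit 37247191124) (nat_lit 380) (nat_lit 9336033304) (nat_lit 76) (nat_lit 4840698694) (nat_lit 113) (nat_lit 5) (nat_lit 118) (nat_lit 5) (nat_lit 114) (nat_lit 5) (nat_lit 450) (nat_lit 393) (nat_lit 177)) (XT.lf (nat_lit 0) (nat_lit 19592059874) (nat_lit 228) (nat_lit 29090558886) (nat_lit 304) (nat_lit 3727858768) (nat_lit 110) (nat_lit 5) (nat_lit 113) (nat_lit 5) (nat_lit 114) (nat_lit 5) (nat_lit 451) (nat_lit 393) (nat_lit 176)))) (XT.nd (nat_lit 156) (nat_lit 228) (nat_lit 0) (XT.nd (nat_lit 78) (nat_lit 304) (nat_lit 0) (XT.lf (nat_lit 0) (nat_lit 6990578431) (nat_lit 304) (nat_lit 3915811338) (nat_lit 76) (nat_lit 42515409651) (nat_lit 109) (nat_lit 5) (nat_lit 113) (nat_lit 5) (nat_lit 110) (nat_lit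 5) (nat_lit 452) (nat_lit 393) (nat_lit 175)) (XT.lf (nat_lit 0) (nat_lit 18284997794) (nat_lit 380) (nat_lit 28204913317) (nat_lit 76) (nat_lit 7962562323) (nat_lit 105) (nat_lit 5) (nat_lit 110) (nat_lit 5) (nat_lit 106) (nat_lit 5) (nat_lit 453) (nat_lit 393) (nat_lit 174))) (XT.nd (nat_lit 78) (nat_lit 0) (nat_lit 0) (XT.lf (nat_lit 0) (nat_lit 1807346022) (nat_lit 228) (nat_lit 28274421782) (nat_lit 304) (nat_lit 25427394720) (nat_lit 102) (nat_lit 5) (nat_lit 105) (nat_lit 5) (nat_lit 106) (nat_lit 5) (nat_lit 454) (nat_lit 393) (nat_lit 173)) (XT.lf (nat_lit 0) (nat_lit 33295405500) (nat_lit 228) (nat_lit 9220102198) (nat_lit 304) (nat_lit 14073552971) (nat_lit 102) (nat_lit 5) (nat_lit 105) (nat_lit 5) (nat_lit 106) (nat_lit 5) (nat_lit 455) (nat_lit 393) (nat_lit 172)))))) (XT.nd (nat_lit 546) (nat_lit 912) (nat_lit 0) (XT.nd (nat_lit 234) (nat_lit 532) (nat_lit 0) (XT.nd (nat_lit 78) (nat_lit 304)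 (nat_lit 0) (XT.lf (nat_lit 0) (nat_lit 8081724295) (nat_lit 228) (nat_lit 47416543429) (nat_lit 304) (nat_lit 2197808169) (nat_lit 99) (nat_lit 5) (nat_lit 102) (nat_lit 5) (nat_lit 103) (nat_lit 5) (nat_lit 456) (nat_lit 393) (nat_lit 171)) (XT.nd (nat_lit 78) (nat_lit 228) (nat_lit 0) (XT.lf (nat_lit 0) (nat_lit 10165543758) (nat_lit 304) (nat_lit 18146165296) (nat_lit 76) (nat_lit 30511885075) (nat_lit 98) (nat_lit 5) (nat_lit 102) (nat_lit 5) (nat_lit 99) (nat_lit 5) (nat_lit 457) (nat_lit 393) (nat_lit 170)) (XT.lf (nat_lit 0) (nat_lit 14525111757) (nat_lit 228) (nat_lit 8468485505) (nat_lit 304) (nat_lit 36986548934) (nat_lit 95) (nat_lit 5) (nat_lit 98) (nat_lit 5) (nat_lit 99) (nat_lit 5) (nat_lit 458) (nat_lit 393) (nat_lit 169)))) (XT.nd (nat_lit 156) (nat_lit 304) (nat_lit 0) (XT.nd (nat_lit 78) (nat_lit 228) (nat_lit 0) (XT.lf (nat_lit 0) (nat_lit 36504974729) (nat_lit 304) (nat_lit 12736914968)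 (nat_lit 76) (nat_lit 11920550990) (nat_lit 95) (nat_lit 5) (nat_lit 99) (nat_lit 5) (nat_lit 96) (nat_lit 5) (nat_lit 459) (nat_lit 393) (nat_lit 168)) (XT.lf (nat_lit 0) (nat_lit 21291813193) (nat_lit 228) (nat_lit 29416808405) (nat_lit 304) (nat_lit 11662974895) (nat_lit 92) (nat_lit 5) (nat_lit 95) (nat_lit 5) (nat_lit 96) (nat_lit 5) (nat_lit 460) (nat_lit 393) (nat_lit 167))) (XT.nd (nat_lit 78) (nat_lit 228) (nat_lit 0) (XT.lf (nat_lit 0) (nat_lit 1816070205) (nat_lit 304) (nat_lit 7031066171) (nat_lit 76) (nat_lit 54765545229) (nat_lit 91) (nat_lit 5) (nat_lit 95) (nat_lit 5) (nat_lit 92) (nat_lit 5) (nat_lit 461) (nat_lit 393) (nat_lit 166)) (XT.lf (nat_lit 0) (nat_lit 15859733233) (nat_lit 304) (nat_lit 36525006874) (nat_lit 76) (nat_lit 12490955383) (nat_lit 88) (nat_lit 5) (nat_lit 92) (nat_lit 5) (nat_lit 89) (nat_lit 5) (nat_lit 462) (nat_lit 393) (nat_lit 165))))) (XT.nd (nat_lit 312) (nat_lit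 456) (nat_lit 0) (XT.nd (nat_lit 156) (nat_lit 228) (nat_lit 0) (XT.nd (nat_lit 78) (nat_lit 228) (nat_lit 0) (XT.lf (nat_lit 0) (nat_lit 30482480064) (nat_lit 304) (nat_lit 1327254241) (nat_lit 76) (nat_lit 34362132558) (nat_lit 88) (nat_lit 5) (nat_lit 92) (nat_lit 5) (nat_lit 89) (nat_lit 5) (nat_lit 463) (nat_lit 393) (nat_lit 164)) (XT.lf (nat_lit 0) (nat_lit 35619047977) (nat_lit 228) (nat_lit 10265773352) (nat_lit 304) (nat_lit 21611874965) (nat_lit 85) (nat_lit 5) (nat_lit 88) (nat_lit 5) (nat_lit 89) (nat_lit 5) (nat_lit 464) (nat_lit 393) (nat_lit 163))) (XT.nd (nat_lit 78) (nat_lit 76) (nat_lit 0) (XT.lf (nat_lit 0) (nat_lit 4816864267) (nat_lit 152) (nat_lit 57105362893) (nat_lit 228) (nat_lit 6933853888) (nat_lit 83) (nat_lit 5) (nat_lit 85) (nat_lit 5) (nat_lit 86) (nat_lit 5) (nat_lit 465) (nat_lit 393) (nat_lit 162)) (XT.lf (nat_lit 0) (nat_lit 8450064333) (nat_lit 228) (nat_lit 27166875769)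 (nat_lit 76) (nat_lit 34624189292) (nat_lit 82) (nat_lit 5) (nat_lit 85) (nat_lit 5) (nat_lit 83) (nat_lit 5) (nat_lit 466) (nat_lit 393) (nat_lit 161)))) (XT.nd (nat_lit 156) (nat_lit 228) (nat_lit 0) (XT.nd (nat_lit 78) (nat_lit 0) (nat_lit 0) (XT.lf (nat_lit 0) (nat_lit 10954358682) (nat_lit 228) (nat_lit 13305656004) (nat_lit 304) (nat_lit 47402538844) (nat_lit 79) (nat_lit 5) (nat_lit 82) (nat_lit 5) (nat_lit 83) (nat_lit 5) (nat_lit 467) (nat_lit 393) (nat_lit 160)) (XT.lf (nat_lit 0) (nat_lit 40912901290) (nat_lit 304) (nat_lit 22440377326) (nat_lit 76) (nat_lit 9762282883) (nat_lit 79) (nat_lit 5) (nat_lit 83) (nat_lit 5) (nat_lit 80) (nat_lit 5) (nat_lit 468) (nat_lit 393) (nat_lit 159))) (XT.nd (nat_lit 78) (nat_lit 76) (nat_lit 0) (XT.lf (nat_lit 0) (nat_lit 17176588856) (nat_lit 152) (nat_lit 41184265524) (nat_lit 228) (nat_lit 16242441163) (nat_lit 77) (nat_lit 5) (nat_lit 79) (nat_lit 5) (nat_lit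 80) (nat_lit 5) (nat_lit 469) (nat_lit 393) (nat_lit 158)) (XT.lf (nat_lit 0) (nat_lit 420228832) (nat_lit 228) (nat_lit 17693255483) (nat_lit 76) (nat_lit 58015296408) (nat_lit 76) (nat_lit 5) (nat_lit 79) (nat_lit 5) (nat_lit 77) (nat_lit 5) (nat_lit 470) (nat_lit 393) (nat_lit 157))))))))
noncomputable def xc213 : XT := (XT.nd (nat_lit 48828) (nat_lit 0) (nat_lit 4712) (XT.nd (nat_lit 47736) (nat_lit 0) (nat_lit 11628) (XT.nd (nat_lit 47190) (nat_lit 0) (nat_lit 13528) (XT.nd (nat_lit 234) (nat_lit 228) (nat_lit 0) (XT.nd (nat_lit 78) (nat_lit 152) (nat_lit 0) (XT.lf (nat_lit 0) (nat_lit 17539290897) (nat_lit 304) (nat_lit 54218346064) (nat_lit 76) (nat_lit 5929080157) (nat_lit 73) (nat_lit 5) (nat_lit 77) (nat_lit 5) (nat_lit 74) (nat_lit 5) (nat_lit 471) (nat_lit 393) (nat_lit 156)) (XT.nd (nat_lit 78) (nat_lit 152) (nat_lit 0) (XT.lf (nat_lit 0) (nat_lit 35530383486) (nat_lit 304) (nat_lit 13241870276)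 (nat_lit 76) (nat_lit 30508384289) (nat_lit 73) (nat_lit 5) (nat_lit 77) (nat_lit 5) (nat_lit 74) (nat_lit 5) (nat_lit 472) (nat_lit 393) (nat_lit 155)) (XT.lf (nat_lit 0) (nat_lit 29538091372) (nat_lit 152) (nat_lit 24805775163) (nat_lit 228) (nat_lit 26570030548) (nat_lit 71) (nat_lit 5) (nat_lit 73) (nat_lit 5) (nat_lit 74) (nat_lit 5) (nat_lit 473) (nat_lit 393) (nat_lit 154)))) (XT.nd (nat_lit 156) (nat_lit 0) (nat_lit 0) (XT.nd (nat_lit 78) (nat_lit 228) (nat_lit 0) (XT.lf (nat_lit 0) (nat_lit 73854365504) (nat_lit 228) (nat_lit 8721623335) (nat_lit 76) (nat_lit 16186898) (nat_lit 71) (nat_lit 5) (nat_lit 74) (nat_lit 5) (nat_lit 72) (nat_lit 5) (nat_lit 474) (nat_lit 393) (nat_lit 153)) (XT.lf (nat_lit 0) (nat_lit 10034440485) (nat_lit 228) (nat_lit 48741267844) (nat_lit 76) (nat_lit 25524528676) (nat_lit 68) (nat_lit 5) (nat_lit 71) (nat_lit 5) (nat_lit 69) (nat_lit 5) (nat_lit 475) (nat_lit 393) (nat_lit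 152))) (XT.nd (nat_lit 46722) (nat_lit 0) (nat_lit 13528) (XT.lf (nat_lit 0) (nat_lit 29281948054) (nat_lit 228) (nat_lit 4799668729) (nat_lit 76) (nat_lit 51972696796) (nat_lit 68) (nat_lit 5) (nat_lit 71) (nat_lit 5) (nat_lit 69) (nat_lit 5) (nat_lit 476) (nat_lit 393) (nat_lit 151)) (XT.lf (nat_lit 0) (nat_lit 477158818) (nat_lit 1292) (nat_lit 4809591684) (nat_lit 1292) (nat_lit 4809591684) (nat_lit 246) (nat_lit 3) (nat_lit 263) (nat_lit 3) (nat_lit 263) (nat_lit 5) (nat_lit 394) (nat_lit 394) (nat_lit 232))))) (XT.nd (nat_lit 234) (nat_lit 0) (nat_lit 152) (XT.nd (nat_lit 78) (nat_lit 0) (nat_lit 76) (XT.lf (nat_lit 76) (nat_lit 116274519) (nat_lit 0) (nat_lit 1013232301) (nat_lit 1292) (nat_lit 19361174132) (nat_lit 247) (nat_lit 5) (nat_lit 246) (nat_lit 3) (nat_lit 263) (nat_lit 5) (nat_lit 395) (nat_lit 394) (nat_lit 231)) (XT.nd (nat_lit 78) (nat_lit 0) (nat_lit 0) (XT.lf (nat_lit 0) (nat_lit 1486727012)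 (nat_lit 1216) (nat_lit 10543097022) (nat_lit 1292) (nat_lit 8762492766) (nat_lit 247) (nat_lit 5) (nat_lit 263) (nat_lit 5) (nat_lit 264) (nat_lit 5) (nat_lit 396) (nat_lit 394) (nat_lit 230)) (XT.lf (nat_lit 0) (nat_lit 1858639882) (nat_lit 1216) (nat_lit 430274085) (nat_lit 1292) (nat_lit 18813971031) (nat_lit 247) (nat_lit 5) (nat_lit 263) (nat_lit 5) (nat_lit 264) (nat_lit 5) (nat_lit 397) (nat_lit 394) (nat_lit 229)))) (XT.nd (nat_lit 156) (nat_lit 0) (nat_lit 76) (XT.nd (nat_lit 78) (nat_lit 0) (nat_lit 0) (XT.lf (nat_lit 0) (nat_lit 2409135659) (nat_lit 1216) (nat_lit 11314136379) (nat_lit 1292) (nat_lit 7694477918) (nat_lit 248) (nat_lit 5) (nat_lit 264) (nat_lit 5) (nat_lit 265) (nat_lit 5) (nat_lit 398) (nat_lit 394) (nat_lit 228)) (XT.lf (nat_lit 0) (nat_lit 2997480922) (nat_lit 1216) (nat_lit 805758994) (nat_lit 1292) (nat_lit 17938183319) (nat_lit 248) (nat_lit 5) (nat_lit 264) (nat_lit 5) (nat_lit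 265) (nat_lit 5) (nat_lit 399) (nat_lit 394) (nat_lit 227))) (XT.nd (nat_lit 78) (nat_lit 0) (nat_lit 0) (XT.lf (nat_lit 0) (nat_lit 3758760853) (nat_lit 1216) (nat_lit 11920864417) (nat_lit 1292) (nat_lit 6390525253) (nat_lit 249) (nat_lit 5) (nat_lit 265) (nat_lit 5) (nat_lit 266) (nat_lit 5) (nat_lit 400) (nat_lit 394) (nat_lit 226)) (XT.lf (nat_lit 0) (nat_lit 4583352565) (nat_lit 1216) (nat_lit 1000244341) (nat_lit 1292) (nat_lit 16823930791) (nat_lit 249) (nat_lit 5) (nat_lit 265) (nat_lit 5) (nat_lit 266) (nat_lit 5) (nat_lit 401) (nat_lit 394) (nat_lit 225)))))) (XT.nd (nat_lit 546) (nat_lit 2204) (nat_lit 0) (XT.nd (nat_lit 234) (nat_lit 0) (nat_lit 76) (XT.nd (nat_lit 78) (nat_lit 0) (nat_lit 0) (XT.lf (nat_lit 0) (nat_lit 5575176567) (nat_lit 1216) (nat_lit 12351000606) (nat_lit 1292) (nat_lit 4824576383) (nat_lit 250) (nat_lit 5) (nat_lit 266) (nat_lit 5) (nat_lit 267) (nat_lit 5) (nat_lit 402) (nat_lit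 394) (nat_lit 224)) (XT.nd (nat_lit 78) (nat_lit 0) (nat_lit 76) (XT.lf (nat_lit 0) (nat_lit 6657133617) (nat_lit 1216) (nat_lit 1000651221) (nat_lit 1292) (nat_lit 15444682143) (nat_lit 250) (nat_lit 5) (nat_lit 266) (nat_lit 5) (nat_lit 267) (nat_lit 5) (nat_lit 403) (nat_lit 394) (nat_lit 223)) (XT.lf (nat_lit 0) (nat_lit 7900472753) (nat_lit 1216) (nat_lit 12591396772) (nat_lit 1292) (nat_lit 2968996661) (nat_lit 251) (nat_lit 5) (nat_lit 267) (nat_lit 5) (nat_lit 268) (nat_lit 5) (nat_lit 404) (nat_lit 394) (nat_lit 222)))) (XT.nd (nat_lit 156) (nat_lit 0) (nat_lit 76) (XT.nd (nat_lit 78) (nat_lit 0) (nat_lit 76) (XT.lf (nat_lit 0) (nat_lit 9262305100) (nat_lit 1216) (nat_lit 793000972) (nat_lit 1292) (nat_lit 13772277522) (nat_lit 251) (nat_lit 5) (nat_lit 267) (nat_lit 5) (nat_lit 268) (nat_lit 5) (nat_lit 405) (nat_lit 394) (nat_lit 221)) (XT.lf (nat_lit 0) (nat_lit 10779422590) (nat_lit 1216) (nat_lit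 12628011916) (nat_lit 1292) (nat_lit 794437071) (nat_lit 252) (nat_lit 5) (nat_lit 268) (nat_lit 5) (nat_lit 269) (nat_lit 5) (nat_lit 406) (nat_lit 394) (nat_lit 220))) (XT.nd (nat_lit 78) (nat_lit 0) (nat_lit 0) (XT.lf (nat_lit 0) (nat_lit 12445122244) (nat_lit 1216) (nat_lit 362388469) (nat_lit 1292) (nat_lit 11776787330) (nat_lit 252) (nat_lit 5) (nat_lit 268) (nat_lit 5) (nat_lit 269) (nat_lit 5) (nat_lit 407) (nat_lit 394) (nat_lit 219)) (XT.lf (nat_lit 76) (nat_lit 12511874260) (nat_lit 0) (nat_lit 1764747808) (nat_lit 1292) (nat_lit 10698102205) (nat_lit 253) (nat_lit 5) (nat_lit 252) (nat_lit 5) (nat_lit 269) (nat_lit 5) (nat_lit 408) (nat_lit 394) (nat_lit 218))))) (XT.nd (nat_lit 234) (nat_lit 1292) (nat_lit 0) (XT.nd (nat_lit 78) (nat_lit 1140) (nat_lit 0) (XT.lf (nat_lit 76) (nat_lit 313156240) (nat_lit 0) (nat_lit 15944649289) (nat_lit 1292) (nat_lit 9116217395) (nat_lit 254) (nat_lit 5) (nat_lit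 253) (nat_lit 5) (nat_lit 270) (nat_lit 5) (nat_lit 409) (nat_lit 394) (nat_lit 217)) (XT.nd (nat_lit 78) (nat_lit 1140) (nat_lit 0) (XT.lf (nat_lit 76) (nat_lit 13706545719) (nat_lit 0) (nat_lit 4730785060) (nat_lit 1292) (nat_lit 7343804308) (nat_lit 254) (nat_lit 5) (nat_lit 253) (nat_lit 5) (nat_lit 270) (nat_lit 5) (nat_lit 410) (nat_lit 394) (nat_lit 216)) (XT.lf (nat_lit 0) (nat_lit 1256664139) (nat_lit 1216) (nat_lit 19499095239) (nat_lit 1292) (nat_lit 5442497397) (nat_lit 238) (nat_lit 5) (nat_lit 254) (nat_lit 5) (nat_lit 255) (nat_lit 5) (nat_lit 411) (nat_lit 394) (nat_lit 215)))) (XT.nd (nat_lit 156) (nat_lit 684) (nat_lit 0) (XT.nd (nat_lit 78) (nat_lit 608) (nat_lit 0) (XT.lf (nat_lit 0) (nat_lit 15184054938) (nat_lit 1216) (nat_lit 8123966211) (nat_lit 1292) (nat_lit 3314944197) (nat_lit 238) (nat_lit 5) (nat_lit 254) (nat_lit 5) (nat_lit 255) (nat_lit 5) (nat_lit 412) (nat_lit 394) (nat_lit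 214)) (XT.lf (nat_lit 0) (nat_lit 2479130442) (nat_lit 608) (nat_lit 23512176027) (nat_lit 684) (nat_lit 1067476627) (nat_lit 230) (nat_lit 5) (nat_lit 238) (nat_lit 5) (nat_lit 239) (nat_lit 5) (nat_lit 413) (nat_lit 394) (nat_lit 213))) (XT.nd (nat_lit 78) (nat_lit 608) (nat_lit 0) (XT.lf (nat_lit 0) (nat_lit 1416295683) (nat_lit 684) (nat_lit 10552190594) (nat_lit 76) (nat_lit 15533034207) (nat_lit 229) (nat_lit 5) (nat_lit 238) (nat_lit 5) (nat_lit 230) (nat_lit 5) (nat_lit 414) (nat_lit 394) (nat_lit 212)) (XT.lf (nat_lit 0) (nat_lit 3959281625) (nat_lit 608) (nat_lit 28148721) (nat_lit 684) (nat_lit 23968764902) (nat_lit 221) (nat_lit 5) (nat_lit 229) (nat_lit 5) (nat_lit 230) (nat_lit 5) (nat_lit 415) (nat_lit 394) (nat_lit 211))))))) (XT.nd (nat_lit 1092) (nat_lit 3268) (nat_lit 0) (XT.nd (nat_lit 546) (nat_lit 1976) (nat_lit 0) (XT.nd (nat_lit 234) (nat_lit 1064) (nat_lit 0) (XT.nd (nat_lit 78) (nat_lit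 608) (nat_lit 0) (XT.lf (nat_lit 0) (nat_lit 6857584453) (nat_lit 684) (nat_lit 9421495476) (nat_lit 76) (nat_lit 12138775177) (nat_lit 221) (nat_lit 5) (nat_lit 230) (nat_lit 5) (nat_lit 222) (nat_lit 5) (nat_lit 416) (nat_lit 394) (nat_lit 210)) (XT.nd (nat_lit 78) (nat_lit 0) (nat_lit 0) (XT.lf (nat_lit 0) (nat_lit 5698627759) (nat_lit 608) (nat_lit 4166703281) (nat_lit 684) (nat_lit 19026490460) (nat_lit 213) (nat_lit 5) (nat_lit 221) (nat_lit 5) (nat_lit 222) (nat_lit 5) (nat_lit 417) (nat_lit 394) (nat_lit 209)) (XT.lf (nat_lit 0) (nat_lit 13135764062) (nat_lit 684) (nat_lit 7996032402) (nat_lit 76) (nat_lit 8243038132) (nat_lit 213) (nat_lit 5) (nat_lit 222) (nat_lit 5) (nat_lit 214) (nat_lit 5) (nat_lit 418) (nat_lit 394) (nat_lit 208)))) (XT.nd (nat_lit 156) (nat_lit 532) (nat_lit 0) (XT.nd (nat_lit 78) (nat_lit 0) (nat_lit 0) (XT.lf (nat_lit 0) (nat_lit 7763841052) (nat_lit 532) (nat_lit 8852958011)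 (nat_lit 608) (nat_lit 13252165650) (nat_lit 206) (nat_lit 5) (nat_lit 213) (nat_lit 5) (nat_lit 214) (nat_lit 5) (nat_lit 419) (nat_lit 394) (nat_lit 207)) (XT.lf (nat_lit 0) (nat_lit 20316950409) (nat_lit 608) (nat_lit 6255862205) (nat_lit 76) (nat_lit 3801666816) (nat_lit 206) (nat_lit 5) (nat_lit 214) (nat_lit 5) (nat_lit 207) (nat_lit 5) (nat_lit 420) (nat_lit 394) (nat_lit 206))) (XT.nd (nat_lit 78) (nat_lit 0) (nat_lit 0) (XT.lf (nat_lit 0) (nat_lit 10176389160) (nat_lit 532) (nat_lit 14133957872) (nat_lit 608) (nat_lit 6579346555) (nat_lit 199) (nat_lit 5) (nat_lit 206) (nat_lit 5) (nat_lit 207) (nat_lit 5) (nat_lit 421) (nat_lit 394) (nat_lit 205)) (XT.lf (nat_lit 0) (nat_lit 27226467678) (nat_lit 532) (nat_lit 1257077536) (nat_lit 608) (nat_lit 2935020151) (nat_lit 199) (nat_lit 5) (nat_lit 206) (nat_lit 5) (nat_lit 207) (nat_lit 5) (nat_lit 422) (nat_lit 394) (nat_lit 204))))) (XT.nd (nat_lit 234)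 (nat_lit 912) (nat_lit 0) (XT.nd (nat_lit 78) (nat_lit 532) (nat_lit 0) (XT.lf (nat_lit 0) (nat_lit 1041902396) (nat_lit 532) (nat_lit 19007576140) (nat_lit 76) (nat_lit 11906412573) (nat_lit 192) (nat_lit 5) (nat_lit 199) (nat_lit 5) (nat_lit 193) (nat_lit 5) (nat_lit 423) (nat_lit 394) (nat_lit 203)) (XT.nd (nat_lit 78) (nat_lit 532) (nat_lit 0) (XT.lf (nat_lit 0) (nat_lit 5131283833) (nat_lit 532) (nat_lit 1864519253) (nat_lit 76) (nat_lit 25511098570) (nat_lit 192) (nat_lit 5) (nat_lit 199) (nat_lit 5) (nat_lit 193) (nat_lit 5) (nat_lit 424) (nat_lit 394) (nat_lit 202)) (XT.lf (nat_lit 0) (nat_lit 9558705595) (nat_lit 608) (nat_lit 17029644869) (nat_lit 76) (nat_lit 6479632342) (nat_lit 185) (nat_lit 5) (nat_lit 193) (nat_lit 5) (nat_lit 186) (nat_lit 5) (nat_lit 425) (nat_lit 394) (nat_lit 201)))) (XT.nd (nat_lit 156) (nat_lit 456) (nat_lit 0) (XT.nd (nat_lit 78) (nat_lit 0) (nat_lit 0) (XT.lf (nat_lit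 0) (nat_lit 814252410) (nat_lit 456) (nat_lit 13397889775) (nat_lit 532) (nat_lit 19430959463) (nat_lit 179) (nat_lit 5) (nat_lit 185) (nat_lit 5) (nat_lit 186) (nat_lit 5) (nat_lit 426) (nat_lit 394) (nat_lit 200)) (XT.lf (nat_lit 0) (nat_lit 19177794277) (nat_lit 532) (nat_lit 14694674416) (nat_lit 76) (nat_lit 357827982) (nat_lit 179) (nat_lit 5) (nat_lit 186) (nat_lit 5) (nat_lit 180) (nat_lit 5) (nat_lit 427) (nat_lit 394) (nat_lit 199))) (XT.nd (nat_lit 78) (nat_lit 0) (nat_lit 0) (XT.lf (nat_lit 0) (nat_lit 3924142150) (nat_lit 456) (nat_lit 20535864729) (nat_lit 532) (nat_lit 10370073909) (nat_lit 173) (nat_lit 5) (nat_lit 179) (nat_lit 5) (nat_lit 180) (nat_lit 5) (nat_lit 428) (nat_lit 394) (nat_lit 198)) (XT.lf (nat_lit 0) (nat_lit 23399476763) (nat_lit 456) (nat_lit 6646863403) (nat_lit 532) (nat_lit 5397149565) (nat_lit 173) (nat_lit 5) (nat_lit 179) (nat_lit 5) (nat_lit 180) (nat_lit 5) (nat_lit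 429) (nat_lit 394) (nat_lit 197)))))) (XT.nd (nat_lit 546) (nat_lit 1596) (nat_lit 0) (XT.nd (nat_lit 234) (nat_lit 760) (nat_lit 0) (XT.nd (nat_lit 78) (nat_lit 532) (nat_lit 0) (XT.lf (nat_lit 0) (nat_lit 7452317869) (nat_lit 380) (nat_lit 28490544444) (nat_lit 456) (nat_lit 128161573) (nat_lit 168) (nat_lit 5) (nat_lit 173) (nat_lit 5) (nat_lit 174) (nat_lit 5) (nat_lit 430) (nat_lit 394) (nat_lit 196)) (XT.nd (nat_lit 78) (nat_lit 456) (nat_lit 0) (XT.lf (nat_lit 0) (nat_lit 5381492340) (nat_lit 456) (nat_lit 9054531772) (nat_lit 76) (nat_lit 22274252816) (nat_lit 167) (nat_lit 5) (nat_lit 173) (nat_lit 5) (nat_lit 168) (nat_lit 5) (nat_lit 431) (nat_lit 394) (nat_lit 195)) (XT.lf (nat_lit 0) (nat_lit 11161513395) (nat_lit 532) (nat_lit 26054079317) (nat_lit 76) (nat_lit 149848011) (nat_lit 161) (nat_lit 5) (nat_lit 168) (nat_lit 5) (nat_lit 162) (nat_lit 5) (nat_lit 432) (nat_lit 394) (nat_lit 194)))) (XT.nd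 (nat_lit 156) (nat_lit 380) (nat_lit 0) (XT.nd (nat_lit 78) (nat_lit 380) (nat_lit 0) (XT.lf (nat_lit 0) (nat_lit 17347680682) (nat_lit 532) (nat_lit 5710730476) (nat_lit 76) (nat_lit 14974866711) (nat_lit 161) (nat_lit 5) (nat_lit 168) (nat_lit 5) (nat_lit 162) (nat_lit 5) (nat_lit 433) (nat_lit 394) (nat_lit 193)) (XT.lf (nat_lit 0) (nat_lit 15543096121) (nat_lit 380) (nat_lit 8323296493) (nat_lit 456) (nat_lit 14850349511) (nat_lit 156) (nat_lit 5) (nat_lit 161) (nat_lit 5) (nat_lit 162) (nat_lit 5) (nat_lit 434) (nat_lit 394) (nat_lit 192))) (XT.nd (nat_lit 78) (nat_lit 380) (nat_lit 0) (XT.lf (nat_lit 0) (nat_lit 30702372567) (nat_lit 456) (nat_lit 1936993263) (nat_lit 76) (nat_lit 6777694040) (nat_lit 156) (nat_lit 5) (nat_lit 162) (nat_lit 5) (nat_lit 157) (nat_lit 5) (nat_lit 435) (nat_lit 394) (nat_lit 191)) (XT.lf (nat_lit 0) (nat_lit 20246361375) (nat_lit 380) (nat_lit 17771755086) (nat_lit 456) (nat_lit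 2112030889) (nat_lit 151) (nat_lit 5) (nat_lit 156) (nat_lit 5) (nat_lit 157) (nat_lit 5) (nat_lit 436) (nat_lit 394) (nat_lit 190))))) (XT.nd (nat_lit 312) (nat_lit 760) (nat_lit 0) (XT.nd (nat_lit 156) (nat_lit 380) (nat_lit 0) (XT.nd (nat_lit 78) (nat_lit 0) (nat_lit 0) (XT.lf (nat_lit 0) (nat_lit 2266765638) (nat_lit 380) (nat_lit 2369659898) (nat_lit 456) (nat_lit 36225674077) (nat_lit 145) (nat_lit 5) (nat_lit 150) (nat_lit 5) (nat_lit 151) (nat_lit 5) (nat_lit 437) (nat_lit 394) (nat_lit 189)) (XT.lf (nat_lit 0) (nat_lit 11875080481) (nat_lit 456) (nat_lit 16276288489) (nat_lit 76) (nat_lit 13454108978) (nat_lit 145) (nat_lit 5) (nat_lit 151) (nat_lit 5) (nat_lit 146) (nat_lit 5) (nat_lit 438) (nat_lit 394) (nat_lit 188))) (XT.nd (nat_lit 78) (nat_lit 0) (nat_lit 0) (XT.lf (nat_lit 0) (nat_lit 6818901479) (nat_lit 380) (nat_lit 12598771900) (nat_lit 456) (nat_lit 22950881560) (nat_lit 140) (nat_lit 5)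 (nat_lit 145) (nat_lit 5) (nat_lit 146) (nat_lit 5) (nat_lit 439) (nat_lit 394) (nat_lit 187)) (XT.lf (nat_lit 0) (nat_lit 27383206332) (nat_lit 456) (nat_lit 12246560041) (nat_lit 76) (nat_lit 3518858636) (nat_lit 140) (nat_lit 5) (nat_lit 146) (nat_lit 5) (nat_lit 141) (nat_lit 5) (nat_lit 440) (nat_lit 394) (nat_lit 186)))) (XT.nd (nat_lit 156) (nat_lit 456) (nat_lit 0) (XT.nd (nat_lit 78) (nat_lit 0) (nat_lit 0) (XT.lf (nat_lit 0) (nat_lit 11859337909) (nat_lit 304) (nat_lit 23964968394) (nat_lit 380) (nat_lit 8120693467) (nat_lit 136) (nat_lit 5) (nat_lit 140) (nat_lit 5) (nat_lit 141) (nat_lit 5) (nat_lit 441) (nat_lit 394) (nat_lit 185)) (XT.lf (nat_lit 0) (nat_lit 36936518003) (nat_lit 304) (nat_lit 7703683068) (nat_lit 380) (nat_lit 121418448) (nat_lit 136) (nat_lit 5) (nat_lit 140) (nat_lit 5) (nat_lit 141) (nat_lit 5) (nat_lit 442) (nat_lit 394) (nat_lit 184))) (XT.nd (nat_lit 78) (nat_lit 0) (nat_lit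 0) (XT.lf (nat_lit 0) (nat_lit 8214209784) (nat_lit 456) (nat_lit 28262487310) (nat_lit 76) (nat_lit 9116056830) (nat_lit 130) (nat_lit 5) (nat_lit 136) (nat_lit 5) (nat_lit 131) (nat_lit 5) (nat_lit 443) (nat_lit 394) (nat_lit 183)) (XT.lf (nat_lit 0) (nat_lit 16951501714) (nat_lit 456) (nat_lit 3126926201) (nat_lit 76) (nat_lit 26365737875) (nat_lit 130) (nat_lit 5) (nat_lit 136) (nat_lit 5) (nat_lit 131) (nat_lit 5) (nat_lit 444) (nat_lit 394) (nat_lit 182))))))))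
noncomputable def xc214 : XT := (XT.nd (nat_lit 2184) (nat_lit 152) (nat_lit 0) (XT.nd (nat_lit 1092) (nat_lit 1900) (nat_lit 0) (XT.nd (nat_lit 546) (nat_lit 1140) (nat_lit 0) (XT.nd (nat_lit 234) (nat_lit 684) (nat_lit 0) (XT.nd (nat_lit 78) (nat_lit 304) (nat_lit 0) (XT.lf (nat_lit 0) (nat_lit 23212834279) (nat_lit 304) (nat_lit 2959234096) (nat_lit 380) (nat_lit 21142417490) (nat_lit 126) (nat_lit 5) (nat_lit 130) (nat_lit 5) (nat_lit 131) (nat_lit 5) (nat_lit 445) (nat_lit 394) (nat_lit 181)) (XT.nd (nat_lit 78) (nat_lit 0) (nat_lit 0) (XT.lf (nat_lit 0) (nat_lit 2093550857) (nat_lit 304) (nat_lit 33766807602) (nat_lit 380) (nat_lit 12344824409) (nat_lit 122) (nat_lit 5) (nat_lit 126) (nat_lit 5) (nat_lit 127) (nat_lit 5) (nat_lit 446) (nat_lit 394) (nat_lit 180)) (XT.lf (nat_lit 0) (nat_lit 29535958692) (nat_lit 304) (nat_lit 16573802380) (nat_lit 380) (nat_lit 3004726298) (nat_lit 122) (nat_lit 5) (nat_lit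 126) (nat_lit 5) (nat_lit 127) (nat_lit 5) (nat_lit 447) (nat_lit 394) (nat_lit 179)))) (XT.nd (nat_lit 156) (nat_lit 304) (nat_lit 0) (XT.nd (nat_lit 78) (nat_lit 0) (nat_lit 0) (XT.lf (nat_lit 0) (nat_lit 6572202890) (nat_lit 380) (nat_lit 42222116439) (nat_lit 76) (nat_lit 1252272706) (nat_lit 117) (nat_lit 5) (nat_lit 122) (nat_lit 5) (nat_lit 118) (nat_lit 5) (nat_lit 448) (nat_lit 394) (nat_lit 178)) (XT.lf (nat_lit 0) (nat_lit 16737936611) (nat_lit 380) (nat_lit 14748426937) (nat_lit 76) (nat_lit 19508547601) (nat_lit 117) (nat_lit 5) (nat_lit 122) (nat_lit 5) (nat_lit 118) (nat_lit 5) (nat_lit 449) (nat_lit 394) (nat_lit 177))) (XT.nd (nat_lit 78) (nat_lit 0) (nat_lit 0) (XT.lf (nat_lit 0) (nat_lit 13816357240) (nat_lit 304) (nat_lit 13523280267) (nat_lit 380) (nat_lit 24628112921) (nat_lit 113) (nat_lit 5) (nat_lit 117) (nat_lit 5) (nat_lit 118) (nat_lit 5) (nat_lit 450) (nat_lit 394) (nat_lit 176))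 (XT.lf (nat_lit 0) (nat_lit 38455854594) (nat_lit 380) (nat_lit 9476968164) (nat_lit 76) (nat_lit 5031058607) (nat_lit 113) (nat_lit 5) (nat_lit 118) (nat_lit 5) (nat_lit 114) (nat_lit 5) (nat_lit 451) (nat_lit 394) (nat_lit 175))))) (XT.nd (nat_lit 234) (nat_lit 532) (nat_lit 0) (XT.nd (nat_lit 78) (nat_lit 380) (nat_lit 0) (XT.lf (nat_lit 0) (nat_lit 20317603631) (nat_lit 228) (nat_lit 29915408172) (nat_lit 304) (nat_lit 3747061240) (nat_lit 110) (nat_lit 5) (nat_lit 113) (nat_lit 5) (nat_lit 114) (nat_lit 5) (nat_lit 452) (nat_lit 394) (nat_lit 174)) (XT.nd (nat_lit 78) (nat_lit 304) (nat_lit 0) (XT.lf (nat_lit 0) (nat_lit 7288476058) (nat_lit 304) (nat_lit 3897741675) (nat_lit 76) (nat_lit 43835570113) (nat_lit 109) (nat_lit 5) (nat_lit 113) (nat_lit 5) (nat_lit 110) (nat_lit 5) (nat_lit 453) (nat_lit 394) (nat_lit 173)) (XT.lf (nat_lit 0) (nat_lit 18920904605) (nat_lit 380) (nat_lit 28914673753) (nat_lit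 76) (nat_lit 8247829011) (nat_lit 105) (nat_lit 5) (nat_lit 110) (nat_lit 5) (nat_lit 106) (nat_lit 5) (nat_lit 454) (nat_lit 394) (nat_lit 172)))) (XT.nd (nat_lit 156) (nat_lit 304) (nat_lit 0) (XT.nd (nat_lit 78) (nat_lit 0) (nat_lit 0) (XT.lf (nat_lit 0) (nat_lit 1996616239) (nat_lit 228) (nat_lit 29073715282) (nat_lit 304) (nat_lit 26101503565) (nat_lit 102) (nat_lit 5) (nat_lit 105) (nat_lit 5) (nat_lit 106) (nat_lit 5) (nat_lit 455) (nat_lit 394) (nat_lit 171)) (XT.lf (nat_lit 0) (nat_lit 34425384011) (nat_lit 228) (nat_lit 9449191522) (nat_lit 304) (nat_lit 14409630437) (nat_lit 102) (nat_lit 5) (nat_lit 105) (nat_lit 5) (nat_lit 106) (nat_lit 5) (nat_lit 456) (nat_lit 394) (nat_lit 170))) (XT.nd (nat_lit 78) (nat_lit 76) (nat_lit 0) (XT.lf (nat_lit 0) (nat_lit 8456056411) (nat_lit 228) (nat_lit 48790038067) (nat_lit 304) (nat_lit 2178359428) (nat_lit 99) (nat_lit 5) (nat_lit 102) (nat_lit 5) (nat_lit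 103) (nat_lit 5) (nat_lit 457) (nat_lit 394) (nat_lit 169)) (XT.lf (nat_lit 0) (nat_lit 10551788572) (nat_lit 304) (nat_lit 18560876568) (nat_lit 76) (nat_lit 31473181583) (nat_lit 98) (nat_lit 5) (nat_lit 102) (nat_lit 5) (nat_lit 99) (nat_lit 5) (nat_lit 458) (nat_lit 394) (nat_lit 168)))))) (XT.nd (nat_lit 546) (nat_lit 912) (nat_lit 0) (XT.nd (nat_lit 234) (nat_lit 532) (nat_lit 0) (XT.nd (nat_lit 78) (nat_lit 228) (nat_lit 0) (XT.lf (nat_lit 0) (nat_lit 15089267485) (nat_lit 228) (nat_lit 8674283142) (nat_lit 304) (nat_lit 38013579207) (nat_lit 95) (nat_lit 5) (nat_lit 98) (nat_lit 5) (nat_lit 99) (nat_lit 5) (nat_lit 459) (nat_lit 394) (nat_lit 167)) (XT.nd (nat_lit 78) (nat_lit 228) (nat_lit 0) (XT.lf (nat_lit 0) (nat_lit 37678385449) (nat_lit 304) (nat_lit 12992460040) (nat_lit 76) (nat_lit 12324104667) (nat_lit 95) (nat_lit 5) (nat_lit 99) (nat_lit 5) (nat_lit 96) (nat_lit 5) (nat_lit 460) (nat_lit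 394) (nat_lit 166)) (XT.lf (nat_lit 0) (nat_lit 22055889158) (nat_lit 228) (nat_lit 30251177774) (nat_lit 304) (nat_lit 11933346412) (nat_lit 92) (nat_lit 5) (nat_lit 95) (nat_lit 5) (nat_lit 96) (nat_lit 5) (nat_lit 461) (nat_lit 394) (nat_lit 165)))) (XT.nd (nat_lit 156) (nat_lit 228) (nat_lit 0) (XT.nd (nat_lit 78) (nat_lit 228) (nat_lit 0) (XT.lf (nat_lit 0) (nat_lit 1946247507) (nat_lit 304) (nat_lit 7118805691) (nat_lit 76) (nat_lit 56453723443) (nat_lit 91) (nat_lit 5) (nat_lit 95) (nat_lit 5) (nat_lit 92) (nat_lit 5) (nat_lit 462) (nat_lit 394) (nat_lit 164)) (XT.lf (nat_lit 0) (nat_lit 16410643188) (nat_lit 304) (nat_lit 37496973244) (nat_lit 76) (nat_lit 12912082253) (nat_lit 88) (nat_lit 5) (nat_lit 92) (nat_lit 5) (nat_lit 89) (nat_lit 5) (nat_lit 463) (nat_lit 394) (nat_lit 163))) (XT.nd (nat_lit 78) (nat_lit 228) (nat_lit 0) (XT.lf (nat_lit 0) (nat_lit 31469884522) (nat_lit 304) (nat_lit 1246893387)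 (nat_lit 76) (nat_lit 35438043338) (nat_lit 88) (nat_lit 5) (nat_lit 92) (nat_lit 5) (nat_lit 89) (nat_lit 5) (nat_lit 464) (nat_lit 394) (nat_lit 162)) (XT.lf (nat_lit 0) (nat_lit 36806619678) (nat_lit 228) (nat_lit 10526696074) (nat_lit 304) (nat_lit 22186109617) (nat_lit 85) (nat_lit 5) (nat_lit 88) (nat_lit 5) (nat_lit 89) (nat_lit 5) (nat_lit 465) (nat_lit 394) (nat_lit 161))))) (XT.nd (nat_lit 234) (nat_lit 456) (nat_lit 0) (XT.nd (nat_lit 78) (nat_lit 304) (nat_lit 0) (XT.lf (nat_lit 0) (nat_lit 5080906466) (nat_lit 152) (nat_lit 58770429828) (nat_lit 228) (nat_lit 7068270984) (nat_lit 83) (nat_lit 5) (nat_lit 85) (nat_lit 5) (nat_lit 86) (nat_lit 5) (nat_lit 466) (nat_lit 394) (nat_lit 160)) (XT.nd (nat_lit 78) (nat_lit 228) (nat_lit 0) (XT.lf (nat_lit 0) (nat_lit 8773626796) (nat_lit 228) (nat_lit 27864420877) (nat_lit 76) (nat_lit 35708201595) (nat_lit 82) (nat_lit 5) (nat_lit 85) (nat_lit 5) (nat_lit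 83) (nat_lit 5) (nat_lit 467) (nat_lit 394) (nat_lit 159)) (XT.lf (nat_lit 0) (nat_lit 11399299027) (nat_lit 228) (nat_lit 13657654073) (nat_lit 304) (nat_lit 48753391061) (nat_lit 79) (nat_lit 5) (nat_lit 82) (nat_lit 5) (nat_lit 83) (nat_lit 5) (nat_lit 468) (nat_lit 394) (nat_lit 158)))) (XT.nd (nat_lit 156) (nat_lit 304) (nat_lit 0) (XT.nd (nat_lit 78) (nat_lit 152) (nat_lit 0) (XT.lf (nat_lit 0) (nat_lit 42207852810) (nat_lit 304) (nat_lit 22999081736) (nat_lit 76) (nat_lit 10100055372) (nat_lit 79) (nat_lit 5) (nat_lit 83) (nat_lit 5) (nat_lit 80) (nat_lit 5) (nat_lit 469) (nat_lit 394) (nat_lit 157)) (XT.lf (nat_lit 0) (nat_lit 17805270815) (nat_lit 152) (nat_lit 42373095700) (nat_lit 228) (nat_lit 16661016143) (nat_lit 77) (nat_lit 5) (nat_lit 79) (nat_lit 5) (nat_lit 80) (nat_lit 5) (nat_lit 470) (nat_lit 394) (nat_lit 156))) (XT.nd (nat_lit 78) (nat_lit 228) (nat_lit 0) (XT.lf (nat_lit 0) (nat_lit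 498231527) (nat_lit 228) (nat_lit 18112659289) (nat_lit 76) (nat_lit 59799780939) (nat_lit 76) (nat_lit 5) (nat_lit 79) (nat_lit 5) (nat_lit 77) (nat_lit 5) (nat_lit 471) (nat_lit 394) (nat_lit 155)) (XT.lf (nat_lit 0) (nat_lit 18130460789) (nat_lit 304) (nat_lit 55733087714) (nat_lit 76) (nat_lit 6151810184) (nat_lit 73) (nat_lit 5) (nat_lit 77) (nat_lit 5) (nat_lit 74) (nat_lit 5) (nat_lit 472) (nat_lit 394) (nat_lit 154))))))) (XT.nd (nat_lit 47892) (nat_lit 0) (nat_lit 10260) (XT.nd (nat_lit 47346) (nat_lit 0) (nat_lit 13452) (XT.nd (nat_lit 47034) (nat_lit 0) (nat_lit 13300) (XT.nd (nat_lit 78) (nat_lit 152) (nat_lit 0) (XT.lf (nat_lit 0) (nat_lit 36659393209) (nat_lit 304) (nat_lit 13530574217) (nat_lit 76) (nat_lit 31467186908) (nat_lit 73) (nat_lit 5) (nat_lit 77) (nat_lit 5) (nat_lit 74) (nat_lit 5) (nat_lit 473) (nat_lit 394) (nat_lit 153)) (XT.nd (nat_lit 78) (nat_lit 0) (nat_lit 0) (XT.lf (nat_lit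 0) (nat_lit 30531722044) (nat_lit 152) (nat_lit 25504754134) (nat_lit 228) (nat_lit 27302959385) (nat_lit 71) (nat_lit 5) (nat_lit 73) (nat_lit 5) (nat_lit 74) (nat_lit 5) (nat_lit 474) (nat_lit 394) (nat_lit 152)) (XT.lf (nat_lit 0) (nat_lit 76130897519) (nat_lit 228) (nat_lit 8877512882) (nat_lit 76) (nat_lit 59694235) (nat_lit 71) (nat_lit 5) (nat_lit 74) (nat_lit 5) (nat_lit 72) (nat_lit 5) (nat_lit 475) (nat_lit 394) (nat_lit 151)))) (XT.nd (nat_lit 156) (nat_lit 0) (nat_lit 76) (XT.nd (nat_lit 78) (nat_lit 0) (nat_lit 0) (XT.lf (nat_lit 0) (nat_lit 649694621) (nat_lit 1292) (nat_lit 4872362197) (nat_lit 1292) (nat_lit 4872362197) (nat_lit 246) (nat_lit 3) (nat_lit 263) (nat_lit 3) (nat_lit 263) (nat_lit 5) (nat_lit 395) (nat_lit 395) (nat_lit 230)) (XT.lf (nat_lit 76) (nat_lit 281198853) (nat_lit 0) (nat_lit 1190970311) (nat_lit 1292) (nat_lit 19623839181) (nat_lit 247) (nat_lit 5) (nat_lit 246) (nat_lit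 3) (nat_lit 263) (nat_lit 5) (nat_lit 396) (nat_lit 395) (nat_lit 229))) (XT.nd (nat_lit 78) (nat_lit 0) (nat_lit 0) (XT.lf (nat_lit 0) (nat_lit 1829737373) (nat_lit 1216) (nat_lit 10692161326) (nat_lit 1292) (nat_lit 8885109406) (nat_lit 247) (nat_lit 5) (nat_lit 263) (nat_lit 5) (nat_lit 264) (nat_lit 5) (nat_lit 397) (nat_lit 395) (nat_lit 228)) (XT.lf (nat_lit 0) (nat_lit 2204116118) (nat_lit 1216) (nat_lit 280824436) (nat_lit 1292) (nat_lit 19242217208) (nat_lit 247) (nat_lit 5) (nat_lit 263) (nat_lit 5) (nat_lit 264) (nat_lit 5) (nat_lit 398) (nat_lit 395) (nat_lit 227))))) (XT.nd (nat_lit 234) (nat_lit 0) (nat_lit 76) (XT.nd (nat_lit 78) (nat_lit 0) (nat_lit 0) (XT.lf (nat_lit 0) (nat_lit 2763060495) (nat_lit 1216) (nat_lit 11483017613) (nat_lit 1292) (nat_lit 7805636112) (nat_lit 248) (nat_lit 5) (nat_lit 264) (nat_lit 5) (nat_lit 265) (nat_lit 5) (nat_lit 399) (nat_lit 395) (nat_lit 226)) (XT.nd (nat_lit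 78) (nat_lit 0) (nat_lit 76) (XT.lf (nat_lit 0) (nat_lit 3360852696) (nat_lit 1216) (nat_lit 664356174) (nat_lit 1292) (nat_lit 18360138387) (nat_lit 248) (nat_lit 5) (nat_lit 264) (nat_lit 5) (nat_lit 265) (nat_lit 5) (nat_lit 400) (nat_lit 395) (nat_lit 225)) (XT.lf (nat_lit 0) (nat_lit 4137591424) (nat_lit 1216) (nat_lit 12105423262) (nat_lit 1292) (nat_lit 6481146421) (nat_lit 249) (nat_lit 5) (nat_lit 265) (nat_lit 5) (nat_lit 266) (nat_lit 5) (nat_lit 401) (nat_lit 395) (nat_lit 224)))) (XT.nd (nat_lit 156) (nat_lit 0) (nat_lit 76) (XT.nd (nat_lit 78) (nat_lit 0) (nat_lit 76) (XT.lf (nat_lit 0) (nat_lit 4979171342) (nat_lit 1216) (nat_lit 862225373) (nat_lit 1292) (nat_lit 17230498628) (nat_lit 249) (nat_lit 5) (nat_lit 265) (nat_lit 5) (nat_lit 266) (nat_lit 5) (nat_lit 402) (nat_lit 395) (nat_lit 223)) (XT.lf (nat_lit 0) (nat_lit 5993998743) (nat_lit 1216) (nat_lit 12546647530) (nat_lit 1292) (nat_lit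 4884977408) (nat_lit 250) (nat_lit 5) (nat_lit 266) (nat_lit 5) (nat_lit 267) (nat_lit 5) (nat_lit 403) (nat_lit 395) (nat_lit 222))) (XT.nd (nat_lit 78) (nat_lit 0) (nat_lit 76) (XT.lf (nat_lit 0) (nat_lit 7101087315) (nat_lit 1216) (nat_lit 860881346) (nat_lit 1292) (nat_lit 15826142737) (nat_lit 250) (nat_lit 5) (nat_lit 266) (nat_lit 5) (nat_lit 267) (nat_lit 5) (nat_lit 404) (nat_lit 395) (nat_lit 221)) (XT.lf (nat_lit 0) (nat_lit 8375550150) (nat_lit 1216) (nat_lit 12793073368) (nat_lit 1292) (nat_lit 2988827337) (nat_lit 251) (nat_lit 5) (nat_lit 267) (nat_lit 5) (nat_lit 268) (nat_lit 5) (nat_lit 405) (nat_lit 395) (nat_lit 220)))))) (XT.nd (nat_lit 546) (nat_lit 2432) (nat_lit 0) (XT.nd (nat_lit 234) (nat_lit 988) (nat_lit 0) (XT.nd (nat_lit 78) (nat_lit 0) (nat_lit 76) (XT.lf (nat_lit 0) (nat_lit 9771303587) (nat_lit 1216) (nat_lit 645853810) (nat_lit 1292) (nat_lit 14118223300) (nat_lit 251) (nat_lit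 5) (nat_lit 267) (nat_lit 5) (nat_lit 268) (nat_lit 5) (nat_lit 406) (nat_lit 395) (nat_lit 219)) (XT.nd (nat_lit 78) (nat_lit 0) (nat_lit 0) (XT.lf (nat_lit 0) (nat_lit 11328284082) (nat_lit 1216) (nat_lit 12830170848) (nat_lit 1292) (nat_lit 762614717) (nat_lit 252) (nat_lit 5) (nat_lit 268) (nat_lit 5) (nat_lit 269) (nat_lit 5) (nat_lit 407) (nat_lit 395) (nat_lit 218)) (XT.lf (nat_lit 0) (nat_lit 13037387381) (nat_lit 1216) (nat_lit 201724759) (nat_lit 1292) (nat_lit 12076056517) (nat_lit 252) (nat_lit 5) (nat_lit 268) (nat_lit 5) (nat_lit 269) (nat_lit 5) (nat_lit 408) (nat_lit 395) (nat_lit 217)))) (XT.nd (nat_lit 156) (nat_lit 1064) (nat_lit 0) (XT.nd (nat_lit 78) (nat_lit 0) (nat_lit 76) (XT.lf (nat_lit 76) (nat_lit 13057084132) (nat_lit 0) (nat_lit 1862004742) (nat_lit 1292) (nat_lit 10798363750) (nat_lit 253) (nat_lit 5) (nat_lit 252) (nat_lit 5) (nat_lit 269) (nat_lit 5) (nat_lit 409) (nat_lit 395)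 (nat_lit 216)) (XT.lf (nat_lit 76) (nat_lit 497610663) (nat_lit 0) (nat_lit 16457128479) (nat_lit 1292) (nat_lit 9174142726) (nat_lit 254) (nat_lit 5) (nat_lit 253) (nat_lit 5) (nat_lit 270) (nat_lit 5) (nat_lit 410) (nat_lit 395) (nat_lit 215))) (XT.nd (nat_lit 78) (nat_lit 1140) (nat_lit 0) (XT.lf (nat_lit 76) (nat_lit 14287702999) (nat_lit 0) (nat_lit 4905853963) (nat_lit 1292) (nat_lit 7354835727) (nat_lit 254) (nat_lit 5) (nat_lit 253) (nat_lit 5) (nat_lit 270) (nat_lit 5) (nat_lit 411) (nat_lit 395) (nat_lit 214)) (XT.lf (nat_lit 0) (nat_lit 1469090075) (nat_lit 1216) (nat_lit 20107902868) (nat_lit 1292) (nat_lit 5401173874) (nat_lit 238) (nat_lit 5) (nat_lit 254) (nat_lit 5) (nat_lit 255) (nat_lit 5) (nat_lit 412) (nat_lit 395) (nat_lit 213))))) (XT.nd (nat_lit 312) (nat_lit 1140) (nat_lit 0) (XT.nd (nat_lit 156) (nat_lit 684) (nat_lit 0) (XT.nd (nat_lit 78) (nat_lit 608) (nat_lit 0) (XT.lf (nat_lit 0)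 (nat_lit 15809213491) (nat_lit 1216) (nat_lit 8390825752) (nat_lit 1292) (nat_lit 3215753257) (nat_lit 238) (nat_lit 5) (nat_lit 254) (nat_lit 5) (nat_lit 255) (nat_lit 5) (nat_lit 413) (nat_lit 395) (nat_lit 212)) (XT.lf (nat_lit 0) (nat_lit 2727502752) (nat_lit 608) (nat_lit 24232162110) (nat_lit 684) (nat_lit 905146954) (nat_lit 230) (nat_lit 5) (nat_lit 238) (nat_lit 5) (nat_lit 239) (nat_lit 5) (nat_lit 414) (nat_lit 395) (nat_lit 211))) (XT.nd (nat_lit 78) (nat_lit 608) (nat_lit 0) (XT.lf (nat_lit 0) (nat_lit 1643795647) (nat_lit 684) (nat_lit 10696071923) (nat_lit 76) (nat_lit 15981076373) (nat_lit 229) (nat_lit 5) (nat_lit 238) (nat_lit 5) (nat_lit 230) (nat_lit 5) (nat_lit 415) (nat_lit 395) (nat_lit 210)) (XT.lf (nat_lit 0) (nat_lit 4249051478) (nat_lit 608) (nat_lit 39267873) (nat_lit 684) (nat_lit 24501054040) (nat_lit 221) (nat_lit 5) (nat_lit 229) (nat_lit 5) (nat_lit 230) (nat_lit 5) (nat_lit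 416) (nat_lit 395) (nat_lit 209)))) (XT.nd (nat_lit 156) (nat_lit 532) (nat_lit 0) (XT.nd (nat_lit 78) (nat_lit 608) (nat_lit 0) (XT.lf (nat_lit 0) (nat_lit 7239202596) (nat_lit 684) (nat_lit 9532686083) (nat_lit 76) (nat_lit 12493157661) (nat_lit 221) (nat_lit 5) (nat_lit 230) (nat_lit 5) (nat_lit 222) (nat_lit 5) (nat_lit 417) (nat_lit 395) (nat_lit 208)) (XT.lf (nat_lit 0) (nat_lit 6039359925) (nat_lit 608) (nat_lit 4294330593) (nat_lit 684) (nat_lit 19419647911) (nat_lit 213) (nat_lit 5) (nat_lit 221) (nat_lit 5) (nat_lit 222) (nat_lit 5) (nat_lit 418) (nat_lit 395) (nat_lit 207))) (XT.nd (nat_lit 78) (nat_lit 532) (nat_lit 0) (XT.lf (nat_lit 0) (nat_lit 13697190676) (nat_lit 684) (nat_lit 8065975225) (nat_lit 76) (nat_lit 8487829308) (nat_lit 213) (nat_lit 5) (nat_lit 222) (nat_lit 5) (nat_lit 214) (nat_lit 5) (nat_lit 419) (nat_lit 395) (nat_lit 206)) (XT.lf (nat_lit 0) (nat_lit 8165028372) (nat_lit 532)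 (nat_lit 9114371509) (nat_lit 608) (nat_lit 13480648912) (nat_lit 206) (nat_lit 5) (nat_lit 213) (nat_lit 5) (nat_lit 214) (nat_lit 5) (nat_lit 420) (nat_lit 395) (nat_lit 205))))))))
noncomputable def xc215 : XT := (XT.nd (nat_lit 2262) (nat_lit 3496) (nat_lit 0) (XT.nd (nat_lit 1092) (nat_lit 3344) (nat_lit 0) (XT.nd (nat_lit 546) (nat_lit 1368) (nat_lit 0) (XT.nd (nat_lit 234) (nat_lit 1520) (nat_lit 0) (XT.nd (nat_lit 78) (nat_lit 532) (nat_lit 0) (XT.lf (nat_lit 0) (nat_lit 21085815214) (nat_lit 608) (nat_lit 6275366406) (nat_lit 76) (nat_lit 3919691352) (nat_lit 206) (nat_lit 5) (nat_lit 214) (nat_lit 5) (nat_lit 207) (nat_lit 5) (nat_lit 421) (nat_lit 395) (nat_lit 204)) (XT.nd (nat_lit 78) (nat_lit 0) (nat_lit 0) (XT.lf (nat_lit 0) (nat_lit 10648203757) (nat_lit 532) (nat_lit 14547769253) (nat_lit 608) (nat_lit 6615663518) (nat_lit 199) (nat_lit 5) (nat_lit 206) (nat_lit 5) (nat_lit 207) (nat_lit 5)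 (nat_lit 422) (nat_lit 395) (nat_lit 203)) (XT.lf (nat_lit 0) (nat_lit 28204934448) (nat_lit 532) (nat_lit 1284879809) (nat_lit 608) (nat_lit 2866698490) (nat_lit 199) (nat_lit 5) (nat_lit 206) (nat_lit 5) (nat_lit 207) (nat_lit 5) (nat_lit 423) (nat_lit 395) (nat_lit 202)))) (XT.nd (nat_lit 156) (nat_lit 988) (nat_lit 0) (XT.nd (nat_lit 78) (nat_lit 0) (nat_lit 0) (XT.lf (nat_lit 0) (nat_lit 1223705585) (nat_lit 532) (nat_lit 19410196046) (nat_lit 76) (nat_lit 12276096385) (nat_lit 192) (nat_lit 5) (nat_lit 199) (nat_lit 5) (nat_lit 193) (nat_lit 5) (nat_lit 424) (nat_lit 395) (nat_lit 201)) (XT.lf (nat_lit 0) (nat_lit 5431383627) (nat_lit 532) (nat_lit 1757729220) (nat_lit 76) (nat_lit 26288559134) (nat_lit 192) (nat_lit 5) (nat_lit 199) (nat_lit 5) (nat_lit 193) (nat_lit 5) (nat_lit 425) (nat_lit 395) (nat_lit 200))) (XT.nd (nat_lit 78) (nat_lit 456) (nat_lit 0) (XT.lf (nat_lit 0) (nat_lit 9989089724) (nat_lit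 608) (nat_lit 17375219912) (nat_lit 76) (nat_lit 6691353591) (nat_lit 185) (nat_lit 5) (nat_lit 193) (nat_lit 5) (nat_lit 186) (nat_lit 5) (nat_lit 426) (nat_lit 395) (nat_lit 199)) (XT.lf (nat_lit 0) (nat_lit 1002373557) (nat_lit 456) (nat_lit 13777146184) (nat_lit 532) (nat_lit 19868595649) (nat_lit 179) (nat_lit 5) (nat_lit 185) (nat_lit 5) (nat_lit 186) (nat_lit 5) (nat_lit 427) (nat_lit 395) (nat_lit 198))))) (XT.nd (nat_lit 234) (nat_lit 912) (nat_lit 0) (XT.nd (nat_lit 78) (nat_lit 456) (nat_lit 0) (XT.lf (nat_lit 0) (nat_lit 19890245880) (nat_lit 532) (nat_lit 14972645847) (nat_lit 76) (nat_lit 390152832) (nat_lit 179) (nat_lit 5) (nat_lit 186) (nat_lit 5) (nat_lit 180) (nat_lit 5) (nat_lit 428) (nat_lit 395) (nat_lit 197)) (XT.nd (nat_lit 78) (nat_lit 0) (nat_lit 0) (XT.lf (nat_lit 0) (nat_lit 4203138462) (nat_lit 456) (nat_lit 21125342921) (nat_lit 532) (nat_lit 10542415499) (nat_lit 173) (nat_lit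 5) (nat_lit 179) (nat_lit 5) (nat_lit 180) (nat_lit 5) (nat_lit 429) (nat_lit 395) (nat_lit 196)) (XT.lf (nat_lit 0) (nat_lit 24258035870) (nat_lit 456) (nat_lit 6820446247) (nat_lit 532) (nat_lit 5424344996) (nat_lit 173) (nat_lit 5) (nat_lit 179) (nat_lit 5) (nat_lit 180) (nat_lit 5) (nat_lit 430) (nat_lit 395) (nat_lit 195)))) (XT.nd (nat_lit 156) (nat_lit 456) (nat_lit 0) (XT.nd (nat_lit 78) (nat_lit 0) (nat_lit 0) (XT.lf (nat_lit 0) (nat_lit 596641) (nat_lit 456) (nat_lit 29314645909) (nat_lit 76) (nat_lit 7834007117) (nat_lit 167) (nat_lit 5) (nat_lit 173) (nat_lit 5) (nat_lit 168) (nat_lit 5) (nat_lit 431) (nat_lit 395) (nat_lit 194)) (XT.lf (nat_lit 0) (nat_lit 5669177053) (nat_lit 456) (nat_lit 9169514947) (nat_lit 76) (nat_lit 22969065079) (nat_lit 167) (nat_lit 5) (nat_lit 173) (nat_lit 5) (nat_lit 168) (nat_lit 5) (nat_lit 432) (nat_lit 395) (nat_lit 193))) (XT.nd (nat_lit 78) (nat_lit 0) (nat_lit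 0) (XT.lf (nat_lit 0) (nat_lit 11620711522) (nat_lit 532) (nat_lit 26677121933) (nat_lit 76) (nat_lit 184800140) (nat_lit 161) (nat_lit 5) (nat_lit 168) (nat_lit 5) (nat_lit 162) (nat_lit 5) (nat_lit 433) (nat_lit 395) (nat_lit 192)) (XT.lf (nat_lit 0) (nat_lit 17988841904) (nat_lit 532) (nat_lit 5728091456) (nat_lit 76) (nat_lit 15453682314) (nat_lit 161) (nat_lit 5) (nat_lit 168) (nat_lit 5) (nat_lit 162) (nat_lit 5) (nat_lit 434) (nat_lit 395) (nat_lit 191)))))) (XT.nd (nat_lit 546) (nat_lit 1748) (nat_lit 0) (XT.nd (nat_lit 234) (nat_lit 836) (nat_lit 0) (XT.nd (nat_lit 78) (nat_lit 380) (nat_lit 0) (XT.lf (nat_lit 0) (nat_lit 16161840518) (nat_lit 380) (nat_lit 8539223701) (nat_lit 456) (nat_lit 15173582291) (nat_lit 156) (nat_lit 5) (nat_lit 161) (nat_lit 5) (nat_lit 162) (nat_lit 5) (nat_lit 435) (nat_lit 395) (nat_lit 190)) (XT.nd (nat_lit 78) (nat_lit 380) (nat_lit 0) (XT.lf (nat_lit 0) (nat_lit 31738982056)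 (nat_lit 456) (nat_lit 1843913975) (nat_lit 76) (nat_lit 7013173094) (nat_lit 156) (nat_lit 5) (nat_lit 162) (nat_lit 5) (nat_lit 157) (nat_lit 5) (nat_lit 436) (nat_lit 395) (nat_lit 189)) (XT.lf (nat_lit 0) (nat_lit 21003459056) (nat_lit 380) (nat_lit 18268813090) (nat_lit 456) (nat_lit 2058335925) (nat_lit 151) (nat_lit 5) (nat_lit 156) (nat_lit 5) (nat_lit 157) (nat_lit 5) (nat_lit 437) (nat_lit 395) (nat_lit 188)))) (XT.nd (nat_lit 156) (nat_lit 380) (nat_lit 0) (XT.nd (nat_lit 78) (nat_lit 0) (nat_lit 0) (XT.lf (nat_lit 0) (nat_lit 2485303488) (nat_lit 380) (nat_lit 2403090691) (nat_lit 456) (nat_lit 37196148842) (nat_lit 145) (nat_lit 5) (nat_lit 150) (nat_lit 5) (nat_lit 151) (nat_lit 5) (nat_lit 438) (nat_lit 395) (nat_lit 187)) (XT.lf (nat_lit 0) (nat_lit 12341272582) (nat_lit 456) (nat_lit 16615458250) (nat_lit 76) (nat_lit 13893580929) (nat_lit 145) (nat_lit 5) (nat_lit 151) (nat_lit 5) (nat_lit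 146) (nat_lit 5) (nat_lit 439) (nat_lit 395) (nat_lit 186))) (XT.nd (nat_lit 78) (nat_lit 0) (nat_lit 0) (XT.lf (nat_lit 0) (nat_lit 7171125467) (nat_lit 380) (nat_lit 12937235043) (nat_lit 456) (nat_lit 23527974977) (nat_lit 140) (nat_lit 5) (nat_lit 145) (nat_lit 5) (nat_lit 146) (nat_lit 5) (nat_lit 440) (nat_lit 395) (nat_lit 185)) (XT.lf (nat_lit 0) (nat_lit 28310077889) (nat_lit 456) (nat_lit 12467788546) (nat_lit 76) (nat_lit 3662025586) (nat_lit 140) (nat_lit 5) (nat_lit 146) (nat_lit 5) (nat_lit 141) (nat_lit 5) (nat_lit 441) (nat_lit 395) (nat_lit 184))))) (XT.nd (nat_lit 312) (nat_lit 988) (nat_lit 0) (XT.nd (nat_lit 156) (nat_lit 456) (nat_lit 0) (XT.nd (nat_lit 78) (nat_lit 0) (nat_lit 0) (XT.lf (nat_lit 0) (nat_lit 12359853320) (nat_lit 304) (nat_lit 24642879637) (nat_lit 380) (nat_lit 8257476291) (nat_lit 136) (nat_lit 5) (nat_lit 140) (nat_lit 5) (nat_lit 141) (nat_lit 5) (nat_lit 442) (nat_lit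 395) (nat_lit 183)) (XT.lf (nat_lit 0) (nat_lit 38185133226) (nat_lit 304) (nat_lit 7894951028) (nat_lit 380) (nat_lit 21334808) (nat_lit 136) (nat_lit 5) (nat_lit 140) (nat_lit 5) (nat_lit 141) (nat_lit 5) (nat_lit 443) (nat_lit 395) (nat_lit 182))) (XT.nd (nat_lit 78) (nat_lit 0) (nat_lit 0) (XT.lf (nat_lit 0) (nat_lit 8561127908) (nat_lit 456) (nat_lit 28966552913) (nat_lit 76) (nat_lit 9429813887) (nat_lit 130) (nat_lit 5) (nat_lit 136) (nat_lit 5) (nat_lit 131) (nat_lit 5) (nat_lit 444) (nat_lit 395) (nat_lit 181)) (XT.lf (nat_lit 0) (nat_lit 17557611649) (nat_lit 456) (nat_lit 3081113581) (nat_lit 76) (nat_lit 27195812295) (nat_lit 130) (nat_lit 5) (nat_lit 136) (nat_lit 5) (nat_lit 131) (nat_lit 5) (nat_lit 445) (nat_lit 395) (nat_lit 180)))) (XT.nd (nat_lit 156) (nat_lit 380) (nat_lit 0) (XT.nd (nat_lit 78) (nat_lit 304) (nat_lit 0) (XT.lf (nat_lit 0) (nat_lit 24047470885) (nat_lit 304) (nat_lit 3005811688)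 (nat_lit 380) (nat_lit 21677730779) (nat_lit 126) (nat_lit 5) (nat_lit 130) (nat_lit 5) (nat_lit 131) (nat_lit 5) (nat_lit 446) (nat_lit 395) (nat_lit 179)) (XT.lf (nat_lit 0) (nat_lit 2295730471) (nat_lit 304) (nat_lit 34735426824) (nat_lit 380) (nat_lit 12617306635) (nat_lit 122) (nat_lit 5) (nat_lit 126) (nat_lit 5) (nat_lit 127) (nat_lit 5) (nat_lit 447) (nat_lit 395) (nat_lit 178))) (XT.nd (nat_lit 78) (nat_lit 380) (nat_lit 0) (XT.lf (nat_lit 0) (nat_lit 30557351130) (nat_lit 304) (nat_lit 17027924212) (nat_lit 380) (nat_lit 2999855945) (nat_lit 122) (nat_lit 5) (nat_lit 126) (nat_lit 5) (nat_lit 127) (nat_lit 5) (nat_lit 448) (nat_lit 395) (nat_lit 177)) (XT.lf (nat_lit 0) (nat_lit 6861543455) (nat_lit 380) (nat_lit 43350582553) (nat_lit 76) (nat_lit 1333075876) (nat_lit 117) (nat_lit 5) (nat_lit 122) (nat_lit 5) (nat_lit 118) (nat_lit 5) (nat_lit 449) (nat_lit 395) (nat_lit 176))))))) (XT.nd (nat_lit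 1092) (nat_lit 1520) (nat_lit 0) (XT.nd (nat_lit 546) (nat_lit 836) (nat_lit 0) (XT.nd (nat_lit 234) (nat_lit 836) (nat_lit 0) (XT.nd (nat_lit 78) (nat_lit 304) (nat_lit 0) (XT.lf (nat_lit 0) (nat_lit 17329564494) (nat_lit 380) (nat_lit 15056707532) (nat_lit 76) (nat_lit 20135779747) (nat_lit 117) (nat_lit 5) (nat_lit 122) (nat_lit 5) (nat_lit 118) (nat_lit 5) (nat_lit 450) (nat_lit 395) (nat_lit 175)) (XT.nd (nat_lit 78) (nat_lit 0) (nat_lit 0) (XT.lf (nat_lit 0) (nat_lit 14363704757) (nat_lit 304) (nat_lit 13884282263) (nat_lit 380) (nat_lit 25276129734) (nat_lit 113) (nat_lit 5) (nat_lit 117) (nat_lit 5) (nat_lit 118) (nat_lit 5) (nat_lit 451) (nat_lit 395) (nat_lit 174)) (XT.lf (nat_lit 0) (nat_lit 39695539975) (nat_lit 380) (nat_lit 9630118628) (nat_lit 76) (nat_lit 5224538156) (nat_lit 113) (nat_lit 5) (nat_lit 118) (nat_lit 5) (nat_lit 114) (nat_lit 5) (nat_lit 452) (nat_lit 395) (nat_lit 173)))) (XT.nd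 (nat_lit 156) (nat_lit 532) (nat_lit 0) (XT.nd (nat_lit 78) (nat_lit 76) (nat_lit 0) (XT.lf (nat_lit 0) (nat_lit 21057004452) (nat_lit 228) (nat_lit 30767750726) (nat_lit 304) (nat_lit 3772157316) (nat_lit 110) (nat_lit 5) (nat_lit 113) (nat_lit 5) (nat_lit 114) (nat_lit 5) (nat_lit 453) (nat_lit 395) (nat_lit 172)) (XT.lf (nat_lit 0) (nat_lit 7590248705) (nat_lit 304) (nat_lit 3886910701) (nat_lit 76) (nat_lit 45192769530) (nat_lit 109) (nat_lit 5) (nat_lit 113) (nat_lit 5) (nat_lit 110) (nat_lit 5) (nat_lit 454) (nat_lit 395) (nat_lit 171))) (XT.nd (nat_lit 78) (nat_lit 228) (nat_lit 0) (XT.lf (nat_lit 0) (nat_lit 19570873978) (nat_lit 380) (nat_lit 29653556171) (nat_lit 76) (nat_lit 8538990735) (nat_lit 105) (nat_lit 5) (nat_lit 110) (nat_lit 5) (nat_lit 106) (nat_lit 5) (nat_lit 455) (nat_lit 395) (nat_lit 170)) (XT.lf (nat_lit 0) (nat_lit 2183812150) (nat_lit 228) (nat_lit 29899796895) (nat_lit 304) (nat_lit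 26800928165) (nat_lit 102) (nat_lit 5) (nat_lit 105) (nat_lit 5) (nat_lit 106) (nat_lit 5) (nat_lit 456) (nat_lit 395) (nat_lit 169))))) (XT.nd (nat_lit 234) (nat_lit 532) (nat_lit 0) (XT.nd (nat_lit 78) (nat_lit 304) (nat_lit 0) (XT.lf (nat_lit 0) (nat_lit 35581735263) (nat_lit 228) (nat_lit 9687881010) (nat_lit 304) (nat_lit 14760734392) (nat_lit 102) (nat_lit 5) (nat_lit 105) (nat_lit 5) (nat_lit 106) (nat_lit 5) (nat_lit 457) (nat_lit 395) (nat_lit 168)) (XT.nd (nat_lit 78) (nat_lit 76) (nat_lit 0) (XT.lf (nat_lit 0) (nat_lit 8834048016) (nat_lit 228) (nat_lit 50207550439) (nat_lit 304) (nat_lit 2163228559) (nat_lit 99) (nat_lit 5) (nat_lit 102) (nat_lit 5) (nat_lit 103) (nat_lit 5) (nat_lit 458) (nat_lit 395) (nat_lit 167)) (XT.lf (nat_lit 0) (nat_lit 10944955011) (nat_lit 304) (nat_lit 18995472978) (nat_lit 76) (nat_lit 32460679845) (nat_lit 98) (nat_lit 5) (nat_lit 102) (nat_lit 5) (nat_lit 99) (nat_lit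 5) (nat_lit 459) (nat_lit 395) (nat_lit 166)))) (XT.nd (nat_lit 156) (nat_lit 304) (nat_lit 0) (XT.nd (nat_lit 78) (nat_lit 0) (nat_lit 0) (XT.lf (nat_lit 0) (nat_lit 15662977064) (nat_lit 228) (nat_lit 8889024853) (nat_lit 304) (nat_lit 39076160026) (nat_lit 95) (nat_lit 5) (nat_lit 98) (nat_lit 5) (nat_lit 99) (nat_lit 5) (nat_lit 460) (nat_lit 395) (nat_lit 165)) (XT.lf (nat_lit 0) (nat_lit 38882505962) (nat_lit 304) (nat_lit 13262936663) (nat_lit 76) (nat_lit 12737127974) (nat_lit 95) (nat_lit 5) (nat_lit 99) (nat_lit 5) (nat_lit 96) (nat_lit 5) (nat_lit 461) (nat_lit 395) (nat_lit 164))) (XT.nd (nat_lit 78) (nat_lit 76) (nat_lit 0) (XT.lf (nat_lit 0) (nat_lit 22835693430) (nat_lit 228) (nat_lit 31113341363) (nat_lit 304) (nat_lit 12216393719) (nat_lit 92) (nat_lit 5) (nat_lit 95) (nat_lit 5) (nat_lit 96) (nat_lit 5) (nat_lit 462) (nat_lit 395) (nat_lit 163)) (XT.lf (nat_lit 0) (nat_lit 2075984914) (nat_lit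 304) (nat_lit 7216249148) (nat_lit 76) (nat_lit 58189951657) (nat_lit 91) (nat_lit 5) (nat_lit 95) (nat_lit 5) (nat_lit 92) (nat_lit 5) (nat_lit 463) (nat_lit 395) (nat_lit 162)))))) (XT.nd (nat_lit 546) (nat_lit 608) (nat_lit 0) (XT.nd (nat_lit 234) (nat_lit 456) (nat_lit 0) (XT.nd (nat_lit 78) (nat_lit 228) (nat_lit 0) (XT.lf (nat_lit 0) (nat_lit 16973768363) (nat_lit 304) (nat_lit 38505204303) (nat_lit 76) (nat_lit 13343179481) (nat_lit 88) (nat_lit 5) (nat_lit 92) (nat_lit 5) (nat_lit 89) (nat_lit 5) (nat_lit 464) (nat_lit 395) (nat_lit 161)) (XT.nd (nat_lit 78) (nat_lit 228) (nat_lit 0) (XT.lf (nat_lit 0) (nat_lit 32482724629) (nat_lit 304) (nat_lit 1171020443) (nat_lit 76) (nat_lit 36543645571) (nat_lit 88) (nat_lit 5) (nat_lit 92) (nat_lit 5) (nat_lit 89) (nat_lit 5) (nat_lit 465) (nat_lit 395) (nat_lit 160)) (XT.lf (nat_lit 0) (nat_lit 38022987428) (nat_lit 228) (nat_lit 10798147367) (nat_lit 304) (nat_lit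 22781826191) (nat_lit 85) (nat_lit 5) (nat_lit 88) (nat_lit 5) (nat_lit 89) (nat_lit 5) (nat_lit 466) (nat_lit 395) (nat_lit 159)))) (XT.nd (nat_lit 156) (nat_lit 228) (nat_lit 0) (XT.nd (nat_lit 78) (nat_lit 76) (nat_lit 0) (XT.lf (nat_lit 0) (nat_lit 5346008059) (nat_lit 152) (nat_lit 60488209560) (nat_lit 228) (nat_lit 7210945448) (nat_lit 83) (nat_lit 5) (nat_lit 85) (nat_lit 5) (nat_lit 86) (nat_lit 5) (nat_lit 467) (nat_lit 395) (nat_lit 158)) (XT.lf (nat_lit 0) (nat_lit 9102874372) (nat_lit 228) (nat_lit 28589635091) (nat_lit 76) (nat_lit 36822134630) (nat_lit 82) (nat_lit 5) (nat_lit 85) (nat_lit 5) (nat_lit 83) (nat_lit 5) (nat_lit 468) (nat_lit 395) (nat_lit 157))) (XT.nd (nat_lit 78) (nat_lit 0) (nat_lit 0) (XT.lf (nat_lit 0) (nat_lit 11850910936) (nat_lit 228) (nat_lit 14022919928) (nat_lit 304) (nat_lit 50148857390) (nat_lit 79) (nat_lit 5) (nat_lit 82) (nat_lit 5) (nat_lit 83) (nat_lit 5) (nat_lit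 469) (nat_lit 395) (nat_lit 156)) (XT.lf (nat_lit 0) (nat_lit 43537774399) (nat_lit 304) (nat_lit 23581120443) (nat_lit 76) (nat_lit 10445383362) (nat_lit 79) (nat_lit 5) (nat_lit 83) (nat_lit 5) (nat_lit 80) (nat_lit 5) (nat_lit 470) (nat_lit 395) (nat_lit 155))))) (XT.nd (nat_lit 312) (nat_lit 152) (nat_lit 0) (XT.nd (nat_lit 156) (nat_lit 228) (nat_lit 0) (XT.nd (nat_lit 78) (nat_lit 76) (nat_lit 0) (XT.lf (nat_lit 0) (nat_lit 18446304510) (nat_lit 152) (nat_lit 43600271426) (nat_lit 228) (nat_lit 17096091933) (nat_lit 77) (nat_lit 5) (nat_lit 79) (nat_lit 5) (nat_lit 80) (nat_lit 5) (nat_lit 471) (nat_lit 395) (nat_lit 154)) (XT.lf (nat_lit 0) (nat_lit 574820314) (nat_lit 228) (nat_lit 18551039672) (nat_lit 76) (nat_lit 61635272754) (nat_lit 76) (nat_lit 5) (nat_lit 79) (nat_lit 5) (nat_lit 77) (nat_lit 5) (nat_lit 472) (nat_lit 395) (nat_lit 153))) (XT.nd (nat_lit 78) (nat_lit 0) (nat_lit 0) (XT.lf (nat_lit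 0) (nat_lit 18735635020) (nat_lit 304) (nat_lit 57299689891) (nat_lit 76) (nat_lit 6378647102) (nat_lit 73) (nat_lit 5) (nat_lit 77) (nat_lit 5) (nat_lit 74) (nat_lit 5) (nat_lit 473) (nat_lit 395) (nat_lit 152)) (XT.lf (nat_lit 0) (nat_lit 37818651128) (nat_lit 304) (nat_lit 13834170614) (nat_lit 76) (nat_lit 32452253595) (nat_lit 73) (nat_lit 5) (nat_lit 77) (nat_lit 5) (nat_lit 74) (nat_lit 5) (nat_lit 474) (nat_lit 395) (nat_lit 151)))) (XT.nd (nat_lit 47034) (nat_lit 0) (nat_lit 13300) (XT.nd (nat_lit 46956) (nat_lit 0) (nat_lit 13300) (XT.lf (nat_lit 0) (nat_lit 31548991389) (nat_lit 152) (nat_lit 26227296810) (nat_lit 228) (nat_lit 28061559827) (nat_lit 71) (nat_lit 5) (nat_lit 73) (nat_lit 5) (nat_lit 74) (nat_lit 5) (nat_lit 475) (nat_lit 395) (nat_lit 150)) (XT.lf (nat_lit 0) (nat_lit 818323963) (nat_lit 1292) (nat_lit 4941695248) (nat_lit 1292) (nat_lit 4941695248) (nat_lit 246) (nat_lit 3) (nat_lit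 263) (nat_lit 3) (nat_lit 263) (nat_lit 5) (nat_lit 396) (nat_lit 396) (nat_lit 228))) (XT.nd (nat_lit 78) (nat_lit 0) (nat_lit 76) (XT.lf (nat_lit 76) (nat_lit 441803824) (nat_lit 0) (nat_lit 1365582483) (nat_lit 1292) (nat_lit 19912648452) (nat_lit 247) (nat_lit 5) (nat_lit 246) (nat_lit 3) (nat_lit 263) (nat_lit 5) (nat_lit 397) (nat_lit 396) (nat_lit 227)) (XT.lf (nat_lit 0) (nat_lit 2165908173) (nat_lit 1216) (nat_lit 10855297164) (nat_lit 1292) (nat_lit 9019455937) (nat_lit 247) (nat_lit 5) (nat_lit 263) (nat_lit 5) (nat_lit 264) (nat_lit 5) (nat_lit 398) (nat_lit 396) (nat_lit 226))))))))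
noncomputable def xc216 : XT := (XT.nd (nat_lit 2184) (nat_lit 6308) (nat_lit 0) (XT.nd (nat_lit 1092) (nat_lit 4180) (nat_lit 0) (XT.nd (nat_lit 546) (nat_lit 0) (nat_lit 304) (XT.nd (nat_lit 234) (nat_lit 0) (nat_lit 152) (XT.nd (nat_lit 78) (nat_lit 0) (nat_lit 76) (XT.lf (nat_lit 0) (nat_lit 2543325698) (nat_lit 1216) (nat_lit 136211304) (nat_lit 1292) (nat_lit 19691127655) (nat_lit 247) (nat_lit 5) (nat_lit 263) (nat_lit 5) (nat_lit 264) (nat_lit 5) (nat_lit 399) (nat_lit 396) (nat_lit 225)) (XT.nd (nat_lit 78) (nat_lit 0) (nat_lit 0) (XT.lf (nat_lit 0) (nat_lit 3111435170) (nat_lit 1216) (nat_lit 11666755141) (nat_lit 1292) (nat_lit 7926998951) (nat_lit 248) (nat_lit 5) (nat_lit 264) (nat_lit 5) (nat_lit 265) (nat_lit 5) (nat_lit 400) (nat_lit 396) (nat_lit 224)) (XT.lf (nat_lit 0) (nat_lit 3719428626) (nat_lit 1216) (nat_lit 528215986) (nat_lit 1292) (nat_lit 18801421913) (nat_lit 248) (nat_lit 5) (nat_lit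 264) (nat_lit 5) (nat_lit 265) (nat_lit 5) (nat_lit 401) (nat_lit 396) (nat_lit 223)))) (XT.nd (nat_lit 156) (nat_lit 0) (nat_lit 76) (XT.nd (nat_lit 78) (nat_lit 0) (nat_lit 0) (XT.lf (nat_lit 0) (nat_lit 4512513536) (nat_lit 1216) (nat_lit 12305453631) (nat_lit 1292) (nat_lit 6580289467) (nat_lit 249) (nat_lit 5) (nat_lit 265) (nat_lit 5) (nat_lit 266) (nat_lit 5) (nat_lit 402) (nat_lit 396) (nat_lit 222)) (XT.lf (nat_lit 0) (nat_lit 5372036161) (nat_lit 1216) (nat_lit 729711232) (nat_lit 1292) (nat_lit 17654897717) (nat_lit 249) (nat_lit 5) (nat_lit 265) (nat_lit 5) (nat_lit 266) (nat_lit 5) (nat_lit 403) (nat_lit 396) (nat_lit 221))) (XT.nd (nat_lit 78) (nat_lit 0) (nat_lit 0) (XT.lf (nat_lit 0) (nat_lit 6410944617) (nat_lit 1216) (nat_lit 12758202867) (nat_lit 1292) (nat_lit 4952031710) (nat_lit 250) (nat_lit 5) (nat_lit 266) (nat_lit 5) (nat_lit 267) (nat_lit 5) (nat_lit 404) (nat_lit 396) (nat_lit 220))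 (XT.lf (nat_lit 0) (nat_lit 7544339266) (nat_lit 1216) (nat_lit 726664981) (nat_lit 1292) (nat_lit 16223747388) (nat_lit 250) (nat_lit 5) (nat_lit 266) (nat_lit 5) (nat_lit 267) (nat_lit 5) (nat_lit 405) (nat_lit 396) (nat_lit 219))))) (XT.nd (nat_lit 234) (nat_lit 0) (nat_lit 76) (XT.nd (nat_lit 78) (nat_lit 0) (nat_lit 0) (XT.lf (nat_lit 0) (nat_lit 8851214066) (nat_lit 1216) (nat_lit 13010907132) (nat_lit 1292) (nat_lit 3013227548) (nat_lit 251) (nat_lit 5) (nat_lit 267) (nat_lit 5) (nat_lit 268) (nat_lit 5) (nat_lit 406) (nat_lit 396) (nat_lit 218)) (XT.nd (nat_lit 78) (nat_lit 0) (nat_lit 76) (XT.lf (nat_lit 0) (nat_lit 10282304259) (nat_lit 1216) (nat_lit 504104728) (nat_lit 1292) (nat_lit 14478406301) (nat_lit 251) (nat_lit 5) (nat_lit 267) (nat_lit 5) (nat_lit 268) (nat_lit 5) (nat_lit 407) (nat_lit 396) (nat_lit 217)) (XT.lf (nat_lit 0) (nat_lit 11880668011) (nat_lit 1216) (nat_lit 13048536786) (nat_lit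 1292) (nat_lit 733032544) (nat_lit 252) (nat_lit 5) (nat_lit 268) (nat_lit 5) (nat_lit 269) (nat_lit 5) (nat_lit 408) (nat_lit 396) (nat_lit 216)))) (XT.nd (nat_lit 156) (nat_lit 0) (nat_lit 76) (XT.nd (nat_lit 78) (nat_lit 0) (nat_lit 0) (XT.lf (nat_lit 0) (nat_lit 13634854058) (nat_lit 1216) (nat_lit 46087969) (nat_lit 1292) (nat_lit 12387405576) (nat_lit 252) (nat_lit 5) (nat_lit 268) (nat_lit 5) (nat_lit 269) (nat_lit 5) (nat_lit 409) (nat_lit 396) (nat_lit 215)) (XT.lf (nat_lit 76) (nat_lit 13608900006) (nat_lit 0) (nat_lit 1959635551) (nat_lit 1292) (nat_lit 10914301162) (nat_lit 253) (nat_lit 5) (nat_lit 252) (nat_lit 5) (nat_lit 269) (nat_lit 5) (nat_lit 410) (nat_lit 396) (nat_lit 214))) (XT.nd (nat_lit 78) (nat_lit 0) (nat_lit 0) (XT.lf (nat_lit 76) (nat_lit 677549574) (nat_lit 0) (nat_lit 16983022286) (nat_lit 1292) (nat_lit 9246179910) (nat_lit 254) (nat_lit 5) (nat_lit 253) (nat_lit 5) (nat_lit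 270) (nat_lit 5) (nat_lit 411) (nat_lit 396) (nat_lit 213)) (XT.lf (nat_lit 76) (nat_lit 14876538546) (nat_lit 0) (nat_lit 5084272254) (nat_lit 1292) (nat_lit 7378211772) (nat_lit 254) (nat_lit 5) (nat_lit 253) (nat_lit 5) (nat_lit 270) (nat_lit 5) (nat_lit 412) (nat_lit 396) (nat_lit 212)))))) (XT.nd (nat_lit 546) (nat_lit 1596) (nat_lit 0) (XT.nd (nat_lit 234) (nat_lit 1292) (nat_lit 0) (XT.nd (nat_lit 78) (nat_lit 608) (nat_lit 0) (XT.lf (nat_lit 0) (nat_lit 1677858802) (nat_lit 1216) (nat_lit 20733606512) (nat_lit 1292) (nat_lit 5370355434) (nat_lit 238) (nat_lit 5) (nat_lit 254) (nat_lit 5) (nat_lit 255) (nat_lit 5) (nat_lit 413) (nat_lit 396) (nat_lit 211)) (XT.nd (nat_lit 78) (nat_lit 608) (nat_lit 0) (XT.lf (nat_lit 0) (nat_lit 16443388949) (nat_lit 1216) (nat_lit 8664362716) (nat_lit 1292) (nat_lit 3124989295) (nat_lit 238) (nat_lit 5) (nat_lit 254) (nat_lit 5) (nat_lit 255) (nat_lit 5) (nat_lit 414)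 (nat_lit 396) (nat_lit 210)) (XT.lf (nat_lit 0) (nat_lit 2973338012) (nat_lit 608) (nat_lit 24972908481) (nat_lit 684) (nat_lit 749104104) (nat_lit 230) (nat_lit 5) (nat_lit 238) (nat_lit 5) (nat_lit 239) (nat_lit 5) (nat_lit 415) (nat_lit 396) (nat_lit 209)))) (XT.nd (nat_lit 156) (nat_lit 608) (nat_lit 0) (XT.nd (nat_lit 78) (nat_lit 608) (nat_lit 0) (XT.lf (nat_lit 0) (nat_lit 1867500216) (nat_lit 684) (nat_lit 10854182482) (nat_lit 76) (nat_lit 16443590142) (nat_lit 229) (nat_lit 5) (nat_lit 238) (nat_lit 5) (nat_lit 230) (nat_lit 5) (nat_lit 416) (nat_lit 396) (nat_lit 208)) (XT.lf (nat_lit 0) (nat_lit 4537698821) (nat_lit 608) (nat_lit 50130789) (nat_lit 684) (nat_lit 25060033433) (nat_lit 221) (nat_lit 5) (nat_lit 229) (nat_lit 5) (nat_lit 230) (nat_lit 5) (nat_lit 417) (nat_lit 396) (nat_lit 207))) (XT.nd (nat_lit 78) (nat_lit 608) (nat_lit 0) (XT.lf (nat_lit 0) (nat_lit 7622172443) (nat_lit 684) (nat_lit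 9657054584) (nat_lit 76) (nat_lit 12858733077) (nat_lit 221) (nat_lit 5) (nat_lit 230) (nat_lit 5) (nat_lit 222) (nat_lit 5) (nat_lit 418) (nat_lit 396) (nat_lit 206)) (XT.lf (nat_lit 0) (nat_lit 6380568373) (nat_lit 608) (nat_lit 4425635969) (nat_lit 684) (nat_lit 19834797192) (nat_lit 213) (nat_lit 5) (nat_lit 221) (nat_lit 5) (nat_lit 222) (nat_lit 5) (nat_lit 419) (nat_lit 396) (nat_lit 205))))) (XT.nd (nat_lit 234) (nat_lit 1064) (nat_lit 0) (XT.nd (nat_lit 78) (nat_lit 532) (nat_lit 0) (XT.lf (nat_lit 0) (nat_lit 14265853302) (nat_lit 684) (nat_lit 8147771478) (nat_lit 76) (nat_lit 8740107728) (nat_lit 213) (nat_lit 5) (nat_lit 222) (nat_lit 5) (nat_lit 214) (nat_lit 5) (nat_lit 420) (nat_lit 396) (nat_lit 204)) (XT.nd (nat_lit 78) (nat_lit 0) (nat_lit 0) (XT.lf (nat_lit 0) (nat_lit 8568591805) (nat_lit 532) (nat_lit 9383867088) (nat_lit 608) (nat_lit 13725692653) (nat_lit 206) (nat_lit 5) (nat_lit 213)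 (nat_lit 5) (nat_lit 214) (nat_lit 5) (nat_lit 421) (nat_lit 396) (nat_lit 203)) (XT.lf (nat_lit 0) (nat_lit 21868598260) (nat_lit 608) (nat_lit 6305109476) (nat_lit 76) (nat_lit 4041028470) (nat_lit 206) (nat_lit 5) (nat_lit 214) (nat_lit 5) (nat_lit 207) (nat_lit 5) (nat_lit 422) (nat_lit 396) (nat_lit 202)))) (XT.nd (nat_lit 156) (nat_lit 532) (nat_lit 0) (XT.nd (nat_lit 78) (nat_lit 0) (nat_lit 0) (XT.lf (nat_lit 0) (nat_lit 11124613696) (nat_lit 532) (nat_lit 14974580920) (nat_lit 608) (nat_lit 6662315690) (nat_lit 199) (nat_lit 5) (nat_lit 206) (nat_lit 5) (nat_lit 207) (nat_lit 5) (nat_lit 423) (nat_lit 396) (nat_lit 201)) (XT.lf (nat_lit 0) (nat_lit 29203474545) (nat_lit 532) (nat_lit 1314085027) (nat_lit 608) (nat_lit 2805303587) (nat_lit 199) (nat_lit 5) (nat_lit 206) (nat_lit 5) (nat_lit 207) (nat_lit 5) (nat_lit 424) (nat_lit 396) (nat_lit 200))) (XT.nd (nat_lit 78) (nat_lit 0) (nat_lit 0) (XT.lf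 (nat_lit 0) (nat_lit 1402320907) (nat_lit 532) (nat_lit 19834515898) (nat_lit 76) (nat_lit 12656153652) (nat_lit 192) (nat_lit 5) (nat_lit 199) (nat_lit 5) (nat_lit 193) (nat_lit 5) (nat_lit 425) (nat_lit 396) (nat_lit 199)) (XT.lf (nat_lit 0) (nat_lit 5732096159) (nat_lit 532) (nat_lit 1657076602) (nat_lit 76) (nat_lit 27088647341) (nat_lit 192) (nat_lit 5) (nat_lit 199) (nat_lit 5) (nat_lit 193) (nat_lit 5) (nat_lit 426) (nat_lit 396) (nat_lit 198))))))) (XT.nd (nat_lit 1092) (nat_lit 2736) (nat_lit 0) (XT.nd (nat_lit 546) (nat_lit 1672) (nat_lit 0) (XT.nd (nat_lit 234) (nat_lit 912) (nat_lit 0) (XT.nd (nat_lit 78) (nat_lit 456) (nat_lit 0) (XT.lf (nat_lit 0) (nat_lit 10424140831) (nat_lit 608) (nat_lit 17740651923) (nat_lit 76) (nat_lit 6908431533) (nat_lit 185) (nat_lit 5) (nat_lit 193) (nat_lit 5) (nat_lit 186) (nat_lit 5) (nat_lit 427) (nat_lit 396) (nat_lit 197)) (XT.nd (nat_lit 78) (nat_lit 0) (nat_lit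 0) (XT.lf (nat_lit 0) (nat_lit 1186741658) (nat_lit 456) (nat_lit 14169082227) (nat_lit 532) (nat_lit 20327701311) (nat_lit 179) (nat_lit 5) (nat_lit 185) (nat_lit 5) (nat_lit 186) (nat_lit 5) (nat_lit 428) (nat_lit 396) (nat_lit 196)) (XT.lf (nat_lit 0) (nat_lit 20616199909) (nat_lit 532) (nat_lit 15268305757) (nat_lit 76) (nat_lit 422208072) (nat_lit 179) (nat_lit 5) (nat_lit 186) (nat_lit 5) (nat_lit 180) (nat_lit 5) (nat_lit 429) (nat_lit 396) (nat_lit 195)))) (XT.nd (nat_lit 156) (nat_lit 456) (nat_lit 0) (XT.nd (nat_lit 78) (nat_lit 0) (nat_lit 0) (XT.lf (nat_lit 0) (nat_lit 4481246989) (nat_lit 456) (nat_lit 21734032279) (nat_lit 532) (nat_lit 10727892763) (nat_lit 173) (nat_lit 5) (nat_lit 179) (nat_lit 5) (nat_lit 180) (nat_lit 5) (nat_lit 430) (nat_lit 396) (nat_lit 194)) (XT.lf (nat_lit 0) (nat_lit 25133363716) (nat_lit 456) (nat_lit 7000718926) (nat_lit 532) (nat_lit 5460089715) (nat_lit 173) (nat_lit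 5) (nat_lit 179) (nat_lit 5) (nat_lit 180) (nat_lit 5) (nat_lit 431) (nat_lit 396) (nat_lit 193))) (XT.nd (nat_lit 78) (nat_lit 0) (nat_lit 0) (XT.lf (nat_lit 0) (nat_lit 123177591) (nat_lit 456) (nat_lit 30041995210) (nat_lit 76) (nat_lit 8094837698) (nat_lit 167) (nat_lit 5) (nat_lit 173) (nat_lit 5) (nat_lit 168) (nat_lit 5) (nat_lit 432) (nat_lit 396) (nat_lit 192)) (XT.lf (nat_lit 0) (nat_lit 5958245618) (nat_lit 456) (nat_lit 9296940127) (nat_lit 76) (nat_lit 23683195640) (nat_lit 167) (nat_lit 5) (nat_lit 173) (nat_lit 5) (nat_lit 168) (nat_lit 5) (nat_lit 433) (nat_lit 396) (nat_lit 191))))) (XT.nd (nat_lit 234) (nat_lit 836) (nat_lit 0) (XT.nd (nat_lit 78) (nat_lit 380) (nat_lit 0) (XT.lf (nat_lit 0) (nat_lit 12086547237) (nat_lit 532) (nat_lit 27327958955) (nat_lit 76) (nat_lit 219052495) (nat_lit 161) (nat_lit 5) (nat_lit 168) (nat_lit 5) (nat_lit 162) (nat_lit 5) (nat_lit 434) (nat_lit 396) (nat_lit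 190)) (XT.nd (nat_lit 78) (nat_lit 380) (nat_lit 0) (XT.lf (nat_lit 0) (nat_lit 18642307520) (nat_lit 532) (nat_lit 5754811252) (nat_lit 76) (nat_lit 15945164968) (nat_lit 161) (nat_lit 5) (nat_lit 168) (nat_lit 5) (nat_lit 162) (nat_lit 5) (nat_lit 435) (nat_lit 396) (nat_lit 189)) (XT.lf (nat_lit 0) (nat_lit 16790395907) (nat_lit 380) (nat_lit 8763567359) (nat_lit 456) (nat_lit 15513531294) (nat_lit 156) (nat_lit 5) (nat_lit 161) (nat_lit 5) (nat_lit 162) (nat_lit 5) (nat_lit 436) (nat_lit 396) (nat_lit 188)))) (XT.nd (nat_lit 156) (nat_lit 456) (nat_lit 0) (XT.nd (nat_lit 78) (nat_lit 380) (nat_lit 0) (XT.lf (nat_lit 0) (nat_lit 32800057458) (nat_lit 456) (nat_lit 1756721180) (nat_lit 76) (nat_lit 7253871079) (nat_lit 156) (nat_lit 5) (nat_lit 162) (nat_lit 5) (nat_lit 157) (nat_lit 5) (nat_lit 437) (nat_lit 396) (nat_lit 187)) (XT.lf (nat_lit 0) (nat_lit 21774675883) (nat_lit 380) (nat_lit 18782854816) (nat_lit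 456) (nat_lit 2009749600) (nat_lit 151) (nat_lit 5) (nat_lit 156) (nat_lit 5) (nat_lit 157) (nat_lit 5) (nat_lit 438) (nat_lit 396) (nat_lit 186))) (XT.nd (nat_lit 78) (nat_lit 0) (nat_lit 0) (XT.lf (nat_lit 0) (nat_lit 2701756155) (nat_lit 380) (nat_lit 2439686188) (nat_lit 456) (nat_lit 38202413686) (nat_lit 145) (nat_lit 5) (nat_lit 150) (nat_lit 5) (nat_lit 151) (nat_lit 5) (nat_lit 439) (nat_lit 396) (nat_lit 185)) (XT.lf (nat_lit 0) (nat_lit 12815139459) (nat_lit 456) (nat_lit 16973363139) (nat_lit 76) (nat_lit 14344179177) (nat_lit 145) (nat_lit 5) (nat_lit 151) (nat_lit 5) (nat_lit 146) (nat_lit 5) (nat_lit 440) (nat_lit 396) (nat_lit 184)))))) (XT.nd (nat_lit 546) (nat_lit 1292) (nat_lit 0) (XT.nd (nat_lit 234) (nat_lit 760) (nat_lit 0) (XT.nd (nat_lit 78) (nat_lit 304) (nat_lit 0) (XT.lf (nat_lit 0) (nat_lit 7525440062) (nat_lit 380) (nat_lit 13288119542) (nat_lit 456) (nat_lit 24128777909) (nat_lit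 140) (nat_lit 5) (nat_lit 145) (nat_lit 5) (nat_lit 146) (nat_lit 5) (nat_lit 441) (nat_lit 396) (nat_lit 183)) (XT.nd (nat_lit 78) (nat_lit 304) (nat_lit 0) (XT.lf (nat_lit 0) (nat_lit 29258706615) (nat_lit 456) (nat_lit 12704044565) (nat_lit 76) (nat_lit 3807329082) (nat_lit 140) (nat_lit 5) (nat_lit 146) (nat_lit 5) (nat_lit 141) (nat_lit 5) (nat_lit 442) (nat_lit 396) (nat_lit 182)) (XT.lf (nat_lit 0) (nat_lit 12867075796) (nat_lit 304) (nat_lit 25343483956) (nat_lit 380) (nat_lit 8404495538) (nat_lit 136) (nat_lit 5) (nat_lit 140) (nat_lit 5) (nat_lit 141) (nat_lit 5) (nat_lit 443) (nat_lit 396) (nat_lit 181)))) (XT.nd (nat_lit 156) (nat_lit 304) (nat_lit 0) (XT.nd (nat_lit 78) (nat_lit 380) (nat_lit 0) (XT.lf (nat_lit 0) (nat_lit 74317959) (nat_lit 380) (nat_lit 8019175725) (nat_lit 76) (nat_lit 39388072076) (nat_lit 135) (nat_lit 5) (nat_lit 140) (nat_lit 5) (nat_lit 136) (nat_lit 5) (nat_lit 444) (nat_lit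 396) (nat_lit 180)) (XT.lf (nat_lit 0) (nat_lit 8912684933) (nat_lit 456) (nat_lit 29699995709) (nat_lit 76) (nat_lit 9750671687) (nat_lit 130) (nat_lit 5) (nat_lit 136) (nat_lit 5) (nat_lit 131) (nat_lit 5) (nat_lit 445) (nat_lit 396) (nat_lit 179))) (XT.nd (nat_lit 78) (nat_lit 304) (nat_lit 0) (XT.lf (nat_lit 0) (nat_lit 18176304259) (nat_lit 456) (nat_lit 3041941366) (nat_lit 76) (nat_lit 28048544318) (nat_lit 130) (nat_lit 5) (nat_lit 136) (nat_lit 5) (nat_lit 131) (nat_lit 5) (nat_lit 446) (nat_lit 396) (nat_lit 178)) (XT.lf (nat_lit 0) (nat_lit 24899210383) (nat_lit 304) (nat_lit 3056209028) (nat_lit 380) (nat_lit 22234784132) (nat_lit 126) (nat_lit 5) (nat_lit 130) (nat_lit 5) (nat_lit 131) (nat_lit 5) (nat_lit 447) (nat_lit 396) (nat_lit 177))))) (XT.nd (nat_lit 312) (nat_lit 608) (nat_lit 0) (XT.nd (nat_lit 156) (nat_lit 380) (nat_lit 0) (XT.nd (nat_lit 78) (nat_lit 0) (nat_lit 0) (XT.lf (nat_lit 0)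 (nat_lit 2495974888) (nat_lit 304) (nat_lit 35735652504) (nat_lit 380) (nat_lit 12903581036) (nat_lit 122) (nat_lit 5) (nat_lit 126) (nat_lit 5) (nat_lit 127) (nat_lit 5) (nat_lit 448) (nat_lit 396) (nat_lit 176)) (XT.lf (nat_lit 0) (nat_lit 31601617784) (nat_lit 304) (nat_lit 17498143371) (nat_lit 380) (nat_lit 3000293566) (nat_lit 122) (nat_lit 5) (nat_lit 126) (nat_lit 5) (nat_lit 127) (nat_lit 5) (nat_lit 449) (nat_lit 396) (nat_lit 175))) (XT.nd (nat_lit 78) (nat_lit 0) (nat_lit 0) (XT.lf (nat_lit 0) (nat_lit 7154273044) (nat_lit 380) (nat_lit 44520835745) (nat_lit 76) (nat_lit 1413821277) (nat_lit 117) (nat_lit 5) (nat_lit 122) (nat_lit 5) (nat_lit 118) (nat_lit 5) (nat_lit 450) (nat_lit 396) (nat_lit 174)) (XT.lf (nat_lit 0) (nat_lit 17933804133) (nat_lit 380) (nat_lit 15381938579) (nat_lit 76) (nat_lit 20779419279) (nat_lit 117) (nat_lit 5) (nat_lit 122) (nat_lit 5) (nat_lit 118) (nat_lit 5) (nat_lit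 451) (nat_lit 396) (nat_lit 173)))) (XT.nd (nat_lit 156) (nat_lit 304) (nat_lit 0) (XT.nd (nat_lit 78) (nat_lit 0) (nat_lit 0) (XT.lf (nat_lit 0) (nat_lit 14919846175) (nat_lit 304) (nat_lit 14258680074) (nat_lit 380) (nat_lit 25948800869) (nat_lit 113) (nat_lit 5) (nat_lit 117) (nat_lit 5) (nat_lit 118) (nat_lit 5) (nat_lit 452) (nat_lit 396) (nat_lit 172)) (XT.lf (nat_lit 0) (nat_lit 40967478607) (nat_lit 380) (nat_lit 9795392645) (nat_lit 76) (nat_lit 5421379675) (nat_lit 113) (nat_lit 5) (nat_lit 118) (nat_lit 5) (nat_lit 114) (nat_lit 5) (nat_lit 453) (nat_lit 396) (nat_lit 171))) (XT.nd (nat_lit 78) (nat_lit 76) (nat_lit 0) (XT.lf (nat_lit 0) (nat_lit 21811132073) (nat_lit 228) (nat_lit 31648253611) (nat_lit 304) (nat_lit 3803018556) (nat_lit 110) (nat_lit 5) (nat_lit 113) (nat_lit 5) (nat_lit 114) (nat_lit 5) (nat_lit 454) (nat_lit 396) (nat_lit 170)) (XT.lf (nat_lit 0) (nat_lit 7896303198) (nat_lit 304)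 (nat_lit 3883088931) (nat_lit 76) (nat_lit 46588266363) (nat_lit 109) (nat_lit 5) (nat_lit 113) (nat_lit 5) (nat_lit 110) (nat_lit 5) (nat_lit 455) (nat_lit 396) (nat_lit 169))))))))
noncomputable def xc217 : XT := (XT.nd (nat_lit 49140) (nat_lit 0) (nat_lit 7144) (XT.nd (nat_lit 1092) (nat_lit 684) (nat_lit 0) (XT.nd (nat_lit 546) (nat_lit 988) (nat_lit 0) (XT.nd (nat_lit 234) (nat_lit 532) (nat_lit 0) (XT.nd (nat_lit 78) (nat_lit 228) (nat_lit 0) (XT.lf (nat_lit 0) (nat_lit 20235615650) (nat_lit 380) (nat_lit 30421984805) (nat_lit 76) (nat_lit 8836377209) (nat_lit 105) (nat_lit 5) (nat_lit 110) (nat_lit 5) (nat_lit 106) (nat_lit 5) (nat_lit 456) (nat_lit 396) (nat_lit 168)) (XT.nd (nat_lit 78) (nat_lit 0) (nat_lit 0) (XT.lf (nat_lit 0) (nat_lit 2369316545) (nat_lit 228) (nat_lit 30753308998) (nat_lit 304) (nat_lit 27526135661) (nat_lit 102) (nat_lit 5) (nat_lit 105) (nat_lit 5) (nat_lit 106) (nat_lit 5) (nat_lit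 457) (nat_lit 396) (nat_lit 167)) (XT.lf (nat_lit 0) (nat_lit 36765682496) (nat_lit 228) (nat_lit 9936302097) (nat_lit 304) (nat_lit 15127031813) (nat_lit 102) (nat_lit 5) (nat_lit 105) (nat_lit 5) (nat_lit 106) (nat_lit 5) (nat_lit 458) (nat_lit 396) (nat_lit 166)))) (XT.nd (nat_lit 156) (nat_lit 228) (nat_lit 0) (XT.nd (nat_lit 78) (nat_lit 76) (nat_lit 0) (XT.lf (nat_lit 0) (nat_lit 9216243472) (nat_lit 228) (nat_lit 51670239607) (nat_lit 304) (nat_lit 2152263739) (nat_lit 99) (nat_lit 5) (nat_lit 102) (nat_lit 5) (nat_lit 103) (nat_lit 5) (nat_lit 459) (nat_lit 396) (nat_lit 165)) (XT.lf (nat_lit 0) (nat_lit 11345518556) (nat_lit 304) (nat_lit 19450123777) (nat_lit 76) (nat_lit 33475317297) (nat_lit 98) (nat_lit 5) (nat_lit 102) (nat_lit 5) (nat_lit 99) (nat_lit 5) (nat_lit 460) (nat_lit 396) (nat_lit 164))) (XT.nd (nat_lit 78) (nat_lit 0) (nat_lit 0) (XT.lf (nat_lit 0) (nat_lit 16246950224) (nat_lit 228)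 (nat_lit 9112819943) (nat_lit 304) (nat_lit 40175085832) (nat_lit 95) (nat_lit 5) (nat_lit 98) (nat_lit 5) (nat_lit 99) (nat_lit 5) (nat_lit 461) (nat_lit 396) (nat_lit 163)) (XT.lf (nat_lit 0) (nat_lit 40118515451) (nat_lit 304) (nat_lit 13548375731) (nat_lit 76) (nat_lit 13160056374) (nat_lit 95) (nat_lit 5) (nat_lit 99) (nat_lit 5) (nat_lit 96) (nat_lit 5) (nat_lit 462) (nat_lit 396) (nat_lit 162))))) (XT.nd (nat_lit 234) (nat_lit 456) (nat_lit 0) (XT.nd (nat_lit 78) (nat_lit 304) (nat_lit 0) (XT.lf (nat_lit 0) (nat_lit 23632110824) (nat_lit 228) (nat_lit 32003974383) (nat_lit 304) (nat_lit 12512235058) (nat_lit 92) (nat_lit 5) (nat_lit 95) (nat_lit 5) (nat_lit 96) (nat_lit 5) (nat_lit 463) (nat_lit 396) (nat_lit 161)) (XT.nd (nat_lit 78) (nat_lit 228) (nat_lit 0) (XT.lf (nat_lit 0) (nat_lit 2205518663) (nat_lit 304) (nat_lit 7323281712) (nat_lit 76) (nat_lit 59975820357) (nat_lit 91) (nat_lit 5) (nat_lit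 95) (nat_lit 5) (nat_lit 92) (nat_lit 5) (nat_lit 464) (nat_lit 396) (nat_lit 160)) (XT.lf (nat_lit 0) (nat_lit 17549722746) (nat_lit 304) (nat_lit 39550380097) (nat_lit 76) (nat_lit 13784699072) (nat_lit 88) (nat_lit 5) (nat_lit 92) (nat_lit 5) (nat_lit 89) (nat_lit 5) (nat_lit 465) (nat_lit 396) (nat_lit 159)))) (XT.nd (nat_lit 156) (nat_lit 228) (nat_lit 0) (XT.nd (nat_lit 78) (nat_lit 228) (nat_lit 0) (XT.lf (nat_lit 0) (nat_lit 33522003778) (nat_lit 304) (nat_lit 1099374032) (nat_lit 76) (nat_lit 37679978440) (nat_lit 88) (nat_lit 5) (nat_lit 92) (nat_lit 5) (nat_lit 89) (nat_lit 5) (nat_lit 466) (nat_lit 396) (nat_lit 158)) (XT.lf (nat_lit 0) (nat_lit 39269407241) (nat_lit 228) (nat_lit 11080288047) (nat_lit 304) (nat_lit 23399424897) (nat_lit 85) (nat_lit 5) (nat_lit 88) (nat_lit 5) (nat_lit 89) (nat_lit 5) (nat_lit 467) (nat_lit 396) (nat_lit 157))) (XT.nd (nat_lit 78) (nat_lit 76) (nat_lit 0) (XT.lf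 (nat_lit 0) (nat_lit 5612594729) (nat_lit 152) (nat_lit 62260124994) (nat_lit 228) (nat_lit 7361882479) (nat_lit 83) (nat_lit 5) (nat_lit 85) (nat_lit 5) (nat_lit 86) (nat_lit 5) (nat_lit 468) (nat_lit 396) (nat_lit 156)) (XT.lf (nat_lit 0) (nat_lit 9438208479) (nat_lit 228) (nat_lit 29342961420) (nat_lit 76) (nat_lit 37967035249) (nat_lit 82) (nat_lit 5) (nat_lit 85) (nat_lit 5) (nat_lit 83) (nat_lit 5) (nat_lit 469) (nat_lit 396) (nat_lit 155)))))) (XT.nd (nat_lit 47502) (nat_lit 0) (nat_lit 13148) (XT.nd (nat_lit 234) (nat_lit 304) (nat_lit 0) (XT.nd (nat_lit 78) (nat_lit 152) (nat_lit 0) (XT.lf (nat_lit 0) (nat_lit 12309777823) (nat_lit 228) (nat_lit 14401696161) (nat_lit 304) (nat_lit 51590041556) (nat_lit 79) (nat_lit 5) (nat_lit 82) (nat_lit 5) (nat_lit 83) (nat_lit 5) (nat_lit 470) (nat_lit 396) (nat_lit 154)) (XT.nd (nat_lit 78) (nat_lit 152) (nat_lit 0) (XT.lf (nat_lit 0) (nat_lit 44903937798) (nat_lit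 304) (nat_lit 24186816151) (nat_lit 76) (nat_lit 10798641488) (nat_lit 79) (nat_lit 5) (nat_lit 83) (nat_lit 5) (nat_lit 80) (nat_lit 5) (nat_lit 471) (nat_lit 396) (nat_lit 153)) (XT.lf (nat_lit 0) (nat_lit 19100434121) (nat_lit 152) (nat_lit 44866789188) (nat_lit 228) (nat_lit 17547937182) (nat_lit 77) (nat_lit 5) (nat_lit 79) (nat_lit 5) (nat_lit 80) (nat_lit 5) (nat_lit 472) (nat_lit 396) (nat_lit 152)))) (XT.nd (nat_lit 156) (nat_lit 0) (nat_lit 0) (XT.nd (nat_lit 78) (nat_lit 228) (nat_lit 0) (XT.lf (nat_lit 0) (nat_lit 650168271) (nat_lit 228) (nat_lit 19008598862) (nat_lit 76) (nat_lit 63523447146) (nat_lit 76) (nat_lit 5) (nat_lit 79) (nat_lit 5) (nat_lit 77) (nat_lit 5) (nat_lit 473) (nat_lit 396) (nat_lit 151)) (XT.lf (nat_lit 0) (nat_lit 19355447879) (nat_lit 304) (nat_lit 58919339977) (nat_lit 76) (nat_lit 6609861932) (nat_lit 73) (nat_lit 5) (nat_lit 77) (nat_lit 5) (nat_lit 74) (nat_lit 5) (nat_lit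 474) (nat_lit 396) (nat_lit 150))) (XT.nd (nat_lit 47034) (nat_lit 0) (nat_lit 13148) (XT.lf (nat_lit 0) (nat_lit 39009272612) (nat_lit 304) (nat_lit 14152748537) (nat_lit 76) (nat_lit 33464515782) (nat_lit 73) (nat_lit 5) (nat_lit 77) (nat_lit 5) (nat_lit 74) (nat_lit 5) (nat_lit 475) (nat_lit 396) (nat_lit 149)) (XT.lf (nat_lit 0) (nat_lit 983451025) (nat_lit 1292) (nat_lit 5017519095) (nat_lit 1292) (nat_lit 5017519095) (nat_lit 246) (nat_lit 3) (nat_lit 263) (nat_lit 3) (nat_lit 263) (nat_lit 5) (nat_lit 397) (nat_lit 397) (nat_lit 226))))) (XT.nd (nat_lit 234) (nat_lit 0) (nat_lit 152) (XT.nd (nat_lit 78) (nat_lit 0) (nat_lit 76) (XT.lf (nat_lit 76) (nat_lit 598491821) (nat_lit 0) (nat_lit 1537460564) (nat_lit 1292) (nat_lit 20227337826) (nat_lit 247) (nat_lit 5) (nat_lit 246) (nat_lit 3) (nat_lit 263) (nat_lit 5) (nat_lit 398) (nat_lit 397) (nat_lit 225)) (XT.nd (nat_lit 78) (nat_lit 0) (nat_lit 0) (XT.lf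 (nat_lit 0) (nat_lit 2496017551) (nat_lit 1216) (nat_lit 11032375628) (nat_lit 1292) (nat_lit 9165422072) (nat_lit 247) (nat_lit 5) (nat_lit 263) (nat_lit 5) (nat_lit 264) (nat_lit 5) (nat_lit 399) (nat_lit 397) (nat_lit 224)) (XT.lf (nat_lit 76) (nat_lit 4033938) (nat_lit 0) (nat_lit 2873040144) (nat_lit 1292) (nat_lit 20156878417) (nat_lit 248) (nat_lit 5) (nat_lit 247) (nat_lit 5) (nat_lit 264) (nat_lit 5) (nat_lit 400) (nat_lit 397) (nat_lit 223)))) (XT.nd (nat_lit 156) (nat_lit 0) (nat_lit 76) (XT.nd (nat_lit 78) (nat_lit 0) (nat_lit 0) (XT.lf (nat_lit 0) (nat_lit 3455021282) (nat_lit 1216) (nat_lit 11865232676) (nat_lit 1292) (nat_lit 8058478215) (nat_lit 248) (nat_lit 5) (nat_lit 264) (nat_lit 5) (nat_lit 265) (nat_lit 5) (nat_lit 401) (nat_lit 397) (nat_lit 222)) (XT.lf (nat_lit 0) (nat_lit 4073965909) (nat_lit 1216) (nat_lit 396950699) (nat_lit 1292) (nat_lit 19262230878) (nat_lit 248) (nat_lit 5) (nat_lit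 264) (nat_lit 5) (nat_lit 265) (nat_lit 5) (nat_lit 402) (nat_lit 397) (nat_lit 221))) (XT.nd (nat_lit 78) (nat_lit 0) (nat_lit 0) (XT.lf (nat_lit 0) (nat_lit 4884286689) (nat_lit 1216) (nat_lit 12520849374) (nat_lit 1292) (nat_lit 6687876918) (nat_lit 249) (nat_lit 5) (nat_lit 265) (nat_lit 5) (nat_lit 266) (nat_lit 5) (nat_lit 403) (nat_lit 397) (nat_lit 220)) (XT.lf (nat_lit 0) (nat_lit 5762709621) (nat_lit 1216) (nat_lit 602313379) (nat_lit 1292) (nat_lit 18097339568) (nat_lit 249) (nat_lit 5) (nat_lit 265) (nat_lit 5) (nat_lit 266) (nat_lit 5) (nat_lit 404) (nat_lit 397) (nat_lit 219))))))) (XT.nd (nat_lit 1092) (nat_lit 4104) (nat_lit 0) (XT.nd (nat_lit 546) (nat_lit 2204) (nat_lit 0) (XT.nd (nat_lit 234) (nat_lit 0) (nat_lit 76) (XT.nd (nat_lit 78) (nat_lit 0) (nat_lit 0) (XT.lf (nat_lit 0) (nat_lit 6826786870) (nat_lit 1216) (nat_lit 12985567589) (nat_lit 1292) (nat_lit 5025660981) (nat_lit 250) (nat_lit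 5) (nat_lit 266) (nat_lit 5) (nat_lit 267) (nat_lit 5) (nat_lit 405) (nat_lit 397) (nat_lit 218)) (XT.nd (nat_lit 78) (nat_lit 0) (nat_lit 76) (XT.lf (nat_lit 0) (nat_lit 7987673244) (nat_lit 1216) (nat_lit 597609238) (nat_lit 1292) (nat_lit 16637710605) (nat_lit 250) (nat_lit 5) (nat_lit 266) (nat_lit 5) (nat_lit 267) (nat_lit 5) (nat_lit 406) (nat_lit 397) (nat_lit 217)) (XT.lf (nat_lit 0) (nat_lit 9328266570) (nat_lit 1216) (nat_lit 13244802601) (nat_lit 1292) (nat_lit 3042106221) (nat_lit 251) (nat_lit 5) (nat_lit 267) (nat_lit 5) (nat_lit 268) (nat_lit 5) (nat_lit 407) (nat_lit 397) (nat_lit 216)))) (XT.nd (nat_lit 156) (nat_lit 0) (nat_lit 76) (XT.nd (nat_lit 78) (nat_lit 0) (nat_lit 76) (XT.lf (nat_lit 0) (nat_lit 10796128807) (nat_lit 1216) (nat_lit 367352389) (nat_lit 1292) (nat_lit 14853032127) (nat_lit 251) (nat_lit 5) (nat_lit 267) (nat_lit 5) (nat_lit 268) (nat_lit 5) (nat_lit 408) (nat_lit 397)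 (nat_lit 215)) (XT.lf (nat_lit 0) (nat_lit 12437423057) (nat_lit 1216) (nat_lit 13283013732) (nat_lit 1292) (nat_lit 705574359) (nat_lit 252) (nat_lit 5) (nat_lit 268) (nat_lit 5) (nat_lit 269) (nat_lit 5) (nat_lit 409) (nat_lit 397) (nat_lit 214))) (XT.nd (nat_lit 78) (nat_lit 0) (nat_lit 0) (XT.lf (nat_lit 76) (nat_lit 107024778) (nat_lit 0) (nat_lit 14132403693) (nat_lit 1292) (nat_lit 12605022859) (nat_lit 253) (nat_lit 5) (nat_lit 252) (nat_lit 5) (nat_lit 269) (nat_lit 5) (nat_lit 410) (nat_lit 397) (nat_lit 213)) (XT.lf (nat_lit 76) (nat_lit 14168079770) (nat_lit 0) (nat_lit 2057797476) (nat_lit 1292) (nat_lit 11045657523) (nat_lit 253) (nat_lit 5) (nat_lit 252) (nat_lit 5) (nat_lit 269) (nat_lit 5) (nat_lit 411) (nat_lit 397) (nat_lit 212))))) (XT.nd (nat_lit 234) (nat_lit 1292) (nat_lit 0) (XT.nd (nat_lit 78) (nat_lit 1140) (nat_lit 0) (XT.lf (nat_lit 76) (nat_lit 853414369) (nat_lit 0) (nat_lit 17522845646)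 (nat_lit 1292) (nat_lit 9332041981) (nat_lit 254) (nat_lit 5) (nat_lit 253) (nat_lit 5) (nat_lit 270) (nat_lit 5) (nat_lit 412) (nat_lit 397) (nat_lit 211)) (XT.nd (nat_lit 78) (nat_lit 1140) (nat_lit 0) (XT.lf (nat_lit 76) (nat_lit 15473842768) (nat_lit 0) (nat_lit 5266249637) (nat_lit 1292) (nat_lit 7413613148) (nat_lit 254) (nat_lit 5) (nat_lit 253) (nat_lit 5) (nat_lit 270) (nat_lit 5) (nat_lit 413) (nat_lit 397) (nat_lit 210)) (XT.lf (nat_lit 0) (nat_lit 1883436364) (nat_lit 1216) (nat_lit 21376791593) (nat_lit 1292) (nat_lit 5349683029) (nat_lit 238) (nat_lit 5) (nat_lit 254) (nat_lit 5) (nat_lit 255) (nat_lit 5) (nat_lit 414) (nat_lit 397) (nat_lit 209)))) (XT.nd (nat_lit 156) (nat_lit 684) (nat_lit 0) (XT.nd (nat_lit 78) (nat_lit 608) (nat_lit 0) (XT.lf (nat_lit 0) (nat_lit 17087410810) (nat_lit 1216) (nat_lit 8944853681) (nat_lit 1292) (nat_lit 3042250558) (nat_lit 238) (nat_lit 5) (nat_lit 254) (nat_lit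 5) (nat_lit 255) (nat_lit 5) (nat_lit 415) (nat_lit 397) (nat_lit 208)) (XT.lf (nat_lit 0) (nat_lit 3217133474) (nat_lit 608) (nat_lit 25735086129) (nat_lit 684) (nat_lit 598896240) (nat_lit 230) (nat_lit 5) (nat_lit 238) (nat_lit 5) (nat_lit 239) (nat_lit 5) (nat_lit 416) (nat_lit 397) (nat_lit 207))) (XT.nd (nat_lit 78) (nat_lit 608) (nat_lit 0) (XT.lf (nat_lit 0) (nat_lit 2087905182) (nat_lit 684) (nat_lit 11026380114) (nat_lit 76) (nat_lit 16920950516) (nat_lit 229) (nat_lit 5) (nat_lit 238) (nat_lit 5) (nat_lit 230) (nat_lit 5) (nat_lit 417) (nat_lit 397) (nat_lit 206)) (XT.lf (nat_lit 0) (nat_lit 4825753434) (nat_lit 608) (nat_lit 60763642) (nat_lit 684) (nat_lit 25645888326) (nat_lit 221) (nat_lit 5) (nat_lit 229) (nat_lit 5) (nat_lit 230) (nat_lit 5) (nat_lit 418) (nat_lit 397) (nat_lit 205)))))) (XT.nd (nat_lit 546) (nat_lit 2432) (nat_lit 0) (XT.nd (nat_lit 234) (nat_lit 1064) (nat_lit 0) (XT.nd (nat_lit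 78) (nat_lit 608) (nat_lit 0) (XT.lf (nat_lit 0) (nat_lit 8007114145) (nat_lit 684) (nat_lit 9794431334) (nat_lit 76) (nat_lit 13235804981) (nat_lit 221) (nat_lit 5) (nat_lit 230) (nat_lit 5) (nat_lit 222) (nat_lit 5) (nat_lit 419) (nat_lit 397) (nat_lit 204)) (XT.nd (nat_lit 78) (nat_lit 0) (nat_lit 0) (XT.lf (nat_lit 0) (nat_lit 6722826832) (nat_lit 608) (nat_lit 4560738405) (nat_lit 684) (nat_lit 20272012701) (nat_lit 213) (nat_lit 5) (nat_lit 221) (nat_lit 5) (nat_lit 222) (nat_lit 5) (nat_lit 420) (nat_lit 397) (nat_lit 203)) (XT.lf (nat_lit 0) (nat_lit 14842520488) (nat_lit 684) (nat_lit 8241216778) (nat_lit 76) (nat_lit 9000089771) (nat_lit 213) (nat_lit 5) (nat_lit 222) (nat_lit 5) (nat_lit 214) (nat_lit 5) (nat_lit 421) (nat_lit 397) (nat_lit 202)))) (XT.nd (nat_lit 156) (nat_lit 532) (nat_lit 0) (XT.nd (nat_lit 78) (nat_lit 0) (nat_lit 0) (XT.lf (nat_lit 0) (nat_lit 8975157130) (nat_lit 532) (nat_lit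 9661673453) (nat_lit 608) (nat_lit 13987236526) (nat_lit 206) (nat_lit 5) (nat_lit 213) (nat_lit 5) (nat_lit 214) (nat_lit 5) (nat_lit 422) (nat_lit 397) (nat_lit 201)) (XT.lf (nat_lit 0) (nat_lit 22666242210) (nat_lit 608) (nat_lit 6344844415) (nat_lit 76) (nat_lit 4165790644) (nat_lit 206) (nat_lit 5) (nat_lit 214) (nat_lit 5) (nat_lit 207) (nat_lit 5) (nat_lit 423) (nat_lit 397) (nat_lit 200))) (XT.nd (nat_lit 78) (nat_lit 0) (nat_lit 0) (XT.lf (nat_lit 0) (nat_lit 11606305566) (nat_lit 532) (nat_lit 15414749245) (nat_lit 608) (nat_lit 6719082386) (nat_lit 199) (nat_lit 5) (nat_lit 206) (nat_lit 5) (nat_lit 207) (nat_lit 5) (nat_lit 424) (nat_lit 397) (nat_lit 199)) (XT.lf (nat_lit 0) (nat_lit 30223222918) (nat_lit 532) (nat_lit 1344702624) (nat_lit 608) (nat_lit 2750527962) (nat_lit 199) (nat_lit 5) (nat_lit 206) (nat_lit 5) (nat_lit 207) (nat_lit 5) (nat_lit 425) (nat_lit 397) (nat_lit 198))))) (XT.nd (nat_lit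 312) (nat_lit 912) (nat_lit 0) (XT.nd (nat_lit 156) (nat_lit 988) (nat_lit 0) (XT.nd (nat_lit 78) (nat_lit 0) (nat_lit 0) (XT.lf (nat_lit 0) (nat_lit 1578148809) (nat_lit 532) (nat_lit 20280634390) (nat_lit 76) (nat_lit 13046936739) (nat_lit 192) (nat_lit 5) (nat_lit 199) (nat_lit 5) (nat_lit 193) (nat_lit 5) (nat_lit 426) (nat_lit 397) (nat_lit 197)) (XT.lf (nat_lit 0) (nat_lit 6033921447) (nat_lit 532) (nat_lit 1562209303) (nat_lit 76) (nat_lit 27912081982) (nat_lit 192) (nat_lit 5) (nat_lit 199) (nat_lit 5) (nat_lit 193) (nat_lit 5) (nat_lit 427) (nat_lit 397) (nat_lit 196))) (XT.nd (nat_lit 78) (nat_lit 456) (nat_lit 0) (XT.lf (nat_lit 0) (nat_lit 10864472196) (nat_lit 608) (nat_lit 18125991863) (nat_lit 76) (nat_lit 7131083984) (nat_lit 185) (nat_lit 5) (nat_lit 193) (nat_lit 5) (nat_lit 186) (nat_lit 5) (nat_lit 428) (nat_lit 397) (nat_lit 195)) (XT.lf (nat_lit 0) (nat_lit 1367783529) (nat_lit 456) (nat_lit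 14574003555) (nat_lit 532) (nat_lit 20808441759) (nat_lit 179) (nat_lit 5) (nat_lit 185) (nat_lit 5) (nat_lit 186) (nat_lit 5) (nat_lit 429) (nat_lit 397) (nat_lit 194)))) (XT.nd (nat_lit 156) (nat_lit 456) (nat_lit 0) (XT.nd (nat_lit 78) (nat_lit 456) (nat_lit 0) (XT.lf (nat_lit 0) (nat_lit 21356513273) (nat_lit 532) (nat_lit 15581648110) (nat_lit 76) (nat_lit 454056758) (nat_lit 179) (nat_lit 5) (nat_lit 186) (nat_lit 5) (nat_lit 180) (nat_lit 5) (nat_lit 430) (nat_lit 397) (nat_lit 193)) (XT.lf (nat_lit 0) (nat_lit 4758972525) (nat_lit 456) (nat_lit 22362421491) (nat_lit 532) (nat_lit 10926442526) (nat_lit 173) (nat_lit 5) (nat_lit 179) (nat_lit 5) (nat_lit 180) (nat_lit 5) (nat_lit 431) (nat_lit 397) (nat_lit 192))) (XT.nd (nat_lit 78) (nat_lit 456) (nat_lit 0) (XT.lf (nat_lit 0) (nat_lit 26026479313) (nat_lit 456) (nat_lit 7187797041) (nat_lit 532) (nat_lit 5504196269) (nat_lit 173) (nat_lit 5) (nat_lit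 179) (nat_lit 5) (nat_lit 180) (nat_lit 5) (nat_lit 432) (nat_lit 397) (nat_lit 191)) (XT.lf (nat_lit 0) (nat_lit 242400349) (nat_lit 456) (nat_lit 30799895582) (nat_lit 76) (nat_lit 8362011575) (nat_lit 167) (nat_lit 5) (nat_lit 173) (nat_lit 5) (nat_lit 168) (nat_lit 5) (nat_lit 433) (nat_lit 397) (nat_lit 190))))))))
noncomputable def xc218 : XT := (XT.nd (nat_lit 2184) (nat_lit 1672) (nat_lit 0) (XT.nd (nat_lit 1092) (nat_lit 2432) (nat_lit 0) (XT.nd (nat_lit 546) (nat_lit 1140) (nat_lit 0) (XT.nd (nat_lit 234) (nat_lit 1216) (nat_lit 0) (XT.nd (nat_lit 78) (nat_lit 456) (nat_lit 0) (XT.lf (nat_lit 0) (nat_lit 6249155540) (nat_lit 456) (nat_lit 9436664365) (nat_lit 76) (nat_lit 24417311651) (nat_lit 167) (nat_lit 5) (nat_lit 173) (nat_lit 5) (nat_lit 168) (nat_lit 5) (nat_lit 434) (nat_lit 397) (nat_lit 189)) (XT.nd (nat_lit 78) (nat_lit 0) (nat_lit 0) (XT.lf (nat_lit 0) (nat_lit 12559629440) (nat_lit 532)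 (nat_lit 28006901659) (nat_lit 76) (nat_lit 252684444) (nat_lit 161) (nat_lit 5) (nat_lit 168) (nat_lit 5) (nat_lit 162) (nat_lit 5) (nat_lit 435) (nat_lit 397) (nat_lit 188)) (XT.lf (nat_lit 0) (nat_lit 19308844499) (nat_lit 532) (nat_lit 5790663293) (nat_lit 76) (nat_lit 16449792125) (nat_lit 161) (nat_lit 5) (nat_lit 168) (nat_lit 5) (nat_lit 162) (nat_lit 5) (nat_lit 436) (nat_lit 397) (nat_lit 187)))) (XT.nd (nat_lit 156) (nat_lit 836) (nat_lit 0) (XT.nd (nat_lit 78) (nat_lit 0) (nat_lit 0) (XT.lf (nat_lit 0) (nat_lit 17429558980) (nat_lit 380) (nat_lit 8996468673) (nat_lit 456) (nat_lit 15870295075) (nat_lit 156) (nat_lit 5) (nat_lit 161) (nat_lit 5) (nat_lit 162) (nat_lit 5) (nat_lit 437) (nat_lit 397) (nat_lit 186)) (XT.lf (nat_lit 0) (nat_lit 33886713476) (nat_lit 456) (nat_lit 1675093270) (nat_lit 76) (nat_lit 7500050500) (nat_lit 156) (nat_lit 5) (nat_lit 162) (nat_lit 5) (nat_lit 157) (nat_lit 5)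 (nat_lit 438) (nat_lit 397) (nat_lit 185))) (XT.nd (nat_lit 78) (nat_lit 456) (nat_lit 0) (XT.lf (nat_lit 0) (nat_lit 22560928748) (nat_lit 380) (nat_lit 19314270833) (nat_lit 456) (nat_lit 1966039446) (nat_lit 151) (nat_lit 5) (nat_lit 156) (nat_lit 5) (nat_lit 157) (nat_lit 5) (nat_lit 439) (nat_lit 397) (nat_lit 184)) (XT.lf (nat_lit 0) (nat_lit 2916557132) (nat_lit 380) (nat_lit 2479417235) (nat_lit 456) (nat_lit 39245159090) (nat_lit 145) (nat_lit 5) (nat_lit 150) (nat_lit 5) (nat_lit 151) (nat_lit 5) (nat_lit 440) (nat_lit 397) (nat_lit 183))))) (XT.nd (nat_lit 234) (nat_lit 760) (nat_lit 0) (XT.nd (nat_lit 78) (nat_lit 380) (nat_lit 0) (XT.lf (nat_lit 0) (nat_lit 13297273631) (nat_lit 456) (nat_lit 17350073828) (nat_lit 76) (nat_lit 14806355641) (nat_lit 145) (nat_lit 5) (nat_lit 151) (nat_lit 5) (nat_lit 146) (nat_lit 5) (nat_lit 441) (nat_lit 397) (nat_lit 182)) (XT.nd (nat_lit 78) (nat_lit 0) (nat_lit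 0) (XT.lf (nat_lit 0) (nat_lit 7882394545) (nat_lit 380) (nat_lit 13651667878) (nat_lit 456) (nat_lit 24753634443) (nat_lit 140) (nat_lit 5) (nat_lit 145) (nat_lit 5) (nat_lit 146) (nat_lit 5) (nat_lit 442) (nat_lit 397) (nat_lit 181)) (XT.lf (nat_lit 0) (nat_lit 30230092462) (nat_lit 456) (nat_lit 12955297264) (nat_lit 76) (nat_lit 3954957125) (nat_lit 140) (nat_lit 5) (nat_lit 146) (nat_lit 5) (nat_lit 141) (nat_lit 5) (nat_lit 443) (nat_lit 397) (nat_lit 180)))) (XT.nd (nat_lit 156) (nat_lit 380) (nat_lit 0) (XT.nd (nat_lit 78) (nat_lit 76) (nat_lit 0) (XT.lf (nat_lit 0) (nat_lit 13381683486) (nat_lit 304) (nat_lit 26067326913) (nat_lit 380) (nat_lit 8561706244) (nat_lit 136) (nat_lit 5) (nat_lit 140) (nat_lit 5) (nat_lit 141) (nat_lit 5) (nat_lit 444) (nat_lit 397) (nat_lit 179)) (XT.lf (nat_lit 0) (nat_lit 166908516) (nat_lit 380) (nat_lit 8133077936) (nat_lit 76) (nat_lit 40603290670) (nat_lit 135) (nat_lit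 5) (nat_lit 140) (nat_lit 5) (nat_lit 136) (nat_lit 5) (nat_lit 445) (nat_lit 397) (nat_lit 178))) (XT.nd (nat_lit 78) (nat_lit 0) (nat_lit 0) (XT.lf (nat_lit 0) (nat_lit 9269351171) (nat_lit 456) (nat_lit 30463223131) (nat_lit 76) (nat_lit 10078975967) (nat_lit 130) (nat_lit 5) (nat_lit 136) (nat_lit 5) (nat_lit 131) (nat_lit 5) (nat_lit 446) (nat_lit 397) (nat_lit 177)) (XT.lf (nat_lit 0) (nat_lit 18808278522) (nat_lit 456) (nat_lit 3009148686) (nat_lit 76) (nat_lit 28924742520) (nat_lit 130) (nat_lit 5) (nat_lit 136) (nat_lit 5) (nat_lit 131) (nat_lit 5) (nat_lit 447) (nat_lit 397) (nat_lit 176)))))) (XT.nd (nat_lit 546) (nat_lit 1140) (nat_lit 0) (XT.nd (nat_lit 234) (nat_lit 684) (nat_lit 0) (XT.nd (nat_lit 78) (nat_lit 304) (nat_lit 0) (XT.lf (nat_lit 0) (nat_lit 25769021430) (nat_lit 304) (nat_lit 3110401651) (nat_lit 380) (nat_lit 22813903656) (nat_lit 126) (nat_lit 5) (nat_lit 130) (nat_lit 5) (nat_lit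 131) (nat_lit 5) (nat_lit 448) (nat_lit 397) (nat_lit 175)) (XT.nd (nat_lit 78) (nat_lit 0) (nat_lit 0) (XT.lf (nat_lit 0) (nat_lit 2694685319) (nat_lit 304) (nat_lit 36768286576) (nat_lit 380) (nat_lit 13203738897) (nat_lit 122) (nat_lit 5) (nat_lit 126) (nat_lit 5) (nat_lit 127) (nat_lit 5) (nat_lit 449) (nat_lit 397) (nat_lit 174)) (XT.lf (nat_lit 0) (nat_lit 32669890768) (nat_lit 304) (nat_lit 17984800776) (nat_lit 380) (nat_lit 3005885316) (nat_lit 122) (nat_lit 5) (nat_lit 126) (nat_lit 5) (nat_lit 127) (nat_lit 5) (nat_lit 450) (nat_lit 397) (nat_lit 173)))) (XT.nd (nat_lit 156) (nat_lit 304) (nat_lit 0) (XT.nd (nat_lit 78) (nat_lit 0) (nat_lit 0) (XT.lf (nat_lit 0) (nat_lit 7450797065) (nat_lit 380) (nat_lit 45733674235) (nat_lit 76) (nat_lit 1494649643) (nat_lit 117) (nat_lit 5) (nat_lit 122) (nat_lit 5) (nat_lit 118) (nat_lit 5) (nat_lit 451) (nat_lit 397) (nat_lit 172)) (XT.lf (nat_lit 0) (nat_lit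 18551328771) (nat_lit 380) (nat_lit 15724186462) (nat_lit 76) (nat_lit 21440096739) (nat_lit 117) (nat_lit 5) (nat_lit 122) (nat_lit 5) (nat_lit 118) (nat_lit 5) (nat_lit 452) (nat_lit 397) (nat_lit 171))) (XT.nd (nat_lit 78) (nat_lit 0) (nat_lit 0) (XT.lf (nat_lit 0) (nat_lit 15485483106) (nat_lit 304) (nat_lit 14646728293) (nat_lit 380) (nat_lit 26646566659) (nat_lit 113) (nat_lit 5) (nat_lit 117) (nat_lit 5) (nat_lit 118) (nat_lit 5) (nat_lit 453) (nat_lit 397) (nat_lit 170)) (XT.lf (nat_lit 0) (nat_lit 42272921508) (nat_lit 380) (nat_lit 9972721724) (nat_lit 76) (nat_lit 5621824227) (nat_lit 113) (nat_lit 5) (nat_lit 118) (nat_lit 5) (nat_lit 114) (nat_lit 5) (nat_lit 454) (nat_lit 397) (nat_lit 169))))) (XT.nd (nat_lit 234) (nat_lit 532) (nat_lit 0) (XT.nd (nat_lit 78) (nat_lit 380) (nat_lit 0) (XT.lf (nat_lit 0) (nat_lit 22580856259) (nat_lit 228) (nat_lit 32557612958) (nat_lit 304) (nat_lit 3839530189)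 (nat_lit 110) (nat_lit 5) (nat_lit 113) (nat_lit 5) (nat_lit 114) (nat_lit 5) (nat_lit 455) (nat_lit 397) (nat_lit 168)) (XT.nd (nat_lit 78) (nat_lit 304) (nat_lit 0) (XT.lf (nat_lit 0) (nat_lit 8207041885) (nat_lit 304) (nat_lit 3886065629) (nat_lit 76) (nat_lit 48023348370) (nat_lit 109) (nat_lit 5) (nat_lit 113) (nat_lit 5) (nat_lit 110) (nat_lit 5) (nat_lit 456) (nat_lit 397) (nat_lit 167)) (XT.lf (nat_lit 0) (nat_lit 20915844129) (nat_lit 380) (nat_lit 31220422415) (nat_lit 76) (nat_lit 9140319268) (nat_lit 105) (nat_lit 5) (nat_lit 110) (nat_lit 5) (nat_lit 106) (nat_lit 5) (nat_lit 457) (nat_lit 397) (nat_lit 166)))) (XT.nd (nat_lit 156) (nat_lit 304) (nat_lit 0) (XT.nd (nat_lit 78) (nat_lit 0) (nat_lit 0) (XT.lf (nat_lit 0) (nat_lit 2553498154) (nat_lit 228) (nat_lit 31634922497) (nat_lit 304) (nat_lit 28277623993) (nat_lit 102) (nat_lit 5) (nat_lit 105) (nat_lit 5) (nat_lit 106) (nat_lit 5) (nat_lit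 458) (nat_lit 397) (nat_lit 165)) (XT.lf (nat_lit 0) (nat_lit 37978460847) (nat_lit 228) (nat_lit 10194599149) (nat_lit 304) (nat_lit 15508710983) (nat_lit 102) (nat_lit 5) (nat_lit 105) (nat_lit 5) (nat_lit 106) (nat_lit 5) (nat_lit 459) (nat_lit 397) (nat_lit 164))) (XT.nd (nat_lit 78) (nat_lit 76) (nat_lit 0) (XT.lf (nat_lit 0) (nat_lit 9603178523) (nat_lit 228) (nat_lit 53179308672) (nat_lit 304) (nat_lit 2145324746) (nat_lit 99) (nat_lit 5) (nat_lit 102) (nat_lit 5) (nat_lit 103) (nat_lit 5) (nat_lit 460) (nat_lit 397) (nat_lit 163)) (XT.lf (nat_lit 0) (nat_lit 11753953577) (nat_lit 304) (nat_lit 19925027819) (nat_lit 76) (nat_lit 34518050806) (nat_lit 98) (nat_lit 5) (nat_lit 102) (nat_lit 5) (nat_lit 99) (nat_lit 5) (nat_lit 461) (nat_lit 397) (nat_lit 162))))))) (XT.nd (nat_lit 48204) (nat_lit 0) (nat_lit 12920) (XT.nd (nat_lit 546) (nat_lit 684) (nat_lit 0) (XT.nd (nat_lit 234) (nat_lit 532) (nat_lit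 0) (XT.nd (nat_lit 78) (nat_lit 228) (nat_lit 0) (XT.lf (nat_lit 0) (nat_lit 16841893699) (nat_lit 228) (nat_lit 9345790124) (nat_lit 304) (nat_lit 41311190519) (nat_lit 95) (nat_lit 5) (nat_lit 98) (nat_lit 5) (nat_lit 99) (nat_lit 5) (nat_lit 462) (nat_lit 397) (nat_lit 161)) (XT.nd (nat_lit 78) (nat_lit 228) (nat_lit 0) (XT.lf (nat_lit 0) (nat_lit 41387613671) (nat_lit 304) (nat_lit 13848833005) (nat_lit 76) (nat_lit 13593329703) (nat_lit 95) (nat_lit 5) (nat_lit 99) (nat_lit 5) (nat_lit 96) (nat_lit 5) (nat_lit 463) (nat_lit 397) (nat_lit 160)) (XT.lf (nat_lit 0) (nat_lit 24446028990) (nat_lit 228) (nat_lit 32923781408) (nat_lit 304) (nat_lit 12821007263) (nat_lit 92) (nat_lit 5) (nat_lit 95) (nat_lit 5) (nat_lit 96) (nat_lit 5) (nat_lit 464) (nat_lit 397) (nat_lit 159)))) (XT.nd (nat_lit 156) (nat_lit 228) (nat_lit 0) (XT.nd (nat_lit 78) (nat_lit 228) (nat_lit 0) (XT.lf (nat_lit 0) (nat_lit 2335077757)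 (nat_lit 304) (nat_lit 7439808414) (nat_lit 76) (nat_lit 61812959186) (nat_lit 91) (nat_lit 5) (nat_lit 95) (nat_lit 5) (nat_lit 92) (nat_lit 5) (nat_lit 465) (nat_lit 397) (nat_lit 158)) (XT.lf (nat_lit 0) (nat_lit 18139124535) (nat_lit 304) (nat_lit 40633224486) (nat_lit 76) (nat_lit 14237097813) (nat_lit 88) (nat_lit 5) (nat_lit 92) (nat_lit 5) (nat_lit 89) (nat_lit 5) (nat_lit 466) (nat_lit 397) (nat_lit 157))) (XT.nd (nat_lit 78) (nat_lit 228) (nat_lit 0) (XT.lf (nat_lit 0) (nat_lit 34588741665) (nat_lit 304) (nat_lit 1031707666) (nat_lit 76) (nat_lit 38848103782) (nat_lit 88) (nat_lit 5) (nat_lit 92) (nat_lit 5) (nat_lit 89) (nat_lit 5) (nat_lit 467) (nat_lit 397) (nat_lit 156)) (XT.lf (nat_lit 0) (nat_lit 40547150304) (nat_lit 228) (nat_lit 11373292653) (nat_lit 304) (nat_lit 24039331973) (nat_lit 85) (nat_lit 5) (nat_lit 88) (nat_lit 5) (nat_lit 89) (nat_lit 5) (nat_lit 468) (nat_lit 397) (nat_lit 155)))))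 (XT.nd (nat_lit 234) (nat_lit 228) (nat_lit 0) (XT.nd (nat_lit 78) (nat_lit 304) (nat_lit 0) (XT.lf (nat_lit 0) (nat_lit 5881082316) (nat_lit 152) (nat_lit 64087650816) (nat_lit 228) (nat_lit 7521101350) (nat_lit 83) (nat_lit 5) (nat_lit 85) (nat_lit 5) (nat_lit 86) (nat_lit 5) (nat_lit 469) (nat_lit 397) (nat_lit 154)) (XT.nd (nat_lit 78) (nat_lit 228) (nat_lit 0) (XT.lf (nat_lit 0) (nat_lit 9780029327) (nat_lit 228) (nat_lit 30124878387) (nat_lit 76) (nat_lit 39143973141) (nat_lit 82) (nat_lit 5) (nat_lit 85) (nat_lit 5) (nat_lit 83) (nat_lit 5) (nat_lit 470) (nat_lit 397) (nat_lit 153)) (XT.lf (nat_lit 0) (nat_lit 12776478604) (nat_lit 228) (nat_lit 14794241565) (nat_lit 304) (nat_lit 53078093867) (nat_lit 79) (nat_lit 5) (nat_lit 82) (nat_lit 5) (nat_lit 83) (nat_lit 5) (nat_lit 471) (nat_lit 397) (nat_lit 152)))) (XT.nd (nat_lit 156) (nat_lit 76) (nat_lit 0) (XT.nd (nat_lit 78) (nat_lit 152) (nat_lit 0)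 (XT.lf (nat_lit 0) (nat_lit 46307640122) (nat_lit 304) (nat_lit 24816522901) (nat_lit 76) (nat_lit 11160207127) (nat_lit 79) (nat_lit 5) (nat_lit 83) (nat_lit 5) (nat_lit 80) (nat_lit 5) (nat_lit 472) (nat_lit 397) (nat_lit 151)) (XT.lf (nat_lit 0) (nat_lit 19768404705) (nat_lit 152) (nat_lit 46173684200) (nat_lit 228) (nat_lit 18016841590) (nat_lit 77) (nat_lit 5) (nat_lit 79) (nat_lit 5) (nat_lit 80) (nat_lit 5) (nat_lit 473) (nat_lit 397) (nat_lit 150))) (XT.nd (nat_lit 47190) (nat_lit 0) (nat_lit 12920) (XT.lf (nat_lit 0) (nat_lit 724441297) (nat_lit 228) (nat_lit 19485566224) (nat_lit 76) (nat_lit 65466021340) (nat_lit 76) (nat_lit 5) (nat_lit 79) (nat_lit 5) (nat_lit 77) (nat_lit 5) (nat_lit 474) (nat_lit 397) (nat_lit 149)) (XT.lf (nat_lit 0) (nat_lit 1145462184) (nat_lit 1292) (nat_lit 5099775265) (nat_lit 1292) (nat_lit 5099775265) (nat_lit 246) (nat_lit 3) (nat_lit 263) (nat_lit 3) (nat_lit 263) (nat_lit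 5) (nat_lit 398) (nat_lit 398) (nat_lit 224)))))) (XT.nd (nat_lit 546) (nat_lit 0) (nat_lit 304) (XT.nd (nat_lit 234) (nat_lit 0) (nat_lit 152) (XT.nd (nat_lit 78) (nat_lit 0) (nat_lit 76) (XT.lf (nat_lit 76) (nat_lit 751646767) (nat_lit 0) (nat_lit 1706980184) (nat_lit 1292) (nat_lit 20567695449) (nat_lit 247) (nat_lit 5) (nat_lit 246) (nat_lit 3) (nat_lit 263) (nat_lit 5) (nat_lit 399) (nat_lit 398) (nat_lit 223)) (XT.nd (nat_lit 78) (nat_lit 0) (nat_lit 0) (XT.lf (nat_lit 0) (nat_lit 2820810540) (nat_lit 1216) (nat_lit 11223295571) (nat_lit 1292) (nat_lit 9322920749) (nat_lit 247) (nat_lit 5) (nat_lit 263) (nat_lit 5) (nat_lit 264) (nat_lit 5) (nat_lit 400) (nat_lit 398) (nat_lit 222)) (XT.lf (nat_lit 76) (nat_lit 142833230) (nat_lit 0) (nat_lit 3064519594) (nat_lit 1292) (nat_lit 20510196851) (nat_lit 248) (nat_lit 5) (nat_lit 247) (nat_lit 5) (nat_lit 264) (nat_lit 5) (nat_lit 401) (nat_lit 398) (nat_lit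 221)))) (XT.nd (nat_lit 156) (nat_lit 0) (nat_lit 76) (XT.nd (nat_lit 78) (nat_lit 0) (nat_lit 0) (XT.lf (nat_lit 0) (nat_lit 3794550003) (nat_lit 1216) (nat_lit 12078362698) (nat_lit 1292) (nat_lit 8200005675) (nat_lit 248) (nat_lit 5) (nat_lit 264) (nat_lit 5) (nat_lit 265) (nat_lit 5) (nat_lit 402) (nat_lit 398) (nat_lit 220)) (XT.lf (nat_lit 0) (nat_lit 4425192734) (nat_lit 1216) (nat_lit 270192270) (nat_lit 1292) (nat_lit 19742790147) (nat_lit 248) (nat_lit 5) (nat_lit 264) (nat_lit 5) (nat_lit 265) (nat_lit 5) (nat_lit 403) (nat_lit 398) (nat_lit 219))) (XT.nd (nat_lit 78) (nat_lit 0) (nat_lit 0) (XT.lf (nat_lit 0) (nat_lit 5253642838) (nat_lit 1216) (nat_lit 12751533895) (nat_lit 1292) (nat_lit 6803848099) (nat_lit 249) (nat_lit 5) (nat_lit 265) (nat_lit 5) (nat_lit 266) (nat_lit 5) (nat_lit 404) (nat_lit 398) (nat_lit 218)) (XT.lf (nat_lit 0) (nat_lit 6151928336) (nat_lit 1216) (nat_lit 479663401) (nat_lit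 1292) (nat_lit 18558060602) (nat_lit 249) (nat_lit 5) (nat_lit 265) (nat_lit 5) (nat_lit 266) (nat_lit 5) (nat_lit 405) (nat_lit 398) (nat_lit 217))))) (XT.nd (nat_lit 312) (nat_lit 0) (nat_lit 152) (XT.nd (nat_lit 156) (nat_lit 0) (nat_lit 76) (XT.nd (nat_lit 78) (nat_lit 0) (nat_lit 0) (XT.lf (nat_lit 0) (nat_lit 7242273777) (nat_lit 1216) (nat_lit 13228672779) (nat_lit 1292) (nat_lit 5105800515) (nat_lit 250) (nat_lit 5) (nat_lit 266) (nat_lit 5) (nat_lit 267) (nat_lit 5) (nat_lit 406) (nat_lit 398) (nat_lit 216)) (XT.lf (nat_lit 0) (nat_lit 8431850335) (nat_lit 1216) (nat_lit 473341556) (nat_lit 1292) (nat_lit 17068268821) (nat_lit 250) (nat_lit 5) (nat_lit 266) (nat_lit 5) (nat_lit 267) (nat_lit 5) (nat_lit 407) (nat_lit 398) (nat_lit 215))) (XT.nd (nat_lit 78) (nat_lit 0) (nat_lit 0) (XT.lf (nat_lit 0) (nat_lit 9807488761) (nat_lit 1216) (nat_lit 13494694756) (nat_lit 1292) (nat_lit 3075382647) (nat_lit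 251) (nat_lit 5) (nat_lit 267) (nat_lit 5) (nat_lit 268) (nat_lit 5) (nat_lit 408) (nat_lit 398) (nat_lit 214)) (XT.lf (nat_lit 0) (nat_lit 11313579849) (nat_lit 1216) (nat_lit 235215755) (nat_lit 1292) (nat_lit 15242325265) (nat_lit 251) (nat_lit 5) (nat_lit 267) (nat_lit 5) (nat_lit 268) (nat_lit 5) (nat_lit 409) (nat_lit 398) (nat_lit 213)))) (XT.nd (nat_lit 156) (nat_lit 0) (nat_lit 0) (XT.nd (nat_lit 78) (nat_lit 0) (nat_lit 0) (XT.lf (nat_lit 0) (nat_lit 12999380705) (nat_lit 1216) (nat_lit 13533536232) (nat_lit 1292) (nat_lit 680131013) (nat_lit 252) (nat_lit 5) (nat_lit 268) (nat_lit 5) (nat_lit 269) (nat_lit 5) (nat_lit 410) (nat_lit 398) (nat_lit 212)) (XT.lf (nat_lit 76) (nat_lit 256752768) (nat_lit 0) (nat_lit 14594601881) (nat_lit 1292) (nat_lit 12792811725) (nat_lit 253) (nat_lit 5) (nat_lit 252) (nat_lit 5) (nat_lit 269) (nat_lit 5) (nat_lit 411) (nat_lit 398) (nat_lit 211))) (XT.nd (nat_lit 78)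 (nat_lit 0) (nat_lit 76) (XT.lf (nat_lit 76) (nat_lit 14735371916) (nat_lit 0) (nat_lit 2156644096) (nat_lit 1292) (nat_lit 11192209948) (nat_lit 253) (nat_lit 5) (nat_lit 252) (nat_lit 5) (nat_lit 269) (nat_lit 5) (nat_lit 412) (nat_lit 398) (nat_lit 210)) (XT.lf (nat_lit 76) (nat_lit 1025626572) (nat_lit 0) (nat_lit 18077122487) (nat_lit 1292) (nat_lit 9431474136) (nat_lit 254) (nat_lit 5) (nat_lit 253) (nat_lit 5) (nat_lit 270) (nat_lit 5) (nat_lit 413) (nat_lit 398) (nat_lit 209))))))))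
noncomputable def xc219 : XT := (XT.nd (nat_lit 2184) (nat_lit 4712) (nat_lit 0) (XT.nd (nat_lit 1092) (nat_lit 3572) (nat_lit 0) (XT.nd (nat_lit 546) (nat_lit 2204) (nat_lit 0) (XT.nd (nat_lit 234) (nat_lit 1292) (nat_lit 0) (XT.nd (nat_lit 78) (nat_lit 1140) (nat_lit 0) (XT.lf (nat_lit 76) (nat_lit 16080397637) (nat_lit 0) (nat_lit 5451995836) (nat_lit 1292) (nat_lit 7460750567) (nat_lit 254) (nat_lit 5) (nat_lit 253) (nat_lit 5) (nat_lit 270) (nat_lit 5) (nat_lit 414) (nat_lit 398) (nat_lit 208)) (XT.nd (nat_lit 78) (nat_lit 0) (nat_lit 0) (XT.lf (nat_lit 0) (nat_lit 2086269740) (nat_lit 1216) (nat_lit 22038056586) (nat_lit 1292) (nat_lit 5338825544) (nat_lit 238) (nat_lit 5) (nat_lit 254) (nat_lit 5) (nat_lit 255) (nat_lit 5) (nat_lit 415) (nat_lit 398) (nat_lit 207)) (XT.lf (nat_lit 0) (nat_lit 17742101372) (nat_lit 1216) (nat_lit 9232579142) (nat_lit 1292) (nat_lit 2967160816) (nat_lit 238) (nat_lit 5)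 (nat_lit 254) (nat_lit 5) (nat_lit 255) (nat_lit 5) (nat_lit 416) (nat_lit 398) (nat_lit 206)))) (XT.nd (nat_lit 156) (nat_lit 608) (nat_lit 0) (XT.nd (nat_lit 78) (nat_lit 76) (nat_lit 0) (XT.lf (nat_lit 0) (nat_lit 3459368396) (nat_lit 608) (nat_lit 26519383405) (nat_lit 684) (nat_lit 454094736) (nat_lit 230) (nat_lit 5) (nat_lit 238) (nat_lit 5) (nat_lit 239) (nat_lit 5) (nat_lit 417) (nat_lit 398) (nat_lit 205)) (XT.lf (nat_lit 0) (nat_lit 2305486216) (nat_lit 684) (nat_lit 11212551060) (nat_lit 76) (nat_lit 17413547144) (nat_lit 229) (nat_lit 5) (nat_lit 238) (nat_lit 5) (nat_lit 230) (nat_lit 5) (nat_lit 418) (nat_lit 398) (nat_lit 204))) (XT.nd (nat_lit 78) (nat_lit 0) (nat_lit 0) (XT.lf (nat_lit 0) (nat_lit 5113728646) (nat_lit 608) (nat_lit 71191442) (nat_lit 684) (nat_lit 26258844852) (nat_lit 221) (nat_lit 5) (nat_lit 229) (nat_lit 5) (nat_lit 230) (nat_lit 5) (nat_lit 419) (nat_lit 398) (nat_lit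 203)) (XT.lf (nat_lit 0) (nat_lit 8394633186) (nat_lit 684) (nat_lit 9944674032) (nat_lit 76) (nat_lit 13624687889) (nat_lit 221) (nat_lit 5) (nat_lit 230) (nat_lit 5) (nat_lit 222) (nat_lit 5) (nat_lit 420) (nat_lit 398) (nat_lit 202))))) (XT.nd (nat_lit 234) (nat_lit 1064) (nat_lit 0) (XT.nd (nat_lit 78) (nat_lit 532) (nat_lit 0) (XT.lf (nat_lit 0) (nat_lit 7066694131) (nat_lit 608) (nat_lit 4699759970) (nat_lit 684) (nat_lit 20731404672) (nat_lit 213) (nat_lit 5) (nat_lit 221) (nat_lit 5) (nat_lit 222) (nat_lit 5) (nat_lit 421) (nat_lit 398) (nat_lit 201)) (XT.nd (nat_lit 78) (nat_lit 532) (nat_lit 0) (XT.lf (nat_lit 0) (nat_lit 15427952185) (nat_lit 684) (nat_lit 8346132757) (nat_lit 76) (nat_lit 9267998780) (nat_lit 213) (nat_lit 5) (nat_lit 222) (nat_lit 5) (nat_lit 214) (nat_lit 5) (nat_lit 422) (nat_lit 398) (nat_lit 200)) (XT.lf (nat_lit 0) (nat_lit 9385337069) (nat_lit 532) (nat_lit 9948026957) (nat_lit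 608) (nat_lit 14265250354) (nat_lit 206) (nat_lit 5) (nat_lit 213) (nat_lit 5) (nat_lit 214) (nat_lit 5) (nat_lit 423) (nat_lit 398) (nat_lit 199)))) (XT.nd (nat_lit 156) (nat_lit 532) (nat_lit 0) (XT.nd (nat_lit 78) (nat_lit 532) (nat_lit 0) (XT.lf (nat_lit 0) (nat_lit 23479687863) (nat_lit 608) (nat_lit 6394348626) (nat_lit 76) (nat_lit 4294092972) (nat_lit 206) (nat_lit 5) (nat_lit 214) (nat_lit 5) (nat_lit 207) (nat_lit 5) (nat_lit 424) (nat_lit 398) (nat_lit 198)) (XT.lf (nat_lit 0) (nat_lit 12093955059) (nat_lit 532) (nat_lit 15868643223) (nat_lit 608) (nat_lit 6785766768) (nat_lit 199) (nat_lit 5) (nat_lit 206) (nat_lit 5) (nat_lit 207) (nat_lit 5) (nat_lit 425) (nat_lit 398) (nat_lit 197))) (XT.nd (nat_lit 78) (nat_lit 532) (nat_lit 0) (XT.lf (nat_lit 0) (nat_lit 31265317980) (nat_lit 532) (nat_lit 1376744189) (nat_lit 608) (nat_lit 2702084490) (nat_lit 199) (nat_lit 5) (nat_lit 206) (nat_lit 5) (nat_lit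 207) (nat_lit 5) (nat_lit 426) (nat_lit 398) (nat_lit 196)) (XT.lf (nat_lit 0) (nat_lit 1751573277) (nat_lit 532) (nat_lit 20748684880) (nat_lit 76) (nat_lit 13448806222) (nat_lit 192) (nat_lit 5) (nat_lit 199) (nat_lit 5) (nat_lit 193) (nat_lit 5) (nat_lit 427) (nat_lit 398) (nat_lit 195)))))) (XT.nd (nat_lit 546) (nat_lit 1672) (nat_lit 0) (XT.nd (nat_lit 234) (nat_lit 912) (nat_lit 0) (XT.nd (nat_lit 78) (nat_lit 988) (nat_lit 0) (XT.lf (nat_lit 0) (nat_lit 6337346860) (nat_lit 532) (nat_lit 1472795445) (nat_lit 76) (nat_lit 28759601122) (nat_lit 192) (nat_lit 5) (nat_lit 199) (nat_lit 5) (nat_lit 193) (nat_lit 5) (nat_lit 428) (nat_lit 398) (nat_lit 194)) (XT.nd (nat_lit 78) (nat_lit 456) (nat_lit 0) (XT.lf (nat_lit 0) (nat_lit 11310688331) (nat_lit 608) (nat_lit 18531323493) (nat_lit 76) (nat_lit 7359532014) (nat_lit 185) (nat_lit 5) (nat_lit 193) (nat_lit 5) (nat_lit 186) (nat_lit 5) (nat_lit 429) (nat_lit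 398) (nat_lit 193)) (XT.lf (nat_lit 0) (nat_lit 1545907827) (nat_lit 456) (nat_lit 14992229280) (nat_lit 532) (nat_lit 21311014748) (nat_lit 179) (nat_lit 5) (nat_lit 185) (nat_lit 5) (nat_lit 186) (nat_lit 5) (nat_lit 430) (nat_lit 398) (nat_lit 192)))) (XT.nd (nat_lit 156) (nat_lit 456) (nat_lit 0) (XT.nd (nat_lit 78) (nat_lit 456) (nat_lit 0) (XT.lf (nat_lit 0) (nat_lit 22112042648) (nat_lit 532) (nat_lit 15912697496) (nat_lit 76) (nat_lit 485759754) (nat_lit 179) (nat_lit 5) (nat_lit 186) (nat_lit 5) (nat_lit 180) (nat_lit 5) (nat_lit 431) (nat_lit 398) (nat_lit 191)) (XT.lf (nat_lit 0) (nat_lit 5036804502) (nat_lit 456) (nat_lit 23011018939) (nat_lit 532) (nat_lit 11138025960) (nat_lit 173) (nat_lit 5) (nat_lit 179) (nat_lit 5) (nat_lit 180) (nat_lit 5) (nat_lit 432) (nat_lit 398) (nat_lit 190))) (XT.nd (nat_lit 78) (nat_lit 456) (nat_lit 0) (XT.lf (nat_lit 0) (nat_lit 26938402626) (nat_lit 456) (nat_lit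 7381804548) (nat_lit 532) (nat_lit 5556497069) (nat_lit 173) (nat_lit 5) (nat_lit 179) (nat_lit 5) (nat_lit 180) (nat_lit 5) (nat_lit 433) (nat_lit 398) (nat_lit 189)) (XT.lf (nat_lit 0) (nat_lit 358568043) (nat_lit 456) (nat_lit 31588762386) (nat_lit 76) (nat_lit 8635804099) (nat_lit 167) (nat_lit 5) (nat_lit 173) (nat_lit 5) (nat_lit 168) (nat_lit 5) (nat_lit 434) (nat_lit 398) (nat_lit 188))))) (XT.nd (nat_lit 234) (nat_lit 1216) (nat_lit 0) (XT.nd (nat_lit 78) (nat_lit 456) (nat_lit 0) (XT.lf (nat_lit 0) (nat_lit 6542354171) (nat_lit 456) (nat_lit 9588570060) (nat_lit 76) (nat_lit 25172095250) (nat_lit 167) (nat_lit 5) (nat_lit 173) (nat_lit 5) (nat_lit 168) (nat_lit 5) (nat_lit 435) (nat_lit 398) (nat_lit 187)) (XT.nd (nat_lit 78) (nat_lit 0) (nat_lit 0) (XT.lf (nat_lit 0) (nat_lit 13040561773) (nat_lit 532) (nat_lit 28714300654) (nat_lit 76) (nat_lit 285771975) (nat_lit 161) (nat_lit 5) (nat_lit 168) (nat_lit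 5) (nat_lit 162) (nat_lit 5) (nat_lit 436) (nat_lit 398) (nat_lit 186)) (XT.lf (nat_lit 0) (nat_lit 19989219979) (nat_lit 532) (nat_lit 5835443333) (nat_lit 76) (nat_lit 16968049964) (nat_lit 161) (nat_lit 5) (nat_lit 168) (nat_lit 5) (nat_lit 162) (nat_lit 5) (nat_lit 437) (nat_lit 398) (nat_lit 185)))) (XT.nd (nat_lit 156) (nat_lit 836) (nat_lit 0) (XT.nd (nat_lit 78) (nat_lit 0) (nat_lit 0) (XT.lf (nat_lit 0) (nat_lit 18080121492) (nat_lit 380) (nat_lit 9238079478) (nat_lit 456) (nat_lit 16243998273) (nat_lit 156) (nat_lit 5) (nat_lit 161) (nat_lit 5) (nat_lit 162) (nat_lit 5) (nat_lit 438) (nat_lit 398) (nat_lit 184)) (XT.lf (nat_lit 0) (nat_lit 35000076397) (nat_lit 456) (nat_lit 1598727589) (nat_lit 76) (nat_lit 7751975653) (nat_lit 156) (nat_lit 5) (nat_lit 162) (nat_lit 5) (nat_lit 157) (nat_lit 5) (nat_lit 439) (nat_lit 398) (nat_lit 183))) (XT.nd (nat_lit 78) (nat_lit 456) (nat_lit 0) (XT.lf (nat_lit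 0) (nat_lit 23363133732) (nat_lit 380) (nat_lit 19863470259) (nat_lit 456) (nat_lit 1926988164) (nat_lit 151) (nat_lit 5) (nat_lit 156) (nat_lit 5) (nat_lit 157) (nat_lit 5) (nat_lit 440) (nat_lit 398) (nat_lit 182)) (XT.lf (nat_lit 0) (nat_lit 3130124439) (nat_lit 380) (nat_lit 2522260929) (nat_lit 456) (nat_lit 40325118248) (nat_lit 145) (nat_lit 5) (nat_lit 150) (nat_lit 5) (nat_lit 151) (nat_lit 5) (nat_lit 441) (nat_lit 398) (nat_lit 181))))))) (XT.nd (nat_lit 1092) (nat_lit 2280) (nat_lit 0) (XT.nd (nat_lit 546) (nat_lit 1292) (nat_lit 0) (XT.nd (nat_lit 234) (nat_lit 760) (nat_lit 0) (XT.nd (nat_lit 78) (nat_lit 380) (nat_lit 0) (XT.lf (nat_lit 0) (nat_lit 13788264597) (nat_lit 456) (nat_lit 17745691317) (nat_lit 76) (nat_lit 15280569017) (nat_lit 145) (nat_lit 5) (nat_lit 151) (nat_lit 5) (nat_lit 146) (nat_lit 5) (nat_lit 442) (nat_lit 398) (nat_lit 180)) (XT.nd (nat_lit 78) (nat_lit 0) (nat_lit 0)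 (XT.lf (nat_lit 0) (nat_lit 8242526747) (nat_lit 380) (nat_lit 14028137274) (nat_lit 456) (nat_lit 25402920069) (nat_lit 140) (nat_lit 5) (nat_lit 145) (nat_lit 5) (nat_lit 146) (nat_lit 5) (nat_lit 443) (nat_lit 398) (nat_lit 179)) (XT.lf (nat_lit 0) (nat_lit 31225245446) (nat_lit 456) (nat_lit 13221542535) (nat_lit 76) (nat_lit 4105096244) (nat_lit 140) (nat_lit 5) (nat_lit 146) (nat_lit 5) (nat_lit 141) (nat_lit 5) (nat_lit 444) (nat_lit 398) (nat_lit 178)))) (XT.nd (nat_lit 156) (nat_lit 380) (nat_lit 0) (XT.nd (nat_lit 78) (nat_lit 76) (nat_lit 0) (XT.lf (nat_lit 0) (nat_lit 13904347504) (nat_lit 304) (nat_lit 26814978202) (nat_lit 380) (nat_lit 8729082305) (nat_lit 136) (nat_lit 5) (nat_lit 140) (nat_lit 5) (nat_lit 141) (nat_lit 5) (nat_lit 445) (nat_lit 398) (nat_lit 177)) (XT.lf (nat_lit 0) (nat_lit 257089697) (nat_lit 380) (nat_lit 8257668764) (nat_lit 76) (nat_lit 41853038397) (nat_lit 135) (nat_lit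 5) (nat_lit 140) (nat_lit 5) (nat_lit 136) (nat_lit 5) (nat_lit 446) (nat_lit 398) (nat_lit 176))) (XT.nd (nat_lit 78) (nat_lit 0) (nat_lit 0) (XT.lf (nat_lit 0) (nat_lit 9631592032) (nat_lit 456) (nat_lit 31256682037) (nat_lit 76) (nat_lit 10415075220) (nat_lit 130) (nat_lit 5) (nat_lit 136) (nat_lit 5) (nat_lit 131) (nat_lit 5) (nat_lit 447) (nat_lit 398) (nat_lit 175)) (XT.lf (nat_lit 0) (nat_lit 19454235932) (nat_lit 456) (nat_lit 2982493255) (nat_lit 76) (nat_lit 29825232344) (nat_lit 130) (nat_lit 5) (nat_lit 136) (nat_lit 5) (nat_lit 131) (nat_lit 5) (nat_lit 448) (nat_lit 398) (nat_lit 174))))) (XT.nd (nat_lit 234) (nat_lit 684) (nat_lit 0) (XT.nd (nat_lit 78) (nat_lit 304) (nat_lit 0) (XT.lf (nat_lit 0) (nat_lit 26657875593) (nat_lit 304) (nat_lit 3168372341) (nat_lit 380) (nat_lit 23415443964) (nat_lit 126) (nat_lit 5) (nat_lit 130) (nat_lit 5) (nat_lit 131) (nat_lit 5) (nat_lit 449) (nat_lit 398)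 (nat_lit 173)) (XT.nd (nat_lit 78) (nat_lit 0) (nat_lit 0) (XT.lf (nat_lit 0) (nat_lit 2892248646) (nat_lit 304) (nat_lit 37834163430) (nat_lit 380) (nat_lit 13517892756) (nat_lit 122) (nat_lit 5) (nat_lit 126) (nat_lit 5) (nat_lit 127) (nat_lit 5) (nat_lit 450) (nat_lit 398) (nat_lit 172)) (XT.lf (nat_lit 0) (nat_lit 33763310566) (nat_lit 304) (nat_lit 18488255728) (nat_lit 380) (nat_lit 3016490702) (nat_lit 122) (nat_lit 5) (nat_lit 126) (nat_lit 5) (nat_lit 127) (nat_lit 5) (nat_lit 451) (nat_lit 398) (nat_lit 171)))) (XT.nd (nat_lit 156) (nat_lit 304) (nat_lit 0) (XT.nd (nat_lit 78) (nat_lit 0) (nat_lit 0) (XT.lf (nat_lit 0) (nat_lit 7751515651) (nat_lit 380) (nat_lit 46989946332) (nat_lit 76) (nat_lit 1575697755) (nat_lit 117) (nat_lit 5) (nat_lit 122) (nat_lit 5) (nat_lit 118) (nat_lit 5) (nat_lit 452) (nat_lit 398) (nat_lit 170)) (XT.lf (nat_lit 0) (nat_lit 19182814920) (nat_lit 380) (nat_lit 16083544940)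 (nat_lit 76) (nat_lit 22118453644) (nat_lit 117) (nat_lit 5) (nat_lit 122) (nat_lit 5) (nat_lit 118) (nat_lit 5) (nat_lit 453) (nat_lit 398) (nat_lit 169))) (XT.nd (nat_lit 78) (nat_lit 0) (nat_lit 0) (XT.lf (nat_lit 0) (nat_lit 16061313077) (nat_lit 304) (nat_lit 15048697599) (nat_lit 380) (nat_lit 27369897833) (nat_lit 113) (nat_lit 5) (nat_lit 117) (nat_lit 5) (nat_lit 118) (nat_lit 5) (nat_lit 454) (nat_lit 398) (nat_lit 168)) (XT.lf (nat_lit 0) (nat_lit 43613140960) (nat_lit 380) (nat_lit 10162060129) (nat_lit 76) (nat_lit 5826112059) (nat_lit 113) (nat_lit 5) (nat_lit 118) (nat_lit 5) (nat_lit 114) (nat_lit 5) (nat_lit 455) (nat_lit 398) (nat_lit 167)))))) (XT.nd (nat_lit 546) (nat_lit 1140) (nat_lit 0) (XT.nd (nat_lit 234) (nat_lit 532) (nat_lit 0) (XT.nd (nat_lit 78) (nat_lit 380) (nat_lit 0) (XT.lf (nat_lit 0) (nat_lit 23367048299) (nat_lit 228) (nat_lit 33496554316) (nat_lit 304) (nat_lit 3881590519)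 (nat_lit 110) (nat_lit 5) (nat_lit 113) (nat_lit 5) (nat_lit 114) (nat_lit 5) (nat_lit 456) (nat_lit 398) (nat_lit 166)) (XT.nd (nat_lit 78) (nat_lit 304) (nat_lit 0) (XT.lf (nat_lit 0) (nat_lit 8522863464) (nat_lit 304) (nat_lit 3895647910) (nat_lit 76) (nat_lit 49499333971) (nat_lit 109) (nat_lit 5) (nat_lit 113) (nat_lit 5) (nat_lit 110) (nat_lit 5) (nat_lit 457) (nat_lit 398) (nat_lit 165)) (XT.lf (nat_lit 0) (nat_lit 21612279778) (nat_lit 380) (nat_lit 32049369959) (nat_lit 76) (nat_lit 9451149397) (nat_lit 105) (nat_lit 5) (nat_lit 110) (nat_lit 5) (nat_lit 106) (nat_lit 5) (nat_lit 458) (nat_lit 398) (nat_lit 164)))) (XT.nd (nat_lit 156) (nat_lit 304) (nat_lit 0) (XT.nd (nat_lit 78) (nat_lit 0) (nat_lit 0) (XT.lf (nat_lit 0) (nat_lit 2736712686) (nat_lit 228) (nat_lit 32545337152) (nat_lit 304) (nat_lit 29055921854) (nat_lit 102) (nat_lit 5) (nat_lit 105) (nat_lit 5) (nat_lit 106) (nat_lit 5) (nat_lit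 459) (nat_lit 398) (nat_lit 163)) (XT.lf (nat_lit 0) (nat_lit 39221319127) (nat_lit 228) (nat_lit 10462929338) (nat_lit 304) (nat_lit 15905981188) (nat_lit 102) (nat_lit 5) (nat_lit 105) (nat_lit 5) (nat_lit 106) (nat_lit 5) (nat_lit 460) (nat_lit 398) (nat_lit 162))) (XT.nd (nat_lit 78) (nat_lit 76) (nat_lit 0) (XT.lf (nat_lit 0) (nat_lit 9995381474) (nat_lit 228) (nat_lit 54736005565) (nat_lit 304) (nat_lit 2142282371) (nat_lit 99) (nat_lit 5) (nat_lit 102) (nat_lit 5) (nat_lit 103) (nat_lit 5) (nat_lit 461) (nat_lit 398) (nat_lit 161)) (XT.lf (nat_lit 0) (nat_lit 12170734184) (nat_lit 304) (nat_lit 20420413048) (nat_lit 76) (nat_lit 35589857756) (nat_lit 98) (nat_lit 5) (nat_lit 102) (nat_lit 5) (nat_lit 99) (nat_lit 5) (nat_lit 462) (nat_lit 398) (nat_lit 160))))) (XT.nd (nat_lit 312) (nat_lit 608) (nat_lit 0) (XT.nd (nat_lit 156) (nat_lit 304) (nat_lit 0) (XT.nd (nat_lit 78) (nat_lit 0) (nat_lit 0) (XT.lf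 (nat_lit 0) (nat_lit 17448512531) (nat_lit 228) (nat_lit 9588069363) (nat_lit 304) (nat_lit 42485347718) (nat_lit 95) (nat_lit 5) (nat_lit 98) (nat_lit 5) (nat_lit 99) (nat_lit 5) (nat_lit 463) (nat_lit 398) (nat_lit 159)) (XT.lf (nat_lit 0) (nat_lit 42691022415) (nat_lit 304) (nat_lit 14164388487) (nat_lit 76) (nat_lit 14037392802) (nat_lit 95) (nat_lit 5) (nat_lit 99) (nat_lit 5) (nat_lit 96) (nat_lit 5) (nat_lit 464) (nat_lit 398) (nat_lit 158))) (XT.nd (nat_lit 78) (nat_lit 76) (nat_lit 0) (XT.lf (nat_lit 0) (nat_lit 25278339863) (nat_lit 228) (nat_lit 33873496729) (nat_lit 304) (nat_lit 13142865452) (nat_lit 92) (nat_lit 5) (nat_lit 95) (nat_lit 5) (nat_lit 96) (nat_lit 5) (nat_lit 465) (nat_lit 398) (nat_lit 157)) (XT.lf (nat_lit 0) (nat_lit 2464884577) (nat_lit 304) (nat_lit 7565753396) (nat_lit 76) (nat_lit 63703038619) (nat_lit 91) (nat_lit 5) (nat_lit 95) (nat_lit 5) (nat_lit 92) (nat_lit 5) (nat_lit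 466) (nat_lit 398) (nat_lit 156)))) (XT.nd (nat_lit 156) (nat_lit 380) (nat_lit 0) (XT.nd (nat_lit 78) (nat_lit 0) (nat_lit 0) (XT.lf (nat_lit 0) (nat_lit 18742597080) (nat_lit 304) (nat_lit 41754505117) (nat_lit 76) (nat_lit 14700837921) (nat_lit 88) (nat_lit 5) (nat_lit 92) (nat_lit 5) (nat_lit 89) (nat_lit 5) (nat_lit 467) (nat_lit 398) (nat_lit 155)) (XT.lf (nat_lit 0) (nat_lit 35683975574) (nat_lit 304) (nat_lit 967788893) (nat_lit 76) (nat_lit 40049107258) (nat_lit 88) (nat_lit 5) (nat_lit 92) (nat_lit 5) (nat_lit 89) (nat_lit 5) (nat_lit 468) (nat_lit 398) (nat_lit 154))) (XT.nd (nat_lit 78) (nat_lit 152) (nat_lit 0) (XT.lf (nat_lit 0) (nat_lit 41857504718) (nat_lit 228) (nat_lit 11677349351) (nat_lit 304) (nat_lit 24701999659) (nat_lit 85) (nat_lit 5) (nat_lit 88) (nat_lit 5) (nat_lit 89) (nat_lit 5) (nat_lit 469) (nat_lit 398) (nat_lit 153)) (XT.lf (nat_lit 0) (nat_lit 6151877821) (nat_lit 152) (nat_lit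 65972314530) (nat_lit 228) (nat_lit 7688635039) (nat_lit 83) (nat_lit 5) (nat_lit 85) (nat_lit 5) (nat_lit 86) (nat_lit 5) (nat_lit 470) (nat_lit 398) (nat_lit 152))))))))
noncomputable def xc220 : XT := (XT.nd (nat_lit 49374) (nat_lit 0) (nat_lit 3420) (XT.nd (nat_lit 48282) (nat_lit 0) (nat_lit 10336) (XT.nd (nat_lit 47736) (nat_lit 0) (nat_lit 12920) (XT.nd (nat_lit 234) (nat_lit 152) (nat_lit 0) (XT.nd (nat_lit 78) (nat_lit 228) (nat_lit 0) (XT.lf (nat_lit 0) (nat_lit 10128736638) (nat_lit 228) (nat_lit 30935899811) (nat_lit 76) (nat_lit 40354042015) (nat_lit 82) (nat_lit 5) (nat_lit 85) (nat_lit 5) (nat_lit 83) (nat_lit 5) (nat_lit 471) (nat_lit 398) (nat_lit 151)) (XT.nd (nat_lit 78) (nat_lit 0) (nat_lit 0) (XT.lf (nat_lit 0) (nat_lit 13251588822) (nat_lit 228) (nat_lit 15200831107) (nat_lit 304) (nat_lit 54614211840) (nat_lit 79) (nat_lit 5) (nat_lit 82) (nat_lit 5) (nat_lit 83) (nat_lit 5) (nat_lit 472)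 (nat_lit 398) (nat_lit 150)) (XT.lf (nat_lit 0) (nat_lit 47750205351) (nat_lit 304) (nat_lit 25470625776) (nat_lit 76) (nat_lit 11530460975) (nat_lit 79) (nat_lit 5) (nat_lit 83) (nat_lit 5) (nat_lit 80) (nat_lit 5) (nat_lit 473) (nat_lit 398) (nat_lit 149)))) (XT.nd (nat_lit 47346) (nat_lit 0) (nat_lit 12844) (XT.nd (nat_lit 47268) (nat_lit 0) (nat_lit 12844) (XT.lf (nat_lit 0) (nat_lit 20450963454) (nat_lit 152) (nat_lit 47522031060) (nat_lit 228) (nat_lit 18503115801) (nat_lit 77) (nat_lit 5) (nat_lit 79) (nat_lit 5) (nat_lit 80) (nat_lit 5) (nat_lit 474) (nat_lit 398) (nat_lit 148)) (XT.lf (nat_lit 0) (nat_lit 1304727198) (nat_lit 1292) (nat_lit 5188418063) (nat_lit 1292) (nat_lit 5188418063) (nat_lit 246) (nat_lit 3) (nat_lit 263) (nat_lit 3) (nat_lit 263) (nat_lit 5) (nat_lit 399) (nat_lit 399) (nat_lit 222))) (XT.nd (nat_lit 78) (nat_lit 0) (nat_lit 76) (XT.lf (nat_lit 76) (nat_lit 901635317) (nat_lit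 0) (nat_lit 1874501967) (nat_lit 1292) (nat_lit 20933559839) (nat_lit 247) (nat_lit 5) (nat_lit 246) (nat_lit 3) (nat_lit 263) (nat_lit 5) (nat_lit 400) (nat_lit 399) (nat_lit 221)) (XT.lf (nat_lit 0) (nat_lit 3141001322) (nat_lit 1216) (nat_lit 11427982631) (nat_lit 1292) (nat_lit 9491887298) (nat_lit 247) (nat_lit 5) (nat_lit 263) (nat_lit 5) (nat_lit 264) (nat_lit 5) (nat_lit 401) (nat_lit 399) (nat_lit 220))))) (XT.nd (nat_lit 234) (nat_lit 0) (nat_lit 152) (XT.nd (nat_lit 78) (nat_lit 0) (nat_lit 76) (XT.lf (nat_lit 76) (nat_lit 277835800) (nat_lit 0) (nat_lit 3255699452) (nat_lit 1292) (nat_lit 20888545533) (nat_lit 248) (nat_lit 5) (nat_lit 247) (nat_lit 5) (nat_lit 264) (nat_lit 5) (nat_lit 402) (nat_lit 399) (nat_lit 219)) (XT.nd (nat_lit 78) (nat_lit 0) (nat_lit 0) (XT.lf (nat_lit 0) (nat_lit 4130724219) (nat_lit 1216) (nat_lit 12306085472) (nat_lit 1292) (nat_lit 8351532392) (nat_lit 248) (nat_lit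 5) (nat_lit 264) (nat_lit 5) (nat_lit 265) (nat_lit 5) (nat_lit 403) (nat_lit 399) (nat_lit 218)) (XT.lf (nat_lit 0) (nat_lit 4773810375) (nat_lit 1216) (nat_lit 147591138) (nat_lit 1292) (nat_lit 20243352052) (nat_lit 248) (nat_lit 5) (nat_lit 264) (nat_lit 5) (nat_lit 265) (nat_lit 5) (nat_lit 404) (nat_lit 399) (nat_lit 217)))) (XT.nd (nat_lit 156) (nat_lit 0) (nat_lit 76) (XT.nd (nat_lit 78) (nat_lit 0) (nat_lit 0) (XT.lf (nat_lit 0) (nat_lit 5621288459) (nat_lit 1216) (nat_lit 12997459154) (nat_lit 1292) (nat_lit 6928158540) (nat_lit 249) (nat_lit 5) (nat_lit 265) (nat_lit 5) (nat_lit 266) (nat_lit 5) (nat_lit 405) (nat_lit 399) (nat_lit 216)) (XT.lf (nat_lit 0) (nat_lit 6540404958) (nat_lit 1216) (nat_lit 361411791) (nat_lit 1292) (nat_lit 19037321836) (nat_lit 249) (nat_lit 5) (nat_lit 265) (nat_lit 5) (nat_lit 266) (nat_lit 5) (nat_lit 406) (nat_lit 399) (nat_lit 215))) (XT.nd (nat_lit 78) (nat_lit 0)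 (nat_lit 0) (XT.lf (nat_lit 0) (nat_lit 7658131208) (nat_lit 1216) (nat_lit 13487478632) (nat_lit 1292) (nat_lit 5192398703) (nat_lit 250) (nat_lit 5) (nat_lit 266) (nat_lit 5) (nat_lit 267) (nat_lit 5) (nat_lit 407) (nat_lit 399) (nat_lit 214)) (XT.lf (nat_lit 0) (nat_lit 8877610911) (nat_lit 1216) (nat_lit 353508473) (nat_lit 1292) (nat_lit 17515680159) (nat_lit 250) (nat_lit 5) (nat_lit 266) (nat_lit 5) (nat_lit 267) (nat_lit 5) (nat_lit 408) (nat_lit 399) (nat_lit 213)))))) (XT.nd (nat_lit 546) (nat_lit 2888) (nat_lit 0) (XT.nd (nat_lit 234) (nat_lit 0) (nat_lit 76) (XT.nd (nat_lit 78) (nat_lit 0) (nat_lit 0) (XT.lf (nat_lit 0) (nat_lit 10289642724) (nat_lit 1216) (nat_lit 13760548020) (nat_lit 1292) (nat_lit 3112986044) (nat_lit 251) (nat_lit 5) (nat_lit 267) (nat_lit 5) (nat_lit 268) (nat_lit 5) (nat_lit 409) (nat_lit 399) (nat_lit 212)) (XT.nd (nat_lit 78) (nat_lit 0) (nat_lit 76) (XT.lf (nat_lit 0) (nat_lit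 11835442876) (nat_lit 1216) (nat_lit 107332830) (nat_lit 1292) (nat_lit 15646528924) (nat_lit 251) (nat_lit 5) (nat_lit 267) (nat_lit 5) (nat_lit 268) (nat_lit 5) (nat_lit 410) (nat_lit 399) (nat_lit 211)) (XT.lf (nat_lit 0) (nat_lit 13567357184) (nat_lit 1216) (nat_lit 13800068371) (nat_lit 1292) (nat_lit 656600005) (nat_lit 252) (nat_lit 5) (nat_lit 268) (nat_lit 5) (nat_lit 269) (nat_lit 5) (nat_lit 411) (nat_lit 399) (nat_lit 210)))) (XT.nd (nat_lit 156) (nat_lit 0) (nat_lit 76) (XT.nd (nat_lit 78) (nat_lit 0) (nat_lit 0) (XT.lf (nat_lit 76) (nat_lit 402561907) (nat_lit 0) (nat_lit 15068471681) (nat_lit 1292) (nat_lit 12997161804) (nat_lit 253) (nat_lit 5) (nat_lit 252) (nat_lit 5) (nat_lit 269) (nat_lit 5) (nat_lit 412) (nat_lit 399) (nat_lit 209)) (XT.lf (nat_lit 76) (nat_lit 15311517109) (nat_lit 0) (nat_lit 2256325695) (nat_lit 1292) (nat_lit 11353768215) (nat_lit 253) (nat_lit 5) (nat_lit 252) (nat_lit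 5) (nat_lit 269) (nat_lit 5) (nat_lit 413) (nat_lit 399) (nat_lit 208))) (XT.nd (nat_lit 78) (nat_lit 0) (nat_lit 0) (XT.lf (nat_lit 76) (nat_lit 1194589142) (nat_lit 0) (nat_lit 18646386365) (nat_lit 1292) (nat_lit 9544252365) (nat_lit 254) (nat_lit 5) (nat_lit 253) (nat_lit 5) (nat_lit 270) (nat_lit 5) (nat_lit 414) (nat_lit 399) (nat_lit 207)) (XT.lf (nat_lit 76) (nat_lit 16696978276) (nat_lit 0) (nat_lit 5641720957) (nat_lit 1292) (nat_lit 7519363380) (nat_lit 254) (nat_lit 5) (nat_lit 253) (nat_lit 5) (nat_lit 270) (nat_lit 5) (nat_lit 415) (nat_lit 399) (nat_lit 206))))) (XT.nd (nat_lit 234) (nat_lit 1292) (nat_lit 0) (XT.nd (nat_lit 78) (nat_lit 608) (nat_lit 0) (XT.lf (nat_lit 0) (nat_lit 2286788159) (nat_lit 1216) (nat_lit 22718013673) (nat_lit 1292) (nat_lit 5337478408) (nat_lit 238) (nat_lit 5) (nat_lit 254) (nat_lit 5) (nat_lit 255) (nat_lit 5) (nat_lit 416) (nat_lit 399) (nat_lit 205)) (XT.nd (nat_lit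 78) (nat_lit 608) (nat_lit 0) (XT.lf (nat_lit 0) (nat_lit 18408277352) (nat_lit 1216) (nat_lit 9527823883) (nat_lit 1292) (nat_lit 2899367970) (nat_lit 238) (nat_lit 5) (nat_lit 254) (nat_lit 5) (nat_lit 255) (nat_lit 5) (nat_lit 417) (nat_lit 399) (nat_lit 204)) (XT.lf (nat_lit 0) (nat_lit 3700505389) (nat_lit 608) (nat_lit 27326506703) (nat_lit 684) (nat_lit 314292757) (nat_lit 230) (nat_lit 5) (nat_lit 238) (nat_lit 5) (nat_lit 239) (nat_lit 5) (nat_lit 418) (nat_lit 399) (nat_lit 203)))) (XT.nd (nat_lit 156) (nat_lit 608) (nat_lit 0) (XT.nd (nat_lit 78) (nat_lit 608) (nat_lit 0) (XT.lf (nat_lit 0) (nat_lit 2520700268) (nat_lit 684) (nat_lit 11412608941) (nat_lit 76) (nat_lit 17921784562) (nat_lit 229) (nat_lit 5) (nat_lit 238) (nat_lit 5) (nat_lit 230) (nat_lit 5) (nat_lit 419) (nat_lit 399) (nat_lit 202)) (XT.lf (nat_lit 0) (nat_lit 5402122700) (nat_lit 608) (nat_lit 81438121) (nat_lit 684) (nat_lit 26899169228)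 (nat_lit 221) (nat_lit 5) (nat_lit 229) (nat_lit 5) (nat_lit 230) (nat_lit 5) (nat_lit 420) (nat_lit 399) (nat_lit 201))) (XT.nd (nat_lit 78) (nat_lit 608) (nat_lit 0) (XT.lf (nat_lit 0) (nat_lit 8785321853) (nat_lit 684) (nat_lit 10107666679) (nat_lit 76) (nat_lit 14025707495) (nat_lit 221) (nat_lit 5) (nat_lit 230) (nat_lit 5) (nat_lit 222) (nat_lit 5) (nat_lit 421) (nat_lit 399) (nat_lit 200)) (XT.lf (nat_lit 0) (nat_lit 7412715592) (nat_lit 608) (nat_lit 4842825926) (nat_lit 684) (nat_lit 21213118317) (nat_lit 213) (nat_lit 5) (nat_lit 221) (nat_lit 5) (nat_lit 222) (nat_lit 5) (nat_lit 422) (nat_lit 399) (nat_lit 199))))))) (XT.nd (nat_lit 1092) (nat_lit 3420) (nat_lit 0) (XT.nd (nat_lit 546) (nat_lit 1900) (nat_lit 0) (XT.nd (nat_lit 234) (nat_lit 1064) (nat_lit 0) (XT.nd (nat_lit 78) (nat_lit 532) (nat_lit 0) (XT.lf (nat_lit 0) (nat_lit 16022901300) (nat_lit 684) (nat_lit 8462365996) (nat_lit 76) (nat_lit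 9544065246) (nat_lit 213) (nat_lit 5) (nat_lit 222) (nat_lit 5) (nat_lit 214) (nat_lit 5) (nat_lit 423) (nat_lit 399) (nat_lit 198)) (XT.nd (nat_lit 78) (nat_lit 0) (nat_lit 0) (XT.lf (nat_lit 0) (nat_lit 9799732722) (nat_lit 532) (nat_lit 10243171792) (nat_lit 608) (nat_lit 14559733203) (nat_lit 206) (nat_lit 5) (nat_lit 213) (nat_lit 5) (nat_lit 214) (nat_lit 5) (nat_lit 424) (nat_lit 399) (nat_lit 197)) (XT.lf (nat_lit 0) (nat_lit 24309875828) (nat_lit 608) (nat_lit 6453422820) (nat_lit 76) (nat_lit 4426053293) (nat_lit 206) (nat_lit 5) (nat_lit 214) (nat_lit 5) (nat_lit 207) (nat_lit 5) (nat_lit 425) (nat_lit 399) (nat_lit 196)))) (XT.nd (nat_lit 156) (nat_lit 532) (nat_lit 0) (XT.nd (nat_lit 78) (nat_lit 0) (nat_lit 0) (XT.lf (nat_lit 0) (nat_lit 12588228444) (nat_lit 532) (nat_lit 16336644740) (nat_lit 608) (nat_lit 6862194809) (nat_lit 199) (nat_lit 5) (nat_lit 206) (nat_lit 5) (nat_lit 207) (nat_lit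 5) (nat_lit 426) (nat_lit 399) (nat_lit 195)) (XT.lf (nat_lit 0) (nat_lit 32330903474) (nat_lit 532) (nat_lit 1410223428) (nat_lit 608) (nat_lit 2659705314) (nat_lit 199) (nat_lit 5) (nat_lit 206) (nat_lit 5) (nat_lit 207) (nat_lit 5) (nat_lit 427) (nat_lit 399) (nat_lit 194))) (XT.nd (nat_lit 78) (nat_lit 0) (nat_lit 0) (XT.lf (nat_lit 0) (nat_lit 1922962970) (nat_lit 532) (nat_lit 21238834614) (nat_lit 76) (nat_lit 13862131262) (nat_lit 192) (nat_lit 5) (nat_lit 199) (nat_lit 5) (nat_lit 193) (nat_lit 5) (nat_lit 428) (nat_lit 399) (nat_lit 193)) (XT.lf (nat_lit 0) (nat_lit 6642848329) (nat_lit 532) (nat_lit 1388522209) (nat_lit 76) (nat_lit 29631962800) (nat_lit 192) (nat_lit 5) (nat_lit 199) (nat_lit 5) (nat_lit 193) (nat_lit 5) (nat_lit 429) (nat_lit 399) (nat_lit 192))))) (XT.nd (nat_lit 234) (nat_lit 912) (nat_lit 0) (XT.nd (nat_lit 78) (nat_lit 456) (nat_lit 0) (XT.lf (nat_lit 0) (nat_lit 11763386273)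 (nat_lit 608) (nat_lit 18956762560) (nat_lit 76) (nat_lit 7594000234) (nat_lit 185) (nat_lit 5) (nat_lit 193) (nat_lit 5) (nat_lit 186) (nat_lit 5) (nat_lit 430) (nat_lit 399) (nat_lit 191)) (XT.nd (nat_lit 78) (nat_lit 0) (nat_lit 0) (XT.lf (nat_lit 0) (nat_lit 1721506281) (nat_lit 456) (nat_lit 15424092133) (nat_lit 532) (nat_lit 21835649873) (nat_lit 179) (nat_lit 5) (nat_lit 185) (nat_lit 5) (nat_lit 186) (nat_lit 5) (nat_lit 431) (nat_lit 399) (nat_lit 190)) (XT.lf (nat_lit 0) (nat_lit 22883645965) (nat_lit 532) (nat_lit 16261508286) (nat_lit 76) (nat_lit 517375900) (nat_lit 179) (nat_lit 5) (nat_lit 186) (nat_lit 5) (nat_lit 180) (nat_lit 5) (nat_lit 432) (nat_lit 399) (nat_lit 189)))) (XT.nd (nat_lit 156) (nat_lit 456) (nat_lit 0) (XT.nd (nat_lit 78) (nat_lit 0) (nat_lit 0) (XT.lf (nat_lit 0) (nat_lit 5315218281) (nat_lit 456) (nat_lit 23680352998) (nat_lit 532) (nat_lit 11362627818) (nat_lit 173) (nat_lit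 5) (nat_lit 179) (nat_lit 5) (nat_lit 180) (nat_lit 5) (nat_lit 433) (nat_lit 399) (nat_lit 188)) (XT.lf (nat_lit 0) (nat_lit 27870156300) (nat_lit 456) (nat_lit 7582873724) (nat_lit 532) (nat_lit 5616843514) (nat_lit 173) (nat_lit 5) (nat_lit 179) (nat_lit 5) (nat_lit 180) (nat_lit 5) (nat_lit 434) (nat_lit 399) (nat_lit 187))) (XT.nd (nat_lit 78) (nat_lit 0) (nat_lit 0) (XT.lf (nat_lit 0) (nat_lit 471969710) (nat_lit 456) (nat_lit 32409052213) (nat_lit 76) (nat_lit 8916493999) (nat_lit 167) (nat_lit 5) (nat_lit 173) (nat_lit 5) (nat_lit 168) (nat_lit 5) (nat_lit 435) (nat_lit 399) (nat_lit 186)) (XT.lf (nat_lit 0) (nat_lit 6838279772) (nat_lit 456) (nat_lit 9752564012) (nat_lit 76) (nat_lit 25948244298) (nat_lit 167) (nat_lit 5) (nat_lit 173) (nat_lit 5) (nat_lit 168) (nat_lit 5) (nat_lit 436) (nat_lit 399) (nat_lit 185)))))) (XT.nd (nat_lit 546) (nat_lit 1748) (nat_lit 0) (XT.nd (nat_lit 234) (nat_lit 836)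 (nat_lit 0) (XT.nd (nat_lit 78) (nat_lit 380) (nat_lit 0) (XT.lf (nat_lit 0) (nat_lit 13529943816) (nat_lit 532) (nat_lit 29450545344) (nat_lit 76) (nat_lit 318387926) (nat_lit 161) (nat_lit 5) (nat_lit 168) (nat_lit 5) (nat_lit 162) (nat_lit 5) (nat_lit 437) (nat_lit 399) (nat_lit 184)) (XT.nd (nat_lit 78) (nat_lit 380) (nat_lit 0) (XT.lf (nat_lit 0) (nat_lit 20684202588) (nat_lit 532) (nat_lit 5888968449) (nat_lit 76) (nat_lit 17500433979) (nat_lit 161) (nat_lit 5) (nat_lit 168) (nat_lit 5) (nat_lit 162) (nat_lit 5) (nat_lit 438) (nat_lit 399) (nat_lit 183)) (XT.lf (nat_lit 0) (nat_lit 18742871770) (nat_lit 380) (nat_lit 9488562181) (nat_lit 456) (nat_lit 16634791071) (nat_lit 156) (nat_lit 5) (nat_lit 161) (nat_lit 5) (nat_lit 162) (nat_lit 5) (nat_lit 439) (nat_lit 399) (nat_lit 182)))) (XT.nd (nat_lit 156) (nat_lit 456) (nat_lit 0) (XT.nd (nat_lit 78) (nat_lit 380) (nat_lit 0) (XT.lf (nat_lit 0) (nat_lit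 36141285700) (nat_lit 456) (nat_lit 1527339356) (nat_lit 76) (nat_lit 8009913034) (nat_lit 156) (nat_lit 5) (nat_lit 162) (nat_lit 5) (nat_lit 157) (nat_lit 5) (nat_lit 440) (nat_lit 399) (nat_lit 181)) (XT.lf (nat_lit 0) (nat_lit 24182207706) (nat_lit 380) (nat_lit 20430880918) (nat_lit 456) (nat_lit 1892392808) (nat_lit 151) (nat_lit 5) (nat_lit 156) (nat_lit 5) (nat_lit 157) (nat_lit 5) (nat_lit 441) (nat_lit 399) (nat_lit 180))) (XT.nd (nat_lit 78) (nat_lit 0) (nat_lit 0) (XT.lf (nat_lit 0) (nat_lit 3342861797) (nat_lit 380) (nat_lit 2568200391) (nat_lit 456) (nat_lit 41443067088) (nat_lit 145) (nat_lit 5) (nat_lit 150) (nat_lit 5) (nat_lit 151) (nat_lit 5) (nat_lit 442) (nat_lit 399) (nat_lit 179)) (XT.lf (nat_lit 0) (nat_lit 14288699939) (nat_lit 456) (nat_lit 18160346226) (nat_lit 76) (nat_lit 15767285368) (nat_lit 145) (nat_lit 5) (nat_lit 151) (nat_lit 5) (nat_lit 146) (nat_lit 5) (nat_lit 443) (nat_lit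 399) (nat_lit 178))))) (XT.nd (nat_lit 312) (nat_lit 988) (nat_lit 0) (XT.nd (nat_lit 156) (nat_lit 380) (nat_lit 0) (XT.nd (nat_lit 78) (nat_lit 0) (nat_lit 0) (XT.lf (nat_lit 0) (nat_lit 8606364304) (nat_lit 380) (nat_lit 14417799716) (nat_lit 456) (nat_lit 26077041409) (nat_lit 140) (nat_lit 5) (nat_lit 145) (nat_lit 5) (nat_lit 146) (nat_lit 5) (nat_lit 444) (nat_lit 399) (nat_lit 177)) (XT.lf (nat_lit 0) (nat_lit 32245187097) (nat_lit 456) (nat_lit 13502802208) (nat_lit 76) (nat_lit 4257931859) (nat_lit 140) (nat_lit 5) (nat_lit 146) (nat_lit 5) (nat_lit 141) (nat_lit 5) (nat_lit 445) (nat_lit 399) (nat_lit 176))) (XT.nd (nat_lit 78) (nat_lit 76) (nat_lit 0) (XT.lf (nat_lit 0) (nat_lit 14435733291) (nat_lit 304) (nat_lit 27587031923) (nat_lit 380) (nat_lit 8906615887) (nat_lit 136) (nat_lit 5) (nat_lit 140) (nat_lit 5) (nat_lit 141) (nat_lit 5) (nat_lit 446) (nat_lit 399) (nat_lit 175)) (XT.lf (nat_lit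 0) (nat_lit 345086982) (nat_lit 380) (nat_lit 8392851453) (nat_lit 76) (nat_lit 43138461773) (nat_lit 135) (nat_lit 5) (nat_lit 140) (nat_lit 5) (nat_lit 136) (nat_lit 5) (nat_lit 447) (nat_lit 399) (nat_lit 174)))) (XT.nd (nat_lit 156) (nat_lit 608) (nat_lit 0) (XT.nd (nat_lit 78) (nat_lit 0) (nat_lit 0) (XT.lf (nat_lit 0) (nat_lit 9999868971) (nat_lit 456) (nat_lit 32080858332) (nat_lit 76) (nat_lit 10759321212) (nat_lit 130) (nat_lit 5) (nat_lit 136) (nat_lit 5) (nat_lit 131) (nat_lit 5) (nat_lit 448) (nat_lit 399) (nat_lit 173)) (XT.lf (nat_lit 0) (nat_lit 20114881630) (nat_lit 456) (nat_lit 2961750416) (nat_lit 76) (nat_lit 30750857018) (nat_lit 130) (nat_lit 5) (nat_lit 136) (nat_lit 5) (nat_lit 131) (nat_lit 5) (nat_lit 449) (nat_lit 399) (nat_lit 172))) (XT.nd (nat_lit 78) (nat_lit 304) (nat_lit 0) (XT.lf (nat_lit 0) (nat_lit 27566748933) (nat_lit 304) (nat_lit 3230110891) (nat_lit 380) (nat_lit 24039787948)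 (nat_lit 126) (nat_lit 5) (nat_lit 130) (nat_lit 5) (nat_lit 131) (nat_lit 5) (nat_lit 450) (nat_lit 399) (nat_lit 171)) (XT.lf (nat_lit 0) (nat_lit 3089038508) (nat_lit 304) (nat_lit 38934150399) (nat_lit 380) (nat_lit 13846175972) (nat_lit 122) (nat_lit 5) (nat_lit 126) (nat_lit 5) (nat_lit 127) (nat_lit 5) (nat_lit 451) (nat_lit 399) (nat_lit 170))))))))
noncomputable def xc221 : XT := (XT.nd (nat_lit 49452) (nat_lit 0) (nat_lit 7600) (XT.nd (nat_lit 1092) (nat_lit 1216) (nat_lit 0) (XT.nd (nat_lit 546) (nat_lit 1064) (nat_lit 0) (XT.nd (nat_lit 234) (nat_lit 608) (nat_lit 0) (XT.nd (nat_lit 78) (nat_lit 380) (nat_lit 0) (XT.lf (nat_lit 0) (nat_lit 34883027750) (nat_lit 304) (nat_lit 19008885988) (nat_lit 380) (nat_lit 3031981961) (nat_lit 122) (nat_lit 5) (nat_lit 126) (nat_lit 5) (nat_lit 127) (nat_lit 5) (nat_lit 452) (nat_lit 399) (nat_lit 169)) (XT.nd (nat_lit 78) (nat_lit 0) (nat_lit 0) (XT.lf (nat_lit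 0) (nat_lit 8056824505) (nat_lit 380) (nat_lit 48290550434) (nat_lit 76) (nat_lit 1657098787) (nat_lit 117) (nat_lit 5) (nat_lit 122) (nat_lit 5) (nat_lit 118) (nat_lit 5) (nat_lit 453) (nat_lit 399) (nat_lit 168)) (XT.lf (nat_lit 0) (nat_lit 19828943430) (nat_lit 380) (nat_lit 16460134504) (nat_lit 76) (nat_lit 22815143272) (nat_lit 117) (nat_lit 5) (nat_lit 122) (nat_lit 5) (nat_lit 118) (nat_lit 5) (nat_lit 454) (nat_lit 399) (nat_lit 167)))) (XT.nd (nat_lit 156) (nat_lit 304) (nat_lit 0) (XT.nd (nat_lit 78) (nat_lit 0) (nat_lit 0) (XT.lf (nat_lit 0) (nat_lit 16648030854) (nat_lit 304) (nat_lit 15464874766) (nat_lit 380) (nat_lit 28119295431) (nat_lit 113) (nat_lit 5) (nat_lit 117) (nat_lit 5) (nat_lit 118) (nat_lit 5) (nat_lit 455) (nat_lit 399) (nat_lit 166)) (XT.lf (nat_lit 0) (nat_lit 44989432074) (nat_lit 380) (nat_lit 10363384138) (nat_lit 76) (nat_lit 6034483040) (nat_lit 113) (nat_lit 5) (nat_lit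 118) (nat_lit 5) (nat_lit 114) (nat_lit 5) (nat_lit 456) (nat_lit 399) (nat_lit 165))) (XT.nd (nat_lit 78) (nat_lit 76) (nat_lit 0) (XT.lf (nat_lit 0) (nat_lit 24170582466) (nat_lit 228) (nat_lit 34465833044) (nat_lit 304) (nat_lit 3929110367) (nat_lit 110) (nat_lit 5) (nat_lit 113) (nat_lit 5) (nat_lit 114) (nat_lit 5) (nat_lit 457) (nat_lit 399) (nat_lit 164)) (XT.lf (nat_lit 0) (nat_lit 8844163773) (nat_lit 304) (nat_lit 3911659879) (nat_lit 76) (nat_lit 51017573628) (nat_lit 109) (nat_lit 5) (nat_lit 113) (nat_lit 5) (nat_lit 110) (nat_lit 5) (nat_lit 458) (nat_lit 399) (nat_lit 163))))) (XT.nd (nat_lit 234) (nat_lit 532) (nat_lit 0) (XT.nd (nat_lit 78) (nat_lit 228) (nat_lit 0) (XT.lf (nat_lit 0) (nat_lit 22325649891) (nat_lit 380) (nat_lit 32909366348) (nat_lit 76) (nat_lit 9769202260) (nat_lit 105) (nat_lit 5) (nat_lit 110) (nat_lit 5) (nat_lit 106) (nat_lit 5) (nat_lit 459) (nat_lit 399) (nat_lit 162))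 (XT.nd (nat_lit 78) (nat_lit 0) (nat_lit 0) (XT.lf (nat_lit 0) (nat_lit 2919303829) (nat_lit 228) (nat_lit 33485281941) (nat_lit 304) (nat_lit 29861588709) (nat_lit 102) (nat_lit 5) (nat_lit 105) (nat_lit 5) (nat_lit 106) (nat_lit 5) (nat_lit 460) (nat_lit 399) (nat_lit 161)) (XT.lf (nat_lit 0) (nat_lit 40495521576) (nat_lit 228) (nat_lit 10741462532) (nat_lit 304) (nat_lit 16319072467) (nat_lit 102) (nat_lit 5) (nat_lit 105) (nat_lit 5) (nat_lit 106) (nat_lit 5) (nat_lit 461) (nat_lit 399) (nat_lit 160)))) (XT.nd (nat_lit 156) (nat_lit 228) (nat_lit 0) (XT.nd (nat_lit 78) (nat_lit 76) (nat_lit 0) (XT.lf (nat_lit 0) (nat_lit 10393374311) (nat_lit 228) (nat_lit 56341623891) (nat_lit 304) (nat_lit 2143017882) (nat_lit 99) (nat_lit 5) (nat_lit 102) (nat_lit 5) (nat_lit 103) (nat_lit 5) (nat_lit 462) (nat_lit 399) (nat_lit 159)) (XT.lf (nat_lit 0) (nat_lit 12596335047) (nat_lit 304) (nat_lit 20936536038) (nat_lit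 76) (nat_lit 36691737130) (nat_lit 98) (nat_lit 5) (nat_lit 102) (nat_lit 5) (nat_lit 99) (nat_lit 5) (nat_lit 463) (nat_lit 399) (nat_lit 158))) (XT.nd (nat_lit 78) (nat_lit 0) (nat_lit 0) (XT.lf (nat_lit 0) (nat_lit 18067511334) (nat_lit 228) (nat_lit 9839803757) (nat_lit 304) (nat_lit 43698471147) (nat_lit 95) (nat_lit 5) (nat_lit 98) (nat_lit 5) (nat_lit 99) (nat_lit 5) (nat_lit 464) (nat_lit 399) (nat_lit 157)) (XT.lf (nat_lit 0) (nat_lit 44029986977) (nat_lit 304) (nat_lit 14495145847) (nat_lit 76) (nat_lit 14492696138) (nat_lit 95) (nat_lit 5) (nat_lit 99) (nat_lit 5) (nat_lit 96) (nat_lit 5) (nat_lit 465) (nat_lit 399) (nat_lit 156)))))) (XT.nd (nat_lit 546) (nat_lit 228) (nat_lit 0) (XT.nd (nat_lit 234) (nat_lit 456) (nat_lit 0) (XT.nd (nat_lit 78) (nat_lit 304) (nat_lit 0) (XT.lf (nat_lit 0) (nat_lit 26129941076) (nat_lit 228) (nat_lit 34853884757) (nat_lit 304) (nat_lit 13477982757) (nat_lit 92) (nat_lit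 5) (nat_lit 95) (nat_lit 5) (nat_lit 96) (nat_lit 5) (nat_lit 466) (nat_lit 399) (nat_lit 155)) (XT.nd (nat_lit 78) (nat_lit 228) (nat_lit 0) (XT.lf (nat_lit 0) (nat_lit 2595155449) (nat_lit 304) (nat_lit 7701059234) (nat_lit 76) (nat_lit 65647771645) (nat_lit 91) (nat_lit 5) (nat_lit 95) (nat_lit 5) (nat_lit 92) (nat_lit 5) (nat_lit 467) (nat_lit 399) (nat_lit 154)) (XT.lf (nat_lit 0) (nat_lit 19360769808) (nat_lit 304) (nat_lit 42915033472) (nat_lit 76) (nat_lit 15176387682) (nat_lit 88) (nat_lit 5) (nat_lit 92) (nat_lit 5) (nat_lit 89) (nat_lit 5) (nat_lit 468) (nat_lit 399) (nat_lit 153)))) (XT.nd (nat_lit 156) (nat_lit 228) (nat_lit 0) (XT.nd (nat_lit 78) (nat_lit 228) (nat_lit 0) (XT.lf (nat_lit 0) (nat_lit 36808761652) (nat_lit 304) (nat_lit 907398483) (nat_lit 76) (nat_lit 41284099528) (nat_lit 88) (nat_lit 5) (nat_lit 92) (nat_lit 5) (nat_lit 89) (nat_lit 5) (nat_lit 469) (nat_lit 399) (nat_lit 152))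 (XT.lf (nat_lit 0) (nat_lit 43201777230) (nat_lit 228) (nat_lit 11992659856) (nat_lit 304) (nat_lit 25387906220) (nat_lit 85) (nat_lit 5) (nat_lit 88) (nat_lit 5) (nat_lit 89) (nat_lit 5) (nat_lit 470) (nat_lit 399) (nat_lit 151))) (XT.nd (nat_lit 78) (nat_lit 76) (nat_lit 0) (XT.lf (nat_lit 0) (nat_lit 6425380367) (nat_lit 152) (nat_lit 67915697549) (nat_lit 228) (nat_lit 7864529878) (nat_lit 83) (nat_lit 5) (nat_lit 85) (nat_lit 5) (nat_lit 86) (nat_lit 5) (nat_lit 471) (nat_lit 399) (nat_lit 150)) (XT.lf (nat_lit 0) (nat_lit 10484730354) (nat_lit 228) (nat_lit 31776574667) (nat_lit 76) (nat_lit 41598360777) (nat_lit 82) (nat_lit 5) (nat_lit 85) (nat_lit 5) (nat_lit 83) (nat_lit 5) (nat_lit 472) (nat_lit 399) (nat_lit 149))))) (XT.nd (nat_lit 47502) (nat_lit 0) (nat_lit 12692) (XT.nd (nat_lit 78) (nat_lit 0) (nat_lit 0) (XT.lf (nat_lit 0) (nat_lit 13735681740) (nat_lit 228) (nat_lit 15621755932) (nat_lit 304)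 (nat_lit 56199640888) (nat_lit 79) (nat_lit 5) (nat_lit 82) (nat_lit 5) (nat_lit 83) (nat_lit 5) (nat_lit 473) (nat_lit 399) (nat_lit 148)) (XT.nd (nat_lit 47346) (nat_lit 0) (nat_lit 12692) (XT.lf (nat_lit 0) (nat_lit 49232985831) (nat_lit 304) (nat_lit 26149540655) (nat_lit 76) (nat_lit 11909787600) (nat_lit 79) (nat_lit 5) (nat_lit 83) (nat_lit 5) (nat_lit 80) (nat_lit 5) (nat_lit 474) (nat_lit 399) (nat_lit 147)) (XT.lf (nat_lit 0) (nat_lit 1461600326) (nat_lit 1292) (nat_lit 5283414124) (nat_lit 1292) (nat_lit 5283414124) (nat_lit 246) (nat_lit 3) (nat_lit 263) (nat_lit 3) (nat_lit 263) (nat_lit 5) (nat_lit 400) (nat_lit 400) (nat_lit 220)))) (XT.nd (nat_lit 156) (nat_lit 0) (nat_lit 76) (XT.nd (nat_lit 78) (nat_lit 0) (nat_lit 76) (XT.lf (nat_lit 76) (nat_lit 1048807995) (nat_lit 0) (nat_lit 2040372599) (nat_lit 1292) (nat_lit 21324818144) (nat_lit 247) (nat_lit 5) (nat_lit 246) (nat_lit 3) (nat_lit 263)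 (nat_lit 5) (nat_lit 401) (nat_lit 400) (nat_lit 219)) (XT.lf (nat_lit 0) (nat_lit 3457275348) (nat_lit 1216) (nat_lit 11646388321) (nat_lit 1292) (nat_lit 9672278687) (nat_lit 247) (nat_lit 5) (nat_lit 263) (nat_lit 5) (nat_lit 264) (nat_lit 5) (nat_lit 402) (nat_lit 400) (nat_lit 218))) (XT.nd (nat_lit 78) (nat_lit 0) (nat_lit 76) (XT.lf (nat_lit 76) (nat_lit 409384724) (nat_lit 0) (nat_lit 3446917679) (nat_lit 1292) (nat_lit 21291846990) (nat_lit 248) (nat_lit 5) (nat_lit 247) (nat_lit 5) (nat_lit 264) (nat_lit 5) (nat_lit 403) (nat_lit 400) (nat_lit 217)) (XT.lf (nat_lit 0) (nat_lit 4464220566) (nat_lit 1216) (nat_lit 12548368134) (nat_lit 1292) (nat_lit 8513028073) (nat_lit 248) (nat_lit 5) (nat_lit 264) (nat_lit 5) (nat_lit 265) (nat_lit 5) (nat_lit 404) (nat_lit 400) (nat_lit 216))))))) (XT.nd (nat_lit 1092) (nat_lit 4484) (nat_lit 0) (XT.nd (nat_lit 546) (nat_lit 760) (nat_lit 0) (XT.nd (nat_lit 234)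 (nat_lit 0) (nat_lit 152) (XT.nd (nat_lit 78) (nat_lit 0) (nat_lit 76) (XT.lf (nat_lit 0) (nat_lit 5120495193) (nat_lit 1216) (nat_lit 28815083) (nat_lit 1292) (nat_lit 20764196021) (nat_lit 248) (nat_lit 5) (nat_lit 264) (nat_lit 5) (nat_lit 265) (nat_lit 5) (nat_lit 405) (nat_lit 400) (nat_lit 215)) (XT.nd (nat_lit 78) (nat_lit 0) (nat_lit 0) (XT.lf (nat_lit 0) (nat_lit 5987906503) (nat_lit 1216) (nat_lit 13258604762) (nat_lit 1292) (nat_lit 7060779427) (nat_lit 249) (nat_lit 5) (nat_lit 265) (nat_lit 5) (nat_lit 266) (nat_lit 5) (nat_lit 406) (nat_lit 400) (nat_lit 214)) (XT.lf (nat_lit 0) (nat_lit 6928830108) (nat_lit 1216) (nat_lit 247226799) (nat_lit 1292) (nat_lit 19535408608) (nat_lit 249) (nat_lit 5) (nat_lit 265) (nat_lit 5) (nat_lit 266) (nat_lit 5) (nat_lit 407) (nat_lit 400) (nat_lit 213)))) (XT.nd (nat_lit 156) (nat_lit 0) (nat_lit 76) (XT.nd (nat_lit 78) (nat_lit 0) (nat_lit 0) (XT.lf (nat_lit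 0) (nat_lit 8075064528) (nat_lit 1216) (nat_lit 13761973545) (nat_lit 1292) (nat_lit 5285416561) (nat_lit 250) (nat_lit 5) (nat_lit 266) (nat_lit 5) (nat_lit 267) (nat_lit 5) (nat_lit 408) (nat_lit 400) (nat_lit 212)) (XT.lf (nat_lit 0) (nat_lit 9325676505) (nat_lit 1216) (nat_lit 237774459) (nat_lit 1292) (nat_lit 17980224251) (nat_lit 250) (nat_lit 5) (nat_lit 266) (nat_lit 5) (nat_lit 267) (nat_lit 5) (nat_lit 409) (nat_lit 400) (nat_lit 211))) (XT.nd (nat_lit 78) (nat_lit 0) (nat_lit 0) (XT.lf (nat_lit 0) (nat_lit 10775473394) (nat_lit 1216) (nat_lit 14042355338) (nat_lit 1292) (nat_lit 3154855140) (nat_lit 251) (nat_lit 5) (nat_lit 267) (nat_lit 5) (nat_lit 268) (nat_lit 5) (nat_lit 410) (nat_lit 400) (nat_lit 210)) (XT.lf (nat_lit 76) (nat_lit 16971686) (nat_lit 0) (nat_lit 12345679548) (nat_lit 1292) (nat_lit 16049096358) (nat_lit 252) (nat_lit 5) (nat_lit 251) (nat_lit 5) (nat_lit 268) (nat_lit 5) (nat_lit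 411) (nat_lit 400) (nat_lit 209))))) (XT.nd (nat_lit 234) (nat_lit 1064) (nat_lit 0) (XT.nd (nat_lit 78) (nat_lit 0) (nat_lit 0) (XT.lf (nat_lit 0) (nat_lit 14142155312) (nat_lit 1216) (nat_lit 14082602849) (nat_lit 1292) (nat_lit 634885111) (nat_lit 252) (nat_lit 5) (nat_lit 268) (nat_lit 5) (nat_lit 269) (nat_lit 5) (nat_lit 412) (nat_lit 400) (nat_lit 208)) (XT.nd (nat_lit 78) (nat_lit 0) (nat_lit 0) (XT.lf (nat_lit 76) (nat_lit 544817439) (nat_lit 0) (nat_lit 15554489206) (nat_lit 1292) (nat_lit 13217942647) (nat_lit 253) (nat_lit 5) (nat_lit 252) (nat_lit 5) (nat_lit 269) (nat_lit 5) (nat_lit 413) (nat_lit 400) (nat_lit 207)) (XT.lf (nat_lit 76) (nat_lit 15897249686) (nat_lit 0) (nat_lit 2356989615) (nat_lit 1292) (nat_lit 11530173484) (nat_lit 253) (nat_lit 5) (nat_lit 252) (nat_lit 5) (nat_lit 269) (nat_lit 5) (nat_lit 414) (nat_lit 400) (nat_lit 206)))) (XT.nd (nat_lit 156) (nat_lit 1140) (nat_lit 0)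 (XT.nd (nat_lit 78) (nat_lit 0) (nat_lit 0) (XT.lf (nat_lit 76) (nat_lit 1360687700) (nat_lit 0) (nat_lit 19231181108) (nat_lit 1292) (nat_lit 9670182165) (nat_lit 254) (nat_lit 5) (nat_lit 253) (nat_lit 5) (nat_lit 270) (nat_lit 5) (nat_lit 415) (nat_lit 400) (nat_lit 205)) (XT.lf (nat_lit 76) (nat_lit 17324354502) (nat_lit 0) (nat_lit 5835635840) (nat_lit 1292) (nat_lit 7589218290) (nat_lit 254) (nat_lit 5) (nat_lit 253) (nat_lit 5) (nat_lit 270) (nat_lit 5) (nat_lit 416) (nat_lit 400) (nat_lit 204))) (XT.nd (nat_lit 78) (nat_lit 0) (nat_lit 0) (XT.lf (nat_lit 0) (nat_lit 2485404366) (nat_lit 1216) (nat_lit 23417289391) (nat_lit 1292) (nat_lit 5345362303) (nat_lit 238) (nat_lit 5) (nat_lit 254) (nat_lit 5) (nat_lit 255) (nat_lit 5) (nat_lit 417) (nat_lit 400) (nat_lit 203)) (XT.lf (nat_lit 0) (nat_lit 19086751461) (nat_lit 1216) (nat_lit 9830877346) (nat_lit 1292) (nat_lit 2838542739) (nat_lit 238) (nat_lit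 5) (nat_lit 254) (nat_lit 5) (nat_lit 255) (nat_lit 5) (nat_lit 418) (nat_lit 400) (nat_lit 202)))))) (XT.nd (nat_lit 546) (nat_lit 2052) (nat_lit 0) (XT.nd (nat_lit 234) (nat_lit 1140) (nat_lit 0) (XT.nd (nat_lit 78) (nat_lit 684) (nat_lit 0) (XT.lf (nat_lit 0) (nat_lit 3940991699) (nat_lit 608) (nat_lit 28157181154) (nat_lit 684) (nat_lit 179103932) (nat_lit 230) (nat_lit 5) (nat_lit 238) (nat_lit 5) (nat_lit 239) (nat_lit 5) (nat_lit 419) (nat_lit 400) (nat_lit 201)) (XT.nd (nat_lit 78) (nat_lit 608) (nat_lit 0) (XT.lf (nat_lit 0) (nat_lit 2733986904) (nat_lit 684) (nat_lit 11626493806) (nat_lit 76) (nat_lit 18446082461) (nat_lit 229) (nat_lit 5) (nat_lit 238) (nat_lit 5) (nat_lit 230) (nat_lit 5) (nat_lit 420) (nat_lit 400) (nat_lit 200)) (XT.lf (nat_lit 0) (nat_lit 5691420044) (nat_lit 608) (nat_lit 91526599) (nat_lit 684) (nat_lit 27567167050) (nat_lit 221) (nat_lit 5) (nat_lit 229) (nat_lit 5) (nat_lit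 230) (nat_lit 5) (nat_lit 421) (nat_lit 400) (nat_lit 199)))) (XT.nd (nat_lit 156) (nat_lit 532) (nat_lit 0) (XT.nd (nat_lit 78) (nat_lit 608) (nat_lit 0) (XT.lf (nat_lit 0) (nat_lit 9179760641) (nat_lit 684) (nat_lit 10283318610) (nat_lit 76) (nat_lit 14439200908) (nat_lit 221) (nat_lit 5) (nat_lit 230) (nat_lit 5) (nat_lit 222) (nat_lit 5) (nat_lit 422) (nat_lit 400) (nat_lit 198)) (XT.lf (nat_lit 0) (nat_lit 7761424364) (nat_lit 608) (nat_lit 4990064854) (nat_lit 684) (nat_lit 21717333060) (nat_lit 213) (nat_lit 5) (nat_lit 221) (nat_lit 5) (nat_lit 222) (nat_lit 5) (nat_lit 423) (nat_lit 400) (nat_lit 197))) (XT.nd (nat_lit 78) (nat_lit 532) (nat_lit 0) (XT.lf (nat_lit 0) (nat_lit 16628115203) (nat_lit 684) (nat_lit 8589787034) (nat_lit 76) (nat_lit 9828526993) (nat_lit 213) (nat_lit 5) (nat_lit 222) (nat_lit 5) (nat_lit 214) (nat_lit 5) (nat_lit 424) (nat_lit 400) (nat_lit 196)) (XT.lf (nat_lit 0) (nat_lit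 10218934941) (nat_lit 532) (nat_lit 10547360173) (nat_lit 608) (nat_lit 14870712529) (nat_lit 206) (nat_lit 5) (nat_lit 213) (nat_lit 5) (nat_lit 214) (nat_lit 5) (nat_lit 425) (nat_lit 400) (nat_lit 195))))) (XT.nd (nat_lit 312) (nat_lit 988) (nat_lit 0) (XT.nd (nat_lit 156) (nat_lit 532) (nat_lit 0) (XT.nd (nat_lit 78) (nat_lit 532) (nat_lit 0) (XT.lf (nat_lit 0) (nat_lit 25157748151) (nat_lit 608) (nat_lit 6521889992) (nat_lit 76) (nat_lit 4561792317) (nat_lit 206) (nat_lit 5) (nat_lit 214) (nat_lit 5) (nat_lit 207) (nat_lit 5) (nat_lit 426) (nat_lit 400) (nat_lit 194)) (XT.lf (nat_lit 0) (nat_lit 13089783991) (nat_lit 532) (nat_lit 16819148851) (nat_lit 608) (nat_lit 6948214333) (nat_lit 199) (nat_lit 5) (nat_lit 206) (nat_lit 5) (nat_lit 207) (nat_lit 5) (nat_lit 427) (nat_lit 400) (nat_lit 193))) (XT.nd (nat_lit 78) (nat_lit 532) (nat_lit 0) (XT.lf (nat_lit 0) (nat_lit 33421130280) (nat_lit 532) (nat_lit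 1445156120) (nat_lit 608) (nat_lit 2623140823) (nat_lit 199) (nat_lit 5) (nat_lit 206) (nat_lit 5) (nat_lit 207) (nat_lit 5) (nat_lit 428) (nat_lit 400) (nat_lit 192)) (XT.lf (nat_lit 0) (nat_lit 2092672309) (nat_lit 532) (nat_lit 21751284022) (nat_lit 76) (nat_lit 14287290001) (nat_lit 192) (nat_lit 5) (nat_lit 199) (nat_lit 5) (nat_lit 193) (nat_lit 5) (nat_lit 429) (nat_lit 400) (nat_lit 191)))) (XT.nd (nat_lit 156) (nat_lit 456) (nat_lit 0) (XT.nd (nat_lit 78) (nat_lit 532) (nat_lit 0) (XT.lf (nat_lit 0) (nat_lit 6950891497) (nat_lit 532) (nat_lit 1309094739) (nat_lit 76) (nat_lit 30529945762) (nat_lit 192) (nat_lit 5) (nat_lit 199) (nat_lit 5) (nat_lit 193) (nat_lit 5) (nat_lit 430) (nat_lit 400) (nat_lit 190)) (XT.lf (nat_lit 0) (nat_lit 12223156832) (nat_lit 608) (nat_lit 19402456070) (nat_lit 76) (nat_lit 7834717084) (nat_lit 185) (nat_lit 5) (nat_lit 193) (nat_lit 5) (nat_lit 186) (nat_lit 5) (nat_lit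 431) (nat_lit 400) (nat_lit 189))) (XT.nd (nat_lit 78) (nat_lit 0) (nat_lit 0) (XT.lf (nat_lit 0) (nat_lit 1894954863) (nat_lit 456) (nat_lit 15869938635) (nat_lit 532) (nat_lit 22382608031) (nat_lit 179) (nat_lit 5) (nat_lit 185) (nat_lit 5) (nat_lit 186) (nat_lit 5) (nat_lit 432) (nat_lit 400) (nat_lit 188)) (XT.lf (nat_lit 0) (nat_lit 23672183845) (nat_lit 532) (nat_lit 16628163851) (nat_lit 76) (nat_lit 548962172) (nat_lit 179) (nat_lit 5) (nat_lit 186) (nat_lit 5) (nat_lit 180) (nat_lit 5) (nat_lit 433) (nat_lit 400) (nat_lit 187))))))))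
noncomputable def xc222 : XT := (XT.nd (nat_lit 2184) (nat_lit 1520) (nat_lit 0) (XT.nd (nat_lit 1092) (nat_lit 2584) (nat_lit 0) (XT.nd (nat_lit 546) (nat_lit 1520) (nat_lit 0) (XT.nd (nat_lit 234) (nat_lit 836) (nat_lit 0) (XT.nd (nat_lit 78) (nat_lit 456) (nat_lit 0) (XT.lf (nat_lit 0) (nat_lit 5594676379) (nat_lit 456) (nat_lit 24370972364) (nat_lit 532) (nat_lit 11600255714) (nat_lit 173) (nat_lit 5) (nat_lit 179) (nat_lit 5) (nat_lit 180) (nat_lit 5) (nat_lit 434) (nat_lit 400) (nat_lit 186)) (XT.nd (nat_lit 78) (nat_lit 456) (nat_lit 0) (XT.lf (nat_lit 0) (nat_lit 28822767348) (nat_lit 456) (nat_lit 7791145155) (nat_lit 532) (nat_lit 5685105190) (nat_lit 173) (nat_lit 5) (nat_lit 179) (nat_lit 5) (nat_lit 180) (nat_lit 5) (nat_lit 435) (nat_lit 400) (nat_lit 185)) (XT.lf (nat_lit 0) (nat_lit 582881206) (nat_lit 456) (nat_lit 33261262469) (nat_lit 76) (nat_lit 9204363761) (nat_lit 167) (nat_lit 5) (nat_lit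 173) (nat_lit 5) (nat_lit 168) (nat_lit 5) (nat_lit 436) (nat_lit 400) (nat_lit 184)))) (XT.nd (nat_lit 156) (nat_lit 380) (nat_lit 0) (XT.nd (nat_lit 78) (nat_lit 456) (nat_lit 0) (XT.lf (nat_lit 0) (nat_lit 7137362539) (nat_lit 456) (nat_lit 9928576553) (nat_lit 76) (nat_lit 26746473124) (nat_lit 167) (nat_lit 5) (nat_lit 173) (nat_lit 5) (nat_lit 168) (nat_lit 5) (nat_lit 437) (nat_lit 400) (nat_lit 183)) (XT.lf (nat_lit 0) (nat_lit 14028372237) (nat_lit 532) (nat_lit 30216063468) (nat_lit 76) (nat_lit 350602201) (nat_lit 161) (nat_lit 5) (nat_lit 168) (nat_lit 5) (nat_lit 162) (nat_lit 5) (nat_lit 438) (nat_lit 400) (nat_lit 182))) (XT.nd (nat_lit 78) (nat_lit 380) (nat_lit 0) (XT.lf (nat_lit 0) (nat_lit 21394563720) (nat_lit 532) (nat_lit 5951076108) (nat_lit 76) (nat_lit 18047449559) (nat_lit 161) (nat_lit 5) (nat_lit 168) (nat_lit 5) (nat_lit 162) (nat_lit 5) (nat_lit 439) (nat_lit 400) (nat_lit 181))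 (XT.lf (nat_lit 0) (nat_lit 19418596167) (nat_lit 380) (nat_lit 9748089739) (nat_lit 456) (nat_lit 17042848706) (nat_lit 156) (nat_lit 5) (nat_lit 161) (nat_lit 5) (nat_lit 162) (nat_lit 5) (nat_lit 440) (nat_lit 400) (nat_lit 180))))) (XT.nd (nat_lit 234) (nat_lit 684) (nat_lit 0) (XT.nd (nat_lit 78) (nat_lit 836) (nat_lit 0) (XT.lf (nat_lit 0) (nat_lit 37311495626) (nat_lit 456) (nat_lit 1460660658) (nat_lit 76) (nat_lit 8274131730) (nat_lit 156) (nat_lit 5) (nat_lit 162) (nat_lit 5) (nat_lit 157) (nat_lit 5) (nat_lit 441) (nat_lit 400) (nat_lit 179)) (XT.nd (nat_lit 78) (nat_lit 456) (nat_lit 0) (XT.lf (nat_lit 0) (nat_lit 25019069886) (nat_lit 380) (nat_lit 21016949538) (nat_lit 456) (nat_lit 1862064017) (nat_lit 151) (nat_lit 5) (nat_lit 156) (nat_lit 5) (nat_lit 157) (nat_lit 5) (nat_lit 442) (nat_lit 400) (nat_lit 178)) (XT.lf (nat_lit 0) (nat_lit 3555159740) (nat_lit 380) (nat_lit 2617224566) (nat_lit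 456) (nat_lit 42599824360) (nat_lit 145) (nat_lit 5) (nat_lit 150) (nat_lit 5) (nat_lit 151) (nat_lit 5) (nat_lit 443) (nat_lit 400) (nat_lit 177)))) (XT.nd (nat_lit 156) (nat_lit 304) (nat_lit 0) (XT.nd (nat_lit 78) (nat_lit 380) (nat_lit 0) (XT.lf (nat_lit 0) (nat_lit 14799166390) (nat_lit 456) (nat_lit 18594198152) (nat_lit 76) (nat_lit 16266978714) (nat_lit 145) (nat_lit 5) (nat_lit 151) (nat_lit 5) (nat_lit 146) (nat_lit 5) (nat_lit 444) (nat_lit 400) (nat_lit 176)) (XT.lf (nat_lit 0) (nat_lit 8974425866) (nat_lit 380) (nat_lit 14820941988) (nat_lit 456) (nat_lit 26776436012) (nat_lit 140) (nat_lit 5) (nat_lit 145) (nat_lit 5) (nat_lit 146) (nat_lit 5) (nat_lit 445) (nat_lit 400) (nat_lit 175))) (XT.nd (nat_lit 78) (nat_lit 304) (nat_lit 0) (XT.lf (nat_lit 0) (nat_lit 33290951878) (nat_lit 456) (nat_lit 13799123335) (nat_lit 76) (nat_lit 4413648632) (nat_lit 140) (nat_lit 5) (nat_lit 146) (nat_lit 5) (nat_lit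 141) (nat_lit 5) (nat_lit 446) (nat_lit 400) (nat_lit 174)) (XT.lf (nat_lit 0) (nat_lit 14976501926) (nat_lit 304) (nat_lit 28384106897) (nat_lit 380) (nat_lit 9094316874) (nat_lit 136) (nat_lit 5) (nat_lit 140) (nat_lit 5) (nat_lit 141) (nat_lit 5) (nat_lit 447) (nat_lit 400) (nat_lit 173)))))) (XT.nd (nat_lit 546) (nat_lit 1140) (nat_lit 0) (XT.nd (nat_lit 234) (nat_lit 988) (nat_lit 0) (XT.nd (nat_lit 78) (nat_lit 380) (nat_lit 0) (XT.lf (nat_lit 0) (nat_lit 431115521) (nat_lit 380) (nat_lit 8538550302) (nat_lit 76) (nat_lit 44460735359) (nat_lit 135) (nat_lit 5) (nat_lit 140) (nat_lit 5) (nat_lit 136) (nat_lit 5) (nat_lit 448) (nat_lit 400) (nat_lit 172)) (XT.nd (nat_lit 78) (nat_lit 0) (nat_lit 0) (XT.lf (nat_lit 0) (nat_lit 10374640400) (nat_lit 456) (nat_lit 32936276667) (nat_lit 76) (nat_lit 11112069494) (nat_lit 130) (nat_lit 5) (nat_lit 136) (nat_lit 5) (nat_lit 131) (nat_lit 5) (nat_lit 449) (nat_lit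 400) (nat_lit 171)) (XT.lf (nat_lit 0) (nat_lit 20790925515) (nat_lit 456) (nat_lit 2946712234) (nat_lit 76) (nat_lit 31702478501) (nat_lit 130) (nat_lit 5) (nat_lit 136) (nat_lit 5) (nat_lit 131) (nat_lit 5) (nat_lit 450) (nat_lit 400) (nat_lit 170)))) (XT.nd (nat_lit 156) (nat_lit 380) (nat_lit 0) (XT.nd (nat_lit 78) (nat_lit 304) (nat_lit 0) (XT.lf (nat_lit 0) (nat_lit 28496623558) (nat_lit 304) (nat_lit 3295613878) (nat_lit 380) (nat_lit 24687346621) (nat_lit 126) (nat_lit 5) (nat_lit 130) (nat_lit 5) (nat_lit 131) (nat_lit 5) (nat_lit 451) (nat_lit 400) (nat_lit 169)) (XT.lf (nat_lit 0) (nat_lit 3285416331) (nat_lit 304) (nat_lit 40069148299) (nat_lit 380) (nat_lit 14188742356) (nat_lit 122) (nat_lit 5) (nat_lit 126) (nat_lit 5) (nat_lit 127) (nat_lit 5) (nat_lit 452) (nat_lit 400) (nat_lit 168))) (XT.nd (nat_lit 78) (nat_lit 380) (nat_lit 0) (XT.lf (nat_lit 0) (nat_lit 36030204667) (nat_lit 304) (nat_lit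 19547087895) (nat_lit 380) (nat_lit 3052243463) (nat_lit 122) (nat_lit 5) (nat_lit 126) (nat_lit 5) (nat_lit 127) (nat_lit 5) (nat_lit 453) (nat_lit 400) (nat_lit 167)) (XT.lf (nat_lit 0) (nat_lit 8367115708) (nat_lit 380) (nat_lit 49636435118) (nat_lit 76) (nat_lit 1738982644) (nat_lit 117) (nat_lit 5) (nat_lit 122) (nat_lit 5) (nat_lit 118) (nat_lit 5) (nat_lit 454) (nat_lit 400) (nat_lit 166))))) (XT.nd (nat_lit 234) (nat_lit 836) (nat_lit 0) (XT.nd (nat_lit 78) (nat_lit 304) (nat_lit 0) (XT.lf (nat_lit 0) (nat_lit 20490400536) (nat_lit 380) (nat_lit 16854101812) (nat_lit 76) (nat_lit 23530831446) (nat_lit 117) (nat_lit 5) (nat_lit 122) (nat_lit 5) (nat_lit 118) (nat_lit 5) (nat_lit 455) (nat_lit 400) (nat_lit 165)) (XT.nd (nat_lit 78) (nat_lit 0) (nat_lit 0) (XT.lf (nat_lit 0) (nat_lit 17246329715) (nat_lit 304) (nat_lit 15895562680) (nat_lit 380) (nat_lit 28895290793) (nat_lit 113) (nat_lit 5) (nat_lit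 117) (nat_lit 5) (nat_lit 118) (nat_lit 5) (nat_lit 456) (nat_lit 400) (nat_lit 164)) (XT.lf (nat_lit 0) (nat_lit 46403114363) (nat_lit 380) (nat_lit 10576691360) (nat_lit 76) (nat_lit 6247177084) (nat_lit 113) (nat_lit 5) (nat_lit 118) (nat_lit 5) (nat_lit 114) (nat_lit 5) (nat_lit 457) (nat_lit 400) (nat_lit 163)))) (XT.nd (nat_lit 156) (nat_lit 532) (nat_lit 0) (XT.nd (nat_lit 78) (nat_lit 76) (nat_lit 0) (XT.lf (nat_lit 0) (nat_lit 24992337435) (nat_lit 228) (nat_lit 35466234748) (nat_lit 304) (nat_lit 3982012551) (nat_lit 110) (nat_lit 5) (nat_lit 113) (nat_lit 5) (nat_lit 114) (nat_lit 5) (nat_lit 458) (nat_lit 400) (nat_lit 162)) (XT.lf (nat_lit 0) (nat_lit 9171336556) (nat_lit 304) (nat_lit 3933941838) (nat_lit 76) (nat_lit 52579451235) (nat_lit 109) (nat_lit 5) (nat_lit 113) (nat_lit 5) (nat_lit 110) (nat_lit 5) (nat_lit 459) (nat_lit 400) (nat_lit 161))) (XT.nd (nat_lit 78) (nat_lit 228) (nat_lit 0)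 (XT.lf (nat_lit 0) (nat_lit 23056689744) (nat_lit 380) (nat_lit 33800988266) (nat_lit 76) (nat_lit 10094815213) (nat_lit 105) (nat_lit 5) (nat_lit 110) (nat_lit 5) (nat_lit 106) (nat_lit 5) (nat_lit 460) (nat_lit 400) (nat_lit 160)) (XT.lf (nat_lit 0) (nat_lit 3101604182) (nat_lit 228) (nat_lit 34455515461) (nat_lit 304) (nat_lit 30695214859) (nat_lit 102) (nat_lit 5) (nat_lit 105) (nat_lit 5) (nat_lit 106) (nat_lit 5) (nat_lit 461) (nat_lit 400) (nat_lit 159))))))) (XT.nd (nat_lit 48516) (nat_lit 0) (nat_lit 12540) (XT.nd (nat_lit 546) (nat_lit 684) (nat_lit 0) (XT.nd (nat_lit 234) (nat_lit 532) (nat_lit 0) (XT.nd (nat_lit 78) (nat_lit 304) (nat_lit 0) (XT.lf (nat_lit 0) (nat_lit 41802349591) (nat_lit 228) (nat_lit 11030381226) (nat_lit 304) (nat_lit 16748235408) (nat_lit 102) (nat_lit 5) (nat_lit 105) (nat_lit 5) (nat_lit 106) (nat_lit 5) (nat_lit 462) (nat_lit 400) (nat_lit 158)) (XT.nd (nat_lit 78) (nat_lit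 76) (nat_lit 0) (XT.lf (nat_lit 0) (nat_lit 10797673790) (nat_lit 228) (nat_lit 57997503825) (nat_lit 304) (nat_lit 2147422511) (nat_lit 99) (nat_lit 5) (nat_lit 102) (nat_lit 5) (nat_lit 103) (nat_lit 5) (nat_lit 463) (nat_lit 400) (nat_lit 157)) (XT.lf (nat_lit 0) (nat_lit 13031232203) (nat_lit 304) (nat_lit 21473681605) (nat_lit 76) (nat_lit 37824710605) (nat_lit 98) (nat_lit 5) (nat_lit 102) (nat_lit 5) (nat_lit 99) (nat_lit 5) (nat_lit 464) (nat_lit 400) (nat_lit 156)))) (XT.nd (nat_lit 156) (nat_lit 304) (nat_lit 0) (XT.nd (nat_lit 78) (nat_lit 0) (nat_lit 0) (XT.lf (nat_lit 0) (nat_lit 18699595517) (nat_lit 228) (nat_lit 10101151432) (nat_lit 304) (nat_lit 44951515014) (nat_lit 95) (nat_lit 5) (nat_lit 98) (nat_lit 5) (nat_lit 99) (nat_lit 5) (nat_lit 465) (nat_lit 400) (nat_lit 155)) (XT.lf (nat_lit 0) (nat_lit 45405777613) (nat_lit 304) (nat_lit 14841231919) (nat_lit 76) (nat_lit 14959696413) (nat_lit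 95) (nat_lit 5) (nat_lit 99) (nat_lit 5) (nat_lit 96) (nat_lit 5) (nat_lit 466) (nat_lit 400) (nat_lit 154))) (XT.nd (nat_lit 78) (nat_lit 76) (nat_lit 0) (XT.lf (nat_lit 0) (nat_lit 27001737335) (nat_lit 228) (nat_lit 35865740461) (nat_lit 304) (nat_lit 13826550104) (nat_lit 92) (nat_lit 5) (nat_lit 95) (nat_lit 5) (nat_lit 96) (nat_lit 5) (nat_lit 467) (nat_lit 400) (nat_lit 153)) (XT.lf (nat_lit 0) (nat_lit 2726101200) (nat_lit 304) (nat_lit 7845686295) (nat_lit 76) (nat_lit 67648915481) (nat_lit 91) (nat_lit 5) (nat_lit 95) (nat_lit 5) (nat_lit 92) (nat_lit 5) (nat_lit 468) (nat_lit 400) (nat_lit 152))))) (XT.nd (nat_lit 234) (nat_lit 228) (nat_lit 0) (XT.nd (nat_lit 78) (nat_lit 228) (nat_lit 0) (XT.lf (nat_lit 0) (nat_lit 19994279126) (nat_lit 304) (nat_lit 44115664984) (nat_lit 76) (nat_lit 15664222082) (nat_lit 88) (nat_lit 5) (nat_lit 92) (nat_lit 5) (nat_lit 89) (nat_lit 5) (nat_lit 469) (nat_lit 400)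 (nat_lit 151)) (XT.nd (nat_lit 78) (nat_lit 228) (nat_lit 0) (XT.lf (nat_lit 0) (nat_lit 37964176176) (nat_lit 304) (nat_lit 850329668) (nat_lit 76) (nat_lit 42554217436) (nat_lit 88) (nat_lit 5) (nat_lit 92) (nat_lit 5) (nat_lit 89) (nat_lit 5) (nat_lit 470) (nat_lit 400) (nat_lit 150)) (XT.lf (nat_lit 0) (nat_lit 44581294936) (nat_lit 228) (nat_lit 12319439393) (nat_lit 304) (nat_lit 26097556009) (nat_lit 85) (nat_lit 5) (nat_lit 88) (nat_lit 5) (nat_lit 89) (nat_lit 5) (nat_lit 471) (nat_lit 400) (nat_lit 149)))) (XT.nd (nat_lit 47580) (nat_lit 0) (nat_lit 12464) (XT.nd (nat_lit 78) (nat_lit 76) (nat_lit 0) (XT.lf (nat_lit 0) (nat_lit 6701982114) (nat_lit 152) (nat_lit 69919436345) (nat_lit 228) (nat_lit 8048845252) (nat_lit 83) (nat_lit 5) (nat_lit 85) (nat_lit 5) (nat_lit 86) (nat_lit 5) (nat_lit 472) (nat_lit 400) (nat_lit 148)) (XT.lf (nat_lit 0) (nat_lit 10848411312) (nat_lit 228) (nat_lit 32647487010)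 (nat_lit 76) (nat_lit 42878074728) (nat_lit 82) (nat_lit 5) (nat_lit 85) (nat_lit 5) (nat_lit 83) (nat_lit 5) (nat_lit 473) (nat_lit 400) (nat_lit 147))) (XT.nd (nat_lit 78) (nat_lit 0) (nat_lit 0) (XT.lf (nat_lit 0) (nat_lit 1616421389) (nat_lit 1292) (nat_lit 5384741997) (nat_lit 1292) (nat_lit 5384741997) (nat_lit 246) (nat_lit 3) (nat_lit 263) (nat_lit 3) (nat_lit 263) (nat_lit 5) (nat_lit 401) (nat_lit 401) (nat_lit 218)) (XT.lf (nat_lit 76) (nat_lit 1193500266) (nat_lit 0) (nat_lit 2204925818) (nat_lit 1292) (nat_lit 21741404529) (nat_lit 247) (nat_lit 5) (nat_lit 246) (nat_lit 3) (nat_lit 263) (nat_lit 5) (nat_lit 402) (nat_lit 401) (nat_lit 217)))))) (XT.nd (nat_lit 546) (nat_lit 0) (nat_lit 228) (XT.nd (nat_lit 234) (nat_lit 0) (nat_lit 76) (XT.nd (nat_lit 78) (nat_lit 0) (nat_lit 0) (XT.lf (nat_lit 0) (nat_lit 3770291362) (nat_lit 1216) (nat_lit 11878489190) (nat_lit 1292) (nat_lit 9864072808) (nat_lit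 247) (nat_lit 5) (nat_lit 263) (nat_lit 5) (nat_lit 264) (nat_lit 5) (nat_lit 403) (nat_lit 401) (nat_lit 216)) (XT.nd (nat_lit 78) (nat_lit 0) (nat_lit 76) (XT.lf (nat_lit 76) (nat_lit 537807137) (nat_lit 0) (nat_lit 3638502458) (nat_lit 1292) (nat_lit 21720068976) (nat_lit 248) (nat_lit 5) (nat_lit 247) (nat_lit 5) (nat_lit 264) (nat_lit 5) (nat_lit 404) (nat_lit 401) (nat_lit 215)) (XT.lf (nat_lit 0) (nat_lit 4795691364) (nat_lit 1216) (nat_lit 12805203849) (nat_lit 1292) (nat_lit 8684480476) (nat_lit 248) (nat_lit 5) (nat_lit 264) (nat_lit 5) (nat_lit 265) (nat_lit 5) (nat_lit 405) (nat_lit 401) (nat_lit 214)))) (XT.nd (nat_lit 156) (nat_lit 0) (nat_lit 76) (XT.nd (nat_lit 78) (nat_lit 0) (nat_lit 76) (XT.lf (nat_lit 76) (nat_lit 88172412) (nat_lit 0) (nat_lit 5378575670) (nat_lit 1292) (nat_lit 21218303425) (nat_lit 249) (nat_lit 5) (nat_lit 248) (nat_lit 5) (nat_lit 265) (nat_lit 5) (nat_lit 406) (nat_lit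 401) (nat_lit 213)) (XT.lf (nat_lit 0) (nat_lit 6354158262) (nat_lit 1216) (nat_lit 13534977132) (nat_lit 1292) (nat_lit 7201697099) (nat_lit 249) (nat_lit 5) (nat_lit 265) (nat_lit 5) (nat_lit 266) (nat_lit 5) (nat_lit 407) (nat_lit 401) (nat_lit 212))) (XT.nd (nat_lit 78) (nat_lit 0) (nat_lit 76) (XT.lf (nat_lit 0) (nat_lit 7317874199) (nat_lit 1216) (nat_lit 136793338) (nat_lit 1292) (nat_lit 20052630371) (nat_lit 249) (nat_lit 5) (nat_lit 265) (nat_lit 5) (nat_lit 266) (nat_lit 5) (nat_lit 408) (nat_lit 401) (nat_lit 211)) (XT.lf (nat_lit 0) (nat_lit 8493760412) (nat_lit 1216) (nat_lit 14052173268) (nat_lit 1292) (nat_lit 5384827298) (nat_lit 250) (nat_lit 5) (nat_lit 266) (nat_lit 5) (nat_lit 267) (nat_lit 5) (nat_lit 409) (nat_lit 401) (nat_lit 210))))) (XT.nd (nat_lit 312) (nat_lit 0) (nat_lit 152) (XT.nd (nat_lit 156) (nat_lit 0) (nat_lit 76) (XT.nd (nat_lit 78) (nat_lit 0) (nat_lit 76) (XT.lf (nat_lit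 0) (nat_lit 9776751603) (nat_lit 1216) (nat_lit 125820815) (nat_lit 1292) (nat_lit 18462202085) (nat_lit 250) (nat_lit 5) (nat_lit 266) (nat_lit 5) (nat_lit 267) (nat_lit 5) (nat_lit 410) (nat_lit 401) (nat_lit 209)) (XT.lf (nat_lit 0) (nat_lit 11265710345) (nat_lit 1216) (nat_lit 14340137334) (nat_lit 1292) (nat_lit 3200937795) (nat_lit 251) (nat_lit 5) (nat_lit 267) (nat_lit 5) (nat_lit 268) (nat_lit 5) (nat_lit 411) (nat_lit 401) (nat_lit 208))) (XT.nd (nat_lit 78) (nat_lit 0) (nat_lit 76) (XT.lf (nat_lit 76) (nat_lit 139758827) (nat_lit 0) (nat_lit 12757056820) (nat_lit 1292) (nat_lit 16362318127) (nat_lit 252) (nat_lit 5) (nat_lit 251) (nat_lit 5) (nat_lit 268) (nat_lit 5) (nat_lit 412) (nat_lit 401) (nat_lit 207)) (XT.lf (nat_lit 0) (nat_lit 14724566275) (nat_lit 1216) (nat_lit 14381160138) (nat_lit 1292) (nat_lit 614896040) (nat_lit 252) (nat_lit 5) (nat_lit 268) (nat_lit 5) (nat_lit 269) (nat_lit 5)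 (nat_lit 413) (nat_lit 401) (nat_lit 206)))) (XT.nd (nat_lit 156) (nat_lit 0) (nat_lit 76) (XT.nd (nat_lit 78) (nat_lit 0) (nat_lit 0) (XT.lf (nat_lit 76) (nat_lit 683867849) (nat_lit 0) (nat_lit 16053137619) (nat_lit 1292) (nat_lit 13455055900) (nat_lit 253) (nat_lit 5) (nat_lit 252) (nat_lit 5) (nat_lit 269) (nat_lit 5) (nat_lit 414) (nat_lit 401) (nat_lit 205)) (XT.lf (nat_lit 76) (nat_lit 16493299105) (nat_lit 0) (nat_lit 2458780602) (nat_lit 1292) (nat_lit 11721297109) (nat_lit 253) (nat_lit 5) (nat_lit 252) (nat_lit 5) (nat_lit 269) (nat_lit 5) (nat_lit 415) (nat_lit 401) (nat_lit 204))) (XT.nd (nat_lit 78) (nat_lit 0) (nat_lit 0) (XT.lf (nat_lit 76) (nat_lit 1524291707) (nat_lit 0) (nat_lit 19832061448) (nat_lit 1292) (nat_lit 9809097347) (nat_lit 254) (nat_lit 5) (nat_lit 253) (nat_lit 5) (nat_lit 270) (nat_lit 5) (nat_lit 416) (nat_lit 401) (nat_lit 203)) (XT.lf (nat_lit 76) (nat_lit 17963292299) (nat_lit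 0) (nat_lit 6033952397) (nat_lit 1292) (nat_lit 7670108157) (nat_lit 254) (nat_lit 5) (nat_lit 253) (nat_lit 5) (nat_lit 270) (nat_lit 5) (nat_lit 417) (nat_lit 401) (nat_lit 202))))))))
noncomputable def xc223 : XT := (XT.nd (nat_lit 2262) (nat_lit 4332) (nat_lit 0) (XT.nd (nat_lit 1092) (nat_lit 3952) (nat_lit 0) (XT.nd (nat_lit 546) (nat_lit 1596) (nat_lit 0) (XT.nd (nat_lit 234) (nat_lit 1292) (nat_lit 0) (XT.nd (nat_lit 78) (nat_lit 608) (nat_lit 0) (XT.lf (nat_lit 0) (nat_lit 2682515807) (nat_lit 1216) (nat_lit 24136525302) (nat_lit 1292) (nat_lit 5362221940) (nat_lit 238) (nat_lit 5) (nat_lit 254) (nat_lit 5) (nat_lit 255) (nat_lit 5) (nat_lit 418) (nat_lit 401) (nat_lit 201)) (XT.nd (nat_lit 78) (nat_lit 608) (nat_lit 0) (XT.lf (nat_lit 0) (nat_lit 19778333917) (nat_lit 1216) (nat_lit 10142033986) (nat_lit 1292) (nat_lit 2784377437) (nat_lit 238) (nat_lit 5) (nat_lit 254) (nat_lit 5) (nat_lit 255) (nat_lit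 5) (nat_lit 419) (nat_lit 401) (nat_lit 200)) (XT.lf (nat_lit 0) (nat_lit 4181260424) (nat_lit 608) (nat_lit 29012151325) (nat_lit 684) (nat_lit 48161085) (nat_lit 230) (nat_lit 5) (nat_lit 238) (nat_lit 5) (nat_lit 239) (nat_lit 5) (nat_lit 420) (nat_lit 401) (nat_lit 199)))) (XT.nd (nat_lit 156) (nat_lit 608) (nat_lit 0) (XT.nd (nat_lit 78) (nat_lit 608) (nat_lit 0) (XT.lf (nat_lit 0) (nat_lit 2945769570) (nat_lit 684) (nat_lit 11854171264) (nat_lit 76) (nat_lit 18986875966) (nat_lit 229) (nat_lit 5) (nat_lit 238) (nat_lit 5) (nat_lit 230) (nat_lit 5) (nat_lit 421) (nat_lit 401) (nat_lit 198)) (XT.lf (nat_lit 0) (nat_lit 5982092577) (nat_lit 608) (nat_lit 101478857) (nat_lit 684) (nat_lit 28263182670) (nat_lit 221) (nat_lit 5) (nat_lit 229) (nat_lit 5) (nat_lit 230) (nat_lit 5) (nat_lit 422) (nat_lit 401) (nat_lit 197))) (XT.nd (nat_lit 78) (nat_lit 608) (nat_lit 0) (XT.lf (nat_lit 0) (nat_lit 9578519595)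 (nat_lit 684) (nat_lit 10471563601) (nat_lit 76) (nat_lit 14865516900) (nat_lit 221) (nat_lit 5) (nat_lit 230) (nat_lit 5) (nat_lit 222) (nat_lit 5) (nat_lit 423) (nat_lit 401) (nat_lit 196)) (XT.lf (nat_lit 0) (nat_lit 8113342696) (nat_lit 608) (nat_lit 5141608773) (nat_lit 684) (nat_lit 22244261850) (nat_lit 213) (nat_lit 5) (nat_lit 221) (nat_lit 5) (nat_lit 222) (nat_lit 5) (nat_lit 424) (nat_lit 401) (nat_lit 195))))) (XT.nd (nat_lit 234) (nat_lit 1064) (nat_lit 0) (XT.nd (nat_lit 78) (nat_lit 532) (nat_lit 0) (XT.lf (nat_lit 0) (nat_lit 17244337172) (nat_lit 684) (nat_lit 8728289446) (nat_lit 76) (nat_lit 10121629375) (nat_lit 213) (nat_lit 5) (nat_lit 222) (nat_lit 5) (nat_lit 214) (nat_lit 5) (nat_lit 425) (nat_lit 401) (nat_lit 194)) (XT.nd (nat_lit 78) (nat_lit 0) (nat_lit 0) (XT.lf (nat_lit 0) (nat_lit 10643525646) (nat_lit 532) (nat_lit 10860852548) (nat_lit 608) (nat_lit 15198243398) (nat_lit 206)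 (nat_lit 5) (nat_lit 213) (nat_lit 5) (nat_lit 214) (nat_lit 5) (nat_lit 426) (nat_lit 401) (nat_lit 193)) (XT.lf (nat_lit 0) (nat_lit 26024249893) (nat_lit 608) (nat_lit 6599594470) (nat_lit 76) (nat_lit 4701433743) (nat_lit 206) (nat_lit 5) (nat_lit 214) (nat_lit 5) (nat_lit 207) (nat_lit 5) (nat_lit 427) (nat_lit 401) (nat_lit 192)))) (XT.nd (nat_lit 156) (nat_lit 532) (nat_lit 0) (XT.nd (nat_lit 78) (nat_lit 0) (nat_lit 0) (XT.lf (nat_lit 0) (nat_lit 13599273338) (nat_lit 532) (nat_lit 17316564083) (nat_lit 608) (nat_lit 7043694111) (nat_lit 199) (nat_lit 5) (nat_lit 206) (nat_lit 5) (nat_lit 207) (nat_lit 5) (nat_lit 428) (nat_lit 401) (nat_lit 191)) (XT.lf (nat_lit 0) (nat_lit 34537158196) (nat_lit 532) (nat_lit 1481560092) (nat_lit 608) (nat_lit 2592158686) (nat_lit 199) (nat_lit 5) (nat_lit 206) (nat_lit 5) (nat_lit 207) (nat_lit 5) (nat_lit 429) (nat_lit 401) (nat_lit 190))) (XT.nd (nat_lit 78) (nat_lit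 0) (nat_lit 0) (XT.lf (nat_lit 0) (nat_lit 2261042495) (nat_lit 532) (nat_lit 22286266100) (nat_lit 76) (nat_lit 14724669942) (nat_lit 192) (nat_lit 5) (nat_lit 199) (nat_lit 5) (nat_lit 193) (nat_lit 5) (nat_lit 430) (nat_lit 401) (nat_lit 189)) (XT.lf (nat_lit 0) (nat_lit 7261932822) (nat_lit 532) (nat_lit 1234235112) (nat_lit 76) (nat_lit 31454350194) (nat_lit 192) (nat_lit 5) (nat_lit 199) (nat_lit 5) (nat_lit 193) (nat_lit 5) (nat_lit 431) (nat_lit 401) (nat_lit 188)))))) (XT.nd (nat_lit 546) (nat_lit 2052) (nat_lit 0) (XT.nd (nat_lit 234) (nat_lit 912) (nat_lit 0) (XT.nd (nat_lit 78) (nat_lit 456) (nat_lit 0) (XT.lf (nat_lit 0) (nat_lit 12690585792) (nat_lit 608) (nat_lit 19868581625) (nat_lit 76) (nat_lit 8081915108) (nat_lit 185) (nat_lit 5) (nat_lit 193) (nat_lit 5) (nat_lit 186) (nat_lit 5) (nat_lit 432) (nat_lit 401) (nat_lit 187)) (XT.nd (nat_lit 78) (nat_lit 0) (nat_lit 0) (XT.lf (nat_lit 0) (nat_lit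 2066614889) (nat_lit 456) (nat_lit 16330129299) (nat_lit 532) (nat_lit 22952180967) (nat_lit 179) (nat_lit 5) (nat_lit 185) (nat_lit 5) (nat_lit 186) (nat_lit 5) (nat_lit 433) (nat_lit 401) (nat_lit 186)) (XT.lf (nat_lit 0) (nat_lit 24478521009) (nat_lit 532) (nat_lit 17012775866) (nat_lit 76) (nat_lit 580573836) (nat_lit 179) (nat_lit 5) (nat_lit 186) (nat_lit 5) (nat_lit 180) (nat_lit 5) (nat_lit 434) (nat_lit 401) (nat_lit 185)))) (XT.nd (nat_lit 156) (nat_lit 456) (nat_lit 0) (XT.nd (nat_lit 78) (nat_lit 0) (nat_lit 0) (XT.lf (nat_lit 0) (nat_lit 5875629640) (nat_lit 456) (nat_lit 25083446409) (nat_lit 532) (nat_lit 11850939473) (nat_lit 173) (nat_lit 5) (nat_lit 179) (nat_lit 5) (nat_lit 180) (nat_lit 5) (nat_lit 435) (nat_lit 401) (nat_lit 184)) (XT.lf (nat_lit 0) (nat_lit 29797268786) (nat_lit 456) (nat_lit 8006767736) (nat_lit 532) (nat_lit 5761169110) (nat_lit 173) (nat_lit 5) (nat_lit 179) (nat_lit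 5) (nat_lit 180) (nat_lit 5) (nat_lit 436) (nat_lit 401) (nat_lit 183))) (XT.nd (nat_lit 78) (nat_lit 0) (nat_lit 0) (XT.lf (nat_lit 0) (nat_lit 691566062) (nat_lit 456) (nat_lit 34145931043) (nat_lit 76) (nat_lit 9499700011) (nat_lit 167) (nat_lit 5) (nat_lit 173) (nat_lit 5) (nat_lit 168) (nat_lit 5) (nat_lit 437) (nat_lit 401) (nat_lit 182)) (XT.lf (nat_lit 0) (nat_lit 7440025571) (nat_lit 456) (nat_lit 10116560743) (nat_lit 76) (nat_lit 27567513276) (nat_lit 167) (nat_lit 5) (nat_lit 173) (nat_lit 5) (nat_lit 168) (nat_lit 5) (nat_lit 438) (nat_lit 401) (nat_lit 181))))) (XT.nd (nat_lit 312) (nat_lit 1216) (nat_lit 0) (XT.nd (nat_lit 156) (nat_lit 380) (nat_lit 0) (XT.nd (nat_lit 78) (nat_lit 0) (nat_lit 0) (XT.lf (nat_lit 0) (nat_lit 14536441903) (nat_lit 532) (nat_lit 31011320717) (nat_lit 76) (nat_lit 382481976) (nat_lit 161) (nat_lit 5) (nat_lit 168) (nat_lit 5) (nat_lit 162) (nat_lit 5) (nat_lit 439)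 (nat_lit 401) (nat_lit 180)) (XT.lf (nat_lit 0) (nat_lit 22121078786) (nat_lit 532) (nat_lit 6021623289) (nat_lit 76) (nat_lit 18609612569) (nat_lit 161) (nat_lit 5) (nat_lit 168) (nat_lit 5) (nat_lit 162) (nat_lit 5) (nat_lit 440) (nat_lit 401) (nat_lit 179))) (XT.nd (nat_lit 78) (nat_lit 0) (nat_lit 0) (XT.lf (nat_lit 0) (nat_lit 20108080477) (nat_lit 380) (nat_lit 10016845650) (nat_lit 456) (nat_lit 17468371044) (nat_lit 156) (nat_lit 5) (nat_lit 161) (nat_lit 5) (nat_lit 162) (nat_lit 5) (nat_lit 441) (nat_lit 401) (nat_lit 178)) (XT.lf (nat_lit 0) (nat_lit 38511876742) (nat_lit 456) (nat_lit 1398439495) (nat_lit 76) (nat_lit 8544903805) (nat_lit 156) (nat_lit 5) (nat_lit 162) (nat_lit 5) (nat_lit 157) (nat_lit 5) (nat_lit 442) (nat_lit 401) (nat_lit 177)))) (XT.nd (nat_lit 156) (nat_lit 380) (nat_lit 0) (XT.nd (nat_lit 78) (nat_lit 456) (nat_lit 0) (XT.lf (nat_lit 0) (nat_lit 25874643348) (nat_lit 380)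 (nat_lit 21622141964) (nat_lit 456) (nat_lit 1835825291) (nat_lit 151) (nat_lit 5) (nat_lit 156) (nat_lit 5) (nat_lit 157) (nat_lit 5) (nat_lit 443) (nat_lit 401) (nat_lit 176)) (XT.lf (nat_lit 0) (nat_lit 3767396669) (nat_lit 380) (nat_lit 2669328035) (nat_lit 456) (nat_lit 43796251797) (nat_lit 145) (nat_lit 5) (nat_lit 150) (nat_lit 5) (nat_lit 151) (nat_lit 5) (nat_lit 444) (nat_lit 401) (nat_lit 175))) (XT.nd (nat_lit 78) (nat_lit 380) (nat_lit 0) (XT.lf (nat_lit 0) (nat_lit 15320250866) (nat_lit 456) (nat_lit 19047435105) (nat_lit 76) (nat_lit 16780131620) (nat_lit 145) (nat_lit 5) (nat_lit 151) (nat_lit 5) (nat_lit 146) (nat_lit 5) (nat_lit 445) (nat_lit 401) (nat_lit 174)) (XT.lf (nat_lit 0) (nat_lit 9347222251) (nat_lit 380) (nat_lit 15237865732) (nat_lit 456) (nat_lit 27501572208) (nat_lit 140) (nat_lit 5) (nat_lit 145) (nat_lit 5) (nat_lit 146) (nat_lit 5) (nat_lit 446) (nat_lit 401) (nat_lit 173)))))))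 (XT.nd (nat_lit 1092) (nat_lit 1976) (nat_lit 0) (XT.nd (nat_lit 546) (nat_lit 988) (nat_lit 0) (XT.nd (nat_lit 234) (nat_lit 988) (nat_lit 0) (XT.nd (nat_lit 78) (nat_lit 380) (nat_lit 0) (XT.lf (nat_lit 0) (nat_lit 34363588597) (nat_lit 456) (nat_lit 14110577533) (nat_lit 76) (nat_lit 4572430810) (nat_lit 140) (nat_lit 5) (nat_lit 146) (nat_lit 5) (nat_lit 141) (nat_lit 5) (nat_lit 447) (nat_lit 401) (nat_lit 172)) (XT.nd (nat_lit 78) (nat_lit 76) (nat_lit 0) (XT.lf (nat_lit 0) (nat_lit 15527311393) (nat_lit 304) (nat_lit 29206847010) (nat_lit 380) (nat_lit 9292212371) (nat_lit 136) (nat_lit 5) (nat_lit 140) (nat_lit 5) (nat_lit 141) (nat_lit 5) (nat_lit 448) (nat_lit 401) (nat_lit 171)) (XT.lf (nat_lit 0) (nat_lit 515380809) (nat_lit 380) (nat_lit 8694709927) (nat_lit 76) (nat_lit 45821062965) (nat_lit 135) (nat_lit 5) (nat_lit 140) (nat_lit 5) (nat_lit 136) (nat_lit 5) (nat_lit 449) (nat_lit 401) (nat_lit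 170)))) (XT.nd (nat_lit 156) (nat_lit 608) (nat_lit 0) (XT.nd (nat_lit 78) (nat_lit 0) (nat_lit 0) (XT.lf (nat_lit 0) (nat_lit 10756362560) (nat_lit 456) (nat_lit 33823500216) (nat_lit 76) (nat_lit 11473679901) (nat_lit 130) (nat_lit 5) (nat_lit 136) (nat_lit 5) (nat_lit 131) (nat_lit 5) (nat_lit 450) (nat_lit 401) (nat_lit 169)) (XT.lf (nat_lit 0) (nat_lit 21483083327) (nat_lit 456) (nat_lit 2937186658) (nat_lit 76) (nat_lit 32680978411) (nat_lit 130) (nat_lit 5) (nat_lit 136) (nat_lit 5) (nat_lit 131) (nat_lit 5) (nat_lit 451) (nat_lit 401) (nat_lit 168))) (XT.nd (nat_lit 78) (nat_lit 304) (nat_lit 0) (XT.lf (nat_lit 0) (nat_lit 29448489140) (nat_lit 304) (nat_lit 3364884463) (nat_lit 380) (nat_lit 25358559003) (nat_lit 126) (nat_lit 5) (nat_lit 130) (nat_lit 5) (nat_lit 131) (nat_lit 5) (nat_lit 452) (nat_lit 401) (nat_lit 167)) (XT.lf (nat_lit 0) (nat_lit 3481732301) (nat_lit 304) (nat_lit 41240091997) (nat_lit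 380) (nat_lit 14545765834) (nat_lit 122) (nat_lit 5) (nat_lit 126) (nat_lit 5) (nat_lit 127) (nat_lit 5) (nat_lit 453) (nat_lit 401) (nat_lit 166))))) (XT.nd (nat_lit 234) (nat_lit 608) (nat_lit 0) (XT.nd (nat_lit 78) (nat_lit 380) (nat_lit 0) (XT.lf (nat_lit 0) (nat_lit 37206017098) (nat_lit 304) (nat_lit 20103276503) (nat_lit 380) (nat_lit 3077171162) (nat_lit 122) (nat_lit 5) (nat_lit 126) (nat_lit 5) (nat_lit 127) (nat_lit 5) (nat_lit 454) (nat_lit 401) (nat_lit 165)) (XT.nd (nat_lit 78) (nat_lit 0) (nat_lit 0) (XT.lf (nat_lit 0) (nat_lit 8682778503) (nat_lit 380) (nat_lit 51028599310) (nat_lit 76) (nat_lit 1821476274) (nat_lit 117) (nat_lit 5) (nat_lit 122) (nat_lit 5) (nat_lit 118) (nat_lit 5) (nat_lit 455) (nat_lit 401) (nat_lit 164)) (XT.lf (nat_lit 0) (nat_lit 21167878887) (nat_lit 380) (nat_lit 17265619175) (nat_lit 76) (nat_lit 24266197314) (nat_lit 117) (nat_lit 5) (nat_lit 122) (nat_lit 5) (nat_lit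 118) (nat_lit 5) (nat_lit 456) (nat_lit 401) (nat_lit 163)))) (XT.nd (nat_lit 156) (nat_lit 304) (nat_lit 0) (XT.nd (nat_lit 78) (nat_lit 0) (nat_lit 0) (XT.lf (nat_lit 0) (nat_lit 17856902693) (nat_lit 304) (nat_lit 16341080396) (nat_lit 380) (nat_lit 29698445584) (nat_lit 113) (nat_lit 5) (nat_lit 117) (nat_lit 5) (nat_lit 118) (nat_lit 5) (nat_lit 457) (nat_lit 401) (nat_lit 162)) (XT.lf (nat_lit 0) (nat_lit 47855533298) (nat_lit 380) (nat_lit 10802000111) (nat_lit 76) (nat_lit 6464434561) (nat_lit 113) (nat_lit 5) (nat_lit 118) (nat_lit 5) (nat_lit 114) (nat_lit 5) (nat_lit 458) (nat_lit 401) (nat_lit 161))) (XT.nd (nat_lit 78) (nat_lit 76) (nat_lit 0) (XT.lf (nat_lit 0) (nat_lit 25833197666) (nat_lit 228) (nat_lit 36498575747) (nat_lit 304) (nat_lit 4040231409) (nat_lit 110) (nat_lit 5) (nat_lit 113) (nat_lit 5) (nat_lit 114) (nat_lit 5) (nat_lit 459) (nat_lit 401) (nat_lit 160)) (XT.lf (nat_lit 0) (nat_lit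 9504774202) (nat_lit 304) (nat_lit 3962349539) (nat_lit 76) (nat_lit 54186385530) (nat_lit 109) (nat_lit 5) (nat_lit 113) (nat_lit 5) (nat_lit 110) (nat_lit 5) (nat_lit 460) (nat_lit 401) (nat_lit 159)))))) (XT.nd (nat_lit 546) (nat_lit 912) (nat_lit 0) (XT.nd (nat_lit 234) (nat_lit 532) (nat_lit 0) (XT.nd (nat_lit 78) (nat_lit 228) (nat_lit 0) (XT.lf (nat_lit 0) (nat_lit 23806143622) (nat_lit 380) (nat_lit 34724850063) (nat_lit 76) (nat_lit 10428328805) (nat_lit 105) (nat_lit 5) (nat_lit 110) (nat_lit 5) (nat_lit 106) (nat_lit 5) (nat_lit 461) (nat_lit 401) (nat_lit 158)) (XT.nd (nat_lit 78) (nat_lit 0) (nat_lit 0) (XT.lf (nat_lit 0) (nat_lit 3283936159) (nat_lit 228) (nat_lit 35456826379) (nat_lit 304) (nat_lit 31557421564) (nat_lit 102) (nat_lit 5) (nat_lit 105) (nat_lit 5) (nat_lit 106) (nat_lit 5) (nat_lit 462) (nat_lit 401) (nat_lit 157)) (XT.lf (nat_lit 0) (nat_lit 43143103430) (nat_lit 228) (nat_lit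 11329880482) (nat_lit 304) (nat_lit 17193740973) (nat_lit 102) (nat_lit 5) (nat_lit 105) (nat_lit 5) (nat_lit 106) (nat_lit 5) (nat_lit 463) (nat_lit 401) (nat_lit 156)))) (XT.nd (nat_lit 156) (nat_lit 228) (nat_lit 0) (XT.nd (nat_lit 78) (nat_lit 76) (nat_lit 0) (XT.lf (nat_lit 0) (nat_lit 11208792476) (nat_lit 228) (nat_lit 59705033066) (nat_lit 304) (nat_lit 2155396975) (nat_lit 99) (nat_lit 5) (nat_lit 102) (nat_lit 5) (nat_lit 103) (nat_lit 5) (nat_lit 464) (nat_lit 401) (nat_lit 155)) (XT.lf (nat_lit 0) (nat_lit 13475903833) (nat_lit 304) (nat_lit 22032162470) (nat_lit 76) (nat_lit 38989823646) (nat_lit 98) (nat_lit 5) (nat_lit 102) (nat_lit 5) (nat_lit 99) (nat_lit 5) (nat_lit 465) (nat_lit 401) (nat_lit 154))) (XT.nd (nat_lit 78) (nat_lit 0) (nat_lit 0) (XT.lf (nat_lit 0) (nat_lit 19345472480) (nat_lit 228) (nat_lit 10372282460) (nat_lit 304) (nat_lit 46245474483) (nat_lit 95) (nat_lit 5) (nat_lit 98)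 (nat_lit 5) (nat_lit 99) (nat_lit 5) (nat_lit 466) (nat_lit 401) (nat_lit 153)) (XT.lf (nat_lit 0) (nat_lit 46819690998) (nat_lit 304) (nat_lit 15202796236) (nat_lit 76) (nat_lit 15438857171) (nat_lit 95) (nat_lit 5) (nat_lit 99) (nat_lit 5) (nat_lit 96) (nat_lit 5) (nat_lit 467) (nat_lit 401) (nat_lit 152))))) (XT.nd (nat_lit 312) (nat_lit 380) (nat_lit 0) (XT.nd (nat_lit 156) (nat_lit 228) (nat_lit 0) (XT.nd (nat_lit 78) (nat_lit 76) (nat_lit 0) (XT.lf (nat_lit 0) (nat_lit 27894641775) (nat_lit 228) (nat_lit 36909889847) (nat_lit 304) (nat_lit 14188776021) (nat_lit 92) (nat_lit 5) (nat_lit 95) (nat_lit 5) (nat_lit 96) (nat_lit 5) (nat_lit 468) (nat_lit 401) (nat_lit 151)) (XT.lf (nat_lit 0) (nat_lit 2857927677) (nat_lit 304) (nat_lit 7999612152) (nat_lit 76) (nat_lit 69708273309) (nat_lit 91) (nat_lit 5) (nat_lit 95) (nat_lit 5) (nat_lit 92) (nat_lit 5) (nat_lit 469) (nat_lit 401) (nat_lit 150))) (XT.nd (nat_lit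 78) (nat_lit 0) (nat_lit 0) (XT.lf (nat_lit 0) (nat_lit 20643769319) (nat_lit 304) (nat_lit 45357299235) (nat_lit 76) (nat_lit 16164823426) (nat_lit 88) (nat_lit 5) (nat_lit 92) (nat_lit 5) (nat_lit 89) (nat_lit 5) (nat_lit 470) (nat_lit 401) (nat_lit 149)) (XT.lf (nat_lit 0) (nat_lit 39151316819) (nat_lit 304) (nat_lit 796387424) (nat_lit 76) (nat_lit 43860625203) (nat_lit 88) (nat_lit 5) (nat_lit 92) (nat_lit 5) (nat_lit 89) (nat_lit 5) (nat_lit 471) (nat_lit 401) (nat_lit 148)))) (XT.nd (nat_lit 47658) (nat_lit 0) (nat_lit 12388) (XT.nd (nat_lit 78) (nat_lit 152) (nat_lit 0) (XT.lf (nat_lit 0) (nat_lit 45997406976) (nat_lit 228) (nat_lit 12657916665) (nat_lit 304) (nat_lit 26831479582) (nat_lit 85) (nat_lit 5) (nat_lit 88) (nat_lit 5) (nat_lit 89) (nat_lit 5) (nat_lit 472) (nat_lit 401) (nat_lit 147)) (XT.lf (nat_lit 0) (nat_lit 6982069134) (nat_lit 152) (nat_lit 71985223667) (nat_lit 228) (nat_lit 8241653317)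 (nat_lit 83) (nat_lit 5) (nat_lit 85) (nat_lit 5) (nat_lit 86) (nat_lit 5) (nat_lit 473) (nat_lit 401) (nat_lit 146))) (XT.nd (nat_lit 78) (nat_lit 0) (nat_lit 0) (XT.lf (nat_lit 0) (nat_lit 1769516776) (nat_lit 1292) (nat_lit 5492391760) (nat_lit 1292) (nat_lit 5492391760) (nat_lit 246) (nat_lit 3) (nat_lit 263) (nat_lit 3) (nat_lit 263) (nat_lit 5) (nat_lit 402) (nat_lit 402) (nat_lit 216)) (XT.lf (nat_lit 76) (nat_lit 1336033553) (nat_lit 0) (nat_lit 2368483379) (nat_lit 1292) (nat_lit 22183298697) (nat_lit 247) (nat_lit 5) (nat_lit 246) (nat_lit 3) (nat_lit 263) (nat_lit 5) (nat_lit 403) (nat_lit 402) (nat_lit 215))))))))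
noncomputable def xc224 : XT := (XT.nd (nat_lit 2184) (nat_lit 6232) (nat_lit 0) (XT.nd (nat_lit 1092) (nat_lit 4180) (nat_lit 0) (XT.nd (nat_lit 546) (nat_lit 0) (nat_lit 228) (XT.nd (nat_lit 234) (nat_lit 0) (nat_lit 76) (XT.nd (nat_lit 78) (nat_lit 0) (nat_lit 0) (XT.lf (nat_lit 0) (nat_lit 4080683310) (nat_lit 1216) (nat_lit 12124286056) (nat_lit 1292) (nat_lit 10067267837) (nat_lit 247) (nat_lit 5) (nat_lit 263) (nat_lit 5) (nat_lit 264) (nat_lit 5) (nat_lit 404) (nat_lit 402) (nat_lit 214)) (XT.nd (nat_lit 78) (nat_lit 0) (nat_lit 76) (XT.lf (nat_lit 76) (nat_lit 663415261) (nat_lit 0) (nat_lit 3830773046) (nat_lit 1292) (nat_lit 22173223101) (nat_lit 248) (nat_lit 5) (nat_lit 247) (nat_lit 5) (nat_lit 264) (nat_lit 5) (nat_lit 405) (nat_lit 402) (nat_lit 213)) (XT.lf (nat_lit 0) (nat_lit 5125766441) (nat_lit 1216) (nat_lit 13076611044) (nat_lit 1292) (nat_lit 8865894860) (nat_lit 248) (nat_lit 5) (nat_lit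 264) (nat_lit 5) (nat_lit 265) (nat_lit 5) (nat_lit 406) (nat_lit 402) (nat_lit 212)))) (XT.nd (nat_lit 156) (nat_lit 0) (nat_lit 76) (XT.nd (nat_lit 78) (nat_lit 0) (nat_lit 76) (XT.lf (nat_lit 76) (nat_lit 202461122) (nat_lit 0) (nat_lit 5610143497) (nat_lit 1292) (nat_lit 21667466613) (nat_lit 249) (nat_lit 5) (nat_lit 248) (nat_lit 5) (nat_lit 265) (nat_lit 5) (nat_lit 407) (nat_lit 402) (nat_lit 211)) (XT.lf (nat_lit 0) (nat_lit 6720685135) (nat_lit 1216) (nat_lit 13826608713) (nat_lit 1292) (nat_lit 7350912579) (nat_lit 249) (nat_lit 5) (nat_lit 265) (nat_lit 5) (nat_lit 266) (nat_lit 5) (nat_lit 408) (nat_lit 402) (nat_lit 210))) (XT.nd (nat_lit 78) (nat_lit 0) (nat_lit 76) (XT.lf (nat_lit 0) (nat_lit 7708189187) (nat_lit 1216) (nat_lit 29811960) (nat_lit 1292) (nat_lit 20589320512) (nat_lit 249) (nat_lit 5) (nat_lit 265) (nat_lit 5) (nat_lit 266) (nat_lit 5) (nat_lit 409) (nat_lit 402) (nat_lit 209))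 (XT.lf (nat_lit 0) (nat_lit 8914888568) (nat_lit 1216) (nat_lit 14358120139) (nat_lit 1292) (nat_lit 5490615909) (nat_lit 250) (nat_lit 5) (nat_lit 266) (nat_lit 5) (nat_lit 267) (nat_lit 5) (nat_lit 410) (nat_lit 402) (nat_lit 208))))) (XT.nd (nat_lit 234) (nat_lit 0) (nat_lit 152) (XT.nd (nat_lit 78) (nat_lit 0) (nat_lit 76) (XT.lf (nat_lit 0) (nat_lit 10231525359) (nat_lit 1216) (nat_lit 17344636) (nat_lit 1292) (nat_lit 18961935907) (nat_lit 250) (nat_lit 5) (nat_lit 266) (nat_lit 5) (nat_lit 267) (nat_lit 5) (nat_lit 411) (nat_lit 402) (nat_lit 207)) (XT.nd (nat_lit 78) (nat_lit 0) (nat_lit 0) (XT.lf (nat_lit 0) (nat_lit 11761069485) (nat_lit 1216) (nat_lit 14653941545) (nat_lit 1292) (nat_lit 3251190646) (nat_lit 251) (nat_lit 5) (nat_lit 267) (nat_lit 5) (nat_lit 268) (nat_lit 5) (nat_lit 412) (nat_lit 402) (nat_lit 206)) (XT.lf (nat_lit 76) (nat_lit 259210326) (nat_lit 0) (nat_lit 13178421446) (nat_lit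 1292) (nat_lit 16694594851) (nat_lit 252) (nat_lit 5) (nat_lit 251) (nat_lit 5) (nat_lit 268) (nat_lit 5) (nat_lit 413) (nat_lit 402) (nat_lit 205)))) (XT.nd (nat_lit 156) (nat_lit 0) (nat_lit 0) (XT.nd (nat_lit 78) (nat_lit 0) (nat_lit 0) (XT.lf (nat_lit 0) (nat_lit 15315371321) (nat_lit 1216) (nat_lit 14695787707) (nat_lit 1292) (nat_lit 596548102) (nat_lit 252) (nat_lit 5) (nat_lit 268) (nat_lit 5) (nat_lit 269) (nat_lit 5) (nat_lit 414) (nat_lit 402) (nat_lit 204)) (XT.lf (nat_lit 76) (nat_lit 820045952) (nat_lit 0) (nat_lit 16564907766) (nat_lit 1292) (nat_lit 13708434199) (nat_lit 253) (nat_lit 5) (nat_lit 252) (nat_lit 5) (nat_lit 269) (nat_lit 5) (nat_lit 415) (nat_lit 402) (nat_lit 203))) (XT.nd (nat_lit 78) (nat_lit 0) (nat_lit 76) (XT.lf (nat_lit 76) (nat_lit 17100391347) (nat_lit 0) (nat_lit 2561841125) (nat_lit 1292) (nat_lit 11927039538) (nat_lit 253) (nat_lit 5) (nat_lit 252) (nat_lit 5) (nat_lit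 269) (nat_lit 5) (nat_lit 416) (nat_lit 402) (nat_lit 202)) (XT.lf (nat_lit 76) (nat_lit 1685755567) (nat_lit 0) (nat_lit 20449593663) (nat_lit 1292) (nat_lit 9960858925) (nat_lit 254) (nat_lit 5) (nat_lit 253) (nat_lit 5) (nat_lit 270) (nat_lit 5) (nat_lit 417) (nat_lit 402) (nat_lit 201)))))) (XT.nd (nat_lit 546) (nat_lit 2204) (nat_lit 0) (XT.nd (nat_lit 234) (nat_lit 1292) (nat_lit 0) (XT.nd (nat_lit 78) (nat_lit 1140) (nat_lit 0) (XT.lf (nat_lit 76) (nat_lit 18614555251) (nat_lit 0) (nat_lit 6236883951) (nat_lit 1292) (nat_lit 7761850875) (nat_lit 254) (nat_lit 5) (nat_lit 253) (nat_lit 5) (nat_lit 270) (nat_lit 5) (nat_lit 418) (nat_lit 402) (nat_lit 200)) (XT.nd (nat_lit 78) (nat_lit 0) (nat_lit 0) (XT.lf (nat_lit 0) (nat_lit 2878505759) (nat_lit 1216) (nat_lit 24876378653) (nat_lit 1292) (nat_lit 5387824923) (nat_lit 238) (nat_lit 5) (nat_lit 254) (nat_lit 5) (nat_lit 255) (nat_lit 5) (nat_lit 419) (nat_lit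 402) (nat_lit 199)) (XT.lf (nat_lit 0) (nat_lit 20483833913) (nat_lit 1216) (nat_lit 10461593638) (nat_lit 1292) (nat_lit 2736584804) (nat_lit 238) (nat_lit 5) (nat_lit 254) (nat_lit 5) (nat_lit 255) (nat_lit 5) (nat_lit 420) (nat_lit 402) (nat_lit 198)))) (XT.nd (nat_lit 156) (nat_lit 608) (nat_lit 0) (XT.nd (nat_lit 78) (nat_lit 0) (nat_lit 0) (XT.lf (nat_lit 0) (nat_lit 77345624) (nat_lit 684) (nat_lit 29814055274) (nat_lit 76) (nat_lit 4343605012) (nat_lit 229) (nat_lit 5) (nat_lit 238) (nat_lit 5) (nat_lit 230) (nat_lit 5) (nat_lit 421) (nat_lit 402) (nat_lit 197)) (XT.lf (nat_lit 0) (nat_lit 3156456785) (nat_lit 684) (nat_lit 12095631678) (nat_lit 76) (nat_lit 19544615933) (nat_lit 229) (nat_lit 5) (nat_lit 238) (nat_lit 5) (nat_lit 230) (nat_lit 5) (nat_lit 422) (nat_lit 402) (nat_lit 196))) (XT.nd (nat_lit 78) (nat_lit 0) (nat_lit 0) (XT.lf (nat_lit 0) (nat_lit 6274600816) (nat_lit 608) (nat_lit 111316003)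 (nat_lit 684) (nat_lit 28987598660) (nat_lit 221) (nat_lit 5) (nat_lit 229) (nat_lit 5) (nat_lit 230) (nat_lit 5) (nat_lit 423) (nat_lit 402) (nat_lit 195)) (XT.lf (nat_lit 0) (nat_lit 9982159597) (nat_lit 684) (nat_lit 10672359047) (nat_lit 76) (nat_lit 15305016166) (nat_lit 221) (nat_lit 5) (nat_lit 230) (nat_lit 5) (nat_lit 222) (nat_lit 5) (nat_lit 424) (nat_lit 402) (nat_lit 194))))) (XT.nd (nat_lit 234) (nat_lit 1064) (nat_lit 0) (XT.nd (nat_lit 78) (nat_lit 532) (nat_lit 0) (XT.lf (nat_lit 0) (nat_lit 8468983150) (nat_lit 608) (nat_lit 5297593273) (nat_lit 684) (nat_lit 22794150549) (nat_lit 213) (nat_lit 5) (nat_lit 221) (nat_lit 5) (nat_lit 222) (nat_lit 5) (nat_lit 425) (nat_lit 402) (nat_lit 193)) (XT.nd (nat_lit 78) (nat_lit 532) (nat_lit 0) (XT.lf (nat_lit 0) (nat_lit 17872307792) (nat_lit 684) (nat_lit 8877788994) (nat_lit 76) (nat_lit 10423625483) (nat_lit 213) (nat_lit 5) (nat_lit 222) (nat_lit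 5) (nat_lit 214) (nat_lit 5) (nat_lit 426) (nat_lit 402) (nat_lit 192)) (XT.lf (nat_lit 0) (nat_lit 11074079089) (nat_lit 532) (nat_lit 11183917798) (nat_lit 608) (nat_lit 15542407772) (nat_lit 206) (nat_lit 5) (nat_lit 213) (nat_lit 5) (nat_lit 214) (nat_lit 5) (nat_lit 427) (nat_lit 402) (nat_lit 191)))) (XT.nd (nat_lit 156) (nat_lit 532) (nat_lit 0) (XT.nd (nat_lit 78) (nat_lit 532) (nat_lit 0) (XT.lf (nat_lit 0) (nat_lit 26910330672) (nat_lit 608) (nat_lit 6686401022) (nat_lit 76) (nat_lit 4845104389) (nat_lit 206) (nat_lit 5) (nat_lit 214) (nat_lit 5) (nat_lit 207) (nat_lit 5) (nat_lit 428) (nat_lit 402) (nat_lit 190)) (XT.lf (nat_lit 0) (nat_lit 14117342807) (nat_lit 532) (nat_lit 17829312742) (nat_lit 608) (nat_lit 7148523031) (nat_lit 199) (nat_lit 5) (nat_lit 206) (nat_lit 5) (nat_lit 207) (nat_lit 5) (nat_lit 429) (nat_lit 402) (nat_lit 189))) (XT.nd (nat_lit 78) (nat_lit 532) (nat_lit 0) (XT.lf (nat_lit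 0) (nat_lit 35680157669) (nat_lit 532) (nat_lit 1519455182) (nat_lit 608) (nat_lit 2566542958) (nat_lit 199) (nat_lit 5) (nat_lit 206) (nat_lit 5) (nat_lit 207) (nat_lit 5) (nat_lit 430) (nat_lit 402) (nat_lit 188)) (XT.lf (nat_lit 0) (nat_lit 2428402489) (nat_lit 532) (nat_lit 22844045860) (nat_lit 76) (nat_lit 15174668350) (nat_lit 192) (nat_lit 5) (nat_lit 199) (nat_lit 5) (nat_lit 193) (nat_lit 5) (nat_lit 431) (nat_lit 402) (nat_lit 187))))))) (XT.nd (nat_lit 1092) (nat_lit 2660) (nat_lit 0) (XT.nd (nat_lit 546) (nat_lit 1672) (nat_lit 0) (XT.nd (nat_lit 234) (nat_lit 912) (nat_lit 0) (XT.nd (nat_lit 78) (nat_lit 988) (nat_lit 0) (XT.lf (nat_lit 0) (nat_lit 7576420631) (nat_lit 532) (nat_lit 1163681367) (nat_lit 76) (nat_lit 32405998477) (nat_lit 192) (nat_lit 5) (nat_lit 199) (nat_lit 5) (nat_lit 193) (nat_lit 5) (nat_lit 432) (nat_lit 402) (nat_lit 186)) (XT.nd (nat_lit 78) (nat_lit 456) (nat_lit 0) (XT.lf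 (nat_lit 0) (nat_lit 13166255063) (nat_lit 608) (nat_lit 20355346845) (nat_lit 76) (nat_lit 8335831239) (nat_lit 185) (nat_lit 5) (nat_lit 193) (nat_lit 5) (nat_lit 186) (nat_lit 5) (nat_lit 433) (nat_lit 402) (nat_lit 185)) (XT.lf (nat_lit 0) (nat_lit 2236834073) (nat_lit 456) (nat_lit 16805038839) (nat_lit 532) (nat_lit 23544690873) (nat_lit 179) (nat_lit 5) (nat_lit 185) (nat_lit 5) (nat_lit 186) (nat_lit 5) (nat_lit 434) (nat_lit 402) (nat_lit 184)))) (XT.nd (nat_lit 156) (nat_lit 456) (nat_lit 0) (XT.nd (nat_lit 78) (nat_lit 456) (nat_lit 0) (XT.lf (nat_lit 0) (nat_lit 25303527641) (nat_lit 532) (nat_lit 17415483678) (nat_lit 76) (nat_lit 612264591) (nat_lit 179) (nat_lit 5) (nat_lit 186) (nat_lit 5) (nat_lit 180) (nat_lit 5) (nat_lit 435) (nat_lit 402) (nat_lit 183)) (XT.lf (nat_lit 0) (nat_lit 6158518352) (nat_lit 456) (nat_lit 25818365555) (nat_lit 532) (nat_lit 12114730535) (nat_lit 173) (nat_lit 5)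 (nat_lit 179) (nat_lit 5) (nat_lit 180) (nat_lit 5) (nat_lit 436) (nat_lit 402) (nat_lit 182))) (XT.nd (nat_lit 78) (nat_lit 456) (nat_lit 0) (XT.lf (nat_lit 0) (nat_lit 30794701240) (nat_lit 456) (nat_lit 8229898685) (nat_lit 532) (nat_lit 5844939016) (nat_lit 173) (nat_lit 5) (nat_lit 179) (nat_lit 5) (nat_lit 180) (nat_lit 5) (nat_lit 437) (nat_lit 402) (nat_lit 181)) (XT.lf (nat_lit 0) (nat_lit 798276302) (nat_lit 456) (nat_lit 35063636054) (nat_lit 76) (nat_lit 9802793883) (nat_lit 167) (nat_lit 5) (nat_lit 173) (nat_lit 5) (nat_lit 168) (nat_lit 5) (nat_lit 438) (nat_lit 402) (nat_lit 180))))) (XT.nd (nat_lit 234) (nat_lit 1216) (nat_lit 0) (XT.nd (nat_lit 78) (nat_lit 456) (nat_lit 0) (XT.lf (nat_lit 0) (nat_lit 7746685812) (nat_lit 456) (nat_lit 10316491623) (nat_lit 76) (nat_lit 28412114279) (nat_lit 167) (nat_lit 5) (nat_lit 173) (nat_lit 5) (nat_lit 168) (nat_lit 5) (nat_lit 439) (nat_lit 402) (nat_lit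 179)) (XT.nd (nat_lit 78) (nat_lit 0) (nat_lit 0) (XT.lf (nat_lit 0) (nat_lit 15054746961) (nat_lit 532) (nat_lit 31836820433) (nat_lit 76) (nat_lit 414091895) (nat_lit 161) (nat_lit 5) (nat_lit 168) (nat_lit 5) (nat_lit 162) (nat_lit 5) (nat_lit 440) (nat_lit 402) (nat_lit 178)) (XT.lf (nat_lit 0) (nat_lit 22864528432) (nat_lit 532) (nat_lit 6100485672) (nat_lit 76) (nat_lit 19187449936) (nat_lit 161) (nat_lit 5) (nat_lit 168) (nat_lit 5) (nat_lit 162) (nat_lit 5) (nat_lit 441) (nat_lit 402) (nat_lit 177)))) (XT.nd (nat_lit 156) (nat_lit 836) (nat_lit 0) (XT.nd (nat_lit 78) (nat_lit 0) (nat_lit 0) (XT.lf (nat_lit 0) (nat_lit 20812111301) (nat_lit 380) (nat_lit 10295023956) (nat_lit 456) (nat_lit 17911582207) (nat_lit 156) (nat_lit 5) (nat_lit 161) (nat_lit 5) (nat_lit 162) (nat_lit 5) (nat_lit 442) (nat_lit 402) (nat_lit 176)) (XT.lf (nat_lit 0) (nat_lit 39743617479) (nat_lit 456) (nat_lit 1340438883) (nat_lit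 76) (nat_lit 8822504688) (nat_lit 156) (nat_lit 5) (nat_lit 162) (nat_lit 5) (nat_lit 157) (nat_lit 5) (nat_lit 443) (nat_lit 402) (nat_lit 175))) (XT.nd (nat_lit 78) (nat_lit 456) (nat_lit 0) (XT.lf (nat_lit 0) (nat_lit 26749856506) (nat_lit 380) (nat_lit 22246943408) (nat_lit 456) (nat_lit 1813512316) (nat_lit 151) (nat_lit 5) (nat_lit 156) (nat_lit 5) (nat_lit 157) (nat_lit 5) (nat_lit 444) (nat_lit 402) (nat_lit 174)) (XT.lf (nat_lit 0) (nat_lit 3979939859) (nat_lit 380) (nat_lit 2724510838) (nat_lit 456) (nat_lit 45033254354) (nat_lit 145) (nat_lit 5) (nat_lit 150) (nat_lit 5) (nat_lit 151) (nat_lit 5) (nat_lit 445) (nat_lit 402) (nat_lit 173)))))) (XT.nd (nat_lit 546) (nat_lit 1520) (nat_lit 0) (XT.nd (nat_lit 234) (nat_lit 760) (nat_lit 0) (XT.nd (nat_lit 78) (nat_lit 380) (nat_lit 0) (XT.lf (nat_lit 0) (nat_lit 15852541476) (nat_lit 456) (nat_lit 19520273002) (nat_lit 76) (nat_lit 17307235770) (nat_lit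 145) (nat_lit 5) (nat_lit 151) (nat_lit 5) (nat_lit 146) (nat_lit 5) (nat_lit 446) (nat_lit 402) (nat_lit 172)) (XT.nd (nat_lit 78) (nat_lit 0) (nat_lit 0) (XT.lf (nat_lit 0) (nat_lit 9725257553) (nat_lit 380) (nat_lit 15668887542) (nat_lit 456) (nat_lit 28252949014) (nat_lit 140) (nat_lit 5) (nat_lit 145) (nat_lit 5) (nat_lit 146) (nat_lit 5) (nat_lit 447) (nat_lit 402) (nat_lit 171)) (XT.lf (nat_lit 0) (nat_lit 35464161786) (nat_lit 456) (nat_lit 14437260395) (nat_lit 76) (nat_lit 4734462551) (nat_lit 140) (nat_lit 5) (nat_lit 146) (nat_lit 5) (nat_lit 141) (nat_lit 5) (nat_lit 448) (nat_lit 402) (nat_lit 170)))) (XT.nd (nat_lit 156) (nat_lit 380) (nat_lit 0) (XT.nd (nat_lit 78) (nat_lit 76) (nat_lit 0) (XT.lf (nat_lit 0) (nat_lit 16088817801) (nat_lit 304) (nat_lit 30055921594) (nat_lit 380) (nat_lit 9500346252) (nat_lit 136) (nat_lit 5) (nat_lit 140) (nat_lit 5) (nat_lit 141) (nat_lit 5) (nat_lit 449) (nat_lit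 402) (nat_lit 169)) (XT.lf (nat_lit 0) (nat_lit 598079317) (nat_lit 380) (nat_lit 8861294571) (nat_lit 76) (nat_lit 47220678872) (nat_lit 135) (nat_lit 5) (nat_lit 140) (nat_lit 5) (nat_lit 136) (nat_lit 5) (nat_lit 450) (nat_lit 402) (nat_lit 168))) (XT.nd (nat_lit 78) (nat_lit 0) (nat_lit 0) (XT.lf (nat_lit 0) (nat_lit 11145490375) (nat_lit 456) (nat_lit 34743130520) (nat_lit 76) (nat_lit 11844517051) (nat_lit 130) (nat_lit 5) (nat_lit 136) (nat_lit 5) (nat_lit 131) (nat_lit 5) (nat_lit 451) (nat_lit 402) (nat_lit 167)) (XT.lf (nat_lit 0) (nat_lit 22192077709) (nat_lit 456) (nat_lit 2932996722) (nat_lit 76) (nat_lit 33687258980) (nat_lit 130) (nat_lit 5) (nat_lit 136) (nat_lit 5) (nat_lit 131) (nat_lit 5) (nat_lit 452) (nat_lit 402) (nat_lit 166))))) (XT.nd (nat_lit 312) (nat_lit 532) (nat_lit 0) (XT.nd (nat_lit 156) (nat_lit 380) (nat_lit 0) (XT.nd (nat_lit 78) (nat_lit 304) (nat_lit 0) (XT.lf (nat_lit 0)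 (nat_lit 30423344394) (nat_lit 304) (nat_lit 3437932202) (nat_lit 380) (nat_lit 26053892060) (nat_lit 126) (nat_lit 5) (nat_lit 130) (nat_lit 5) (nat_lit 131) (nat_lit 5) (nat_lit 453) (nat_lit 402) (nat_lit 165)) (XT.lf (nat_lit 0) (nat_lit 3678326300) (nat_lit 304) (nat_lit 42447951040) (nat_lit 380) (nat_lit 14917440163) (nat_lit 122) (nat_lit 5) (nat_lit 126) (nat_lit 5) (nat_lit 127) (nat_lit 5) (nat_lit 454) (nat_lit 402) (nat_lit 164))) (XT.nd (nat_lit 78) (nat_lit 380) (nat_lit 0) (XT.lf (nat_lit 0) (nat_lit 38411655893) (nat_lit 304) (nat_lit 20677885752) (nat_lit 380) (nat_lit 3106672078) (nat_lit 122) (nat_lit 5) (nat_lit 126) (nat_lit 5) (nat_lit 127) (nat_lit 5) (nat_lit 455) (nat_lit 402) (nat_lit 163)) (XT.lf (nat_lit 0) (nat_lit 9004200047) (nat_lit 380) (nat_lit 52468092541) (nat_lit 76) (nat_lit 1904703984) (nat_lit 117) (nat_lit 5) (nat_lit 122) (nat_lit 5) (nat_lit 118) (nat_lit 5) (nat_lit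 456) (nat_lit 402) (nat_lit 162)))) (XT.nd (nat_lit 156) (nat_lit 228) (nat_lit 0) (XT.nd (nat_lit 78) (nat_lit 304) (nat_lit 0) (XT.lf (nat_lit 0) (nat_lit 21862078543) (nat_lit 380) (nat_lit 17694884111) (nat_lit 76) (nat_lit 25021934127) (nat_lit 117) (nat_lit 5) (nat_lit 122) (nat_lit 5) (nat_lit 118) (nat_lit 5) (nat_lit 457) (nat_lit 402) (nat_lit 161)) (XT.lf (nat_lit 0) (nat_lit 18480443769) (nat_lit 304) (nat_lit 16801763213) (nat_lit 380) (nat_lit 30529351886) (nat_lit 113) (nat_lit 5) (nat_lit 117) (nat_lit 5) (nat_lit 118) (nat_lit 5) (nat_lit 458) (nat_lit 402) (nat_lit 160))) (XT.nd (nat_lit 78) (nat_lit 228) (nat_lit 0) (XT.lf (nat_lit 0) (nat_lit 49348061870) (nat_lit 380) (nat_lit 11039348841) (nat_lit 76) (nat_lit 6686496700) (nat_lit 113) (nat_lit 5) (nat_lit 118) (nat_lit 5) (nat_lit 114) (nat_lit 5) (nat_lit 459) (nat_lit 402) (nat_lit 159)) (XT.lf (nat_lit 0) (nat_lit 26694054759) (nat_lit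 228) (nat_lit 37563703588) (nat_lit 304) (nat_lit 4103712347) (nat_lit 110) (nat_lit 5) (nat_lit 113) (nat_lit 5) (nat_lit 114) (nat_lit 5) (nat_lit 460) (nat_lit 402) (nat_lit 158))))))))
noncomputable def xc225 : XT := (XT.nd (nat_lit 49764) (nat_lit 0) (nat_lit 4560) (XT.nd (nat_lit 48672) (nat_lit 0) (nat_lit 12236) (XT.nd (nat_lit 546) (nat_lit 760) (nat_lit 0) (XT.nd (nat_lit 234) (nat_lit 532) (nat_lit 0) (XT.nd (nat_lit 78) (nat_lit 532) (nat_lit 0) (XT.lf (nat_lit 0) (nat_lit 9844868459) (nat_lit 304) (nat_lit 3996753483) (nat_lit 76) (nat_lit 55839831519) (nat_lit 109) (nat_lit 5) (nat_lit 113) (nat_lit 5) (nat_lit 110) (nat_lit 5) (nat_lit 461) (nat_lit 402) (nat_lit 157)) (XT.nd (nat_lit 78) (nat_lit 228) (nat_lit 0) (XT.lf (nat_lit 0) (nat_lit 24574765849) (nat_lit 380) (nat_lit 35681603719) (nat_lit 76) (nat_lit 10770087270) (nat_lit 105) (nat_lit 5) (nat_lit 110) (nat_lit 5) (nat_lit 106) (nat_lit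 5) (nat_lit 462) (nat_lit 402) (nat_lit 156)) (XT.lf (nat_lit 0) (nat_lit 3466612837) (nat_lit 228) (nat_lit 36490033908) (nat_lit 304) (nat_lit 32448861204) (nat_lit 102) (nat_lit 5) (nat_lit 105) (nat_lit 5) (nat_lit 106) (nat_lit 5) (nat_lit 463) (nat_lit 402) (nat_lit 155)))) (XT.nd (nat_lit 156) (nat_lit 304) (nat_lit 0) (XT.nd (nat_lit 78) (nat_lit 228) (nat_lit 0) (XT.lf (nat_lit 0) (nat_lit 44519103905) (nat_lit 228) (nat_lit 11640167904) (nat_lit 304) (nat_lit 17655880381) (nat_lit 102) (nat_lit 5) (nat_lit 105) (nat_lit 5) (nat_lit 106) (nat_lit 5) (nat_lit 464) (nat_lit 402) (nat_lit 154)) (XT.lf (nat_lit 0) (nat_lit 11627239747) (nat_lit 228) (nat_lit 61465647840) (nat_lit 304) (nat_lit 2166851030) (nat_lit 99) (nat_lit 5) (nat_lit 102) (nat_lit 5) (nat_lit 103) (nat_lit 5) (nat_lit 465) (nat_lit 402) (nat_lit 153))) (XT.nd (nat_lit 78) (nat_lit 228) (nat_lit 0) (XT.lf (nat_lit 0) (nat_lit 13930831023)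 (nat_lit 304) (nat_lit 22612318989) (nat_lit 76) (nat_lit 40188146617) (nat_lit 98) (nat_lit 5) (nat_lit 102) (nat_lit 5) (nat_lit 99) (nat_lit 5) (nat_lit 466) (nat_lit 402) (nat_lit 152)) (XT.lf (nat_lit 0) (nat_lit 20005852770) (nat_lit 228) (nat_lit 10653378812) (nat_lit 304) (nat_lit 47581386194) (nat_lit 95) (nat_lit 5) (nat_lit 98) (nat_lit 5) (nat_lit 99) (nat_lit 5) (nat_lit 467) (nat_lit 402) (nat_lit 151))))) (XT.nd (nat_lit 234) (nat_lit 456) (nat_lit 0) (XT.nd (nat_lit 78) (nat_lit 304) (nat_lit 0) (XT.lf (nat_lit 0) (nat_lit 48273051694) (nat_lit 304) (nat_lit 15580010634) (nat_lit 76) (nat_lit 15930649398) (nat_lit 95) (nat_lit 5) (nat_lit 99) (nat_lit 5) (nat_lit 96) (nat_lit 5) (nat_lit 468) (nat_lit 402) (nat_lit 150)) (XT.nd (nat_lit 78) (nat_lit 76) (nat_lit 0) (XT.lf (nat_lit 0) (nat_lit 28809577287) (nat_lit 228) (nat_lit 37987190474) (nat_lit 304) (nat_lit 14564886482) (nat_lit 92) (nat_lit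 5) (nat_lit 95) (nat_lit 5) (nat_lit 96) (nat_lit 5) (nat_lit 469) (nat_lit 402) (nat_lit 149)) (XT.lf (nat_lit 0) (nat_lit 2990836251) (nat_lit 304) (nat_lit 8162831045) (nat_lit 76) (nat_lit 71827696043) (nat_lit 91) (nat_lit 5) (nat_lit 95) (nat_lit 5) (nat_lit 92) (nat_lit 5) (nat_lit 470) (nat_lit 402) (nat_lit 148)))) (XT.nd (nat_lit 156) (nat_lit 228) (nat_lit 0) (XT.nd (nat_lit 78) (nat_lit 0) (nat_lit 0) (XT.lf (nat_lit 0) (nat_lit 21309893426) (nat_lit 304) (nat_lit 46640880218) (nat_lit 76) (nat_lit 16678681958) (nat_lit 88) (nat_lit 5) (nat_lit 92) (nat_lit 5) (nat_lit 89) (nat_lit 5) (nat_lit 471) (nat_lit 402) (nat_lit 147)) (XT.lf (nat_lit 0) (nat_lit 40371303923) (nat_lit 304) (nat_lit 745387790) (nat_lit 76) (nat_lit 45204515638) (nat_lit 88) (nat_lit 5) (nat_lit 92) (nat_lit 5) (nat_lit 89) (nat_lit 5) (nat_lit 472) (nat_lit 402) (nat_lit 146))) (XT.nd (nat_lit 47658) (nat_lit 0) (nat_lit 12236)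 (XT.lf (nat_lit 0) (nat_lit 47451486214) (nat_lit 228) (nat_lit 13008333863) (nat_lit 304) (nat_lit 27590233840) (nat_lit 85) (nat_lit 5) (nat_lit 88) (nat_lit 5) (nat_lit 89) (nat_lit 5) (nat_lit 473) (nat_lit 402) (nat_lit 145)) (XT.lf (nat_lit 0) (nat_lit 1921200399) (nat_lit 1292) (nat_lit 5606364665) (nat_lit 1292) (nat_lit 5606364665) (nat_lit 246) (nat_lit 3) (nat_lit 263) (nat_lit 3) (nat_lit 263) (nat_lit 5) (nat_lit 403) (nat_lit 403) (nat_lit 214)))))) (XT.nd (nat_lit 546) (nat_lit 0) (nat_lit 304) (XT.nd (nat_lit 234) (nat_lit 0) (nat_lit 152) (XT.nd (nat_lit 78) (nat_lit 0) (nat_lit 76) (XT.lf (nat_lit 76) (nat_lit 1476716199) (nat_lit 0) (nat_lit 2531355946) (nat_lit 1292) (nat_lit 22650524525) (nat_lit 247) (nat_lit 5) (nat_lit 246) (nat_lit 3) (nat_lit 263) (nat_lit 5) (nat_lit 404) (nat_lit 403) (nat_lit 213)) (XT.nd (nat_lit 78) (nat_lit 0) (nat_lit 0) (XT.lf (nat_lit 0) (nat_lit 4389062152)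 (nat_lit 1216) (nat_lit 12383803298) (nat_lit 1292) (nat_lit 10281881635) (nat_lit 247) (nat_lit 5) (nat_lit 263) (nat_lit 5) (nat_lit 264) (nat_lit 5) (nat_lit 405) (nat_lit 403) (nat_lit 212)) (XT.lf (nat_lit 76) (nat_lit 786507378) (nat_lit 0) (nat_lit 4024040580) (nat_lit 1292) (nat_lit 22651363574) (nat_lit 248) (nat_lit 5) (nat_lit 247) (nat_lit 5) (nat_lit 264) (nat_lit 5) (nat_lit 406) (nat_lit 403) (nat_lit 211)))) (XT.nd (nat_lit 156) (nat_lit 0) (nat_lit 76) (XT.nd (nat_lit 78) (nat_lit 0) (nat_lit 0) (XT.lf (nat_lit 0) (nat_lit 5455054880) (nat_lit 1216) (nat_lit 13362632705) (nat_lit 1292) (nat_lit 9057293489) (nat_lit 248) (nat_lit 5) (nat_lit 264) (nat_lit 5) (nat_lit 265) (nat_lit 5) (nat_lit 407) (nat_lit 403) (nat_lit 210)) (XT.lf (nat_lit 76) (nat_lit 313769698) (nat_lit 0) (nat_lit 5844627985) (nat_lit 1292) (nat_lit 22140861414) (nat_lit 249) (nat_lit 5) (nat_lit 248) (nat_lit 5) (nat_lit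 265) (nat_lit 5) (nat_lit 408) (nat_lit 403) (nat_lit 209))) (XT.nd (nat_lit 78) (nat_lit 0) (nat_lit 0) (XT.lf (nat_lit 0) (nat_lit 7088110312) (nat_lit 1216) (nat_lit 14133557287) (nat_lit 1292) (nat_lit 7508441151) (nat_lit 249) (nat_lit 5) (nat_lit 265) (nat_lit 5) (nat_lit 266) (nat_lit 5) (nat_lit 409) (nat_lit 403) (nat_lit 208)) (XT.lf (nat_lit 76) (nat_lit 75474902) (nat_lit 0) (nat_lit 8025660834) (nat_lit 1292) (nat_lit 21071086847) (nat_lit 250) (nat_lit 5) (nat_lit 249) (nat_lit 5) (nat_lit 266) (nat_lit 5) (nat_lit 410) (nat_lit 403) (nat_lit 207))))) (XT.nd (nat_lit 234) (nat_lit 0) (nat_lit 76) (XT.nd (nat_lit 78) (nat_lit 0) (nat_lit 0) (XT.lf (nat_lit 0) (nat_lit 9339103387) (nat_lit 1216) (nat_lit 14679882380) (nat_lit 1292) (nat_lit 5602778813) (nat_lit 250) (nat_lit 5) (nat_lit 266) (nat_lit 5) (nat_lit 267) (nat_lit 5) (nat_lit 411) (nat_lit 403) (nat_lit 206)) (XT.nd (nat_lit 78) (nat_lit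 0) (nat_lit 76) (XT.lf (nat_lit 76) (nat_lit 89692393) (nat_lit 0) (nat_lit 10601843003) (nat_lit 1292) (nat_lit 19390938940) (nat_lit 251) (nat_lit 5) (nat_lit 250) (nat_lit 5) (nat_lit 267) (nat_lit 5) (nat_lit 412) (nat_lit 403) (nat_lit 205)) (XT.lf (nat_lit 0) (nat_lit 12262254694) (nat_lit 1216) (nat_lit 14983841713) (nat_lit 1292) (nat_lit 3305578770) (nat_lit 251) (nat_lit 5) (nat_lit 267) (nat_lit 5) (nat_lit 268) (nat_lit 5) (nat_lit 413) (nat_lit 403) (nat_lit 204)))) (XT.nd (nat_lit 156) (nat_lit 0) (nat_lit 76) (XT.nd (nat_lit 78) (nat_lit 0) (nat_lit 76) (XT.lf (nat_lit 76) (nat_lit 375629046) (nat_lit 0) (nat_lit 13610208176) (nat_lit 1292) (nat_lit 17045943754) (nat_lit 252) (nat_lit 5) (nat_lit 251) (nat_lit 5) (nat_lit 268) (nat_lit 5) (nat_lit 414) (nat_lit 403) (nat_lit 203)) (XT.lf (nat_lit 0) (nat_lit 15915343403) (nat_lit 1216) (nat_lit 15026559315) (nat_lit 1292) (nat_lit 579761899) (nat_lit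 252) (nat_lit 5) (nat_lit 268) (nat_lit 5) (nat_lit 269) (nat_lit 5) (nat_lit 415) (nat_lit 403) (nat_lit 202))) (XT.nd (nat_lit 78) (nat_lit 0) (nat_lit 0) (XT.lf (nat_lit 76) (nat_lit 953669921) (nat_lit 0) (nat_lit 17090298790) (nat_lit 1292) (nat_lit 13978040153) (nat_lit 253) (nat_lit 5) (nat_lit 252) (nat_lit 5) (nat_lit 269) (nat_lit 5) (nat_lit 416) (nat_lit 403) (nat_lit 201)) (XT.lf (nat_lit 76) (nat_lit 17719250263) (nat_lit 0) (nat_lit 2666311690) (nat_lit 1292) (nat_lit 12147329296) (nat_lit 253) (nat_lit 5) (nat_lit 252) (nat_lit 5) (nat_lit 269) (nat_lit 5) (nat_lit 417) (nat_lit 403) (nat_lit 200))))))) (XT.nd (nat_lit 1092) (nat_lit 4104) (nat_lit 0) (XT.nd (nat_lit 546) (nat_lit 1672) (nat_lit 0) (XT.nd (nat_lit 234) (nat_lit 1292) (nat_lit 0) (XT.nd (nat_lit 78) (nat_lit 1140) (nat_lit 0) (XT.lf (nat_lit 76) (nat_lit 1845419674) (nat_lit 0) (nat_lit 21084356212) (nat_lit 1292) (nat_lit 10125354085)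 (nat_lit 254) (nat_lit 5) (nat_lit 253) (nat_lit 5) (nat_lit 270) (nat_lit 5) (nat_lit 418) (nat_lit 403) (nat_lit 199)) (XT.nd (nat_lit 78) (nat_lit 1140) (nat_lit 0) (XT.lf (nat_lit 76) (nat_lit 19278905928) (nat_lit 0) (nat_lit 6444645557) (nat_lit 1292) (nat_lit 7864288335) (nat_lit 254) (nat_lit 5) (nat_lit 253) (nat_lit 5) (nat_lit 270) (nat_lit 5) (nat_lit 419) (nat_lit 403) (nat_lit 198)) (XT.lf (nat_lit 0) (nat_lit 3073744405) (nat_lit 1216) (nat_lit 25637523054) (nat_lit 1292) (nat_lit 5421960685) (nat_lit 238) (nat_lit 5) (nat_lit 254) (nat_lit 5) (nat_lit 255) (nat_lit 5) (nat_lit 420) (nat_lit 403) (nat_lit 197)))) (XT.nd (nat_lit 156) (nat_lit 608) (nat_lit 0) (XT.nd (nat_lit 78) (nat_lit 684) (nat_lit 0) (XT.lf (nat_lit 0) (nat_lit 21204061041) (nat_lit 1216) (nat_lit 10789861876) (nat_lit 1292) (nat_lit 2694896924) (nat_lit 238) (nat_lit 5) (nat_lit 254) (nat_lit 5) (nat_lit 255) (nat_lit 5)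 (nat_lit 421) (nat_lit 403) (nat_lit 196)) (XT.lf (nat_lit 0) (nat_lit 198417573) (nat_lit 684) (nat_lit 30597637394) (nat_lit 76) (nat_lit 4462392471) (nat_lit 229) (nat_lit 5) (nat_lit 238) (nat_lit 5) (nat_lit 230) (nat_lit 5) (nat_lit 422) (nat_lit 403) (nat_lit 195))) (XT.nd (nat_lit 78) (nat_lit 608) (nat_lit 0) (XT.lf (nat_lit 0) (nat_lit 3366443285) (nat_lit 684) (nat_lit 12350889426) (nat_lit 76) (nat_lit 20119769275) (nat_lit 229) (nat_lit 5) (nat_lit 238) (nat_lit 5) (nat_lit 230) (nat_lit 5) (nat_lit 423) (nat_lit 403) (nat_lit 194)) (XT.lf (nat_lit 0) (nat_lit 6569395031) (nat_lit 608) (nat_lit 121058331) (nat_lit 684) (nat_lit 29740835357) (nat_lit 221) (nat_lit 5) (nat_lit 229) (nat_lit 5) (nat_lit 230) (nat_lit 5) (nat_lit 424) (nat_lit 403) (nat_lit 193))))) (XT.nd (nat_lit 234) (nat_lit 1064) (nat_lit 0) (XT.nd (nat_lit 78) (nat_lit 608) (nat_lit 0) (XT.lf (nat_lit 0) (nat_lit 10391233598)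 (nat_lit 684) (nat_lit 10885685193) (nat_lit 76) (nat_lit 15758071598) (nat_lit 221) (nat_lit 5) (nat_lit 230) (nat_lit 5) (nat_lit 222) (nat_lit 5) (nat_lit 425) (nat_lit 403) (nat_lit 192)) (XT.nd (nat_lit 78) (nat_lit 0) (nat_lit 0) (XT.lf (nat_lit 0) (nat_lit 8828849773) (nat_lit 608) (nat_lit 5458157640) (nat_lit 684) (nat_lit 23367277396) (nat_lit 213) (nat_lit 5) (nat_lit 221) (nat_lit 5) (nat_lit 222) (nat_lit 5) (nat_lit 426) (nat_lit 403) (nat_lit 191)) (XT.lf (nat_lit 0) (nat_lit 18512766314) (nat_lit 684) (nat_lit 9038222827) (nat_lit 76) (nat_lit 10734776351) (nat_lit 213) (nat_lit 5) (nat_lit 222) (nat_lit 5) (nat_lit 214) (nat_lit 5) (nat_lit 427) (nat_lit 403) (nat_lit 190)))) (XT.nd (nat_lit 156) (nat_lit 532) (nat_lit 0) (XT.nd (nat_lit 78) (nat_lit 0) (nat_lit 0) (XT.lf (nat_lit 0) (nat_lit 11511163065) (nat_lit 532) (nat_lit 11516833459) (nat_lit 608) (nat_lit 15903313875) (nat_lit 206) (nat_lit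 5) (nat_lit 213) (nat_lit 5) (nat_lit 214) (nat_lit 5) (nat_lit 428) (nat_lit 403) (nat_lit 189)) (XT.lf (nat_lit 0) (nat_lit 27816946166) (nat_lit 608) (nat_lit 6782194032) (nat_lit 76) (nat_lit 4992934317) (nat_lit 206) (nat_lit 5) (nat_lit 214) (nat_lit 5) (nat_lit 207) (nat_lit 5) (nat_lit 429) (nat_lit 403) (nat_lit 188))) (XT.nd (nat_lit 78) (nat_lit 0) (nat_lit 0) (XT.lf (nat_lit 0) (nat_lit 14644634671) (nat_lit 532) (nat_lit 18357831238) (nat_lit 608) (nat_lit 7262609315) (nat_lit 199) (nat_lit 5) (nat_lit 206) (nat_lit 5) (nat_lit 207) (nat_lit 5) (nat_lit 430) (nat_lit 403) (nat_lit 187)) (XT.lf (nat_lit 0) (nat_lit 36851311506) (nat_lit 532) (nat_lit 1558863220) (nat_lit 608) (nat_lit 2546093220) (nat_lit 199) (nat_lit 5) (nat_lit 206) (nat_lit 5) (nat_lit 207) (nat_lit 5) (nat_lit 431) (nat_lit 403) (nat_lit 186)))))) (XT.nd (nat_lit 546) (nat_lit 2128) (nat_lit 0) (XT.nd (nat_lit 234) (nat_lit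 912) (nat_lit 0) (XT.nd (nat_lit 78) (nat_lit 532) (nat_lit 0) (XT.lf (nat_lit 0) (nat_lit 2595069926) (nat_lit 532) (nat_lit 23424919859) (nat_lit 76) (nat_lit 15637692650) (nat_lit 192) (nat_lit 5) (nat_lit 199) (nat_lit 5) (nat_lit 193) (nat_lit 5) (nat_lit 432) (nat_lit 403) (nat_lit 185)) (XT.nd (nat_lit 78) (nat_lit 532) (nat_lit 0) (XT.lf (nat_lit 0) (nat_lit 7894796126) (nat_lit 532) (nat_lit 1097186587) (nat_lit 76) (nat_lit 33385735955) (nat_lit 192) (nat_lit 5) (nat_lit 199) (nat_lit 5) (nat_lit 193) (nat_lit 5) (nat_lit 433) (nat_lit 403) (nat_lit 184)) (XT.lf (nat_lit 0) (nat_lit 13650743796) (nat_lit 608) (nat_lit 20862988841) (nat_lit 76) (nat_lit 8596707079) (nat_lit 185) (nat_lit 5) (nat_lit 193) (nat_lit 5) (nat_lit 186) (nat_lit 5) (nat_lit 434) (nat_lit 403) (nat_lit 183)))) (XT.nd (nat_lit 156) (nat_lit 456) (nat_lit 0) (XT.nd (nat_lit 78) (nat_lit 0) (nat_lit 0) (XT.lf (nat_lit 0) (nat_lit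 2405947519) (nat_lit 456) (nat_lit 17295056401) (nat_lit 532) (nat_lit 24160490056) (nat_lit 179) (nat_lit 5) (nat_lit 185) (nat_lit 5) (nat_lit 186) (nat_lit 5) (nat_lit 435) (nat_lit 403) (nat_lit 182)) (XT.lf (nat_lit 0) (nat_lit 26148080734) (nat_lit 532) (nat_lit 17836453736) (nat_lit 76) (nat_lit 644086709) (nat_lit 179) (nat_lit 5) (nat_lit 186) (nat_lit 5) (nat_lit 180) (nat_lit 5) (nat_lit 436) (nat_lit 403) (nat_lit 181))) (XT.nd (nat_lit 78) (nat_lit 0) (nat_lit 0) (XT.lf (nat_lit 0) (nat_lit 6443773311) (nat_lit 456) (nat_lit 26576341683) (nat_lit 532) (nat_lit 12391701416) (nat_lit 173) (nat_lit 5) (nat_lit 179) (nat_lit 5) (nat_lit 180) (nat_lit 5) (nat_lit 437) (nat_lit 403) (nat_lit 180)) (XT.lf (nat_lit 0) (nat_lit 31816114519) (nat_lit 456) (nat_lit 8460703569) (nat_lit 532) (nat_lit 5936334725) (nat_lit 173) (nat_lit 5) (nat_lit 179) (nat_lit 5) (nat_lit 180) (nat_lit 5) (nat_lit 438) (nat_lit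 403) (nat_lit 179))))) (XT.nd (nat_lit 312) (nat_lit 1216) (nat_lit 0) (XT.nd (nat_lit 156) (nat_lit 456) (nat_lit 0) (XT.nd (nat_lit 78) (nat_lit 0) (nat_lit 0) (XT.lf (nat_lit 0) (nat_lit 903253207) (nat_lit 456) (nat_lit 36014995678) (nat_lit 76) (nat_lit 10113941393) (nat_lit 167) (nat_lit 5) (nat_lit 173) (nat_lit 5) (nat_lit 168) (nat_lit 5) (nat_lit 439) (nat_lit 403) (nat_lit 178)) (XT.lf (nat_lit 0) (nat_lit 8057754944) (nat_lit 456) (nat_lit 10528365539) (nat_lit 76) (nat_lit 29281044400) (nat_lit 167) (nat_lit 5) (nat_lit 173) (nat_lit 5) (nat_lit 168) (nat_lit 5) (nat_lit 440) (nat_lit 403) (nat_lit 177))) (XT.nd (nat_lit 78) (nat_lit 0) (nat_lit 0) (XT.lf (nat_lit 0) (nat_lit 15583881877) (nat_lit 532) (nat_lit 32693103381) (nat_lit 76) (nat_lit 445494253) (nat_lit 161) (nat_lit 5) (nat_lit 168) (nat_lit 5) (nat_lit 162) (nat_lit 5) (nat_lit 441) (nat_lit 403) (nat_lit 176)) (XT.lf (nat_lit 0) (nat_lit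 23625699729) (nat_lit 532) (nat_lit 6187556878) (nat_lit 76) (nat_lit 19781500232) (nat_lit 161) (nat_lit 5) (nat_lit 168) (nat_lit 5) (nat_lit 162) (nat_lit 5) (nat_lit 442) (nat_lit 403) (nat_lit 175)))) (XT.nd (nat_lit 156) (nat_lit 836) (nat_lit 0) (XT.nd (nat_lit 78) (nat_lit 0) (nat_lit 0) (XT.lf (nat_lit 0) (nat_lit 21531477384) (nat_lit 380) (nat_lit 10582829276) (nat_lit 456) (nat_lit 18372730249) (nat_lit 156) (nat_lit 5) (nat_lit 161) (nat_lit 5) (nat_lit 162) (nat_lit 5) (nat_lit 443) (nat_lit 403) (nat_lit 174)) (XT.lf (nat_lit 0) (nat_lit 41007925660) (nat_lit 456) (nat_lit 1286436009) (nat_lit 76) (nat_lit 9107213544) (nat_lit 156) (nat_lit 5) (nat_lit 162) (nat_lit 5) (nat_lit 157) (nat_lit 5) (nat_lit 444) (nat_lit 403) (nat_lit 173))) (XT.nd (nat_lit 78) (nat_lit 456) (nat_lit 0) (XT.lf (nat_lit 0) (nat_lit 27645644555) (nat_lit 380) (nat_lit 22891858719) (nat_lit 456) (nat_lit 1794972325)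 (nat_lit 151) (nat_lit 5) (nat_lit 156) (nat_lit 5) (nat_lit 157) (nat_lit 5) (nat_lit 445) (nat_lit 403) (nat_lit 172)) (XT.lf (nat_lit 0) (nat_lit 4193146416) (nat_lit 380) (nat_lit 2782778316) (nat_lit 456) (nat_lit 46311780501) (nat_lit 145) (nat_lit 5) (nat_lit 150) (nat_lit 5) (nat_lit 151) (nat_lit 5) (nat_lit 446) (nat_lit 403) (nat_lit 171))))))))
noncomputable def xc226 : XT := (XT.nd (nat_lit 49920) (nat_lit 0) (nat_lit 7904) (XT.nd (nat_lit 1092) (nat_lit 1900) (nat_lit 0) (XT.nd (nat_lit 546) (nat_lit 1292) (nat_lit 0) (XT.nd (nat_lit 234) (nat_lit 760) (nat_lit 0) (XT.nd (nat_lit 78) (nat_lit 380) (nat_lit 0) (XT.lf (nat_lit 0) (nat_lit 16396628499) (nat_lit 456) (nat_lit 20012955228) (nat_lit 76) (nat_lit 17848792556) (nat_lit 145) (nat_lit 5) (nat_lit 151) (nat_lit 5) (nat_lit 146) (nat_lit 5) (nat_lit 447) (nat_lit 403) (nat_lit 170)) (XT.nd (nat_lit 78) (nat_lit 0) (nat_lit 0) (XT.lf (nat_lit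 0) (nat_lit 10109030205) (nat_lit 380) (nat_lit 16114339065) (nat_lit 456) (nat_lit 29031096105) (nat_lit 140) (nat_lit 5) (nat_lit 145) (nat_lit 5) (nat_lit 146) (nat_lit 5) (nat_lit 448) (nat_lit 403) (nat_lit 169)) (XT.lf (nat_lit 0) (nat_lit 36593753084) (nat_lit 456) (nat_lit 14779290957) (nat_lit 76) (nat_lit 4899928246) (nat_lit 140) (nat_lit 5) (nat_lit 146) (nat_lit 5) (nat_lit 141) (nat_lit 5) (nat_lit 449) (nat_lit 403) (nat_lit 168)))) (XT.nd (nat_lit 156) (nat_lit 380) (nat_lit 0) (XT.nd (nat_lit 78) (nat_lit 76) (nat_lit 0) (XT.lf (nat_lit 0) (nat_lit 16661676572) (nat_lit 304) (nat_lit 30932025837) (nat_lit 380) (nat_lit 9718778743) (nat_lit 136) (nat_lit 5) (nat_lit 140) (nat_lit 5) (nat_lit 141) (nat_lit 5) (nat_lit 450) (nat_lit 403) (nat_lit 167)) (XT.lf (nat_lit 0) (nat_lit 679399096) (nat_lit 380) (nat_lit 9038287471) (nat_lit 76) (nat_lit 48660849072) (nat_lit 135) (nat_lit 5) (nat_lit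 140) (nat_lit 5) (nat_lit 136) (nat_lit 5) (nat_lit 451) (nat_lit 403) (nat_lit 166))) (XT.nd (nat_lit 78) (nat_lit 0) (nat_lit 0) (XT.lf (nat_lit 0) (nat_lit 11542478272) (nat_lit 456) (nat_lit 35695807411) (nat_lit 76) (nat_lit 12224950831) (nat_lit 130) (nat_lit 5) (nat_lit 136) (nat_lit 5) (nat_lit 131) (nat_lit 5) (nat_lit 452) (nat_lit 403) (nat_lit 165)) (XT.lf (nat_lit 0) (nat_lit 22918639250) (nat_lit 456) (nat_lit 2933979804) (nat_lit 76) (nat_lit 34722244001) (nat_lit 130) (nat_lit 5) (nat_lit 136) (nat_lit 5) (nat_lit 131) (nat_lit 5) (nat_lit 453) (nat_lit 403) (nat_lit 164))))) (XT.nd (nat_lit 234) (nat_lit 684) (nat_lit 0) (XT.nd (nat_lit 78) (nat_lit 304) (nat_lit 0) (XT.lf (nat_lit 0) (nat_lit 31422198538) (nat_lit 304) (nat_lit 3514772878) (nat_lit 380) (nat_lit 26773840698) (nat_lit 126) (nat_lit 5) (nat_lit 130) (nat_lit 5) (nat_lit 131) (nat_lit 5) (nat_lit 454) (nat_lit 403) (nat_lit 163))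 (XT.nd (nat_lit 78) (nat_lit 0) (nat_lit 0) (XT.lf (nat_lit 0) (nat_lit 3875528790) (nat_lit 304) (nat_lit 43693730303) (nat_lit 380) (nat_lit 15303978689) (nat_lit 122) (nat_lit 5) (nat_lit 126) (nat_lit 5) (nat_lit 127) (nat_lit 5) (nat_lit 455) (nat_lit 403) (nat_lit 162)) (XT.lf (nat_lit 0) (nat_lit 39648328581) (nat_lit 304) (nat_lit 21271368666) (nat_lit 380) (nat_lit 3140663814) (nat_lit 122) (nat_lit 5) (nat_lit 126) (nat_lit 5) (nat_lit 127) (nat_lit 5) (nat_lit 456) (nat_lit 403) (nat_lit 161)))) (XT.nd (nat_lit 156) (nat_lit 304) (nat_lit 0) (XT.nd (nat_lit 78) (nat_lit 0) (nat_lit 0) (XT.lf (nat_lit 0) (nat_lit 9331766136) (nat_lit 380) (nat_lit 53956015279) (nat_lit 76) (nat_lit 1988787719) (nat_lit 117) (nat_lit 5) (nat_lit 122) (nat_lit 5) (nat_lit 118) (nat_lit 5) (nat_lit 457) (nat_lit 403) (nat_lit 160)) (XT.lf (nat_lit 0) (nat_lit 22573707974) (nat_lit 380) (nat_lit 18142118947) (nat_lit 76)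 (nat_lit 25798750031) (nat_lit 117) (nat_lit 5) (nat_lit 122) (nat_lit 5) (nat_lit 118) (nat_lit 5) (nat_lit 458) (nat_lit 403) (nat_lit 159))) (XT.nd (nat_lit 78) (nat_lit 0) (nat_lit 0) (XT.lf (nat_lit 0) (nat_lit 19117649048) (nat_lit 304) (nat_lit 17277962783) (nat_lit 380) (nat_lit 31388632324) (nat_lit 113) (nat_lit 5) (nat_lit 117) (nat_lit 5) (nat_lit 118) (nat_lit 5) (nat_lit 459) (nat_lit 403) (nat_lit 158)) (XT.lf (nat_lit 0) (nat_lit 50882102154) (nat_lit 380) (nat_lit 11288795615) (nat_lit 76) (nat_lit 6913605978) (nat_lit 113) (nat_lit 5) (nat_lit 118) (nat_lit 5) (nat_lit 114) (nat_lit 5) (nat_lit 460) (nat_lit 403) (nat_lit 157)))))) (XT.nd (nat_lit 546) (nat_lit 760) (nat_lit 0) (XT.nd (nat_lit 234) (nat_lit 532) (nat_lit 0) (XT.nd (nat_lit 78) (nat_lit 380) (nat_lit 0) (XT.lf (nat_lit 0) (nat_lit 27575808782) (nat_lit 228) (nat_lit 38662497595) (nat_lit 304) (nat_lit 4172411422) (nat_lit 110)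 (nat_lit 5) (nat_lit 113) (nat_lit 5) (nat_lit 114) (nat_lit 5) (nat_lit 461) (nat_lit 403) (nat_lit 156)) (XT.nd (nat_lit 78) (nat_lit 304) (nat_lit 0) (XT.lf (nat_lit 0) (nat_lit 10192011131) (nat_lit 304) (nat_lit 4037038271) (nat_lit 76) (nat_lit 57541281930) (nat_lit 109) (nat_lit 5) (nat_lit 113) (nat_lit 5) (nat_lit 110) (nat_lit 5) (nat_lit 462) (nat_lit 403) (nat_lit 155)) (XT.lf (nat_lit 0) (nat_lit 25363321782) (nat_lit 380) (nat_lit 36671938863) (nat_lit 76) (nat_lit 11120439017) (nat_lit 105) (nat_lit 5) (nat_lit 110) (nat_lit 5) (nat_lit 106) (nat_lit 5) (nat_lit 463) (nat_lit 403) (nat_lit 154)))) (XT.nd (nat_lit 156) (nat_lit 304) (nat_lit 0) (XT.nd (nat_lit 78) (nat_lit 0) (nat_lit 0) (XT.lf (nat_lit 0) (nat_lit 3649938768) (nat_lit 228) (nat_lit 37555988331) (nat_lit 304) (nat_lit 33370217504) (nat_lit 102) (nat_lit 5) (nat_lit 105) (nat_lit 5) (nat_lit 106) (nat_lit 5) (nat_lit 464) (nat_lit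 403) (nat_lit 153)) (XT.lf (nat_lit 0) (nat_lit 45931694057) (nat_lit 228) (nat_lit 11961463626) (nat_lit 304) (nat_lit 18134965010) (nat_lit 102) (nat_lit 5) (nat_lit 105) (nat_lit 5) (nat_lit 106) (nat_lit 5) (nat_lit 465) (nat_lit 403) (nat_lit 152))) (XT.nd (nat_lit 78) (nat_lit 76) (nat_lit 0) (XT.lf (nat_lit 0) (nat_lit 12053522767) (nat_lit 228) (nat_lit 63280833962) (nat_lit 304) (nat_lit 2181703056) (nat_lit 99) (nat_lit 5) (nat_lit 102) (nat_lit 5) (nat_lit 103) (nat_lit 5) (nat_lit 466) (nat_lit 403) (nat_lit 151)) (XT.lf (nat_lit 0) (nat_lit 14396498506) (nat_lit 304) (nat_lit 23214518935) (nat_lit 76) (nat_lit 41420775898) (nat_lit 98) (nat_lit 5) (nat_lit 102) (nat_lit 5) (nat_lit 99) (nat_lit 5) (nat_lit 467) (nat_lit 403) (nat_lit 150))))) (XT.nd (nat_lit 234) (nat_lit 304) (nat_lit 0) (XT.nd (nat_lit 78) (nat_lit 228) (nat_lit 0) (XT.lf (nat_lit 0) (nat_lit 20681451216) (nat_lit 228) (nat_lit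 10944634317) (nat_lit 304) (nat_lit 48960328843) (nat_lit 95) (nat_lit 5) (nat_lit 98) (nat_lit 5) (nat_lit 99) (nat_lit 5) (nat_lit 468) (nat_lit 403) (nat_lit 149)) (XT.nd (nat_lit 78) (nat_lit 228) (nat_lit 0) (XT.lf (nat_lit 0) (nat_lit 49767213615) (nat_lit 304) (nat_lit 15973068896) (nat_lit 76) (nat_lit 16435552112) (nat_lit 95) (nat_lit 5) (nat_lit 99) (nat_lit 5) (nat_lit 96) (nat_lit 5) (nat_lit 469) (nat_lit 403) (nat_lit 148)) (XT.lf (nat_lit 0) (nat_lit 29747477819) (nat_lit 228) (nat_lit 39098532018) (nat_lit 304) (nat_lit 14955124791) (nat_lit 92) (nat_lit 5) (nat_lit 95) (nat_lit 5) (nat_lit 96) (nat_lit 5) (nat_lit 470) (nat_lit 403) (nat_lit 147)))) (XT.nd (nat_lit 47892) (nat_lit 0) (nat_lit 12008) (XT.nd (nat_lit 78) (nat_lit 228) (nat_lit 0) (XT.lf (nat_lit 0) (nat_lit 3125024289) (nat_lit 304) (nat_lit 8335353386) (nat_lit 76) (nat_lit 74009084126) (nat_lit 91) (nat_lit 5) (nat_lit 95)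 (nat_lit 5) (nat_lit 92) (nat_lit 5) (nat_lit 471) (nat_lit 403) (nat_lit 146)) (XT.lf (nat_lit 0) (nat_lit 21993314112) (nat_lit 304) (nat_lit 47967396666) (nat_lit 76) (nat_lit 17206296474) (nat_lit 88) (nat_lit 5) (nat_lit 92) (nat_lit 5) (nat_lit 89) (nat_lit 5) (nat_lit 472) (nat_lit 403) (nat_lit 145))) (XT.nd (nat_lit 78) (nat_lit 0) (nat_lit 0) (XT.lf (nat_lit 0) (nat_lit 2071774596) (nat_lit 1292) (nat_lit 5726672819) (nat_lit 1292) (nat_lit 5726672819) (nat_lit 246) (nat_lit 3) (nat_lit 263) (nat_lit 3) (nat_lit 263) (nat_lit 5) (nat_lit 404) (nat_lit 404) (nat_lit 212)) (XT.lf (nat_lit 76) (nat_lit 1615844378) (nat_lit 0) (nat_lit 2693843957) (nat_lit 1292) (nat_lit 23143148816) (nat_lit 247) (nat_lit 5) (nat_lit 246) (nat_lit 3) (nat_lit 263) (nat_lit 5) (nat_lit 405) (nat_lit 404) (nat_lit 211))))))) (XT.nd (nat_lit 1092) (nat_lit 4180) (nat_lit 0) (XT.nd (nat_lit 546) (nat_lit 0) (nat_lit 228)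 (XT.nd (nat_lit 234) (nat_lit 0) (nat_lit 76) (XT.nd (nat_lit 78) (nat_lit 0) (nat_lit 0) (XT.lf (nat_lit 0) (nat_lit 4696017590) (nat_lit 1216) (nat_lit 12657088215) (nat_lit 1292) (nat_lit 10507951208) (nat_lit 247) (nat_lit 5) (nat_lit 263) (nat_lit 5) (nat_lit 264) (nat_lit 5) (nat_lit 406) (nat_lit 404) (nat_lit 210)) (XT.nd (nat_lit 78) (nat_lit 0) (nat_lit 76) (XT.lf (nat_lit 76) (nat_lit 907368751) (nat_lit 0) (nat_lit 4218608855) (nat_lit 1292) (nat_lit 23154586053) (nat_lit 248) (nat_lit 5) (nat_lit 247) (nat_lit 5) (nat_lit 264) (nat_lit 5) (nat_lit 407) (nat_lit 404) (nat_lit 209)) (XT.lf (nat_lit 0) (nat_lit 5784146668) (nat_lit 1216) (nat_lit 13663335731) (nat_lit 1292) (nat_lit 9258715172) (nat_lit 248) (nat_lit 5) (nat_lit 264) (nat_lit 5) (nat_lit 265) (nat_lit 5) (nat_lit 408) (nat_lit 404) (nat_lit 208)))) (XT.nd (nat_lit 156) (nat_lit 0) (nat_lit 76) (XT.nd (nat_lit 78) (nat_lit 0) (nat_lit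 76) (XT.lf (nat_lit 76) (nat_lit 422376627) (nat_lit 0) (nat_lit 6082347995) (nat_lit 1292) (nat_lit 22638597298) (nat_lit 249) (nat_lit 5) (nat_lit 248) (nat_lit 5) (nat_lit 265) (nat_lit 5) (nat_lit 409) (nat_lit 404) (nat_lit 207)) (XT.lf (nat_lit 0) (nat_lit 7457040381) (nat_lit 1216) (nat_lit 14455905332) (nat_lit 1292) (nat_lit 7674311969) (nat_lit 249) (nat_lit 5) (nat_lit 265) (nat_lit 5) (nat_lit 266) (nat_lit 5) (nat_lit 410) (nat_lit 404) (nat_lit 206))) (XT.nd (nat_lit 78) (nat_lit 0) (nat_lit 76) (XT.lf (nat_lit 76) (nat_lit 178401169) (nat_lit 0) (nat_lit 8318470981) (nat_lit 1292) (nat_lit 21545872225) (nat_lit 250) (nat_lit 5) (nat_lit 249) (nat_lit 5) (nat_lit 266) (nat_lit 5) (nat_lit 411) (nat_lit 404) (nat_lit 205)) (XT.lf (nat_lit 0) (nat_lit 9767045517) (nat_lit 1216) (nat_lit 15017553465) (nat_lit 1292) (nat_lit 5721323509) (nat_lit 250) (nat_lit 5) (nat_lit 266) (nat_lit 5) (nat_lit 267)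 (nat_lit 5) (nat_lit 412) (nat_lit 404) (nat_lit 204))))) (XT.nd (nat_lit 234) (nat_lit 0) (nat_lit 152) (XT.nd (nat_lit 78) (nat_lit 0) (nat_lit 76) (XT.lf (nat_lit 76) (nat_lit 194101440) (nat_lit 0) (nat_lit 10962622873) (nat_lit 1292) (nat_lit 19823830818) (nat_lit 251) (nat_lit 5) (nat_lit 250) (nat_lit 5) (nat_lit 267) (nat_lit 5) (nat_lit 413) (nat_lit 404) (nat_lit 203)) (XT.nd (nat_lit 78) (nat_lit 0) (nat_lit 0) (XT.lf (nat_lit 0) (nat_lit 12769959383) (nat_lit 1216) (nat_lit 15329937153) (nat_lit 1292) (nat_lit 3364075386) (nat_lit 251) (nat_lit 5) (nat_lit 267) (nat_lit 5) (nat_lit 268) (nat_lit 5) (nat_lit 414) (nat_lit 404) (nat_lit 202)) (XT.lf (nat_lit 76) (nat_lit 489303810) (nat_lit 0) (nat_lit 14052857042) (nat_lit 1292) (nat_lit 17416414401) (nat_lit 252) (nat_lit 5) (nat_lit 251) (nat_lit 5) (nat_lit 268) (nat_lit 5) (nat_lit 415) (nat_lit 404) (nat_lit 201)))) (XT.nd (nat_lit 156) (nat_lit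 0) (nat_lit 0) (XT.nd (nat_lit 78) (nat_lit 0) (nat_lit 0) (XT.lf (nat_lit 0) (nat_lit 16525248744) (nat_lit 1216) (nat_lit 15373574379) (nat_lit 1292) (nat_lit 564463035) (nat_lit 252) (nat_lit 5) (nat_lit 268) (nat_lit 5) (nat_lit 269) (nat_lit 5) (nat_lit 416) (nat_lit 404) (nat_lit 200)) (XT.lf (nat_lit 76) (nat_lit 1085044267) (nat_lit 0) (nat_lit 17629818755) (nat_lit 1292) (nat_lit 14263865408) (nat_lit 253) (nat_lit 5) (nat_lit 252) (nat_lit 5) (nat_lit 269) (nat_lit 5) (nat_lit 417) (nat_lit 404) (nat_lit 199))) (XT.nd (nat_lit 78) (nat_lit 0) (nat_lit 76) (XT.lf (nat_lit 76) (nat_lit 18350598886) (nat_lit 0) (nat_lit 2772331139) (nat_lit 1292) (nat_lit 12382122039) (nat_lit 253) (nat_lit 5) (nat_lit 252) (nat_lit 5) (nat_lit 269) (nat_lit 5) (nat_lit 418) (nat_lit 404) (nat_lit 198)) (XT.lf (nat_lit 76) (nat_lit 2003611409) (nat_lit 0) (nat_lit 21736940381) (nat_lit 1292) (nat_lit 10302495226) (nat_lit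 254) (nat_lit 5) (nat_lit 253) (nat_lit 5) (nat_lit 270) (nat_lit 5) (nat_lit 419) (nat_lit 404) (nat_lit 197)))))) (XT.nd (nat_lit 546) (nat_lit 2204) (nat_lit 0) (XT.nd (nat_lit 234) (nat_lit 1292) (nat_lit 0) (XT.nd (nat_lit 78) (nat_lit 1140) (nat_lit 0) (XT.lf (nat_lit 76) (nat_lit 19957107227) (nat_lit 0) (nat_lit 6657454324) (nat_lit 1292) (nat_lit 7977285450) (nat_lit 254) (nat_lit 5) (nat_lit 253) (nat_lit 5) (nat_lit 270) (nat_lit 5) (nat_lit 420) (nat_lit 404) (nat_lit 196)) (XT.nd (nat_lit 78) (nat_lit 0) (nat_lit 0) (XT.lf (nat_lit 0) (nat_lit 3268589855) (nat_lit 1216) (nat_lit 26420649161) (nat_lit 1292) (nat_lit 5464439482) (nat_lit 238) (nat_lit 5) (nat_lit 254) (nat_lit 5) (nat_lit 255) (nat_lit 5) (nat_lit 421) (nat_lit 404) (nat_lit 195)) (XT.lf (nat_lit 0) (nat_lit 21939826675) (nat_lit 1216) (nat_lit 11127150369) (nat_lit 1292) (nat_lit 2659064198) (nat_lit 238) (nat_lit 5) (nat_lit 254)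 (nat_lit 5) (nat_lit 255) (nat_lit 5) (nat_lit 422) (nat_lit 404) (nat_lit 194)))) (XT.nd (nat_lit 156) (nat_lit 608) (nat_lit 0) (XT.nd (nat_lit 78) (nat_lit 0) (nat_lit 0) (XT.lf (nat_lit 0) (nat_lit 316304854) (nat_lit 684) (nat_lit 31411089621) (nat_lit 76) (nat_lit 4585404890) (nat_lit 229) (nat_lit 5) (nat_lit 238) (nat_lit 5) (nat_lit 230) (nat_lit 5) (nat_lit 423) (nat_lit 404) (nat_lit 193)) (XT.lf (nat_lit 0) (nat_lit 3576111102) (nat_lit 684) (nat_lit 12619982230) (nat_lit 76) (nat_lit 20712819290) (nat_lit 229) (nat_lit 5) (nat_lit 238) (nat_lit 5) (nat_lit 230) (nat_lit 5) (nat_lit 424) (nat_lit 404) (nat_lit 192))) (XT.nd (nat_lit 78) (nat_lit 0) (nat_lit 0) (XT.lf (nat_lit 0) (nat_lit 6866916311) (nat_lit 608) (nat_lit 130725378) (nat_lit 684) (nat_lit 30523350490) (nat_lit 221) (nat_lit 5) (nat_lit 229) (nat_lit 5) (nat_lit 230) (nat_lit 5) (nat_lit 425) (nat_lit 404) (nat_lit 191)) (XT.lf (nat_lit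 0) (nat_lit 10806287801) (nat_lit 684) (nat_lit 11111544442) (nat_lit 76) (nat_lit 16225068574) (nat_lit 221) (nat_lit 5) (nat_lit 230) (nat_lit 5) (nat_lit 222) (nat_lit 5) (nat_lit 426) (nat_lit 404) (nat_lit 190))))) (XT.nd (nat_lit 312) (nat_lit 1064) (nat_lit 0) (XT.nd (nat_lit 156) (nat_lit 532) (nat_lit 0) (XT.nd (nat_lit 78) (nat_lit 0) (nat_lit 0) (XT.lf (nat_lit 0) (nat_lit 9193439207) (nat_lit 608) (nat_lit 5623444993) (nat_lit 684) (nat_lit 23963952548) (nat_lit 213) (nat_lit 5) (nat_lit 221) (nat_lit 5) (nat_lit 222) (nat_lit 5) (nat_lit 427) (nat_lit 404) (nat_lit 189)) (XT.lf (nat_lit 0) (nat_lit 19166451960) (nat_lit 684) (nat_lit 9209548760) (nat_lit 76) (nat_lit 11055351173) (nat_lit 213) (nat_lit 5) (nat_lit 222) (nat_lit 5) (nat_lit 214) (nat_lit 5) (nat_lit 428) (nat_lit 404) (nat_lit 188))) (XT.nd (nat_lit 78) (nat_lit 0) (nat_lit 0) (XT.lf (nat_lit 0) (nat_lit 11955340074) (nat_lit 532)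 (nat_lit 11859885948) (nat_lit 608) (nat_lit 16281095608) (nat_lit 206) (nat_lit 5) (nat_lit 213) (nat_lit 5) (nat_lit 214) (nat_lit 5) (nat_lit 429) (nat_lit 404) (nat_lit 187)) (XT.lf (nat_lit 0) (nat_lit 28745059578) (nat_lit 608) (nat_lit 6886876724) (nat_lit 76) (nat_lit 5145056966) (nat_lit 206) (nat_lit 5) (nat_lit 214) (nat_lit 5) (nat_lit 207) (nat_lit 5) (nat_lit 430) (nat_lit 404) (nat_lit 186)))) (XT.nd (nat_lit 156) (nat_lit 532) (nat_lit 0) (XT.nd (nat_lit 78) (nat_lit 0) (nat_lit 0) (XT.lf (nat_lit 0) (nat_lit 15181788378) (nat_lit 532) (nat_lit 18902570430) (nat_lit 608) (nat_lit 7385879802) (nat_lit 199) (nat_lit 5) (nat_lit 206) (nat_lit 5) (nat_lit 207) (nat_lit 5) (nat_lit 431) (nat_lit 404) (nat_lit 185)) (XT.lf (nat_lit 0) (nat_lit 38051816547) (nat_lit 532) (nat_lit 1599808004) (nat_lit 608) (nat_lit 2530623791) (nat_lit 199) (nat_lit 5) (nat_lit 206) (nat_lit 5) (nat_lit 207) (nat_lit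 5) (nat_lit 432) (nat_lit 404) (nat_lit 184))) (XT.nd (nat_lit 78) (nat_lit 0) (nat_lit 0) (XT.lf (nat_lit 0) (nat_lit 2761352002) (nat_lit 532) (nat_lit 24029215784) (nat_lit 76) (nat_lit 16114160831) (nat_lit 192) (nat_lit 5) (nat_lit 199) (nat_lit 5) (nat_lit 193) (nat_lit 5) (nat_lit 433) (nat_lit 404) (nat_lit 183)) (XT.lf (nat_lit 0) (nat_lit 8217494357) (nat_lit 532) (nat_lit 1034518039) (nat_lit 76) (nat_lit 34394431724) (nat_lit 192) (nat_lit 5) (nat_lit 199) (nat_lit 5) (nat_lit 193) (nat_lit 5) (nat_lit 434) (nat_lit 404) (nat_lit 182))))))))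
noncomputable def xc227 : XT := (XT.nd (nat_lit 2184) (nat_lit 1444) (nat_lit 0) (XT.nd (nat_lit 1092) (nat_lit 2660) (nat_lit 0) (XT.nd (nat_lit 546) (nat_lit 1672) (nat_lit 0) (XT.nd (nat_lit 234) (nat_lit 912) (nat_lit 0) (XT.nd (nat_lit 78) (nat_lit 456) (nat_lit 0) (XT.lf (nat_lit 0) (nat_lit 14144629463) (nat_lit 608) (nat_lit 21391773776) (nat_lit 76) (nat_lit 8864789178) (nat_lit 185) (nat_lit 5) (nat_lit 193) (nat_lit 5) (nat_lit 186) (nat_lit 5) (nat_lit 435) (nat_lit 404) (nat_lit 181)) (XT.nd (nat_lit 78) (nat_lit 0) (nat_lit 0) (XT.lf (nat_lit 0) (nat_lit 2574278668) (nat_lit 456) (nat_lit 17800585816) (nat_lit 532) (nat_lit 24799960669) (nat_lit 179) (nat_lit 5) (nat_lit 185) (nat_lit 5) (nat_lit 186) (nat_lit 5) (nat_lit 436) (nat_lit 404) (nat_lit 180)) (XT.lf (nat_lit 0) (nat_lit 27013065398) (nat_lit 532) (nat_lit 18275879092) (nat_lit 76) (nat_lit 676091165) (nat_lit 179) (nat_lit 5) (nat_lit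 186) (nat_lit 5) (nat_lit 180) (nat_lit 5) (nat_lit 437) (nat_lit 404) (nat_lit 179)))) (XT.nd (nat_lit 156) (nat_lit 456) (nat_lit 0) (XT.nd (nat_lit 78) (nat_lit 0) (nat_lit 0) (XT.lf (nat_lit 0) (nat_lit 6731816842) (nat_lit 456) (nat_lit 27358008559) (nat_lit 532) (nat_lit 12681945213) (nat_lit 173) (nat_lit 5) (nat_lit 179) (nat_lit 5) (nat_lit 180) (nat_lit 5) (nat_lit 438) (nat_lit 404) (nat_lit 178)) (XT.lf (nat_lit 0) (nat_lit 32862569150) (nat_lit 456) (nat_lit 8699356351) (nat_lit 532) (nat_lit 6035291520) (nat_lit 173) (nat_lit 5) (nat_lit 179) (nat_lit 5) (nat_lit 180) (nat_lit 5) (nat_lit 439) (nat_lit 404) (nat_lit 177))) (XT.nd (nat_lit 78) (nat_lit 0) (nat_lit 0) (XT.lf (nat_lit 0) (nat_lit 1006728044) (nat_lit 456) (nat_lit 37000668041) (nat_lit 76) (nat_lit 10433443802) (nat_lit 167) (nat_lit 5) (nat_lit 173) (nat_lit 5) (nat_lit 168) (nat_lit 5) (nat_lit 440) (nat_lit 404) (nat_lit 176))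 (XT.lf (nat_lit 0) (nat_lit 8373640254) (nat_lit 456) (nat_lit 10752199508) (nat_lit 76) (nat_lit 30175091428) (nat_lit 167) (nat_lit 5) (nat_lit 173) (nat_lit 5) (nat_lit 168) (nat_lit 5) (nat_lit 441) (nat_lit 404) (nat_lit 175))))) (XT.nd (nat_lit 234) (nat_lit 836) (nat_lit 0) (XT.nd (nat_lit 78) (nat_lit 380) (nat_lit 0) (XT.lf (nat_lit 0) (nat_lit 16124442454) (nat_lit 532) (nat_lit 33580747585) (nat_lit 76) (nat_lit 476749176) (nat_lit 161) (nat_lit 5) (nat_lit 168) (nat_lit 5) (nat_lit 162) (nat_lit 5) (nat_lit 442) (nat_lit 404) (nat_lit 174)) (XT.nd (nat_lit 78) (nat_lit 380) (nat_lit 0) (XT.lf (nat_lit 0) (nat_lit 24405387342) (nat_lit 532) (nat_lit 6282747761) (nat_lit 76) (nat_lit 20392314263) (nat_lit 161) (nat_lit 5) (nat_lit 168) (nat_lit 5) (nat_lit 162) (nat_lit 5) (nat_lit 443) (nat_lit 404) (nat_lit 173)) (XT.lf (nat_lit 0) (nat_lit 22266970902) (nat_lit 380) (nat_lit 10880476848) (nat_lit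 456) (nat_lit 18852086892) (nat_lit 156) (nat_lit 5) (nat_lit 161) (nat_lit 5) (nat_lit 162) (nat_lit 5) (nat_lit 444) (nat_lit 404) (nat_lit 172)))) (XT.nd (nat_lit 156) (nat_lit 456) (nat_lit 0) (XT.nd (nat_lit 78) (nat_lit 380) (nat_lit 0) (XT.lf (nat_lit 0) (nat_lit 42306030011) (nat_lit 456) (nat_lit 1236221436) (nat_lit 76) (nat_lit 9399313649) (nat_lit 156) (nat_lit 5) (nat_lit 162) (nat_lit 5) (nat_lit 157) (nat_lit 5) (nat_lit 445) (nat_lit 404) (nat_lit 171)) (XT.lf (nat_lit 0) (nat_lit 28562950882) (nat_lit 380) (nat_lit 23557412679) (nat_lit 456) (nat_lit 1780063496) (nat_lit 151) (nat_lit 5) (nat_lit 156) (nat_lit 5) (nat_lit 157) (nat_lit 5) (nat_lit 446) (nat_lit 404) (nat_lit 170))) (XT.nd (nat_lit 78) (nat_lit 0) (nat_lit 0) (XT.lf (nat_lit 0) (nat_lit 4407364186) (nat_lit 380) (nat_lit 2844140969) (nat_lit 456) (nat_lit 47632822591) (nat_lit 145) (nat_lit 5) (nat_lit 150) (nat_lit 5) (nat_lit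 151) (nat_lit 5) (nat_lit 447) (nat_lit 404) (nat_lit 169)) (XT.lf (nat_lit 0) (nat_lit 16953105333) (nat_lit 456) (nat_lit 20525752251) (nat_lit 76) (nat_lit 18405313655) (nat_lit 145) (nat_lit 5) (nat_lit 151) (nat_lit 5) (nat_lit 146) (nat_lit 5) (nat_lit 448) (nat_lit 404) (nat_lit 168)))))) (XT.nd (nat_lit 546) (nat_lit 1216) (nat_lit 0) (XT.nd (nat_lit 234) (nat_lit 760) (nat_lit 0) (XT.nd (nat_lit 78) (nat_lit 304) (nat_lit 0) (XT.lf (nat_lit 0) (nat_lit 10499034003) (nat_lit 380) (nat_lit 16574567142) (nat_lit 456) (nat_lit 29836573827) (nat_lit 140) (nat_lit 5) (nat_lit 145) (nat_lit 5) (nat_lit 146) (nat_lit 5) (nat_lit 449) (nat_lit 404) (nat_lit 167)) (XT.nd (nat_lit 78) (nat_lit 304) (nat_lit 0) (XT.lf (nat_lit 0) (nat_lit 37753462598) (nat_lit 456) (nat_lit 15136811217) (nat_lit 76) (nat_lit 5069012831) (nat_lit 140) (nat_lit 5) (nat_lit 146) (nat_lit 5) (nat_lit 141) (nat_lit 5) (nat_lit 450)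 (nat_lit 404) (nat_lit 166)) (XT.lf (nat_lit 0) (nat_lit 17246543589) (nat_lit 304) (nat_lit 31835881224) (nat_lit 380) (nat_lit 9947586052) (nat_lit 136) (nat_lit 5) (nat_lit 140) (nat_lit 5) (nat_lit 141) (nat_lit 5) (nat_lit 451) (nat_lit 404) (nat_lit 165)))) (XT.nd (nat_lit 156) (nat_lit 304) (nat_lit 0) (XT.nd (nat_lit 78) (nat_lit 380) (nat_lit 0) (XT.lf (nat_lit 0) (nat_lit 759520347) (nat_lit 380) (nat_lit 9225690279) (nat_lit 76) (nat_lit 50142872521) (nat_lit 135) (nat_lit 5) (nat_lit 140) (nat_lit 5) (nat_lit 136) (nat_lit 5) (nat_lit 452) (nat_lit 404) (nat_lit 164)) (XT.lf (nat_lit 0) (nat_lit 11947780980) (nat_lit 456) (nat_lit 36682208992) (nat_lit 76) (nat_lit 12615356881) (nat_lit 130) (nat_lit 5) (nat_lit 136) (nat_lit 5) (nat_lit 131) (nat_lit 5) (nat_lit 453) (nat_lit 404) (nat_lit 163))) (XT.nd (nat_lit 78) (nat_lit 304) (nat_lit 0) (XT.lf (nat_lit 0) (nat_lit 23663507514) (nat_lit 456)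 (nat_lit 2939986925) (nat_lit 76) (nat_lit 35786879792) (nat_lit 130) (nat_lit 5) (nat_lit 136) (nat_lit 5) (nat_lit 131) (nat_lit 5) (nat_lit 454) (nat_lit 404) (nat_lit 162)) (XT.lf (nat_lit 0) (nat_lit 32446072725) (nat_lit 304) (nat_lit 3595428346) (nat_lit 380) (nat_lit 27518927797) (nat_lit 126) (nat_lit 5) (nat_lit 130) (nat_lit 5) (nat_lit 131) (nat_lit 5) (nat_lit 455) (nat_lit 404) (nat_lit 161))))) (XT.nd (nat_lit 234) (nat_lit 532) (nat_lit 0) (XT.nd (nat_lit 78) (nat_lit 380) (nat_lit 0) (XT.lf (nat_lit 0) (nat_lit 4073661654) (nat_lit 304) (nat_lit 44978470699) (nat_lit 380) (nat_lit 15705614142) (nat_lit 122) (nat_lit 5) (nat_lit 126) (nat_lit 5) (nat_lit 127) (nat_lit 5) (nat_lit 456) (nat_lit 404) (nat_lit 160)) (XT.nd (nat_lit 78) (nat_lit 380) (nat_lit 0) (XT.lf (nat_lit 0) (nat_lit 40917260963) (nat_lit 304) (nat_lit 21884197577) (nat_lit 380) (nat_lit 3179074109) (nat_lit 122) (nat_lit 5)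 (nat_lit 126) (nat_lit 5) (nat_lit 127) (nat_lit 5) (nat_lit 457) (nat_lit 404) (nat_lit 159)) (XT.lf (nat_lit 0) (nat_lit 9665861911) (nat_lit 380) (nat_lit 55493519342) (nat_lit 76) (nat_lit 2073847350) (nat_lit 117) (nat_lit 5) (nat_lit 122) (nat_lit 5) (nat_lit 118) (nat_lit 5) (nat_lit 458) (nat_lit 404) (nat_lit 158)))) (XT.nd (nat_lit 156) (nat_lit 228) (nat_lit 0) (XT.nd (nat_lit 78) (nat_lit 304) (nat_lit 0) (XT.lf (nat_lit 0) (nat_lit 23303485030) (nat_lit 380) (nat_lit 18607570481) (nat_lit 76) (nat_lit 26597368842) (nat_lit 117) (nat_lit 5) (nat_lit 122) (nat_lit 5) (nat_lit 118) (nat_lit 5) (nat_lit 459) (nat_lit 404) (nat_lit 157)) (XT.lf (nat_lit 0) (nat_lit 19769217887) (nat_lit 304) (nat_lit 17770047234) (nat_lit 380) (nat_lit 32276940254) (nat_lit 113) (nat_lit 5) (nat_lit 117) (nat_lit 5) (nat_lit 118) (nat_lit 5) (nat_lit 460) (nat_lit 404) (nat_lit 156))) (XT.nd (nat_lit 78) (nat_lit 228)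 (nat_lit 0) (XT.lf (nat_lit 0) (nat_lit 52459086878) (nat_lit 380) (nat_lit 11550417640) (nat_lit 76) (nat_lit 7146006501) (nat_lit 113) (nat_lit 5) (nat_lit 118) (nat_lit 5) (nat_lit 114) (nat_lit 5) (nat_lit 461) (nat_lit 404) (nat_lit 155)) (XT.lf (nat_lit 0) (nat_lit 28479369577) (nat_lit 228) (nat_lit 39795869460) (nat_lit 304) (nat_lit 4246294957) (nat_lit 110) (nat_lit 5) (nat_lit 113) (nat_lit 5) (nat_lit 114) (nat_lit 5) (nat_lit 462) (nat_lit 404) (nat_lit 154))))))) (XT.nd (nat_lit 48906) (nat_lit 0) (nat_lit 11172) (XT.nd (nat_lit 546) (nat_lit 304) (nat_lit 0) (XT.nd (nat_lit 234) (nat_lit 532) (nat_lit 0) (XT.nd (nat_lit 78) (nat_lit 532) (nat_lit 0) (XT.lf (nat_lit 0) (nat_lit 10546594744) (nat_lit 304) (nat_lit 4083101990) (nat_lit 76) (nat_lit 59292268682) (nat_lit 109) (nat_lit 5) (nat_lit 113) (nat_lit 5) (nat_lit 110) (nat_lit 5) (nat_lit 463) (nat_lit 404) (nat_lit 153)) (XT.nd (nat_lit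 78) (nat_lit 228) (nat_lit 0) (XT.lf (nat_lit 0) (nat_lit 26172588820) (nat_lit 380) (nat_lit 37696582874) (nat_lit 76) (nat_lit 11479737105) (nat_lit 105) (nat_lit 5) (nat_lit 110) (nat_lit 5) (nat_lit 106) (nat_lit 5) (nat_lit 464) (nat_lit 404) (nat_lit 152)) (XT.lf (nat_lit 0) (nat_lit 3834210751) (nat_lit 228) (nat_lit 38655571558) (nat_lit 304) (nat_lit 34322205794) (nat_lit 102) (nat_lit 5) (nat_lit 105) (nat_lit 5) (nat_lit 106) (nat_lit 5) (nat_lit 465) (nat_lit 404) (nat_lit 151)))) (XT.nd (nat_lit 156) (nat_lit 304) (nat_lit 0) (XT.nd (nat_lit 78) (nat_lit 228) (nat_lit 0) (XT.lf (nat_lit 0) (nat_lit 47382240820) (nat_lit 228) (nat_lit 12294000328) (nat_lit 304) (nat_lit 18631326353) (nat_lit 102) (nat_lit 5) (nat_lit 105) (nat_lit 5) (nat_lit 106) (nat_lit 5) (nat_lit 466) (nat_lit 404) (nat_lit 150)) (XT.lf (nat_lit 0) (nat_lit 12488147423) (nat_lit 228) (nat_lit 65152127946) (nat_lit 304) (nat_lit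 2199879659) (nat_lit 99) (nat_lit 5) (nat_lit 102) (nat_lit 5) (nat_lit 103) (nat_lit 5) (nat_lit 467) (nat_lit 404) (nat_lit 149))) (XT.nd (nat_lit 78) (nat_lit 228) (nat_lit 0) (XT.lf (nat_lit 0) (nat_lit 14873395397) (nat_lit 304) (nat_lit 23839157327) (nat_lit 76) (nat_lit 42688835015) (nat_lit 98) (nat_lit 5) (nat_lit 102) (nat_lit 5) (nat_lit 99) (nat_lit 5) (nat_lit 468) (nat_lit 404) (nat_lit 148)) (XT.lf (nat_lit 0) (nat_lit 21372988035) (nat_lit 228) (nat_lit 11246254655) (nat_lit 304) (nat_lit 50383423808) (nat_lit 95) (nat_lit 5) (nat_lit 98) (nat_lit 5) (nat_lit 99) (nat_lit 5) (nat_lit 469) (nat_lit 404) (nat_lit 147))))) (XT.nd (nat_lit 48048) (nat_lit 0) (nat_lit 11780) (XT.nd (nat_lit 78) (nat_lit 304) (nat_lit 0) (XT.lf (nat_lit 0) (nat_lit 51303561507) (nat_lit 304) (nat_lit 16382186443) (nat_lit 76) (nat_lit 16954052960) (nat_lit 95) (nat_lit 5) (nat_lit 99) (nat_lit 5) (nat_lit 96) (nat_lit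 5) (nat_lit 470) (nat_lit 404) (nat_lit 146)) (XT.nd (nat_lit 78) (nat_lit 76) (nat_lit 0) (XT.lf (nat_lit 0) (nat_lit 30709289668) (nat_lit 228) (nat_lit 40244836861) (nat_lit 304) (nat_lit 15359751496) (nat_lit 92) (nat_lit 5) (nat_lit 95) (nat_lit 5) (nat_lit 96) (nat_lit 5) (nat_lit 471) (nat_lit 404) (nat_lit 145)) (XT.lf (nat_lit 0) (nat_lit 3260685612) (nat_lit 304) (nat_lit 8517205307) (nat_lit 76) (nat_lit 76254389359) (nat_lit 91) (nat_lit 5) (nat_lit 95) (nat_lit 5) (nat_lit 92) (nat_lit 5) (nat_lit 472) (nat_lit 404) (nat_lit 144)))) (XT.nd (nat_lit 156) (nat_lit 0) (nat_lit 76) (XT.nd (nat_lit 78) (nat_lit 0) (nat_lit 0) (XT.lf (nat_lit 0) (nat_lit 2221530986) (nat_lit 1292) (nat_lit 5853338885) (nat_lit 1292) (nat_lit 5853338885) (nat_lit 246) (nat_lit 3) (nat_lit 263) (nat_lit 3) (nat_lit 263) (nat_lit 5) (nat_lit 405) (nat_lit 405) (nat_lit 210)) (XT.lf (nat_lit 76) (nat_lit 1753702963) (nat_lit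 0) (nat_lit 2856238438) (nat_lit 1292) (nat_lit 23661280169) (nat_lit 247) (nat_lit 5) (nat_lit 246) (nat_lit 3) (nat_lit 263) (nat_lit 5) (nat_lit 406) (nat_lit 405) (nat_lit 209))) (XT.nd (nat_lit 78) (nat_lit 0) (nat_lit 0) (XT.lf (nat_lit 0) (nat_lit 5002119697) (nat_lit 1216) (nat_lit 12944210436) (nat_lit 1292) (nat_lit 10745532211) (nat_lit 247) (nat_lit 5) (nat_lit 263) (nat_lit 5) (nat_lit 264) (nat_lit 5) (nat_lit 407) (nat_lit 405) (nat_lit 208)) (XT.lf (nat_lit 76) (nat_lit 1026272489) (nat_lit 0) (nat_lit 4414775055) (nat_lit 1292) (nat_lit 23683026606) (nat_lit 248) (nat_lit 5) (nat_lit 247) (nat_lit 5) (nat_lit 264) (nat_lit 5) (nat_lit 408) (nat_lit 405) (nat_lit 207)))))) (XT.nd (nat_lit 546) (nat_lit 760) (nat_lit 0) (XT.nd (nat_lit 234) (nat_lit 0) (nat_lit 76) (XT.nd (nat_lit 78) (nat_lit 0) (nat_lit 0) (XT.lf (nat_lit 0) (nat_lit 6113614268) (nat_lit 1216) (nat_lit 13978810358) (nat_lit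 1292) (nat_lit 9470214848) (nat_lit 248) (nat_lit 5) (nat_lit 264) (nat_lit 5) (nat_lit 265) (nat_lit 5) (nat_lit 409) (nat_lit 405) (nat_lit 206)) (XT.nd (nat_lit 78) (nat_lit 0) (nat_lit 76) (XT.lf (nat_lit 76) (nat_lit 528547632) (nat_lit 0) (nat_lit 6323618671) (nat_lit 1292) (nat_lit 23160822463) (nat_lit 249) (nat_lit 5) (nat_lit 248) (nat_lit 5) (nat_lit 265) (nat_lit 5) (nat_lit 410) (nat_lit 405) (nat_lit 205)) (XT.lf (nat_lit 0) (nat_lit 7828066852) (nat_lit 1216) (nat_lit 14793759441) (nat_lit 1292) (nat_lit 7848567705) (nat_lit 249) (nat_lit 5) (nat_lit 265) (nat_lit 5) (nat_lit 266) (nat_lit 5) (nat_lit 411) (nat_lit 405) (nat_lit 204)))) (XT.nd (nat_lit 156) (nat_lit 0) (nat_lit 76) (XT.nd (nat_lit 78) (nat_lit 0) (nat_lit 76) (XT.lf (nat_lit 76) (nat_lit 278636813) (nat_lit 0) (nat_lit 8617078105) (nat_lit 1292) (nat_lit 22043933539) (nat_lit 250) (nat_lit 5) (nat_lit 249) (nat_lit 5) (nat_lit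 266) (nat_lit 5) (nat_lit 412) (nat_lit 405) (nat_lit 203)) (XT.lf (nat_lit 0) (nat_lit 10199343365) (nat_lit 1216) (nat_lit 15371251540) (nat_lit 1292) (nat_lit 5846268269) (nat_lit 250) (nat_lit 5) (nat_lit 266) (nat_lit 5) (nat_lit 267) (nat_lit 5) (nat_lit 413) (nat_lit 405) (nat_lit 202))) (XT.nd (nat_lit 78) (nat_lit 0) (nat_lit 76) (XT.lf (nat_lit 76) (nat_lit 295803713) (nat_lit 0) (nat_lit 11331773573) (nat_lit 1292) (nat_lit 20278253263) (nat_lit 251) (nat_lit 5) (nat_lit 250) (nat_lit 5) (nat_lit 267) (nat_lit 5) (nat_lit 414) (nat_lit 405) (nat_lit 201)) (XT.lf (nat_lit 0) (nat_lit 13284867994) (nat_lit 1216) (nat_lit 15692352176) (nat_lit 1292) (nat_lit 3426661568) (nat_lit 251) (nat_lit 5) (nat_lit 267) (nat_lit 5) (nat_lit 268) (nat_lit 5) (nat_lit 415) (nat_lit 405) (nat_lit 200))))) (XT.nd (nat_lit 312) (nat_lit 988) (nat_lit 0) (XT.nd (nat_lit 156) (nat_lit 0) (nat_lit 76) (XT.nd (nat_lit 78)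 (nat_lit 0) (nat_lit 76) (XT.lf (nat_lit 76) (nat_lit 600510299) (nat_lit 0) (nat_lit 14506813967) (nat_lit 1292) (nat_lit 17806087844) (nat_lit 252) (nat_lit 5) (nat_lit 251) (nat_lit 5) (nat_lit 268) (nat_lit 5) (nat_lit 416) (nat_lit 405) (nat_lit 199)) (XT.lf (nat_lit 0) (nat_lit 17145848358) (nat_lit 1216) (nat_lit 15736957389) (nat_lit 1292) (nat_lit 550581844) (nat_lit 252) (nat_lit 5) (nat_lit 268) (nat_lit 5) (nat_lit 269) (nat_lit 5) (nat_lit 417) (nat_lit 405) (nat_lit 198))) (XT.nd (nat_lit 78) (nat_lit 0) (nat_lit 0) (XT.lf (nat_lit 76) (nat_lit 1214460755) (nat_lit 0) (nat_lit 18183985257) (nat_lit 1292) (nat_lit 14565929781) (nat_lit 253) (nat_lit 5) (nat_lit 252) (nat_lit 5) (nat_lit 269) (nat_lit 5) (nat_lit 418) (nat_lit 405) (nat_lit 197)) (XT.lf (nat_lit 76) (nat_lit 18995160697) (nat_lit 0) (nat_lit 2880036937) (nat_lit 1292) (nat_lit 12631399692) (nat_lit 253) (nat_lit 5) (nat_lit 252)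 (nat_lit 5) (nat_lit 269) (nat_lit 5) (nat_lit 419) (nat_lit 405) (nat_lit 196)))) (XT.nd (nat_lit 156) (nat_lit 1140) (nat_lit 0) (XT.nd (nat_lit 78) (nat_lit 0) (nat_lit 0) (XT.lf (nat_lit 76) (nat_lit 2160646082) (nat_lit 0) (nat_lit 22407950923) (nat_lit 1292) (nat_lit 10492219078) (nat_lit 254) (nat_lit 5) (nat_lit 253) (nat_lit 5) (nat_lit 270) (nat_lit 5) (nat_lit 420) (nat_lit 405) (nat_lit 195)) (XT.lf (nat_lit 76) (nat_lit 20649923678) (nat_lit 0) (nat_lit 6875529731) (nat_lit 1292) (nat_lit 8100729251) (nat_lit 254) (nat_lit 5) (nat_lit 253) (nat_lit 5) (nat_lit 270) (nat_lit 5) (nat_lit 421) (nat_lit 405) (nat_lit 194))) (XT.nd (nat_lit 78) (nat_lit 0) (nat_lit 0) (XT.lf (nat_lit 0) (nat_lit 3463389107) (nat_lit 1216) (nat_lit 27226465371) (nat_lit 1292) (nat_lit 5515091469) (nat_lit 238) (nat_lit 5) (nat_lit 254) (nat_lit 5) (nat_lit 255) (nat_lit 5) (nat_lit 422) (nat_lit 405) (nat_lit 193)) (XT.lf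 (nat_lit 0) (nat_lit 22691945317) (nat_lit 1216) (nat_lit 11473777244) (nat_lit 1292) (nat_lit 2628854378) (nat_lit 238) (nat_lit 5) (nat_lit 254) (nat_lit 5) (nat_lit 255) (nat_lit 5) (nat_lit 423) (nat_lit 405) (nat_lit 192))))))))
noncomputable def xc228 : XT := (XT.nd (nat_lit 2184) (nat_lit 3648) (nat_lit 0) (XT.nd (nat_lit 1092) (nat_lit 2964) (nat_lit 0) (XT.nd (nat_lit 546) (nat_lit 2052) (nat_lit 0) (XT.nd (nat_lit 234) (nat_lit 1140) (nat_lit 0) (XT.nd (nat_lit 78) (nat_lit 608) (nat_lit 0) (XT.lf (nat_lit 0) (nat_lit 431303241) (nat_lit 684) (nat_lit 32254942816) (nat_lit 76) (nat_lit 4712731052) (nat_lit 229) (nat_lit 5) (nat_lit 238) (nat_lit 5) (nat_lit 230) (nat_lit 5) (nat_lit 424) (nat_lit 405) (nat_lit 191)) (XT.nd (nat_lit 78) (nat_lit 608) (nat_lit 0) (XT.lf (nat_lit 0) (nat_lit 3785830592) (nat_lit 684) (nat_lit 12902970538) (nat_lit 76) (nat_lit 21324266019) (nat_lit 229) (nat_lit 5) (nat_lit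 238) (nat_lit 5) (nat_lit 230) (nat_lit 5) (nat_lit 425) (nat_lit 405) (nat_lit 190)) (XT.lf (nat_lit 0) (nat_lit 7167597595) (nat_lit 608) (nat_lit 140335986) (nat_lit 684) (nat_lit 31335638875) (nat_lit 221) (nat_lit 5) (nat_lit 229) (nat_lit 5) (nat_lit 230) (nat_lit 5) (nat_lit 426) (nat_lit 405) (nat_lit 189)))) (XT.nd (nat_lit 156) (nat_lit 532) (nat_lit 0) (XT.nd (nat_lit 78) (nat_lit 608) (nat_lit 0) (XT.lf (nat_lit 0) (nat_lit 11227862801) (nat_lit 684) (nat_lit 11349960710) (nat_lit 76) (nat_lit 16706405255) (nat_lit 221) (nat_lit 5) (nat_lit 230) (nat_lit 5) (nat_lit 222) (nat_lit 5) (nat_lit 427) (nat_lit 405) (nat_lit 188)) (XT.lf (nat_lit 0) (nat_lit 9563241762) (nat_lit 608) (nat_lit 5793602414) (nat_lit 684) (nat_lit 24584517680) (nat_lit 213) (nat_lit 5) (nat_lit 221) (nat_lit 5) (nat_lit 222) (nat_lit 5) (nat_lit 428) (nat_lit 405) (nat_lit 187))) (XT.nd (nat_lit 78) (nat_lit 532) (nat_lit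 0) (XT.lf (nat_lit 0) (nat_lit 19834105200) (nat_lit 684) (nat_lit 9391744590) (nat_lit 76) (nat_lit 11385627537) (nat_lit 213) (nat_lit 5) (nat_lit 222) (nat_lit 5) (nat_lit 214) (nat_lit 5) (nat_lit 429) (nat_lit 405) (nat_lit 186)) (XT.lf (nat_lit 0) (nat_lit 12407168452) (nat_lit 532) (nat_lit 12213370796) (nat_lit 608) (nat_lit 16675912035) (nat_lit 206) (nat_lit 5) (nat_lit 213) (nat_lit 5) (nat_lit 214) (nat_lit 5) (nat_lit 430) (nat_lit 405) (nat_lit 185))))) (XT.nd (nat_lit 234) (nat_lit 1520) (nat_lit 0) (XT.nd (nat_lit 78) (nat_lit 532) (nat_lit 0) (XT.lf (nat_lit 0) (nat_lit 29695643081) (nat_lit 608) (nat_lit 7000370453) (nat_lit 76) (nat_lit 5301609276) (nat_lit 206) (nat_lit 5) (nat_lit 214) (nat_lit 5) (nat_lit 207) (nat_lit 5) (nat_lit 431) (nat_lit 405) (nat_lit 184)) (XT.nd (nat_lit 78) (nat_lit 0) (nat_lit 0) (XT.lf (nat_lit 0) (nat_lit 15729441734) (nat_lit 532) (nat_lit 19463995978) (nat_lit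 608) (nat_lit 7518279278) (nat_lit 199) (nat_lit 5) (nat_lit 206) (nat_lit 5) (nat_lit 207) (nat_lit 5) (nat_lit 432) (nat_lit 405) (nat_lit 183)) (XT.lf (nat_lit 0) (nat_lit 39282885320) (nat_lit 532) (nat_lit 1642315288) (nat_lit 608) (nat_lit 2519962973) (nat_lit 199) (nat_lit 5) (nat_lit 206) (nat_lit 5) (nat_lit 207) (nat_lit 5) (nat_lit 433) (nat_lit 405) (nat_lit 182)))) (XT.nd (nat_lit 156) (nat_lit 988) (nat_lit 0) (XT.nd (nat_lit 78) (nat_lit 0) (nat_lit 0) (XT.lf (nat_lit 0) (nat_lit 2927546297) (nat_lit 532) (nat_lit 24657292116) (nat_lit 76) (nat_lit 16604501861) (nat_lit 192) (nat_lit 5) (nat_lit 199) (nat_lit 5) (nat_lit 193) (nat_lit 5) (nat_lit 434) (nat_lit 405) (nat_lit 181)) (XT.lf (nat_lit 0) (nat_lit 8544945144) (nat_lit 532) (nat_lit 975456355) (nat_lit 76) (nat_lit 35432979438) (nat_lit 192) (nat_lit 5) (nat_lit 199) (nat_lit 5) (nat_lit 193) (nat_lit 5) (nat_lit 435) (nat_lit 405) (nat_lit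 180))) (XT.nd (nat_lit 78) (nat_lit 456) (nat_lit 0) (XT.lf (nat_lit 0) (nat_lit 14648488898) (nat_lit 608) (nat_lit 21941996468) (nat_lit 76) (nat_lit 9140329316) (nat_lit 185) (nat_lit 5) (nat_lit 193) (nat_lit 5) (nat_lit 186) (nat_lit 5) (nat_lit 436) (nat_lit 405) (nat_lit 179)) (XT.lf (nat_lit 0) (nat_lit 2742140191) (nat_lit 456) (nat_lit 18322045867) (nat_lit 532) (nat_lit 25463514501) (nat_lit 179) (nat_lit 5) (nat_lit 185) (nat_lit 5) (nat_lit 186) (nat_lit 5) (nat_lit 437) (nat_lit 405) (nat_lit 178)))))) (XT.nd (nat_lit 546) (nat_lit 1596) (nat_lit 0) (XT.nd (nat_lit 234) (nat_lit 912) (nat_lit 0) (XT.nd (nat_lit 78) (nat_lit 456) (nat_lit 0) (XT.lf (nat_lit 0) (nat_lit 27899376147) (nat_lit 532) (nat_lit 18733978959) (nat_lit 76) (nat_lit 708327765) (nat_lit 179) (nat_lit 5) (nat_lit 186) (nat_lit 5) (nat_lit 180) (nat_lit 5) (nat_lit 438) (nat_lit 405) (nat_lit 177)) (XT.nd (nat_lit 78) (nat_lit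 0) (nat_lit 0) (XT.lf (nat_lit 0) (nat_lit 7023063770) (nat_lit 456) (nat_lit 28164022287) (nat_lit 532) (nat_lit 12985575175) (nat_lit 173) (nat_lit 5) (nat_lit 179) (nat_lit 5) (nat_lit 180) (nat_lit 5) (nat_lit 439) (nat_lit 405) (nat_lit 176)) (XT.lf (nat_lit 0) (nat_lit 33935137897) (nat_lit 456) (nat_lit 8946039441) (nat_lit 532) (nat_lit 6141759590) (nat_lit 173) (nat_lit 5) (nat_lit 179) (nat_lit 5) (nat_lit 180) (nat_lit 5) (nat_lit 440) (nat_lit 405) (nat_lit 175)))) (XT.nd (nat_lit 156) (nat_lit 456) (nat_lit 0) (XT.nd (nat_lit 78) (nat_lit 0) (nat_lit 0) (XT.lf (nat_lit 0) (nat_lit 1108922761) (nat_lit 456) (nat_lit 38021351192) (nat_lit 76) (nat_lit 10761607987) (nat_lit 167) (nat_lit 5) (nat_lit 173) (nat_lit 5) (nat_lit 168) (nat_lit 5) (nat_lit 441) (nat_lit 405) (nat_lit 174)) (XT.lf (nat_lit 0) (nat_lit 8694745457) (nat_lit 456) (nat_lit 10988030648) (nat_lit 76) (nat_lit 31095063463) (nat_lit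 167) (nat_lit 5) (nat_lit 173) (nat_lit 5) (nat_lit 168) (nat_lit 5) (nat_lit 442) (nat_lit 405) (nat_lit 173))) (XT.nd (nat_lit 78) (nat_lit 0) (nat_lit 0) (XT.lf (nat_lit 0) (nat_lit 16677026816) (nat_lit 532) (nat_lit 34500368242) (nat_lit 76) (nat_lit 507914782) (nat_lit 161) (nat_lit 5) (nat_lit 168) (nat_lit 5) (nat_lit 162) (nat_lit 5) (nat_lit 443) (nat_lit 405) (nat_lit 172)) (XT.lf (nat_lit 0) (nat_lit 25204394680) (nat_lit 532) (nat_lit 6385985757) (nat_lit 76) (nat_lit 21020455662) (nat_lit 161) (nat_lit 5) (nat_lit 168) (nat_lit 5) (nat_lit 162) (nat_lit 5) (nat_lit 444) (nat_lit 405) (nat_lit 171))))) (XT.nd (nat_lit 234) (nat_lit 836) (nat_lit 0) (XT.nd (nat_lit 78) (nat_lit 380) (nat_lit 0) (XT.lf (nat_lit 0) (nat_lit 23019388736) (nat_lit 380) (nat_lit 11188192589) (nat_lit 456) (nat_lit 19349947297) (nat_lit 156) (nat_lit 5) (nat_lit 161) (nat_lit 5) (nat_lit 162) (nat_lit 5) (nat_lit 445)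 (nat_lit 405) (nat_lit 170)) (XT.nd (nat_lit 78) (nat_lit 380) (nat_lit 0) (XT.lf (nat_lit 0) (nat_lit 43639181674) (nat_lit 456) (nat_lit 1189598347) (nat_lit 76) (nat_lit 9699092755) (nat_lit 156) (nat_lit 5) (nat_lit 162) (nat_lit 5) (nat_lit 157) (nat_lit 5) (nat_lit 446) (nat_lit 405) (nat_lit 169)) (XT.lf (nat_lit 0) (nat_lit 29502728456) (nat_lit 380) (nat_lit 24244150328) (nat_lit 456) (nat_lit 1768654393) (nat_lit 151) (nat_lit 5) (nat_lit 156) (nat_lit 5) (nat_lit 157) (nat_lit 5) (nat_lit 447) (nat_lit 405) (nat_lit 168)))) (XT.nd (nat_lit 156) (nat_lit 380) (nat_lit 0) (XT.nd (nat_lit 78) (nat_lit 0) (nat_lit 0) (XT.lf (nat_lit 0) (nat_lit 4622932625) (nat_lit 380) (nat_lit 2908614321) (nat_lit 456) (nat_lit 48997417295) (nat_lit 145) (nat_lit 5) (nat_lit 150) (nat_lit 5) (nat_lit 151) (nat_lit 5) (nat_lit 448) (nat_lit 405) (nat_lit 167)) (XT.lf (nat_lit 0) (nat_lit 17522569433) (nat_lit 456) (nat_lit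 21058961303) (nat_lit 76) (nat_lit 18977321610) (nat_lit 145) (nat_lit 5) (nat_lit 151) (nat_lit 5) (nat_lit 146) (nat_lit 5) (nat_lit 449) (nat_lit 405) (nat_lit 166))) (XT.nd (nat_lit 78) (nat_lit 0) (nat_lit 0) (XT.lf (nat_lit 0) (nat_lit 10895759093) (nat_lit 380) (nat_lit 17049933956) (nat_lit 456) (nat_lit 30669973276) (nat_lit 140) (nat_lit 5) (nat_lit 145) (nat_lit 5) (nat_lit 146) (nat_lit 5) (nat_lit 450) (nat_lit 405) (nat_lit 165)) (XT.lf (nat_lit 0) (nat_lit 38944410262) (nat_lit 456) (nat_lit 15509985712) (nat_lit 76) (nat_lit 5241902083) (nat_lit 140) (nat_lit 5) (nat_lit 146) (nat_lit 5) (nat_lit 141) (nat_lit 5) (nat_lit 451) (nat_lit 405) (nat_lit 164))))))) (XT.nd (nat_lit 1092) (nat_lit 988) (nat_lit 0) (XT.nd (nat_lit 546) (nat_lit 1292) (nat_lit 0) (XT.nd (nat_lit 234) (nat_lit 608) (nat_lit 0) (XT.nd (nat_lit 78) (nat_lit 456) (nat_lit 0) (XT.lf (nat_lit 0) (nat_lit 17844076308) (nat_lit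 304) (nat_lit 32768236021) (nat_lit 380) (nat_lit 10186860035) (nat_lit 136) (nat_lit 5) (nat_lit 140) (nat_lit 5) (nat_lit 141) (nat_lit 5) (nat_lit 452) (nat_lit 405) (nat_lit 163)) (XT.nd (nat_lit 78) (nat_lit 380) (nat_lit 0) (XT.lf (nat_lit 0) (nat_lit 838615956) (nat_lit 380) (nat_lit 9423522524) (nat_lit 76) (nat_lit 51668082419) (nat_lit 135) (nat_lit 5) (nat_lit 140) (nat_lit 5) (nat_lit 136) (nat_lit 5) (nat_lit 453) (nat_lit 405) (nat_lit 162)) (XT.lf (nat_lit 0) (nat_lit 12361854299) (nat_lit 456) (nat_lit 37703051696) (nat_lit 76) (nat_lit 13016117074) (nat_lit 130) (nat_lit 5) (nat_lit 136) (nat_lit 5) (nat_lit 131) (nat_lit 5) (nat_lit 454) (nat_lit 405) (nat_lit 161)))) (XT.nd (nat_lit 156) (nat_lit 304) (nat_lit 0) (XT.nd (nat_lit 78) (nat_lit 304) (nat_lit 0) (XT.lf (nat_lit 0) (nat_lit 24427432050) (nat_lit 456) (nat_lit 2950882099) (nat_lit 76) (nat_lit 36882136172) (nat_lit 130) (nat_lit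 5) (nat_lit 136) (nat_lit 5) (nat_lit 131) (nat_lit 5) (nat_lit 455) (nat_lit 405) (nat_lit 160)) (XT.lf (nat_lit 0) (nat_lit 33496001454) (nat_lit 304) (nat_lit 3679926394) (nat_lit 380) (nat_lit 28289704301) (nat_lit 126) (nat_lit 5) (nat_lit 130) (nat_lit 5) (nat_lit 131) (nat_lit 5) (nat_lit 456) (nat_lit 405) (nat_lit 159))) (XT.nd (nat_lit 78) (nat_lit 0) (nat_lit 0) (XT.lf (nat_lit 0) (nat_lit 4273039004) (nat_lit 304) (nat_lit 46303249918) (nat_lit 380) (nat_lit 16122598469) (nat_lit 122) (nat_lit 5) (nat_lit 126) (nat_lit 5) (nat_lit 127) (nat_lit 5) (nat_lit 457) (nat_lit 405) (nat_lit 158)) (XT.lf (nat_lit 0) (nat_lit 42219698695) (nat_lit 304) (nat_lit 22516864377) (nat_lit 380) (nat_lit 3221840413) (nat_lit 122) (nat_lit 5) (nat_lit 126) (nat_lit 5) (nat_lit 127) (nat_lit 5) (nat_lit 458) (nat_lit 405) (nat_lit 157))))) (XT.nd (nat_lit 234) (nat_lit 608) (nat_lit 0) (XT.nd (nat_lit 78) (nat_lit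 304) (nat_lit 0) (XT.lf (nat_lit 0) (nat_lit 10006872542) (nat_lit 380) (nat_lit 57081808383) (nat_lit 76) (nat_lit 2160000936) (nat_lit 117) (nat_lit 5) (nat_lit 122) (nat_lit 5) (nat_lit 118) (nat_lit 5) (nat_lit 459) (nat_lit 405) (nat_lit 156)) (XT.nd (nat_lit 78) (nat_lit 304) (nat_lit 0) (XT.lf (nat_lit 0) (nat_lit 24052137905) (nat_lit 380) (nat_lit 19091509694) (nat_lit 76) (nat_lit 27418530844) (nat_lit 117) (nat_lit 5) (nat_lit 122) (nat_lit 5) (nat_lit 118) (nat_lit 5) (nat_lit 460) (nat_lit 405) (nat_lit 155)) (XT.lf (nat_lit 0) (nat_lit 20435854012) (nat_lit 304) (nat_lit 18278401331) (nat_lit 380) (nat_lit 33194959989) (nat_lit 113) (nat_lit 5) (nat_lit 117) (nat_lit 5) (nat_lit 118) (nat_lit 5) (nat_lit 461) (nat_lit 405) (nat_lit 154)))) (XT.nd (nat_lit 156) (nat_lit 380) (nat_lit 0) (XT.nd (nat_lit 78) (nat_lit 228) (nat_lit 0) (XT.lf (nat_lit 0) (nat_lit 54080480994) (nat_lit 380) (nat_lit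 11824310843) (nat_lit 76) (nat_lit 7383944376) (nat_lit 113) (nat_lit 5) (nat_lit 118) (nat_lit 5) (nat_lit 114) (nat_lit 5) (nat_lit 462) (nat_lit 405) (nat_lit 153)) (XT.lf (nat_lit 0) (nat_lit 29405658036) (nat_lit 228) (nat_lit 40964763865) (nat_lit 304) (nat_lit 4325339186) (nat_lit 110) (nat_lit 5) (nat_lit 113) (nat_lit 5) (nat_lit 114) (nat_lit 5) (nat_lit 463) (nat_lit 405) (nat_lit 152))) (XT.nd (nat_lit 78) (nat_lit 304) (nat_lit 0) (XT.lf (nat_lit 0) (nat_lit 10909013210) (nat_lit 304) (nat_lit 4134855651) (nat_lit 76) (nat_lit 61094364383) (nat_lit 109) (nat_lit 5) (nat_lit 113) (nat_lit 5) (nat_lit 110) (nat_lit 5) (nat_lit 464) (nat_lit 405) (nat_lit 151)) (XT.lf (nat_lit 0) (nat_lit 27003357384) (nat_lit 380) (nat_lit 38756301027) (nat_lit 76) (nat_lit 11848339716) (nat_lit 105) (nat_lit 5) (nat_lit 110) (nat_lit 5) (nat_lit 106) (nat_lit 5) (nat_lit 465) (nat_lit 405) (nat_lit 150)))))) (XT.nd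 (nat_lit 48438) (nat_lit 0) (nat_lit 11704) (XT.nd (nat_lit 234) (nat_lit 532) (nat_lit 0) (XT.nd (nat_lit 78) (nat_lit 228) (nat_lit 0) (XT.lf (nat_lit 0) (nat_lit 4019718571) (nat_lit 228) (nat_lit 39789697727) (nat_lit 304) (nat_lit 35305573321) (nat_lit 102) (nat_lit 5) (nat_lit 105) (nat_lit 5) (nat_lit 106) (nat_lit 5) (nat_lit 466) (nat_lit 405) (nat_lit 149)) (XT.nd (nat_lit 78) (nat_lit 228) (nat_lit 0) (XT.lf (nat_lit 0) (nat_lit 48872136683) (nat_lit 228) (nat_lit 12638023273) (nat_lit 304) (nat_lit 19145316000) (nat_lit 102) (nat_lit 5) (nat_lit 105) (nat_lit 5) (nat_lit 106) (nat_lit 5) (nat_lit 467) (nat_lit 405) (nat_lit 148)) (XT.lf (nat_lit 0) (nat_lit 12931619230) (nat_lit 228) (nat_lit 67081118183) (nat_lit 304) (nat_lit 2221315309) (nat_lit 99) (nat_lit 5) (nat_lit 102) (nat_lit 5) (nat_lit 103) (nat_lit 5) (nat_lit 468) (nat_lit 405) (nat_lit 147)))) (XT.nd (nat_lit 156) (nat_lit 228) (nat_lit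 0) (XT.nd (nat_lit 78) (nat_lit 228) (nat_lit 0) (XT.lf (nat_lit 0) (nat_lit 15362015899) (nat_lit 304) (nat_lit 24486656322) (nat_lit 76) (nat_lit 43993475784) (nat_lit 98) (nat_lit 5) (nat_lit 102) (nat_lit 5) (nat_lit 99) (nat_lit 5) (nat_lit 469) (nat_lit 405) (nat_lit 146)) (XT.lf (nat_lit 0) (nat_lit 22081189913) (nat_lit 228) (nat_lit 11558457366) (nat_lit 304) (nat_lit 51851835845) (nat_lit 95) (nat_lit 5) (nat_lit 98) (nat_lit 5) (nat_lit 99) (nat_lit 5) (nat_lit 470) (nat_lit 405) (nat_lit 145))) (XT.nd (nat_lit 78) (nat_lit 228) (nat_lit 0) (XT.lf (nat_lit 0) (nat_lit 52883512431) (nat_lit 304) (nat_lit 16807600081) (nat_lit 76) (nat_lit 17486648802) (nat_lit 95) (nat_lit 5) (nat_lit 99) (nat_lit 5) (nat_lit 96) (nat_lit 5) (nat_lit 471) (nat_lit 405) (nat_lit 144)) (XT.lf (nat_lit 0) (nat_lit 31695972745) (nat_lit 228) (nat_lit 41427060732) (nat_lit 304) (nat_lit 15779044335) (nat_lit 92) (nat_lit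 5) (nat_lit 95) (nat_lit 5) (nat_lit 96) (nat_lit 5) (nat_lit 472) (nat_lit 405) (nat_lit 143))))) (XT.nd (nat_lit 312) (nat_lit 0) (nat_lit 152) (XT.nd (nat_lit 156) (nat_lit 0) (nat_lit 76) (XT.nd (nat_lit 78) (nat_lit 0) (nat_lit 0) (XT.lf (nat_lit 0) (nat_lit 2370751289) (nat_lit 1292) (nat_lit 5986395817) (nat_lit 1292) (nat_lit 5986395817) (nat_lit 246) (nat_lit 3) (nat_lit 263) (nat_lit 3) (nat_lit 263) (nat_lit 5) (nat_lit 406) (nat_lit 406) (nat_lit 208)) (XT.lf (nat_lit 76) (nat_lit 1890566341) (nat_lit 0) (nat_lit 3018821775) (nat_lit 1292) (nat_lit 24205067946) (nat_lit 247) (nat_lit 5) (nat_lit 246) (nat_lit 3) (nat_lit 263) (nat_lit 5) (nat_lit 407) (nat_lit 406) (nat_lit 207))) (XT.nd (nat_lit 78) (nat_lit 0) (nat_lit 0) (XT.lf (nat_lit 0) (nat_lit 5307920473) (nat_lit 1216) (nat_lit 13245261393) (nat_lit 1292) (nat_lit 10994698505) (nat_lit 247) (nat_lit 5) (nat_lit 263) (nat_lit 5) (nat_lit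 264) (nat_lit 5) (nat_lit 408) (nat_lit 406) (nat_lit 206)) (XT.lf (nat_lit 76) (nat_lit 1143480379) (nat_lit 0) (nat_lit 4612830461) (nat_lit 1292) (nat_lit 24236860765) (nat_lit 248) (nat_lit 5) (nat_lit 247) (nat_lit 5) (nat_lit 264) (nat_lit 5) (nat_lit 409) (nat_lit 406) (nat_lit 205)))) (XT.nd (nat_lit 156) (nat_lit 0) (nat_lit 76) (XT.nd (nat_lit 78) (nat_lit 0) (nat_lit 0) (XT.lf (nat_lit 0) (nat_lit 6444014119) (nat_lit 1216) (nat_lit 14309169630) (nat_lit 1292) (nat_lit 9691863211) (nat_lit 248) (nat_lit 5) (nat_lit 264) (nat_lit 5) (nat_lit 265) (nat_lit 5) (nat_lit 410) (nat_lit 406) (nat_lit 204)) (XT.lf (nat_lit 76) (nat_lit 632536501) (nat_lit 0) (nat_lit 6568752093) (nat_lit 1292) (nat_lit 23707722965) (nat_lit 249) (nat_lit 5) (nat_lit 248) (nat_lit 5) (nat_lit 265) (nat_lit 5) (nat_lit 411) (nat_lit 406) (nat_lit 203))) (XT.nd (nat_lit 78) (nat_lit 0) (nat_lit 0) (XT.lf (nat_lit 0) (nat_lit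 8201767619) (nat_lit 1216) (nat_lit 15147249809) (nat_lit 1292) (nat_lit 8031264228) (nat_lit 249) (nat_lit 5) (nat_lit 265) (nat_lit 5) (nat_lit 266) (nat_lit 5) (nat_lit 412) (nat_lit 406) (nat_lit 202)) (XT.lf (nat_lit 76) (nat_lit 376432818) (nat_lit 0) (nat_lit 8921827601) (nat_lit 1292) (nat_lit 22565450572) (nat_lit 250) (nat_lit 5) (nat_lit 249) (nat_lit 5) (nat_lit 266) (nat_lit 5) (nat_lit 413) (nat_lit 406) (nat_lit 201))))))))
noncomputable def xc229 : XT := (XT.nd (nat_lit 2184) (nat_lit 5700) (nat_lit 0) (XT.nd (nat_lit 1092) (nat_lit 3648) (nat_lit 0) (XT.nd (nat_lit 546) (nat_lit 2204) (nat_lit 0) (XT.nd (nat_lit 234) (nat_lit 0) (nat_lit 76) (XT.nd (nat_lit 78) (nat_lit 0) (nat_lit 0) (XT.lf (nat_lit 0) (nat_lit 10636614533) (nat_lit 1216) (nat_lit 15741118911) (nat_lit 1292) (nat_lit 5977641852) (nat_lit 250) (nat_lit 5) (nat_lit 266) (nat_lit 5) (nat_lit 267) (nat_lit 5) (nat_lit 414) (nat_lit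 406) (nat_lit 200)) (XT.nd (nat_lit 78) (nat_lit 0) (nat_lit 76) (XT.lf (nat_lit 76) (nat_lit 395053194) (nat_lit 0) (nat_lit 11709687016) (nat_lit 1292) (nat_lit 20754361744) (nat_lit 251) (nat_lit 5) (nat_lit 250) (nat_lit 5) (nat_lit 267) (nat_lit 5) (nat_lit 415) (nat_lit 406) (nat_lit 199)) (XT.lf (nat_lit 0) (nat_lit 13807657440) (nat_lit 1216) (nat_lit 16071235578) (nat_lit 1292) (nat_lit 3493325983) (nat_lit 251) (nat_lit 5) (nat_lit 267) (nat_lit 5) (nat_lit 268) (nat_lit 5) (nat_lit 416) (nat_lit 406) (nat_lit 198)))) (XT.nd (nat_lit 156) (nat_lit 0) (nat_lit 76) (XT.nd (nat_lit 78) (nat_lit 0) (nat_lit 76) (XT.lf (nat_lit 76) (nat_lit 709511917) (nat_lit 0) (nat_lit 14972531359) (nat_lit 1292) (nat_lit 18215075843) (nat_lit 252) (nat_lit 5) (nat_lit 251) (nat_lit 5) (nat_lit 268) (nat_lit 5) (nat_lit 417) (nat_lit 406) (nat_lit 197)) (XT.lf (nat_lit 0) (nat_lit 17777899511) (nat_lit 1216) (nat_lit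 16116857400) (nat_lit 1292) (nat_lit 538053129) (nat_lit 252) (nat_lit 5) (nat_lit 268) (nat_lit 5) (nat_lit 269) (nat_lit 5) (nat_lit 418) (nat_lit 406) (nat_lit 196))) (XT.nd (nat_lit 78) (nat_lit 0) (nat_lit 0) (XT.lf (nat_lit 76) (nat_lit 1342199282) (nat_lit 0) (nat_lit 18753326042) (nat_lit 1292) (nat_lit 14884280482) (nat_lit 253) (nat_lit 5) (nat_lit 252) (nat_lit 5) (nat_lit 269) (nat_lit 5) (nat_lit 419) (nat_lit 406) (nat_lit 195)) (XT.lf (nat_lit 76) (nat_lit 19653660862) (nat_lit 0) (nat_lit 2989565450) (nat_lit 1292) (nat_lit 12895169651) (nat_lit 253) (nat_lit 5) (nat_lit 252) (nat_lit 5) (nat_lit 269) (nat_lit 5) (nat_lit 420) (nat_lit 406) (nat_lit 194))))) (XT.nd (nat_lit 234) (nat_lit 1292) (nat_lit 0) (XT.nd (nat_lit 78) (nat_lit 1140) (nat_lit 0) (XT.lf (nat_lit 76) (nat_lit 2316827828) (nat_lit 0) (nat_lit 23098006711) (nat_lit 1292) (nat_lit 10694485881) (nat_lit 254) (nat_lit 5) (nat_lit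 253) (nat_lit 5) (nat_lit 270) (nat_lit 5) (nat_lit 421) (nat_lit 406) (nat_lit 193)) (XT.nd (nat_lit 78) (nat_lit 1140) (nat_lit 0) (XT.lf (nat_lit 76) (nat_lit 21358122712) (nat_lit 0) (nat_lit 7099093933) (nat_lit 1292) (nat_lit 8234528052) (nat_lit 254) (nat_lit 5) (nat_lit 253) (nat_lit 5) (nat_lit 270) (nat_lit 5) (nat_lit 422) (nat_lit 406) (nat_lit 192)) (XT.lf (nat_lit 0) (nat_lit 3658478976) (nat_lit 1216) (nat_lit 28055698521) (nat_lit 1292) (nat_lit 5573765819) (nat_lit 238) (nat_lit 5) (nat_lit 254) (nat_lit 5) (nat_lit 255) (nat_lit 5) (nat_lit 423) (nat_lit 406) (nat_lit 191)))) (XT.nd (nat_lit 156) (nat_lit 608) (nat_lit 0) (XT.nd (nat_lit 78) (nat_lit 684) (nat_lit 0) (XT.lf (nat_lit 0) (nat_lit 23461235905) (nat_lit 1216) (nat_lit 11830067443) (nat_lit 1292) (nat_lit 2604051666) (nat_lit 238) (nat_lit 5) (nat_lit 254) (nat_lit 5) (nat_lit 255) (nat_lit 5) (nat_lit 424) (nat_lit 406) (nat_lit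 190)) (XT.lf (nat_lit 0) (nat_lit 543694918) (nat_lit 684) (nat_lit 33129764732) (nat_lit 76) (nat_lit 4844464587) (nat_lit 229) (nat_lit 5) (nat_lit 238) (nat_lit 5) (nat_lit 230) (nat_lit 5) (nat_lit 425) (nat_lit 406) (nat_lit 189))) (XT.nd (nat_lit 78) (nat_lit 608) (nat_lit 0) (XT.lf (nat_lit 0) (nat_lit 3995961412) (nat_lit 684) (nat_lit 13199936966) (nat_lit 76) (nat_lit 21954626624) (nat_lit 229) (nat_lit 5) (nat_lit 238) (nat_lit 5) (nat_lit 230) (nat_lit 5) (nat_lit 426) (nat_lit 406) (nat_lit 188)) (XT.lf (nat_lit 0) (nat_lit 7471864655) (nat_lit 608) (nat_lit 149908349) (nat_lit 684) (nat_lit 32178232191) (nat_lit 221) (nat_lit 5) (nat_lit 229) (nat_lit 5) (nat_lit 230) (nat_lit 5) (nat_lit 427) (nat_lit 406) (nat_lit 187)))))) (XT.nd (nat_lit 546) (nat_lit 1976) (nat_lit 0) (XT.nd (nat_lit 234) (nat_lit 1064) (nat_lit 0) (XT.nd (nat_lit 78) (nat_lit 608) (nat_lit 0) (XT.lf (nat_lit 0) (nat_lit 11656494675)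 (nat_lit 684) (nat_lit 11600978840) (nat_lit 76) (nat_lit 17202492902) (nat_lit 221) (nat_lit 5) (nat_lit 230) (nat_lit 5) (nat_lit 222) (nat_lit 5) (nat_lit 428) (nat_lit 406) (nat_lit 186)) (XT.nd (nat_lit 78) (nat_lit 0) (nat_lit 0) (XT.lf (nat_lit 0) (nat_lit 9938742445) (nat_lit 608) (nat_lit 5968781088) (nat_lit 684) (nat_lit 25229345655) (nat_lit 213) (nat_lit 5) (nat_lit 221) (nat_lit 5) (nat_lit 222) (nat_lit 5) (nat_lit 429) (nat_lit 406) (nat_lit 185)) (XT.lf (nat_lit 0) (nat_lit 20516468993) (nat_lit 684) (nat_lit 9584807482) (nat_lit 76) (nat_lit 11725891649) (nat_lit 213) (nat_lit 5) (nat_lit 222) (nat_lit 5) (nat_lit 214) (nat_lit 5) (nat_lit 430) (nat_lit 406) (nat_lit 184)))) (XT.nd (nat_lit 156) (nat_lit 532) (nat_lit 0) (XT.nd (nat_lit 78) (nat_lit 0) (nat_lit 0) (XT.lf (nat_lit 0) (nat_lit 12867203446) (nat_lit 532) (nat_lit 12577592893) (nat_lit 608) (nat_lit 17087946921) (nat_lit 206) (nat_lit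 5) (nat_lit 213) (nat_lit 5) (nat_lit 214) (nat_lit 5) (nat_lit 431) (nat_lit 406) (nat_lit 183)) (XT.lf (nat_lit 0) (nat_lit 30669679228) (nat_lit 608) (nat_lit 7122614036) (nat_lit 76) (nat_lit 5462731833) (nat_lit 206) (nat_lit 5) (nat_lit 214) (nat_lit 5) (nat_lit 207) (nat_lit 5) (nat_lit 432) (nat_lit 406) (nat_lit 182))) (XT.nd (nat_lit 78) (nat_lit 0) (nat_lit 0) (XT.lf (nat_lit 0) (nat_lit 16288232051) (nat_lit 532) (nat_lit 20042588715) (nat_lit 608) (nat_lit 7659769858) (nat_lit 199) (nat_lit 5) (nat_lit 206) (nat_lit 5) (nat_lit 207) (nat_lit 5) (nat_lit 433) (nat_lit 406) (nat_lit 181)) (XT.lf (nat_lit 0) (nat_lit 40545747670) (nat_lit 532) (nat_lit 1686412765) (nat_lit 608) (nat_lit 2513952350) (nat_lit 199) (nat_lit 5) (nat_lit 206) (nat_lit 5) (nat_lit 207) (nat_lit 5) (nat_lit 434) (nat_lit 406) (nat_lit 180))))) (XT.nd (nat_lit 234) (nat_lit 912) (nat_lit 0) (XT.nd (nat_lit 78) (nat_lit 532)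 (nat_lit 0) (XT.lf (nat_lit 0) (nat_lit 3093941575) (nat_lit 532) (nat_lit 25309537846) (nat_lit 76) (nat_lit 17109156103) (nat_lit 192) (nat_lit 5) (nat_lit 199) (nat_lit 5) (nat_lit 193) (nat_lit 5) (nat_lit 435) (nat_lit 406) (nat_lit 179)) (XT.nd (nat_lit 78) (nat_lit 532) (nat_lit 0) (XT.lf (nat_lit 0) (nat_lit 8877573974) (nat_lit 532) (nat_lit 919794770) (nat_lit 76) (nat_lit 36502298128) (nat_lit 192) (nat_lit 5) (nat_lit 199) (nat_lit 5) (nat_lit 193) (nat_lit 5) (nat_lit 436) (nat_lit 406) (nat_lit 178)) (XT.lf (nat_lit 0) (nat_lit 15162899311) (nat_lit 608) (nat_lit 22513980067) (nat_lit 76) (nat_lit 9423584781) (nat_lit 185) (nat_lit 5) (nat_lit 193) (nat_lit 5) (nat_lit 186) (nat_lit 5) (nat_lit 437) (nat_lit 406) (nat_lit 177)))) (XT.nd (nat_lit 156) (nat_lit 456) (nat_lit 0) (XT.nd (nat_lit 78) (nat_lit 0) (nat_lit 0) (XT.lf (nat_lit 0) (nat_lit 2909834846) (nat_lit 456) (nat_lit 18859870573)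 (nat_lit 532) (nat_lit 26151592819) (nat_lit 179) (nat_lit 5) (nat_lit 185) (nat_lit 5) (nat_lit 186) (nat_lit 5) (nat_lit 438) (nat_lit 406) (nat_lit 176)) (XT.lf (nat_lit 0) (nat_lit 28807918169) (nat_lit 532) (nat_lit 19210998322) (nat_lit 76) (nat_lit 740845263) (nat_lit 179) (nat_lit 5) (nat_lit 186) (nat_lit 5) (nat_lit 180) (nat_lit 5) (nat_lit 439) (nat_lit 406) (nat_lit 175))) (XT.nd (nat_lit 78) (nat_lit 0) (nat_lit 0) (XT.lf (nat_lit 0) (nat_lit 7317922355) (nat_lit 456) (nat_lit 28995061789) (nat_lit 532) (nat_lit 13302724299) (nat_lit 173) (nat_lit 5) (nat_lit 179) (nat_lit 5) (nat_lit 180) (nat_lit 5) (nat_lit 440) (nat_lit 406) (nat_lit 174)) (XT.lf (nat_lit 0) (nat_lit 35034907250) (nat_lit 456) (nat_lit 9200943764) (nat_lit 532) (nat_lit 6255703513) (nat_lit 173) (nat_lit 5) (nat_lit 179) (nat_lit 5) (nat_lit 180) (nat_lit 5) (nat_lit 441) (nat_lit 406) (nat_lit 173))))))) (XT.nd (nat_lit 1092)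 (nat_lit 2432) (nat_lit 0) (XT.nd (nat_lit 546) (nat_lit 1596) (nat_lit 0) (XT.nd (nat_lit 234) (nat_lit 760) (nat_lit 0) (XT.nd (nat_lit 78) (nat_lit 456) (nat_lit 0) (XT.lf (nat_lit 0) (nat_lit 1210050634) (nat_lit 456) (nat_lit 39077783140) (nat_lit 76) (nat_lit 11098746801) (nat_lit 167) (nat_lit 5) (nat_lit 173) (nat_lit 5) (nat_lit 168) (nat_lit 5) (nat_lit 442) (nat_lit 406) (nat_lit 172)) (XT.nd (nat_lit 78) (nat_lit 456) (nat_lit 0) (XT.lf (nat_lit 0) (nat_lit 9021471500) (nat_lit 456) (nat_lit 11235915657) (nat_lit 76) (nat_lit 32041789711) (nat_lit 167) (nat_lit 5) (nat_lit 173) (nat_lit 5) (nat_lit 168) (nat_lit 5) (nat_lit 443) (nat_lit 406) (nat_lit 171)) (XT.lf (nat_lit 0) (nat_lit 17242236375) (nat_lit 532) (nat_lit 35452617701) (nat_lit 76) (nat_lit 539047343) (nat_lit 161) (nat_lit 5) (nat_lit 168) (nat_lit 5) (nat_lit 162) (nat_lit 5) (nat_lit 444) (nat_lit 406) (nat_lit 170)))) (XT.nd (nat_lit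 156) (nat_lit 380) (nat_lit 0) (XT.nd (nat_lit 78) (nat_lit 380) (nat_lit 0) (XT.lf (nat_lit 0) (nat_lit 26023535020) (nat_lit 532) (nat_lit 6497214273) (nat_lit 76) (nat_lit 21666501485) (nat_lit 161) (nat_lit 5) (nat_lit 168) (nat_lit 5) (nat_lit 162) (nat_lit 5) (nat_lit 445) (nat_lit 406) (nat_lit 169)) (XT.lf (nat_lit 0) (nat_lit 23789533700) (nat_lit 380) (nat_lit 11506213177) (nat_lit 456) (nat_lit 19866629898) (nat_lit 156) (nat_lit 5) (nat_lit 161) (nat_lit 5) (nat_lit 162) (nat_lit 5) (nat_lit 446) (nat_lit 406) (nat_lit 168))) (XT.nd (nat_lit 78) (nat_lit 380) (nat_lit 0) (XT.lf (nat_lit 0) (nat_lit 45008655703) (nat_lit 456) (nat_lit 1146381848) (nat_lit 76) (nat_lit 10006843459) (nat_lit 156) (nat_lit 5) (nat_lit 162) (nat_lit 5) (nat_lit 157) (nat_lit 5) (nat_lit 447) (nat_lit 406) (nat_lit 167)) (XT.lf (nat_lit 0) (nat_lit 30465941187) (nat_lit 380) (nat_lit 24952637312) (nat_lit 456) (nat_lit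 1760623433) (nat_lit 151) (nat_lit 5) (nat_lit 156) (nat_lit 5) (nat_lit 157) (nat_lit 5) (nat_lit 448) (nat_lit 406) (nat_lit 166))))) (XT.nd (nat_lit 234) (nat_lit 760) (nat_lit 0) (XT.nd (nat_lit 78) (nat_lit 380) (nat_lit 0) (XT.lf (nat_lit 0) (nat_lit 4840183630) (nat_lit 380) (nat_lit 2976218798) (nat_lit 456) (nat_lit 50406646087) (nat_lit 145) (nat_lit 5) (nat_lit 150) (nat_lit 5) (nat_lit 151) (nat_lit 5) (nat_lit 449) (nat_lit 406) (nat_lit 165)) (XT.nd (nat_lit 78) (nat_lit 380) (nat_lit 0) (XT.lf (nat_lit 0) (nat_lit 18105623214) (nat_lit 456) (nat_lit 21612906110) (nat_lit 76) (nat_lit 19565350417) (nat_lit 145) (nat_lit 5) (nat_lit 151) (nat_lit 5) (nat_lit 146) (nat_lit 5) (nat_lit 450) (nat_lit 406) (nat_lit 164)) (XT.lf (nat_lit 0) (nat_lit 11299692917) (nat_lit 380) (nat_lit 17540817213) (nat_lit 456) (nat_lit 31531916412) (nat_lit 140) (nat_lit 5) (nat_lit 145) (nat_lit 5) (nat_lit 146) (nat_lit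 5) (nat_lit 451) (nat_lit 406) (nat_lit 163)))) (XT.nd (nat_lit 156) (nat_lit 456) (nat_lit 0) (XT.nd (nat_lit 78) (nat_lit 304) (nat_lit 0) (XT.lf (nat_lit 0) (nat_lit 40167737183) (nat_lit 456) (nat_lit 15899001146) (nat_lit 76) (nat_lit 5418782925) (nat_lit 140) (nat_lit 5) (nat_lit 146) (nat_lit 5) (nat_lit 141) (nat_lit 5) (nat_lit 452) (nat_lit 406) (nat_lit 162)) (XT.lf (nat_lit 0) (nat_lit 18454934852) (nat_lit 304) (nat_lit 33729865777) (nat_lit 380) (nat_lit 10436707896) (nat_lit 136) (nat_lit 5) (nat_lit 140) (nat_lit 5) (nat_lit 141) (nat_lit 5) (nat_lit 453) (nat_lit 406) (nat_lit 161))) (XT.nd (nat_lit 78) (nat_lit 380) (nat_lit 0) (XT.lf (nat_lit 0) (nat_lit 916852010) (nat_lit 380) (nat_lit 9631821126) (nat_lit 76) (nat_lit 53237847506) (nat_lit 135) (nat_lit 5) (nat_lit 140) (nat_lit 5) (nat_lit 136) (nat_lit 5) (nat_lit 454) (nat_lit 406) (nat_lit 160)) (XT.lf (nat_lit 0) (nat_lit 12785155860)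 (nat_lit 456) (nat_lit 38759090399) (nat_lit 76) (nat_lit 13427619990) (nat_lit 130) (nat_lit 5) (nat_lit 136) (nat_lit 5) (nat_lit 131) (nat_lit 5) (nat_lit 455) (nat_lit 406) (nat_lit 159)))))) (XT.nd (nat_lit 546) (nat_lit 1140) (nat_lit 0) (XT.nd (nat_lit 234) (nat_lit 684) (nat_lit 0) (XT.nd (nat_lit 78) (nat_lit 608) (nat_lit 0) (XT.lf (nat_lit 0) (nat_lit 25211173393) (nat_lit 456) (nat_lit 2966541720) (nat_lit 76) (nat_lit 38009007446) (nat_lit 130) (nat_lit 5) (nat_lit 136) (nat_lit 5) (nat_lit 131) (nat_lit 5) (nat_lit 456) (nat_lit 406) (nat_lit 158)) (XT.nd (nat_lit 78) (nat_lit 304) (nat_lit 0) (XT.lf (nat_lit 0) (nat_lit 34573033959) (nat_lit 304) (nat_lit 3768300620) (nat_lit 380) (nat_lit 29086749347) (nat_lit 126) (nat_lit 5) (nat_lit 130) (nat_lit 5) (nat_lit 131) (nat_lit 5) (nat_lit 457) (nat_lit 406) (nat_lit 157)) (XT.lf (nat_lit 0) (nat_lit 4473967944) (nat_lit 304) (nat_lit 47669183214)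 (nat_lit 380) (nat_lit 16555202715) (nat_lit 122) (nat_lit 5) (nat_lit 126) (nat_lit 5) (nat_lit 127) (nat_lit 5) (nat_lit 458) (nat_lit 406) (nat_lit 156)))) (XT.nd (nat_lit 156) (nat_lit 304) (nat_lit 0) (XT.nd (nat_lit 78) (nat_lit 380) (nat_lit 0) (XT.lf (nat_lit 0) (nat_lit 43556908850) (nat_lit 304) (nat_lit 23169880792) (nat_lit 380) (nat_lit 3268909501) (nat_lit 122) (nat_lit 5) (nat_lit 126) (nat_lit 5) (nat_lit 127) (nat_lit 5) (nat_lit 459) (nat_lit 406) (nat_lit 155)) (XT.lf (nat_lit 0) (nat_lit 10355183887) (nat_lit 380) (nat_lit 58722138459) (nat_lit 76) (nat_lit 2247364981) (nat_lit 117) (nat_lit 5) (nat_lit 122) (nat_lit 5) (nat_lit 118) (nat_lit 5) (nat_lit 460) (nat_lit 406) (nat_lit 154))) (XT.nd (nat_lit 78) (nat_lit 304) (nat_lit 0) (XT.lf (nat_lit 0) (nat_lit 24820406089) (nat_lit 380) (nat_lit 19594231512) (nat_lit 76) (nat_lit 28262993582) (nat_lit 117) (nat_lit 5) (nat_lit 122) (nat_lit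 5) (nat_lit 118) (nat_lit 5) (nat_lit 461) (nat_lit 406) (nat_lit 153)) (XT.lf (nat_lit 0) (nat_lit 21118266600) (nat_lit 304) (nat_lit 18803426648) (nat_lit 380) (nat_lit 34143407080) (nat_lit 113) (nat_lit 5) (nat_lit 117) (nat_lit 5) (nat_lit 118) (nat_lit 5) (nat_lit 462) (nat_lit 406) (nat_lit 152))))) (XT.nd (nat_lit 312) (nat_lit 532) (nat_lit 0) (XT.nd (nat_lit 156) (nat_lit 380) (nat_lit 0) (XT.nd (nat_lit 78) (nat_lit 228) (nat_lit 0) (XT.lf (nat_lit 0) (nat_lit 55747783264) (nat_lit 380) (nat_lit 12110589488) (nat_lit 76) (nat_lit 7627668081) (nat_lit 113) (nat_lit 5) (nat_lit 118) (nat_lit 5) (nat_lit 114) (nat_lit 5) (nat_lit 463) (nat_lit 406) (nat_lit 151)) (XT.lf (nat_lit 0) (nat_lit 30355607372) (nat_lit 228) (nat_lit 42170159152) (nat_lit 304) (nat_lit 4409529920) (nat_lit 110) (nat_lit 5) (nat_lit 113) (nat_lit 5) (nat_lit 114) (nat_lit 5) (nat_lit 464) (nat_lit 406) (nat_lit 150))) (XT.nd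 (nat_lit 78) (nat_lit 304) (nat_lit 0) (XT.lf (nat_lit 0) (nat_lit 11279662458) (nat_lit 304) (nat_lit 4192222652) (nat_lit 76) (nat_lit 62949183854) (nat_lit 109) (nat_lit 5) (nat_lit 113) (nat_lit 5) (nat_lit 110) (nat_lit 5) (nat_lit 465) (nat_lit 406) (nat_lit 149)) (XT.lf (nat_lit 0) (nat_lit 27856431900) (nat_lit 380) (nat_lit 39851896709) (nat_lit 76) (nat_lit 12226610625) (nat_lit 105) (nat_lit 5) (nat_lit 110) (nat_lit 5) (nat_lit 106) (nat_lit 5) (nat_lit 466) (nat_lit 406) (nat_lit 148)))) (XT.nd (nat_lit 156) (nat_lit 304) (nat_lit 0) (XT.nd (nat_lit 78) (nat_lit 0) (nat_lit 0) (XT.lf (nat_lit 0) (nat_lit 4206745699) (nat_lit 228) (nat_lit 40959313839) (nat_lit 304) (nat_lit 36321099604) (nat_lit 102) (nat_lit 5) (nat_lit 105) (nat_lit 5) (nat_lit 106) (nat_lit 5) (nat_lit 467) (nat_lit 406) (nat_lit 147)) (XT.lf (nat_lit 0) (nat_lit 50402801337) (nat_lit 228) (nat_lit 12993790359) (nat_lit 304)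 (nat_lit 19677305659) (nat_lit 102) (nat_lit 5) (nat_lit 105) (nat_lit 5) (nat_lit 106) (nat_lit 5) (nat_lit 468) (nat_lit 406) (nat_lit 146))) (XT.nd (nat_lit 78) (nat_lit 76) (nat_lit 0) (XT.lf (nat_lit 0) (nat_lit 13384444218) (nat_lit 228) (nat_lit 69069446156) (nat_lit 304) (nat_lit 2245951998) (nat_lit 99) (nat_lit 5) (nat_lit 102) (nat_lit 5) (nat_lit 103) (nat_lit 5) (nat_lit 469) (nat_lit 406) (nat_lit 145)) (XT.lf (nat_lit 0) (nat_lit 15862860012) (nat_lit 304) (nat_lit 25157465150) (nat_lit 76) (nat_lit 45335879472) (nat_lit 98) (nat_lit 5) (nat_lit 102) (nat_lit 5) (nat_lit 99) (nat_lit 5) (nat_lit 470) (nat_lit 406) (nat_lit 144))))))))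
noncomputable def xc230 : XT := (XT.nd (nat_lit 50232) (nat_lit 0) (nat_lit 1672) (XT.nd (nat_lit 49140) (nat_lit 0) (nat_lit 8436) (XT.nd (nat_lit 48594) (nat_lit 0) (nat_lit 11704) (XT.nd (nat_lit 48282) (nat_lit 0) (nat_lit 11552) (XT.nd (nat_lit 48126) (nat_lit 0) (nat_lit 11476) (XT.lf (nat_lit 0) (nat_lit 22806791071) (nat_lit 228) (nat_lit 11881471876) (nat_lit 304) (nat_lit 53366773823) (nat_lit 95) (nat_lit 5) (nat_lit 98) (nat_lit 5) (nat_lit 99) (nat_lit 5) (nat_lit 471) (nat_lit 406) (nat_lit 143)) (XT.nd (nat_lit 78) (nat_lit 0) (nat_lit 0) (XT.lf (nat_lit 0) (nat_lit 2519708094) (nat_lit 1292) (nat_lit 6125886612) (nat_lit 1292) (nat_lit 6125886612) (nat_lit 246) (nat_lit 3) (nat_lit 263) (nat_lit 3) (nat_lit 263) (nat_lit 5) (nat_lit 407) (nat_lit 407) (nat_lit 206)) (XT.lf (nat_lit 76) (nat_lit 2026699194) (nat_lit 0) (nat_lit 3181868457) (nat_lit 1292) (nat_lit 24774701342) (nat_lit 247) (nat_lit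 5) (nat_lit 246) (nat_lit 3) (nat_lit 263) (nat_lit 5) (nat_lit 408) (nat_lit 407) (nat_lit 205)))) (XT.nd (nat_lit 156) (nat_lit 0) (nat_lit 76) (XT.nd (nat_lit 78) (nat_lit 0) (nat_lit 0) (XT.lf (nat_lit 0) (nat_lit 5613955320) (nat_lit 1216) (nat_lit 13560353842) (nat_lit 1292) (nat_lit 11255541748) (nat_lit 247) (nat_lit 5) (nat_lit 263) (nat_lit 5) (nat_lit 264) (nat_lit 5) (nat_lit 409) (nat_lit 407) (nat_lit 204)) (XT.lf (nat_lit 76) (nat_lit 1259243661) (nat_lit 0) (nat_lit 4813061123) (nat_lit 1292) (nat_lit 24816302680) (nat_lit 248) (nat_lit 5) (nat_lit 247) (nat_lit 5) (nat_lit 264) (nat_lit 5) (nat_lit 410) (nat_lit 407) (nat_lit 203))) (XT.nd (nat_lit 78) (nat_lit 0) (nat_lit 0) (XT.lf (nat_lit 0) (nat_lit 6775888056) (nat_lit 1216) (nat_lit 14654548934) (nat_lit 1292) (nat_lit 9923746375) (nat_lit 248) (nat_lit 5) (nat_lit 264) (nat_lit 5) (nat_lit 265) (nat_lit 5) (nat_lit 411) (nat_lit 407)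 (nat_lit 202)) (XT.lf (nat_lit 76) (nat_lit 734585873) (nat_lit 0) (nat_lit 6818057904) (nat_lit 1292) (nat_lit 24279521935) (nat_lit 249) (nat_lit 5) (nat_lit 248) (nat_lit 5) (nat_lit 265) (nat_lit 5) (nat_lit 412) (nat_lit 407) (nat_lit 201))))) (XT.nd (nat_lit 234) (nat_lit 0) (nat_lit 76) (XT.nd (nat_lit 78) (nat_lit 0) (nat_lit 0) (XT.lf (nat_lit 0) (nat_lit 8578708348) (nat_lit 1216) (nat_lit 15516529765) (nat_lit 1292) (nat_lit 8222470316) (nat_lit 249) (nat_lit 5) (nat_lit 265) (nat_lit 5) (nat_lit 266) (nat_lit 5) (nat_lit 413) (nat_lit 407) (nat_lit 200)) (XT.nd (nat_lit 78) (nat_lit 0) (nat_lit 76) (XT.lf (nat_lit 76) (nat_lit 472028660) (nat_lit 0) (nat_lit 9233065380) (nat_lit 1292) (nat_lit 23110638264) (nat_lit 250) (nat_lit 5) (nat_lit 249) (nat_lit 5) (nat_lit 266) (nat_lit 5) (nat_lit 414) (nat_lit 407) (nat_lit 199)) (XT.lf (nat_lit 0) (nat_lit 11079467204) (nat_lit 1216) (nat_lit 16127321585)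 (nat_lit 1292) (nat_lit 6115483252) (nat_lit 250) (nat_lit 5) (nat_lit 266) (nat_lit 5) (nat_lit 267) (nat_lit 5) (nat_lit 415) (nat_lit 407) (nat_lit 198)))) (XT.nd (nat_lit 156) (nat_lit 0) (nat_lit 76) (XT.nd (nat_lit 78) (nat_lit 0) (nat_lit 76) (XT.lf (nat_lit 76) (nat_lit 492092244) (nat_lit 0) (nat_lit 12096758789) (nat_lit 1292) (nat_lit 21252344546) (nat_lit 251) (nat_lit 5) (nat_lit 250) (nat_lit 5) (nat_lit 267) (nat_lit 5) (nat_lit 416) (nat_lit 407) (nat_lit 197)) (XT.lf (nat_lit 0) (nat_lit 14338998490) (nat_lit 1216) (nat_lit 16466760181) (nat_lit 1292) (nat_lit 3564064653) (nat_lit 251) (nat_lit 5) (nat_lit 267) (nat_lit 5) (nat_lit 268) (nat_lit 5) (nat_lit 417) (nat_lit 407) (nat_lit 196))) (XT.nd (nat_lit 78) (nat_lit 0) (nat_lit 76) (XT.lf (nat_lit 76) (nat_lit 816560597) (nat_lit 0) (nat_lit 15450468704) (nat_lit 1292) (nat_lit 18643520166) (nat_lit 252) (nat_lit 5) (nat_lit 251) (nat_lit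 5) (nat_lit 268) (nat_lit 5) (nat_lit 418) (nat_lit 407) (nat_lit 195)) (XT.lf (nat_lit 0) (nat_lit 18422157131) (nat_lit 1216) (nat_lit 16513447569) (nat_lit 1292) (nat_lit 526815921) (nat_lit 252) (nat_lit 5) (nat_lit 268) (nat_lit 5) (nat_lit 269) (nat_lit 5) (nat_lit 419) (nat_lit 407) (nat_lit 194)))))) (XT.nd (nat_lit 546) (nat_lit 1748) (nat_lit 0) (XT.nd (nat_lit 234) (nat_lit 1748) (nat_lit 0) (XT.nd (nat_lit 78) (nat_lit 0) (nat_lit 0) (XT.lf (nat_lit 76) (nat_lit 1468528700) (nat_lit 0) (nat_lit 19338379615) (nat_lit 1292) (nat_lit 15218991391) (nat_lit 253) (nat_lit 5) (nat_lit 252) (nat_lit 5) (nat_lit 269) (nat_lit 5) (nat_lit 420) (nat_lit 407) (nat_lit 193)) (XT.nd (nat_lit 78) (nat_lit 0) (nat_lit 76) (XT.lf (nat_lit 76) (nat_lit 20326827425) (nat_lit 0) (nat_lit 3101052211) (nat_lit 1292) (nat_lit 13173464055) (nat_lit 253) (nat_lit 5) (nat_lit 252) (nat_lit 5) (nat_lit 269) (nat_lit 5) (nat_lit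 421) (nat_lit 407) (nat_lit 192)) (XT.lf (nat_lit 76) (nat_lit 2472450453) (nat_lit 0) (nat_lit 23807741388) (nat_lit 1292) (nat_lit 10909278635) (nat_lit 254) (nat_lit 5) (nat_lit 253) (nat_lit 5) (nat_lit 270) (nat_lit 5) (nat_lit 422) (nat_lit 407) (nat_lit 191)))) (XT.nd (nat_lit 156) (nat_lit 684) (nat_lit 0) (XT.nd (nat_lit 78) (nat_lit 1140) (nat_lit 0) (XT.lf (nat_lit 76) (nat_lit 22082475898) (nat_lit 0) (nat_lit 7328372068) (nat_lit 1292) (nat_lit 8378610668) (nat_lit 254) (nat_lit 5) (nat_lit 253) (nat_lit 5) (nat_lit 270) (nat_lit 5) (nat_lit 423) (nat_lit 407) (nat_lit 190)) (XT.lf (nat_lit 0) (nat_lit 3854186965) (nat_lit 1216) (nat_lit 28909094604) (nat_lit 1292) (nat_lit 5640329916) (nat_lit 238) (nat_lit 5) (nat_lit 254) (nat_lit 5) (nat_lit 255) (nat_lit 5) (nat_lit 424) (nat_lit 407) (nat_lit 189))) (XT.nd (nat_lit 78) (nat_lit 684) (nat_lit 0) (XT.lf (nat_lit 0) (nat_lit 24248523098) (nat_lit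 1216) (nat_lit 12196353086) (nat_lit 1292) (nat_lit 2584455859) (nat_lit 238) (nat_lit 5) (nat_lit 254) (nat_lit 5) (nat_lit 255) (nat_lit 5) (nat_lit 425) (nat_lit 407) (nat_lit 188)) (XT.lf (nat_lit 0) (nat_lit 653749360) (nat_lit 684) (nat_lit 34036159919) (nat_lit 76) (nat_lit 4980703985) (nat_lit 229) (nat_lit 5) (nat_lit 238) (nat_lit 5) (nat_lit 230) (nat_lit 5) (nat_lit 426) (nat_lit 407) (nat_lit 187))))) (XT.nd (nat_lit 234) (nat_lit 1140) (nat_lit 0) (XT.nd (nat_lit 78) (nat_lit 608) (nat_lit 0) (XT.lf (nat_lit 0) (nat_lit 4206853452) (nat_lit 684) (nat_lit 13510985799) (nat_lit 76) (nat_lit 22604435773) (nat_lit 229) (nat_lit 5) (nat_lit 238) (nat_lit 5) (nat_lit 230) (nat_lit 5) (nat_lit 427) (nat_lit 407) (nat_lit 186)) (XT.nd (nat_lit 78) (nat_lit 0) (nat_lit 0) (XT.lf (nat_lit 0) (nat_lit 7780137035) (nat_lit 608) (nat_lit 159460066) (nat_lit 684) (nat_lit 33051698819) (nat_lit 221) (nat_lit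 5) (nat_lit 229) (nat_lit 5) (nat_lit 230) (nat_lit 5) (nat_lit 428) (nat_lit 407) (nat_lit 185)) (XT.lf (nat_lit 0) (nat_lit 12092716041) (nat_lit 684) (nat_lit 11864664072) (nat_lit 76) (nat_lit 17713756198) (nat_lit 221) (nat_lit 5) (nat_lit 230) (nat_lit 5) (nat_lit 222) (nat_lit 5) (nat_lit 429) (nat_lit 407) (nat_lit 184)))) (XT.nd (nat_lit 156) (nat_lit 532) (nat_lit 0) (XT.nd (nat_lit 78) (nat_lit 0) (nat_lit 0) (XT.lf (nat_lit 0) (nat_lit 10320421948) (nat_lit 608) (nat_lit 6149136443) (nat_lit 684) (nat_lit 25898840263) (nat_lit 213) (nat_lit 5) (nat_lit 221) (nat_lit 5) (nat_lit 222) (nat_lit 5) (nat_lit 430) (nat_lit 407) (nat_lit 183)) (XT.lf (nat_lit 0) (nat_lit 21214289989) (nat_lit 684) (nat_lit 9788753398) (nat_lit 76) (nat_lit 12076438580) (nat_lit 213) (nat_lit 5) (nat_lit 222) (nat_lit 5) (nat_lit 214) (nat_lit 5) (nat_lit 431) (nat_lit 407) (nat_lit 182))) (XT.nd (nat_lit 78) (nat_lit 0)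 (nat_lit 0) (XT.lf (nat_lit 0) (nat_lit 13335998267) (nat_lit 532) (nat_lit 12952866737) (nat_lit 608) (nat_lit 17517408332) (nat_lit 206) (nat_lit 5) (nat_lit 213) (nat_lit 5) (nat_lit 214) (nat_lit 5) (nat_lit 432) (nat_lit 407) (nat_lit 181)) (XT.lf (nat_lit 0) (nat_lit 31668162341) (nat_lit 608) (nat_lit 7253563142) (nat_lit 76) (nat_lit 5628568994) (nat_lit 206) (nat_lit 5) (nat_lit 214) (nat_lit 5) (nat_lit 207) (nat_lit 5) (nat_lit 433) (nat_lit 407) (nat_lit 180))))))) (XT.nd (nat_lit 1092) (nat_lit 2964) (nat_lit 0) (XT.nd (nat_lit 546) (nat_lit 1748) (nat_lit 0) (XT.nd (nat_lit 234) (nat_lit 988) (nat_lit 0) (XT.nd (nat_lit 78) (nat_lit 532) (nat_lit 0) (XT.lf (nat_lit 0) (nat_lit 16858797256) (nat_lit 532) (nat_lit 20638845034) (nat_lit 608) (nat_lit 7810330417) (nat_lit 199) (nat_lit 5) (nat_lit 206) (nat_lit 5) (nat_lit 207) (nat_lit 5) (nat_lit 434) (nat_lit 407) (nat_lit 179)) (XT.nd (nat_lit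 78) (nat_lit 532) (nat_lit 0) (XT.lf (nat_lit 0) (nat_lit 41841652375) (nat_lit 532) (nat_lit 1732130058) (nat_lit 608) (nat_lit 2512446127) (nat_lit 199) (nat_lit 5) (nat_lit 206) (nat_lit 5) (nat_lit 207) (nat_lit 5) (nat_lit 435) (nat_lit 407) (nat_lit 178)) (XT.lf (nat_lit 0) (nat_lit 3260818536) (nat_lit 532) (nat_lit 25986372257) (nat_lit 76) (nat_lit 17628575744) (nat_lit 192) (nat_lit 5) (nat_lit 199) (nat_lit 5) (nat_lit 193) (nat_lit 5) (nat_lit 436) (nat_lit 407) (nat_lit 177)))) (XT.nd (nat_lit 156) (nat_lit 456) (nat_lit 0) (XT.nd (nat_lit 78) (nat_lit 532) (nat_lit 0) (XT.lf (nat_lit 0) (nat_lit 9215802857) (nat_lit 532) (nat_lit 867338395) (nat_lit 76) (nat_lit 37603333051) (nat_lit 192) (nat_lit 5) (nat_lit 199) (nat_lit 5) (nat_lit 193) (nat_lit 5) (nat_lit 437) (nat_lit 407) (nat_lit 176)) (XT.lf (nat_lit 0) (nat_lit 15688439270) (nat_lit 608) (nat_lit 23108075786) (nat_lit 76) (nat_lit 9714818657)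 (nat_lit 185) (nat_lit 5) (nat_lit 193) (nat_lit 5) (nat_lit 186) (nat_lit 5) (nat_lit 438) (nat_lit 407) (nat_lit 175))) (XT.nd (nat_lit 78) (nat_lit 0) (nat_lit 0) (XT.lf (nat_lit 0) (nat_lit 3077656284) (nat_lit 456) (nat_lit 19414509493) (nat_lit 532) (nat_lit 26864666273) (nat_lit 179) (nat_lit 5) (nat_lit 185) (nat_lit 5) (nat_lit 186) (nat_lit 5) (nat_lit 439) (nat_lit 407) (nat_lit 174)) (XT.lf (nat_lit 0) (nat_lit 29739608573) (nat_lit 532) (nat_lit 19707207614) (nat_lit 76) (nat_lit 773691475) (nat_lit 179) (nat_lit 5) (nat_lit 186) (nat_lit 5) (nat_lit 180) (nat_lit 5) (nat_lit 440) (nat_lit 407) (nat_lit 173))))) (XT.nd (nat_lit 234) (nat_lit 836) (nat_lit 0) (XT.nd (nat_lit 78) (nat_lit 456) (nat_lit 0) (XT.lf (nat_lit 0) (nat_lit 7616795187) (nat_lit 456) (nat_lit 29851829312) (nat_lit 532) (nat_lit 13633544994) (nat_lit 173) (nat_lit 5) (nat_lit 179) (nat_lit 5) (nat_lit 180) (nat_lit 5) (nat_lit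 441) (nat_lit 407) (nat_lit 172)) (XT.nd (nat_lit 78) (nat_lit 456) (nat_lit 0) (XT.lf (nat_lit 0) (nat_lit 36162978896) (nat_lit 456) (nat_lit 9464268843) (nat_lit 532) (nat_lit 6377101770) (nat_lit 173) (nat_lit 5) (nat_lit 179) (nat_lit 5) (nat_lit 180) (nat_lit 5) (nat_lit 442) (nat_lit 407) (nat_lit 171)) (XT.lf (nat_lit 0) (nat_lit 1310316890) (nat_lit 456) (nat_lit 40170741964) (nat_lit 76) (nat_lit 11445179442) (nat_lit 167) (nat_lit 5) (nat_lit 173) (nat_lit 5) (nat_lit 168) (nat_lit 5) (nat_lit 443) (nat_lit 407) (nat_lit 170)))) (XT.nd (nat_lit 156) (nat_lit 380) (nat_lit 0) (XT.nd (nat_lit 78) (nat_lit 456) (nat_lit 0) (XT.lf (nat_lit 0) (nat_lit 9354217332) (nat_lit 456) (nat_lit 11495930340) (nat_lit 76) (nat_lit 33016121302) (nat_lit 167) (nat_lit 5) (nat_lit 173) (nat_lit 5) (nat_lit 168) (nat_lit 5) (nat_lit 444) (nat_lit 407) (nat_lit 169)) (XT.lf (nat_lit 0) (nat_lit 17820676767) (nat_lit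 532) (nat_lit 36438185496) (nat_lit 76) (nat_lit 570201436) (nat_lit 161) (nat_lit 5) (nat_lit 168) (nat_lit 5) (nat_lit 162) (nat_lit 5) (nat_lit 445) (nat_lit 407) (nat_lit 168))) (XT.nd (nat_lit 78) (nat_lit 380) (nat_lit 0) (XT.lf (nat_lit 0) (nat_lit 26863632625) (nat_lit 532) (nat_lit 6616392123) (nat_lit 76) (nat_lit 22331042814) (nat_lit 161) (nat_lit 5) (nat_lit 168) (nat_lit 5) (nat_lit 162) (nat_lit 5) (nat_lit 446) (nat_lit 407) (nat_lit 167)) (XT.lf (nat_lit 0) (nat_lit 24578215754) (nat_lit 380) (nat_lit 11834786140) (nat_lit 456) (nat_lit 20402476266) (nat_lit 156) (nat_lit 5) (nat_lit 161) (nat_lit 5) (nat_lit 162) (nat_lit 5) (nat_lit 447) (nat_lit 407) (nat_lit 166)))))) (XT.nd (nat_lit 546) (nat_lit 1444) (nat_lit 0) (XT.nd (nat_lit 234) (nat_lit 684) (nat_lit 0) (XT.nd (nat_lit 78) (nat_lit 836) (nat_lit 0) (XT.lf (nat_lit 0) (nat_lit 46415752567) (nat_lit 456) (nat_lit 1106398291) (nat_lit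 76) (nat_lit 10322863563) (nat_lit 156) (nat_lit 5) (nat_lit 162) (nat_lit 5) (nat_lit 157) (nat_lit 5) (nat_lit 448) (nat_lit 407) (nat_lit 165)) (XT.nd (nat_lit 78) (nat_lit 456) (nat_lit 0) (XT.lf (nat_lit 0) (nat_lit 31453565268) (nat_lit 380) (nat_lit 25683460257) (nat_lit 456) (nat_lit 1755858395) (nat_lit 151) (nat_lit 5) (nat_lit 156) (nat_lit 5) (nat_lit 157) (nat_lit 5) (nat_lit 449) (nat_lit 407) (nat_lit 164)) (XT.lf (nat_lit 0) (nat_lit 5059442325) (nat_lit 380) (nat_lit 3046979627) (nat_lit 456) (nat_lit 51861635811) (nat_lit 145) (nat_lit 5) (nat_lit 150) (nat_lit 5) (nat_lit 151) (nat_lit 5) (nat_lit 450) (nat_lit 407) (nat_lit 163)))) (XT.nd (nat_lit 156) (nat_lit 304) (nat_lit 0) (XT.nd (nat_lit 78) (nat_lit 380) (nat_lit 0) (XT.lf (nat_lit 0) (nat_lit 18702874951) (nat_lit 456) (nat_lit 22187936679) (nat_lit 76) (nat_lit 20169946105) (nat_lit 145) (nat_lit 5) (nat_lit 151) (nat_lit 5) (nat_lit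 146) (nat_lit 5) (nat_lit 451) (nat_lit 407) (nat_lit 162)) (XT.lf (nat_lit 0) (nat_lit 11711321136) (nat_lit 380) (nat_lit 18047610340) (nat_lit 456) (nat_lit 32423056238) (nat_lit 140) (nat_lit 5) (nat_lit 145) (nat_lit 5) (nat_lit 146) (nat_lit 5) (nat_lit 452) (nat_lit 407) (nat_lit 161))) (XT.nd (nat_lit 78) (nat_lit 304) (nat_lit 0) (XT.lf (nat_lit 0) (nat_lit 41424606996) (nat_lit 456) (nat_lit 16304066064) (nat_lit 76) (nat_lit 5599843707) (nat_lit 140) (nat_lit 5) (nat_lit 146) (nat_lit 5) (nat_lit 141) (nat_lit 5) (nat_lit 453) (nat_lit 407) (nat_lit 160)) (XT.lf (nat_lit 0) (nat_lit 19079783061) (nat_lit 304) (nat_lit 34721573868) (nat_lit 380) (nat_lit 10697251927) (nat_lit 136) (nat_lit 5) (nat_lit 140) (nat_lit 5) (nat_lit 141) (nat_lit 5) (nat_lit 454) (nat_lit 407) (nat_lit 159))))) (XT.nd (nat_lit 312) (nat_lit 684) (nat_lit 0) (XT.nd (nat_lit 156) (nat_lit 304) (nat_lit 0) (XT.nd (nat_lit 78)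 (nat_lit 380) (nat_lit 0) (XT.lf (nat_lit 0) (nat_lit 994388275) (nat_lit 380) (nat_lit 9850639957) (nat_lit 76) (nat_lit 54853573387) (nat_lit 135) (nat_lit 5) (nat_lit 140) (nat_lit 5) (nat_lit 136) (nat_lit 5) (nat_lit 455) (nat_lit 407) (nat_lit 158)) (XT.lf (nat_lit 0) (nat_lit 13218145858) (nat_lit 456) (nat_lit 39851118604) (nat_lit 76) (nat_lit 13850261395) (nat_lit 130) (nat_lit 5) (nat_lit 136) (nat_lit 5) (nat_lit 131) (nat_lit 5) (nat_lit 456) (nat_lit 407) (nat_lit 157))) (XT.nd (nat_lit 78) (nat_lit 304) (nat_lit 0) (XT.lf (nat_lit 0) (nat_lit 26015504052) (nat_lit 456) (nat_lit 2986853984) (nat_lit 76) (nat_lit 39168513403) (nat_lit 130) (nat_lit 5) (nat_lit 136) (nat_lit 5) (nat_lit 131) (nat_lit 5) (nat_lit 457) (nat_lit 407) (nat_lit 156)) (XT.lf (nat_lit 0) (nat_lit 35678235593) (nat_lit 304) (nat_lit 3860590315) (nat_lit 380) (nat_lit 29910670441) (nat_lit 126) (nat_lit 5) (nat_lit 130) (nat_lit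 5) (nat_lit 131) (nat_lit 5) (nat_lit 458) (nat_lit 407) (nat_lit 155)))) (XT.nd (nat_lit 156) (nat_lit 380) (nat_lit 0) (XT.nd (nat_lit 78) (nat_lit 0) (nat_lit 0) (XT.lf (nat_lit 0) (nat_lit 4676749306) (nat_lit 304) (nat_lit 49077424228) (nat_lit 380) (nat_lit 17003716928) (nat_lit 122) (nat_lit 5) (nat_lit 126) (nat_lit 5) (nat_lit 127) (nat_lit 5) (nat_lit 459) (nat_lit 407) (nat_lit 154)) (XT.lf (nat_lit 0) (nat_lit 44930181478) (nat_lit 304) (nat_lit 23843778690) (nat_lit 380) (nat_lit 3320237107) (nat_lit 122) (nat_lit 5) (nat_lit 126) (nat_lit 5) (nat_lit 127) (nat_lit 5) (nat_lit 460) (nat_lit 407) (nat_lit 153))) (XT.nd (nat_lit 78) (nat_lit 0) (nat_lit 0) (XT.lf (nat_lit 0) (nat_lit 10711183138) (nat_lit 380) (nat_lit 60415818659) (nat_lit 76) (nat_lit 2336054680) (nat_lit 117) (nat_lit 5) (nat_lit 122) (nat_lit 5) (nat_lit 118) (nat_lit 5) (nat_lit 461) (nat_lit 407) (nat_lit 152)) (XT.lf (nat_lit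 0) (nat_lit 25609041316) (nat_lit 380) (nat_lit 20116054620) (nat_lit 76) (nat_lit 29131532661) (nat_lit 117) (nat_lit 5) (nat_lit 122) (nat_lit 5) (nat_lit 118) (nat_lit 5) (nat_lit 462) (nat_lit 407) (nat_lit 151))))))))
noncomputable def xc231 : XT := (XT.nd (nat_lit 50388) (nat_lit 0) (nat_lit 2812) (XT.nd (nat_lit 49218) (nat_lit 0) (nat_lit 9956) (XT.nd (nat_lit 546) (nat_lit 304) (nat_lit 0) (XT.nd (nat_lit 234) (nat_lit 608) (nat_lit 0) (XT.nd (nat_lit 78) (nat_lit 228) (nat_lit 0) (XT.lf (nat_lit 0) (nat_lit 21817171339) (nat_lit 304) (nat_lit 19345541774) (nat_lit 380) (nat_lit 35123028637) (nat_lit 113) (nat_lit 5) (nat_lit 117) (nat_lit 5) (nat_lit 118) (nat_lit 5) (nat_lit 463) (nat_lit 407) (nat_lit 150)) (XT.nd (nat_lit 78) (nat_lit 228) (nat_lit 0) (XT.lf (nat_lit 0) (nat_lit 57462527857) (nat_lit 380) (nat_lit 12409385842) (nat_lit 76) (nat_lit 7877428817) (nat_lit 113) (nat_lit 5) (nat_lit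 118) (nat_lit 5) (nat_lit 114) (nat_lit 5) (nat_lit 464) (nat_lit 407) (nat_lit 149)) (XT.lf (nat_lit 0) (nat_lit 31330164362) (nat_lit 228) (nat_lit 43413068028) (nat_lit 304) (nat_lit 4498862249) (nat_lit 110) (nat_lit 5) (nat_lit 113) (nat_lit 5) (nat_lit 114) (nat_lit 5) (nat_lit 465) (nat_lit 407) (nat_lit 148)))) (XT.nd (nat_lit 156) (nat_lit 228) (nat_lit 0) (XT.nd (nat_lit 78) (nat_lit 304) (nat_lit 0) (XT.lf (nat_lit 0) (nat_lit 11658941060) (nat_lit 304) (nat_lit 4255138292) (nat_lit 76) (nat_lit 64858385676) (nat_lit 109) (nat_lit 5) (nat_lit 113) (nat_lit 5) (nat_lit 110) (nat_lit 5) (nat_lit 466) (nat_lit 407) (nat_lit 147)) (XT.lf (nat_lit 0) (nat_lit 28732631780) (nat_lit 380) (nat_lit 40984211694) (nat_lit 76) (nat_lit 12614919657) (nat_lit 105) (nat_lit 5) (nat_lit 110) (nat_lit 5) (nat_lit 106) (nat_lit 5) (nat_lit 467) (nat_lit 407) (nat_lit 146))) (XT.nd (nat_lit 78) (nat_lit 0) (nat_lit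 0) (XT.lf (nat_lit 0) (nat_lit 4395569967) (nat_lit 228) (nat_lit 42165400426) (nat_lit 304) (nat_lit 37369596844) (nat_lit 102) (nat_lit 5) (nat_lit 105) (nat_lit 5) (nat_lit 106) (nat_lit 5) (nat_lit 468) (nat_lit 407) (nat_lit 145)) (XT.lf (nat_lit 0) (nat_lit 51975683336) (nat_lit 228) (nat_lit 13361572198) (nat_lit 304) (nat_lit 20227687209) (nat_lit 102) (nat_lit 5) (nat_lit 105) (nat_lit 5) (nat_lit 106) (nat_lit 5) (nat_lit 469) (nat_lit 407) (nat_lit 144))))) (XT.nd (nat_lit 48360) (nat_lit 0) (nat_lit 11248) (XT.nd (nat_lit 78) (nat_lit 76) (nat_lit 0) (XT.lf (nat_lit 0) (nat_lit 13847129785) (nat_lit 228) (nat_lit 71118807727) (nat_lit 304) (nat_lit 2273738918) (nat_lit 99) (nat_lit 5) (nat_lit 102) (nat_lit 5) (nat_lit 103) (nat_lit 5) (nat_lit 470) (nat_lit 407) (nat_lit 143)) (XT.nd (nat_lit 48204) (nat_lit 0) (nat_lit 11248) (XT.lf (nat_lit 0) (nat_lit 16376434225) (nat_lit 304) (nat_lit 25852060100)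 (nat_lit 76) (nat_lit 46717257972) (nat_lit 98) (nat_lit 5) (nat_lit 102) (nat_lit 5) (nat_lit 99) (nat_lit 5) (nat_lit 471) (nat_lit 407) (nat_lit 142)) (XT.lf (nat_lit 0) (nat_lit 2668665599) (nat_lit 1292) (nat_lit 6271864097) (nat_lit 1292) (nat_lit 6271864097) (nat_lit 246) (nat_lit 3) (nat_lit 263) (nat_lit 3) (nat_lit 263) (nat_lit 5) (nat_lit 408) (nat_lit 408) (nat_lit 204)))) (XT.nd (nat_lit 156) (nat_lit 0) (nat_lit 76) (XT.nd (nat_lit 78) (nat_lit 0) (nat_lit 76) (XT.lf (nat_lit 76) (nat_lit 2162357238) (nat_lit 0) (nat_lit 3345645775) (nat_lit 1292) (nat_lit 25370408550) (nat_lit 247) (nat_lit 5) (nat_lit 246) (nat_lit 3) (nat_lit 263) (nat_lit 5) (nat_lit 409) (nat_lit 408) (nat_lit 203)) (XT.lf (nat_lit 0) (nat_lit 5920744452) (nat_lit 1216) (nat_lit 13889621433) (nat_lit 1292) (nat_lit 11528171039) (nat_lit 247) (nat_lit 5) (nat_lit 263) (nat_lit 5) (nat_lit 264) (nat_lit 5) (nat_lit 410) (nat_lit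 408) (nat_lit 202))) (XT.nd (nat_lit 78) (nat_lit 0) (nat_lit 76) (XT.lf (nat_lit 76) (nat_lit 1373803768) (nat_lit 0) (nat_lit 5015748506) (nat_lit 1292) (nat_lit 25421604365) (nat_lit 248) (nat_lit 5) (nat_lit 247) (nat_lit 5) (nat_lit 264) (nat_lit 5) (nat_lit 411) (nat_lit 408) (nat_lit 201)) (XT.lf (nat_lit 0) (nat_lit 7109764673) (nat_lit 1216) (nat_lit 15015105578) (nat_lit 1292) (nat_lit 10165965569) (nat_lit 248) (nat_lit 5) (nat_lit 264) (nat_lit 5) (nat_lit 265) (nat_lit 5) (nat_lit 412) (nat_lit 408) (nat_lit 200)))))) (XT.nd (nat_lit 546) (nat_lit 1444) (nat_lit 0) (XT.nd (nat_lit 234) (nat_lit 0) (nat_lit 152) (XT.nd (nat_lit 78) (nat_lit 0) (nat_lit 76) (XT.lf (nat_lit 76) (nat_lit 834927981) (nat_lit 0) (nat_lit 7071843913) (nat_lit 1292) (nat_lit 24876478882) (nat_lit 249) (nat_lit 5) (nat_lit 248) (nat_lit 5) (nat_lit 265) (nat_lit 5) (nat_lit 413) (nat_lit 408) (nat_lit 199)) (XT.nd (nat_lit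 78) (nat_lit 0) (nat_lit 0) (XT.lf (nat_lit 0) (nat_lit 8959443810) (nat_lit 1216) (nat_lit 15901775362) (nat_lit 1292) (nat_lit 8422267397) (nat_lit 249) (nat_lit 5) (nat_lit 265) (nat_lit 5) (nat_lit 266) (nat_lit 5) (nat_lit 414) (nat_lit 408) (nat_lit 198)) (XT.lf (nat_lit 76) (nat_lit 565653049) (nat_lit 0) (nat_lit 9551138452) (nat_lit 1292) (nat_lit 23679746058) (nat_lit 250) (nat_lit 5) (nat_lit 249) (nat_lit 5) (nat_lit 266) (nat_lit 5) (nat_lit 415) (nat_lit 408) (nat_lit 197)))) (XT.nd (nat_lit 156) (nat_lit 0) (nat_lit 76) (XT.nd (nat_lit 78) (nat_lit 0) (nat_lit 0) (XT.lf (nat_lit 0) (nat_lit 11528501456) (nat_lit 1216) (nat_lit 16530048863) (nat_lit 1292) (nat_lit 6259841468) (nat_lit 250) (nat_lit 5) (nat_lit 266) (nat_lit 5) (nat_lit 267) (nat_lit 5) (nat_lit 416) (nat_lit 408) (nat_lit 196)) (XT.lf (nat_lit 76) (nat_lit 587152356) (nat_lit 0) (nat_lit 12493388731) (nat_lit 1292) (nat_lit 21772422140)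 (nat_lit 251) (nat_lit 5) (nat_lit 250) (nat_lit 5) (nat_lit 267) (nat_lit 5) (nat_lit 417) (nat_lit 408) (nat_lit 195))) (XT.nd (nat_lit 78) (nat_lit 0) (nat_lit 0) (XT.lf (nat_lit 0) (nat_lit 14879557102) (nat_lit 1216) (nat_lit 16879122432) (nat_lit 1292) (nat_lit 3638880729) (nat_lit 251) (nat_lit 5) (nat_lit 267) (nat_lit 5) (nat_lit 268) (nat_lit 5) (nat_lit 418) (nat_lit 408) (nat_lit 194)) (XT.lf (nat_lit 76) (nat_lit 921897571) (nat_lit 0) (nat_lit 15941093147) (nat_lit 1292) (nat_lit 19091591959) (nat_lit 252) (nat_lit 5) (nat_lit 251) (nat_lit 5) (nat_lit 268) (nat_lit 5) (nat_lit 419) (nat_lit 408) (nat_lit 193))))) (XT.nd (nat_lit 312) (nat_lit 1748) (nat_lit 0) (XT.nd (nat_lit 156) (nat_lit 0) (nat_lit 0) (XT.nd (nat_lit 78) (nat_lit 0) (nat_lit 0) (XT.lf (nat_lit 0) (nat_lit 19079375182) (nat_lit 1216) (nat_lit 16926924751) (nat_lit 1292) (nat_lit 516813252) (nat_lit 252) (nat_lit 5) (nat_lit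 268) (nat_lit 5) (nat_lit 269) (nat_lit 5) (nat_lit 420) (nat_lit 408) (nat_lit 192)) (XT.lf (nat_lit 76) (nat_lit 1593707608) (nat_lit 0) (nat_lit 19939695855) (nat_lit 1292) (nat_lit 15570162408) (nat_lit 253) (nat_lit 5) (nat_lit 252) (nat_lit 5) (nat_lit 269) (nat_lit 5) (nat_lit 421) (nat_lit 408) (nat_lit 191))) (XT.nd (nat_lit 78) (nat_lit 0) (nat_lit 76) (XT.lf (nat_lit 76) (nat_lit 21015392488) (nat_lit 0) (nat_lit 3214632177) (nat_lit 1292) (nat_lit 13466339118) (nat_lit 253) (nat_lit 5) (nat_lit 252) (nat_lit 5) (nat_lit 269) (nat_lit 5) (nat_lit 422) (nat_lit 408) (nat_lit 190)) (XT.lf (nat_lit 76) (nat_lit 2627798243) (nat_lit 0) (nat_lit 24537804034) (nat_lit 1292) (nat_lit 11136602406) (nat_lit 254) (nat_lit 5) (nat_lit 253) (nat_lit 5) (nat_lit 270) (nat_lit 5) (nat_lit 423) (nat_lit 408) (nat_lit 189)))) (XT.nd (nat_lit 156) (nat_lit 684) (nat_lit 0) (XT.nd (nat_lit 78) (nat_lit 1140) (nat_lit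 0) (XT.lf (nat_lit 76) (nat_lit 22823760152) (nat_lit 0) (nat_lit 7563592554) (nat_lit 1292) (nat_lit 8532925698) (nat_lit 254) (nat_lit 5) (nat_lit 253) (nat_lit 5) (nat_lit 270) (nat_lit 5) (nat_lit 424) (nat_lit 408) (nat_lit 188)) (XT.lf (nat_lit 0) (nat_lit 4050832104) (nat_lit 1216) (nat_lit 29787419500) (nat_lit 1292) (nat_lit 5714668594) (nat_lit 238) (nat_lit 5) (nat_lit 254) (nat_lit 5) (nat_lit 255) (nat_lit 5) (nat_lit 425) (nat_lit 408) (nat_lit 187))) (XT.nd (nat_lit 78) (nat_lit 684) (nat_lit 0) (XT.lf (nat_lit 0) (nat_lit 25054638530) (nat_lit 1216) (nat_lit 12572973832) (nat_lit 1292) (nat_lit 2569881555) (nat_lit 238) (nat_lit 5) (nat_lit 254) (nat_lit 5) (nat_lit 255) (nat_lit 5) (nat_lit 426) (nat_lit 408) (nat_lit 186)) (XT.lf (nat_lit 0) (nat_lit 761724169) (nat_lit 684) (nat_lit 34974769691) (nat_lit 76) (nat_lit 5121552629) (nat_lit 229) (nat_lit 5) (nat_lit 238) (nat_lit 5) (nat_lit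 230) (nat_lit 5) (nat_lit 427) (nat_lit 408) (nat_lit 185))))))) (XT.nd (nat_lit 1092) (nat_lit 3344) (nat_lit 0) (XT.nd (nat_lit 546) (nat_lit 2052) (nat_lit 0) (XT.nd (nat_lit 234) (nat_lit 1140) (nat_lit 0) (XT.nd (nat_lit 78) (nat_lit 608) (nat_lit 0) (XT.lf (nat_lit 0) (nat_lit 4418847725) (nat_lit 684) (nat_lit 13836242532) (nat_lit 76) (nat_lit 23274246055) (nat_lit 229) (nat_lit 5) (nat_lit 238) (nat_lit 5) (nat_lit 230) (nat_lit 5) (nat_lit 428) (nat_lit 408) (nat_lit 184)) (XT.nd (nat_lit 78) (nat_lit 0) (nat_lit 0) (XT.lf (nat_lit 0) (nat_lit 8092828959) (nat_lit 608) (nat_lit 169008188) (nat_lit 684) (nat_lit 33956643753) (nat_lit 221) (nat_lit 5) (nat_lit 229) (nat_lit 5) (nat_lit 230) (nat_lit 5) (nat_lit 429) (nat_lit 408) (nat_lit 183)) (XT.lf (nat_lit 0) (nat_lit 12537057070) (nat_lit 684) (nat_lit 12141101559) (nat_lit 76) (nat_lit 18240633593) (nat_lit 221) (nat_lit 5) (nat_lit 230) (nat_lit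 5) (nat_lit 222) (nat_lit 5) (nat_lit 430) (nat_lit 408) (nat_lit 182)))) (XT.nd (nat_lit 156) (nat_lit 532) (nat_lit 0) (XT.nd (nat_lit 78) (nat_lit 0) (nat_lit 0) (XT.lf (nat_lit 0) (nat_lit 10708757606) (nat_lit 608) (nat_lit 6334828298) (nat_lit 684) (nat_lit 26593436009) (nat_lit 213) (nat_lit 5) (nat_lit 221) (nat_lit 5) (nat_lit 222) (nat_lit 5) (nat_lit 431) (nat_lit 408) (nat_lit 181)) (XT.lf (nat_lit 0) (nat_lit 21928319714) (nat_lit 684) (nat_lit 10003616577) (nat_lit 76) (nat_lit 12437572515) (nat_lit 213) (nat_lit 5) (nat_lit 222) (nat_lit 5) (nat_lit 214) (nat_lit 5) (nat_lit 432) (nat_lit 408) (nat_lit 180))) (XT.nd (nat_lit 78) (nat_lit 0) (nat_lit 0) (XT.lf (nat_lit 0) (nat_lit 13814105095) (nat_lit 532) (nat_lit 13339516702) (nat_lit 608) (nat_lit 17964528286) (nat_lit 206) (nat_lit 5) (nat_lit 213) (nat_lit 5) (nat_lit 214) (nat_lit 5) (nat_lit 433) (nat_lit 408) (nat_lit 179)) (XT.lf (nat_lit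 0) (nat_lit 32692099884) (nat_lit 608) (nat_lit 7393189722) (nat_lit 76) (nat_lit 5799269034) (nat_lit 206) (nat_lit 5) (nat_lit 214) (nat_lit 5) (nat_lit 207) (nat_lit 5) (nat_lit 434) (nat_lit 408) (nat_lit 178))))) (XT.nd (nat_lit 234) (nat_lit 988) (nat_lit 0) (XT.nd (nat_lit 78) (nat_lit 532) (nat_lit 0) (XT.lf (nat_lit 0) (nat_lit 17441776975) (nat_lit 532) (nat_lit 21253277289) (nat_lit 608) (nat_lit 7969956065) (nat_lit 199) (nat_lit 5) (nat_lit 206) (nat_lit 5) (nat_lit 207) (nat_lit 5) (nat_lit 435) (nat_lit 408) (nat_lit 177)) (XT.nd (nat_lit 78) (nat_lit 532) (nat_lit 0) (XT.lf (nat_lit 0) (nat_lit 43171868744) (nat_lit 532) (nat_lit 1779498720) (nat_lit 608) (nat_lit 2515310516) (nat_lit 199) (nat_lit 5) (nat_lit 206) (nat_lit 5) (nat_lit 207) (nat_lit 5) (nat_lit 436) (nat_lit 408) (nat_lit 176)) (XT.lf (nat_lit 0) (nat_lit 3428450533) (nat_lit 532) (nat_lit 26688244767) (nat_lit 76) (nat_lit 18163225229)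 (nat_lit 192) (nat_lit 5) (nat_lit 199) (nat_lit 5) (nat_lit 193) (nat_lit 5) (nat_lit 437) (nat_lit 408) (nat_lit 175)))) (XT.nd (nat_lit 156) (nat_lit 456) (nat_lit 0) (XT.nd (nat_lit 78) (nat_lit 532) (nat_lit 0) (XT.lf (nat_lit 0) (nat_lit 9560051157) (nat_lit 532) (nat_lit 817903540) (nat_lit 76) (nat_lit 38737056549) (nat_lit 192) (nat_lit 5) (nat_lit 199) (nat_lit 5) (nat_lit 193) (nat_lit 5) (nat_lit 438) (nat_lit 408) (nat_lit 174)) (XT.lf (nat_lit 0) (nat_lit 16225689658) (nat_lit 608) (nat_lit 23724662689) (nat_lit 76) (nat_lit 10014300103) (nat_lit 185) (nat_lit 5) (nat_lit 193) (nat_lit 5) (nat_lit 186) (nat_lit 5) (nat_lit 439) (nat_lit 408) (nat_lit 173))) (XT.nd (nat_lit 78) (nat_lit 0) (nat_lit 0) (XT.lf (nat_lit 0) (nat_lit 3245889820) (nat_lit 456) (nat_lit 19986428050) (nat_lit 532) (nat_lit 27603234850) (nat_lit 179) (nat_lit 5) (nat_lit 185) (nat_lit 5) (nat_lit 186) (nat_lit 5) (nat_lit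 440) (nat_lit 408) (nat_lit 172)) (XT.lf (nat_lit 0) (nat_lit 30695377619) (nat_lit 532) (nat_lit 20222902438) (nat_lit 76) (nat_lit 806913393) (nat_lit 179) (nat_lit 5) (nat_lit 186) (nat_lit 5) (nat_lit 180) (nat_lit 5) (nat_lit 441) (nat_lit 408) (nat_lit 171)))))) (XT.nd (nat_lit 546) (nat_lit 1596) (nat_lit 0) (XT.nd (nat_lit 234) (nat_lit 836) (nat_lit 0) (XT.nd (nat_lit 78) (nat_lit 456) (nat_lit 0) (XT.lf (nat_lit 0) (nat_lit 7920080041) (nat_lit 456) (nat_lit 30735050955) (nat_lit 532) (nat_lit 13978208772) (nat_lit 173) (nat_lit 5) (nat_lit 179) (nat_lit 5) (nat_lit 180) (nat_lit 5) (nat_lit 442) (nat_lit 408) (nat_lit 170)) (XT.nd (nat_lit 78) (nat_lit 456) (nat_lit 0) (XT.lf (nat_lit 0) (nat_lit 37320471174) (nat_lit 456) (nat_lit 9736222893) (nat_lit 532) (nat_lit 6505946307) (nat_lit 173) (nat_lit 5) (nat_lit 179) (nat_lit 5) (nat_lit 180) (nat_lit 5) (nat_lit 443) (nat_lit 408) (nat_lit 169))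 (XT.lf (nat_lit 0) (nat_lit 1409919296) (nat_lit 456) (nat_lit 41301045983) (nat_lit 76) (nat_lit 11801231816) (nat_lit 167) (nat_lit 5) (nat_lit 173) (nat_lit 5) (nat_lit 168) (nat_lit 5) (nat_lit 444) (nat_lit 408) (nat_lit 168)))) (XT.nd (nat_lit 156) (nat_lit 380) (nat_lit 0) (XT.nd (nat_lit 78) (nat_lit 456) (nat_lit 0) (XT.lf (nat_lit 0) (nat_lit 9693380648) (nat_lit 456) (nat_lit 11768169183) (nat_lit 76) (nat_lit 34018932116) (nat_lit 167) (nat_lit 5) (nat_lit 173) (nat_lit 5) (nat_lit 168) (nat_lit 5) (nat_lit 445) (nat_lit 408) (nat_lit 167)) (XT.lf (nat_lit 0) (nat_lit 18412958773) (nat_lit 532) (nat_lit 37457798461) (nat_lit 76) (nat_lit 601430085) (nat_lit 161) (nat_lit 5) (nat_lit 168) (nat_lit 5) (nat_lit 162) (nat_lit 5) (nat_lit 446) (nat_lit 408) (nat_lit 166))) (XT.nd (nat_lit 78) (nat_lit 380) (nat_lit 0) (XT.lf (nat_lit 0) (nat_lit 27725523840) (nat_lit 532) (nat_lit 6743493013) (nat_lit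 76) (nat_lit 23014685367) (nat_lit 161) (nat_lit 5) (nat_lit 168) (nat_lit 5) (nat_lit 162) (nat_lit 5) (nat_lit 447) (nat_lit 408) (nat_lit 165)) (XT.lf (nat_lit 0) (nat_lit 25386253190) (nat_lit 380) (nat_lit 12174169972) (nat_lit 456) (nat_lit 20957851027) (nat_lit 156) (nat_lit 5) (nat_lit 161) (nat_lit 5) (nat_lit 162) (nat_lit 5) (nat_lit 448) (nat_lit 408) (nat_lit 164))))) (XT.nd (nat_lit 312) (nat_lit 760) (nat_lit 0) (XT.nd (nat_lit 156) (nat_lit 456) (nat_lit 0) (XT.nd (nat_lit 78) (nat_lit 380) (nat_lit 0) (XT.lf (nat_lit 0) (nat_lit 47861799650) (nat_lit 456) (nat_lit 1069484658) (nat_lit 76) (nat_lit 10647456436) (nat_lit 156) (nat_lit 5) (nat_lit 162) (nat_lit 5) (nat_lit 157) (nat_lit 5) (nat_lit 449) (nat_lit 408) (nat_lit 163)) (XT.lf (nat_lit 0) (nat_lit 32466590498) (nat_lit 380) (nat_lit 26437227166) (nat_lit 456) (nat_lit 1754255947) (nat_lit 151) (nat_lit 5) (nat_lit 156) (nat_lit 5) (nat_lit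 157) (nat_lit 5) (nat_lit 450) (nat_lit 408) (nat_lit 162))) (XT.nd (nat_lit 78) (nat_lit 0) (nat_lit 0) (XT.lf (nat_lit 0) (nat_lit 5281027825) (nat_lit 380) (nat_lit 3120926734) (nat_lit 456) (nat_lit 53363559295) (nat_lit 145) (nat_lit 5) (nat_lit 150) (nat_lit 5) (nat_lit 151) (nat_lit 5) (nat_lit 451) (nat_lit 408) (nat_lit 161)) (XT.lf (nat_lit 0) (nat_lit 19314939653) (nat_lit 456) (nat_lit 22784429135) (nat_lit 76) (nat_lit 20791667333) (nat_lit 145) (nat_lit 5) (nat_lit 151) (nat_lit 5) (nat_lit 146) (nat_lit 5) (nat_lit 452) (nat_lit 408) (nat_lit 160)))) (XT.nd (nat_lit 156) (nat_lit 380) (nat_lit 0) (XT.nd (nat_lit 78) (nat_lit 0) (nat_lit 0) (XT.lf (nat_lit 0) (nat_lit 12131128516) (nat_lit 380) (nat_lit 18570722702) (nat_lit 456) (nat_lit 33344077017) (nat_lit 140) (nat_lit 5) (nat_lit 145) (nat_lit 5) (nat_lit 146) (nat_lit 5) (nat_lit 453) (nat_lit 408) (nat_lit 159)) (XT.lf (nat_lit 0) (nat_lit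 42716207208) (nat_lit 456) (nat_lit 16725410578) (nat_lit 76) (nat_lit 5785274492) (nat_lit 140) (nat_lit 5) (nat_lit 146) (nat_lit 5) (nat_lit 141) (nat_lit 5) (nat_lit 454) (nat_lit 408) (nat_lit 158))) (XT.nd (nat_lit 78) (nat_lit 76) (nat_lit 0) (XT.lf (nat_lit 0) (nat_lit 19719289536) (nat_lit 304) (nat_lit 35744192069) (nat_lit 380) (nat_lit 10968629277) (nat_lit 136) (nat_lit 5) (nat_lit 140) (nat_lit 5) (nat_lit 141) (nat_lit 5) (nat_lit 455) (nat_lit 408) (nat_lit 157)) (XT.lf (nat_lit 0) (nat_lit 1071378661) (nat_lit 380) (nat_lit 10080049435) (nat_lit 76) (nat_lit 56516703877) (nat_lit 135) (nat_lit 5) (nat_lit 140) (nat_lit 5) (nat_lit 136) (nat_lit 5) (nat_lit 456) (nat_lit 408) (nat_lit 156))))))))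
noncomputable def xc232 : XT := (XT.nd (nat_lit 50388) (nat_lit 0) (nat_lit 4332) (XT.nd (nat_lit 1092) (nat_lit 228) (nat_lit 0) (XT.nd (nat_lit 546) (nat_lit 1140) (nat_lit 0) (XT.nd (nat_lit 234) (nat_lit 684) (nat_lit 0) (XT.nd (nat_lit 78) (nat_lit 304) (nat_lit 0) (XT.lf (nat_lit 0) (nat_lit 13661287765) (nat_lit 456) (nat_lit 40979968679) (nat_lit 76) (nat_lit 14284444706) (nat_lit 130) (nat_lit 5) (nat_lit 136) (nat_lit 5) (nat_lit 131) (nat_lit 5) (nat_lit 457) (nat_lit 408) (nat_lit 155)) (XT.nd (nat_lit 78) (nat_lit 304) (nat_lit 0) (XT.lf (nat_lit 0) (nat_lit 26841209496) (nat_lit 456) (nat_lit 3011718358) (nat_lit 76) (nat_lit 40361700328) (nat_lit 130) (nat_lit 5) (nat_lit 136) (nat_lit 5) (nat_lit 131) (nat_lit 5) (nat_lit 458) (nat_lit 408) (nat_lit 154)) (XT.lf (nat_lit 0) (nat_lit 36812689188) (nat_lit 304) (nat_lit 3956840371) (nat_lit 380) (nat_lit 30762103678) (nat_lit 126) (nat_lit 5) (nat_lit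 130) (nat_lit 5) (nat_lit 131) (nat_lit 5) (nat_lit 459) (nat_lit 408) (nat_lit 153)))) (XT.nd (nat_lit 156) (nat_lit 380) (nat_lit 0) (XT.nd (nat_lit 78) (nat_lit 0) (nat_lit 0) (XT.lf (nat_lit 0) (nat_lit 4881678352) (nat_lit 304) (nat_lit 50529165862) (nat_lit 380) (nat_lit 17468450107) (nat_lit 122) (nat_lit 5) (nat_lit 126) (nat_lit 5) (nat_lit 127) (nat_lit 5) (nat_lit 460) (nat_lit 408) (nat_lit 152)) (XT.lf (nat_lit 0) (nat_lit 46340831162) (nat_lit 304) (nat_lit 24539110406) (nat_lit 380) (nat_lit 3375787591) (nat_lit 122) (nat_lit 5) (nat_lit 126) (nat_lit 5) (nat_lit 127) (nat_lit 5) (nat_lit 461) (nat_lit 408) (nat_lit 151))) (XT.nd (nat_lit 78) (nat_lit 0) (nat_lit 0) (XT.lf (nat_lit 0) (nat_lit 11075259452) (nat_lit 380) (nat_lit 62164211823) (nat_lit 76) (nat_lit 2426184157) (nat_lit 117) (nat_lit 5) (nat_lit 122) (nat_lit 5) (nat_lit 118) (nat_lit 5) (nat_lit 462) (nat_lit 408) (nat_lit 150))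 (XT.lf (nat_lit 0) (nat_lit 26418808497) (nat_lit 380) (nat_lit 20657321310) (nat_lit 76) (nat_lit 30024942560) (nat_lit 117) (nat_lit 5) (nat_lit 122) (nat_lit 5) (nat_lit 118) (nat_lit 5) (nat_lit 463) (nat_lit 408) (nat_lit 149))))) (XT.nd (nat_lit 234) (nat_lit 608) (nat_lit 0) (XT.nd (nat_lit 78) (nat_lit 228) (nat_lit 0) (XT.lf (nat_lit 0) (nat_lit 22533291477) (nat_lit 304) (nat_lit 19905182536) (nat_lit 380) (nat_lit 36134603692) (nat_lit 113) (nat_lit 5) (nat_lit 117) (nat_lit 5) (nat_lit 118) (nat_lit 5) (nat_lit 464) (nat_lit 408) (nat_lit 148)) (XT.nd (nat_lit 78) (nat_lit 228) (nat_lit 0) (XT.lf (nat_lit 0) (nat_lit 59226285957) (nat_lit 380) (nat_lit 12720849875) (nat_lit 76) (nat_lit 8133480868) (nat_lit 113) (nat_lit 5) (nat_lit 118) (nat_lit 5) (nat_lit 114) (nat_lit 5) (nat_lit 465) (nat_lit 408) (nat_lit 147)) (XT.lf (nat_lit 0) (nat_lit 32330290585) (nat_lit 228) (nat_lit 44694538306) (nat_lit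 304) (nat_lit 4593340258) (nat_lit 110) (nat_lit 5) (nat_lit 113) (nat_lit 5) (nat_lit 114) (nat_lit 5) (nat_lit 466) (nat_lit 408) (nat_lit 146)))) (XT.nd (nat_lit 156) (nat_lit 228) (nat_lit 0) (XT.nd (nat_lit 78) (nat_lit 304) (nat_lit 0) (XT.lf (nat_lit 0) (nat_lit 12047250840) (nat_lit 304) (nat_lit 4323549308) (nat_lit 76) (nat_lit 66823673778) (nat_lit 109) (nat_lit 5) (nat_lit 113) (nat_lit 5) (nat_lit 110) (nat_lit 5) (nat_lit 467) (nat_lit 408) (nat_lit 145)) (XT.lf (nat_lit 0) (nat_lit 29632792393) (nat_lit 380) (nat_lit 42154126474) (nat_lit 76) (nat_lit 13013643158) (nat_lit 105) (nat_lit 5) (nat_lit 110) (nat_lit 5) (nat_lit 106) (nat_lit 5) (nat_lit 468) (nat_lit 408) (nat_lit 144))) (XT.nd (nat_lit 78) (nat_lit 0) (nat_lit 0) (XT.lf (nat_lit 0) (nat_lit 4586464210) (nat_lit 228) (nat_lit 43408972273) (nat_lit 304) (nat_lit 38451910361) (nat_lit 102) (nat_lit 5) (nat_lit 105) (nat_lit 5) (nat_lit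 106) (nat_lit 5) (nat_lit 469) (nat_lit 408) (nat_lit 143)) (XT.lf (nat_lit 0) (nat_lit 53592261743) (nat_lit 228) (nat_lit 13741652213) (nat_lit 304) (nat_lit 20796872788) (nat_lit 102) (nat_lit 5) (nat_lit 105) (nat_lit 5) (nat_lit 106) (nat_lit 5) (nat_lit 470) (nat_lit 408) (nat_lit 142)))))) (XT.nd (nat_lit 48750) (nat_lit 0) (nat_lit 11400) (XT.nd (nat_lit 48438) (nat_lit 0) (nat_lit 11248) (XT.nd (nat_lit 48282) (nat_lit 0) (nat_lit 11172) (XT.lf (nat_lit 0) (nat_lit 14320185529) (nat_lit 228) (nat_lit 73230954470) (nat_lit 304) (nat_lit 2304632167) (nat_lit 99) (nat_lit 5) (nat_lit 102) (nat_lit 5) (nat_lit 103) (nat_lit 5) (nat_lit 471) (nat_lit 408) (nat_lit 141)) (XT.nd (nat_lit 78) (nat_lit 0) (nat_lit 0) (XT.lf (nat_lit 0) (nat_lit 2817880304) (nat_lit 1292) (nat_lit 6424390730) (nat_lit 1292) (nat_lit 6424390730) (nat_lit 246) (nat_lit 3) (nat_lit 263) (nat_lit 3) (nat_lit 263) (nat_lit 5) (nat_lit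 409) (nat_lit 409) (nat_lit 202)) (XT.lf (nat_lit 76) (nat_lit 2297787921) (nat_lit 0) (nat_lit 3510414492) (nat_lit 1292) (nat_lit 25992456019) (nat_lit 247) (nat_lit 5) (nat_lit 246) (nat_lit 3) (nat_lit 263) (nat_lit 5) (nat_lit 410) (nat_lit 409) (nat_lit 201)))) (XT.nd (nat_lit 156) (nat_lit 0) (nat_lit 76) (XT.nd (nat_lit 78) (nat_lit 0) (nat_lit 0) (XT.lf (nat_lit 0) (nat_lit 6228794226) (nat_lit 1216) (nat_lit 14233218340) (nat_lit 1292) (nat_lit 11812712597) (nat_lit 247) (nat_lit 5) (nat_lit 263) (nat_lit 5) (nat_lit 264) (nat_lit 5) (nat_lit 411) (nat_lit 409) (nat_lit 200)) (XT.lf (nat_lit 76) (nat_lit 1487393032) (nat_lit 0) (nat_lit 5221170107) (nat_lit 1292) (nat_lit 26053055027) (nat_lit 248) (nat_lit 5) (nat_lit 247) (nat_lit 5) (nat_lit 264) (nat_lit 5) (nat_lit 412) (nat_lit 409) (nat_lit 199))) (XT.nd (nat_lit 78) (nat_lit 0) (nat_lit 0) (XT.lf (nat_lit 0) (nat_lit 7446160615) (nat_lit 1216)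 (nat_lit 15391018427) (nat_lit 1292) (nat_lit 10418636876) (nat_lit 248) (nat_lit 5) (nat_lit 264) (nat_lit 5) (nat_lit 265) (nat_lit 5) (nat_lit 413) (nat_lit 409) (nat_lit 198)) (XT.lf (nat_lit 76) (nat_lit 933785351) (nat_lit 0) (nat_lit 7330416680) (nat_lit 1292) (nat_lit 25498889083) (nat_lit 249) (nat_lit 5) (nat_lit 248) (nat_lit 5) (nat_lit 265) (nat_lit 5) (nat_lit 414) (nat_lit 409) (nat_lit 197))))) (XT.nd (nat_lit 234) (nat_lit 0) (nat_lit 76) (XT.nd (nat_lit 78) (nat_lit 0) (nat_lit 0) (XT.lf (nat_lit 0) (nat_lit 9344519151) (nat_lit 1216) (nat_lit 16303185022) (nat_lit 1292) (nat_lit 8630749324) (nat_lit 249) (nat_lit 5) (nat_lit 265) (nat_lit 5) (nat_lit 266) (nat_lit 5) (nat_lit 415) (nat_lit 409) (nat_lit 196)) (XT.nd (nat_lit 78) (nat_lit 0) (nat_lit 76) (XT.lf (nat_lit 76) (nat_lit 657524637) (nat_lit 0) (nat_lit 9876395493) (nat_lit 1292) (nat_lit 24273057326) (nat_lit 250) (nat_lit 5) (nat_lit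 249) (nat_lit 5) (nat_lit 266) (nat_lit 5) (nat_lit 416) (nat_lit 409) (nat_lit 195)) (XT.lf (nat_lit 0) (nat_lit 11984310535) (nat_lit 1216) (nat_lit 16949512994) (nat_lit 1292) (nat_lit 6410775290) (nat_lit 250) (nat_lit 5) (nat_lit 266) (nat_lit 5) (nat_lit 267) (nat_lit 5) (nat_lit 417) (nat_lit 409) (nat_lit 194)))) (XT.nd (nat_lit 156) (nat_lit 0) (nat_lit 76) (XT.nd (nat_lit 78) (nat_lit 0) (nat_lit 76) (XT.lf (nat_lit 76) (nat_lit 680454876) (nat_lit 0) (nat_lit 12899981493) (nat_lit 1292) (nat_lit 22314846626) (nat_lit 251) (nat_lit 5) (nat_lit 250) (nat_lit 5) (nat_lit 267) (nat_lit 5) (nat_lit 418) (nat_lit 409) (nat_lit 193)) (XT.lf (nat_lit 0) (nat_lit 15429995711) (nat_lit 1216) (nat_lit 17308542052) (nat_lit 1292) (nat_lit 3717784296) (nat_lit 251) (nat_lit 5) (nat_lit 267) (nat_lit 5) (nat_lit 268) (nat_lit 5) (nat_lit 419) (nat_lit 409) (nat_lit 192))) (XT.nd (nat_lit 78) (nat_lit 0) (nat_lit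 76) (XT.lf (nat_lit 76) (nat_lit 1025754100) (nat_lit 0) (nat_lit 16444880077) (nat_lit 1292) (nat_lit 19559491181) (nat_lit 252) (nat_lit 5) (nat_lit 251) (nat_lit 5) (nat_lit 268) (nat_lit 5) (nat_lit 420) (nat_lit 409) (nat_lit 191)) (XT.lf (nat_lit 0) (nat_lit 19750307986) (nat_lit 1216) (nat_lit 17357509150) (nat_lit 1292) (nat_lit 507991940) (nat_lit 252) (nat_lit 5) (nat_lit 268) (nat_lit 5) (nat_lit 269) (nat_lit 5) (nat_lit 421) (nat_lit 409) (nat_lit 190))))))) (XT.nd (nat_lit 1092) (nat_lit 3800) (nat_lit 0) (XT.nd (nat_lit 546) (nat_lit 1748) (nat_lit 0) (XT.nd (nat_lit 234) (nat_lit 1748) (nat_lit 0) (XT.nd (nat_lit 78) (nat_lit 0) (nat_lit 0) (XT.lf (nat_lit 76) (nat_lit 1717985088) (nat_lit 0) (nat_lit 20557836634) (nat_lit 1292) (nat_lit 15937918875) (nat_lit 253) (nat_lit 5) (nat_lit 252) (nat_lit 5) (nat_lit 269) (nat_lit 5) (nat_lit 422) (nat_lit 409) (nat_lit 189)) (XT.nd (nat_lit 78) (nat_lit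 0) (nat_lit 76) (XT.lf (nat_lit 76) (nat_lit 21720093342) (nat_lit 0) (nat_lit 3330439980) (nat_lit 1292) (nat_lit 13773874529) (nat_lit 253) (nat_lit 5) (nat_lit 252) (nat_lit 5) (nat_lit 269) (nat_lit 5) (nat_lit 423) (nat_lit 409) (nat_lit 188)) (XT.lf (nat_lit 76) (nat_lit 2783146731) (nat_lit 0) (nat_lit 25288859829) (nat_lit 1292) (nat_lit 11376483692) (nat_lit 254) (nat_lit 5) (nat_lit 253) (nat_lit 5) (nat_lit 270) (nat_lit 5) (nat_lit 424) (nat_lit 409) (nat_lit 187)))) (XT.nd (nat_lit 156) (nat_lit 684) (nat_lit 0) (XT.nd (nat_lit 78) (nat_lit 1140) (nat_lit 0) (XT.lf (nat_lit 76) (nat_lit 23582758918) (nat_lit 0) (nat_lit 7804987394) (nat_lit 1292) (nat_lit 8697440862) (nat_lit 254) (nat_lit 5) (nat_lit 253) (nat_lit 5) (nat_lit 270) (nat_lit 5) (nat_lit 425) (nat_lit 409) (nat_lit 186)) (XT.lf (nat_lit 0) (nat_lit 4248725745) (nat_lit 1216) (nat_lit 30691459710) (nat_lit 1292) (nat_lit 5796683428)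 (nat_lit 238) (nat_lit 5) (nat_lit 254) (nat_lit 5) (nat_lit 255) (nat_lit 5) (nat_lit 426) (nat_lit 409) (nat_lit 185))) (XT.nd (nat_lit 78) (nat_lit 684) (nat_lit 0) (XT.lf (nat_lit 0) (nat_lit 25880422033) (nat_lit 1216) (nat_lit 12960277245) (nat_lit 1292) (nat_lit 2560157396) (nat_lit 238) (nat_lit 5) (nat_lit 254) (nat_lit 5) (nat_lit 255) (nat_lit 5) (nat_lit 427) (nat_lit 409) (nat_lit 184)) (XT.lf (nat_lit 0) (nat_lit 867865863) (nat_lit 684) (nat_lit 35946272159) (nat_lit 76) (nat_lit 5267118828) (nat_lit 229) (nat_lit 5) (nat_lit 238) (nat_lit 5) (nat_lit 230) (nat_lit 5) (nat_lit 428) (nat_lit 409) (nat_lit 183))))) (XT.nd (nat_lit 234) (nat_lit 1140) (nat_lit 0) (XT.nd (nat_lit 78) (nat_lit 608) (nat_lit 0) (XT.lf (nat_lit 0) (nat_lit 4632277204) (nat_lit 684) (nat_lit 14175853476) (nat_lit 76) (nat_lit 23964628407) (nat_lit 229) (nat_lit 5) (nat_lit 238) (nat_lit 5) (nat_lit 230) (nat_lit 5) (nat_lit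 429) (nat_lit 409) (nat_lit 182)) (XT.nd (nat_lit 78) (nat_lit 0) (nat_lit 0) (XT.lf (nat_lit 0) (nat_lit 8410350196) (nat_lit 608) (nat_lit 178569261) (nat_lit 684) (nat_lit 34893708576) (nat_lit 221) (nat_lit 5) (nat_lit 229) (nat_lit 5) (nat_lit 230) (nat_lit 5) (nat_lit 430) (nat_lit 409) (nat_lit 181)) (XT.lf (nat_lit 0) (nat_lit 12990046479) (nat_lit 684) (nat_lit 12430395935) (nat_lit 76) (nat_lit 18783577653) (nat_lit 221) (nat_lit 5) (nat_lit 230) (nat_lit 5) (nat_lit 222) (nat_lit 5) (nat_lit 431) (nat_lit 409) (nat_lit 180)))) (XT.nd (nat_lit 156) (nat_lit 532) (nat_lit 0) (XT.nd (nat_lit 78) (nat_lit 0) (nat_lit 0) (XT.lf (nat_lit 0) (nat_lit 11104224312) (nat_lit 608) (nat_lit 6526021004) (nat_lit 684) (nat_lit 27313597971) (nat_lit 213) (nat_lit 5) (nat_lit 221) (nat_lit 5) (nat_lit 222) (nat_lit 5) (nat_lit 432) (nat_lit 409) (nat_lit 179)) (XT.lf (nat_lit 0) (nat_lit 22659315713) (nat_lit 684)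 (nat_lit 10229449060) (nat_lit 76) (nat_lit 12809607013) (nat_lit 213) (nat_lit 5) (nat_lit 222) (nat_lit 5) (nat_lit 214) (nat_lit 5) (nat_lit 433) (nat_lit 409) (nat_lit 178))) (XT.nd (nat_lit 78) (nat_lit 0) (nat_lit 0) (XT.lf (nat_lit 0) (nat_lit 14302076066) (nat_lit 532) (nat_lit 13737877302) (nat_lit 608) (nat_lit 18429562451) (nat_lit 206) (nat_lit 5) (nat_lit 213) (nat_lit 5) (nat_lit 214) (nat_lit 5) (nat_lit 434) (nat_lit 409) (nat_lit 177)) (XT.lf (nat_lit 0) (nat_lit 33742513812) (nat_lit 608) (nat_lit 7541481488) (nat_lit 76) (nat_lit 5974984280) (nat_lit 206) (nat_lit 5) (nat_lit 214) (nat_lit 5) (nat_lit 207) (nat_lit 5) (nat_lit 435) (nat_lit 409) (nat_lit 176)))))) (XT.nd (nat_lit 546) (nat_lit 1748) (nat_lit 0) (XT.nd (nat_lit 234) (nat_lit 988) (nat_lit 0) (XT.nd (nat_lit 78) (nat_lit 532) (nat_lit 0) (XT.lf (nat_lit 0) (nat_lit 18037813582) (nat_lit 532) (nat_lit 21886414210) (nat_lit 608)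 (nat_lit 8138657664) (nat_lit 199) (nat_lit 5) (nat_lit 206) (nat_lit 5) (nat_lit 207) (nat_lit 5) (nat_lit 436) (nat_lit 409) (nat_lit 175)) (XT.nd (nat_lit 78) (nat_lit 532) (nat_lit 0) (XT.lf (nat_lit 0) (nat_lit 44537688203) (nat_lit 532) (nat_lit 1828552228) (nat_lit 608) (nat_lit 2522423149) (nat_lit 199) (nat_lit 5) (nat_lit 206) (nat_lit 5) (nat_lit 207) (nat_lit 5) (nat_lit 437) (nat_lit 409) (nat_lit 174)) (XT.lf (nat_lit 0) (nat_lit 3597104257) (nat_lit 532) (nat_lit 27415634821) (nat_lit 76) (nat_lit 18713581702) (nat_lit 192) (nat_lit 5) (nat_lit 199) (nat_lit 5) (nat_lit 193) (nat_lit 5) (nat_lit 438) (nat_lit 409) (nat_lit 173)))) (XT.nd (nat_lit 156) (nat_lit 456) (nat_lit 0) (XT.nd (nat_lit 78) (nat_lit 532) (nat_lit 0) (XT.lf (nat_lit 0) (nat_lit 9910736389) (nat_lit 532) (nat_lit 771317065) (nat_lit 76) (nat_lit 39904468941) (nat_lit 192) (nat_lit 5) (nat_lit 199) (nat_lit 5) (nat_lit 193)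 (nat_lit 5) (nat_lit 439) (nat_lit 409) (nat_lit 172)) (XT.lf (nat_lit 0) (nat_lit 16775234605) (nat_lit 608) (nat_lit 24364147530) (nat_lit 76) (nat_lit 10322304642) (nat_lit 185) (nat_lit 5) (nat_lit 193) (nat_lit 5) (nat_lit 186) (nat_lit 5) (nat_lit 440) (nat_lit 409) (nat_lit 171))) (XT.nd (nat_lit 78) (nat_lit 0) (nat_lit 0) (XT.lf (nat_lit 0) (nat_lit 3414813171) (nat_lit 456) (nat_lit 20576107866) (nat_lit 532) (nat_lit 28367827878) (nat_lit 179) (nat_lit 5) (nat_lit 185) (nat_lit 5) (nat_lit 186) (nat_lit 5) (nat_lit 441) (nat_lit 409) (nat_lit 170)) (XT.lf (nat_lit 0) (nat_lit 31676169940) (nat_lit 532) (nat_lit 20758403344) (nat_lit 76) (nat_lit 840557286) (nat_lit 179) (nat_lit 5) (nat_lit 186) (nat_lit 5) (nat_lit 180) (nat_lit 5) (nat_lit 442) (nat_lit 409) (nat_lit 169))))) (XT.nd (nat_lit 312) (nat_lit 836) (nat_lit 0) (XT.nd (nat_lit 156) (nat_lit 456) (nat_lit 0) (XT.nd (nat_lit 78) (nat_lit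 0) (nat_lit 0) (XT.lf (nat_lit 0) (nat_lit 8228170706) (nat_lit 456) (nat_lit 31645477226) (nat_lit 532) (nat_lit 14336905990) (nat_lit 173) (nat_lit 5) (nat_lit 179) (nat_lit 5) (nat_lit 180) (nat_lit 5) (nat_lit 443) (nat_lit 409) (nat_lit 168)) (XT.lf (nat_lit 0) (nat_lit 38508520516) (nat_lit 456) (nat_lit 10017022921) (nat_lit 532) (nat_lit 6642242128) (nat_lit 173) (nat_lit 5) (nat_lit 179) (nat_lit 5) (nat_lit 180) (nat_lit 5) (nat_lit 444) (nat_lit 409) (nat_lit 167))) (XT.nd (nat_lit 78) (nat_lit 0) (nat_lit 0) (XT.lf (nat_lit 0) (nat_lit 1509048716) (nat_lit 456) (nat_lit 42469553996) (nat_lit 76) (nat_lit 12167236901) (nat_lit 167) (nat_lit 5) (nat_lit 173) (nat_lit 5) (nat_lit 168) (nat_lit 5) (nat_lit 445) (nat_lit 409) (nat_lit 166)) (XT.lf (nat_lit 0) (nat_lit 10039358611) (nat_lit 456) (nat_lit 12052744970) (nat_lit 76) (nat_lit 35051119625) (nat_lit 167) (nat_lit 5) (nat_lit 173) (nat_lit 5)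 (nat_lit 168) (nat_lit 5) (nat_lit 446) (nat_lit 409) (nat_lit 165)))) (XT.nd (nat_lit 156) (nat_lit 380) (nat_lit 0) (XT.nd (nat_lit 78) (nat_lit 0) (nat_lit 0) (XT.lf (nat_lit 0) (nat_lit 19019699222) (nat_lit 532) (nat_lit 38512220887) (nat_lit 76) (nat_lit 632784899) (nat_lit 161) (nat_lit 5) (nat_lit 168) (nat_lit 5) (nat_lit 162) (nat_lit 5) (nat_lit 447) (nat_lit 409) (nat_lit 164)) (XT.lf (nat_lit 0) (nat_lit 28610058181) (nat_lit 532) (nat_lit 6878505058) (nat_lit 76) (nat_lit 23718050113) (nat_lit 161) (nat_lit 5) (nat_lit 168) (nat_lit 5) (nat_lit 162) (nat_lit 5) (nat_lit 448) (nat_lit 409) (nat_lit 163))) (XT.nd (nat_lit 78) (nat_lit 0) (nat_lit 0) (XT.lf (nat_lit 0) (nat_lit 26214473799) (nat_lit 380) (nat_lit 12524634252) (nat_lit 456) (nat_lit 21533141815) (nat_lit 156) (nat_lit 5) (nat_lit 161) (nat_lit 5) (nat_lit 162) (nat_lit 5) (nat_lit 449) (nat_lit 409) (nat_lit 162)) (XT.lf (nat_lit 0)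 (nat_lit 49348152750) (nat_lit 456) (nat_lit 1035487963) (nat_lit 76) (nat_lit 10980931374) (nat_lit 156) (nat_lit 5) (nat_lit 162) (nat_lit 5) (nat_lit 157) (nat_lit 5) (nat_lit 450) (nat_lit 409) (nat_lit 161))))))))
noncomputable def xc233 : XT := (XT.nd (nat_lit 50544) (nat_lit 0) (nat_lit 4940) (XT.nd (nat_lit 1092) (nat_lit 1140) (nat_lit 0) (XT.nd (nat_lit 546) (nat_lit 1368) (nat_lit 0) (XT.nd (nat_lit 234) (nat_lit 760) (nat_lit 0) (XT.nd (nat_lit 78) (nat_lit 456) (nat_lit 0) (XT.lf (nat_lit 0) (nat_lit 33506021593) (nat_lit 380) (nat_lit 27214567850) (nat_lit 456) (nat_lit 1755721217) (nat_lit 151) (nat_lit 5) (nat_lit 156) (nat_lit 5) (nat_lit 157) (nat_lit 5) (nat_lit 451) (nat_lit 409) (nat_lit 160)) (XT.nd (nat_lit 78) (nat_lit 0) (nat_lit 0) (XT.lf (nat_lit 0) (nat_lit 5505253957) (nat_lit 380) (nat_lit 3198094661) (nat_lit 456) (nat_lit 54913636033) (nat_lit 145) (nat_lit 5) (nat_lit 150) (nat_lit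 5) (nat_lit 151) (nat_lit 5) (nat_lit 452) (nat_lit 409) (nat_lit 159)) (XT.lf (nat_lit 0) (nat_lit 19942439924) (nat_lit 456) (nat_lit 23402785608) (nat_lit 76) (nat_lit 21431085978) (nat_lit 145) (nat_lit 5) (nat_lit 151) (nat_lit 5) (nat_lit 146) (nat_lit 5) (nat_lit 453) (nat_lit 409) (nat_lit 158)))) (XT.nd (nat_lit 156) (nat_lit 380) (nat_lit 0) (XT.nd (nat_lit 78) (nat_lit 0) (nat_lit 0) (XT.lf (nat_lit 0) (nat_lit 12559599789) (nat_lit 380) (nat_lit 19110579845) (nat_lit 456) (nat_lit 34295694540) (nat_lit 140) (nat_lit 5) (nat_lit 145) (nat_lit 5) (nat_lit 146) (nat_lit 5) (nat_lit 454) (nat_lit 409) (nat_lit 157)) (XT.lf (nat_lit 0) (nat_lit 44043750547) (nat_lit 456) (nat_lit 17163286131) (nat_lit 76) (nat_lit 5975267334) (nat_lit 140) (nat_lit 5) (nat_lit 146) (nat_lit 5) (nat_lit 141) (nat_lit 5) (nat_lit 455) (nat_lit 409) (nat_lit 156))) (XT.nd (nat_lit 78) (nat_lit 76) (nat_lit 0) (XT.lf (nat_lit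 0) (nat_lit 20374128646) (nat_lit 304) (nat_lit 36798581159) (nat_lit 380) (nat_lit 11250991758) (nat_lit 136) (nat_lit 5) (nat_lit 140) (nat_lit 5) (nat_lit 141) (nat_lit 5) (nat_lit 456) (nat_lit 409) (nat_lit 155)) (XT.lf (nat_lit 0) (nat_lit 1147971654) (nat_lit 380) (nat_lit 10320136166) (nat_lit 76) (nat_lit 58228722372) (nat_lit 135) (nat_lit 5) (nat_lit 140) (nat_lit 5) (nat_lit 136) (nat_lit 5) (nat_lit 457) (nat_lit 409) (nat_lit 154))))) (XT.nd (nat_lit 234) (nat_lit 684) (nat_lit 0) (XT.nd (nat_lit 78) (nat_lit 304) (nat_lit 0) (XT.lf (nat_lit 0) (nat_lit 14115049041) (nat_lit 456) (nat_lit 42146512161) (nat_lit 76) (nat_lit 14730581467) (nat_lit 130) (nat_lit 5) (nat_lit 136) (nat_lit 5) (nat_lit 131) (nat_lit 5) (nat_lit 458) (nat_lit 409) (nat_lit 153)) (XT.nd (nat_lit 78) (nat_lit 304) (nat_lit 0) (XT.lf (nat_lit 0) (nat_lit 27689089123) (nat_lit 456) (nat_lit 3041045075) (nat_lit 76) (nat_lit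 41589642037) (nat_lit 130) (nat_lit 5) (nat_lit 136) (nat_lit 5) (nat_lit 131) (nat_lit 5) (nat_lit 459) (nat_lit 409) (nat_lit 152)) (XT.lf (nat_lit 0) (nat_lit 37977496414) (nat_lit 304) (nat_lit 4057101191) (nat_lit 380) (nat_lit 31641714007) (nat_lit 126) (nat_lit 5) (nat_lit 130) (nat_lit 5) (nat_lit 131) (nat_lit 5) (nat_lit 460) (nat_lit 409) (nat_lit 151)))) (XT.nd (nat_lit 156) (nat_lit 380) (nat_lit 0) (XT.nd (nat_lit 78) (nat_lit 0) (nat_lit 0) (XT.lf (nat_lit 0) (nat_lit 5089045439) (nat_lit 304) (nat_lit 52025641184) (nat_lit 380) (nat_lit 17949730184) (nat_lit 122) (nat_lit 5) (nat_lit 126) (nat_lit 5) (nat_lit 127) (nat_lit 5) (nat_lit 461) (nat_lit 409) (nat_lit 150)) (XT.lf (nat_lit 0) (nat_lit 47790198560) (nat_lit 304) (nat_lit 25256449103) (nat_lit 380) (nat_lit 3435533621) (nat_lit 122) (nat_lit 5) (nat_lit 126) (nat_lit 5) (nat_lit 127) (nat_lit 5) (nat_lit 462) (nat_lit 409) (nat_lit 149)))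 (XT.nd (nat_lit 78) (nat_lit 0) (nat_lit 0) (XT.lf (nat_lit 0) (nat_lit 11447804557) (nat_lit 380) (nat_lit 63968735315) (nat_lit 76) (nat_lit 2517866691) (nat_lit 117) (nat_lit 5) (nat_lit 122) (nat_lit 5) (nat_lit 118) (nat_lit 5) (nat_lit 463) (nat_lit 409) (nat_lit 148)) (XT.lf (nat_lit 0) (nat_lit 27250486656) (nat_lit 380) (nat_lit 21218397394) (nat_lit 76) (nat_lit 30944037447) (nat_lit 117) (nat_lit 5) (nat_lit 122) (nat_lit 5) (nat_lit 118) (nat_lit 5) (nat_lit 464) (nat_lit 409) (nat_lit 147)))))) (XT.nd (nat_lit 48906) (nat_lit 0) (nat_lit 10944) (XT.nd (nat_lit 234) (nat_lit 608) (nat_lit 0) (XT.nd (nat_lit 78) (nat_lit 228) (nat_lit 0) (XT.lf (nat_lit 0) (nat_lit 23267358840) (nat_lit 304) (nat_lit 20482802249) (nat_lit 380) (nat_lit 37178943618) (nat_lit 113) (nat_lit 5) (nat_lit 117) (nat_lit 5) (nat_lit 118) (nat_lit 5) (nat_lit 465) (nat_lit 409) (nat_lit 146)) (XT.nd (nat_lit 78) (nat_lit 228)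 (nat_lit 0) (XT.lf (nat_lit 0) (nat_lit 61040667395) (nat_lit 380) (nat_lit 13045149005) (nat_lit 76) (nat_lit 8396081944) (nat_lit 113) (nat_lit 5) (nat_lit 118) (nat_lit 5) (nat_lit 114) (nat_lit 5) (nat_lit 466) (nat_lit 409) (nat_lit 145)) (XT.lf (nat_lit 0) (nat_lit 33356963646) (nat_lit 228) (nat_lit 46015653687) (nat_lit 304) (nat_lit 4692976776) (nat_lit 110) (nat_lit 5) (nat_lit 113) (nat_lit 5) (nat_lit 114) (nat_lit 5) (nat_lit 467) (nat_lit 409) (nat_lit 144)))) (XT.nd (nat_lit 156) (nat_lit 228) (nat_lit 0) (XT.nd (nat_lit 78) (nat_lit 304) (nat_lit 0) (XT.lf (nat_lit 0) (nat_lit 12444997470) (nat_lit 304) (nat_lit 4397413452) (nat_lit 76) (nat_lit 68846799047) (nat_lit 109) (nat_lit 5) (nat_lit 113) (nat_lit 5) (nat_lit 110) (nat_lit 5) (nat_lit 468) (nat_lit 409) (nat_lit 143)) (XT.lf (nat_lit 0) (nat_lit 30557766042) (nat_lit 380) (nat_lit 43362560645) (nat_lit 76) (nat_lit 13423164444) (nat_lit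 105) (nat_lit 5) (nat_lit 110) (nat_lit 5) (nat_lit 106) (nat_lit 5) (nat_lit 469) (nat_lit 409) (nat_lit 142))) (XT.nd (nat_lit 48438) (nat_lit 0) (nat_lit 10944) (XT.lf (nat_lit 0) (nat_lit 4779696881) (nat_lit 228) (nat_lit 44691079158) (nat_lit 304) (nat_lit 39568919091) (nat_lit 102) (nat_lit 5) (nat_lit 105) (nat_lit 5) (nat_lit 106) (nat_lit 5) (nat_lit 470) (nat_lit 409) (nat_lit 141)) (XT.lf (nat_lit 0) (nat_lit 2967601686) (nat_lit 1292) (nat_lit 6583538430) (nat_lit 1292) (nat_lit 6583538430) (nat_lit 246) (nat_lit 3) (nat_lit 263) (nat_lit 3) (nat_lit 263) (nat_lit 5) (nat_lit 410) (nat_lit 410) (nat_lit 200))))) (XT.nd (nat_lit 234) (nat_lit 0) (nat_lit 152) (XT.nd (nat_lit 78) (nat_lit 0) (nat_lit 76) (XT.lf (nat_lit 76) (nat_lit 2433231093) (nat_lit 0) (nat_lit 3676429485) (nat_lit 1292) (nat_lit 26641147801) (nat_lit 247) (nat_lit 5) (nat_lit 246) (nat_lit 3) (nat_lit 263) (nat_lit 5) (nat_lit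 411) (nat_lit 410) (nat_lit 199)) (XT.nd (nat_lit 78) (nat_lit 0) (nat_lit 0) (XT.lf (nat_lit 0) (nat_lit 6538598424) (nat_lit 1216) (nat_lit 14591318918) (nat_lit 1292) (nat_lit 12109309477) (nat_lit 247) (nat_lit 5) (nat_lit 263) (nat_lit 5) (nat_lit 264) (nat_lit 5) (nat_lit 412) (nat_lit 410) (nat_lit 198)) (XT.lf (nat_lit 76) (nat_lit 1600235345) (nat_lit 0) (nat_lit 5429600051) (nat_lit 1292) (nat_lit 26710980480) (nat_lit 248) (nat_lit 5) (nat_lit 247) (nat_lit 5) (nat_lit 264) (nat_lit 5) (nat_lit 413) (nat_lit 410) (nat_lit 197)))) (XT.nd (nat_lit 156) (nat_lit 0) (nat_lit 76) (XT.nd (nat_lit 78) (nat_lit 0) (nat_lit 0) (XT.lf (nat_lit 0) (nat_lit 7785581820) (nat_lit 1216) (nat_lit 15782487581) (nat_lit 1292) (nat_lit 10681890995) (nat_lit 248) (nat_lit 5) (nat_lit 264) (nat_lit 5) (nat_lit 265) (nat_lit 5) (nat_lit 414) (nat_lit 410) (nat_lit 196)) (XT.lf (nat_lit 76) (nat_lit 1031371474) (nat_lit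 0) (nat_lit 7594082078) (nat_lit 1292) (nat_lit 26147083049) (nat_lit 249) (nat_lit 5) (nat_lit 248) (nat_lit 5) (nat_lit 265) (nat_lit 5) (nat_lit 415) (nat_lit 410) (nat_lit 195))) (XT.nd (nat_lit 78) (nat_lit 0) (nat_lit 0) (XT.lf (nat_lit 0) (nat_lit 9734471114) (nat_lit 1216) (nat_lit 16720979224) (nat_lit 1292) (nat_lit 8848022172) (nat_lit 249) (nat_lit 5) (nat_lit 265) (nat_lit 5) (nat_lit 266) (nat_lit 5) (nat_lit 416) (nat_lit 410) (nat_lit 194)) (XT.lf (nat_lit 76) (nat_lit 747852692) (nat_lit 0) (nat_lit 10209187393) (nat_lit 1292) (nat_lit 24890888866) (nat_lit 250) (nat_lit 5) (nat_lit 249) (nat_lit 5) (nat_lit 266) (nat_lit 5) (nat_lit 417) (nat_lit 410) (nat_lit 193))))))) (XT.nd (nat_lit 1092) (nat_lit 4104) (nat_lit 0) (XT.nd (nat_lit 546) (nat_lit 2204) (nat_lit 0) (XT.nd (nat_lit 234) (nat_lit 0) (nat_lit 76) (XT.nd (nat_lit 78) (nat_lit 0) (nat_lit 0) (XT.lf (nat_lit 0) (nat_lit 12447482074)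 (nat_lit 1216) (nat_lit 17385948865) (nat_lit 1292) (nat_lit 6568353124) (nat_lit 250) (nat_lit 5) (nat_lit 266) (nat_lit 5) (nat_lit 267) (nat_lit 5) (nat_lit 418) (nat_lit 410) (nat_lit 192)) (XT.nd (nat_lit 78) (nat_lit 0) (nat_lit 76) (XT.lf (nat_lit 76) (nat_lit 772211674) (nat_lit 0) (nat_lit 13316947098) (nat_lit 1292) (nat_lit 22879901245) (nat_lit 251) (nat_lit 5) (nat_lit 250) (nat_lit 5) (nat_lit 267) (nat_lit 5) (nat_lit 419) (nat_lit 410) (nat_lit 191)) (XT.lf (nat_lit 0) (nat_lit 15990974475) (nat_lit 1216) (nat_lit 17755261739) (nat_lit 1292) (nat_lit 3800792181) (nat_lit 251) (nat_lit 5) (nat_lit 267) (nat_lit 5) (nat_lit 268) (nat_lit 5) (nat_lit 420) (nat_lit 410) (nat_lit 190)))) (XT.nd (nat_lit 156) (nat_lit 0) (nat_lit 76) (XT.nd (nat_lit 78) (nat_lit 0) (nat_lit 76) (XT.lf (nat_lit 76) (nat_lit 1128352155) (nat_lit 0) (nat_lit 16962313702) (nat_lit 1292) (nat_lit 20047446114) (nat_lit 252)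 (nat_lit 5) (nat_lit 251) (nat_lit 5) (nat_lit 268) (nat_lit 5) (nat_lit 421) (nat_lit 410) (nat_lit 189)) (XT.lf (nat_lit 0) (nat_lit 20435711511) (nat_lit 1216) (nat_lit 17805444017) (nat_lit 1292) (nat_lit 500302383) (nat_lit 252) (nat_lit 5) (nat_lit 268) (nat_lit 5) (nat_lit 269) (nat_lit 5) (nat_lit 422) (nat_lit 410) (nat_lit 188))) (XT.nd (nat_lit 78) (nat_lit 0) (nat_lit 0) (XT.lf (nat_lit 76) (nat_lit 1841601417) (nat_lit 0) (nat_lit 21193376430) (nat_lit 1292) (nat_lit 16322411040) (nat_lit 253) (nat_lit 5) (nat_lit 252) (nat_lit 5) (nat_lit 269) (nat_lit 5) (nat_lit 423) (nat_lit 410) (nat_lit 187)) (XT.lf (nat_lit 76) (nat_lit 22441673595) (nat_lit 0) (nat_lit 3448610167) (nat_lit 1292) (nat_lit 14096172899) (nat_lit 253) (nat_lit 5) (nat_lit 252) (nat_lit 5) (nat_lit 269) (nat_lit 5) (nat_lit 424) (nat_lit 410) (nat_lit 186))))) (XT.nd (nat_lit 234) (nat_lit 1292) (nat_lit 0) (XT.nd (nat_lit 78)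 (nat_lit 1140) (nat_lit 0) (XT.lf (nat_lit 76) (nat_lit 2938763426) (nat_lit 0) (nat_lit 26061590733) (nat_lit 1292) (nat_lit 11628969846) (nat_lit 254) (nat_lit 5) (nat_lit 253) (nat_lit 5) (nat_lit 270) (nat_lit 5) (nat_lit 425) (nat_lit 410) (nat_lit 185)) (XT.nd (nat_lit 78) (nat_lit 1140) (nat_lit 0) (XT.lf (nat_lit 76) (nat_lit 24360263330) (nat_lit 0) (nat_lit 8052792461) (nat_lit 1292) (nat_lit 8872142382) (nat_lit 254) (nat_lit 5) (nat_lit 253) (nat_lit 5) (nat_lit 270) (nat_lit 5) (nat_lit 426) (nat_lit 410) (nat_lit 184)) (XT.lf (nat_lit 0) (nat_lit 4448172321) (nat_lit 1216) (nat_lit 31622023111) (nat_lit 1292) (nat_lit 5886292080) (nat_lit 238) (nat_lit 5) (nat_lit 254) (nat_lit 5) (nat_lit 255) (nat_lit 5) (nat_lit 427) (nat_lit 410) (nat_lit 183)))) (XT.nd (nat_lit 156) (nat_lit 608) (nat_lit 0) (XT.nd (nat_lit 78) (nat_lit 684) (nat_lit 0) (XT.lf (nat_lit 0) (nat_lit 26726722853) (nat_lit 1216)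 (nat_lit 13358619165) (nat_lit 1292) (nat_lit 2555125370) (nat_lit 238) (nat_lit 5) (nat_lit 254) (nat_lit 5) (nat_lit 255) (nat_lit 5) (nat_lit 428) (nat_lit 410) (nat_lit 182)) (XT.lf (nat_lit 0) (nat_lit 972410624) (nat_lit 684) (nat_lit 36951382332) (nat_lit 76) (nat_lit 5417515859) (nat_lit 229) (nat_lit 5) (nat_lit 238) (nat_lit 5) (nat_lit 230) (nat_lit 5) (nat_lit 429) (nat_lit 410) (nat_lit 181))) (XT.nd (nat_lit 78) (nat_lit 608) (nat_lit 0) (XT.lf (nat_lit 0) (nat_lit 4847467641) (nat_lit 684) (nat_lit 14529985398) (nat_lit 76) (nat_lit 24676172566) (nat_lit 229) (nat_lit 5) (nat_lit 238) (nat_lit 5) (nat_lit 230) (nat_lit 5) (nat_lit 430) (nat_lit 410) (nat_lit 180)) (XT.lf (nat_lit 0) (nat_lit 8733106897) (nat_lit 608) (nat_lit 188159375) (nat_lit 684) (nat_lit 35863571497) (nat_lit 221) (nat_lit 5) (nat_lit 229) (nat_lit 5) (nat_lit 230) (nat_lit 5) (nat_lit 431) (nat_lit 410) (nat_lit 179))))))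 (XT.nd (nat_lit 546) (nat_lit 2432) (nat_lit 0) (XT.nd (nat_lit 234) (nat_lit 1064) (nat_lit 0) (XT.nd (nat_lit 78) (nat_lit 608) (nat_lit 0) (XT.lf (nat_lit 0) (nat_lit 13452212475) (nat_lit 684) (nat_lit 12732670929) (nat_lit 76) (nat_lit 19343055435) (nat_lit 221) (nat_lit 5) (nat_lit 230) (nat_lit 5) (nat_lit 222) (nat_lit 5) (nat_lit 432) (nat_lit 410) (nat_lit 178)) (XT.nd (nat_lit 78) (nat_lit 0) (nat_lit 0) (XT.lf (nat_lit 0) (nat_lit 11507295407) (nat_lit 608) (nat_lit 6722883600) (nat_lit 684) (nat_lit 28059821710) (nat_lit 213) (nat_lit 5) (nat_lit 221) (nat_lit 5) (nat_lit 222) (nat_lit 5) (nat_lit 433) (nat_lit 410) (nat_lit 177)) (XT.lf (nat_lit 0) (nat_lit 23408042690) (nat_lit 684) (nat_lit 10466320264) (nat_lit 76) (nat_lit 13192865270) (nat_lit 213) (nat_lit 5) (nat_lit 222) (nat_lit 5) (nat_lit 214) (nat_lit 5) (nat_lit 434) (nat_lit 410) (nat_lit 176)))) (XT.nd (nat_lit 156) (nat_lit 532)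 (nat_lit 0) (XT.nd (nat_lit 78) (nat_lit 0) (nat_lit 0) (XT.lf (nat_lit 0) (nat_lit 14800464221) (nat_lit 532) (nat_lit 14148293477) (nat_lit 608) (nat_lit 18912789899) (nat_lit 206) (nat_lit 5) (nat_lit 213) (nat_lit 5) (nat_lit 214) (nat_lit 5) (nat_lit 435) (nat_lit 410) (nat_lit 175)) (XT.lf (nat_lit 0) (nat_lit 34820441909) (nat_lit 608) (nat_lit 7698441434) (nat_lit 76) (nat_lit 6155871263) (nat_lit 206) (nat_lit 5) (nat_lit 214) (nat_lit 5) (nat_lit 207) (nat_lit 5) (nat_lit 436) (nat_lit 410) (nat_lit 174))) (XT.nd (nat_lit 78) (nat_lit 0) (nat_lit 0) (XT.lf (nat_lit 0) (nat_lit 18647553229) (nat_lit 532) (nat_lit 22538801341) (nat_lit 608) (nat_lit 8316461392) (nat_lit 199) (nat_lit 5) (nat_lit 206) (nat_lit 5) (nat_lit 207) (nat_lit 5) (nat_lit 437) (nat_lit 410) (nat_lit 173)) (XT.lf (nat_lit 0) (nat_lit 45940425877) (nat_lit 532) (nat_lit 1879325984) (nat_lit 608) (nat_lit 2533672541) (nat_lit 199)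 (nat_lit 5) (nat_lit 206) (nat_lit 5) (nat_lit 207) (nat_lit 5) (nat_lit 438) (nat_lit 410) (nat_lit 172))))) (XT.nd (nat_lit 312) (nat_lit 912) (nat_lit 0) (XT.nd (nat_lit 156) (nat_lit 988) (nat_lit 0) (XT.nd (nat_lit 78) (nat_lit 0) (nat_lit 0) (XT.lf (nat_lit 0) (nat_lit 3767040392) (nat_lit 532) (nat_lit 28169051845) (nat_lit 76) (nat_lit 19280135458) (nat_lit 192) (nat_lit 5) (nat_lit 199) (nat_lit 5) (nat_lit 193) (nat_lit 5) (nat_lit 439) (nat_lit 410) (nat_lit 171)) (XT.lf (nat_lit 0) (nat_lit 10268274992) (nat_lit 532) (nat_lit 727415780) (nat_lit 76) (nat_lit 41106599423) (nat_lit 192) (nat_lit 5) (nat_lit 199) (nat_lit 5) (nat_lit 193) (nat_lit 5) (nat_lit 440) (nat_lit 410) (nat_lit 170))) (XT.nd (nat_lit 78) (nat_lit 456) (nat_lit 0) (XT.lf (nat_lit 0) (nat_lit 17337662402) (nat_lit 608) (nat_lit 25026964652) (nat_lit 76) (nat_lit 10639114450) (nat_lit 185) (nat_lit 5) (nat_lit 193) (nat_lit 5)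 (nat_lit 186) (nat_lit 5) (nat_lit 441) (nat_lit 410) (nat_lit 169)) (XT.lf (nat_lit 0) (nat_lit 3584697151) (nat_lit 456) (nat_lit 21184047125) (nat_lit 532) (nat_lit 29159004088) (nat_lit 179) (nat_lit 5) (nat_lit 185) (nat_lit 5) (nat_lit 186) (nat_lit 5) (nat_lit 442) (nat_lit 410) (nat_lit 168)))) (XT.nd (nat_lit 156) (nat_lit 456) (nat_lit 0) (XT.nd (nat_lit 78) (nat_lit 456) (nat_lit 0) (XT.lf (nat_lit 0) (nat_lit 32682945745) (nat_lit 532) (nat_lit 21314055655) (nat_lit 76) (nat_lit 874668803) (nat_lit 179) (nat_lit 5) (nat_lit 186) (nat_lit 5) (nat_lit 180) (nat_lit 5) (nat_lit 443) (nat_lit 410) (nat_lit 167)) (XT.lf (nat_lit 0) (nat_lit 8541457775) (nat_lit 456) (nat_lit 32583883622) (nat_lit 532) (nat_lit 14709845629) (nat_lit 173) (nat_lit 5) (nat_lit 179) (nat_lit 5) (nat_lit 180) (nat_lit 5) (nat_lit 444) (nat_lit 410) (nat_lit 166))) (XT.nd (nat_lit 78) (nat_lit 456) (nat_lit 0) (XT.lf (nat_lit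 0) (nat_lit 39728282878) (nat_lit 456) (nat_lit 10306894851) (nat_lit 532) (nat_lit 6786006925) (nat_lit 173) (nat_lit 5) (nat_lit 179) (nat_lit 5) (nat_lit 180) (nat_lit 5) (nat_lit 445) (nat_lit 410) (nat_lit 165)) (XT.lf (nat_lit 0) (nat_lit 1607889637) (nat_lit 456) (nat_lit 43677165579) (nat_lit 76) (nat_lit 12543535120) (nat_lit 167) (nat_lit 5) (nat_lit 173) (nat_lit 5) (nat_lit 168) (nat_lit 5) (nat_lit 446) (nat_lit 410) (nat_lit 164))))))))
noncomputable def xc234 : XT := (XT.nd (nat_lit 50622) (nat_lit 0) (nat_lit 5624) (XT.nd (nat_lit 1092) (nat_lit 1900) (nat_lit 0) (XT.nd (nat_lit 546) (nat_lit 1140) (nat_lit 0) (XT.nd (nat_lit 234) (nat_lit 1216) (nat_lit 0) (XT.nd (nat_lit 78) (nat_lit 456) (nat_lit 0) (XT.lf (nat_lit 0) (nat_lit 10392548555) (nat_lit 456) (nat_lit 12349788449) (nat_lit 76) (nat_lit 36113605749) (nat_lit 167) (nat_lit 5) (nat_lit 173) (nat_lit 5) (nat_lit 168) (nat_lit 5) (nat_lit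 447) (nat_lit 410) (nat_lit 163)) (XT.nd (nat_lit 78) (nat_lit 0) (nat_lit 0) (XT.lf (nat_lit 0) (nat_lit 19641521875) (nat_lit 532) (nat_lit 39602254751) (nat_lit 76) (nat_lit 664316198) (nat_lit 161) (nat_lit 5) (nat_lit 168) (nat_lit 5) (nat_lit 162) (nat_lit 5) (nat_lit 448) (nat_lit 410) (nat_lit 162)) (XT.lf (nat_lit 0) (nat_lit 29518099418) (nat_lit 532) (nat_lit 7021430343) (nat_lit 76) (nat_lit 24441773900) (nat_lit 161) (nat_lit 5) (nat_lit 168) (nat_lit 5) (nat_lit 162) (nat_lit 5) (nat_lit 449) (nat_lit 410) (nat_lit 161)))) (XT.nd (nat_lit 156) (nat_lit 836) (nat_lit 0) (XT.nd (nat_lit 78) (nat_lit 0) (nat_lit 0) (XT.lf (nat_lit 0) (nat_lit 27063716018) (nat_lit 380) (nat_lit 12886459791) (nat_lit 456) (nat_lit 22128759274) (nat_lit 156) (nat_lit 5) (nat_lit 161) (nat_lit 5) (nat_lit 162) (nat_lit 5) (nat_lit 450) (nat_lit 410) (nat_lit 160)) (XT.lf (nat_lit 0) (nat_lit 50876197587) (nat_lit 456)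 (nat_lit 1004264700) (nat_lit 76) (nat_lit 11323603962) (nat_lit 156) (nat_lit 5) (nat_lit 162) (nat_lit 5) (nat_lit 157) (nat_lit 5) (nat_lit 451) (nat_lit 410) (nat_lit 159))) (XT.nd (nat_lit 78) (nat_lit 456) (nat_lit 0) (XT.lf (nat_lit 0) (nat_lit 34572879477) (nat_lit 380) (nat_lit 28016134368) (nat_lit 456) (nat_lit 1760167377) (nat_lit 151) (nat_lit 5) (nat_lit 156) (nat_lit 5) (nat_lit 157) (nat_lit 5) (nat_lit 452) (nat_lit 410) (nat_lit 158)) (XT.lf (nat_lit 0) (nat_lit 5732429954) (nat_lit 380) (nat_lit 3278522489) (nat_lit 456) (nat_lit 56513132926) (nat_lit 145) (nat_lit 5) (nat_lit 150) (nat_lit 5) (nat_lit 151) (nat_lit 5) (nat_lit 453) (nat_lit 410) (nat_lit 157))))) (XT.nd (nat_lit 234) (nat_lit 760) (nat_lit 0) (XT.nd (nat_lit 78) (nat_lit 380) (nat_lit 0) (XT.lf (nat_lit 0) (nat_lit 20586006817) (nat_lit 456) (nat_lit 24043434166) (nat_lit 76) (nat_lit 22088787740) (nat_lit 145) (nat_lit 5)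 (nat_lit 151) (nat_lit 5) (nat_lit 146) (nat_lit 5) (nat_lit 454) (nat_lit 410) (nat_lit 156)) (XT.nd (nat_lit 78) (nat_lit 0) (nat_lit 0) (XT.lf (nat_lit 0) (nat_lit 12997220488) (nat_lit 380) (nat_lit 19667623758) (nat_lit 456) (nat_lit 35278656444) (nat_lit 140) (nat_lit 5) (nat_lit 145) (nat_lit 5) (nat_lit 146) (nat_lit 5) (nat_lit 455) (nat_lit 410) (nat_lit 155)) (XT.lf (nat_lit 0) (nat_lit 45408476319) (nat_lit 456) (nat_lit 17617965312) (nat_lit 76) (nat_lit 6170016546) (nat_lit 140) (nat_lit 5) (nat_lit 146) (nat_lit 5) (nat_lit 141) (nat_lit 5) (nat_lit 456) (nat_lit 410) (nat_lit 154)))) (XT.nd (nat_lit 156) (nat_lit 380) (nat_lit 0) (XT.nd (nat_lit 78) (nat_lit 76) (nat_lit 0) (XT.lf (nat_lit 0) (nat_lit 21044981521) (nat_lit 304) (nat_lit 37885631560) (nat_lit 380) (nat_lit 11544505678) (nat_lit 136) (nat_lit 5) (nat_lit 140) (nat_lit 5) (nat_lit 141) (nat_lit 5) (nat_lit 457) (nat_lit 410) (nat_lit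 153)) (XT.lf (nat_lit 0) (nat_lit 1224310731) (nat_lit 380) (nat_lit 10571002621) (nat_lit 76) (nat_lit 59991153258) (nat_lit 135) (nat_lit 5) (nat_lit 140) (nat_lit 5) (nat_lit 136) (nat_lit 5) (nat_lit 458) (nat_lit 410) (nat_lit 152))) (XT.nd (nat_lit 78) (nat_lit 0) (nat_lit 0) (XT.lf (nat_lit 0) (nat_lit 14579901816) (nat_lit 456) (nat_lit 43351660114) (nat_lit 76) (nat_lit 15189091824) (nat_lit 130) (nat_lit 5) (nat_lit 136) (nat_lit 5) (nat_lit 131) (nat_lit 5) (nat_lit 459) (nat_lit 410) (nat_lit 151)) (XT.lf (nat_lit 0) (nat_lit 28559957237) (nat_lit 456) (nat_lit 3074754669) (nat_lit 76) (nat_lit 42853440922) (nat_lit 130) (nat_lit 5) (nat_lit 136) (nat_lit 5) (nat_lit 131) (nat_lit 5) (nat_lit 460) (nat_lit 410) (nat_lit 150)))))) (XT.nd (nat_lit 546) (nat_lit 608) (nat_lit 0) (XT.nd (nat_lit 234) (nat_lit 684) (nat_lit 0) (XT.nd (nat_lit 78) (nat_lit 304) (nat_lit 0) (XT.lf (nat_lit 0) (nat_lit 39173779126)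 (nat_lit 304) (nat_lit 4161428620) (nat_lit 380) (nat_lit 32550195533) (nat_lit 126) (nat_lit 5) (nat_lit 130) (nat_lit 5) (nat_lit 131) (nat_lit 5) (nat_lit 461) (nat_lit 410) (nat_lit 149)) (XT.nd (nat_lit 78) (nat_lit 0) (nat_lit 0) (XT.lf (nat_lit 0) (nat_lit 5299136669) (nat_lit 304) (nat_lit 53568124384) (nat_lit 380) (nat_lit 18447904033) (nat_lit 122) (nat_lit 5) (nat_lit 126) (nat_lit 5) (nat_lit 127) (nat_lit 5) (nat_lit 462) (nat_lit 410) (nat_lit 148)) (XT.lf (nat_lit 0) (nat_lit 49279651960) (nat_lit 304) (nat_lit 25996389144) (nat_lit 380) (nat_lit 3499455885) (nat_lit 122) (nat_lit 5) (nat_lit 126) (nat_lit 5) (nat_lit 127) (nat_lit 5) (nat_lit 463) (nat_lit 410) (nat_lit 147)))) (XT.nd (nat_lit 156) (nat_lit 304) (nat_lit 0) (XT.nd (nat_lit 78) (nat_lit 0) (nat_lit 0) (XT.lf (nat_lit 0) (nat_lit 11829213358) (nat_lit 380) (nat_lit 65830861884) (nat_lit 76) (nat_lit 2611214934) (nat_lit 117) (nat_lit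 5) (nat_lit 122) (nat_lit 5) (nat_lit 118) (nat_lit 5) (nat_lit 464) (nat_lit 410) (nat_lit 146)) (XT.lf (nat_lit 0) (nat_lit 28104869862) (nat_lit 380) (nat_lit 21799672141) (nat_lit 76) (nat_lit 31889652010) (nat_lit 117) (nat_lit 5) (nat_lit 122) (nat_lit 5) (nat_lit 118) (nat_lit 5) (nat_lit 465) (nat_lit 410) (nat_lit 145))) (XT.nd (nat_lit 78) (nat_lit 0) (nat_lit 0) (XT.lf (nat_lit 0) (nat_lit 24020114847) (nat_lit 304) (nat_lit 21078871987) (nat_lit 380) (nat_lit 38256892581) (nat_lit 113) (nat_lit 5) (nat_lit 117) (nat_lit 5) (nat_lit 118) (nat_lit 5) (nat_lit 466) (nat_lit 410) (nat_lit 144)) (XT.lf (nat_lit 0) (nat_lit 62907322292) (nat_lit 380) (nat_lit 13382467876) (nat_lit 76) (nat_lit 8665493529) (nat_lit 113) (nat_lit 5) (nat_lit 118) (nat_lit 5) (nat_lit 114) (nat_lit 5) (nat_lit 467) (nat_lit 410) (nat_lit 143))))) (XT.nd (nat_lit 48672) (nat_lit 0) (nat_lit 10716) (XT.nd (nat_lit 78) (nat_lit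 380) (nat_lit 0) (XT.lf (nat_lit 0) (nat_lit 34411178393) (nat_lit 228) (nat_lit 47377534582) (nat_lit 304) (nat_lit 4797793142) (nat_lit 110) (nat_lit 5) (nat_lit 113) (nat_lit 5) (nat_lit 114) (nat_lit 5) (nat_lit 468) (nat_lit 410) (nat_lit 142)) (XT.nd (nat_lit 78) (nat_lit 304) (nat_lit 0) (XT.lf (nat_lit 0) (nat_lit 12852591060) (nat_lit 304) (nat_lit 4476699099) (nat_lit 76) (nat_lit 70929560974) (nat_lit 109) (nat_lit 5) (nat_lit 113) (nat_lit 5) (nat_lit 110) (nat_lit 5) (nat_lit 469) (nat_lit 410) (nat_lit 141)) (XT.lf (nat_lit 0) (nat_lit 31508422933) (nat_lit 380) (nat_lit 44610473355) (nat_lit 76) (nat_lit 13843874262) (nat_lit 105) (nat_lit 5) (nat_lit 110) (nat_lit 5) (nat_lit 106) (nat_lit 5) (nat_lit 470) (nat_lit 410) (nat_lit 140)))) (XT.nd (nat_lit 156) (nat_lit 0) (nat_lit 76) (XT.nd (nat_lit 78) (nat_lit 0) (nat_lit 0) (XT.lf (nat_lit 0) (nat_lit 3118072825) (nat_lit 1292) (nat_lit 6749388420)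 (nat_lit 1292) (nat_lit 6749388420) (nat_lit 246) (nat_lit 3) (nat_lit 263) (nat_lit 3) (nat_lit 263) (nat_lit 5) (nat_lit 411) (nat_lit 411) (nat_lit 198)) (XT.lf (nat_lit 76) (nat_lit 2568919642) (nat_lit 0) (nat_lit 3843940353) (nat_lit 1292) (nat_lit 27316824973) (nat_lit 247) (nat_lit 5) (nat_lit 246) (nat_lit 3) (nat_lit 263) (nat_lit 5) (nat_lit 412) (nat_lit 411) (nat_lit 197))) (XT.nd (nat_lit 78) (nat_lit 0) (nat_lit 0) (XT.lf (nat_lit 0) (nat_lit 6850639468) (nat_lit 1216) (nat_lit 14964117424) (nat_lit 1292) (nat_lit 12418121331) (nat_lit 247) (nat_lit 5) (nat_lit 263) (nat_lit 5) (nat_lit 264) (nat_lit 5) (nat_lit 413) (nat_lit 411) (nat_lit 196)) (XT.lf (nat_lit 76) (nat_lit 1712546789) (nat_lit 0) (nat_lit 5641309657) (nat_lit 1292) (nat_lit 27395742642) (nat_lit 248) (nat_lit 5) (nat_lit 247) (nat_lit 5) (nat_lit 264) (nat_lit 5) (nat_lit 414) (nat_lit 411) (nat_lit 195))))))) (XT.nd (nat_lit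 1092) (nat_lit 4484) (nat_lit 0) (XT.nd (nat_lit 546) (nat_lit 760) (nat_lit 0) (XT.nd (nat_lit 234) (nat_lit 0) (nat_lit 76) (XT.nd (nat_lit 78) (nat_lit 0) (nat_lit 0) (XT.lf (nat_lit 0) (nat_lit 8128524698) (nat_lit 1216) (nat_lit 16189734101) (nat_lit 1292) (nat_lit 10955873046) (nat_lit 248) (nat_lit 5) (nat_lit 264) (nat_lit 5) (nat_lit 265) (nat_lit 5) (nat_lit 415) (nat_lit 411) (nat_lit 194)) (XT.nd (nat_lit 78) (nat_lit 0) (nat_lit 76) (XT.lf (nat_lit 76) (nat_lit 1127891430) (nat_lit 0) (nat_lit 7863145843) (nat_lit 1292) (nat_lit 26821426064) (nat_lit 249) (nat_lit 5) (nat_lit 248) (nat_lit 5) (nat_lit 265) (nat_lit 5) (nat_lit 416) (nat_lit 411) (nat_lit 193)) (XT.lf (nat_lit 0) (nat_lit 10129829207) (nat_lit 1216) (nat_lit 17155400241) (nat_lit 1292) (nat_lit 9074204064) (nat_lit 249) (nat_lit 5) (nat_lit 265) (nat_lit 5) (nat_lit 266) (nat_lit 5) (nat_lit 417) (nat_lit 411) (nat_lit 192)))) (XT.nd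 (nat_lit 156) (nat_lit 0) (nat_lit 76) (XT.nd (nat_lit 78) (nat_lit 0) (nat_lit 76) (XT.lf (nat_lit 76) (nat_lit 836837726) (nat_lit 0) (nat_lit 10549867799) (nat_lit 1292) (nat_lit 25533590479) (nat_lit 250) (nat_lit 5) (nat_lit 249) (nat_lit 5) (nat_lit 266) (nat_lit 5) (nat_lit 418) (nat_lit 411) (nat_lit 191)) (XT.lf (nat_lit 0) (nat_lit 12918599272) (nat_lit 1216) (nat_lit 17839613749) (nat_lit 1292) (nat_lit 6732652822) (nat_lit 250) (nat_lit 5) (nat_lit 266) (nat_lit 5) (nat_lit 267) (nat_lit 5) (nat_lit 419) (nat_lit 411) (nat_lit 190))) (XT.nd (nat_lit 78) (nat_lit 0) (nat_lit 76) (XT.lf (nat_lit 76) (nat_lit 862625787) (nat_lit 0) (nat_lit 13744701491) (nat_lit 1292) (nat_lit 23467899960) (nat_lit 251) (nat_lit 5) (nat_lit 250) (nat_lit 5) (nat_lit 267) (nat_lit 5) (nat_lit 420) (nat_lit 411) (nat_lit 189)) (XT.lf (nat_lit 0) (nat_lit 16563152471) (nat_lit 1216) (nat_lit 18219546912) (nat_lit 1292)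 (nat_lit 3887927792) (nat_lit 251) (nat_lit 5) (nat_lit 267) (nat_lit 5) (nat_lit 268) (nat_lit 5) (nat_lit 421) (nat_lit 411) (nat_lit 188))))) (XT.nd (nat_lit 234) (nat_lit 988) (nat_lit 0) (XT.nd (nat_lit 78) (nat_lit 0) (nat_lit 76) (XT.lf (nat_lit 76) (nat_lit 1229905078) (nat_lit 0) (nat_lit 17493887631) (nat_lit 1292) (nat_lit 20555712931) (nat_lit 252) (nat_lit 5) (nat_lit 251) (nat_lit 5) (nat_lit 268) (nat_lit 5) (nat_lit 422) (nat_lit 411) (nat_lit 187)) (XT.nd (nat_lit 78) (nat_lit 0) (nat_lit 0) (XT.lf (nat_lit 0) (nat_lit 21136344630) (nat_lit 1216) (nat_lit 18270995397) (nat_lit 1292) (nat_lit 493698375) (nat_lit 252) (nat_lit 5) (nat_lit 268) (nat_lit 5) (nat_lit 269) (nat_lit 5) (nat_lit 423) (nat_lit 411) (nat_lit 186)) (XT.lf (nat_lit 76) (nat_lit 1964788734) (nat_lit 0) (nat_lit 21846902953) (nat_lit 1292) (nat_lit 16723813599) (nat_lit 253) (nat_lit 5) (nat_lit 252) (nat_lit 5) (nat_lit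 269) (nat_lit 5) (nat_lit 424) (nat_lit 411) (nat_lit 185)))) (XT.nd (nat_lit 156) (nat_lit 1064) (nat_lit 0) (XT.nd (nat_lit 78) (nat_lit 0) (nat_lit 76) (XT.lf (nat_lit 76) (nat_lit 23180884263) (nat_lit 0) (nat_lit 3569277433) (nat_lit 1292) (nat_lit 14433359279) (nat_lit 253) (nat_lit 5) (nat_lit 252) (nat_lit 5) (nat_lit 269) (nat_lit 5) (nat_lit 425) (nat_lit 411) (nat_lit 184)) (XT.lf (nat_lit 76) (nat_lit 3094908508) (nat_lit 0) (nat_lit 26856696170) (nat_lit 1292) (nat_lit 11894128548) (nat_lit 254) (nat_lit 5) (nat_lit 253) (nat_lit 5) (nat_lit 270) (nat_lit 5) (nat_lit 426) (nat_lit 411) (nat_lit 183))) (XT.nd (nat_lit 78) (nat_lit 1140) (nat_lit 0) (XT.lf (nat_lit 76) (nat_lit 25157073345) (nat_lit 0) (nat_lit 8307247802) (nat_lit 1292) (nat_lit 9057034427) (nat_lit 254) (nat_lit 5) (nat_lit 253) (nat_lit 5) (nat_lit 270) (nat_lit 5) (nat_lit 427) (nat_lit 411) (nat_lit 182)) (XT.lf (nat_lit 0) (nat_lit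 4649470072) (nat_lit 1216) (nat_lit 32579939729) (nat_lit 1292) (nat_lit 5983427690) (nat_lit 238) (nat_lit 5) (nat_lit 254) (nat_lit 5) (nat_lit 255) (nat_lit 5) (nat_lit 428) (nat_lit 411) (nat_lit 181)))))) (XT.nd (nat_lit 546) (nat_lit 2584) (nat_lit 0) (XT.nd (nat_lit 234) (nat_lit 1216) (nat_lit 0) (XT.nd (nat_lit 78) (nat_lit 684) (nat_lit 0) (XT.lf (nat_lit 0) (nat_lit 27594400831) (nat_lit 1216) (nat_lit 13768364074) (nat_lit 1292) (nat_lit 2554640147) (nat_lit 238) (nat_lit 5) (nat_lit 254) (nat_lit 5) (nat_lit 255) (nat_lit 5) (nat_lit 429) (nat_lit 411) (nat_lit 180)) (XT.nd (nat_lit 78) (nat_lit 0) (nat_lit 0) (XT.lf (nat_lit 0) (nat_lit 1075585001) (nat_lit 684) (nat_lit 37990852266) (nat_lit 76) (nat_lit 5572862021) (nat_lit 229) (nat_lit 5) (nat_lit 238) (nat_lit 5) (nat_lit 230) (nat_lit 5) (nat_lit 430) (nat_lit 411) (nat_lit 179)) (XT.lf (nat_lit 0) (nat_lit 5064738330) (nat_lit 684) (nat_lit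 14898825217) (nat_lit 76) (nat_lit 25409487536) (nat_lit 229) (nat_lit 5) (nat_lit 238) (nat_lit 5) (nat_lit 230) (nat_lit 5) (nat_lit 431) (nat_lit 411) (nat_lit 178)))) (XT.nd (nat_lit 156) (nat_lit 608) (nat_lit 0) (XT.nd (nat_lit 78) (nat_lit 0) (nat_lit 0) (XT.lf (nat_lit 0) (nat_lit 9061502398) (nat_lit 608) (nat_lit 197794199) (nat_lit 684) (nat_lit 36866947455) (nat_lit 221) (nat_lit 5) (nat_lit 229) (nat_lit 5) (nat_lit 230) (nat_lit 5) (nat_lit 432) (nat_lit 411) (nat_lit 177)) (XT.lf (nat_lit 0) (nat_lit 13924083687) (nat_lit 684) (nat_lit 13048069019) (nat_lit 76) (nat_lit 19919548862) (nat_lit 221) (nat_lit 5) (nat_lit 230) (nat_lit 5) (nat_lit 222) (nat_lit 5) (nat_lit 433) (nat_lit 411) (nat_lit 176))) (XT.nd (nat_lit 78) (nat_lit 0) (nat_lit 0) (XT.lf (nat_lit 0) (nat_lit 11918443542) (nat_lit 608) (nat_lit 6925589964) (nat_lit 684) (nat_lit 28832633234) (nat_lit 213) (nat_lit 5) (nat_lit 221)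 (nat_lit 5) (nat_lit 222) (nat_lit 5) (nat_lit 434) (nat_lit 411) (nat_lit 175)) (XT.lf (nat_lit 0) (nat_lit 24175273607) (nat_lit 684) (nat_lit 10714316596) (nat_lit 76) (nat_lit 13587680398) (nat_lit 213) (nat_lit 5) (nat_lit 222) (nat_lit 5) (nat_lit 214) (nat_lit 5) (nat_lit 435) (nat_lit 411) (nat_lit 174))))) (XT.nd (nat_lit 312) (nat_lit 1520) (nat_lit 0) (XT.nd (nat_lit 156) (nat_lit 532) (nat_lit 0) (XT.nd (nat_lit 78) (nat_lit 0) (nat_lit 0) (XT.lf (nat_lit 0) (nat_lit 15309824431) (nat_lit 532) (nat_lit 14571120880) (nat_lit 608) (nat_lit 19414512908) (nat_lit 206) (nat_lit 5) (nat_lit 213) (nat_lit 5) (nat_lit 214) (nat_lit 5) (nat_lit 436) (nat_lit 411) (nat_lit 173)) (XT.lf (nat_lit 0) (nat_lit 35926939116) (nat_lit 608) (nat_lit 7864087392) (nat_lit 76) (nat_lit 6342090859) (nat_lit 206) (nat_lit 5) (nat_lit 214) (nat_lit 5) (nat_lit 207) (nat_lit 5) (nat_lit 437) (nat_lit 411) (nat_lit 172)))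 (XT.nd (nat_lit 78) (nat_lit 0) (nat_lit 0) (XT.lf (nat_lit 0) (nat_lit 19271646844) (nat_lit 532) (nat_lit 23211001488) (nat_lit 608) (nat_lit 8503408338) (nat_lit 199) (nat_lit 5) (nat_lit 206) (nat_lit 5) (nat_lit 207) (nat_lit 5) (nat_lit 438) (nat_lit 411) (nat_lit 171)) (XT.lf (nat_lit 0) (nat_lit 47381422166) (nat_lit 532) (nat_lit 1931857323) (nat_lit 608) (nat_lit 2548957575) (nat_lit 199) (nat_lit 5) (nat_lit 206) (nat_lit 5) (nat_lit 207) (nat_lit 5) (nat_lit 439) (nat_lit 411) (nat_lit 170)))) (XT.nd (nat_lit 156) (nat_lit 988) (nat_lit 0) (XT.nd (nat_lit 78) (nat_lit 0) (nat_lit 0) (XT.lf (nat_lit 0) (nat_lit 3938514236) (nat_lit 532) (nat_lit 28949035248) (nat_lit 76) (nat_lit 19863390409) (nat_lit 192) (nat_lit 5) (nat_lit 199) (nat_lit 5) (nat_lit 193) (nat_lit 5) (nat_lit 440) (nat_lit 411) (nat_lit 169)) (XT.lf (nat_lit 0) (nat_lit 10633083079) (nat_lit 532) (nat_lit 686045872) (nat_lit 76)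 (nat_lit 42344507004) (nat_lit 192) (nat_lit 5) (nat_lit 199) (nat_lit 5) (nat_lit 193) (nat_lit 5) (nat_lit 441) (nat_lit 411) (nat_lit 168))) (XT.nd (nat_lit 78) (nat_lit 456) (nat_lit 0) (XT.lf (nat_lit 0) (nat_lit 17913566389) (nat_lit 608) (nat_lit 25713575925) (nat_lit 76) (nat_lit 10965018649) (nat_lit 185) (nat_lit 5) (nat_lit 193) (nat_lit 5) (nat_lit 186) (nat_lit 5) (nat_lit 442) (nat_lit 411) (nat_lit 167)) (XT.lf (nat_lit 0) (nat_lit 3755806343) (nat_lit 456) (nat_lit 21810760945) (nat_lit 532) (nat_lit 29977351715) (nat_lit 179) (nat_lit 5) (nat_lit 185) (nat_lit 5) (nat_lit 186) (nat_lit 5) (nat_lit 443) (nat_lit 411) (nat_lit 166))))))))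
noncomputable def xc235 : XT := (XT.nd (nat_lit 50700) (nat_lit 0) (nat_lit 6308) (XT.nd (nat_lit 1092) (nat_lit 2356) (nat_lit 0) (XT.nd (nat_lit 546) (nat_lit 1596) (nat_lit 0) (XT.nd (nat_lit 234) (nat_lit 912) (nat_lit 0) (XT.nd (nat_lit 78) (nat_lit 456) (nat_lit 0) (XT.lf (nat_lit 0) (nat_lit 33716682027) (nat_lit 532) (nat_lit 21890229337) (nat_lit 76) (nat_lit 909293067) (nat_lit 179) (nat_lit 5) (nat_lit 186) (nat_lit 5) (nat_lit 180) (nat_lit 5) (nat_lit 444) (nat_lit 411) (nat_lit 165)) (XT.nd (nat_lit 78) (nat_lit 0) (nat_lit 0) (XT.lf (nat_lit 0) (nat_lit 8860329417) (nat_lit 456) (nat_lit 33551071239) (nat_lit 532) (nat_lit 15097255107) (nat_lit 173) (nat_lit 5) (nat_lit 179) (nat_lit 5) (nat_lit 180) (nat_lit 5) (nat_lit 445) (nat_lit 411) (nat_lit 164)) (XT.lf (nat_lit 0) (nat_lit 40980935159) (nat_lit 456) (nat_lit 10606073646) (nat_lit 532) (nat_lit 6937270734) (nat_lit 173) (nat_lit 5) (nat_lit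 179) (nat_lit 5) (nat_lit 180) (nat_lit 5) (nat_lit 446) (nat_lit 411) (nat_lit 163)))) (XT.nd (nat_lit 156) (nat_lit 456) (nat_lit 0) (XT.nd (nat_lit 78) (nat_lit 0) (nat_lit 0) (XT.lf (nat_lit 0) (nat_lit 1706620681) (nat_lit 456) (nat_lit 44924821449) (nat_lit 76) (nat_lit 12930474703) (nat_lit 167) (nat_lit 5) (nat_lit 173) (nat_lit 5) (nat_lit 168) (nat_lit 5) (nat_lit 447) (nat_lit 411) (nat_lit 162)) (XT.lf (nat_lit 0) (nat_lit 10753348656) (nat_lit 456) (nat_lit 12659448027) (nat_lit 76) (nat_lit 37207337736) (nat_lit 167) (nat_lit 5) (nat_lit 173) (nat_lit 5) (nat_lit 168) (nat_lit 5) (nat_lit 448) (nat_lit 411) (nat_lit 161))) (XT.nd (nat_lit 78) (nat_lit 0) (nat_lit 0) (XT.lf (nat_lit 0) (nat_lit 20279058300) (nat_lit 532) (nat_lit 40728739999) (nat_lit 76) (nat_lit 696073145) (nat_lit 161) (nat_lit 5) (nat_lit 168) (nat_lit 5) (nat_lit 162) (nat_lit 5) (nat_lit 449) (nat_lit 411) (nat_lit 160)) (XT.lf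 (nat_lit 0) (nat_lit 30450526642) (nat_lit 532) (nat_lit 7172284520) (nat_lit 76) (nat_lit 25186510089) (nat_lit 161) (nat_lit 5) (nat_lit 168) (nat_lit 5) (nat_lit 162) (nat_lit 5) (nat_lit 450) (nat_lit 411) (nat_lit 159))))) (XT.nd (nat_lit 234) (nat_lit 836) (nat_lit 0) (XT.nd (nat_lit 78) (nat_lit 380) (nat_lit 0) (XT.lf (nat_lit 0) (nat_lit 27934830067) (nat_lit 380) (nat_lit 13259938789) (nat_lit 456) (nat_lit 22745137090) (nat_lit 156) (nat_lit 5) (nat_lit 161) (nat_lit 5) (nat_lit 162) (nat_lit 5) (nat_lit 451) (nat_lit 411) (nat_lit 158)) (XT.nd (nat_lit 78) (nat_lit 380) (nat_lit 0) (XT.lf (nat_lit 0) (nat_lit 52447351320) (nat_lit 456) (nat_lit 975680320) (nat_lit 76) (nat_lit 11675796430) (nat_lit 156) (nat_lit 5) (nat_lit 162) (nat_lit 5) (nat_lit 157) (nat_lit 5) (nat_lit 452) (nat_lit 411) (nat_lit 157)) (XT.lf (nat_lit 0) (nat_lit 35668202571) (nat_lit 380) (nat_lit 28842601511) (nat_lit 456)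 (nat_lit 1767515261) (nat_lit 151) (nat_lit 5) (nat_lit 156) (nat_lit 5) (nat_lit 157) (nat_lit 5) (nat_lit 453) (nat_lit 411) (nat_lit 156)))) (XT.nd (nat_lit 156) (nat_lit 380) (nat_lit 0) (XT.nd (nat_lit 78) (nat_lit 0) (nat_lit 0) (XT.lf (nat_lit 0) (nat_lit 5962861121) (nat_lit 380) (nat_lit 3362253778) (nat_lit 456) (nat_lit 58163365081) (nat_lit 145) (nat_lit 5) (nat_lit 150) (nat_lit 5) (nat_lit 151) (nat_lit 5) (nat_lit 454) (nat_lit 411) (nat_lit 155)) (XT.lf (nat_lit 0) (nat_lit 21246280674) (nat_lit 456) (nat_lit 24706828803) (nat_lit 76) (nat_lit 22765372742) (nat_lit 145) (nat_lit 5) (nat_lit 151) (nat_lit 5) (nat_lit 146) (nat_lit 5) (nat_lit 455) (nat_lit 411) (nat_lit 154))) (XT.nd (nat_lit 78) (nat_lit 0) (nat_lit 0) (XT.lf (nat_lit 0) (nat_lit 13444477762) (nat_lit 380) (nat_lit 20242313152) (nat_lit 456) (nat_lit 36293742565) (nat_lit 140) (nat_lit 5) (nat_lit 145) (nat_lit 5) (nat_lit 146)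 (nat_lit 5) (nat_lit 456) (nat_lit 411) (nat_lit 153)) (XT.lf (nat_lit 0) (nat_lit 46811651766) (nat_lit 456) (nat_lit 18089741709) (nat_lit 76) (nat_lit 6369718978) (nat_lit 140) (nat_lit 5) (nat_lit 146) (nat_lit 5) (nat_lit 141) (nat_lit 5) (nat_lit 457) (nat_lit 411) (nat_lit 152)))))) (XT.nd (nat_lit 546) (nat_lit 988) (nat_lit 0) (XT.nd (nat_lit 234) (nat_lit 608) (nat_lit 0) (XT.nd (nat_lit 78) (nat_lit 456) (nat_lit 0) (XT.lf (nat_lit 0) (nat_lit 21732537034) (nat_lit 304) (nat_lit 39006264005) (nat_lit 380) (nat_lit 11849351704) (nat_lit 136) (nat_lit 5) (nat_lit 140) (nat_lit 5) (nat_lit 141) (nat_lit 5) (nat_lit 458) (nat_lit 411) (nat_lit 151)) (XT.nd (nat_lit 78) (nat_lit 380) (nat_lit 0) (XT.lf (nat_lit 0) (nat_lit 1300534753) (nat_lit 380) (nat_lit 10832766849) (nat_lit 76) (nat_lit 61805563333) (nat_lit 135) (nat_lit 5) (nat_lit 140) (nat_lit 5) (nat_lit 136) (nat_lit 5) (nat_lit 459) (nat_lit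 411) (nat_lit 150)) (XT.lf (nat_lit 0) (nat_lit 15056323569) (nat_lit 456) (nat_lit 44596363551) (nat_lit 76) (nat_lit 15660404989) (nat_lit 130) (nat_lit 5) (nat_lit 136) (nat_lit 5) (nat_lit 131) (nat_lit 5) (nat_lit 460) (nat_lit 411) (nat_lit 149)))) (XT.nd (nat_lit 156) (nat_lit 304) (nat_lit 0) (XT.nd (nat_lit 78) (nat_lit 304) (nat_lit 0) (XT.lf (nat_lit 0) (nat_lit 29454644012) (nat_lit 456) (nat_lit 3112777535) (nat_lit 76) (nat_lit 44154229015) (nat_lit 130) (nat_lit 5) (nat_lit 136) (nat_lit 5) (nat_lit 131) (nat_lit 5) (nat_lit 461) (nat_lit 411) (nat_lit 148)) (XT.lf (nat_lit 0) (nat_lit 40402680708) (nat_lit 304) (nat_lit 4269883877) (nat_lit 380) (nat_lit 33488271862) (nat_lit 126) (nat_lit 5) (nat_lit 130) (nat_lit 5) (nat_lit 131) (nat_lit 5) (nat_lit 462) (nat_lit 411) (nat_lit 147))) (XT.nd (nat_lit 78) (nat_lit 0) (nat_lit 0) (XT.lf (nat_lit 0) (nat_lit 5512234501) (nat_lit 304) (nat_lit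 55157931774) (nat_lit 380) (nat_lit 18963337518) (nat_lit 122) (nat_lit 5) (nat_lit 126) (nat_lit 5) (nat_lit 127) (nat_lit 5) (nat_lit 463) (nat_lit 411) (nat_lit 146)) (XT.lf (nat_lit 0) (nat_lit 50810588832) (nat_lit 304) (nat_lit 26759546506) (nat_lit 380) (nat_lit 3567542828) (nat_lit 122) (nat_lit 5) (nat_lit 126) (nat_lit 5) (nat_lit 127) (nat_lit 5) (nat_lit 464) (nat_lit 411) (nat_lit 145))))) (XT.nd (nat_lit 234) (nat_lit 304) (nat_lit 0) (XT.nd (nat_lit 78) (nat_lit 304) (nat_lit 0) (XT.lf (nat_lit 0) (nat_lit 12219884522) (nat_lit 380) (nat_lit 67752120580) (nat_lit 76) (nat_lit 2706341130) (nat_lit 117) (nat_lit 5) (nat_lit 122) (nat_lit 5) (nat_lit 118) (nat_lit 5) (nat_lit 465) (nat_lit 411) (nat_lit 144)) (XT.nd (nat_lit 78) (nat_lit 304) (nat_lit 0) (XT.lf (nat_lit 0) (nat_lit 28982768155) (nat_lit 380) (nat_lit 22401558266) (nat_lit 76) (nat_lit 32862642296) (nat_lit 117) (nat_lit 5) (nat_lit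 122) (nat_lit 5) (nat_lit 118) (nat_lit 5) (nat_lit 466) (nat_lit 411) (nat_lit 143)) (XT.lf (nat_lit 0) (nat_lit 24792311508) (nat_lit 304) (nat_lit 21693880874) (nat_lit 380) (nat_lit 39369328035) (nat_lit 113) (nat_lit 5) (nat_lit 117) (nat_lit 5) (nat_lit 118) (nat_lit 5) (nat_lit 467) (nat_lit 411) (nat_lit 142)))) (XT.nd (nat_lit 156) (nat_lit 76) (nat_lit 0) (XT.nd (nat_lit 78) (nat_lit 228) (nat_lit 0) (XT.lf (nat_lit 0) (nat_lit 64827942730) (nat_lit 380) (nat_lit 13733008178) (nat_lit 76) (nat_lit 8941981218) (nat_lit 113) (nat_lit 5) (nat_lit 118) (nat_lit 5) (nat_lit 114) (nat_lit 5) (nat_lit 468) (nat_lit 411) (nat_lit 141)) (XT.lf (nat_lit 0) (nat_lit 35493948129) (nat_lit 228) (nat_lit 48781338973) (nat_lit 304) (nat_lit 4907818993) (nat_lit 110) (nat_lit 5) (nat_lit 113) (nat_lit 5) (nat_lit 114) (nat_lit 5) (nat_lit 469) (nat_lit 411) (nat_lit 140))) (XT.nd (nat_lit 48594) (nat_lit 0) (nat_lit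 10412) (XT.lf (nat_lit 0) (nat_lit 13270446732) (nat_lit 304) (nat_lit 4561384881) (nat_lit 76) (nat_lit 73073809341) (nat_lit 109) (nat_lit 5) (nat_lit 113) (nat_lit 5) (nat_lit 110) (nat_lit 5) (nat_lit 470) (nat_lit 411) (nat_lit 139)) (XT.lf (nat_lit 0) (nat_lit 3269531014) (nat_lit 1292) (nat_lit 6922031104) (nat_lit 1292) (nat_lit 6922031104) (nat_lit 246) (nat_lit 3) (nat_lit 263) (nat_lit 3) (nat_lit 263) (nat_lit 5) (nat_lit 412) (nat_lit 412) (nat_lit 196))))))) (XT.nd (nat_lit 1092) (nat_lit 4104) (nat_lit 0) (XT.nd (nat_lit 546) (nat_lit 0) (nat_lit 304) (XT.nd (nat_lit 234) (nat_lit 0) (nat_lit 152) (XT.nd (nat_lit 78) (nat_lit 0) (nat_lit 76) (XT.lf (nat_lit 76) (nat_lit 2705080092) (nat_lit 0) (nat_lit 4013192000) (nat_lit 1292) (nat_lit 28019865153) (nat_lit 247) (nat_lit 5) (nat_lit 246) (nat_lit 3) (nat_lit 263) (nat_lit 5) (nat_lit 413) (nat_lit 412) (nat_lit 195)) (XT.nd (nat_lit 78) (nat_lit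 0) (nat_lit 0) (XT.lf (nat_lit 0) (nat_lit 7165389581) (nat_lit 1216) (nat_lit 15351827768) (nat_lit 1292) (nat_lit 12739324193) (nat_lit 247) (nat_lit 5) (nat_lit 263) (nat_lit 5) (nat_lit 264) (nat_lit 5) (nat_lit 414) (nat_lit 412) (nat_lit 194)) (XT.lf (nat_lit 76) (nat_lit 1824536243) (nat_lit 0) (nat_lit 5856567991) (nat_lit 1292) (nat_lit 28107739106) (nat_lit 248) (nat_lit 5) (nat_lit 247) (nat_lit 5) (nat_lit 264) (nat_lit 5) (nat_lit 415) (nat_lit 412) (nat_lit 193)))) (XT.nd (nat_lit 156) (nat_lit 0) (nat_lit 76) (XT.nd (nat_lit 78) (nat_lit 0) (nat_lit 0) (XT.lf (nat_lit 0) (nat_lit 8475477265) (nat_lit 1216) (nat_lit 16612999781) (nat_lit 1292) (nat_lit 11240742395) (nat_lit 248) (nat_lit 5) (nat_lit 264) (nat_lit 5) (nat_lit 265) (nat_lit 5) (nat_lit 416) (nat_lit 412) (nat_lit 192)) (XT.lf (nat_lit 76) (nat_lit 1223542493) (nat_lit 0) (nat_lit 8137914101) (nat_lit 1292) (nat_lit 27522317808) (nat_lit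 249) (nat_lit 5) (nat_lit 248) (nat_lit 5) (nat_lit 265) (nat_lit 5) (nat_lit 417) (nat_lit 412) (nat_lit 191))) (XT.nd (nat_lit 78) (nat_lit 0) (nat_lit 0) (XT.lf (nat_lit 0) (nat_lit 10531116824) (nat_lit 1216) (nat_lit 17606711924) (nat_lit 1292) (nat_lit 9309425027) (nat_lit 249) (nat_lit 5) (nat_lit 265) (nat_lit 5) (nat_lit 266) (nat_lit 5) (nat_lit 418) (nat_lit 412) (nat_lit 190)) (XT.lf (nat_lit 76) (nat_lit 924672101) (nat_lit 0) (nat_lit 10898793641) (nat_lit 1292) (nat_lit 26201544603) (nat_lit 250) (nat_lit 5) (nat_lit 249) (nat_lit 5) (nat_lit 266) (nat_lit 5) (nat_lit 419) (nat_lit 412) (nat_lit 189))))) (XT.nd (nat_lit 234) (nat_lit 0) (nat_lit 76) (XT.nd (nat_lit 78) (nat_lit 0) (nat_lit 0) (XT.lf (nat_lit 0) (nat_lit 13398242024) (nat_lit 1216) (nat_lit 18310787097) (nat_lit 1292) (nat_lit 6903761546) (nat_lit 250) (nat_lit 5) (nat_lit 266) (nat_lit 5) (nat_lit 267) (nat_lit 5) (nat_lit 420)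 (nat_lit 412) (nat_lit 188)) (XT.nd (nat_lit 78) (nat_lit 0) (nat_lit 76) (XT.lf (nat_lit 76) (nat_lit 951892027) (nat_lit 0) (nat_lit 14183667081) (nat_lit 1292) (nat_lit 24079187103) (nat_lit 251) (nat_lit 5) (nat_lit 250) (nat_lit 5) (nat_lit 267) (nat_lit 5) (nat_lit 421) (nat_lit 412) (nat_lit 187)) (XT.lf (nat_lit 0) (nat_lit 17147188871) (nat_lit 1216) (nat_lit 18701685512) (nat_lit 1292) (nat_lit 3979220961) (nat_lit 251) (nat_lit 5) (nat_lit 267) (nat_lit 5) (nat_lit 268) (nat_lit 5) (nat_lit 422) (nat_lit 412) (nat_lit 186)))) (XT.nd (nat_lit 156) (nat_lit 0) (nat_lit 76) (XT.nd (nat_lit 78) (nat_lit 0) (nat_lit 76) (XT.lf (nat_lit 76) (nat_lit 1330618197) (nat_lit 0) (nat_lit 18040105446) (nat_lit 1292) (nat_lit 21084575320) (nat_lit 252) (nat_lit 5) (nat_lit 251) (nat_lit 5) (nat_lit 268) (nat_lit 5) (nat_lit 423) (nat_lit 412) (nat_lit 185)) (XT.lf (nat_lit 0) (nat_lit 21852970338) (nat_lit 1216)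 (nat_lit 18754451924) (nat_lit 1292) (nat_lit 488136927) (nat_lit 252) (nat_lit 5) (nat_lit 268) (nat_lit 5) (nat_lit 269) (nat_lit 5) (nat_lit 424) (nat_lit 412) (nat_lit 184))) (XT.nd (nat_lit 78) (nat_lit 0) (nat_lit 0) (XT.lf (nat_lit 76) (nat_lit 2087771678) (nat_lit 0) (nat_lit 22519017771) (nat_lit 1292) (nat_lit 17142325281) (nat_lit 253) (nat_lit 5) (nat_lit 252) (nat_lit 5) (nat_lit 269) (nat_lit 5) (nat_lit 425) (nat_lit 412) (nat_lit 183)) (XT.lf (nat_lit 76) (nat_lit 23938484851) (nat_lit 0) (nat_lit 3692576853) (nat_lit 1292) (nat_lit 14785580711) (nat_lit 253) (nat_lit 5) (nat_lit 252) (nat_lit 5) (nat_lit 269) (nat_lit 5) (nat_lit 426) (nat_lit 412) (nat_lit 182)))))) (XT.nd (nat_lit 546) (nat_lit 2204) (nat_lit 0) (XT.nd (nat_lit 234) (nat_lit 1292) (nat_lit 0) (XT.nd (nat_lit 78) (nat_lit 1140) (nat_lit 0) (XT.lf (nat_lit 76) (nat_lit 3251835486) (nat_lit 0) (nat_lit 27674893722) (nat_lit 1292)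 (nat_lit 12172047329) (nat_lit 254) (nat_lit 5) (nat_lit 253) (nat_lit 5) (nat_lit 270) (nat_lit 5) (nat_lit 427) (nat_lit 412) (nat_lit 181)) (XT.nd (nat_lit 78) (nat_lit 1140) (nat_lit 0) (XT.lf (nat_lit 76) (nat_lit 25973998869) (nat_lit 0) (nat_lit 8568597923) (nat_lit 1292) (nat_lit 9252138591) (nat_lit 254) (nat_lit 5) (nat_lit 253) (nat_lit 5) (nat_lit 270) (nat_lit 5) (nat_lit 428) (nat_lit 412) (nat_lit 180)) (XT.lf (nat_lit 0) (nat_lit 4852911740) (nat_lit 1216) (nat_lit 33566062518) (nat_lit 1292) (nat_lit 6088038303) (nat_lit 238) (nat_lit 5) (nat_lit 254) (nat_lit 5) (nat_lit 255) (nat_lit 5) (nat_lit 429) (nat_lit 412) (nat_lit 179)))) (XT.nd (nat_lit 156) (nat_lit 608) (nat_lit 0) (XT.nd (nat_lit 78) (nat_lit 684) (nat_lit 0) (XT.lf (nat_lit 0) (nat_lit 28484327580) (nat_lit 1216) (nat_lit 14189885479) (nat_lit 1292) (nat_lit 2558568461) (nat_lit 238) (nat_lit 5) (nat_lit 254) (nat_lit 5) (nat_lit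 255) (nat_lit 5) (nat_lit 430) (nat_lit 412) (nat_lit 178)) (XT.lf (nat_lit 0) (nat_lit 1177606589) (nat_lit 684) (nat_lit 39065471287) (nat_lit 76) (nat_lit 5733280690) (nat_lit 229) (nat_lit 5) (nat_lit 238) (nat_lit 5) (nat_lit 230) (nat_lit 5) (nat_lit 431) (nat_lit 412) (nat_lit 177))) (XT.nd (nat_lit 78) (nat_lit 608) (nat_lit 0) (XT.lf (nat_lit 0) (nat_lit 5284402846) (nat_lit 684) (nat_lit 15282579734) (nat_lit 76) (nat_lit 26165202073) (nat_lit 229) (nat_lit 5) (nat_lit 238) (nat_lit 5) (nat_lit 230) (nat_lit 5) (nat_lit 432) (nat_lit 412) (nat_lit 176)) (XT.lf (nat_lit 0) (nat_lit 9395938002) (nat_lit 608) (nat_lit 207489023) (nat_lit 684) (nat_lit 37904588279) (nat_lit 221) (nat_lit 5) (nat_lit 229) (nat_lit 5) (nat_lit 230) (nat_lit 5) (nat_lit 433) (nat_lit 412) (nat_lit 175))))) (XT.nd (nat_lit 312) (nat_lit 1064) (nat_lit 0) (XT.nd (nat_lit 156) (nat_lit 532) (nat_lit 0) (XT.nd (nat_lit 78) (nat_lit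 608) (nat_lit 0) (XT.lf (nat_lit 0) (nat_lit 14406190059) (nat_lit 684) (nat_lit 13376751133) (nat_lit 76) (nat_lit 20513555127) (nat_lit 221) (nat_lit 5) (nat_lit 230) (nat_lit 5) (nat_lit 222) (nat_lit 5) (nat_lit 434) (nat_lit 412) (nat_lit 174)) (XT.lf (nat_lit 0) (nat_lit 12338141511) (nat_lit 608) (nat_lit 7134318975) (nat_lit 684) (nat_lit 29632589017) (nat_lit 213) (nat_lit 5) (nat_lit 221) (nat_lit 5) (nat_lit 222) (nat_lit 5) (nat_lit 435) (nat_lit 412) (nat_lit 173))) (XT.nd (nat_lit 78) (nat_lit 532) (nat_lit 0) (XT.lf (nat_lit 0) (nat_lit 24961790780) (nat_lit 684) (nat_lit 10973541101) (nat_lit 76) (nat_lit 13994395709) (nat_lit 213) (nat_lit 5) (nat_lit 222) (nat_lit 5) (nat_lit 214) (nat_lit 5) (nat_lit 436) (nat_lit 412) (nat_lit 172)) (XT.lf (nat_lit 0) (nat_lit 15830714304) (nat_lit 532) (nat_lit 15006726180) (nat_lit 608) (nat_lit 19935056798) (nat_lit 206) (nat_lit 5) (nat_lit 213) (nat_lit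 5) (nat_lit 214) (nat_lit 5) (nat_lit 437) (nat_lit 412) (nat_lit 171)))) (XT.nd (nat_lit 156) (nat_lit 532) (nat_lit 0) (XT.nd (nat_lit 78) (nat_lit 532) (nat_lit 0) (XT.lf (nat_lit 0) (nat_lit 37063078848) (nat_lit 608) (nat_lit 8038451634) (nat_lit 76) (nat_lit 6533808442) (nat_lit 206) (nat_lit 5) (nat_lit 214) (nat_lit 5) (nat_lit 207) (nat_lit 5) (nat_lit 438) (nat_lit 412) (nat_lit 170)) (XT.lf (nat_lit 0) (nat_lit 19910751116) (nat_lit 532) (nat_lit 23903595182) (nat_lit 608) (nat_lit 8699554139) (nat_lit 199) (nat_lit 5) (nat_lit 206) (nat_lit 5) (nat_lit 207) (nat_lit 5) (nat_lit 439) (nat_lit 412) (nat_lit 169))) (XT.nd (nat_lit 78) (nat_lit 532) (nat_lit 0) (XT.lf (nat_lit 0) (nat_lit 48862044313) (nat_lit 532) (nat_lit 1986185518) (nat_lit 608) (nat_lit 2568187032) (nat_lit 199) (nat_lit 5) (nat_lit 206) (nat_lit 5) (nat_lit 207) (nat_lit 5) (nat_lit 440) (nat_lit 412) (nat_lit 168)) (XT.lf (nat_lit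 0) (nat_lit 4111776301) (nat_lit 532) (nat_lit 29756154479) (nat_lit 76) (nat_lit 20463864547) (nat_lit 192) (nat_lit 5) (nat_lit 199) (nat_lit 5) (nat_lit 193) (nat_lit 5) (nat_lit 441) (nat_lit 412) (nat_lit 167))))))))
noncomputable def xc236 : XT := (XT.nd (nat_lit 50856) (nat_lit 0) (nat_lit 6536) (XT.nd (nat_lit 1092) (nat_lit 2432) (nat_lit 0) (XT.nd (nat_lit 546) (nat_lit 1672) (nat_lit 0) (XT.nd (nat_lit 234) (nat_lit 912) (nat_lit 0) (XT.nd (nat_lit 78) (nat_lit 988) (nat_lit 0) (XT.lf (nat_lit 0) (nat_lit 11005577162) (nat_lit 532) (nat_lit 647062369) (nat_lit 76) (nat_lit 43619281463) (nat_lit 192) (nat_lit 5) (nat_lit 199) (nat_lit 5) (nat_lit 193) (nat_lit 5) (nat_lit 442) (nat_lit 412) (nat_lit 166)) (XT.nd (nat_lit 78) (nat_lit 456) (nat_lit 0) (XT.lf (nat_lit 0) (nat_lit 18503545833) (nat_lit 608) (nat_lit 26424470745) (nat_lit 76) (nat_lit 11300313601) (nat_lit 185) (nat_lit 5) (nat_lit 193)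 (nat_lit 5) (nat_lit 186) (nat_lit 5) (nat_lit 443) (nat_lit 412) (nat_lit 165)) (XT.lf (nat_lit 0) (nat_lit 3928399732) (nat_lit 456) (nat_lit 22456781771) (nat_lit 532) (nat_lit 30823488652) (nat_lit 179) (nat_lit 5) (nat_lit 185) (nat_lit 5) (nat_lit 186) (nat_lit 5) (nat_lit 444) (nat_lit 412) (nat_lit 164)))) (XT.nd (nat_lit 156) (nat_lit 456) (nat_lit 0) (XT.nd (nat_lit 78) (nat_lit 456) (nat_lit 0) (XT.lf (nat_lit 0) (nat_lit 34778373750) (nat_lit 532) (nat_lit 22487318924) (nat_lit 76) (nat_lit 944474772) (nat_lit 179) (nat_lit 5) (nat_lit 186) (nat_lit 5) (nat_lit 180) (nat_lit 5) (nat_lit 445) (nat_lit 412) (nat_lit 163)) (XT.lf (nat_lit 0) (nat_lit 9185172111) (nat_lit 456) (nat_lit 34547867406) (nat_lit 532) (nat_lit 15499380140) (nat_lit 173) (nat_lit 5) (nat_lit 179) (nat_lit 5) (nat_lit 180) (nat_lit 5) (nat_lit 446) (nat_lit 412) (nat_lit 162))) (XT.nd (nat_lit 78) (nat_lit 456) (nat_lit 0) (XT.lf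 (nat_lit 0) (nat_lit 42267676622) (nat_lit 456) (nat_lit 10914803457) (nat_lit 532) (nat_lit 7096075632) (nat_lit 173) (nat_lit 5) (nat_lit 179) (nat_lit 5) (nat_lit 180) (nat_lit 5) (nat_lit 447) (nat_lit 412) (nat_lit 161)) (XT.lf (nat_lit 0) (nat_lit 1805415073) (nat_lit 456) (nat_lit 46213503883) (nat_lit 76) (nat_lit 13328412065) (nat_lit 167) (nat_lit 5) (nat_lit 173) (nat_lit 5) (nat_lit 168) (nat_lit 5) (nat_lit 448) (nat_lit 412) (nat_lit 160))))) (XT.nd (nat_lit 234) (nat_lit 1216) (nat_lit 0) (XT.nd (nat_lit 78) (nat_lit 456) (nat_lit 0) (XT.lf (nat_lit 0) (nat_lit 11122158603) (nat_lit 456) (nat_lit 12981889517) (nat_lit 76) (nat_lit 38333289054) (nat_lit 167) (nat_lit 5) (nat_lit 173) (nat_lit 5) (nat_lit 168) (nat_lit 5) (nat_lit 449) (nat_lit 412) (nat_lit 159)) (XT.nd (nat_lit 78) (nat_lit 0) (nat_lit 0) (XT.lf (nat_lit 0) (nat_lit 20932948730) (nat_lit 532) (nat_lit 41892554886) (nat_lit 76)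 (nat_lit 728103855) (nat_lit 161) (nat_lit 5) (nat_lit 168) (nat_lit 5) (nat_lit 162) (nat_lit 5) (nat_lit 450) (nat_lit 412) (nat_lit 158)) (XT.lf (nat_lit 0) (nat_lit 31408235336) (nat_lit 532) (nat_lit 7331096441) (nat_lit 76) (nat_lit 25952929193) (nat_lit 161) (nat_lit 5) (nat_lit 168) (nat_lit 5) (nat_lit 162) (nat_lit 5) (nat_lit 451) (nat_lit 412) (nat_lit 157)))) (XT.nd (nat_lit 156) (nat_lit 836) (nat_lit 0) (XT.nd (nat_lit 78) (nat_lit 0) (nat_lit 0) (XT.lf (nat_lit 0) (nat_lit 28828679068) (nat_lit 380) (nat_lit 13645374999) (nat_lit 456) (nat_lit 23382732072) (nat_lit 156) (nat_lit 5) (nat_lit 161) (nat_lit 5) (nat_lit 162) (nat_lit 5) (nat_lit 452) (nat_lit 412) (nat_lit 156)) (XT.lf (nat_lit 0) (nat_lit 54063064070) (nat_lit 456) (nat_lit 949608735) (nat_lit 76) (nat_lit 12037838019) (nat_lit 156) (nat_lit 5) (nat_lit 162) (nat_lit 5) (nat_lit 157) (nat_lit 5) (nat_lit 453) (nat_lit 412) (nat_lit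 155))) (XT.nd (nat_lit 78) (nat_lit 456) (nat_lit 0) (XT.lf (nat_lit 0) (nat_lit 36793048074) (nat_lit 380) (nat_lit 29694667294) (nat_lit 456) (nat_lit 1777693007) (nat_lit 151) (nat_lit 5) (nat_lit 156) (nat_lit 5) (nat_lit 157) (nat_lit 5) (nat_lit 454) (nat_lit 412) (nat_lit 154)) (XT.lf (nat_lit 0) (nat_lit 6196849481) (nat_lit 380) (nat_lit 3449336504) (nat_lit 456) (nat_lit 59865696675) (nat_lit 145) (nat_lit 5) (nat_lit 150) (nat_lit 5) (nat_lit 151) (nat_lit 5) (nat_lit 455) (nat_lit 412) (nat_lit 153)))))) (XT.nd (nat_lit 546) (nat_lit 1292) (nat_lit 0) (XT.nd (nat_lit 234) (nat_lit 760) (nat_lit 0) (XT.nd (nat_lit 78) (nat_lit 380) (nat_lit 0) (XT.lf (nat_lit 0) (nat_lit 21923911956) (nat_lit 456) (nat_lit 25393449457) (nat_lit 76) (nat_lit 23461456152) (nat_lit 145) (nat_lit 5) (nat_lit 151) (nat_lit 5) (nat_lit 146) (nat_lit 5) (nat_lit 456) (nat_lit 412) (nat_lit 152)) (XT.nd (nat_lit 78) (nat_lit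 0) (nat_lit 0) (XT.lf (nat_lit 0) (nat_lit 13901861166) (nat_lit 380) (nat_lit 20835123768) (nat_lit 456) (nat_lit 37341765350) (nat_lit 140) (nat_lit 5) (nat_lit 145) (nat_lit 5) (nat_lit 146) (nat_lit 5) (nat_lit 457) (nat_lit 412) (nat_lit 151)) (XT.lf (nat_lit 0) (nat_lit 48254573435) (nat_lit 456) (nat_lit 18578929801) (nat_lit 76) (nat_lit 6574574271) (nat_lit 140) (nat_lit 5) (nat_lit 146) (nat_lit 5) (nat_lit 141) (nat_lit 5) (nat_lit 458) (nat_lit 412) (nat_lit 150)))) (XT.nd (nat_lit 156) (nat_lit 380) (nat_lit 0) (XT.nd (nat_lit 78) (nat_lit 76) (nat_lit 0) (XT.lf (nat_lit 0) (nat_lit 22437492754) (nat_lit 304) (nat_lit 40161430245) (nat_lit 380) (nat_lit 12165724758) (nat_lit 136) (nat_lit 5) (nat_lit 140) (nat_lit 5) (nat_lit 141) (nat_lit 5) (nat_lit 459) (nat_lit 412) (nat_lit 149)) (XT.lf (nat_lit 0) (nat_lit 1376778339) (nat_lit 380) (nat_lit 11105562230) (nat_lit 76) (nat_lit 63673563278) (nat_lit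 135) (nat_lit 5) (nat_lit 140) (nat_lit 5) (nat_lit 136) (nat_lit 5) (nat_lit 460) (nat_lit 412) (nat_lit 148))) (XT.nd (nat_lit 78) (nat_lit 0) (nat_lit 0) (XT.lf (nat_lit 0) (nat_lit 15544797798) (nat_lit 456) (nat_lit 45881613900) (nat_lit 76) (nat_lit 16144959727) (nat_lit 130) (nat_lit 5) (nat_lit 136) (nat_lit 5) (nat_lit 131) (nat_lit 5) (nat_lit 461) (nat_lit 412) (nat_lit 147)) (XT.lf (nat_lit 0) (nat_lit 30373996460) (nat_lit 456) (nat_lit 3155053524) (nat_lit 76) (nat_lit 45493169077) (nat_lit 130) (nat_lit 5) (nat_lit 136) (nat_lit 5) (nat_lit 131) (nat_lit 5) (nat_lit 462) (nat_lit 412) (nat_lit 146))))) (XT.nd (nat_lit 234) (nat_lit 684) (nat_lit 0) (XT.nd (nat_lit 78) (nat_lit 304) (nat_lit 0) (XT.lf (nat_lit 0) (nat_lit 41665367414) (nat_lit 304) (nat_lit 4382533507) (nat_lit 380) (nat_lit 34456696495) (nat_lit 126) (nat_lit 5) (nat_lit 130) (nat_lit 5) (nat_lit 131) (nat_lit 5) (nat_lit 463)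 (nat_lit 412) (nat_lit 145)) (XT.nd (nat_lit 78) (nat_lit 0) (nat_lit 0) (XT.lf (nat_lit 0) (nat_lit 5728618345) (nat_lit 304) (nat_lit 56796422823) (nat_lit 380) (nat_lit 19496415572) (nat_lit 122) (nat_lit 5) (nat_lit 126) (nat_lit 5) (nat_lit 127) (nat_lit 5) (nat_lit 464) (nat_lit 412) (nat_lit 144)) (XT.lf (nat_lit 0) (nat_lit 52384437378) (nat_lit 304) (nat_lit 27546559207) (nat_lit 380) (nat_lit 3639790402) (nat_lit 122) (nat_lit 5) (nat_lit 126) (nat_lit 5) (nat_lit 127) (nat_lit 5) (nat_lit 465) (nat_lit 412) (nat_lit 143)))) (XT.nd (nat_lit 156) (nat_lit 304) (nat_lit 0) (XT.nd (nat_lit 78) (nat_lit 0) (nat_lit 0) (XT.lf (nat_lit 0) (nat_lit 12620221055) (nat_lit 380) (nat_lit 69734097752) (nat_lit 76) (nat_lit 2803357311) (nat_lit 117) (nat_lit 5) (nat_lit 122) (nat_lit 5) (nat_lit 118) (nat_lit 5) (nat_lit 466) (nat_lit 412) (nat_lit 142)) (XT.lf (nat_lit 0) (nat_lit 29885008479) (nat_lit 380) (nat_lit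 23024491959) (nat_lit 76) (nat_lit 33863886563) (nat_lit 117) (nat_lit 5) (nat_lit 122) (nat_lit 5) (nat_lit 118) (nat_lit 5) (nat_lit 467) (nat_lit 412) (nat_lit 141))) (XT.nd (nat_lit 78) (nat_lit 0) (nat_lit 0) (XT.lf (nat_lit 0) (nat_lit 25584712408) (nat_lit 304) (nat_lit 22328336406) (nat_lit 380) (nat_lit 40517161272) (nat_lit 113) (nat_lit 5) (nat_lit 117) (nat_lit 5) (nat_lit 118) (nat_lit 5) (nat_lit 468) (nat_lit 412) (nat_lit 140)) (XT.lf (nat_lit 0) (nat_lit 66804264440) (nat_lit 380) (nat_lit 14096988494) (nat_lit 76) (nat_lit 9225815057) (nat_lit 113) (nat_lit 5) (nat_lit 118) (nat_lit 5) (nat_lit 114) (nat_lit 5) (nat_lit 469) (nat_lit 412) (nat_lit 139))))))) (XT.nd (nat_lit 1092) (nat_lit 3572) (nat_lit 0) (XT.nd (nat_lit 546) (nat_lit 0) (nat_lit 228) (XT.nd (nat_lit 234) (nat_lit 0) (nat_lit 76) (XT.nd (nat_lit 78) (nat_lit 0) (nat_lit 0) (XT.lf (nat_lit 0) (nat_lit 3422208333) (nat_lit 1292)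 (nat_lit 7101565947) (nat_lit 1292) (nat_lit 7101565947) (nat_lit 246) (nat_lit 3) (nat_lit 263) (nat_lit 3) (nat_lit 263) (nat_lit 5) (nat_lit 413) (nat_lit 413) (nat_lit 194)) (XT.nd (nat_lit 78) (nat_lit 0) (nat_lit 76) (XT.lf (nat_lit 76) (nat_lit 2841933183) (nat_lit 0) (nat_lit 4184425196) (nat_lit 1292) (nat_lit 28750682081) (nat_lit 247) (nat_lit 5) (nat_lit 246) (nat_lit 3) (nat_lit 263) (nat_lit 5) (nat_lit 414) (nat_lit 413) (nat_lit 193)) (XT.lf (nat_lit 0) (nat_lit 7483311894) (nat_lit 1216) (nat_lit 15754683309) (nat_lit 1292) (nat_lit 13073110312) (nat_lit 247) (nat_lit 5) (nat_lit 263) (nat_lit 5) (nat_lit 264) (nat_lit 5) (nat_lit 415) (nat_lit 413) (nat_lit 192)))) (XT.nd (nat_lit 156) (nat_lit 0) (nat_lit 76) (XT.nd (nat_lit 78) (nat_lit 0) (nat_lit 76) (XT.lf (nat_lit 76) (nat_lit 1936405943) (nat_lit 0) (nat_lit 6075642395) (nat_lit 1292) (nat_lit 28847402785) (nat_lit 248) (nat_lit 5) (nat_lit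 247) (nat_lit 5) (nat_lit 264) (nat_lit 5) (nat_lit 416) (nat_lit 413) (nat_lit 191)) (XT.lf (nat_lit 0) (nat_lit 8826920230) (nat_lit 1216) (nat_lit 17052546958) (nat_lit 1292) (nat_lit 11536672517) (nat_lit 248) (nat_lit 5) (nat_lit 264) (nat_lit 5) (nat_lit 265) (nat_lit 5) (nat_lit 417) (nat_lit 413) (nat_lit 190))) (XT.nd (nat_lit 78) (nat_lit 0) (nat_lit 76) (XT.lf (nat_lit 76) (nat_lit 1318514694) (nat_lit 0) (nat_lit 8418693888) (nat_lit 1292) (nat_lit 28250192038) (nat_lit 249) (nat_lit 5) (nat_lit 248) (nat_lit 5) (nat_lit 265) (nat_lit 5) (nat_lit 418) (nat_lit 413) (nat_lit 189)) (XT.lf (nat_lit 0) (nat_lit 10938852329) (nat_lit 1216) (nat_lit 18075199524) (nat_lit 1292) (nat_lit 9553826867) (nat_lit 249) (nat_lit 5) (nat_lit 265) (nat_lit 5) (nat_lit 266) (nat_lit 5) (nat_lit 419) (nat_lit 413) (nat_lit 188))))) (XT.nd (nat_lit 234) (nat_lit 0) (nat_lit 152) (XT.nd (nat_lit 78) (nat_lit 0) (nat_lit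 76) (XT.lf (nat_lit 76) (nat_lit 1011540592) (nat_lit 0) (nat_lit 11256325655) (nat_lit 1292) (nat_lit 26895166028) (nat_lit 250) (nat_lit 5) (nat_lit 249) (nat_lit 5) (nat_lit 266) (nat_lit 5) (nat_lit 420) (nat_lit 413) (nat_lit 187)) (XT.nd (nat_lit 78) (nat_lit 0) (nat_lit 0) (XT.lf (nat_lit 0) (nat_lit 13886988015) (nat_lit 1216) (nat_lit 18799770372) (nat_lit 1292) (nat_lit 7081775646) (nat_lit 250) (nat_lit 5) (nat_lit 266) (nat_lit 5) (nat_lit 267) (nat_lit 5) (nat_lit 421) (nat_lit 413) (nat_lit 186)) (XT.lf (nat_lit 76) (nat_lit 1040197553) (nat_lit 0) (nat_lit 14634273282) (nat_lit 1292) (nat_lit 24714137081) (nat_lit 251) (nat_lit 5) (nat_lit 250) (nat_lit 5) (nat_lit 267) (nat_lit 5) (nat_lit 422) (nat_lit 413) (nat_lit 185)))) (XT.nd (nat_lit 156) (nat_lit 0) (nat_lit 76) (XT.nd (nat_lit 78) (nat_lit 0) (nat_lit 0) (XT.lf (nat_lit 0) (nat_lit 17743744065) (nat_lit 1216) (nat_lit 19201987837) (nat_lit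 1292) (nat_lit 4074707812) (nat_lit 251) (nat_lit 5) (nat_lit 267) (nat_lit 5) (nat_lit 268) (nat_lit 5) (nat_lit 423) (nat_lit 413) (nat_lit 184)) (XT.lf (nat_lit 76) (nat_lit 1430689411) (nat_lit 0) (nat_lit 18601481279) (nat_lit 1292) (nat_lit 21634344177) (nat_lit 252) (nat_lit 5) (nat_lit 251) (nat_lit 5) (nat_lit 268) (nat_lit 5) (nat_lit 424) (nat_lit 413) (nat_lit 183))) (XT.nd (nat_lit 78) (nat_lit 0) (nat_lit 0) (XT.lf (nat_lit 0) (nat_lit 22586356950) (nat_lit 1216) (nat_lit 19256124661) (nat_lit 1292) (nat_lit 483578095) (nat_lit 252) (nat_lit 5) (nat_lit 268) (nat_lit 5) (nat_lit 269) (nat_lit 5) (nat_lit 425) (nat_lit 413) (nat_lit 182)) (XT.lf (nat_lit 76) (nat_lit 2210767993) (nat_lit 0) (nat_lit 23210336941) (nat_lit 1292) (nat_lit 17578168490) (nat_lit 253) (nat_lit 5) (nat_lit 252) (nat_lit 5) (nat_lit 269) (nat_lit 5) (nat_lit 426) (nat_lit 413) (nat_lit 181)))))) (XT.nd (nat_lit 546) (nat_lit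 2280) (nat_lit 0) (XT.nd (nat_lit 234) (nat_lit 1748) (nat_lit 0) (XT.nd (nat_lit 78) (nat_lit 0) (nat_lit 76) (XT.lf (nat_lit 76) (nat_lit 24715244412) (nat_lit 0) (nat_lit 3818644098) (nat_lit 1292) (nat_lit 15153005852) (nat_lit 253) (nat_lit 5) (nat_lit 252) (nat_lit 5) (nat_lit 269) (nat_lit 5) (nat_lit 427) (nat_lit 413) (nat_lit 180)) (XT.nd (nat_lit 78) (nat_lit 0) (nat_lit 0) (XT.lf (nat_lit 76) (nat_lit 3409791836) (nat_lit 0) (nat_lit 28516919841) (nat_lit 1292) (nat_lit 12462833149) (nat_lit 254) (nat_lit 5) (nat_lit 253) (nat_lit 5) (nat_lit 270) (nat_lit 5) (nat_lit 428) (nat_lit 413) (nat_lit 179)) (XT.lf (nat_lit 76) (nat_lit 26811860860) (nat_lit 0) (nat_lit 8837092082) (nat_lit 1292) (nat_lit 9457493427) (nat_lit 254) (nat_lit 5) (nat_lit 253) (nat_lit 5) (nat_lit 270) (nat_lit 5) (nat_lit 429) (nat_lit 413) (nat_lit 178)))) (XT.nd (nat_lit 156) (nat_lit 684) (nat_lit 0) (XT.nd (nat_lit 78)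 (nat_lit 0) (nat_lit 0) (XT.lf (nat_lit 0) (nat_lit 5058785232) (nat_lit 1216) (nat_lit 34581268162) (nat_lit 1292) (nat_lit 6200086355) (nat_lit 238) (nat_lit 5) (nat_lit 254) (nat_lit 5) (nat_lit 255) (nat_lit 5) (nat_lit 430) (nat_lit 413) (nat_lit 177)) (XT.lf (nat_lit 0) (nat_lit 29397387640) (nat_lit 1216) (nat_lit 14623566285) (nat_lit 1292) (nat_lit 2566788527) (nat_lit 238) (nat_lit 5) (nat_lit 254) (nat_lit 5) (nat_lit 255) (nat_lit 5) (nat_lit 431) (nat_lit 413) (nat_lit 176))) (XT.nd (nat_lit 78) (nat_lit 0) (nat_lit 0) (XT.lf (nat_lit 0) (nat_lit 1278684658) (nat_lit 684) (nat_lit 40176066261) (nat_lit 76) (nat_lit 5898900384) (nat_lit 229) (nat_lit 5) (nat_lit 238) (nat_lit 5) (nat_lit 230) (nat_lit 5) (nat_lit 432) (nat_lit 413) (nat_lit 175)) (XT.lf (nat_lit 0) (nat_lit 5506769758) (nat_lit 684) (nat_lit 15681475412) (nat_lit 76) (nat_lit 26943965197) (nat_lit 229) (nat_lit 5) (nat_lit 238) (nat_lit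 5) (nat_lit 230) (nat_lit 5) (nat_lit 433) (nat_lit 413) (nat_lit 174))))) (XT.nd (nat_lit 312) (nat_lit 1064) (nat_lit 0) (XT.nd (nat_lit 156) (nat_lit 608) (nat_lit 0) (XT.nd (nat_lit 78) (nat_lit 0) (nat_lit 0) (XT.lf (nat_lit 0) (nat_lit 9736813721) (nat_lit 608) (nat_lit 217258795) (nat_lit 684) (nat_lit 38977282907) (nat_lit 221) (nat_lit 5) (nat_lit 229) (nat_lit 5) (nat_lit 230) (nat_lit 5) (nat_lit 434) (nat_lit 413) (nat_lit 173)) (XT.lf (nat_lit 0) (nat_lit 14899063724) (nat_lit 684) (nat_lit 13718896389) (nat_lit 76) (nat_lit 21125587098) (nat_lit 221) (nat_lit 5) (nat_lit 230) (nat_lit 5) (nat_lit 222) (nat_lit 5) (nat_lit 435) (nat_lit 413) (nat_lit 172))) (XT.nd (nat_lit 78) (nat_lit 0) (nat_lit 0) (XT.lf (nat_lit 0) (nat_lit 12766863062) (nat_lit 608) (nat_lit 7349254673) (nat_lit 684) (nat_lit 30460276072) (nat_lit 213) (nat_lit 5) (nat_lit 221) (nat_lit 5) (nat_lit 222) (nat_lit 5) (nat_lit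 436) (nat_lit 413) (nat_lit 171)) (XT.lf (nat_lit 0) (nat_lit 25768386954) (nat_lit 684) (nat_lit 11244113162) (nat_lit 76) (nat_lit 14413365011) (nat_lit 213) (nat_lit 5) (nat_lit 222) (nat_lit 5) (nat_lit 214) (nat_lit 5) (nat_lit 437) (nat_lit 413) (nat_lit 170)))) (XT.nd (nat_lit 156) (nat_lit 532) (nat_lit 0) (XT.nd (nat_lit 78) (nat_lit 0) (nat_lit 0) (XT.lf (nat_lit 0) (nat_lit 16363695060) (nat_lit 532) (nat_lit 15455487372) (nat_lit 608) (nat_lit 20474769831) (nat_lit 206) (nat_lit 5) (nat_lit 213) (nat_lit 5) (nat_lit 214) (nat_lit 5) (nat_lit 438) (nat_lit 413) (nat_lit 169)) (XT.lf (nat_lit 0) (nat_lit 38229954302) (nat_lit 608) (nat_lit 8221580505) (nat_lit 76) (nat_lit 6731194038) (nat_lit 206) (nat_lit 5) (nat_lit 214) (nat_lit 5) (nat_lit 207) (nat_lit 5) (nat_lit 439) (nat_lit 413) (nat_lit 168))) (XT.nd (nat_lit 78) (nat_lit 0) (nat_lit 0) (XT.lf (nat_lit 0) (nat_lit 20565529457) (nat_lit 532)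 (nat_lit 24617181169) (nat_lit 608) (nat_lit 8904968657) (nat_lit 199) (nat_lit 5) (nat_lit 206) (nat_lit 5) (nat_lit 207) (nat_lit 5) (nat_lit 440) (nat_lit 413) (nat_lit 167)) (XT.lf (nat_lit 0) (nat_lit 50383687980) (nat_lit 532) (nat_lit 2042351794) (nat_lit 608) (nat_lit 2591279141) (nat_lit 199) (nat_lit 5) (nat_lit 206) (nat_lit 5) (nat_lit 207) (nat_lit 5) (nat_lit 441) (nat_lit 413) (nat_lit 166))))))))
noncomputable def xc237 : XT := (XT.nd (nat_lit 50934) (nat_lit 0) (nat_lit 6536) (XT.nd (nat_lit 1092) (nat_lit 2888) (nat_lit 0) (XT.nd (nat_lit 546) (nat_lit 1672) (nat_lit 0) (XT.nd (nat_lit 234) (nat_lit 912) (nat_lit 0) (XT.nd (nat_lit 78) (nat_lit 532) (nat_lit 0) (XT.lf (nat_lit 0) (nat_lit 4287072882) (nat_lit 532) (nat_lit 30591009133) (nat_lit 76) (nat_lit 21082090434) (nat_lit 192) (nat_lit 5) (nat_lit 199) (nat_lit 5) (nat_lit 193) (nat_lit 5) (nat_lit 442) (nat_lit 413) (nat_lit 165)) (XT.nd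 (nat_lit 78) (nat_lit 532) (nat_lit 0) (XT.lf (nat_lit 0) (nat_lit 11386174858) (nat_lit 532) (nat_lit 610328628) (nat_lit 76) (nat_lit 44932044324) (nat_lit 192) (nat_lit 5) (nat_lit 199) (nat_lit 5) (nat_lit 193) (nat_lit 5) (nat_lit 443) (nat_lit 413) (nat_lit 164)) (XT.lf (nat_lit 0) (nat_lit 19108206786) (nat_lit 608) (nat_lit 27160166073) (nat_lit 76) (nat_lit 11645303207) (nat_lit 185) (nat_lit 5) (nat_lit 193) (nat_lit 5) (nat_lit 186) (nat_lit 5) (nat_lit 444) (nat_lit 413) (nat_lit 163)))) (XT.nd (nat_lit 156) (nat_lit 456) (nat_lit 0) (XT.nd (nat_lit 78) (nat_lit 0) (nat_lit 0) (XT.lf (nat_lit 0) (nat_lit 4102731315) (nat_lit 456) (nat_lit 23122659790) (nat_lit 532) (nat_lit 31698062654) (nat_lit 179) (nat_lit 5) (nat_lit 185) (nat_lit 5) (nat_lit 186) (nat_lit 5) (nat_lit 445) (nat_lit 413) (nat_lit 162)) (XT.lf (nat_lit 0) (nat_lit 35869035041) (nat_lit 532) (nat_lit 23105743474) (nat_lit 76) (nat_lit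 980258269) (nat_lit 179) (nat_lit 5) (nat_lit 186) (nat_lit 5) (nat_lit 180) (nat_lit 5) (nat_lit 446) (nat_lit 413) (nat_lit 161))) (XT.nd (nat_lit 78) (nat_lit 0) (nat_lit 0) (XT.lf (nat_lit 0) (nat_lit 9516371360) (nat_lit 456) (nat_lit 35575126342) (nat_lit 532) (nat_lit 15916484628) (nat_lit 173) (nat_lit 5) (nat_lit 179) (nat_lit 5) (nat_lit 180) (nat_lit 5) (nat_lit 447) (nat_lit 413) (nat_lit 160)) (XT.lf (nat_lit 0) (nat_lit 43589730305) (nat_lit 456) (nat_lit 11233337769) (nat_lit 532) (nat_lit 7262475459) (nat_lit 173) (nat_lit 5) (nat_lit 179) (nat_lit 5) (nat_lit 180) (nat_lit 5) (nat_lit 448) (nat_lit 413) (nat_lit 159))))) (XT.nd (nat_lit 234) (nat_lit 760) (nat_lit 0) (XT.nd (nat_lit 78) (nat_lit 456) (nat_lit 0) (XT.lf (nat_lit 0) (nat_lit 1904441105) (nat_lit 456) (nat_lit 47544237203) (nat_lit 76) (nat_lit 13737712181) (nat_lit 167) (nat_lit 5) (nat_lit 173) (nat_lit 5) (nat_lit 168) (nat_lit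 5) (nat_lit 449) (nat_lit 413) (nat_lit 158)) (XT.nd (nat_lit 78) (nat_lit 456) (nat_lit 0) (XT.lf (nat_lit 0) (nat_lit 11499380235) (nat_lit 456) (nat_lit 13317295914) (nat_lit 76) (nat_lit 39492460302) (nat_lit 167) (nat_lit 5) (nat_lit 173) (nat_lit 5) (nat_lit 168) (nat_lit 5) (nat_lit 450) (nat_lit 413) (nat_lit 157)) (XT.lf (nat_lit 0) (nat_lit 21603842914) (nat_lit 532) (nat_lit 43094616372) (nat_lit 76) (nat_lit 760455516) (nat_lit 161) (nat_lit 5) (nat_lit 168) (nat_lit 5) (nat_lit 162) (nat_lit 5) (nat_lit 451) (nat_lit 413) (nat_lit 156)))) (XT.nd (nat_lit 156) (nat_lit 380) (nat_lit 0) (XT.nd (nat_lit 78) (nat_lit 380) (nat_lit 0) (XT.lf (nat_lit 0) (nat_lit 32392138437) (nat_lit 532) (nat_lit 7497907820) (nat_lit 76) (nat_lit 26741719540) (nat_lit 161) (nat_lit 5) (nat_lit 168) (nat_lit 5) (nat_lit 162) (nat_lit 5) (nat_lit 452) (nat_lit 413) (nat_lit 155)) (XT.lf (nat_lit 0) (nat_lit 29746140156)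 (nat_lit 380) (nat_lit 14043083922) (nat_lit 456) (nat_lit 24042024261) (nat_lit 156) (nat_lit 5) (nat_lit 161) (nat_lit 5) (nat_lit 162) (nat_lit 5) (nat_lit 453) (nat_lit 413) (nat_lit 154))) (XT.nd (nat_lit 78) (nat_lit 380) (nat_lit 0) (XT.lf (nat_lit 0) (nat_lit 55724820456) (nat_lit 456) (nat_lit 925931860) (nat_lit 76) (nat_lit 12410065342) (nat_lit 156) (nat_lit 5) (nat_lit 162) (nat_lit 5) (nat_lit 157) (nat_lit 5) (nat_lit 454) (nat_lit 413) (nat_lit 153)) (XT.lf (nat_lit 0) (nat_lit 37948493230) (nat_lit 380) (nat_lit 30573053489) (nat_lit 456) (nat_lit 1790635720) (nat_lit 151) (nat_lit 5) (nat_lit 156) (nat_lit 5) (nat_lit 157) (nat_lit 5) (nat_lit 455) (nat_lit 413) (nat_lit 152)))))) (XT.nd (nat_lit 546) (nat_lit 1292) (nat_lit 0) (XT.nd (nat_lit 234) (nat_lit 760) (nat_lit 0) (XT.nd (nat_lit 78) (nat_lit 380) (nat_lit 0) (XT.lf (nat_lit 0) (nat_lit 6434694380) (nat_lit 380) (nat_lit 3539823022)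 (nat_lit 456) (nat_lit 61621541872) (nat_lit 145) (nat_lit 5) (nat_lit 150) (nat_lit 5) (nat_lit 151) (nat_lit 5) (nat_lit 456) (nat_lit 413) (nat_lit 151)) (XT.nd (nat_lit 78) (nat_lit 380) (nat_lit 0) (XT.lf (nat_lit 0) (nat_lit 22619562071) (nat_lit 456) (nat_lit 26103802087) (nat_lit 76) (nat_lit 24177668794) (nat_lit 145) (nat_lit 5) (nat_lit 151) (nat_lit 5) (nat_lit 146) (nat_lit 5) (nat_lit 457) (nat_lit 413) (nat_lit 150)) (XT.lf (nat_lit 0) (nat_lit 14369863434) (nat_lit 380) (nat_lit 21446548696) (nat_lit 456) (nat_lit 38423570303) (nat_lit 140) (nat_lit 5) (nat_lit 145) (nat_lit 5) (nat_lit 146) (nat_lit 5) (nat_lit 458) (nat_lit 413) (nat_lit 149)))) (XT.nd (nat_lit 156) (nat_lit 456) (nat_lit 0) (XT.nd (nat_lit 78) (nat_lit 304) (nat_lit 0) (XT.lf (nat_lit 0) (nat_lit 49738568556) (nat_lit 456) (nat_lit 19085864893) (nat_lit 76) (nat_lit 6784785129) (nat_lit 140) (nat_lit 5) (nat_lit 146) (nat_lit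 5) (nat_lit 141) (nat_lit 5) (nat_lit 459) (nat_lit 413) (nat_lit 148)) (XT.lf (nat_lit 0) (nat_lit 23160555899) (nat_lit 304) (nat_lit 41352113778) (nat_lit 380) (nat_lit 12493833934) (nat_lit 136) (nat_lit 5) (nat_lit 140) (nat_lit 5) (nat_lit 141) (nat_lit 5) (nat_lit 460) (nat_lit 413) (nat_lit 147))) (XT.nd (nat_lit 78) (nat_lit 380) (nat_lit 0) (XT.lf (nat_lit 0) (nat_lit 1453172218) (nat_lit 380) (nat_lit 11389537256) (nat_lit 76) (nat_lit 65596809148) (nat_lit 135) (nat_lit 5) (nat_lit 140) (nat_lit 5) (nat_lit 136) (nat_lit 5) (nat_lit 461) (nat_lit 413) (nat_lit 146)) (XT.lf (nat_lit 0) (nat_lit 16045814672) (nat_lit 456) (nat_lit 47208443543) (nat_lit 76) (nat_lit 16643204821) (nat_lit 130) (nat_lit 5) (nat_lit 136) (nat_lit 5) (nat_lit 131) (nat_lit 5) (nat_lit 462) (nat_lit 413) (nat_lit 145))))) (XT.nd (nat_lit 234) (nat_lit 684) (nat_lit 0) (XT.nd (nat_lit 78) (nat_lit 608) (nat_lit 0) (XT.lf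 (nat_lit 0) (nat_lit 31318879403) (nat_lit 456) (nat_lit 3201531563) (nat_lit 76) (nat_lit 46871455705) (nat_lit 130) (nat_lit 5) (nat_lit 136) (nat_lit 5) (nat_lit 131) (nat_lit 5) (nat_lit 463) (nat_lit 413) (nat_lit 144)) (XT.nd (nat_lit 78) (nat_lit 304) (nat_lit 0) (XT.lf (nat_lit 0) (nat_lit 42963029713) (nat_lit 304) (nat_lit 4499449340) (nat_lit 380) (nat_lit 35456253244) (nat_lit 126) (nat_lit 5) (nat_lit 130) (nat_lit 5) (nat_lit 131) (nat_lit 5) (nat_lit 464) (nat_lit 413) (nat_lit 143)) (XT.lf (nat_lit 0) (nat_lit 5948565130) (nat_lit 304) (nat_lit 58485001241) (nat_lit 380) (nat_lit 20047542302) (nat_lit 122) (nat_lit 5) (nat_lit 126) (nat_lit 5) (nat_lit 127) (nat_lit 5) (nat_lit 465) (nat_lit 413) (nat_lit 142)))) (XT.nd (nat_lit 156) (nat_lit 304) (nat_lit 0) (XT.nd (nat_lit 78) (nat_lit 380) (nat_lit 0) (XT.lf (nat_lit 0) (nat_lit 54002658106) (nat_lit 304) (nat_lit 28358087764) (nat_lit 380)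 (nat_lit 3716201845) (nat_lit 122) (nat_lit 5) (nat_lit 126) (nat_lit 5) (nat_lit 127) (nat_lit 5) (nat_lit 466) (nat_lit 413) (nat_lit 141)) (XT.lf (nat_lit 0) (nat_lit 13030630871) (nat_lit 380) (nat_lit 71778438107) (nat_lit 76) (nat_lit 2902375504) (nat_lit 117) (nat_lit 5) (nat_lit 122) (nat_lit 5) (nat_lit 118) (nat_lit 5) (nat_lit 467) (nat_lit 413) (nat_lit 140))) (XT.nd (nat_lit 78) (nat_lit 304) (nat_lit 0) (XT.lf (nat_lit 0) (nat_lit 30812435611) (nat_lit 380) (nat_lit 23668932954) (nat_lit 76) (nat_lit 34894286143) (nat_lit 117) (nat_lit 5) (nat_lit 122) (nat_lit 5) (nat_lit 118) (nat_lit 5) (nat_lit 468) (nat_lit 413) (nat_lit 139)) (XT.lf (nat_lit 0) (nat_lit 26398093683) (nat_lit 304) (nat_lit 22982764786) (nat_lit 380) (nat_lit 41701337997) (nat_lit 113) (nat_lit 5) (nat_lit 117) (nat_lit 5) (nat_lit 118) (nat_lit 5) (nat_lit 469) (nat_lit 413) (nat_lit 138))))))) (XT.nd (nat_lit 1092) (nat_lit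 3572) (nat_lit 0) (XT.nd (nat_lit 546) (nat_lit 0) (nat_lit 228) (XT.nd (nat_lit 234) (nat_lit 0) (nat_lit 76) (XT.nd (nat_lit 78) (nat_lit 0) (nat_lit 0) (XT.lf (nat_lit 0) (nat_lit 3576332203) (nat_lit 1292) (nat_lit 7288101388) (nat_lit 1292) (nat_lit 7288101388) (nat_lit 246) (nat_lit 3) (nat_lit 263) (nat_lit 3) (nat_lit 263) (nat_lit 5) (nat_lit 414) (nat_lit 414) (nat_lit 192)) (XT.nd (nat_lit 78) (nat_lit 0) (nat_lit 76) (XT.lf (nat_lit 76) (nat_lit 2979694419) (nat_lit 0) (nat_lit 4357877112) (nat_lit 1292) (nat_lit 29509725281) (nat_lit 247) (nat_lit 5) (nat_lit 246) (nat_lit 3) (nat_lit 263) (nat_lit 5) (nat_lit 415) (nat_lit 414) (nat_lit 191)) (XT.lf (nat_lit 0) (nat_lit 7804861515) (nat_lit 1216) (nat_lit 16172936692) (nat_lit 1292) (nat_lit 13419688005) (nat_lit 247) (nat_lit 5) (nat_lit 263) (nat_lit 5) (nat_lit 264) (nat_lit 5) (nat_lit 416) (nat_lit 414) (nat_lit 190)))) (XT.nd (nat_lit 156)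 (nat_lit 0) (nat_lit 76) (XT.nd (nat_lit 78) (nat_lit 0) (nat_lit 76) (XT.lf (nat_lit 76) (nat_lit 2048352030) (nat_lit 0) (nat_lit 6298798992) (nat_lit 1292) (nat_lit 29615201630) (nat_lit 248) (nat_lit 5) (nat_lit 247) (nat_lit 5) (nat_lit 264) (nat_lit 5) (nat_lit 417) (nat_lit 414) (nat_lit 189)) (XT.lf (nat_lit 0) (nat_lit 9183328032) (nat_lit 1216) (nat_lit 17508658370) (nat_lit 1292) (nat_lit 11843850880) (nat_lit 248) (nat_lit 5) (nat_lit 264) (nat_lit 5) (nat_lit 265) (nat_lit 5) (nat_lit 418) (nat_lit 414) (nat_lit 188))) (XT.nd (nat_lit 78) (nat_lit 0) (nat_lit 76) (XT.lf (nat_lit 76) (nat_lit 1412991357) (nat_lit 0) (nat_lit 8705793646) (nat_lit 1292) (nat_lit 29005516346) (nat_lit 249) (nat_lit 5) (nat_lit 248) (nat_lit 5) (nat_lit 265) (nat_lit 5) (nat_lit 419) (nat_lit 414) (nat_lit 187)) (XT.lf (nat_lit 0) (nat_lit 11353550088) (nat_lit 1216) (nat_lit 18561169567) (nat_lit 1292) (nat_lit 9807563068)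 (nat_lit 249) (nat_lit 5) (nat_lit 265) (nat_lit 5) (nat_lit 266) (nat_lit 5) (nat_lit 420) (nat_lit 414) (nat_lit 186))))) (XT.nd (nat_lit 234) (nat_lit 0) (nat_lit 152) (XT.nd (nat_lit 78) (nat_lit 0) (nat_lit 76) (XT.lf (nat_lit 76) (nat_lit 1097620930) (nat_lit 0) (nat_lit 11622828889) (nat_lit 1292) (nat_lit 27614901665) (nat_lit 250) (nat_lit 5) (nat_lit 249) (nat_lit 5) (nat_lit 266) (nat_lit 5) (nat_lit 421) (nat_lit 414) (nat_lit 185)) (XT.nd (nat_lit 78) (nat_lit 0) (nat_lit 0) (XT.lf (nat_lit 0) (nat_lit 14385413784) (nat_lit 1216) (nat_lit 19306886927) (nat_lit 1292) (nat_lit 7266800556) (nat_lit 250) (nat_lit 5) (nat_lit 266) (nat_lit 5) (nat_lit 267) (nat_lit 5) (nat_lit 422) (nat_lit 414) (nat_lit 184)) (XT.lf (nat_lit 76) (nat_lit 1127722423) (nat_lit 0) (nat_lit 15096957044) (nat_lit 1292) (nat_lit 25373154148) (nat_lit 251) (nat_lit 5) (nat_lit 250) (nat_lit 5) (nat_lit 267) (nat_lit 5) (nat_lit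 423) (nat_lit 414) (nat_lit 183)))) (XT.nd (nat_lit 156) (nat_lit 0) (nat_lit 76) (XT.nd (nat_lit 78) (nat_lit 0) (nat_lit 0) (XT.lf (nat_lit 0) (nat_lit 18353480770) (nat_lit 1216) (nat_lit 19720786430) (nat_lit 1292) (nat_lit 4174430640) (nat_lit 251) (nat_lit 5) (nat_lit 267) (nat_lit 5) (nat_lit 268) (nat_lit 5) (nat_lit 424) (nat_lit 414) (nat_lit 182)) (XT.lf (nat_lit 76) (nat_lit 1530309753) (nat_lit 0) (nat_lit 19178540394) (nat_lit 1292) (nat_lit 22205357344) (nat_lit 252) (nat_lit 5) (nat_lit 251) (nat_lit 5) (nat_lit 268) (nat_lit 5) (nat_lit 425) (nat_lit 414) (nat_lit 181))) (XT.nd (nat_lit 78) (nat_lit 0) (nat_lit 0) (XT.lf (nat_lit 0) (nat_lit 23337279266) (nat_lit 1216) (nat_lit 19776346981) (nat_lit 1292) (nat_lit 479984824) (nat_lit 252) (nat_lit 5) (nat_lit 268) (nat_lit 5) (nat_lit 269) (nat_lit 5) (nat_lit 426) (nat_lit 414) (nat_lit 180)) (XT.lf (nat_lit 76) (nat_lit 2333989106) (nat_lit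 0) (nat_lit 23921491651) (nat_lit 1292) (nat_lit 18031589000) (nat_lit 253) (nat_lit 5) (nat_lit 252) (nat_lit 5) (nat_lit 269) (nat_lit 5) (nat_lit 427) (nat_lit 414) (nat_lit 179)))))) (XT.nd (nat_lit 546) (nat_lit 2280) (nat_lit 0) (XT.nd (nat_lit 234) (nat_lit 1748) (nat_lit 0) (XT.nd (nat_lit 78) (nat_lit 0) (nat_lit 76) (XT.lf (nat_lit 76) (nat_lit 25511942591) (nat_lit 0) (nat_lit 3947615655) (nat_lit 1292) (nat_lit 15535824625) (nat_lit 253) (nat_lit 5) (nat_lit 252) (nat_lit 5) (nat_lit 269) (nat_lit 5) (nat_lit 428) (nat_lit 414) (nat_lit 178)) (XT.nd (nat_lit 78) (nat_lit 0) (nat_lit 0) (XT.lf (nat_lit 76) (nat_lit 3569019595) (nat_lit 0) (nat_lit 29383530564) (nat_lit 1292) (nat_lit 12766612006) (nat_lit 254) (nat_lit 5) (nat_lit 253) (nat_lit 5) (nat_lit 270) (nat_lit 5) (nat_lit 429) (nat_lit 414) (nat_lit 177)) (XT.lf (nat_lit 76) (nat_lit 27671492418) (nat_lit 0) (nat_lit 9112984579) (nat_lit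 1292) (nat_lit 9673154020) (nat_lit 254) (nat_lit 5) (nat_lit 253) (nat_lit 5) (nat_lit 270) (nat_lit 5) (nat_lit 430) (nat_lit 414) (nat_lit 176)))) (XT.nd (nat_lit 156) (nat_lit 684) (nat_lit 0) (XT.nd (nat_lit 78) (nat_lit 0) (nat_lit 0) (XT.lf (nat_lit 0) (nat_lit 5267374257) (nat_lit 1216) (nat_lit 35626457898) (nat_lit 1292) (nat_lit 6319548181) (nat_lit 238) (nat_lit 5) (nat_lit 254) (nat_lit 5) (nat_lit 255) (nat_lit 5) (nat_lit 431) (nat_lit 414) (nat_lit 175)) (XT.lf (nat_lit 0) (nat_lit 30334479627) (nat_lit 1216) (nat_lit 15069799187) (nat_lit 1292) (nat_lit 2579189499) (nat_lit 238) (nat_lit 5) (nat_lit 254) (nat_lit 5) (nat_lit 255) (nat_lit 5) (nat_lit 432) (nat_lit 414) (nat_lit 174))) (XT.nd (nat_lit 78) (nat_lit 0) (nat_lit 0) (XT.lf (nat_lit 0) (nat_lit 1379020757) (nat_lit 684) (nat_lit 41323501925) (nat_lit 76) (nat_lit 6069854834) (nat_lit 229) (nat_lit 5) (nat_lit 238) (nat_lit 5) (nat_lit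 230) (nat_lit 5) (nat_lit 433) (nat_lit 414) (nat_lit 173)) (XT.lf (nat_lit 0) (nat_lit 5732143297) (nat_lit 684) (nat_lit 16095758195) (nat_lit 76) (nat_lit 27746446714) (nat_lit 229) (nat_lit 5) (nat_lit 238) (nat_lit 5) (nat_lit 230) (nat_lit 5) (nat_lit 434) (nat_lit 414) (nat_lit 172))))) (XT.nd (nat_lit 312) (nat_lit 1064) (nat_lit 0) (XT.nd (nat_lit 156) (nat_lit 608) (nat_lit 0) (XT.nd (nat_lit 78) (nat_lit 0) (nat_lit 0) (XT.lf (nat_lit 0) (nat_lit 10084529009) (nat_lit 608) (nat_lit 227118157) (nat_lit 684) (nat_lit 40085857667) (nat_lit 221) (nat_lit 5) (nat_lit 229) (nat_lit 5) (nat_lit 230) (nat_lit 5) (nat_lit 435) (nat_lit 414) (nat_lit 171)) (XT.lf (nat_lit 0) (nat_lit 15403239862) (nat_lit 684) (nat_lit 14074701872) (nat_lit 76) (nat_lit 21756173748) (nat_lit 221) (nat_lit 5) (nat_lit 230) (nat_lit 5) (nat_lit 222) (nat_lit 5) (nat_lit 436) (nat_lit 414) (nat_lit 170))) (XT.nd (nat_lit 78) (nat_lit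 0) (nat_lit 0) (XT.lf (nat_lit 0) (nat_lit 13205083681) (nat_lit 608) (nat_lit 7570586426) (nat_lit 684) (nat_lit 31316312071) (nat_lit 213) (nat_lit 5) (nat_lit 221) (nat_lit 5) (nat_lit 222) (nat_lit 5) (nat_lit 437) (nat_lit 414) (nat_lit 169)) (XT.lf (nat_lit 0) (nat_lit 26595866360) (nat_lit 684) (nat_lit 11526168227) (nat_lit 76) (nat_lit 14844952906) (nat_lit 213) (nat_lit 5) (nat_lit 222) (nat_lit 5) (nat_lit 214) (nat_lit 5) (nat_lit 438) (nat_lit 414) (nat_lit 168)))) (XT.nd (nat_lit 156) (nat_lit 532) (nat_lit 0) (XT.nd (nat_lit 78) (nat_lit 0) (nat_lit 0) (XT.lf (nat_lit 0) (nat_lit 16909332395) (nat_lit 532) (nat_lit 15917794095) (nat_lit 608) (nat_lit 21034023132) (nat_lit 206) (nat_lit 5) (nat_lit 213) (nat_lit 5) (nat_lit 214) (nat_lit 5) (nat_lit 439) (nat_lit 414) (nat_lit 167)) (XT.lf (nat_lit 0) (nat_lit 39428679765) (nat_lit 608) (nat_lit 8413534097) (nat_lit 76) (nat_lit 6934422480) (nat_lit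 206) (nat_lit 5) (nat_lit 214) (nat_lit 5) (nat_lit 207) (nat_lit 5) (nat_lit 440) (nat_lit 414) (nat_lit 166))) (XT.nd (nat_lit 78) (nat_lit 0) (nat_lit 0) (XT.lf (nat_lit 0) (nat_lit 21236652950) (nat_lit 532) (nat_lit 25352376905) (nat_lit 608) (nat_lit 9119735675) (nat_lit 199) (nat_lit 5) (nat_lit 206) (nat_lit 5) (nat_lit 207) (nat_lit 5) (nat_lit 441) (nat_lit 414) (nat_lit 165)) (XT.lf (nat_lit 0) (nat_lit 51947778823) (nat_lit 532) (nat_lit 2100399339) (nat_lit 608) (nat_lit 2618161165) (nat_lit 199) (nat_lit 5) (nat_lit 206) (nat_lit 5) (nat_lit 207) (nat_lit 5) (nat_lit 442) (nat_lit 414) (nat_lit 164))))))))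
noncomputable def xc238 : XT := (XT.nd (nat_lit 51090) (nat_lit 0) (nat_lit 5700) (XT.nd (nat_lit 1092) (nat_lit 2584) (nat_lit 0) (XT.nd (nat_lit 546) (nat_lit 1672) (nat_lit 0) (XT.nd (nat_lit 234) (nat_lit 912) (nat_lit 0) (XT.nd (nat_lit 78) (nat_lit 532) (nat_lit 0) (XT.lf (nat_lit 0) (nat_lit 4464646603) (nat_lit 532) (nat_lit 31454229104) (nat_lit 76) (nat_lit 21718615688) (nat_lit 192) (nat_lit 5) (nat_lit 199) (nat_lit 5) (nat_lit 193) (nat_lit 5) (nat_lit 443) (nat_lit 414) (nat_lit 163)) (XT.nd (nat_lit 78) (nat_lit 532) (nat_lit 0) (XT.lf (nat_lit 0) (nat_lit 11775295574) (nat_lit 532) (nat_lit 575715862) (nat_lit 76) (nat_lit 46283949869) (nat_lit 192) (nat_lit 5) (nat_lit 199) (nat_lit 5) (nat_lit 193) (nat_lit 5) (nat_lit 444) (nat_lit 414) (nat_lit 162)) (XT.lf (nat_lit 0) (nat_lit 19728162933) (nat_lit 608) (nat_lit 27921206520) (nat_lit 76) (nat_lit 12000299213) (nat_lit 185) (nat_lit 5) (nat_lit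 193) (nat_lit 5) (nat_lit 186) (nat_lit 5) (nat_lit 445) (nat_lit 414) (nat_lit 161)))) (XT.nd (nat_lit 156) (nat_lit 456) (nat_lit 0) (XT.nd (nat_lit 78) (nat_lit 0) (nat_lit 0) (XT.lf (nat_lit 0) (nat_lit 4279050686) (nat_lit 456) (nat_lit 23808963363) (nat_lit 532) (nat_lit 32601751581) (nat_lit 179) (nat_lit 5) (nat_lit 185) (nat_lit 5) (nat_lit 186) (nat_lit 5) (nat_lit 446) (nat_lit 414) (nat_lit 160)) (XT.lf (nat_lit 0) (nat_lit 36989700378) (nat_lit 532) (nat_lit 23745946585) (nat_lit 76) (nat_lit 1016687653) (nat_lit 179) (nat_lit 5) (nat_lit 186) (nat_lit 5) (nat_lit 180) (nat_lit 5) (nat_lit 447) (nat_lit 414) (nat_lit 159))) (XT.nd (nat_lit 78) (nat_lit 0) (nat_lit 0) (XT.lf (nat_lit 0) (nat_lit 9854312388) (nat_lit 456) (nat_lit 36633729849) (nat_lit 532) (nat_lit 16348850582) (nat_lit 173) (nat_lit 5) (nat_lit 179) (nat_lit 5) (nat_lit 180) (nat_lit 5) (nat_lit 448) (nat_lit 414) (nat_lit 158))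 (XT.lf (nat_lit 0) (nat_lit 44948344435) (nat_lit 456) (nat_lit 11561939568) (nat_lit 532) (nat_lit 7436535562) (nat_lit 173) (nat_lit 5) (nat_lit 179) (nat_lit 5) (nat_lit 180) (nat_lit 5) (nat_lit 449) (nat_lit 414) (nat_lit 157))))) (XT.nd (nat_lit 234) (nat_lit 760) (nat_lit 0) (XT.nd (nat_lit 78) (nat_lit 456) (nat_lit 0) (XT.lf (nat_lit 0) (nat_lit 2003862565) (nat_lit 456) (nat_lit 48918088311) (nat_lit 76) (nat_lit 14158748960) (nat_lit 167) (nat_lit 5) (nat_lit 173) (nat_lit 5) (nat_lit 168) (nat_lit 5) (nat_lit 450) (nat_lit 414) (nat_lit 156)) (XT.nd (nat_lit 78) (nat_lit 456) (nat_lit 0) (XT.lf (nat_lit 0) (nat_lit 11885418173) (nat_lit 456) (nat_lit 13665867211) (nat_lit 76) (nat_lit 40685880144) (nat_lit 167) (nat_lit 5) (nat_lit 173) (nat_lit 5) (nat_lit 168) (nat_lit 5) (nat_lit 451) (nat_lit 414) (nat_lit 155)) (XT.lf (nat_lit 0) (nat_lit 22292400960) (nat_lit 532) (nat_lit 44335880577) (nat_lit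 76) (nat_lit 793174493) (nat_lit 161) (nat_lit 5) (nat_lit 168) (nat_lit 5) (nat_lit 162) (nat_lit 5) (nat_lit 452) (nat_lit 414) (nat_lit 154)))) (XT.nd (nat_lit 156) (nat_lit 380) (nat_lit 0) (XT.nd (nat_lit 78) (nat_lit 380) (nat_lit 0) (XT.lf (nat_lit 0) (nat_lit 33403167404) (nat_lit 532) (nat_lit 7672772932) (nat_lit 76) (nat_lit 27553587934) (nat_lit 161) (nat_lit 5) (nat_lit 168) (nat_lit 5) (nat_lit 162) (nat_lit 5) (nat_lit 453) (nat_lit 414) (nat_lit 153)) (XT.lf (nat_lit 0) (nat_lit 30688105580) (nat_lit 380) (nat_lit 14453393004) (nat_lit 456) (nat_lit 24723517081) (nat_lit 156) (nat_lit 5) (nat_lit 161) (nat_lit 5) (nat_lit 162) (nat_lit 5) (nat_lit 454) (nat_lit 414) (nat_lit 152))) (XT.nd (nat_lit 78) (nat_lit 380) (nat_lit 0) (XT.lf (nat_lit 0) (nat_lit 57434141150) (nat_lit 456) (nat_lit 904539172) (nat_lit 76) (nat_lit 12792822748) (nat_lit 156) (nat_lit 5) (nat_lit 162) (nat_lit 5) (nat_lit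 157) (nat_lit 5) (nat_lit 455) (nat_lit 414) (nat_lit 151)) (XT.lf (nat_lit 0) (nat_lit 39135636606) (nat_lit 380) (nat_lit 31478506171) (nat_lit 456) (nat_lit 1806285155) (nat_lit 151) (nat_lit 5) (nat_lit 156) (nat_lit 5) (nat_lit 157) (nat_lit 5) (nat_lit 456) (nat_lit 414) (nat_lit 150)))))) (XT.nd (nat_lit 546) (nat_lit 988) (nat_lit 0) (XT.nd (nat_lit 234) (nat_lit 760) (nat_lit 0) (XT.nd (nat_lit 78) (nat_lit 380) (nat_lit 0) (XT.lf (nat_lit 0) (nat_lit 6676693092) (nat_lit 380) (nat_lit 3633770019) (nat_lit 456) (nat_lit 63432365804) (nat_lit 145) (nat_lit 5) (nat_lit 150) (nat_lit 5) (nat_lit 151) (nat_lit 5) (nat_lit 457) (nat_lit 414) (nat_lit 149)) (XT.nd (nat_lit 78) (nat_lit 380) (nat_lit 0) (XT.lf (nat_lit 0) (nat_lit 23333904195) (nat_lit 456) (nat_lit 26838418786) (nat_lit 76) (nat_lit 24914657786) (nat_lit 145) (nat_lit 5) (nat_lit 151) (nat_lit 5) (nat_lit 146) (nat_lit 5) (nat_lit 458) (nat_lit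 414) (nat_lit 148)) (XT.lf (nat_lit 0) (nat_lit 14848981237) (nat_lit 380) (nat_lit 22077098719) (nat_lit 456) (nat_lit 39540036476) (nat_lit 140) (nat_lit 5) (nat_lit 145) (nat_lit 5) (nat_lit 146) (nat_lit 5) (nat_lit 459) (nat_lit 414) (nat_lit 147)))) (XT.nd (nat_lit 156) (nat_lit 456) (nat_lit 0) (XT.nd (nat_lit 78) (nat_lit 304) (nat_lit 0) (XT.lf (nat_lit 0) (nat_lit 51264996438) (nat_lit 456) (nat_lit 19610903088) (nat_lit 76) (nat_lit 7000557574) (nat_lit 140) (nat_lit 5) (nat_lit 146) (nat_lit 5) (nat_lit 141) (nat_lit 5) (nat_lit 460) (nat_lit 414) (nat_lit 146)) (XT.lf (nat_lit 0) (nat_lit 23902444272) (nat_lit 304) (nat_lit 42579330623) (nat_lit 380) (nat_lit 12833902447) (nat_lit 136) (nat_lit 5) (nat_lit 140) (nat_lit 5) (nat_lit 141) (nat_lit 5) (nat_lit 461) (nat_lit 414) (nat_lit 145))) (XT.nd (nat_lit 78) (nat_lit 380) (nat_lit 0) (XT.lf (nat_lit 0) (nat_lit 1529843575) (nat_lit 380) (nat_lit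 11684855346) (nat_lit 76) (nat_lit 67577003904) (nat_lit 135) (nat_lit 5) (nat_lit 140) (nat_lit 5) (nat_lit 136) (nat_lit 5) (nat_lit 462) (nat_lit 414) (nat_lit 144)) (XT.lf (nat_lit 0) (nat_lit 16559871684) (nat_lit 456) (nat_lit 48577926396) (nat_lit 76) (nat_lit 17155599564) (nat_lit 130) (nat_lit 5) (nat_lit 136) (nat_lit 5) (nat_lit 131) (nat_lit 5) (nat_lit 463) (nat_lit 414) (nat_lit 143))))) (XT.nd (nat_lit 234) (nat_lit 380) (nat_lit 0) (XT.nd (nat_lit 78) (nat_lit 608) (nat_lit 0) (XT.lf (nat_lit 0) (nat_lit 32290176436) (nat_lit 456) (nat_lit 3252169303) (nat_lit 76) (nat_lit 48290316462) (nat_lit 130) (nat_lit 5) (nat_lit 136) (nat_lit 5) (nat_lit 131) (nat_lit 5) (nat_lit 464) (nat_lit 414) (nat_lit 142)) (XT.nd (nat_lit 78) (nat_lit 304) (nat_lit 0) (XT.lf (nat_lit 0) (nat_lit 44296883633) (nat_lit 304) (nat_lit 4620708462) (nat_lit 380) (nat_lit 36487756710) (nat_lit 126) (nat_lit 5) (nat_lit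 130) (nat_lit 5) (nat_lit 131) (nat_lit 5) (nat_lit 465) (nat_lit 414) (nat_lit 141)) (XT.lf (nat_lit 0) (nat_lit 6172349857) (nat_lit 304) (nat_lit 60225116114) (nat_lit 380) (nat_lit 20617141124) (nat_lit 122) (nat_lit 5) (nat_lit 126) (nat_lit 5) (nat_lit 127) (nat_lit 5) (nat_lit 466) (nat_lit 414) (nat_lit 140)))) (XT.nd (nat_lit 49062) (nat_lit 0) (nat_lit 9804) (XT.nd (nat_lit 78) (nat_lit 380) (nat_lit 0) (XT.lf (nat_lit 0) (nat_lit 55666745396) (nat_lit 304) (nat_lit 29194815674) (nat_lit 380) (nat_lit 3796787467) (nat_lit 122) (nat_lit 5) (nat_lit 126) (nat_lit 5) (nat_lit 127) (nat_lit 5) (nat_lit 467) (nat_lit 414) (nat_lit 139)) (XT.lf (nat_lit 0) (nat_lit 13451527348) (nat_lit 380) (nat_lit 73886845848) (nat_lit 76) (nat_lit 3003507918) (nat_lit 117) (nat_lit 5) (nat_lit 122) (nat_lit 5) (nat_lit 118) (nat_lit 5) (nat_lit 468) (nat_lit 414) (nat_lit 138))) (XT.nd (nat_lit 78) (nat_lit 0) (nat_lit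 0) (XT.lf (nat_lit 0) (nat_lit 3732125910) (nat_lit 1292) (nat_lit 7481754762) (nat_lit 1292) (nat_lit 7481754762) (nat_lit 246) (nat_lit 3) (nat_lit 263) (nat_lit 3) (nat_lit 263) (nat_lit 5) (nat_lit 415) (nat_lit 415) (nat_lit 190)) (XT.lf (nat_lit 76) (nat_lit 3118574592) (nat_lit 0) (nat_lit 4533781830) (nat_lit 1292) (nat_lit 30297479796) (nat_lit 247) (nat_lit 5) (nat_lit 246) (nat_lit 3) (nat_lit 263) (nat_lit 5) (nat_lit 416) (nat_lit 415) (nat_lit 189))))))) (XT.nd (nat_lit 1092) (nat_lit 4180) (nat_lit 0) (XT.nd (nat_lit 546) (nat_lit 0) (nat_lit 228) (XT.nd (nat_lit 234) (nat_lit 0) (nat_lit 76) (XT.nd (nat_lit 78) (nat_lit 0) (nat_lit 0) (XT.lf (nat_lit 0) (nat_lit 8130486543) (nat_lit 1216) (nat_lit 16606859719) (nat_lit 1292) (nat_lit 13779281552) (nat_lit 247) (nat_lit 5) (nat_lit 263) (nat_lit 5) (nat_lit 264) (nat_lit 5) (nat_lit 417) (nat_lit 415) (nat_lit 188)) (XT.nd (nat_lit 78) (nat_lit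 0) (nat_lit 76) (XT.lf (nat_lit 76) (nat_lit 2160565066) (nat_lit 0) (nat_lit 6526303187) (nat_lit 1292) (nat_lit 30411638414) (nat_lit 248) (nat_lit 5) (nat_lit 247) (nat_lit 5) (nat_lit 264) (nat_lit 5) (nat_lit 418) (nat_lit 415) (nat_lit 187)) (XT.lf (nat_lit 0) (nat_lit 9545169842) (nat_lit 1216) (nat_lit 17981637041) (nat_lit 1292) (nat_lit 12162478866) (nat_lit 248) (nat_lit 5) (nat_lit 264) (nat_lit 5) (nat_lit 265) (nat_lit 5) (nat_lit 419) (nat_lit 415) (nat_lit 186)))) (XT.nd (nat_lit 156) (nat_lit 0) (nat_lit 76) (XT.nd (nat_lit 78) (nat_lit 0) (nat_lit 76) (XT.lf (nat_lit 76) (nat_lit 1507149618) (nat_lit 0) (nat_lit 8999523720) (nat_lit 1292) (nat_lit 29788791976) (nat_lit 249) (nat_lit 5) (nat_lit 248) (nat_lit 5) (nat_lit 265) (nat_lit 5) (nat_lit 420) (nat_lit 415) (nat_lit 185)) (XT.lf (nat_lit 0) (nat_lit 11775721478) (nat_lit 1216) (nat_lit 19064949755) (nat_lit 1292) (nat_lit 10070798723)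 (nat_lit 249) (nat_lit 5) (nat_lit 265) (nat_lit 5) (nat_lit 266) (nat_lit 5) (nat_lit 421) (nat_lit 415) (nat_lit 184))) (XT.nd (nat_lit 78) (nat_lit 0) (nat_lit 76) (XT.lf (nat_lit 76) (nat_lit 1183084312) (nat_lit 0) (nat_lit 11998673210) (nat_lit 1292) (nat_lit 28361230377) (nat_lit 250) (nat_lit 5) (nat_lit 249) (nat_lit 5) (nat_lit 266) (nat_lit 5) (nat_lit 422) (nat_lit 415) (nat_lit 183)) (XT.lf (nat_lit 0) (nat_lit 14894095745) (nat_lit 1216) (nat_lit 19832481926) (nat_lit 1292) (nat_lit 7458950713) (nat_lit 250) (nat_lit 5) (nat_lit 266) (nat_lit 5) (nat_lit 267) (nat_lit 5) (nat_lit 423) (nat_lit 415) (nat_lit 182))))) (XT.nd (nat_lit 234) (nat_lit 0) (nat_lit 152) (XT.nd (nat_lit 78) (nat_lit 0) (nat_lit 76) (XT.lf (nat_lit 76) (nat_lit 1214640100) (nat_lit 0) (nat_lit 15572163393) (nat_lit 1292) (nat_lit 26056672228) (nat_lit 251) (nat_lit 5) (nat_lit 250) (nat_lit 5) (nat_lit 267) (nat_lit 5) (nat_lit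 424) (nat_lit 415) (nat_lit 181)) (XT.nd (nat_lit 78) (nat_lit 0) (nat_lit 0) (XT.lf (nat_lit 0) (nat_lit 18977065100) (nat_lit 1216) (nat_lit 20258435999) (nat_lit 1292) (nat_lit 4278437802) (nat_lit 251) (nat_lit 5) (nat_lit 267) (nat_lit 5) (nat_lit 268) (nat_lit 5) (nat_lit 425) (nat_lit 415) (nat_lit 180)) (XT.lf (nat_lit 76) (nat_lit 1629663913) (nat_lit 0) (nat_lit 19771819762) (nat_lit 1292) (nat_lit 22797979410) (nat_lit 252) (nat_lit 5) (nat_lit 251) (nat_lit 5) (nat_lit 268) (nat_lit 5) (nat_lit 426) (nat_lit 415) (nat_lit 179)))) (XT.nd (nat_lit 156) (nat_lit 0) (nat_lit 0) (XT.nd (nat_lit 78) (nat_lit 0) (nat_lit 0) (XT.lf (nat_lit 0) (nat_lit 24106519716) (nat_lit 1216) (nat_lit 20315474491) (nat_lit 1292) (nat_lit 477322805) (nat_lit 252) (nat_lit 5) (nat_lit 268) (nat_lit 5) (nat_lit 269) (nat_lit 5) (nat_lit 427) (nat_lit 415) (nat_lit 178)) (XT.lf (nat_lit 76) (nat_lit 2457640670) (nat_lit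 0) (nat_lit 24653128861) (nat_lit 1292) (nat_lit 18502855697) (nat_lit 253) (nat_lit 5) (nat_lit 252) (nat_lit 5) (nat_lit 269) (nat_lit 5) (nat_lit 428) (nat_lit 415) (nat_lit 177))) (XT.nd (nat_lit 78) (nat_lit 0) (nat_lit 76) (XT.lf (nat_lit 76) (nat_lit 26329370666) (nat_lit 0) (nat_lit 4079629038) (nat_lit 1292) (nat_lit 15934247934) (nat_lit 253) (nat_lit 5) (nat_lit 252) (nat_lit 5) (nat_lit 269) (nat_lit 5) (nat_lit 429) (nat_lit 415) (nat_lit 176)) (XT.lf (nat_lit 76) (nat_lit 3729755943) (nat_lit 0) (nat_lit 30275502243) (nat_lit 1292) (nat_lit 13083528608) (nat_lit 254) (nat_lit 5) (nat_lit 253) (nat_lit 5) (nat_lit 270) (nat_lit 5) (nat_lit 430) (nat_lit 415) (nat_lit 175)))))) (XT.nd (nat_lit 546) (nat_lit 2204) (nat_lit 0) (XT.nd (nat_lit 234) (nat_lit 1292) (nat_lit 0) (XT.nd (nat_lit 78) (nat_lit 1140) (nat_lit 0) (XT.lf (nat_lit 76) (nat_lit 28553739869) (nat_lit 0) (nat_lit 9396535051) (nat_lit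 1292) (nat_lit 9899191594) (nat_lit 254) (nat_lit 5) (nat_lit 253) (nat_lit 5) (nat_lit 270) (nat_lit 5) (nat_lit 431) (nat_lit 415) (nat_lit 174)) (XT.nd (nat_lit 78) (nat_lit 0) (nat_lit 0) (XT.lf (nat_lit 0) (nat_lit 5478958939) (nat_lit 1216) (nat_lit 36702558347) (nat_lit 1292) (nat_lit 6446413574) (nat_lit 238) (nat_lit 5) (nat_lit 254) (nat_lit 5) (nat_lit 255) (nat_lit 5) (nat_lit 432) (nat_lit 415) (nat_lit 173)) (XT.lf (nat_lit 0) (nat_lit 31296517369) (nat_lit 1216) (nat_lit 15528987058) (nat_lit 1292) (nat_lit 2595670958) (nat_lit 238) (nat_lit 5) (nat_lit 254) (nat_lit 5) (nat_lit 255) (nat_lit 5) (nat_lit 433) (nat_lit 415) (nat_lit 172)))) (XT.nd (nat_lit 156) (nat_lit 608) (nat_lit 0) (XT.nd (nat_lit 78) (nat_lit 0) (nat_lit 0) (XT.lf (nat_lit 0) (nat_lit 1478809289) (nat_lit 684) (nat_lit 42508681275) (nat_lit 76) (nat_lit 6246283062) (nat_lit 229) (nat_lit 5) (nat_lit 238) (nat_lit 5) (nat_lit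 230) (nat_lit 5) (nat_lit 434) (nat_lit 415) (nat_lit 171)) (XT.lf (nat_lit 0) (nat_lit 5960824012) (nat_lit 684) (nat_lit 16525693360) (nat_lit 76) (nat_lit 28573337769) (nat_lit 229) (nat_lit 5) (nat_lit 238) (nat_lit 5) (nat_lit 230) (nat_lit 5) (nat_lit 435) (nat_lit 415) (nat_lit 170))) (XT.nd (nat_lit 78) (nat_lit 0) (nat_lit 0) (XT.lf (nat_lit 0) (nat_lit 10439483465) (nat_lit 608) (nat_lit 237081478) (nat_lit 684) (nat_lit 41231176608) (nat_lit 221) (nat_lit 5) (nat_lit 229) (nat_lit 5) (nat_lit 230) (nat_lit 5) (nat_lit 436) (nat_lit 415) (nat_lit 169)) (XT.lf (nat_lit 0) (nat_lit 15919257527) (nat_lit 684) (nat_lit 14444382453) (nat_lit 76) (nat_lit 22405860599) (nat_lit 221) (nat_lit 5) (nat_lit 230) (nat_lit 5) (nat_lit 222) (nat_lit 5) (nat_lit 437) (nat_lit 415) (nat_lit 168))))) (XT.nd (nat_lit 312) (nat_lit 1064) (nat_lit 0) (XT.nd (nat_lit 156) (nat_lit 532) (nat_lit 0) (XT.nd (nat_lit 78) (nat_lit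 0) (nat_lit 0) (XT.lf (nat_lit 0) (nat_lit 13653281369) (nat_lit 608) (nat_lit 7798509103) (nat_lit 684) (nat_lit 32201345516) (nat_lit 213) (nat_lit 5) (nat_lit 221) (nat_lit 5) (nat_lit 222) (nat_lit 5) (nat_lit 438) (nat_lit 415) (nat_lit 167)) (XT.lf (nat_lit 0) (nat_lit 27445045770) (nat_lit 684) (nat_lit 11819857572) (nat_lit 76) (nat_lit 15289535111) (nat_lit 213) (nat_lit 5) (nat_lit 222) (nat_lit 5) (nat_lit 214) (nat_lit 5) (nat_lit 439) (nat_lit 415) (nat_lit 166))) (XT.nd (nat_lit 78) (nat_lit 0) (nat_lit 0) (XT.lf (nat_lit 0) (nat_lit 17468197327) (nat_lit 532) (nat_lit 16394047969) (nat_lit 608) (nat_lit 21613210672) (nat_lit 206) (nat_lit 5) (nat_lit 213) (nat_lit 5) (nat_lit 214) (nat_lit 5) (nat_lit 440) (nat_lit 415) (nat_lit 165)) (XT.lf (nat_lit 0) (nat_lit 40660391919) (nat_lit 608) (nat_lit 8614385946) (nat_lit 76) (nat_lit 7143673575) (nat_lit 206) (nat_lit 5) (nat_lit 214) (nat_lit 5)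 (nat_lit 207) (nat_lit 5) (nat_lit 441) (nat_lit 415) (nat_lit 164)))) (XT.nd (nat_lit 156) (nat_lit 532) (nat_lit 0) (XT.nd (nat_lit 78) (nat_lit 0) (nat_lit 0) (XT.lf (nat_lit 0) (nat_lit 21924801280) (nat_lit 532) (nat_lit 26109819078) (nat_lit 608) (nat_lit 9343952648) (nat_lit 199) (nat_lit 5) (nat_lit 206) (nat_lit 5) (nat_lit 207) (nat_lit 5) (nat_lit 442) (nat_lit 415) (nat_lit 163)) (XT.lf (nat_lit 0) (nat_lit 53555774072) (nat_lit 532) (nat_lit 2160373325) (nat_lit 608) (nat_lit 2648769012) (nat_lit 199) (nat_lit 5) (nat_lit 206) (nat_lit 5) (nat_lit 207) (nat_lit 5) (nat_lit 443) (nat_lit 415) (nat_lit 162))) (XT.nd (nat_lit 78) (nat_lit 0) (nat_lit 0) (XT.lf (nat_lit 0) (nat_lit 4644736943) (nat_lit 532) (nat_lit 32346474789) (nat_lit 76) (nat_lit 22374003494) (nat_lit 192) (nat_lit 5) (nat_lit 199) (nat_lit 5) (nat_lit 193) (nat_lit 5) (nat_lit 444) (nat_lit 415) (nat_lit 161)) (XT.lf (nat_lit 0)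 (nat_lit 12173361181) (nat_lit 532) (nat_lit 543102689) (nat_lit 76) (nat_lit 47676186166) (nat_lit 192) (nat_lit 5) (nat_lit 199) (nat_lit 5) (nat_lit 193) (nat_lit 5) (nat_lit 445) (nat_lit 415) (nat_lit 160))))))))
noncomputable def xc239 : XT := (XT.nd (nat_lit 51246) (nat_lit 0) (nat_lit 3876) (XT.nd (nat_lit 1092) (nat_lit 1748) (nat_lit 0) (XT.nd (nat_lit 546) (nat_lit 1672) (nat_lit 0) (XT.nd (nat_lit 234) (nat_lit 912) (nat_lit 0) (XT.nd (nat_lit 78) (nat_lit 456) (nat_lit 0) (XT.lf (nat_lit 0) (nat_lit 20364036422) (nat_lit 608) (nat_lit 28708164485) (nat_lit 76) (nat_lit 12365621518) (nat_lit 185) (nat_lit 5) (nat_lit 193) (nat_lit 5) (nat_lit 186) (nat_lit 5) (nat_lit 446) (nat_lit 415) (nat_lit 159)) (XT.nd (nat_lit 78) (nat_lit 0) (nat_lit 0) (XT.lf (nat_lit 0) (nat_lit 4457603592) (nat_lit 456) (nat_lit 24516279467) (nat_lit 532) (nat_lit 33535263689) (nat_lit 179) (nat_lit 5) (nat_lit 185) (nat_lit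 5) (nat_lit 186) (nat_lit 5) (nat_lit 447) (nat_lit 415) (nat_lit 158)) (XT.lf (nat_lit 0) (nat_lit 38141425781) (nat_lit 532) (nat_lit 24408396437) (nat_lit 76) (nat_lit 1053806848) (nat_lit 179) (nat_lit 5) (nat_lit 186) (nat_lit 5) (nat_lit 180) (nat_lit 5) (nat_lit 448) (nat_lit 415) (nat_lit 157)))) (XT.nd (nat_lit 156) (nat_lit 456) (nat_lit 0) (XT.nd (nat_lit 78) (nat_lit 0) (nat_lit 0) (XT.lf (nat_lit 0) (nat_lit 10199380809) (nat_lit 456) (nat_lit 37724588022) (nat_lit 532) (nat_lit 16796778080) (nat_lit 173) (nat_lit 5) (nat_lit 179) (nat_lit 5) (nat_lit 180) (nat_lit 5) (nat_lit 449) (nat_lit 415) (nat_lit 156)) (XT.lf (nat_lit 0) (nat_lit 46344793846) (nat_lit 456) (nat_lit 11900881520) (nat_lit 532) (nat_lit 7618332581) (nat_lit 173) (nat_lit 5) (nat_lit 179) (nat_lit 5) (nat_lit 180) (nat_lit 5) (nat_lit 450) (nat_lit 415) (nat_lit 155))) (XT.nd (nat_lit 78) (nat_lit 0) (nat_lit 0) (XT.lf (nat_lit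 0) (nat_lit 2103839151) (nat_lit 456) (nat_lit 50336167290) (nat_lit 76) (nat_lit 14591905635) (nat_lit 167) (nat_lit 5) (nat_lit 173) (nat_lit 5) (nat_lit 168) (nat_lit 5) (nat_lit 451) (nat_lit 415) (nat_lit 154)) (XT.lf (nat_lit 0) (nat_lit 12280680436) (nat_lit 456) (nat_lit 14027820246) (nat_lit 76) (nat_lit 41914606263) (nat_lit 167) (nat_lit 5) (nat_lit 173) (nat_lit 5) (nat_lit 168) (nat_lit 5) (nat_lit 452) (nat_lit 415) (nat_lit 153))))) (XT.nd (nat_lit 234) (nat_lit 836) (nat_lit 0) (XT.nd (nat_lit 78) (nat_lit 380) (nat_lit 0) (XT.lf (nat_lit 0) (nat_lit 22999294167) (nat_lit 532) (nat_lit 45617343283) (nat_lit 76) (nat_lit 826306434) (nat_lit 161) (nat_lit 5) (nat_lit 168) (nat_lit 5) (nat_lit 162) (nat_lit 5) (nat_lit 453) (nat_lit 415) (nat_lit 152)) (XT.nd (nat_lit 78) (nat_lit 380) (nat_lit 0) (XT.lf (nat_lit 0) (nat_lit 34442273279) (nat_lit 532) (nat_lit 7855758342) (nat_lit 76) (nat_lit 28389260335)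 (nat_lit 161) (nat_lit 5) (nat_lit 168) (nat_lit 5) (nat_lit 162) (nat_lit 5) (nat_lit 454) (nat_lit 415) (nat_lit 151)) (XT.lf (nat_lit 0) (nat_lit 31655483802) (nat_lit 380) (nat_lit 14876641852) (nat_lit 456) (nat_lit 25427737526) (nat_lit 156) (nat_lit 5) (nat_lit 161) (nat_lit 5) (nat_lit 162) (nat_lit 5) (nat_lit 455) (nat_lit 415) (nat_lit 150)))) (XT.nd (nat_lit 156) (nat_lit 456) (nat_lit 0) (XT.nd (nat_lit 78) (nat_lit 380) (nat_lit 0) (XT.lf (nat_lit 0) (nat_lit 59192584445) (nat_lit 456) (nat_lit 885327298) (nat_lit 76) (nat_lit 13186462692) (nat_lit 156) (nat_lit 5) (nat_lit 162) (nat_lit 5) (nat_lit 157) (nat_lit 5) (nat_lit 456) (nat_lit 415) (nat_lit 149)) (XT.lf (nat_lit 0) (nat_lit 40355599361) (nat_lit 380) (nat_lit 32411796294) (nat_lit 456) (nat_lit 1824589425) (nat_lit 151) (nat_lit 5) (nat_lit 156) (nat_lit 5) (nat_lit 157) (nat_lit 5) (nat_lit 457) (nat_lit 415) (nat_lit 148))) (XT.nd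 (nat_lit 78) (nat_lit 0) (nat_lit 0) (XT.lf (nat_lit 0) (nat_lit 6923141382) (nat_lit 380) (nat_lit 3731238494) (nat_lit 456) (nat_lit 65299685610) (nat_lit 145) (nat_lit 5) (nat_lit 150) (nat_lit 5) (nat_lit 151) (nat_lit 5) (nat_lit 458) (nat_lit 415) (nat_lit 147)) (XT.lf (nat_lit 0) (nat_lit 24067624084) (nat_lit 456) (nat_lit 27597857933) (nat_lit 76) (nat_lit 25673087178) (nat_lit 145) (nat_lit 5) (nat_lit 151) (nat_lit 5) (nat_lit 146) (nat_lit 5) (nat_lit 459) (nat_lit 415) (nat_lit 146)))))) (XT.nd (nat_lit 546) (nat_lit 304) (nat_lit 0) (XT.nd (nat_lit 234) (nat_lit 760) (nat_lit 0) (XT.nd (nat_lit 78) (nat_lit 304) (nat_lit 0) (XT.lf (nat_lit 0) (nat_lit 15339715920) (nat_lit 380) (nat_lit 22727302681) (nat_lit 456) (nat_lit 40692077013) (nat_lit 140) (nat_lit 5) (nat_lit 145) (nat_lit 5) (nat_lit 146) (nat_lit 5) (nat_lit 460) (nat_lit 415) (nat_lit 145)) (XT.nd (nat_lit 78) (nat_lit 304) (nat_lit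 0) (XT.lf (nat_lit 0) (nat_lit 52835249870) (nat_lit 456) (nat_lit 20154421289) (nat_lit 76) (nat_lit 7222101203) (nat_lit 140) (nat_lit 5) (nat_lit 146) (nat_lit 5) (nat_lit 141) (nat_lit 5) (nat_lit 461) (nat_lit 415) (nat_lit 144)) (XT.lf (nat_lit 0) (nat_lit 24663887188) (nat_lit 304) (nat_lit 43844130120) (nat_lit 380) (nat_lit 13186167607) (nat_lit 136) (nat_lit 5) (nat_lit 140) (nat_lit 5) (nat_lit 141) (nat_lit 5) (nat_lit 462) (nat_lit 415) (nat_lit 143)))) (XT.nd (nat_lit 156) (nat_lit 304) (nat_lit 0) (XT.nd (nat_lit 78) (nat_lit 380) (nat_lit 0) (XT.lf (nat_lit 0) (nat_lit 1606916363) (nat_lit 380) (nat_lit 11991694693) (nat_lit 76) (nat_lit 69615898979) (nat_lit 135) (nat_lit 5) (nat_lit 140) (nat_lit 5) (nat_lit 136) (nat_lit 5) (nat_lit 463) (nat_lit 415) (nat_lit 142)) (XT.lf (nat_lit 0) (nat_lit 17087474292) (nat_lit 456) (nat_lit 49991178550) (nat_lit 76) (nat_lit 17682614236) (nat_lit 130)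 (nat_lit 5) (nat_lit 136) (nat_lit 5) (nat_lit 131) (nat_lit 5) (nat_lit 464) (nat_lit 415) (nat_lit 141))) (XT.nd (nat_lit 78) (nat_lit 304) (nat_lit 0) (XT.lf (nat_lit 0) (nat_lit 33288790912) (nat_lit 456) (nat_lit 3306932791) (nat_lit 76) (nat_lit 49751013029) (nat_lit 130) (nat_lit 5) (nat_lit 136) (nat_lit 5) (nat_lit 131) (nat_lit 5) (nat_lit 465) (nat_lit 415) (nat_lit 140)) (XT.lf (nat_lit 0) (nat_lit 45668172109) (nat_lit 304) (nat_lit 4746393192) (nat_lit 380) (nat_lit 37552052781) (nat_lit 126) (nat_lit 5) (nat_lit 130) (nat_lit 5) (nat_lit 131) (nat_lit 5) (nat_lit 466) (nat_lit 415) (nat_lit 139))))) (XT.nd (nat_lit 49296) (nat_lit 0) (nat_lit 9500) (XT.nd (nat_lit 49140) (nat_lit 0) (nat_lit 9424) (XT.nd (nat_lit 78) (nat_lit 0) (nat_lit 0) (XT.lf (nat_lit 0) (nat_lit 6400246126) (nat_lit 304) (nat_lit 62018263070) (nat_lit 380) (nat_lit 21205654937) (nat_lit 122) (nat_lit 5) (nat_lit 126) (nat_lit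 5) (nat_lit 127) (nat_lit 5) (nat_lit 467) (nat_lit 415) (nat_lit 138)) (XT.lf (nat_lit 0) (nat_lit 57378229092) (nat_lit 304) (nat_lit 30057449923) (nat_lit 380) (nat_lit 3881564469) (nat_lit 122) (nat_lit 5) (nat_lit 126) (nat_lit 5) (nat_lit 127) (nat_lit 5) (nat_lit 468) (nat_lit 415) (nat_lit 137))) (XT.nd (nat_lit 78) (nat_lit 0) (nat_lit 0) (XT.lf (nat_lit 0) (nat_lit 3889809116) (nat_lit 1292) (nat_lit 7682652247) (nat_lit 1292) (nat_lit 7682652247) (nat_lit 246) (nat_lit 3) (nat_lit 263) (nat_lit 3) (nat_lit 263) (nat_lit 5) (nat_lit 416) (nat_lit 416) (nat_lit 188)) (XT.lf (nat_lit 76) (nat_lit 3258780280) (nat_lit 0) (nat_lit 4712370838) (nat_lit 1292) (nat_lit 31114465984) (nat_lit 247) (nat_lit 5) (nat_lit 246) (nat_lit 3) (nat_lit 263) (nat_lit 5) (nat_lit 417) (nat_lit 416) (nat_lit 187)))) (XT.nd (nat_lit 156) (nat_lit 0) (nat_lit 76) (XT.nd (nat_lit 78) (nat_lit 0) (nat_lit 0) (XT.lf (nat_lit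 0) (nat_lit 8460629043) (nat_lit 1216) (nat_lit 17056743262) (nat_lit 1292) (nat_lit 14152131115) (nat_lit 247) (nat_lit 5) (nat_lit 263) (nat_lit 5) (nat_lit 264) (nat_lit 5) (nat_lit 418) (nat_lit 416) (nat_lit 186)) (XT.lf (nat_lit 76) (nat_lit 2273230519) (nat_lit 0) (nat_lit 6758420141) (nat_lit 1292) (nat_lit 31237250583) (nat_lit 248) (nat_lit 5) (nat_lit 247) (nat_lit 5) (nat_lit 264) (nat_lit 5) (nat_lit 419) (nat_lit 416) (nat_lit 185))) (XT.nd (nat_lit 78) (nat_lit 0) (nat_lit 0) (XT.lf (nat_lit 0) (nat_lit 9912910524) (nat_lit 1216) (nat_lit 18471806221) (nat_lit 1292) (nat_lit 12492771706) (nat_lit 248) (nat_lit 5) (nat_lit 264) (nat_lit 5) (nat_lit 265) (nat_lit 5) (nat_lit 420) (nat_lit 416) (nat_lit 184)) (XT.lf (nat_lit 76) (nat_lit 1601160902) (nat_lit 0) (nat_lit 9300196834) (nat_lit 1292) (nat_lit 30600553707) (nat_lit 249) (nat_lit 5) (nat_lit 248) (nat_lit 5) (nat_lit 265) (nat_lit 5) (nat_lit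 421) (nat_lit 416) (nat_lit 183))))))) (XT.nd (nat_lit 1092) (nat_lit 4256) (nat_lit 0) (XT.nd (nat_lit 546) (nat_lit 1520) (nat_lit 0) (XT.nd (nat_lit 234) (nat_lit 0) (nat_lit 76) (XT.nd (nat_lit 78) (nat_lit 0) (nat_lit 0) (XT.lf (nat_lit 0) (nat_lit 12205875852) (nat_lit 1216) (nat_lit 19586888916) (nat_lit 1292) (nat_lit 10343710470) (nat_lit 249) (nat_lit 5) (nat_lit 265) (nat_lit 5) (nat_lit 266) (nat_lit 5) (nat_lit 422) (nat_lit 416) (nat_lit 182)) (XT.nd (nat_lit 78) (nat_lit 0) (nat_lit 76) (XT.lf (nat_lit 76) (nat_lit 1268095885) (nat_lit 0) (nat_lit 12384233797) (nat_lit 1292) (nat_lit 29134662879) (nat_lit 250) (nat_lit 5) (nat_lit 249) (nat_lit 5) (nat_lit 266) (nat_lit 5) (nat_lit 423) (nat_lit 416) (nat_lit 181)) (XT.lf (nat_lit 0) (nat_lit 15413611188) (nat_lit 1216) (nat_lit 20376922300) (nat_lit 1292) (nat_lit 7658349492) (nat_lit 250) (nat_lit 5) (nat_lit 266) (nat_lit 5) (nat_lit 267) (nat_lit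 5) (nat_lit 424) (nat_lit 416) (nat_lit 180)))) (XT.nd (nat_lit 156) (nat_lit 0) (nat_lit 76) (XT.nd (nat_lit 78) (nat_lit 0) (nat_lit 76) (XT.lf (nat_lit 76) (nat_lit 1301117954) (nat_lit 0) (nat_lit 16060345957) (nat_lit 1292) (nat_lit 26765154803) (nat_lit 251) (nat_lit 5) (nat_lit 250) (nat_lit 5) (nat_lit 267) (nat_lit 5) (nat_lit 425) (nat_lit 416) (nat_lit 179)) (XT.lf (nat_lit 0) (nat_lit 19615167615) (nat_lit 1216) (nat_lit 20815313385) (nat_lit 1292) (nat_lit 4386783623) (nat_lit 251) (nat_lit 5) (nat_lit 267) (nat_lit 5) (nat_lit 268) (nat_lit 5) (nat_lit 426) (nat_lit 416) (nat_lit 178))) (XT.nd (nat_lit 78) (nat_lit 0) (nat_lit 76) (XT.lf (nat_lit 76) (nat_lit 1728930743) (nat_lit 0) (nat_lit 20381868648) (nat_lit 1292) (nat_lit 23412601558) (nat_lit 252) (nat_lit 5) (nat_lit 251) (nat_lit 5) (nat_lit 268) (nat_lit 5) (nat_lit 427) (nat_lit 416) (nat_lit 177)) (XT.lf (nat_lit 0) (nat_lit 24894869491)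 (nat_lit 1216) (nat_lit 20873884999) (nat_lit 1292) (nat_lit 475560329) (nat_lit 252) (nat_lit 5) (nat_lit 268) (nat_lit 5) (nat_lit 269) (nat_lit 5) (nat_lit 428) (nat_lit 416) (nat_lit 176))))) (XT.nd (nat_lit 234) (nat_lit 1748) (nat_lit 0) (XT.nd (nat_lit 78) (nat_lit 0) (nat_lit 0) (XT.lf (nat_lit 76) (nat_lit 2581923090) (nat_lit 0) (nat_lit 25405911963) (nat_lit 1292) (nat_lit 18992260368) (nat_lit 253) (nat_lit 5) (nat_lit 252) (nat_lit 5) (nat_lit 269) (nat_lit 5) (nat_lit 429) (nat_lit 416) (nat_lit 175)) (XT.nd (nat_lit 78) (nat_lit 0) (nat_lit 76) (XT.lf (nat_lit 76) (nat_lit 27168332563) (nat_lit 0) (nat_lit 4214822992) (nat_lit 1292) (nat_lit 16348507410) (nat_lit 253) (nat_lit 5) (nat_lit 252) (nat_lit 5) (nat_lit 269) (nat_lit 5) (nat_lit 430) (nat_lit 416) (nat_lit 174)) (XT.lf (nat_lit 76) (nat_lit 3892233746) (nat_lit 0) (nat_lit 31193632295) (nat_lit 1292) (nat_lit 13413746072) (nat_lit 254)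 (nat_lit 5) (nat_lit 253) (nat_lit 5) (nat_lit 270) (nat_lit 5) (nat_lit 431) (nat_lit 416) (nat_lit 173)))) (XT.nd (nat_lit 156) (nat_lit 684) (nat_lit 0) (XT.nd (nat_lit 78) (nat_lit 1140) (nat_lit 0) (XT.lf (nat_lit 76) (nat_lit 29459463838) (nat_lit 0) (nat_lit 9688008757) (nat_lit 1292) (nat_lit 10135693172) (nat_lit 254) (nat_lit 5) (nat_lit 253) (nat_lit 5) (nat_lit 270) (nat_lit 5) (nat_lit 432) (nat_lit 416) (nat_lit 172)) (XT.lf (nat_lit 0) (nat_lit 5693816400) (nat_lit 1216) (nat_lit 37810522374) (nat_lit 1292) (nat_lit 6580685373) (nat_lit 238) (nat_lit 5) (nat_lit 254) (nat_lit 5) (nat_lit 255) (nat_lit 5) (nat_lit 433) (nat_lit 416) (nat_lit 171))) (XT.nd (nat_lit 78) (nat_lit 684) (nat_lit 0) (XT.lf (nat_lit 0) (nat_lit 32284431039) (nat_lit 1216) (nat_lit 16001543346) (nat_lit 1292) (nat_lit 2616142438) (nat_lit 238) (nat_lit 5) (nat_lit 254) (nat_lit 5) (nat_lit 255) (nat_lit 5) (nat_lit 434)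 (nat_lit 416) (nat_lit 170)) (XT.lf (nat_lit 0) (nat_lit 1578238049) (nat_lit 684) (nat_lit 43732546003) (nat_lit 76) (nat_lit 6428329471) (nat_lit 229) (nat_lit 5) (nat_lit 238) (nat_lit 5) (nat_lit 230) (nat_lit 5) (nat_lit 435) (nat_lit 416) (nat_lit 169)))))) (XT.nd (nat_lit 546) (nat_lit 2508) (nat_lit 0) (XT.nd (nat_lit 234) (nat_lit 1140) (nat_lit 0) (XT.nd (nat_lit 78) (nat_lit 608) (nat_lit 0) (XT.lf (nat_lit 0) (nat_lit 6193109394) (nat_lit 684) (nat_lit 16971565414) (nat_lit 76) (nat_lit 29425351414) (nat_lit 229) (nat_lit 5) (nat_lit 238) (nat_lit 5) (nat_lit 230) (nat_lit 5) (nat_lit 436) (nat_lit 416) (nat_lit 168)) (XT.nd (nat_lit 78) (nat_lit 0) (nat_lit 0) (XT.lf (nat_lit 0) (nat_lit 10802077512) (nat_lit 608) (nat_lit 247162889) (nat_lit 684) (nat_lit 42414141892) (nat_lit 221) (nat_lit 5) (nat_lit 229) (nat_lit 5) (nat_lit 230) (nat_lit 5) (nat_lit 437) (nat_lit 416) (nat_lit 167)) (XT.lf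 (nat_lit 0) (nat_lit 16447660467) (nat_lit 684) (nat_lit 14828170637) (nat_lit 76) (nat_lit 23075210173) (nat_lit 221) (nat_lit 5) (nat_lit 230) (nat_lit 5) (nat_lit 222) (nat_lit 5) (nat_lit 438) (nat_lit 416) (nat_lit 166)))) (XT.nd (nat_lit 156) (nat_lit 532) (nat_lit 0) (XT.nd (nat_lit 78) (nat_lit 0) (nat_lit 0) (XT.lf (nat_lit 0) (nat_lit 14111937381) (nat_lit 608) (nat_lit 8033223245) (nat_lit 684) (nat_lit 33116055956) (nat_lit 213) (nat_lit 5) (nat_lit 221) (nat_lit 5) (nat_lit 222) (nat_lit 5) (nat_lit 439) (nat_lit 416) (nat_lit 165)) (XT.lf (nat_lit 0) (nat_lit 28316755536) (nat_lit 684) (nat_lit 12125348103) (nat_lit 76) (nat_lit 15747498776) (nat_lit 213) (nat_lit 5) (nat_lit 222) (nat_lit 5) (nat_lit 214) (nat_lit 5) (nat_lit 440) (nat_lit 416) (nat_lit 164))) (XT.nd (nat_lit 78) (nat_lit 0) (nat_lit 0) (XT.lf (nat_lit 0) (nat_lit 18040867019) (nat_lit 532) (nat_lit 16884662934) (nat_lit 608)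 (nat_lit 22212749274) (nat_lit 206) (nat_lit 5) (nat_lit 213) (nat_lit 5) (nat_lit 214) (nat_lit 5) (nat_lit 441) (nat_lit 416) (nat_lit 163)) (XT.lf (nat_lit 0) (nat_lit 41926251148) (nat_lit 608) (nat_lit 8824222771) (nat_lit 76) (nat_lit 7359132260) (nat_lit 206) (nat_lit 5) (nat_lit 214) (nat_lit 5) (nat_lit 207) (nat_lit 5) (nat_lit 442) (nat_lit 416) (nat_lit 162))))) (XT.nd (nat_lit 312) (nat_lit 1444) (nat_lit 0) (XT.nd (nat_lit 156) (nat_lit 532) (nat_lit 0) (XT.nd (nat_lit 78) (nat_lit 0) (nat_lit 0) (XT.lf (nat_lit 0) (nat_lit 22630663653) (nat_lit 532) (nat_lit 26890164141) (nat_lit 608) (nat_lit 9577730463) (nat_lit 199) (nat_lit 5) (nat_lit 206) (nat_lit 5) (nat_lit 207) (nat_lit 5) (nat_lit 443) (nat_lit 416) (nat_lit 161)) (XT.lf (nat_lit 0) (nat_lit 55209164124) (nat_lit 532) (nat_lit 2222320923) (nat_lit 608) (nat_lit 2683046874) (nat_lit 199) (nat_lit 5) (nat_lit 206) (nat_lit 5) (nat_lit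 207) (nat_lit 5) (nat_lit 444) (nat_lit 416) (nat_lit 160))) (XT.nd (nat_lit 78) (nat_lit 0) (nat_lit 0) (XT.lf (nat_lit 0) (nat_lit 4827580741) (nat_lit 532) (nat_lit 33268437335) (nat_lit 76) (nat_lit 23048833114) (nat_lit 192) (nat_lit 5) (nat_lit 199) (nat_lit 5) (nat_lit 193) (nat_lit 5) (nat_lit 445) (nat_lit 416) (nat_lit 159)) (XT.lf (nat_lit 0) (nat_lit 12580796666) (nat_lit 532) (nat_lit 512374704) (nat_lit 76) (nat_lit 49109976134) (nat_lit 192) (nat_lit 5) (nat_lit 199) (nat_lit 5) (nat_lit 193) (nat_lit 5) (nat_lit 446) (nat_lit 416) (nat_lit 158)))) (XT.nd (nat_lit 156) (nat_lit 456) (nat_lit 0) (XT.nd (nat_lit 78) (nat_lit 456) (nat_lit 0) (XT.lf (nat_lit 0) (nat_lit 21016458694) (nat_lit 608) (nat_lit 29521640327) (nat_lit 76) (nat_lit 12741598485) (nat_lit 185) (nat_lit 5) (nat_lit 193) (nat_lit 5) (nat_lit 186) (nat_lit 5) (nat_lit 447) (nat_lit 416) (nat_lit 157)) (XT.lf (nat_lit 0) (nat_lit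 4638632468) (nat_lit 456) (nat_lit 25245214174) (nat_lit 532) (nat_lit 34499337963) (nat_lit 179) (nat_lit 5) (nat_lit 185) (nat_lit 5) (nat_lit 186) (nat_lit 5) (nat_lit 448) (nat_lit 416) (nat_lit 156))) (XT.nd (nat_lit 78) (nat_lit 456) (nat_lit 0) (XT.lf (nat_lit 0) (nat_lit 39325290000) (nat_lit 532) (nat_lit 25093585888) (nat_lit 76) (nat_lit 1091659686) (nat_lit 179) (nat_lit 5) (nat_lit 186) (nat_lit 5) (nat_lit 180) (nat_lit 5) (nat_lit 449) (nat_lit 416) (nat_lit 155)) (XT.lf (nat_lit 0) (nat_lit 10551963280) (nat_lit 456) (nat_lit 38848639997) (nat_lit 532) (nat_lit 17260585259) (nat_lit 173) (nat_lit 5) (nat_lit 179) (nat_lit 5) (nat_lit 180) (nat_lit 5) (nat_lit 450) (nat_lit 416) (nat_lit 154))))))))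
noncomputable def xc240 : XT := (XT.nd (nat_lit 51246) (nat_lit 0) (nat_lit 2964) (XT.nd (nat_lit 1092) (nat_lit 988) (nat_lit 0) (XT.nd (nat_lit 546) (nat_lit 1596) (nat_lit 0) (XT.nd (nat_lit 234) (nat_lit 836) (nat_lit 0) (XT.nd (nat_lit 78) (nat_lit 456) (nat_lit 0) (XT.lf (nat_lit 0) (nat_lit 47780381395) (nat_lit 456) (nat_lit 12250446155) (nat_lit 532) (nat_lit 7807954244) (nat_lit 173) (nat_lit 5) (nat_lit 179) (nat_lit 5) (nat_lit 180) (nat_lit 5) (nat_lit 451) (nat_lit 416) (nat_lit 153)) (XT.nd (nat_lit 78) (nat_lit 0) (nat_lit 0) (XT.lf (nat_lit 0) (nat_lit 2204526867) (nat_lit 456) (nat_lit 51799628055) (nat_lit 76) (nat_lit 15037575148) (nat_lit 167) (nat_lit 5) (nat_lit 173) (nat_lit 5) (nat_lit 168) (nat_lit 5) (nat_lit 452) (nat_lit 416) (nat_lit 152)) (XT.lf (nat_lit 0) (nat_lit 12685579045) (nat_lit 456) (nat_lit 14403388589) (nat_lit 76) (nat_lit 43179726339) (nat_lit 167) (nat_lit 5) (nat_lit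 173) (nat_lit 5) (nat_lit 168) (nat_lit 5) (nat_lit 453) (nat_lit 416) (nat_lit 151)))) (XT.nd (nat_lit 156) (nat_lit 380) (nat_lit 0) (XT.nd (nat_lit 78) (nat_lit 0) (nat_lit 0) (XT.lf (nat_lit 0) (nat_lit 23725205859) (nat_lit 532) (nat_lit 46940040497) (nat_lit 76) (nat_lit 859896368) (nat_lit 161) (nat_lit 5) (nat_lit 168) (nat_lit 5) (nat_lit 162) (nat_lit 5) (nat_lit 454) (nat_lit 416) (nat_lit 150)) (XT.lf (nat_lit 0) (nat_lit 35510427756) (nat_lit 532) (nat_lit 8046942660) (nat_lit 76) (nat_lit 29249482554) (nat_lit 161) (nat_lit 5) (nat_lit 168) (nat_lit 5) (nat_lit 162) (nat_lit 5) (nat_lit 455) (nat_lit 416) (nat_lit 149))) (XT.nd (nat_lit 78) (nat_lit 0) (nat_lit 0) (XT.lf (nat_lit 0) (nat_lit 32649200587) (nat_lit 380) (nat_lit 15313182467) (nat_lit 456) (nat_lit 26155236381) (nat_lit 156) (nat_lit 5) (nat_lit 161) (nat_lit 5) (nat_lit 162) (nat_lit 5) (nat_lit 456) (nat_lit 416) (nat_lit 148))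 (XT.lf (nat_lit 0) (nat_lit 61001747839) (nat_lit 456) (nat_lit 868199636) (nat_lit 76) (nat_lit 13591346101) (nat_lit 156) (nat_lit 5) (nat_lit 162) (nat_lit 5) (nat_lit 157) (nat_lit 5) (nat_lit 457) (nat_lit 416) (nat_lit 147))))) (XT.nd (nat_lit 234) (nat_lit 760) (nat_lit 0) (XT.nd (nat_lit 78) (nat_lit 456) (nat_lit 0) (XT.lf (nat_lit 0) (nat_lit 41609526514) (nat_lit 380) (nat_lit 33373720302) (nat_lit 456) (nat_lit 1845502729) (nat_lit 151) (nat_lit 5) (nat_lit 156) (nat_lit 5) (nat_lit 157) (nat_lit 5) (nat_lit 458) (nat_lit 416) (nat_lit 146)) (XT.nd (nat_lit 78) (nat_lit 0) (nat_lit 0) (XT.lf (nat_lit 0) (nat_lit 7174334066) (nat_lit 380) (nat_lit 3832293732) (nat_lit 456) (nat_lit 67225071534) (nat_lit 145) (nat_lit 5) (nat_lit 150) (nat_lit 5) (nat_lit 151) (nat_lit 5) (nat_lit 459) (nat_lit 416) (nat_lit 145)) (XT.lf (nat_lit 0) (nat_lit 24821420893) (nat_lit 456) (nat_lit 28382704391) (nat_lit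 76) (nat_lit 26453638601) (nat_lit 145) (nat_lit 5) (nat_lit 151) (nat_lit 5) (nat_lit 146) (nat_lit 5) (nat_lit 460) (nat_lit 416) (nat_lit 144)))) (XT.nd (nat_lit 156) (nat_lit 380) (nat_lit 0) (XT.nd (nat_lit 78) (nat_lit 0) (nat_lit 0) (XT.lf (nat_lit 0) (nat_lit 15842574233) (nat_lit 380) (nat_lit 23397707868) (nat_lit 456) (nat_lit 41880639722) (nat_lit 140) (nat_lit 5) (nat_lit 145) (nat_lit 5) (nat_lit 146) (nat_lit 5) (nat_lit 461) (nat_lit 416) (nat_lit 143)) (XT.lf (nat_lit 0) (nat_lit 54450756551) (nat_lit 456) (nat_lit 20716817250) (nat_lit 76) (nat_lit 7449629451) (nat_lit 140) (nat_lit 5) (nat_lit 146) (nat_lit 5) (nat_lit 141) (nat_lit 5) (nat_lit 462) (nat_lit 416) (nat_lit 142))) (XT.nd (nat_lit 78) (nat_lit 76) (nat_lit 0) (XT.lf (nat_lit 0) (nat_lit 25445626397) (nat_lit 304) (nat_lit 45147595771) (nat_lit 380) (nat_lit 13550880816) (nat_lit 136) (nat_lit 5) (nat_lit 140) (nat_lit 5) (nat_lit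 141) (nat_lit 5) (nat_lit 463) (nat_lit 416) (nat_lit 141)) (XT.lf (nat_lit 0) (nat_lit 1684511620) (nat_lit 380) (nat_lit 12310248142) (nat_lit 76) (nat_lit 71715295882) (nat_lit 135) (nat_lit 5) (nat_lit 140) (nat_lit 5) (nat_lit 136) (nat_lit 5) (nat_lit 464) (nat_lit 416) (nat_lit 140)))))) (XT.nd (nat_lit 49608) (nat_lit 0) (nat_lit 9500) (XT.nd (nat_lit 234) (nat_lit 304) (nat_lit 0) (XT.nd (nat_lit 78) (nat_lit 304) (nat_lit 0) (XT.lf (nat_lit 0) (nat_lit 17629136562) (nat_lit 456) (nat_lit 51449358964) (nat_lit 76) (nat_lit 18224730598) (nat_lit 130) (nat_lit 5) (nat_lit 136) (nat_lit 5) (nat_lit 131) (nat_lit 5) (nat_lit 465) (nat_lit 416) (nat_lit 139)) (XT.nd (nat_lit 78) (nat_lit 304) (nat_lit 0) (XT.lf (nat_lit 0) (nat_lit 34315646912) (nat_lit 456) (nat_lit 3365796171) (nat_lit 76) (nat_lit 51254842385) (nat_lit 130) (nat_lit 5) (nat_lit 136) (nat_lit 5) (nat_lit 131) (nat_lit 5) (nat_lit 466)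 (nat_lit 416) (nat_lit 138)) (XT.lf (nat_lit 0) (nat_lit 47078166341) (nat_lit 304) (nat_lit 4876591073) (nat_lit 380) (nat_lit 38650019180) (nat_lit 126) (nat_lit 5) (nat_lit 130) (nat_lit 5) (nat_lit 131) (nat_lit 5) (nat_lit 467) (nat_lit 416) (nat_lit 137)))) (XT.nd (nat_lit 49218) (nat_lit 0) (nat_lit 9424) (XT.nd (nat_lit 49140) (nat_lit 0) (nat_lit 9424) (XT.lf (nat_lit 0) (nat_lit 6632526650) (nat_lit 304) (nat_lit 63865985505) (nat_lit 380) (nat_lit 21813546312) (nat_lit 122) (nat_lit 5) (nat_lit 126) (nat_lit 5) (nat_lit 127) (nat_lit 5) (nat_lit 468) (nat_lit 416) (nat_lit 136)) (XT.lf (nat_lit 0) (nat_lit 4049598336) (nat_lit 1292) (nat_lit 7890928820) (nat_lit 1292) (nat_lit 7890928820) (nat_lit 246) (nat_lit 3) (nat_lit 263) (nat_lit 3) (nat_lit 263) (nat_lit 5) (nat_lit 417) (nat_lit 417) (nat_lit 186))) (XT.nd (nat_lit 78) (nat_lit 0) (nat_lit 76) (XT.lf (nat_lit 76) (nat_lit 3400514326) (nat_lit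 0) (nat_lit 4893873505) (nat_lit 1292) (nat_lit 31961239386) (nat_lit 247) (nat_lit 5) (nat_lit 246) (nat_lit 3) (nat_lit 263) (nat_lit 5) (nat_lit 418) (nat_lit 417) (nat_lit 185)) (XT.lf (nat_lit 0) (nat_lit 8795725983) (nat_lit 1216) (nat_lit 17522897206) (nat_lit 1292) (nat_lit 14538492688) (nat_lit 247) (nat_lit 5) (nat_lit 263) (nat_lit 5) (nat_lit 264) (nat_lit 5) (nat_lit 419) (nat_lit 417) (nat_lit 184))))) (XT.nd (nat_lit 234) (nat_lit 0) (nat_lit 152) (XT.nd (nat_lit 78) (nat_lit 0) (nat_lit 76) (XT.lf (nat_lit 76) (nat_lit 2386529236) (nat_lit 0) (nat_lit 6995415237) (nat_lit 1292) (nat_lit 32092610175) (nat_lit 248) (nat_lit 5) (nat_lit 247) (nat_lit 5) (nat_lit 264) (nat_lit 5) (nat_lit 420) (nat_lit 417) (nat_lit 183)) (XT.nd (nat_lit 78) (nat_lit 0) (nat_lit 0) (XT.lf (nat_lit 0) (nat_lit 10287011561) (nat_lit 1216) (nat_lit 18979509345) (nat_lit 1292) (nat_lit 12834958453) (nat_lit 248) (nat_lit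 5) (nat_lit 264) (nat_lit 5) (nat_lit 265) (nat_lit 5) (nat_lit 421) (nat_lit 417) (nat_lit 182)) (XT.lf (nat_lit 76) (nat_lit 1695191388) (nat_lit 0) (nat_lit 9608128559) (nat_lit 1292) (nat_lit 31441369803) (nat_lit 249) (nat_lit 5) (nat_lit 248) (nat_lit 5) (nat_lit 265) (nat_lit 5) (nat_lit 422) (nat_lit 417) (nat_lit 181)))) (XT.nd (nat_lit 156) (nat_lit 0) (nat_lit 76) (XT.nd (nat_lit 78) (nat_lit 0) (nat_lit 0) (XT.lf (nat_lit 0) (nat_lit 12644521474) (nat_lit 1216) (nat_lit 20127356992) (nat_lit 1292) (nat_lit 10626486471) (nat_lit 249) (nat_lit 5) (nat_lit 265) (nat_lit 5) (nat_lit 266) (nat_lit 5) (nat_lit 423) (nat_lit 417) (nat_lit 180)) (XT.lf (nat_lit 76) (nat_lit 1352815209) (nat_lit 0) (nat_lit 12779891634) (nat_lit 1292) (nat_lit 29935741686) (nat_lit 250) (nat_lit 5) (nat_lit 249) (nat_lit 5) (nat_lit 266) (nat_lit 5) (nat_lit 424) (nat_lit 417) (nat_lit 179))) (XT.nd (nat_lit 78) (nat_lit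 0) (nat_lit 0) (XT.lf (nat_lit 0) (nat_lit 15944539243) (nat_lit 1216) (nat_lit 20940596749) (nat_lit 1292) (nat_lit 7865129158) (nat_lit 250) (nat_lit 5) (nat_lit 266) (nat_lit 5) (nat_lit 267) (nat_lit 5) (nat_lit 425) (nat_lit 417) (nat_lit 178)) (XT.lf (nat_lit 76) (nat_lit 1387317721) (nat_lit 0) (nat_lit 16561967498) (nat_lit 1292) (nat_lit 27499094843) (nat_lit 251) (nat_lit 5) (nat_lit 250) (nat_lit 5) (nat_lit 267) (nat_lit 5) (nat_lit 426) (nat_lit 417) (nat_lit 177))))))) (XT.nd (nat_lit 1092) (nat_lit 3952) (nat_lit 0) (XT.nd (nat_lit 546) (nat_lit 2888) (nat_lit 0) (XT.nd (nat_lit 234) (nat_lit 0) (nat_lit 76) (XT.nd (nat_lit 78) (nat_lit 0) (nat_lit 0) (XT.lf (nat_lit 0) (nat_lit 20268464345) (nat_lit 1216) (nat_lit 21391817565) (nat_lit 1292) (nat_lit 4499528321) (nat_lit 251) (nat_lit 5) (nat_lit 267) (nat_lit 5) (nat_lit 268) (nat_lit 5) (nat_lit 427) (nat_lit 417) (nat_lit 176)) (XT.nd (nat_lit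 78) (nat_lit 0) (nat_lit 76) (XT.lf (nat_lit 76) (nat_lit 1828283738) (nat_lit 0) (nat_lit 21009249200) (nat_lit 1292) (nat_lit 24049641463) (nat_lit 252) (nat_lit 5) (nat_lit 251) (nat_lit 5) (nat_lit 268) (nat_lit 5) (nat_lit 428) (nat_lit 417) (nat_lit 175)) (XT.lf (nat_lit 0) (nat_lit 25703129642) (nat_lit 1216) (nat_lit 21451978514) (nat_lit 1292) (nat_lit 474668160) (nat_lit 252) (nat_lit 5) (nat_lit 268) (nat_lit 5) (nat_lit 269) (nat_lit 5) (nat_lit 429) (nat_lit 417) (nat_lit 174)))) (XT.nd (nat_lit 156) (nat_lit 0) (nat_lit 76) (XT.nd (nat_lit 78) (nat_lit 0) (nat_lit 0) (XT.lf (nat_lit 76) (nat_lit 2707032023) (nat_lit 0) (nat_lit 26180521441) (nat_lit 1292) (nat_lit 19500117537) (nat_lit 253) (nat_lit 5) (nat_lit 252) (nat_lit 5) (nat_lit 269) (nat_lit 5) (nat_lit 430) (nat_lit 417) (nat_lit 173)) (XT.lf (nat_lit 76) (nat_lit 28029645880) (nat_lit 0) (nat_lit 4353337701) (nat_lit 1292) (nat_lit 16778855213)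 (nat_lit 253) (nat_lit 5) (nat_lit 252) (nat_lit 5) (nat_lit 269) (nat_lit 5) (nat_lit 431) (nat_lit 417) (nat_lit 172))) (XT.nd (nat_lit 78) (nat_lit 0) (nat_lit 0) (XT.lf (nat_lit 76) (nat_lit 4056682091) (nat_lit 0) (nat_lit 32138739958) (nat_lit 1292) (nat_lit 13757445668) (nat_lit 254) (nat_lit 5) (nat_lit 253) (nat_lit 5) (nat_lit 270) (nat_lit 5) (nat_lit 432) (nat_lit 417) (nat_lit 171)) (XT.lf (nat_lit 76) (nat_lit 30389540308) (nat_lit 0) (nat_lit 9987676878) (nat_lit 1292) (nat_lit 10382761262) (nat_lit 254) (nat_lit 5) (nat_lit 253) (nat_lit 5) (nat_lit 270) (nat_lit 5) (nat_lit 433) (nat_lit 417) (nat_lit 170))))) (XT.nd (nat_lit 234) (nat_lit 1216) (nat_lit 0) (XT.nd (nat_lit 78) (nat_lit 684) (nat_lit 0) (XT.lf (nat_lit 0) (nat_lit 5912221328) (nat_lit 1216) (nat_lit 38951329965) (nat_lit 1292) (nat_lit 6722379091) (nat_lit 238) (nat_lit 5) (nat_lit 254) (nat_lit 5) (nat_lit 255) (nat_lit 5) (nat_lit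 434) (nat_lit 417) (nat_lit 169)) (XT.nd (nat_lit 78) (nat_lit 684) (nat_lit 0) (XT.lf (nat_lit 0) (nat_lit 33299168276) (nat_lit 1216) (nat_lit 16487892481) (nat_lit 1292) (nat_lit 2640522980) (nat_lit 238) (nat_lit 5) (nat_lit 254) (nat_lit 5) (nat_lit 255) (nat_lit 5) (nat_lit 435) (nat_lit 417) (nat_lit 168)) (XT.lf (nat_lit 0) (nat_lit 1677488746) (nat_lit 684) (nat_lit 44996076998) (nat_lit 76) (nat_lit 6616143929) (nat_lit 229) (nat_lit 5) (nat_lit 238) (nat_lit 5) (nat_lit 230) (nat_lit 5) (nat_lit 436) (nat_lit 417) (nat_lit 167)))) (XT.nd (nat_lit 156) (nat_lit 608) (nat_lit 0) (XT.nd (nat_lit 78) (nat_lit 608) (nat_lit 0) (XT.lf (nat_lit 0) (nat_lit 6429294477) (nat_lit 684) (nat_lit 17433678022) (nat_lit 76) (nat_lit 30303223193) (nat_lit 229) (nat_lit 5) (nat_lit 238) (nat_lit 5) (nat_lit 230) (nat_lit 5) (nat_lit 437) (nat_lit 417) (nat_lit 166)) (XT.lf (nat_lit 0) (nat_lit 11172713071) (nat_lit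 608) (nat_lit 257376311) (nat_lit 684) (nat_lit 43635694233) (nat_lit 221) (nat_lit 5) (nat_lit 229) (nat_lit 5) (nat_lit 230) (nat_lit 5) (nat_lit 438) (nat_lit 417) (nat_lit 165))) (XT.nd (nat_lit 78) (nat_lit 608) (nat_lit 0) (XT.lf (nat_lit 0) (nat_lit 16988997920) (nat_lit 684) (nat_lit 15226316454) (nat_lit 76) (nat_lit 23764802472) (nat_lit 221) (nat_lit 5) (nat_lit 230) (nat_lit 5) (nat_lit 222) (nat_lit 5) (nat_lit 439) (nat_lit 417) (nat_lit 164)) (XT.lf (nat_lit 0) (nat_lit 14581536967) (nat_lit 608) (nat_lit 8274935249) (nat_lit 684) (nat_lit 34061154256) (nat_lit 213) (nat_lit 5) (nat_lit 221) (nat_lit 5) (nat_lit 222) (nat_lit 5) (nat_lit 440) (nat_lit 417) (nat_lit 163)))))) (XT.nd (nat_lit 546) (nat_lit 2356) (nat_lit 0) (XT.nd (nat_lit 234) (nat_lit 1064) (nat_lit 0) (XT.nd (nat_lit 78) (nat_lit 532) (nat_lit 0) (XT.lf (nat_lit 0) (nat_lit 29211840625) (nat_lit 684) (nat_lit 12442822190) (nat_lit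 76) (nat_lit 16219242818) (nat_lit 213) (nat_lit 5) (nat_lit 222) (nat_lit 5) (nat_lit 214) (nat_lit 5) (nat_lit 441) (nat_lit 417) (nat_lit 162)) (XT.nd (nat_lit 78) (nat_lit 0) (nat_lit 0) (XT.lf (nat_lit 0) (nat_lit 18627925598) (nat_lit 532) (nat_lit 17390065604) (nat_lit 608) (nat_lit 22833078666) (nat_lit 206) (nat_lit 5) (nat_lit 213) (nat_lit 5) (nat_lit 214) (nat_lit 5) (nat_lit 442) (nat_lit 417) (nat_lit 161)) (XT.lf (nat_lit 0) (nat_lit 43227442840) (nat_lit 608) (nat_lit 9043144238) (nat_lit 76) (nat_lit 7580988778) (nat_lit 206) (nat_lit 5) (nat_lit 214) (nat_lit 5) (nat_lit 207) (nat_lit 5) (nat_lit 443) (nat_lit 417) (nat_lit 160)))) (XT.nd (nat_lit 156) (nat_lit 532) (nat_lit 0) (XT.nd (nat_lit 78) (nat_lit 0) (nat_lit 0) (XT.lf (nat_lit 0) (nat_lit 23354939708) (nat_lit 532) (nat_lit 27694088870) (nat_lit 608) (nat_lit 9821193242) (nat_lit 199) (nat_lit 5) (nat_lit 206) (nat_lit 5) (nat_lit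 207) (nat_lit 5) (nat_lit 444) (nat_lit 417) (nat_lit 159)) (XT.lf (nat_lit 0) (nat_lit 56909474140) (nat_lit 532) (nat_lit 2286291332) (nat_lit 608) (nat_lit 2720946888) (nat_lit 199) (nat_lit 5) (nat_lit 206) (nat_lit 5) (nat_lit 207) (nat_lit 5) (nat_lit 445) (nat_lit 417) (nat_lit 158))) (XT.nd (nat_lit 78) (nat_lit 0) (nat_lit 0) (XT.lf (nat_lit 0) (nat_lit 5013412677) (nat_lit 532) (nat_lit 34220838934) (nat_lit 76) (nat_lit 23743700422) (nat_lit 192) (nat_lit 5) (nat_lit 199) (nat_lit 5) (nat_lit 193) (nat_lit 5) (nat_lit 446) (nat_lit 417) (nat_lit 157)) (XT.lf (nat_lit 0) (nat_lit 12998030774) (nat_lit 532) (nat_lit 483424080) (nat_lit 76) (nat_lit 50586578636) (nat_lit 192) (nat_lit 5) (nat_lit 199) (nat_lit 5) (nat_lit 193) (nat_lit 5) (nat_lit 447) (nat_lit 417) (nat_lit 156))))) (XT.nd (nat_lit 312) (nat_lit 912) (nat_lit 0) (XT.nd (nat_lit 156) (nat_lit 456) (nat_lit 0) (XT.nd (nat_lit 78) (nat_lit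 456) (nat_lit 0) (XT.lf (nat_lit 0) (nat_lit 21686071297) (nat_lit 608) (nat_lit 30362262585) (nat_lit 76) (nat_lit 13128567263) (nat_lit 185) (nat_lit 5) (nat_lit 193) (nat_lit 5) (nat_lit 186) (nat_lit 5) (nat_lit 448) (nat_lit 417) (nat_lit 155)) (XT.lf (nat_lit 0) (nat_lit 4822376953) (nat_lit 456) (nat_lit 25996393130) (nat_lit 532) (nat_lit 35494744498) (nat_lit 179) (nat_lit 5) (nat_lit 185) (nat_lit 5) (nat_lit 186) (nat_lit 5) (nat_lit 449) (nat_lit 417) (nat_lit 154))) (XT.nd (nat_lit 78) (nat_lit 456) (nat_lit 0) (XT.lf (nat_lit 0) (nat_lit 40542395713) (nat_lit 532) (nat_lit 25802032599) (nat_lit 76) (nat_lit 1130289986) (nat_lit 179) (nat_lit 5) (nat_lit 186) (nat_lit 5) (nat_lit 180) (nat_lit 5) (nat_lit 450) (nat_lit 417) (nat_lit 153)) (XT.lf (nat_lit 0) (nat_lit 10912448133) (nat_lit 456) (nat_lit 40006854721) (nat_lit 532) (nat_lit 17740608337) (nat_lit 173) (nat_lit 5) (nat_lit 179) (nat_lit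 5) (nat_lit 180) (nat_lit 5) (nat_lit 451) (nat_lit 417) (nat_lit 152)))) (XT.nd (nat_lit 156) (nat_lit 456) (nat_lit 0) (XT.nd (nat_lit 78) (nat_lit 456) (nat_lit 0) (XT.lf (nat_lit 0) (nat_lit 49256439395) (nat_lit 456) (nat_lit 12610926067) (nat_lit 532) (nat_lit 8005499202) (nat_lit 173) (nat_lit 5) (nat_lit 179) (nat_lit 5) (nat_lit 180) (nat_lit 5) (nat_lit 452) (nat_lit 417) (nat_lit 151)) (XT.lf (nat_lit 0) (nat_lit 2306078398) (nat_lit 456) (nat_lit 53309669066) (nat_lit 76) (nat_lit 15496160547) (nat_lit 167) (nat_lit 5) (nat_lit 173) (nat_lit 5) (nat_lit 168) (nat_lit 5) (nat_lit 453) (nat_lit 417) (nat_lit 150))) (XT.nd (nat_lit 78) (nat_lit 456) (nat_lit 0) (XT.lf (nat_lit 0) (nat_lit 13100530614) (nat_lit 456) (nat_lit 14792822450) (nat_lit 76) (nat_lit 44482359045) (nat_lit 167) (nat_lit 5) (nat_lit 173) (nat_lit 5) (nat_lit 168) (nat_lit 5) (nat_lit 454) (nat_lit 417) (nat_lit 149)) (XT.lf (nat_lit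 0) (nat_lit 24470832208) (nat_lit 532) (nat_lit 48305049059) (nat_lit 76) (nat_lit 893988802) (nat_lit 161) (nat_lit 5) (nat_lit 168) (nat_lit 5) (nat_lit 162) (nat_lit 5) (nat_lit 455) (nat_lit 417) (nat_lit 148))))))))
noncomputable def xc241 : XT := (XT.nd (nat_lit 51402) (nat_lit 0) (nat_lit 1140) (XT.nd (nat_lit 50310) (nat_lit 0) (nat_lit 8892) (XT.nd (nat_lit 546) (nat_lit 760) (nat_lit 0) (XT.nd (nat_lit 234) (nat_lit 1216) (nat_lit 0) (XT.nd (nat_lit 78) (nat_lit 380) (nat_lit 0) (XT.lf (nat_lit 0) (nat_lit 36608624252) (nat_lit 532) (nat_lit 8246416325) (nat_lit 76) (nat_lit 30135020956) (nat_lit 161) (nat_lit 5) (nat_lit 168) (nat_lit 5) (nat_lit 162) (nat_lit 5) (nat_lit 456) (nat_lit 417) (nat_lit 147)) (XT.nd (nat_lit 78) (nat_lit 0) (nat_lit 0) (XT.lf (nat_lit 0) (nat_lit 33670200095) (nat_lit 380) (nat_lit 15763379487) (nat_lit 456) (nat_lit 26906588475) (nat_lit 156) (nat_lit 5) (nat_lit 161)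 (nat_lit 5) (nat_lit 162) (nat_lit 5) (nat_lit 457) (nat_lit 417) (nat_lit 146)) (XT.lf (nat_lit 0) (nat_lit 62863269650) (nat_lit 456) (nat_lit 853065984) (nat_lit 76) (nat_lit 14007842755) (nat_lit 156) (nat_lit 5) (nat_lit 162) (nat_lit 5) (nat_lit 157) (nat_lit 5) (nat_lit 458) (nat_lit 417) (nat_lit 145)))) (XT.nd (nat_lit 156) (nat_lit 380) (nat_lit 0) (XT.nd (nat_lit 78) (nat_lit 456) (nat_lit 0) (XT.lf (nat_lit 0) (nat_lit 42898588228) (nat_lit 380) (nat_lit 34365100747) (nat_lit 456) (nat_lit 1868985089) (nat_lit 151) (nat_lit 5) (nat_lit 156) (nat_lit 5) (nat_lit 157) (nat_lit 5) (nat_lit 459) (nat_lit 417) (nat_lit 144)) (XT.lf (nat_lit 0) (nat_lit 7430565542) (nat_lit 380) (nat_lit 3937005294) (nat_lit 456) (nat_lit 69210148079) (nat_lit 145) (nat_lit 5) (nat_lit 150) (nat_lit 5) (nat_lit 151) (nat_lit 5) (nat_lit 460) (nat_lit 417) (nat_lit 143))) (XT.nd (nat_lit 78) (nat_lit 380) (nat_lit 0) (XT.lf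 (nat_lit 0) (nat_lit 25596007988) (nat_lit 456) (nat_lit 29193569744) (nat_lit 76) (nat_lit 27257011928) (nat_lit 145) (nat_lit 5) (nat_lit 151) (nat_lit 5) (nat_lit 146) (nat_lit 5) (nat_lit 461) (nat_lit 417) (nat_lit 142)) (XT.lf (nat_lit 0) (nat_lit 16358069045) (nat_lit 380) (nat_lit 24088880415) (nat_lit 456) (nat_lit 43106707701) (nat_lit 140) (nat_lit 5) (nat_lit 145) (nat_lit 5) (nat_lit 146) (nat_lit 5) (nat_lit 462) (nat_lit 417) (nat_lit 141))))) (XT.nd (nat_lit 234) (nat_lit 380) (nat_lit 0) (XT.nd (nat_lit 78) (nat_lit 380) (nat_lit 0) (XT.lf (nat_lit 0) (nat_lit 56112980523) (nat_lit 456) (nat_lit 21298509649) (nat_lit 76) (nat_lit 7683359837) (nat_lit 140) (nat_lit 5) (nat_lit 146) (nat_lit 5) (nat_lit 141) (nat_lit 5) (nat_lit 463) (nat_lit 417) (nat_lit 140)) (XT.nd (nat_lit 78) (nat_lit 76) (nat_lit 0) (XT.lf (nat_lit 0) (nat_lit 26248416993) (nat_lit 304) (nat_lit 46490846103) (nat_lit 380)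 (nat_lit 13928307589) (nat_lit 136) (nat_lit 5) (nat_lit 140) (nat_lit 5) (nat_lit 141) (nat_lit 5) (nat_lit 464) (nat_lit 417) (nat_lit 139)) (XT.lf (nat_lit 0) (nat_lit 1762747757) (nat_lit 380) (nat_lit 12640723092) (nat_lit 76) (nat_lit 73877047843) (nat_lit 135) (nat_lit 5) (nat_lit 140) (nat_lit 5) (nat_lit 136) (nat_lit 5) (nat_lit 465) (nat_lit 417) (nat_lit 138)))) (XT.nd (nat_lit 49374) (nat_lit 0) (nat_lit 8816) (XT.nd (nat_lit 78) (nat_lit 0) (nat_lit 0) (XT.lf (nat_lit 0) (nat_lit 18185381798) (nat_lit 456) (nat_lit 52953670215) (nat_lit 76) (nat_lit 18782442385) (nat_lit 130) (nat_lit 5) (nat_lit 136) (nat_lit 5) (nat_lit 131) (nat_lit 5) (nat_lit 466) (nat_lit 417) (nat_lit 137)) (XT.lf (nat_lit 0) (nat_lit 35371690241) (nat_lit 456) (nat_lit 3428741398) (nat_lit 76) (nat_lit 52803138016) (nat_lit 130) (nat_lit 5) (nat_lit 136) (nat_lit 5) (nat_lit 131) (nat_lit 5) (nat_lit 467) (nat_lit 417)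 (nat_lit 136))) (XT.nd (nat_lit 78) (nat_lit 0) (nat_lit 0) (XT.lf (nat_lit 0) (nat_lit 4211707406) (nat_lit 1292) (nat_lit 8106728232) (nat_lit 1292) (nat_lit 8106728232) (nat_lit 246) (nat_lit 3) (nat_lit 263) (nat_lit 3) (nat_lit 263) (nat_lit 5) (nat_lit 418) (nat_lit 418) (nat_lit 184)) (XT.lf (nat_lit 76) (nat_lit 3543976299) (nat_lit 0) (nat_lit 5078517537) (nat_lit 1292) (nat_lit 32838390661) (nat_lit 247) (nat_lit 5) (nat_lit 246) (nat_lit 3) (nat_lit 263) (nat_lit 5) (nat_lit 419) (nat_lit 418) (nat_lit 183)))))) (XT.nd (nat_lit 546) (nat_lit 0) (nat_lit 228) (XT.nd (nat_lit 234) (nat_lit 0) (nat_lit 76) (XT.nd (nat_lit 78) (nat_lit 0) (nat_lit 0) (XT.lf (nat_lit 0) (nat_lit 9136210138) (nat_lit 1216) (nat_lit 18005650430) (nat_lit 1292) (nat_lit 14938638080) (nat_lit 247) (nat_lit 5) (nat_lit 263) (nat_lit 5) (nat_lit 264) (nat_lit 5) (nat_lit 420) (nat_lit 418) (nat_lit 182)) (XT.nd (nat_lit 78)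 (nat_lit 0) (nat_lit 76) (XT.lf (nat_lit 76) (nat_lit 2500637887) (nat_lit 0) (nat_lit 7237554526) (nat_lit 1292) (nat_lit 32978323795) (nat_lit 248) (nat_lit 5) (nat_lit 247) (nat_lit 5) (nat_lit 264) (nat_lit 5) (nat_lit 421) (nat_lit 418) (nat_lit 181)) (XT.lf (nat_lit 0) (nat_lit 10667931947) (nat_lit 1216) (nat_lit 19505110044) (nat_lit 1292) (nat_lit 13189281969) (nat_lit 248) (nat_lit 5) (nat_lit 264) (nat_lit 5) (nat_lit 265) (nat_lit 5) (nat_lit 422) (nat_lit 418) (nat_lit 180)))) (XT.nd (nat_lit 156) (nat_lit 0) (nat_lit 76) (XT.nd (nat_lit 78) (nat_lit 0) (nat_lit 76) (XT.lf (nat_lit 76) (nat_lit 1789402451) (nat_lit 0) (nat_lit 9923637775) (nat_lit 1292) (nat_lit 32311842006) (nat_lit 249) (nat_lit 5) (nat_lit 248) (nat_lit 5) (nat_lit 265) (nat_lit 5) (nat_lit 423) (nat_lit 418) (nat_lit 179)) (XT.lf (nat_lit 0) (nat_lit 13092166428) (nat_lit 1216) (nat_lit 20686745059) (nat_lit 1292) (nat_lit 10919326391)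 (nat_lit 249) (nat_lit 5) (nat_lit 265) (nat_lit 5) (nat_lit 266) (nat_lit 5) (nat_lit 424) (nat_lit 418) (nat_lit 178))) (XT.nd (nat_lit 78) (nat_lit 0) (nat_lit 76) (XT.lf (nat_lit 76) (nat_lit 1437396695) (nat_lit 0) (nat_lit 13186033998) (nat_lit 1292) (nat_lit 30765041121) (nat_lit 250) (nat_lit 5) (nat_lit 249) (nat_lit 5) (nat_lit 266) (nat_lit 5) (nat_lit 425) (nat_lit 418) (nat_lit 177)) (XT.lf (nat_lit 0) (nat_lit 16487461827) (nat_lit 1216) (nat_lit 21523915774) (nat_lit 1292) (nat_lit 8079430833) (nat_lit 250) (nat_lit 5) (nat_lit 266) (nat_lit 5) (nat_lit 267) (nat_lit 5) (nat_lit 426) (nat_lit 418) (nat_lit 176))))) (XT.nd (nat_lit 234) (nat_lit 0) (nat_lit 152) (XT.nd (nat_lit 78) (nat_lit 0) (nat_lit 76) (XT.lf (nat_lit 76) (nat_lit 1473395945) (nat_lit 0) (nat_lit 17077500443) (nat_lit 1292) (nat_lit 28259014806) (nat_lit 251) (nat_lit 5) (nat_lit 250) (nat_lit 5) (nat_lit 267) (nat_lit 5) (nat_lit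 427) (nat_lit 418) (nat_lit 175)) (XT.nd (nat_lit 78) (nat_lit 0) (nat_lit 0) (XT.lf (nat_lit 0) (nat_lit 20937637799) (nat_lit 1216) (nat_lit 21988369696) (nat_lit 1292) (nat_lit 4616737933) (nat_lit 251) (nat_lit 5) (nat_lit 267) (nat_lit 5) (nat_lit 268) (nat_lit 5) (nat_lit 428) (nat_lit 418) (nat_lit 174)) (XT.lf (nat_lit 76) (nat_lit 1927891485) (nat_lit 0) (nat_lit 21654537037) (nat_lit 1292) (nat_lit 24709543242) (nat_lit 252) (nat_lit 5) (nat_lit 251) (nat_lit 5) (nat_lit 268) (nat_lit 5) (nat_lit 429) (nat_lit 418) (nat_lit 173)))) (XT.nd (nat_lit 156) (nat_lit 0) (nat_lit 0) (XT.nd (nat_lit 78) (nat_lit 0) (nat_lit 0) (XT.lf (nat_lit 0) (nat_lit 26532112179) (nat_lit 1216) (nat_lit 22050177294) (nat_lit 1292) (nat_lit 474619414) (nat_lit 252) (nat_lit 5) (nat_lit 268) (nat_lit 5) (nat_lit 269) (nat_lit 5) (nat_lit 430) (nat_lit 418) (nat_lit 172)) (XT.lf (nat_lit 76) (nat_lit 2833158848) (nat_lit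 0) (nat_lit 26977655550) (nat_lit 1292) (nat_lit 20026764345) (nat_lit 253) (nat_lit 5) (nat_lit 252) (nat_lit 5) (nat_lit 269) (nat_lit 5) (nat_lit 431) (nat_lit 418) (nat_lit 171))) (XT.nd (nat_lit 78) (nat_lit 0) (nat_lit 76) (XT.lf (nat_lit 76) (nat_lit 28914142891) (nat_lit 0) (nat_lit 4495314983) (nat_lit 1292) (nat_lit 17225563862) (nat_lit 253) (nat_lit 5) (nat_lit 252) (nat_lit 5) (nat_lit 269) (nat_lit 5) (nat_lit 432) (nat_lit 418) (nat_lit 170)) (XT.lf (nat_lit 76) (nat_lit 4223326783) (nat_lit 0) (nat_lit 33111667068) (nat_lit 1292) (nat_lit 14114826606) (nat_lit 254) (nat_lit 5) (nat_lit 253) (nat_lit 5) (nat_lit 270) (nat_lit 5) (nat_lit 433) (nat_lit 418) (nat_lit 169))))))) (XT.nd (nat_lit 1092) (nat_lit 3572) (nat_lit 0) (XT.nd (nat_lit 546) (nat_lit 2204) (nat_lit 0) (XT.nd (nat_lit 234) (nat_lit 1292) (nat_lit 0) (XT.nd (nat_lit 78) (nat_lit 1140) (nat_lit 0) (XT.lf (nat_lit 76) (nat_lit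 31344861691) (nat_lit 0) (nat_lit 10295816807) (nat_lit 1292) (nat_lit 10640513584) (nat_lit 254) (nat_lit 5) (nat_lit 253) (nat_lit 5) (nat_lit 270) (nat_lit 5) (nat_lit 434) (nat_lit 418) (nat_lit 168)) (XT.nd (nat_lit 78) (nat_lit 0) (nat_lit 0) (XT.lf (nat_lit 0) (nat_lit 6134446517) (nat_lit 1216) (nat_lit 40125989120) (nat_lit 1292) (nat_lit 6871522570) (nat_lit 238) (nat_lit 5) (nat_lit 254) (nat_lit 5) (nat_lit 255) (nat_lit 5) (nat_lit 435) (nat_lit 418) (nat_lit 167)) (XT.lf (nat_lit 0) (nat_lit 34341695314) (nat_lit 1216) (nat_lit 16988470281) (nat_lit 1292) (nat_lit 2668740714) (nat_lit 238) (nat_lit 5) (nat_lit 254) (nat_lit 5) (nat_lit 255) (nat_lit 5) (nat_lit 436) (nat_lit 418) (nat_lit 166)))) (XT.nd (nat_lit 156) (nat_lit 608) (nat_lit 0) (XT.nd (nat_lit 78) (nat_lit 0) (nat_lit 0) (XT.lf (nat_lit 0) (nat_lit 1776737487) (nat_lit 684) (nat_lit 46300294886) (nat_lit 76) (nat_lit 6809881875)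 (nat_lit 229) (nat_lit 5) (nat_lit 238) (nat_lit 5) (nat_lit 230) (nat_lit 5) (nat_lit 437) (nat_lit 418) (nat_lit 165)) (XT.lf (nat_lit 0) (nat_lit 6669672417) (nat_lit 684) (nat_lit 17912353972) (nat_lit 76) (nat_lit 31207711761) (nat_lit 229) (nat_lit 5) (nat_lit 238) (nat_lit 5) (nat_lit 230) (nat_lit 5) (nat_lit 438) (nat_lit 418) (nat_lit 164))) (XT.nd (nat_lit 78) (nat_lit 0) (nat_lit 0) (XT.lf (nat_lit 0) (nat_lit 11551794203) (nat_lit 608) (nat_lit 267735489) (nat_lit 684) (nat_lit 44896813401) (nat_lit 221) (nat_lit 5) (nat_lit 229) (nat_lit 5) (nat_lit 230) (nat_lit 5) (nat_lit 439) (nat_lit 418) (nat_lit 163)) (XT.lf (nat_lit 0) (nat_lit 17543825402) (nat_lit 684) (nat_lit 15639087377) (nat_lit 76) (nat_lit 24475235465) (nat_lit 221) (nat_lit 5) (nat_lit 230) (nat_lit 5) (nat_lit 222) (nat_lit 5) (nat_lit 440) (nat_lit 418) (nat_lit 162))))) (XT.nd (nat_lit 234) (nat_lit 1064) (nat_lit 0) (XT.nd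 (nat_lit 78) (nat_lit 532) (nat_lit 0) (XT.lf (nat_lit 0) (nat_lit 15062570093) (nat_lit 608) (nat_lit 8523857551) (nat_lit 684) (nat_lit 35037382910) (nat_lit 213) (nat_lit 5) (nat_lit 221) (nat_lit 5) (nat_lit 222) (nat_lit 5) (nat_lit 441) (nat_lit 418) (nat_lit 161)) (XT.nd (nat_lit 78) (nat_lit 532) (nat_lit 0) (XT.lf (nat_lit 0) (nat_lit 30131161650) (nat_lit 684) (nat_lit 12772477525) (nat_lit 76) (nat_lit 16705178270) (nat_lit 213) (nat_lit 5) (nat_lit 222) (nat_lit 5) (nat_lit 214) (nat_lit 5) (nat_lit 442) (nat_lit 418) (nat_lit 160)) (XT.lf (nat_lit 0) (nat_lit 19229964958) (nat_lit 532) (nat_lit 17910695635) (nat_lit 608) (nat_lit 23474661575) (nat_lit 206) (nat_lit 5) (nat_lit 213) (nat_lit 5) (nat_lit 214) (nat_lit 5) (nat_lit 443) (nat_lit 418) (nat_lit 159)))) (XT.nd (nat_lit 156) (nat_lit 532) (nat_lit 0) (XT.nd (nat_lit 78) (nat_lit 532) (nat_lit 0) (XT.lf (nat_lit 0) (nat_lit 44565178706)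 (nat_lit 608) (nat_lit 9271262756) (nat_lit 76) (nat_lit 7809438849) (nat_lit 206) (nat_lit 5) (nat_lit 214) (nat_lit 5) (nat_lit 207) (nat_lit 5) (nat_lit 444) (nat_lit 418) (nat_lit 158)) (XT.lf (nat_lit 0) (nat_lit 24098340416) (nat_lit 532) (nat_lit 28522290935) (nat_lit 608) (nat_lit 10074478173) (nat_lit 199) (nat_lit 5) (nat_lit 206) (nat_lit 5) (nat_lit 207) (nat_lit 5) (nat_lit 445) (nat_lit 418) (nat_lit 157))) (XT.nd (nat_lit 78) (nat_lit 532) (nat_lit 0) (XT.lf (nat_lit 0) (nat_lit 58658265662) (nat_lit 532) (nat_lit 2352335799) (nat_lit 608) (nat_lit 2762428822) (nat_lit 199) (nat_lit 5) (nat_lit 206) (nat_lit 5) (nat_lit 207) (nat_lit 5) (nat_lit 446) (nat_lit 418) (nat_lit 156)) (XT.lf (nat_lit 0) (nat_lit 5202465745) (nat_lit 532) (nat_lit 35204433166) (nat_lit 76) (nat_lit 24459218442) (nat_lit 192) (nat_lit 5) (nat_lit 199) (nat_lit 5) (nat_lit 193) (nat_lit 5) (nat_lit 447) (nat_lit 418) (nat_lit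 155)))))) (XT.nd (nat_lit 546) (nat_lit 1672) (nat_lit 0) (XT.nd (nat_lit 234) (nat_lit 912) (nat_lit 0) (XT.nd (nat_lit 78) (nat_lit 988) (nat_lit 0) (XT.lf (nat_lit 0) (nat_lit 13425496636) (nat_lit 532) (nat_lit 456149195) (nat_lit 76) (nat_lit 52107289595) (nat_lit 192) (nat_lit 5) (nat_lit 199) (nat_lit 5) (nat_lit 193) (nat_lit 5) (nat_lit 448) (nat_lit 418) (nat_lit 154)) (XT.nd (nat_lit 78) (nat_lit 456) (nat_lit 0) (XT.lf (nat_lit 0) (nat_lit 22373526696) (nat_lit 608) (nat_lit 31230688243) (nat_lit 76) (nat_lit 13526874110) (nat_lit 185) (nat_lit 5) (nat_lit 193) (nat_lit 5) (nat_lit 186) (nat_lit 5) (nat_lit 449) (nat_lit 418) (nat_lit 153)) (XT.lf (nat_lit 0) (nat_lit 5009074381) (nat_lit 456) (nat_lit 26770462066) (nat_lit 532) (nat_lit 36522284916) (nat_lit 179) (nat_lit 5) (nat_lit 185) (nat_lit 5) (nat_lit 186) (nat_lit 5) (nat_lit 450) (nat_lit 418) (nat_lit 152)))) (XT.nd (nat_lit 156) (nat_lit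 456) (nat_lit 0) (XT.nd (nat_lit 78) (nat_lit 456) (nat_lit 0) (XT.lf (nat_lit 0) (nat_lit 41793870726) (nat_lit 532) (nat_lit 26534279206) (nat_lit 76) (nat_lit 1169741630) (nat_lit 179) (nat_lit 5) (nat_lit 186) (nat_lit 5) (nat_lit 180) (nat_lit 5) (nat_lit 451) (nat_lit 418) (nat_lit 151)) (XT.lf (nat_lit 0) (nat_lit 11281226003) (nat_lit 456) (nat_lit 41200231749) (nat_lit 532) (nat_lit 18237201666) (nat_lit 173) (nat_lit 5) (nat_lit 179) (nat_lit 5) (nat_lit 180) (nat_lit 5) (nat_lit 452) (nat_lit 418) (nat_lit 150))) (XT.nd (nat_lit 78) (nat_lit 456) (nat_lit 0) (XT.lf (nat_lit 0) (nat_lit 50774331049) (nat_lit 456) (nat_lit 12982624127) (nat_lit 532) (nat_lit 8211076876) (nat_lit 173) (nat_lit 5) (nat_lit 179) (nat_lit 5) (nat_lit 180) (nat_lit 5) (nat_lit 453) (nat_lit 418) (nat_lit 149)) (XT.lf (nat_lit 0) (nat_lit 2408643466) (nat_lit 456) (nat_lit 54867534093) (nat_lit 76) (nat_lit 15968075379) (nat_lit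 167) (nat_lit 5) (nat_lit 173) (nat_lit 5) (nat_lit 168) (nat_lit 5) (nat_lit 454) (nat_lit 418) (nat_lit 148))))) (XT.nd (nat_lit 312) (nat_lit 836) (nat_lit 0) (XT.nd (nat_lit 156) (nat_lit 380) (nat_lit 0) (XT.nd (nat_lit 78) (nat_lit 456) (nat_lit 0) (XT.lf (nat_lit 0) (nat_lit 13525956937) (nat_lit 456) (nat_lit 15196388633) (nat_lit 76) (nat_lit 45823655075) (nat_lit 167) (nat_lit 5) (nat_lit 173) (nat_lit 5) (nat_lit 168) (nat_lit 5) (nat_lit 455) (nat_lit 418) (nat_lit 147)) (XT.lf (nat_lit 0) (nat_lit 25236883061) (nat_lit 532) (nat_lit 49713487313) (nat_lit 76) (nat_lit 928627811) (nat_lit 161) (nat_lit 5) (nat_lit 168) (nat_lit 5) (nat_lit 162) (nat_lit 5) (nat_lit 456) (nat_lit 418) (nat_lit 146))) (XT.nd (nat_lit 78) (nat_lit 380) (nat_lit 0) (XT.lf (nat_lit 0) (nat_lit 37737878986) (nat_lit 532) (nat_lit 8454281419) (nat_lit 76) (nat_lit 31046663181) (nat_lit 161) (nat_lit 5) (nat_lit 168) (nat_lit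 5) (nat_lit 162) (nat_lit 5) (nat_lit 457) (nat_lit 418) (nat_lit 145)) (XT.lf (nat_lit 0) (nat_lit 34719445970) (nat_lit 380) (nat_lit 16227610446) (nat_lit 456) (nat_lit 27682392976) (nat_lit 156) (nat_lit 5) (nat_lit 161) (nat_lit 5) (nat_lit 162) (nat_lit 5) (nat_lit 458) (nat_lit 418) (nat_lit 144)))) (XT.nd (nat_lit 156) (nat_lit 456) (nat_lit 0) (XT.nd (nat_lit 78) (nat_lit 380) (nat_lit 0) (XT.lf (nat_lit 0) (nat_lit 64778830645) (nat_lit 456) (nat_lit 839842203) (nat_lit 76) (nat_lit 14436331663) (nat_lit 156) (nat_lit 5) (nat_lit 162) (nat_lit 5) (nat_lit 157) (nat_lit 5) (nat_lit 459) (nat_lit 418) (nat_lit 143)) (XT.lf (nat_lit 0) (nat_lit 44223981089) (nat_lit 380) (nat_lit 35386786955) (nat_lit 456) (nat_lit 1895002119) (nat_lit 151) (nat_lit 5) (nat_lit 156) (nat_lit 5) (nat_lit 157) (nat_lit 5) (nat_lit 460) (nat_lit 418) (nat_lit 142))) (XT.nd (nat_lit 78) (nat_lit 0) (nat_lit 0) (XT.lf (nat_lit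 0) (nat_lit 7692130311) (nat_lit 380) (nat_lit 4045447011) (nat_lit 456) (nat_lit 71256595230) (nat_lit 145) (nat_lit 5) (nat_lit 150) (nat_lit 5) (nat_lit 151) (nat_lit 5) (nat_lit 461) (nat_lit 418) (nat_lit 141)) (XT.lf (nat_lit 0) (nat_lit 26392113761) (nat_lit 456) (nat_lit 30031092569) (nat_lit 76) (nat_lit 28083925952) (nat_lit 145) (nat_lit 5) (nat_lit 151) (nat_lit 5) (nat_lit 146) (nat_lit 5) (nat_lit 462) (nat_lit 418) (nat_lit 140))))))))
noncomputable def xc242 : XT := (XT.nd (nat_lit 51480) (nat_lit 0) (nat_lit 456) (XT.nd (nat_lit 50388) (nat_lit 0) (nat_lit 6916) (XT.nd (nat_lit 49842) (nat_lit 0) (nat_lit 8892) (XT.nd (nat_lit 234) (nat_lit 456) (nat_lit 0) (XT.nd (nat_lit 78) (nat_lit 304) (nat_lit 0) (XT.lf (nat_lit 0) (nat_lit 16886720047) (nat_lit 380) (nat_lit 24801405731) (nat_lit 456) (nat_lit 44371300003) (nat_lit 140) (nat_lit 5) (nat_lit 145) (nat_lit 5) (nat_lit 146) (nat_lit 5) (nat_lit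 463) (nat_lit 418) (nat_lit 139)) (XT.nd (nat_lit 78) (nat_lit 304) (nat_lit 0) (XT.lf (nat_lit 0) (nat_lit 57823423645) (nat_lit 456) (nat_lit 21899938197) (nat_lit 76) (nat_lit 7923514232) (nat_lit 140) (nat_lit 5) (nat_lit 146) (nat_lit 5) (nat_lit 141) (nat_lit 5) (nat_lit 464) (nat_lit 418) (nat_lit 138)) (XT.lf (nat_lit 0) (nat_lit 27073028334) (nat_lit 304) (nat_lit 47875035581) (nat_lit 380) (nat_lit 14318727605) (nat_lit 136) (nat_lit 5) (nat_lit 140) (nat_lit 5) (nat_lit 141) (nat_lit 5) (nat_lit 465) (nat_lit 418) (nat_lit 137)))) (XT.nd (nat_lit 49452) (nat_lit 0) (nat_lit 8816) (XT.nd (nat_lit 78) (nat_lit 380) (nat_lit 0) (XT.lf (nat_lit 0) (nat_lit 1841740839) (nat_lit 380) (nat_lit 12983341436) (nat_lit 76) (nat_lit 76103061498) (nat_lit 135) (nat_lit 5) (nat_lit 140) (nat_lit 5) (nat_lit 136) (nat_lit 5) (nat_lit 466) (nat_lit 418) (nat_lit 136)) (XT.lf (nat_lit 0) (nat_lit 18756743176) (nat_lit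 456) (nat_lit 54505359294) (nat_lit 76) (nat_lit 19356255811) (nat_lit 130) (nat_lit 5) (nat_lit 136) (nat_lit 5) (nat_lit 131) (nat_lit 5) (nat_lit 467) (nat_lit 418) (nat_lit 135))) (XT.nd (nat_lit 78) (nat_lit 0) (nat_lit 0) (XT.lf (nat_lit 0) (nat_lit 4376347930) (nat_lit 1292) (nat_lit 8330203005) (nat_lit 1292) (nat_lit 8330203005) (nat_lit 246) (nat_lit 3) (nat_lit 263) (nat_lit 3) (nat_lit 263) (nat_lit 5) (nat_lit 419) (nat_lit 419) (nat_lit 182)) (XT.lf (nat_lit 76) (nat_lit 3689362930) (nat_lit 0) (nat_lit 5266529419) (nat_lit 1292) (nat_lit 33746545580) (nat_lit 247) (nat_lit 5) (nat_lit 246) (nat_lit 3) (nat_lit 263) (nat_lit 5) (nat_lit 420) (nat_lit 419) (nat_lit 181))))) (XT.nd (nat_lit 234) (nat_lit 0) (nat_lit 76) (XT.nd (nat_lit 78) (nat_lit 0) (nat_lit 0) (XT.lf (nat_lit 0) (nat_lit 9482510954) (nat_lit 1216) (nat_lit 18505350821) (nat_lit 1292) (nat_lit 15352854920) (nat_lit 247) (nat_lit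 5) (nat_lit 263) (nat_lit 5) (nat_lit 264) (nat_lit 5) (nat_lit 421) (nat_lit 419) (nat_lit 180)) (XT.nd (nat_lit 78) (nat_lit 0) (nat_lit 76) (XT.lf (nat_lit 76) (nat_lit 2615729390) (nat_lit 0) (nat_lit 7485105172) (nat_lit 1292) (nat_lit 33895032651) (nat_lit 248) (nat_lit 5) (nat_lit 247) (nat_lit 5) (nat_lit 264) (nat_lit 5) (nat_lit 422) (nat_lit 419) (nat_lit 179)) (XT.lf (nat_lit 0) (nat_lit 11056129053) (nat_lit 1216) (nat_lit 20048992179) (nat_lit 1292) (nat_lit 13555998944) (nat_lit 248) (nat_lit 5) (nat_lit 264) (nat_lit 5) (nat_lit 265) (nat_lit 5) (nat_lit 423) (nat_lit 419) (nat_lit 178)))) (XT.nd (nat_lit 156) (nat_lit 0) (nat_lit 76) (XT.nd (nat_lit 78) (nat_lit 0) (nat_lit 76) (XT.lf (nat_lit 76) (nat_lit 1883951072) (nat_lit 0) (nat_lit 10247047125) (nat_lit 1292) (nat_lit 33212605608) (nat_lit 249) (nat_lit 5) (nat_lit 248) (nat_lit 5) (nat_lit 265) (nat_lit 5) (nat_lit 424) (nat_lit 419)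 (nat_lit 177)) (XT.lf (nat_lit 0) (nat_lit 13549319496) (nat_lit 1216) (nat_lit 21265465383) (nat_lit 1292) (nat_lit 11222441414) (nat_lit 249) (nat_lit 5) (nat_lit 265) (nat_lit 5) (nat_lit 266) (nat_lit 5) (nat_lit 425) (nat_lit 419) (nat_lit 176))) (XT.nd (nat_lit 78) (nat_lit 0) (nat_lit 76) (XT.lf (nat_lit 76) (nat_lit 1521990015) (nat_lit 0) (nat_lit 13603054942) (nat_lit 1292) (nat_lit 31623167381) (nat_lit 250) (nat_lit 5) (nat_lit 249) (nat_lit 5) (nat_lit 266) (nat_lit 5) (nat_lit 426) (nat_lit 419) (nat_lit 175)) (XT.lf (nat_lit 0) (nat_lit 17042964565) (nat_lit 1216) (nat_lit 22127311748) (nat_lit 1292) (nat_lit 8301404482) (nat_lit 250) (nat_lit 5) (nat_lit 266) (nat_lit 5) (nat_lit 267) (nat_lit 5) (nat_lit 427) (nat_lit 419) (nat_lit 174)))))) (XT.nd (nat_lit 546) (nat_lit 2204) (nat_lit 0) (XT.nd (nat_lit 234) (nat_lit 0) (nat_lit 152) (XT.nd (nat_lit 78) (nat_lit 0) (nat_lit 76) (XT.lf (nat_lit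 76) (nat_lit 1559504406) (nat_lit 0) (nat_lit 17607427418) (nat_lit 1292) (nat_lit 29045466669) (nat_lit 251) (nat_lit 5) (nat_lit 250) (nat_lit 5) (nat_lit 267) (nat_lit 5) (nat_lit 428) (nat_lit 419) (nat_lit 173)) (XT.nd (nat_lit 78) (nat_lit 0) (nat_lit 0) (XT.lf (nat_lit 0) (nat_lit 21623377945) (nat_lit 1216) (nat_lit 22605413194) (nat_lit 1292) (nat_lit 4738484262) (nat_lit 251) (nat_lit 5) (nat_lit 267) (nat_lit 5) (nat_lit 268) (nat_lit 5) (nat_lit 429) (nat_lit 419) (nat_lit 172)) (XT.lf (nat_lit 76) (nat_lit 2027918101) (nat_lit 0) (nat_lit 22318321853) (nat_lit 1292) (nat_lit 25392777446) (nat_lit 252) (nat_lit 5) (nat_lit 251) (nat_lit 5) (nat_lit 268) (nat_lit 5) (nat_lit 430) (nat_lit 419) (nat_lit 171)))) (XT.nd (nat_lit 156) (nat_lit 0) (nat_lit 0) (XT.nd (nat_lit 78) (nat_lit 0) (nat_lit 0) (XT.lf (nat_lit 0) (nat_lit 27382641147) (nat_lit 1216) (nat_lit 22668925920) (nat_lit 1292) (nat_lit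 475389440) (nat_lit 252) (nat_lit 5) (nat_lit 268) (nat_lit 5) (nat_lit 269) (nat_lit 5) (nat_lit 431) (nat_lit 419) (nat_lit 170)) (XT.lf (nat_lit 76) (nat_lit 2960491123) (nat_lit 0) (nat_lit 27798030994) (nat_lit 1292) (nat_lit 20572560472) (nat_lit 253) (nat_lit 5) (nat_lit 252) (nat_lit 5) (nat_lit 269) (nat_lit 5) (nat_lit 432) (nat_lit 419) (nat_lit 169))) (XT.nd (nat_lit 78) (nat_lit 0) (nat_lit 76) (XT.lf (nat_lit 76) (nat_lit 29822671556) (nat_lit 0) (nat_lit 4640898488) (nat_lit 1292) (nat_lit 17688926114) (nat_lit 253) (nat_lit 5) (nat_lit 252) (nat_lit 5) (nat_lit 269) (nat_lit 5) (nat_lit 433) (nat_lit 419) (nat_lit 168)) (XT.lf (nat_lit 76) (nat_lit 4392390832) (nat_lit 0) (nat_lit 34113278849) (nat_lit 1292) (nat_lit 14486105855) (nat_lit 254) (nat_lit 5) (nat_lit 253) (nat_lit 5) (nat_lit 270) (nat_lit 5) (nat_lit 434) (nat_lit 419) (nat_lit 167))))) (XT.nd (nat_lit 234) (nat_lit 1292) (nat_lit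 0) (XT.nd (nat_lit 78) (nat_lit 1140) (nat_lit 0) (XT.lf (nat_lit 76) (nat_lit 32326337878) (nat_lit 0) (nat_lit 10612712447) (nat_lit 1292) (nat_lit 10909082826) (nat_lit 254) (nat_lit 5) (nat_lit 253) (nat_lit 5) (nat_lit 270) (nat_lit 5) (nat_lit 435) (nat_lit 419) (nat_lit 166)) (XT.nd (nat_lit 78) (nat_lit 0) (nat_lit 0) (XT.lf (nat_lit 0) (nat_lit 6360763398) (nat_lit 1216) (nat_lit 41335536780) (nat_lit 1292) (nat_lit 7028155669) (nat_lit 238) (nat_lit 5) (nat_lit 254) (nat_lit 5) (nat_lit 255) (nat_lit 5) (nat_lit 436) (nat_lit 419) (nat_lit 165)) (XT.lf (nat_lit 0) (nat_lit 35412998101) (nat_lit 1216) (nat_lit 17503724376) (nat_lit 1292) (nat_lit 2700732471) (nat_lit 238) (nat_lit 5) (nat_lit 254) (nat_lit 5) (nat_lit 255) (nat_lit 5) (nat_lit 437) (nat_lit 419) (nat_lit 164)))) (XT.nd (nat_lit 156) (nat_lit 608) (nat_lit 0) (XT.nd (nat_lit 78) (nat_lit 0) (nat_lit 0) (XT.lf (nat_lit 0) (nat_lit 1876155248)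 (nat_lit 684) (nat_lit 47646260635) (nat_lit 76) (nat_lit 7009704421) (nat_lit 229) (nat_lit 5) (nat_lit 238) (nat_lit 5) (nat_lit 230) (nat_lit 5) (nat_lit 438) (nat_lit 419) (nat_lit 163)) (XT.lf (nat_lit 0) (nat_lit 6914535053) (nat_lit 684) (nat_lit 18407935176) (nat_lit 76) (nat_lit 32139599511) (nat_lit 229) (nat_lit 5) (nat_lit 238) (nat_lit 5) (nat_lit 230) (nat_lit 5) (nat_lit 439) (nat_lit 419) (nat_lit 162))) (XT.nd (nat_lit 78) (nat_lit 0) (nat_lit 0) (XT.lf (nat_lit 0) (nat_lit 11939727744) (nat_lit 608) (nat_lit 278254016) (nat_lit 684) (nat_lit 46198518766) (nat_lit 221) (nat_lit 5) (nat_lit 229) (nat_lit 5) (nat_lit 230) (nat_lit 5) (nat_lit 440) (nat_lit 419) (nat_lit 161)) (XT.lf (nat_lit 0) (nat_lit 18112705481) (nat_lit 684) (nat_lit 16066768274) (nat_lit 76) (nat_lit 25207125595) (nat_lit 221) (nat_lit 5) (nat_lit 230) (nat_lit 5) (nat_lit 222) (nat_lit 5) (nat_lit 441) (nat_lit 419) (nat_lit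 160))))))) (XT.nd (nat_lit 1092) (nat_lit 2356) (nat_lit 0) (XT.nd (nat_lit 546) (nat_lit 1900) (nat_lit 0) (XT.nd (nat_lit 234) (nat_lit 1064) (nat_lit 0) (XT.nd (nat_lit 78) (nat_lit 532) (nat_lit 0) (XT.lf (nat_lit 0) (nat_lit 15555532139) (nat_lit 608) (nat_lit 8780208818) (nat_lit 684) (nat_lit 36045516393) (nat_lit 213) (nat_lit 5) (nat_lit 221) (nat_lit 5) (nat_lit 222) (nat_lit 5) (nat_lit 442) (nat_lit 419) (nat_lit 159)) (XT.nd (nat_lit 78) (nat_lit 532) (nat_lit 0) (XT.lf (nat_lit 0) (nat_lit 31075595892) (nat_lit 684) (nat_lit 13114527023) (nat_lit 76) (nat_lit 17205728629) (nat_lit 213) (nat_lit 5) (nat_lit 222) (nat_lit 5) (nat_lit 214) (nat_lit 5) (nat_lit 443) (nat_lit 419) (nat_lit 158)) (XT.lf (nat_lit 0) (nat_lit 19847585550) (nat_lit 532) (nat_lit 18447006100) (nat_lit 608) (nat_lit 24137983852) (nat_lit 206) (nat_lit 5) (nat_lit 213) (nat_lit 5) (nat_lit 214) (nat_lit 5) (nat_lit 444) (nat_lit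 419) (nat_lit 157)))) (XT.nd (nat_lit 156) (nat_lit 532) (nat_lit 0) (XT.nd (nat_lit 78) (nat_lit 532) (nat_lit 0) (XT.lf (nat_lit 0) (nat_lit 45940698099) (nat_lit 608) (nat_lit 9508703297) (nat_lit 76) (nat_lit 8044683846) (nat_lit 206) (nat_lit 5) (nat_lit 214) (nat_lit 5) (nat_lit 207) (nat_lit 5) (nat_lit 445) (nat_lit 419) (nat_lit 156)) (XT.lf (nat_lit 0) (nat_lit 24861588976) (nat_lit 532) (nat_lit 29375489496) (nat_lit 608) (nat_lit 10337735360) (nat_lit 199) (nat_lit 5) (nat_lit 206) (nat_lit 5) (nat_lit 207) (nat_lit 5) (nat_lit 446) (nat_lit 419) (nat_lit 155))) (XT.nd (nat_lit 78) (nat_lit 532) (nat_lit 0) (XT.lf (nat_lit 0) (nat_lit 60457138241) (nat_lit 532) (nat_lit 2420507652) (nat_lit 608) (nat_lit 2807459786) (nat_lit 199) (nat_lit 5) (nat_lit 206) (nat_lit 5) (nat_lit 207) (nat_lit 5) (nat_lit 447) (nat_lit 419) (nat_lit 154)) (XT.lf (nat_lit 0) (nat_lit 5394971697) (nat_lit 532) (nat_lit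 36220005376) (nat_lit 76) (nat_lit 25196017907) (nat_lit 192) (nat_lit 5) (nat_lit 199) (nat_lit 5) (nat_lit 193) (nat_lit 5) (nat_lit 448) (nat_lit 419) (nat_lit 153))))) (XT.nd (nat_lit 234) (nat_lit 912) (nat_lit 0) (XT.nd (nat_lit 78) (nat_lit 988) (nat_lit 0) (XT.lf (nat_lit 0) (nat_lit 13863632389) (nat_lit 532) (nat_lit 430454268) (nat_lit 76) (nat_lit 53673443149) (nat_lit 192) (nat_lit 5) (nat_lit 199) (nat_lit 5) (nat_lit 193) (nat_lit 5) (nat_lit 449) (nat_lit 419) (nat_lit 152)) (XT.nd (nat_lit 78) (nat_lit 456) (nat_lit 0) (XT.lf (nat_lit 0) (nat_lit 23079489081) (nat_lit 608) (nat_lit 32127603027) (nat_lit 76) (nat_lit 13936874724) (nat_lit 185) (nat_lit 5) (nat_lit 193) (nat_lit 5) (nat_lit 186) (nat_lit 5) (nat_lit 450) (nat_lit 419) (nat_lit 151)) (XT.lf (nat_lit 0) (nat_lit 5198960262) (nat_lit 456) (nat_lit 27568087327) (nat_lit 532) (nat_lit 37582792829) (nat_lit 179) (nat_lit 5) (nat_lit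 185) (nat_lit 5) (nat_lit 186) (nat_lit 5) (nat_lit 451) (nat_lit 419) (nat_lit 150)))) (XT.nd (nat_lit 156) (nat_lit 456) (nat_lit 0) (XT.nd (nat_lit 78) (nat_lit 456) (nat_lit 0) (XT.lf (nat_lit 0) (nat_lit 43080869185) (nat_lit 532) (nat_lit 27290893528) (nat_lit 76) (nat_lit 1210058635) (nat_lit 179) (nat_lit 5) (nat_lit 186) (nat_lit 5) (nat_lit 180) (nat_lit 5) (nat_lit 452) (nat_lit 419) (nat_lit 149)) (XT.lf (nat_lit 0) (nat_lit 11658690425) (nat_lit 456) (nat_lit 42429802077) (nat_lit 532) (nat_lit 18750737810) (nat_lit 173) (nat_lit 5) (nat_lit 179) (nat_lit 5) (nat_lit 180) (nat_lit 5) (nat_lit 453) (nat_lit 419) (nat_lit 148))) (XT.nd (nat_lit 78) (nat_lit 456) (nat_lit 0) (XT.lf (nat_lit 0) (nat_lit 52335451895) (nat_lit 456) (nat_lit 13365853701) (nat_lit 532) (nat_lit 8424807332) (nat_lit 173) (nat_lit 5) (nat_lit 179) (nat_lit 5) (nat_lit 180) (nat_lit 5) (nat_lit 454) (nat_lit 419) (nat_lit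 147)) (XT.lf (nat_lit 0) (nat_lit 2512369182) (nat_lit 456) (nat_lit 56474513038) (nat_lit 76) (nat_lit 16453744104) (nat_lit 167) (nat_lit 5) (nat_lit 173) (nat_lit 5) (nat_lit 168) (nat_lit 5) (nat_lit 455) (nat_lit 419) (nat_lit 146)))))) (XT.nd (nat_lit 546) (nat_lit 684) (nat_lit 0) (XT.nd (nat_lit 234) (nat_lit 1216) (nat_lit 0) (XT.nd (nat_lit 78) (nat_lit 456) (nat_lit 0) (XT.lf (nat_lit 0) (nat_lit 13962285560) (nat_lit 456) (nat_lit 15614370507) (nat_lit 76) (nat_lit 47204798187) (nat_lit 167) (nat_lit 5) (nat_lit 173) (nat_lit 5) (nat_lit 168) (nat_lit 5) (nat_lit 456) (nat_lit 419) (nat_lit 145)) (XT.nd (nat_lit 78) (nat_lit 0) (nat_lit 0) (XT.lf (nat_lit 0) (nat_lit 26024082764) (nat_lit 532) (nat_lit 51166515820) (nat_lit 76) (nat_lit 963857128) (nat_lit 161) (nat_lit 5) (nat_lit 168) (nat_lit 5) (nat_lit 162) (nat_lit 5) (nat_lit 457) (nat_lit 419) (nat_lit 144)) (XT.lf (nat_lit 0) (nat_lit 38899232065)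 (nat_lit 532) (nat_lit 8670651500) (nat_lit 76) (nat_lit 31985218885) (nat_lit 161) (nat_lit 5) (nat_lit 168) (nat_lit 5) (nat_lit 162) (nat_lit 5) (nat_lit 458) (nat_lit 419) (nat_lit 143)))) (XT.nd (nat_lit 156) (nat_lit 836) (nat_lit 0) (XT.nd (nat_lit 78) (nat_lit 0) (nat_lit 0) (XT.lf (nat_lit 0) (nat_lit 35797922433) (nat_lit 380) (nat_lit 16706266052) (nat_lit 456) (nat_lit 28483273707) (nat_lit 156) (nat_lit 5) (nat_lit 161) (nat_lit 5) (nat_lit 162) (nat_lit 5) (nat_lit 459) (nat_lit 419) (nat_lit 142)) (XT.lf (nat_lit 0) (nat_lit 66750155697) (nat_lit 456) (nat_lit 828449891) (nat_lit 76) (nat_lit 14877201447) (nat_lit 156) (nat_lit 5) (nat_lit 162) (nat_lit 5) (nat_lit 157) (nat_lit 5) (nat_lit 460) (nat_lit 419) (nat_lit 141))) (XT.nd (nat_lit 78) (nat_lit 456) (nat_lit 0) (XT.lf (nat_lit 0) (nat_lit 45586929398) (nat_lit 380) (nat_lit 36439655702) (nat_lit 456) (nat_lit 1923524798) (nat_lit 151)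 (nat_lit 5) (nat_lit 156) (nat_lit 5) (nat_lit 157) (nat_lit 5) (nat_lit 461) (nat_lit 419) (nat_lit 140)) (XT.lf (nat_lit 0) (nat_lit 7959323481) (nat_lit 380) (nat_lit 4157696987) (nat_lit 456) (nat_lit 73366149725) (nat_lit 145) (nat_lit 5) (nat_lit 150) (nat_lit 5) (nat_lit 151) (nat_lit 5) (nat_lit 462) (nat_lit 419) (nat_lit 139))))) (XT.nd (nat_lit 49764) (nat_lit 0) (nat_lit 8360) (XT.nd (nat_lit 156) (nat_lit 304) (nat_lit 0) (XT.nd (nat_lit 78) (nat_lit 380) (nat_lit 0) (XT.lf (nat_lit 0) (nat_lit 27210482447) (nat_lit 456) (nat_lit 30895938753) (nat_lit 76) (nat_lit 28935119069) (nat_lit 145) (nat_lit 5) (nat_lit 151) (nat_lit 5) (nat_lit 146) (nat_lit 5) (nat_lit 463) (nat_lit 419) (nat_lit 138)) (XT.lf (nat_lit 0) (nat_lit 17429054452) (nat_lit 380) (nat_lit 25535888947) (nat_lit 456) (nat_lit 45675472343) (nat_lit 140) (nat_lit 5) (nat_lit 145) (nat_lit 5) (nat_lit 146) (nat_lit 5) (nat_lit 464)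 (nat_lit 419) (nat_lit 137))) (XT.nd (nat_lit 78) (nat_lit 304) (nat_lit 0) (XT.lf (nat_lit 0) (nat_lit 59583627067) (nat_lit 456) (nat_lit 22521563791) (nat_lit 76) (nat_lit 8170319102) (nat_lit 140) (nat_lit 5) (nat_lit 146) (nat_lit 5) (nat_lit 141) (nat_lit 5) (nat_lit 465) (nat_lit 419) (nat_lit 136)) (XT.lf (nat_lit 0) (nat_lit 27920244947) (nat_lit 304) (nat_lit 49301355548) (nat_lit 380) (nat_lit 14722434771) (nat_lit 136) (nat_lit 5) (nat_lit 140) (nat_lit 5) (nat_lit 141) (nat_lit 5) (nat_lit 466) (nat_lit 419) (nat_lit 135)))) (XT.nd (nat_lit 156) (nat_lit 0) (nat_lit 76) (XT.nd (nat_lit 78) (nat_lit 0) (nat_lit 0) (XT.lf (nat_lit 0) (nat_lit 4543729707) (nat_lit 1292) (nat_lit 8561514436) (nat_lit 1292) (nat_lit 8561514436) (nat_lit 246) (nat_lit 3) (nat_lit 263) (nat_lit 3) (nat_lit 263) (nat_lit 5) (nat_lit 420) (nat_lit 420) (nat_lit 180)) (XT.lf (nat_lit 76) (nat_lit 3836868535) (nat_lit 0) (nat_lit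 5458134836) (nat_lit 1292) (nat_lit 34686365079) (nat_lit 247) (nat_lit 5) (nat_lit 246) (nat_lit 3) (nat_lit 263) (nat_lit 5) (nat_lit 421) (nat_lit 420) (nat_lit 179))) (XT.nd (nat_lit 78) (nat_lit 0) (nat_lit 0) (XT.lf (nat_lit 0) (nat_lit 9835055385) (nat_lit 1216) (nat_lit 19022365316) (nat_lit 1292) (nat_lit 15781446693) (nat_lit 247) (nat_lit 5) (nat_lit 263) (nat_lit 5) (nat_lit 264) (nat_lit 5) (nat_lit 422) (nat_lit 420) (nat_lit 178)) (XT.lf (nat_lit 76) (nat_lit 2731973320) (nat_lit 0) (nat_lit 7738335874) (nat_lit 1292) (nat_lit 34843412655) (nat_lit 248) (nat_lit 5) (nat_lit 247) (nat_lit 5) (nat_lit 264) (nat_lit 5) (nat_lit 423) (nat_lit 420) (nat_lit 177))))))))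
noncomputable def xc243 : XT := (XT.nd (nat_lit 2184) (nat_lit 3420) (nat_lit 0) (XT.nd (nat_lit 1092) (nat_lit 4028) (nat_lit 0) (XT.nd (nat_lit 546) (nat_lit 760) (nat_lit 0) (XT.nd (nat_lit 234) (nat_lit 0) (nat_lit 76) (XT.nd (nat_lit 78) (nat_lit 0) (nat_lit 0) (XT.lf (nat_lit 0) (nat_lit 11452059459) (nat_lit 1216) (nat_lit 20611559911) (nat_lit 1292) (nat_lit 13935379937) (nat_lit 248) (nat_lit 5) (nat_lit 264) (nat_lit 5) (nat_lit 265) (nat_lit 5) (nat_lit 424) (nat_lit 420) (nat_lit 176)) (XT.nd (nat_lit 78) (nat_lit 0) (nat_lit 76) (XT.lf (nat_lit 76) (nat_lit 1978990245) (nat_lit 0) (nat_lit 10578683457) (nat_lit 1292) (nat_lit 34144329559) (nat_lit 249) (nat_lit 5) (nat_lit 248) (nat_lit 5) (nat_lit 265) (nat_lit 5) (nat_lit 425) (nat_lit 420) (nat_lit 175)) (XT.lf (nat_lit 0) (nat_lit 14016491017) (nat_lit 1216) (nat_lit 21863951517) (nat_lit 1292) (nat_lit 11536054264) (nat_lit 249) (nat_lit 5)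 (nat_lit 265) (nat_lit 5) (nat_lit 266) (nat_lit 5) (nat_lit 426) (nat_lit 420) (nat_lit 174)))) (XT.nd (nat_lit 156) (nat_lit 0) (nat_lit 76) (XT.nd (nat_lit 78) (nat_lit 0) (nat_lit 76) (XT.lf (nat_lit 76) (nat_lit 1606740506) (nat_lit 0) (nat_lit 14031355774) (nat_lit 1292) (nat_lit 32510758647) (nat_lit 250) (nat_lit 5) (nat_lit 249) (nat_lit 5) (nat_lit 266) (nat_lit 5) (nat_lit 427) (nat_lit 420) (nat_lit 173)) (XT.lf (nat_lit 0) (nat_lit 17611637689) (nat_lit 1216) (nat_lit 22751239028) (nat_lit 1292) (nat_lit 8531208917) (nat_lit 250) (nat_lit 5) (nat_lit 266) (nat_lit 5) (nat_lit 267) (nat_lit 5) (nat_lit 428) (nat_lit 420) (nat_lit 172))) (XT.nd (nat_lit 78) (nat_lit 0) (nat_lit 76) (XT.lf (nat_lit 76) (nat_lit 1645790512) (nat_lit 0) (nat_lit 18152241777) (nat_lit 1292) (nat_lit 29859032025) (nat_lit 251) (nat_lit 5) (nat_lit 250) (nat_lit 5) (nat_lit 267) (nat_lit 5) (nat_lit 429) (nat_lit 420) (nat_lit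 171)) (XT.lf (nat_lit 0) (nat_lit 22326383188) (nat_lit 1216) (nat_lit 23243413847) (nat_lit 1292) (nat_lit 4864844832) (nat_lit 251) (nat_lit 5) (nat_lit 267) (nat_lit 5) (nat_lit 268) (nat_lit 5) (nat_lit 430) (nat_lit 420) (nat_lit 170))))) (XT.nd (nat_lit 234) (nat_lit 988) (nat_lit 0) (XT.nd (nat_lit 78) (nat_lit 0) (nat_lit 76) (XT.lf (nat_lit 76) (nat_lit 2128523644) (nat_lit 0) (nat_lit 23001208020) (nat_lit 1292) (nat_lit 26099841104) (nat_lit 252) (nat_lit 5) (nat_lit 251) (nat_lit 5) (nat_lit 268) (nat_lit 5) (nat_lit 431) (nat_lit 420) (nat_lit 169)) (XT.nd (nat_lit 78) (nat_lit 0) (nat_lit 0) (XT.lf (nat_lit 0) (nat_lit 28255553695) (nat_lit 1216) (nat_lit 23308691414) (nat_lit 1292) (nat_lit 476955718) (nat_lit 252) (nat_lit 5) (nat_lit 268) (nat_lit 5) (nat_lit 269) (nat_lit 5) (nat_lit 432) (nat_lit 420) (nat_lit 168)) (XT.lf (nat_lit 76) (nat_lit 3089213020) (nat_lit 0) (nat_lit 28642383629)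 (nat_lit 1292) (nat_lit 21137888098) (nat_lit 253) (nat_lit 5) (nat_lit 252) (nat_lit 5) (nat_lit 269) (nat_lit 5) (nat_lit 433) (nat_lit 420) (nat_lit 167)))) (XT.nd (nat_lit 156) (nat_lit 1064) (nat_lit 0) (XT.nd (nat_lit 78) (nat_lit 0) (nat_lit 76) (XT.lf (nat_lit 76) (nat_lit 30756096522) (nat_lit 0) (nat_lit 4790233894) (nat_lit 1292) (nat_lit 18169254880) (nat_lit 253) (nat_lit 5) (nat_lit 252) (nat_lit 5) (nat_lit 269) (nat_lit 5) (nat_lit 434) (nat_lit 420) (nat_lit 166)) (XT.lf (nat_lit 76) (nat_lit 4564094922) (nat_lit 0) (nat_lit 35144464724) (nat_lit 1292) (nat_lit 14871517997) (nat_lit 254) (nat_lit 5) (nat_lit 253) (nat_lit 5) (nat_lit 270) (nat_lit 5) (nat_lit 435) (nat_lit 420) (nat_lit 165))) (XT.nd (nat_lit 78) (nat_lit 1140) (nat_lit 0) (XT.lf (nat_lit 76) (nat_lit 33334897301) (nat_lit 0) (nat_lit 10938654509) (nat_lit 1292) (nat_lit 11188616443) (nat_lit 254) (nat_lit 5) (nat_lit 253) (nat_lit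 5) (nat_lit 270) (nat_lit 5) (nat_lit 436) (nat_lit 420) (nat_lit 164)) (XT.lf (nat_lit 0) (nat_lit 6591442540) (nat_lit 1216) (nat_lit 42581039763) (nat_lit 1292) (nat_lit 7192329985) (nat_lit 238) (nat_lit 5) (nat_lit 254) (nat_lit 5) (nat_lit 255) (nat_lit 5) (nat_lit 437) (nat_lit 420) (nat_lit 163)))))) (XT.nd (nat_lit 546) (nat_lit 2128) (nat_lit 0) (XT.nd (nat_lit 234) (nat_lit 1216) (nat_lit 0) (XT.nd (nat_lit 78) (nat_lit 684) (nat_lit 0) (XT.lf (nat_lit 0) (nat_lit 36514083423) (nat_lit 1216) (nat_lit 18034114631) (nat_lit 1292) (nat_lit 2736443422) (nat_lit 238) (nat_lit 5) (nat_lit 254) (nat_lit 5) (nat_lit 255) (nat_lit 5) (nat_lit 438) (nat_lit 420) (nat_lit 162)) (XT.nd (nat_lit 78) (nat_lit 0) (nat_lit 0) (XT.lf (nat_lit 0) (nat_lit 1975908316) (nat_lit 684) (nat_lit 49035076206) (nat_lit 76) (nat_lit 7215778463) (nat_lit 229) (nat_lit 5) (nat_lit 238) (nat_lit 5) (nat_lit 230) (nat_lit 5) (nat_lit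 439) (nat_lit 420) (nat_lit 161)) (XT.lf (nat_lit 0) (nat_lit 7164173444) (nat_lit 684) (nat_lit 18920782700) (nat_lit 76) (nat_lit 33099693234) (nat_lit 229) (nat_lit 5) (nat_lit 238) (nat_lit 5) (nat_lit 230) (nat_lit 5) (nat_lit 440) (nat_lit 420) (nat_lit 160)))) (XT.nd (nat_lit 156) (nat_lit 608) (nat_lit 0) (XT.nd (nat_lit 78) (nat_lit 0) (nat_lit 0) (XT.lf (nat_lit 0) (nat_lit 12336923926) (nat_lit 608) (nat_lit 288945366) (nat_lit 684) (nat_lit 47541869901) (nat_lit 221) (nat_lit 5) (nat_lit 229) (nat_lit 5) (nat_lit 230) (nat_lit 5) (nat_lit 441) (nat_lit 420) (nat_lit 159)) (XT.lf (nat_lit 0) (nat_lit 18696208539) (nat_lit 684) (nat_lit 16509661392) (nat_lit 76) (nat_lit 25961108299) (nat_lit 221) (nat_lit 5) (nat_lit 230) (nat_lit 5) (nat_lit 222) (nat_lit 5) (nat_lit 442) (nat_lit 420) (nat_lit 158))) (XT.nd (nat_lit 78) (nat_lit 0) (nat_lit 0) (XT.lf (nat_lit 0) (nat_lit 16060924602) (nat_lit 608)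 (nat_lit 9044214141) (nat_lit 684) (nat_lit 37086361568) (nat_lit 213) (nat_lit 5) (nat_lit 221) (nat_lit 5) (nat_lit 222) (nat_lit 5) (nat_lit 443) (nat_lit 420) (nat_lit 157)) (XT.lf (nat_lit 0) (nat_lit 32046038331) (nat_lit 684) (nat_lit 13469198739) (nat_lit 76) (nat_lit 17721330227) (nat_lit 213) (nat_lit 5) (nat_lit 222) (nat_lit 5) (nat_lit 214) (nat_lit 5) (nat_lit 444) (nat_lit 420) (nat_lit 156))))) (XT.nd (nat_lit 234) (nat_lit 1064) (nat_lit 0) (XT.nd (nat_lit 78) (nat_lit 532) (nat_lit 0) (XT.lf (nat_lit 0) (nat_lit 20481397172) (nat_lit 532) (nat_lit 18999463881) (nat_lit 608) (nat_lit 24823554633) (nat_lit 206) (nat_lit 5) (nat_lit 213) (nat_lit 5) (nat_lit 214) (nat_lit 5) (nat_lit 445) (nat_lit 420) (nat_lit 155)) (XT.nd (nat_lit 78) (nat_lit 532) (nat_lit 0) (XT.lf (nat_lit 0) (nat_lit 47355269341) (nat_lit 608) (nat_lit 9755603249) (nat_lit 76) (nat_lit 8286930980) (nat_lit 206) (nat_lit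 5) (nat_lit 214) (nat_lit 5) (nat_lit 207) (nat_lit 5) (nat_lit 446) (nat_lit 420) (nat_lit 154)) (XT.lf (nat_lit 0) (nat_lit 25645421703) (nat_lit 532) (nat_lit 30254425811) (nat_lit 608) (nat_lit 10611127712) (nat_lit 199) (nat_lit 5) (nat_lit 206) (nat_lit 5) (nat_lit 207) (nat_lit 5) (nat_lit 447) (nat_lit 420) (nat_lit 153)))) (XT.nd (nat_lit 156) (nat_lit 532) (nat_lit 0) (XT.nd (nat_lit 78) (nat_lit 532) (nat_lit 0) (XT.lf (nat_lit 0) (nat_lit 62307731085) (nat_lit 532) (nat_lit 2490862329) (nat_lit 608) (nat_lit 2856013959) (nat_lit 199) (nat_lit 5) (nat_lit 206) (nat_lit 5) (nat_lit 207) (nat_lit 5) (nat_lit 448) (nat_lit 420) (nat_lit 152)) (XT.lf (nat_lit 0) (nat_lit 5591161483) (nat_lit 532) (nat_lit 37268373108) (nat_lit 76) (nat_lit 25954747829) (nat_lit 192) (nat_lit 5) (nat_lit 199) (nat_lit 5) (nat_lit 193) (nat_lit 5) (nat_lit 449) (nat_lit 420) (nat_lit 151))) (XT.nd (nat_lit 78) (nat_lit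 532) (nat_lit 0) (XT.lf (nat_lit 0) (nat_lit 14312881784) (nat_lit 532) (nat_lit 406249032) (nat_lit 76) (nat_lit 55286412837) (nat_lit 192) (nat_lit 5) (nat_lit 199) (nat_lit 5) (nat_lit 193) (nat_lit 5) (nat_lit 450) (nat_lit 420) (nat_lit 150)) (XT.lf (nat_lit 0) (nat_lit 23804635168) (nat_lit 608) (nat_lit 33053721754) (nat_lit 76) (nat_lit 14358934581) (nat_lit 185) (nat_lit 5) (nat_lit 193) (nat_lit 5) (nat_lit 186) (nat_lit 5) (nat_lit 451) (nat_lit 420) (nat_lit 149))))))) (XT.nd (nat_lit 1092) (nat_lit 0) (nat_lit 0) (XT.nd (nat_lit 546) (nat_lit 1596) (nat_lit 0) (XT.nd (nat_lit 234) (nat_lit 912) (nat_lit 0) (XT.nd (nat_lit 78) (nat_lit 456) (nat_lit 0) (XT.lf (nat_lit 0) (nat_lit 5392268733) (nat_lit 456) (nat_lit 28389956413) (nat_lit 532) (nat_lit 38677134344) (nat_lit 179) (nat_lit 5) (nat_lit 185) (nat_lit 5) (nat_lit 186) (nat_lit 5) (nat_lit 452) (nat_lit 420) (nat_lit 148)) (XT.nd (nat_lit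 78) (nat_lit 456) (nat_lit 0) (XT.lf (nat_lit 0) (nat_lit 44404572795) (nat_lit 532) (nat_lit 28072468807) (nat_lit 76) (nat_lit 1251285228) (nat_lit 179) (nat_lit 5) (nat_lit 186) (nat_lit 5) (nat_lit 180) (nat_lit 5) (nat_lit 453) (nat_lit 420) (nat_lit 147)) (XT.lf (nat_lit 0) (nat_lit 12045238434) (nat_lit 456) (nat_lit 43696629005) (nat_lit 532) (nat_lit 19281607663) (nat_lit 173) (nat_lit 5) (nat_lit 179) (nat_lit 5) (nat_lit 180) (nat_lit 5) (nat_lit 454) (nat_lit 420) (nat_lit 146)))) (XT.nd (nat_lit 156) (nat_lit 456) (nat_lit 0) (XT.nd (nat_lit 78) (nat_lit 456) (nat_lit 0) (XT.lf (nat_lit 0) (nat_lit 53941231273) (nat_lit 456) (nat_lit 13760938890) (nat_lit 532) (nat_lit 8646821181) (nat_lit 173) (nat_lit 5) (nat_lit 179) (nat_lit 5) (nat_lit 180) (nat_lit 5) (nat_lit 455) (nat_lit 420) (nat_lit 145)) (XT.lf (nat_lit 0) (nat_lit 2617400369) (nat_lit 456) (nat_lit 58131942813) (nat_lit 76) (nat_lit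 16953602505) (nat_lit 167) (nat_lit 5) (nat_lit 173) (nat_lit 5) (nat_lit 168) (nat_lit 5) (nat_lit 456) (nat_lit 420) (nat_lit 144))) (XT.nd (nat_lit 78) (nat_lit 456) (nat_lit 0) (XT.lf (nat_lit 0) (nat_lit 14409950351) (nat_lit 456) (nat_lit 16047068014) (nat_lit 76) (nat_lit 48627006286) (nat_lit 167) (nat_lit 5) (nat_lit 173) (nat_lit 5) (nat_lit 168) (nat_lit 5) (nat_lit 457) (nat_lit 420) (nat_lit 143)) (XT.lf (nat_lit 0) (nat_lit 26833170984) (nat_lit 532) (nat_lit 52665338128) (nat_lit 76) (nat_lit 999720228) (nat_lit 161) (nat_lit 5) (nat_lit 168) (nat_lit 5) (nat_lit 162) (nat_lit 5) (nat_lit 458) (nat_lit 420) (nat_lit 142))))) (XT.nd (nat_lit 234) (nat_lit 1216) (nat_lit 0) (XT.nd (nat_lit 78) (nat_lit 380) (nat_lit 0) (XT.lf (nat_lit 0) (nat_lit 40093748578) (nat_lit 532) (nat_lit 8895651466) (nat_lit 76) (nat_lit 32951520487) (nat_lit 161) (nat_lit 5) (nat_lit 168) (nat_lit 5) (nat_lit 162) (nat_lit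 5) (nat_lit 459) (nat_lit 420) (nat_lit 141)) (XT.nd (nat_lit 78) (nat_lit 0) (nat_lit 0) (XT.lf (nat_lit 0) (nat_lit 36906635376) (nat_lit 380) (nat_lit 17199750472) (nat_lit 456) (nat_lit 29309879508) (nat_lit 156) (nat_lit 5) (nat_lit 161) (nat_lit 5) (nat_lit 162) (nat_lit 5) (nat_lit 460) (nat_lit 420) (nat_lit 140)) (XT.lf (nat_lit 0) (nat_lit 68779015475) (nat_lit 456) (nat_lit 818816087) (nat_lit 76) (nat_lit 15330850730) (nat_lit 156) (nat_lit 5) (nat_lit 162) (nat_lit 5) (nat_lit 157) (nat_lit 5) (nat_lit 461) (nat_lit 420) (nat_lit 139)))) (XT.nd (nat_lit 156) (nat_lit 380) (nat_lit 0) (XT.nd (nat_lit 78) (nat_lit 456) (nat_lit 0) (XT.lf (nat_lit 0) (nat_lit 46988686470) (nat_lit 380) (nat_lit 37524611929) (nat_lit 456) (nat_lit 1954529265) (nat_lit 151) (nat_lit 5) (nat_lit 156) (nat_lit 5) (nat_lit 157) (nat_lit 5) (nat_lit 462) (nat_lit 420) (nat_lit 138)) (XT.lf (nat_lit 0) (nat_lit 8232441257)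 (nat_lit 380) (nat_lit 4273837611) (nat_lit 456) (nat_lit 75540606400) (nat_lit 145) (nat_lit 5) (nat_lit 150) (nat_lit 5) (nat_lit 151) (nat_lit 5) (nat_lit 463) (nat_lit 420) (nat_lit 137))) (XT.nd (nat_lit 78) (nat_lit 380) (nat_lit 0) (XT.lf (nat_lit 0) (nat_lit 28051874941) (nat_lit 456) (nat_lit 31788801840) (nat_lit 76) (nat_lit 29811349979) (nat_lit 145) (nat_lit 5) (nat_lit 151) (nat_lit 5) (nat_lit 146) (nat_lit 5) (nat_lit 464) (nat_lit 420) (nat_lit 136)) (XT.lf (nat_lit 0) (nat_lit 17985607680) (nat_lit 380) (nat_lit 26292955382) (nat_lit 456) (nat_lit 47020317851) (nat_lit 140) (nat_lit 5) (nat_lit 145) (nat_lit 5) (nat_lit 146) (nat_lit 5) (nat_lit 465) (nat_lit 420) (nat_lit 135)))))) (XT.nd (nat_lit 50076) (nat_lit 0) (nat_lit 8284) (XT.nd (nat_lit 49764) (nat_lit 0) (nat_lit 8132) (XT.nd (nat_lit 49608) (nat_lit 0) (nat_lit 8056) (XT.lf (nat_lit 0) (nat_lit 61395172746) (nat_lit 456) (nat_lit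 23163868681) (nat_lit 76) (nat_lit 8424005773) (nat_lit 140) (nat_lit 5) (nat_lit 146) (nat_lit 5) (nat_lit 141) (nat_lit 5) (nat_lit 466) (nat_lit 420) (nat_lit 134)) (XT.nd (nat_lit 78) (nat_lit 0) (nat_lit 0) (XT.lf (nat_lit 0) (nat_lit 4714061146) (nat_lit 1292) (nat_lit 8800832619) (nat_lit 1292) (nat_lit 8800832619) (nat_lit 246) (nat_lit 3) (nat_lit 263) (nat_lit 3) (nat_lit 263) (nat_lit 5) (nat_lit 421) (nat_lit 421) (nat_lit 178)) (XT.lf (nat_lit 76) (nat_lit 3986685419) (nat_lit 0) (nat_lit 5653559091) (nat_lit 1292) (nat_lit 35658545371) (nat_lit 247) (nat_lit 5) (nat_lit 246) (nat_lit 3) (nat_lit 263) (nat_lit 5) (nat_lit 422) (nat_lit 421) (nat_lit 177)))) (XT.nd (nat_lit 156) (nat_lit 0) (nat_lit 76) (XT.nd (nat_lit 78) (nat_lit 0) (nat_lit 0) (XT.lf (nat_lit 0) (nat_lit 10194268705) (nat_lit 1216) (nat_lit 19557079985) (nat_lit 1292) (nat_lit 16224732797) (nat_lit 247) (nat_lit 5) (nat_lit 263)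 (nat_lit 5) (nat_lit 264) (nat_lit 5) (nat_lit 423) (nat_lit 421) (nat_lit 176)) (XT.lf (nat_lit 76) (nat_lit 2849536298) (nat_lit 0) (nat_lit 7997517289) (nat_lit 1292) (nat_lit 35824174573) (nat_lit 248) (nat_lit 5) (nat_lit 247) (nat_lit 5) (nat_lit 264) (nat_lit 5) (nat_lit 424) (nat_lit 421) (nat_lit 175))) (XT.nd (nat_lit 78) (nat_lit 0) (nat_lit 0) (XT.lf (nat_lit 0) (nat_lit 11856179762) (nat_lit 1216) (nat_lit 21193237811) (nat_lit 1292) (nat_lit 14327709432) (nat_lit 248) (nat_lit 5) (nat_lit 264) (nat_lit 5) (nat_lit 265) (nat_lit 5) (nat_lit 425) (nat_lit 421) (nat_lit 174)) (XT.lf (nat_lit 76) (nat_lit 2074669351) (nat_lit 0) (nat_lit 10918878270) (nat_lit 1292) (nat_lit 35107716646) (nat_lit 249) (nat_lit 5) (nat_lit 248) (nat_lit 5) (nat_lit 265) (nat_lit 5) (nat_lit 426) (nat_lit 421) (nat_lit 173))))) (XT.nd (nat_lit 312) (nat_lit 0) (nat_lit 152) (XT.nd (nat_lit 156) (nat_lit 0) (nat_lit 76)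 (XT.nd (nat_lit 78) (nat_lit 0) (nat_lit 0) (XT.lf (nat_lit 0) (nat_lit 14494193719) (nat_lit 1216) (nat_lit 22482658423) (nat_lit 1292) (nat_lit 11860399262) (nat_lit 249) (nat_lit 5) (nat_lit 265) (nat_lit 5) (nat_lit 266) (nat_lit 5) (nat_lit 427) (nat_lit 421) (nat_lit 172)) (XT.lf (nat_lit 76) (nat_lit 1691789540) (nat_lit 0) (nat_lit 14471345542) (nat_lit 1292) (nat_lit 33428485256) (nat_lit 250) (nat_lit 5) (nat_lit 249) (nat_lit 5) (nat_lit 266) (nat_lit 5) (nat_lit 428) (nat_lit 421) (nat_lit 171))) (XT.nd (nat_lit 78) (nat_lit 0) (nat_lit 0) (XT.lf (nat_lit 0) (nat_lit 18194076918) (nat_lit 1216) (nat_lit 23396174095) (nat_lit 1292) (nat_lit 8769011808) (nat_lit 250) (nat_lit 5) (nat_lit 266) (nat_lit 5) (nat_lit 267) (nat_lit 5) (nat_lit 429) (nat_lit 421) (nat_lit 170)) (XT.lf (nat_lit 76) (nat_lit 1732397683) (nat_lit 0) (nat_lit 18712448145) (nat_lit 1292) (nat_lit 30700322221) (nat_lit 251) (nat_lit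 5) (nat_lit 250) (nat_lit 5) (nat_lit 267) (nat_lit 5) (nat_lit 430) (nat_lit 421) (nat_lit 169)))) (XT.nd (nat_lit 156) (nat_lit 0) (nat_lit 76) (XT.nd (nat_lit 78) (nat_lit 0) (nat_lit 0) (XT.lf (nat_lit 0) (nat_lit 23047361322) (nat_lit 1216) (nat_lit 23902859968) (nat_lit 1292) (nat_lit 4995902858) (nat_lit 251) (nat_lit 5) (nat_lit 267) (nat_lit 5) (nat_lit 268) (nat_lit 5) (nat_lit 431) (nat_lit 421) (nat_lit 168)) (XT.lf (nat_lit 76) (nat_lit 2229864508) (nat_lit 0) (nat_lit 23703815202) (nat_lit 1292) (nat_lit 26831257805) (nat_lit 252) (nat_lit 5) (nat_lit 251) (nat_lit 5) (nat_lit 268) (nat_lit 5) (nat_lit 432) (nat_lit 421) (nat_lit 167))) (XT.nd (nat_lit 78) (nat_lit 0) (nat_lit 0) (XT.lf (nat_lit 0) (nat_lit 29151701137) (nat_lit 1216) (nat_lit 23969963388) (nat_lit 1292) (nat_lit 479297752) (nat_lit 252) (nat_lit 5) (nat_lit 268) (nat_lit 5) (nat_lit 269) (nat_lit 5) (nat_lit 433) (nat_lit 421)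 (nat_lit 166)) (XT.lf (nat_lit 76) (nat_lit 3219505740) (nat_lit 0) (nat_lit 29511469168) (nat_lit 1292) (nat_lit 21723151908) (nat_lit 253) (nat_lit 5) (nat_lit 252) (nat_lit 5) (nat_lit 269) (nat_lit 5) (nat_lit 434) (nat_lit 421) (nat_lit 165))))))))
noncomputable def xc244 : XT := (XT.nd (nat_lit 2184) (nat_lit 1216) (nat_lit 0) (XT.nd (nat_lit 1092) (nat_lit 3268) (nat_lit 0) (XT.nd (nat_lit 546) (nat_lit 2280) (nat_lit 0) (XT.nd (nat_lit 234) (nat_lit 1748) (nat_lit 0) (XT.nd (nat_lit 78) (nat_lit 0) (nat_lit 76) (XT.lf (nat_lit 76) (nat_lit 31715300125) (nat_lit 0) (nat_lit 4943469096) (nat_lit 1292) (nat_lit 18666883174) (nat_lit 253) (nat_lit 5) (nat_lit 252) (nat_lit 5) (nat_lit 269) (nat_lit 5) (nat_lit 435) (nat_lit 421) (nat_lit 164)) (XT.nd (nat_lit 78) (nat_lit 0) (nat_lit 0) (XT.lf (nat_lit 76) (nat_lit 4738657854) (nat_lit 0) (nat_lit 36206139141) (nat_lit 1292) (nat_lit 15271315121) (nat_lit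 254) (nat_lit 5) (nat_lit 253) (nat_lit 5) (nat_lit 270) (nat_lit 5) (nat_lit 436) (nat_lit 421) (nat_lit 163)) (XT.lf (nat_lit 76) (nat_lit 34371487991) (nat_lit 0) (nat_lit 11273940819) (nat_lit 1292) (nat_lit 11479276475) (nat_lit 254) (nat_lit 5) (nat_lit 253) (nat_lit 5) (nat_lit 270) (nat_lit 5) (nat_lit 437) (nat_lit 421) (nat_lit 162)))) (XT.nd (nat_lit 156) (nat_lit 684) (nat_lit 0) (XT.nd (nat_lit 78) (nat_lit 0) (nat_lit 0) (XT.lf (nat_lit 0) (nat_lit 6826754146) (nat_lit 1216) (nat_lit 43863595737) (nat_lit 1292) (nat_lit 7364108600) (nat_lit 238) (nat_lit 5) (nat_lit 254) (nat_lit 5) (nat_lit 255) (nat_lit 5) (nat_lit 438) (nat_lit 421) (nat_lit 161)) (XT.lf (nat_lit 0) (nat_lit 37645980032) (nat_lit 1216) (nat_lit 18580113586) (nat_lit 1292) (nat_lit 2775826740) (nat_lit 238) (nat_lit 5) (nat_lit 254) (nat_lit 5) (nat_lit 255) (nat_lit 5) (nat_lit 439) (nat_lit 421) (nat_lit 160))) (XT.nd (nat_lit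 78) (nat_lit 0) (nat_lit 0) (XT.lf (nat_lit 0) (nat_lit 2076158711) (nat_lit 684) (nat_lit 50467885258) (nat_lit 76) (nat_lit 7428276805) (nat_lit 229) (nat_lit 5) (nat_lit 238) (nat_lit 5) (nat_lit 230) (nat_lit 5) (nat_lit 440) (nat_lit 421) (nat_lit 159)) (XT.lf (nat_lit 0) (nat_lit 7418878401) (nat_lit 684) (nat_lit 19451276827) (nat_lit 76) (nat_lit 34088824796) (nat_lit 229) (nat_lit 5) (nat_lit 238) (nat_lit 5) (nat_lit 230) (nat_lit 5) (nat_lit 441) (nat_lit 421) (nat_lit 158))))) (XT.nd (nat_lit 234) (nat_lit 1064) (nat_lit 0) (XT.nd (nat_lit 78) (nat_lit 608) (nat_lit 0) (XT.lf (nat_lit 0) (nat_lit 12743796985) (nat_lit 608) (nat_lit 299822917) (nat_lit 684) (nat_lit 48927967238) (nat_lit 221) (nat_lit 5) (nat_lit 229) (nat_lit 5) (nat_lit 230) (nat_lit 5) (nat_lit 442) (nat_lit 421) (nat_lit 157)) (XT.nd (nat_lit 78) (nat_lit 608) (nat_lit 0) (XT.lf (nat_lit 0) (nat_lit 19294913528) (nat_lit 684)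 (nat_lit 16968086374) (nat_lit 76) (nat_lit 26737838557) (nat_lit 221) (nat_lit 5) (nat_lit 230) (nat_lit 5) (nat_lit 222) (nat_lit 5) (nat_lit 443) (nat_lit 421) (nat_lit 156)) (XT.lf (nat_lit 0) (nat_lit 16579255780) (nat_lit 608) (nat_lit 9316105235) (nat_lit 684) (nat_lit 38160758130) (nat_lit 213) (nat_lit 5) (nat_lit 221) (nat_lit 5) (nat_lit 222) (nat_lit 5) (nat_lit 444) (nat_lit 421) (nat_lit 155)))) (XT.nd (nat_lit 156) (nat_lit 532) (nat_lit 0) (XT.nd (nat_lit 78) (nat_lit 532) (nat_lit 0) (XT.lf (nat_lit 0) (nat_lit 33043402667) (nat_lit 684) (nat_lit 13836735824) (nat_lit 76) (nat_lit 18252432609) (nat_lit 213) (nat_lit 5) (nat_lit 222) (nat_lit 5) (nat_lit 214) (nat_lit 5) (nat_lit 445) (nat_lit 421) (nat_lit 154)) (XT.lf (nat_lit 0) (nat_lit 21132019740) (nat_lit 532) (nat_lit 19568550067) (nat_lit 608) (nat_lit 25531906541) (nat_lit 206) (nat_lit 5) (nat_lit 213) (nat_lit 5) (nat_lit 214) (nat_lit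 5) (nat_lit 446) (nat_lit 421) (nat_lit 153))) (XT.nd (nat_lit 78) (nat_lit 532) (nat_lit 0) (XT.lf (nat_lit 0) (nat_lit 48810191064) (nat_lit 608) (nat_lit 10012112286) (nat_lit 76) (nat_lit 8536393485) (nat_lit 206) (nat_lit 5) (nat_lit 214) (nat_lit 5) (nat_lit 207) (nat_lit 5) (nat_lit 447) (nat_lit 421) (nat_lit 152)) (XT.lf (nat_lit 0) (nat_lit 26450588914) (nat_lit 532) (nat_lit 31159863873) (nat_lit 608) (nat_lit 10894830843) (nat_lit 199) (nat_lit 5) (nat_lit 206) (nat_lit 5) (nat_lit 207) (nat_lit 5) (nat_lit 448) (nat_lit 421) (nat_lit 151)))))) (XT.nd (nat_lit 546) (nat_lit 1292) (nat_lit 0) (XT.nd (nat_lit 234) (nat_lit 1444) (nat_lit 0) (XT.nd (nat_lit 78) (nat_lit 532) (nat_lit 0) (XT.lf (nat_lit 0) (nat_lit 64211724727) (nat_lit 532) (nat_lit 2563457410) (nat_lit 608) (nat_lit 2908072339) (nat_lit 199) (nat_lit 5) (nat_lit 206) (nat_lit 5) (nat_lit 207) (nat_lit 5) (nat_lit 449) (nat_lit 421)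 (nat_lit 150)) (XT.nd (nat_lit 78) (nat_lit 0) (nat_lit 0) (XT.lf (nat_lit 0) (nat_lit 5791265670) (nat_lit 532) (nat_lit 38350386569) (nat_lit 76) (nat_lit 26736076083) (nat_lit 192) (nat_lit 5) (nat_lit 199) (nat_lit 5) (nat_lit 193) (nat_lit 5) (nat_lit 450) (nat_lit 421) (nat_lit 149)) (XT.lf (nat_lit 0) (nat_lit 14773694783) (nat_lit 532) (nat_lit 383448414) (nat_lit 76) (nat_lit 56947612812) (nat_lit 192) (nat_lit 5) (nat_lit 199) (nat_lit 5) (nat_lit 193) (nat_lit 5) (nat_lit 451) (nat_lit 421) (nat_lit 148)))) (XT.nd (nat_lit 156) (nat_lit 456) (nat_lit 0) (XT.nd (nat_lit 78) (nat_lit 456) (nat_lit 0) (XT.lf (nat_lit 0) (nat_lit 24549654998) (nat_lit 608) (nat_lit 34009788716) (nat_lit 76) (nat_lit 14793429280) (nat_lit 185) (nat_lit 5) (nat_lit 193) (nat_lit 5) (nat_lit 186) (nat_lit 5) (nat_lit 452) (nat_lit 421) (nat_lit 147)) (XT.lf (nat_lit 0) (nat_lit 5589233009) (nat_lit 456) (nat_lit 29236778554)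 (nat_lit 532) (nat_lit 39806208606) (nat_lit 179) (nat_lit 5) (nat_lit 185) (nat_lit 5) (nat_lit 186) (nat_lit 5) (nat_lit 453) (nat_lit 421) (nat_lit 146))) (XT.nd (nat_lit 78) (nat_lit 456) (nat_lit 0) (XT.lf (nat_lit 0) (nat_lit 45766192056) (nat_lit 532) (nat_lit 28879623995) (nat_lit 76) (nat_lit 1293465913) (nat_lit 179) (nat_lit 5) (nat_lit 186) (nat_lit 5) (nat_lit 180) (nat_lit 5) (nat_lit 454) (nat_lit 421) (nat_lit 145)) (XT.lf (nat_lit 0) (nat_lit 12441271142) (nat_lit 456) (nat_lit 45001809018) (nat_lit 532) (nat_lit 19830220582) (nat_lit 173) (nat_lit 5) (nat_lit 179) (nat_lit 5) (nat_lit 180) (nat_lit 5) (nat_lit 455) (nat_lit 421) (nat_lit 144))))) (XT.nd (nat_lit 234) (nat_lit 836) (nat_lit 0) (XT.nd (nat_lit 78) (nat_lit 456) (nat_lit 0) (XT.lf (nat_lit 0) (nat_lit 55593133798) (nat_lit 456) (nat_lit 14168214769) (nat_lit 532) (nat_lit 8877259495) (nat_lit 173) (nat_lit 5) (nat_lit 179) (nat_lit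 5) (nat_lit 180) (nat_lit 5) (nat_lit 456) (nat_lit 421) (nat_lit 143)) (XT.nd (nat_lit 78) (nat_lit 0) (nat_lit 0) (XT.lf (nat_lit 0) (nat_lit 2723879880) (nat_lit 456) (nat_lit 59841208274) (nat_lit 76) (nat_lit 17468098108) (nat_lit 167) (nat_lit 5) (nat_lit 173) (nat_lit 5) (nat_lit 168) (nat_lit 5) (nat_lit 457) (nat_lit 421) (nat_lit 142)) (XT.lf (nat_lit 0) (nat_lit 14869392066) (nat_lit 456) (nat_lit 16494797702) (nat_lit 76) (nat_lit 50091532521) (nat_lit 167) (nat_lit 5) (nat_lit 173) (nat_lit 5) (nat_lit 168) (nat_lit 5) (nat_lit 458) (nat_lit 421) (nat_lit 141)))) (XT.nd (nat_lit 156) (nat_lit 380) (nat_lit 0) (XT.nd (nat_lit 78) (nat_lit 0) (nat_lit 0) (XT.lf (nat_lit 0) (nat_lit 27664903541) (nat_lit 532) (nat_lit 54211201593) (nat_lit 76) (nat_lit 1036260413) (nat_lit 161) (nat_lit 5) (nat_lit 168) (nat_lit 5) (nat_lit 162) (nat_lit 5) (nat_lit 459) (nat_lit 421) (nat_lit 140)) (XT.lf (nat_lit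 0) (nat_lit 41322519702) (nat_lit 532) (nat_lit 9129417438) (nat_lit 76) (nat_lit 33946423944) (nat_lit 161) (nat_lit 5) (nat_lit 168) (nat_lit 5) (nat_lit 162) (nat_lit 5) (nat_lit 460) (nat_lit 421) (nat_lit 139))) (XT.nd (nat_lit 78) (nat_lit 0) (nat_lit 0) (XT.lf (nat_lit 0) (nat_lit 38046613464) (nat_lit 380) (nat_lit 17708481642) (nat_lit 456) (nat_lit 30162884621) (nat_lit 156) (nat_lit 5) (nat_lit 161) (nat_lit 5) (nat_lit 162) (nat_lit 5) (nat_lit 461) (nat_lit 421) (nat_lit 138)) (XT.lf (nat_lit 0) (nat_lit 70867228155) (nat_lit 456) (nat_lit 810872981) (nat_lit 76) (nat_lit 15797688533) (nat_lit 156) (nat_lit 5) (nat_lit 162) (nat_lit 5) (nat_lit 157) (nat_lit 5) (nat_lit 462) (nat_lit 421) (nat_lit 137))))))) (XT.nd (nat_lit 50700) (nat_lit 0) (nat_lit 5548) (XT.nd (nat_lit 50154) (nat_lit 0) (nat_lit 8132) (XT.nd (nat_lit 234) (nat_lit 380) (nat_lit 0) (XT.nd (nat_lit 78) (nat_lit 456) (nat_lit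 0) (XT.lf (nat_lit 0) (nat_lit 48430535951) (nat_lit 380) (nat_lit 38642589475) (nat_lit 456) (nat_lit 1987996628) (nat_lit 151) (nat_lit 5) (nat_lit 156) (nat_lit 5) (nat_lit 157) (nat_lit 5) (nat_lit 463) (nat_lit 421) (nat_lit 136)) (XT.nd (nat_lit 78) (nat_lit 0) (nat_lit 0) (XT.lf (nat_lit 0) (nat_lit 8511781421) (nat_lit 380) (nat_lit 4393955571) (nat_lit 456) (nat_lit 77781819580) (nat_lit 145) (nat_lit 5) (nat_lit 150) (nat_lit 5) (nat_lit 151) (nat_lit 5) (nat_lit 464) (nat_lit 421) (nat_lit 135)) (XT.lf (nat_lit 0) (nat_lit 28917069629) (nat_lit 456) (nat_lit 32710403425) (nat_lit 76) (nat_lit 30713398403) (nat_lit 145) (nat_lit 5) (nat_lit 151) (nat_lit 5) (nat_lit 146) (nat_lit 5) (nat_lit 465) (nat_lit 421) (nat_lit 134)))) (XT.nd (nat_lit 49764) (nat_lit 0) (nat_lit 8056) (XT.nd (nat_lit 49686) (nat_lit 0) (nat_lit 8056) (XT.lf (nat_lit 0) (nat_lit 18556924043) (nat_lit 380) (nat_lit 27073251035)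 (nat_lit 456) (nat_lit 48406967859) (nat_lit 140) (nat_lit 5) (nat_lit 145) (nat_lit 5) (nat_lit 146) (nat_lit 5) (nat_lit 466) (nat_lit 421) (nat_lit 133)) (XT.lf (nat_lit 0) (nat_lit 4887549668) (nat_lit 1292) (nat_lit 9048336484) (nat_lit 1292) (nat_lit 9048336484) (nat_lit 246) (nat_lit 3) (nat_lit 263) (nat_lit 3) (nat_lit 263) (nat_lit 5) (nat_lit 422) (nat_lit 422) (nat_lit 176))) (XT.nd (nat_lit 78) (nat_lit 0) (nat_lit 76) (XT.lf (nat_lit 76) (nat_lit 4139004266) (nat_lit 0) (nat_lit 5853027500) (nat_lit 1292) (nat_lit 36663818123) (nat_lit 247) (nat_lit 5) (nat_lit 246) (nat_lit 3) (nat_lit 263) (nat_lit 5) (nat_lit 423) (nat_lit 422) (nat_lit 175)) (XT.lf (nat_lit 0) (nat_lit 10560575282) (nat_lit 1216) (nat_lit 20109900131) (nat_lit 1292) (nat_lit 16683048638) (nat_lit 247) (nat_lit 5) (nat_lit 263) (nat_lit 5) (nat_lit 264) (nat_lit 5) (nat_lit 424) (nat_lit 422) (nat_lit 174))))) (XT.nd (nat_lit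 234) (nat_lit 0) (nat_lit 152) (XT.nd (nat_lit 78) (nat_lit 0) (nat_lit 76) (XT.lf (nat_lit 76) (nat_lit 2968582363) (nat_lit 0) (nat_lit 8262922437) (nat_lit 1292) (nat_lit 36838064236) (nat_lit 248) (nat_lit 5) (nat_lit 247) (nat_lit 5) (nat_lit 264) (nat_lit 5) (nat_lit 425) (nat_lit 422) (nat_lit 173)) (XT.nd (nat_lit 78) (nat_lit 0) (nat_lit 0) (XT.lf (nat_lit 0) (nat_lit 12268947368) (nat_lit 1216) (nat_lit 21794470992) (nat_lit 1292) (nat_lit 14733285929) (nat_lit 248) (nat_lit 5) (nat_lit 264) (nat_lit 5) (nat_lit 265) (nat_lit 5) (nat_lit 426) (nat_lit 422) (nat_lit 172)) (XT.lf (nat_lit 76) (nat_lit 2171134521) (nat_lit 0) (nat_lit 11267968145) (nat_lit 1292) (nat_lit 36103503711) (nat_lit 249) (nat_lit 5) (nat_lit 248) (nat_lit 5) (nat_lit 265) (nat_lit 5) (nat_lit 427) (nat_lit 422) (nat_lit 171)))) (XT.nd (nat_lit 156) (nat_lit 0) (nat_lit 76) (XT.nd (nat_lit 78) (nat_lit 0) (nat_lit 0) (XT.lf (nat_lit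 0) (nat_lit 14982943530) (nat_lit 1216) (nat_lit 23122062637) (nat_lit 1292) (nat_lit 12195722380) (nat_lit 249) (nat_lit 5) (nat_lit 265) (nat_lit 5) (nat_lit 266) (nat_lit 5) (nat_lit 428) (nat_lit 422) (nat_lit 170)) (XT.lf (nat_lit 76) (nat_lit 1777274888) (nat_lit 0) (nat_lit 14923441507) (nat_lit 1292) (nat_lit 34377049918) (nat_lit 250) (nat_lit 5) (nat_lit 249) (nat_lit 5) (nat_lit 266) (nat_lit 5) (nat_lit 429) (nat_lit 422) (nat_lit 169))) (XT.nd (nat_lit 78) (nat_lit 0) (nat_lit 0) (XT.lf (nat_lit 0) (nat_lit 18790884332) (nat_lit 1216) (nat_lit 24062615729) (nat_lit 1292) (nat_lit 9014989715) (nat_lit 250) (nat_lit 5) (nat_lit 266) (nat_lit 5) (nat_lit 267) (nat_lit 5) (nat_lit 430) (nat_lit 422) (nat_lit 168)) (XT.lf (nat_lit 76) (nat_lit 1819465716) (nat_lit 0) (nat_lit 19288562954) (nat_lit 1292) (nat_lit 31569978541) (nat_lit 251) (nat_lit 5) (nat_lit 250) (nat_lit 5) (nat_lit 267) (nat_lit 5)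 (nat_lit 431) (nat_lit 422) (nat_lit 167)))))) (XT.nd (nat_lit 546) (nat_lit 2888) (nat_lit 0) (XT.nd (nat_lit 234) (nat_lit 0) (nat_lit 76) (XT.nd (nat_lit 78) (nat_lit 0) (nat_lit 0) (XT.lf (nat_lit 0) (nat_lit 23787030477) (nat_lit 1216) (nat_lit 24584262578) (nat_lit 1292) (nat_lit 5131747217) (nat_lit 251) (nat_lit 5) (nat_lit 267) (nat_lit 5) (nat_lit 268) (nat_lit 5) (nat_lit 432) (nat_lit 422) (nat_lit 166)) (XT.nd (nat_lit 78) (nat_lit 0) (nat_lit 76) (XT.lf (nat_lit 76) (nat_lit 2332093797) (nat_lit 0) (nat_lit 24426778976) (nat_lit 1292) (nat_lit 27587577826) (nat_lit 252) (nat_lit 5) (nat_lit 251) (nat_lit 5) (nat_lit 268) (nat_lit 5) (nat_lit 433) (nat_lit 422) (nat_lit 165)) (XT.lf (nat_lit 0) (nat_lit 30071950004) (nat_lit 1216) (nat_lit 24653254233) (nat_lit 1292) (nat_lit 482396981) (nat_lit 252) (nat_lit 5) (nat_lit 268) (nat_lit 5) (nat_lit 269) (nat_lit 5) (nat_lit 434) (nat_lit 422) (nat_lit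 164)))) (XT.nd (nat_lit 156) (nat_lit 0) (nat_lit 76) (XT.nd (nat_lit 78) (nat_lit 0) (nat_lit 0) (XT.lf (nat_lit 76) (nat_lit 3351547910) (nat_lit 0) (nat_lit 30406063907) (nat_lit 1292) (nat_lit 22328779134) (nat_lit 253) (nat_lit 5) (nat_lit 252) (nat_lit 5) (nat_lit 269) (nat_lit 5) (nat_lit 435) (nat_lit 422) (nat_lit 163)) (XT.lf (nat_lit 76) (nat_lit 32701183398) (nat_lit 0) (nat_lit 5100754397) (nat_lit 1292) (nat_lit 19182164104) (nat_lit 253) (nat_lit 5) (nat_lit 252) (nat_lit 5) (nat_lit 269) (nat_lit 5) (nat_lit 436) (nat_lit 422) (nat_lit 162))) (XT.nd (nat_lit 78) (nat_lit 0) (nat_lit 0) (XT.lf (nat_lit 76) (nat_lit 4916296979) (nat_lit 0) (nat_lit 37299242417) (nat_lit 1292) (nat_lit 15685766748) (nat_lit 254) (nat_lit 5) (nat_lit 253) (nat_lit 5) (nat_lit 270) (nat_lit 5) (nat_lit 437) (nat_lit 422) (nat_lit 161)) (XT.lf (nat_lit 76) (nat_lit 35437078640) (nat_lit 0) (nat_lit 11618876619) (nat_lit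 1292) (nat_lit 11781239403) (nat_lit 254) (nat_lit 5) (nat_lit 253) (nat_lit 5) (nat_lit 270) (nat_lit 5) (nat_lit 438) (nat_lit 422) (nat_lit 160))))) (XT.nd (nat_lit 312) (nat_lit 1216) (nat_lit 0) (XT.nd (nat_lit 156) (nat_lit 684) (nat_lit 0) (XT.nd (nat_lit 78) (nat_lit 0) (nat_lit 0) (XT.lf (nat_lit 0) (nat_lit 7066968523) (nat_lit 1216) (nat_lit 45184334207) (nat_lit 1292) (nat_lit 7543565853) (nat_lit 238) (nat_lit 5) (nat_lit 254) (nat_lit 5) (nat_lit 255) (nat_lit 5) (nat_lit 439) (nat_lit 422) (nat_lit 159)) (XT.lf (nat_lit 0) (nat_lit 38809739776) (nat_lit 1216) (nat_lit 19142206894) (nat_lit 1292) (nat_lit 2818843285) (nat_lit 238) (nat_lit 5) (nat_lit 254) (nat_lit 5) (nat_lit 255) (nat_lit 5) (nat_lit 440) (nat_lit 422) (nat_lit 158))) (XT.nd (nat_lit 78) (nat_lit 0) (nat_lit 0) (XT.lf (nat_lit 0) (nat_lit 2177064592) (nat_lit 684) (nat_lit 51945873899) (nat_lit 76) (nat_lit 7647378280) (nat_lit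 229) (nat_lit 5) (nat_lit 238) (nat_lit 5) (nat_lit 230) (nat_lit 5) (nat_lit 441) (nat_lit 422) (nat_lit 157)) (XT.lf (nat_lit 0) (nat_lit 7678940986) (nat_lit 684) (nat_lit 19999817154) (nat_lit 76) (nat_lit 35107851841) (nat_lit 229) (nat_lit 5) (nat_lit 238) (nat_lit 5) (nat_lit 230) (nat_lit 5) (nat_lit 442) (nat_lit 422) (nat_lit 156)))) (XT.nd (nat_lit 156) (nat_lit 608) (nat_lit 0) (XT.nd (nat_lit 78) (nat_lit 0) (nat_lit 0) (XT.lf (nat_lit 0) (nat_lit 13160765754) (nat_lit 608) (nat_lit 310899977) (nat_lit 684) (nat_lit 50357952773) (nat_lit 221) (nat_lit 5) (nat_lit 229) (nat_lit 5) (nat_lit 230) (nat_lit 5) (nat_lit 443) (nat_lit 422) (nat_lit 155)) (XT.lf (nat_lit 0) (nat_lit 19909408716) (nat_lit 684) (nat_lit 17442380299) (nat_lit 76) (nat_lit 27537991444) (nat_lit 221) (nat_lit 5) (nat_lit 230) (nat_lit 5) (nat_lit 222) (nat_lit 5) (nat_lit 444) (nat_lit 422) (nat_lit 154))) (XT.nd (nat_lit 78)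 (nat_lit 0) (nat_lit 0) (XT.lf (nat_lit 0) (nat_lit 17111041447) (nat_lit 608) (nat_lit 9596120647) (nat_lit 684) (nat_lit 39269579097) (nat_lit 213) (nat_lit 5) (nat_lit 221) (nat_lit 5) (nat_lit 222) (nat_lit 5) (nat_lit 445) (nat_lit 422) (nat_lit 153)) (XT.lf (nat_lit 0) (nat_lit 34068622350) (nat_lit 684) (nat_lit 14217396502) (nat_lit 76) (nat_lit 18799498918) (nat_lit 213) (nat_lit 5) (nat_lit 222) (nat_lit 5) (nat_lit 214) (nat_lit 5) (nat_lit 446) (nat_lit 422) (nat_lit 152))))))))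
noncomputable def xc245 : XT := (XT.nd (nat_lit 51948) (nat_lit 0) (nat_lit 1672) (XT.nd (nat_lit 1092) (nat_lit 1216) (nat_lit 0) (XT.nd (nat_lit 546) (nat_lit 1824) (nat_lit 0) (XT.nd (nat_lit 234) (nat_lit 1064) (nat_lit 0) (XT.nd (nat_lit 78) (nat_lit 532) (nat_lit 0) (XT.lf (nat_lit 0) (nat_lit 21800084067) (nat_lit 532) (nat_lit 20154760372) (nat_lit 608) (nat_lit 26263595916) (nat_lit 206) (nat_lit 5) (nat_lit 213) (nat_lit 5) (nat_lit 214) (nat_lit 5) (nat_lit 447) (nat_lit 422) (nat_lit 151)) (XT.nd (nat_lit 78) (nat_lit 532) (nat_lit 0) (XT.lf (nat_lit 0) (nat_lit 50306793565) (nat_lit 608) (nat_lit 10278392272) (nat_lit 76) (nat_lit 8793290809) (nat_lit 206) (nat_lit 5) (nat_lit 214) (nat_lit 5) (nat_lit 207) (nat_lit 5) (nat_lit 448) (nat_lit 422) (nat_lit 150)) (XT.lf (nat_lit 0) (nat_lit 27277855813) (nat_lit 532) (nat_lit 32092591063) (nat_lit 608) (nat_lit 11189033013) (nat_lit 199) (nat_lit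 5) (nat_lit 206) (nat_lit 5) (nat_lit 207) (nat_lit 5) (nat_lit 449) (nat_lit 422) (nat_lit 149)))) (XT.nd (nat_lit 156) (nat_lit 532) (nat_lit 0) (XT.nd (nat_lit 78) (nat_lit 532) (nat_lit 0) (XT.lf (nat_lit 0) (nat_lit 66170842713) (nat_lit 532) (nat_lit 2638352660) (nat_lit 608) (nat_lit 2963622513) (nat_lit 199) (nat_lit 5) (nat_lit 206) (nat_lit 5) (nat_lit 207) (nat_lit 5) (nat_lit 450) (nat_lit 422) (nat_lit 148)) (XT.lf (nat_lit 0) (nat_lit 5995514850) (nat_lit 532) (nat_lit 39466929148) (nat_lit 76) (nat_lit 27540690007) (nat_lit 192) (nat_lit 5) (nat_lit 199) (nat_lit 5) (nat_lit 193) (nat_lit 5) (nat_lit 451) (nat_lit 422) (nat_lit 147))) (XT.nd (nat_lit 78) (nat_lit 532) (nat_lit 0) (XT.lf (nat_lit 0) (nat_lit 15246528160) (nat_lit 532) (nat_lit 361972237) (nat_lit 76) (nat_lit 58658499101) (nat_lit 192) (nat_lit 5) (nat_lit 199) (nat_lit 5) (nat_lit 193) (nat_lit 5) (nat_lit 452) (nat_lit 422) (nat_lit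 146)) (XT.lf (nat_lit 0) (nat_lit 25315252740) (nat_lit 608) (nat_lit 34996578097) (nat_lit 76) (nat_lit 15240744895) (nat_lit 185) (nat_lit 5) (nat_lit 193) (nat_lit 5) (nat_lit 186) (nat_lit 5) (nat_lit 453) (nat_lit 422) (nat_lit 145))))) (XT.nd (nat_lit 234) (nat_lit 912) (nat_lit 0) (XT.nd (nat_lit 78) (nat_lit 456) (nat_lit 0) (XT.lf (nat_lit 0) (nat_lit 5790085806) (nat_lit 456) (nat_lit 30109285293) (nat_lit 532) (nat_lit 40970948387) (nat_lit 179) (nat_lit 5) (nat_lit 185) (nat_lit 5) (nat_lit 186) (nat_lit 5) (nat_lit 454) (nat_lit 422) (nat_lit 144)) (XT.nd (nat_lit 78) (nat_lit 456) (nat_lit 0) (XT.lf (nat_lit 0) (nat_lit 47166967502) (nat_lit 532) (nat_lit 29713004064) (nat_lit 76) (nat_lit 1336645542) (nat_lit 179) (nat_lit 5) (nat_lit 186) (nat_lit 5) (nat_lit 180) (nat_lit 5) (nat_lit 455) (nat_lit 422) (nat_lit 143)) (XT.lf (nat_lit 0) (nat_lit 12847194312) (nat_lit 456) (nat_lit 46346472718)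 (nat_lit 532) (nat_lit 20397004557) (nat_lit 173) (nat_lit 5) (nat_lit 179) (nat_lit 5) (nat_lit 180) (nat_lit 5) (nat_lit 456) (nat_lit 422) (nat_lit 142)))) (XT.nd (nat_lit 156) (nat_lit 456) (nat_lit 0) (XT.nd (nat_lit 78) (nat_lit 456) (nat_lit 0) (XT.lf (nat_lit 0) (nat_lit 57292660857) (nat_lit 456) (nat_lit 14588027648) (nat_lit 532) (nat_lit 9116273744) (nat_lit 173) (nat_lit 5) (nat_lit 179) (nat_lit 5) (nat_lit 180) (nat_lit 5) (nat_lit 457) (nat_lit 422) (nat_lit 141)) (XT.lf (nat_lit 0) (nat_lit 2831948901) (nat_lit 456) (nat_lit 61603743209) (nat_lit 76) (nat_lit 17997690610) (nat_lit 167) (nat_lit 5) (nat_lit 173) (nat_lit 5) (nat_lit 168) (nat_lit 5) (nat_lit 458) (nat_lit 422) (nat_lit 140))) (XT.nd (nat_lit 78) (nat_lit 456) (nat_lit 0) (XT.lf (nat_lit 0) (nat_lit 15341058900) (nat_lit 456) (nat_lit 16957892785) (nat_lit 76) (nat_lit 51599666418) (nat_lit 167) (nat_lit 5) (nat_lit 173) (nat_lit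 5) (nat_lit 168) (nat_lit 5) (nat_lit 459) (nat_lit 422) (nat_lit 139)) (XT.lf (nat_lit 0) (nat_lit 28520053237) (nat_lit 532) (nat_lit 55805398251) (nat_lit 76) (nat_lit 1073520888) (nat_lit 161) (nat_lit 5) (nat_lit 168) (nat_lit 5) (nat_lit 162) (nat_lit 5) (nat_lit 460) (nat_lit 422) (nat_lit 138)))))) (XT.nd (nat_lit 50310) (nat_lit 0) (nat_lit 7752) (XT.nd (nat_lit 234) (nat_lit 836) (nat_lit 0) (XT.nd (nat_lit 78) (nat_lit 380) (nat_lit 0) (XT.lf (nat_lit 0) (nat_lit 42586663827) (nat_lit 532) (nat_lit 9372096670) (nat_lit 76) (nat_lit 34970809539) (nat_lit 161) (nat_lit 5) (nat_lit 168) (nat_lit 5) (nat_lit 162) (nat_lit 5) (nat_lit 461) (nat_lit 422) (nat_lit 137)) (XT.nd (nat_lit 78) (nat_lit 0) (nat_lit 0) (XT.lf (nat_lit 0) (nat_lit 39218909245) (nat_lit 380) (nat_lit 18232891577) (nat_lit 456) (nat_lit 31042989114) (nat_lit 156) (nat_lit 5) (nat_lit 161) (nat_lit 5) (nat_lit 162) (nat_lit 5) (nat_lit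 462) (nat_lit 422) (nat_lit 136)) (XT.lf (nat_lit 0) (nat_lit 73016661171) (nat_lit 456) (nat_lit 804557650) (nat_lit 76) (nat_lit 16278134677) (nat_lit 156) (nat_lit 5) (nat_lit 162) (nat_lit 5) (nat_lit 157) (nat_lit 5) (nat_lit 463) (nat_lit 422) (nat_lit 135)))) (XT.nd (nat_lit 49920) (nat_lit 0) (nat_lit 7676) (XT.nd (nat_lit 78) (nat_lit 456) (nat_lit 0) (XT.lf (nat_lit 0) (nat_lit 49913793143) (nat_lit 380) (nat_lit 39794551851) (nat_lit 456) (nat_lit 2023912788) (nat_lit 151) (nat_lit 5) (nat_lit 156) (nat_lit 5) (nat_lit 157) (nat_lit 5) (nat_lit 464) (nat_lit 422) (nat_lit 134)) (XT.lf (nat_lit 0) (nat_lit 8797643796) (nat_lit 380) (nat_lit 4518141881) (nat_lit 456) (nat_lit 80091704546) (nat_lit 145) (nat_lit 5) (nat_lit 150) (nat_lit 5) (nat_lit 151) (nat_lit 5) (nat_lit 465) (nat_lit 422) (nat_lit 133))) (XT.nd (nat_lit 78) (nat_lit 0) (nat_lit 0) (XT.lf (nat_lit 0) (nat_lit 5064402086) (nat_lit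 1292) (nat_lit 9304213845) (nat_lit 1292) (nat_lit 9304213845) (nat_lit 246) (nat_lit 3) (nat_lit 263) (nat_lit 3) (nat_lit 263) (nat_lit 5) (nat_lit 423) (nat_lit 423) (nat_lit 174)) (XT.lf (nat_lit 76) (nat_lit 4294014514) (nat_lit 0) (nat_lit 6056765781) (nat_lit 1292) (nat_lit 37702950682) (nat_lit 247) (nat_lit 5) (nat_lit 246) (nat_lit 3) (nat_lit 263) (nat_lit 5) (nat_lit 424) (nat_lit 423) (nat_lit 173))))) (XT.nd (nat_lit 234) (nat_lit 0) (nat_lit 76) (XT.nd (nat_lit 78) (nat_lit 0) (nat_lit 0) (XT.lf (nat_lit 0) (nat_lit 10934399343) (nat_lit 1216) (nat_lit 20681250436) (nat_lit 1292) (nat_lit 17156745730) (nat_lit 247) (nat_lit 5) (nat_lit 263) (nat_lit 5) (nat_lit 264) (nat_lit 5) (nat_lit 425) (nat_lit 423) (nat_lit 172)) (XT.nd (nat_lit 78) (nat_lit 0) (nat_lit 76) (XT.lf (nat_lit 76) (nat_lit 3089273330) (nat_lit 0) (nat_lit 8534827105) (nat_lit 1292) (nat_lit 37885862799) (nat_lit 248) (nat_lit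 5) (nat_lit 247) (nat_lit 5) (nat_lit 264) (nat_lit 5) (nat_lit 426) (nat_lit 423) (nat_lit 171)) (XT.lf (nat_lit 0) (nat_lit 12690821250) (nat_lit 1216) (nat_lit 22415725282) (nat_lit 1292) (nat_lit 15152422044) (nat_lit 248) (nat_lit 5) (nat_lit 264) (nat_lit 5) (nat_lit 265) (nat_lit 5) (nat_lit 427) (nat_lit 423) (nat_lit 170)))) (XT.nd (nat_lit 156) (nat_lit 0) (nat_lit 76) (XT.nd (nat_lit 78) (nat_lit 0) (nat_lit 76) (XT.lf (nat_lit 76) (nat_lit 2268528987) (nat_lit 0) (nat_lit 11626295177) (nat_lit 1292) (nat_lit 37132461934) (nat_lit 249) (nat_lit 5) (nat_lit 248) (nat_lit 5) (nat_lit 265) (nat_lit 5) (nat_lit 428) (nat_lit 423) (nat_lit 169)) (XT.lf (nat_lit 0) (nat_lit 15483260378) (nat_lit 1216) (nat_lit 23782662457) (nat_lit 1292) (nat_lit 12542281337) (nat_lit 249) (nat_lit 5) (nat_lit 265) (nat_lit 5) (nat_lit 266) (nat_lit 5) (nat_lit 429) (nat_lit 423) (nat_lit 168))) (XT.nd (nat_lit 78) (nat_lit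 0) (nat_lit 76) (XT.lf (nat_lit 76) (nat_lit 1863331056) (nat_lit 0) (nat_lit 15388069626) (nat_lit 1292) (nat_lit 35357187983) (nat_lit 250) (nat_lit 5) (nat_lit 249) (nat_lit 5) (nat_lit 266) (nat_lit 5) (nat_lit 430) (nat_lit 423) (nat_lit 167)) (XT.lf (nat_lit 0) (nat_lit 19402669215) (nat_lit 1216) (nat_lit 24751085219) (nat_lit 1292) (nat_lit 9269328136) (nat_lit 250) (nat_lit 5) (nat_lit 266) (nat_lit 5) (nat_lit 267) (nat_lit 5) (nat_lit 431) (nat_lit 423) (nat_lit 166))))))) (XT.nd (nat_lit 1092) (nat_lit 4104) (nat_lit 0) (XT.nd (nat_lit 546) (nat_lit 2204) (nat_lit 0) (XT.nd (nat_lit 234) (nat_lit 0) (nat_lit 152) (XT.nd (nat_lit 78) (nat_lit 0) (nat_lit 76) (XT.lf (nat_lit 76) (nat_lit 1907131131) (nat_lit 0) (nat_lit 19881114994) (nat_lit 1292) (nat_lit 32468672443) (nat_lit 251) (nat_lit 5) (nat_lit 250) (nat_lit 5) (nat_lit 267) (nat_lit 5) (nat_lit 432) (nat_lit 423) (nat_lit 165)) (XT.nd (nat_lit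 78) (nat_lit 0) (nat_lit 0) (XT.lf (nat_lit 0) (nat_lit 24546120057) (nat_lit 1216) (nat_lit 25288155628) (nat_lit 1292) (nat_lit 5272472443) (nat_lit 251) (nat_lit 5) (nat_lit 267) (nat_lit 5) (nat_lit 268) (nat_lit 5) (nat_lit 433) (nat_lit 423) (nat_lit 164)) (XT.lf (nat_lit 76) (nat_lit 2435361685) (nat_lit 0) (nat_lit 25170751463) (nat_lit 1292) (nat_lit 28369378302) (nat_lit 252) (nat_lit 5) (nat_lit 251) (nat_lit 5) (nat_lit 268) (nat_lit 5) (nat_lit 434) (nat_lit 423) (nat_lit 163)))) (XT.nd (nat_lit 156) (nat_lit 0) (nat_lit 0) (XT.nd (nat_lit 78) (nat_lit 0) (nat_lit 0) (XT.lf (nat_lit 0) (nat_lit 31017183094) (nat_lit 1216) (nat_lit 25359099332) (nat_lit 1292) (nat_lit 486236688) (nat_lit 252) (nat_lit 5) (nat_lit 268) (nat_lit 5) (nat_lit 269) (nat_lit 5) (nat_lit 435) (nat_lit 423) (nat_lit 162)) (XT.lf (nat_lit 76) (nat_lit 3485515968) (nat_lit 0) (nat_lit 31326965463) (nat_lit 1292) (nat_lit 22955219629)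 (nat_lit 253) (nat_lit 5) (nat_lit 252) (nat_lit 5) (nat_lit 269) (nat_lit 5) (nat_lit 436) (nat_lit 423) (nat_lit 161))) (XT.nd (nat_lit 78) (nat_lit 0) (nat_lit 76) (XT.lf (nat_lit 76) (nat_lit 33714667076) (nat_lit 0) (nat_lit 5262242697) (nat_lit 1292) (nat_lit 19715470893) (nat_lit 253) (nat_lit 5) (nat_lit 252) (nat_lit 5) (nat_lit 269) (nat_lit 5) (nat_lit 437) (nat_lit 423) (nat_lit 160)) (XT.lf (nat_lit 76) (nat_lit 5097228615) (nat_lit 0) (nat_lit 38424741607) (nat_lit 1292) (nat_lit 16115159784) (nat_lit 254) (nat_lit 5) (nat_lit 253) (nat_lit 5) (nat_lit 270) (nat_lit 5) (nat_lit 438) (nat_lit 423) (nat_lit 159))))) (XT.nd (nat_lit 234) (nat_lit 1292) (nat_lit 0) (XT.nd (nat_lit 78) (nat_lit 1140) (nat_lit 0) (XT.lf (nat_lit 76) (nat_lit 36532659666) (nat_lit 0) (nat_lit 11973774875) (nat_lit 1292) (nat_lit 12094696035) (nat_lit 254) (nat_lit 5) (nat_lit 253) (nat_lit 5) (nat_lit 270) (nat_lit 5)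 (nat_lit 439) (nat_lit 423) (nat_lit 158)) (XT.nd (nat_lit 78) (nat_lit 0) (nat_lit 0) (XT.lf (nat_lit 0) (nat_lit 7312356553) (nat_lit 1216) (nat_lit 46544417535) (nat_lit 1292) (nat_lit 7730787142) (nat_lit 238) (nat_lit 5) (nat_lit 254) (nat_lit 5) (nat_lit 255) (nat_lit 5) (nat_lit 440) (nat_lit 423) (nat_lit 157)) (XT.lf (nat_lit 0) (nat_lit 40006438740) (nat_lit 1216) (nat_lit 19720893782) (nat_lit 1292) (nat_lit 2865461315) (nat_lit 238) (nat_lit 5) (nat_lit 254) (nat_lit 5) (nat_lit 255) (nat_lit 5) (nat_lit 441) (nat_lit 423) (nat_lit 156)))) (XT.nd (nat_lit 156) (nat_lit 608) (nat_lit 0) (XT.nd (nat_lit 78) (nat_lit 0) (nat_lit 0) (XT.lf (nat_lit 0) (nat_lit 2278780640) (nat_lit 684) (nat_lit 53470271498) (nat_lit 76) (nat_lit 7873267882) (nat_lit 229) (nat_lit 5) (nat_lit 238) (nat_lit 5) (nat_lit 230) (nat_lit 5) (nat_lit 442) (nat_lit 423) (nat_lit 155)) (XT.lf (nat_lit 0) (nat_lit 7944653011) (nat_lit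 684) (nat_lit 20566822719) (nat_lit 76) (nat_lit 36157658516) (nat_lit 229) (nat_lit 5) (nat_lit 238) (nat_lit 5) (nat_lit 230) (nat_lit 5) (nat_lit 443) (nat_lit 423) (nat_lit 154))) (XT.nd (nat_lit 78) (nat_lit 0) (nat_lit 0) (XT.lf (nat_lit 0) (nat_lit 13588254256) (nat_lit 608) (nat_lit 322189813) (nat_lit 684) (nat_lit 51833010818) (nat_lit 221) (nat_lit 5) (nat_lit 229) (nat_lit 5) (nat_lit 230) (nat_lit 5) (nat_lit 444) (nat_lit 423) (nat_lit 153)) (XT.lf (nat_lit 0) (nat_lit 20540292431) (nat_lit 684) (nat_lit 17932897757) (nat_lit 76) (nat_lit 28362262707) (nat_lit 221) (nat_lit 5) (nat_lit 230) (nat_lit 5) (nat_lit 222) (nat_lit 5) (nat_lit 445) (nat_lit 423) (nat_lit 152)))))) (XT.nd (nat_lit 546) (nat_lit 1900) (nat_lit 0) (XT.nd (nat_lit 234) (nat_lit 1064) (nat_lit 0) (XT.nd (nat_lit 78) (nat_lit 532) (nat_lit 0) (XT.lf (nat_lit 0) (nat_lit 17656805524) (nat_lit 608) (nat_lit 9884505968) (nat_lit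 684) (nat_lit 40413731342) (nat_lit 213) (nat_lit 5) (nat_lit 221) (nat_lit 5) (nat_lit 222) (nat_lit 5) (nat_lit 446) (nat_lit 423) (nat_lit 151)) (XT.nd (nat_lit 78) (nat_lit 532) (nat_lit 0) (XT.lf (nat_lit 0) (nat_lit 35122651616) (nat_lit 684) (nat_lit 14611454078) (nat_lit 76) (nat_lit 19363006302) (nat_lit 213) (nat_lit 5) (nat_lit 222) (nat_lit 5) (nat_lit 214) (nat_lit 5) (nat_lit 447) (nat_lit 423) (nat_lit 150)) (XT.lf (nat_lit 0) (nat_lit 22486232631) (nat_lit 532) (nat_lit 20758605561) (nat_lit 608) (nat_lit 27019203085) (nat_lit 206) (nat_lit 5) (nat_lit 213) (nat_lit 5) (nat_lit 214) (nat_lit 5) (nat_lit 448) (nat_lit 423) (nat_lit 149)))) (XT.nd (nat_lit 156) (nat_lit 532) (nat_lit 0) (XT.nd (nat_lit 78) (nat_lit 532) (nat_lit 0) (XT.lf (nat_lit 0) (nat_lit 51846440175) (nat_lit 608) (nat_lit 10554617184) (nat_lit 76) (nat_lit 9057848812) (nat_lit 206) (nat_lit 5) (nat_lit 214) (nat_lit 5) (nat_lit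 207) (nat_lit 5) (nat_lit 449) (nat_lit 423) (nat_lit 148)) (XT.lf (nat_lit 0) (nat_lit 28128003375) (nat_lit 532) (nat_lit 33053418821) (nat_lit 608) (nat_lit 11493935075) (nat_lit 199) (nat_lit 5) (nat_lit 206) (nat_lit 5) (nat_lit 207) (nat_lit 5) (nat_lit 450) (nat_lit 423) (nat_lit 147))) (XT.nd (nat_lit 78) (nat_lit 532) (nat_lit 0) (XT.lf (nat_lit 0) (nat_lit 68186853322) (nat_lit 532) (nat_lit 2715610062) (nat_lit 608) (nat_lit 3022658442) (nat_lit 199) (nat_lit 5) (nat_lit 206) (nat_lit 5) (nat_lit 207) (nat_lit 5) (nat_lit 451) (nat_lit 423) (nat_lit 146)) (XT.lf (nat_lit 0) (nat_lit 6204140036) (nat_lit 532) (nat_lit 40618917964) (nat_lit 76) (nat_lit 28369297022) (nat_lit 192) (nat_lit 5) (nat_lit 199) (nat_lit 5) (nat_lit 193) (nat_lit 5) (nat_lit 452) (nat_lit 423) (nat_lit 145))))) (XT.nd (nat_lit 312) (nat_lit 912) (nat_lit 0) (XT.nd (nat_lit 156) (nat_lit 456) (nat_lit 0) (XT.nd (nat_lit 78)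 (nat_lit 532) (nat_lit 0) (XT.lf (nat_lit 0) (nat_lit 15731846084) (nat_lit 532) (nat_lit 341744940) (nat_lit 76) (nat_lit 60420570885) (nat_lit 192) (nat_lit 5) (nat_lit 199) (nat_lit 5) (nat_lit 193) (nat_lit 5) (nat_lit 453) (nat_lit 423) (nat_lit 144)) (XT.lf (nat_lit 0) (nat_lit 26102147491) (nat_lit 608) (nat_lit 36014894442) (nat_lit 76) (nat_lit 15701278332) (nat_lit 185) (nat_lit 5) (nat_lit 193) (nat_lit 5) (nat_lit 186) (nat_lit 5) (nat_lit 454) (nat_lit 423) (nat_lit 143))) (XT.nd (nat_lit 78) (nat_lit 0) (nat_lit 0) (XT.lf (nat_lit 0) (nat_lit 5995059761) (nat_lit 456) (nat_lit 31008231099) (nat_lit 532) (nat_lit 42172320709) (nat_lit 179) (nat_lit 5) (nat_lit 185) (nat_lit 5) (nat_lit 186) (nat_lit 5) (nat_lit 455) (nat_lit 423) (nat_lit 142)) (XT.lf (nat_lit 0) (nat_lit 48608170970) (nat_lit 532) (nat_lit 30573280368) (nat_lit 76) (nat_lit 1380869380) (nat_lit 179) (nat_lit 5) (nat_lit 186) (nat_lit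 5) (nat_lit 180) (nat_lit 5) (nat_lit 456) (nat_lit 423) (nat_lit 141)))) (XT.nd (nat_lit 156) (nat_lit 456) (nat_lit 0) (XT.nd (nat_lit 78) (nat_lit 0) (nat_lit 0) (XT.lf (nat_lit 0) (nat_lit 13263418922) (nat_lit 456) (nat_lit 47731785769) (nat_lit 532) (nat_lit 20982406406) (nat_lit 173) (nat_lit 5) (nat_lit 179) (nat_lit 5) (nat_lit 180) (nat_lit 5) (nat_lit 457) (nat_lit 423) (nat_lit 140)) (XT.lf (nat_lit 0) (nat_lit 59041352121) (nat_lit 456) (nat_lit 15020735341) (nat_lit 532) (nat_lit 9364025755) (nat_lit 173) (nat_lit 5) (nat_lit 179) (nat_lit 5) (nat_lit 180) (nat_lit 5) (nat_lit 458) (nat_lit 423) (nat_lit 139))) (XT.nd (nat_lit 78) (nat_lit 0) (nat_lit 0) (XT.lf (nat_lit 0) (nat_lit 2941747245) (nat_lit 456) (nat_lit 63421031381) (nat_lit 76) (nat_lit 18542852321) (nat_lit 167) (nat_lit 5) (nat_lit 173) (nat_lit 5) (nat_lit 168) (nat_lit 5) (nat_lit 459) (nat_lit 423) (nat_lit 138)) (XT.lf (nat_lit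 0) (nat_lit 15825407052) (nat_lit 456) (nat_lit 17436703235) (nat_lit 76) (nat_lit 53152735043) (nat_lit 167) (nat_lit 5) (nat_lit 173) (nat_lit 5) (nat_lit 168) (nat_lit 5) (nat_lit 460) (nat_lit 423) (nat_lit 137))))))))
noncomputable def xc246 : XT := (XT.nd (nat_lit 52026) (nat_lit 0) (nat_lit 380) (XT.nd (nat_lit 50934) (nat_lit 0) (nat_lit 5320) (XT.nd (nat_lit 50388) (nat_lit 0) (nat_lit 7296) (XT.nd (nat_lit 234) (nat_lit 380) (nat_lit 0) (XT.nd (nat_lit 78) (nat_lit 380) (nat_lit 0) (XT.lf (nat_lit 0) (nat_lit 29399410692) (nat_lit 532) (nat_lit 57449265741) (nat_lit 76) (nat_lit 1111544841) (nat_lit 161) (nat_lit 5) (nat_lit 168) (nat_lit 5) (nat_lit 162) (nat_lit 5) (nat_lit 461) (nat_lit 423) (nat_lit 136)) (XT.nd (nat_lit 78) (nat_lit 380) (nat_lit 0) (XT.lf (nat_lit 0) (nat_lit 43887327682) (nat_lit 532) (nat_lit 9623847476) (nat_lit 76) (nat_lit 36025582686) (nat_lit 161) (nat_lit 5) (nat_lit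 168) (nat_lit 5) (nat_lit 162) (nat_lit 5) (nat_lit 462) (nat_lit 423) (nat_lit 135)) (XT.lf (nat_lit 0) (nat_lit 40424600263) (nat_lit 380) (nat_lit 18773426713) (nat_lit 456) (nat_lit 31950919333) (nat_lit 156) (nat_lit 5) (nat_lit 161) (nat_lit 5) (nat_lit 162) (nat_lit 5) (nat_lit 463) (nat_lit 423) (nat_lit 134)))) (XT.nd (nat_lit 49998) (nat_lit 0) (nat_lit 7220) (XT.nd (nat_lit 78) (nat_lit 380) (nat_lit 0) (XT.lf (nat_lit 0) (nat_lit 75229232994) (nat_lit 456) (nat_lit 799811808) (nat_lit 76) (nat_lit 16772620190) (nat_lit 156) (nat_lit 5) (nat_lit 162) (nat_lit 5) (nat_lit 157) (nat_lit 5) (nat_lit 464) (nat_lit 423) (nat_lit 133)) (XT.lf (nat_lit 0) (nat_lit 51439806346) (nat_lit 380) (nat_lit 40981493026) (nat_lit 456) (nat_lit 2062268272) (nat_lit 151) (nat_lit 5) (nat_lit 156) (nat_lit 5) (nat_lit 157) (nat_lit 5) (nat_lit 465) (nat_lit 423) (nat_lit 132))) (XT.nd (nat_lit 78) (nat_lit 0) (nat_lit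 0) (XT.lf (nat_lit 0) (nat_lit 5244824985) (nat_lit 1292) (nat_lit 9568661464) (nat_lit 1292) (nat_lit 9568661464) (nat_lit 246) (nat_lit 3) (nat_lit 263) (nat_lit 3) (nat_lit 263) (nat_lit 5) (nat_lit 424) (nat_lit 424) (nat_lit 172)) (XT.lf (nat_lit 76) (nat_lit 4451904721) (nat_lit 0) (nat_lit 6265000431) (nat_lit 1292) (nat_lit 38776746351) (nat_lit 247) (nat_lit 5) (nat_lit 246) (nat_lit 3) (nat_lit 263) (nat_lit 5) (nat_lit 425) (nat_lit 424) (nat_lit 171))))) (XT.nd (nat_lit 234) (nat_lit 0) (nat_lit 76) (XT.nd (nat_lit 78) (nat_lit 0) (nat_lit 0) (XT.lf (nat_lit 0) (nat_lit 11316165702) (nat_lit 1216) (nat_lit 21271575121) (nat_lit 1292) (nat_lit 17646191841) (nat_lit 247) (nat_lit 5) (nat_lit 263) (nat_lit 5) (nat_lit 264) (nat_lit 5) (nat_lit 426) (nat_lit 424) (nat_lit 170)) (XT.nd (nat_lit 78) (nat_lit 0) (nat_lit 76) (XT.lf (nat_lit 76) (nat_lit 3211769134) (nat_lit 0) (nat_lit 8813510239) (nat_lit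 1292) (nat_lit 38968387063) (nat_lit 248) (nat_lit 5) (nat_lit 247) (nat_lit 5) (nat_lit 264) (nat_lit 5) (nat_lit 427) (nat_lit 424) (nat_lit 169)) (XT.lf (nat_lit 0) (nat_lit 13122262695) (nat_lit 1216) (nat_lit 23057487416) (nat_lit 1292) (nat_lit 15585444642) (nat_lit 248) (nat_lit 5) (nat_lit 264) (nat_lit 5) (nat_lit 265) (nat_lit 5) (nat_lit 428) (nat_lit 424) (nat_lit 168)))) (XT.nd (nat_lit 156) (nat_lit 0) (nat_lit 76) (XT.nd (nat_lit 78) (nat_lit 0) (nat_lit 76) (XT.lf (nat_lit 76) (nat_lit 2366993406) (nat_lit 0) (nat_lit 11994207407) (nat_lit 1292) (nat_lit 38195397156) (nat_lit 249) (nat_lit 5) (nat_lit 248) (nat_lit 5) (nat_lit 265) (nat_lit 5) (nat_lit 429) (nat_lit 424) (nat_lit 167)) (XT.lf (nat_lit 0) (nat_lit 15995668964) (nat_lit 1216) (nat_lit 24464978168) (nat_lit 1292) (nat_lit 12900345691) (nat_lit 249) (nat_lit 5) (nat_lit 265) (nat_lit 5) (nat_lit 266) (nat_lit 5) (nat_lit 430) (nat_lit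 424) (nat_lit 166))) (XT.nd (nat_lit 78) (nat_lit 0) (nat_lit 76) (XT.lf (nat_lit 76) (nat_lit 1950089618) (nat_lit 0) (nat_lit 15865665032) (nat_lit 1292) (nat_lit 36369667753) (nat_lit 250) (nat_lit 5) (nat_lit 249) (nat_lit 5) (nat_lit 266) (nat_lit 5) (nat_lit 431) (nat_lit 424) (nat_lit 165)) (XT.lf (nat_lit 0) (nat_lit 20030048898) (nat_lit 1216) (nat_lit 25462126605) (nat_lit 1292) (nat_lit 9532221563) (nat_lit 250) (nat_lit 5) (nat_lit 266) (nat_lit 5) (nat_lit 267) (nat_lit 5) (nat_lit 432) (nat_lit 424) (nat_lit 164)))))) (XT.nd (nat_lit 546) (nat_lit 2204) (nat_lit 0) (XT.nd (nat_lit 234) (nat_lit 0) (nat_lit 152) (XT.nd (nat_lit 78) (nat_lit 0) (nat_lit 76) (XT.lf (nat_lit 76) (nat_lit 1995527498) (nat_lit 0) (nat_lit 20490645956) (nat_lit 1292) (nat_lit 33397105833) (nat_lit 251) (nat_lit 5) (nat_lit 250) (nat_lit 5) (nat_lit 267) (nat_lit 5) (nat_lit 433) (nat_lit 424) (nat_lit 163)) (XT.nd (nat_lit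 78) (nat_lit 0) (nat_lit 0) (XT.lf (nat_lit 0) (nat_lit 25325371662) (nat_lit 1216) (nat_lit 26015096246) (nat_lit 1292) (nat_lit 5418178721) (nat_lit 251) (nat_lit 5) (nat_lit 267) (nat_lit 5) (nat_lit 268) (nat_lit 5) (nat_lit 434) (nat_lit 424) (nat_lit 162)) (XT.lf (nat_lit 76) (nat_lit 2539815762) (nat_lit 0) (nat_lit 25936401972) (nat_lit 1292) (nat_lit 29177263443) (nat_lit 252) (nat_lit 5) (nat_lit 251) (nat_lit 5) (nat_lit 268) (nat_lit 5) (nat_lit 435) (nat_lit 424) (nat_lit 161)))) (XT.nd (nat_lit 156) (nat_lit 0) (nat_lit 0) (XT.nd (nat_lit 78) (nat_lit 0) (nat_lit 0) (XT.lf (nat_lit 0) (nat_lit 31988300520) (nat_lit 1216) (nat_lit 26088057317) (nat_lit 1292) (nat_lit 490801918) (nat_lit 252) (nat_lit 5) (nat_lit 268) (nat_lit 5) (nat_lit 269) (nat_lit 5) (nat_lit 436) (nat_lit 424) (nat_lit 160)) (XT.lf (nat_lit 76) (nat_lit 3621584531) (nat_lit 0) (nat_lit 32274993523) (nat_lit 1292) (nat_lit 23602945990)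 (nat_lit 253) (nat_lit 5) (nat_lit 252) (nat_lit 5) (nat_lit 269) (nat_lit 5) (nat_lit 437) (nat_lit 424) (nat_lit 159))) (XT.nd (nat_lit 78) (nat_lit 0) (nat_lit 76) (XT.lf (nat_lit 76) (nat_lit 34756692606) (nat_lit 0) (nat_lit 5428089683) (nat_lit 1292) (nat_lit 20267196934) (nat_lit 253) (nat_lit 5) (nat_lit 252) (nat_lit 5) (nat_lit 269) (nat_lit 5) (nat_lit 438) (nat_lit 424) (nat_lit 158)) (XT.lf (nat_lit 76) (nat_lit 5281668452) (nat_lit 0) (nat_lit 39583631387) (nat_lit 1292) (nat_lit 16559798509) (nat_lit 254) (nat_lit 5) (nat_lit 253) (nat_lit 5) (nat_lit 270) (nat_lit 5) (nat_lit 439) (nat_lit 424) (nat_lit 157))))) (XT.nd (nat_lit 234) (nat_lit 1292) (nat_lit 0) (XT.nd (nat_lit 78) (nat_lit 1140) (nat_lit 0) (XT.lf (nat_lit 76) (nat_lit 37659244289) (nat_lit 0) (nat_lit 12338956600) (nat_lit 1292) (nat_lit 12419851413) (nat_lit 254) (nat_lit 5) (nat_lit 253) (nat_lit 5) (nat_lit 270) (nat_lit 5)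 (nat_lit 440) (nat_lit 424) (nat_lit 156)) (XT.nd (nat_lit 78) (nat_lit 0) (nat_lit 0) (XT.lf (nat_lit 0) (nat_lit 7563190134) (nat_lit 1216) (nat_lit 47945041984) (nat_lit 1292) (nat_lit 7925868749) (nat_lit 238) (nat_lit 5) (nat_lit 254) (nat_lit 5) (nat_lit 255) (nat_lit 5) (nat_lit 441) (nat_lit 424) (nat_lit 155)) (XT.lf (nat_lit 0) (nat_lit 41237178392) (nat_lit 1216) (nat_lit 20316687511) (nat_lit 1292) (nat_lit 2915656215) (nat_lit 238) (nat_lit 5) (nat_lit 254) (nat_lit 5) (nat_lit 255) (nat_lit 5) (nat_lit 442) (nat_lit 424) (nat_lit 154)))) (XT.nd (nat_lit 156) (nat_lit 608) (nat_lit 0) (XT.nd (nat_lit 78) (nat_lit 0) (nat_lit 0) (XT.lf (nat_lit 0) (nat_lit 2381458423) (nat_lit 684) (nat_lit 55042351536) (nat_lit 76) (nat_lit 8106136908) (nat_lit 229) (nat_lit 5) (nat_lit 238) (nat_lit 5) (nat_lit 230) (nat_lit 5) (nat_lit 443) (nat_lit 424) (nat_lit 153)) (XT.lf (nat_lit 0) (nat_lit 8216307518) (nat_lit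 684) (nat_lit 21152732151) (nat_lit 76) (nat_lit 37239156224) (nat_lit 229) (nat_lit 5) (nat_lit 238) (nat_lit 5) (nat_lit 230) (nat_lit 5) (nat_lit 444) (nat_lit 424) (nat_lit 152))) (XT.nd (nat_lit 78) (nat_lit 0) (nat_lit 0) (XT.lf (nat_lit 0) (nat_lit 14026692278) (nat_lit 608) (nat_lit 333705670) (nat_lit 684) (nat_lit 53354368814) (nat_lit 221) (nat_lit 5) (nat_lit 229) (nat_lit 5) (nat_lit 230) (nat_lit 5) (nat_lit 445) (nat_lit 424) (nat_lit 151)) (XT.lf (nat_lit 0) (nat_lit 21188173798) (nat_lit 684) (nat_lit 18440010950) (nat_lit 76) (nat_lit 29211369366) (nat_lit 221) (nat_lit 5) (nat_lit 230) (nat_lit 5) (nat_lit 222) (nat_lit 5) (nat_lit 446) (nat_lit 424) (nat_lit 150))))))) (XT.nd (nat_lit 1092) (nat_lit 836) (nat_lit 0) (XT.nd (nat_lit 546) (nat_lit 1900) (nat_lit 0) (XT.nd (nat_lit 234) (nat_lit 1064) (nat_lit 0) (XT.nd (nat_lit 78) (nat_lit 532) (nat_lit 0) (XT.lf (nat_lit 0) (nat_lit 18217080746)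 (nat_lit 608) (nat_lit 10181514049) (nat_lit 684) (nat_lit 41594156170) (nat_lit 213) (nat_lit 5) (nat_lit 221) (nat_lit 5) (nat_lit 222) (nat_lit 5) (nat_lit 447) (nat_lit 424) (nat_lit 149)) (XT.nd (nat_lit 78) (nat_lit 532) (nat_lit 0) (XT.lf (nat_lit 0) (nat_lit 36206466516) (nat_lit 684) (nat_lit 15019196966) (nat_lit 76) (nat_lit 19943446322) (nat_lit 213) (nat_lit 5) (nat_lit 222) (nat_lit 5) (nat_lit 214) (nat_lit 5) (nat_lit 448) (nat_lit 424) (nat_lit 148)) (XT.lf (nat_lit 0) (nat_lit 23191120337) (nat_lit 532) (nat_lit 21380611893) (nat_lit 608) (nat_lit 27799332663) (nat_lit 206) (nat_lit 5) (nat_lit 213) (nat_lit 5) (nat_lit 214) (nat_lit 5) (nat_lit 449) (nat_lit 424) (nat_lit 147)))) (XT.nd (nat_lit 156) (nat_lit 532) (nat_lit 0) (XT.nd (nat_lit 78) (nat_lit 532) (nat_lit 0) (XT.lf (nat_lit 0) (nat_lit 53430528642) (nat_lit 608) (nat_lit 10840973055) (nat_lit 76) (nat_lit 9330299970) (nat_lit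 206) (nat_lit 5) (nat_lit 214) (nat_lit 5) (nat_lit 207) (nat_lit 5) (nat_lit 450) (nat_lit 424) (nat_lit 146)) (XT.lf (nat_lit 0) (nat_lit 29001829231) (nat_lit 532) (nat_lit 34043183349) (nat_lit 608) (nat_lit 11809750461) (nat_lit 199) (nat_lit 5) (nat_lit 206) (nat_lit 5) (nat_lit 207) (nat_lit 5) (nat_lit 451) (nat_lit 424) (nat_lit 145))) (XT.nd (nat_lit 78) (nat_lit 532) (nat_lit 0) (XT.lf (nat_lit 0) (nat_lit 70261571305) (nat_lit 532) (nat_lit 2795293862) (nat_lit 608) (nat_lit 3085180267) (nat_lit 199) (nat_lit 5) (nat_lit 206) (nat_lit 5) (nat_lit 207) (nat_lit 5) (nat_lit 452) (nat_lit 424) (nat_lit 144)) (XT.lf (nat_lit 0) (nat_lit 6417373052) (nat_lit 532) (nat_lit 41807304470) (nat_lit 76) (nat_lit 29222625263) (nat_lit 192) (nat_lit 5) (nat_lit 199) (nat_lit 5) (nat_lit 193) (nat_lit 5) (nat_lit 453) (nat_lit 424) (nat_lit 143))))) (XT.nd (nat_lit 234) (nat_lit 912) (nat_lit 0) (XT.nd (nat_lit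 78) (nat_lit 988) (nat_lit 0) (XT.lf (nat_lit 0) (nat_lit 16230120704) (nat_lit 532) (nat_lit 322695314) (nat_lit 76) (nat_lit 62235371827) (nat_lit 192) (nat_lit 5) (nat_lit 199) (nat_lit 5) (nat_lit 193) (nat_lit 5) (nat_lit 454) (nat_lit 424) (nat_lit 142)) (XT.nd (nat_lit 78) (nat_lit 456) (nat_lit 0) (XT.lf (nat_lit 0) (nat_lit 26911074079) (nat_lit 608) (nat_lit 37065573156) (nat_lit 76) (nat_lit 16175437703) (nat_lit 185) (nat_lit 5) (nat_lit 193) (nat_lit 5) (nat_lit 186) (nat_lit 5) (nat_lit 455) (nat_lit 424) (nat_lit 141)) (XT.lf (nat_lit 0) (nat_lit 6204387829) (nat_lit 456) (nat_lit 31934393997) (nat_lit 532) (nat_lit 43411327516) (nat_lit 179) (nat_lit 5) (nat_lit 185) (nat_lit 5) (nat_lit 186) (nat_lit 5) (nat_lit 456) (nat_lit 424) (nat_lit 140)))) (XT.nd (nat_lit 156) (nat_lit 456) (nat_lit 0) (XT.nd (nat_lit 78) (nat_lit 456) (nat_lit 0) (XT.lf (nat_lit 0) (nat_lit 50091106875) (nat_lit 532)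 (nat_lit 31461151020) (nat_lit 76) (nat_lit 1426183170) (nat_lit 179) (nat_lit 5) (nat_lit 186) (nat_lit 5) (nat_lit 180) (nat_lit 5) (nat_lit 457) (nat_lit 424) (nat_lit 139)) (XT.lf (nat_lit 0) (nat_lit 13690361721) (nat_lit 456) (nat_lit 49158949890) (nat_lit 532) (nat_lit 21586891995) (nat_lit 173) (nat_lit 5) (nat_lit 179) (nat_lit 5) (nat_lit 180) (nat_lit 5) (nat_lit 458) (nat_lit 424) (nat_lit 138))) (XT.nd (nat_lit 78) (nat_lit 456) (nat_lit 0) (XT.lf (nat_lit 0) (nat_lit 60840787084) (nat_lit 456) (nat_lit 15466707448) (nat_lit 532) (nat_lit 9620687689) (nat_lit 173) (nat_lit 5) (nat_lit 179) (nat_lit 5) (nat_lit 180) (nat_lit 5) (nat_lit 459) (nat_lit 424) (nat_lit 137)) (XT.lf (nat_lit 0) (nat_lit 3053413628) (nat_lit 456) (nat_lit 65294607629) (nat_lit 76) (nat_lit 19104068602) (nat_lit 167) (nat_lit 5) (nat_lit 173) (nat_lit 5) (nat_lit 168) (nat_lit 5) (nat_lit 460) (nat_lit 424) (nat_lit 136))))))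 (XT.nd (nat_lit 50544) (nat_lit 0) (nat_lit 6916) (XT.nd (nat_lit 234) (nat_lit 380) (nat_lit 0) (XT.nd (nat_lit 78) (nat_lit 456) (nat_lit 0) (XT.lf (nat_lit 0) (nat_lit 16322901269) (nat_lit 456) (nat_lit 17931595892) (nat_lit 76) (nat_lit 54752104193) (nat_lit 167) (nat_lit 5) (nat_lit 173) (nat_lit 5) (nat_lit 168) (nat_lit 5) (nat_lit 461) (nat_lit 424) (nat_lit 135)) (XT.nd (nat_lit 78) (nat_lit 0) (nat_lit 0) (XT.lf (nat_lit 0) (nat_lit 30303785188) (nat_lit 532) (nat_lit 59144188281) (nat_lit 76) (nat_lit 1150375518) (nat_lit 161) (nat_lit 5) (nat_lit 168) (nat_lit 5) (nat_lit 162) (nat_lit 5) (nat_lit 462) (nat_lit 424) (nat_lit 134)) (XT.lf (nat_lit 0) (nat_lit 45225687488) (nat_lit 532) (nat_lit 9884839180) (nat_lit 76) (nat_lit 37111674760) (nat_lit 161) (nat_lit 5) (nat_lit 168) (nat_lit 5) (nat_lit 162) (nat_lit 5) (nat_lit 463) (nat_lit 424) (nat_lit 133)))) (XT.nd (nat_lit 50154) (nat_lit 0)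 (nat_lit 6840) (XT.nd (nat_lit 50076) (nat_lit 0) (nat_lit 6840) (XT.lf (nat_lit 0) (nat_lit 41664790190) (nat_lit 380) (nat_lit 19330548253) (nat_lit 456) (nat_lit 32887428387) (nat_lit 156) (nat_lit 5) (nat_lit 161) (nat_lit 5) (nat_lit 162) (nat_lit 5) (nat_lit 464) (nat_lit 424) (nat_lit 132)) (XT.lf (nat_lit 0) (nat_lit 5429025080) (nat_lit 1292) (nat_lit 9841885136) (nat_lit 1292) (nat_lit 9841885136) (nat_lit 246) (nat_lit 3) (nat_lit 263) (nat_lit 3) (nat_lit 263) (nat_lit 5) (nat_lit 425) (nat_lit 425) (nat_lit 170))) (XT.nd (nat_lit 78) (nat_lit 0) (nat_lit 76) (XT.lf (nat_lit 76) (nat_lit 4612862911) (nat_lit 0) (nat_lit 6477959094) (nat_lit 1292) (nat_lit 39886044735) (nat_lit 247) (nat_lit 5) (nat_lit 246) (nat_lit 3) (nat_lit 263) (nat_lit 5) (nat_lit 426) (nat_lit 425) (nat_lit 169)) (XT.lf (nat_lit 0) (nat_lit 11706300478) (nat_lit 1216) (nat_lit 21881338147) (nat_lit 1292) (nat_lit 18151771149)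 (nat_lit 247) (nat_lit 5) (nat_lit 263) (nat_lit 5) (nat_lit 264) (nat_lit 5) (nat_lit 427) (nat_lit 425) (nat_lit 168))))) (XT.nd (nat_lit 312) (nat_lit 0) (nat_lit 152) (XT.nd (nat_lit 156) (nat_lit 0) (nat_lit 76) (XT.nd (nat_lit 78) (nat_lit 0) (nat_lit 76) (XT.lf (nat_lit 76) (nat_lit 3336228159) (nat_lit 0) (nat_lit 9099254334) (nat_lit 1292) (nat_lit 40086489838) (nat_lit 248) (nat_lit 5) (nat_lit 247) (nat_lit 5) (nat_lit 264) (nat_lit 5) (nat_lit 428) (nat_lit 425) (nat_lit 167)) (XT.lf (nat_lit 0) (nat_lit 13563736030) (nat_lit 1216) (nat_lit 23720265272) (nat_lit 1292) (nat_lit 16032694979) (nat_lit 248) (nat_lit 5) (nat_lit 264) (nat_lit 5) (nat_lit 265) (nat_lit 5) (nat_lit 429) (nat_lit 425) (nat_lit 166))) (XT.nd (nat_lit 78) (nat_lit 0) (nat_lit 76) (XT.lf (nat_lit 76) (nat_lit 2466666183) (nat_lit 0) (nat_lit 12372059244) (nat_lit 1292) (nat_lit 39293150261) (nat_lit 249) (nat_lit 5) (nat_lit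 248) (nat_lit 5) (nat_lit 265) (nat_lit 5) (nat_lit 430) (nat_lit 425) (nat_lit 165)) (XT.lf (nat_lit 0) (nat_lit 16520699534) (nat_lit 1216) (nat_lit 25169552302) (nat_lit 1292) (nat_lit 13270196965) (nat_lit 249) (nat_lit 5) (nat_lit 265) (nat_lit 5) (nat_lit 266) (nat_lit 5) (nat_lit 431) (nat_lit 425) (nat_lit 164)))) (XT.nd (nat_lit 156) (nat_lit 0) (nat_lit 76) (XT.nd (nat_lit 78) (nat_lit 0) (nat_lit 76) (XT.lf (nat_lit 76) (nat_lit 2037679526) (nat_lit 0) (nat_lit 16356672514) (nat_lit 1292) (nat_lit 37415290853) (nat_lit 250) (nat_lit 5) (nat_lit 249) (nat_lit 5) (nat_lit 266) (nat_lit 5) (nat_lit 432) (nat_lit 425) (nat_lit 163)) (XT.lf (nat_lit 0) (nat_lit 20673649589) (nat_lit 1216) (nat_lit 26196306956) (nat_lit 1292) (nat_lit 9803873554) (nat_lit 250) (nat_lit 5) (nat_lit 266) (nat_lit 5) (nat_lit 267) (nat_lit 5) (nat_lit 433) (nat_lit 425) (nat_lit 162))) (XT.nd (nat_lit 78) (nat_lit 0) (nat_lit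 76) (XT.lf (nat_lit 76) (nat_lit 2084785757) (nat_lit 0) (nat_lit 21117710996) (nat_lit 1292) (nat_lit 34356011389) (nat_lit 251) (nat_lit 5) (nat_lit 250) (nat_lit 5) (nat_lit 267) (nat_lit 5) (nat_lit 434) (nat_lit 425) (nat_lit 161)) (XT.lf (nat_lit 0) (nat_lit 26125540017) (nat_lit 1216) (nat_lit 26765665025) (nat_lit 1292) (nat_lit 5568971895) (nat_lit 251) (nat_lit 5) (nat_lit 267) (nat_lit 5) (nat_lit 268) (nat_lit 5) (nat_lit 435) (nat_lit 425) (nat_lit 160))))))))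
noncomputable def xc247 : XT := (XT.nd (nat_lit 52338) (nat_lit 0) (nat_lit 2888) (XT.nd (nat_lit 1092) (nat_lit 3952) (nat_lit 0) (XT.nd (nat_lit 546) (nat_lit 1900) (nat_lit 0) (XT.nd (nat_lit 234) (nat_lit 988) (nat_lit 0) (XT.nd (nat_lit 78) (nat_lit 0) (nat_lit 76) (XT.lf (nat_lit 76) (nat_lit 2645601362) (nat_lit 0) (nat_lit 26724417649) (nat_lit 1292) (nat_lit 30011864776) (nat_lit 252) (nat_lit 5) (nat_lit 251) (nat_lit 5) (nat_lit 268) (nat_lit 5) (nat_lit 436) (nat_lit 425) (nat_lit 159)) (XT.nd (nat_lit 78) (nat_lit 0) (nat_lit 0) (XT.lf (nat_lit 0) (nat_lit 32986220751) (nat_lit 1216) (nat_lit 26840710352) (nat_lit 1292) (nat_lit 496079401) (nat_lit 252) (nat_lit 5) (nat_lit 268) (nat_lit 5) (nat_lit 269) (nat_lit 5) (nat_lit 437) (nat_lit 425) (nat_lit 158)) (XT.lf (nat_lit 76) (nat_lit 3759926744) (nat_lit 0) (nat_lit 33250990615) (nat_lit 1292) (nat_lit 24272453704) (nat_lit 253) (nat_lit 5) (nat_lit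 252) (nat_lit 5) (nat_lit 269) (nat_lit 5) (nat_lit 438) (nat_lit 425) (nat_lit 157)))) (XT.nd (nat_lit 156) (nat_lit 1064) (nat_lit 0) (XT.nd (nat_lit 78) (nat_lit 0) (nat_lit 76) (XT.lf (nat_lit 76) (nat_lit 35828223168) (nat_lit 0) (nat_lit 5598454010) (nat_lit 1292) (nat_lit 20837755886) (nat_lit 253) (nat_lit 5) (nat_lit 252) (nat_lit 5) (nat_lit 269) (nat_lit 5) (nat_lit 439) (nat_lit 425) (nat_lit 156)) (XT.lf (nat_lit 76) (nat_lit 5469831935) (nat_lit 0) (nat_lit 40776934967) (nat_lit 1292) (nat_lit 17020004597) (nat_lit 254) (nat_lit 5) (nat_lit 253) (nat_lit 5) (nat_lit 270) (nat_lit 5) (nat_lit 440) (nat_lit 425) (nat_lit 155))) (XT.nd (nat_lit 78) (nat_lit 1140) (nat_lit 0) (XT.lf (nat_lit 76) (nat_lit 38817869607) (nat_lit 0) (nat_lit 12714751160) (nat_lit 1292) (nat_lit 12756924754) (nat_lit 254) (nat_lit 5) (nat_lit 253) (nat_lit 5) (nat_lit 270) (nat_lit 5) (nat_lit 441) (nat_lit 425) (nat_lit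 154)) (XT.lf (nat_lit 0) (nat_lit 7819742624) (nat_lit 1216) (nat_lit 49387438793) (nat_lit 1292) (nat_lit 8128917685) (nat_lit 238) (nat_lit 5) (nat_lit 254) (nat_lit 5) (nat_lit 255) (nat_lit 5) (nat_lit 442) (nat_lit 425) (nat_lit 153))))) (XT.nd (nat_lit 234) (nat_lit 1216) (nat_lit 0) (XT.nd (nat_lit 78) (nat_lit 684) (nat_lit 0) (XT.lf (nat_lit 0) (nat_lit 42503086740) (nat_lit 1216) (nat_lit 20930115854) (nat_lit 1292) (nat_lit 2969410245) (nat_lit 238) (nat_lit 5) (nat_lit 254) (nat_lit 5) (nat_lit 255) (nat_lit 5) (nat_lit 443) (nat_lit 425) (nat_lit 152)) (XT.nd (nat_lit 78) (nat_lit 0) (nat_lit 0) (XT.lf (nat_lit 0) (nat_lit 2485246756) (nat_lit 684) (nat_lit 56663432519) (nat_lit 76) (nat_lit 8346183105) (nat_lit 229) (nat_lit 5) (nat_lit 238) (nat_lit 5) (nat_lit 230) (nat_lit 5) (nat_lit 444) (nat_lit 425) (nat_lit 151)) (XT.lf (nat_lit 0) (nat_lit 8494199248) (nat_lit 684) (nat_lit 21758003861)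 (nat_lit 76) (nat_lit 38353284395) (nat_lit 229) (nat_lit 5) (nat_lit 238) (nat_lit 5) (nat_lit 230) (nat_lit 5) (nat_lit 445) (nat_lit 425) (nat_lit 150)))) (XT.nd (nat_lit 156) (nat_lit 608) (nat_lit 0) (XT.nd (nat_lit 78) (nat_lit 0) (nat_lit 0) (XT.lf (nat_lit 0) (nat_lit 14476515945) (nat_lit 608) (nat_lit 345460794) (nat_lit 684) (nat_lit 54923298182) (nat_lit 221) (nat_lit 5) (nat_lit 229) (nat_lit 5) (nat_lit 230) (nat_lit 5) (nat_lit 446) (nat_lit 425) (nat_lit 149)) (XT.lf (nat_lit 0) (nat_lit 21853673468) (nat_lit 684) (nat_lit 18964109817) (nat_lit 76) (nat_lit 30086050327) (nat_lit 221) (nat_lit 5) (nat_lit 230) (nat_lit 5) (nat_lit 222) (nat_lit 5) (nat_lit 447) (nat_lit 425) (nat_lit 148))) (XT.nd (nat_lit 78) (nat_lit 0) (nat_lit 0) (XT.lf (nat_lit 0) (nat_lit 18792409320) (nat_lit 608) (nat_lit 10487405226) (nat_lit 684) (nat_lit 42811829933) (nat_lit 213) (nat_lit 5) (nat_lit 221) (nat_lit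 5) (nat_lit 222) (nat_lit 5) (nat_lit 448) (nat_lit 425) (nat_lit 147)) (XT.lf (nat_lit 0) (nat_lit 37321065970) (nat_lit 684) (nat_lit 15440928748) (nat_lit 76) (nat_lit 20541325384) (nat_lit 213) (nat_lit 5) (nat_lit 222) (nat_lit 5) (nat_lit 214) (nat_lit 5) (nat_lit 449) (nat_lit 425) (nat_lit 146)))))) (XT.nd (nat_lit 546) (nat_lit 1824) (nat_lit 0) (XT.nd (nat_lit 234) (nat_lit 1064) (nat_lit 0) (XT.nd (nat_lit 78) (nat_lit 532) (nat_lit 0) (XT.lf (nat_lit 0) (nat_lit 23915415289) (nat_lit 532) (nat_lit 22021321573) (nat_lit 608) (nat_lit 28604613882) (nat_lit 206) (nat_lit 5) (nat_lit 213) (nat_lit 5) (nat_lit 214) (nat_lit 5) (nat_lit 450) (nat_lit 425) (nat_lit 145)) (XT.nd (nat_lit 78) (nat_lit 532) (nat_lit 0) (XT.lf (nat_lit 0) (nat_lit 55060492537) (nat_lit 608) (nat_lit 11137657951) (nat_lit 76) (nat_lit 9610883578) (nat_lit 206) (nat_lit 5) (nat_lit 214) (nat_lit 5) (nat_lit 207) (nat_lit 5) (nat_lit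 451) (nat_lit 425) (nat_lit 144)) (XT.lf (nat_lit 0) (nat_lit 29900148558) (nat_lit 532) (nat_lit 35062746324) (nat_lit 608) (nat_lit 12136705181) (nat_lit 199) (nat_lit 5) (nat_lit 206) (nat_lit 5) (nat_lit 207) (nat_lit 5) (nat_lit 452) (nat_lit 425) (nat_lit 143)))) (XT.nd (nat_lit 156) (nat_lit 532) (nat_lit 0) (XT.nd (nat_lit 78) (nat_lit 532) (nat_lit 0) (XT.lf (nat_lit 0) (nat_lit 72396859658) (nat_lit 532) (nat_lit 2877470614) (nat_lit 608) (nat_lit 3151194128) (nat_lit 199) (nat_lit 5) (nat_lit 206) (nat_lit 5) (nat_lit 207) (nat_lit 5) (nat_lit 453) (nat_lit 425) (nat_lit 142)) (XT.lf (nat_lit 0) (nat_lit 6635446901) (nat_lit 532) (nat_lit 43033075086) (nat_lit 76) (nat_lit 30101424231) (nat_lit 192) (nat_lit 5) (nat_lit 199) (nat_lit 5) (nat_lit 193) (nat_lit 5) (nat_lit 454) (nat_lit 425) (nat_lit 141))) (XT.nd (nat_lit 78) (nat_lit 532) (nat_lit 0) (XT.lf (nat_lit 0) (nat_lit 16741832730) (nat_lit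 532) (nat_lit 304756253) (nat_lit 76) (nat_lit 64104491438) (nat_lit 192) (nat_lit 5) (nat_lit 199) (nat_lit 5) (nat_lit 193) (nat_lit 5) (nat_lit 455) (nat_lit 425) (nat_lit 140)) (XT.lf (nat_lit 0) (nat_lit 27742783870) (nat_lit 608) (nat_lit 38149481043) (nat_lit 76) (nat_lit 16663642695) (nat_lit 185) (nat_lit 5) (nat_lit 193) (nat_lit 5) (nat_lit 186) (nat_lit 5) (nat_lit 456) (nat_lit 425) (nat_lit 139))))) (XT.nd (nat_lit 312) (nat_lit 912) (nat_lit 0) (XT.nd (nat_lit 156) (nat_lit 456) (nat_lit 0) (XT.nd (nat_lit 78) (nat_lit 0) (nat_lit 0) (XT.lf (nat_lit 0) (nat_lit 6418303680) (nat_lit 456) (nat_lit 32888576222) (nat_lit 532) (nat_lit 44689006380) (nat_lit 179) (nat_lit 5) (nat_lit 185) (nat_lit 5) (nat_lit 186) (nat_lit 5) (nat_lit 457) (nat_lit 425) (nat_lit 138)) (XT.lf (nat_lit 0) (nat_lit 51617113504) (nat_lit 532) (nat_lit 32377341326) (nat_lit 76) (nat_lit 1472633205) (nat_lit 179) (nat_lit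 5) (nat_lit 186) (nat_lit 5) (nat_lit 180) (nat_lit 5) (nat_lit 458) (nat_lit 425) (nat_lit 137))) (XT.nd (nat_lit 78) (nat_lit 0) (nat_lit 0) (XT.lf (nat_lit 0) (nat_lit 14128445776) (nat_lit 456) (nat_lit 50629203869) (nat_lit 532) (nat_lit 22210946484) (nat_lit 173) (nat_lit 5) (nat_lit 179) (nat_lit 5) (nat_lit 180) (nat_lit 5) (nat_lit 459) (nat_lit 425) (nat_lit 136)) (XT.lf (nat_lit 0) (nat_lit 62692586621) (nat_lit 456) (nat_lit 15926325644) (nat_lit 532) (nat_lit 9886442038) (nat_lit 173) (nat_lit 5) (nat_lit 179) (nat_lit 5) (nat_lit 180) (nat_lit 5) (nat_lit 460) (nat_lit 425) (nat_lit 135)))) (XT.nd (nat_lit 156) (nat_lit 456) (nat_lit 0) (XT.nd (nat_lit 78) (nat_lit 0) (nat_lit 0) (XT.lf (nat_lit 0) (nat_lit 3167085945) (nat_lit 456) (nat_lit 67226059023) (nat_lit 76) (nat_lit 19681838328) (nat_lit 167) (nat_lit 5) (nat_lit 173) (nat_lit 5) (nat_lit 168) (nat_lit 5) (nat_lit 461) (nat_lit 425) (nat_lit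 134)) (XT.lf (nat_lit 0) (nat_lit 16834015403) (nat_lit 456) (nat_lit 18442954608) (nat_lit 76) (nat_lit 56399179619) (nat_lit 167) (nat_lit 5) (nat_lit 173) (nat_lit 5) (nat_lit 168) (nat_lit 5) (nat_lit 462) (nat_lit 425) (nat_lit 133))) (XT.nd (nat_lit 78) (nat_lit 0) (nat_lit 0) (XT.lf (nat_lit 0) (nat_lit 31234005516) (nat_lit 532) (nat_lit 60891597696) (nat_lit 76) (nat_lit 1190056291) (nat_lit 161) (nat_lit 5) (nat_lit 168) (nat_lit 5) (nat_lit 162) (nat_lit 5) (nat_lit 463) (nat_lit 425) (nat_lit 132)) (XT.lf (nat_lit 0) (nat_lit 46602950125) (nat_lit 532) (nat_lit 10155252090) (nat_lit 76) (nat_lit 38230043943) (nat_lit 161) (nat_lit 5) (nat_lit 168) (nat_lit 5) (nat_lit 162) (nat_lit 5) (nat_lit 464) (nat_lit 425) (nat_lit 131))))))) (XT.nd (nat_lit 1092) (nat_lit 3572) (nat_lit 0) (XT.nd (nat_lit 546) (nat_lit 0) (nat_lit 228) (XT.nd (nat_lit 234) (nat_lit 0) (nat_lit 76) (XT.nd (nat_lit 78) (nat_lit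 0) (nat_lit 0) (XT.lf (nat_lit 0) (nat_lit 5617209572) (nat_lit 1292) (nat_lit 10124099770) (nat_lit 1292) (nat_lit 10124099770) (nat_lit 246) (nat_lit 3) (nat_lit 263) (nat_lit 3) (nat_lit 263) (nat_lit 5) (nat_lit 426) (nat_lit 426) (nat_lit 168)) (XT.nd (nat_lit 78) (nat_lit 0) (nat_lit 76) (XT.lf (nat_lit 76) (nat_lit 4777076914) (nat_lit 0) (nat_lit 6695870918) (nat_lit 1292) (nat_lit 41031722121) (nat_lit 247) (nat_lit 5) (nat_lit 246) (nat_lit 3) (nat_lit 263) (nat_lit 5) (nat_lit 427) (nat_lit 426) (nat_lit 167)) (XT.lf (nat_lit 0) (nat_lit 12105231792) (nat_lit 1216) (nat_lit 22511023434) (nat_lit 1292) (nat_lit 18673884423) (nat_lit 247) (nat_lit 5) (nat_lit 263) (nat_lit 5) (nat_lit 264) (nat_lit 5) (nat_lit 428) (nat_lit 426) (nat_lit 166)))) (XT.nd (nat_lit 156) (nat_lit 0) (nat_lit 76) (XT.nd (nat_lit 78) (nat_lit 0) (nat_lit 76) (XT.lf (nat_lit 76) (nat_lit 3462807559) (nat_lit 0) (nat_lit 9392345819)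 (nat_lit 1292) (nat_lit 41241060369) (nat_lit 248) (nat_lit 5) (nat_lit 247) (nat_lit 5) (nat_lit 264) (nat_lit 5) (nat_lit 429) (nat_lit 426) (nat_lit 165)) (XT.lf (nat_lit 0) (nat_lit 14015709337) (nat_lit 1216) (nat_lit 24404588127) (nat_lit 1292) (nat_lit 16494528876) (nat_lit 248) (nat_lit 5) (nat_lit 264) (nat_lit 5) (nat_lit 265) (nat_lit 5) (nat_lit 430) (nat_lit 426) (nat_lit 164))) (XT.nd (nat_lit 78) (nat_lit 0) (nat_lit 76) (XT.lf (nat_lit 76) (nat_lit 2567683771) (nat_lit 0) (nat_lit 12760211892) (nat_lit 1292) (nat_lit 40426597603) (nat_lit 249) (nat_lit 5) (nat_lit 248) (nat_lit 5) (nat_lit 265) (nat_lit 5) (nat_lit 431) (nat_lit 426) (nat_lit 163)) (XT.lf (nat_lit 0) (nat_lit 17058888623) (nat_lit 1216) (nat_lit 25896949917) (nat_lit 1292) (nat_lit 13652128779) (nat_lit 249) (nat_lit 5) (nat_lit 265) (nat_lit 5) (nat_lit 266) (nat_lit 5) (nat_lit 432) (nat_lit 426) (nat_lit 162))))) (XT.nd (nat_lit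 234) (nat_lit 0) (nat_lit 152) (XT.nd (nat_lit 78) (nat_lit 0) (nat_lit 76) (XT.lf (nat_lit 76) (nat_lit 2126227406) (nat_lit 0) (nat_lit 16861547005) (nat_lit 1292) (nat_lit 38494892634) (nat_lit 250) (nat_lit 5) (nat_lit 249) (nat_lit 5) (nat_lit 266) (nat_lit 5) (nat_lit 433) (nat_lit 426) (nat_lit 161)) (XT.nd (nat_lit 78) (nat_lit 0) (nat_lit 0) (XT.lf (nat_lit 0) (nat_lit 21334107190) (nat_lit 1216) (nat_lit 26954216668) (nat_lit 1292) (nat_lit 10084496826) (nat_lit 250) (nat_lit 5) (nat_lit 266) (nat_lit 5) (nat_lit 267) (nat_lit 5) (nat_lit 434) (nat_lit 426) (nat_lit 160)) (XT.lf (nat_lit 76) (nat_lit 2175034517) (nat_lit 0) (nat_lit 21762879296) (nat_lit 1292) (nat_lit 35346152925) (nat_lit 251) (nat_lit 5) (nat_lit 250) (nat_lit 5) (nat_lit 267) (nat_lit 5) (nat_lit 435) (nat_lit 426) (nat_lit 159)))) (XT.nd (nat_lit 156) (nat_lit 0) (nat_lit 76) (XT.nd (nat_lit 78) (nat_lit 0) (nat_lit 0) (XT.lf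 (nat_lit 0) (nat_lit 26947393884) (nat_lit 1216) (nat_lit 27540466337) (nat_lit 1292) (nat_lit 5724963488) (nat_lit 251) (nat_lit 5) (nat_lit 267) (nat_lit 5) (nat_lit 268) (nat_lit 5) (nat_lit 436) (nat_lit 426) (nat_lit 158)) (XT.lf (nat_lit 76) (nat_lit 2752861878) (nat_lit 0) (nat_lit 27535504139) (nat_lit 1292) (nat_lit 30873841447) (nat_lit 252) (nat_lit 5) (nat_lit 251) (nat_lit 5) (nat_lit 268) (nat_lit 5) (nat_lit 437) (nat_lit 426) (nat_lit 157))) (XT.nd (nat_lit 78) (nat_lit 0) (nat_lit 0) (XT.lf (nat_lit 0) (nat_lit 34011881665) (nat_lit 1216) (nat_lit 27617664452) (nat_lit 1292) (nat_lit 502057481) (nat_lit 252) (nat_lit 5) (nat_lit 268) (nat_lit 5) (nat_lit 269) (nat_lit 5) (nat_lit 438) (nat_lit 426) (nat_lit 156)) (XT.lf (nat_lit 76) (nat_lit 3900714628) (nat_lit 0) (nat_lit 34255822894) (nat_lit 1292) (nat_lit 24964261338) (nat_lit 253) (nat_lit 5) (nat_lit 252) (nat_lit 5) (nat_lit 269) (nat_lit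 5) (nat_lit 439) (nat_lit 426) (nat_lit 155)))))) (XT.nd (nat_lit 546) (nat_lit 2280) (nat_lit 0) (XT.nd (nat_lit 234) (nat_lit 1748) (nat_lit 0) (XT.nd (nat_lit 78) (nat_lit 0) (nat_lit 76) (XT.lf (nat_lit 76) (nat_lit 36930244700) (nat_lit 0) (nat_lit 5773497495) (nat_lit 1292) (nat_lit 21427581788) (nat_lit 253) (nat_lit 5) (nat_lit 252) (nat_lit 5) (nat_lit 269) (nat_lit 5) (nat_lit 440) (nat_lit 426) (nat_lit 154)) (XT.nd (nat_lit 78) (nat_lit 0) (nat_lit 0) (XT.lf (nat_lit 76) (nat_lit 5661934651) (nat_lit 0) (nat_lit 42005705019) (nat_lit 1292) (nat_lit 17496117161) (nat_lit 254) (nat_lit 5) (nat_lit 253) (nat_lit 5) (nat_lit 270) (nat_lit 5) (nat_lit 441) (nat_lit 426) (nat_lit 153)) (XT.lf (nat_lit 76) (nat_lit 40009597693) (nat_lit 0) (nat_lit 13101496611) (nat_lit 1292) (nat_lit 13106149416) (nat_lit 254) (nat_lit 5) (nat_lit 253) (nat_lit 5) (nat_lit 270) (nat_lit 5) (nat_lit 442) (nat_lit 426) (nat_lit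 152)))) (XT.nd (nat_lit 156) (nat_lit 684) (nat_lit 0) (XT.nd (nat_lit 78) (nat_lit 0) (nat_lit 0) (XT.lf (nat_lit 0) (nat_lit 8082289267) (nat_lit 1216) (nat_lit 50872875275) (nat_lit 1292) (nat_lit 8340051568) (nat_lit 238) (nat_lit 5) (nat_lit 254) (nat_lit 5) (nat_lit 255) (nat_lit 5) (nat_lit 443) (nat_lit 426) (nat_lit 151)) (XT.lf (nat_lit 0) (nat_lit 43805319502) (nat_lit 1216) (nat_lit 21561721581) (nat_lit 1292) (nat_lit 3026712312) (nat_lit 238) (nat_lit 5) (nat_lit 254) (nat_lit 5) (nat_lit 255) (nat_lit 5) (nat_lit 444) (nat_lit 426) (nat_lit 150))) (XT.nd (nat_lit 78) (nat_lit 0) (nat_lit 0) (XT.lf (nat_lit 0) (nat_lit 2590292027) (nat_lit 684) (nat_lit 58334878936) (nat_lit 76) (nat_lit 8593610816) (nat_lit 229) (nat_lit 5) (nat_lit 238) (nat_lit 5) (nat_lit 230) (nat_lit 5) (nat_lit 445) (nat_lit 426) (nat_lit 149)) (XT.lf (nat_lit 0) (nat_lit 8778625098) (nat_lit 684) (nat_lit 22383116250) (nat_lit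 76) (nat_lit 39501011294) (nat_lit 229) (nat_lit 5) (nat_lit 238) (nat_lit 5) (nat_lit 230) (nat_lit 5) (nat_lit 446) (nat_lit 426) (nat_lit 148))))) (XT.nd (nat_lit 312) (nat_lit 1064) (nat_lit 0) (XT.nd (nat_lit 156) (nat_lit 608) (nat_lit 0) (XT.nd (nat_lit 78) (nat_lit 0) (nat_lit 0) (XT.lf (nat_lit 0) (nat_lit 14938168290) (nat_lit 608) (nat_lit 357468463) (nat_lit 684) (nat_lit 56541115239) (nat_lit 221) (nat_lit 5) (nat_lit 229) (nat_lit 5) (nat_lit 230) (nat_lit 5) (nat_lit 447) (nat_lit 426) (nat_lit 147)) (XT.lf (nat_lit 0) (nat_lit 22537424361) (nat_lit 684) (nat_lit 19505602194) (nat_lit 76) (nat_lit 30987067014) (nat_lit 221) (nat_lit 5) (nat_lit 230) (nat_lit 5) (nat_lit 222) (nat_lit 5) (nat_lit 448) (nat_lit 426) (nat_lit 146))) (XT.nd (nat_lit 78) (nat_lit 0) (nat_lit 0) (XT.lf (nat_lit 0) (nat_lit 19383343588) (nat_lit 608) (nat_lit 10802447550) (nat_lit 684) (nat_lit 44067764696) (nat_lit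 213) (nat_lit 5) (nat_lit 221) (nat_lit 5) (nat_lit 222) (nat_lit 5) (nat_lit 449) (nat_lit 426) (nat_lit 145)) (XT.lf (nat_lit 0) (nat_lit 38467472819) (nat_lit 684) (nat_lit 15876968254) (nat_lit 76) (nat_lit 21157165177) (nat_lit 213) (nat_lit 5) (nat_lit 222) (nat_lit 5) (nat_lit 214) (nat_lit 5) (nat_lit 450) (nat_lit 426) (nat_lit 144)))) (XT.nd (nat_lit 156) (nat_lit 532) (nat_lit 0) (XT.nd (nat_lit 78) (nat_lit 0) (nat_lit 0) (XT.lf (nat_lit 0) (nat_lit 24659799551) (nat_lit 532) (nat_lit 22681293225) (nat_lit 608) (nat_lit 29435700964) (nat_lit 206) (nat_lit 5) (nat_lit 213) (nat_lit 5) (nat_lit 214) (nat_lit 5) (nat_lit 451) (nat_lit 426) (nat_lit 143)) (XT.lf (nat_lit 0) (nat_lit 56737802681) (nat_lit 608) (nat_lit 11444881952) (nat_lit 76) (nat_lit 9899845970) (nat_lit 206) (nat_lit 5) (nat_lit 214) (nat_lit 5) (nat_lit 207) (nat_lit 5) (nat_lit 452) (nat_lit 426) (nat_lit 142))) (XT.nd (nat_lit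 78) (nat_lit 0) (nat_lit 0) (XT.lf (nat_lit 0) (nat_lit 30823794970) (nat_lit 532) (nat_lit 36112995642) (nat_lit 608) (nat_lit 12475037843) (nat_lit 199) (nat_lit 5) (nat_lit 206) (nat_lit 5) (nat_lit 207) (nat_lit 5) (nat_lit 453) (nat_lit 426) (nat_lit 141)) (XT.lf (nat_lit 0) (nat_lit 74594631424) (nat_lit 532) (nat_lit 2962209226) (nat_lit 608) (nat_lit 3220711997) (nat_lit 199) (nat_lit 5) (nat_lit 206) (nat_lit 5) (nat_lit 207) (nat_lit 5) (nat_lit 454) (nat_lit 426) (nat_lit 140))))))))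
noncomputable def xc248 : XT := (XT.nd (nat_lit 52416) (nat_lit 0) (nat_lit 0) (XT.nd (nat_lit 51324) (nat_lit 0) (nat_lit 5396) (XT.nd (nat_lit 546) (nat_lit 456) (nat_lit 0) (XT.nd (nat_lit 234) (nat_lit 912) (nat_lit 0) (XT.nd (nat_lit 78) (nat_lit 532) (nat_lit 0) (XT.lf (nat_lit 0) (nat_lit 6858596139) (nat_lit 532) (nat_lit 44297251881) (nat_lit 76) (nat_lit 31006465459) (nat_lit 192) (nat_lit 5) (nat_lit 199) (nat_lit 5) (nat_lit 193) (nat_lit 5) (nat_lit 455) (nat_lit 426) (nat_lit 139)) (XT.nd (nat_lit 78) (nat_lit 532) (nat_lit 0) (XT.lf (nat_lit 0) (nat_lit 17267472014) (nat_lit 532) (nat_lit 287864516) (nat_lit 76) (nat_lit 66029566474) (nat_lit 192) (nat_lit 5) (nat_lit 199) (nat_lit 5) (nat_lit 193) (nat_lit 5) (nat_lit 456) (nat_lit 426) (nat_lit 138)) (XT.lf (nat_lit 0) (nat_lit 28598045583) (nat_lit 608) (nat_lit 39267516886) (nat_lit 76) (nat_lit 17166324962) (nat_lit 185) (nat_lit 5) (nat_lit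 193) (nat_lit 5) (nat_lit 186) (nat_lit 5) (nat_lit 457) (nat_lit 426) (nat_lit 137)))) (XT.nd (nat_lit 156) (nat_lit 456) (nat_lit 0) (XT.nd (nat_lit 78) (nat_lit 0) (nat_lit 0) (XT.lf (nat_lit 0) (nat_lit 6637042079) (nat_lit 456) (nat_lit 33871604897) (nat_lit 532) (nat_lit 46006431250) (nat_lit 179) (nat_lit 5) (nat_lit 185) (nat_lit 5) (nat_lit 186) (nat_lit 5) (nat_lit 458) (nat_lit 426) (nat_lit 136)) (XT.lf (nat_lit 0) (nat_lit 53187564343) (nat_lit 532) (nat_lit 33322604233) (nat_lit 76) (nat_lit 1520266380) (nat_lit 179) (nat_lit 5) (nat_lit 186) (nat_lit 5) (nat_lit 180) (nat_lit 5) (nat_lit 459) (nat_lit 426) (nat_lit 135))) (XT.nd (nat_lit 78) (nat_lit 0) (nat_lit 0) (XT.lf (nat_lit 0) (nat_lit 14578101018) (nat_lit 456) (nat_lit 52143824618) (nat_lit 532) (nat_lit 22855074606) (nat_lit 173) (nat_lit 5) (nat_lit 179) (nat_lit 5) (nat_lit 180) (nat_lit 5) (nat_lit 460) (nat_lit 426) (nat_lit 134))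 (XT.lf (nat_lit 0) (nat_lit 64598414579) (nat_lit 456) (nat_lit 16399983989) (nat_lit 532) (nat_lit 10161481636) (nat_lit 173) (nat_lit 5) (nat_lit 179) (nat_lit 5) (nat_lit 180) (nat_lit 5) (nat_lit 461) (nat_lit 426) (nat_lit 133))))) (XT.nd (nat_lit 50466) (nat_lit 0) (nat_lit 6004) (XT.nd (nat_lit 78) (nat_lit 0) (nat_lit 0) (XT.lf (nat_lit 0) (nat_lit 3282901529) (nat_lit 456) (nat_lit 69217026075) (nat_lit 76) (nat_lit 20276674352) (nat_lit 167) (nat_lit 5) (nat_lit 173) (nat_lit 5) (nat_lit 168) (nat_lit 5) (nat_lit 462) (nat_lit 426) (nat_lit 132)) (XT.nd (nat_lit 50310) (nat_lit 0) (nat_lit 6004) (XT.lf (nat_lit 0) (nat_lit 17359232957) (nat_lit 456) (nat_lit 18971180413) (nat_lit 76) (nat_lit 58095408282) (nat_lit 167) (nat_lit 5) (nat_lit 173) (nat_lit 5) (nat_lit 168) (nat_lit 5) (nat_lit 463) (nat_lit 426) (nat_lit 131)) (XT.lf (nat_lit 0) (nat_lit 5809586486) (nat_lit 1292) (nat_lit 10415529503)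 (nat_lit 1292) (nat_lit 10415529503) (nat_lit 246) (nat_lit 3) (nat_lit 263) (nat_lit 3) (nat_lit 263) (nat_lit 5) (nat_lit 427) (nat_lit 427) (nat_lit 166)))) (XT.nd (nat_lit 156) (nat_lit 0) (nat_lit 76) (XT.nd (nat_lit 78) (nat_lit 0) (nat_lit 76) (XT.lf (nat_lit 76) (nat_lit 4944734697) (nat_lit 0) (nat_lit 6918966908) (nat_lit 1292) (nat_lit 42214691924) (nat_lit 247) (nat_lit 5) (nat_lit 246) (nat_lit 3) (nat_lit 263) (nat_lit 5) (nat_lit 428) (nat_lit 427) (nat_lit 165)) (XT.lf (nat_lit 0) (nat_lit 12513390442) (nat_lit 1216) (nat_lit 23161135118) (nat_lit 1292) (nat_lit 19212949235) (nat_lit 247) (nat_lit 5) (nat_lit 263) (nat_lit 5) (nat_lit 264) (nat_lit 5) (nat_lit 429) (nat_lit 427) (nat_lit 164))) (XT.nd (nat_lit 78) (nat_lit 0) (nat_lit 76) (XT.lf (nat_lit 76) (nat_lit 3591663559) (nat_lit 0) (nat_lit 9693075431) (nat_lit 1292) (nat_lit 42433024799) (nat_lit 248) (nat_lit 5) (nat_lit 247) (nat_lit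 5) (nat_lit 264) (nat_lit 5) (nat_lit 430) (nat_lit 427) (nat_lit 163)) (XT.lf (nat_lit 0) (nat_lit 14478655145) (nat_lit 1216) (nat_lit 25111006944) (nat_lit 1292) (nat_lit 16971316904) (nat_lit 248) (nat_lit 5) (nat_lit 264) (nat_lit 5) (nat_lit 265) (nat_lit 5) (nat_lit 431) (nat_lit 427) (nat_lit 162)))))) (XT.nd (nat_lit 546) (nat_lit 760) (nat_lit 0) (XT.nd (nat_lit 234) (nat_lit 0) (nat_lit 152) (XT.nd (nat_lit 78) (nat_lit 0) (nat_lit 76) (XT.lf (nat_lit 76) (nat_lit 2670180966) (nat_lit 0) (nat_lit 13159033774) (nat_lit 1292) (nat_lit 41596651477) (nat_lit 249) (nat_lit 5) (nat_lit 248) (nat_lit 5) (nat_lit 265) (nat_lit 5) (nat_lit 432) (nat_lit 427) (nat_lit 161)) (XT.nd (nat_lit 78) (nat_lit 0) (nat_lit 0) (XT.lf (nat_lit 0) (nat_lit 17610779802) (nat_lit 1216) (nat_lit 26647758919) (nat_lit 1292) (nat_lit 14046447007) (nat_lit 249) (nat_lit 5) (nat_lit 265) (nat_lit 5) (nat_lit 266) (nat_lit 5)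 (nat_lit 433) (nat_lit 427) (nat_lit 160)) (XT.lf (nat_lit 76) (nat_lit 2215857846) (nat_lit 0) (nat_lit 17380754067) (nat_lit 1292) (nat_lit 39609342633) (nat_lit 250) (nat_lit 5) (nat_lit 249) (nat_lit 5) (nat_lit 266) (nat_lit 5) (nat_lit 434) (nat_lit 427) (nat_lit 159)))) (XT.nd (nat_lit 156) (nat_lit 0) (nat_lit 76) (XT.nd (nat_lit 78) (nat_lit 0) (nat_lit 0) (XT.lf (nat_lit 0) (nat_lit 22012068113) (nat_lit 1216) (nat_lit 27736469809) (nat_lit 1292) (nat_lit 10374313345) (nat_lit 250) (nat_lit 5) (nat_lit 266) (nat_lit 5) (nat_lit 267) (nat_lit 5) (nat_lit 435) (nat_lit 427) (nat_lit 158)) (XT.lf (nat_lit 76) (nat_lit 2266400349) (nat_lit 0) (nat_lit 22426734635) (nat_lit 1292) (nat_lit 36368325800) (nat_lit 251) (nat_lit 5) (nat_lit 250) (nat_lit 5) (nat_lit 267) (nat_lit 5) (nat_lit 436) (nat_lit 427) (nat_lit 157))) (XT.nd (nat_lit 78) (nat_lit 0) (nat_lit 0) (XT.lf (nat_lit 0) (nat_lit 27791716979)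 (nat_lit 1216) (nat_lit 28340128684) (nat_lit 1292) (nat_lit 5886270726) (nat_lit 251) (nat_lit 5) (nat_lit 267) (nat_lit 5) (nat_lit 268) (nat_lit 5) (nat_lit 437) (nat_lit 427) (nat_lit 156)) (XT.lf (nat_lit 76) (nat_lit 2861739068) (nat_lit 0) (nat_lit 28370386268) (nat_lit 1292) (nat_lit 31763880546) (nat_lit 252) (nat_lit 5) (nat_lit 251) (nat_lit 5) (nat_lit 268) (nat_lit 5) (nat_lit 438) (nat_lit 427) (nat_lit 155))))) (XT.nd (nat_lit 234) (nat_lit 1064) (nat_lit 0) (XT.nd (nat_lit 78) (nat_lit 0) (nat_lit 0) (XT.lf (nat_lit 0) (nat_lit 35066241595) (nat_lit 1216) (nat_lit 28419549828) (nat_lit 1292) (nat_lit 508726046) (nat_lit 252) (nat_lit 5) (nat_lit 268) (nat_lit 5) (nat_lit 269) (nat_lit 5) (nat_lit 439) (nat_lit 427) (nat_lit 154)) (XT.nd (nat_lit 78) (nat_lit 0) (nat_lit 0) (XT.lf (nat_lit 76) (nat_lit 4044119403) (nat_lit 0) (nat_lit 35290380944) (nat_lit 1292) (nat_lit 25678910757) (nat_lit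 253) (nat_lit 5) (nat_lit 252) (nat_lit 5) (nat_lit 269) (nat_lit 5) (nat_lit 440) (nat_lit 427) (nat_lit 153)) (XT.lf (nat_lit 76) (nat_lit 38063766931) (nat_lit 0) (nat_lit 5953385297) (nat_lit 1292) (nat_lit 22037129221) (nat_lit 253) (nat_lit 5) (nat_lit 252) (nat_lit 5) (nat_lit 269) (nat_lit 5) (nat_lit 441) (nat_lit 427) (nat_lit 152)))) (XT.nd (nat_lit 156) (nat_lit 1140) (nat_lit 0) (XT.nd (nat_lit 78) (nat_lit 0) (nat_lit 0) (XT.lf (nat_lit 76) (nat_lit 5858192688) (nat_lit 0) (nat_lit 43271024631) (nat_lit 1292) (nat_lit 17988492830) (nat_lit 254) (nat_lit 5) (nat_lit 253) (nat_lit 5) (nat_lit 270) (nat_lit 5) (nat_lit 442) (nat_lit 427) (nat_lit 151)) (XT.lf (nat_lit 76) (nat_lit 41235516690) (nat_lit 0) (nat_lit 13499540015) (nat_lit 1292) (nat_lit 13467772883) (nat_lit 254) (nat_lit 5) (nat_lit 253) (nat_lit 5) (nat_lit 270) (nat_lit 5) (nat_lit 443) (nat_lit 427) (nat_lit 150))) (XT.nd (nat_lit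 78) (nat_lit 0) (nat_lit 0) (XT.lf (nat_lit 0) (nat_lit 8351107616) (nat_lit 1216) (nat_lit 52402655951) (nat_lit 1292) (nat_lit 8559398513) (nat_lit 238) (nat_lit 5) (nat_lit 254) (nat_lit 5) (nat_lit 255) (nat_lit 5) (nat_lit 444) (nat_lit 427) (nat_lit 149)) (XT.lf (nat_lit 0) (nat_lit 45145061291) (nat_lit 1216) (nat_lit 22212062954) (nat_lit 1292) (nat_lit 3087557758) (nat_lit 238) (nat_lit 5) (nat_lit 254) (nat_lit 5) (nat_lit 255) (nat_lit 5) (nat_lit 445) (nat_lit 427) (nat_lit 148))))))) (XT.nd (nat_lit 1092) (nat_lit 912) (nat_lit 0) (XT.nd (nat_lit 546) (nat_lit 2052) (nat_lit 0) (XT.nd (nat_lit 234) (nat_lit 1140) (nat_lit 0) (XT.nd (nat_lit 78) (nat_lit 608) (nat_lit 0) (XT.lf (nat_lit 0) (nat_lit 2696738528) (nat_lit 684) (nat_lit 60058102269) (nat_lit 76) (nat_lit 8848631147) (nat_lit 229) (nat_lit 5) (nat_lit 238) (nat_lit 5) (nat_lit 230) (nat_lit 5) (nat_lit 446) (nat_lit 427) (nat_lit 147))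 (XT.nd (nat_lit 78) (nat_lit 608) (nat_lit 0) (XT.lf (nat_lit 0) (nat_lit 9069884570) (nat_lit 684) (nat_lit 23028567956) (nat_lit 76) (nat_lit 40683334843) (nat_lit 229) (nat_lit 5) (nat_lit 238) (nat_lit 5) (nat_lit 230) (nat_lit 5) (nat_lit 447) (nat_lit 427) (nat_lit 146)) (XT.lf (nat_lit 0) (nat_lit 15412099809) (nat_lit 608) (nat_lit 369741998) (nat_lit 684) (nat_lit 58209182150) (nat_lit 221) (nat_lit 5) (nat_lit 229) (nat_lit 5) (nat_lit 230) (nat_lit 5) (nat_lit 448) (nat_lit 427) (nat_lit 145)))) (XT.nd (nat_lit 156) (nat_lit 532) (nat_lit 0) (XT.nd (nat_lit 78) (nat_lit 608) (nat_lit 0) (XT.lf (nat_lit 0) (nat_lit 23240072390) (nat_lit 684) (nat_lit 20064913988) (nat_lit 76) (nat_lit 31915204029) (nat_lit 221) (nat_lit 5) (nat_lit 230) (nat_lit 5) (nat_lit 222) (nat_lit 5) (nat_lit 449) (nat_lit 427) (nat_lit 144)) (XT.lf (nat_lit 0) (nat_lit 19990446673) (nat_lit 608) (nat_lit 11126917024) (nat_lit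 684) (nat_lit 45363008934) (nat_lit 213) (nat_lit 5) (nat_lit 221) (nat_lit 5) (nat_lit 222) (nat_lit 5) (nat_lit 450) (nat_lit 427) (nat_lit 143))) (XT.nd (nat_lit 78) (nat_lit 532) (nat_lit 0) (XT.lf (nat_lit 0) (nat_lit 39646734886) (nat_lit 684) (nat_lit 16327649668) (nat_lit 76) (nat_lit 21791503123) (nat_lit 213) (nat_lit 5) (nat_lit 222) (nat_lit 5) (nat_lit 214) (nat_lit 5) (nat_lit 451) (nat_lit 427) (nat_lit 142)) (XT.lf (nat_lit 0) (nat_lit 25424969920) (nat_lit 532) (nat_lit 23361102371) (nat_lit 608) (nat_lit 30293273516) (nat_lit 206) (nat_lit 5) (nat_lit 213) (nat_lit 5) (nat_lit 214) (nat_lit 5) (nat_lit 452) (nat_lit 427) (nat_lit 141))))) (XT.nd (nat_lit 234) (nat_lit 1520) (nat_lit 0) (XT.nd (nat_lit 78) (nat_lit 532) (nat_lit 0) (XT.lf (nat_lit 0) (nat_lit 58463968592) (nat_lit 608) (nat_lit 11762867173) (nat_lit 76) (nat_lit 10197440731) (nat_lit 206) (nat_lit 5) (nat_lit 214) (nat_lit 5)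 (nat_lit 207) (nat_lit 5) (nat_lit 453) (nat_lit 427) (nat_lit 140)) (XT.nd (nat_lit 78) (nat_lit 0) (nat_lit 0) (XT.lf (nat_lit 0) (nat_lit 31773621417) (nat_lit 532) (nat_lit 37194846184) (nat_lit 608) (nat_lit 12824999702) (nat_lit 199) (nat_lit 5) (nat_lit 206) (nat_lit 5) (nat_lit 207) (nat_lit 5) (nat_lit 454) (nat_lit 427) (nat_lit 139)) (XT.lf (nat_lit 0) (nat_lit 76856851530) (nat_lit 532) (nat_lit 3049581011) (nat_lit 608) (nat_lit 3293751535) (nat_lit 199) (nat_lit 5) (nat_lit 206) (nat_lit 5) (nat_lit 207) (nat_lit 5) (nat_lit 455) (nat_lit 427) (nat_lit 138)))) (XT.nd (nat_lit 156) (nat_lit 988) (nat_lit 0) (XT.nd (nat_lit 78) (nat_lit 0) (nat_lit 0) (XT.lf (nat_lit 0) (nat_lit 7087057228) (nat_lit 532) (nat_lit 45600893298) (nat_lit 76) (nat_lit 31938543202) (nat_lit 192) (nat_lit 5) (nat_lit 199) (nat_lit 5) (nat_lit 193) (nat_lit 5) (nat_lit 456) (nat_lit 427) (nat_lit 137)) (XT.lf (nat_lit 0)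 (nat_lit 17807538121) (nat_lit 532) (nat_lit 271960510) (nat_lit 76) (nat_lit 68012282380) (nat_lit 192) (nat_lit 5) (nat_lit 199) (nat_lit 5) (nat_lit 193) (nat_lit 5) (nat_lit 457) (nat_lit 427) (nat_lit 136))) (XT.nd (nat_lit 78) (nat_lit 456) (nat_lit 0) (XT.lf (nat_lit 0) (nat_lit 29477646105) (nat_lit 608) (nat_lit 40420612061) (nat_lit 76) (nat_lit 17683928516) (nat_lit 185) (nat_lit 5) (nat_lit 193) (nat_lit 5) (nat_lit 186) (nat_lit 5) (nat_lit 458) (nat_lit 427) (nat_lit 135)) (XT.lf (nat_lit 0) (nat_lit 6860839258) (nat_lit 456) (nat_lit 34884332729) (nat_lit 532) (nat_lit 47364713242) (nat_lit 179) (nat_lit 5) (nat_lit 185) (nat_lit 5) (nat_lit 186) (nat_lit 5) (nat_lit 459) (nat_lit 427) (nat_lit 134)))))) (XT.nd (nat_lit 50856) (nat_lit 0) (nat_lit 6080) (XT.nd (nat_lit 234) (nat_lit 456) (nat_lit 0) (XT.nd (nat_lit 78) (nat_lit 456) (nat_lit 0) (XT.lf (nat_lit 0) (nat_lit 54803869409) (nat_lit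 532) (nat_lit 34297720824) (nat_lit 76) (nat_lit 1569130267) (nat_lit 179) (nat_lit 5) (nat_lit 186) (nat_lit 5) (nat_lit 180) (nat_lit 5) (nat_lit 460) (nat_lit 427) (nat_lit 133)) (XT.nd (nat_lit 78) (nat_lit 0) (nat_lit 0) (XT.lf (nat_lit 0) (nat_lit 15039764785) (nat_lit 456) (nat_lit 53704128266) (nat_lit 532) (nat_lit 23519800957) (nat_lit 173) (nat_lit 5) (nat_lit 179) (nat_lit 5) (nat_lit 180) (nat_lit 5) (nat_lit 461) (nat_lit 427) (nat_lit 132)) (XT.lf (nat_lit 0) (nat_lit 66559979381) (nat_lit 456) (nat_lit 16888089246) (nat_lit 532) (nat_lit 10446009690) (nat_lit 173) (nat_lit 5) (nat_lit 179) (nat_lit 5) (nat_lit 180) (nat_lit 5) (nat_lit 462) (nat_lit 427) (nat_lit 131)))) (XT.nd (nat_lit 50466) (nat_lit 0) (nat_lit 6004) (XT.nd (nat_lit 50388) (nat_lit 0) (nat_lit 6004) (XT.lf (nat_lit 0) (nat_lit 3400997402) (nat_lit 456) (nat_lit 71269204010) (nat_lit 76) (nat_lit 20889103975) (nat_lit 167)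 (nat_lit 5) (nat_lit 173) (nat_lit 5) (nat_lit 168) (nat_lit 5) (nat_lit 463) (nat_lit 427) (nat_lit 130)) (XT.lf (nat_lit 0) (nat_lit 6006365009) (nat_lit 1292) (nat_lit 10716407811) (nat_lit 1292) (nat_lit 10716407811) (nat_lit 246) (nat_lit 3) (nat_lit 263) (nat_lit 3) (nat_lit 263) (nat_lit 5) (nat_lit 428) (nat_lit 428) (nat_lit 164))) (XT.nd (nat_lit 78) (nat_lit 0) (nat_lit 76) (XT.lf (nat_lit 76) (nat_lit 5116024684) (nat_lit 0) (nat_lit 7147480266) (nat_lit 1292) (nat_lit 43435905176) (nat_lit 247) (nat_lit 5) (nat_lit 246) (nat_lit 3) (nat_lit 263) (nat_lit 5) (nat_lit 429) (nat_lit 428) (nat_lit 163)) (XT.lf (nat_lit 0) (nat_lit 12931210570) (nat_lit 1216) (nat_lit 23832197827) (nat_lit 1292) (nat_lit 19769400186) (nat_lit 247) (nat_lit 5) (nat_lit 263) (nat_lit 5) (nat_lit 264) (nat_lit 5) (nat_lit 430) (nat_lit 428) (nat_lit 162))))) (XT.nd (nat_lit 312) (nat_lit 0) (nat_lit 152) (XT.nd (nat_lit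 156) (nat_lit 0) (nat_lit 76) (XT.nd (nat_lit 78) (nat_lit 0) (nat_lit 76) (XT.lf (nat_lit 76) (nat_lit 3722951758) (nat_lit 0) (nat_lit 10001738593) (nat_lit 1292) (nat_lit 43663346695) (nat_lit 248) (nat_lit 5) (nat_lit 247) (nat_lit 5) (nat_lit 264) (nat_lit 5) (nat_lit 431) (nat_lit 428) (nat_lit 161)) (XT.lf (nat_lit 0) (nat_lit 14953051115) (nat_lit 1216) (nat_lit 25840094692) (nat_lit 1292) (nat_lit 17463444592) (nat_lit 248) (nat_lit 5) (nat_lit 264) (nat_lit 5) (nat_lit 265) (nat_lit 5) (nat_lit 432) (nat_lit 428) (nat_lit 160))) (XT.nd (nat_lit 78) (nat_lit 0) (nat_lit 76) (XT.lf (nat_lit 76) (nat_lit 2774291184) (nat_lit 0) (nat_lit 13568900955) (nat_lit 1292) (nat_lit 42804260651) (nat_lit 249) (nat_lit 5) (nat_lit 248) (nat_lit 5) (nat_lit 265) (nat_lit 5) (nat_lit 433) (nat_lit 428) (nat_lit 159)) (XT.lf (nat_lit 0) (nat_lit 18176924404) (nat_lit 1216) (nat_lit 27422590410) (nat_lit 1292) (nat_lit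 14453469944) (nat_lit 249) (nat_lit 5) (nat_lit 265) (nat_lit 5) (nat_lit 266) (nat_lit 5) (nat_lit 434) (nat_lit 428) (nat_lit 158)))) (XT.nd (nat_lit 156) (nat_lit 0) (nat_lit 76) (XT.nd (nat_lit 78) (nat_lit 0) (nat_lit 76) (XT.lf (nat_lit 76) (nat_lit 2306693669) (nat_lit 0) (nat_lit 17914770384) (nat_lit 1292) (nat_lit 40759545071) (nat_lit 250) (nat_lit 5) (nat_lit 249) (nat_lit 5) (nat_lit 266) (nat_lit 5) (nat_lit 435) (nat_lit 428) (nat_lit 157)) (XT.lf (nat_lit 0) (nat_lit 22708190084) (nat_lit 1216) (nat_lit 28543704482) (nat_lit 1292) (nat_lit 10673554447) (nat_lit 250) (nat_lit 5) (nat_lit 266) (nat_lit 5) (nat_lit 267) (nat_lit 5) (nat_lit 436) (nat_lit 428) (nat_lit 156))) (XT.nd (nat_lit 78) (nat_lit 0) (nat_lit 76) (XT.lf (nat_lit 76) (nat_lit 2359008060) (nat_lit 0) (nat_lit 23109875971) (nat_lit 1292) (nat_lit 37423357370) (nat_lit 251) (nat_lit 5) (nat_lit 250) (nat_lit 5) (nat_lit 267) (nat_lit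 5) (nat_lit 437) (nat_lit 428) (nat_lit 155)) (XT.lf (nat_lit 0) (nat_lit 28659308886) (nat_lit 1216) (nat_lit 29165305074) (nat_lit 1292) (nat_lit 6053016576) (nat_lit 251) (nat_lit 5) (nat_lit 267) (nat_lit 5) (nat_lit 268) (nat_lit 5) (nat_lit 438) (nat_lit 428) (nat_lit 154))))))))
noncomputable def xc249 : XT := (XT.nd (nat_lit 52650) (nat_lit 0) (nat_lit 456) (XT.nd (nat_lit 1092) (nat_lit 3040) (nat_lit 0) (XT.nd (nat_lit 546) (nat_lit 1900) (nat_lit 0) (XT.nd (nat_lit 234) (nat_lit 988) (nat_lit 0) (XT.nd (nat_lit 78) (nat_lit 0) (nat_lit 76) (XT.lf (nat_lit 76) (nat_lit 2972373343) (nat_lit 0) (nat_lit 29229808729) (nat_lit 1292) (nat_lit 32682697476) (nat_lit 252) (nat_lit 5) (nat_lit 251) (nat_lit 5) (nat_lit 268) (nat_lit 5) (nat_lit 439) (nat_lit 428) (nat_lit 153)) (XT.nd (nat_lit 78) (nat_lit 0) (nat_lit 0) (XT.lf (nat_lit 0) (nat_lit 36150280383) (nat_lit 1216) (nat_lit 29247021272) (nat_lit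 1292) (nat_lit 516076470) (nat_lit 252) (nat_lit 5) (nat_lit 268) (nat_lit 5) (nat_lit 269) (nat_lit 5) (nat_lit 440) (nat_lit 428) (nat_lit 152)) (XT.lf (nat_lit 76) (nat_lit 4190311810) (nat_lit 0) (nat_lit 36355580602) (nat_lit 1292) (nat_lit 26416967379) (nat_lit 253) (nat_lit 5) (nat_lit 252) (nat_lit 5) (nat_lit 269) (nat_lit 5) (nat_lit 441) (nat_lit 428) (nat_lit 151)))) (XT.nd (nat_lit 156) (nat_lit 1064) (nat_lit 0) (XT.nd (nat_lit 78) (nat_lit 0) (nat_lit 76) (XT.lf (nat_lit 76) (nat_lit 39229824429) (nat_lit 0) (nat_lit 6138286108) (nat_lit 1292) (nat_lit 22666873486) (nat_lit 253) (nat_lit 5) (nat_lit 252) (nat_lit 5) (nat_lit 269) (nat_lit 5) (nat_lit 442) (nat_lit 428) (nat_lit 150)) (XT.lf (nat_lit 76) (nat_lit 6058822998) (nat_lit 0) (nat_lit 44574008289) (nat_lit 1292) (nat_lit 18497505852) (nat_lit 254) (nat_lit 5) (nat_lit 253) (nat_lit 5) (nat_lit 270) (nat_lit 5) (nat_lit 443) (nat_lit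 428) (nat_lit 149))) (XT.nd (nat_lit 78) (nat_lit 1140) (nat_lit 0) (XT.lf (nat_lit 76) (nat_lit 42496741928) (nat_lit 0) (nat_lit 13909237787) (nat_lit 1292) (nat_lit 13842056785) (nat_lit 254) (nat_lit 5) (nat_lit 253) (nat_lit 5) (nat_lit 270) (nat_lit 5) (nat_lit 444) (nat_lit 428) (nat_lit 148)) (XT.lf (nat_lit 0) (nat_lit 8626477935) (nat_lit 1216) (nat_lit 53978123714) (nat_lit 1292) (nat_lit 8787097047) (nat_lit 238) (nat_lit 5) (nat_lit 254) (nat_lit 5) (nat_lit 255) (nat_lit 5) (nat_lit 445) (nat_lit 428) (nat_lit 147))))) (XT.nd (nat_lit 234) (nat_lit 1216) (nat_lit 0) (XT.nd (nat_lit 78) (nat_lit 684) (nat_lit 0) (XT.lf (nat_lit 0) (nat_lit 46523526811) (nat_lit 1216) (nat_lit 22881714245) (nat_lit 1292) (nat_lit 3151948159) (nat_lit 238) (nat_lit 5) (nat_lit 254) (nat_lit 5) (nat_lit 255) (nat_lit 5) (nat_lit 446) (nat_lit 428) (nat_lit 146)) (XT.nd (nat_lit 78) (nat_lit 0) (nat_lit 0) (XT.lf (nat_lit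 0) (nat_lit 2804728760) (nat_lit 684) (nat_lit 61834562054) (nat_lit 76) (nat_lit 9111462130) (nat_lit 229) (nat_lit 5) (nat_lit 238) (nat_lit 5) (nat_lit 230) (nat_lit 5) (nat_lit 447) (nat_lit 428) (nat_lit 145)) (XT.lf (nat_lit 0) (nat_lit 9368280210) (nat_lit 684) (nat_lit 23694878117) (nat_lit 76) (nat_lit 41901283479) (nat_lit 229) (nat_lit 5) (nat_lit 238) (nat_lit 5) (nat_lit 230) (nat_lit 5) (nat_lit 448) (nat_lit 428) (nat_lit 144)))) (XT.nd (nat_lit 156) (nat_lit 608) (nat_lit 0) (XT.nd (nat_lit 78) (nat_lit 0) (nat_lit 0) (XT.lf (nat_lit 0) (nat_lit 15898769025) (nat_lit 608) (nat_lit 382294793) (nat_lit 684) (nat_lit 59928907944) (nat_lit 221) (nat_lit 5) (nat_lit 229) (nat_lit 5) (nat_lit 230) (nat_lit 5) (nat_lit 449) (nat_lit 428) (nat_lit 143)) (XT.lf (nat_lit 0) (nat_lit 23962277199) (nat_lit 684) (nat_lit 20642489393) (nat_lit 76) (nat_lit 32871269825) (nat_lit 221) (nat_lit 5) (nat_lit 230)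 (nat_lit 5) (nat_lit 222) (nat_lit 5) (nat_lit 450) (nat_lit 428) (nat_lit 142))) (XT.nd (nat_lit 78) (nat_lit 0) (nat_lit 0) (XT.lf (nat_lit 0) (nat_lit 20614293148) (nat_lit 608) (nat_lit 11461097848) (nat_lit 684) (nat_lit 46698648280) (nat_lit 213) (nat_lit 5) (nat_lit 221) (nat_lit 5) (nat_lit 222) (nat_lit 5) (nat_lit 451) (nat_lit 428) (nat_lit 141)) (XT.lf (nat_lit 0) (nat_lit 40859926058) (nat_lit 684) (nat_lit 16793322656) (nat_lit 76) (nat_lit 22444892849) (nat_lit 213) (nat_lit 5) (nat_lit 222) (nat_lit 5) (nat_lit 214) (nat_lit 5) (nat_lit 452) (nat_lit 428) (nat_lit 140)))))) (XT.nd (nat_lit 546) (nat_lit 912) (nat_lit 0) (XT.nd (nat_lit 234) (nat_lit 1064) (nat_lit 0) (XT.nd (nat_lit 78) (nat_lit 532) (nat_lit 0) (XT.lf (nat_lit 0) (nat_lit 26211638691) (nat_lit 532) (nat_lit 24061341937) (nat_lit 608) (nat_lit 31178036961) (nat_lit 206) (nat_lit 5) (nat_lit 213) (nat_lit 5) (nat_lit 214) (nat_lit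 5) (nat_lit 453) (nat_lit 428) (nat_lit 139)) (XT.nd (nat_lit 78) (nat_lit 532) (nat_lit 0) (XT.lf (nat_lit 0) (nat_lit 60240539954) (nat_lit 608) (nat_lit 12091847790) (nat_lit 76) (nat_lit 10503928928) (nat_lit 206) (nat_lit 5) (nat_lit 214) (nat_lit 5) (nat_lit 207) (nat_lit 5) (nat_lit 454) (nat_lit 428) (nat_lit 138)) (XT.lf (nat_lit 0) (nat_lit 32750501092) (nat_lit 532) (nat_lit 38309240607) (nat_lit 608) (nat_lit 13186854721) (nat_lit 199) (nat_lit 5) (nat_lit 206) (nat_lit 5) (nat_lit 207) (nat_lit 5) (nat_lit 455) (nat_lit 428) (nat_lit 137)))) (XT.nd (nat_lit 156) (nat_lit 532) (nat_lit 0) (XT.nd (nat_lit 78) (nat_lit 532) (nat_lit 0) (XT.lf (nat_lit 0) (nat_lit 79185538660) (nat_lit 532) (nat_lit 3139659739) (nat_lit 608) (nat_lit 3370335953) (nat_lit 199) (nat_lit 5) (nat_lit 206) (nat_lit 5) (nat_lit 207) (nat_lit 5) (nat_lit 456) (nat_lit 428) (nat_lit 136)) (XT.lf (nat_lit 0) (nat_lit 7321068894)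 (nat_lit 532) (nat_lit 46945094911) (nat_lit 76) (nat_lit 32898475140) (nat_lit 192) (nat_lit 5) (nat_lit 199) (nat_lit 5) (nat_lit 193) (nat_lit 5) (nat_lit 457) (nat_lit 428) (nat_lit 135))) (XT.nd (nat_lit 78) (nat_lit 532) (nat_lit 0) (XT.lf (nat_lit 0) (nat_lit 18362540914) (nat_lit 532) (nat_lit 256988076) (nat_lit 76) (nat_lit 70054374776) (nat_lit 192) (nat_lit 5) (nat_lit 199) (nat_lit 5) (nat_lit 193) (nat_lit 5) (nat_lit 458) (nat_lit 428) (nat_lit 134)) (XT.lf (nat_lit 0) (nat_lit 30382391318) (nat_lit 608) (nat_lit 41609731194) (nat_lit 76) (nat_lit 18216910134) (nat_lit 185) (nat_lit 5) (nat_lit 193) (nat_lit 5) (nat_lit 186) (nat_lit 5) (nat_lit 459) (nat_lit 428) (nat_lit 133))))) (XT.nd (nat_lit 50700) (nat_lit 0) (nat_lit 5548) (XT.nd (nat_lit 78) (nat_lit 456) (nat_lit 0) (XT.lf (nat_lit 0) (nat_lit 7089933279) (nat_lit 456) (nat_lit 35927638736) (nat_lit 532) (nat_lit 48765001473) (nat_lit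 179) (nat_lit 5) (nat_lit 185) (nat_lit 5) (nat_lit 186) (nat_lit 5) (nat_lit 460) (nat_lit 428) (nat_lit 132)) (XT.nd (nat_lit 78) (nat_lit 456) (nat_lit 0) (XT.lf (nat_lit 0) (nat_lit 56467476617) (nat_lit 532) (nat_lit 35303500846) (nat_lit 76) (nat_lit 1619273169) (nat_lit 179) (nat_lit 5) (nat_lit 186) (nat_lit 5) (nat_lit 180) (nat_lit 5) (nat_lit 461) (nat_lit 428) (nat_lit 131)) (XT.lf (nat_lit 0) (nat_lit 15513882356) (nat_lit 456) (nat_lit 55311471276) (nat_lit 532) (nat_lit 24205670330) (nat_lit 173) (nat_lit 5) (nat_lit 179) (nat_lit 5) (nat_lit 180) (nat_lit 5) (nat_lit 462) (nat_lit 428) (nat_lit 130)))) (XT.nd (nat_lit 156) (nat_lit 0) (nat_lit 76) (XT.nd (nat_lit 78) (nat_lit 0) (nat_lit 0) (XT.lf (nat_lit 0) (nat_lit 6207755818) (nat_lit 1292) (nat_lit 11026977643) (nat_lit 1292) (nat_lit 11026977643) (nat_lit 246) (nat_lit 3) (nat_lit 263) (nat_lit 3) (nat_lit 263) (nat_lit 5) (nat_lit 429)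 (nat_lit 429) (nat_lit 162)) (XT.lf (nat_lit 76) (nat_lit 5291136065) (nat_lit 0) (nat_lit 7381646733) (nat_lit 1292) (nat_lit 44696351070) (nat_lit 247) (nat_lit 5) (nat_lit 246) (nat_lit 3) (nat_lit 263) (nat_lit 5) (nat_lit 430) (nat_lit 429) (nat_lit 161))) (XT.nd (nat_lit 78) (nat_lit 0) (nat_lit 0) (XT.lf (nat_lit 0) (nat_lit 13359130311) (nat_lit 1216) (nat_lit 24524756990) (nat_lit 1292) (nat_lit 20343689162) (nat_lit 247) (nat_lit 5) (nat_lit 263) (nat_lit 5) (nat_lit 264) (nat_lit 5) (nat_lit 431) (nat_lit 429) (nat_lit 160)) (XT.lf (nat_lit 76) (nat_lit 3856827409) (nat_lit 0) (nat_lit 10318635788) (nat_lit 1292) (nat_lit 44933027614) (nat_lit 248) (nat_lit 5) (nat_lit 247) (nat_lit 5) (nat_lit 264) (nat_lit 5) (nat_lit 432) (nat_lit 429) (nat_lit 159))))))) (XT.nd (nat_lit 1092) (nat_lit 4484) (nat_lit 0) (XT.nd (nat_lit 546) (nat_lit 760) (nat_lit 0) (XT.nd (nat_lit 234) (nat_lit 0) (nat_lit 76)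 (XT.nd (nat_lit 78) (nat_lit 0) (nat_lit 0) (XT.lf (nat_lit 0) (nat_lit 15439380716) (nat_lit 1216) (nat_lit 26592446688) (nat_lit 1292) (nat_lit 17971312658) (nat_lit 248) (nat_lit 5) (nat_lit 264) (nat_lit 5) (nat_lit 265) (nat_lit 5) (nat_lit 433) (nat_lit 429) (nat_lit 158)) (XT.nd (nat_lit 78) (nat_lit 0) (nat_lit 76) (XT.lf (nat_lit 76) (nat_lit 2880146736) (nat_lit 0) (nat_lit 13990197571) (nat_lit 1292) (nat_lit 44050410932) (nat_lit 249) (nat_lit 5) (nat_lit 248) (nat_lit 5) (nat_lit 265) (nat_lit 5) (nat_lit 434) (nat_lit 429) (nat_lit 157)) (XT.lf (nat_lit 0) (nat_lit 18757882253) (nat_lit 1216) (nat_lit 28222079059) (nat_lit 1292) (nat_lit 14873528492) (nat_lit 249) (nat_lit 5) (nat_lit 265) (nat_lit 5) (nat_lit 266) (nat_lit 5) (nat_lit 435) (nat_lit 429) (nat_lit 156)))) (XT.nd (nat_lit 156) (nat_lit 0) (nat_lit 76) (XT.nd (nat_lit 78) (nat_lit 0) (nat_lit 76) (XT.lf (nat_lit 76) (nat_lit 2398856199)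 (nat_lit 0) (nat_lit 18464084262) (nat_lit 1292) (nat_lit 41946439407) (nat_lit 250) (nat_lit 5) (nat_lit 249) (nat_lit 5) (nat_lit 266) (nat_lit 5) (nat_lit 436) (nat_lit 429) (nat_lit 155)) (XT.lf (nat_lit 0) (nat_lit 23423142948) (nat_lit 1216) (nat_lit 29376583229) (nat_lit 1292) (nat_lit 10982460959) (nat_lit 250) (nat_lit 5) (nat_lit 266) (nat_lit 5) (nat_lit 267) (nat_lit 5) (nat_lit 437) (nat_lit 429) (nat_lit 154))) (XT.nd (nat_lit 78) (nat_lit 0) (nat_lit 76) (XT.lf (nat_lit 76) (nat_lit 2452980961) (nat_lit 0) (nat_lit 23812918029) (nat_lit 1292) (nat_lit 38512107480) (nat_lit 251) (nat_lit 5) (nat_lit 250) (nat_lit 5) (nat_lit 267) (nat_lit 5) (nat_lit 438) (nat_lit 429) (nat_lit 153)) (XT.lf (nat_lit 0) (nat_lit 29550985973) (nat_lit 1216) (nat_lit 30016673435) (nat_lit 1292) (nat_lit 6225329788) (nat_lit 251) (nat_lit 5) (nat_lit 267) (nat_lit 5) (nat_lit 268) (nat_lit 5) (nat_lit 439) (nat_lit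 429) (nat_lit 152))))) (XT.nd (nat_lit 234) (nat_lit 988) (nat_lit 0) (XT.nd (nat_lit 78) (nat_lit 0) (nat_lit 76) (XT.lf (nat_lit 76) (nat_lit 3084904052) (nat_lit 0) (nat_lit 30114536786) (nat_lit 1292) (nat_lit 33631036364) (nat_lit 252) (nat_lit 5) (nat_lit 251) (nat_lit 5) (nat_lit 268) (nat_lit 5) (nat_lit 440) (nat_lit 429) (nat_lit 151)) (XT.nd (nat_lit 78) (nat_lit 0) (nat_lit 0) (XT.lf (nat_lit 0) (nat_lit 37265000446) (nat_lit 1216) (nat_lit 30100758566) (nat_lit 1292) (nat_lit 524101552) (nat_lit 252) (nat_lit 5) (nat_lit 268) (nat_lit 5) (nat_lit 269) (nat_lit 5) (nat_lit 441) (nat_lit 429) (nat_lit 150)) (XT.lf (nat_lit 76) (nat_lit 4339462417) (nat_lit 0) (nat_lit 37452363799) (nat_lit 1292) (nat_lit 27179020467) (nat_lit 253) (nat_lit 5) (nat_lit 252) (nat_lit 5) (nat_lit 269) (nat_lit 5) (nat_lit 442) (nat_lit 429) (nat_lit 149)))) (XT.nd (nat_lit 156) (nat_lit 1064) (nat_lit 0) (XT.nd (nat_lit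 78) (nat_lit 0) (nat_lit 76) (XT.lf (nat_lit 76) (nat_lit 40429477659) (nat_lit 0) (nat_lit 6328372341) (nat_lit 1292) (nat_lit 23317310823) (nat_lit 253) (nat_lit 5) (nat_lit 252) (nat_lit 5) (nat_lit 269) (nat_lit 5) (nat_lit 443) (nat_lit 429) (nat_lit 148)) (XT.lf (nat_lit 76) (nat_lit 6264043744) (nat_lit 0) (nat_lit 45915802879) (nat_lit 1292) (nat_lit 19023548227) (nat_lit 254) (nat_lit 5) (nat_lit 253) (nat_lit 5) (nat_lit 270) (nat_lit 5) (nat_lit 444) (nat_lit 429) (nat_lit 147))) (XT.nd (nat_lit 78) (nat_lit 1140) (nat_lit 0) (XT.lf (nat_lit 76) (nat_lit 43794417056) (nat_lit 0) (nat_lit 14330956029) (nat_lit 1292) (nat_lit 14229276935) (nat_lit 254) (nat_lit 5) (nat_lit 253) (nat_lit 5) (nat_lit 270) (nat_lit 5) (nat_lit 445) (nat_lit 429) (nat_lit 146)) (XT.lf (nat_lit 0) (nat_lit 8908683614) (nat_lit 1216) (nat_lit 55600661019) (nat_lit 1292) (nat_lit 9023296045) (nat_lit 238) (nat_lit 5) (nat_lit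 254) (nat_lit 5) (nat_lit 255) (nat_lit 5) (nat_lit 446) (nat_lit 429) (nat_lit 145)))))) (XT.nd (nat_lit 546) (nat_lit 2584) (nat_lit 0) (XT.nd (nat_lit 234) (nat_lit 1216) (nat_lit 0) (XT.nd (nat_lit 78) (nat_lit 684) (nat_lit 0) (XT.lf (nat_lit 0) (nat_lit 47941962072) (nat_lit 1216) (nat_lit 23571266249) (nat_lit 1292) (nat_lit 3219891153) (nat_lit 238) (nat_lit 5) (nat_lit 254) (nat_lit 5) (nat_lit 255) (nat_lit 5) (nat_lit 447) (nat_lit 429) (nat_lit 144)) (XT.nd (nat_lit 78) (nat_lit 0) (nat_lit 0) (XT.lf (nat_lit 0) (nat_lit 2914403733) (nat_lit 684) (nat_lit 63665766996) (nat_lit 76) (nat_lit 9382328898) (nat_lit 229) (nat_lit 5) (nat_lit 238) (nat_lit 5) (nat_lit 230) (nat_lit 5) (nat_lit 448) (nat_lit 429) (nat_lit 143)) (XT.lf (nat_lit 0) (nat_lit 9674118043) (nat_lit 684) (nat_lit 24382586675) (nat_lit 76) (nat_lit 43155917036) (nat_lit 229) (nat_lit 5) (nat_lit 238) (nat_lit 5) (nat_lit 230) (nat_lit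 5) (nat_lit 449) (nat_lit 429) (nat_lit 142)))) (XT.nd (nat_lit 156) (nat_lit 608) (nat_lit 0) (XT.nd (nat_lit 78) (nat_lit 0) (nat_lit 0) (XT.lf (nat_lit 0) (nat_lit 16398643040) (nat_lit 608) (nat_lit 395140331) (nat_lit 684) (nat_lit 61701749571) (nat_lit 221) (nat_lit 5) (nat_lit 229) (nat_lit 5) (nat_lit 230) (nat_lit 5) (nat_lit 450) (nat_lit 429) (nat_lit 141)) (XT.lf (nat_lit 0) (nat_lit 24704712899) (nat_lit 684) (nat_lit 21238791112) (nat_lit 76) (nat_lit 33856097406) (nat_lit 221) (nat_lit 5) (nat_lit 230) (nat_lit 5) (nat_lit 222) (nat_lit 5) (nat_lit 451) (nat_lit 429) (nat_lit 140))) (XT.nd (nat_lit 78) (nat_lit 0) (nat_lit 0) (XT.lf (nat_lit 0) (nat_lit 21255469679) (nat_lit 608) (nat_lit 11805282667) (nat_lit 684) (nat_lit 48075806312) (nat_lit 213) (nat_lit 5) (nat_lit 221) (nat_lit 5) (nat_lit 222) (nat_lit 5) (nat_lit 452) (nat_lit 429) (nat_lit 139)) (XT.lf (nat_lit 0) (nat_lit 42108147372)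 (nat_lit 684) (nat_lit 17274352516) (nat_lit 76) (nat_lit 23117904667) (nat_lit 213) (nat_lit 5) (nat_lit 222) (nat_lit 5) (nat_lit 214) (nat_lit 5) (nat_lit 453) (nat_lit 429) (nat_lit 138))))) (XT.nd (nat_lit 312) (nat_lit 1520) (nat_lit 0) (XT.nd (nat_lit 156) (nat_lit 532) (nat_lit 0) (XT.nd (nat_lit 78) (nat_lit 0) (nat_lit 0) (XT.lf (nat_lit 0) (nat_lit 27020534439) (nat_lit 532) (nat_lit 24782622759) (nat_lit 608) (nat_lit 32090723003) (nat_lit 206) (nat_lit 5) (nat_lit 213) (nat_lit 5) (nat_lit 214) (nat_lit 5) (nat_lit 454) (nat_lit 429) (nat_lit 137)) (XT.lf (nat_lit 0) (nat_lit 62069108122) (nat_lit 608) (nat_lit 12432070093) (nat_lit 76) (nat_lit 10819579338) (nat_lit 206) (nat_lit 5) (nat_lit 214) (nat_lit 5) (nat_lit 207) (nat_lit 5) (nat_lit 455) (nat_lit 429) (nat_lit 136))) (XT.nd (nat_lit 78) (nat_lit 0) (nat_lit 0) (XT.lf (nat_lit 0) (nat_lit 33755328343) (nat_lit 532) (nat_lit 39457150153)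 (nat_lit 608) (nat_lit 13560879655) (nat_lit 199) (nat_lit 5) (nat_lit 206) (nat_lit 5) (nat_lit 207) (nat_lit 5) (nat_lit 456) (nat_lit 429) (nat_lit 135)) (XT.lf (nat_lit 0) (nat_lit 81582767168) (nat_lit 532) (nat_lit 3232521695) (nat_lit 608) (nat_lit 3450493889) (nat_lit 199) (nat_lit 5) (nat_lit 206) (nat_lit 5) (nat_lit 207) (nat_lit 5) (nat_lit 457) (nat_lit 429) (nat_lit 134)))) (XT.nd (nat_lit 156) (nat_lit 988) (nat_lit 0) (XT.nd (nat_lit 78) (nat_lit 0) (nat_lit 0) (XT.lf (nat_lit 0) (nat_lit 7560872464) (nat_lit 532) (nat_lit 48330990235) (nat_lit 76) (nat_lit 33887103107) (nat_lit 192) (nat_lit 5) (nat_lit 199) (nat_lit 5) (nat_lit 193) (nat_lit 5) (nat_lit 458) (nat_lit 429) (nat_lit 133)) (XT.lf (nat_lit 0) (nat_lit 18933001125) (nat_lit 532) (nat_lit 242894298) (nat_lit 76) (nat_lit 72157630983) (nat_lit 192) (nat_lit 5) (nat_lit 199) (nat_lit 5) (nat_lit 193) (nat_lit 5) (nat_lit 459) (nat_lit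 429) (nat_lit 132))) (XT.nd (nat_lit 78) (nat_lit 456) (nat_lit 0) (XT.lf (nat_lit 0) (nat_lit 31313106936) (nat_lit 608) (nat_lit 42835872854) (nat_lit 76) (nat_lit 18765739771) (nat_lit 185) (nat_lit 5) (nat_lit 193) (nat_lit 5) (nat_lit 186) (nat_lit 5) (nat_lit 460) (nat_lit 429) (nat_lit 131)) (XT.lf (nat_lit 0) (nat_lit 7324564394) (nat_lit 456) (nat_lit 37002428992) (nat_lit 532) (nat_lit 50208483926) (nat_lit 179) (nat_lit 5) (nat_lit 185) (nat_lit 5) (nat_lit 186) (nat_lit 5) (nat_lit 461) (nat_lit 429) (nat_lit 130))))))))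
noncomputable def xc250 : XT := (XT.nd (nat_lit 52728) (nat_lit 0) (nat_lit 456) (XT.nd (nat_lit 51636) (nat_lit 0) (nat_lit 2052) (XT.nd (nat_lit 51090) (nat_lit 0) (nat_lit 5320) (XT.nd (nat_lit 50778) (nat_lit 0) (nat_lit 5168) (XT.nd (nat_lit 50622) (nat_lit 0) (nat_lit 5092) (XT.lf (nat_lit 0) (nat_lit 58179873171) (nat_lit 532) (nat_lit 36340783265) (nat_lit 76) (nat_lit 1670744185) (nat_lit 179) (nat_lit 5) (nat_lit 186) (nat_lit 5) (nat_lit 180) (nat_lit 5) (nat_lit 462) (nat_lit 429) (nat_lit 129)) (XT.nd (nat_lit 78) (nat_lit 0) (nat_lit 0) (XT.lf (nat_lit 0) (nat_lit 6413971392) (nat_lit 1292) (nat_lit 11347491560) (nat_lit 1292) (nat_lit 11347491560) (nat_lit 246) (nat_lit 3) (nat_lit 263) (nat_lit 3) (nat_lit 263) (nat_lit 5) (nat_lit 430) (nat_lit 430) (nat_lit 160)) (XT.lf (nat_lit 76) (nat_lit 5470259100) (nat_lit 0) (nat_lit 7621704920) (nat_lit 1292) (nat_lit 45997057549) (nat_lit 247) (nat_lit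 5) (nat_lit 246) (nat_lit 3) (nat_lit 263) (nat_lit 5) (nat_lit 431) (nat_lit 430) (nat_lit 159)))) (XT.nd (nat_lit 156) (nat_lit 0) (nat_lit 76) (XT.nd (nat_lit 78) (nat_lit 0) (nat_lit 0) (XT.lf (nat_lit 0) (nat_lit 13797592432) (nat_lit 1216) (nat_lit 25239379168) (nat_lit 1292) (nat_lit 20936285604) (nat_lit 247) (nat_lit 5) (nat_lit 263) (nat_lit 5) (nat_lit 264) (nat_lit 5) (nat_lit 432) (nat_lit 430) (nat_lit 158)) (XT.lf (nat_lit 76) (nat_lit 3993445698) (nat_lit 0) (nat_lit 10644072924) (nat_lit 1292) (nat_lit 46243107724) (nat_lit 248) (nat_lit 5) (nat_lit 247) (nat_lit 5) (nat_lit 264) (nat_lit 5) (nat_lit 433) (nat_lit 430) (nat_lit 157))) (XT.nd (nat_lit 78) (nat_lit 0) (nat_lit 0) (XT.lf (nat_lit 0) (nat_lit 15938133885) (nat_lit 1216) (nat_lit 27368680976) (nat_lit 1292) (nat_lit 18495337257) (nat_lit 248) (nat_lit 5) (nat_lit 264) (nat_lit 5) (nat_lit 265) (nat_lit 5) (nat_lit 434) (nat_lit 430)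 (nat_lit 156)) (XT.lf (nat_lit 76) (nat_lit 2987879083) (nat_lit 0) (nat_lit 14423316248) (nat_lit 1292) (nat_lit 45336125788) (nat_lit 249) (nat_lit 5) (nat_lit 248) (nat_lit 5) (nat_lit 265) (nat_lit 5) (nat_lit 435) (nat_lit 430) (nat_lit 155))))) (XT.nd (nat_lit 234) (nat_lit 0) (nat_lit 76) (XT.nd (nat_lit 78) (nat_lit 0) (nat_lit 0) (XT.lf (nat_lit 0) (nat_lit 19354222374) (nat_lit 1216) (nat_lit 29046883514) (nat_lit 1292) (nat_lit 15306966367) (nat_lit 249) (nat_lit 5) (nat_lit 265) (nat_lit 5) (nat_lit 266) (nat_lit 5) (nat_lit 436) (nat_lit 430) (nat_lit 154)) (XT.nd (nat_lit 78) (nat_lit 0) (nat_lit 76) (XT.lf (nat_lit 76) (nat_lit 2492465508) (nat_lit 0) (nat_lit 19029196125) (nat_lit 1292) (nat_lit 43171000921) (nat_lit 250) (nat_lit 5) (nat_lit 249) (nat_lit 5) (nat_lit 266) (nat_lit 5) (nat_lit 437) (nat_lit 430) (nat_lit 153)) (XT.lf (nat_lit 0) (nat_lit 24157609469) (nat_lit 1216) (nat_lit 30235793453)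 (nat_lit 1292) (nat_lit 11301283340) (nat_lit 250) (nat_lit 5) (nat_lit 266) (nat_lit 5) (nat_lit 267) (nat_lit 5) (nat_lit 438) (nat_lit 430) (nat_lit 152)))) (XT.nd (nat_lit 156) (nat_lit 0) (nat_lit 76) (XT.nd (nat_lit 78) (nat_lit 0) (nat_lit 76) (XT.lf (nat_lit 76) (nat_lit 2548441121) (nat_lit 0) (nat_lit 24536491901) (nat_lit 1292) (nat_lit 39635468996) (nat_lit 251) (nat_lit 5) (nat_lit 250) (nat_lit 5) (nat_lit 267) (nat_lit 5) (nat_lit 439) (nat_lit 430) (nat_lit 151)) (XT.lf (nat_lit 0) (nat_lit 30467582308) (nat_lit 1216) (nat_lit 30894937055) (nat_lit 1292) (nat_lit 6403344951) (nat_lit 251) (nat_lit 5) (nat_lit 267) (nat_lit 5) (nat_lit 268) (nat_lit 5) (nat_lit 440) (nat_lit 430) (nat_lit 150))) (XT.nd (nat_lit 78) (nat_lit 0) (nat_lit 76) (XT.lf (nat_lit 76) (nat_lit 3199469752) (nat_lit 0) (nat_lit 31025356993) (nat_lit 1292) (nat_lit 34609670503) (nat_lit 252) (nat_lit 5) (nat_lit 251) (nat_lit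 5) (nat_lit 268) (nat_lit 5) (nat_lit 441) (nat_lit 430) (nat_lit 149)) (XT.lf (nat_lit 0) (nat_lit 38411427838) (nat_lit 1216) (nat_lit 30981466925) (nat_lit 1292) (nat_lit 532795460) (nat_lit 252) (nat_lit 5) (nat_lit 268) (nat_lit 5) (nat_lit 269) (nat_lit 5) (nat_lit 442) (nat_lit 430) (nat_lit 148)))))) (XT.nd (nat_lit 546) (nat_lit 1748) (nat_lit 0) (XT.nd (nat_lit 234) (nat_lit 1748) (nat_lit 0) (XT.nd (nat_lit 78) (nat_lit 0) (nat_lit 0) (XT.lf (nat_lit 76) (nat_lit 4491741918) (nat_lit 0) (nat_lit 38581699422) (nat_lit 1292) (nat_lit 27965683443) (nat_lit 253) (nat_lit 5) (nat_lit 252) (nat_lit 5) (nat_lit 269) (nat_lit 5) (nat_lit 443) (nat_lit 430) (nat_lit 147)) (XT.nd (nat_lit 78) (nat_lit 0) (nat_lit 76) (XT.lf (nat_lit 76) (nat_lit 41663814056) (nat_lit 0) (nat_lit 6523820316) (nat_lit 1292) (nat_lit 23988958654) (nat_lit 253) (nat_lit 5) (nat_lit 252) (nat_lit 5) (nat_lit 269) (nat_lit 5) (nat_lit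 444) (nat_lit 430) (nat_lit 146)) (XT.lf (nat_lit 76) (nat_lit 6474074639) (nat_lit 0) (nat_lit 47297588721) (nat_lit 1292) (nat_lit 19567029865) (nat_lit 254) (nat_lit 5) (nat_lit 253) (nat_lit 5) (nat_lit 270) (nat_lit 5) (nat_lit 445) (nat_lit 430) (nat_lit 145)))) (XT.nd (nat_lit 156) (nat_lit 684) (nat_lit 0) (XT.nd (nat_lit 78) (nat_lit 1140) (nat_lit 0) (XT.lf (nat_lit 76) (nat_lit 45129715181) (nat_lit 0) (nat_lit 14765070880) (nat_lit 1292) (nat_lit 14629723389) (nat_lit 254) (nat_lit 5) (nat_lit 253) (nat_lit 5) (nat_lit 270) (nat_lit 5) (nat_lit 446) (nat_lit 430) (nat_lit 144)) (XT.lf (nat_lit 0) (nat_lit 9198011557) (nat_lit 1216) (nat_lit 57271691119) (nat_lit 1292) (nat_lit 9268154683) (nat_lit 238) (nat_lit 5) (nat_lit 254) (nat_lit 5) (nat_lit 255) (nat_lit 5) (nat_lit 447) (nat_lit 430) (nat_lit 143))) (XT.nd (nat_lit 78) (nat_lit 684) (nat_lit 0) (XT.lf (nat_lit 0) (nat_lit 49401645628) (nat_lit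 1216) (nat_lit 24281326828) (nat_lit 1292) (nat_lit 3291400273) (nat_lit 238) (nat_lit 5) (nat_lit 254) (nat_lit 5) (nat_lit 255) (nat_lit 5) (nat_lit 448) (nat_lit 430) (nat_lit 142)) (XT.lf (nat_lit 0) (nat_lit 3025903249) (nat_lit 684) (nat_lit 65553276136) (nat_lit 76) (nat_lit 9661463865) (nat_lit 229) (nat_lit 5) (nat_lit 238) (nat_lit 5) (nat_lit 230) (nat_lit 5) (nat_lit 449) (nat_lit 430) (nat_lit 141))))) (XT.nd (nat_lit 234) (nat_lit 1140) (nat_lit 0) (XT.nd (nat_lit 78) (nat_lit 608) (nat_lit 0) (XT.lf (nat_lit 0) (nat_lit 9987707997) (nat_lit 684) (nat_lit 25092254693) (nat_lit 76) (nat_lit 44448327654) (nat_lit 229) (nat_lit 5) (nat_lit 238) (nat_lit 5) (nat_lit 230) (nat_lit 5) (nat_lit 450) (nat_lit 430) (nat_lit 140)) (XT.nd (nat_lit 78) (nat_lit 0) (nat_lit 0) (XT.lf (nat_lit 0) (nat_lit 16912198094) (nat_lit 608) (nat_lit 408292207) (nat_lit 684) (nat_lit 63529213019) (nat_lit 221) (nat_lit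 5) (nat_lit 229) (nat_lit 5) (nat_lit 230) (nat_lit 5) (nat_lit 451) (nat_lit 430) (nat_lit 139)) (XT.lf (nat_lit 0) (nat_lit 25468068805) (nat_lit 684) (nat_lit 21854300626) (nat_lit 76) (nat_lit 34870545042) (nat_lit 221) (nat_lit 5) (nat_lit 230) (nat_lit 5) (nat_lit 222) (nat_lit 5) (nat_lit 452) (nat_lit 430) (nat_lit 138)))) (XT.nd (nat_lit 156) (nat_lit 532) (nat_lit 0) (XT.nd (nat_lit 78) (nat_lit 0) (nat_lit 0) (XT.lf (nat_lit 0) (nat_lit 21914575693) (nat_lit 608) (nat_lit 12159772831) (nat_lit 684) (nat_lit 49495645385) (nat_lit 213) (nat_lit 5) (nat_lit 221) (nat_lit 5) (nat_lit 222) (nat_lit 5) (nat_lit 453) (nat_lit 430) (nat_lit 137)) (XT.lf (nat_lit 0) (nat_lit 43392528122) (nat_lit 684) (nat_lit 17771120352) (nat_lit 76) (nat_lit 23811126067) (nat_lit 213) (nat_lit 5) (nat_lit 222) (nat_lit 5) (nat_lit 214) (nat_lit 5) (nat_lit 454) (nat_lit 430) (nat_lit 136))) (XT.nd (nat_lit 78) (nat_lit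 0) (nat_lit 0) (XT.lf (nat_lit 0) (nat_lit 27852402792) (nat_lit 532) (nat_lit 25525574120) (nat_lit 608) (nat_lit 33032090120) (nat_lit 206) (nat_lit 5) (nat_lit 213) (nat_lit 5) (nat_lit 214) (nat_lit 5) (nat_lit 455) (nat_lit 430) (nat_lit 135)) (XT.lf (nat_lit 0) (nat_lit 63951307644) (nat_lit 608) (nat_lit 12783792558) (nat_lit 76) (nat_lit 11144668692) (nat_lit 206) (nat_lit 5) (nat_lit 214) (nat_lit 5) (nat_lit 207) (nat_lit 5) (nat_lit 456) (nat_lit 430) (nat_lit 134))))))) (XT.nd (nat_lit 51792) (nat_lit 0) (nat_lit 2128) (XT.nd (nat_lit 51246) (nat_lit 0) (nat_lit 4712) (XT.nd (nat_lit 234) (nat_lit 532) (nat_lit 0) (XT.nd (nat_lit 78) (nat_lit 532) (nat_lit 0) (XT.lf (nat_lit 0) (nat_lit 34789019598) (nat_lit 532) (nat_lit 40639575496) (nat_lit 608) (nat_lit 13947364159) (nat_lit 199) (nat_lit 5) (nat_lit 206) (nat_lit 5) (nat_lit 207) (nat_lit 5) (nat_lit 457) (nat_lit 430) (nat_lit 133)) (XT.nd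 (nat_lit 78) (nat_lit 532) (nat_lit 0) (XT.lf (nat_lit 0) (nat_lit 84050669023) (nat_lit 532) (nat_lit 3328245732) (nat_lit 608) (nat_lit 3534259301) (nat_lit 199) (nat_lit 5) (nat_lit 206) (nat_lit 5) (nat_lit 207) (nat_lit 5) (nat_lit 458) (nat_lit 430) (nat_lit 132)) (XT.lf (nat_lit 0) (nat_lit 7806712215) (nat_lit 532) (nat_lit 49759751573) (nat_lit 76) (nat_lit 34905293836) (nat_lit 192) (nat_lit 5) (nat_lit 199) (nat_lit 5) (nat_lit 193) (nat_lit 5) (nat_lit 459) (nat_lit 430) (nat_lit 131)))) (XT.nd (nat_lit 50856) (nat_lit 0) (nat_lit 4636) (XT.nd (nat_lit 78) (nat_lit 532) (nat_lit 0) (XT.lf (nat_lit 0) (nat_lit 19519450943) (nat_lit 532) (nat_lit 229629312) (nat_lit 76) (nat_lit 74323891598) (nat_lit 192) (nat_lit 5) (nat_lit 199) (nat_lit 5) (nat_lit 193) (nat_lit 5) (nat_lit 460) (nat_lit 430) (nat_lit 130)) (XT.lf (nat_lit 0) (nat_lit 32270639344) (nat_lit 608) (nat_lit 44100070279) (nat_lit 76)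 (nat_lit 19330900985) (nat_lit 185) (nat_lit 5) (nat_lit 193) (nat_lit 5) (nat_lit 186) (nat_lit 5) (nat_lit 461) (nat_lit 430) (nat_lit 129))) (XT.nd (nat_lit 78) (nat_lit 0) (nat_lit 0) (XT.lf (nat_lit 0) (nat_lit 6625226332) (nat_lit 1292) (nat_lit 11678211894) (nat_lit 1292) (nat_lit 11678211894) (nat_lit 246) (nat_lit 3) (nat_lit 263) (nat_lit 3) (nat_lit 263) (nat_lit 5) (nat_lit 431) (nat_lit 431) (nat_lit 158)) (XT.lf (nat_lit 76) (nat_lit 5653585417) (nat_lit 0) (nat_lit 7867896631) (nat_lit 1292) (nat_lit 47339091952) (nat_lit 247) (nat_lit 5) (nat_lit 246) (nat_lit 3) (nat_lit 263) (nat_lit 5) (nat_lit 432) (nat_lit 431) (nat_lit 157))))) (XT.nd (nat_lit 234) (nat_lit 0) (nat_lit 76) (XT.nd (nat_lit 78) (nat_lit 0) (nat_lit 0) (XT.lf (nat_lit 0) (nat_lit 14247044960) (nat_lit 1216) (nat_lit 25976652417) (nat_lit 1292) (nat_lit 21547676809) (nat_lit 247) (nat_lit 5) (nat_lit 263) (nat_lit 5) (nat_lit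 264) (nat_lit 5) (nat_lit 433) (nat_lit 431) (nat_lit 156)) (XT.nd (nat_lit 78) (nat_lit 0) (nat_lit 76) (XT.lf (nat_lit 76) (nat_lit 4132962018) (nat_lit 0) (nat_lit 10978361709) (nat_lit 1292) (nat_lit 47594666467) (nat_lit 248) (nat_lit 5) (nat_lit 247) (nat_lit 5) (nat_lit 264) (nat_lit 5) (nat_lit 434) (nat_lit 431) (nat_lit 155)) (XT.lf (nat_lit 0) (nat_lit 16449807686) (nat_lit 1216) (nat_lit 28169438726) (nat_lit 1292) (nat_lit 19035950244) (nat_lit 248) (nat_lit 5) (nat_lit 264) (nat_lit 5) (nat_lit 265) (nat_lit 5) (nat_lit 435) (nat_lit 431) (nat_lit 154)))) (XT.nd (nat_lit 156) (nat_lit 0) (nat_lit 76) (XT.nd (nat_lit 78) (nat_lit 0) (nat_lit 76) (XT.lf (nat_lit 76) (nat_lit 3097619089) (nat_lit 0) (nat_lit 14868658539) (nat_lit 1292) (nat_lit 46662467010) (nat_lit 249) (nat_lit 5) (nat_lit 248) (nat_lit 5) (nat_lit 265) (nat_lit 5) (nat_lit 436) (nat_lit 431) (nat_lit 153)) (XT.lf (nat_lit 0) (nat_lit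 19966523712) (nat_lit 1216) (nat_lit 29897686837) (nat_lit 1292) (nat_lit 15754140313) (nat_lit 249) (nat_lit 5) (nat_lit 265) (nat_lit 5) (nat_lit 266) (nat_lit 5) (nat_lit 437) (nat_lit 431) (nat_lit 152))) (XT.nd (nat_lit 78) (nat_lit 0) (nat_lit 76) (XT.lf (nat_lit 76) (nat_lit 2587640663) (nat_lit 0) (nat_lit 19610619031) (nat_lit 1292) (nat_lit 44434241357) (nat_lit 250) (nat_lit 5) (nat_lit 249) (nat_lit 5) (nat_lit 266) (nat_lit 5) (nat_lit 438) (nat_lit 431) (nat_lit 151)) (XT.lf (nat_lit 0) (nat_lit 24912286130) (nat_lit 1216) (nat_lit 31122047883) (nat_lit 1292) (nat_lit 11630281829) (nat_lit 250) (nat_lit 5) (nat_lit 266) (nat_lit 5) (nat_lit 267) (nat_lit 5) (nat_lit 439) (nat_lit 431) (nat_lit 150)))))) (XT.nd (nat_lit 546) (nat_lit 2812) (nat_lit 0) (XT.nd (nat_lit 234) (nat_lit 0) (nat_lit 152) (XT.nd (nat_lit 78) (nat_lit 0) (nat_lit 76) (XT.lf (nat_lit 76) (nat_lit 2645509616) (nat_lit 0) (nat_lit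 25281245657) (nat_lit 1292) (nat_lit 40794368387) (nat_lit 251) (nat_lit 5) (nat_lit 250) (nat_lit 5) (nat_lit 267) (nat_lit 5) (nat_lit 440) (nat_lit 431) (nat_lit 149)) (XT.nd (nat_lit 78) (nat_lit 0) (nat_lit 0) (XT.lf (nat_lit 0) (nat_lit 31409950578) (nat_lit 1216) (nat_lit 31800825054) (nat_lit 1292) (nat_lit 6587202551) (nat_lit 251) (nat_lit 5) (nat_lit 267) (nat_lit 5) (nat_lit 268) (nat_lit 5) (nat_lit 441) (nat_lit 431) (nat_lit 148)) (XT.lf (nat_lit 76) (nat_lit 3316208465) (nat_lit 0) (nat_lit 31963077928) (nat_lit 1292) (nat_lit 35619402836) (nat_lit 252) (nat_lit 5) (nat_lit 251) (nat_lit 5) (nat_lit 268) (nat_lit 5) (nat_lit 442) (nat_lit 431) (nat_lit 147)))) (XT.nd (nat_lit 156) (nat_lit 0) (nat_lit 0) (XT.nd (nat_lit 78) (nat_lit 0) (nat_lit 0) (XT.lf (nat_lit 0) (nat_lit 39590613334) (nat_lit 1216) (nat_lit 31889877473) (nat_lit 1292) (nat_lit 542153686) (nat_lit 252) (nat_lit 5) (nat_lit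 268) (nat_lit 5) (nat_lit 269) (nat_lit 5) (nat_lit 443) (nat_lit 431) (nat_lit 146)) (XT.lf (nat_lit 76) (nat_lit 4647321425) (nat_lit 0) (nat_lit 39744584195) (nat_lit 1292) (nat_lit 28777594244) (nat_lit 253) (nat_lit 5) (nat_lit 252) (nat_lit 5) (nat_lit 269) (nat_lit 5) (nat_lit 444) (nat_lit 431) (nat_lit 145))) (XT.nd (nat_lit 78) (nat_lit 0) (nat_lit 76) (XT.lf (nat_lit 76) (nat_lit 42933949108) (nat_lit 0) (nat_lit 6724810450) (nat_lit 1292) (nat_lit 24682355858) (nat_lit 253) (nat_lit 5) (nat_lit 252) (nat_lit 5) (nat_lit 269) (nat_lit 5) (nat_lit 445) (nat_lit 431) (nat_lit 144)) (XT.lf (nat_lit 76) (nat_lit 6689137280) (nat_lit 0) (nat_lit 48720580626) (nat_lit 1292) (nat_lit 20128378767) (nat_lit 254) (nat_lit 5) (nat_lit 253) (nat_lit 5) (nat_lit 270) (nat_lit 5) (nat_lit 446) (nat_lit 431) (nat_lit 143))))) (XT.nd (nat_lit 312) (nat_lit 1216) (nat_lit 0) (XT.nd (nat_lit 156) (nat_lit 684) (nat_lit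 0) (XT.nd (nat_lit 78) (nat_lit 1140) (nat_lit 0) (XT.lf (nat_lit 76) (nat_lit 46503840037) (nat_lit 0) (nat_lit 15211968874) (nat_lit 1292) (nat_lit 15043700534) (nat_lit 254) (nat_lit 5) (nat_lit 253) (nat_lit 5) (nat_lit 270) (nat_lit 5) (nat_lit 447) (nat_lit 431) (nat_lit 142)) (XT.lf (nat_lit 0) (nat_lit 9494752576) (nat_lit 1216) (nat_lit 58992679319) (nat_lit 1292) (nat_lit 9521842416) (nat_lit 238) (nat_lit 5) (nat_lit 254) (nat_lit 5) (nat_lit 255) (nat_lit 5) (nat_lit 448) (nat_lit 431) (nat_lit 141))) (XT.nd (nat_lit 78) (nat_lit 684) (nat_lit 0) (XT.lf (nat_lit 0) (nat_lit 50903889825) (nat_lit 1216) (nat_lit 25012521455) (nat_lit 1292) (nat_lit 3366494798) (nat_lit 238) (nat_lit 5) (nat_lit 254) (nat_lit 5) (nat_lit 255) (nat_lit 5) (nat_lit 449) (nat_lit 431) (nat_lit 140)) (XT.lf (nat_lit 0) (nat_lit 3139366184) (nat_lit 684) (nat_lit 67498700069) (nat_lit 76) (nat_lit 9949106913) (nat_lit 229)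 (nat_lit 5) (nat_lit 238) (nat_lit 5) (nat_lit 230) (nat_lit 5) (nat_lit 450) (nat_lit 431) (nat_lit 139)))) (XT.nd (nat_lit 156) (nat_lit 608) (nat_lit 0) (XT.nd (nat_lit 78) (nat_lit 608) (nat_lit 0) (XT.lf (nat_lit 0) (nat_lit 10309364322) (nat_lit 684) (nat_lit 25824464711) (nat_lit 76) (nat_lit 45779640719) (nat_lit 229) (nat_lit 5) (nat_lit 238) (nat_lit 5) (nat_lit 230) (nat_lit 5) (nat_lit 451) (nat_lit 431) (nat_lit 138)) (XT.lf (nat_lit 0) (nat_lit 17439920115) (nat_lit 608) (nat_lit 421764148) (nat_lit 684) (nat_lit 65412854478) (nat_lit 221) (nat_lit 5) (nat_lit 229) (nat_lit 5) (nat_lit 230) (nat_lit 5) (nat_lit 452) (nat_lit 431) (nat_lit 137))) (XT.nd (nat_lit 78) (nat_lit 608) (nat_lit 0) (XT.lf (nat_lit 0) (nat_lit 26253050185) (nat_lit 684) (nat_lit 22489518465) (nat_lit 76) (nat_lit 35915497018) (nat_lit 221) (nat_lit 5) (nat_lit 230) (nat_lit 5) (nat_lit 222) (nat_lit 5) (nat_lit 453) (nat_lit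 431) (nat_lit 136)) (XT.lf (nat_lit 0) (nat_lit 22592224034) (nat_lit 608) (nat_lit 12524878659) (nat_lit 684) (nat_lit 50959367497) (nat_lit 213) (nat_lit 5) (nat_lit 221) (nat_lit 5) (nat_lit 222) (nat_lit 5) (nat_lit 454) (nat_lit 431) (nat_lit 135))))))))
noncomputable def xc251 : XT := (XT.nd (nat_lit 52962) (nat_lit 0) (nat_lit 532) (XT.nd (nat_lit 51870) (nat_lit 0) (nat_lit 2812) (XT.nd (nat_lit 51324) (nat_lit 0) (nat_lit 4104) (XT.nd (nat_lit 234) (nat_lit 1064) (nat_lit 0) (XT.nd (nat_lit 78) (nat_lit 532) (nat_lit 0) (XT.lf (nat_lit 0) (nat_lit 44714226983) (nat_lit 684) (nat_lit 18284023272) (nat_lit 76) (nat_lit 24525162235) (nat_lit 213) (nat_lit 5) (nat_lit 222) (nat_lit 5) (nat_lit 214) (nat_lit 5) (nat_lit 455) (nat_lit 431) (nat_lit 134)) (XT.nd (nat_lit 78) (nat_lit 0) (nat_lit 0) (XT.lf (nat_lit 0) (nat_lit 28708007226) (nat_lit 532) (nat_lit 26290844292) (nat_lit 608) (nat_lit 34002924090)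 (nat_lit 206) (nat_lit 5) (nat_lit 213) (nat_lit 5) (nat_lit 214) (nat_lit 5) (nat_lit 456) (nat_lit 431) (nat_lit 133)) (XT.lf (nat_lit 0) (nat_lit 65888817822) (nat_lit 608) (nat_lit 13147285940) (nat_lit 76) (nat_lit 11479481910) (nat_lit 206) (nat_lit 5) (nat_lit 214) (nat_lit 5) (nat_lit 207) (nat_lit 5) (nat_lit 457) (nat_lit 431) (nat_lit 132)))) (XT.nd (nat_lit 156) (nat_lit 532) (nat_lit 0) (XT.nd (nat_lit 78) (nat_lit 0) (nat_lit 0) (XT.lf (nat_lit 0) (nat_lit 35852514303) (nat_lit 532) (nat_lit 41857547602) (nat_lit 608) (nat_lit 14346610905) (nat_lit 199) (nat_lit 5) (nat_lit 206) (nat_lit 5) (nat_lit 207) (nat_lit 5) (nat_lit 458) (nat_lit 431) (nat_lit 131)) (XT.lf (nat_lit 0) (nat_lit 86591435809) (nat_lit 532) (nat_lit 3426913338) (nat_lit 608) (nat_lit 3621671373) (nat_lit 199) (nat_lit 5) (nat_lit 206) (nat_lit 5) (nat_lit 207) (nat_lit 5) (nat_lit 459) (nat_lit 431) (nat_lit 130))) (XT.nd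 (nat_lit 78) (nat_lit 0) (nat_lit 0) (XT.lf (nat_lit 0) (nat_lit 8058835702) (nat_lit 532) (nat_lit 51232590901) (nat_lit 76) (nat_lit 35953939724) (nat_lit 192) (nat_lit 5) (nat_lit 199) (nat_lit 5) (nat_lit 193) (nat_lit 5) (nat_lit 460) (nat_lit 431) (nat_lit 129)) (XT.lf (nat_lit 0) (nat_lit 20122434587) (nat_lit 532) (nat_lit 217146135) (nat_lit 76) (nat_lit 76555052105) (nat_lit 192) (nat_lit 5) (nat_lit 199) (nat_lit 5) (nat_lit 193) (nat_lit 5) (nat_lit 461) (nat_lit 431) (nat_lit 128))))) (XT.nd (nat_lit 234) (nat_lit 0) (nat_lit 76) (XT.nd (nat_lit 78) (nat_lit 0) (nat_lit 0) (XT.lf (nat_lit 0) (nat_lit 6841737670) (nat_lit 1292) (nat_lit 12019410911) (nat_lit 1292) (nat_lit 12019410911) (nat_lit 246) (nat_lit 3) (nat_lit 263) (nat_lit 3) (nat_lit 263) (nat_lit 5) (nat_lit 432) (nat_lit 432) (nat_lit 156)) (XT.nd (nat_lit 78) (nat_lit 0) (nat_lit 76) (XT.lf (nat_lit 76) (nat_lit 5841308300) (nat_lit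 0) (nat_lit 8120467194) (nat_lit 1292) (nat_lit 48723561700) (nat_lit 247) (nat_lit 5) (nat_lit 246) (nat_lit 3) (nat_lit 263) (nat_lit 5) (nat_lit 433) (nat_lit 432) (nat_lit 155)) (XT.lf (nat_lit 0) (nat_lit 14707941797) (nat_lit 1216) (nat_lit 26737186670) (nat_lit 1292) (nat_lit 22178368246) (nat_lit 247) (nat_lit 5) (nat_lit 263) (nat_lit 5) (nat_lit 264) (nat_lit 5) (nat_lit 434) (nat_lit 432) (nat_lit 154)))) (XT.nd (nat_lit 156) (nat_lit 0) (nat_lit 76) (XT.nd (nat_lit 78) (nat_lit 0) (nat_lit 76) (XT.lf (nat_lit 76) (nat_lit 4275532224) (nat_lit 0) (nat_lit 11321820013) (nat_lit 1292) (nat_lit 48988823278) (nat_lit 248) (nat_lit 5) (nat_lit 247) (nat_lit 5) (nat_lit 264) (nat_lit 5) (nat_lit 435) (nat_lit 432) (nat_lit 153)) (XT.lf (nat_lit 0) (nat_lit 16974906954) (nat_lit 1216) (nat_lit 28995384665) (nat_lit 1292) (nat_lit 19593599464) (nat_lit 248) (nat_lit 5) (nat_lit 264) (nat_lit 5) (nat_lit 265)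 (nat_lit 5) (nat_lit 436) (nat_lit 432) (nat_lit 152))) (XT.nd (nat_lit 78) (nat_lit 0) (nat_lit 76) (XT.lf (nat_lit 76) (nat_lit 3209497265) (nat_lit 0) (nat_lit 15326635350) (nat_lit 1292) (nat_lit 48030535430) (nat_lit 249) (nat_lit 5) (nat_lit 248) (nat_lit 5) (nat_lit 265) (nat_lit 5) (nat_lit 437) (nat_lit 432) (nat_lit 151)) (XT.lf (nat_lit 0) (nat_lit 20595375834) (nat_lit 1216) (nat_lit 30775196967) (nat_lit 1292) (nat_lit 16215420338) (nat_lit 249) (nat_lit 5) (nat_lit 265) (nat_lit 5) (nat_lit 266) (nat_lit 5) (nat_lit 438) (nat_lit 432) (nat_lit 150)))))) (XT.nd (nat_lit 546) (nat_lit 1520) (nat_lit 0) (XT.nd (nat_lit 234) (nat_lit 0) (nat_lit 152) (XT.nd (nat_lit 78) (nat_lit 0) (nat_lit 76) (XT.lf (nat_lit 76) (nat_lit 2684499962) (nat_lit 0) (nat_lit 20208879181) (nat_lit 1292) (nat_lit 45737209599) (nat_lit 250) (nat_lit 5) (nat_lit 249) (nat_lit 5) (nat_lit 266) (nat_lit 5) (nat_lit 439) (nat_lit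 432) (nat_lit 149)) (XT.nd (nat_lit 78) (nat_lit 0) (nat_lit 0) (XT.lf (nat_lit 0) (nat_lit 25687883931) (nat_lit 1216) (nat_lit 32036085064) (nat_lit 1292) (nat_lit 11969726611) (nat_lit 250) (nat_lit 5) (nat_lit 266) (nat_lit 5) (nat_lit 267) (nat_lit 5) (nat_lit 440) (nat_lit 432) (nat_lit 148)) (XT.lf (nat_lit 76) (nat_lit 2744306766) (nat_lit 0) (nat_lit 26047844963) (nat_lit 1292) (nat_lit 41989766336) (nat_lit 251) (nat_lit 5) (nat_lit 250) (nat_lit 5) (nat_lit 267) (nat_lit 5) (nat_lit 441) (nat_lit 432) (nat_lit 147)))) (XT.nd (nat_lit 156) (nat_lit 0) (nat_lit 76) (XT.nd (nat_lit 78) (nat_lit 0) (nat_lit 0) (XT.lf (nat_lit 0) (nat_lit 32378963018) (nat_lit 1216) (nat_lit 32735092890) (nat_lit 1292) (nat_lit 6777049048) (nat_lit 251) (nat_lit 5) (nat_lit 267) (nat_lit 5) (nat_lit 268) (nat_lit 5) (nat_lit 442) (nat_lit 432) (nat_lit 146)) (XT.lf (nat_lit 76) (nat_lit 3435257940) (nat_lit 0) (nat_lit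 32928530945) (nat_lit 1292) (nat_lit 36661066471) (nat_lit 252) (nat_lit 5) (nat_lit 251) (nat_lit 5) (nat_lit 268) (nat_lit 5) (nat_lit 443) (nat_lit 432) (nat_lit 145))) (XT.nd (nat_lit 78) (nat_lit 0) (nat_lit 0) (XT.lf (nat_lit 0) (nat_lit 40803633516) (nat_lit 1216) (nat_lit 32826747744) (nat_lit 1292) (nat_lit 552172999) (nat_lit 252) (nat_lit 5) (nat_lit 268) (nat_lit 5) (nat_lit 269) (nat_lit 5) (nat_lit 444) (nat_lit 432) (nat_lit 144)) (XT.lf (nat_lit 76) (nat_lit 4806372748) (nat_lit 0) (nat_lit 40942043590) (nat_lit 1292) (nat_lit 29615415706) (nat_lit 253) (nat_lit 5) (nat_lit 252) (nat_lit 5) (nat_lit 269) (nat_lit 5) (nat_lit 445) (nat_lit 432) (nat_lit 143))))) (XT.nd (nat_lit 234) (nat_lit 1748) (nat_lit 0) (XT.nd (nat_lit 78) (nat_lit 0) (nat_lit 76) (XT.lf (nat_lit 76) (nat_lit 44241027465) (nat_lit 0) (nat_lit 6931527452) (nat_lit 1292) (nat_lit 25398063073) (nat_lit 253) (nat_lit 5) (nat_lit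 252) (nat_lit 5) (nat_lit 269) (nat_lit 5) (nat_lit 446) (nat_lit 432) (nat_lit 142)) (XT.nd (nat_lit 78) (nat_lit 0) (nat_lit 0) (XT.lf (nat_lit 76) (nat_lit 6909455476) (nat_lit 0) (nat_lit 50186028983) (nat_lit 1292) (nat_lit 20708041240) (nat_lit 254) (nat_lit 5) (nat_lit 253) (nat_lit 5) (nat_lit 270) (nat_lit 5) (nat_lit 447) (nat_lit 432) (nat_lit 141)) (XT.lf (nat_lit 76) (nat_lit 47918027158) (nat_lit 0) (nat_lit 15672047298) (nat_lit 1292) (nat_lit 15471527190) (nat_lit 254) (nat_lit 5) (nat_lit 253) (nat_lit 5) (nat_lit 270) (nat_lit 5) (nat_lit 448) (nat_lit 432) (nat_lit 140)))) (XT.nd (nat_lit 156) (nat_lit 684) (nat_lit 0) (XT.nd (nat_lit 78) (nat_lit 0) (nat_lit 0) (XT.lf (nat_lit 0) (nat_lit 9799201783) (nat_lit 1216) (nat_lit 60765134284) (nat_lit 1292) (nat_lit 9784538967) (nat_lit 238) (nat_lit 5) (nat_lit 254) (nat_lit 5) (nat_lit 255) (nat_lit 5) (nat_lit 449) (nat_lit 432) (nat_lit 139))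 (XT.lf (nat_lit 0) (nat_lit 52450042082) (nat_lit 1216) (nat_lit 25765493782) (nat_lit 1292) (nat_lit 3445199621) (nat_lit 238) (nat_lit 5) (nat_lit 254) (nat_lit 5) (nat_lit 255) (nat_lit 5) (nat_lit 450) (nat_lit 432) (nat_lit 138))) (XT.nd (nat_lit 78) (nat_lit 0) (nat_lit 0) (XT.lf (nat_lit 0) (nat_lit 3254930747) (nat_lit 684) (nat_lit 69503702213) (nat_lit 76) (nat_lit 10245505592) (nat_lit 229) (nat_lit 5) (nat_lit 238) (nat_lit 5) (nat_lit 230) (nat_lit 5) (nat_lit 451) (nat_lit 432) (nat_lit 137)) (XT.lf (nat_lit 0) (nat_lit 10639406006) (nat_lit 684) (nat_lit 26579821121) (nat_lit 76) (nat_lit 47151015835) (nat_lit 229) (nat_lit 5) (nat_lit 238) (nat_lit 5) (nat_lit 230) (nat_lit 5) (nat_lit 452) (nat_lit 432) (nat_lit 136))))))) (XT.nd (nat_lit 52026) (nat_lit 0) (nat_lit 2280) (XT.nd (nat_lit 546) (nat_lit 0) (nat_lit 0) (XT.nd (nat_lit 234) (nat_lit 1064) (nat_lit 0) (XT.nd (nat_lit 78) (nat_lit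 608) (nat_lit 0) (XT.lf (nat_lit 0) (nat_lit 17982305274) (nat_lit 608) (nat_lit 435570032) (nat_lit 684) (nat_lit 67354281557) (nat_lit 221) (nat_lit 5) (nat_lit 229) (nat_lit 5) (nat_lit 230) (nat_lit 5) (nat_lit 453) (nat_lit 432) (nat_lit 135)) (XT.nd (nat_lit 78) (nat_lit 608) (nat_lit 0) (XT.lf (nat_lit 0) (nat_lit 27060379003) (nat_lit 684) (nat_lit 23144964525) (nat_lit 76) (nat_lit 36991864394) (nat_lit 221) (nat_lit 5) (nat_lit 230) (nat_lit 5) (nat_lit 222) (nat_lit 5) (nat_lit 454) (nat_lit 432) (nat_lit 134)) (XT.lf (nat_lit 0) (nat_lit 23289041626) (nat_lit 608) (nat_lit 12900919716) (nat_lit 684) (nat_lit 52468215211) (nat_lit 213) (nat_lit 5) (nat_lit 221) (nat_lit 5) (nat_lit 222) (nat_lit 5) (nat_lit 455) (nat_lit 432) (nat_lit 133)))) (XT.nd (nat_lit 156) (nat_lit 532) (nat_lit 0) (XT.nd (nat_lit 78) (nat_lit 532) (nat_lit 0) (XT.lf (nat_lit 0) (nat_lit 46074433148) (nat_lit 684) (nat_lit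 18813474604) (nat_lit 76) (nat_lit 25260636572) (nat_lit 213) (nat_lit 5) (nat_lit 222) (nat_lit 5) (nat_lit 214) (nat_lit 5) (nat_lit 456) (nat_lit 432) (nat_lit 132)) (XT.lf (nat_lit 0) (nat_lit 29588129855) (nat_lit 532) (nat_lit 27079101102) (nat_lit 608) (nat_lit 35004038551) (nat_lit 206) (nat_lit 5) (nat_lit 213) (nat_lit 5) (nat_lit 214) (nat_lit 5) (nat_lit 457) (nat_lit 432) (nat_lit 131))) (XT.nd (nat_lit 78) (nat_lit 532) (nat_lit 0) (XT.lf (nat_lit 0) (nat_lit 67883364295) (nat_lit 608) (nat_lit 13522833376) (nat_lit 76) (nat_lit 11824312364) (nat_lit 206) (nat_lit 5) (nat_lit 214) (nat_lit 5) (nat_lit 207) (nat_lit 5) (nat_lit 458) (nat_lit 432) (nat_lit 130)) (XT.lf (nat_lit 0) (nat_lit 36946775864) (nat_lit 532) (nat_lit 43112128626) (nat_lit 608) (nat_lit 14758935729) (nat_lit 199) (nat_lit 5) (nat_lit 206) (nat_lit 5) (nat_lit 207) (nat_lit 5) (nat_lit 459) (nat_lit 432) (nat_lit 129))))) (XT.nd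 (nat_lit 51168) (nat_lit 0) (nat_lit 3648) (XT.nd (nat_lit 51012) (nat_lit 0) (nat_lit 3572) (XT.lf (nat_lit 0) (nat_lit 89207320758) (nat_lit 532) (nat_lit 3528608696) (nat_lit 608) (nat_lit 3712774424) (nat_lit 199) (nat_lit 5) (nat_lit 206) (nat_lit 5) (nat_lit 207) (nat_lit 5) (nat_lit 460) (nat_lit 432) (nat_lit 128)) (XT.nd (nat_lit 78) (nat_lit 0) (nat_lit 0) (XT.lf (nat_lit 0) (nat_lit 7063725163) (nat_lit 1292) (nat_lit 12371370993) (nat_lit 1292) (nat_lit 12371370993) (nat_lit 246) (nat_lit 3) (nat_lit 263) (nat_lit 3) (nat_lit 263) (nat_lit 5) (nat_lit 433) (nat_lit 433) (nat_lit 154)) (XT.lf (nat_lit 76) (nat_lit 6033622976) (nat_lit 0) (nat_lit 8379665774) (nat_lit 1292) (nat_lit 50151615039) (nat_lit 247) (nat_lit 5) (nat_lit 246) (nat_lit 3) (nat_lit 263) (nat_lit 5) (nat_lit 434) (nat_lit 433) (nat_lit 153)))) (XT.nd (nat_lit 156) (nat_lit 0) (nat_lit 76) (XT.nd (nat_lit 78) (nat_lit 0) (nat_lit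 0) (XT.lf (nat_lit 0) (nat_lit 15180743335) (nat_lit 1216) (nat_lit 27521614158) (nat_lit 1292) (nat_lit 22828883902) (nat_lit 247) (nat_lit 5) (nat_lit 263) (nat_lit 5) (nat_lit 264) (nat_lit 5) (nat_lit 435) (nat_lit 433) (nat_lit 152)) (XT.lf (nat_lit 76) (nat_lit 4421312890) (nat_lit 0) (nat_lit 11674772241) (nat_lit 1292) (nat_lit 50426738346) (nat_lit 248) (nat_lit 5) (nat_lit 247) (nat_lit 5) (nat_lit 264) (nat_lit 5) (nat_lit 436) (nat_lit 433) (nat_lit 151))) (XT.nd (nat_lit 78) (nat_lit 0) (nat_lit 0) (XT.lf (nat_lit 0) (nat_lit 17513944942) (nat_lit 1216) (nat_lit 29847207537) (nat_lit 1292) (nat_lit 20168749057) (nat_lit 248) (nat_lit 5) (nat_lit 264) (nat_lit 5) (nat_lit 265) (nat_lit 5) (nat_lit 437) (nat_lit 433) (nat_lit 150)) (XT.lf (nat_lit 76) (nat_lit 3323644001) (nat_lit 0) (nat_lit 15797667377) (nat_lit 1292) (nat_lit 49441471674) (nat_lit 249) (nat_lit 5) (nat_lit 248) (nat_lit 5) (nat_lit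 265) (nat_lit 5) (nat_lit 438) (nat_lit 433) (nat_lit 149)))))) (XT.nd (nat_lit 546) (nat_lit 1520) (nat_lit 0) (XT.nd (nat_lit 234) (nat_lit 0) (nat_lit 76) (XT.nd (nat_lit 78) (nat_lit 0) (nat_lit 0) (XT.lf (nat_lit 0) (nat_lit 21241379640) (nat_lit 1216) (nat_lit 31680147215) (nat_lit 1292) (nat_lit 16691189966) (nat_lit 249) (nat_lit 5) (nat_lit 265) (nat_lit 5) (nat_lit 266) (nat_lit 5) (nat_lit 439) (nat_lit 433) (nat_lit 148)) (XT.nd (nat_lit 78) (nat_lit 0) (nat_lit 76) (XT.lf (nat_lit 76) (nat_lit 2783161154) (nat_lit 0) (nat_lit 20824516449) (nat_lit 1292) (nat_lit 47080992398) (nat_lit 250) (nat_lit 5) (nat_lit 249) (nat_lit 5) (nat_lit 266) (nat_lit 5) (nat_lit 440) (nat_lit 433) (nat_lit 147)) (XT.lf (nat_lit 0) (nat_lit 26485129193) (nat_lit 1216) (nat_lit 32978669872) (nat_lit 1292) (nat_lit 12319897989) (nat_lit 250) (nat_lit 5) (nat_lit 266) (nat_lit 5) (nat_lit 267) (nat_lit 5) (nat_lit 441)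 (nat_lit 433) (nat_lit 146)))) (XT.nd (nat_lit 156) (nat_lit 0) (nat_lit 76) (XT.nd (nat_lit 78) (nat_lit 0) (nat_lit 76) (XT.lf (nat_lit 76) (nat_lit 2844952362) (nat_lit 0) (nat_lit 26836973720) (nat_lit 1292) (nat_lit 43222658400) (nat_lit 251) (nat_lit 5) (nat_lit 250) (nat_lit 5) (nat_lit 267) (nat_lit 5) (nat_lit 442) (nat_lit 433) (nat_lit 145)) (XT.lf (nat_lit 0) (nat_lit 33375512342) (nat_lit 1216) (nat_lit 33698522888) (nat_lit 1292) (nat_lit 6973036944) (nat_lit 251) (nat_lit 5) (nat_lit 267) (nat_lit 5) (nat_lit 268) (nat_lit 5) (nat_lit 443) (nat_lit 433) (nat_lit 144))) (XT.nd (nat_lit 78) (nat_lit 0) (nat_lit 76) (XT.lf (nat_lit 76) (nat_lit 3556755891) (nat_lit 0) (nat_lit 33922570944) (nat_lit 1292) (nat_lit 37735525245) (nat_lit 252) (nat_lit 5) (nat_lit 251) (nat_lit 5) (nat_lit 268) (nat_lit 5) (nat_lit 444) (nat_lit 433) (nat_lit 143)) (XT.lf (nat_lit 0) (nat_lit 42051591878) (nat_lit 1216)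 (nat_lit 33792862220) (nat_lit 1292) (nat_lit 562851396) (nat_lit 252) (nat_lit 5) (nat_lit 268) (nat_lit 5) (nat_lit 269) (nat_lit 5) (nat_lit 445) (nat_lit 433) (nat_lit 142))))) (XT.nd (nat_lit 312) (nat_lit 1748) (nat_lit 0) (XT.nd (nat_lit 156) (nat_lit 0) (nat_lit 76) (XT.nd (nat_lit 78) (nat_lit 0) (nat_lit 0) (XT.lf (nat_lit 76) (nat_lit 4969068671) (nat_lit 0) (nat_lit 42175132750) (nat_lit 1292) (nat_lit 30479835983) (nat_lit 253) (nat_lit 5) (nat_lit 252) (nat_lit 5) (nat_lit 269) (nat_lit 5) (nat_lit 446) (nat_lit 433) (nat_lit 141)) (XT.lf (nat_lit 76) (nat_lit 45586224057) (nat_lit 0) (nat_lit 7144160511) (nat_lit 1292) (nat_lit 26136663028) (nat_lit 253) (nat_lit 5) (nat_lit 252) (nat_lit 5) (nat_lit 269) (nat_lit 5) (nat_lit 447) (nat_lit 433) (nat_lit 140))) (XT.nd (nat_lit 78) (nat_lit 0) (nat_lit 0) (XT.lf (nat_lit 76) (nat_lit 7135255567) (nat_lit 0) (nat_lit 51695220880) (nat_lit 1292) (nat_lit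 21306482128) (nat_lit 254) (nat_lit 5) (nat_lit 253) (nat_lit 5) (nat_lit 270) (nat_lit 5) (nat_lit 448) (nat_lit 433) (nat_lit 139)) (XT.lf (nat_lit 76) (nat_lit 49373545086) (nat_lit 0) (nat_lit 16145714569) (nat_lit 1292) (nat_lit 15913536745) (nat_lit 254) (nat_lit 5) (nat_lit 253) (nat_lit 5) (nat_lit 270) (nat_lit 5) (nat_lit 449) (nat_lit 433) (nat_lit 138)))) (XT.nd (nat_lit 156) (nat_lit 684) (nat_lit 0) (XT.nd (nat_lit 78) (nat_lit 0) (nat_lit 0) (XT.lf (nat_lit 0) (nat_lit 10111658965) (nat_lit 1216) (nat_lit 62590609365) (nat_lit 1292) (nat_lit 10056434339) (nat_lit 238) (nat_lit 5) (nat_lit 254) (nat_lit 5) (nat_lit 255) (nat_lit 5) (nat_lit 450) (nat_lit 433) (nat_lit 137)) (XT.lf (nat_lit 0) (nat_lit 54041486187) (nat_lit 1216) (nat_lit 26540906220) (nat_lit 1292) (nat_lit 3527545127) (nat_lit 238) (nat_lit 5) (nat_lit 254) (nat_lit 5) (nat_lit 255) (nat_lit 5) (nat_lit 451) (nat_lit 433) (nat_lit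 136))) (XT.nd (nat_lit 78) (nat_lit 0) (nat_lit 0) (XT.lf (nat_lit 0) (nat_lit 3372734743) (nat_lit 684) (nat_lit 71570000142) (nat_lit 76) (nat_lit 10550915317) (nat_lit 229) (nat_lit 5) (nat_lit 238) (nat_lit 5) (nat_lit 230) (nat_lit 5) (nat_lit 452) (nat_lit 433) (nat_lit 135)) (XT.lf (nat_lit 0) (nat_lit 10978157189) (nat_lit 684) (nat_lit 27358950572) (nat_lit 76) (nat_lit 48563647822) (nat_lit 229) (nat_lit 5) (nat_lit 238) (nat_lit 5) (nat_lit 230) (nat_lit 5) (nat_lit 453) (nat_lit 433) (nat_lit 134))))))))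
noncomputable def xc252 : XT := (XT.nd (nat_lit 53196) (nat_lit 0) (nat_lit 532) (XT.nd (nat_lit 52104) (nat_lit 0) (nat_lit 2280) (XT.nd (nat_lit 51558) (nat_lit 0) (nat_lit 3572) (XT.nd (nat_lit 234) (nat_lit 1064) (nat_lit 0) (XT.nd (nat_lit 78) (nat_lit 608) (nat_lit 0) (XT.lf (nat_lit 0) (nat_lit 18539860544) (nat_lit 608) (nat_lit 449723908) (nat_lit 684) (nat_lit 69355154555) (nat_lit 221) (nat_lit 5) (nat_lit 229) (nat_lit 5) (nat_lit 230) (nat_lit 5) (nat_lit 454) (nat_lit 433) (nat_lit 133)) (XT.nd (nat_lit 78) (nat_lit 608) (nat_lit 0) (XT.lf (nat_lit 0) (nat_lit 27890794684) (nat_lit 684) (nat_lit 23821178393) (nat_lit 76) (nat_lit 38100585794) (nat_lit 221) (nat_lit 5) (nat_lit 230) (nat_lit 5) (nat_lit 222) (nat_lit 5) (nat_lit 455) (nat_lit 433) (nat_lit 132)) (XT.lf (nat_lit 0) (nat_lit 24005670149) (nat_lit 608) (nat_lit 13288225088) (nat_lit 684) (nat_lit 54023472609) (nat_lit 213) (nat_lit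 5) (nat_lit 221) (nat_lit 5) (nat_lit 222) (nat_lit 5) (nat_lit 456) (nat_lit 433) (nat_lit 131)))) (XT.nd (nat_lit 156) (nat_lit 532) (nat_lit 0) (XT.nd (nat_lit 78) (nat_lit 532) (nat_lit 0) (XT.lf (nat_lit 0) (nat_lit 47474367485) (nat_lit 684) (nat_lit 19359904136) (nat_lit 76) (nat_lit 26018191242) (nat_lit 213) (nat_lit 5) (nat_lit 222) (nat_lit 5) (nat_lit 214) (nat_lit 5) (nat_lit 457) (nat_lit 433) (nat_lit 130)) (XT.lf (nat_lit 0) (nat_lit 30493572234) (nat_lit 532) (nat_lit 27891032511) (nat_lit 608) (nat_lit 36036275589) (nat_lit 206) (nat_lit 5) (nat_lit 213) (nat_lit 5) (nat_lit 214) (nat_lit 5) (nat_lit 458) (nat_lit 433) (nat_lit 129))) (XT.nd (nat_lit 78) (nat_lit 532) (nat_lit 0) (XT.lf (nat_lit 0) (nat_lit 69936720665) (nat_lit 608) (nat_lit 13910730515) (nat_lit 76) (nat_lit 12179462129) (nat_lit 206) (nat_lit 5) (nat_lit 214) (nat_lit 5) (nat_lit 207) (nat_lit 5) (nat_lit 459) (nat_lit 433)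 (nat_lit 128)) (XT.lf (nat_lit 0) (nat_lit 38072792610) (nat_lit 532) (nat_lit 44404412832) (nat_lit 608) (nat_lit 15184667791) (nat_lit 199) (nat_lit 5) (nat_lit 206) (nat_lit 5) (nat_lit 207) (nat_lit 5) (nat_lit 460) (nat_lit 433) (nat_lit 127))))) (XT.nd (nat_lit 234) (nat_lit 0) (nat_lit 76) (XT.nd (nat_lit 78) (nat_lit 0) (nat_lit 0) (XT.lf (nat_lit 0) (nat_lit 7291411604) (nat_lit 1292) (nat_lit 12734384829) (nat_lit 1292) (nat_lit 12734384829) (nat_lit 246) (nat_lit 3) (nat_lit 263) (nat_lit 3) (nat_lit 263) (nat_lit 5) (nat_lit 434) (nat_lit 434) (nat_lit 152)) (XT.nd (nat_lit 78) (nat_lit 0) (nat_lit 76) (XT.lf (nat_lit 76) (nat_lit 6230726893) (nat_lit 0) (nat_lit 8645745694) (nat_lit 1292) (nat_lit 51624441828) (nat_lit 247) (nat_lit 5) (nat_lit 246) (nat_lit 3) (nat_lit 263) (nat_lit 5) (nat_lit 435) (nat_lit 434) (nat_lit 151)) (XT.lf (nat_lit 0) (nat_lit 15665917058) (nat_lit 1216) (nat_lit 28330589840)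 (nat_lit 1292) (nat_lit 23499766640) (nat_lit 247) (nat_lit 5) (nat_lit 263) (nat_lit 5) (nat_lit 264) (nat_lit 5) (nat_lit 436) (nat_lit 434) (nat_lit 150)))) (XT.nd (nat_lit 156) (nat_lit 0) (nat_lit 76) (XT.nd (nat_lit 78) (nat_lit 0) (nat_lit 76) (XT.lf (nat_lit 76) (nat_lit 4570461561) (nat_lit 0) (nat_lit 12037549697) (nat_lit 1292) (nat_lit 51909613425) (nat_lit 248) (nat_lit 5) (nat_lit 247) (nat_lit 5) (nat_lit 264) (nat_lit 5) (nat_lit 437) (nat_lit 434) (nat_lit 149)) (XT.lf (nat_lit 0) (nat_lit 18067443956) (nat_lit 1216) (nat_lit 30725620589) (nat_lit 1292) (nat_lit 20761879781) (nat_lit 248) (nat_lit 5) (nat_lit 264) (nat_lit 5) (nat_lit 265) (nat_lit 5) (nat_lit 438) (nat_lit 434) (nat_lit 148))) (XT.nd (nat_lit 78) (nat_lit 0) (nat_lit 76) (XT.lf (nat_lit 76) (nat_lit 3440189797) (nat_lit 0) (nat_lit 16282185547) (nat_lit 1292) (nat_lit 50896456969) (nat_lit 249) (nat_lit 5) (nat_lit 248) (nat_lit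 5) (nat_lit 265) (nat_lit 5) (nat_lit 439) (nat_lit 434) (nat_lit 147)) (XT.lf (nat_lit 0) (nat_lit 21905148064) (nat_lit 1216) (nat_lit 32613296791) (nat_lit 1292) (nat_lit 17181846504) (nat_lit 249) (nat_lit 5) (nat_lit 265) (nat_lit 5) (nat_lit 266) (nat_lit 5) (nat_lit 440) (nat_lit 434) (nat_lit 146)))))) (XT.nd (nat_lit 546) (nat_lit 1520) (nat_lit 0) (XT.nd (nat_lit 234) (nat_lit 0) (nat_lit 152) (XT.nd (nat_lit 78) (nat_lit 0) (nat_lit 76) (XT.lf (nat_lit 76) (nat_lit 2883741665) (nat_lit 0) (nat_lit 21458084907) (nat_lit 1292) (nat_lit 48466715139) (nat_lit 250) (nat_lit 5) (nat_lit 249) (nat_lit 5) (nat_lit 266) (nat_lit 5) (nat_lit 441) (nat_lit 434) (nat_lit 145)) (XT.nd (nat_lit 78) (nat_lit 0) (nat_lit 0) (XT.lf (nat_lit 0) (nat_lit 27304764363) (nat_lit 1216) (nat_lit 33950594071) (nat_lit 1292) (nat_lit 12681086578) (nat_lit 250) (nat_lit 5) (nat_lit 266) (nat_lit 5) (nat_lit 267) (nat_lit 5)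 (nat_lit 442) (nat_lit 434) (nat_lit 144)) (XT.lf (nat_lit 76) (nat_lit 2947565890) (nat_lit 0) (nat_lit 27649334707) (nat_lit 1292) (nat_lit 44494075708) (nat_lit 251) (nat_lit 5) (nat_lit 250) (nat_lit 5) (nat_lit 267) (nat_lit 5) (nat_lit 443) (nat_lit 434) (nat_lit 143)))) (XT.nd (nat_lit 156) (nat_lit 0) (nat_lit 76) (XT.nd (nat_lit 78) (nat_lit 0) (nat_lit 0) (XT.lf (nat_lit 0) (nat_lit 34400512687) (nat_lit 1216) (nat_lit 34691924810) (nat_lit 1292) (nat_lit 7175324881) (nat_lit 251) (nat_lit 5) (nat_lit 267) (nat_lit 5) (nat_lit 268) (nat_lit 5) (nat_lit 444) (nat_lit 434) (nat_lit 142)) (XT.lf (nat_lit 76) (nat_lit 3680840236) (nat_lit 0) (nat_lit 34946077151) (nat_lit 1292) (nat_lit 38843674309) (nat_lit 252) (nat_lit 5) (nat_lit 251) (nat_lit 5) (nat_lit 268) (nat_lit 5) (nat_lit 445) (nat_lit 434) (nat_lit 141))) (XT.nd (nat_lit 78) (nat_lit 0) (nat_lit 0) (XT.lf (nat_lit 0) (nat_lit 43335619940)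 (nat_lit 1216) (nat_lit 34789032896) (nat_lit 1292) (nat_lit 574188071) (nat_lit 252) (nat_lit 5) (nat_lit 268) (nat_lit 5) (nat_lit 269) (nat_lit 5) (nat_lit 446) (nat_lit 434) (nat_lit 140)) (XT.lf (nat_lit 76) (nat_lit 5135583225) (nat_lit 0) (nat_lit 43444937447) (nat_lit 1292) (nat_lit 31371568987) (nat_lit 253) (nat_lit 5) (nat_lit 252) (nat_lit 5) (nat_lit 269) (nat_lit 5) (nat_lit 447) (nat_lit 434) (nat_lit 139))))) (XT.nd (nat_lit 234) (nat_lit 1748) (nat_lit 0) (XT.nd (nat_lit 78) (nat_lit 0) (nat_lit 76) (XT.lf (nat_lit 76) (nat_lit 46970745238) (nat_lit 0) (nat_lit 7362903495) (nat_lit 1292) (nat_lit 26898760905) (nat_lit 253) (nat_lit 5) (nat_lit 252) (nat_lit 5) (nat_lit 269) (nat_lit 5) (nat_lit 448) (nat_lit 434) (nat_lit 138)) (XT.nd (nat_lit 78) (nat_lit 0) (nat_lit 0) (XT.lf (nat_lit 76) (nat_lit 7366766743) (nat_lit 0) (nat_lit 53249481246) (nat_lit 1292) (nat_lit 21924185076) (nat_lit 254)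 (nat_lit 5) (nat_lit 253) (nat_lit 5) (nat_lit 270) (nat_lit 5) (nat_lit 449) (nat_lit 434) (nat_lit 137)) (XT.lf (nat_lit 76) (nat_lit 50871696593) (nat_lit 0) (nat_lit 16633390607) (nat_lit 1292) (nat_lit 16370077298) (nat_lit 254) (nat_lit 5) (nat_lit 253) (nat_lit 5) (nat_lit 270) (nat_lit 5) (nat_lit 450) (nat_lit 434) (nat_lit 136)))) (XT.nd (nat_lit 156) (nat_lit 684) (nat_lit 0) (XT.nd (nat_lit 78) (nat_lit 0) (nat_lit 0) (XT.lf (nat_lit 0) (nat_lit 10432428970) (nat_lit 1216) (nat_lit 64470703980) (nat_lit 1292) (nat_lit 10337728842) (nat_lit 238) (nat_lit 5) (nat_lit 254) (nat_lit 5) (nat_lit 255) (nat_lit 5) (nat_lit 451) (nat_lit 434) (nat_lit 135)) (XT.lf (nat_lit 0) (nat_lit 55679643624) (nat_lit 1216) (nat_lit 27339440527) (nat_lit 1292) (nat_lit 3613567086) (nat_lit 238) (nat_lit 5) (nat_lit 254) (nat_lit 5) (nat_lit 255) (nat_lit 5) (nat_lit 452) (nat_lit 434) (nat_lit 134))) (XT.nd (nat_lit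 78) (nat_lit 0) (nat_lit 0) (XT.lf (nat_lit 0) (nat_lit 3492915817) (nat_lit 684) (nat_lit 73699366960) (nat_lit 76) (nat_lit 10865599585) (nat_lit 229) (nat_lit 5) (nat_lit 238) (nat_lit 5) (nat_lit 230) (nat_lit 5) (nat_lit 453) (nat_lit 434) (nat_lit 133)) (XT.lf (nat_lit 0) (nat_lit 11325947567) (nat_lit 684) (nat_lit 28162502404) (nat_lit 76) (nat_lit 50018767750) (nat_lit 229) (nat_lit 5) (nat_lit 238) (nat_lit 5) (nat_lit 230) (nat_lit 5) (nat_lit 454) (nat_lit 434) (nat_lit 132))))))) (XT.nd (nat_lit 52260) (nat_lit 0) (nat_lit 532) (XT.nd (nat_lit 51714) (nat_lit 0) (nat_lit 3116) (XT.nd (nat_lit 234) (nat_lit 532) (nat_lit 0) (XT.nd (nat_lit 78) (nat_lit 608) (nat_lit 0) (XT.lf (nat_lit 0) (nat_lit 19113104255) (nat_lit 608) (nat_lit 464240015) (nat_lit 684) (nat_lit 71417187787) (nat_lit 221) (nat_lit 5) (nat_lit 229) (nat_lit 5) (nat_lit 230) (nat_lit 5) (nat_lit 455) (nat_lit 434) (nat_lit 131))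 (XT.nd (nat_lit 78) (nat_lit 608) (nat_lit 0) (XT.lf (nat_lit 0) (nat_lit 28745054871) (nat_lit 684) (nat_lit 24518719703) (nat_lit 76) (nat_lit 39242628222) (nat_lit 221) (nat_lit 5) (nat_lit 230) (nat_lit 5) (nat_lit 222) (nat_lit 5) (nat_lit 456) (nat_lit 434) (nat_lit 130)) (XT.lf (nat_lit 0) (nat_lit 24742766706) (nat_lit 608) (nat_lit 13687133674) (nat_lit 684) (nat_lit 55626466299) (nat_lit 213) (nat_lit 5) (nat_lit 221) (nat_lit 5) (nat_lit 222) (nat_lit 5) (nat_lit 457) (nat_lit 434) (nat_lit 129)))) (XT.nd (nat_lit 51324) (nat_lit 0) (nat_lit 3040) (XT.nd (nat_lit 78) (nat_lit 532) (nat_lit 0) (XT.lf (nat_lit 0) (nat_lit 48915283723) (nat_lit 684) (nat_lit 19923758375) (nat_lit 76) (nat_lit 26798487732) (nat_lit 213) (nat_lit 5) (nat_lit 222) (nat_lit 5) (nat_lit 214) (nat_lit 5) (nat_lit 458) (nat_lit 434) (nat_lit 128)) (XT.lf (nat_lit 0) (nat_lit 31425156179) (nat_lit 532) (nat_lit 28727347214)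 (nat_lit 608) (nat_lit 37100506360) (nat_lit 206) (nat_lit 5) (nat_lit 213) (nat_lit 5) (nat_lit 214) (nat_lit 5) (nat_lit 459) (nat_lit 434) (nat_lit 127))) (XT.nd (nat_lit 78) (nat_lit 0) (nat_lit 0) (XT.lf (nat_lit 0) (nat_lit 7525023106) (nat_lit 1292) (nat_lit 13108755621) (nat_lit 1292) (nat_lit 13108755621) (nat_lit 246) (nat_lit 3) (nat_lit 263) (nat_lit 3) (nat_lit 263) (nat_lit 5) (nat_lit 435) (nat_lit 435) (nat_lit 150)) (XT.lf (nat_lit 76) (nat_lit 6432819995) (nat_lit 0) (nat_lit 8918964748) (nat_lit 1292) (nat_lit 53143274374) (nat_lit 247) (nat_lit 5) (nat_lit 246) (nat_lit 3) (nat_lit 263) (nat_lit 5) (nat_lit 436) (nat_lit 435) (nat_lit 149))))) (XT.nd (nat_lit 234) (nat_lit 0) (nat_lit 76) (XT.nd (nat_lit 78) (nat_lit 0) (nat_lit 0) (XT.lf (nat_lit 0) (nat_lit 16163938139) (nat_lit 1216) (nat_lit 29164791876) (nat_lit 1292) (nat_lit 24191578587) (nat_lit 247) (nat_lit 5) (nat_lit 263) (nat_lit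 5) (nat_lit 264) (nat_lit 5) (nat_lit 437) (nat_lit 435) (nat_lit 148)) (XT.nd (nat_lit 78) (nat_lit 0) (nat_lit 76) (XT.lf (nat_lit 76) (nat_lit 4723136992) (nat_lit 0) (nat_lit 12410490958) (nat_lit 1292) (nat_lit 53438692692) (nat_lit 248) (nat_lit 5) (nat_lit 247) (nat_lit 5) (nat_lit 264) (nat_lit 5) (nat_lit 438) (nat_lit 435) (nat_lit 147)) (XT.lf (nat_lit 0) (nat_lit 18635935996) (nat_lit 1216) (nat_lit 31631362084) (nat_lit 1292) (nat_lit 21373489358) (nat_lit 248) (nat_lit 5) (nat_lit 264) (nat_lit 5) (nat_lit 265) (nat_lit 5) (nat_lit 439) (nat_lit 435) (nat_lit 146)))) (XT.nd (nat_lit 156) (nat_lit 0) (nat_lit 76) (XT.nd (nat_lit 78) (nat_lit 0) (nat_lit 76) (XT.lf (nat_lit 76) (nat_lit 3559265485) (nat_lit 0) (nat_lit 16780631460) (nat_lit 1292) (nat_lit 52396713997) (nat_lit 249) (nat_lit 5) (nat_lit 248) (nat_lit 5) (nat_lit 265) (nat_lit 5) (nat_lit 440) (nat_lit 435) (nat_lit 145)) (XT.lf (nat_lit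 0) (nat_lit 22587306780) (nat_lit 1216) (nat_lit 33575431352) (nat_lit 1292) (nat_lit 17687801323) (nat_lit 249) (nat_lit 5) (nat_lit 265) (nat_lit 5) (nat_lit 266) (nat_lit 5) (nat_lit 441) (nat_lit 435) (nat_lit 144))) (XT.nd (nat_lit 78) (nat_lit 0) (nat_lit 76) (XT.lf (nat_lit 76) (nat_lit 2986358803) (nat_lit 0) (nat_lit 22110153371) (nat_lit 1292) (nat_lit 49895542655) (nat_lit 250) (nat_lit 5) (nat_lit 249) (nat_lit 5) (nat_lit 266) (nat_lit 5) (nat_lit 442) (nat_lit 435) (nat_lit 143)) (XT.lf (nat_lit 0) (nat_lit 28147548819) (nat_lit 1216) (nat_lit 34952676888) (nat_lit 1292) (nat_lit 13053593498) (nat_lit 250) (nat_lit 5) (nat_lit 266) (nat_lit 5) (nat_lit 267) (nat_lit 5) (nat_lit 443) (nat_lit 435) (nat_lit 142)))))) (XT.nd (nat_lit 546) (nat_lit 2812) (nat_lit 0) (XT.nd (nat_lit 234) (nat_lit 0) (nat_lit 152) (XT.nd (nat_lit 78) (nat_lit 0) (nat_lit 76) (XT.lf (nat_lit 76) (nat_lit 3052266744) (nat_lit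 0) (nat_lit 28485650241) (nat_lit 1292) (nat_lit 45805085704) (nat_lit 251) (nat_lit 5) (nat_lit 250) (nat_lit 5) (nat_lit 267) (nat_lit 5) (nat_lit 444) (nat_lit 435) (nat_lit 141)) (XT.nd (nat_lit 78) (nat_lit 0) (nat_lit 0) (XT.lf (nat_lit 0) (nat_lit 35454900557) (nat_lit 1216) (nat_lit 35716136448) (nat_lit 1292) (nat_lit 7384077726) (nat_lit 251) (nat_lit 5) (nat_lit 267) (nat_lit 5) (nat_lit 268) (nat_lit 5) (nat_lit 445) (nat_lit 435) (nat_lit 140)) (XT.lf (nat_lit 76) (nat_lit 3807649333) (nat_lit 0) (nat_lit 35999953932) (nat_lit 1292) (nat_lit 39986440761) (nat_lit 252) (nat_lit 5) (nat_lit 251) (nat_lit 5) (nat_lit 268) (nat_lit 5) (nat_lit 446) (nat_lit 435) (nat_lit 139)))) (XT.nd (nat_lit 156) (nat_lit 0) (nat_lit 0) (XT.nd (nat_lit 78) (nat_lit 0) (nat_lit 0) (XT.lf (nat_lit 0) (nat_lit 44656878383) (nat_lit 1216) (nat_lit 35816099875) (nat_lit 1292) (nat_lit 586183374) (nat_lit 252) (nat_lit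 5) (nat_lit 268) (nat_lit 5) (nat_lit 269) (nat_lit 5) (nat_lit 447) (nat_lit 435) (nat_lit 138)) (XT.lf (nat_lit 76) (nat_lit 5306091945) (nat_lit 0) (nat_lit 44752575054) (nat_lit 1292) (nat_lit 32291354878) (nat_lit 253) (nat_lit 5) (nat_lit 252) (nat_lit 5) (nat_lit 269) (nat_lit 5) (nat_lit 448) (nat_lit 435) (nat_lit 137))) (XT.nd (nat_lit 78) (nat_lit 0) (nat_lit 76) (XT.lf (nat_lit 76) (nat_lit 48395829948) (nat_lit 0) (nat_lit 7587955148) (nat_lit 1292) (nat_lit 27684984723) (nat_lit 253) (nat_lit 5) (nat_lit 252) (nat_lit 5) (nat_lit 269) (nat_lit 5) (nat_lit 449) (nat_lit 435) (nat_lit 136)) (XT.lf (nat_lit 76) (nat_lit 7604221351) (nat_lit 0) (nat_lit 54850174034) (nat_lit 1292) (nat_lit 22561652813) (nat_lit 254) (nat_lit 5) (nat_lit 253) (nat_lit 5) (nat_lit 270) (nat_lit 5) (nat_lit 450) (nat_lit 435) (nat_lit 135))))) (XT.nd (nat_lit 312) (nat_lit 1216) (nat_lit 0) (XT.nd (nat_lit 156) (nat_lit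 684) (nat_lit 0) (XT.nd (nat_lit 78) (nat_lit 1140) (nat_lit 0) (XT.lf (nat_lit 76) (nat_lit 52413819923) (nat_lit 0) (nat_lit 17135507229) (nat_lit 1292) (nat_lit 16841511835) (nat_lit 254) (nat_lit 5) (nat_lit 253) (nat_lit 5) (nat_lit 270) (nat_lit 5) (nat_lit 451) (nat_lit 435) (nat_lit 134)) (XT.lf (nat_lit 0) (nat_lit 10761822082) (nat_lit 1216) (nat_lit 66407065022) (nat_lit 1292) (nat_lit 10628633140) (nat_lit 238) (nat_lit 5) (nat_lit 254) (nat_lit 5) (nat_lit 255) (nat_lit 5) (nat_lit 452) (nat_lit 435) (nat_lit 133))) (XT.nd (nat_lit 78) (nat_lit 684) (nat_lit 0) (XT.lf (nat_lit 0) (nat_lit 57365974916) (nat_lit 1216) (nat_lit 28161798425) (nat_lit 1292) (nat_lit 3703306557) (nat_lit 238) (nat_lit 5) (nat_lit 254) (nat_lit 5) (nat_lit 255) (nat_lit 5) (nat_lit 453) (nat_lit 435) (nat_lit 132)) (XT.lf (nat_lit 0) (nat_lit 3615611701) (nat_lit 684) (nat_lit 75893632740) (nat_lit 76) (nat_lit 11189830187)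 (nat_lit 229) (nat_lit 5) (nat_lit 238) (nat_lit 5) (nat_lit 230) (nat_lit 5) (nat_lit 454) (nat_lit 435) (nat_lit 131)))) (XT.nd (nat_lit 156) (nat_lit 608) (nat_lit 0) (XT.nd (nat_lit 78) (nat_lit 608) (nat_lit 0) (XT.lf (nat_lit 0) (nat_lit 11683112799) (nat_lit 684) (nat_lit 28991149098) (nat_lit 76) (nat_lit 51517644000) (nat_lit 229) (nat_lit 5) (nat_lit 238) (nat_lit 5) (nat_lit 230) (nat_lit 5) (nat_lit 455) (nat_lit 435) (nat_lit 130)) (XT.lf (nat_lit 0) (nat_lit 19702566658) (nat_lit 608) (nat_lit 479132801) (nat_lit 684) (nat_lit 73542150960) (nat_lit 221) (nat_lit 5) (nat_lit 229) (nat_lit 5) (nat_lit 230) (nat_lit 5) (nat_lit 456) (nat_lit 435) (nat_lit 129))) (XT.nd (nat_lit 78) (nat_lit 608) (nat_lit 0) (XT.lf (nat_lit 0) (nat_lit 29623936206) (nat_lit 684) (nat_lit 25238168521) (nat_lit 76) (nat_lit 40418987900) (nat_lit 221) (nat_lit 5) (nat_lit 230) (nat_lit 5) (nat_lit 222) (nat_lit 5) (nat_lit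 457) (nat_lit 435) (nat_lit 128)) (XT.lf (nat_lit 0) (nat_lit 25501004512) (nat_lit 608) (nat_lit 14097994489) (nat_lit 684) (nat_lit 57278566454) (nat_lit 213) (nat_lit 5) (nat_lit 221) (nat_lit 5) (nat_lit 222) (nat_lit 5) (nat_lit 458) (nat_lit 435) (nat_lit 127))))))))
noncomputable def xc253 : XT := (XT.nd (nat_lit 104832) (nat_lit 0) (nat_lit 608) (XT.nd (nat_lit 52338) (nat_lit 0) (nat_lit 608) (XT.nd (nat_lit 51792) (nat_lit 0) (nat_lit 2736) (XT.nd (nat_lit 51480) (nat_lit 0) (nat_lit 2584) (XT.nd (nat_lit 51324) (nat_lit 0) (nat_lit 2508) (XT.lf (nat_lit 0) (nat_lit 50398469649) (nat_lit 684) (nat_lit 20505500832) (nat_lit 76) (nat_lit 27602207424) (nat_lit 213) (nat_lit 5) (nat_lit 222) (nat_lit 5) (nat_lit 214) (nat_lit 5) (nat_lit 459) (nat_lit 435) (nat_lit 126)) (XT.nd (nat_lit 78) (nat_lit 0) (nat_lit 0) (XT.lf (nat_lit 0) (nat_lit 7764789402) (nat_lit 1292) (nat_lit 13494797295) (nat_lit 1292)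 (nat_lit 13494797295) (nat_lit 246) (nat_lit 3) (nat_lit 263) (nat_lit 3) (nat_lit 263) (nat_lit 5) (nat_lit 436) (nat_lit 436) (nat_lit 148)) (XT.lf (nat_lit 76) (nat_lit 6640104997) (nat_lit 0) (nat_lit 9199585517) (nat_lit 1292) (nat_lit 54709388319) (nat_lit 247) (nat_lit 5) (nat_lit 246) (nat_lit 3) (nat_lit 263) (nat_lit 5) (nat_lit 437) (nat_lit 436) (nat_lit 147)))) (XT.nd (nat_lit 156) (nat_lit 0) (nat_lit 76) (XT.nd (nat_lit 78) (nat_lit 0) (nat_lit 0) (XT.lf (nat_lit 0) (nat_lit 16675290036) (nat_lit 1216) (nat_lit 30024922117) (nat_lit 1292) (nat_lit 24904901537) (nat_lit 247) (nat_lit 5) (nat_lit 263) (nat_lit 5) (nat_lit 264) (nat_lit 5) (nat_lit 438) (nat_lit 436) (nat_lit 146)) (XT.lf (nat_lit 76) (nat_lit 4879499387) (nat_lit 0) (nat_lit 12793942240) (nat_lit 1292) (nat_lit 55015263658) (nat_lit 248) (nat_lit 5) (nat_lit 247) (nat_lit 5) (nat_lit 264) (nat_lit 5) (nat_lit 439) (nat_lit 436)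 (nat_lit 145))) (XT.nd (nat_lit 78) (nat_lit 0) (nat_lit 0) (XT.lf (nat_lit 0) (nat_lit 19219963385) (nat_lit 1216) (nat_lit 32565195846) (nat_lit 1292) (nat_lit 22004092835) (nat_lit 248) (nat_lit 5) (nat_lit 264) (nat_lit 5) (nat_lit 265) (nat_lit 5) (nat_lit 440) (nat_lit 436) (nat_lit 144)) (XT.lf (nat_lit 76) (nat_lit 3681002441) (nat_lit 0) (nat_lit 17293457836) (nat_lit 1292) (nat_lit 53943507790) (nat_lit 249) (nat_lit 5) (nat_lit 248) (nat_lit 5) (nat_lit 265) (nat_lit 5) (nat_lit 441) (nat_lit 436) (nat_lit 143))))) (XT.nd (nat_lit 234) (nat_lit 0) (nat_lit 76) (XT.nd (nat_lit 78) (nat_lit 0) (nat_lit 0) (XT.lf (nat_lit 0) (nat_lit 23288494910) (nat_lit 1216) (nat_lit 34567363590) (nat_lit 1292) (nat_lit 18209480159) (nat_lit 249) (nat_lit 5) (nat_lit 265) (nat_lit 5) (nat_lit 266) (nat_lit 5) (nat_lit 442) (nat_lit 436) (nat_lit 142)) (XT.nd (nat_lit 78) (nat_lit 0) (nat_lit 76) (XT.lf (nat_lit 76)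 (nat_lit 3091129968) (nat_lit 0) (nat_lit 22781305947) (nat_lit 1292) (nat_lit 51368680083) (nat_lit 250) (nat_lit 5) (nat_lit 249) (nat_lit 5) (nat_lit 266) (nat_lit 5) (nat_lit 443) (nat_lit 436) (nat_lit 141)) (XT.lf (nat_lit 0) (nat_lit 29014259688) (nat_lit 1216) (nat_lit 35985765626) (nat_lit 1292) (nat_lit 13437730592) (nat_lit 250) (nat_lit 5) (nat_lit 266) (nat_lit 5) (nat_lit 267) (nat_lit 5) (nat_lit 444) (nat_lit 436) (nat_lit 140)))) (XT.nd (nat_lit 156) (nat_lit 0) (nat_lit 76) (XT.nd (nat_lit 78) (nat_lit 0) (nat_lit 76) (XT.lf (nat_lit 76) (nat_lit 3159174438) (nat_lit 0) (nat_lit 29346662857) (nat_lit 1292) (nat_lit 47156792921) (nat_lit 251) (nat_lit 5) (nat_lit 250) (nat_lit 5) (nat_lit 267) (nat_lit 5) (nat_lit 445) (nat_lit 436) (nat_lit 139)) (XT.lf (nat_lit 0) (nat_lit 36539635791) (nat_lit 1216) (nat_lit 36772024249) (nat_lit 1292) (nat_lit 7599466680) (nat_lit 251) (nat_lit 5) (nat_lit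 267) (nat_lit 5) (nat_lit 268) (nat_lit 5) (nat_lit 446) (nat_lit 436) (nat_lit 138))) (XT.nd (nat_lit 78) (nat_lit 0) (nat_lit 76) (XT.lf (nat_lit 76) (nat_lit 3937322200) (nat_lit 0) (nat_lit 37085131611) (nat_lit 1292) (nat_lit 41164784311) (nat_lit 252) (nat_lit 5) (nat_lit 251) (nat_lit 5) (nat_lit 268) (nat_lit 5) (nat_lit 447) (nat_lit 436) (nat_lit 137)) (XT.lf (nat_lit 0) (nat_lit 46016558195) (nat_lit 1216) (nat_lit 36874932002) (nat_lit 1292) (nat_lit 598838779) (nat_lit 252) (nat_lit 5) (nat_lit 268) (nat_lit 5) (nat_lit 269) (nat_lit 5) (nat_lit 448) (nat_lit 436) (nat_lit 136)))))) (XT.nd (nat_lit 546) (nat_lit 608) (nat_lit 0) (XT.nd (nat_lit 234) (nat_lit 1748) (nat_lit 0) (XT.nd (nat_lit 78) (nat_lit 0) (nat_lit 0) (XT.lf (nat_lit 76) (nat_lit 5480772133) (nat_lit 0) (nat_lit 46099195557) (nat_lit 1292) (nat_lit 33239960564) (nat_lit 253) (nat_lit 5) (nat_lit 252) (nat_lit 5) (nat_lit 269) (nat_lit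 5) (nat_lit 449) (nat_lit 436) (nat_lit 135)) (XT.nd (nat_lit 78) (nat_lit 0) (nat_lit 76) (XT.lf (nat_lit 76) (nat_lit 49862750894) (nat_lit 0) (nat_lit 7819519288) (nat_lit 1292) (nat_lit 28495985760) (nat_lit 253) (nat_lit 5) (nat_lit 252) (nat_lit 5) (nat_lit 269) (nat_lit 5) (nat_lit 450) (nat_lit 436) (nat_lit 134)) (XT.lf (nat_lit 76) (nat_lit 7847855207) (nat_lit 0) (nat_lit 56498703434) (nat_lit 1292) (nat_lit 23219407464) (nat_lit 254) (nat_lit 5) (nat_lit 253) (nat_lit 5) (nat_lit 270) (nat_lit 5) (nat_lit 451) (nat_lit 436) (nat_lit 133)))) (XT.nd (nat_lit 156) (nat_lit 684) (nat_lit 0) (XT.nd (nat_lit 78) (nat_lit 1140) (nat_lit 0) (XT.lf (nat_lit 76) (nat_lit 54001290071) (nat_lit 0) (nat_lit 17652508542) (nat_lit 1292) (nat_lit 17328218420) (nat_lit 254) (nat_lit 5) (nat_lit 253) (nat_lit 5) (nat_lit 270) (nat_lit 5) (nat_lit 452) (nat_lit 436) (nat_lit 132)) (XT.lf (nat_lit 0) (nat_lit 11100154399)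 (nat_lit 1216) (nat_lit 68401388314) (nat_lit 1292) (nat_lit 10929368307) (nat_lit 238) (nat_lit 5) (nat_lit 254) (nat_lit 5) (nat_lit 255) (nat_lit 5) (nat_lit 453) (nat_lit 436) (nat_lit 131))) (XT.nd (nat_lit 78) (nat_lit 684) (nat_lit 0) (XT.lf (nat_lit 0) (nat_lit 59101981012) (nat_lit 1216) (nat_lit 29008702224) (nat_lit 1292) (nat_lit 3796809806) (nat_lit 238) (nat_lit 5) (nat_lit 254) (nat_lit 5) (nat_lit 255) (nat_lit 5) (nat_lit 454) (nat_lit 436) (nat_lit 130)) (XT.lf (nat_lit 0) (nat_lit 3740960445) (nat_lit 684) (nat_lit 78154686016) (nat_lit 76) (nat_lit 11523887440) (nat_lit 229) (nat_lit 5) (nat_lit 238) (nat_lit 5) (nat_lit 230) (nat_lit 5) (nat_lit 455) (nat_lit 436) (nat_lit 129))))) (XT.nd (nat_lit 51636) (nat_lit 0) (nat_lit 1900) (XT.nd (nat_lit 78) (nat_lit 608) (nat_lit 0) (XT.lf (nat_lit 0) (nat_lit 12049994915) (nat_lit 684) (nat_lit 29845586769) (nat_lit 76) (nat_lit 53061583367) (nat_lit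 229) (nat_lit 5) (nat_lit 238) (nat_lit 5) (nat_lit 230) (nat_lit 5) (nat_lit 456) (nat_lit 436) (nat_lit 128)) (XT.nd (nat_lit 78) (nat_lit 0) (nat_lit 0) (XT.lf (nat_lit 0) (nat_lit 20308790492) (nat_lit 608) (nat_lit 494416942) (nat_lit 684) (nat_lit 75731870612) (nat_lit 221) (nat_lit 5) (nat_lit 229) (nat_lit 5) (nat_lit 230) (nat_lit 5) (nat_lit 457) (nat_lit 436) (nat_lit 127)) (XT.lf (nat_lit 0) (nat_lit 30528235109) (nat_lit 684) (nat_lit 25980125743) (nat_lit 76) (nat_lit 41630691132) (nat_lit 221) (nat_lit 5) (nat_lit 230) (nat_lit 5) (nat_lit 222) (nat_lit 5) (nat_lit 458) (nat_lit 436) (nat_lit 126)))) (XT.nd (nat_lit 156) (nat_lit 0) (nat_lit 76) (XT.nd (nat_lit 78) (nat_lit 0) (nat_lit 0) (XT.lf (nat_lit 0) (nat_lit 8010944135) (nat_lit 1292) (nat_lit 13892834734) (nat_lit 1292) (nat_lit 13892834734) (nat_lit 246) (nat_lit 3) (nat_lit 263) (nat_lit 3) (nat_lit 263) (nat_lit 5) (nat_lit 437) (nat_lit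 437) (nat_lit 146)) (XT.lf (nat_lit 76) (nat_lit 6852787646) (nat_lit 0) (nat_lit 9487875681) (nat_lit 1292) (nat_lit 56324103575) (nat_lit 247) (nat_lit 5) (nat_lit 246) (nat_lit 3) (nat_lit 263) (nat_lit 5) (nat_lit 438) (nat_lit 437) (nat_lit 145))) (XT.nd (nat_lit 78) (nat_lit 0) (nat_lit 0) (XT.lf (nat_lit 0) (nat_lit 17200465086) (nat_lit 1216) (nat_lit 30911706621) (nat_lit 1292) (nat_lit 25640337389) (nat_lit 247) (nat_lit 5) (nat_lit 263) (nat_lit 5) (nat_lit 264) (nat_lit 5) (nat_lit 439) (nat_lit 437) (nat_lit 144)) (XT.lf (nat_lit 76) (nat_lit 5039710635) (nat_lit 0) (nat_lit 13188257777) (nat_lit 1292) (nat_lit 56640658116) (nat_lit 248) (nat_lit 5) (nat_lit 247) (nat_lit 5) (nat_lit 264) (nat_lit 5) (nat_lit 440) (nat_lit 437) (nat_lit 143))))))) (XT.nd (nat_lit 1092) (nat_lit 1292) (nat_lit 0) (XT.nd (nat_lit 546) (nat_lit 760) (nat_lit 0) (XT.nd (nat_lit 234) (nat_lit 0) (nat_lit 76) (XT.nd (nat_lit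 78) (nat_lit 0) (nat_lit 0) (XT.lf (nat_lit 0) (nat_lit 19820079402) (nat_lit 1216) (nat_lit 33527911831) (nat_lit 1292) (nat_lit 22654222970) (nat_lit 248) (nat_lit 5) (nat_lit 264) (nat_lit 5) (nat_lit 265) (nat_lit 5) (nat_lit 441) (nat_lit 437) (nat_lit 142)) (XT.nd (nat_lit 78) (nat_lit 0) (nat_lit 76) (XT.lf (nat_lit 76) (nat_lit 3805532799) (nat_lit 0) (nat_lit 17821128980) (nat_lit 1292) (nat_lit 55538146677) (nat_lit 249) (nat_lit 5) (nat_lit 248) (nat_lit 5) (nat_lit 265) (nat_lit 5) (nat_lit 442) (nat_lit 437) (nat_lit 141)) (XT.lf (nat_lit 0) (nat_lit 24009365732) (nat_lit 1216) (nat_lit 35589933840) (nat_lit 1292) (nat_lit 18747323425) (nat_lit 249) (nat_lit 5) (nat_lit 265) (nat_lit 5) (nat_lit 266) (nat_lit 5) (nat_lit 443) (nat_lit 437) (nat_lit 140)))) (XT.nd (nat_lit 156) (nat_lit 0) (nat_lit 76) (XT.nd (nat_lit 78) (nat_lit 0) (nat_lit 76) (XT.lf (nat_lit 76) (nat_lit 3198172852) (nat_lit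 0) (nat_lit 23472142594) (nat_lit 1292) (nat_lit 52887373768) (nat_lit 250) (nat_lit 5) (nat_lit 249) (nat_lit 5) (nat_lit 266) (nat_lit 5) (nat_lit 444) (nat_lit 437) (nat_lit 139)) (XT.lf (nat_lit 0) (nat_lit 29905692668) (nat_lit 1216) (nat_lit 37050736305) (nat_lit 1292) (nat_lit 13833820648) (nat_lit 250) (nat_lit 5) (nat_lit 266) (nat_lit 5) (nat_lit 267) (nat_lit 5) (nat_lit 445) (nat_lit 437) (nat_lit 138))) (XT.nd (nat_lit 78) (nat_lit 0) (nat_lit 76) (XT.lf (nat_lit 76) (nat_lit 3268408800) (nat_lit 0) (nat_lit 30233135990) (nat_lit 1292) (nat_lit 48550339810) (nat_lit 251) (nat_lit 5) (nat_lit 250) (nat_lit 5) (nat_lit 267) (nat_lit 5) (nat_lit 446) (nat_lit 437) (nat_lit 137)) (XT.lf (nat_lit 0) (nat_lit 37655702532) (nat_lit 1216) (nat_lit 37860483976) (nat_lit 1292) (nat_lit 7821669383) (nat_lit 251) (nat_lit 5) (nat_lit 267) (nat_lit 5) (nat_lit 268) (nat_lit 5) (nat_lit 447) (nat_lit 437) (nat_lit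 136))))) (XT.nd (nat_lit 234) (nat_lit 988) (nat_lit 0) (XT.nd (nat_lit 78) (nat_lit 0) (nat_lit 76) (XT.lf (nat_lit 76) (nat_lit 4069998740) (nat_lit 0) (nat_lit 38202567322) (nat_lit 1292) (nat_lit 42379697986) (nat_lit 252) (nat_lit 5) (nat_lit 251) (nat_lit 5) (nat_lit 268) (nat_lit 5) (nat_lit 448) (nat_lit 437) (nat_lit 135)) (XT.nd (nat_lit 78) (nat_lit 0) (nat_lit 0) (XT.lf (nat_lit 0) (nat_lit 47415881843) (nat_lit 1216) (nat_lit 37966427517) (nat_lit 1292) (nat_lit 612156854) (nat_lit 252) (nat_lit 5) (nat_lit 268) (nat_lit 5) (nat_lit 269) (nat_lit 5) (nat_lit 449) (nat_lit 437) (nat_lit 134)) (XT.lf (nat_lit 76) (nat_lit 5659803110) (nat_lit 0) (nat_lit 47485982575) (nat_lit 1292) (nat_lit 34218180250) (nat_lit 253) (nat_lit 5) (nat_lit 252) (nat_lit 5) (nat_lit 269) (nat_lit 5) (nat_lit 450) (nat_lit 437) (nat_lit 133)))) (XT.nd (nat_lit 156) (nat_lit 1064) (nat_lit 0) (XT.nd (nat_lit 78) (nat_lit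 0) (nat_lit 76) (XT.lf (nat_lit 76) (nat_lit 51372815764) (nat_lit 0) (nat_lit 8057805014) (nat_lit 1292) (nat_lit 29332438992) (nat_lit 253) (nat_lit 5) (nat_lit 252) (nat_lit 5) (nat_lit 269) (nat_lit 5) (nat_lit 451) (nat_lit 437) (nat_lit 132)) (XT.lf (nat_lit 76) (nat_lit 8097907902) (nat_lit 0) (nat_lit 58196515115) (nat_lit 1292) (nat_lit 23897990882) (nat_lit 254) (nat_lit 5) (nat_lit 253) (nat_lit 5) (nat_lit 270) (nat_lit 5) (nat_lit 452) (nat_lit 437) (nat_lit 131))) (XT.nd (nat_lit 78) (nat_lit 1140) (nat_lit 0) (XT.lf (nat_lit 76) (nat_lit 55635520072) (nat_lit 0) (nat_lit 18184851350) (nat_lit 1292) (nat_lit 17830590403) (nat_lit 254) (nat_lit 5) (nat_lit 253) (nat_lit 5) (nat_lit 270) (nat_lit 5) (nat_lit 453) (nat_lit 437) (nat_lit 130)) (XT.lf (nat_lit 0) (nat_lit 11447748204) (nat_lit 1216) (nat_lit 70455420106) (nat_lit 1292) (nat_lit 11240165912) (nat_lit 238) (nat_lit 5) (nat_lit 254) (nat_lit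 5) (nat_lit 255) (nat_lit 5) (nat_lit 454) (nat_lit 437) (nat_lit 129)))))) (XT.nd (nat_lit 52026) (nat_lit 0) (nat_lit 1976) (XT.nd (nat_lit 234) (nat_lit 608) (nat_lit 0) (XT.nd (nat_lit 78) (nat_lit 684) (nat_lit 0) (XT.lf (nat_lit 0) (nat_lit 60889204689) (nat_lit 1216) (nat_lit 29880895468) (nat_lit 1292) (nat_lit 3894128231) (nat_lit 238) (nat_lit 5) (nat_lit 254) (nat_lit 5) (nat_lit 255) (nat_lit 5) (nat_lit 455) (nat_lit 437) (nat_lit 128)) (XT.nd (nat_lit 78) (nat_lit 0) (nat_lit 0) (XT.lf (nat_lit 0) (nat_lit 3869100649) (nat_lit 684) (nat_lit 80484475332) (nat_lit 76) (nat_lit 11868060419) (nat_lit 229) (nat_lit 5) (nat_lit 238) (nat_lit 5) (nat_lit 230) (nat_lit 5) (nat_lit 456) (nat_lit 437) (nat_lit 127)) (XT.lf (nat_lit 0) (nat_lit 12426942714) (nat_lit 684) (nat_lit 30726535669) (nat_lit 76) (nat_lit 54651932184) (nat_lit 229) (nat_lit 5) (nat_lit 238) (nat_lit 5) (nat_lit 230) (nat_lit 5) (nat_lit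 457) (nat_lit 437) (nat_lit 126)))) (XT.nd (nat_lit 51636) (nat_lit 0) (nat_lit 1900) (XT.nd (nat_lit 51558) (nat_lit 0) (nat_lit 1900) (XT.lf (nat_lit 0) (nat_lit 20932331550) (nat_lit 608) (nat_lit 510107361) (nat_lit 684) (nat_lit 77988231596) (nat_lit 221) (nat_lit 5) (nat_lit 229) (nat_lit 5) (nat_lit 230) (nat_lit 5) (nat_lit 458) (nat_lit 437) (nat_lit 125)) (XT.lf (nat_lit 0) (nat_lit 8263725141) (nat_lit 1292) (nat_lit 14303204015) (nat_lit 1292) (nat_lit 14303204015) (nat_lit 246) (nat_lit 3) (nat_lit 263) (nat_lit 3) (nat_lit 263) (nat_lit 5) (nat_lit 438) (nat_lit 438) (nat_lit 144))) (XT.nd (nat_lit 78) (nat_lit 0) (nat_lit 76) (XT.lf (nat_lit 76) (nat_lit 7071076997) (nat_lit 0) (nat_lit 9784108331) (nat_lit 1292) (nat_lit 57988785310) (nat_lit 247) (nat_lit 5) (nat_lit 246) (nat_lit 3) (nat_lit 263) (nat_lit 5) (nat_lit 439) (nat_lit 438) (nat_lit 143)) (XT.lf (nat_lit 0) (nat_lit 17739965086)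 (nat_lit 1216) (nat_lit 31825896202) (nat_lit 1292) (nat_lit 26398508586) (nat_lit 247) (nat_lit 5) (nat_lit 263) (nat_lit 5) (nat_lit 264) (nat_lit 5) (nat_lit 440) (nat_lit 438) (nat_lit 142))))) (XT.nd (nat_lit 312) (nat_lit 0) (nat_lit 152) (XT.nd (nat_lit 156) (nat_lit 0) (nat_lit 76) (XT.nd (nat_lit 78) (nat_lit 0) (nat_lit 76) (XT.lf (nat_lit 76) (nat_lit 5203934535) (nat_lit 0) (nat_lit 13593800194) (nat_lit 1292) (nat_lit 58316253153) (nat_lit 248) (nat_lit 5) (nat_lit 247) (nat_lit 5) (nat_lit 264) (nat_lit 5) (nat_lit 441) (nat_lit 438) (nat_lit 141)) (XT.lf (nat_lit 0) (nat_lit 20436848922) (nat_lit 1216) (nat_lit 34520326723) (nat_lit 1292) (nat_lit 23324430627) (nat_lit 248) (nat_lit 5) (nat_lit 264) (nat_lit 5) (nat_lit 265) (nat_lit 5) (nat_lit 442) (nat_lit 438) (nat_lit 140))) (XT.nd (nat_lit 78) (nat_lit 0) (nat_lit 76) (XT.lf (nat_lit 76) (nat_lit 3932989653) (nat_lit 0) (nat_lit 18364121231)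 (nat_lit 1292) (nat_lit 57181983277) (nat_lit 249) (nat_lit 5) (nat_lit 248) (nat_lit 5) (nat_lit 265) (nat_lit 5) (nat_lit 443) (nat_lit 438) (nat_lit 139)) (XT.lf (nat_lit 0) (nat_lit 24750587390) (nat_lit 1216) (nat_lit 36644010725) (nat_lit 1292) (nat_lit 19301786545) (nat_lit 249) (nat_lit 5) (nat_lit 265) (nat_lit 5) (nat_lit 266) (nat_lit 5) (nat_lit 444) (nat_lit 438) (nat_lit 138)))) (XT.nd (nat_lit 156) (nat_lit 0) (nat_lit 76) (XT.nd (nat_lit 78) (nat_lit 0) (nat_lit 76) (XT.lf (nat_lit 76) (nat_lit 3307605628) (nat_lit 0) (nat_lit 24183279696) (nat_lit 1292) (nat_lit 54452912204) (nat_lit 250) (nat_lit 5) (nat_lit 249) (nat_lit 5) (nat_lit 266) (nat_lit 5) (nat_lit 445) (nat_lit 438) (nat_lit 137)) (XT.lf (nat_lit 0) (nat_lit 30822662853) (nat_lit 1216) (nat_lit 38148494336) (nat_lit 1292) (nat_lit 14242197637) (nat_lit 250) (nat_lit 5) (nat_lit 266) (nat_lit 5) (nat_lit 267) (nat_lit 5) (nat_lit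 446) (nat_lit 438) (nat_lit 136))) (XT.nd (nat_lit 78) (nat_lit 0) (nat_lit 76) (XT.lf (nat_lit 76) (nat_lit 3380090181) (nat_lit 0) (nat_lit 31145854687) (nat_lit 1292) (nat_lit 49986907598) (nat_lit 251) (nat_lit 5) (nat_lit 250) (nat_lit 5) (nat_lit 267) (nat_lit 5) (nat_lit 447) (nat_lit 438) (nat_lit 135)) (XT.lf (nat_lit 0) (nat_lit 38804110216) (nat_lit 1216) (nat_lit 38982441392) (nat_lit 1292) (nat_lit 8050870037) (nat_lit 251) (nat_lit 5) (nat_lit 267) (nat_lit 5) (nat_lit 268) (nat_lit 5) (nat_lit 448) (nat_lit 438) (nat_lit 134))))))))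
noncomputable def xc254 : XT := (XT.nd (nat_lit 105612) (nat_lit 0) (nat_lit 1292) (XT.nd (nat_lit 52728) (nat_lit 0) (nat_lit 684) (XT.nd (nat_lit 546) (nat_lit 684) (nat_lit 0) (XT.nd (nat_lit 234) (nat_lit 988) (nat_lit 0) (XT.nd (nat_lit 78) (nat_lit 0) (nat_lit 76) (XT.lf (nat_lit 76) (nat_lit 4205819951) (nat_lit 0) (nat_lit 39353245870) (nat_lit 1292) (nat_lit 43632208867) (nat_lit 252) (nat_lit 5) (nat_lit 251) (nat_lit 5) (nat_lit 268) (nat_lit 5) (nat_lit 449) (nat_lit 438) (nat_lit 133)) (XT.nd (nat_lit 78) (nat_lit 0) (nat_lit 0) (XT.lf (nat_lit 0) (nat_lit 48856104459) (nat_lit 1216) (nat_lit 39091514747) (nat_lit 1292) (nat_lit 626141233) (nat_lit 252) (nat_lit 5) (nat_lit 268) (nat_lit 5) (nat_lit 269) (nat_lit 5) (nat_lit 450) (nat_lit 438) (nat_lit 132)) (XT.lf (nat_lit 76) (nat_lit 5843366469) (nat_lit 0) (nat_lit 48914154428) (nat_lit 1292) (nat_lit 35226836007) (nat_lit 253) (nat_lit 5) (nat_lit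 252) (nat_lit 5) (nat_lit 269) (nat_lit 5) (nat_lit 451) (nat_lit 438) (nat_lit 131)))) (XT.nd (nat_lit 156) (nat_lit 1064) (nat_lit 0) (XT.nd (nat_lit 78) (nat_lit 0) (nat_lit 76) (XT.lf (nat_lit 76) (nat_lit 52927368456) (nat_lit 0) (nat_lit 8303026908) (nat_lit 1292) (nat_lit 30195043569) (nat_lit 253) (nat_lit 5) (nat_lit 252) (nat_lit 5) (nat_lit 269) (nat_lit 5) (nat_lit 452) (nat_lit 438) (nat_lit 130)) (XT.lf (nat_lit 76) (nat_lit 8354623100) (nat_lit 0) (nat_lit 59945097512) (nat_lit 1292) (nat_lit 24597965007) (nat_lit 254) (nat_lit 5) (nat_lit 253) (nat_lit 5) (nat_lit 270) (nat_lit 5) (nat_lit 453) (nat_lit 438) (nat_lit 129))) (XT.nd (nat_lit 78) (nat_lit 1140) (nat_lit 0) (XT.lf (nat_lit 76) (nat_lit 57317962335) (nat_lit 0) (nat_lit 18733005573) (nat_lit 1292) (nat_lit 18349036658) (nat_lit 254) (nat_lit 5) (nat_lit 253) (nat_lit 5) (nat_lit 270) (nat_lit 5) (nat_lit 454) (nat_lit 438) (nat_lit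 128)) (XT.lf (nat_lit 0) (nat_lit 11804932346) (nat_lit 1216) (nat_lit 72570958609) (nat_lit 1292) (nat_lit 11561268104) (nat_lit 238) (nat_lit 5) (nat_lit 254) (nat_lit 5) (nat_lit 255) (nat_lit 5) (nat_lit 455) (nat_lit 438) (nat_lit 127))))) (XT.nd (nat_lit 51870) (nat_lit 0) (nat_lit 1292) (XT.nd (nat_lit 78) (nat_lit 684) (nat_lit 0) (XT.lf (nat_lit 0) (nat_lit 62729231990) (nat_lit 1216) (nat_lit 30779143594) (nat_lit 1292) (nat_lit 3995318306) (nat_lit 238) (nat_lit 5) (nat_lit 254) (nat_lit 5) (nat_lit 255) (nat_lit 5) (nat_lit 456) (nat_lit 438) (nat_lit 126)) (XT.nd (nat_lit 51714) (nat_lit 0) (nat_lit 1292) (XT.lf (nat_lit 0) (nat_lit 4000171679) (nat_lit 684) (nat_lit 82885010851) (nat_lit 76) (nat_lit 12222647199) (nat_lit 229) (nat_lit 5) (nat_lit 238) (nat_lit 5) (nat_lit 230) (nat_lit 5) (nat_lit 457) (nat_lit 438) (nat_lit 125)) (XT.lf (nat_lit 0) (nat_lit 8523374743) (nat_lit 1292) (nat_lit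 14726252666) (nat_lit 1292) (nat_lit 14726252666) (nat_lit 246) (nat_lit 3) (nat_lit 263) (nat_lit 3) (nat_lit 263) (nat_lit 5) (nat_lit 439) (nat_lit 439) (nat_lit 142)))) (XT.nd (nat_lit 156) (nat_lit 0) (nat_lit 76) (XT.nd (nat_lit 78) (nat_lit 0) (nat_lit 76) (XT.lf (nat_lit 76) (nat_lit 7295185668) (nat_lit 0) (nat_lit 10088562281) (nat_lit 1292) (nat_lit 59704844973) (nat_lit 247) (nat_lit 5) (nat_lit 246) (nat_lit 3) (nat_lit 263) (nat_lit 5) (nat_lit 440) (nat_lit 439) (nat_lit 141)) (XT.lf (nat_lit 0) (nat_lit 18294301891) (nat_lit 1216) (nat_lit 32768267002) (nat_lit 1292) (nat_lit 27180058599) (nat_lit 247) (nat_lit 5) (nat_lit 263) (nat_lit 5) (nat_lit 264) (nat_lit 5) (nat_lit 441) (nat_lit 439) (nat_lit 140))) (XT.nd (nat_lit 78) (nat_lit 0) (nat_lit 76) (XT.lf (nat_lit 76) (nat_lit 5372337029) (nat_lit 0) (nat_lit 14010940889) (nat_lit 1292) (nat_lit 60043472196) (nat_lit 248) (nat_lit 5) (nat_lit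 247) (nat_lit 5) (nat_lit 264) (nat_lit 5) (nat_lit 442) (nat_lit 439) (nat_lit 139)) (XT.lf (nat_lit 0) (nat_lit 21070849042) (nat_lit 1216) (nat_lit 35543284566) (nat_lit 1292) (nat_lit 24015285205) (nat_lit 248) (nat_lit 5) (nat_lit 264) (nat_lit 5) (nat_lit 265) (nat_lit 5) (nat_lit 443) (nat_lit 439) (nat_lit 138)))))) (XT.nd (nat_lit 546) (nat_lit 760) (nat_lit 0) (XT.nd (nat_lit 234) (nat_lit 0) (nat_lit 152) (XT.nd (nat_lit 78) (nat_lit 0) (nat_lit 76) (XT.lf (nat_lit 76) (nat_lit 4063507262) (nat_lit 0) (nat_lit 18922923445) (nat_lit 1292) (nat_lit 58876415533) (nat_lit 249) (nat_lit 5) (nat_lit 248) (nat_lit 5) (nat_lit 265) (nat_lit 5) (nat_lit 444) (nat_lit 439) (nat_lit 137)) (XT.nd (nat_lit 78) (nat_lit 0) (nat_lit 0) (XT.lf (nat_lit 0) (nat_lit 25512843616) (nat_lit 1216) (nat_lit 37730491825) (nat_lit 1292) (nat_lit 19873340299) (nat_lit 249) (nat_lit 5) (nat_lit 265) (nat_lit 5) (nat_lit 266)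 (nat_lit 5) (nat_lit 445) (nat_lit 439) (nat_lit 136)) (XT.lf (nat_lit 76) (nat_lit 3419547144) (nat_lit 0) (nat_lit 24915350642) (nat_lit 1292) (nat_lit 56066627031) (nat_lit 250) (nat_lit 5) (nat_lit 249) (nat_lit 5) (nat_lit 266) (nat_lit 5) (nat_lit 446) (nat_lit 439) (nat_lit 135)))) (XT.nd (nat_lit 156) (nat_lit 0) (nat_lit 76) (XT.nd (nat_lit 78) (nat_lit 0) (nat_lit 0) (XT.lf (nat_lit 0) (nat_lit 31766005576) (nat_lit 1216) (nat_lit 39279975221) (nat_lit 1292) (nat_lit 14663206963) (nat_lit 250) (nat_lit 5) (nat_lit 266) (nat_lit 5) (nat_lit 267) (nat_lit 5) (nat_lit 447) (nat_lit 439) (nat_lit 134)) (XT.lf (nat_lit 76) (nat_lit 3494339636) (nat_lit 0) (nat_lit 32085626330) (nat_lit 1292) (nat_lit 51467717195) (nat_lit 251) (nat_lit 5) (nat_lit 250) (nat_lit 5) (nat_lit 267) (nat_lit 5) (nat_lit 448) (nat_lit 439) (nat_lit 133))) (XT.nd (nat_lit 78) (nat_lit 0) (nat_lit 0) (XT.lf (nat_lit 0) (nat_lit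 39985894573) (nat_lit 1216) (nat_lit 40138852984) (nat_lit 1292) (nat_lit 8287259530) (nat_lit 251) (nat_lit 5) (nat_lit 267) (nat_lit 5) (nat_lit 268) (nat_lit 5) (nat_lit 449) (nat_lit 439) (nat_lit 132)) (XT.lf (nat_lit 76) (nat_lit 4344928144) (nat_lit 0) (nat_lit 40538180629) (nat_lit 1292) (nat_lit 44923378867) (nat_lit 252) (nat_lit 5) (nat_lit 251) (nat_lit 5) (nat_lit 268) (nat_lit 5) (nat_lit 450) (nat_lit 439) (nat_lit 131))))) (XT.nd (nat_lit 234) (nat_lit 1064) (nat_lit 0) (XT.nd (nat_lit 78) (nat_lit 0) (nat_lit 0) (XT.lf (nat_lit 0) (nat_lit 50338515051) (nat_lit 1216) (nat_lit 40251152833) (nat_lit 1292) (nat_lit 640796592) (nat_lit 252) (nat_lit 5) (nat_lit 268) (nat_lit 5) (nat_lit 269) (nat_lit 5) (nat_lit 451) (nat_lit 439) (nat_lit 130)) (XT.nd (nat_lit 78) (nat_lit 0) (nat_lit 0) (XT.lf (nat_lit 76) (nat_lit 6031646316) (nat_lit 0) (nat_lit 50384965219) (nat_lit 1292) (nat_lit 36266778375)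 (nat_lit 253) (nat_lit 5) (nat_lit 252) (nat_lit 5) (nat_lit 269) (nat_lit 5) (nat_lit 452) (nat_lit 439) (nat_lit 129)) (XT.lf (nat_lit 76) (nat_lit 54527790338) (nat_lit 0) (nat_lit 8555405248) (nat_lit 1292) (nat_lit 31084523311) (nat_lit 253) (nat_lit 5) (nat_lit 252) (nat_lit 5) (nat_lit 269) (nat_lit 5) (nat_lit 453) (nat_lit 439) (nat_lit 128)))) (XT.nd (nat_lit 156) (nat_lit 1140) (nat_lit 0) (XT.nd (nat_lit 78) (nat_lit 0) (nat_lit 0) (XT.lf (nat_lit 76) (nat_lit 8618248843) (nat_lit 0) (nat_lit 61745983139) (nat_lit 1292) (nat_lit 25319912251) (nat_lit 254) (nat_lit 5) (nat_lit 253) (nat_lit 5) (nat_lit 270) (nat_lit 5) (nat_lit 454) (nat_lit 439) (nat_lit 127)) (XT.lf (nat_lit 76) (nat_lit 59050109991) (nat_lit 0) (nat_lit 19297454675) (nat_lit 1292) (nat_lit 18883981829) (nat_lit 254) (nat_lit 5) (nat_lit 253) (nat_lit 5) (nat_lit 270) (nat_lit 5) (nat_lit 455) (nat_lit 439) (nat_lit 126))) (XT.nd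 (nat_lit 51870) (nat_lit 0) (nat_lit 608) (XT.lf (nat_lit 0) (nat_lit 12172042608) (nat_lit 1216) (nat_lit 74749855583) (nat_lit 1292) (nat_lit 11892927727) (nat_lit 238) (nat_lit 5) (nat_lit 254) (nat_lit 5) (nat_lit 255) (nat_lit 5) (nat_lit 456) (nat_lit 439) (nat_lit 125)) (XT.lf (nat_lit 0) (nat_lit 8790140032) (nat_lit 1292) (nat_lit 15162339927) (nat_lit 1292) (nat_lit 15162339927) (nat_lit 246) (nat_lit 3) (nat_lit 263) (nat_lit 3) (nat_lit 263) (nat_lit 5) (nat_lit 440) (nat_lit 440) (nat_lit 140))))))) (XT.nd (nat_lit 1092) (nat_lit 0) (nat_lit 0) (XT.nd (nat_lit 546) (nat_lit 0) (nat_lit 304) (XT.nd (nat_lit 234) (nat_lit 0) (nat_lit 152) (XT.nd (nat_lit 78) (nat_lit 0) (nat_lit 76) (XT.lf (nat_lit 76) (nat_lit 7525330107) (nat_lit 0) (nat_lit 10401522382) (nat_lit 1292) (nat_lit 61473741386) (nat_lit 247) (nat_lit 5) (nat_lit 246) (nat_lit 3) (nat_lit 263) (nat_lit 5) (nat_lit 441) (nat_lit 440)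 (nat_lit 139)) (XT.nd (nat_lit 78) (nat_lit 0) (nat_lit 0) (XT.lf (nat_lit 0) (nat_lit 18863997997) (nat_lit 1216) (nat_lit 33739621086) (nat_lit 1292) (nat_lit 27985652415) (nat_lit 247) (nat_lit 5) (nat_lit 263) (nat_lit 5) (nat_lit 264) (nat_lit 5) (nat_lit 442) (nat_lit 440) (nat_lit 138)) (XT.lf (nat_lit 76) (nat_lit 5545086420) (nat_lit 0) (nat_lit 14440060414) (nat_lit 1292) (nat_lit 61823786116) (nat_lit 248) (nat_lit 5) (nat_lit 247) (nat_lit 5) (nat_lit 264) (nat_lit 5) (nat_lit 443) (nat_lit 440) (nat_lit 137)))) (XT.nd (nat_lit 156) (nat_lit 0) (nat_lit 76) (XT.nd (nat_lit 78) (nat_lit 0) (nat_lit 0) (XT.lf (nat_lit 0) (nat_lit 21722669728) (nat_lit 1216) (nat_lit 36597657419) (nat_lit 1292) (nat_lit 24727375073) (nat_lit 248) (nat_lit 5) (nat_lit 264) (nat_lit 5) (nat_lit 265) (nat_lit 5) (nat_lit 444) (nat_lit 440) (nat_lit 136)) (XT.lf (nat_lit 76) (nat_lit 4197221246) (nat_lit 0) (nat_lit 19498037463)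 (nat_lit 1292) (nat_lit 60622887806) (nat_lit 249) (nat_lit 5) (nat_lit 248) (nat_lit 5) (nat_lit 265) (nat_lit 5) (nat_lit 445) (nat_lit 440) (nat_lit 135))) (XT.nd (nat_lit 78) (nat_lit 0) (nat_lit 0) (XT.lf (nat_lit 0) (nat_lit 26296834453) (nat_lit 1216) (nat_lit 38850304381) (nat_lit 1292) (nat_lit 20462471187) (nat_lit 249) (nat_lit 5) (nat_lit 265) (nat_lit 5) (nat_lit 266) (nat_lit 5) (nat_lit 446) (nat_lit 440) (nat_lit 134)) (XT.lf (nat_lit 76) (nat_lit 3534117107) (nat_lit 0) (nat_lit 25669006425) (nat_lit 1292) (nat_lit 57729894067) (nat_lit 250) (nat_lit 5) (nat_lit 249) (nat_lit 5) (nat_lit 266) (nat_lit 5) (nat_lit 447) (nat_lit 440) (nat_lit 133))))) (XT.nd (nat_lit 234) (nat_lit 0) (nat_lit 76) (XT.nd (nat_lit 78) (nat_lit 0) (nat_lit 0) (XT.lf (nat_lit 0) (nat_lit 32736577258) (nat_lit 1216) (nat_lit 40446145290) (nat_lit 1292) (nat_lit 15097205724) (nat_lit 250) (nat_lit 5) (nat_lit 266) (nat_lit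 5) (nat_lit 267) (nat_lit 5) (nat_lit 448) (nat_lit 440) (nat_lit 132)) (XT.nd (nat_lit 78) (nat_lit 0) (nat_lit 76) (XT.lf (nat_lit 76) (nat_lit 3611279119) (nat_lit 0) (nat_lit 33053281369) (nat_lit 1292) (nat_lit 52994030142) (nat_lit 251) (nat_lit 5) (nat_lit 250) (nat_lit 5) (nat_lit 267) (nat_lit 5) (nat_lit 449) (nat_lit 440) (nat_lit 131)) (XT.lf (nat_lit 0) (nat_lit 41202118643) (nat_lit 1216) (nat_lit 41330706717) (nat_lit 1292) (nat_lit 8531035570) (nat_lit 251) (nat_lit 5) (nat_lit 267) (nat_lit 5) (nat_lit 268) (nat_lit 5) (nat_lit 450) (nat_lit 440) (nat_lit 130)))) (XT.nd (nat_lit 156) (nat_lit 0) (nat_lit 76) (XT.nd (nat_lit 78) (nat_lit 0) (nat_lit 76) (XT.lf (nat_lit 76) (nat_lit 4487467141) (nat_lit 0) (nat_lit 41758414446) (nat_lit 1292) (nat_lit 46254305546) (nat_lit 252) (nat_lit 5) (nat_lit 251) (nat_lit 5) (nat_lit 268) (nat_lit 5) (nat_lit 451) (nat_lit 440) (nat_lit 129)) (XT.lf (nat_lit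 0) (nat_lit 51864437737) (nat_lit 1216) (nat_lit 41446332477) (nat_lit 1292) (nat_lit 656128626) (nat_lit 252) (nat_lit 5) (nat_lit 268) (nat_lit 5) (nat_lit 269) (nat_lit 5) (nat_lit 452) (nat_lit 440) (nat_lit 128))) (XT.nd (nat_lit 78) (nat_lit 0) (nat_lit 0) (XT.lf (nat_lit 76) (nat_lit 6224829520) (nat_lit 0) (nat_lit 51899705955) (nat_lit 1292) (nat_lit 37338887003) (nat_lit 253) (nat_lit 5) (nat_lit 252) (nat_lit 5) (nat_lit 269) (nat_lit 5) (nat_lit 453) (nat_lit 440) (nat_lit 127)) (XT.lf (nat_lit 76) (nat_lit 56175501538) (nat_lit 0) (nat_lit 8815166220) (nat_lit 1292) (nat_lit 32001627240) (nat_lit 253) (nat_lit 5) (nat_lit 252) (nat_lit 5) (nat_lit 269) (nat_lit 5) (nat_lit 454) (nat_lit 440) (nat_lit 126)))))) (XT.nd (nat_lit 52416) (nat_lit 0) (nat_lit 152) (XT.nd (nat_lit 52104) (nat_lit 0) (nat_lit 0) (XT.nd (nat_lit 78) (nat_lit 532) (nat_lit 0) (XT.lf (nat_lit 76) (nat_lit 8889037848) (nat_lit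 0) (nat_lit 63600749948) (nat_lit 1292) (nat_lit 26064435902) (nat_lit 254) (nat_lit 5) (nat_lit 253) (nat_lit 5) (nat_lit 270) (nat_lit 5) (nat_lit 455) (nat_lit 440) (nat_lit 125)) (XT.nd (nat_lit 51948) (nat_lit 532) (nat_lit 0) (XT.lf (nat_lit 76) (nat_lit 60833498281) (nat_lit 0) (nat_lit 19878696096) (nat_lit 1292) (nat_lit 19435866608) (nat_lit 254) (nat_lit 5) (nat_lit 253) (nat_lit 5) (nat_lit 270) (nat_lit 5) (nat_lit 456) (nat_lit 440) (nat_lit 124)) (XT.lf (nat_lit 0) (nat_lit 9064273158) (nat_lit 1292) (nat_lit 15611837026) (nat_lit 1292) (nat_lit 15611837026) (nat_lit 246) (nat_lit 3) (nat_lit 263) (nat_lit 3) (nat_lit 263) (nat_lit 5) (nat_lit 441) (nat_lit 441) (nat_lit 138)))) (XT.nd (nat_lit 156) (nat_lit 0) (nat_lit 76) (XT.nd (nat_lit 78) (nat_lit 0) (nat_lit 76) (XT.lf (nat_lit 76) (nat_lit 7761730852) (nat_lit 0) (nat_lit 10723279838) (nat_lit 1292) (nat_lit 63296981872) (nat_lit 247) (nat_lit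 5) (nat_lit 246) (nat_lit 3) (nat_lit 263) (nat_lit 5) (nat_lit 442) (nat_lit 441) (nat_lit 137)) (XT.lf (nat_lit 0) (nat_lit 19449587132) (nat_lit 1216) (nat_lit 34740787072) (nat_lit 1292) (nat_lit 28815977062) (nat_lit 247) (nat_lit 5) (nat_lit 263) (nat_lit 5) (nat_lit 264) (nat_lit 5) (nat_lit 443) (nat_lit 441) (nat_lit 136))) (XT.nd (nat_lit 78) (nat_lit 0) (nat_lit 76) (XT.lf (nat_lit 76) (nat_lit 5722353595) (nat_lit 0) (nat_lit 14881548868) (nat_lit 1292) (nat_lit 63658714379) (nat_lit 248) (nat_lit 5) (nat_lit 247) (nat_lit 5) (nat_lit 264) (nat_lit 5) (nat_lit 444) (nat_lit 441) (nat_lit 135)) (XT.lf (nat_lit 0) (nat_lit 22392914448) (nat_lit 1216) (nat_lit 37684346040) (nat_lit 1292) (nat_lit 25461308035) (nat_lit 248) (nat_lit 5) (nat_lit 264) (nat_lit 5) (nat_lit 265) (nat_lit 5) (nat_lit 445) (nat_lit 441) (nat_lit 134))))) (XT.nd (nat_lit 312) (nat_lit 0) (nat_lit 152) (XT.nd (nat_lit 156) (nat_lit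 0) (nat_lit 76) (XT.nd (nat_lit 78) (nat_lit 0) (nat_lit 76) (XT.lf (nat_lit 76) (nat_lit 4334268778) (nat_lit 0) (nat_lit 20089978601) (nat_lit 1292) (nat_lit 62422892008) (nat_lit 249) (nat_lit 5) (nat_lit 248) (nat_lit 5) (nat_lit 265) (nat_lit 5) (nat_lit 446) (nat_lit 441) (nat_lit 133)) (XT.lf (nat_lit 0) (nat_lit 27103276982) (nat_lit 1216) (nat_lit 40004406030) (nat_lit 1292) (nat_lit 21069681810) (nat_lit 249) (nat_lit 5) (nat_lit 265) (nat_lit 5) (nat_lit 266) (nat_lit 5) (nat_lit 447) (nat_lit 441) (nat_lit 132))) (XT.nd (nat_lit 78) (nat_lit 0) (nat_lit 76) (XT.lf (nat_lit 76) (nat_lit 3651436265) (nat_lit 0) (nat_lit 26444916248) (nat_lit 1292) (nat_lit 59444134396) (nat_lit 250) (nat_lit 5) (nat_lit 249) (nat_lit 5) (nat_lit 266) (nat_lit 5) (nat_lit 448) (nat_lit 441) (nat_lit 131)) (XT.lf (nat_lit 0) (nat_lit 33735256266) (nat_lit 1216) (nat_lit 41648002467) (nat_lit 1292) (nat_lit 15544562985)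 (nat_lit 250) (nat_lit 5) (nat_lit 266) (nat_lit 5) (nat_lit 267) (nat_lit 5) (nat_lit 449) (nat_lit 441) (nat_lit 130)))) (XT.nd (nat_lit 156) (nat_lit 0) (nat_lit 76) (XT.nd (nat_lit 78) (nat_lit 0) (nat_lit 76) (XT.lf (nat_lit 76) (nat_lit 3731031663) (nat_lit 0) (nat_lit 34049674087) (nat_lit 1292) (nat_lit 54567149595) (nat_lit 251) (nat_lit 5) (nat_lit 250) (nat_lit 5) (nat_lit 267) (nat_lit 5) (nat_lit 450) (nat_lit 441) (nat_lit 129)) (XT.lf (nat_lit 0) (nat_lit 42453873817) (nat_lit 1216) (nat_lit 42559022812) (nat_lit 1292) (nat_lit 8782402828) (nat_lit 251) (nat_lit 5) (nat_lit 267) (nat_lit 5) (nat_lit 268) (nat_lit 5) (nat_lit 451) (nat_lit 441) (nat_lit 128))) (XT.nd (nat_lit 78) (nat_lit 0) (nat_lit 76) (XT.lf (nat_lit 76) (nat_lit 4633582485) (nat_lit 0) (nat_lit 43015020588) (nat_lit 1292) (nat_lit 47626122960) (nat_lit 252) (nat_lit 5) (nat_lit 251) (nat_lit 5) (nat_lit 268) (nat_lit 5) (nat_lit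 452) (nat_lit 441) (nat_lit 127)) (XT.lf (nat_lit 0) (nat_lit 53435233000) (nat_lit 1216) (nat_lit 42678076735) (nat_lit 1292) (nat_lit 672144030) (nat_lit 252) (nat_lit 5) (nat_lit 268) (nat_lit 5) (nat_lit 269) (nat_lit 5) (nat_lit 453) (nat_lit 441) (nat_lit 126))))))))
noncomputable def xc255 : XT := (XT.nd (nat_lit 158730) (nat_lit 0) (nat_lit 0) (XT.nd (nat_lit 53118) (nat_lit 0) (nat_lit 0) (XT.nd (nat_lit 52572) (nat_lit 0) (nat_lit 152) (XT.nd (nat_lit 52260) (nat_lit 0) (nat_lit 0) (XT.nd (nat_lit 78) (nat_lit 456) (nat_lit 0) (XT.lf (nat_lit 76) (nat_lit 6423105948) (nat_lit 0) (nat_lit 53459705692) (nat_lit 1292) (nat_lit 38444071312) (nat_lit 253) (nat_lit 5) (nat_lit 252) (nat_lit 5) (nat_lit 269) (nat_lit 5) (nat_lit 454) (nat_lit 441) (nat_lit 125)) (XT.nd (nat_lit 52104) (nat_lit 456) (nat_lit 0) (XT.lf (nat_lit 76) (nat_lit 57871962256) (nat_lit 0) (nat_lit 9082542137) (nat_lit 1292) (nat_lit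 32947130134) (nat_lit 253) (nat_lit 5) (nat_lit 252) (nat_lit 5) (nat_lit 269) (nat_lit 5) (nat_lit 455) (nat_lit 441) (nat_lit 124)) (XT.lf (nat_lit 0) (nat_lit 9346031615) (nat_lit 1292) (nat_lit 16075127476) (nat_lit 1292) (nat_lit 16075127476) (nat_lit 246) (nat_lit 3) (nat_lit 263) (nat_lit 3) (nat_lit 263) (nat_lit 5) (nat_lit 442) (nat_lit 442) (nat_lit 136)))) (XT.nd (nat_lit 156) (nat_lit 0) (nat_lit 76) (XT.nd (nat_lit 78) (nat_lit 0) (nat_lit 76) (XT.lf (nat_lit 76) (nat_lit 8004612791) (nat_lit 0) (nat_lit 11054132522) (nat_lit 1292) (nat_lit 65176123437) (nat_lit 247) (nat_lit 5) (nat_lit 246) (nat_lit 3) (nat_lit 263) (nat_lit 5) (nat_lit 443) (nat_lit 442) (nat_lit 135)) (XT.lf (nat_lit 0) (nat_lit 20051614849) (nat_lit 1216) (nat_lit 35772620782) (nat_lit 1292) (nat_lit 29671742146) (nat_lit 247) (nat_lit 5) (nat_lit 263) (nat_lit 5) (nat_lit 264) (nat_lit 5) (nat_lit 444) (nat_lit 442) (nat_lit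 134))) (XT.nd (nat_lit 78) (nat_lit 0) (nat_lit 76) (XT.lf (nat_lit 76) (nat_lit 5904312243) (nat_lit 0) (nat_lit 15335806289) (nat_lit 1292) (nat_lit 65549826249) (nat_lit 248) (nat_lit 5) (nat_lit 247) (nat_lit 5) (nat_lit 264) (nat_lit 5) (nat_lit 445) (nat_lit 442) (nat_lit 133)) (XT.lf (nat_lit 0) (nat_lit 23082200825) (nat_lit 1216) (nat_lit 38804280605) (nat_lit 1292) (nat_lit 26217711805) (nat_lit 248) (nat_lit 5) (nat_lit 264) (nat_lit 5) (nat_lit 265) (nat_lit 5) (nat_lit 446) (nat_lit 442) (nat_lit 132))))) (XT.nd (nat_lit 234) (nat_lit 0) (nat_lit 152) (XT.nd (nat_lit 78) (nat_lit 0) (nat_lit 76) (XT.lf (nat_lit 76) (nat_lit 4474788777) (nat_lit 0) (nat_lit 20699276143) (nat_lit 1292) (nat_lit 64277968784) (nat_lit 249) (nat_lit 5) (nat_lit 248) (nat_lit 5) (nat_lit 265) (nat_lit 5) (nat_lit 447) (nat_lit 442) (nat_lit 131)) (XT.nd (nat_lit 78) (nat_lit 0) (nat_lit 0) (XT.lf (nat_lit 0) (nat_lit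 27932906062) (nat_lit 1216) (nat_lit 41193785565) (nat_lit 1292) (nat_lit 21695491264) (nat_lit 249) (nat_lit 5) (nat_lit 265) (nat_lit 5) (nat_lit 266) (nat_lit 5) (nat_lit 448) (nat_lit 442) (nat_lit 130)) (XT.lf (nat_lit 76) (nat_lit 3771626581) (nat_lit 0) (nat_lit 27243768147) (nat_lit 1292) (nat_lit 61210815489) (nat_lit 250) (nat_lit 5) (nat_lit 249) (nat_lit 5) (nat_lit 266) (nat_lit 5) (nat_lit 449) (nat_lit 442) (nat_lit 129)))) (XT.nd (nat_lit 156) (nat_lit 0) (nat_lit 76) (XT.nd (nat_lit 78) (nat_lit 0) (nat_lit 0) (XT.lf (nat_lit 0) (nat_lit 34762943787) (nat_lit 1216) (nat_lit 42886577066) (nat_lit 1292) (nat_lit 16005660068) (nat_lit 250) (nat_lit 5) (nat_lit 266) (nat_lit 5) (nat_lit 267) (nat_lit 5) (nat_lit 450) (nat_lit 442) (nat_lit 128)) (XT.lf (nat_lit 76) (nat_lit 3853721563) (nat_lit 0) (nat_lit 35075683376) (nat_lit 1292) (nat_lit 56188421363) (nat_lit 251) (nat_lit 5) (nat_lit 250)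 (nat_lit 5) (nat_lit 267) (nat_lit 5) (nat_lit 451) (nat_lit 442) (nat_lit 127))) (XT.nd (nat_lit 78) (nat_lit 0) (nat_lit 0) (XT.lf (nat_lit 0) (nat_lit 43742280883) (nat_lit 1216) (nat_lit 43824854571) (nat_lit 1292) (nat_lit 9041573084) (nat_lit 251) (nat_lit 5) (nat_lit 267) (nat_lit 5) (nat_lit 268) (nat_lit 5) (nat_lit 452) (nat_lit 442) (nat_lit 126)) (XT.lf (nat_lit 76) (nat_lit 4783421641) (nat_lit 0) (nat_lit 44309103695) (nat_lit 1292) (nat_lit 49040002556) (nat_lit 252) (nat_lit 5) (nat_lit 251) (nat_lit 5) (nat_lit 268) (nat_lit 5) (nat_lit 453) (nat_lit 442) (nat_lit 125)))))) (XT.nd (nat_lit 52728) (nat_lit 0) (nat_lit 0) (XT.nd (nat_lit 52416) (nat_lit 0) (nat_lit 76) (XT.nd (nat_lit 52260) (nat_lit 456) (nat_lit 0) (XT.lf (nat_lit 0) (nat_lit 55052298973) (nat_lit 1216) (nat_lit 43947441832) (nat_lit 1292) (nat_lit 688850481) (nat_lit 252) (nat_lit 5) (nat_lit 268) (nat_lit 5) (nat_lit 269)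 (nat_lit 5) (nat_lit 454) (nat_lit 442) (nat_lit 124)) (XT.nd (nat_lit 78) (nat_lit 0) (nat_lit 0) (XT.lf (nat_lit 0) (nat_lit 9635678529) (nat_lit 1292) (nat_lit 16552607373) (nat_lit 1292) (nat_lit 16552607373) (nat_lit 246) (nat_lit 3) (nat_lit 263) (nat_lit 3) (nat_lit 263) (nat_lit 5) (nat_lit 443) (nat_lit 443) (nat_lit 134)) (XT.lf (nat_lit 76) (nat_lit 8254205425) (nat_lit 0) (nat_lit 11394385293) (nat_lit 1292) (nat_lit 67112774007) (nat_lit 247) (nat_lit 5) (nat_lit 246) (nat_lit 3) (nat_lit 263) (nat_lit 5) (nat_lit 444) (nat_lit 443) (nat_lit 133)))) (XT.nd (nat_lit 156) (nat_lit 0) (nat_lit 76) (XT.nd (nat_lit 78) (nat_lit 0) (nat_lit 0) (XT.lf (nat_lit 0) (nat_lit 20670639120) (nat_lit 1216) (nat_lit 36836005926) (nat_lit 1292) (nat_lit 30553680413) (nat_lit 247) (nat_lit 5) (nat_lit 263) (nat_lit 5) (nat_lit 264) (nat_lit 5) (nat_lit 445) (nat_lit 443) (nat_lit 132)) (XT.lf (nat_lit 76) (nat_lit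 6091139074) (nat_lit 0) (nat_lit 15803243051) (nat_lit 1292) (nat_lit 67498742036) (nat_lit 248) (nat_lit 5) (nat_lit 247) (nat_lit 5) (nat_lit 264) (nat_lit 5) (nat_lit 446) (nat_lit 443) (nat_lit 131))) (XT.nd (nat_lit 78) (nat_lit 0) (nat_lit 0) (XT.lf (nat_lit 0) (nat_lit 23791161281) (nat_lit 1216) (nat_lit 39958421450) (nat_lit 1292) (nat_lit 26997234515) (nat_lit 248) (nat_lit 5) (nat_lit 264) (nat_lit 5) (nat_lit 265) (nat_lit 5) (nat_lit 447) (nat_lit 443) (nat_lit 130)) (XT.lf (nat_lit 76) (nat_lit 4618922096) (nat_lit 0) (nat_lit 21326473849) (nat_lit 1292) (nat_lit 66189708749) (nat_lit 249) (nat_lit 5) (nat_lit 248) (nat_lit 5) (nat_lit 265) (nat_lit 5) (nat_lit 448) (nat_lit 443) (nat_lit 129))))) (XT.nd (nat_lit 312) (nat_lit 228) (nat_lit 0) (XT.nd (nat_lit 156) (nat_lit 0) (nat_lit 76) (XT.nd (nat_lit 78) (nat_lit 0) (nat_lit 0) (XT.lf (nat_lit 0) (nat_lit 28786475081) (nat_lit 1216) (nat_lit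 42419463731) (nat_lit 1292) (nat_lit 22340435557) (nat_lit 249) (nat_lit 5) (nat_lit 265) (nat_lit 5) (nat_lit 266) (nat_lit 5) (nat_lit 449) (nat_lit 443) (nat_lit 128)) (XT.lf (nat_lit 76) (nat_lit 3894811413) (nat_lit 0) (nat_lit 28066269628) (nat_lit 1292) (nat_lit 63031452388) (nat_lit 250) (nat_lit 5) (nat_lit 249) (nat_lit 5) (nat_lit 266) (nat_lit 5) (nat_lit 450) (nat_lit 443) (nat_lit 127))) (XT.nd (nat_lit 78) (nat_lit 0) (nat_lit 0) (XT.lf (nat_lit 0) (nat_lit 35820564718) (nat_lit 1216) (nat_lit 44162932626) (nat_lit 1292) (nat_lit 16480890850) (nat_lit 250) (nat_lit 5) (nat_lit 266) (nat_lit 5) (nat_lit 267) (nat_lit 5) (nat_lit 451) (nat_lit 443) (nat_lit 126)) (XT.lf (nat_lit 76) (nat_lit 3979474553) (nat_lit 0) (nat_lit 36132213531) (nat_lit 1292) (nat_lit 57859234981) (nat_lit 251) (nat_lit 5) (nat_lit 250) (nat_lit 5) (nat_lit 267) (nat_lit 5) (nat_lit 452) (nat_lit 443) (nat_lit 125)))) (XT.nd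 (nat_lit 52416) (nat_lit 380) (nat_lit 0) (XT.nd (nat_lit 78) (nat_lit 0) (nat_lit 0) (XT.lf (nat_lit 0) (nat_lit 45068491105) (nat_lit 1216) (nat_lit 45129289222) (nat_lit 1292) (nat_lit 9308765391) (nat_lit 251) (nat_lit 5) (nat_lit 267) (nat_lit 5) (nat_lit 268) (nat_lit 5) (nat_lit 453) (nat_lit 443) (nat_lit 124)) (XT.lf (nat_lit 76) (nat_lit 4937134189) (nat_lit 0) (nat_lit 45641800775) (nat_lit 1292) (nat_lit 50497154096) (nat_lit 252) (nat_lit 5) (nat_lit 251) (nat_lit 5) (nat_lit 268) (nat_lit 5) (nat_lit 454) (nat_lit 443) (nat_lit 123))) (XT.nd (nat_lit 78) (nat_lit 0) (nat_lit 0) (XT.lf (nat_lit 0) (nat_lit 9933482945) (nat_lit 1292) (nat_lit 17044685709) (nat_lit 1292) (nat_lit 17044685709) (nat_lit 246) (nat_lit 3) (nat_lit 263) (nat_lit 3) (nat_lit 263) (nat_lit 5) (nat_lit 444) (nat_lit 444) (nat_lit 132)) (XT.lf (nat_lit 76) (nat_lit 8510743125) (nat_lit 0) (nat_lit 11744350319) (nat_lit 1292)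 (nat_lit 69108593711) (nat_lit 247) (nat_lit 5) (nat_lit 246) (nat_lit 3) (nat_lit 263) (nat_lit 5) (nat_lit 445) (nat_lit 444) (nat_lit 131))))))) (XT.nd (nat_lit 53508) (nat_lit 0) (nat_lit 0) (XT.nd (nat_lit 546) (nat_lit 76) (nat_lit 0) (XT.nd (nat_lit 234) (nat_lit 0) (nat_lit 76) (XT.nd (nat_lit 78) (nat_lit 0) (nat_lit 0) (XT.lf (nat_lit 0) (nat_lit 21307230934) (nat_lit 1216) (nat_lit 37931854811) (nat_lit 1292) (nat_lit 31462548346) (nat_lit 247) (nat_lit 5) (nat_lit 263) (nat_lit 5) (nat_lit 264) (nat_lit 5) (nat_lit 446) (nat_lit 444) (nat_lit 130)) (XT.nd (nat_lit 78) (nat_lit 0) (nat_lit 76) (XT.lf (nat_lit 76) (nat_lit 6283014037) (nat_lit 0) (nat_lit 16284280275) (nat_lit 1292) (nat_lit 69507134403) (nat_lit 248) (nat_lit 5) (nat_lit 247) (nat_lit 5) (nat_lit 264) (nat_lit 5) (nat_lit 447) (nat_lit 444) (nat_lit 129)) (XT.lf (nat_lit 0) (nat_lit 24520443704) (nat_lit 1216) (nat_lit 41147759848)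 (nat_lit 1292) (nat_lit 27800545231) (nat_lit 248) (nat_lit 5) (nat_lit 264) (nat_lit 5) (nat_lit 265) (nat_lit 5) (nat_lit 448) (nat_lit 444) (nat_lit 128)))) (XT.nd (nat_lit 156) (nat_lit 0) (nat_lit 76) (XT.nd (nat_lit 78) (nat_lit 0) (nat_lit 76) (XT.lf (nat_lit 76) (nat_lit 4766811707) (nat_lit 0) (nat_lit 21972130466) (nat_lit 1292) (nat_lit 68159753768) (nat_lit 249) (nat_lit 5) (nat_lit 248) (nat_lit 5) (nat_lit 265) (nat_lit 5) (nat_lit 449) (nat_lit 444) (nat_lit 127)) (XT.lf (nat_lit 0) (nat_lit 29664756709) (nat_lit 1216) (nat_lit 43682494056) (nat_lit 1292) (nat_lit 23005068037) (nat_lit 249) (nat_lit 5) (nat_lit 265) (nat_lit 5) (nat_lit 266) (nat_lit 5) (nat_lit 450) (nat_lit 444) (nat_lit 126))) (XT.nd (nat_lit 78) (nat_lit 0) (nat_lit 76) (XT.lf (nat_lit 76) (nat_lit 4021115679) (nat_lit 0) (nat_lit 28913148315) (nat_lit 1292) (nat_lit 64907608924) (nat_lit 250) (nat_lit 5) (nat_lit 249) (nat_lit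 5) (nat_lit 266) (nat_lit 5) (nat_lit 451) (nat_lit 444) (nat_lit 125)) (XT.lf (nat_lit 0) (nat_lit 36909068563) (nat_lit 1216) (nat_lit 45478166771) (nat_lit 1292) (nat_lit 16970662075) (nat_lit 250) (nat_lit 5) (nat_lit 266) (nat_lit 5) (nat_lit 267) (nat_lit 5) (nat_lit 452) (nat_lit 444) (nat_lit 124))))) (XT.nd (nat_lit 52650) (nat_lit 0) (nat_lit 76) (XT.nd (nat_lit 52494) (nat_lit 304) (nat_lit 0) (XT.lf (nat_lit 76) (nat_lit 4108417977) (nat_lit 0) (nat_lit 37220195069) (nat_lit 1292) (nat_lit 59581024827) (nat_lit 251) (nat_lit 5) (nat_lit 250) (nat_lit 5) (nat_lit 267) (nat_lit 5) (nat_lit 453) (nat_lit 444) (nat_lit 123)) (XT.nd (nat_lit 78) (nat_lit 0) (nat_lit 0) (XT.lf (nat_lit 0) (nat_lit 10239720124) (nat_lit 1292) (nat_lit 17551784706) (nat_lit 1292) (nat_lit 17551784706) (nat_lit 246) (nat_lit 3) (nat_lit 263) (nat_lit 3) (nat_lit 263) (nat_lit 5) (nat_lit 445) (nat_lit 445) (nat_lit 130))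 (XT.lf (nat_lit 76) (nat_lit 8774465398) (nat_lit 0) (nat_lit 12104347401) (nat_lit 1292) (nat_lit 71165296225) (nat_lit 247) (nat_lit 5) (nat_lit 246) (nat_lit 3) (nat_lit 263) (nat_lit 5) (nat_lit 446) (nat_lit 445) (nat_lit 129)))) (XT.nd (nat_lit 156) (nat_lit 0) (nat_lit 76) (XT.nd (nat_lit 78) (nat_lit 0) (nat_lit 0) (XT.lf (nat_lit 0) (nat_lit 21961974907) (nat_lit 1216) (nat_lit 39061109076) (nat_lit 1292) (nat_lit 32399126767) (nat_lit 247) (nat_lit 5) (nat_lit 263) (nat_lit 5) (nat_lit 264) (nat_lit 5) (nat_lit 447) (nat_lit 445) (nat_lit 128)) (XT.lf (nat_lit 76) (nat_lit 6480120530) (nat_lit 0) (nat_lit 16779350235) (nat_lit 1292) (nat_lit 71576729721) (nat_lit 248) (nat_lit 5) (nat_lit 247) (nat_lit 5) (nat_lit 264) (nat_lit 5) (nat_lit 448) (nat_lit 445) (nat_lit 127))) (XT.nd (nat_lit 78) (nat_lit 0) (nat_lit 0) (XT.lf (nat_lit 0) (nat_lit 25270712104) (nat_lit 1216) (nat_lit 42373318815) (nat_lit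 1292) (nat_lit 28628334498) (nat_lit 248) (nat_lit 5) (nat_lit 264) (nat_lit 5) (nat_lit 265) (nat_lit 5) (nat_lit 449) (nat_lit 445) (nat_lit 126)) (XT.lf (nat_lit 76) (nat_lit 4918602889) (nat_lit 0) (nat_lit 22636820255) (nat_lit 1292) (nat_lit 70189798297) (nat_lit 249) (nat_lit 5) (nat_lit 248) (nat_lit 5) (nat_lit 265) (nat_lit 5) (nat_lit 450) (nat_lit 445) (nat_lit 125)))))) (XT.nd (nat_lit 53118) (nat_lit 0) (nat_lit 0) (XT.nd (nat_lit 52806) (nat_lit 0) (nat_lit 0) (XT.nd (nat_lit 78) (nat_lit 228) (nat_lit 0) (XT.lf (nat_lit 0) (nat_lit 30568543671) (nat_lit 1216) (nat_lit 44983963706) (nat_lit 1292) (nat_lit 23689959839) (nat_lit 249) (nat_lit 5) (nat_lit 265) (nat_lit 5) (nat_lit 266) (nat_lit 5) (nat_lit 451) (nat_lit 445) (nat_lit 124)) (XT.nd (nat_lit 52650) (nat_lit 228) (nat_lit 0) (XT.lf (nat_lit 76) (nat_lit 4150666036) (nat_lit 0) (nat_lit 29785152622) (nat_lit 1292) (nat_lit 66840898992)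 (nat_lit 250) (nat_lit 5) (nat_lit 249) (nat_lit 5) (nat_lit 266) (nat_lit 5) (nat_lit 452) (nat_lit 445) (nat_lit 123)) (XT.lf (nat_lit 0) (nat_lit 10554671827) (nat_lit 1292) (nat_lit 18074340158) (nat_lit 1292) (nat_lit 18074340158) (nat_lit 246) (nat_lit 3) (nat_lit 263) (nat_lit 3) (nat_lit 263) (nat_lit 5) (nat_lit 446) (nat_lit 446) (nat_lit 128)))) (XT.nd (nat_lit 156) (nat_lit 0) (nat_lit 76) (XT.nd (nat_lit 78) (nat_lit 0) (nat_lit 76) (XT.lf (nat_lit 76) (nat_lit 9045617145) (nat_lit 0) (nat_lit 12474704304) (nat_lit 1292) (nat_lit 73284650156) (nat_lit 247) (nat_lit 5) (nat_lit 246) (nat_lit 3) (nat_lit 263) (nat_lit 5) (nat_lit 447) (nat_lit 446) (nat_lit 127)) (XT.lf (nat_lit 0) (nat_lit 22635469883) (nat_lit 1216) (nat_lit 40224740463) (nat_lit 1292) (nat_lit 33364221478) (nat_lit 247) (nat_lit 5) (nat_lit 263) (nat_lit 5) (nat_lit 264) (nat_lit 5) (nat_lit 448) (nat_lit 446) (nat_lit 126))) (XT.nd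 (nat_lit 78) (nat_lit 0) (nat_lit 76) (XT.lf (nat_lit 76) (nat_lit 6682645620) (nat_lit 0) (nat_lit 17288896781) (nat_lit 1292) (nat_lit 73709309477) (nat_lit 248) (nat_lit 5) (nat_lit 247) (nat_lit 5) (nat_lit 264) (nat_lit 5) (nat_lit 449) (nat_lit 446) (nat_lit 125)) (XT.lf (nat_lit 0) (nat_lit 26042647295) (nat_lit 1216) (nat_lit 43636153944) (nat_lit 1292) (nat_lit 29481314904) (nat_lit 248) (nat_lit 5) (nat_lit 264) (nat_lit 5) (nat_lit 265) (nat_lit 5) (nat_lit 450) (nat_lit 446) (nat_lit 124))))) (XT.nd (nat_lit 53040) (nat_lit 0) (nat_lit 0) (XT.nd (nat_lit 52884) (nat_lit 0) (nat_lit 0) (XT.nd (nat_lit 52806) (nat_lit 152) (nat_lit 0) (XT.lf (nat_lit 76) (nat_lit 5074443407) (nat_lit 0) (nat_lit 23321133531) (nat_lit 1292) (nat_lit 72281590761) (nat_lit 249) (nat_lit 5) (nat_lit 248) (nat_lit 5) (nat_lit 265) (nat_lit 5) (nat_lit 451) (nat_lit 446) (nat_lit 123)) (XT.lf (nat_lit 0) (nat_lit 10878626621)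 (nat_lit 1292) (nat_lit 18612801780) (nat_lit 1292) (nat_lit 18612801780) (nat_lit 246) (nat_lit 3) (nat_lit 263) (nat_lit 3) (nat_lit 263) (nat_lit 5) (nat_lit 447) (nat_lit 447) (nat_lit 126))) (XT.nd (nat_lit 78) (nat_lit 0) (nat_lit 76) (XT.lf (nat_lit 76) (nat_lit 9324448932) (nat_lit 0) (nat_lit 12855757083) (nat_lit 1292) (nat_lit 75468480493) (nat_lit 247) (nat_lit 5) (nat_lit 246) (nat_lit 3) (nat_lit 263) (nat_lit 5) (nat_lit 448) (nat_lit 447) (nat_lit 125)) (XT.lf (nat_lit 0) (nat_lit 23328329557) (nat_lit 1216) (nat_lit 41423751614) (nat_lit 1292) (nat_lit 34358663917) (nat_lit 247) (nat_lit 5) (nat_lit 263) (nat_lit 5) (nat_lit 264) (nat_lit 5) (nat_lit 449) (nat_lit 447) (nat_lit 124)))) (XT.nd (nat_lit 53040) (nat_lit 76) (nat_lit 0) (XT.nd (nat_lit 78) (nat_lit 0) (nat_lit 76) (XT.lf (nat_lit 76) (nat_lit 6890780257) (nat_lit 0) (nat_lit 17813375769) (nat_lit 1292) (nat_lit 75906711736) (nat_lit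 248) (nat_lit 5) (nat_lit 247) (nat_lit 5) (nat_lit 264) (nat_lit 5) (nat_lit 450) (nat_lit 447) (nat_lit 123)) (XT.lf (nat_lit 0) (nat_lit 26836947570) (nat_lit 1216) (nat_lit 44937354280) (nat_lit 1292) (nat_lit 30360221663) (nat_lit 248) (nat_lit 5) (nat_lit 264) (nat_lit 5) (nat_lit 265) (nat_lit 5) (nat_lit 451) (nat_lit 447) (nat_lit 122))) (XT.nd (nat_lit 78) (nat_lit 0) (nat_lit 76) (XT.lf (nat_lit 76) (nat_lit 9611217249) (nat_lit 0) (nat_lit 13247850430) (nat_lit 1292) (nat_lit 77718670107) (nat_lit 247) (nat_lit 5) (nat_lit 246) (nat_lit 3) (nat_lit 263) (nat_lit 5) (nat_lit 449) (nat_lit 448) (nat_lit 123)) (XT.lf (nat_lit 0) (nat_lit 24041183099) (nat_lit 1216) (nat_lit 42659176895) (nat_lit 1292) (nat_lit 35383311850) (nat_lit 247) (nat_lit 5) (nat_lit 263) (nat_lit 5) (nat_lit 264) (nat_lit 5) (nat_lit 450) (nat_lit 448) (nat_lit 122))))))))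

set_option maxRecDepth 10000000 in
noncomputable def Tp : PT := (PT.nd (nat_lit 9361482) (PT.nd (nat_lit 8406918) (PT.nd (nat_lit 7450950) (PT.nd (nat_lit 6495528) (PT.nd (nat_lit 5646186) (PT.nd (nat_lit 5009238) pc0 pc1) (PT.nd (nat_lit 477750) pc2 pc3)) (PT.nd (nat_lit 583596) (PT.nd (nat_lit 318318) pc4 pc5) (PT.nd (nat_lit 212238) pc6 pc7))) (PT.nd (nat_lit 583596) (PT.nd (nat_lit 318396) (PT.nd (nat_lit 159276) pc8 pc9) (PT.nd (nat_lit 106704) pc10 pc11)) (PT.nd (nat_lit 212394) (PT.nd (nat_lit 106236) pc12 pc13) (PT.nd (nat_lit 105846) pc14 pc15)))) (PT.nd (nat_lit 582270) (PT.nd (nat_lit 317772) (PT.nd (nat_lit 159198) (PT.nd (nat_lit 105300) pc16 pc17) (PT.nd (nat_lit 104910) pc18 pc19)) (PT.nd (nat_lit 107094) (PT.nd (nat_lit 53586) pc20 pc21) (PT.nd (nat_lit 53430) pc22 pc23))) (PT.nd (nat_lit 211926) (PT.nd (nat_lit 106236) (PT.nd (nat_lit 53196) pc24 pc25) (PT.nd (nat_lit 52884) pc26 pc27)) (PT.nd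 (nat_lit 55380) (PT.nd (nat_lit 2652) pc28 pc29) (PT.nd (nat_lit 52572) pc30 pc31))))) (PT.nd (nat_lit 532116) (PT.nd (nat_lit 316914) (PT.nd (nat_lit 159120) (PT.nd (nat_lit 54912) (PT.nd (nat_lit 52260) pc32 pc33) (PT.nd (nat_lit 52182) pc34 pc35)) (PT.nd (nat_lit 54522) (PT.nd (nat_lit 51870) pc36 pc37) (PT.nd (nat_lit 51714) pc38 pc39))) (PT.nd (nat_lit 107874) (PT.nd (nat_lit 53976) (PT.nd (nat_lit 2574) pc40 pc41) (PT.nd (nat_lit 2652) pc42 pc43)) (PT.nd (nat_lit 53742) (PT.nd (nat_lit 51090) pc44 pc45) (PT.nd (nat_lit 50934) pc46 pc47)))) (PT.nd (nat_lit 426348) (PT.nd (nat_lit 160524) (PT.nd (nat_lit 102726) (PT.nd (nat_lit 50700) pc48 pc49) (PT.nd (nat_lit 4758) pc50 pc51)) (PT.nd (nat_lit 153972) (PT.nd (nat_lit 53274) pc52 pc53) (PT.nd (nat_lit 53508) pc54 pc55))) (PT.nd (nat_lit 425490) (PT.nd (nat_lit 206232) (PT.nd (nat_lit 100542) pc56 pc57) (PT.nd (nat_lit 106080) pc58 pc59)) (PT.nd (nat_lit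 319254) (PT.nd (nat_lit 151710) pc60 pc61) (PT.nd (nat_lit 202878) pc62 pc63))))))

set_option maxRecDepth 10000000 in
noncomputable def Tx : XT := (XT.nd (nat_lit 14061606) (nat_lit 0) (nat_lit 380) XT.nil (XT.nd (nat_lit 9770436) (nat_lit 0) (nat_lit 0) (XT.nd (nat_lit 4566432) (nat_lit 0) (nat_lit 1292) (XT.nd (nat_lit 3182088) (nat_lit 0) (nat_lit 532) (XT.nd (nat_lit 2228226) (nat_lit 0) (nat_lit 228) (XT.nd (nat_lit 1588782) (nat_lit 0) (nat_lit 76) (XT.nd (nat_lit 1112280) (nat_lit 0) (nat_lit 0) (XT.nd (nat_lit 742950) (nat_lit 0) (nat_lit 0) (XT.nd (nat_lit 530010) (nat_lit 0) (nat_lit 0) (XT.nd (nat_lit 370890) (nat_lit 0) (nat_lit 0) xc0 xc1) (XT.nd (nat_lit 106782) (nat_lit 0) (nat_lit 0) xc2 xc3)) (XT.nd (nat_lit 210678) (nat_lit 0) (nat_lit 0) (XT.nd (nat_lit 105612) (nat_lit 0) (nat_lit 0) xc4 xc5) (XT.nd (nat_lit 54522) (nat_lit 0) (nat_lit 0) xc6 xc7))) (XT.nd (nat_lit 215280) (nat_lit 0) (nat_lit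 76) (XT.nd (nat_lit 107952) (nat_lit 0) (nat_lit 0) (XT.nd (nat_lit 54054) (nat_lit 0) (nat_lit 0) xc8 xc9) (XT.nd (nat_lit 53742) (nat_lit 0) (nat_lit 0) xc10 xc11)) (XT.nd (nat_lit 155376) (nat_lit 0) (nat_lit 0) (XT.nd (nat_lit 53430) (nat_lit 0) (nat_lit 0) xc12 xc13) (XT.nd (nat_lit 52962) (nat_lit 0) (nat_lit 0) xc14 xc15)))) (XT.nd (nat_lit 322530) (nat_lit 0) (nat_lit 0) (XT.nd (nat_lit 161928) (nat_lit 0) (nat_lit 0) (XT.nd (nat_lit 57096) (nat_lit 0) (nat_lit 0) (XT.nd (nat_lit 4446) (nat_lit 0) (nat_lit 0) xc16 xc17) (XT.nd (nat_lit 52494) (nat_lit 0) (nat_lit 0) xc18 xc19)) (XT.nd (nat_lit 104208) (nat_lit 0) (nat_lit 0) (XT.nd (nat_lit 52182) (nat_lit 0) (nat_lit 0) xc20 xc21) (XT.nd (nat_lit 51870) (nat_lit 0) (nat_lit 228) xc22 xc23))) (XT.nd (nat_lit 159120) (nat_lit 0) (nat_lit 152) (XT.nd (nat_lit 103272) (nat_lit 0) (nat_lit 76) (XT.nd (nat_lit 51714) (nat_lit 0) (nat_lit 0) xc24 xc25) (XT.nd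 (nat_lit 51402) (nat_lit 0) (nat_lit 304) xc26 xc27)) (XT.nd (nat_lit 102336) (nat_lit 0) (nat_lit 0) (XT.nd (nat_lit 51246) (nat_lit 0) (nat_lit 0) xc28 xc29) (XT.nd (nat_lit 4446) (nat_lit 76) (nat_lit 0) xc30 xc31))))) (XT.nd (nat_lit 528138) (nat_lit 0) (nat_lit 76) (XT.nd (nat_lit 265902) (nat_lit 0) (nat_lit 76) (XT.nd (nat_lit 156312) (nat_lit 0) (nat_lit 0) (XT.nd (nat_lit 55224) (nat_lit 0) (nat_lit 0) (XT.nd (nat_lit 50778) (nat_lit 0) (nat_lit 76) xc32 xc33) (XT.nd (nat_lit 50622) (nat_lit 0) (nat_lit 0) xc34 xc35)) (XT.nd (nat_lit 54834) (nat_lit 0) (nat_lit 76) (XT.nd (nat_lit 4446) (nat_lit 304) (nat_lit 0) xc36 xc37) (XT.nd (nat_lit 50232) (nat_lit 0) (nat_lit 760) xc38 xc39))) (XT.nd (nat_lit 154206) (nat_lit 0) (nat_lit 0) (XT.nd (nat_lit 54522) (nat_lit 0) (nat_lit 0) (XT.nd (nat_lit 50076) (nat_lit 0) (nat_lit 228) xc40 xc41) (XT.nd (nat_lit 49920) (nat_lit 0) (nat_lit 0) xc42 xc43)) (XT.nd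 (nat_lit 54054) (nat_lit 0) (nat_lit 0) (XT.nd (nat_lit 4446) (nat_lit 1140) (nat_lit 0) xc44 xc45) (XT.nd (nat_lit 4446) (nat_lit 760) (nat_lit 0) xc46 xc47)))) (XT.nd (nat_lit 214110) (nat_lit 0) (nat_lit 152) (XT.nd (nat_lit 107328) (nat_lit 0) (nat_lit 152) (XT.nd (nat_lit 53742) (nat_lit 0) (nat_lit 76) (XT.nd (nat_lit 4446) (nat_lit 456) (nat_lit 0) xc48 xc49) (XT.nd (nat_lit 4446) (nat_lit 152) (nat_lit 0) xc50 xc51)) (XT.nd (nat_lit 53430) (nat_lit 0) (nat_lit 0) (XT.nd (nat_lit 4446) (nat_lit 0) (nat_lit 0) xc52 xc53) (XT.nd (nat_lit 48828) (nat_lit 0) (nat_lit 1976) xc54 xc55))) (XT.nd (nat_lit 106080) (nat_lit 0) (nat_lit 0) (XT.nd (nat_lit 53118) (nat_lit 0) (nat_lit 0) (XT.nd (nat_lit 48672) (nat_lit 0) (nat_lit 1976) xc56 xc57) (XT.nd (nat_lit 48516) (nat_lit 0) (nat_lit 2128) xc58 xc59)) (XT.nd (nat_lit 52806) (nat_lit 0) (nat_lit 76) (XT.nd (nat_lit 48360) (nat_lit 0) (nat_lit 2584) xc60 xc61)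 (XT.nd (nat_lit 4446) (nat_lit 0) (nat_lit 0) xc62 xc63)))))) (XT.nd (nat_lit 739908) (nat_lit 0) (nat_lit 380) (XT.nd (nat_lit 373620) (nat_lit 0) (nat_lit 152) (XT.nd (nat_lit 209274) (nat_lit 0) (nat_lit 76) (XT.nd (nat_lit 104910) (nat_lit 0) (nat_lit 0) (XT.nd (nat_lit 52494) (nat_lit 0) (nat_lit 0) (XT.nd (nat_lit 4446) (nat_lit 152) (nat_lit 0) xc64 xc65) (XT.nd (nat_lit 4446) (nat_lit 380) (nat_lit 0) xc66 xc67)) (XT.nd (nat_lit 52260) (nat_lit 0) (nat_lit 0) (XT.nd (nat_lit 4446) (nat_lit 684) (nat_lit 0) xc68 xc69) (XT.nd (nat_lit 4446) (nat_lit 1140) (nat_lit 0) xc70 xc71))) (XT.nd (nat_lit 60840) (nat_lit 0) (nat_lit 76) (XT.nd (nat_lit 51948) (nat_lit 0) (nat_lit 152) (XT.nd (nat_lit 4446) (nat_lit 1824) (nat_lit 0) xc72 xc73) (XT.nd (nat_lit 4446) (nat_lit 2888) (nat_lit 0) xc74 xc75)) (XT.nd (nat_lit 51792) (nat_lit 0) (nat_lit 0) (XT.nd (nat_lit 47346) (nat_lit 0) (nat_lit 608) xc76 xc77) (XT.nd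 (nat_lit 47190) (nat_lit 0) (nat_lit 1444) xc78 xc79)))) (XT.nd (nat_lit 205062) (nat_lit 0) (nat_lit 76) (XT.nd (nat_lit 102804) (nat_lit 0) (nat_lit 76) (XT.nd (nat_lit 51480) (nat_lit 0) (nat_lit 76) (XT.nd (nat_lit 47034) (nat_lit 0) (nat_lit 3040) xc80 xc81) (XT.nd (nat_lit 4446) (nat_lit 0) (nat_lit 0) xc82 xc83)) (XT.nd (nat_lit 51168) (nat_lit 0) (nat_lit 0) (XT.nd (nat_lit 4446) (nat_lit 912) (nat_lit 0) xc84 xc85) (XT.nd (nat_lit 4446) (nat_lit 2356) (nat_lit 0) xc86 xc87))) (XT.nd (nat_lit 59748) (nat_lit 0) (nat_lit 76) (XT.nd (nat_lit 8892) (nat_lit 684) (nat_lit 0) (XT.nd (nat_lit 4446) (nat_lit 4484) (nat_lit 0) xc88 xc89) (XT.nd (nat_lit 46410) (nat_lit 0) (nat_lit 2356) xc90 xc91)) (XT.nd (nat_lit 50778) (nat_lit 0) (nat_lit 76) (XT.nd (nat_lit 46332) (nat_lit 0) (nat_lit 5548) xc92 xc93) (XT.nd (nat_lit 4446) (nat_lit 684) (nat_lit 0) xc94 xc95))))) (XT.nd (nat_lit 320736) (nat_lit 0) (nat_lit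 152) (XT.nd (nat_lit 160134) (nat_lit 0) (nat_lit 76) (XT.nd (nat_lit 59358) (nat_lit 0) (nat_lit 0) (XT.nd (nat_lit 50466) (nat_lit 0) (nat_lit 1064) (XT.nd (nat_lit 4446) (nat_lit 2508) (nat_lit 0) xc96 xc97) (XT.nd (nat_lit 4446) (nat_lit 6004) (nat_lit 0) xc98 xc99)) (XT.nd (nat_lit 50310) (nat_lit 0) (nat_lit 76) (XT.nd (nat_lit 45864) (nat_lit 0) (nat_lit 3952) xc100 xc101) (XT.nd (nat_lit 4446) (nat_lit 228) (nat_lit 0) xc102 xc103))) (XT.nd (nat_lit 59358) (nat_lit 0) (nat_lit 0) (XT.nd (nat_lit 50466) (nat_lit 0) (nat_lit 684) (XT.nd (nat_lit 4446) (nat_lit 1976) (nat_lit 0) xc104 xc105) (XT.nd (nat_lit 4446) (nat_lit 4940) (nat_lit 0) xc106 xc107)) (XT.nd (nat_lit 50544) (nat_lit 0) (nat_lit 0) (XT.nd (nat_lit 46098) (nat_lit 0) (nat_lit 2888) xc108 xc109) (XT.nd (nat_lit 46176) (nat_lit 0) (nat_lit 6992) xc110 xc111)))) (XT.nd (nat_lit 161460) (nat_lit 0) (nat_lit 152) (XT.nd (nat_lit 101556) (nat_lit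 0) (nat_lit 152) (XT.nd (nat_lit 50700) (nat_lit 0) (nat_lit 76) (XT.nd (nat_lit 4446) (nat_lit 1064) (nat_lit 0) xc112 xc113) (XT.nd (nat_lit 4446) (nat_lit 3344) (nat_lit 0) xc114 xc115)) (XT.nd (nat_lit 8892) (nat_lit 1216) (nat_lit 0) (XT.nd (nat_lit 4446) (nat_lit 6460) (nat_lit 0) xc116 xc117) (XT.nd (nat_lit 46488) (nat_lit 0) (nat_lit 3420) xc118 xc119))) (XT.nd (nat_lit 102102) (nat_lit 0) (nat_lit 76) (XT.nd (nat_lit 51012) (nat_lit 0) (nat_lit 0) (XT.nd (nat_lit 46566) (nat_lit 0) (nat_lit 7372) xc120 xc121) (XT.nd (nat_lit 4446) (nat_lit 988) (nat_lit 0) xc122 xc123)) (XT.nd (nat_lit 51168) (nat_lit 0) (nat_lit 684) (XT.nd (nat_lit 4446) (nat_lit 3116) (nat_lit 0) xc124 xc125) (XT.nd (nat_lit 4446) (nat_lit 5624) (nat_lit 0) xc126 xc127))))))) (XT.nd (nat_lit 1640418) (nat_lit 0) (nat_lit 1976) (XT.nd (nat_lit 743730) (nat_lit 0) (nat_lit 608) (XT.nd (nat_lit 369642) (nat_lit 0) (nat_lit 304) (XT.nd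 (nat_lit 205530) (nat_lit 0) (nat_lit 152) (XT.nd (nat_lit 102570) (nat_lit 0) (nat_lit 76) (XT.nd (nat_lit 51246) (nat_lit 0) (nat_lit 76) (XT.nd (nat_lit 46800) (nat_lit 0) (nat_lit 2432) xc128 xc129) (XT.nd (nat_lit 46878) (nat_lit 0) (nat_lit 4940) xc130 xc131)) (XT.nd (nat_lit 51402) (nat_lit 0) (nat_lit 76) (XT.nd (nat_lit 4446) (nat_lit 304) (nat_lit 0) xc132 xc133) (XT.nd (nat_lit 4446) (nat_lit 1520) (nat_lit 0) xc134 xc135))) (XT.nd (nat_lit 60528) (nat_lit 0) (nat_lit 76) (XT.nd (nat_lit 51636) (nat_lit 0) (nat_lit 532) (XT.nd (nat_lit 4446) (nat_lit 3192) (nat_lit 0) xc136 xc137) (XT.nd (nat_lit 4446) (nat_lit 5396) (nat_lit 0) xc138 xc139)) (XT.nd (nat_lit 51714) (nat_lit 0) (nat_lit 0) (XT.nd (nat_lit 47268) (nat_lit 0) (nat_lit 1596) xc140 xc141) (XT.nd (nat_lit 47346) (nat_lit 0) (nat_lit 3116) xc142 xc143)))) (XT.nd (nat_lit 208104) (nat_lit 0) (nat_lit 152) (XT.nd (nat_lit 103818) (nat_lit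 0) (nat_lit 76) (XT.nd (nat_lit 51870) (nat_lit 0) (nat_lit 76) (XT.nd (nat_lit 47424) (nat_lit 0) (nat_lit 5016) xc144 xc145) (XT.nd (nat_lit 4446) (nat_lit 152) (nat_lit 0) xc146 xc147)) (XT.nd (nat_lit 52026) (nat_lit 0) (nat_lit 76) (XT.nd (nat_lit 4446) (nat_lit 1064) (nat_lit 0) xc148 xc149) (XT.nd (nat_lit 4446) (nat_lit 1976) (nat_lit 0) xc150 xc151))) (XT.nd (nat_lit 104598) (nat_lit 0) (nat_lit 152) (XT.nd (nat_lit 52260) (nat_lit 0) (nat_lit 152) (XT.nd (nat_lit 4446) (nat_lit 3116) (nat_lit 0) xc152 xc153) (XT.nd (nat_lit 4446) (nat_lit 4408) (nat_lit 0) xc154 xc155)) (XT.nd (nat_lit 8892) (nat_lit 304) (nat_lit 0) (XT.nd (nat_lit 4446) (nat_lit 5776) (nat_lit 0) xc156 xc157) (XT.nd (nat_lit 47970) (nat_lit 0) (nat_lit 912) xc158 xc159))))) (XT.nd (nat_lit 422760) (nat_lit 0) (nat_lit 608) (XT.nd (nat_lit 210678) (nat_lit 0) (nat_lit 228) (XT.nd (nat_lit 105066) (nat_lit 0) (nat_lit 228) (XT.nd (nat_lit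 52494) (nat_lit 0) (nat_lit 76) (XT.nd (nat_lit 48048) (nat_lit 0) (nat_lit 1520) xc160 xc161) (XT.nd (nat_lit 48126) (nat_lit 0) (nat_lit 2128) xc162 xc163)) (XT.nd (nat_lit 52728) (nat_lit 0) (nat_lit 0) (XT.nd (nat_lit 48282) (nat_lit 0) (nat_lit 2508) xc164 xc165) (XT.nd (nat_lit 48360) (nat_lit 0) (nat_lit 2888) xc166 xc167))) (XT.nd (nat_lit 105846) (nat_lit 0) (nat_lit 76) (XT.nd (nat_lit 52884) (nat_lit 0) (nat_lit 76) (XT.nd (nat_lit 48438) (nat_lit 0) (nat_lit 3344) xc168 xc169) (XT.nd (nat_lit 48516) (nat_lit 0) (nat_lit 3648) xc170 xc171)) (XT.nd (nat_lit 53040) (nat_lit 0) (nat_lit 228) (XT.nd (nat_lit 48594) (nat_lit 0) (nat_lit 3876) xc172 xc173) (XT.nd (nat_lit 48672) (nat_lit 0) (nat_lit 3648) xc174 xc175)))) (XT.nd (nat_lit 213642) (nat_lit 0) (nat_lit 304) (XT.nd (nat_lit 106626) (nat_lit 0) (nat_lit 0) (XT.nd (nat_lit 53274) (nat_lit 0) (nat_lit 0) (XT.nd (nat_lit 48828) (nat_lit 0) (nat_lit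 3572) xc176 xc177) (XT.nd (nat_lit 48906) (nat_lit 0) (nat_lit 3116) xc178 xc179)) (XT.nd (nat_lit 53430) (nat_lit 0) (nat_lit 228) (XT.nd (nat_lit 48984) (nat_lit 0) (nat_lit 2964) xc180 xc181) (XT.nd (nat_lit 49062) (nat_lit 0) (nat_lit 2052) xc182 xc183))) (XT.nd (nat_lit 107406) (nat_lit 0) (nat_lit 152) (XT.nd (nat_lit 53664) (nat_lit 0) (nat_lit 0) (XT.nd (nat_lit 49218) (nat_lit 0) (nat_lit 1444) xc184 xc185) (XT.nd (nat_lit 49296) (nat_lit 0) (nat_lit 836) xc186 xc187)) (XT.nd (nat_lit 53820) (nat_lit 0) (nat_lit 76) (XT.nd (nat_lit 49374) (nat_lit 0) (nat_lit 152) xc188 xc189) (XT.nd (nat_lit 49452) (nat_lit 0) (nat_lit 76) xc190 xc191)))))) (XT.nd (nat_lit 1116492) (nat_lit 0) (nat_lit 2812) (XT.nd (nat_lit 482196) (nat_lit 0) (nat_lit 836) (XT.nd (nat_lit 216996) (nat_lit 0) (nat_lit 304) (XT.nd (nat_lit 108342) (nat_lit 0) (nat_lit 152) (XT.nd (nat_lit 54132) (nat_lit 0) (nat_lit 0) (XT.nd (nat_lit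 4446) (nat_lit 3572) (nat_lit 0) xc192 xc193) (XT.nd (nat_lit 4446) (nat_lit 1900) (nat_lit 0) xc194 xc195)) (XT.nd (nat_lit 54288) (nat_lit 0) (nat_lit 0) (XT.nd (nat_lit 4446) (nat_lit 456) (nat_lit 0) xc196 xc197) (XT.nd (nat_lit 49920) (nat_lit 0) (nat_lit 3724) xc198 xc199))) (XT.nd (nat_lit 155142) (nat_lit 0) (nat_lit 152) (XT.nd (nat_lit 54522) (nat_lit 0) (nat_lit 76) (XT.nd (nat_lit 50076) (nat_lit 0) (nat_lit 1444) xc200 xc201) (XT.nd (nat_lit 50232) (nat_lit 0) (nat_lit 76) xc202 xc203)) (XT.nd (nat_lit 54912) (nat_lit 0) (nat_lit 152) (XT.nd (nat_lit 4446) (nat_lit 3420) (nat_lit 0) xc204 xc205) (XT.nd (nat_lit 4446) (nat_lit 760) (nat_lit 0) xc206 xc207)))) (XT.nd (nat_lit 315198) (nat_lit 0) (nat_lit 1064) (XT.nd (nat_lit 157014) (nat_lit 0) (nat_lit 684) (XT.nd (nat_lit 55146) (nat_lit 0) (nat_lit 0) (XT.nd (nat_lit 50700) (nat_lit 0) (nat_lit 1064) xc208 xc209) (XT.nd (nat_lit 50856) (nat_lit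 0) (nat_lit 532) xc210 xc211)) (XT.nd (nat_lit 55536) (nat_lit 0) (nat_lit 228) (XT.nd (nat_lit 4446) (nat_lit 608) (nat_lit 0) xc212 xc213) (XT.nd (nat_lit 51246) (nat_lit 0) (nat_lit 0) xc214 xc215))) (XT.nd (nat_lit 111852) (nat_lit 0) (nat_lit 304) (XT.nd (nat_lit 55848) (nat_lit 0) (nat_lit 228) (XT.nd (nat_lit 4446) (nat_lit 2736) (nat_lit 0) xc216 xc217) (XT.nd (nat_lit 51558) (nat_lit 0) (nat_lit 532) xc218 xc219)) (XT.nd (nat_lit 103350) (nat_lit 0) (nat_lit 380) (XT.nd (nat_lit 51636) (nat_lit 0) (nat_lit 152) xc220 xc221) (XT.nd (nat_lit 51870) (nat_lit 0) (nat_lit 76) xc222 xc223))))) (XT.nd (nat_lit 747318) (nat_lit 0) (nat_lit 2812) (XT.nd (nat_lit 322842) (nat_lit 0) (nat_lit 1064) (XT.nd (nat_lit 160914) (nat_lit 0) (nat_lit 532) (XT.nd (nat_lit 56472) (nat_lit 0) (nat_lit 228) (XT.nd (nat_lit 4446) (nat_lit 1900) (nat_lit 0) xc224 xc225) (XT.nd (nat_lit 52182) (nat_lit 0) (nat_lit 228) xc226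 xc227)) (XT.nd (nat_lit 56784) (nat_lit 0) (nat_lit 228) (XT.nd (nat_lit 52338) (nat_lit 0) (nat_lit 456) xc228 xc229) (XT.nd (nat_lit 52494) (nat_lit 0) (nat_lit 228) xc230 xc231))) (XT.nd (nat_lit 211302) (nat_lit 0) (nat_lit 1064) (XT.nd (nat_lit 105456) (nat_lit 0) (nat_lit 456) (XT.nd (nat_lit 52650) (nat_lit 0) (nat_lit 228) xc232 xc233) (XT.nd (nat_lit 52884) (nat_lit 0) (nat_lit 304) xc234 xc235)) (XT.nd (nat_lit 106314) (nat_lit 0) (nat_lit 304) (XT.nd (nat_lit 53118) (nat_lit 0) (nat_lit 0) xc236 xc237) (XT.nd (nat_lit 53352) (nat_lit 0) (nat_lit 380) xc238 xc239)))) (XT.nd (nat_lit 531492) (nat_lit 0) (nat_lit 3420) (XT.nd (nat_lit 264342) (nat_lit 0) (nat_lit 1368) (XT.nd (nat_lit 107172) (nat_lit 0) (nat_lit 608) (XT.nd (nat_lit 53508) (nat_lit 0) (nat_lit 608) xc240 xc241) (XT.nd (nat_lit 103194) (nat_lit 0) (nat_lit 760) xc242 xc243)) (XT.nd (nat_lit 108264) (nat_lit 0) (nat_lit 836) (XT.nd (nat_lit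 54054) (nat_lit 0) (nat_lit 380) xc244 xc245) (XT.nd (nat_lit 104286) (nat_lit 0) (nat_lit 760) xc246 xc247))) (XT.nd (nat_lit 371748) (nat_lit 0) (nat_lit 2432) (XT.nd (nat_lit 159900) (nat_lit 0) (nat_lit 912) (XT.nd (nat_lit 104988) (nat_lit 0) (nat_lit 456) xc248 xc249) (XT.nd (nat_lit 105690) (nat_lit 0) (nat_lit 988) xc250 xc251)) (XT.nd (nat_lit 265200) (nat_lit 0) (nat_lit 2280) (XT.nd (nat_lit 106626) (nat_lit 0) (nat_lit 1064) xc252 xc253) (XT.nd (nat_lit 159744) (nat_lit 0) (nat_lit 1292) xc254 xc255)))))))) XT.nil))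

set_option maxRecDepth 10000000 in
noncomputable def Te : XT := XT.nil

set_option maxRecDepth 10000000 in
noncomputable def Tz : ZL := (ZL.cons (nat_lit 76) (nat_lit 6) (nat_lit 285722748365763983874) (ZL.cons (nat_lit 152) (nat_lit 3) (nat_lit 140806201329452226363) (ZL.cons (nat_lit 228) (nat_lit 6) (nat_lit 277626218628906038216) (ZL.cons (nat_lit 380) (nat_lit 3) (nat_lit 136821178245424254989) (ZL.cons (nat_lit 456) (nat_lit 6) (nat_lit 269779242612986054510) (ZL.cons (nat_lit 532) (nat_lit 6) (nat_lit 266033501458920539568) (ZL.cons (nat_lit 608) (nat_lit 3) (nat_lit 132959296015141842644) (ZL.cons (nat_lit 684) (nat_lit 6) (nat_lit 262175388070233059178) (ZL.cons (nat_lit 760) (nat_lit 6) (nat_lit 258546359972092384374) (ZL.cons (nat_lit 836) (nat_lit 3) (nat_lit 129217398710008884283) (ZL.cons (nat_lit 912) (nat_lit 6) (nat_lit 254808461031007489326) (ZL.cons (nat_lit 988) (nat_lit 6) (nat_lit 251293210259755513442)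 (ZL.cons (nat_lit 1064) (nat_lit 3) (nat_lit 125592448551200758757) (ZL.cons (nat_lit 1140) (nat_lit 6) (nat_lit 247672501965365978284) (ZL.cons (nat_lit 1216) (nat_lit 6) (nat_lit 244268206536771423106) (ZL.cons (nat_lit 1292) (nat_lit 3) (nat_lit 122081524065786684403) (ZL.cons (nat_lit 1368) (nat_lit 6) (nat_lit 240761782245319031272) (ZL.cons (nat_lit 1444) (nat_lit 6) (nat_lit 237465732326702355096) (ZL.cons (nat_lit 1520) (nat_lit 3) (nat_lit 118681818393837558956) (ZL.cons (nat_lit 1596) (nat_lit 6) (nat_lit 234070800910527178634) (ZL.cons (nat_lit 1672) (nat_lit 6) (nat_lit 230880397378642754076) (ZL.cons (nat_lit 1748) (nat_lit 3) (nat_lit 115390637748046019182) (ZL.cons (nat_lit 1824) (nat_lit 6) (nat_lit 227594281740801796782) (ZL.cons (nat_lit 1900) (nat_lit 6) (nat_lit 224507034892831443002) (ZL.cons (nat_lit 1976) (nat_lit 3) (nat_lit 112205400027701781833) (ZL.cons (nat_lit 2052) (nat_lit 6) (nat_lit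 221327170639421978604) (ZL.cons (nat_lit 2128) (nat_lit 6) (nat_lit 218340699059386766422) (ZL.cons (nat_lit 2204) (nat_lit 3) (nat_lit 109123633589194412662) (ZL.cons (nat_lit 2280) (nat_lit 6) (nat_lit 215264633331950497876) (ZL.cons (nat_lit 2356) (nat_lit 6) (nat_lit 212376662915192632678) (ZL.cons (nat_lit 2432) (nat_lit 3) (nat_lit 106142976175558480853) (ZL.cons (nat_lit 2508) (nat_lit 6) (nat_lit 209402053385932031522) (ZL.cons (nat_lit 2584) (nat_lit 6) (nat_lit 206610416524678555442) (ZL.cons (nat_lit 2660) (nat_lit 3) (nat_lit 103261174007933612202) (ZL.cons (nat_lit 2736) (nat_lit 6) (nat_lit 203908602473011748880) (ZL.cons (nat_lit 2812) (nat_lit 6) (nat_lit 203735030557587475082) (ZL.cons (nat_lit 2888) (nat_lit 6) (nat_lit 201037665490983607078) (ZL.cons (nat_lit 2964) (nat_lit 3) (nat_lit 100476081042185332159) (ZL.cons (nat_lit 3040) (nat_lit 6) (nat_lit 198427895895123636428) (ZL.cons (nat_lit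 3116) (nat_lit 6) (nat_lit 198259379472381623032) (ZL.cons (nat_lit 3192) (nat_lit 6) (nat_lit 195654329804774923902) (ZL.cons (nat_lit 3268) (nat_lit 3) (nat_lit 97785658394322926633) (ZL.cons (nat_lit 3344) (nat_lit 6) (nat_lit 193134736824559454276) (ZL.cons (nat_lit 3420) (nat_lit 6) (nat_lit 192971128647140023798) (ZL.cons (nat_lit 3496) (nat_lit 6) (nat_lit 190456543038808449926) (ZL.cons (nat_lit 3572) (nat_lit 3) (nat_lit 95187973938759045042) (ZL.cons (nat_lit 3648) (nat_lit 6) (nat_lit 188025362752925405034) (ZL.cons (nat_lit 3724) (nat_lit 6) (nat_lit 187866519862226928838) (ZL.cons (nat_lit 3800) (nat_lit 6) (nat_lit 185440651897175508952) (ZL.cons (nat_lit 3876) (nat_lit 3) (nat_lit 92681202083883696299) (ZL.cons (nat_lit 3952) (nat_lit 6) (nat_lit 183096224291908931122) (ZL.cons (nat_lit 4028) (nat_lit 6) (nat_lit 182942007893172546468) (ZL.cons (nat_lit 4104) (nat_lit 6) (nat_lit 180603216129076239606)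 (ZL.cons (nat_lit 4180) (nat_lit 3) (nat_lit 90263623729873985653) (ZL.cons (nat_lit 4256) (nat_lit 6) (nat_lit 178343985271024407282) (ZL.cons (nat_lit 4332) (nat_lit 6) (nat_lit 178194260612057043540) (ZL.cons (nat_lit 4408) (nat_lit 6) (nat_lit 176162341233801276052) (ZL.cons (nat_lit 4484) (nat_lit 6) (nat_lit 175941008817902751688) (ZL.cons (nat_lit 4560) (nat_lit 3) (nat_lit 87933626414131828123) (ZL.cons (nat_lit 4636) (nat_lit 6) (nat_lit 173765523216494087140) (ZL.cons (nat_lit 4712) (nat_lit 6) (nat_lit 173620159469923831076) (ZL.cons (nat_lit 4788) (nat_lit 6) (nat_lit 171665902898082246210) (ZL.cons (nat_lit 4864) (nat_lit 6) (nat_lit 171451017057404067214) (ZL.cons (nat_lit 4940) (nat_lit 3) (nat_lit 85689704650236453296) (ZL.cons (nat_lit 5016) (nat_lit 6) (nat_lit 169357930223547793990) (ZL.cons (nat_lit 5092) (nat_lit 6) (nat_lit 169216800372508710436) (ZL.cons (nat_lit 5168) (nat_lit 6) (nat_lit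 167339070057529311744) (ZL.cons (nat_lit 5244) (nat_lit 6) (nat_lit 167130443027744671946) (ZL.cons (nat_lit 5320) (nat_lit 3) (nat_lit 83530460466818374507) (ZL.cons (nat_lit 5396) (nat_lit 6) (nat_lit 165118514235491191480) (ZL.cons (nat_lit 5472) (nat_lit 6) (nat_lit 164981494962637712304) (ZL.cons (nat_lit 5548) (nat_lit 6) (nat_lit 163179255999716202892) (ZL.cons (nat_lit 5624) (nat_lit 6) (nat_lit 162976705485362183670) (ZL.cons (nat_lit 5700) (nat_lit 3) (nat_lit 81454604153308313713) (ZL.cons (nat_lit 5776) (nat_lit 6) (nat_lit 161310973822932135802) (ZL.cons (nat_lit 5852) (nat_lit 6) (nat_lit 161044800744014485468) (ZL.cons (nat_lit 5928) (nat_lit 6) (nat_lit 160911772323768389178) (ZL.cons (nat_lit 6004) (nat_lit 6) (nat_lit 159184092666490527478) (ZL.cons (nat_lit 6080) (nat_lit 6) (nat_lit 158987441681680800076) (ZL.cons (nat_lit 6156) (nat_lit 3) (nat_lit 79460955220090130015) (ZL.cons (nat_lit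 6232) (nat_lit 6) (nat_lit 157392955391363347014) (ZL.cons (nat_lit 6308) (nat_lit 6) (nat_lit 157134534926394754456) (ZL.cons (nat_lit 6384) (nat_lit 6) (nat_lit 157005381120330583298) (ZL.cons (nat_lit 6460) (nat_lit 6) (nat_lit 155351433013172623734) (ZL.cons (nat_lit 6536) (nat_lit 6) (nat_lit 155160509726949587420) (ZL.cons (nat_lit 6612) (nat_lit 3) (nat_lit 77548443581192978154) (ZL.cons (nat_lit 6688) (nat_lit 6) (nat_lit 153636577891798971098) (ZL.cons (nat_lit 6764) (nat_lit 6) (nat_lit 153385684236489657934) (ZL.cons (nat_lit 6840) (nat_lit 6) (nat_lit 153260292191767161666) (ZL.cons (nat_lit 6916) (nat_lit 6) (nat_lit 151988471145177450636) (ZL.cons (nat_lit 6992) (nat_lit 6) (nat_lit 151679353830561072568) (ZL.cons (nat_lit 7068) (nat_lit 6) (nat_lit 151493991416752299450) (ZL.cons (nat_lit 7144) (nat_lit 3) (nat_lit 75716110968296717147) (ZL.cons (nat_lit 7220) (nat_lit 6) (nat_lit 150040027540847971398)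 (ZL.cons (nat_lit 7296) (nat_lit 6) (nat_lit 149796441467732133376) (ZL.cons (nat_lit 7372) (nat_lit 6) (nat_lit 149674701618486991370) (ZL.cons (nat_lit 7448) (nat_lit 6) (nat_lit 148466272946320508022) (ZL.cons (nat_lit 7524) (nat_lit 6) (nat_lit 148166159048634704074) (ZL.cons (nat_lit 7600) (nat_lit 6) (nat_lit 147986195540082497164) (ZL.cons (nat_lit 7676) (nat_lit 3) (nat_lit 73963112585498110157) (ZL.cons (nat_lit 7752) (nat_lit 6) (nat_lit 146601719640841382722) (ZL.cons (nat_lit 7828) (nat_lit 6) (nat_lit 146365228307719209886) (ZL.cons (nat_lit 7904) (nat_lit 6) (nat_lit 146247034279325868132) (ZL.cons (nat_lit 7980) (nat_lit 6) (nat_lit 145101756258461864478) (ZL.cons (nat_lit 8056) (nat_lit 6) (nat_lit 144810383542262054820) (ZL.cons (nat_lit 8132) (nat_lit 6) (nat_lit 144635661689298747140) (ZL.cons (nat_lit 8208) (nat_lit 3) (nat_lit 72288719014995841118) (ZL.cons (nat_lit 8284) (nat_lit 6) (nat_lit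 143664958253880477918) (ZL.cons (nat_lit 8360) (nat_lit 6) (nat_lit 143320302641488787850) (ZL.cons (nat_lit 8436) (nat_lit 6) (nat_lit 143090699405447843348) (ZL.cons (nat_lit 8512) (nat_lit 6) (nat_lit 142975947921570812518) (ZL.cons (nat_lit 8588) (nat_lit 6) (nat_lit 141893683592961840102) (ZL.cons (nat_lit 8664) (nat_lit 6) (nat_lit 141610797460729015190) (ZL.cons (nat_lit 8740) (nat_lit 6) (nat_lit 141441164593774347538) (ZL.cons (nat_lit 8816) (nat_lit 3) (nat_lit 70692318384602190806) (ZL.cons (nat_lit 8892) (nat_lit 6) (nat_lit 140529279836347547252) (ZL.cons (nat_lit 8968) (nat_lit 6) (nat_lit 140194662736938139420) (ZL.cons (nat_lit 9044) (nat_lit 6) (nat_lit 139971746973791591358) (ZL.cons (nat_lit 9120) (nat_lit 6) (nat_lit 139860337766143988610) (ZL.cons (nat_lit 9196) (nat_lit 6) (nat_lit 139225899174188673508) (ZL.cons (nat_lit 9272) (nat_lit 6) (nat_lit 138841057834802000704) (ZL.cons (nat_lit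 9348) (nat_lit 6) (nat_lit 138566411104478869722) (ZL.cons (nat_lit 9424) (nat_lit 6) (nat_lit 138401719000639386564) (ZL.cons (nat_lit 9500) (nat_lit 3) (nat_lit 69173418808780874871) (ZL.cons (nat_lit 9576) (nat_lit 6) (nat_lit 137548799992755625720) (ZL.cons (nat_lit 9652) (nat_lit 6) (nat_lit 137223929022455229766) (ZL.cons (nat_lit 9728) (nat_lit 6) (nat_lit 137007505951439163688) (ZL.cons (nat_lit 9804) (nat_lit 6) (nat_lit 136899341672169646456) (ZL.cons (nat_lit 9880) (nat_lit 6) (nat_lit 136316760053461304044) (ZL.cons (nat_lit 9956) (nat_lit 6) (nat_lit 135943127685124728506) (ZL.cons (nat_lit 10032) (nat_lit 6) (nat_lit 135676480374131397456) (ZL.cons (nat_lit 10108) (nat_lit 6) (nat_lit 135516585127685297304) (ZL.cons (nat_lit 10184) (nat_lit 3) (nat_lit 67731651115746708447) (ZL.cons (nat_lit 10260) (nat_lit 6) (nat_lit 135143861477166254230) (ZL.cons (nat_lit 10336) (nat_lit 6) (nat_lit 134722887945687756764)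 (ZL.cons (nat_lit 10412) (nat_lit 6) (nat_lit 134407479236658246130) (ZL.cons (nat_lit 10488) (nat_lit 6) (nat_lit 134197359750234881006) (ZL.cons (nat_lit 10564) (nat_lit 6) (nat_lit 134092345886866417676) (ZL.cons (nat_lit 10640) (nat_lit 6) (nat_lit 133562143575245777382) (ZL.cons (nat_lit 10716) (nat_lit 6) (nat_lit 133199393703074344820) (ZL.cons (nat_lit 10792) (nat_lit 6) (nat_lit 132940512818614800112) (ZL.cons (nat_lit 10868) (nat_lit 6) (nat_lit 132785274715269071810) (ZL.cons (nat_lit 10944) (nat_lit 3) (nat_lit 66366771874046244445) (ZL.cons (nat_lit 11020) (nat_lit 6) (nat_lit 132459880331145006108) (ZL.cons (nat_lit 11096) (nat_lit 6) (nat_lit 132051168164661027984) (ZL.cons (nat_lit 11172) (nat_lit 6) (nat_lit 131744946117059561348) (ZL.cons (nat_lit 11248) (nat_lit 6) (nat_lit 131540946615677653462) (ZL.cons (nat_lit 11324) (nat_lit 6) (nat_lit 131438991408523805570) (ZL.cons (nat_lit 11400)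 (nat_lit 6) (nat_lit 131415135070744966534) (ZL.cons (nat_lit 11476) (nat_lit 6) (nat_lit 130961799317549779132) (ZL.cons (nat_lit 11552) (nat_lit 6) (nat_lit 130609614975635766934) (ZL.cons (nat_lit 11628) (nat_lit 6) (nat_lit 130358274311111937120) (ZL.cons (nat_lit 11704) (nat_lit 6) (nat_lit 130207557705921909644) (ZL.cons (nat_lit 11780) (nat_lit 3) (nat_lit 65078666732972322336) (ZL.cons (nat_lit 11856) (nat_lit 6) (nat_lit 129930335286048947652) (ZL.cons (nat_lit 11932) (nat_lit 6) (nat_lit 129533527357423726176) (ZL.cons (nat_lit 12008) (nat_lit 6) (nat_lit 129236224398587350800) (ZL.cons (nat_lit 12084) (nat_lit 6) (nat_lit 129038166630255401396) (ZL.cons (nat_lit 12160) (nat_lit 6) (nat_lit 128939180992241956840) (ZL.cons (nat_lit 12236) (nat_lit 6) (nat_lit 128955874790907707582) (ZL.cons (nat_lit 12312) (nat_lit 6) (nat_lit 128515742991689079034) (ZL.cons (nat_lit 12388) (nat_lit 6) (nat_lit 128173816446141494380)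 (ZL.cons (nat_lit 12464) (nat_lit 6) (nat_lit 127929796383496999414) (ZL.cons (nat_lit 12540) (nat_lit 6) (nat_lit 127783469582341632930) (ZL.cons (nat_lit 12616) (nat_lit 3) (nat_lit 63867354092152726673) (ZL.cons (nat_lit 12692) (nat_lit 6) (nat_lit 128037566361790498612) (ZL.cons (nat_lit 12768) (nat_lit 6) (nat_lit 127555372552287008832) (ZL.cons (nat_lit 12844) (nat_lit 6) (nat_lit 127170122136146017106) (ZL.cons (nat_lit 12920) (nat_lit 6) (nat_lit 126881478486790312862) (ZL.cons (nat_lit 12996) (nat_lit 6) (nat_lit 126689189391322400816) (ZL.cons (nat_lit 13072) (nat_lit 6) (nat_lit 126593086830144299304) (ZL.cons (nat_lit 13148) (nat_lit 6) (nat_lit 126651576880581144824) (ZL.cons (nat_lit 13224) (nat_lit 6) (nat_lit 126224264454155291866) (ZL.cons (nat_lit 13300) (nat_lit 6) (nat_lit 125892296934206180550) (ZL.cons (nat_lit 13376) (nat_lit 6) (nat_lit 125655384252027059226) (ZL.cons (nat_lit 13452)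 (nat_lit 6) (nat_lit 125513319396536412152) (ZL.cons (nat_lit 13528) (nat_lit 3) (nat_lit 62732989116697245112) (ZL.cons (nat_lit 13604) (nat_lit 6) (nat_lit 125803566252198151792) (ZL.cons (nat_lit 13680) (nat_lit 6) (nat_lit 125335416922583113172) (ZL.cons (nat_lit 13756) (nat_lit 6) (nat_lit 124961387392349140624) (ZL.cons (nat_lit 13832) (nat_lit 6) (nat_lit 124681150839576612228) (ZL.cons (nat_lit 13908) (nat_lit 6) (nat_lit 124494462397374755876) (ZL.cons (nat_lit 13984) (nat_lit 6) (nat_lit 124401158939920288386) (ZL.cons (nat_lit 14060) (nat_lit 6) (nat_lit 125010599686977306732) (ZL.cons (nat_lit 14136) (nat_lit 6) (nat_lit 124502802878537816010) (ZL.cons (nat_lit 14212) (nat_lit 6) (nat_lit 124087936445114657800) (ZL.cons (nat_lit 14288) (nat_lit 6) (nat_lit 123765637882057268172) (ZL.cons (nat_lit 14364) (nat_lit 6) (nat_lit 123535625569262004748) (ZL.cons (nat_lit 14440) (nat_lit 6) (nat_lit 123397698525096327980)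 (ZL.cons (nat_lit 14516) (nat_lit 3) (nat_lit 61675868115391891209) (ZL.cons (nat_lit 14592) (nat_lit 6) (nat_lit 124271984301512105990) (ZL.cons (nat_lit 14668) (nat_lit 6) (nat_lit 123725694795184797698) (ZL.cons (nat_lit 14744) (nat_lit 6) (nat_lit 123271180882937187386) (ZL.cons (nat_lit 14820) (nat_lit 6) (nat_lit 122908045416690612096) (ZL.cons (nat_lit 14896) (nat_lit 6) (nat_lit 122635971093610487440) (ZL.cons (nat_lit 14972) (nat_lit 6) (nat_lit 122454720178851403600) (ZL.cons (nat_lit 15048) (nat_lit 6) (nat_lit 122364134297827648760) (ZL.cons (nat_lit 15124) (nat_lit 6) (nat_lit 123003413646043458508) (ZL.cons (nat_lit 15200) (nat_lit 6) (nat_lit 122510407035908030626) (ZL.cons (nat_lit 15276) (nat_lit 6) (nat_lit 122107624090837003234) (ZL.cons (nat_lit 15352) (nat_lit 6) (nat_lit 121794712864567692916) (ZL.cons (nat_lit 15428) (nat_lit 6) (nat_lit 121571399939523747844) (ZL.cons (nat_lit 15504)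 (nat_lit 6) (nat_lit 121437490187906585932) (ZL.cons (nat_lit 15580) (nat_lit 3) (nat_lit 60696433300597688327) (ZL.cons (nat_lit 15656) (nat_lit 6) (nat_lit 122335328311663092414) (ZL.cons (nat_lit 15732) (nat_lit 6) (nat_lit 121804950150180268830) (ZL.cons (nat_lit 15808) (nat_lit 6) (nat_lit 121363674507221423868) (ZL.cons (nat_lit 15884) (nat_lit 6) (nat_lit 121011115802127661448) (ZL.cons (nat_lit 15960) (nat_lit 6) (nat_lit 120746965973894530714) (ZL.cons (nat_lit 16036) (nat_lit 6) (nat_lit 120570994211992507570) (ZL.cons (nat_lit 16112) (nat_lit 6) (nat_lit 120483046754687891220) (ZL.cons (nat_lit 16188) (nat_lit 6) (nat_lit 121720855028159289394) (ZL.cons (nat_lit 16264) (nat_lit 6) (nat_lit 121154193807115887458) (ZL.cons (nat_lit 16340) (nat_lit 6) (nat_lit 120675546612809646794) (ZL.cons (nat_lit 16416) (nat_lit 6) (nat_lit 120284495209828066804) (ZL.cons (nat_lit 16492) (nat_lit 6) (nat_lit 119980697902770483968)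 (ZL.cons (nat_lit 16568) (nat_lit 6) (nat_lit 119763889237679275162) (ZL.cons (nat_lit 16644) (nat_lit 6) (nat_lit 119633879770089797580) (ZL.cons (nat_lit 16720) (nat_lit 3) (nat_lit 59795277949748195254) (ZL.cons (nat_lit 16796) (nat_lit 6) (nat_lit 121159456877128987866) (ZL.cons (nat_lit 16872) (nat_lit 6) (nat_lit 120557569384667548696) (ZL.cons (nat_lit 16948) (nat_lit 6) (nat_lit 120042639130800729680) (ZL.cons (nat_lit 17024) (nat_lit 6) (nat_lit 119614216176471753988) (ZL.cons (nat_lit 17100) (nat_lit 6) (nat_lit 119271926171526353582) (ZL.cons (nat_lit 17176) (nat_lit 6) (nat_lit 119015470027610692674) (ZL.cons (nat_lit 17252) (nat_lit 6) (nat_lit 118844623656832029430) (ZL.cons (nat_lit 17328) (nat_lit 6) (nat_lit 118759237775953761126) (ZL.cons (nat_lit 17404) (nat_lit 6) (nat_lit 120650643316498472036) (ZL.cons (nat_lit 17480) (nat_lit 6) (nat_lit 120014555560524375358) (ZL.cons (nat_lit 17556)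 (nat_lit 6) (nat_lit 119464399035239519108) (ZL.cons (nat_lit 17632) (nat_lit 6) (nat_lit 118999693021349965064) (ZL.cons (nat_lit 17708) (nat_lit 6) (nat_lit 118620031465057168956) (ZL.cons (nat_lit 17784) (nat_lit 6) (nat_lit 118325082623253690478) (ZL.cons (nat_lit 17860) (nat_lit 6) (nat_lit 118114588773650575132) (ZL.cons (nat_lit 17936) (nat_lit 6) (nat_lit 117988365989583121166) (ZL.cons (nat_lit 18012) (nat_lit 3) (nat_lit 58973151989649129967) (ZL.cons (nat_lit 18088) (nat_lit 6) (nat_lit 119524677856587601560) (ZL.cons (nat_lit 18164) (nat_lit 6) (nat_lit 118940321067790087802) (ZL.cons (nat_lit 18240) (nat_lit 6) (nat_lit 118440388782482496524) (ZL.cons (nat_lit 18316) (nat_lit 6) (nat_lit 118024444166629122064) (ZL.cons (nat_lit 18392) (nat_lit 6) (nat_lit 117692123773478247884) (ZL.cons (nat_lit 18468) (nat_lit 6) (nat_lit 117443137225987314968) (ZL.cons (nat_lit 18544) (nat_lit 6) (nat_lit 117277266963095408900)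 (ZL.cons (nat_lit 18620) (nat_lit 6) (nat_lit 117194368049621362006) (ZL.cons (nat_lit 18696) (nat_lit 3) (nat_lit 58725669225113491530) (ZL.cons (nat_lit 18772) (nat_lit 6) (nat_lit 117476786658194616008) (ZL.cons (nat_lit 18848) (nat_lit 6) (nat_lit 117553153518395739002) (ZL.cons (nat_lit 18924) (nat_lit 6) (nat_lit 117680505759154799622) (ZL.cons (nat_lit 19000) (nat_lit 6) (nat_lit 117858954659128771804) (ZL.cons (nat_lit 19076) (nat_lit 6) (nat_lit 118088656144540933782) (ZL.cons (nat_lit 19152) (nat_lit 6) (nat_lit 118369810925427082586) (ZL.cons (nat_lit 19228) (nat_lit 6) (nat_lit 118702664671013235236) (ZL.cons (nat_lit 19304) (nat_lit 6) (nat_lit 119087508224378059252) (ZL.cons (nat_lit 19380) (nat_lit 6) (nat_lit 118469947296247868300) (ZL.cons (nat_lit 19456) (nat_lit 6) (nat_lit 117935814747427619514) (ZL.cons (nat_lit 19532) (nat_lit 6) (nat_lit 117484643860156207820) (ZL.cons (nat_lit 19608)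 (nat_lit 6) (nat_lit 117116040407444755288) (ZL.cons (nat_lit 19684) (nat_lit 6) (nat_lit 116829682308606426670) (ZL.cons (nat_lit 19760) (nat_lit 6) (nat_lit 116625319347826703032) (ZL.cons (nat_lit 19836) (nat_lit 6) (nat_lit 116502772955528204036) (ZL.cons (nat_lit 19912) (nat_lit 3) (nat_lit 58230968026169509187) (ZL.cons (nat_lit 19988) (nat_lit 6) (nat_lit 116600694684562950272) (ZL.cons (nat_lit 20064) (nat_lit 6) (nat_lit 116652354546737245160) (ZL.cons (nat_lit 20140) (nat_lit 6) (nat_lit 116755719410771229948) (ZL.cons (nat_lit 20216) (nat_lit 6) (nat_lit 116910879595478138218) (ZL.cons (nat_lit 20292) (nat_lit 6) (nat_lit 117117970677718393482) (ZL.cons (nat_lit 20368) (nat_lit 6) (nat_lit 117377173610864827030) (ZL.cons (nat_lit 20444) (nat_lit 6) (nat_lit 117688714882917275552) (ZL.cons (nat_lit 20520) (nat_lit 6) (nat_lit 118052866714404716914) (ZL.cons (nat_lit 20596) (nat_lit 6) (nat_lit 117485530026251790934)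 (ZL.cons (nat_lit 20672) (nat_lit 6) (nat_lit 117000158875467721732) (ZL.cons (nat_lit 20748) (nat_lit 6) (nat_lit 116596329151338231966) (ZL.cons (nat_lit 20824) (nat_lit 6) (nat_lit 116273687992939324996) (ZL.cons (nat_lit 20900) (nat_lit 6) (nat_lit 116031953480812205656) (ZL.cons (nat_lit 20976) (nat_lit 6) (nat_lit 115870914390625889090) (ZL.cons (nat_lit 21052) (nat_lit 6) (nat_lit 115790430008612251326) (ZL.cons (nat_lit 21128) (nat_lit 3) (nat_lit 57900137579438091228) (ZL.cons (nat_lit 21204) (nat_lit 6) (nat_lit 115826486813082844396) (ZL.cons (nat_lit 21280) (nat_lit 6) (nat_lit 115905144679090001078) (ZL.cons (nat_lit 21356) (nat_lit 6) (nat_lit 116036317487071833516) (ZL.cons (nat_lit 21432) (nat_lit 6) (nat_lit 116220119854045024868) (ZL.cons (nat_lit 21508) (nat_lit 6) (nat_lit 116456712384019551702) (ZL.cons (nat_lit 21584) (nat_lit 6) (nat_lit 116746301808332284968) (ZL.cons (nat_lit 21660)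 (nat_lit 6) (nat_lit 117089141166286022202) (ZL.cons (nat_lit 21736) (nat_lit 6) (nat_lit 116570565876169275806) (ZL.cons (nat_lit 21812) (nat_lit 6) (nat_lit 116132535888527128532) (ZL.cons (nat_lit 21888) (nat_lit 6) (nat_lit 115774668458710184328) (ZL.cons (nat_lit 21964) (nat_lit 6) (nat_lit 115496650887022486636) (ZL.cons (nat_lit 22040) (nat_lit 6) (nat_lit 115298240245488774368) (ZL.cons (nat_lit 22116) (nat_lit 6) (nat_lit 115179263165587319034) (ZL.cons (nat_lit 22192) (nat_lit 3) (nat_lit 57569807843381433466) (ZL.cons (nat_lit 22268) (nat_lit 6) (nat_lit 115074828685432256164) (ZL.cons (nat_lit 22344) (nat_lit 6) (nat_lit 115128038343471779898) (ZL.cons (nat_lit 22420) (nat_lit 6) (nat_lit 115234504153426784230) (ZL.cons (nat_lit 22496) (nat_lit 6) (nat_lit 115394319143674899750) (ZL.cons (nat_lit 22572) (nat_lit 6) (nat_lit 115607622958382362672) (ZL.cons (nat_lit 22648) (nat_lit 6) (nat_lit 115874601979523189224)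 (ZL.cons (nat_lit 22724) (nat_lit 6) (nat_lit 116195489489737211202) (ZL.cons (nat_lit 22800) (nat_lit 6) (nat_lit 115724255362762386734) (ZL.cons (nat_lit 22876) (nat_lit 6) (nat_lit 115332187669432785022) (ZL.cons (nat_lit 22952) (nat_lit 6) (nat_lit 115018943826327050096) (ZL.cons (nat_lit 23028) (nat_lit 6) (nat_lit 114784250125232759476) (ZL.cons (nat_lit 23104) (nat_lit 6) (nat_lit 114627901493983908440) (ZL.cons (nat_lit 23180) (nat_lit 6) (nat_lit 114549761317271638768) (ZL.cons (nat_lit 23256) (nat_lit 3) (nat_lit 57198361687565125900) (ZL.cons (nat_lit 23332) (nat_lit 6) (nat_lit 114423721378963113594) (ZL.cons (nat_lit 23408) (nat_lit 6) (nat_lit 114504738980950484978) (ZL.cons (nat_lit 23484) (nat_lit 6) (nat_lit 114639846973171772392) (ZL.cons (nat_lit 23560) (nat_lit 6) (nat_lit 114829163411154159482) (ZL.cons (nat_lit 23636) (nat_lit 6) (nat_lit 115072853717027922122) (ZL.cons (nat_lit 23712)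 (nat_lit 6) (nat_lit 115371130824070037386) (ZL.cons (nat_lit 23788) (nat_lit 6) (nat_lit 114945858991407758480) (ZL.cons (nat_lit 23864) (nat_lit 6) (nat_lit 114598414884789366046) (ZL.cons (nat_lit 23940) (nat_lit 6) (nat_lit 114328494912277038192) (ZL.cons (nat_lit 24016) (nat_lit 6) (nat_lit 114135863221467608804) (ZL.cons (nat_lit 24092) (nat_lit 6) (nat_lit 114020351493407943430) (ZL.cons (nat_lit 24168) (nat_lit 3) (nat_lit 56990929397760062930) (ZL.cons (nat_lit 24244) (nat_lit 6) (nat_lit 113791578362973654792) (ZL.cons (nat_lit 24320) (nat_lit 6) (nat_lit 113846384310754364236) (ZL.cons (nat_lit 24396) (nat_lit 6) (nat_lit 113956044095008018702) (ZL.cons (nat_lit 24472) (nat_lit 6) (nat_lit 114120653534963577686) (ZL.cons (nat_lit 24548) (nat_lit 6) (nat_lit 114340356464112264494) (ZL.cons (nat_lit 24624) (nat_lit 6) (nat_lit 114615344855887315846) (ZL.cons (nat_lit 24700) (nat_lit 6) (nat_lit 114234696609936246218)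 (ZL.cons (nat_lit 24776) (nat_lit 6) (nat_lit 113930576373911260856) (ZL.cons (nat_lit 24852) (nat_lit 6) (nat_lit 113702718411683794234) (ZL.cons (nat_lit 24928) (nat_lit 6) (nat_lit 113550923624063550508) (ZL.cons (nat_lit 25004) (nat_lit 6) (nat_lit 113475059374828337236) (ZL.cons (nat_lit 25080) (nat_lit 3) (nat_lit 56615528468764133531) (ZL.cons (nat_lit 25156) (nat_lit 6) (nat_lit 113258864881476114712) (ZL.cons (nat_lit 25232) (nat_lit 6) (nat_lit 113342313011523107238) (ZL.cons (nat_lit 25308) (nat_lit 6) (nat_lit 113481474243511033274) (ZL.cons (nat_lit 25384) (nat_lit 6) (nat_lit 113676470174632891976) (ZL.cons (nat_lit 25460) (nat_lit 6) (nat_lit 113927471189682867496) (ZL.cons (nat_lit 25536) (nat_lit 6) (nat_lit 113590146814325204940) (ZL.cons (nat_lit 25612) (nat_lit 6) (nat_lit 113328088588585080810) (ZL.cons (nat_lit 25688) (nat_lit 6) (nat_lit 113141067529546799850) (ZL.cons (nat_lit 25764)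 (nat_lit 6) (nat_lit 113028920220751008226) (ZL.cons (nat_lit 25840) (nat_lit 3) (nat_lit 56495774334701806262) (ZL.cons (nat_lit 25916) (nat_lit 6) (nat_lit 112741667326624134054) (ZL.cons (nat_lit 25992) (nat_lit 6) (nat_lit 112798117452838264786) (ZL.cons (nat_lit 26068) (nat_lit 6) (nat_lit 112911067030619528882) (ZL.cons (nat_lit 26144) (nat_lit 6) (nat_lit 113080614753773754636) (ZL.cons (nat_lit 26220) (nat_lit 6) (nat_lit 113306908770796902050) (ZL.cons (nat_lit 26296) (nat_lit 6) (nat_lit 113011646405724100726) (ZL.cons (nat_lit 26372) (nat_lit 6) (nat_lit 112790425083173162258) (ZL.cons (nat_lit 26448) (nat_lit 6) (nat_lit 112643051502959333400) (ZL.cons (nat_lit 26524) (nat_lit 6) (nat_lit 112569396892051359346) (ZL.cons (nat_lit 26600) (nat_lit 3) (nat_lit 56147169863002431139) (ZL.cons (nat_lit 26676) (nat_lit 6) (nat_lit 112322981908271145360) (ZL.cons (nat_lit 26752) (nat_lit 6) (nat_lit 112408933482219547662)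 (ZL.cons (nat_lit 26828) (nat_lit 6) (nat_lit 112552269551167111476) (ZL.cons (nat_lit 26904) (nat_lit 6) (nat_lit 112753115360222625942) (ZL.cons (nat_lit 26980) (nat_lit 6) (nat_lit 112498689898339010280) (ZL.cons (nat_lit 27056) (nat_lit 6) (nat_lit 112317116054612523914) (ZL.cons (nat_lit 27132) (nat_lit 6) (nat_lit 112208235172286512626) (ZL.cons (nat_lit 27208) (nat_lit 3) (nat_lit 56085976056362967137) (ZL.cons (nat_lit 27284) (nat_lit 6) (nat_lit 111916491210841059246) (ZL.cons (nat_lit 27360) (nat_lit 6) (nat_lit 111974634840841613898) (ZL.cons (nat_lit 27436) (nat_lit 6) (nat_lit 112090972905956315918) (ZL.cons (nat_lit 27512) (nat_lit 6) (nat_lit 112265607060805168444) (ZL.cons (nat_lit 27588) (nat_lit 6) (nat_lit 112050829077746004884) (ZL.cons (nat_lit 27664) (nat_lit 6) (nat_lit 111907747931907336088) (ZL.cons (nat_lit 27740) (nat_lit 6) (nat_lit 111836238600928720502) (ZL.cons (nat_lit 27816)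 (nat_lit 3) (nat_lit 55789145087250854158) (ZL.cons (nat_lit 27892) (nat_lit 6) (nat_lit 111607791622235979886) (ZL.cons (nat_lit 27968) (nat_lit 6) (nat_lit 111696321743402834256) (ZL.cons (nat_lit 28044) (nat_lit 6) (nat_lit 111843957894418824988) (ZL.cons (nat_lit 28120) (nat_lit 6) (nat_lit 111667672609247478998) (ZL.cons (nat_lit 28196) (nat_lit 6) (nat_lit 111561963014756205904) (ZL.cons (nat_lit 28272) (nat_lit 3) (nat_lit 55763368371669084335) (ZL.cons (nat_lit 28348) (nat_lit 6) (nat_lit 111308083283784446526) (ZL.cons (nat_lit 28424) (nat_lit 6) (nat_lit 111367971222685017814) (ZL.cons (nat_lit 28500) (nat_lit 6) (nat_lit 111487799429753160896) (ZL.cons (nat_lit 28576) (nat_lit 6) (nat_lit 111348885695929210608) (ZL.cons (nat_lit 28652) (nat_lit 6) (nat_lit 111279459160998515866) (ZL.cons (nat_lit 28728) (nat_lit 3) (nat_lit 55537623972207290219) (ZL.cons (nat_lit 28804) (nat_lit 6) (nat_lit 111105634435580880156)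 (ZL.cons (nat_lit 28880) (nat_lit 6) (nat_lit 111196820460382740156) (ZL.cons (nat_lit 28956) (nat_lit 6) (nat_lit 111094189786119368220) (ZL.cons (nat_lit 29032) (nat_lit 3) (nat_lit 55529994761303355356) (ZL.cons (nat_lit 29108) (nat_lit 6) (nat_lit 110909082155771592420) (ZL.cons (nat_lit 29184) (nat_lit 6) (nat_lit 110970766732839180850) (ZL.cons (nat_lit 29260) (nat_lit 6) (nat_lit 110903362329993846148) (ZL.cons (nat_lit 29336) (nat_lit 3) (nat_lit 55389071319273320818) (ZL.cons (nat_lit 29412) (nat_lit 6) (nat_lit 110809440724447930348) (ZL.cons (nat_lit 29488) (nat_lit 3) (nat_lit 55388118292557626577) (ZL.cons (nat_lit 29564) (nat_lit 6) (nat_lit 110712701470735637072) (ZL.cons (nat_lit 29640) (nat_lit 1) (nat_lit 18446744073709551617) ZL.nil)))))))))))))))))))))))))))))))))))))))))))))))))))))))))))))))))))))))))))))))))))))))))))))))))))))))))))))))))))))))))))))))))))))))))))))))))))))))))))))))))))))))))))))))))))))))))))))))))))))))))))))))))))))))))))))))))))))))))))))))))))))))))))))))))))))))))))))))))))))))))))))))))))))))))))))))))))))))))))))))))))))))))))))))))))))))))))))))))))))))))))))))))))))))))))))))))))))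

noncomputable def vl : XL := ⟨(nat_lit 0), (nat_lit 76), (nat_lit 84867707), (nat_lit 152), (nat_lit 249793595), (nat_lit 76), (nat_lit 84867707), (nat_lit 1), (nat_lit 5), (nat_lit 2), (nat_lit 4), (nat_lit 1), (nat_lit 4), (nat_lit 0), (nat_lit 0), (nat_lit 0)⟩

noncomputable def cp0 : Nat := (nat_lit 17454725484378056441993726608849356977339138167976454365330004699185917532338769430206335109025853387070542870711009844741451755505198333561950876530996599834439296378353716800483088596821101829076531973756671205238221315104742002052578114585995302973536134258565620899906021904322089095392207704347470444150723942102343766988690696899731859831107897609786688985492386877859335859670682089701470744975554224550917419486888552935376674434617943038325902509212714292704059107973888062885107632246195802975290758692653565425843628770515906389404084336284705112698459026768254418631958923998608332311906087832127476786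478772164449335533170898641032768553321373198558408525440084678910515172924163253341686122764630268514944508087165988856119143719040689670609145982899805606391606350092620861524216916393844689973661888172762971760535941193507056129349962683736065813590467899580877944312435651148762785413843786249347930124179794879070459113937525141208896723265666178446821872051747221775002534318274871123932172562100503756998028217969685898312091445399879316034271899140414414310847238537116153367561580439761195106353590142335860639413888229810066022294813193991137083867974727370421094035450334855498618325507956320419862747839176138292139858883925258737548283440666982078833451207182037803333314599324704791209980763577830311365283623668236518045813759984839761879168617954916143684582302031742555762235876165545486083550773423506129161968338572506069361974846458937109274951144855418438198423569632617957324801775709599893072485708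992618336462653342367713349481046738524354872583380396770738383238188156621567945142310489247814921661726403238839999120425294865762447715874146804340869667131800949356382921047073195032685550265843079053432443199555542612662704622632532805299980353209458764058935530378803891787782982287196758963605769921456337080944060276921030939694922781320879829826594667416049414028485935153831828567711370225526699466730729413238602026647506418070268349715595809175023411180522567248546199896597596207039279497525233640341680568578541801516723373238620239283097698392585661577662869730347764846285126548908546940184864244565218016076115569621589312340062045554807073408778164830762761575684424332068265171785506412866931226144169254523579414491781262972994874466082672600865055223907742229060555048996252690262357550197146590146671194521169201152403922473378476291878572657872544827999684722619776685507867448000290204996757881560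205067079680741451364632971689701647286253241691544305265229327214705967231713219037760896436591019851502650430243386414468095461832882651895371694150673418451095811606141790774511838117212179135340366043997313704663442717757830433405560681551792459328692060799436091364887746403876156033141725517460244609601772384810353257350486177523524041118094311905622225249758595925946437020968200220385002598220741425289160657661428380154746500161194074154066533119118788260939319667262450155807530128288258107171158512031338331968952143153564225116623376398204319030726448107914471498231741756954491739212518765110383082551742276805027566188702069209602305366118910500822605154564413054833672077694217642782500221974736100579899751764099075669653208346232912669264296288446310986370355749266193707328110634129454474074600535900139848615011992601592672738726444353626720900705749388724100851065298732304642902583074230332130035618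608674373020457095945868731100544300670382450833239608994891136134479951748570921445346010830136834335284577939382204927369985076705927835643615960516433722433994366734774883499155673729014973263942109213254076576841052112673138437210236531665482310205200682283039731586918439524381676517155950225690768746696421773457523523191025021132842561139858797097290886935162526439405874927184215176018145447801298790386196236920122840223836735916477821116067878783159610955900632505189580809443734967089047088246170546314934923031017723163136044484967462845030044725773524778959079831922867618823681211547516839519983502186153120509623250625899979007090461618409701269833277655305949639674712550328412741486036667358280674363326624222362637837143189535923803360655810263423635213330781543968814402654507976411371956962244811632950375309380016684334812316293777784856121016234402676843933422047097054343758410734299978608508632669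049081104881224526889040169942587643933521816367591101038563874475131536920443586769794948260399733298408708627338062225876426620851497856414571060915540750805713927298561419612268488710048928042999034764457387450047340086413405235932151619366459740146607680949170012467019520216183322385191965515263944502941093324917830619919128918480443297751050399281779785963246828440108886854536567825397920333833890057564962972108697649247027398970048825364078438578668990959712443704659887033542066031763303245222702657196436763308995300406798079257955937601586890484471864830059476899514831214773690900412895239864722420081885949187813218047403648852513300267888431094145925846916666054214457942943845645280491859120513951115669506395535669481110287583722182669660134199107212792513469429945508355697708370743494725081302183920543391796254987106503220959768839431326744822730362104306403822450141430325596946186778492294796368572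861726676348392144491045257885870884450477878205300057807376826086398551976816475781373824103759039681596628483438282241616713575266042629116103423611687889349632427600787749130858134442919633508796358678942459516348618159531058121049681912042995226700379625452357189256397626780900541096843649264790182678760881719874431291805350094653606204513340238610729412461454812880357776154274331475447243649161083899227675381330315471397708277575849389710896151449071777851892153571798052935339351689814166587919597066760941883325060221171801527222742267942838534034518079224042691879147316118554765636403168353237034957541061703313734588262105811746607060353856450669936044618851823684586244732358014580928566252382560228700344963361644749631798445562026128252630307405295255073020960563030795644444553115690429863905405435327383397560703129989547909975136095724809206643815274163595850512570775476285010067569296357717790714001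329628890142870502180902992703208849794066140991520534509081625779200017267626152299255772811824772192690523959226017374447285635589369517302807940251163095140114039809396690934163319255866922509544252827709525536226297265644688021502623612382697817323671806074993156951995656148152591611906325668396104414250389620945571508913135395889785688866863360392418675593155328906730530828786543664959896340113671378498993526398472056698754745868350755302932687344623397864521762153694612097686452994625109884297492488194662188475899582395785730456119991539269177125330516240350443741075623561960277915919252648431688712601935203680806259635664632013101122741101632768740379488512599232087023714975298853013713993259650155315553579401572935613412418942011142732295709086092200840348976868481349768178833907660460245566606653754970020596447847959863203958144870986733559801134735917789882298683687792595371642894735970964335217070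203309977032791841432675746176889330396614409487483951670568040599554433945728730144247392998257913429683147384922530319190228609827078799317954540720143330029370920951540840605326429481541357962289851942299403690815523888980806434248728521932779988472344056851263691465824500594490854424376997479689557178144330289786635414928795699066816415903102768563750610887732966555308791535884241846625750539467243125264443998659558693461300035649521445112978853605665745499784047423552195782710132250572790686834202243016868544104450182981683115877597352467419578606230794618109944001508326653873388846704704510745178126320567684012750387457719923517291104233671099479165300972789689736170620988601339329862030731628048407738176253723767139495624545656326800067108883932259600339506271522544182496085641420229923172385429099645592244397333964686960280278980106004309228510822308281049282428891835489109094824152773980660029354651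653929106201669653194947570882493052840685902909897446716823548372159666480091741797516355132219720154948179751514922656393634525545460372606365207958696463474804996556894441544112981115792778977115905673609568690042308326182246779222088825848200023244318580129177634798539335043817329072292454203789485470266537305093722462042683077185188615898704162470596543454897422907029314722457612371476612960840764333370526777293452865064436326240601765016269535742153235143543252706388114327247617585097441325348047886863355639211010825932233126195209438717532242213701219523678478293097847550075561987813870443082247322520335379191092288627992042252008984896704169154664369246421648707151089949246575656665942815178551800397595315784190966530746369671957232157346178865915279478429267847393811829988455559113501124692326065034723089488614917381412673895956548269735352524234875115098105295227315938656654033602686359884278590084496287915080725984084339026727385694208)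

noncomputable def cp1 : Nat := (nat_lit 223738426702002323493598332652794978878536524744109561308536538935884116773514933315188942936893832727094068297692133161827394238635305874082343998300473022137986301970883667826435856783367689726942233515200975229245462990213246040487059173518959537269425342873748368234786758503582572762912804979632619887916464520185941147426402356017549304829718005021435678671095216392285321245302439480489854601184391320319527543442335931907275083746399004014670019979723744695459344734419772561856934134998503202973553013472083408078088964902201825140077706608275643117566574384158510201973416205919655721318671647754546645834931831717977021107523581574025048873378621155936113258858520550769255259041435440538254649029589091772034820967310658465557848573835786364569059077284232278163238012750021276667678408794708745734519356672227535787889451465818060054837446550512151537526478345952252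246240518746679350637247158236735570976660994384911919727804117160789423697381679851089097247210335393546291394847892156269327697831955164616482603998444770038529223168506407645106286909529618141399599084674087781924581927162987111118520990149244731386516498894395139446160776957242862120673216175403058219749222830766336176066900122584951429644019478173220057596645984290271567723615722126957684006682084556785528195573277735593935006826512490234918220876433339015864310367586697489061640739831369097810303995893200272459189410568447072901299364185250549931544218245298710410209634627717356758998329278994421372938982515695084112550710344411126241666030661126956015861049422183059598597509828843134988146575156416326271095406701734429057701040725766011138876633255584130912638269818315393243084345963493245432383298703129567633852586067652007502054346264557549886810285306405403571176535474616776554412260194532338882020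325137241452202154754419792276719155653163174636936692233646461794509262751161599794356560947531548741345604943741054489273873937358921154584295082822708642396582316516515682909456779567516620856356274711030495856951005065551117068712831125788425471114310854035248908478648081299496443830263605350547695426385594099517839714255557557123673802110981862412359814853100943323596251531867489844535008554841427565903970330106659011969306995572078601560639538083481667050206846441952309237039282312623224186979623292865326570632349741382155718233770709596004498201515395689380334614223431562524281152106636836229549615952153791903704987079411813090369126142696907783011214381960333251658006528475592634127036878804820541777550757075113404353580332565226648727170284890422701906584571243963543356575071466768865524591629875324722212409694975888743280134165797608135405405630013463034042737136535355804498342275098724314148558785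314825982959070928886325405099448089750878245402713820334021166927169967696593722868741413539871492216351638238565502566596493278047228581964971858359971466269808633510484757787956083946261378889976622865870069294148068318914085418418532377387659428404808728390537125035493889658126282157903450573527196135478842826990267235171589005622195625097988334156962597842417755554783097763509274828921378058027499499442714206251220764923416531408470829979666684901968439037281485393803905676664366798267541853758321456466262874794689511327903445401013259304995776764640832674128413925311177264381314146243312004441189661041743077350407920033252148569781697332475919634056241642463134535993329036162934389332037647219265517902225838362283142574619533060727418856309163158380679501361668126404206936180590291144411564140693517414410624054084731748622754941485664875977059480782415598985871487801960434488236666232729530804569955949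978103146751639365878514908506662522604781915590992647869461793356070274462110929941242227874344604842056458323656684346659767667903294603960768165761849775760515438310555203469280586109501911168496132724478332229164803332401475520489692069170885421727362345545260157889608369030546084438769565636006725874157706504726106600912408304670100800234972460884513909904279727087951045752535109506355461256286735783853405815755343534292574566664321281076761281995153407492629560311673524089632250515996717117531802275214221007071910378427465407280547357568318285976941232108263712661741889386974345411709122780183033709350044806961748817581550475732641213670282258462085105697180746166702280566171661269283365554153139088888269217888020314216884706173267932060197991182650902242412973100941231863512281330221452572736411938949937262681027848741336712782802243399130197026753063674995869780309039981736740426081251771526393365591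560601192472534213133264732165307496565325395724175047110409745439308620768513644217111561076642983350738478374122734115886726512806348811964335416524478881903217594443807391661239836182829646531879535729646052380295498860248902433640087994541060682584063669608594813714396874531296019474323953221374418220144397421228360019625094682816707210995122965215518527885863233091030112726208200978144170857767974217007599511638425394571780085494941455621669925374087591515285518321717645895709425727265458705954189180330456097082780052019469798694750934281856546144481264963684187842368947958370917861392432831176208312729637747779009608248602540669022054728669800581505783443829822123524149204521049703171061113011093692294470210277777427263304329407613455951680804760582739743588768051347325215183695689108923369550289785195168054935242364789435236342773237775324763843342339891655760144863146296367670305934623559898662972824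328946190272989589863636384183153925418708986856604203481398309199668315785793603409222471849664548259794973607406150882091966910505180062255648191633537703731947928861390630830420177520799411401026067919556170068437249950916040764184077459343871845995345490451189955198583592397945534397262835506481439850689556835925362654450128355010457836725033501332771586802919610795632602325711050509030443736802310167170438417416086116405633163711814210125523017485066507557342275175223079787497871103335991969689635778411908597835697059376838414978868867547847238524812378573364853047701323321704493788547191703242598220113917340424294820593510656257334512827122784744056618525910745227762298454078097460571243118328460116985364023750508710995678458518504696193156100400736030882984659654822657335706319067045404944313327168320141633060173327232487404433302452703864237222075138663467540386405615521657184284132183976592925408295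581287586178154845685646469008557435820177208570350299669222292780817631338484290373507824175929919989789472235422175999725662637149225319867426843842620851183662656206713077906373061965246451862825557830310252307578409756579327613907859370793937228544826053685186354906809395674226419271981659809938231337993973499474730522149095030743260222241339407679781591732773193890428622948486247108710593613637862058290578460053596122954831188120347825520706070925053105321754144244196473894162352990609463577406301437582573678768396876188575974818480285344395749772554870147877377978305947657279077611241510612840172350450120781364393865392393227234981197324544820994798605046180658149580666419846051018434496478140228782061694776008853802860281193731789500995779265178301502536265769768453647283411921312549385636240025881518632572550406369420663973380279614064068018086411374006235337388648746920950070605871375304876845827322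820907180593356042297714617150897166586316333215409710625086585891714300757321030848695432849946432253323986228355236862059088577335448705629386554462485212062542675615413945886806227996023251412166401967717194441108824167472240771168638765225724497156501155512735655583507389786347195004960928034953077477424372816880514948677185414202584425914847322613940753343069804346822605577008750459399840031272137160787334499166077129304656767596726496071378717157395124495429844480624837948874724540690203457211688430568051565745037174457385631043903994294606879607320730411810284753364935044291892438772088335771673255091819151951597072414506898275094722431194410879731103527057363711547298617933172823521289240216319620444530911673408072012301383284407541670986425933522061926384290982276640357805129466873986123305480107046197702998150165194068357413768955866442416202342277661446994791979102045200848894900532489614529320140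69870836237843122720480570182753472210034462175133253073178132163413457850610724400353706521707159646490412934187124065589967324489167955548733259746308638230269793521479883867270905864246042522034418512736024269782171376632057213628271605038060346660310176453321101344196124532868108658317326737770692097705519876771882904936622776736545114259294720393491652897537120543904565373699693141043710348511149910492592170041449904278672208569283799266276358244228398143745606306652186642723277802520822280247188250999599155440281448398603387423128736111507878346005662414637978650684175947047837032937956184205263832550423070822556337621216909347261798810775540806794169010842130450895484857935200256)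

noncomputable def rc0 : Nat := (nat_lit 170859935333431451439431064926279566168361161805164927296528875203935232824951357632763124361484188220506799586504802282235395891868389625365703164219834676493067419596934280798539788527016593425361248952912566248919427375088863670532593026816903530729281806760426607062786400097786379274046796005638722688590035760497944147329675177235427725217263312175714530853150939190222055502240187207221910942374670645603643853711365948001256983856192867872636930936134506519851783823302230177715002316133793610039999686505978439722878817269304956323125771448643771517631581243304470088791756390083349171854665842448827211813558194836106098663065465005547268974193481182516345649970577355131332387742183424700426915446640826156287551046048218993436662456974679275817722415636315218060396241072130711081632469955973357823935975841468815699186295621912764584229163767388717085872882430825476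621796115131412107718297086401468729771523530073924975540848327783142945887118622896119424609765988889301316038813001891060987656131587714751240458187890902647322062888219037254158661508028552427795162905053796029254430590322771239413712884908883573134510190632448154834484576090542237481312294401587003578859610242176537200094777114111613231585288898971936539976678604261152322019892274416606415582452645958132822726791410766985083974255514962819113990716647052418177810150511002031830946479704648721522285975101029947453888452769518543466789284981994328973577917207725213416458074082161443757393398287948390941450155611587509735122395935343741360500308332751474224398114247677842251826512032572803675229998090234175247818928134064619579881239742275050985521635897624104393727457381761215159820612330312150552933627417684580635194707648487401048127946581816099838305635774536895819029386891570091338418334869384314997018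639434019094400089874495897986253005875691523492119411719060963096413354539984322826113037256200702182090446748818201070897648516038892465425438598309069384785613447772596936273380980557404562720594146674087833204323975668545248809732287928061058279810456612270911114106732678922494653859745566985178713626512171604327839572379749037488073254211943247962708013431690440276786944116880609318311227532016152724175339992624902730066837697550155637155254571304029218729605669793951365509012554681635723354057849441831269086264078416083191963820577063770458383239078169716694832860824509629489536445956835398154919635866773048238501298082950127605142336570941807177451990577290903018435768351761638466862121570662199831840096681892797718362049078853875424725981016441164793837949533303680904233132730078863362113223236192562849823995887643430885420187229413084975963925386330785348867664934521718199884846326876260338459448819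922996630536821414453194285391955561935332870734823178431274627248888046528379458841182319650734373580033636795100826831892198459586755105916745205252557256661554088903657485568402016633710019445619462585043262615879543164530461303729445691047183943127789340880091478704641190625794645261710916391134930310774216706420336933829450658592367824945600104396733473868625652421937299289533508077930082170290233324068913270508226748321818187988808751506652892675391299503579475624703362893337668207232575873131265728996383059449055573325328549070689404194689505315765683696903480077946738944726466221499833028986785345417908114693560498192136369358215022011298821820679184226937669872734674514726493673859942044061067603304437423721455461499845410901989491296962853882700050566861521009173573509749152329215252645128641975807997962119726367473517569164485891249804352344745893437177366095236079901769185028662775859357588567394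234098813068427376911914385031308273145356782423903757249157224994324346079166398380241528036073567524055635308746923465888452018857143312277735425728448250001835025180428242142983343712702977099000028108316408942873021476298635853369891691144491214465701775162822271741204821917183481444022969421381775663032889914074403297708326523820011818736674314685928650436860567942106457595841699046287986613271747150871924353603997237760652175721252442905592399494809784631264631706390205624220770022861275759629318996184574541500651812700571522523989391950513601591703886757968997598294028734600043711090070203465780169210602187452651987317551025601600786234906467034823469437095357412474996631878016256648764611224868097936085427311503693853167905539713185116929201468484419332677005626962992403448907648388810485520801206415196482980494513632914039328323944115121782022821215305506241148725887475976807548099175800781988930129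809761897452664095281337216233218384150863547433205682140333599159578354732507368994325531914241193463153577440263703689027929304470817961767085404172221993820900247525157346723008176946930111807795885128340783048797878267360294521542482568295619248244021401219982753413781298682175565146336727149106945697760585121593233885661786074541517134608350456505399609570492062949460648481315011922337232432424934520143012071454884372368982491657726468051546255457085833617061468704583731187602493883453355982429217666072795030038812317969128508202006196963524539705831740159226045390621516094801502730460986420738278865553488877480096127277967202205268507837229045462419112814780478526039820738516754956195580310359332217262084977366315765986041279017678444251670554060967968294312565404863981166220984860210711235816721856955368024980556862690909678615403665488331803838899146987416757459470331421098251574459772882198503689886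551495230378961368291710031271902080956897286065142195792041894512528893240837300626405886239421053454228393477486651566875824338713102460222912138095406925156957352269423495174464790570313373184216889926927153199254726658910757096630615023853652616182952854981917671265161150265232759592635353781087121758541747739280290058621400169703476837684412341150500799988876037719778003374983187021455479458440492652132778842507033588942683699965634838147008795962186832695096951746275052850856566169475153723521960781992221083304179669907284576464515735294254943172228642403287796831223732389354097436298464135860723019661356194097726798086407135105701398937859642625013594701413496822275447058340003870973276947269327579999997663987076970347147052372164109056709810064445507616207622554421132652760230862766709141107093667681585176637098934508910541325229169914413940392823157796107276378236830223225162215007230692033440803678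701992769215755022069736182278641427310696320206265163385019044969587341140375602366949369230349746215092104457548434341458707984361106700062198508194902924367257192560308476799143111505297113627171187279414420453195249124003896179748762763890638630453559628108103731796487128575915313168257237488514733758908853042479090892625596483030283647488836126574248382361541521270104806272728670767675884961411758455382964882408867131810459309159873779267178169992397914266067332479583046814232660911230717735435281646197989397170897562185041115495310350041116151161818488541618283506922629824263513181648147029500690420592756009378026544332275565313188480708301169537580235414029972662271779415319467111215704390373457422734124506104630735024111931675829259848252138118304894728316997985391479664221955025813054017401780984589566308703961565890206899091989008294008352906717738590285116507367989267691147000028911832777230849646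622158520013686133682906166207460018721673222166645587683549079666511158519095162218001019618412375014350363153096280738347259437355182421942706073610167358201847819089798755661791816040052527765776405556581771148992265794040843685078769685471478883257874408341056655423194980647597254105026101228637949558718770265198809633482400326170292620493584632606672873318642818507528227081764181631681254869142100203737874755297990391014027219104242995355927426824855614611676213064254663710481489637110307193108359828629291441714585655328071828894786057212084158802807436275997622666884919027018281418585343286100314341607267308167268982783566598920212842701517988891445626567543943801255532550936326719160002411359001255863444000955884051725047452089993337770346580670923625207121375477315877522131020696858201817463481541038211222398253835686207245660629237478008353680345921209602762085309736755546111887480021786813665851335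01028769127449196845585597752986877972540269760722144960603309282904389408104952208418296367638880109526981836171534638381291060582259542999879593110861055674736070196669060896112159241547954085777861483705802726107781979118559039850456786276531003731931642268635741978276689936626539128755275489802728419889380008789832709186937028789286028594288637103517685350039428960171841140251873670815930066111435147914468578830778693645578171164442838317645549285897343505842803889578277030088900097375824126205377447262435194359516875890977297162993878257635145477751157061605072023877935941346957890945379128244593558281096252078041202003866010643198258743743192728354065423728735824890794013802627072)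

noncomputable def rc1 : Nat := (nat_lit 173085476034637468265199771396829205554324898535085068110426705702461082227373601424249067783709329700096443293023188927254660856639367869884486234786504105730016826282904200825909131644500569981135511003366431097627915147591401508678318507807989183164295546623956654653328843248714515408133205848201027567185587757112056193462546846619947974582094140534185613358385692345953189315979314196953788271312380504168910737045791950179685664909144819112973522832650464943226636477099854631327097645491140506529521081129622918755065378797904745594763069510447036017288006214679847221036671251399470371369568988343847403869033091051124117717818871162347986591798904828763733150630630368900825955941557733532538359380114266362130128796323475737800492878780395622449392234783014149052770255188731056164132782396609992178609138013121476000429474495882673014911498535165208048630624658172980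515403335706273400219222534019423294407429539688879128494192605981485542127277717773452756543503301454310612936958931855997326370675759151906504280336777732834023494850980864838303805876722121069272305084276042884012830080068607903963192060853755523182108820065733141017012195858129724385524715039154825358912469532386810043244619106356229092809681654164562240097854664720426682153438554925314488548236848678259429027560963714347242822168438530915828564840426758975346351147426915704570502127299668391537393805948503940165101002171904189864108294376861601746279121085685901989494893141665320110001436391711604122197128684354426098112163178691509630257558678821892077103854587521877880816079864290955694148353736374512407654001140970967274204374646109982308943402017724406783856422501656705903180378568749172394345010072184297571098376237406583631280998614601000114951635175940718935461332162045360537778927657323669546989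660997489420078887158078141929471104841727514296958609224695707691207821721763000453544144976074309776718275345271351004985044478974732485092427847278036392883496359100253691192014749288371181055011080956870688547211886503828482545016195164924523079004750570262391978205992228258117620654987012355467384868361925833631091693050386759613651273383201231941226899367049641474961628481091382255665873476116655515021452256852581217312380655087477104330459022762082737446053094985756309996052293137034207165101255120193872504992387760585001017328620626920393460606638470777371815352684435091258661925414721332712514169728932867381172121743266356339811575014315831105714055114352070211835582442661190950476150542717383983402697854387208096029715901538161081696971561909380890220442699741863053916347587399756519173289797474629569244534005585261891460175324653364840853433769068259012352306422105924472506534744930101977689432738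022413169022469810935339665947479530169693909724223087866662625234501553358050980116585846041746422281921913118992075807195743728478594100094923234793851459616243996928332054562556173894877042801227629738427455353666165905006153645482511102122330378784776095743784430500419311104791289070731367695689182123177970828241655777004356472468646374734500350368436369755125713173423868099497770765364400154658911213329033641028426148280211155222827588833180334339239163148453881681402269724114933491138853915116602195275507496372510548003329560776428049297186199796986621781001631752223615517461674335668322091432292026242843061994337239131957202876116559206315855484916328269779249200096181276728568790336816881895408153523842320826836519427612366520036250933672719325019482630818219713216444789225540479487590799938032053928846408577574436837050191105379821498818517864315330020690641126053586313752074040856282216803711826700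057910246736612517177621684687371019508696075561475648384745152628218125961547452462923277613145333748656502577567400335883037751180117688074360951945981538812777450620820722971308747216923933904423460534345837117170325202672663436052795611492016049791518564158098079144355464439898483474266544000401904156335906129486647227557289715704605381127970600800007933085264974207573330031930071772761568246695378748545585899992608313855325979360884934285195928566596414327522023171630925849634145754233172622853933083097693776862053971124973180127974468159449861848809975098461206285762179048220581784859657159574773086800512901080006728014279454295070484957270168423711537325715651059504241590357438680160772597596758899222746884828596762308572282407222472852995575789119001213592025444422584886013536840436840657239132885760079625530897780877808627223244379347414117463893488740952793093169428518670688018937315994545954687736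710620054348102314457463072176909476547035451176936176363440432766062367032153492056614816954205183068215822891390311881187559942648120010912431519863296893846701610300180969458469908570861289906288722267577813327892718281191565659576014909030127483230619123003666358029204493994462922883447587848523209540627484495924448262701977342841793767509286095599456531245070931480132295227415401176075089033741400621063538920934845382477020944756946567463225642630096487433909972657583874064590916835046657288392061891184851628618547059018283772783440031964497154326490502803439690759570938514561748018045462610657743191160849983853686294598786176424779979007658667318590282750966103391598818467677736007424021363684984901590318118931219304025552271550792512301769477068323424380868130736346342679219594420019434004376088235407418047769053187372567175600121274631270954781098603281116884043859271044855702887983686508826986484632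147758996964714796769586733302051647837138810138208169668691248454234116745923888078722997392288588909515659614468996470477499384089067987062346381838318001884557557226471231679545668198030654130950089783592585184952272418861714732203175035161473693108720715637973235782481512498643070154877931456377941473482840738735993656511300089046294280039582168199799520927914866250690455828212708720408132155192033164863348689572397009691879780661759099667170747509217319136758450624443636224612656655060567662528523099188890761387839570798390962174708345880531876534013132717566370221612506213981555208356595560514366161908961149857422136753931640575504239006622517269449402482214653739267880830001991816658231783045556330984019246060058752790034289579362194061250520633260117764253901583843191165621000097971562481064037607990211488067559042006841918845594084402911663535249611618680141239678926887653009633235752953076114425090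869151719054989800264352041469894030701091290425859286028820779273336282983327745722215988214281975361097072229293331008877916521577591973260648841030013633475854938046220360396960511508629746070869750933731922132482382912410251126268723709190715928794477929861885427317682680045862259645123473539009671366774331322921377327814978481719537465806966801977378902168762672358539865602876124031369962704301371418694448406258250505061290477340488516529016146968570875625467620029480521123229885127352499508657178670220109517314827234845122441456905577699604498891508438900254128948048117687539743188942822308212058286080157372367345849748465833855300330866628391668198349825624321180642307066051799873791245655933457713179676823881831072505320923203781192892856219712265931808748819593964417437730189801460713844227626164611941248246795352575598618385723459906050022301497148673510137501198764648163191957273599197646002932758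541833216398169119929275765050311177304226569934850071750357641567767290681641580349147892348508835444741338838597722767934930380593736357612536004763865358272355433984954590651052782822011143766066317941168153231300861126595826587902212963247551424666746118372937191349552605765520450380575469733999207657822199542937875517223952315476872578603665265327915343982713974183998125199845868045128676243610919064330213094837664667622667642589977172141516430103068868637819308462467598526348894272069178081975342672238854610085364663771621957823106457234323221959532997958249510586703985607460063514487910232773963970055448097550109281738763754360191911445012212459951775510145889641875905701352564583412775129035833136383505907372017028648389633519350956068442407622955935808666878502717853462825730288393235224761506672858417533083796023091120833681230879637302838531010556459044559732795415646427419309610712946321842834939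80807914987837124838888096894778101897586582989294946685844708930551599209492704537857401986759060613381035249587947122172412863805897647801941965201447859117817934294872408186943367007151880268420452294999970476788951588740951306906907378347529599352626329210001107025719290104946607914172911210529452884155161917535244918822019130702418861964060073294665555120660723974661483150760367245990132295502586147397545300285279465310757698349741796976911919728345096770733999710044175072694957508256456174814617290896066166015077627334256655862765287278556017444784434425219878862843205214271066014664293456873253410621513928593951144477404730177032650576868408698710698699776265551767510601103835136)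

noncomputable def rc2 : Nat := (nat_lit 175377008497389175375433308548075003095138748420932543638604931782952904058606528226459324465064305714297585113746762513437200778065082073396693672510508773750889315687387967728200397488386161562222402360782274782420922121632150434688881488664366717141679175101855484384240859663862755334442080634352701382544484044802575670054512195075216316682904307122654757473906258406714165986911040604024760785805119524276611448110166100336585920312997544519228754035633161990127740565338291728961402521331359049141083128565641940368368671666562168330378005099180852897733920367970971943116778531339719587809913300354314888590155165776553363926387728263167843881359037502518994610749616440408076476399831652107925144863903723617500908921600749389855696439708717615290516561079871497868968076686017392649242782897946465869453270858544922825116463757067431264251515676229113753302852745114979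499445562446770768717629332434992003772613696322578346778824922321840799740416610102617934847824958103374386423419435956697747931451262285803674632113161929623509222662509067451145570425712113035424914626785571633278640417607826040701892189694972575230580021871577942858202441934873374618987900322608099638112467879506256109177839787803647268106184021065121614383110222854017538544167820400800318242127476002188961347365545125108998200752811719843882067555108090329464454887859736524882979171265641635940298645077372017746549157563031869895448927707876747616867347794390551524828060078380194774381903280910990468431793433191052049656230662196289616569738898697673741012447741981065986118617913164430403028049106996730445769291556091599778266367942999372285289991419008142969441390966993457399042685839608065463668476391240489893799363372736398042770277974139375310287597127691542503344218367081407921974372457626136818413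613878350998754926330154500221126509520400399944682593620698801847671359239475148006261046245372019649368739914303853213469939621442260817897516772859062850788451000079419847220311718731046333618577114484221517600477135244786409995994214332420697545654064258575157032680502140181417873825458437548059826728806966974898646003051565095871491175009114338831033472060709566533056953866359118034473934633561088237199772537881082280077676115270283858612745539592608780340725941959986122292716126034449098162814467504322598410672287879599507091937752935292893274995047597667915265290237450633277516910888535820307655545562323551973885853501920912193514315685716241008438122626977649033093885792007620230770508950740641233197777727451498232401458719691151947320786220500397472849934525483727184568336409437008787329585519189483133455672273347580687877489347761998901488871351523892819995586956403123849003761434247681789150208349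401830436874796886222297199659999571163612955219336265253658792500346793512965491726675684868781901094592432796902607962251293773272065965970191836982641668250272796214037411841161964481654205971846744170167244121436396772783048412228310817569418181941766253992878099037102161165933234361749746876115131414351188120086506430654643391801069893696442980819157438587160677320981149907843089172217576730597444918540929089641648141491553401193583947318608391419919888005480999498750136959195080536647393788178897776278669306749555548885442873009290607428042898681557313474857325440252964554313725744675316202808810289662517732698290159524193689928265178393022772817248098813309075091366771820984906413872625229417531160564788773924837155274230865493271985888858704348522369182182199422459977174724728552461008378648545366364449061445827812468627496085110655457223745529272011672613083924748031942969291366636970414802009036599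929558714537926164134009012906163183729534425319966814495472824684104479920924638643273358468070708558906447141368427612926290218583072012766784190124502241631809107482840865419987950599138842552611736267318375019156254808652316786144312207622179868672683450682361743873794607348271366551387156029149367900069800016671421656318671965335086332619100895630811557984068558819997001221362546077851741454902325129606636216089105620027604422214860831521890218755972806449003704194648708369856672522016497825786413885785377362755495356944977122247096217312844571180536925533495200579240815974886330846720529318825455651080696511845144093743704153666098238962346467130234950163560669620718228094827742686632854000515343543606101491087331581819191557031840053654082921177956013390951134590167565515276377101143220450042236651038975647200180269819638705390759001126621015484442822986729908625393446418701230841197482770183534898680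075833993745520753955415543459880739206330787803761515925911407372724816066829912783155544501974272578083607560517988637661240364254584903727808657416801333588211080086322757099245625649092864570756800787099985357130267408643989850290201611536104034934178411125896779904385233485483143931274638477393459896653736584641697916663544881263535667982479656691058015541795759495492447743492957647337336023291958405427037803150454270787066889799626618008607183064264251046526959880636303162088092909806726082130718437474324800993990575455375788941556827991811630913170690265393616931805291864819334913073527093076329252310789341481362444794771708240423321002463101255596924207562014616198421619144885857048568766916080864804588545684940025427074295096021323501715894791336084991399840101646837213312895038259251421189738989089516888440593864649653507146036735096248160737305098386301694003640276367362481888173914187836968508315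683561716729639501206785044227330720054763473152265411609291585493480261256759520000654616547969162999160841157353450159777942509929205952105977304607458348495994084164032278198719051666791783944931501094989903161092359023864488331949021352801363108141469866467967659024777235073948932554048507451501253672573362690161234616320644997273299463459094328148193092039398366578114579560616475164291513189435118986637819107244161197684018490293618782616738405573177123442803576172612113925036779989987436001068425489702109031810735067374910191250960632069786074334234789093034842944533797639837404834053034803320722875188606266542428780816045388987187611330442519127672254270513303882293234380744184818099159587667968505007819681538870904959556436512159391485715126317955513417563313961582465772121674977161972392631060174090984492102590208139458443525927803361065164160143422064234181112137735452119153172861542790039342218592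817571444228807407914861159238308530076436563731095721721178360135563956966422052419846784349944870663485574660688102229319948061549874018842447345727449941920463604057677636973364703958384565268168417605871438122908650720684804122971103548541920572490798949569947647974208935733460595610458560822002186118627817900729502788097045913850471757190052719598531500423339676203477081141505105853749314351211057660233491667482538754821124126888557321649418203553925888866693148248326336275031894215411181407010857176094609389413764206911715718983174965133075536387719778676531313242461516405275284889546235394578886878931657176956297111144683996470088360772972961776335014809228753472691804017294925252030975700607610365748588843476705798369882690531130311543343031887225711931408189258770717566187892402650626994821723249247477972157584782195388298673448446479153891857215073546292772212638700500265327832363548391129515404652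586968230972639496977066738235432236023194406155196780949813794903339559980821273222135235670684836478425159834240459714914772859764370759785863892541952406022223830447302116333473943990548562729591230959119023899205249992754837532499955779171092989953089813083319373075510082819353898523256925071401070181417521409943870126872149413535592795585239573944798152740234289599177377613156047520353410763238470693535400945018050856921630531621536288409257317508791923651240671732494816187744378148209670627528168676517101928705985547452190797060192028670820128771724512485558936755616254902360834327224950985143117997606492080054360089198560887555216570266181663826102506714789543052947968804260355091026140066845480041697451002377999180808667017796999173228717430746960601778389149410616494391262248474137264655859714622713285770252377290523192418516455303545550131421016945040076248343745561473060305242777311067761411620350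12828004940823856971770602366757632466791340632106845896186091312851992758063321764861629235168326891460352861999414998774834829097435828028573200025900040100714390326775619827890700287839143176965901134383451286053513771224012121883519324264595915802083876319542372705873800887798642633863545527175759368459108233326576327686151990852637283497641933760790585187312245909080096632063938361691839923051033233247881093706344894058700258382584835022341067325058737432507293439292506923927948575993395276405234723738548021502133173038596559838056947515003515463054935865656767528084776648643866729378998214342409881479536874066801191258389174612096778570963102324342770410789800133600987786086711296)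

noncomputable def rc3 : Nat := (nat_lit 177725845646112892013190335619087346819183058774928335001843348796318799673578611900774874678897676243366152850713205529938980714190998823952154536108925307262586873062975959400407984951399010476980797274409400498723534845145386341005241950604683533941612273925512690922867844303311383262341734381483811075886598695155249504662712506674124715089901053837968198241266715874202951269257081519675991095304847597924815702684876760599712094665225421267717793130589393897236776862632115920057755298874676561276723134603943108229375715323309147710797677456970708754001095393775262200546655109611707083952898611729783634327169597316786662137371470629660896718088900920777558069080979386527336548272640163092839284204642740293678844919900630842622463813361488727924652235385485256109313644043606358008766047845921792739582778468863401349279213954859026333390964268456622994109669392630856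313860935722563737215739458616856927166652004972679770671491276521827060682443875929108431139120447925329874599822594414212501716384819516097513953637575177750497716597182317572722018214693040609010047480872756333614043499159795145794700964435937807334897039516918538880977418510035801070467291919606573943833830215472208687393217257642498288704327610726461152213776781073431154847035570659003625625308972842433651869964517381361366486684353531042338599801051089387462725360590564682461562227704174419491231165433543081889594887069594840127430808823079936167757069392653621330071944781931910591546841580284498896732215561984839169833293784766359491502169953639274631617552881485555550571669725102529203944766643691577653452801403677877526020495597847890741526673151265787320504246059969303954858558640292068107632902588620744155664319419149558718920223521511254744505579860911329837212270742026863325472512678802706947314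471021085141615682735639748966906732286240386276514404993843752508280467848106732570467632790959766171505683902311814779763316639769018912586698116418268939261401246476227951718441820393264139652340983733704271750640615245275879782464773147811921634119417454652469205830919236253040671293875246844385406267823912405780167734681086652807971017386561291276528497154400840876958431884787278321004562449410319408240073265779867821984409421754798743805505331676805867323070951894921964472656825680450817946823532703300484647783602775239201083151817035699321817133886001464716831875525864626519373103257650739946658791355761601702749797271319441643437270541586935255449945117878747039449435707378502775624318815519603627604693931765272946022408787050463753007792420116192598863468372331244581828393493694461695816056691440083294092632039946577022704290378112212467012637337311001714741553256629572390211469610035675852449457522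152169327713569531116350304583053244186226142134552997915365216867975054517363175643554171228116563060589179622623389923555274520232627548068919906520562304711038938474727165535011788439314930744285331986811097469346886040079305444079489763910986587838239685237626938809726304843296027775976380767248756080154820589399035654369691349910515835567200637862777617207136522025335589290716520819587426052416810075975851967207627401001870455067956269306572633278419181021425827711331394888315455130492900596934116428227687817080281812920891488631581664871367814412945925610598366178420882770541660521594527559580597682476692407189956292286047800859351526209945283094259913645856944430659584418885470493668601521693542481420356695296622909556595383424711944036967743141996593132212228449703588715950341832446095763688330148521133060563056779504767519799679814429676774619107387672634925149723488180031862581085555184343802437986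293241676877719938151110706376117911728992601724834355625572602860768151134976757336575481342550401277621369254711319047880463995390811646978409214433008437839632217127663307154764871398807343057078326090404981732196032166812679129075306745812514726786062259385043384290887572970393883868504130829535699258307196123997014708167578365177095629378815299502900906867461113915101265517149536378014922615773449849761562536902476075974446165167423454479761967857401337912693858376182559391946608555784410694154963969582895856581311396026645201373897150933083322597837935529772436773924769415830612866154205993698301644093952645746882796531052470413222384709322906505979936001005627374752857361586331044442447757388482391508115320758956498357326303071473440337610288212851833788944562069120840682380435672006058945707599935648691085265665169061421604834739725389534647536229873679370803955964801692260968057191492975275752522773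377645994858711610719799134589612533982018822763279042357572322985244207365102621807813547018138536238566666674533255513638230338395935590516274023362325427838799287961048528505377471253874860834979132068432054727773254558860965509571335196354272302067220843349178252057421414625962079245057571184396338561836421668996577163917421002540926893000971279672039164380919199605812048309710325364048068055002565698150454303323769631344513084025575315560540589107759317820412250612808249131458137216749810611140731680245410773761166758080261017835813737251820381791515566734993252985145634304614381450920003856987472067966195936161548746845409965168354222414719954488751220489704631444156083783068786501102921792632642899931529866050653127550882878350198725057346743614887704311309309110970967868854640299293955441331531448591352381754847287905739189703471840505519112870004004076148333755113786547694919685693585460093351522925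694491450155623061496461548713318129803910954962502249885823165855479526052337990120996505968458218032250734859312798190553385483937353913769179942565000038862190095530690065017451155275991772292687045499279937436165803160459240903303231811970898586735415084207801728602396964885226646201877006334343288917760801082754008845137497677506957533107850078498100353771243329588791779832705620015311670307431069153209095295884308667938297121639420835892283143834603632647491517787786066586576583650316702581281620863007406725014928337695328550252569783427990601455341468805284963873922636388644285460130801346085187030625422793821595128073183808771187233615849289513549120564089871399048272635656188507375033464098738190772422663226139434588583586176140298615784349891064985742993295158048312536298214127364523032310512730604543111337790572922161041482481086680835521959597974824803156771726318975519278711175493024096451151578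990383496654131737630049007844909342059542148866355386815367488999196975276455138757662871570451743664160526135226275398614633133941387190794068223587134505271938260076881891301276853277264851192694872262911922444017906213550257244624474629672575183827256786746835681632884412866006843861371397139448411103015974715927802421223544018491621775243329339686077159461384568614940778820596365523948092135648795681246794399153195267233967518105274306562544684295282640851265134829102884112794257422377619677934313757186730445382656028698937342747464037880584126806028888957049951739406206647122619550610923808318232943654367196488596493130576975058083797702046106056013421798078595053605398599166515284674033816815760198991383175919611053171975600707564984012094077215459330804291364114311758193911520705299456180712392392082235522207350633065620832856168130031254420702426798913383513483051378831434207492621790087010333859675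236980762767368735066703253115356453913981034359052843985999733768547592632884152534064498637128041975721194313783136890161136567646781811016011158325814847228811779783945057923476514169380432591235734646450297603489131137570456492606784351305263299344383595851397730138347281796757896351465404029159538556859222275658758202571917028380464072895203642534601604330408111878031037310587927885381749805368516441019225679603170788294334005106247184501629124758346407933073159872726271433827395746156162018627732308741689635387630568150271453891624299814263789785322149457305348002983074783504505575340127734723206742071524566345925647784403341533843905539831067540207642181149567142220859312522916254944732750721051676853475428968475830613264627954125892342674034202842087334795052932935981988912013738144518314872014381225562269147224388623984371995875090500426410031688765180490347814067461977295517260660452658386383141279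26449269855628621208706381638078017578473691575389648215559873083495613113306748795315435502648274132596164502462560156530770203579163278570198677207351125815754902625796087948171392309834943094034607199108603605243235350118948638661873293450401676404775230896254267004806414437645476781798333026772172532462395211237208384856779504977544366621268589366742629637228617582878237172407905401420221694392588795572506561441176588981882420874731677112674521018088798241421038428607481014712221155722400390760271600780385005418926878497423400965349126588059141960113704501850373882298809760459987995012179661945584732128863294339849166982308440070531819281479468915909169398449905674423242376582529024)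

noncomputable def rc4 : Nat := (nat_lit 180122568813557709183885680535607749512442575731695326534514162559216492608305353531415701625495162380695072077655906543980079980617402742926813945057865451536287457820833183354740476261454842216122517731334845623851371940554973304811293960046474066173789765243049282939936780877401744321189394225946801415685678681992032732990265091851660294208023527674932116976836396721192779895470177940506125968310652340940854566496089896426325941272357754052725511890895798183153995737827794013528032388539855061228152356919989616208058954273402976909785734270213702757139259635742329568218799721938067928543951708610831857955691611431754906265514936393357068186069649317142659152933594192005293280000378109822715251455043766645079747650174054651083798855445914906207624237530242527715022082576949156283294466492243711922865231386107005375370487020749278866476978602121191874980462793599495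662650484504691287904958632690988616322645088428617179872967094468171752450686304012397196229618806404815197493776863681686144863537057241211626626179137183721036248140106262133908130204069751455886518303829229415617433473728851287831903906392145684907019757729962705063760978059939365042021653886317173475470839148202317175069626243452892166102343499988030398354587631523699087232822609352412045007200524357290693560991466674296211165492100318301846637774536405860425214119937496543378017472526125428945961042403010243367883094314113101838417298929774674224348012763033359384499223116376556978395437678944029504532247629992942522879398089041409443894082632604808861473128547072942276106522284704422404461463097151224711914851822281925589648215821810615072024821233032995184430908577870034758718819563409714072963628351201293256485525304556519600576560204216322676234546636375898072963491111140446124512471907604494994794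507241702010312993930982880101551887518046087285703214661403620348386691110587342364249243093022072214291332516622717815440385337977718119222897063732097452432225864198891279975109942138366301051216939690734291300303636166057719405271242727500111990588917613957283053106598672315479492074293933363997824093690830930813497196927304662762552352097299532259012922524955639280090807719350129242253598277958615197233719059979354150633311112051224305893359751368055869822367616056381405227466378715711541086959096919099287541168931676090203784494791166013693611361940834742856228996354599368195202708892276871922866513480419395677991292389079412563945882822667660182097578749094843520086953362287835897111740085228437815192933608945646804712979137201522729280318922050373404383261200920174863044849943152453891927795226928997372372415101256371484814604102893605609912727384425483037367152270229692362866912266038973487543171316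114444911117145434652589225193550910585940666529470841506337004398183161978281394370376724121491327177580631728807678060869655981077451682608164688527787370141830507739419893656222312567176528923220458540923898392502230484968566975390984716458296239713208364223457806809836339794425927217486697707139922470103015351573479562942309199100858818376758738999257135275089202639482815018686008165885384117204142782201931224173858219523340612555400924795998350012676554172681674005881850962412370826656142035277107268878754454044931645127826857736902574460886191599159668570239655530918135736618731977771450734980046567920718100210580289146909418661430894951344203567530768185964882219750499562834426701555890226257618361521183237866747417116360022952366621298717901783660264234691538993951883572144783722975906713059788824089576889830668778459474969555876992687332677740656499854462695651408140234799613951526241677553075255814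586813049324711856044211624577192356026963971257618505429195382491486722847662631144986973595290225465794873831933888459523321763064160317590876355590803799854292118813687082636974956502886221172461370483139952296480689824036982446255446344876287921039883883113170585438524552827480463186273515045550841320129246975420939761838840421584852490478939683243476930457447411012108632170468775046267848093104756017733343324487723524677086765452561502676273662538060200288669188752060247229633214370716551556888464147927421673215994869946156356476622708360044570236555017354114258141654319923790524498956055712794783092101064634466912877552207528327829836198331166507939513044512876910688908800406849716401807614429691342898480434098240375191003199060734732434858237299114099164809451072583332964810539897548379218066444831231386476647074572615069611695596493557486700294493060034077605038797462243744709258308986195995228423800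260133684912600539640591642663013420639484555624231762228492463161511616274480359110701643715219435970172330274443985912027113940105194835081416802638058215609755892780594279258332514923529609037272010459237395738290162310392969790115677284633117947970644748194707228551324706875209207481250672724432238307521431775009395805951045108377503336217602419668600113767269038729618750206263244594491656737951096039786815065626971526872393261656712774324597542160397862483526643545064157339073119321969252968797437628418634948839099932453993824362201801022186689261655721191562275145002835378258558639585610404397830970792030157903674649071828319971444301355947083061790277349236098140913858397017263713072213337696100789184649606448742130464847804679284146717145121514045932165395654224740168774466294207410990331665109284469730409082636895063497404172290939183938712820591558568500371959047246670555902202549596617204244480132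772915193509725771051361978848408889434944227430567190315058764422529714406716944683550563279306746764635093834054313003562633650349817130138079620261097629261487844030025059411948918115935181450692219189050222361466528349746850667643775460421748278295188945892394811485508406655935684860513570348003027742879269397369473917638489354905566256395945805393675345260838469030881961348831013204348525121666946202196902309292028504075539486842234191452336225576482844557846272755741827722029003052318957134483740337225233549336183972896990233038744692198585539016394462843446024326730401045324691344196988797528636400806728153659016442318273439004256503389243563710794026822457993611754163791419042884898818604457937974338495683750173461468146169909816254923647201059421962355156193501778605037983475270089627144884922725491615310632830574220598986951815817990071242743296055527180871539250904433100945665329225992476662833996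714559260258918795611259593761459801714088072388674500942212398762441493941478918965202526396673278953204506436186925490303715637767991671010789480853644213091953908276893484940623740069119378788902363599430650406819747135297273517183844597563312092640327970233836233213892929700181134502401039997015026464865396233771869876960207649792810753004939930462502641344887885108903468470207132483492078659675744408462234695046167397354874241116907806823969939172656747421425690499918722567199052628989153793373813085282449411300645838239342022687392924617337305734481688771737727853697179147860770975489214992866742127523912354142141898892257967610087895755576472905933872519401140611762158698803232557890839231416935473373574686836931005457313211303245616215222147947126915478715492287455924513406827319995682993510931835237535640773663928463706416807866869104792499730673751649586357578733378980615014675537985261226354767419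138240308044097694678908267847753007406454679388769910353290394242269612777553410263765874718002578849498069532002440888202653209094959155793412540128464196026840213516388359278751774025393530984630674465326275300915223254526799835548963352456034203386963269913654422526388683990724473448604429094922420388754683167822658717207700005467289520233365282895420652271081343668419280158213412748076891654283423480389128876315630515745835769360267282892360012921597878639507094249562428456961814085724058999101525933113423470849821890059496098632564203188769134418740922869035482163552098283545743232623537968603625975424012867993816068572682988798999688426625923764599911036081105653617122975340906144053706006197255645169920678401362191629831370589674853599312579848678683840480451163493216804663861394376281549310084821659012926154742149768465803266566475793477554674290016025960111606959619244873316007852413965569907312657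15192634762240378358830629499611178744527838101387373244111809600253368252266359698333346387132384578363104770941846953774195555208118559284375265858301843013758308059412365407319528918388693969481381907148678609403852893056856814951131747061837891529178308105880889923420895291787573671377828493596867499719878261794876604688647441880089203384205846943358505090366375780929240680659157257856071780877386562278064486195466230572482961485898035837445264660182703971772195155951827390914872554848660003504627953245806445182986062029954990691530068125005904566902717144882625989265973966825957592081808026609182726967450124433627113255738867365530460906195380159429459653609087821364834721268236288)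

noncomputable def rc5 : Nat := (nat_lit 182555360350141664251768772366705994671438300473793773245624561252840689280636947356881334287617126864910611350452618399776890226695722083556373946863846541310218808680911092791143686815061178450536702717083654147539087874438797490744552775091720787526725789537920931930744059700233748951322197404257954022179839923320600149270866650848879076575255097357444951173237280649053165585245060530519398154037735519946924977571850522855018383067339585269491911523950504598990754857647785618681800305403741117951298747462121782095180896708545969608067781314711794989110081018635326589638561748637674674432088138307798625208605141486961284349750428376261187072174271402073112613567351280012578298015120744775093839871789694041591435567520274476844201459571637477041030211861210283251752876384528036806512377471140700049186462462408884725293565027092194630923470885368454126571627461329866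038888002920916300711193958855523441414840154422467938101066068936226623371913831276312785086395620769385272162275681585607357444775563803015430307225881764802079969958045346613894870253481451208155841327856504839898857377026004268148958704292741913957717668837599059778417848258727824648210490314249492024435909880092390349093190736177470055646756166401743028992393754106488223142754208583947557205595964012480651200883455973594187677442391883437336719714349067255537275019636305279478941462390195445112512486469201843322601347801259706885574029043207838413685604214380968709501931929064740927039162641524864862543867263095443400357781211817487659087015420301601422410441669778773160880579276327135848878203337291792953878513198391406503105604414827104913649930073203356952775862880675056186263547876873097034211096506485891771835518907653895408556460071676507986417024484021824150291663880521365027487053978830497023477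597275820052771365023407180802743334331458007902826038407316486124361726597199297565853660082984495023451233227924719278195478794706753079578397058672461778823199270390725807727371881539946785487160892321868840316436570634644020485364778929893286959342724860835695484926793428023626094165632993629189500645679443886856325262313325781494187146986641541364950198017926583703506423700618075257366773018172437070426014551938869667611162644921731724913791213390934965396360212063655684117940193936337088252118705587534921135147317405035464527614387284173647196577788129160799187455130636230088013679296707196491264862706881616108083105201733416136021562474746616741036959022915218275953996140394803181559685005661499403881220796914258023404535642577229326642201526696577725986734240801112476428773135620871537814226582678986129845337910715880774235266106772901474236726320871129482197928935659470764393367752448932229112602392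761858940044528533460983739888191296336146676193082378050904421697557805239680584730650591609145509381239915504863798687782927189092864107222649794464863587225017932669569153094222115189878326863835563839860115413589847184818823918559492334851249110370286169023496807214821523863727856212804654689791515873096028078631864947974971482267945239667617326670499103474678963797981881615607021328502761213369584697464605762925544262946207019478286359687548027028033230338783212652118967795230382552996213415743738104857863758713895029643586888789506685739912351764301195647537375957265348790127799033714204888091898815028833830071647452526300450601465145732831344165602433007282194842421219317956124714959188658675266508552806515668937396122946854897422071992603695922889817813515894240807224236386830010214535543197667229269269999678594812824691914444948360487590720284880853560448574448867907137714206646384589552733603387153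600075588568754189508588439085275344022144573203667419696726629494960089699025747910485638545403802158410287180560313921104673073779373536774202380504879879983017815122009476577511095841885744651666872814074752018900391878793343963093465614717124645788065942632463821395258114174405183746450623552659434250383243927349784738009189341045689401168542887588976821704887038478802370640760375912820798929691767167025729383356250888550902148223614221196960530890519965679705793999343852359708722737364919700199333634613823716283994149500415677830580189294007839493390248631224602136587691929485066228066576268716341400508174197916403263364555743962243114503683121945748399427470983886178827121367872839898599891478545921241968182908897484263313145707350629260669087470253259119166998100564323366774690799417030960314539837007708347570854113695750091464755381318807080163052588321125859219462965584499263347134906968413960876779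944423265484176305940368154891938411288183314729362078713337647825478972793463721558296712329604342681229174941039432002925839916658449406625833347349885783945347072692265675770675549891108092856342121181605407917455440356725590187809327557343103030086567505096002405051401679364407091827096194561124382858683276843913751713681477571640906974693855113575795952584189966002507873234252919566204641390253451440222873083777188259010838632763450460443595427429325399471263150844210769524905749348271703415858564935683961576244841321130231815787529569761880477623889414569855841951240287917611644219970412353209287815277165879028169506530893285161652875231780612898313954101281557503076232692054972579861504405877878565580072818099160678248465720673616913863200536150541070254140380009532107776520101758016200342496094310441739218725729125388898038887602654032706383282216972197848143424481278574565038868763099510634102552479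217401349003688152501708282175082882298141112157711753012698616627185462236422281742918929177422245741056059768538796411666428858104518809880084536062104479361408564832194836109842206969799898811950642901690102835875081426321307593045653065258687165554846549069595816147329428568528134448410874789754369106129141629791250966480401994027586997052481469395103150863186187502500034665837981175210081331419921719819262282028589471217016115930750199095328268225136629071484872323232631419564146135037298927490995914524796205858423675846804938505500011979783723024701300068507125109216775922204744296122296553430847900228494524341147397956466429212822380727340404915056842674996207142998188599163212579147183124070130909370473872160580002726979486311002512089428879414378484480037858702530119584609326018000508041093068790513091155014558089824276903958379477738263885338850889547356745686250418672294337436781095595735562164494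790457809698507858286332934569286581300470465121800083572960068711012062039411557189252435784049236265546696176183088110795531211611235317663446134751896678296979467693036091360657408793882297982432724152284291085394336544852959554131254523636424808889582306831102411546973016693455520449540307385283198493131294213421244367867814247030079271657517109341357417505897551725851940623101811144560323861940159947178817339046434480802922905296560527050929811280450959077533368599803722209870189132481224183575864846699396820896517016258596617900185303913137602915163283728264341092534964602092409324499842299740771716847509619814346674418326206721494982868505948011481700149488780966925981466873942185120004788807420340034891318021838933434818649164189891484818647668836254864672316739703388813098872863939825216512633206646594423317458101449190677886204884557321704960900680502064436053891446730377843659165127599643387007117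568618363464032294549392612631555005098090613184644870101974719590820990775900395935140996494815950597799874563679651352034910073008335697420392039781233500696046964291874496390169311535446815734284607020338273058298484164520518650275062823887877062783544964337238499369560697864074011719505513629349007159961431356522806171180689826723545290248855654679420118677029087420220912062581264746276212065961846278742065595470169880951716400209146519476949201367101275578414741706172011957812467479836137051968593551088393003810069237788522636366148213687792224097484714982151197782378615001588360693054281268747816814597692543131767224718393531849846193385266771572987539992583116475260797076011553249069934400174871710316101476340565901680148788563927295018713699507312890196184867458497465541827888018178410072409950807462990948536022770889433580548390978126523739866317136984654119435488405091825701702961552043981325338645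10190744347529214132194790758907392396041796800119106789020445247253234163049472309179989816089525376742957969611247904136891837775429188475280835150606058140297868542966823737976511334137254149857072918780648352328054805843316739449845281399874586996399308443224240810752789417645063592099136598100946631247518671509754631994804288340189949225928806379434781967162650375929821765976023440635059543506391331777367997056149338565875991684041600310223690823533094330573172865110016442745076250714846767399088923744346810645084802325108322521612211719063418860516045713176119406766182498394433573584705488030086870643946743013531256994298818973105160190352968243855684692668869112963140909227048960)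

noncomputable def rc6 : Nat := (nat_lit 185013753427994870962618319872496113749351638813963342186193178003426339477382711277599897370039872441089893362048586123970113955465278423820366708459454400756649944165231146850902535722670634144495482279221773107686340557041453705017709640539429717048074031497432261226382203062151084591741576459325262337879402190717621806718700624642681555095756508169350823550964946144796455578698421475853320996407639799783319038225133795143377631320605789243252833300028527537320071495035529373640454553328397971637632869482190717411651188174261827801110627795447358083786236882954236758913763178377394484759879249083822531936884953042765373419855714573461348862924502982638347251184996564804713242708959117160745271222345359906164859232619936172293076059766320206786137251381573332667687875743262056734254873465036491396560769524620266019560644555680514362682100772931931324215642697011582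952918513663407514034840521992375995145091518596152493259204237708646779488535468194601207818133588055195169320271819778714121431878605435904754351056029003052972464684063625264673791760327238664401129929195634452235309051679455558870388321095963780787719708832519908081419399092499056726931882007552306293622301519143249918979264303952932166616483080243959285723348206970402358085548759789134951147829383557821164800335183665688453966325752492614185495440297293825893525026039318705586971873118127619716541034902791747697585412299656117476376298595916407039423321631381572854445810786570667333461605459791082902116461259850238240786737196986078350831534976437504251836017012564916130954179527636675779320029073759894007457630087080595987061880267111776629404498207708346619562581176952883476634433568752686860835697940999267298894421219708743130165374572294110703857795676424369527468046421384769000065411228905680971481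558911481898842794928844938209242226480405164194690539469196050491864326796808566199520111989855116387675686628036359557089324094590246833430527696279376433005943952356135612279327729203890160908437247626105947643343429155450568507588082079219541182420257773080554060063160764349400672839642297484286567605284909623373792173548224957949980822052184138200838018365572743462194952278254022850568608186810175500251971431273199973945045235561791386172735933694218467669746553170894105107393922052421886993491870981638878168445668548128803894709316962345340459011314555717851934354420434068018598770001487442461967660349440017248378457495912440643702849544976798378437274563806705292310390953422934743563754524178942883709077035361392689251109847717114703194318587907657229027112881765490346794905562587321065696863342727576511959474447734509003718700073113142976101797843292255390156740352605723762583302727399185261456839507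955344724685077271807750781153415429919347618489489123062699204993582994921518900503111841566550186750267757710981891820185115925593855755473879722388371007695028576112418518302981457562922345753162139574632138654854422585561612642769778925778181625768236466115624154385686441431288055282877932511094341093501543227294903007219982799548220690088009027794197609120138811313258989509932985069598833727662084358929338651730304272359663592709527115024262007470970186889403631977699021881004109466227584362775844844081957673058847605691798859616726243245462717147805488018413641873394008763205498566464507817506228317805889619326364247908453644952583356583288289811704001269650609299343486581901910789734511285437541178043674688038696570448559754664571453580790245248862644046919035669258385501126493434025024099428727002209736227358418134669064897209811247060133047371460784545948981318043624011838172829907017858911089274869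538920232813468766312089249328843189742521774098385273353333116830806511609786717372076676870350736289311625960855312013824226831422249353131971548482000448259465477363901978207446066160472442031321168435974145997383443296707173376035698857380978336543474759624190240707108198449059833548808456095596822403684530519155216791787848451668776283993440291562222548972980350866246399157037649936153625978413282780995016533391644011878792671574964795285061471896891921487846129900553368795440802707461956726389728925792445550242898453309626561762174142095139363491793418849827805344403109696600923038271921309430198933645472532860777157927256408277925520104352999322101143721675473157787256937982124851491981033065856964632846918298952092506251888087269023947624759337443513833090193323393837488745043277162773978329011172218664924069970217856264043009047558425864700027498921250503654874409406379057330013412172385985185992877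055575335486055421009887862264124985776943669434293721709806833895255945233337809150843560571263106473973819055965514391957738925329514331262993404760681620899258190999436744917811417442225652717346984838909113870319212359975007144165935672880780103114174538323729257786548009502017220715577071954118004271045043461545453859263490171488531374145226240637283989448132317907603581470995219190405254988502582996943166840086196003682686481554406723941523661664996856801381331816478816828678368697315965697286164827248798220988878920969009958157591688510380328650628689295097569231293496425258657679930216674094613924291481558583308595906881759272342709814179900439432564458518885375562358090014212654841415353013143685035304812687569432941977825080567338243228724702306717233525447689831082374315027064831804467320206467084983401951089984756156707097873030360328853397434264185430175110028963269174534319033868576428312659922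910169938252244158132294277622133872048794922283052454341955839743233096746189988262237252720766044136309031856099541181510667317846022188935131504111942281292562021531286121163690606367341954037322305072200728137819682360773206430950242441003626702930399375217608005291109301446587026435972264474214795653335647352670602558901956972101743431319342340963721337710973159118121410212741318010122021886874942344407780952126807500768789384498576068515961450454136266684276904793196326388446330837429746224886235825427776078869243865912921567356896750319641336749979210744352732106451181538427551456572770516947246704659568849095587079953807679234738183413016443405889155559369002051885354061816052234994864414378161800856521680013474216868170288130378275789148904241489313378120547833808782592418877072054735640583931492123211310700870209258772458424005065767097964526201811500131011163308455537333918046074748439451839251551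891805087424610471281573380452839785902529528238802408116275877806286297514479366040811260535457482503993874304141456546154500386515634963354380072189771783558489253219903018431370301709957390690115267881597314044756048544479829704309386937333925874269050790418707644428053592572680784071555899000268086271232654700826178685794563020868756582558218340751791200727803477127184458802254324439913250621640995107940658933166251546551207642442857025911133155202335861361129211647500066868892202896462322413699076702828852978455654895460969753355393030376720792454130402984067720905114094430693240004086030220085000854411266718731614358624580601734438859451801492546170721873224469415555359552421707566263088401742720761612215609606231873435726257425724581059679622695756681398770961283393450455118343670797709322089395359639389173594153066644748279742663993216533145549264767341570237193595463875198641871553208943999873181369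092629686306878944395642139648941627738013383241177448733912158383618943441017128517753184209300198947952189552881526029664799371992266810781977437695785407306243074113381079407184937695935704213162418582413390178483522183694215885075010427626450559818518630983472898323632118689813807772177242735168327602241764521863745273516124829138691316145330477659407576004906994385035227682173168024880694335564531091842610661278440982853570920037485253967064506236650082812247529282946677039938905399965209763554172517354453838288507550871771918703617171440949728967395047723242471777082529742236830418191342989365097386014501754180590998989042514446397067791957196232604143148269933488301080956239390031769689416760247594399976315368226311147121565210211070715233439037774294993004471295649024217950502446600750576613661734105553527589191687004816869234293312340975771673074126577987035789069748953184060168264906641822706518213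08035148567519382192362540410016990022357959158915097250199440742271616068040491721063984736197050980466747944021262343534581996903489727052152774311865102627628794912477272283997023110602893611566632856924326847232762835917404726261629849031037530677925009593399060731057445971367580118556385474994290183502814861619435823693006302202186615321088107118563721297791721559758596433471520496420729556873857927495785377579982798069725125536291894697220776504787654515214793943598170896573458282483422567653409518173197682030418440916665922189729597092829116559442978088016139808117469149778302580272579009141270559540014439399738292581519450874614249927116525418562571245414287819732179935912001536)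

noncomputable def rc7 : Nat := (nat_lit 187488687616953709752819750362824304122669047360259141268442567277277516536585030101493109628988886973352381903628964118936785230208284969674379344178496132065201513072452198028110309027483191722949889429277822456858783772944479264735662872004999135677213237251321674862928029356664471832869417620188349703159717357588902071092150259224616097584725208408135919287242489473182207369212642744020742342814951059415654126902896629734919879524829002597786733366250063766805437026820539410807583118707072758402715899933735812516826991746414211740723677352367942987585668245143195861339733943805591689872623897034043576627041812645416915572220791640734608407202694702699241629202688522094190731153889001497469199746568041544264466106021397582900936833739892779565676939335180882559660167137243709744841699265931891653766240552590826833320477018931496622799472468107120994691156215254929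531738952753569807259263327138288578480244996409710795622206761864098663187263826513766013879443245621539639053725616823694523391580584963386627053467002877319887435307820615583997028253484392866476156507829661872976371972582557437339251526893108558804351562624420729268251045893961830282857342268947311773365107415518773477651781052623016106955687595455757363429382373951646698332120427792494022227406444795857907192197330327751290829689826251388870769233343457728316485467360200914558075335199250348032981617604631608137136633255894355482515843556373050671012396433879595579542998472868380838809576179950253658249756660111583173536036142381752685813638830521628463268340203597636129922676227885513100459805909281044367561143715668035546929174554159181153746334161806186134739269079926062862564302977082469867434120414992187107408930871049737840861396954681301914754493445595605559745030209739563129465524823892330732473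369524514325247416525143896283627435705232988149281336724787174967701367957537546498359197051713144326593117585965065287278636595734159286687581431896903446440702869759667085490641935695789141434408241202617527034041564540239119745087378764240159028700507582410290481210316184394148635330479684854115700998645324384787413716152264034274830586511082220836293922803025667950945140794894052528828543794948550943332551483804619123782688308491525792187803471748005885147046589510944081320412590611244812338192282004574270779834378582748108603892705979150742824718499130966046443151652787766581268136347413207528815073246976214248187264533041696382861826643967958102332428376295462858990873506165600146017986521886723701920341925054183563577681910516755600549629945674763868450081394075845095628832830898604848035033206829292488770504650630185562538390511837522734548701516297715499106761015962959757992473505960343834549779511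174705352697097453433421529548067559226141124959708646113053799370656010016331810371277901803892711913832160176253212072623864262082861840247925321389678407522523618531494272912386899866796946179765002523873217902741224250156128598036286839519845394629124545533120223062800797049787505873267383449468626901569051670949395142176466362414033619753751417617966810165080579198242359101648011834243406648222825422331961810632960810113815233798129137625949355578362340334767088144684937122085742033306371344379321567503453067305842673350831394159523588605486513894741053306513839287711956498184275217286676161148394707651836009132104143007454288280719416695831977854612459900094295232214673264660994510355161304377731543072713288411031146828575516774788245005881550242211836832755619755807990832468947922419872929609743886540137692062367252177879361634697933909800330855426661998048016823183306264249260341634171125076561719819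680556341496194034577300171720747574876971051230021485468936546881278833280620969623765703006448948558240981446401964702259505136627134614501642143392724707265977525589856116655123189877272350887726228967980117219912682482204073144751929188484640107096693692068682895433421195101543242349556936639502778659705012853659620092552987276970155566850099466105642251651478867300883344831154710335886707288976510801986805383688914908950837255263584345933102513081468905591805188156960169040149055754171335712802221682878952631127399428777069395728083219478205777826305676156075704510124914063347527642892575332848951241395938493067807421047398012766214589185867647389598237424916809333606784048153091476732675037451932178590342687677727908249509131744637001024445788904268452121694501464393030764647251295215082712809306985356101435468363844117729639682416663711285242992912431462177187628283115755170299718926821148091585674896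288399213406130106521135855969318056961063502949255493668858497789491165411155807768618693439711182877398220268552540806341564039873518418766498564161345906144298609072413563881164761838657561018333435894475421436297026337882405028145713145653149875503047344098854458133502278265826365260615366608154722861744336216107754235756930676190514298973523763976842747266770126950323306196861562027870442757019890484905799543711856444713902323901877555080803670764857211405084233001104613617896199193143953644422364675112214325975503361743693453628047024434510789100630493086161738399546923147685732013731947783669557483887872856531199627870844958285111831754766899224199739858136827692395630806296222457200474068952952838589431819673799679908306586597176403573401527519082139496414089098554990860954377169587500918770905862745536437521463953877671120033812434568017892725474120103989024922960503828073433253640166004085094243300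017713505984191169995896650023621059525184615660190786821121991305531977966186810187672492349343032447449756761343901857429953435088074560814455627327252016875218487228695445181435988974973039357325259332377305689211707855418759003842403269289375320851657786735802203998967747635362903149701450652892993157530602611685986730718054411677268145205356561524994585375946157486942453096948263094755665992215320872936476662969667826186336261401289639755219191217439099600081088313203258794703970786614223751831228690404614522841241206806120845493149946041739062978145689709905060054545130665507413007509456843925550757268405528535833546593882839596380482560301623392044062197074236164825291213679025496154090936033657970700257027895170417376418550237507934397481610669556319102333786630571343006699545519956429173004865570181978255140097779321195557656826983632734218154979338222884945454904713798375233686317043819465218676222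007501598926315966458446184417229381928028682856850250844053726119657064753103814289288294024815131548945070994862373411288288991271866028828047735099290386882055668740805539338443544593188973285010098851594832445709835522740568359269427508135079389554343290981972406463844504879405173439221847846626195200946944029171636218870686832828627086471858847723705590188507834651404657546870393323045778741735640015297973123678603184902141714554728195876871317212615149388303122884477207455696190229349230616293409921387980895269710355921817147377946844445325949865152350192633101246209127744426389031977127848836968353783856714187481189913574720515087941877874554534719874035206269341276329246542163410017646531347434995624899099588478355856809197854861873216542585020362650044953797670475303381048211400233194713196222213378972130086965437649549952617093926782984458049334625903555960057118767103678576188044894327536932079365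288812125641141092317343436982182355740330210630301720278330480274357146299766278058139472242987895060160917826281665812777366150865947039923851138426636679746510820030331673854369678713074175277150478403162747346902866902031111108303259930828614424296516078036226303052597098234745536041634936815853674941794862925467107306952606480708936268599590450995782598609486950727075918343065474505054221399612885476244408014018640443500597071848237654737611894397462809949738588262702143369135158263530135311435865201636768561573390665057713013974756630814607027087780902844255156063765080870541545160772004839353463582312429300138164693643662000194445339916852471758145203997336820645990741371601727333147033857822971423807968488781189885947371369840627564143153300100067360609584591150337585412024202248682779720551220045451886224036494848394787487814320603975006880789900311184839468497071092225522949048462088143498813058222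70814395350455706251067709387197658947635820005075694491672901139078474407440614848790066434315791756790390364952153401839887982972061804691055995409227208258393575638543501808803392282175059841912053132475882198453864832656209561259720669755973995589885117999247978344794272704253414476161218583889480099259089722340860768566204368012959580674193241198770143000096027621681310915702551517434080104384863425792961351447301532508944382091682055454777328874862545584612219475818859777161578324404434633286516136568342423493265909209670106011250016660534138030829692427612023580111564571357791391824517461997662877679503025689857523506373421409301400516729619207513051823813907048682473094918438912)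

noncomputable def rc8 : Nat := (nat_lit 189972188220261048185580873757517670058563728371039045529112061922252753221823709884214777153506935430970895007895711503178877695296990262296918442408213359313672639906600855815733258089522341333810424147042870086017298441203558414456339462813153312507025938897374176322960214828262058055287616813867020645919133474660247293719747494517614357442674672061482500723811485904582197192739656714122508154763691391400843519212018981294717145433777742603646028471134031122019206061857759073099324481799286883176164561164059790273192232746516073632661756774469998358921625629713425985402035061906336046038471092930656392690614577395903596740021461435721985237598042823135279006576800298139477581645762986143997448164638581424024969868311005090293409125532929971323033697133611504691116471629838339569038715404605584884313708853716887266769834335825327703423078467114669899791325770773123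662329440027084315306906873613301483670796282988240794486433291144849871563916935805570491291992168661317248989003290386913703517530603968371479188258173137010945665577777891851664354357172567215783482029195499273789538320914413491271101550525342276746516169310379360785476543027455423003564820788115934093742033674613774325981995820199346426126580448716445919976189178885384676230270765847788527089083680260034492545220743339302438808541282554976951075192619848969396811737646682488360080933314458354292502004517254523854005352721684538769492112488219565127440552843280464364998136413282886496371409289617355257219641513102238808592652181072463033526712506634680889950845952493094935712774686018933493927167192588540395177663143610596602826444893683242371253297916986843023346170418572487412889056638218113864503399648039669350221180574461287408072621276612603635104450642428836701558405341251253621476289229280687532745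522568675706363294953467159577542367349573553057486757764986754924339630955438535085859852880315024098789663973576560221234718361055798219902636720766684892484987177911735919881583333234533091722788334968871700911954865488122838384116950058297856149053204965481075445770659534706842350835939668136888455057937396315994916446563988125967333732651055468333120217710172518062651810359789944254078552758096989041245867170873783577511879041920478268717104733985582282405204825346900555084180105958236631597443803847456357450757621806918483343971564859636204177140133137405521881386916780199249382419950776883459949991374651230515276028521444994212211363967117947393203076645725765020628140430112710391438161115647793263354374927247316785764719161130772901933921798700191596947346644254208007344411678251914698849509265799760972225916324743866451493748834021623605857741294175782339852952932192120250989240590460523528211489271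906240619601523682408374839725873054807280527141881021703005228656734473597419510426344622279541559912681127184441404494469446283693109764417942103663376454979478024240199764436320455387264546899881490344735373239775828866651298121256643271139190840348946894979451180258234739990096920429638267875518666348531679598583770883538153861604137796285304098277137309344371758076078898757520146069794297131083498345007773565149522807541638558054739167635915632556990342275577360336126266978356439382506014284291258328549657946551949211101045952629441245753727240593971595747476282479976690564420071107079858298877280917872552537352075529860125156078674336090545258314926688345540059465777596857053242842644449863759616892924092023008300436913265456932415191608929595762881625831625799530971153336602945713818069941989841249706830012320434882349141670338485702402671208720012674402304103818399313886083813445747982835431774889577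234915722953353917039916364878545831921504181199147925730609304796633641287460020669677924589230364395668950401597064029080673058100693276225903255528451606158439994424339192248315744435605963671747524372483587522041713643851403512853004348605130677331425823516534561453116312812046148853716686858200232689209906690565776016434904082514413278819758749031600232776169480282405413473297527009607457058283459115006203399094847415691758920914101982386148950495130750778653649005723839682546866792296334138378429077976832302403760965941649560986674798987461884042948398944902324897773374486752699343618682440479062056013233463829572188426199061825538593664455318333414665016440019294911476506101648052938563372231916742135339044005464624398584171305867843927975599175664413947353115108503034376239351105600098848121949543547266699313641700983147330510478167707390863627835027341345077479444510070232329619395402008452352957113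465682110349798464538009404605853217069710186653201216975832051310515901449227945597406303611528698319400578680931308992395135888448848297014335701687714116328617028069090439667934300608697307181624054611048378320721687747844959066096670571323389585748012185407146634409884117131020310467855543973215095071769185424213140167638043051230090797318014818430930193375257951350300826721673221037031215353175124676476275786671876220201112270980199107057091526061916554656732732723206881827616502664659636270692149187954683233721973133231794199474497874734817224478381600155633203197629043969693558161069068073249602921504640612092324150247299936488317733351328379410608548652750398452471966328870533725793926275908882433255246505093242860447110194849339795794708149341860595956697733672027350779411784130573407869737467433736621051942085043409622547481431820060891383868792441152992296515697872736322413480017956184436115935777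284041632917072420933900949584050627249818336412161087518696642244058196295240502053064233981823351907098302309679794592282626514113311994268944500929840037213982878549589634986847018511449065462668746488371025665421133769969661290775269934628152286010211757999184880082853223760456008409161461313916706618782306992216353121791531058483117492241157672857809463692656066308181822830115667682584792732217361589159373314064338059813266046446158181351064444517441023341922821767969280114723233575848651130720246445926007129691085993742756925210084907194017275453969840082409864316927092547849405409921107632270141926391695081977830158678091101873975585402023165190352795683766592227461956577287817544130579290698337653432502214088679179466126088501568010104536919660426438092597236410614589014637303604394145181322360260994754779607795234231058988911854256956703232007641182722420145500197885641883412323031177634845670235120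413651586507530489238154762402862343653846387415485982409506946978389872155318337053262636224432382461922222408205509319718320676846907857563846055526066790603627742203391064130544884669668854396850966985486968917278978245097658247481535745856586245495161393474079488537282636677688068916547988134750307368071514982326635079734550305953472919573617134307305675313973630832367049081606224548715136406254824795971729569958130610765832102456792950422522403558433346488150051071860054396545199723582402512774795431793930302264845496922665768293470296334303094923346087351705193642225468575156631141132577306061026192664410078348556614484111102688277542412134999843966057914706853018826099753945224572252278493506646163045893008987386126563567576436517058720554181594264445574181165250881679181811021194721954799071542882694341875804984266444977238559743017885757687121888293340144632803918515131108282108550977251268715229032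167955502931878024450789438261181127068970796066471485166319412095505900979366297147304751730482899790899737016478284682967017197746012451874684991792116295694009032635158040912244580510138404027768480180883949389623929929078646000382797551902399078345673231989463503945243173982525799731265087132802767989715773285368927211133341955414620720395136312919508468937349796676263349523523693415363925301487629284310877735379971580112441709054511668387764699860287200532106282076789594503744964331397329439408765936122947394529148893727622524724504411177343813272649853892841444455041208098179440704501089812689841925122920967847759957526876667909421160632401974345413738480097906884099018469432795044840699070068010055711905223447254766261286281240573846621140610925349640066855003831227232433945743479885010368240961188563143121500711401304381241504562315713725860785023392302569124467729259767271309208498450315317170577983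27426733984340892382185762743203331802897518077713956008109230885266133127263054746475267229696812797684221133755939316056966877258857350455647736037728559073407324538773572813917640140269569292977818379616086286122802539818754713921658575711523978762085134882162386620025360213015470758948162109088563747848032635158334694951195121956062050531846631347899370448470051046125648702671317064193066756663651453921312820593673498350265795937007014574718597776284925927454654179905359656027665653868780712014226285757516669033037016652605152267922618266331484748777149542910336893696499277595606268161693656912083179473628526650032762691340494078277185723999978445657576946617702996165325986797191168)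

noncomputable def rc9 : Nat := (nat_lit 192457121634832782508834820202731354342128266425822846047685962001548103666281846488844210900791324793974598715952972391073658312369529651272290713772918966253527934924300728233139770840504395289163399943079681959236497327462939441794002596245327675688274057632091845801776680419161847499959600285133845466932040623740611861182797006983865886149963772660679712747672532533191249161127404994926883385991065001732606163043235060941443562945805304792120946226091496160783447425677727409133338485837811572683512621009226724033906143864890836541780682371134576514832167120988484881619069397735378041936291770143603241670884393288361392648741685262828602934756068523832503530387790225983135957378821877407722946272810805352426264140305079750506519307246448735547410017946099494736372102663909848535545983500732173785779668111606436581430545547678187732727293481778792795077192451581572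863395722348234852090079495367758105268743355405627157632516372771783506660373298045517048711867692205763948236859757200191285566178154845914039270846119409136523870568926759918920096928194077869406530116470687056290899275424112916772280910826279694587204271682731483377233405559038240508093487044607994594261804336629013571725327825651355752536634027183950863148717878633872837049280164197171737389773871958800989057581615219939451313501073526396086400397805959870740340198699595082252203268558498712349186168753747914380772760293577077239485594326956883840414467310428332452457910427471253693060843610204789904291050835660482854472919851843178172894189321421031566530484750230220033292730264410419859219290128683425225652296253199838605597308878512539765740967842787322595096891637567770490060487555148156614920945533687815088760882096553569088479433214431828000169291250921286980485458284160892814757521139663632459802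959201980174137342407253292942752616915476975952410670168293788279419659493963158109465763622110667531071781421362794085582990238035755611408591384602819593961245159723910836646381961047842232788519056564419154857400842163830799579593224986679347987568645987295856515072375649834720195152944641671351347145326784922825994715398580057921248051935987409180490735967651291358633035084587527137174371864902980378245724988256100808083496722578396574897737914778315579483698707913344384026190104191410628875536468521603169490671277974288195811052536166364874249819762020108741167929009418794113957045665670376810337227538588152536421919434214335049807668967362671504255552418004513266881131716190015039626397431289947287322246710307875173797080009119050375499149501268694875337448339500001077426678184962141554490257867893695314921349086796551091970349140378873154596113770766359245324393458675944148652932880662833539331609987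691226540263558071578569307816609586345171752703082676393548180690435508835831304693593942613778209951168799299384077314035029677808280743005253920667430776706165972913965234929455099370304444308717127575049795828876586453582773302992599316586739933164254541301947117494029606298229869102923388832741106414661711960907225582256205658484565832682127594854261978708380521464541632749911321236353540509322507619129330045414681720997277524053483735431490491792386233185635287777272510147380142741886477311307378619673993266964548105249659010461055734018301722652954344232346295805606427133454950328602928866879659848567949179380837974666482929322570997763858869683164818107370332180161966782882152775988791866798418279214882362023505688078133462229849875546173453299486078191929721293328908408706379601093759805465137460647444733130402406143405157177118960601171189564846874121873111067728607164998781075584083127179350847114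422222464893760422078551174236745242185214131256223819745200018793279186175595306594884889481934618533731013788205031932239182178595185881564552384771474456147013724472643788455379736035874865727296619763944057717121836220588661579862577276910891596061586399222691807163867348616123629815095737343540018712706560149874272407978667662148444571036010887182597167069861924701151660707187319306154336596775991942789623704809405050467303132812784790481583933524907228001913802727339645923421298823466885696825993116231260605704913764147113155749608550102954811750487334329547369217207712199299332680611032503164938023724774968691474395291104639866871391139991207867253520480503710810756178615679461518539285693549918338457727055547152412062574141212322152612348392865472483396808229856666869976730912560436438808327152960183517930346062044703290515485819586278009334466081433573095752154923587019377482283188513123654211503070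326253656402723296710723811295709215354204511561204138836972570252794695061658535886641180175809271809244920649131133918670536289144763510860402432693667657493616807145233492835523646962072358608233772101881596957005398349100036466587156012540981369401778580720580558431886441249135188490491030077420993024512564640501536920959619057319403093037202425887253806448392680579283618159305521872624953296647851266176178139617197129597454469328115557546896990684953965514612979964267871052146478512147191918261777769066081470020069694523856988703750040490524176949937053819948852296237762551347624770480293767885090737481491638088933566526206529330553642037953303627515216139652673567540794847105000607464002122420446205784130143909376998772052741475868280582629822055723713921884667171806927513846557453032026107968444407245870060120637932412421034965176347270745515498712042403387488442267437814471326233270370269475338999286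441990755386664032177603179041997639080632506809141492993253880150608746163802769324378181922599224605623910620383430301072817244344104811620537272339674693416082588665134772681668605834466918669079073945533943451237205028263812828604541932984538031394856118537327310424582879151778267434132356518602023876888642176521079866441871485703611668202639887139796475421675448024928727172977117095536425974291450306925092836616084852140172744462562614770980315141751554056648993128223766036606228482920374868594303869910662112183888967145179826595792298539991917408506834112499981975136353688757502620251457804474955979868071675922492709192622398505477751517314262727978122642947447291601741253231226423272378888332139976503618607297748102321945779096883728031611792333676336737285517043655676069317101226060737381332192265071239756447656411305397272120169572126145031613753888691401776343400347856261691404646064407018728328221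387983455444245436753336533302122622085358113706419548933519752881219407793656534411813977087338752661236764654650450590538649634743341122587540544154421648465100966490843693312765705826444810726149894636307934225739851315471949862520361687433413951648935221305805824232135633836682176626120118456937580734882092700631393178475209688581099782348369934761942354163017169109948947190986314667051107361580557299929996691093781627556972080888942534588276890701847857871690273978982922363759154538053030302718010375722865120650483872369688668429896080423669329549303653974904512189561338118017238073626161512745975790660963213267037781134191710623584535065362489912159569546284065685580606516488489614206919625357351989892483611874392442471891440500693297911387455366492173342586688729329638047895431306860568976730847650051174899163143650210705756985353513614046940955690398937197911885494642107312844946991726550723013135258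830312912787538734250870446985327477290276335874460332208884859405162493857795606184732238280408953549723958491354768298925262535898231538527112111982289310418292712599386621159852078093684404927992892111160694688930368668511981677988435382602965088453239433629181320192898779073076038986590802405481803546012777698233689221170344343368670868679416681393194053903084807249427620602065087485884863333639557504995294852454107586823920782535540659362504886162661576770489781697650237917779752769524637574227435379981183531861021190984820788637923519112606009566699848847748343319343186611985134551366641491033927727790113407068605751588583446685709493431458579943812043320596034449162719731335689546316996039947168068605790563026555546429494176880733149830072373125858281703965598764523359103011533221020252486460606210704641937922359560320652441524203569792264667235899538993330136566218120199670790731989040324589001059574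45981285942171132910589856660876635370644491830657222964203268767954794311449083547066390065635472520029516225193996909615522054574165453880824653579898066456609037755377532424298318057496857099872387023345091991249197119778039275568601144342270596590824563050038151022745611757374190377355042119845338350407054951092468731817509714197133512921425425808932254250026681600697822895731783130370547104755666818159086691124734998669143137724601250085008358698305410448455604905987729724852947366940628648170949908751284710192978053037329944972233172110065961250805433036782057169112910344906140244451749572156128766573881584982856207216924280962697565309252749747632817408441819840456652026156154880)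

noncomputable def rc10 : Nat := (nat_lit 19493705346525665213035840183704546568874856121037648514405629423774654441321307752267076873922676750219759861746356177432858028172801090794269571460531823333473705094148771970054908186398075526229394431281448442366864975044897033784921800577490974990871855594591797073489390666147665599805960770719155793017986312855668213513608541961561956087887458529697793358270763951208979674066685288558476564690748686148071793134556882494572758855794630415192911149996943880237492250335412146809602136903820202148403965850936573636627509583538885309706455448877102837103743006855459621335873805131769351476732274500408293762734730725196976568566560190823113362037960106906972640841597306365546364849601535479284686310319295002167170011751318581495879330621107776409217811351191983771762549885026032253567684239639178670802807006898821746848483977987565623717664735554205312694944136781155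090915864955389089735963799636060257361874863963389233513444272687197098499881526582404613775421930921596238394586674286794372425601510613562950620429137553992808089824818785550867221971499331724144781859653061439308654601498533010084738089304945741562075572323731271737030475551787090938865427534037290151443002485537391351447760251438858762729037221169651580607022258928156871448826203289202863651299365007523517869799316614444495820899805226823396775587398436663234961436971006419941118255033518471034458830266883773055650686477923350831115455052613654249656309208793345703644390306319038133637665342205441384105614235121341726344425170724000811232190322046986232346039000807380784882420485309947561465502651644824508516187314427405586237485590603691029501479763163103914381234399382974205675135817540943751860731340236203224196768827462153110701886464421903576941809871588993777324091813184400372253489166796246542426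711484032838709993312680028444582729092131647959808881079152283379446102324519375294309379186401345882757701907371726584172636863073940674253953554133207264072620772566114260380808652633593859799392936521310092258296628159744783902347422913114197275906392225602687279777109129600789451827474533794180559353092127393899461802904028982634970695165878507311086311394315453288967256779290698274877634525362006370233738242492998714139171531941841485128729101521455130429638034362967140686478111935316585359960932461992853172387592723347723714496853690918404185232045760877493419579618221852285982415212755852073999661367345576845903435688356184355498028968090065674442744125057874405768437096551286713835198462217322723450113838227694159380838677575039308147238905781921281776699417398287446174022739643499527191987866450268523475104528144766575512915792187937262280260570022193507441369910031202004918467838787231513079158012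341745315500469049593485079451126844184597152048134576332597701509451935336042335359918753118957559245486268778760733886964011548618128463639568615310669100813129318290162060655752759589266893675877619344783900213104075217461002094831061814899482577142511544095221270845660510776658099276216766824630070681513993002873772474100691189681761308416601901216293677955506563232471346891304526296372142694656561345064825378136889542028858617821945621672390610882703601709486444038261966095158541864157276531842830610074335686685339009915940263916410763207154207999569479588273159419693004888008580437844060569527762608212693550985069662870747710771639191848318227478685867548712855862531982801684625289670398592121643213113059965288413546037858422010216575421888598485979548636070878814868340045555274265908335525195945542699691027443620479917788871156779990272042820909672043712805518406167277373203082856414205312128430921146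558298143938794202849928182204420691205850192183274550691799841875433799417175396846998048867990267900293352932589253143321891334371369937091923501705214388590181007709866463674494675184534339525020499326094654480024333803120781223516160335296318909718931441378884302817236241694504413421735062395411775350728889496334720781596626835812661726242159083767064080774238796398294597351272333948527821054766001573029578319317890029859455634322393720893640214906536839521895290668131595410754658199502376021977822256769573510990860363672304128651309045937049621434151997579862074132629448674727385462751718831484470603729409307586494836805616973148044427478297323660339772617975646725756140977308849638840087145534182087901335383021493082970422645702434058772174052918880551198127270803277599723233747824328462939925121196508176482798044865984837697774269304318765262196560220463673234418083253034702456535538347180266726125594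785803200716188335933915404175610582774753061790021130982936991961572695997836462449746193087349518336423409904464274215424794987575237499474802370586145943461335141786871517382742455773795406918212703846680604121476470921877620818819588744735371288138529855948101974715972028104382657089422060841233175966451867116778179680943952619676725762127186648460340488122611669759384146697162872353394543974964296952410680943454548902644264037491285918032620409378697327045563964484083697024602821696122612140087407308804334628623958463448602029004459921227921826461286688272888271743509706917228285095956587129612282664772236134772461589738561215261848050025030004836179421497187031897233020711856290589288870460879970921282561648914573013346336855828964847732789137319729407793183100236564278337490439803439135812262009728091326614659974392994800206908848982653760272116578882587285402819446961814781232734790415372023496222001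513907388993243992720863395372299965054749936537987256028559281956203426420383676916330335314921292181038328205434451271034463866070968409872295803256161988830371522522358887747676047570372019666708099302134473567649512742325186397634116396278127378628169862480126801114538219911161670088859640909075989021302389469544148842659172648111537426243750700043107866001248443727970139709043198370337536959637665606503610380980784149126333875319942321744179029906512913438166643716222594326972504672642216909948160414245053451798571677261429984670465160130862711746417184907370326687824861881119187764293462743020654957311206534781508456899117315103538949085408989078037558604283019808467316085153492127600005139688541743850746145988971457603599408601739004868633342201343309348993738766665091502505232647247771343396442815945735598269994453470871760030566124411883980103376723210165670743446373231514557239794065211165454327072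745960981003679040627839121230987819426626522194892629142306998887886068420262898183731808643998187650772713481454345191988504689687496699765995325687090705623912075859368430292371730019515545223943422279310737678934038551204575033322821740713804935231170432713169442507801804016190778706329307314875588813929291466947927068435339821384820293162564546654203134575427182616798959033289594840081627897113527803934559134019039756357147293280960417727160101523892154929329685618022001675649639470236475837524402094757141390408642618746338923507190428018018416133004246935719464229506814918913977211605286216274866950202160544253762379943102152064824651862486153921069042723803842828908412818845751326734228500954333276803464386170578390961323048743175670814049888523898514322994846559836428617485794084375565140139529863956630609896717327717855689475679699766182517722389822060748106842144566091165937560645855156570147961586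836032266627330527305313827071456226571811943395542041249119476107996054102019262584527994673627639605155180117919215845973447289447918466881388262097678583553690164018886968951749924518916576655699593392614712878863660296373718773586935099416709354986644374410986510031251214144402472407810124366406583822138523013920904747298091076210862282516234418194475924903577615338452651372390104609315478006238414790277204954764327786542562362514729856976236633624469603607640248727807586695483652183655431141296793633189274453701593182319386972644250045609270512969587624713674463523195228113592993390798507971958542682878103454983755281819493321995196628069896054586943913649524834919982652271684660671586268979921701853727722474817981302094165575921806201987737897093875584661918592406130994310071778346393627195382598672677642261741603443549330552695017576651941671126377522835725653059201401394725208680387587132456635596435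915361250140809206854960611074835881920888531118386798033112393560968957745756794852872992934959005155414464444940261387724868234065059067360787133603261179503546675423794907747839687849266439979711942963109314723046686389559027335150743622178565864010184706788156191869094837926046527396251687473709068220783572310143375088053594876270620897742648591548597532392164979665609138573810481055323876248175632235412007066599889564866838768491900426166372654697747535338651271568302957374814782269068664993943195045065686646555537530795109759290664779821626668134145543767180561778201529942157942328588572839682588068845732251157415659788589516100486869588124064377451981190235879031587727083292327936)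

noncomputable def rc11 : Nat := (nat_lit 19740622973032934079942322333472689201643419525977113035653590584140782401447131378600771098695792753635643451718807174343272177161149372197922141783160489260181611056800156768977636365311259832746298117530609408746572678087822102210348766716317999935877325201134473156297972892479426043258731804421391778278047173950752953422001585284543385087113470066035757886231674069868667959921725886644838663983961328590394953696289904945810436880931430361206095913104964534665253561380522302652773664647799677065551171700343734085264247529043527216457056867516610114315277526484474054746208409884207639325899340395688614001479479847709649202818113293881830241054472458898389457261388724530518903508756502083394014736841056751485536035323635933498071311233077611614112084937379912024498201408237895300869801359442394285005742173676658902155557937211651939280175153992974268704945962237203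231050624766401547736723815188938337923555167145436278287849564726160735549738192459578783521323838360404080027392823767929237558648522862099789217786787906952221492364387067984182078340150624580969709277709699212160015243040136088433750223147342774678817277188936508768878291662713356129222385417471359555558000670247110575098371706021770297128585644592608426175871525737916122735858433266534530082074607808845150910984501931367703544952331703937033494222315989021824563203633242879041609560613279748080803802294001265081849992075925240018187054842961180817642620551231482794840942479094018721561840852318371833606786558980721602798175375666001250597609203727077183919862352123923327775132195063186875290419261556712733100606538725712541767759379481173650965528330468929485038962043173943258165890382998106636176926406865054252688100654427485024718787405062452013785340996843130973054464642403699626803222492251504786851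453763024905370666917235771118242744671771316757448029779544388048102954853147288492589043672473778569866740121027446866125235747210476619591782038250943269881803985965184129836408294960083196415198864955181544010910269842585433973354800893694602612770712222603330910529821500484457244387064434343746193494351216169823462346500069985805982514388334996775251641979817366104278197240018896861575705528570273837261760959110066645512839807414087711353867089160943988194410539135231915116047376078928255092110820152224001734967936038860863811275353865478213335114661430843870231508903576845241883225357056506882634154413255836587252463269873169850341056718499047101198028653035268378397685610707123522392451245745406116760636603132497541828167143380731055112642275406751296080288325526367433859880993763855859301592033286709579120778114893389546583541461612897863561786361619821929414772379630856763520359295908842281153033148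230354999042816093895487740891566462698777147783206324534836327876245032947929313434461011318402812037177610888320930886509046667486756186081491438166582326060382543914553984864429850164330532746946782177744078004982988871922974371098760533688472521880849615756362910777287719256134260021266088055105569536667416021693856618164617101353519343614272950339118823079970782894207236032452085837819578318192497626808279499903138478816859783033661752526345489808957493211830767493481667090425346418217011377455831209304968247054498689622071065376873691702709516961615667568632351900019458053864855463900178651160888433147129500032043008688877004225334370706523061455360275730855988087119811288079962100932513924097122984422705569177355310907919785889750708286533633454189115154136552403042791085703498054847755281374133911540518232752780544142224327874860632565455984428803893620479333018045883323507347158705533019887017736564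727226580999661337849562255644539852278248377893819039504469559370539359354158100363249895446101144612993606665354551843777270300300812218052850288085170836116668781351352132871168446047919258277470539212359442836027273547715752559302115843688274141448605321775105404168252903464368697499019100296414396419558450970564275999456426831399545321060614808265877393886090958964099201105555323146221800684720883435077937394852779108585911915186153893465458223133416918529010283051701079870799532053287121424907488836908335427481117433364834600025466614789667393543557610027559681270740195947107859909658929560004122554568217573140894931081032842685733262668786838724405017479942542703256004771257930445716149500502589272692941916541871758350906922314961189014356055532897592402571927349883668373721618287664908213015316429506879764662857587125849733121366801810690985143420976970113516578049675507897178862702213773997248639357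278087089953891044699992216829992101682687113571923050476411876114583688056657450339237692533095026102875785362883605495001862591331900435454673504170631503468770901762971126126090283707440212775711556921090372186491178148651766788680227055172108244371379127393792944663776435824103500839097240242713111615162948263063195698771093425306748448809198225715886764607567649785051329524324065269655764147018337884579924368748605031799514591135462465396939184201149978071121223016179688775235277170190475731310245520433890658710177698463278281637880209109645477625102477501779952001041852400270026059631035135347066013887810054338835214938118366324550823590117162960227409159271995649602734801825022028943553016103949202482202601514499887088871785503533264775088900244419750497020644692314823710684657565752047265080632551363512319396355208299922472086540994374126416659728080801370180766416201990668832665756259323467185422051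808300453815337368617116882381001251088359580308665075985484060974730479532368441357493988039900878581985060729693252224956357261511219843483445324071274475250663015355112612093895890694863217358517214888201208254961127326959300407703716173889853605698894893004874123567770525720017222199964426972489400531596427309540693145137056810070287851936449109856825577316992690424416342442720127148400142751512172471846670819924418945104113118426709943573166377910040054711520977747607227385108667699988995090758921257278670814605630461389204138494102273094287735885768532216751327763813092907277883793883584243028452164462736089840867826106027568369660572804150101212649397055756041499685979924536380564747646489054049568598864680398779949113775283106082135930508703359017563350768728336236228174654300471970608788203750059949106875817019160204551359887115817491903442601797545791876655818946734857538355594030084809602007133324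203991842695635617529524566211806393076043950340236795189108025319056190576778922089718978767766185217299893301141309244966962900820430710074544736318382608331490637160780258315134201520099839742058192516322074706212681785322423084501725395937966448625221122958129055165462512559029367908303060956850765305457409546229314678865519096605963092707111649872308153948152467526847241553172721667714232725236701958137139001106305261466837303918170082278331893356146499423273943820085007800590735785131113665908033802082086368927964886447766048639707220469228127847472882795771746469145043196577711682667113040211490719782869125678111745906494398498060579371151334792270859960052870118315703722508202482603551045144622350728225039491636142533143762315283777018202503988236391866944756349155572807454931224791599883985060668528413939942076197287342655790658093736771287047459519904824564365337711056020872137952853548281047841868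087206916885796801273855079646679961630496065070958764963144633723314297424196781180482574529415632194361853671308784778127577374378452142577992128662352436895050618559091287651209665819895876898987772976335328734184468438920656857041035578405401209069922506479875212144323494703859948610646239598820168627367889460288148868066107763201400094806882287411605226901762472105486486352918692811623090871194968718739618857891876764794934936784268865612514118272051028305926191705279388073542010654496115000767679553617229330392320231691192214421561449760833781113879592395753282899764947080250852051765036267064887753157249865793360873496352036373539032802689344643789646993011605006630235648547885692404172991339781267023737218462197486088124936301075257524726227916403599162914957751793762094189289339488563622380868495510365604869356481645136637050760951555159274321885376395781269050563638284839758889790983538115458601649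921508456980377075314199671267069441941441140637995432262107449653257882321203951746000002299797954872487021388431993093423185157324442271049020424199752247701995127217559649348920439787572731152818912828989004954738788015864173005899318373062739988944228715073410411941576704386850852687056183488278502270416311931506300271235067742492470545461256965786048942633427351585461130291470304136396852555058119966887011390857252878459459811240371802645845074050899544689568424279452896509332231222811072014121012059220689448444204419283750105721190060415966184614573202643945753065363355955759433162774642834988900839240267300087322850564089757905288340010113391808374540774290131882377414751624888320)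

noncomputable def rc12 : Nat := (nat_lit 19985943174760858430373991086874600243425780394741048815121945223874605628927189308017715945328789683284848364716714519851360024108366581082535656365678827320586026894798677030000111722188469066931454626522214846708239991951629256809403001790982770097126301882168592319043144995155378500629962680127805792393643409213898476689385129154514724965271704661828453828274551179033030262735809192628303135640935382882210695945084423178840190504481465094327464008765090762781949778375174203494015581769142908815240690049085026874182634563433458512174907290264237070719432611417134470232624173011054247296002970449393018704488367687498956030575407952100239295543789412567039695861078519998438914624209597746674659997685541098016182464263026978139052977491025035477035765076252305592712791304211698758377510284981842588842237276673726662717651873120256689861835550024330860973711348734512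839727974491302093637021895233256085134860352630572160520763351793703519557821479648581025998909221161388724826784185121782787036673427529684423368966802697847909369117984732124089830308443647109246826858754245559895574970117760190504344688098986532344301578353154516169624814782966810925353361248013479914451207844255718599122006784728331528824073805063097787348299499902651916731247635737452333337888351784392197835240015211453357875066251026272757428707260841768443930038190849232760965664116011784702649230713874434582088907776835341661929152651477581197461329368477701608727380819329442496710457560987928761281387195912215178692992624289023419862094389462639204916175150005294581126698858473359835998854614503428339589738235184297782678498208473774484657548315087924843288006518606966237762193860162941942826647176690144341150039335870265763640990704718400826823928740912203914035358930136768559321898174517694894964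317671927957513104363430263143385706177263464137646225675885577256186113038315999212678089408954999927689031235452617052375566171115613780602000004427130152299718383568313192944192743983306021718408930370350362170262663446487496393818247773855624948562018207101999990256030536073899314735894729478384246241374623172849250702100470926597333053920794945455356165518934378150092877794169247388048672459743567733832202156027762484567254985133057090891423869881457680298871501981653347776465600574186798704314414594548306403332325278169542023853481010169519489229387836284417125068047150784749911953620744521467544575969149360526783156779521969564583251500590150026943236723202004151806862855558773224391640156968879242295784395134960650628723890543346097116059585732276168881197923089606981463423342902323216032650796376512649563300552718733266200321824588006627743672854253373661644265371919663261053859629088588591865139846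041455687072182807582259125341680332545254117112881923941541313775351373403585194445420032087419597789316930224628801984803600300289158237939994994512489718143058340266549565566132696390453907598057640080946202550094339121475588732112890710416145547199253145169975519738093814386242434003612127565956353828467583351429427407203686222739028970501953010575087889594674425055290110120934017111788794200383889257754558332919183433191803459275676929392280162132330242061488165774085550568816069784560563285697075526788217151321986512640952411175537861196838351645506556408087821896658603560465346049870650664839385666594455867995954083310938671193924227226141209315125671340976841362850487041564685206146167255972333211610103965489206413422324452016772390680280664409058265451104269936017980036429702105960264980033705598094638781077992572954335466780166519972564321827265787465022436064553052245874778974171894584770270675494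763765550581248545711582545019139902891641350593013722635165022436322941139291819615286993345310444704449020621974932584148619851900362744823711028268158645947402944671583171496654464467764194792846010870750830248680461953409552717886309881768474970919262518647641042344770288680328392996786846555464258816083805376716333626392451649300751068787407222118605228043331543754218665928459970927070529603188472442657316686601741643362437393489823658236908507359324192487408082535482705588665555537930711414466946976227626588071134435874175712802751368834380110329934932776650561326558903343096710864033600011016295649518526109914819079478269160795696988126932848081263495853926740145960934598163993438175986229183625349387346861962947808601433283254301949729286142874127254586417133292482436500003776862513731959915328791557741008269441553357576993482997065912772746610644067935648787731874258243404121461135519204476779358602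570667703679544598941953625760879851710578221374179961318320386318670643272388425160133669143944100089222367718523571352900372446239676664920434301901173227645947444001757502315429658296847687091752072207269863665437939293841224748011438123226038527433647855165721436254459128930434252635449086861560259036177584278182505251430227569716657151711742093547396498913647643395230389273112242835519427348789175159356525247046706928835383405923774727987621496019233130766376772006372663836497565455561223908866495007230370618782336506843650392117672780569387683761510351052222533354595396644656165193839173496060662004324014781941079718037758325789923293264375301059267301459431692444543269488379812912629679163455285438643912359614933571270129562077264287434025583300347269916755542064677061294195078930153190528954820519838982327792900027932914391713504222329009984197972487018625868191166832628691613388704970782332162525100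977853377039332231431125111311002613251732191631384157129978436584477493888635424358488178696403666614135431839347735722891804392718887772972279139922532455639353458620802573333055378844043392050047293058520654916964884128602359434136935354765579403029045281941485343514204644973429363725675604556053218771923800026770318015535457264624820852937178888003703007711141058713240040542847526927530642412122250293471692570395606819651012523262530318964481386715981403687491915835335229413093824416504410181453607808539288234108914871707590765353563725459998383095226444887284847997641496130008145989587130106797658934388169044352758304193325141403725074626592726243594692222237231454326696290167587211870115743177156515835410391087413469830510204144799469677817553497854334416772476995000721958799078351035989662128741041174984770026020134833294491724756078947967113790446308890088595003688698656083678080260543640149039251549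633600539318394822024149791485925944043617253428928508830783422875452185442124886546872082825037120166088462950404631342387752068154093801061266830696677638409024044444000402344585734464736963272669813980074989463699508383780002028886972755004611087209964620388735253235887399171607042263998554468254545639405104740143745552299674356667404903340237711277750760182430578272044721922213593916430409372684543950563056383984608467141338758527749367748312088560285813663090800703493344371499339956396242753418241651267509415146640056693511638805681053368350083718335564580370301449738747694850148064485870961794513909404495319771569887625234228101546614405089627866158258217423440985287175341182464416847614402359267600419919939307313414021750690367251450095129683839977242699793303877134261062573784237472644269683846100444709128482594690879954298059522581358907881970990054460264175432181400245271061286205579742053326803459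287242982946108375160447367151340827876070632029525313767502764834724690633156432607483663506289763724694701494310332294494409980744308974107401247914120808301895344807030157475944904404449748654671168338259780197852521664033677660627956910103258497830789670509760073892206464204676860471010530298393151922661695807565642907496894321129223171438912651219328719471462065436821263253761535257742035465773601101172196781887340482796607872700906079652661046416759250642518994146199660099810865367415537044674332520254063342451614211390419323383079626179120497577016751162868829732822733445454721225189917199151716140311480911706118431335891198916671181706017857470354665658690365691012912264387489084961978015362930210915683096515292429435913707437018302591689591190748646340232460265384203028068393811895507538890301693019299559982213887305190196941047876544224951810626387887866609757246189289845161383870153347688994166652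451037349189107141213539759055313629114032408760022767143412552923404942584045020202010244328943828284053031361462669209078375958044761356454870897450043775762785888231547416101495332311647930963454061273539960055800072312295059029130129352327550146684570779627042525909058976897822407313036438785513401745823410971585992656949619796605248343329876420166544682166148499373934632660709508723950576539061844107076006457147506951287017864717949849456130740039235292916380744568227601592189243062947872226617323713193172169623888700539447721802519142911791444145589174514107511991813529067850286850052448174034591125759096301699942495517162517213811595317554973795517460218905042053322116358572343296)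

noncomputable def rc13 : Nat := (nat_lit 20229198372180707594212135127542423490871144186197634140607640976918382517691546909429091661660427963605604112826149143539915066330338929898351560865870230224446893551239478421466340045389582519041156208288801149986301468824686405777736043835194787237365971868116826834955578882879088042917221414649277431876819343599086895668497575056635877463050664377823435508790871842161636839918745589919161257988285532061689666260494582156592605581434242103140320105593292030237276541416858249157446804928743624532161365757532767028402601560260121592926199556774025644051312324474080289252337905224328721604739272018860217958424981885437682725415521390793383917492804984345680043685641176872686071192968495906559200113625032539695045396707104209893598906708333267730649879880661915013496513478433057759473454105111725746122933668953559218838526465894178468795886889045290235254323505121024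519775259973039055691021561405580286219236934639887239140127101559843053572287887781122026459699439261216764838863224629675220435417256331424514383796909657811648872800450489176615808311217456890206789787775409076860331020081343952443343374464551431545967814957804606868287569205672336888344677056588763878694174671154761009818309120548219985712994224851988436758906552590966911254863855222677425070106745127395477621091136904979196915168348419034266315644367794243814203456180724191315355771949103228515698310693324882054048199759307493697917364360030930449506052954636590517315214672470393209923516090248350856160473515734922953576123284803444275281748135184938538446597472503697438322782035765072650017630579724097511957636972003723538232016911230454915038500229974372497103163190331638231849619708000057277643728254464116589373397803635454306260963178541440772727002511018617576511339846666069848770804308302984170561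699823726332917119909200229372231237395654147262832066531156077728347338914145247112998019756719513987259629283633222264371253101173214192374604294192729839501431128257821933379914338974677019615624957574870255611393498719051659869091969641391819597250336760913988728824791042861620597721427464062262259462803925210209932715483586660346152109907388641199357246607546601099879506775945307276941061837914799714048281385856317941049262265165682711331311209117223590529295875788164383845252305677251997230119075900113280871059023489791303980024285110797490144757809174586893254090703204837016891115023660752364380312905498876292372157221921888662742114984365216673131999255042030348071294487376949247599024304880648403615739640658562750738594973576928725825919224274772936850575997331978574151791506666882362573443457737440225065822295067841993157071052897946103076198525271784707529301830447976582705046618371302367183534620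538254344756769196616279685429288276912914409472827689680026424015223989643545942006322001887951561922362762687434206965662003261622675668711690224715862679002694337407130430478909661089513007474365653534004854355619489265374857247276015716182531234159792302412872353232886090778699542226688900914407411843084864620120941801878482384784014257327728585574695528658799269969074544129213625975372855386260384870293629613323459905738299629677122691099574230084045172209611309563281104679073731255448701127753182161851175123188078797648737760438277148687057291817236572410594527546859789340459795897930999404888346623148459592237433182167210758633109973398537125907964035022208893992462324006580515840799485459239861524908320824489374241963570245639803393674523112132228377789912360685984110294905570966471198894904182829779016902308863723344969514774250721348464364153531197522672515111987809191060542977384727356662785716985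634768634538567133047397319739251331196042298938597148393539882974280127943020129122618745179251626242516182486691136572210261992073977930508519162080675447091334187058989156330674017713803081704418530902884311985504667885388740635793189533634575146682471387022875977733685189957512789705803411930708158402891827655485664513321452559712583838436457442970009654376720861310910251746839373426726204221592012911215417818765423374582478301809958947642765167651322152001813845759648661433369252920570671419352055803114625515835904855431218532478688640194742047982664909793738478776799363799580360309511154680896055654350107444663466401513113904088488234685327984530036822965565047905542407391251840326555170677176379674230251122521499243514094297042007081738081612945380135311176020934973936314174683261872368081374948404318959724849449674412698630516723401864032812543292642306380475309552568118632640174634457232396413436817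458530936855619862747714895915514550003524252845801913078391546626399586364459189348924861760172824913901241593283962103600657051331026625877649332806569366229407371438120150368701811313875229782293481716556232105762909028141753569732402241642462311655485416086034676654046800403808383533731143530072538128420556296857083408962325155205540075370009886400726549239367698052505590509110852664375637976953368876150469359706170609312291419170075706408200971927149310302074857399545082732870556297099337891024182341521479722962527326492310933646892607156099354127774779133608012408732923950975016701566206736830340969532122789465622463702586149339625847055499721519136653275482671562867707217941436222684720592165620050378919420687210019434416224484424485793598694923995124312092915753328831616201477056359983083542044245877615771840109545203658938739641423136489152751893601303371612247395570534098068420538558815422790101488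173448991378223076798496414713946294774326911235651963139378072446474206558182874598530785930764671264832558494012410463119161057122816765660692513966343507188029027592162405168496710152314414870117448433314231882215665922878524917732075451692248637443743167366886517186066333733459301283370126631960359591488694672751473625282525344962590693517437668982054874166833144010990691322236645434948104151603532935062338809613807068037171218083718874653093057509853989112378537821148812776632452333147669331218837288242112654242597581423306538535815628395304308081819207374065440584783381435138426702599073658653697531627679634535232267125379799464630614508707249310181966223520161648639394263802138398424148669927283350811531699641214743682558644526328750004184077561300397644627291920699444129663860233683599734986644529135400201224667898706687582805860871710809299794755789843595875623165386781358197328964834440395367250039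346792119920296414960519765927768115512193760836226027813884300486925046452947500966331266195579472179344067289770146270548214005716203107799976249699679400270163301436445034077576711323422128933267812061944227916407159486446456578787504801777035739716116242301988418499222168879853840678414678535266382574949230302946173485244476914712203708005227587673467822486557209594605236026358537839655481224007614743578051655676067080282120606808011173193455731431294448830826430568293469904025153181571591158086229626932177454194803339587975765596929506107457092377414111083429090870252324792179501229645183062500348484515102331079508645322362809230738207278377662408673778370781763097702282741525659517618226290705701435265286449344684229768779576396368589724168734222335535266882867486456837394963223339272350055940262703743305418683937001571494326242350045682468054003505934458446819156975110296426529655285892370178968703005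452009714753922144794856829907588280231006159944306186528618799298447865644904177124766788128135659994789406512020359143170418344174384840808548722489336395093616184584484176231714101584707202151528570273888435343716004805658093113974053684657708379587037946748394989821255583958896679169491869278672592144750668791970960994359003014572954291552721476064673451858107792421973981876964655015873046377549209430757680286918287420060392775130282290726634076760638963514434370404060863361602595503949526954822935079003431244113430281514288687713124289718973248866255410721816641138060879253654725377991218664573381748406279896935625350977288429035146416715764165765845338109360715598139499768474481870406881711318363798151553230523088003488421414127150456268833795684456079362411415167321258600125530425561848766586541338664790171192143945619222576408800124259657174618018603842715351521501612436106664867307025660449392786287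323296516011581650886356079268643770095422933212950033069362345670022663022199680147641363429984949080404896904335959851728919590112843398962982981912952487665184121272251476091695919162626523542402834486421849758573700878228376943278742696060994057939333852205527582071314022841564238342041093906257706611914024187136079678249778265198899019083580755471262577855689553491958752623626237200175728133407484335734303943506619488234727393186366625610944549246436111754469968990173066860032793034815452262863853463957732758874463792176139107809624945849237182488796899481919145539759825789056480023513514261987237007037582249465107003765594056870617421687350963603062994056224164109866251709048684544)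

noncomputable def rc14 : Nat := (nat_lit 20469971593714634539731788914976952144386359663663577819316467305515818801798060399272919302162150398617974886989928141240213357723585685358475202429929876079035843493245422710818696931444974914480591693922939975842869060944297238253546725593882320102764730754342817918702047218715430356997949186462170396294485237465616672001254322927520236840633077057242247119448987199520491341566771182792808121855415829532447781016922194420978377880812350515410774530089143256489261319157109300350441607027202746142985777137473692069037170300481732217081693183672084705595694205770770461037211508693624524455021827687865297336595715136567556563888829634925673824854181259706223649298354719630705312392632208167166388458972544299357012583519176802996754352032178342833891032011363613498634384133469607561191168168341427911707795764040199075986441382261560186043283496860197880571736088549624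573877614078800220945646455747037141425678685579738403773283834652920945160153502584596072818727115766824485774293342169793223758000275576450052841205768227388068063219489808737928436828714861217563377064136339766488824011620422736498062597121065719653363422351696438800854176485505727410076960899620897596573334457457124320725986240785590235976809543967866695945491631757047641038706799988671705138915944259909779767518081191875415522124853893541383584920754558853456540498480571687374327509922730982833947880403235574728722329197618320097383443536084780315841877258207309621346466918376233739007758021123419487259402547246659282174422324757019073089546891077990147173532436043301695823608523957603972075591809538756342625162195010496149958829924979965031796038272220923754567729736019690906246857283538138246597100362940479411337843020098756321870411865731510588995267487175837870554786471954197950050982348023850510032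828160059625232143359447613316622552643239243722896750252524871121665125962689998163643965384081979942137853292576724999736647839014134072954228470481463999779827380805113769346888351299420394131782340026045707765100853520140836170048235750868578660086193577596266601796386710853157405762412820284504476491872867957096624597861302874730092810644063628909915525460089220517448513565093884415175388746603203558117720031255857021168865298651061277262373975176734408730169719142232625861032414086233887829101484966869292733513885656163590455444717608954297876082986323785388187829920728835653160319444657873834860334636952162354693687415172396684469809108458766869119168358201790329944946772761315047683524818767775677590012460502075461334024428337907927655634680945005174433456715703860461637703513097432386399684517918424453724281578107409512053534918043832990293951644667563263663384621499684884280616089081785856603387683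827381206768083291035325480981130633945105577920596768393546154638957959142755860919322834161192841115946522104333052168160072654437454116999852864539044501635349866637735448508716811117035456083411229187792247549196860815714436898533441250045508226188836974728276841231372729806336471677638406913660537525198325726550102137266463731084362578570596174984568750956256337334267614638454220205820998192762923506730120851643041602027788497001379411629158709543179550137174769285599829279811255917875252835048865398033221477372138893294663493719327538428374122895144635508844898190165504891723782452563344146327770960994287135512977483026293278102315868776334778024435920512588618257963166931711615035999112771237232569448243475127549409314959457373599047409579058643251199840877139237332305154492440638727368052434891770651749511264741674280579669979101532149943016538487477276467290926723222810965208258418068460581271327446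809108528872258377168248433788138188581069282623654351905870952273403287894071303431572320338925894969788104203756741329350310103535500370240335023412954928371579174096024024305608821577171433437648683115519548269650050519599127352499227508693181308969734520280093915261273181006714186591691247281919683371885400784929036591970937523700882332089951213941463105386709198456062174053523667089345713401247997085537599844458172615840162888881403315527059517120365227024940199402086822490751014105815673915141795108688839799506628578859348701589229037535205414714493349884747586332110938081028144446730872030812790704014260412682384927107971822622943673747823487511164416637782527880703668926705938745825796403497767761610702254200280309648623579187346165096889535102794747263456684983957268255137294427032422254473266418645039863264376411022339533136304876955983945225557930732854092002066696552670372959407704992278642226552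352003965710848210573439259511556952838265587440749594573686005059249725989410299987998658209995917040074120466562096490097670033091708419213172501588606471553768945056309427768622772676074492798591507091186915495052415950628580717442362646585639162392764853849310909377295488834657037416235694718046347597526489653501912531803980576641344313258266101793861775470193326966290650324306917843948428457088721925992912037758843471688985605766806219858531941394513844968362049302521385401813611924836283904763880513490345420938869641261357585879258388618131954405215460168805864538813456879889477100850526693339545700641139413716150878184213263447810960188946038011500469793984535191158136038573621484047061891740591008535274363769480701232332490817351207768845467734975965688624707719803871305580990641749562670839200595812131422629274532006116073396220356958147061969986032534210211601616756830640704056931579864347462543069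601156094181976293497983002248484128964506684007133741282431334682492080706576316901026249511166603975538107901733383887269103627478046555266413690487019462783037205349215847085152598830858010806313157797873099976623496846954756606307382077668377487564624083453606432645261484775781187585748132811993968369727580494909502836868988910207013339157674795545374384969761061972074368601573838881191163652748135424651160833143650626921517921240710294840093873666192543120949002235024378645146185014489221409482309091929210945209216817677765415098037160636543559888036289372973367325152051623781978119065309895889554165000685257540285565183974109368768295151144367676816673328903409686712607306773368443920366261271808412405757422601726436579861288201643719460709246221979714345577910266387181307749474972099284147918651752153006518782175376074693863064439140366357130445039215617931896945069534993893584335496030977706457956015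081884224717799907760387297199731958616149047122204687345858875665931605047732964809454740119957757052539913691436687399515628348479317605722553727841476896361094549003177218183891020114666334190825251026338625308012598883905767388004294368396911632634341278581934337310831955728606508975008292437040161826635814094601847640319773136159371167536018970818954525175767938532588367178836507299719937344213786171108117423540113715128452402718530536367510189019539955790429802043264520294457989771343259117765882465770082545834353060533838673966409152776122414558953224095027234959215731529239520825085690204345895046495307712848093754182078492323983089991640815049629482643777738928970281491930219910045670757141687787293968358185330400550617004166901668406347215336622002771131831334912660976002829016187179722856967938311365023578535183087838203149802476813011637618736367803714484347851781046561333061742068531417316970796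727176990396644806818510000872095188926982655569220097448967254127054561976039643771065399095922992448103477549592054395201641447986751455791806214817852928725973575795890631996821535451324893311454779214198056031144334117412041348815956809020859666690242644509547615788407836386208310494910551792830350765722073400132363837025172532148226250352369859479034417692397538519948213127890319283347579578263083272796905272232943509753977105395903050722190555451765569641852639395832690829964206676322271072956681339041001505770248767369175537499036931911867971814941598752277010823878281813842862476549072540755337267606077719593550674830904917327201172067226292000877899348849582347246440532331401837387303200926474983231414490593196348442762627909689923919376526197848688278359801867156253011055474099080709590230261044206195103172097298261941902036635940240558507175903482466283269236864402170369020422130609740998073371544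898186186542098761355927567316895168020291761842456805738681436288871847919595088448418661634706359186775982224090134697112053798659160695770732667420803779232468445103889845322462723022106340441485872616153676972325806161040856508043898959941284919200421679334403755684236448259812669365996388791630720487678256893160962243784026154670397138766539496163879115651511853490082133415058725343105837452657117982307707737053163629367467860782122157427710207144530316456146022384312153895825607396488400335267433958984950471315128125116301037235598667324572419851274091842505523563145826978287993759977741655417713892414177911976936989471606081034011450529925774091616979973303913457077609342296915968)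

noncomputable def rc15 : Nat := (nat_lit 20707890284299125956193102957827339307431236748868804068600096200319718968596534722214337489400086812455874913305989167265319826556545878419297657758348005432898518286939040123002720319702488075813824579437605834335399413323590483762700896484323411904780593039039928270500262429888013907230236726394582374463870496794844997741346657854931753168388259844952943957443426237549970685127151977720646643586002072592775151789147622350561948305414527929226741787645129288971599517433869273921038944025616869206172111061795378754180970007084633022634183963016155873064069660746540828051317573801009722180364523826712189979672216524604596520171029905249474000575522370144583843097494065307075624893932990893794764447440295768807808491470942763453896156480896702054805204955281808133995031136861992597445561677090613234726901778155085176802766195705212668024480016125128648492917465166251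137141014395246383937489924856368350795919098949383341267559562609058674344340188929323649161638744357552229209094069752617192517742733381263427410008774651734145306127412865686012470439921208629097334749212486706587530363182308186442478033464714496532369038207929849366993100340540190440229718390553261877818646814455746136051628108841744824957857964257853416499542350509701684422040988733005986520563990526262781214855716799881528230679299907136413235035269467038881510020553637127885743775736648531718882096543983695200418310865847577309728435324066102910203080320945222678312461284470313434025377176383928315924930844380649921245816296555963883889367948857437570576623628682156271155107305049357728341978363951943319612736342333108532282443911930815179213695058736615010393653383866293946085490194188217818842039276574743086766918769015380311995359685655253800777686454757485770626192761280605503954312261240972986798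832245925019817211753965930340679499490047568419384273974237393485847580457986930223940820073654012625152046076100244757754063248495764830534412620977018412261405453893871101215758302013142618276549453007772138131611014007255372723472666423342629378195785316100609292853214407875165398502613740367532054490380098477064742900976726204473628298002643645050444417983416277920971093578329445291309927540816705172904530547862256979001167619839209104942181243785027746285696003348974632776250341741797048129429186955311842687649393352918418025882923575387695615587137978693926367386142917075031513615276365139873676601722460251933781561401589369855176635747845791269507698700823174956310657194491002724087470395320121571251520444491463000793059166921592849761817291059663019974070908262577565766322801515113335916769225559259419798844553464541000260206916849453311326660016477529781572645597541791025164160282240356233120137023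631642175985055425132781257259366001893799213419138785756715049753959396161554183242659416698171542446133661198237892171183993108798841514139472959242474070692694029562392600216059837316343898904760879916351725697644943667059479385194603190393372724973567953553977964208045443598179462548461787788434204065321108882239210591929078155003569850840164403205677337191087363550480794895428998089578173932125678072400608950690534899408561291568946516882523719205538613631073265971703940277015556402284134972490565090165320673273678707250380250576900385331925580447488213079452458253646319098133729002869782730331582374051725300439933247553229762388066142264108290467477846157875990409275859679987162621554278658069745052427839158054254060845046400695725335938094153065481239389107905481218055448140413821335783148130340403544914011493947041184879980550224606145842930018708501231812627285076537751112824183110570513001540001963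171884999703293274567263799322790215792557956215325751396421491219242843403887488043009199482078897885372921785719289056566440195538739500349074334217250141537278127446748947419313877013259013709760232881741149150843615928881329548937199812061041558930734594926644311131246853407619216430845414233886294803051778132917977742551773972420052652864732013189756023160404692719430301796035149107899839880961102290177475423572964696261563606462940933243148920326296183433079553245724526638508761566248113980958542575260709516225534150496958403492729921412380434392387191754009964274170830786267042037205908974968885695336126630998948178777106095228782521727905723688272604072285374552977343324178169886733989774474152265241604381431945395675891392009281004572958638687363657198536465792625278109517350948921820980059212873271524497906921890121936381572005765623082100930203109848805404070939714611391179582345625601266400849632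994663756717498053052966527508786253176264490056128270709380908773640418266379889267573187724535631754958691129442821739348823450671585083122610158457819810908583484417862877837475680466894516872703187616619043968296093389003578307997986321224945620458649626498442914290053166473894048007196651813820622183156976929508703333455831998295588681249922344277006130677612546775027581343385505941090489471620340705566231473501648839543000290234473119288076257972995818198444576876423312897506625853106014112961616699983836994007079529596784078393483211115825155036460186137456938615955967939844668885201098052845024856902766100489468037653721385424719490425605573648365971957414021891195683934841048323114397052325642222028803216682401589747065970310866703631670692443569424101090744136334417733148979491068234300876826169295421004598253132319971077374764429708365222556105162438412096204811716459337943572073824415729224281480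230970248904303702030433187025829685461630862168874291404515881607980139903070071026188347958353074973946649535830853750069115828800949531885866616263576063068849000562363754109384727876421186701549355594563922286272254545540551680150937469609012912762343593884433537615418431572295561868613840736947073400164346126456361533489843534992510357421974461886376285948320768037789842851474194634336175285328253404487617547046181564162306003829549339516837089688215722342965871148156751024135720442120433298181796953474274497233833095760972685456833449654599871216732524927564933039715638385676526224952438714426629616687927353707840540778620194810158320436150271486561397136975851586875377469752155009931752553112277338199242067588473530050478823372120256182416714885942537998583291893645213480444164051634283624837919800393294282766861690224091040930144888290422509517585386485422906925110629214781807810936668131519877969710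713649874897373995939994660102923321058082519495152611468945909382568949365601251874509338394308185395614681113559430313128844060051681605729973301754602356120092120679780525822914422690375582985788276851069475428737571098735949455532660271422283804200424713151729537326825383035385680991390260013955471667494737335628612471492061964605859948684201174344457421372340283742144928557894041577820244569244000984978100935748994214619243704773406795406667175263444433192096936868971335239013091426868121805814311613520056976641102365285292251545093209740597210096243524659402684085847468692944492354770637556809861486549112642011356144999935584916297745681301083800632814724236955470692808876925983784719906293542168986925220599577801485968967793502126249839670738218508969645399911336731122205221624915874352090471414198889582847102875679722063680045226684389056413012835741589768321464830631748748263445349322673503079537309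625445290697875027432892554278197360388364697369439612870522406255626747082038308032104199007582272221591916122838945633217051715616550593815525834720416282863644307950112195378874270473799909530116234759573360041176547113361019218263077421403825918210337829756539486368803164840662341606776211461324995122699024376953836196841337360139799094603533064443783852548178013871177239432322385487941279880181327279137171148736765225826896683323779082059390973052304497353142384169178917787398986184744734777916844666780796026720066977860672659297528223711349426321524437893343274622577937514943140025025452903966499331384753961376806976623061882299692382138340951991944762398387693459727265432222093896856314849068676858293338499545297660151528690358053163514388139980721044939167196617362056231039835025796718866476523548005686304139992513642609693471756938420730795598554683754773860930680679936004108055720550821403511147574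990799181490750423578316370801630351532915868168541851421598161286729462282453651939604556642354665912782436932756106909555412000109445679620361614904195046741332219618802597728012113694996854050826564001277109836372095331018858259263766293544734657462995139735409548812825663735576344215008168589545916857380928854671603072041833038151551285957965069639660973594918199207305055864824621675705982959136262668593947549894550892533116103782738007464246291638355976525155325279195651278900197763565983140711586981996511181474061299115926645338146326999890748292737234297193262643322163748833626892206684793948016904319417797217001388859366226807644975286549652521887644072726412471424265794030141440)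

noncomputable def rc16 : Nat := (nat_lit 20942624930596623062272924201513492676348205387310215650012715673274928697509550798957002750000991602006988280124181601886433827325965464870582109999934955120744630002492372181673919889607914137644006374837566492088105543270145258160360390138816287301887826347305440872686263666286950989526283406930788092137579025313075138552064489432762616101765427957218827068725136120933259425025904898112953561101254577054430425139238582113290863177752063402772052082964496528233419761881942959286644589086009467309883062358560456562472391515406078274043436246810993385332449876681292390555551924705562844482218141339855768994018754702356511667715537552681409491864712962117435254255894561865034312814182960005696352124720057249436418194613321907018784508609922914725357188490688242846961542316777125002562245807334939620540672741720922462961169253182355830917953960719211370072594842726688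821973915522667680207150986884886072460924560692517573265798425594939306875732421466831678974139185467250632853479437628231861330610838641156710827302962418908362972638495224525354287545950082718161458393336296707000666951591190962467686445687131148820519870703975808146902686858541236473781500106503627908926432072678316351825357491474607117288590633259280112239486078983374138844052322737616479614157025783510755431201322959195283331521902895182694109692564962804631797091583426545248187736785931799773264744651902568041371303700324217366667771602336410140536546814376968022371393005099165766829044751118283812782077319787656136539630264957950248887839313646797211328846805154070939961397163858008228404648546513984756392048534861241046283714227322639679004722373122169188163991604933468361285702652689763200254943864162801075568945613767765463287367277749175528354469120941938742306912453364355198749571935472205857764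589276183268082022850770194057410771967006742021663424945781272662115394287249280719045582778893618707721772706865823676122312928915170918029714453886369884465313189626706971918775121401263439531494055177906530376216870414303457929811100676511646063157294040983335689646570180379574625802959450591893554028000485223535272534163788615518004501876022238009846353151338099662830078968750092369188370729255485778920594846272087070771295071550596584420761337009091802428425887992344873285963724740213809388774897930520382876627659049932848875849024167391723713067563864419404379211030307847513491489946172374428897618450555781191407784971502554863924041673250823078357630510280964170980977526896314979547291229414152337052523932215017081772434198688254786710768917603381122279544594628549442845441915361660519907924701424193226518685175517837235825714773009982148251030007127731545196631983183575743312162844115328632147315912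410270129912537111111992843250954806130975279366905349330512606315432763957073284153002660883627264940241938058218372623996101460022399393788426253783906186798378704342939245405910666934719813373202970409431019516207604398760660823555726826018619501966064863973931328538542008833733636503620499934311976067257518840118032585213563686442824493068654149015476295090624623024721992298295853642987419419693373438796748725449891095421756670633564209467084624420776421763511391001785281031313629450913136184445623435078419907955510985470630171894012343303935165834152920917845773519598092067393941561055066973334560486489670157245144845982245816765221445388860590509618458469687745472070272481049227558464350701926761317286214819138675091533820746277005073793332658673590878533224709566022699493562008226175889552046803669133628613962990973458132261137654822799327605580446248305922184646699467545238498202198747834386556784816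042254970333112705455540908782291387322000076821709061006356408017438239995251912776970552467413513732780474759365334213359835897853828618711208004271980051341885199831325079565232301699968977329783073866500968391431483352702657240363992874476450707510351967975534310860128476671688881123162721867593573628449709976341290039224459502635271329345754648213220616536915710354444631183704798095513895509221301246087311809777472732844739300716942632006109866433219380295505485906713409652707985379809293885897563428749243378137212920499954595116556626527162046904618492976879538676262415815030693189476962095140070474617127164300685243424556431925688276624970873537870964148084845204997568966301538940566841868074233197564892125793024014311533877397199308312951595433972129997294594256639051289021433015096070191332077301503742941337924717672488122988401178308085535252091129190558186435664299939841915242136929837625620622129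891097338823886683219291396684004725751534195443384839307746444674228779842949494789022957573555213033256898726278430531970437841759245615800284625120269669340559418197471915111005116801772595159769058561612478787849297164931646314493855342670010622678122851425028277325956350250165131865381581883895569142585839616853150980803747713863604366809580585313912010276841387164649247358981136032739602685843345429760620707630967967635826488788640505991501687020621359723354379350891287285775863985401456704882669660088081621669419885723198698704941552602816549596427071260164001672180363101883142405104853554450110626385237811239683682399685936899246117932035911391062172504436416672552334941173556025002215326808460028653621678089569538878323303271466390545190077715881319194438726465022879218178669392883568920330447714116768122422905383916191751814149546657043376145233597380622004337191794519598997797166505841911322636376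122550864434689008181622416822918906266695123257870565661701528381512479868661938546124603752480865369831393987203201679681972125968595984362328766129538062419582620258655731836790023000005030766110467903551533324810102930078980435242863063350521210904410091701124502540089185684321875769884094619031661191332253417766270874939987811748815148151056059724752530444175025090314778845913839072360259709402479831002732729166930447199353362431426829631061991148678948013814855163286852013671734866667956477232221373229425432778177948341217707780059878768433410703413967459203969115240536675683144630784564156759069707856543817990728772641398578531168308276242454870434170914665598048350136548039754321084134894345948530794850201687763606501720042637671281879287300614996739104909011126255747574526467818794335419736998343412782766707256355909937552600266173889410955071057078457545188128774864467976152961527090472195413462882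022531016667855779814530904924139984906117752539380908615179325692107638144997523288734141290958014267744778752711131188694054190316945793249179259292487621909007858149025921562786341435602247231932899366949247361254064737947862511873610036955334647045058557385825344321849306389694682987280470024847363155516426433884672455422893000951171440728207444205035383131711927447793822122813134173530050642800788456487915129882718225146049560618252764985918887294474630914465655266139469766625998250236159356078260313013381379709983175955546708793414629701952800441876100264166253885515710369143055828291612585923785326822658337791000984187906701856209362575988300561403561830914695316844573195676378047024615073413457813981553112816096261884792249684923994036853473642084685230560722461809094049915384890560410348383901250056127898659636614162670203613355193668647063315982973745106330771211228122513753899493006918740549722732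602629727211921312896351935940300258632048588805290089069430056221741328899883016455112259186420365378873625161836626491898868972249371409378339698798170869181992327033675604928169315403470964853948284172018862360792068612783816694690947265065498074810236288727509926293104846507177435839773541418399190417550173677416134936434348962489859289284559420422993770515910210664014132333021918777473210545890011356836609517490787822352715735408436023084910979098699471937560448927713891194522363580165105441115053724990408076854690775402155036241798509251027613752394154359622050957713678105691019257863412020522890429627788621475907328660618490785410921345028855062962627665565133211023930103857489638525223662031329609759735612222916335245052165575220278131548341365902292870606619010477966542984193650396854409176978264250865613695099669403033563235474750385730399499209724981375301172787299700790093015118009702329348418900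270503945884863503940261209614336657634587701287800807899375518935648089791447817017239125230841198010326509583007042641935654347911606201411615119289407136294373738259466284678435957450761797426604547184738731850367170655645005080297990662208067519026729736853434177176888232873752332078770953434012745883684300286209648939895048829020374996076706403988517798400206038058428216762068810804528351603241862487022550249257021282074682866670565885710615244168339123071144476275351799114583144867839879112629842875044415156498985301928729024157133378035335226578285237902920307359315429930593156890785891910154975937344651733351087936231408024663586246183111009420490827235696360501145562767750594560)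

noncomputable def rc17 : Nat := (nat_lit 21173882264349364083805929848582509501272593265959174296208015759957928059065467200578089671911192346835728424425119003735407084601263411115758391806312213102632555011541183799354945508991096157839751325235884608750956875712122528869593205476396490642766847096099152490729873039325381106427250487947394296363046588330836964921700261340799119704771038376666250529093963580107350718329484692455317575578064489351549977601880447348245810383349051677759476169724986740874420274933228304585802002145771375778561835804064065628395370901840412821965976362574853490696775920046707655740826799627588809218224256906376243979856407548901416307211012766573993446765216618172873854587163530788436971395223713626844293958259353766139075390010279222296558099342915153528107941722848010238094234083725569460209504241722500590816678608962865126081815846732367387721702008647370544811164252026022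608318869287481451767914357997411029700918228545993160959619235690313899110205783879059100846470334214078486718678101708899126011665531883128270706475108717729331801990836959910491331201783359832208250666417960029365004483925364412819888792978197420144497253338054787096892302171336888985238086784462950243984212178369317142690020307565402430030724958515688956639336935590595887070330689320355506505903147869262316042685741305083582683896866052075583970615242734073686943312288781274571655492191266742446299960169663786173250130310089619792362629737995849870280545674128122259675721460588065323924899066678942103754216143677509347078797807113612518434699083851416317353184313943088213239581272501223227395142822846486577196763142715204749144481824609345306209256477117627465542812324304829840920398874242391948386998628812315008354230854465051086898292786089001549539562623162148337124084630843959893473558231489040588254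169067515546499011317302926027079324549254323499190944783245461898360088846094978894415549216878226172045063123070127756517759454233452186366684653007013520095243391045769623445888273124058691664448518842106708907083695853480796493277025887397095151475258854323369821262745758403888894311663460615079931681562848714267915818304291214953833494246733726019415943188242670811124071068618704099912439714555889991945409144318014786049546721752359308654210526469792963516482457767909715903157085791141463536634815506238985522821381108205613011286794047847007535245501058912598462060209233462498782656256925091555934038626485212553287801301377937112765741247200590541128159104391123423705172185945218297073507355145032770561619084282036209026023614405966477156443078088167235593835559192441199415179524436593694304822807912714113999338137730059837672754594574910523000044958141580188770262147421011819722958786549843754516586832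658347741759133449450446619235180995674766009812996148197356982753339029837822518762380151075708380126653462265594805603061718856709224826468568445571097441094005661956389283217167014048409601339471457369318862960736896926248127477665383594056548909272156660841185308259356570306942868118619586332059549893410504083858435390653120654066923082946502857272301906735183004895306373024657837089799897358070202585509168296231465805442100148335734207161080003414561118042178762179488095714981041690321907441874921092608606024495207006118796106135217180302710896461297684601959312999046470729310690508407513314199872246705113607774392842724828885532741195938050229986786550781890548365469956177018333223933808248279488865686197320557556958056139923135511854686741988006215824480616680997099901403798841260934689757242993975278145505038903836317011948917811910576877384572114590246464458324717396781628603934257576943457660218275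943392861528471627503764650544717130897867941799552595718596814691710932234766999554852501692100096973607271146215829553641945634678283587646066668749871482090504755815624802793314493139931561395712529066512515981446880796552003925649461441851019283762389558260308043531576376419644917254609907277513685491000305560559431658285083657489925541990081568510499084632611665200787572159173942128001325375780375965945496357423241197861289011121888613280045114819316062437301661720031543736007271516378538395181696479054896296780939402804420493802103561580808641699802401898467898422676953842484832461663133780159208952132849957209482695998097930558215215719476636511050524730398070781357208508376615352926348204483775145555716159852372324862202645576343662482269222170821131080201326837530451804859570778152286564756994691757454751739332062630036148951155807856529395172836653754638294919309325286219695906281113241784437559723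276314403092253675231885792533444861114256618430658891770712577383128245162316167836028973004735807338056924105868266990160842135114517373099783502583622479823492210190068223761288617472228010923911639424817491040183972093917659962269411774033549591005859739357459735460617393829315001268228215189428515347378348202383928370329298504125942275012979980541718540518254286044384811576666136843685155771182278026944351470215188852977627663179126753852591040897713531009046955785361806261199656807839751777445201962852216812343247970447794068176007255225840284174149824292740472243035401325040386158831680848447356074684326545951379111228242119436414699776332383852534265689981711863396914639848457244707074615179581035905534940418897676653533642418944160207335031870179754226434521463724012178506154730141622069375403656790283676779153207883568369320084965909282374317326757855652106759614494622408226284629962799967363774166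429483319802617433594230460934746251704070694534107677682554566653522807640228448584542314146721063658680971705398877678147996341112668322698388540678050601641392633630618677725999050623718120458078079903956636664984882285759963989777854285103403437408038622162944657439162471066210858428504702654467851327837729630030152184343948109661133298802380885420094820265615691382229938622978930878636635210373147724455598150518554842847965449406882115791957754010467943908335733628539276370578214407367637456545813309722867343295578124850139369795917472203308078511213816185739913173370015707449209514008534481349344121384161392109015146463450136235544498997950133775407716622997123072844786529717887576271648964085845899302109477546905793367362226229564924192127487944900546404450812580805762634382186105914735797824138359321720799557850143367772635779660734838988936030520879367560732085146315309273076538007666988811794076224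433861864031534187202653810177997252192346306806400609400449613492339730227832666556223447587909351731772629672403083595667812240837431500673088737587811001134238093377620759571835881186331741028480222289175147833159567984030648498523295672941491535505993246603049002492971254557350014725065349141951829004733745104216308699944319458777607115845667644079288413174927931983256035065943352521748772202798454692042068830197809666755687448899905903723448502578726397371793031063771839878483310580866080842038249496050759985685524060550430076376338603997707712758611808416492699198199780270990417965439381192478126786380436115998366535799965445103348082808587609546831814965372488093547707178457365487195257383607667490637269081797680936638175244159109804477408402531461757967633724648153048335700188862402868944710197646246592698014228757380145917704808663998650780486897589359263190455985133359118240525453806305964750174356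911037055255426298717110615955972466637724828319294634587568777756132426598735594450542758753238837262549991145279207512279671683681537697674942006864539588627252081188196392510711415507995600641587836949676347504051342689594607457802201571688132855148212353135387081541451405116142313016947700379564903884448339100953579550545454372892596604834769096960127409945931715755938541288573125139759084571285095286664303523280026485930561340968425479178542862469518141801303392645484890021970901770889248238331506569983184168640450106124942808716118659753668954517879991726443614031308212486659926937491797167452974901174795351345548924446390889471187472819004782290278835981603192967849814079984261902314039464692292783813175235548781801195140110868958433769931655157822930029653668829195141562036317791026081201660725914273570433686691336338070301844024140836886356345870917414504923037609802975655054421493818516825574987291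780443515331388081777358628239738286996657278239814097227813120289905549705839696323660174870776479412923729440000510201015794804005754473062912989995726809154188891576274054241375932969162524032063826817630031985768747311629087603806267114849596726095287025679465274027612864005285882181765904888638714699509421011044700737379893807976136770222732550943108655513131772830598260792532915032032623821205429584975733225234998282684466077696963826694432253335182755373079738640942349579492756627889789612454783521921912561213684078730336659340570846434715084279474922158354128605704326811747907781949593308530469495983699051244779990340180824704685931893020200968238200360105089999558658800494837760)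

noncomputable def rc18 : Nat := (nat_lit 21401406225079269598927254418338320684169995177349817269929874861531555719221318042051706108196888522839320799781298745573270034725614124952595361511132396869555078181841132326102147426120085287105900629269583424694120753057071069197029448465408843496190440334018092165059373420961894671146613464983727654107499022863519621742582164009103705518623379945556981776244149459798718760277249503929088770776075815201430834634415446764649713116962348890967032912910455441530684559191871155946982186201555455303020066086238781338468103773346295547689345500713406058670250064097160235588833733385784720252260951688787053479648063273974720843644314295062576711441077220815211496695513753856477207230871771008033993197570333253873365280820753543522477663507028963031185761422197811499143048802714309720066135681703045879678647684322600979450011200105676384452746517520180426994577167783070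030391486692270719403768421803480225486349583354583367267770720092483347002925072869042959671073682074171388874915413408492740703682537706612050845341543946319787523863396478880966934788314197834636790466044021345463499376980724876509796702434130993253932172152318320627967470505793625181298861441398461031970068707832838674737614194791373187222724952627689911510850733293286158192832793927854009399558919268451553885805011108807115171572930696209043233679269070268206589943196082123827589165465181091167035139363037097713160094558112216668574479291945944443649449515579732488205686216578887573182674566187889074228670261690793222606388077981085060630907489597487458756651357308298922257490944812347277336268970798964375140251589098857678102752794413179214345799554816258316043771214920741486076579974566522679847647013944964452526608411036737929997727316922301073578160707419293414362562918278527230324947914669117271215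587830052587301107120122709298951153912490359844895936315389562167239322079732004921415899417849418677270219531248667110927516166630575057631224192000827191962744969807733754797559895023435858372537586195383427121772505338106754890993605454378811368517943870979949780739233427887250934858332060071915426743725196491383330854014520424377485470604601824275728380352042894899229459892641513165974077034168576620732390070323695891012303631285510109904394437484051376557689521273117307372429018333853462617445510969257986469795772651399845229402682695533855187730610108122590582751456592797298440609291798631805436138285292954470078553951969914292201904840061162793049725225988298142977256674627242567677336356579655945018155444935835690164259134495155622704210951699253697754300628519390645165965415469910417156988301124300526713923165607534756036838629093750687800680319280469137089071844183044713761527366163979222664271517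889449953763500461078731613321869295220982010071192945821550390154102076729817149705659859249654786414913815760866127067082216232720464984323553096808316574998527352180256498054402143548280316770890835555590809208171769956980100092838957097901725262104847757937335632626256771526124806472998764302487084927507493145235128224922744079782971590245795277572653486550225431704039534159610472321224393325630110013804056106031753918453837742738901616225371492920912110198886965415330648114740235827738613731899376368615083726743101152708508565833665409665775137043525255883368869172297737257876267295607292288550564146188384181108031016060506392166050438256749536913315321856823380523825999823493505136944555952303912600729381243907161274872850148811906776534607224507013103022467647720264211771917649621429991685952484397550158181338065839764364963958151635270976827232592793526306603047914454204916722887172975176329240800725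945054894647743940873289815867894966896096506516840041753358311259076663560799436586951751679674035966032887654851137382955683396923255906021813237300543969246082291084577887810809302611214260018381467650379295384566408676946942214672266901088873093489737089571334694006217604894995179921612847680807332112457117912932509093550472685155505930015408950374735726207675886008320173171426269743876191256199045566922150400403067075066504353870610845577391007841678218057796154608381051516196284854890745330655102380089454353277154259964496860650840091314549590178744492719523200827191041167239506097493126453305200789885317209254627409207208517348472283564966687557918788456878124903312061962326210516745853174529893580108787453364611470851451129305987271045877070594081075775712668299984178855919016989729215677525899445167110005963403681766023465878247729116433743471679454169025683514398977204769009727706817397477508046267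801849021107549083114710171399351258904326129772464628782308654978779675481967112647707176796719180835581546934226703218806943658561985865993436391866612414380118181212430893176146265018749535702565947262827408381306590109055768343263728044937989787132613623774863065921720254672031073960619030998514389068198379636018651823213371537958981316567984898191583963896686282490821874800447688104753092287957593801506511672333001925554621974606138344412202977839413151368802566207673315051451684497573376198853448863350458627028934487893453384768792805493278481610628673113305967879208642902377432273792474540031817597525628776732143310486492001243228321574334939328022554968461138162468741666216897160380558775714142895880619515925678642046985411654251512120162679682744012209278321283798479326476645675033341771773549134983179158499256530347378379212870353469102544199028552153032716239225525215363813585549436690155472185654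977157246445018059384190469484491343794069514255474170855575940015177123657342616657982543871505420863659738707162906230012177799057403495952721195369873516158371955684392982032914176697660918985856900851703752991388873595889000153463091208535088071266719401618052604480165757054546030678479115486467107315066986252202287480983231029518973754021508849139810744753119025441613014226935460937752213601712395534992249399184351944964248406454019083692837329800515877834759197339115992825080677764782195899326105031886713601537320553875155148534467428286157343901566560226566065748119245685567041185740126227261955533806641482985465309787986607734456544298941913758929979191704731823415575749036494457098192742798187280016793093214565514565838317238377488727906365280649866162935278104017899680531906700026744555910350775267911611766109984309491675262387119793443759977339963085846974530764856374728051158270992213733853622022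246421079568986836513126671781854456635150468394459794802988192604782113340846913995957424811613047421783253403077260619607203087461333938471541608535965461478693425456542520938022855939557432754553070928334273183293557308103060604615543639081548758974133402727869261118632692041076894996019892767534625177142598642989410569604876003847134748581160152490841109595293396221780600196342427302263721759152594994693306051466966070677137928521490663676756341215122588825835872252672997958138083530660215920917120254339778242307406419399298970933106020747672255319280087355252268744242650909935957067206718952390270268318368522442993044163815176933398849537210179867783660702667477013522935519652379880117996985546659174927510708884883001719831332002238904293952669254967853699075453606509079417511375565965436380653513956317532892969201319548159160698433183186900558373522638343369834514273673334612281517905383034586876418256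840854964217645287065147357141050971975899624468735798548213938139603295873189424205611526814845688513362290877585102635655547851856405039083453147989161792171174780438295078687848673177596837525826545465193086664862294958726479686893070836029136095807581938162607194824720012127167524710053185433191615309591057163283321868405507205015962411337393013679046536949496756435659375666647419454961110947141186470499328017088155524781428886447677746707494661878998671903594221667661074022307426194987736189071850925014662528588496994072850583475428721180738650029198024408962339376567251287951017843417153680899205242372045805274225731742602165363292113122305702786405875626551552700031935721351175534442087369481032755484464099108757094411011791200140026487275330517603813753731752505464344572513894280212042742609576110554486332900944805705941391515642113289704217976862595054211592510490067781545236940068176404869731049624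203465900803035341218753242660085953298527552161149896240201781408320681008757437817706129869600427550104812554020438150264520844099907773121408612560169251384637691747109032724866972269643530957071876902657983629890772805133364024899319767858408573703781290833688539083483344712908942351242932168745728781630926883545915842812537182857678331644094015619983479653216746599727709390589857995585911383237418837835797004870526926264736721610328563319394342804103867621403162362810508558615888242601112078371756207967896325947256442687963223079308627998810413296291334789618125076267146602495035969789016383491757934689747560842237353592287941168751812208848095761712249784202388234551239208788295680)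

noncomputable def rc19 : Nat := (nat_lit 21735220390900717765691762847829615887867945603588259474936304339356319074873632811803063585780380607069487992078814567942858219161761763617118049079845693947999346455677308427005193683904661715689592559183729229384143315921602041579834520354893698584769549571774372208356566248634317925616284899046306080917221530557460695508798160413078995300703772103256036536103994693355729121083701556814225718638236703499300596532228747922512544565427096149450932739816306204778220251104851332744690539021143897085892887953128305111143871498589755102025246513486070725162447966488213944305563364517358492785411062551349446772833238085209393432157410511228393736960641997941670807048161225165623921605094347927631301245601592609147429044296232477516148840166593274040199788865629727692408202070358116505751423051390055505455597308028180106779522153421724206261436856899287682765135490035568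827631065348933883067795925830854310839361047178628900059028653227305599325630479089852845185047745798552746957852294843859322870203321184995462676607832979542443939855977666685132049501125386787269865969475401215909196103665833882579383553361571946361382614461636728018073323646346965374518638065393108638242164289856709840111691594905285973016531913273874871310087656619218802278048046393789503301286214790052870128259477352117616640368171276010915415122186912975813237072702083419797834342560729171324018199199892965829110397756310605219603959575719154772066563990809316688530733961431627188266507608699893771954079152610819459404594898802723483504779397512614564971186459496909449160675648949371406873057920878344414828397916350138557177430075869911370036415684802046653653176783678672844791558004464118522068226954575127287215345967864218709177514555498369006987066023222158350947304444372648140143892527731418314055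666942819816832557419293545641587340329512275991799457465867558336267134598052081644368885743106327567437673929641452610528420401135297298410082877591324529751111715965871494430335796111286283603790998542525004780338017804234451772786185616763401163212020711786374547048632628295372669197329596058028531607814249796292461648547279154337676527648267648665461612032433035658951788739562192629393759258438137916588336392393318803609905258694513234199602450246096331129647036251706891797941099042840589161697727098143886259113341404925925292753307157764261028104103162407748360974938889528833638393129627914881470272677555815229591232272453686877584995070814846758573679170246100551580715159724065908687290435369106755482497654768372241888166174353117155075274042718086433887297508750885544074896390793996417947868607849363286291442665737897564657543193927024290382255857597321571219630035989388824249794827562778253264020209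327696047870623426086917377396822640536876028917593802536535205956337222231792532375961923169962912256832680566843817979021586842701686959352020882650589491300796223440422671554283671271828530228864690548185258202269605683035393232777777004124850926068257079924532929919056869252118546319743576434694019849663312162316157998424085217256694947220613212824697996817862131902653666433098662574364321841072799418909525191457462326970239120972548840451489544262816448406402167067051260372967764002408727775078426921603639459013358802418663463739415829529779623126130696360577766871801221688753811528089642774357811720156153295171941284282739860517224085699176804409659641518654095126491170868386024605658827018793448042925910749564869655503244408397606018346409297405406854707806503605975263066585818614947021188999172617538622057627525272428924140869087335122810587222724508147644931060455044924574094506683702619430185395835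799922353415574691212010935155562083574986691949864451996318045293164570790444306061979173122803883149267052934947511277315418425026483790537260782901645654229187569836161687981626838501667975206450294725705397632457182893876111516211856381997958603682865007568717157476104588399273060478092805262211318069778066404535747936800954119439499195057192069147703459754090037749597315848068582875040142654245555669495524661434875017706721667702757535227326804795798497171690327234750752294020369509472403037476168640652863331373154140269854251317258265486819297802997748092921394210342287955748550606037025046429959319073653404466636529671357864030458002409407156226813519856386236123986296000853919291581997107319722812712794366576828929430626798360268648809366310526933823328097506779854030824092388227279248445684183128458754111412945712917817600151791315493309673093926358483515786574752658129937663361149160448315902739853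530373412511894060911852036874679612436912496471254558784834637370040389541394470163502675597354487158757193618711123698624745195732945366462154566957691469179801046418009372607514086797844863348886854715057581459694440044835046783242996641632889315220890992317199527835315488500105105368024589680122919487914358488476467451226960775804710784472480879474244275292564926237837831512658101834203499631886595029056756053167104875518746543790017778593651791299320626838496150641292027517234662279991052871237679194366620481665981000044017484616352347071236091361394782215138970190473824088557991511814927006414614989263749320342467123556879835507072343604603894595682509982823251905026191845154177282319363354510476306646885373493514431540876867222336349934755735664460472347753970518323628530063296248858717508716724204740570229009066225368522590466332470983788432850016758962278337185622220028047956729716818504797053816944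425376320374198291379013696994962826297031793724713506133050592067383245833360224797318924641784185013997492962908232888667860783804682526704000703625840718351205624214882519482615007895934368424467985835376999716850228966019895258163336036495775454950550271690286293689590812618225139814787482413532681606195595056953539796676854110367082528163871227117811847595906761025372315632105171712175821920583525902574745358129239736053122108928209996576374915373261679339692687316220638092460705872053483589907589140396342061902601929671258546578566518525538633321713351894248733227493972201541761469520622734017733062386166934824849347649010056923358102534293584593295893999990886999928134912478661303987641970460561490201506763445702324460297967856336562935200920969961802690158435715734652308630246241827034500600509187508869143841295917696804612382582285505283123842671584255410902846303520406899278976647948363279790177855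500107230788696950525645901627629429048098328372841353950536057080856067910898678889309379065753578756968954484734607077359015445346872102194278084833066198872312649857988883842394017406157566753747032798759845200081323907483313334751015186979386884196345693236862879701097060051861762478037926432015482695785780646156893990157944185278810174966481452250637492862826382223082909304837056688583238193996414588910972733309880991776252379909184646446444351049138124109819315710934245702767809389356225495031437812708512749307761890416305914357347235500933750075041698864597921642783054510508191011221639704634098929647958917108155765109228815186874437025294077491134413277090112301122425093858637623465619793242877630823258422416499590358562470630186123445576243716266752464967379566789007578202754590658115608319605846972613962386662961320410989814856229910467071818863142198627083349649021617898960842788806614492817870608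618589375092060285243966534969931431863264111968898619553701044614284916864831108722675336529407335990066226669081189142510050574329531504883198072743339089125709310747891739804729828639182858824568020320435031695745455946428953795767878104408876441934078895550388248272512643641656641358368638673944894796922077410905203755343818719343640071572144383143623473230451390285832331056515249151522444664047347292738531422971102874316244809956792897632033706462723290380141559468776325783948757587450437445536487960819407440515295089738428745877663020340461796057078428308475635073628556657818597460595847724468940152307524238475377012017276244570850440556185722569672783938202179446031318271172548019825032614229157940964907367154433222403752314899772980632737243696935308570962552037615132683389425306468847526097761120692747693414490569700458971909508639797420059113211498492759623696389259985353009102007702960602104826378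907300607440983803237460122433507547995862950500955347095945154092230397126074539863144416421865582320905159830659777387583463472686317104452351672812292168671227933757229511884132211872506158110926983139803093024485314132635982126017394780088587170423619369643395202780386834600557366894199940873588347104301807100417676369508207898801620736159073208609933832005863768358091713078102488544144944484982736512229242911138050148007725982641661344177179182172991327801902987455898843251700554866344045725687758771234974465814144365734522503090072501651234903772839225038376992660877589542355413513111024725829982689692657055059338703615280547141258418523643372966982557773378532490353544379561410560)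

noncomputable def rc20 : Nat := (nat_lit 22059521990869526924267980925243236105128802123831210685899612715244371446640242756381153684078302961665702056603149341611774297219285485793562531758762995413968156325912546353140291395689452836633774655956481941322639492151431531641829793657690407937472069690618196521163064456699759956454254099949433408717287424317557372594651243064379196560022147295963637641366672711861986672900240280014960240936489047594363809577480855868383277299878314235310437366036466061785943440103048721882023574062381267790100538269436456398814599803347378146578755469483161324240678957730943237048600541551574465656929983858276336300147231064029393816699729988428713033525957422222637387289315194081275240890632198119384576679489343558167057267541750088034706140320324213906565157545587046505676279302235051902053539222979955212394603595996165414755630351609112748491853821565426120347852285532586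501785579347856268795090157015381313753233266708027470130269593956316671495912811488493467299888584154121656585545428870869871363637533107774832884691474259947920692906668655185024023788684274619625453640369463270243047417064030754892764810395927281510533702511180160408957902446790398982431156306603136653660780955318520105587972522426782590409492052065841790046612460981038511999018128383249303848088808461500029150716509341515923541950430294923948205750828797727811151965538033196560826212266250516502457362877823046128198724065096652756945260195389505660781465815462776526517947692712639057761836312068022998002988703367299882638546067855823004303454998245897464540471152074234968783433404744178489017630864794934742600067946801378899609122734688929306445363131751273584811882720369630300982251128070994932011007403226710128523163547417410899608555235066314595977712030882364843111186102935197864911220850713700021532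485859523694224859017030301944685567302460317685372388961453712442865429452081342857291281106648898167513956310880506803569785273856912626864884929915394585778607536013145465391039361186831739132584165201423516090339932968304236608881950601494368256624968735132329417403651386534244439050734409951013654742155357576741362494505162518658312678795748198585098065715490583247278189204192905556304116344288457693090532859698134085527019411562314936665751482735448666509706702972838851717900215428652470842784437134455228797286603991270722240596467233558268314743362655034400061578785344795996582517815317288098901156063700385718204112276835853895700730511355086691125592551301945911321353437022822507419398508176336807958279694235556638422275022039699827646128897366874236166383151530839010108722126804186360221392974800902180630032760406249938700966479179561492749871282420702011408348219461727981146642645782947785364988121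800173157483503992466840272636833560565301854782504370968325142766134186151419207859184534336786416689058148716318448472515672002672344806835310466118000687720915900015437487055668389537658852229884846383143760284344478751640090756662094029945053047685459759126224654283245146150805590250172604759889560928377348635076170995370920271997586403334336028704753750307406487363386566447579440969135914038940238933596278273074163570111468646923380408439565736295813983811638347658415910389508528383880708951509198725471970766853458488897447080017240576931680880663247914912960831952767822146061590073341156256260956669206482196572799060653048844605881450822265944855733691963334496250234863015169341330924964417504675344666490679652725189839241441400294432700724144792426202451790001542966557334184161438216823294352241033196414671430399250494623340939390709597772342565757292793532028553436000350364573669425656903240244521528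468252846445978993859683465209722624788510377864690600692427451928073172193493858020792394242045684361997141206347446610838021974101698588742721897217382626588486370044785308332541148608831880966234267862437010777826865138161380719585531298339100463155173723132973817201438653869392769844702877106715725016136098188245921338819007265784692520285032269555897699962861381675675451381243409201199952387074662447886014171306346131540012717814276612663444146800733830332158953560391697104707389441551092394195814094779262268776305637517361861548216968936723934590066935316401016890738027330903136083915274924952221358741127756042445622185927230600316393131820252436387843726228707408102662831959448746539142783765814038127988886617275374185495696196343985417510292914484115732458310537113455159325603872255782464886171182687158925456392267519150690845358864192707138664047202535290927029992188758733752594889967094622754440566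968182871771019268636160938657195779596684989658837556264081422359979882911758675922504719789708815114544294479492927562803451452146866511745214182896789698253159279190110231367191314728503782636015381197334153707156399119927904710339895074380359035135415556937348064446809235817351326162604617931278724661216477142425346340410528833096725340011689915590259356534936223964383360195485461630920772770239158097622255235012629216098909856819754247200672728242533094483804502526724223783387992454246163780303468734125510980036201315197670117624353465620535394586233727825886216489837148312292363635803266484968458662907590966994576298992780019309105560029942418360221337406478817363253600287281252432876584769420030992440842180520215856254056417145619219572854982792822721005019191697901631804182740084652480885329664519845896721989001485084368081519081545573952963127202365148620989463061130757397772551991109532141649357068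980770401324462581824244928243085575199980066635977080453290523423817016992692863537375399792373821180675330346016048621433913380722132531546231422470434465609353864295951912225466141737119007239416826738517973862517930403810461736234517641333060122831626400010295178978642383800677004773053249212176790552260017219744564256024872077535364980274353827756005431810252521211522614298765933572392539482725447698223414074576069353019721591288624464969686409190654111097056808963579576919611458446060808303649832873737143532081238523185223694139902491491139291808582559183613304260929337023473940519122088141592601814895682409463463052700187932057229192630705669472249133619781954030602043551946366105797090999393732663775239467873667412680642842575395792836570608493907123298784563893997947354219139560254368412006447317370945216641220747282550849142806520056855577453467379572698925979431798388952059974610591692787532935733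456463158239947880913839465003205245645183384605519963671988680765318772364874756544060236811051837656260911862859119092985908307800646363886479251232992582327314299813405744249031172818928578166474023763891281271543539608797753538832725396617408768442922420248173897202618044387291482747057251064899433633259672028131278870004349741832697692538428029703092664066044015190807392579689787411066086831914488446790831586619678301902065704905297063877654668598894052739926666521510731273717072865451569222401172558143926666646899897788132360183136317766056194995765682945751980898790061925221984110612353825938216627381982984790640716571688252704685006750654956907555650190253150584991503950502887138235657165336619552751125155685006714047304570834525261745224165859629374847346282340189719417840406662751889908260624931398026715348834450909249111135454174175647188039607667684036758637192311551665619205112856963899853145603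237471599871112783138909364241574970004209132139181317180300709867966835272479908041292616681730226726608268807926745565869488199156218738725563185206360666290609413476114067767251086314738718708054590181485836462563386481016703312974427113235720226865306784973586900403897586905716533205510377884292111720784054271951104472871957316901707968231956669165262252790068710148332761626109232620467346508013640347672056811433480046715315520129687556754092141606538900790154919853066215778348914471657088735902744666669872103884666506764160364587438933523547241317522394746773952252697967531059152490908901696940004493610799801210997824946250547473539364169999652900290164998674510047444134385165021133854568905573334378156367671205862680527028379500939332692488850269576978262136234010910758361080917721138455318465796378736018704984993994713744392680143572983250794593746563173093203327130541955871225127306894639306997667621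389730852852555368831472067278922203163014961915165420349365698174859287041025871046713965966600523845814098991527152453951187279058648764317500317680871455791781056239116562009774504003341274755651959396782154465379655170767864404119307309749817766722678288545355721661316650237366260202973016441565262885315686715497591677649667169061534354085049008378933694958848801031638162172398296985975129975747664841409811313087711211816199238129384630388637563367614766769785054615441123088467737760229374649952814053024371531761660508666364853544091965856502299441696594172361840394486965506405821123718307319280586170929439285747101563428956222974625339747282967983510452013998118370260771400488845312)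

noncomputable def rc21 : Nat := (nat_lit 22373842670200232349359833265279497887853652474410956130853653893588411677351493331518894293689383272709406829769213316182739423863530587408234399830047302213798630197088366782643585678336768972694223351520097522924546299021324604048705917351895953726942534287374836823478675850358257276291280497963261988791646452018594114742640235601754930482971800502143567867109521639228532124530243948048985460118439132031952754344233593190727508374639900401467001997972374469545934473441977256185693413499850320297355301347208340807808896490220182514007770660827564311756657438415851020197341620591965572131867164775454664583493183171797702110752358157402504887337862115593611325885852055076925525904143544053825464902958909177203482096731065846555784857383578636456905907728423227816323801275002127666767840879470874573451935667222753578788945146581806005483744655051215153752647834595225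224624051874667935063724715823673557097666099438491191972780411716078942369738167985108909724721033539354629139484789215626932769783195516461648260399844477003852922316850640764510628690952961814139959908467408778192458192716298711111852099014924473138651649889439513944616077695724286212067321617540305821974922283076633617606690012258495142964401947817322005759664598429027156772361572212695768400668208455678552819557327773559393500682651249023491822087643333901586431036758669748906164073983136909781030399589320027245918941056844707290129936418525054993154421824529871041020963462771735675899832927899442137293898251569508411255071034441112624166603066112695601586104942218305959859750982884313498814657515641632627109540670173442905770104072576601113887663325558413091263826981831539324308434596349324543238329870312956763385258606765200750205434626455754988681028530640540357117653547461677655441226019453233888202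032513724145220215475441979227671915565316317463693669223364646179450926275116159979435656094753154874134560494374105448927387393735892115458429508282270864239658231651651568290945677956751662085635627471103049585695100506555111706871283112578842547111431085403524890847864808129949644383026360535054769542638559409951783971425555755712367380211098186241235981485310094332359625153186748984453500855484142756590397033010665901196930699557207860156063953808348166705020684644195230923703928231262322418697962329286532657063234974138215571823377070959600449820151539568938033461422343156252428115210663683622954961595215379190370498707941181309036912614269690778301121438196033325165800652847559263412703687880482054177755075707511340435358033256522664872717028489042270190658457124396354335657507146676886552459162987532472221240969497588874328013416579760813540540563001346303404273713653535580449834227509872431414855878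531482598295907092888632540509944808975087824540271382033402116692716996769659372286874141353987149221635163823856550256659649327804722858196497185835997146626980863351048475778795608394626137888997662286587006929414806831891408541841853237738765942840480872839053712503549388965812628215790345057352719613547884282699026723517158900562219562509798833415696259784241775555478309776350927482892137805802749949944271420625122076492341653140847082997966668490196843903728148539380390567666436679826754185375832145646626287479468951132790344540101325930499577676464083267412841392531117726438131414624331200444118966104174307735040792003325214856978169733247591963405624164246313453599332903616293438933203764721926551790222583836228314257461953306072741885630916315838067950136166812640420693618059029114441156414069351741441062405408473174862275494148566487597705948078241559898587148780196043448823666623272953080456995594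997810314675163936587851490850666252260478191559099264786946179335607027446211092994124222787434460484205645832365668434665976766790329460396076816576184977576051543831055520346928058610950191116849613272447833222916480333240147552048969206917088542172736234554526015788960836903054608443876956563600672587415770650472610660091240830467010080023497246088451390990427972708795104575253510950635546125628673578385340581575534353429257456666432128107676128199515340749262956031167352408963225051599671711753180227521422100707191037842746540728054735756831828597694123210826371266174188938697434541170912278018303370935004480696174881758155047573264121367028225846208510569718074616670228056617166126928336555415313908888826921788802031421688470617326793206019799118265090224241297310094123186351228133022145257273641193894993726268102784874133671278280224339913019702675306367499586978030903998173674042608125177152639336559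156060119247253421313326473216530749656532539572417504711040974543930862076851364421711156107664298335073847837412273411588672651280634881196433541652447888190321759444380739166123983618282964653187953572964605238029549886024890243364008799454106068258406366960859481371439687453129601947432395322137441822014439742122836001962509468281670721099512296521551852788586323309103011272620820097814417085776797421700759951163842539457178008549494145562166992537408759151528551832171764589570942572726545870595418918033045609708278005201946979869475093428185654614448126496368418784236894795837091786139243283117620831272963774777900960824860254066902205472866980058150578344382982212352414920452104970317106111301109369229447021027777742726330432940761345595168080476058273974358876805134732521518369568910892336955028978519516805493524236478943523634277323777532476384334233989165576014486314629636767030593462355989866297282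432894619027298958986363638418315392541870898685660420348139830919966831578579360340922247184966454825979497360740615088209196691050518006225564819163353770373194792886139063083042017752079941140102606791955617006843724995091604076418407745934387184599534549045118995519858359239794553439726283550648143985068955683592536265445012835501045783672503350133277158680291961079563260232571105050903044373680231016717043841741608611640563316371181421012552301748506650755734227517522307978749787110333599196968963577841190859783569705937683841497886886754784723852481237857336485304770132332170449378854719170324259822011391734042429482059351065625733451282712278474405661852591074522776229845407809746057124311832846011698536402375050871099567845851850469619315610040073603088298465965482265733570631906704540494431332716832014163306017332723248740443330245270386423722207513866346754038640561552165718428413218397659292540829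558128758617815484568564646900855743582017720857035029966922229278081763133848429037350782417592991998978947223542217599972566263714922531986742684384262085118366265620671307790637306196524645186282555783031025230757840975657932761390785937079393722854482605368518635490680939567422641927198165980993823133799397349947473052214909503074326022224133940767978159173277319389042862294848624710871059361363786205829057846005359612295483118812034782552070607092505310532175414424419647389416235299060946357740630143758257367876839687618857597481848028534439574977255487014787737797830594765727907761124151061284017235045012078136439386539239322723498119732454482099479860504618065814958066641984605101843449647814022878206169477600885380286028119373178950099577926517830150253626576976845364728341192131254938563624002588151863257255040636942066397338027961406406801808641137400623533738864874692095007060587137530487684582732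282090718059335604229771461715089716658631633321540971062508658589171430075732103084869543284994643225332398622835523686205908857733544870562938655446248521206254267561541394588680622799602325141216640196771719444110882416747224077116863876522572449715650115551273565558350738978634719500496092803495307747742437281688051494867718541420258442591484732261394075334306980434682260557700875045939984003127213716078733449916607712930465676759672649607137871715739512449542984448062483794887472454069020345721168843056805156574503717445738563104390399429460687960732073041181028475336493504429189243877208833577167325509181915195159707241450689827509472243119441087973110352705736371154729861793317282352128924021631962044453091167340807201230138328440754167098642593352206192638429098227664035780512946687398612330548010704619770299815016519406835741376895586644241620234227766144699479197910204520084889490053248961452932014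069870836237843122720480570182753472210034462175133253073178132163413457850610724400353706521707159646490412934187124065589967324489167955548733259746308638230269793521479883867270905864246042522034418512736024269782171376632057213628271605038060346660310176453321101344196124532868108658317326737770692097705519876771882904936622776736545114259294720393491652897537120543904565373699693141043710348511149910492592170041449904278672208569283799266276358244228398143745606306652186642723277802520822280247188250999599155440281448398603387423128736111507878346005662414637978650684175947047837032937956184205263832550423070822556337621216909347261798810775540806794169010842130450895484857935200256)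

end Vale.Agent.Lib.P154.PChain.BG.S6
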