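import Vale.Agent.Lib.P154.PChain.BG.R7_0

set_option linter.all false

namespace Vale.Agent.Lib.P154.PChain.BG.S8

open Vale.Agent.Lib.P154.Chain

noncomputable def pc0 : PT := (PT.nd (nat_lit 6072846) (PT.nd (nat_lit 5835414) (PT.nd (nat_lit 5598294) (PT.nd (nat_lit 5538858) (PT.nd (nat_lit 3284814) (PT.nd (nat_lit 3284736) PT.nil (PT.lf (nat_lit 76) (nat_lit 6) (nat_lit 1) (nat_lit 3) (nat_lit 257) (nat_lit 55) (nat_lit 258))) (PT.nd (nat_lit 59280) (PT.lf (nat_lit 76) (nat_lit 6) (nat_lit 1) (nat_lit 1) (nat_lit 258) (nat_lit 55) (nat_lit 257)) (PT.lf (nat_lit 152) (nat_lit 3) (nat_lit 2) (nat_lit 1) (nat_lit 257) (nat_lit 56) (nat_lit 257)))) (PT.nd (nat_lit 59280) (PT.nd (nat_lit 78) (PT.lf (nat_lit 684) (nat_lit 6) (nat_lit 9) (nat_lit 3) (nat_lit 238) (nat_lit 93) (nat_lit 239)) (PT.lf (nat_lit 684) (nat_lit 6) (nat_lit 9) (nat_lit 1) (nat_lit 239) (nat_lit 93) (nat_lit 238))) (PT.nd (nat_lit 78) (PT.lf (nat_lit 760)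 (nat_lit 6) (nat_lit 10) (nat_lit 3) (nat_lit 237) (nat_lit 94) (nat_lit 239)) (PT.lf (nat_lit 836) (nat_lit 3) (nat_lit 11) (nat_lit 1) (nat_lit 238) (nat_lit 94) (nat_lit 238))))) (PT.nd (nat_lit 118560) (PT.nd (nat_lit 59280) (PT.nd (nat_lit 59202) (PT.lf (nat_lit 760) (nat_lit 6) (nat_lit 10) (nat_lit 1) (nat_lit 239) (nat_lit 94) (nat_lit 237)) (PT.lf (nat_lit 988) (nat_lit 6) (nat_lit 13) (nat_lit 3) (nat_lit 237) (nat_lit 95) (nat_lit 238))) (PT.nd (nat_lit 59202) (PT.lf (nat_lit 988) (nat_lit 6) (nat_lit 13) (nat_lit 1) (nat_lit 238) (nat_lit 95) (nat_lit 237)) (PT.lf (nat_lit 1064) (nat_lit 6) (nat_lit 14) (nat_lit 3) (nat_lit 236) (nat_lit 96) (nat_lit 238)))) (PT.nd (nat_lit 59280) (PT.nd (nat_lit 78) (PT.lf (nat_lit 1140) (nat_lit 3) (nat_lit 15) (nat_lit 1) (nat_lit 237) (nat_lit 96) (nat_lit 237)) (PT.lf (nat_lit 1064) (nat_lit 6) (nat_lit 14) (nat_lit 1) (nat_lit 238) (nat_lit 96) (nat_lit 236))) (PT.nd (nat_lit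 78) (PT.lf (nat_lit 1292) (nat_lit 6) (nat_lit 17) (nat_lit 3) (nat_lit 236) (nat_lit 97) (nat_lit 237)) (PT.lf (nat_lit 1292) (nat_lit 6) (nat_lit 17) (nat_lit 1) (nat_lit 237) (nat_lit 97) (nat_lit 236)))))) (PT.nd (nat_lit 118716) (PT.nd (nat_lit 59358) (PT.nd (nat_lit 156) (PT.nd (nat_lit 78) (PT.lf (nat_lit 1368) (nat_lit 6) (nat_lit 18) (nat_lit 3) (nat_lit 235) (nat_lit 98) (nat_lit 237)) (PT.lf (nat_lit 1444) (nat_lit 3) (nat_lit 19) (nat_lit 1) (nat_lit 236) (nat_lit 98) (nat_lit 236))) (PT.nd (nat_lit 59124) (PT.lf (nat_lit 1368) (nat_lit 6) (nat_lit 18) (nat_lit 1) (nat_lit 237) (nat_lit 98) (nat_lit 235)) (PT.lf (nat_lit 1520) (nat_lit 6) (nat_lit 20) (nat_lit 3) (nat_lit 234) (nat_lit 99) (nat_lit 237)))) (PT.nd (nat_lit 156) (PT.nd (nat_lit 78) (PT.lf (nat_lit 1596) (nat_lit 6) (nat_lit 21) (nat_lit 3) (nat_lit 235) (nat_lit 99) (nat_lit 236)) (PT.lf (nat_lit 1596) (nat_lit 6) (nat_lit 21) (nat_lit 1) (nat_lit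 236) (nat_lit 99) (nat_lit 235))) (PT.nd (nat_lit 59124) (PT.lf (nat_lit 1520) (nat_lit 6) (nat_lit 20) (nat_lit 1) (nat_lit 237) (nat_lit 99) (nat_lit 234)) (PT.lf (nat_lit 1672) (nat_lit 6) (nat_lit 22) (nat_lit 3) (nat_lit 234) (nat_lit 100) (nat_lit 236))))) (PT.nd (nat_lit 59358) (PT.nd (nat_lit 59202) (PT.nd (nat_lit 78) (PT.lf (nat_lit 1748) (nat_lit 3) (nat_lit 23) (nat_lit 1) (nat_lit 235) (nat_lit 100) (nat_lit 235)) (PT.lf (nat_lit 1672) (nat_lit 6) (nat_lit 22) (nat_lit 1) (nat_lit 236) (nat_lit 100) (nat_lit 234))) (PT.nd (nat_lit 78) (PT.lf (nat_lit 1824) (nat_lit 6) (nat_lit 24) (nat_lit 3) (nat_lit 233) (nat_lit 101) (nat_lit 236)) (PT.lf (nat_lit 1900) (nat_lit 6) (nat_lit 25) (nat_lit 3) (nat_lit 234) (nat_lit 101) (nat_lit 235)))) (PT.nd (nat_lit 59202) (PT.nd (nat_lit 78) (PT.lf (nat_lit 1900) (nat_lit 6) (nat_lit 25) (nat_lit 1) (nat_lit 235) (nat_lit 101) (nat_lit 234)) (PT.lf (nat_lit 1824) (nat_lit 6)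 (nat_lit 24) (nat_lit 1) (nat_lit 236) (nat_lit 101) (nat_lit 233))) (PT.nd (nat_lit 78) (PT.lf (nat_lit 2052) (nat_lit 6) (nat_lit 27) (nat_lit 3) (nat_lit 233) (nat_lit 102) (nat_lit 235)) (PT.lf (nat_lit 2128) (nat_lit 3) (nat_lit 28) (nat_lit 1) (nat_lit 234) (nat_lit 102) (nat_lit 234))))))) (PT.nd (nat_lit 237276) (PT.nd (nat_lit 118638) (PT.nd (nat_lit 59280) (PT.nd (nat_lit 59124) (PT.lf (nat_lit 2052) (nat_lit 6) (nat_lit 27) (nat_lit 1) (nat_lit 235) (nat_lit 102) (nat_lit 233)) (PT.nd (nat_lit 78) (PT.lf (nat_lit 2204) (nat_lit 6) (nat_lit 29) (nat_lit 3) (nat_lit 232) (nat_lit 103) (nat_lit 235)) (PT.lf (nat_lit 2280) (nat_lit 6) (nat_lit 30) (nat_lit 3) (nat_lit 233) (nat_lit 103) (nat_lit 234)))) (PT.nd (nat_lit 59202) (PT.nd (nat_lit 78) (PT.lf (nat_lit 2280) (nat_lit 6) (nat_lit 30) (nat_lit 1) (nat_lit 234) (nat_lit 103) (nat_lit 233)) (PT.lf (nat_lit 2204) (nat_lit 6) (nat_lit 29) (nat_lit 1) (nat_lit 235)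 (nat_lit 103) (nat_lit 232))) (PT.nd (nat_lit 78) (PT.lf (nat_lit 2432) (nat_lit 6) (nat_lit 32) (nat_lit 3) (nat_lit 232) (nat_lit 104) (nat_lit 234)) (PT.lf (nat_lit 2508) (nat_lit 3) (nat_lit 33) (nat_lit 1) (nat_lit 233) (nat_lit 104) (nat_lit 233))))) (PT.nd (nat_lit 59358) (PT.nd (nat_lit 59202) (PT.nd (nat_lit 59124) (PT.lf (nat_lit 2432) (nat_lit 6) (nat_lit 32) (nat_lit 1) (nat_lit 234) (nat_lit 104) (nat_lit 232)) (PT.lf (nat_lit 2584) (nat_lit 6) (nat_lit 34) (nat_lit 3) (nat_lit 231) (nat_lit 105) (nat_lit 234))) (PT.nd (nat_lit 78) (PT.lf (nat_lit 2660) (nat_lit 6) (nat_lit 35) (nat_lit 3) (nat_lit 232) (nat_lit 105) (nat_lit 233)) (PT.lf (nat_lit 2660) (nat_lit 6) (nat_lit 35) (nat_lit 1) (nat_lit 233) (nat_lit 105) (nat_lit 232)))) (PT.nd (nat_lit 59124) (PT.nd (nat_lit 59046) (PT.lf (nat_lit 2584) (nat_lit 6) (nat_lit 34) (nat_lit 1) (nat_lit 234) (nat_lit 105) (nat_lit 231)) (PT.lf (nat_lit 2736) (nat_lit 6)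 (nat_lit 36) (nat_lit 3) (nat_lit 230) (nat_lit 106) (nat_lit 234))) (PT.nd (nat_lit 78) (PT.lf (nat_lit 2812) (nat_lit 6) (nat_lit 37) (nat_lit 3) (nat_lit 231) (nat_lit 106) (nat_lit 233)) (PT.lf (nat_lit 2888) (nat_lit 3) (nat_lit 38) (nat_lit 1) (nat_lit 232) (nat_lit 106) (nat_lit 232)))))) (PT.nd (nat_lit 118560) (PT.nd (nat_lit 59280) (PT.nd (nat_lit 59124) (PT.nd (nat_lit 78) (PT.lf (nat_lit 2812) (nat_lit 6) (nat_lit 37) (nat_lit 1) (nat_lit 233) (nat_lit 106) (nat_lit 231)) (PT.lf (nat_lit 2736) (nat_lit 6) (nat_lit 36) (nat_lit 1) (nat_lit 234) (nat_lit 106) (nat_lit 230))) (PT.nd (nat_lit 78) (PT.lf (nat_lit 2964) (nat_lit 6) (nat_lit 39) (nat_lit 3) (nat_lit 230) (nat_lit 107) (nat_lit 233)) (PT.lf (nat_lit 3040) (nat_lit 6) (nat_lit 40) (nat_lit 3) (nat_lit 231) (nat_lit 107) (nat_lit 232)))) (PT.nd (nat_lit 59124) (PT.nd (nat_lit 78) (PT.lf (nat_lit 3040) (nat_lit 6) (nat_lit 40) (nat_lit 1) (nat_lit 232) (nat_lit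 107) (nat_lit 231)) (PT.lf (nat_lit 2964) (nat_lit 6) (nat_lit 39) (nat_lit 1) (nat_lit 233) (nat_lit 107) (nat_lit 230))) (PT.nd (nat_lit 78) (PT.lf (nat_lit 3116) (nat_lit 6) (nat_lit 41) (nat_lit 3) (nat_lit 229) (nat_lit 108) (nat_lit 233)) (PT.lf (nat_lit 3192) (nat_lit 6) (nat_lit 42) (nat_lit 3) (nat_lit 230) (nat_lit 108) (nat_lit 232))))) (PT.nd (nat_lit 59280) (PT.nd (nat_lit 156) (PT.nd (nat_lit 78) (PT.lf (nat_lit 3268) (nat_lit 3) (nat_lit 43) (nat_lit 1) (nat_lit 231) (nat_lit 108) (nat_lit 231)) (PT.lf (nat_lit 3192) (nat_lit 6) (nat_lit 42) (nat_lit 1) (nat_lit 232) (nat_lit 108) (nat_lit 230))) (PT.nd (nat_lit 59046) (PT.lf (nat_lit 3116) (nat_lit 6) (nat_lit 41) (nat_lit 1) (nat_lit 233) (nat_lit 108) (nat_lit 229)) (PT.lf (nat_lit 3420) (nat_lit 6) (nat_lit 45) (nat_lit 3) (nat_lit 229) (nat_lit 109) (nat_lit 232)))) (PT.nd (nat_lit 156) (PT.nd (nat_lit 78) (PT.lf (nat_lit 3496) (nat_lit 6) (nat_lit 46) (nat_lit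 3) (nat_lit 230) (nat_lit 109) (nat_lit 231)) (PT.lf (nat_lit 3496) (nat_lit 6) (nat_lit 46) (nat_lit 1) (nat_lit 231) (nat_lit 109) (nat_lit 230))) (PT.nd (nat_lit 59046) (PT.lf (nat_lit 3420) (nat_lit 6) (nat_lit 45) (nat_lit 1) (nat_lit 232) (nat_lit 109) (nat_lit 229)) (PT.lf (nat_lit 3572) (nat_lit 6) (nat_lit 47) (nat_lit 3) (nat_lit 228) (nat_lit 110) (nat_lit 232))))))))
noncomputable def pc1 : PT := (PT.nd (nat_lit 296868) (PT.nd (nat_lit 177840) (PT.nd (nat_lit 59436) (PT.nd (nat_lit 234) (PT.nd (nat_lit 78) (PT.lf (nat_lit 3648) (nat_lit 6) (nat_lit 48) (nat_lit 3) (nat_lit 229) (nat_lit 110) (nat_lit 231)) (PT.nd (nat_lit 78) (PT.lf (nat_lit 3724) (nat_lit 3) (nat_lit 49) (nat_lit 1) (nat_lit 230) (nat_lit 110) (nat_lit 230)) (PT.lf (nat_lit 3648) (nat_lit 6) (nat_lit 48) (nat_lit 1) (nat_lit 231) (nat_lit 110) (nat_lit 229)))) (PT.nd (nat_lit 59046) (PT.nd (nat_lit 58968) (PT.lf (nat_lit 3572) (nat_lit 6) (nat_lit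 47) (nat_lit 1) (nat_lit 232) (nat_lit 110) (nat_lit 228)) (PT.lf (nat_lit 3800) (nat_lit 6) (nat_lit 50) (nat_lit 3) (nat_lit 227) (nat_lit 111) (nat_lit 232))) (PT.nd (nat_lit 78) (PT.lf (nat_lit 3876) (nat_lit 6) (nat_lit 51) (nat_lit 3) (nat_lit 228) (nat_lit 111) (nat_lit 231)) (PT.lf (nat_lit 3952) (nat_lit 6) (nat_lit 52) (nat_lit 3) (nat_lit 229) (nat_lit 111) (nat_lit 230))))) (PT.nd (nat_lit 59202) (PT.nd (nat_lit 156) (PT.nd (nat_lit 78) (PT.lf (nat_lit 3952) (nat_lit 6) (nat_lit 52) (nat_lit 1) (nat_lit 230) (nat_lit 111) (nat_lit 229)) (PT.lf (nat_lit 3876) (nat_lit 6) (nat_lit 51) (nat_lit 1) (nat_lit 231) (nat_lit 111) (nat_lit 228))) (PT.nd (nat_lit 58968) (PT.lf (nat_lit 3800) (nat_lit 6) (nat_lit 50) (nat_lit 1) (nat_lit 232) (nat_lit 111) (nat_lit 227)) (PT.lf (nat_lit 4028) (nat_lit 6) (nat_lit 53) (nat_lit 3) (nat_lit 227) (nat_lit 112) (nat_lit 231)))) (PT.nd (nat_lit 156) (PT.nd (nat_lit 78) (PT.lf (nat_lit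 4104) (nat_lit 6) (nat_lit 54) (nat_lit 3) (nat_lit 228) (nat_lit 112) (nat_lit 230)) (PT.lf (nat_lit 4180) (nat_lit 3) (nat_lit 55) (nat_lit 1) (nat_lit 229) (nat_lit 112) (nat_lit 229))) (PT.nd (nat_lit 78) (PT.lf (nat_lit 4104) (nat_lit 6) (nat_lit 54) (nat_lit 1) (nat_lit 230) (nat_lit 112) (nat_lit 228)) (PT.lf (nat_lit 4028) (nat_lit 6) (nat_lit 53) (nat_lit 1) (nat_lit 231) (nat_lit 112) (nat_lit 227)))))) (PT.nd (nat_lit 59514) (PT.nd (nat_lit 312) (PT.nd (nat_lit 156) (PT.nd (nat_lit 78) (PT.lf (nat_lit 4256) (nat_lit 6) (nat_lit 56) (nat_lit 3) (nat_lit 226) (nat_lit 113) (nat_lit 231)) (PT.lf (nat_lit 4332) (nat_lit 6) (nat_lit 57) (nat_lit 3) (nat_lit 227) (nat_lit 113) (nat_lit 230))) (PT.nd (nat_lit 78) (PT.lf (nat_lit 4408) (nat_lit 6) (nat_lit 58) (nat_lit 3) (nat_lit 228) (nat_lit 113) (nat_lit 229)) (PT.lf (nat_lit 4408) (nat_lit 6) (nat_lit 58) (nat_lit 1) (nat_lit 229) (nat_lit 113) (nat_lit 228)))) (PT.nd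 (nat_lit 59046) (PT.nd (nat_lit 78) (PT.lf (nat_lit 4332) (nat_lit 6) (nat_lit 57) (nat_lit 1) (nat_lit 230) (nat_lit 113) (nat_lit 227)) (PT.lf (nat_lit 4256) (nat_lit 6) (nat_lit 56) (nat_lit 1) (nat_lit 231) (nat_lit 113) (nat_lit 226))) (PT.nd (nat_lit 78) (PT.lf (nat_lit 4484) (nat_lit 6) (nat_lit 59) (nat_lit 3) (nat_lit 226) (nat_lit 114) (nat_lit 230)) (PT.lf (nat_lit 4560) (nat_lit 6) (nat_lit 60) (nat_lit 3) (nat_lit 227) (nat_lit 114) (nat_lit 229))))) (PT.nd (nat_lit 59202) (PT.nd (nat_lit 156) (PT.nd (nat_lit 78) (PT.lf (nat_lit 4636) (nat_lit 3) (nat_lit 61) (nat_lit 1) (nat_lit 228) (nat_lit 114) (nat_lit 228)) (PT.lf (nat_lit 4560) (nat_lit 6) (nat_lit 60) (nat_lit 1) (nat_lit 229) (nat_lit 114) (nat_lit 227))) (PT.nd (nat_lit 58968) (PT.lf (nat_lit 4484) (nat_lit 6) (nat_lit 59) (nat_lit 1) (nat_lit 230) (nat_lit 114) (nat_lit 226)) (PT.lf (nat_lit 4712) (nat_lit 6) (nat_lit 62) (nat_lit 3) (nat_lit 225) (nat_lit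 115) (nat_lit 230)))) (PT.nd (nat_lit 156) (PT.nd (nat_lit 78) (PT.lf (nat_lit 4788) (nat_lit 6) (nat_lit 63) (nat_lit 3) (nat_lit 226) (nat_lit 115) (nat_lit 229)) (PT.lf (nat_lit 4864) (nat_lit 6) (nat_lit 64) (nat_lit 3) (nat_lit 227) (nat_lit 115) (nat_lit 228))) (PT.nd (nat_lit 78) (PT.lf (nat_lit 4864) (nat_lit 6) (nat_lit 64) (nat_lit 1) (nat_lit 228) (nat_lit 115) (nat_lit 227)) (PT.lf (nat_lit 4788) (nat_lit 6) (nat_lit 63) (nat_lit 1) (nat_lit 229) (nat_lit 115) (nat_lit 226))))))) (PT.nd (nat_lit 177840) (PT.nd (nat_lit 118404) (PT.nd (nat_lit 59202) (PT.nd (nat_lit 59046) (PT.nd (nat_lit 58968) (PT.lf (nat_lit 4712) (nat_lit 6) (nat_lit 62) (nat_lit 1) (nat_lit 230) (nat_lit 115) (nat_lit 225)) (PT.lf (nat_lit 5016) (nat_lit 6) (nat_lit 66) (nat_lit 3) (nat_lit 225) (nat_lit 116) (nat_lit 229))) (PT.nd (nat_lit 78) (PT.lf (nat_lit 5092) (nat_lit 6) (nat_lit 67) (nat_lit 3) (nat_lit 226) (nat_lit 116) (nat_lit 228))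 (PT.lf (nat_lit 5168) (nat_lit 3) (nat_lit 68) (nat_lit 1) (nat_lit 227) (nat_lit 116) (nat_lit 227)))) (PT.nd (nat_lit 59046) (PT.nd (nat_lit 78) (PT.lf (nat_lit 5092) (nat_lit 6) (nat_lit 67) (nat_lit 1) (nat_lit 228) (nat_lit 116) (nat_lit 226)) (PT.lf (nat_lit 5016) (nat_lit 6) (nat_lit 66) (nat_lit 1) (nat_lit 229) (nat_lit 116) (nat_lit 225))) (PT.nd (nat_lit 78) (PT.lf (nat_lit 5244) (nat_lit 6) (nat_lit 69) (nat_lit 3) (nat_lit 224) (nat_lit 117) (nat_lit 229)) (PT.lf (nat_lit 5320) (nat_lit 6) (nat_lit 70) (nat_lit 3) (nat_lit 225) (nat_lit 117) (nat_lit 228))))) (PT.nd (nat_lit 59124) (PT.nd (nat_lit 156) (PT.nd (nat_lit 78) (PT.lf (nat_lit 5396) (nat_lit 6) (nat_lit 71) (nat_lit 3) (nat_lit 226) (nat_lit 117) (nat_lit 227)) (PT.lf (nat_lit 5396) (nat_lit 6) (nat_lit 71) (nat_lit 1) (nat_lit 227) (nat_lit 117) (nat_lit 226))) (PT.nd (nat_lit 78) (PT.lf (nat_lit 5320) (nat_lit 6) (nat_lit 70) (nat_lit 1) (nat_lit 228)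 (nat_lit 117) (nat_lit 225)) (PT.lf (nat_lit 5244) (nat_lit 6) (nat_lit 69) (nat_lit 1) (nat_lit 229) (nat_lit 117) (nat_lit 224)))) (PT.nd (nat_lit 156) (PT.nd (nat_lit 78) (PT.lf (nat_lit 5472) (nat_lit 6) (nat_lit 72) (nat_lit 3) (nat_lit 223) (nat_lit 118) (nat_lit 229)) (PT.lf (nat_lit 5548) (nat_lit 6) (nat_lit 73) (nat_lit 3) (nat_lit 224) (nat_lit 118) (nat_lit 228))) (PT.nd (nat_lit 78) (PT.lf (nat_lit 5624) (nat_lit 6) (nat_lit 74) (nat_lit 3) (nat_lit 225) (nat_lit 118) (nat_lit 227)) (PT.lf (nat_lit 5700) (nat_lit 3) (nat_lit 75) (nat_lit 1) (nat_lit 226) (nat_lit 118) (nat_lit 226)))))) (PT.nd (nat_lit 59436) (PT.nd (nat_lit 59124) (PT.nd (nat_lit 156) (PT.nd (nat_lit 78) (PT.lf (nat_lit 5624) (nat_lit 6) (nat_lit 74) (nat_lit 1) (nat_lit 227) (nat_lit 118) (nat_lit 225)) (PT.lf (nat_lit 5548) (nat_lit 6) (nat_lit 73) (nat_lit 1) (nat_lit 228) (nat_lit 118) (nat_lit 224))) (PT.nd (nat_lit 58890) (PT.lf (nat_lit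 5472) (nat_lit 6) (nat_lit 72) (nat_lit 1) (nat_lit 229) (nat_lit 118) (nat_lit 223)) (PT.lf (nat_lit 5776) (nat_lit 6) (nat_lit 76) (nat_lit 3) (nat_lit 223) (nat_lit 119) (nat_lit 228)))) (PT.nd (nat_lit 156) (PT.nd (nat_lit 78) (PT.lf (nat_lit 5852) (nat_lit 6) (nat_lit 77) (nat_lit 3) (nat_lit 224) (nat_lit 119) (nat_lit 227)) (PT.lf (nat_lit 5928) (nat_lit 6) (nat_lit 78) (nat_lit 3) (nat_lit 225) (nat_lit 119) (nat_lit 226))) (PT.nd (nat_lit 78) (PT.lf (nat_lit 5928) (nat_lit 6) (nat_lit 78) (nat_lit 1) (nat_lit 226) (nat_lit 119) (nat_lit 225)) (PT.lf (nat_lit 5852) (nat_lit 6) (nat_lit 77) (nat_lit 1) (nat_lit 227) (nat_lit 119) (nat_lit 224))))) (PT.nd (nat_lit 59124) (PT.nd (nat_lit 58968) (PT.nd (nat_lit 58890) (PT.lf (nat_lit 5776) (nat_lit 6) (nat_lit 76) (nat_lit 1) (nat_lit 228) (nat_lit 119) (nat_lit 223)) (PT.lf (nat_lit 6004) (nat_lit 6) (nat_lit 79) (nat_lit 3) (nat_lit 222) (nat_lit 120) (nat_lit 228))) (PT.nd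 (nat_lit 78) (PT.lf (nat_lit 6080) (nat_lit 6) (nat_lit 80) (nat_lit 3) (nat_lit 223) (nat_lit 120) (nat_lit 227)) (PT.lf (nat_lit 6156) (nat_lit 6) (nat_lit 81) (nat_lit 3) (nat_lit 224) (nat_lit 120) (nat_lit 226)))) (PT.nd (nat_lit 156) (PT.nd (nat_lit 78) (PT.lf (nat_lit 6232) (nat_lit 3) (nat_lit 82) (nat_lit 1) (nat_lit 225) (nat_lit 120) (nat_lit 225)) (PT.lf (nat_lit 6156) (nat_lit 6) (nat_lit 81) (nat_lit 1) (nat_lit 226) (nat_lit 120) (nat_lit 224))) (PT.nd (nat_lit 78) (PT.lf (nat_lit 6080) (nat_lit 6) (nat_lit 80) (nat_lit 1) (nat_lit 227) (nat_lit 120) (nat_lit 223)) (PT.lf (nat_lit 6004) (nat_lit 6) (nat_lit 79) (nat_lit 1) (nat_lit 228) (nat_lit 120) (nat_lit 222))))))))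
noncomputable def pc2 : PT := (PT.nd (nat_lit 237432) (PT.nd (nat_lit 118716) (PT.nd (nat_lit 59358) (PT.nd (nat_lit 234) (PT.nd (nat_lit 78) (PT.lf (nat_lit 6384) (nat_lit 6) (nat_lit 84) (nat_lit 3) (nat_lit 222) (nat_lit 121) (nat_lit 227)) (PT.nd (nat_lit 78) (PT.lf (nat_lit 6460) (nat_lit 6) (nat_lit 85) (nat_lit 3) (nat_lit 223) (nat_lit 121) (nat_lit 226)) (PT.lf (nat_lit 6536) (nat_lit 6) (nat_lit 86) (nat_lit 3) (nat_lit 224) (nat_lit 121) (nat_lit 225)))) (PT.nd (nat_lit 156) (PT.nd (nat_lit 78) (PT.lf (nat_lit 6536) (nat_lit 6) (nat_lit 86) (nat_lit 1) (nat_lit 225) (nat_lit 121) (nat_lit 224)) (PT.lf (nat_lit 6460) (nat_lit 6) (nat_lit 85) (nat_lit 1) (nat_lit 226) (nat_lit 121) (nat_lit 223))) (PT.nd (nat_lit 58890) (PT.lf (nat_lit 6384) (nat_lit 6) (nat_lit 84) (nat_lit 1) (nat_lit 227) (nat_lit 121) (nat_lit 222)) (PT.lf (nat_lit 6612) (nat_lit 6) (nat_lit 87) (nat_lit 3) (nat_lit 221) (nat_lit 122) (nat_lit 227)))))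 (PT.nd (nat_lit 312) (PT.nd (nat_lit 156) (PT.nd (nat_lit 78) (PT.lf (nat_lit 6688) (nat_lit 6) (nat_lit 88) (nat_lit 3) (nat_lit 222) (nat_lit 122) (nat_lit 226)) (PT.lf (nat_lit 6764) (nat_lit 6) (nat_lit 89) (nat_lit 3) (nat_lit 223) (nat_lit 122) (nat_lit 225))) (PT.nd (nat_lit 78) (PT.lf (nat_lit 6840) (nat_lit 3) (nat_lit 90) (nat_lit 1) (nat_lit 224) (nat_lit 122) (nat_lit 224)) (PT.lf (nat_lit 6764) (nat_lit 6) (nat_lit 89) (nat_lit 1) (nat_lit 225) (nat_lit 122) (nat_lit 223)))) (PT.nd (nat_lit 58890) (PT.nd (nat_lit 78) (PT.lf (nat_lit 6688) (nat_lit 6) (nat_lit 88) (nat_lit 1) (nat_lit 226) (nat_lit 122) (nat_lit 222)) (PT.lf (nat_lit 6612) (nat_lit 6) (nat_lit 87) (nat_lit 1) (nat_lit 227) (nat_lit 122) (nat_lit 221))) (PT.nd (nat_lit 78) (PT.lf (nat_lit 6916) (nat_lit 6) (nat_lit 91) (nat_lit 3) (nat_lit 220) (nat_lit 123) (nat_lit 227)) (PT.lf (nat_lit 6992) (nat_lit 6) (nat_lit 92) (nat_lit 3) (nat_lit 221) (nat_lit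 123) (nat_lit 226)))))) (PT.nd (nat_lit 59358) (PT.nd (nat_lit 312) (PT.nd (nat_lit 156) (PT.nd (nat_lit 78) (PT.lf (nat_lit 7068) (nat_lit 6) (nat_lit 93) (nat_lit 3) (nat_lit 222) (nat_lit 123) (nat_lit 225)) (PT.lf (nat_lit 7144) (nat_lit 6) (nat_lit 94) (nat_lit 3) (nat_lit 223) (nat_lit 123) (nat_lit 224))) (PT.nd (nat_lit 78) (PT.lf (nat_lit 7144) (nat_lit 6) (nat_lit 94) (nat_lit 1) (nat_lit 224) (nat_lit 123) (nat_lit 223)) (PT.lf (nat_lit 7068) (nat_lit 6) (nat_lit 93) (nat_lit 1) (nat_lit 225) (nat_lit 123) (nat_lit 222)))) (PT.nd (nat_lit 58890) (PT.nd (nat_lit 78) (PT.lf (nat_lit 6992) (nat_lit 6) (nat_lit 92) (nat_lit 1) (nat_lit 226) (nat_lit 123) (nat_lit 221)) (PT.lf (nat_lit 6916) (nat_lit 6) (nat_lit 91) (nat_lit 1) (nat_lit 227) (nat_lit 123) (nat_lit 220))) (PT.nd (nat_lit 78) (PT.lf (nat_lit 7220) (nat_lit 6) (nat_lit 95) (nat_lit 3) (nat_lit 220) (nat_lit 124) (nat_lit 226)) (PT.lf (nat_lit 7296) (nat_lit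 6) (nat_lit 96) (nat_lit 3) (nat_lit 221) (nat_lit 124) (nat_lit 225))))) (PT.nd (nat_lit 312) (PT.nd (nat_lit 156) (PT.nd (nat_lit 78) (PT.lf (nat_lit 7372) (nat_lit 6) (nat_lit 97) (nat_lit 3) (nat_lit 222) (nat_lit 124) (nat_lit 224)) (PT.lf (nat_lit 7448) (nat_lit 3) (nat_lit 98) (nat_lit 1) (nat_lit 223) (nat_lit 124) (nat_lit 223))) (PT.nd (nat_lit 78) (PT.lf (nat_lit 7372) (nat_lit 6) (nat_lit 97) (nat_lit 1) (nat_lit 224) (nat_lit 124) (nat_lit 222)) (PT.lf (nat_lit 7296) (nat_lit 6) (nat_lit 96) (nat_lit 1) (nat_lit 225) (nat_lit 124) (nat_lit 221)))) (PT.nd (nat_lit 58890) (PT.nd (nat_lit 58812) (PT.lf (nat_lit 7220) (nat_lit 6) (nat_lit 95) (nat_lit 1) (nat_lit 226) (nat_lit 124) (nat_lit 220)) (PT.lf (nat_lit 7524) (nat_lit 6) (nat_lit 99) (nat_lit 3) (nat_lit 219) (nat_lit 125) (nat_lit 226))) (PT.nd (nat_lit 78) (PT.lf (nat_lit 7600) (nat_lit 6) (nat_lit 100) (nat_lit 3) (nat_lit 220) (nat_lit 125) (nat_lit 225))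 (PT.lf (nat_lit 7676) (nat_lit 6) (nat_lit 101) (nat_lit 3) (nat_lit 221) (nat_lit 125) (nat_lit 224))))))) (PT.nd (nat_lit 118560) (PT.nd (nat_lit 59280) (PT.nd (nat_lit 312) (PT.nd (nat_lit 156) (PT.nd (nat_lit 78) (PT.lf (nat_lit 7752) (nat_lit 6) (nat_lit 102) (nat_lit 3) (nat_lit 222) (nat_lit 125) (nat_lit 223)) (PT.lf (nat_lit 7752) (nat_lit 6) (nat_lit 102) (nat_lit 1) (nat_lit 223) (nat_lit 125) (nat_lit 222))) (PT.nd (nat_lit 78) (PT.lf (nat_lit 7676) (nat_lit 6) (nat_lit 101) (nat_lit 1) (nat_lit 224) (nat_lit 125) (nat_lit 221)) (PT.lf (nat_lit 7600) (nat_lit 6) (nat_lit 100) (nat_lit 1) (nat_lit 225) (nat_lit 125) (nat_lit 220)))) (PT.nd (nat_lit 58812) (PT.nd (nat_lit 58734) (PT.lf (nat_lit 7524) (nat_lit 6) (nat_lit 99) (nat_lit 1) (nat_lit 226) (nat_lit 125) (nat_lit 219)) (PT.lf (nat_lit 7828) (nat_lit 6) (nat_lit 103) (nat_lit 3) (nat_lit 218) (nat_lit 126) (nat_lit 226))) (PT.nd (nat_lit 78) (PT.lf (nat_lit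 7904) (nat_lit 6) (nat_lit 104) (nat_lit 3) (nat_lit 219) (nat_lit 126) (nat_lit 225)) (PT.lf (nat_lit 7980) (nat_lit 6) (nat_lit 105) (nat_lit 3) (nat_lit 220) (nat_lit 126) (nat_lit 224))))) (PT.nd (nat_lit 312) (PT.nd (nat_lit 156) (PT.nd (nat_lit 78) (PT.lf (nat_lit 8056) (nat_lit 6) (nat_lit 106) (nat_lit 3) (nat_lit 221) (nat_lit 126) (nat_lit 223)) (PT.lf (nat_lit 8132) (nat_lit 3) (nat_lit 107) (nat_lit 1) (nat_lit 222) (nat_lit 126) (nat_lit 222))) (PT.nd (nat_lit 78) (PT.lf (nat_lit 8056) (nat_lit 6) (nat_lit 106) (nat_lit 1) (nat_lit 223) (nat_lit 126) (nat_lit 221)) (PT.lf (nat_lit 7980) (nat_lit 6) (nat_lit 105) (nat_lit 1) (nat_lit 224) (nat_lit 126) (nat_lit 220)))) (PT.nd (nat_lit 58812) (PT.nd (nat_lit 78) (PT.lf (nat_lit 7904) (nat_lit 6) (nat_lit 104) (nat_lit 1) (nat_lit 225) (nat_lit 126) (nat_lit 219)) (PT.lf (nat_lit 7828) (nat_lit 6) (nat_lit 103) (nat_lit 1) (nat_lit 226) (nat_lit 126) (nat_lit 218)))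 (PT.nd (nat_lit 78) (PT.lf (nat_lit 8208) (nat_lit 6) (nat_lit 108) (nat_lit 3) (nat_lit 218) (nat_lit 127) (nat_lit 225)) (PT.lf (nat_lit 8284) (nat_lit 6) (nat_lit 109) (nat_lit 3) (nat_lit 219) (nat_lit 127) (nat_lit 224)))))) (PT.nd (nat_lit 59280) (PT.nd (nat_lit 312) (PT.nd (nat_lit 156) (PT.nd (nat_lit 78) (PT.lf (nat_lit 8360) (nat_lit 6) (nat_lit 110) (nat_lit 3) (nat_lit 220) (nat_lit 127) (nat_lit 223)) (PT.lf (nat_lit 8436) (nat_lit 6) (nat_lit 111) (nat_lit 3) (nat_lit 221) (nat_lit 127) (nat_lit 222))) (PT.nd (nat_lit 78) (PT.lf (nat_lit 8436) (nat_lit 6) (nat_lit 111) (nat_lit 1) (nat_lit 222) (nat_lit 127) (nat_lit 221)) (PT.lf (nat_lit 8360) (nat_lit 6) (nat_lit 110) (nat_lit 1) (nat_lit 223) (nat_lit 127) (nat_lit 220)))) (PT.nd (nat_lit 58812) (PT.nd (nat_lit 78) (PT.lf (nat_lit 8284) (nat_lit 6) (nat_lit 109) (nat_lit 1) (nat_lit 224) (nat_lit 127) (nat_lit 219)) (PT.lf (nat_lit 8208) (nat_lit 6) (nat_lit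 108) (nat_lit 1) (nat_lit 225) (nat_lit 127) (nat_lit 218))) (PT.nd (nat_lit 78) (PT.lf (nat_lit 8512) (nat_lit 6) (nat_lit 112) (nat_lit 3) (nat_lit 217) (nat_lit 128) (nat_lit 225)) (PT.lf (nat_lit 8588) (nat_lit 6) (nat_lit 113) (nat_lit 3) (nat_lit 218) (nat_lit 128) (nat_lit 224))))) (PT.nd (nat_lit 312) (PT.nd (nat_lit 156) (PT.nd (nat_lit 78) (PT.lf (nat_lit 8664) (nat_lit 6) (nat_lit 114) (nat_lit 3) (nat_lit 219) (nat_lit 128) (nat_lit 223)) (PT.lf (nat_lit 8740) (nat_lit 6) (nat_lit 115) (nat_lit 3) (nat_lit 220) (nat_lit 128) (nat_lit 222))) (PT.nd (nat_lit 78) (PT.lf (nat_lit 8816) (nat_lit 3) (nat_lit 116) (nat_lit 1) (nat_lit 221) (nat_lit 128) (nat_lit 221)) (PT.lf (nat_lit 8740) (nat_lit 6) (nat_lit 115) (nat_lit 1) (nat_lit 222) (nat_lit 128) (nat_lit 220)))) (PT.nd (nat_lit 156) (PT.nd (nat_lit 78) (PT.lf (nat_lit 8664) (nat_lit 6) (nat_lit 114) (nat_lit 1) (nat_lit 223) (nat_lit 128) (nat_lit 219)) (PT.lf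 (nat_lit 8588) (nat_lit 6) (nat_lit 113) (nat_lit 1) (nat_lit 224) (nat_lit 128) (nat_lit 218))) (PT.nd (nat_lit 58734) (PT.lf (nat_lit 8512) (nat_lit 6) (nat_lit 112) (nat_lit 1) (nat_lit 225) (nat_lit 128) (nat_lit 217)) (PT.lf (nat_lit 8968) (nat_lit 6) (nat_lit 118) (nat_lit 3) (nat_lit 217) (nat_lit 129) (nat_lit 224))))))))
noncomputable def pc3 : PT := (PT.nd (nat_lit 178230) (PT.nd (nat_lit 59826) (PT.nd (nat_lit 59202) (PT.nd (nat_lit 234) (PT.nd (nat_lit 78) (PT.lf (nat_lit 9044) (nat_lit 6) (nat_lit 119) (nat_lit 3) (nat_lit 218) (nat_lit 129) (nat_lit 223)) (PT.nd (nat_lit 78) (PT.lf (nat_lit 9120) (nat_lit 6) (nat_lit 120) (nat_lit 3) (nat_lit 219) (nat_lit 129) (nat_lit 222)) (PT.lf (nat_lit 9196) (nat_lit 6) (nat_lit 121) (nat_lit 3) (nat_lit 220) (nat_lit 129) (nat_lit 221)))) (PT.nd (nat_lit 156) (PT.nd (nat_lit 78) (PT.lf (nat_lit 9196) (nat_lit 6) (nat_lit 121) (nat_lit 1) (nat_lit 221) (nat_lit 129) (nat_lit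 220)) (PT.lf (nat_lit 9120) (nat_lit 6) (nat_lit 120) (nat_lit 1) (nat_lit 222) (nat_lit 129) (nat_lit 219))) (PT.nd (nat_lit 78) (PT.lf (nat_lit 9044) (nat_lit 6) (nat_lit 119) (nat_lit 1) (nat_lit 223) (nat_lit 129) (nat_lit 218)) (PT.lf (nat_lit 8968) (nat_lit 6) (nat_lit 118) (nat_lit 1) (nat_lit 224) (nat_lit 129) (nat_lit 217))))) (PT.nd (nat_lit 312) (PT.nd (nat_lit 156) (PT.nd (nat_lit 78) (PT.lf (nat_lit 9272) (nat_lit 6) (nat_lit 122) (nat_lit 3) (nat_lit 216) (nat_lit 130) (nat_lit 224)) (PT.lf (nat_lit 9348) (nat_lit 6) (nat_lit 123) (nat_lit 3) (nat_lit 217) (nat_lit 130) (nat_lit 223))) (PT.nd (nat_lit 78) (PT.lf (nat_lit 9424) (nat_lit 6) (nat_lit 124) (nat_lit 3) (nat_lit 218) (nat_lit 130) (nat_lit 222)) (PT.lf (nat_lit 9500) (nat_lit 6) (nat_lit 125) (nat_lit 3) (nat_lit 219) (nat_lit 130) (nat_lit 221)))) (PT.nd (nat_lit 156) (PT.nd (nat_lit 78) (PT.lf (nat_lit 9576) (nat_lit 3) (nat_lit 126) (nat_lit 1) (nat_lit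 220) (nat_lit 130) (nat_lit 220)) (PT.lf (nat_lit 9500) (nat_lit 6) (nat_lit 125) (nat_lit 1) (nat_lit 221) (nat_lit 130) (nat_lit 219))) (PT.nd (nat_lit 78) (PT.lf (nat_lit 9424) (nat_lit 6) (nat_lit 124) (nat_lit 1) (nat_lit 222) (nat_lit 130) (nat_lit 218)) (PT.lf (nat_lit 9348) (nat_lit 6) (nat_lit 123) (nat_lit 1) (nat_lit 223) (nat_lit 130) (nat_lit 217)))))) (PT.nd (nat_lit 59202) (PT.nd (nat_lit 58890) (PT.nd (nat_lit 58734) (PT.nd (nat_lit 58656) (PT.lf (nat_lit 9272) (nat_lit 6) (nat_lit 122) (nat_lit 1) (nat_lit 224) (nat_lit 130) (nat_lit 216)) (PT.lf (nat_lit 9652) (nat_lit 6) (nat_lit 127) (nat_lit 3) (nat_lit 215) (nat_lit 131) (nat_lit 224))) (PT.nd (nat_lit 78) (PT.lf (nat_lit 9728) (nat_lit 6) (nat_lit 128) (nat_lit 3) (nat_lit 216) (nat_lit 131) (nat_lit 223)) (PT.lf (nat_lit 9804) (nat_lit 6) (nat_lit 129) (nat_lit 3) (nat_lit 217) (nat_lit 131) (nat_lit 222)))) (PT.nd (nat_lit 156) (PT.nd (nat_lit 78) (PT.lf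 (nat_lit 9880) (nat_lit 6) (nat_lit 130) (nat_lit 3) (nat_lit 218) (nat_lit 131) (nat_lit 221)) (PT.lf (nat_lit 9956) (nat_lit 6) (nat_lit 131) (nat_lit 3) (nat_lit 219) (nat_lit 131) (nat_lit 220))) (PT.nd (nat_lit 78) (PT.lf (nat_lit 9956) (nat_lit 6) (nat_lit 131) (nat_lit 1) (nat_lit 220) (nat_lit 131) (nat_lit 219)) (PT.lf (nat_lit 9880) (nat_lit 6) (nat_lit 130) (nat_lit 1) (nat_lit 221) (nat_lit 131) (nat_lit 218))))) (PT.nd (nat_lit 58890) (PT.nd (nat_lit 156) (PT.nd (nat_lit 78) (PT.lf (nat_lit 9804) (nat_lit 6) (nat_lit 129) (nat_lit 1) (nat_lit 222) (nat_lit 131) (nat_lit 217)) (PT.lf (nat_lit 9728) (nat_lit 6) (nat_lit 128) (nat_lit 1) (nat_lit 223) (nat_lit 131) (nat_lit 216))) (PT.nd (nat_lit 58656) (PT.lf (nat_lit 9652) (nat_lit 6) (nat_lit 127) (nat_lit 1) (nat_lit 224) (nat_lit 131) (nat_lit 215)) (PT.lf (nat_lit 10032) (nat_lit 6) (nat_lit 132) (nat_lit 3) (nat_lit 215) (nat_lit 132) (nat_lit 223)))) (PT.nd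 (nat_lit 156) (PT.nd (nat_lit 78) (PT.lf (nat_lit 10108) (nat_lit 6) (nat_lit 133) (nat_lit 3) (nat_lit 216) (nat_lit 132) (nat_lit 222)) (PT.lf (nat_lit 10184) (nat_lit 6) (nat_lit 134) (nat_lit 3) (nat_lit 217) (nat_lit 132) (nat_lit 221))) (PT.nd (nat_lit 78) (PT.lf (nat_lit 10260) (nat_lit 6) (nat_lit 135) (nat_lit 3) (nat_lit 218) (nat_lit 132) (nat_lit 220)) (PT.lf (nat_lit 10336) (nat_lit 3) (nat_lit 136) (nat_lit 1) (nat_lit 219) (nat_lit 132) (nat_lit 219))))))) (PT.nd (nat_lit 118326) (PT.nd (nat_lit 59202) (PT.nd (nat_lit 58890) (PT.nd (nat_lit 156) (PT.nd (nat_lit 78) (PT.lf (nat_lit 10260) (nat_lit 6) (nat_lit 135) (nat_lit 1) (nat_lit 220) (nat_lit 132) (nat_lit 218)) (PT.lf (nat_lit 10184) (nat_lit 6) (nat_lit 134) (nat_lit 1) (nat_lit 221) (nat_lit 132) (nat_lit 217))) (PT.nd (nat_lit 78) (PT.lf (nat_lit 10108) (nat_lit 6) (nat_lit 133) (nat_lit 1) (nat_lit 222) (nat_lit 132) (nat_lit 216)) (PT.lf (nat_lit 10032)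 (nat_lit 6) (nat_lit 132) (nat_lit 1) (nat_lit 223) (nat_lit 132) (nat_lit 215)))) (PT.nd (nat_lit 156) (PT.nd (nat_lit 78) (PT.lf (nat_lit 10412) (nat_lit 6) (nat_lit 137) (nat_lit 3) (nat_lit 214) (nat_lit 133) (nat_lit 223)) (PT.lf (nat_lit 10488) (nat_lit 6) (nat_lit 138) (nat_lit 3) (nat_lit 215) (nat_lit 133) (nat_lit 222))) (PT.nd (nat_lit 78) (PT.lf (nat_lit 10564) (nat_lit 6) (nat_lit 139) (nat_lit 3) (nat_lit 216) (nat_lit 133) (nat_lit 221)) (PT.lf (nat_lit 10640) (nat_lit 6) (nat_lit 140) (nat_lit 3) (nat_lit 217) (nat_lit 133) (nat_lit 220))))) (PT.nd (nat_lit 312) (PT.nd (nat_lit 156) (PT.nd (nat_lit 78) (PT.lf (nat_lit 10716) (nat_lit 6) (nat_lit 141) (nat_lit 3) (nat_lit 218) (nat_lit 133) (nat_lit 219)) (PT.lf (nat_lit 10716) (nat_lit 6) (nat_lit 141) (nat_lit 1) (nat_lit 219) (nat_lit 133) (nat_lit 218))) (PT.nd (nat_lit 78) (PT.lf (nat_lit 10640) (nat_lit 6) (nat_lit 140) (nat_lit 1) (nat_lit 220) (nat_lit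 133) (nat_lit 217)) (PT.lf (nat_lit 10564) (nat_lit 6) (nat_lit 139) (nat_lit 1) (nat_lit 221) (nat_lit 133) (nat_lit 216)))) (PT.nd (nat_lit 58656) (PT.nd (nat_lit 78) (PT.lf (nat_lit 10488) (nat_lit 6) (nat_lit 138) (nat_lit 1) (nat_lit 222) (nat_lit 133) (nat_lit 215)) (PT.lf (nat_lit 10412) (nat_lit 6) (nat_lit 137) (nat_lit 1) (nat_lit 223) (nat_lit 133) (nat_lit 214))) (PT.nd (nat_lit 78) (PT.lf (nat_lit 10792) (nat_lit 6) (nat_lit 142) (nat_lit 3) (nat_lit 213) (nat_lit 134) (nat_lit 223)) (PT.lf (nat_lit 10868) (nat_lit 6) (nat_lit 143) (nat_lit 3) (nat_lit 214) (nat_lit 134) (nat_lit 222)))))) (PT.nd (nat_lit 624) (PT.nd (nat_lit 312) (PT.nd (nat_lit 156) (PT.nd (nat_lit 78) (PT.lf (nat_lit 10944) (nat_lit 6) (nat_lit 144) (nat_lit 3) (nat_lit 215) (nat_lit 134) (nat_lit 221)) (PT.lf (nat_lit 11020) (nat_lit 6) (nat_lit 145) (nat_lit 3) (nat_lit 216) (nat_lit 134) (nat_lit 220))) (PT.nd (nat_lit 78) (PT.lf (nat_lit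 11096) (nat_lit 6) (nat_lit 146) (nat_lit 3) (nat_lit 217) (nat_lit 134) (nat_lit 219)) (PT.lf (nat_lit 11172) (nat_lit 3) (nat_lit 147) (nat_lit 1) (nat_lit 218) (nat_lit 134) (nat_lit 218)))) (PT.nd (nat_lit 156) (PT.nd (nat_lit 78) (PT.lf (nat_lit 11096) (nat_lit 6) (nat_lit 146) (nat_lit 1) (nat_lit 219) (nat_lit 134) (nat_lit 217)) (PT.lf (nat_lit 11020) (nat_lit 6) (nat_lit 145) (nat_lit 1) (nat_lit 220) (nat_lit 134) (nat_lit 216))) (PT.nd (nat_lit 78) (PT.lf (nat_lit 10944) (nat_lit 6) (nat_lit 144) (nat_lit 1) (nat_lit 221) (nat_lit 134) (nat_lit 215)) (PT.lf (nat_lit 10868) (nat_lit 6) (nat_lit 143) (nat_lit 1) (nat_lit 222) (nat_lit 134) (nat_lit 214))))) (PT.nd (nat_lit 58812) (PT.nd (nat_lit 58656) (PT.nd (nat_lit 58578) (PT.lf (nat_lit 10792) (nat_lit 6) (nat_lit 142) (nat_lit 1) (nat_lit 223) (nat_lit 134) (nat_lit 213)) (PT.lf (nat_lit 11248) (nat_lit 6) (nat_lit 148) (nat_lit 3) (nat_lit 213) (nat_lit 135) (nat_lit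 222))) (PT.nd (nat_lit 78) (PT.lf (nat_lit 11324) (nat_lit 6) (nat_lit 149) (nat_lit 3) (nat_lit 214) (nat_lit 135) (nat_lit 221)) (PT.lf (nat_lit 11400) (nat_lit 6) (nat_lit 150) (nat_lit 3) (nat_lit 215) (nat_lit 135) (nat_lit 220)))) (PT.nd (nat_lit 156) (PT.nd (nat_lit 78) (PT.lf (nat_lit 11476) (nat_lit 6) (nat_lit 151) (nat_lit 3) (nat_lit 216) (nat_lit 135) (nat_lit 219)) (PT.lf (nat_lit 11552) (nat_lit 6) (nat_lit 152) (nat_lit 3) (nat_lit 217) (nat_lit 135) (nat_lit 218))) (PT.nd (nat_lit 78) (PT.lf (nat_lit 11552) (nat_lit 6) (nat_lit 152) (nat_lit 1) (nat_lit 218) (nat_lit 135) (nat_lit 217)) (PT.lf (nat_lit 11476) (nat_lit 6) (nat_lit 151) (nat_lit 1) (nat_lit 219) (nat_lit 135) (nat_lit 216))))))))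
noncomputable def pc4 : PT := (PT.nd (nat_lit 177762) (PT.nd (nat_lit 118092) (PT.nd (nat_lit 59046) (PT.nd (nat_lit 58734) (PT.nd (nat_lit 78) (PT.lf (nat_lit 11400) (nat_lit 6) (nat_lit 150) (nat_lit 1) (nat_lit 220) (nat_lit 135) (nat_lit 215)) (PT.nd (nat_lit 78) (PT.lf (nat_lit 11324) (nat_lit 6) (nat_lit 149) (nat_lit 1) (nat_lit 221) (nat_lit 135) (nat_lit 214)) (PT.lf (nat_lit 11248) (nat_lit 6) (nat_lit 148) (nat_lit 1) (nat_lit 222) (nat_lit 135) (nat_lit 213)))) (PT.nd (nat_lit 156) (PT.nd (nat_lit 78) (PT.lf (nat_lit 11628) (nat_lit 6) (nat_lit 153) (nat_lit 3) (nat_lit 212) (nat_lit 136) (nat_lit 222)) (PT.lf (nat_lit 11704) (nat_lit 6) (nat_lit 154) (nat_lit 3) (nat_lit 213) (nat_lit 136) (nat_lit 221))) (PT.nd (nat_lit 78) (PT.lf (nat_lit 11780) (nat_lit 6) (nat_lit 155) (nat_lit 3) (nat_lit 214) (nat_lit 136) (nat_lit 220)) (PT.lf (nat_lit 11856) (nat_lit 6) (nat_lit 156) (nat_lit 3) (nat_lit 215) (nat_lit 136)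 (nat_lit 219))))) (PT.nd (nat_lit 312) (PT.nd (nat_lit 156) (PT.nd (nat_lit 78) (PT.lf (nat_lit 11932) (nat_lit 6) (nat_lit 157) (nat_lit 3) (nat_lit 216) (nat_lit 136) (nat_lit 218)) (PT.lf (nat_lit 12008) (nat_lit 3) (nat_lit 158) (nat_lit 1) (nat_lit 217) (nat_lit 136) (nat_lit 217))) (PT.nd (nat_lit 78) (PT.lf (nat_lit 11932) (nat_lit 6) (nat_lit 157) (nat_lit 1) (nat_lit 218) (nat_lit 136) (nat_lit 216)) (PT.lf (nat_lit 11856) (nat_lit 6) (nat_lit 156) (nat_lit 1) (nat_lit 219) (nat_lit 136) (nat_lit 215)))) (PT.nd (nat_lit 156) (PT.nd (nat_lit 78) (PT.lf (nat_lit 11780) (nat_lit 6) (nat_lit 155) (nat_lit 1) (nat_lit 220) (nat_lit 136) (nat_lit 214)) (PT.lf (nat_lit 11704) (nat_lit 6) (nat_lit 154) (nat_lit 1) (nat_lit 221) (nat_lit 136) (nat_lit 213))) (PT.nd (nat_lit 58500) (PT.lf (nat_lit 11628) (nat_lit 6) (nat_lit 153) (nat_lit 1) (nat_lit 222) (nat_lit 136) (nat_lit 212)) (PT.lf (nat_lit 12084) (nat_lit 6) (nat_lit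 159) (nat_lit 3) (nat_lit 211) (nat_lit 137) (nat_lit 222)))))) (PT.nd (nat_lit 624) (PT.nd (nat_lit 312) (PT.nd (nat_lit 156) (PT.nd (nat_lit 78) (PT.lf (nat_lit 12160) (nat_lit 6) (nat_lit 160) (nat_lit 3) (nat_lit 212) (nat_lit 137) (nat_lit 221)) (PT.lf (nat_lit 12236) (nat_lit 6) (nat_lit 161) (nat_lit 3) (nat_lit 213) (nat_lit 137) (nat_lit 220))) (PT.nd (nat_lit 78) (PT.lf (nat_lit 12312) (nat_lit 6) (nat_lit 162) (nat_lit 3) (nat_lit 214) (nat_lit 137) (nat_lit 219)) (PT.lf (nat_lit 12388) (nat_lit 6) (nat_lit 163) (nat_lit 3) (nat_lit 215) (nat_lit 137) (nat_lit 218)))) (PT.nd (nat_lit 156) (PT.nd (nat_lit 78) (PT.lf (nat_lit 12464) (nat_lit 6) (nat_lit 164) (nat_lit 3) (nat_lit 216) (nat_lit 137) (nat_lit 217)) (PT.lf (nat_lit 12464) (nat_lit 6) (nat_lit 164) (nat_lit 1) (nat_lit 217) (nat_lit 137) (nat_lit 216))) (PT.nd (nat_lit 78) (PT.lf (nat_lit 12388) (nat_lit 6) (nat_lit 163) (nat_lit 1) (nat_lit 218) (nat_lit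 137) (nat_lit 215)) (PT.lf (nat_lit 12312) (nat_lit 6) (nat_lit 162) (nat_lit 1) (nat_lit 219) (nat_lit 137) (nat_lit 214))))) (PT.nd (nat_lit 58734) (PT.nd (nat_lit 156) (PT.nd (nat_lit 78) (PT.lf (nat_lit 12236) (nat_lit 6) (nat_lit 161) (nat_lit 1) (nat_lit 220) (nat_lit 137) (nat_lit 213)) (PT.lf (nat_lit 12160) (nat_lit 6) (nat_lit 160) (nat_lit 1) (nat_lit 221) (nat_lit 137) (nat_lit 212))) (PT.nd (nat_lit 58500) (PT.lf (nat_lit 12084) (nat_lit 6) (nat_lit 159) (nat_lit 1) (nat_lit 222) (nat_lit 137) (nat_lit 211)) (PT.lf (nat_lit 12540) (nat_lit 6) (nat_lit 165) (nat_lit 3) (nat_lit 211) (nat_lit 138) (nat_lit 221)))) (PT.nd (nat_lit 156) (PT.nd (nat_lit 78) (PT.lf (nat_lit 12616) (nat_lit 6) (nat_lit 166) (nat_lit 3) (nat_lit 212) (nat_lit 138) (nat_lit 220)) (PT.lf (nat_lit 12692) (nat_lit 6) (nat_lit 167) (nat_lit 3) (nat_lit 213) (nat_lit 138) (nat_lit 219))) (PT.nd (nat_lit 78) (PT.lf (nat_lit 12768) (nat_lit 6)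 (nat_lit 168) (nat_lit 3) (nat_lit 214) (nat_lit 138) (nat_lit 218)) (PT.lf (nat_lit 12844) (nat_lit 6) (nat_lit 169) (nat_lit 3) (nat_lit 215) (nat_lit 138) (nat_lit 217))))))) (PT.nd (nat_lit 59670) (PT.nd (nat_lit 59046) (PT.nd (nat_lit 312) (PT.nd (nat_lit 156) (PT.nd (nat_lit 78) (PT.lf (nat_lit 12920) (nat_lit 3) (nat_lit 170) (nat_lit 1) (nat_lit 216) (nat_lit 138) (nat_lit 216)) (PT.lf (nat_lit 12844) (nat_lit 6) (nat_lit 169) (nat_lit 1) (nat_lit 217) (nat_lit 138) (nat_lit 215))) (PT.nd (nat_lit 78) (PT.lf (nat_lit 12768) (nat_lit 6) (nat_lit 168) (nat_lit 1) (nat_lit 218) (nat_lit 138) (nat_lit 214)) (PT.lf (nat_lit 12692) (nat_lit 6) (nat_lit 167) (nat_lit 1) (nat_lit 219) (nat_lit 138) (nat_lit 213)))) (PT.nd (nat_lit 58578) (PT.nd (nat_lit 78) (PT.lf (nat_lit 12616) (nat_lit 6) (nat_lit 166) (nat_lit 1) (nat_lit 220) (nat_lit 138) (nat_lit 212)) (PT.lf (nat_lit 12540) (nat_lit 6) (nat_lit 165) (nat_lit 1) (nat_lit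 221) (nat_lit 138) (nat_lit 211))) (PT.nd (nat_lit 78) (PT.lf (nat_lit 12996) (nat_lit 6) (nat_lit 171) (nat_lit 3) (nat_lit 210) (nat_lit 139) (nat_lit 221)) (PT.lf (nat_lit 13072) (nat_lit 6) (nat_lit 172) (nat_lit 3) (nat_lit 211) (nat_lit 139) (nat_lit 220))))) (PT.nd (nat_lit 312) (PT.nd (nat_lit 156) (PT.nd (nat_lit 78) (PT.lf (nat_lit 13148) (nat_lit 6) (nat_lit 173) (nat_lit 3) (nat_lit 212) (nat_lit 139) (nat_lit 219)) (PT.lf (nat_lit 13224) (nat_lit 6) (nat_lit 174) (nat_lit 3) (nat_lit 213) (nat_lit 139) (nat_lit 218))) (PT.nd (nat_lit 78) (PT.lf (nat_lit 13300) (nat_lit 6) (nat_lit 175) (nat_lit 3) (nat_lit 214) (nat_lit 139) (nat_lit 217)) (PT.lf (nat_lit 13376) (nat_lit 6) (nat_lit 176) (nat_lit 3) (nat_lit 215) (nat_lit 139) (nat_lit 216)))) (PT.nd (nat_lit 156) (PT.nd (nat_lit 78) (PT.lf (nat_lit 13376) (nat_lit 6) (nat_lit 176) (nat_lit 1) (nat_lit 216) (nat_lit 139) (nat_lit 215)) (PT.lf (nat_lit 13300) (nat_lit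 6) (nat_lit 175) (nat_lit 1) (nat_lit 217) (nat_lit 139) (nat_lit 214))) (PT.nd (nat_lit 78) (PT.lf (nat_lit 13224) (nat_lit 6) (nat_lit 174) (nat_lit 1) (nat_lit 218) (nat_lit 139) (nat_lit 213)) (PT.lf (nat_lit 13148) (nat_lit 6) (nat_lit 173) (nat_lit 1) (nat_lit 219) (nat_lit 139) (nat_lit 212)))))) (PT.nd (nat_lit 58968) (PT.nd (nat_lit 58656) (PT.nd (nat_lit 58500) (PT.nd (nat_lit 78) (PT.lf (nat_lit 13072) (nat_lit 6) (nat_lit 172) (nat_lit 1) (nat_lit 220) (nat_lit 139) (nat_lit 211)) (PT.lf (nat_lit 12996) (nat_lit 6) (nat_lit 171) (nat_lit 1) (nat_lit 221) (nat_lit 139) (nat_lit 210))) (PT.nd (nat_lit 78) (PT.lf (nat_lit 13452) (nat_lit 6) (nat_lit 177) (nat_lit 3) (nat_lit 209) (nat_lit 140) (nat_lit 221)) (PT.lf (nat_lit 13528) (nat_lit 6) (nat_lit 178) (nat_lit 3) (nat_lit 210) (nat_lit 140) (nat_lit 220)))) (PT.nd (nat_lit 156) (PT.nd (nat_lit 78) (PT.lf (nat_lit 13604) (nat_lit 6) (nat_lit 179) (nat_lit 3) (nat_lit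 211) (nat_lit 140) (nat_lit 219)) (PT.lf (nat_lit 13680) (nat_lit 6) (nat_lit 180) (nat_lit 3) (nat_lit 212) (nat_lit 140) (nat_lit 218))) (PT.nd (nat_lit 78) (PT.lf (nat_lit 13756) (nat_lit 6) (nat_lit 181) (nat_lit 3) (nat_lit 213) (nat_lit 140) (nat_lit 217)) (PT.lf (nat_lit 13832) (nat_lit 6) (nat_lit 182) (nat_lit 3) (nat_lit 214) (nat_lit 140) (nat_lit 216))))) (PT.nd (nat_lit 312) (PT.nd (nat_lit 156) (PT.nd (nat_lit 78) (PT.lf (nat_lit 13908) (nat_lit 3) (nat_lit 183) (nat_lit 1) (nat_lit 215) (nat_lit 140) (nat_lit 215)) (PT.lf (nat_lit 13832) (nat_lit 6) (nat_lit 182) (nat_lit 1) (nat_lit 216) (nat_lit 140) (nat_lit 214))) (PT.nd (nat_lit 78) (PT.lf (nat_lit 13756) (nat_lit 6) (nat_lit 181) (nat_lit 1) (nat_lit 217) (nat_lit 140) (nat_lit 213)) (PT.lf (nat_lit 13680) (nat_lit 6) (nat_lit 180) (nat_lit 1) (nat_lit 218) (nat_lit 140) (nat_lit 212)))) (PT.nd (nat_lit 156) (PT.nd (nat_lit 78) (PT.lf (nat_lit 13604) (nat_lit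 6) (nat_lit 179) (nat_lit 1) (nat_lit 219) (nat_lit 140) (nat_lit 211)) (PT.lf (nat_lit 13528) (nat_lit 6) (nat_lit 178) (nat_lit 1) (nat_lit 220) (nat_lit 140) (nat_lit 210))) (PT.nd (nat_lit 58422) (PT.lf (nat_lit 13452) (nat_lit 6) (nat_lit 177) (nat_lit 1) (nat_lit 221) (nat_lit 140) (nat_lit 209)) (PT.lf (nat_lit 13984) (nat_lit 6) (nat_lit 184) (nat_lit 3) (nat_lit 209) (nat_lit 141) (nat_lit 220))))))))
noncomputable def pc5 : PT := (PT.nd (nat_lit 119028) (PT.nd (nat_lit 59514) (PT.nd (nat_lit 546) (PT.nd (nat_lit 234) (PT.nd (nat_lit 78) (PT.lf (nat_lit 14060) (nat_lit 6) (nat_lit 185) (nat_lit 3) (nat_lit 210) (nat_lit 141) (nat_lit 219)) (PT.nd (nat_lit 78) (PT.lf (nat_lit 14136) (nat_lit 6) (nat_lit 186) (nat_lit 3) (nat_lit 211) (nat_lit 141) (nat_lit 218)) (PT.lf (nat_lit 14212) (nat_lit 6) (nat_lit 187) (nat_lit 3) (nat_lit 212) (nat_lit 141) (nat_lit 217)))) (PT.nd (nat_lit 156) (PT.nd (nat_lit 78) (PT.lf (nat_lit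 14288) (nat_lit 6) (nat_lit 188) (nat_lit 3) (nat_lit 213) (nat_lit 141) (nat_lit 216)) (PT.lf (nat_lit 14364) (nat_lit 6) (nat_lit 189) (nat_lit 3) (nat_lit 214) (nat_lit 141) (nat_lit 215))) (PT.nd (nat_lit 78) (PT.lf (nat_lit 14364) (nat_lit 6) (nat_lit 189) (nat_lit 1) (nat_lit 215) (nat_lit 141) (nat_lit 214)) (PT.lf (nat_lit 14288) (nat_lit 6) (nat_lit 188) (nat_lit 1) (nat_lit 216) (nat_lit 141) (nat_lit 213))))) (PT.nd (nat_lit 58656) (PT.nd (nat_lit 156) (PT.nd (nat_lit 78) (PT.lf (nat_lit 14212) (nat_lit 6) (nat_lit 187) (nat_lit 1) (nat_lit 217) (nat_lit 141) (nat_lit 212)) (PT.lf (nat_lit 14136) (nat_lit 6) (nat_lit 186) (nat_lit 1) (nat_lit 218) (nat_lit 141) (nat_lit 211))) (PT.nd (nat_lit 78) (PT.lf (nat_lit 14060) (nat_lit 6) (nat_lit 185) (nat_lit 1) (nat_lit 219) (nat_lit 141) (nat_lit 210)) (PT.lf (nat_lit 13984) (nat_lit 6) (nat_lit 184) (nat_lit 1) (nat_lit 220) (nat_lit 141) (nat_lit 209)))) (PT.nd (nat_lit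 156) (PT.nd (nat_lit 78) (PT.lf (nat_lit 14440) (nat_lit 6) (nat_lit 190) (nat_lit 3) (nat_lit 208) (nat_lit 142) (nat_lit 220)) (PT.lf (nat_lit 14516) (nat_lit 6) (nat_lit 191) (nat_lit 3) (nat_lit 209) (nat_lit 142) (nat_lit 219))) (PT.nd (nat_lit 78) (PT.lf (nat_lit 14592) (nat_lit 6) (nat_lit 192) (nat_lit 3) (nat_lit 210) (nat_lit 142) (nat_lit 218)) (PT.lf (nat_lit 14668) (nat_lit 6) (nat_lit 193) (nat_lit 3) (nat_lit 211) (nat_lit 142) (nat_lit 217)))))) (PT.nd (nat_lit 624) (PT.nd (nat_lit 312) (PT.nd (nat_lit 156) (PT.nd (nat_lit 78) (PT.lf (nat_lit 14744) (nat_lit 6) (nat_lit 194) (nat_lit 3) (nat_lit 212) (nat_lit 142) (nat_lit 216)) (PT.lf (nat_lit 14820) (nat_lit 6) (nat_lit 195) (nat_lit 3) (nat_lit 213) (nat_lit 142) (nat_lit 215))) (PT.nd (nat_lit 78) (PT.lf (nat_lit 14896) (nat_lit 3) (nat_lit 196) (nat_lit 1) (nat_lit 214) (nat_lit 142) (nat_lit 214)) (PT.lf (nat_lit 14820) (nat_lit 6) (nat_lit 195) (nat_lit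 1) (nat_lit 215) (nat_lit 142) (nat_lit 213)))) (PT.nd (nat_lit 156) (PT.nd (nat_lit 78) (PT.lf (nat_lit 14744) (nat_lit 6) (nat_lit 194) (nat_lit 1) (nat_lit 216) (nat_lit 142) (nat_lit 212)) (PT.lf (nat_lit 14668) (nat_lit 6) (nat_lit 193) (nat_lit 1) (nat_lit 217) (nat_lit 142) (nat_lit 211))) (PT.nd (nat_lit 78) (PT.lf (nat_lit 14592) (nat_lit 6) (nat_lit 192) (nat_lit 1) (nat_lit 218) (nat_lit 142) (nat_lit 210)) (PT.lf (nat_lit 14516) (nat_lit 6) (nat_lit 191) (nat_lit 1) (nat_lit 219) (nat_lit 142) (nat_lit 209))))) (PT.nd (nat_lit 58578) (PT.nd (nat_lit 58422) (PT.nd (nat_lit 58344) (PT.lf (nat_lit 14440) (nat_lit 6) (nat_lit 190) (nat_lit 1) (nat_lit 220) (nat_lit 142) (nat_lit 208)) (PT.lf (nat_lit 14972) (nat_lit 6) (nat_lit 197) (nat_lit 3) (nat_lit 207) (nat_lit 143) (nat_lit 220))) (PT.nd (nat_lit 78) (PT.lf (nat_lit 15048) (nat_lit 6) (nat_lit 198) (nat_lit 3) (nat_lit 208) (nat_lit 143) (nat_lit 219)) (PT.lf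 (nat_lit 15124) (nat_lit 6) (nat_lit 199) (nat_lit 3) (nat_lit 209) (nat_lit 143) (nat_lit 218)))) (PT.nd (nat_lit 156) (PT.nd (nat_lit 78) (PT.lf (nat_lit 15200) (nat_lit 6) (nat_lit 200) (nat_lit 3) (nat_lit 210) (nat_lit 143) (nat_lit 217)) (PT.lf (nat_lit 15276) (nat_lit 6) (nat_lit 201) (nat_lit 3) (nat_lit 211) (nat_lit 143) (nat_lit 216))) (PT.nd (nat_lit 78) (PT.lf (nat_lit 15352) (nat_lit 6) (nat_lit 202) (nat_lit 3) (nat_lit 212) (nat_lit 143) (nat_lit 215)) (PT.lf (nat_lit 15428) (nat_lit 6) (nat_lit 203) (nat_lit 3) (nat_lit 213) (nat_lit 143) (nat_lit 214))))))) (PT.nd (nat_lit 59514) (PT.nd (nat_lit 58890) (PT.nd (nat_lit 312) (PT.nd (nat_lit 156) (PT.nd (nat_lit 78) (PT.lf (nat_lit 15428) (nat_lit 6) (nat_lit 203) (nat_lit 1) (nat_lit 214) (nat_lit 143) (nat_lit 213)) (PT.lf (nat_lit 15352) (nat_lit 6) (nat_lit 202) (nat_lit 1) (nat_lit 215) (nat_lit 143) (nat_lit 212))) (PT.nd (nat_lit 78) (PT.lf (nat_lit 15276)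 (nat_lit 6) (nat_lit 201) (nat_lit 1) (nat_lit 216) (nat_lit 143) (nat_lit 211)) (PT.lf (nat_lit 15200) (nat_lit 6) (nat_lit 200) (nat_lit 1) (nat_lit 217) (nat_lit 143) (nat_lit 210)))) (PT.nd (nat_lit 156) (PT.nd (nat_lit 78) (PT.lf (nat_lit 15124) (nat_lit 6) (nat_lit 199) (nat_lit 1) (nat_lit 218) (nat_lit 143) (nat_lit 209)) (PT.lf (nat_lit 15048) (nat_lit 6) (nat_lit 198) (nat_lit 1) (nat_lit 219) (nat_lit 143) (nat_lit 208))) (PT.nd (nat_lit 58344) (PT.lf (nat_lit 14972) (nat_lit 6) (nat_lit 197) (nat_lit 1) (nat_lit 220) (nat_lit 143) (nat_lit 207)) (PT.lf (nat_lit 15504) (nat_lit 6) (nat_lit 204) (nat_lit 3) (nat_lit 207) (nat_lit 144) (nat_lit 219))))) (PT.nd (nat_lit 312) (PT.nd (nat_lit 156) (PT.nd (nat_lit 78) (PT.lf (nat_lit 15580) (nat_lit 6) (nat_lit 205) (nat_lit 3) (nat_lit 208) (nat_lit 144) (nat_lit 218)) (PT.lf (nat_lit 15656) (nat_lit 6) (nat_lit 206) (nat_lit 3) (nat_lit 209) (nat_lit 144) (nat_lit 217)))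 (PT.nd (nat_lit 78) (PT.lf (nat_lit 15732) (nat_lit 6) (nat_lit 207) (nat_lit 3) (nat_lit 210) (nat_lit 144) (nat_lit 216)) (PT.lf (nat_lit 15808) (nat_lit 6) (nat_lit 208) (nat_lit 3) (nat_lit 211) (nat_lit 144) (nat_lit 215)))) (PT.nd (nat_lit 156) (PT.nd (nat_lit 78) (PT.lf (nat_lit 15884) (nat_lit 6) (nat_lit 209) (nat_lit 3) (nat_lit 212) (nat_lit 144) (nat_lit 214)) (PT.lf (nat_lit 15960) (nat_lit 3) (nat_lit 210) (nat_lit 1) (nat_lit 213) (nat_lit 144) (nat_lit 213))) (PT.nd (nat_lit 78) (PT.lf (nat_lit 15884) (nat_lit 6) (nat_lit 209) (nat_lit 1) (nat_lit 214) (nat_lit 144) (nat_lit 212)) (PT.lf (nat_lit 15808) (nat_lit 6) (nat_lit 208) (nat_lit 1) (nat_lit 215) (nat_lit 144) (nat_lit 211)))))) (PT.nd (nat_lit 58890) (PT.nd (nat_lit 58578) (PT.nd (nat_lit 156) (PT.nd (nat_lit 78) (PT.lf (nat_lit 15732) (nat_lit 6) (nat_lit 207) (nat_lit 1) (nat_lit 216) (nat_lit 144) (nat_lit 210)) (PT.lf (nat_lit 15656) (nat_lit 6)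 (nat_lit 206) (nat_lit 1) (nat_lit 217) (nat_lit 144) (nat_lit 209))) (PT.nd (nat_lit 78) (PT.lf (nat_lit 15580) (nat_lit 6) (nat_lit 205) (nat_lit 1) (nat_lit 218) (nat_lit 144) (nat_lit 208)) (PT.lf (nat_lit 15504) (nat_lit 6) (nat_lit 204) (nat_lit 1) (nat_lit 219) (nat_lit 144) (nat_lit 207)))) (PT.nd (nat_lit 156) (PT.nd (nat_lit 78) (PT.lf (nat_lit 16036) (nat_lit 6) (nat_lit 211) (nat_lit 3) (nat_lit 206) (nat_lit 145) (nat_lit 219)) (PT.lf (nat_lit 16112) (nat_lit 6) (nat_lit 212) (nat_lit 3) (nat_lit 207) (nat_lit 145) (nat_lit 218))) (PT.nd (nat_lit 78) (PT.lf (nat_lit 16188) (nat_lit 6) (nat_lit 213) (nat_lit 3) (nat_lit 208) (nat_lit 145) (nat_lit 217)) (PT.lf (nat_lit 16264) (nat_lit 6) (nat_lit 214) (nat_lit 3) (nat_lit 209) (nat_lit 145) (nat_lit 216))))) (PT.nd (nat_lit 312) (PT.nd (nat_lit 156) (PT.nd (nat_lit 78) (PT.lf (nat_lit 16340) (nat_lit 6) (nat_lit 215) (nat_lit 3) (nat_lit 210) (nat_lit 145) (nat_lit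 215)) (PT.lf (nat_lit 16416) (nat_lit 6) (nat_lit 216) (nat_lit 3) (nat_lit 211) (nat_lit 145) (nat_lit 214))) (PT.nd (nat_lit 78) (PT.lf (nat_lit 16492) (nat_lit 6) (nat_lit 217) (nat_lit 3) (nat_lit 212) (nat_lit 145) (nat_lit 213)) (PT.lf (nat_lit 16492) (nat_lit 6) (nat_lit 217) (nat_lit 1) (nat_lit 213) (nat_lit 145) (nat_lit 212)))) (PT.nd (nat_lit 156) (PT.nd (nat_lit 78) (PT.lf (nat_lit 16416) (nat_lit 6) (nat_lit 216) (nat_lit 1) (nat_lit 214) (nat_lit 145) (nat_lit 211)) (PT.lf (nat_lit 16340) (nat_lit 6) (nat_lit 215) (nat_lit 1) (nat_lit 215) (nat_lit 145) (nat_lit 210))) (PT.nd (nat_lit 78) (PT.lf (nat_lit 16264) (nat_lit 6) (nat_lit 214) (nat_lit 1) (nat_lit 216) (nat_lit 145) (nat_lit 209)) (PT.lf (nat_lit 16188) (nat_lit 6) (nat_lit 213) (nat_lit 1) (nat_lit 217) (nat_lit 145) (nat_lit 208))))))))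
noncomputable def pc6 : PT := (PT.nd (nat_lit 176982) (PT.nd (nat_lit 59358) (PT.nd (nat_lit 58734) (PT.nd (nat_lit 58422) (PT.nd (nat_lit 78) (PT.lf (nat_lit 16112) (nat_lit 6) (nat_lit 212) (nat_lit 1) (nat_lit 218) (nat_lit 145) (nat_lit 207)) (PT.nd (nat_lit 58266) (PT.lf (nat_lit 16036) (nat_lit 6) (nat_lit 211) (nat_lit 1) (nat_lit 219) (nat_lit 145) (nat_lit 206)) (PT.lf (nat_lit 16568) (nat_lit 6) (nat_lit 218) (nat_lit 3) (nat_lit 205) (nat_lit 146) (nat_lit 219)))) (PT.nd (nat_lit 156) (PT.nd (nat_lit 78) (PT.lf (nat_lit 16644) (nat_lit 6) (nat_lit 219) (nat_lit 3) (nat_lit 206) (nat_lit 146) (nat_lit 218)) (PT.lf (nat_lit 16720) (nat_lit 6) (nat_lit 220) (nat_lit 3) (nat_lit 207) (nat_lit 146) (nat_lit 217))) (PT.nd (nat_lit 78) (PT.lf (nat_lit 16796) (nat_lit 6) (nat_lit 221) (nat_lit 3) (nat_lit 208) (nat_lit 146) (nat_lit 216)) (PT.lf (nat_lit 16872) (nat_lit 6) (nat_lit 222) (nat_lit 3) (nat_lit 209) (nat_lit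 146) (nat_lit 215))))) (PT.nd (nat_lit 312) (PT.nd (nat_lit 156) (PT.nd (nat_lit 78) (PT.lf (nat_lit 16948) (nat_lit 6) (nat_lit 223) (nat_lit 3) (nat_lit 210) (nat_lit 146) (nat_lit 214)) (PT.lf (nat_lit 17024) (nat_lit 6) (nat_lit 224) (nat_lit 3) (nat_lit 211) (nat_lit 146) (nat_lit 213))) (PT.nd (nat_lit 78) (PT.lf (nat_lit 17100) (nat_lit 3) (nat_lit 225) (nat_lit 1) (nat_lit 212) (nat_lit 146) (nat_lit 212)) (PT.lf (nat_lit 17024) (nat_lit 6) (nat_lit 224) (nat_lit 1) (nat_lit 213) (nat_lit 146) (nat_lit 211)))) (PT.nd (nat_lit 156) (PT.nd (nat_lit 78) (PT.lf (nat_lit 16948) (nat_lit 6) (nat_lit 223) (nat_lit 1) (nat_lit 214) (nat_lit 146) (nat_lit 210)) (PT.lf (nat_lit 16872) (nat_lit 6) (nat_lit 222) (nat_lit 1) (nat_lit 215) (nat_lit 146) (nat_lit 209))) (PT.nd (nat_lit 78) (PT.lf (nat_lit 16796) (nat_lit 6) (nat_lit 221) (nat_lit 1) (nat_lit 216) (nat_lit 146) (nat_lit 208)) (PT.lf (nat_lit 16720) (nat_lit 6) (nat_lit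 220) (nat_lit 1) (nat_lit 217) (nat_lit 146) (nat_lit 207)))))) (PT.nd (nat_lit 58812) (PT.nd (nat_lit 58500) (PT.nd (nat_lit 58344) (PT.nd (nat_lit 78) (PT.lf (nat_lit 16644) (nat_lit 6) (nat_lit 219) (nat_lit 1) (nat_lit 218) (nat_lit 146) (nat_lit 206)) (PT.lf (nat_lit 16568) (nat_lit 6) (nat_lit 218) (nat_lit 1) (nat_lit 219) (nat_lit 146) (nat_lit 205))) (PT.nd (nat_lit 78) (PT.lf (nat_lit 17176) (nat_lit 6) (nat_lit 226) (nat_lit 3) (nat_lit 205) (nat_lit 147) (nat_lit 218)) (PT.lf (nat_lit 17252) (nat_lit 6) (nat_lit 227) (nat_lit 3) (nat_lit 206) (nat_lit 147) (nat_lit 217)))) (PT.nd (nat_lit 156) (PT.nd (nat_lit 78) (PT.lf (nat_lit 17328) (nat_lit 6) (nat_lit 228) (nat_lit 3) (nat_lit 207) (nat_lit 147) (nat_lit 216)) (PT.lf (nat_lit 17404) (nat_lit 6) (nat_lit 229) (nat_lit 3) (nat_lit 208) (nat_lit 147) (nat_lit 215))) (PT.nd (nat_lit 78) (PT.lf (nat_lit 17480) (nat_lit 6) (nat_lit 230) (nat_lit 3) (nat_lit 209) (nat_lit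 147) (nat_lit 214)) (PT.lf (nat_lit 17556) (nat_lit 6) (nat_lit 231) (nat_lit 3) (nat_lit 210) (nat_lit 147) (nat_lit 213))))) (PT.nd (nat_lit 312) (PT.nd (nat_lit 156) (PT.nd (nat_lit 78) (PT.lf (nat_lit 17632) (nat_lit 6) (nat_lit 232) (nat_lit 3) (nat_lit 211) (nat_lit 147) (nat_lit 212)) (PT.lf (nat_lit 17632) (nat_lit 6) (nat_lit 232) (nat_lit 1) (nat_lit 212) (nat_lit 147) (nat_lit 211))) (PT.nd (nat_lit 78) (PT.lf (nat_lit 17556) (nat_lit 6) (nat_lit 231) (nat_lit 1) (nat_lit 213) (nat_lit 147) (nat_lit 210)) (PT.lf (nat_lit 17480) (nat_lit 6) (nat_lit 230) (nat_lit 1) (nat_lit 214) (nat_lit 147) (nat_lit 209)))) (PT.nd (nat_lit 156) (PT.nd (nat_lit 78) (PT.lf (nat_lit 17404) (nat_lit 6) (nat_lit 229) (nat_lit 1) (nat_lit 215) (nat_lit 147) (nat_lit 208)) (PT.lf (nat_lit 17328) (nat_lit 6) (nat_lit 228) (nat_lit 1) (nat_lit 216) (nat_lit 147) (nat_lit 207))) (PT.nd (nat_lit 78) (PT.lf (nat_lit 17252) (nat_lit 6) (nat_lit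 227) (nat_lit 1) (nat_lit 217) (nat_lit 147) (nat_lit 206)) (PT.lf (nat_lit 17176) (nat_lit 6) (nat_lit 226) (nat_lit 1) (nat_lit 218) (nat_lit 147) (nat_lit 205))))))) (PT.nd (nat_lit 59358) (PT.nd (nat_lit 624) (PT.nd (nat_lit 312) (PT.nd (nat_lit 156) (PT.nd (nat_lit 78) (PT.lf (nat_lit 17708) (nat_lit 6) (nat_lit 233) (nat_lit 3) (nat_lit 204) (nat_lit 148) (nat_lit 218)) (PT.lf (nat_lit 17784) (nat_lit 6) (nat_lit 234) (nat_lit 3) (nat_lit 205) (nat_lit 148) (nat_lit 217))) (PT.nd (nat_lit 78) (PT.lf (nat_lit 17860) (nat_lit 6) (nat_lit 235) (nat_lit 3) (nat_lit 206) (nat_lit 148) (nat_lit 216)) (PT.lf (nat_lit 17936) (nat_lit 6) (nat_lit 236) (nat_lit 3) (nat_lit 207) (nat_lit 148) (nat_lit 215)))) (PT.nd (nat_lit 156) (PT.nd (nat_lit 78) (PT.lf (nat_lit 18012) (nat_lit 6) (nat_lit 237) (nat_lit 3) (nat_lit 208) (nat_lit 148) (nat_lit 214)) (PT.lf (nat_lit 18088) (nat_lit 6) (nat_lit 238) (nat_lit 3) (nat_lit 209) (nat_lit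 148) (nat_lit 213))) (PT.nd (nat_lit 78) (PT.lf (nat_lit 18164) (nat_lit 6) (nat_lit 239) (nat_lit 3) (nat_lit 210) (nat_lit 148) (nat_lit 212)) (PT.lf (nat_lit 18240) (nat_lit 3) (nat_lit 240) (nat_lit 1) (nat_lit 211) (nat_lit 148) (nat_lit 211))))) (PT.nd (nat_lit 312) (PT.nd (nat_lit 156) (PT.nd (nat_lit 78) (PT.lf (nat_lit 18164) (nat_lit 6) (nat_lit 239) (nat_lit 1) (nat_lit 212) (nat_lit 148) (nat_lit 210)) (PT.lf (nat_lit 18088) (nat_lit 6) (nat_lit 238) (nat_lit 1) (nat_lit 213) (nat_lit 148) (nat_lit 209))) (PT.nd (nat_lit 78) (PT.lf (nat_lit 18012) (nat_lit 6) (nat_lit 237) (nat_lit 1) (nat_lit 214) (nat_lit 148) (nat_lit 208)) (PT.lf (nat_lit 17936) (nat_lit 6) (nat_lit 236) (nat_lit 1) (nat_lit 215) (nat_lit 148) (nat_lit 207)))) (PT.nd (nat_lit 156) (PT.nd (nat_lit 78) (PT.lf (nat_lit 17860) (nat_lit 6) (nat_lit 235) (nat_lit 1) (nat_lit 216) (nat_lit 148) (nat_lit 206)) (PT.lf (nat_lit 17784) (nat_lit 6) (nat_lit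 234) (nat_lit 1) (nat_lit 217) (nat_lit 148) (nat_lit 205))) (PT.nd (nat_lit 58188) (PT.lf (nat_lit 17708) (nat_lit 6) (nat_lit 233) (nat_lit 1) (nat_lit 218) (nat_lit 148) (nat_lit 204)) (PT.lf (nat_lit 18316) (nat_lit 6) (nat_lit 241) (nat_lit 3) (nat_lit 203) (nat_lit 149) (nat_lit 218)))))) (PT.nd (nat_lit 624) (PT.nd (nat_lit 312) (PT.nd (nat_lit 156) (PT.nd (nat_lit 78) (PT.lf (nat_lit 18392) (nat_lit 6) (nat_lit 242) (nat_lit 3) (nat_lit 204) (nat_lit 149) (nat_lit 217)) (PT.lf (nat_lit 18468) (nat_lit 6) (nat_lit 243) (nat_lit 3) (nat_lit 205) (nat_lit 149) (nat_lit 216))) (PT.nd (nat_lit 78) (PT.lf (nat_lit 18544) (nat_lit 6) (nat_lit 244) (nat_lit 3) (nat_lit 206) (nat_lit 149) (nat_lit 215)) (PT.lf (nat_lit 18620) (nat_lit 6) (nat_lit 245) (nat_lit 3) (nat_lit 207) (nat_lit 149) (nat_lit 214)))) (PT.nd (nat_lit 156) (PT.nd (nat_lit 78) (PT.lf (nat_lit 18696) (nat_lit 6) (nat_lit 246) (nat_lit 3) (nat_lit 208) (nat_lit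 149) (nat_lit 213)) (PT.lf (nat_lit 18772) (nat_lit 6) (nat_lit 247) (nat_lit 3) (nat_lit 209) (nat_lit 149) (nat_lit 212))) (PT.nd (nat_lit 78) (PT.lf (nat_lit 18848) (nat_lit 6) (nat_lit 248) (nat_lit 3) (nat_lit 210) (nat_lit 149) (nat_lit 211)) (PT.lf (nat_lit 18848) (nat_lit 6) (nat_lit 248) (nat_lit 1) (nat_lit 211) (nat_lit 149) (nat_lit 210))))) (PT.nd (nat_lit 312) (PT.nd (nat_lit 156) (PT.nd (nat_lit 78) (PT.lf (nat_lit 18772) (nat_lit 6) (nat_lit 247) (nat_lit 1) (nat_lit 212) (nat_lit 149) (nat_lit 209)) (PT.lf (nat_lit 18696) (nat_lit 6) (nat_lit 246) (nat_lit 1) (nat_lit 213) (nat_lit 149) (nat_lit 208))) (PT.nd (nat_lit 78) (PT.lf (nat_lit 18620) (nat_lit 6) (nat_lit 245) (nat_lit 1) (nat_lit 214) (nat_lit 149) (nat_lit 207)) (PT.lf (nat_lit 18544) (nat_lit 6) (nat_lit 244) (nat_lit 1) (nat_lit 215) (nat_lit 149) (nat_lit 206)))) (PT.nd (nat_lit 156) (PT.nd (nat_lit 78) (PT.lf (nat_lit 18468) (nat_lit 6) (nat_lit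 243) (nat_lit 1) (nat_lit 216) (nat_lit 149) (nat_lit 205)) (PT.lf (nat_lit 18392) (nat_lit 6) (nat_lit 242) (nat_lit 1) (nat_lit 217) (nat_lit 149) (nat_lit 204))) (PT.nd (nat_lit 58188) (PT.lf (nat_lit 18316) (nat_lit 6) (nat_lit 241) (nat_lit 1) (nat_lit 218) (nat_lit 149) (nat_lit 203)) (PT.lf (nat_lit 19000) (nat_lit 6) (nat_lit 250) (nat_lit 3) (nat_lit 203) (nat_lit 150) (nat_lit 217))))))))
noncomputable def pc7 : PT := (PT.nd (nat_lit 118560) (PT.nd (nat_lit 59280) (PT.nd (nat_lit 546) (PT.nd (nat_lit 234) (PT.nd (nat_lit 78) (PT.lf (nat_lit 19076) (nat_lit 6) (nat_lit 251) (nat_lit 3) (nat_lit 204) (nat_lit 150) (nat_lit 216)) (PT.nd (nat_lit 78) (PT.lf (nat_lit 19152) (nat_lit 6) (nat_lit 252) (nat_lit 3) (nat_lit 205) (nat_lit 150) (nat_lit 215)) (PT.lf (nat_lit 19228) (nat_lit 6) (nat_lit 253) (nat_lit 3) (nat_lit 206) (nat_lit 150) (nat_lit 214)))) (PT.nd (nat_lit 156) (PT.nd (nat_lit 78) (PT.lf (nat_lit 19304)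 (nat_lit 6) (nat_lit 254) (nat_lit 3) (nat_lit 207) (nat_lit 150) (nat_lit 213)) (PT.lf (nat_lit 19380) (nat_lit 6) (nat_lit 255) (nat_lit 3) (nat_lit 208) (nat_lit 150) (nat_lit 212))) (PT.nd (nat_lit 78) (PT.lf (nat_lit 19456) (nat_lit 6) (nat_lit 256) (nat_lit 3) (nat_lit 209) (nat_lit 150) (nat_lit 211)) (PT.lf (nat_lit 19532) (nat_lit 3) (nat_lit 257) (nat_lit 1) (nat_lit 210) (nat_lit 150) (nat_lit 210))))) (PT.nd (nat_lit 312) (PT.nd (nat_lit 156) (PT.nd (nat_lit 78) (PT.lf (nat_lit 19456) (nat_lit 6) (nat_lit 256) (nat_lit 1) (nat_lit 211) (nat_lit 150) (nat_lit 209)) (PT.lf (nat_lit 19380) (nat_lit 6) (nat_lit 255) (nat_lit 1) (nat_lit 212) (nat_lit 150) (nat_lit 208))) (PT.nd (nat_lit 78) (PT.lf (nat_lit 19304) (nat_lit 6) (nat_lit 254) (nat_lit 1) (nat_lit 213) (nat_lit 150) (nat_lit 207)) (PT.lf (nat_lit 19228) (nat_lit 6) (nat_lit 253) (nat_lit 1) (nat_lit 214) (nat_lit 150) (nat_lit 206)))) (PT.nd (nat_lit 156)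 (PT.nd (nat_lit 78) (PT.lf (nat_lit 19152) (nat_lit 6) (nat_lit 252) (nat_lit 1) (nat_lit 215) (nat_lit 150) (nat_lit 205)) (PT.lf (nat_lit 19076) (nat_lit 6) (nat_lit 251) (nat_lit 1) (nat_lit 216) (nat_lit 150) (nat_lit 204))) (PT.nd (nat_lit 58188) (PT.lf (nat_lit 19000) (nat_lit 6) (nat_lit 250) (nat_lit 1) (nat_lit 217) (nat_lit 150) (nat_lit 203)) (PT.lf (nat_lit 19608) (nat_lit 6) (nat_lit 258) (nat_lit 3) (nat_lit 202) (nat_lit 151) (nat_lit 217)))))) (PT.nd (nat_lit 624) (PT.nd (nat_lit 312) (PT.nd (nat_lit 156) (PT.nd (nat_lit 78) (PT.lf (nat_lit 19684) (nat_lit 6) (nat_lit 259) (nat_lit 3) (nat_lit 203) (nat_lit 151) (nat_lit 216)) (PT.lf (nat_lit 19760) (nat_lit 6) (nat_lit 260) (nat_lit 3) (nat_lit 204) (nat_lit 151) (nat_lit 215))) (PT.nd (nat_lit 78) (PT.lf (nat_lit 19836) (nat_lit 6) (nat_lit 261) (nat_lit 3) (nat_lit 205) (nat_lit 151) (nat_lit 214)) (PT.lf (nat_lit 19912) (nat_lit 6) (nat_lit 262) (nat_lit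 3) (nat_lit 206) (nat_lit 151) (nat_lit 213)))) (PT.nd (nat_lit 156) (PT.nd (nat_lit 78) (PT.lf (nat_lit 19988) (nat_lit 6) (nat_lit 263) (nat_lit 3) (nat_lit 207) (nat_lit 151) (nat_lit 212)) (PT.lf (nat_lit 20064) (nat_lit 6) (nat_lit 264) (nat_lit 3) (nat_lit 208) (nat_lit 151) (nat_lit 211))) (PT.nd (nat_lit 78) (PT.lf (nat_lit 20140) (nat_lit 6) (nat_lit 265) (nat_lit 3) (nat_lit 209) (nat_lit 151) (nat_lit 210)) (PT.lf (nat_lit 20140) (nat_lit 6) (nat_lit 265) (nat_lit 1) (nat_lit 210) (nat_lit 151) (nat_lit 209))))) (PT.nd (nat_lit 312) (PT.nd (nat_lit 156) (PT.nd (nat_lit 78) (PT.lf (nat_lit 20064) (nat_lit 6) (nat_lit 264) (nat_lit 1) (nat_lit 211) (nat_lit 151) (nat_lit 208)) (PT.lf (nat_lit 19988) (nat_lit 6) (nat_lit 263) (nat_lit 1) (nat_lit 212) (nat_lit 151) (nat_lit 207))) (PT.nd (nat_lit 78) (PT.lf (nat_lit 19912) (nat_lit 6) (nat_lit 262) (nat_lit 1) (nat_lit 213) (nat_lit 151) (nat_lit 206)) (PT.lf (nat_lit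 19836) (nat_lit 6) (nat_lit 261) (nat_lit 1) (nat_lit 214) (nat_lit 151) (nat_lit 205)))) (PT.nd (nat_lit 156) (PT.nd (nat_lit 78) (PT.lf (nat_lit 19760) (nat_lit 6) (nat_lit 260) (nat_lit 1) (nat_lit 215) (nat_lit 151) (nat_lit 204)) (PT.lf (nat_lit 19684) (nat_lit 6) (nat_lit 259) (nat_lit 1) (nat_lit 216) (nat_lit 151) (nat_lit 203))) (PT.nd (nat_lit 58110) (PT.lf (nat_lit 19608) (nat_lit 6) (nat_lit 258) (nat_lit 1) (nat_lit 217) (nat_lit 151) (nat_lit 202)) (PT.lf (nat_lit 20216) (nat_lit 6) (nat_lit 266) (nat_lit 3) (nat_lit 201) (nat_lit 152) (nat_lit 217))))))) (PT.nd (nat_lit 59202) (PT.nd (nat_lit 624) (PT.nd (nat_lit 312) (PT.nd (nat_lit 156) (PT.nd (nat_lit 78) (PT.lf (nat_lit 20292) (nat_lit 6) (nat_lit 267) (nat_lit 3) (nat_lit 202) (nat_lit 152) (nat_lit 216)) (PT.lf (nat_lit 20368) (nat_lit 6) (nat_lit 268) (nat_lit 3) (nat_lit 203) (nat_lit 152) (nat_lit 215))) (PT.nd (nat_lit 78) (PT.lf (nat_lit 20444) (nat_lit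 6) (nat_lit 269) (nat_lit 3) (nat_lit 204) (nat_lit 152) (nat_lit 214)) (PT.lf (nat_lit 20520) (nat_lit 6) (nat_lit 270) (nat_lit 3) (nat_lit 205) (nat_lit 152) (nat_lit 213)))) (PT.nd (nat_lit 156) (PT.nd (nat_lit 78) (PT.lf (nat_lit 20596) (nat_lit 6) (nat_lit 271) (nat_lit 3) (nat_lit 206) (nat_lit 152) (nat_lit 212)) (PT.lf (nat_lit 20672) (nat_lit 6) (nat_lit 272) (nat_lit 3) (nat_lit 207) (nat_lit 152) (nat_lit 211))) (PT.nd (nat_lit 78) (PT.lf (nat_lit 20748) (nat_lit 6) (nat_lit 273) (nat_lit 3) (nat_lit 208) (nat_lit 152) (nat_lit 210)) (PT.lf (nat_lit 20824) (nat_lit 3) (nat_lit 274) (nat_lit 1) (nat_lit 209) (nat_lit 152) (nat_lit 209))))) (PT.nd (nat_lit 312) (PT.nd (nat_lit 156) (PT.nd (nat_lit 78) (PT.lf (nat_lit 20748) (nat_lit 6) (nat_lit 273) (nat_lit 1) (nat_lit 210) (nat_lit 152) (nat_lit 208)) (PT.lf (nat_lit 20672) (nat_lit 6) (nat_lit 272) (nat_lit 1) (nat_lit 211) (nat_lit 152) (nat_lit 207))) (PT.nd (nat_lit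 78) (PT.lf (nat_lit 20596) (nat_lit 6) (nat_lit 271) (nat_lit 1) (nat_lit 212) (nat_lit 152) (nat_lit 206)) (PT.lf (nat_lit 20520) (nat_lit 6) (nat_lit 270) (nat_lit 1) (nat_lit 213) (nat_lit 152) (nat_lit 205)))) (PT.nd (nat_lit 156) (PT.nd (nat_lit 78) (PT.lf (nat_lit 20444) (nat_lit 6) (nat_lit 269) (nat_lit 1) (nat_lit 214) (nat_lit 152) (nat_lit 204)) (PT.lf (nat_lit 20368) (nat_lit 6) (nat_lit 268) (nat_lit 1) (nat_lit 215) (nat_lit 152) (nat_lit 203))) (PT.nd (nat_lit 78) (PT.lf (nat_lit 20292) (nat_lit 6) (nat_lit 267) (nat_lit 1) (nat_lit 216) (nat_lit 152) (nat_lit 202)) (PT.lf (nat_lit 20216) (nat_lit 6) (nat_lit 266) (nat_lit 1) (nat_lit 217) (nat_lit 152) (nat_lit 201)))))) (PT.nd (nat_lit 624) (PT.nd (nat_lit 312) (PT.nd (nat_lit 156) (PT.nd (nat_lit 78) (PT.lf (nat_lit 20900) (nat_lit 6) (nat_lit 275) (nat_lit 3) (nat_lit 200) (nat_lit 153) (nat_lit 217)) (PT.lf (nat_lit 20976) (nat_lit 6) (nat_lit 276) (nat_lit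 3) (nat_lit 201) (nat_lit 153) (nat_lit 216))) (PT.nd (nat_lit 78) (PT.lf (nat_lit 21052) (nat_lit 6) (nat_lit 277) (nat_lit 3) (nat_lit 202) (nat_lit 153) (nat_lit 215)) (PT.lf (nat_lit 21128) (nat_lit 6) (nat_lit 278) (nat_lit 3) (nat_lit 203) (nat_lit 153) (nat_lit 214)))) (PT.nd (nat_lit 156) (PT.nd (nat_lit 78) (PT.lf (nat_lit 21204) (nat_lit 6) (nat_lit 279) (nat_lit 3) (nat_lit 204) (nat_lit 153) (nat_lit 213)) (PT.lf (nat_lit 21280) (nat_lit 6) (nat_lit 280) (nat_lit 3) (nat_lit 205) (nat_lit 153) (nat_lit 212))) (PT.nd (nat_lit 78) (PT.lf (nat_lit 21356) (nat_lit 6) (nat_lit 281) (nat_lit 3) (nat_lit 206) (nat_lit 153) (nat_lit 211)) (PT.lf (nat_lit 21432) (nat_lit 6) (nat_lit 282) (nat_lit 3) (nat_lit 207) (nat_lit 153) (nat_lit 210))))) (PT.nd (nat_lit 312) (PT.nd (nat_lit 156) (PT.nd (nat_lit 78) (PT.lf (nat_lit 21508) (nat_lit 6) (nat_lit 283) (nat_lit 3) (nat_lit 208) (nat_lit 153) (nat_lit 209)) (PT.lf (nat_lit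 21508) (nat_lit 6) (nat_lit 283) (nat_lit 1) (nat_lit 209) (nat_lit 153) (nat_lit 208))) (PT.nd (nat_lit 78) (PT.lf (nat_lit 21432) (nat_lit 6) (nat_lit 282) (nat_lit 1) (nat_lit 210) (nat_lit 153) (nat_lit 207)) (PT.lf (nat_lit 21356) (nat_lit 6) (nat_lit 281) (nat_lit 1) (nat_lit 211) (nat_lit 153) (nat_lit 206)))) (PT.nd (nat_lit 156) (PT.nd (nat_lit 78) (PT.lf (nat_lit 21280) (nat_lit 6) (nat_lit 280) (nat_lit 1) (nat_lit 212) (nat_lit 153) (nat_lit 205)) (PT.lf (nat_lit 21204) (nat_lit 6) (nat_lit 279) (nat_lit 1) (nat_lit 213) (nat_lit 153) (nat_lit 204))) (PT.nd (nat_lit 78) (PT.lf (nat_lit 21128) (nat_lit 6) (nat_lit 278) (nat_lit 1) (nat_lit 214) (nat_lit 153) (nat_lit 203)) (PT.lf (nat_lit 21052) (nat_lit 6) (nat_lit 277) (nat_lit 1) (nat_lit 215) (nat_lit 153) (nat_lit 202))))))))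
noncomputable def pc8 : PT := (PT.nd (nat_lit 118326) (PT.nd (nat_lit 59124) (PT.nd (nat_lit 58500) (PT.nd (nat_lit 58188) (PT.nd (nat_lit 78) (PT.lf (nat_lit 20976) (nat_lit 6) (nat_lit 276) (nat_lit 1) (nat_lit 216) (nat_lit 153) (nat_lit 201)) (PT.nd (nat_lit 58032) (PT.lf (nat_lit 20900) (nat_lit 6) (nat_lit 275) (nat_lit 1) (nat_lit 217) (nat_lit 153) (nat_lit 200)) (PT.lf (nat_lit 21660) (nat_lit 6) (nat_lit 285) (nat_lit 3) (nat_lit 200) (nat_lit 154) (nat_lit 216)))) (PT.nd (nat_lit 156) (PT.nd (nat_lit 78) (PT.lf (nat_lit 21736) (nat_lit 6) (nat_lit 286) (nat_lit 3) (nat_lit 201) (nat_lit 154) (nat_lit 215)) (PT.lf (nat_lit 21812) (nat_lit 6) (nat_lit 287) (nat_lit 3) (nat_lit 202) (nat_lit 154) (nat_lit 214))) (PT.nd (nat_lit 78) (PT.lf (nat_lit 21888) (nat_lit 6) (nat_lit 288) (nat_lit 3) (nat_lit 203) (nat_lit 154) (nat_lit 213)) (PT.lf (nat_lit 21964) (nat_lit 6) (nat_lit 289) (nat_lit 3) (nat_lit 204) (nat_lit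 154) (nat_lit 212))))) (PT.nd (nat_lit 312) (PT.nd (nat_lit 156) (PT.nd (nat_lit 78) (PT.lf (nat_lit 22040) (nat_lit 6) (nat_lit 290) (nat_lit 3) (nat_lit 205) (nat_lit 154) (nat_lit 211)) (PT.lf (nat_lit 22116) (nat_lit 6) (nat_lit 291) (nat_lit 3) (nat_lit 206) (nat_lit 154) (nat_lit 210))) (PT.nd (nat_lit 78) (PT.lf (nat_lit 22192) (nat_lit 6) (nat_lit 292) (nat_lit 3) (nat_lit 207) (nat_lit 154) (nat_lit 209)) (PT.lf (nat_lit 22268) (nat_lit 3) (nat_lit 293) (nat_lit 1) (nat_lit 208) (nat_lit 154) (nat_lit 208)))) (PT.nd (nat_lit 156) (PT.nd (nat_lit 78) (PT.lf (nat_lit 22192) (nat_lit 6) (nat_lit 292) (nat_lit 1) (nat_lit 209) (nat_lit 154) (nat_lit 207)) (PT.lf (nat_lit 22116) (nat_lit 6) (nat_lit 291) (nat_lit 1) (nat_lit 210) (nat_lit 154) (nat_lit 206))) (PT.nd (nat_lit 78) (PT.lf (nat_lit 22040) (nat_lit 6) (nat_lit 290) (nat_lit 1) (nat_lit 211) (nat_lit 154) (nat_lit 205)) (PT.lf (nat_lit 21964) (nat_lit 6) (nat_lit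 289) (nat_lit 1) (nat_lit 212) (nat_lit 154) (nat_lit 204)))))) (PT.nd (nat_lit 58578) (PT.nd (nat_lit 58266) (PT.nd (nat_lit 156) (PT.nd (nat_lit 78) (PT.lf (nat_lit 21888) (nat_lit 6) (nat_lit 288) (nat_lit 1) (nat_lit 213) (nat_lit 154) (nat_lit 203)) (PT.lf (nat_lit 21812) (nat_lit 6) (nat_lit 287) (nat_lit 1) (nat_lit 214) (nat_lit 154) (nat_lit 202))) (PT.nd (nat_lit 78) (PT.lf (nat_lit 21736) (nat_lit 6) (nat_lit 286) (nat_lit 1) (nat_lit 215) (nat_lit 154) (nat_lit 201)) (PT.lf (nat_lit 21660) (nat_lit 6) (nat_lit 285) (nat_lit 1) (nat_lit 216) (nat_lit 154) (nat_lit 200)))) (PT.nd (nat_lit 156) (PT.nd (nat_lit 78) (PT.lf (nat_lit 22344) (nat_lit 6) (nat_lit 294) (nat_lit 3) (nat_lit 199) (nat_lit 155) (nat_lit 216)) (PT.lf (nat_lit 22420) (nat_lit 6) (nat_lit 295) (nat_lit 3) (nat_lit 200) (nat_lit 155) (nat_lit 215))) (PT.nd (nat_lit 78) (PT.lf (nat_lit 22496) (nat_lit 6) (nat_lit 296) (nat_lit 3) (nat_lit 201) (nat_lit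 155) (nat_lit 214)) (PT.lf (nat_lit 22572) (nat_lit 6) (nat_lit 297) (nat_lit 3) (nat_lit 202) (nat_lit 155) (nat_lit 213))))) (PT.nd (nat_lit 312) (PT.nd (nat_lit 156) (PT.nd (nat_lit 78) (PT.lf (nat_lit 22648) (nat_lit 6) (nat_lit 298) (nat_lit 3) (nat_lit 203) (nat_lit 155) (nat_lit 212)) (PT.lf (nat_lit 22724) (nat_lit 6) (nat_lit 299) (nat_lit 3) (nat_lit 204) (nat_lit 155) (nat_lit 211))) (PT.nd (nat_lit 78) (PT.lf (nat_lit 22800) (nat_lit 6) (nat_lit 300) (nat_lit 3) (nat_lit 205) (nat_lit 155) (nat_lit 210)) (PT.lf (nat_lit 22876) (nat_lit 6) (nat_lit 301) (nat_lit 3) (nat_lit 206) (nat_lit 155) (nat_lit 209)))) (PT.nd (nat_lit 156) (PT.nd (nat_lit 78) (PT.lf (nat_lit 22952) (nat_lit 6) (nat_lit 302) (nat_lit 3) (nat_lit 207) (nat_lit 155) (nat_lit 208)) (PT.lf (nat_lit 22952) (nat_lit 6) (nat_lit 302) (nat_lit 1) (nat_lit 208) (nat_lit 155) (nat_lit 207))) (PT.nd (nat_lit 78) (PT.lf (nat_lit 22876) (nat_lit 6) (nat_lit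 301) (nat_lit 1) (nat_lit 209) (nat_lit 155) (nat_lit 206)) (PT.lf (nat_lit 22800) (nat_lit 6) (nat_lit 300) (nat_lit 1) (nat_lit 210) (nat_lit 155) (nat_lit 205))))))) (PT.nd (nat_lit 59046) (PT.nd (nat_lit 58422) (PT.nd (nat_lit 234) (PT.nd (nat_lit 78) (PT.lf (nat_lit 22724) (nat_lit 6) (nat_lit 299) (nat_lit 1) (nat_lit 211) (nat_lit 155) (nat_lit 204)) (PT.nd (nat_lit 78) (PT.lf (nat_lit 22648) (nat_lit 6) (nat_lit 298) (nat_lit 1) (nat_lit 212) (nat_lit 155) (nat_lit 203)) (PT.lf (nat_lit 22572) (nat_lit 6) (nat_lit 297) (nat_lit 1) (nat_lit 213) (nat_lit 155) (nat_lit 202)))) (PT.nd (nat_lit 156) (PT.nd (nat_lit 78) (PT.lf (nat_lit 22496) (nat_lit 6) (nat_lit 296) (nat_lit 1) (nat_lit 214) (nat_lit 155) (nat_lit 201)) (PT.lf (nat_lit 22420) (nat_lit 6) (nat_lit 295) (nat_lit 1) (nat_lit 215) (nat_lit 155) (nat_lit 200))) (PT.nd (nat_lit 57954) (PT.lf (nat_lit 22344) (nat_lit 6) (nat_lit 294) (nat_lit 1) (nat_lit 216)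 (nat_lit 155) (nat_lit 199)) (PT.lf (nat_lit 23028) (nat_lit 6) (nat_lit 303) (nat_lit 3) (nat_lit 198) (nat_lit 156) (nat_lit 216))))) (PT.nd (nat_lit 312) (PT.nd (nat_lit 156) (PT.nd (nat_lit 78) (PT.lf (nat_lit 23104) (nat_lit 6) (nat_lit 304) (nat_lit 3) (nat_lit 199) (nat_lit 156) (nat_lit 215)) (PT.lf (nat_lit 23180) (nat_lit 6) (nat_lit 305) (nat_lit 3) (nat_lit 200) (nat_lit 156) (nat_lit 214))) (PT.nd (nat_lit 78) (PT.lf (nat_lit 23256) (nat_lit 6) (nat_lit 306) (nat_lit 3) (nat_lit 201) (nat_lit 156) (nat_lit 213)) (PT.lf (nat_lit 23332) (nat_lit 6) (nat_lit 307) (nat_lit 3) (nat_lit 202) (nat_lit 156) (nat_lit 212)))) (PT.nd (nat_lit 156) (PT.nd (nat_lit 78) (PT.lf (nat_lit 23408) (nat_lit 6) (nat_lit 308) (nat_lit 3) (nat_lit 203) (nat_lit 156) (nat_lit 211)) (PT.lf (nat_lit 23484) (nat_lit 6) (nat_lit 309) (nat_lit 3) (nat_lit 204) (nat_lit 156) (nat_lit 210))) (PT.nd (nat_lit 78) (PT.lf (nat_lit 23560) (nat_lit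 6) (nat_lit 310) (nat_lit 3) (nat_lit 205) (nat_lit 156) (nat_lit 209)) (PT.lf (nat_lit 23636) (nat_lit 6) (nat_lit 311) (nat_lit 3) (nat_lit 206) (nat_lit 156) (nat_lit 208)))))) (PT.nd (nat_lit 624) (PT.nd (nat_lit 312) (PT.nd (nat_lit 156) (PT.nd (nat_lit 78) (PT.lf (nat_lit 23712) (nat_lit 3) (nat_lit 312) (nat_lit 1) (nat_lit 207) (nat_lit 156) (nat_lit 207)) (PT.lf (nat_lit 23636) (nat_lit 6) (nat_lit 311) (nat_lit 1) (nat_lit 208) (nat_lit 156) (nat_lit 206))) (PT.nd (nat_lit 78) (PT.lf (nat_lit 23560) (nat_lit 6) (nat_lit 310) (nat_lit 1) (nat_lit 209) (nat_lit 156) (nat_lit 205)) (PT.lf (nat_lit 23484) (nat_lit 6) (nat_lit 309) (nat_lit 1) (nat_lit 210) (nat_lit 156) (nat_lit 204)))) (PT.nd (nat_lit 156) (PT.nd (nat_lit 78) (PT.lf (nat_lit 23408) (nat_lit 6) (nat_lit 308) (nat_lit 1) (nat_lit 211) (nat_lit 156) (nat_lit 203)) (PT.lf (nat_lit 23332) (nat_lit 6) (nat_lit 307) (nat_lit 1) (nat_lit 212) (nat_lit 156) (nat_lit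 202))) (PT.nd (nat_lit 78) (PT.lf (nat_lit 23256) (nat_lit 6) (nat_lit 306) (nat_lit 1) (nat_lit 213) (nat_lit 156) (nat_lit 201)) (PT.lf (nat_lit 23180) (nat_lit 6) (nat_lit 305) (nat_lit 1) (nat_lit 214) (nat_lit 156) (nat_lit 200))))) (PT.nd (nat_lit 58110) (PT.nd (nat_lit 57954) (PT.nd (nat_lit 78) (PT.lf (nat_lit 23104) (nat_lit 6) (nat_lit 304) (nat_lit 1) (nat_lit 215) (nat_lit 156) (nat_lit 199)) (PT.lf (nat_lit 23028) (nat_lit 6) (nat_lit 303) (nat_lit 1) (nat_lit 216) (nat_lit 156) (nat_lit 198))) (PT.nd (nat_lit 78) (PT.lf (nat_lit 23788) (nat_lit 6) (nat_lit 313) (nat_lit 3) (nat_lit 197) (nat_lit 157) (nat_lit 216)) (PT.lf (nat_lit 23864) (nat_lit 6) (nat_lit 314) (nat_lit 3) (nat_lit 198) (nat_lit 157) (nat_lit 215)))) (PT.nd (nat_lit 156) (PT.nd (nat_lit 78) (PT.lf (nat_lit 23940) (nat_lit 6) (nat_lit 315) (nat_lit 3) (nat_lit 199) (nat_lit 157) (nat_lit 214)) (PT.lf (nat_lit 24016) (nat_lit 6) (nat_lit 316) (nat_lit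 3) (nat_lit 200) (nat_lit 157) (nat_lit 213))) (PT.nd (nat_lit 78) (PT.lf (nat_lit 24092) (nat_lit 6) (nat_lit 317) (nat_lit 3) (nat_lit 201) (nat_lit 157) (nat_lit 212)) (PT.lf (nat_lit 24168) (nat_lit 6) (nat_lit 318) (nat_lit 3) (nat_lit 202) (nat_lit 157) (nat_lit 211))))))))
noncomputable def pc9 : PT := (PT.nd (nat_lit 60138) (PT.nd (nat_lit 58890) (PT.nd (nat_lit 546) (PT.nd (nat_lit 234) (PT.nd (nat_lit 78) (PT.lf (nat_lit 24244) (nat_lit 6) (nat_lit 319) (nat_lit 3) (nat_lit 203) (nat_lit 157) (nat_lit 210)) (PT.nd (nat_lit 78) (PT.lf (nat_lit 24320) (nat_lit 6) (nat_lit 320) (nat_lit 3) (nat_lit 204) (nat_lit 157) (nat_lit 209)) (PT.lf (nat_lit 24396) (nat_lit 6) (nat_lit 321) (nat_lit 3) (nat_lit 205) (nat_lit 157) (nat_lit 208)))) (PT.nd (nat_lit 156) (PT.nd (nat_lit 78) (PT.lf (nat_lit 24472) (nat_lit 6) (nat_lit 322) (nat_lit 3) (nat_lit 206) (nat_lit 157) (nat_lit 207)) (PT.lf (nat_lit 24472) (nat_lit 6) (nat_lit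 322) (nat_lit 1) (nat_lit 207) (nat_lit 157) (nat_lit 206))) (PT.nd (nat_lit 78) (PT.lf (nat_lit 24396) (nat_lit 6) (nat_lit 321) (nat_lit 1) (nat_lit 208) (nat_lit 157) (nat_lit 205)) (PT.lf (nat_lit 24320) (nat_lit 6) (nat_lit 320) (nat_lit 1) (nat_lit 209) (nat_lit 157) (nat_lit 204))))) (PT.nd (nat_lit 312) (PT.nd (nat_lit 156) (PT.nd (nat_lit 78) (PT.lf (nat_lit 24244) (nat_lit 6) (nat_lit 319) (nat_lit 1) (nat_lit 210) (nat_lit 157) (nat_lit 203)) (PT.lf (nat_lit 24168) (nat_lit 6) (nat_lit 318) (nat_lit 1) (nat_lit 211) (nat_lit 157) (nat_lit 202))) (PT.nd (nat_lit 78) (PT.lf (nat_lit 24092) (nat_lit 6) (nat_lit 317) (nat_lit 1) (nat_lit 212) (nat_lit 157) (nat_lit 201)) (PT.lf (nat_lit 24016) (nat_lit 6) (nat_lit 316) (nat_lit 1) (nat_lit 213) (nat_lit 157) (nat_lit 200)))) (PT.nd (nat_lit 156) (PT.nd (nat_lit 78) (PT.lf (nat_lit 23940) (nat_lit 6) (nat_lit 315) (nat_lit 1) (nat_lit 214) (nat_lit 157) (nat_lit 199))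 (PT.lf (nat_lit 23864) (nat_lit 6) (nat_lit 314) (nat_lit 1) (nat_lit 215) (nat_lit 157) (nat_lit 198))) (PT.nd (nat_lit 57798) (PT.lf (nat_lit 23788) (nat_lit 6) (nat_lit 313) (nat_lit 1) (nat_lit 216) (nat_lit 157) (nat_lit 197)) (PT.lf (nat_lit 24548) (nat_lit 6) (nat_lit 323) (nat_lit 3) (nat_lit 196) (nat_lit 158) (nat_lit 216)))))) (PT.nd (nat_lit 624) (PT.nd (nat_lit 312) (PT.nd (nat_lit 156) (PT.nd (nat_lit 78) (PT.lf (nat_lit 24624) (nat_lit 6) (nat_lit 324) (nat_lit 3) (nat_lit 197) (nat_lit 158) (nat_lit 215)) (PT.lf (nat_lit 24700) (nat_lit 6) (nat_lit 325) (nat_lit 3) (nat_lit 198) (nat_lit 158) (nat_lit 214))) (PT.nd (nat_lit 78) (PT.lf (nat_lit 24776) (nat_lit 6) (nat_lit 326) (nat_lit 3) (nat_lit 199) (nat_lit 158) (nat_lit 213)) (PT.lf (nat_lit 24852) (nat_lit 6) (nat_lit 327) (nat_lit 3) (nat_lit 200) (nat_lit 158) (nat_lit 212)))) (PT.nd (nat_lit 156) (PT.nd (nat_lit 78) (PT.lf (nat_lit 24928) (nat_lit 6)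 (nat_lit 328) (nat_lit 3) (nat_lit 201) (nat_lit 158) (nat_lit 211)) (PT.lf (nat_lit 25004) (nat_lit 6) (nat_lit 329) (nat_lit 3) (nat_lit 202) (nat_lit 158) (nat_lit 210))) (PT.nd (nat_lit 78) (PT.lf (nat_lit 25080) (nat_lit 6) (nat_lit 330) (nat_lit 3) (nat_lit 203) (nat_lit 158) (nat_lit 209)) (PT.lf (nat_lit 25156) (nat_lit 6) (nat_lit 331) (nat_lit 3) (nat_lit 204) (nat_lit 158) (nat_lit 208))))) (PT.nd (nat_lit 312) (PT.nd (nat_lit 156) (PT.nd (nat_lit 78) (PT.lf (nat_lit 25232) (nat_lit 6) (nat_lit 332) (nat_lit 3) (nat_lit 205) (nat_lit 158) (nat_lit 207)) (PT.lf (nat_lit 25308) (nat_lit 3) (nat_lit 333) (nat_lit 1) (nat_lit 206) (nat_lit 158) (nat_lit 206))) (PT.nd (nat_lit 78) (PT.lf (nat_lit 25232) (nat_lit 6) (nat_lit 332) (nat_lit 1) (nat_lit 207) (nat_lit 158) (nat_lit 205)) (PT.lf (nat_lit 25156) (nat_lit 6) (nat_lit 331) (nat_lit 1) (nat_lit 208) (nat_lit 158) (nat_lit 204)))) (PT.nd (nat_lit 156) (PT.nd (nat_lit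 78) (PT.lf (nat_lit 25080) (nat_lit 6) (nat_lit 330) (nat_lit 1) (nat_lit 209) (nat_lit 158) (nat_lit 203)) (PT.lf (nat_lit 25004) (nat_lit 6) (nat_lit 329) (nat_lit 1) (nat_lit 210) (nat_lit 158) (nat_lit 202))) (PT.nd (nat_lit 78) (PT.lf (nat_lit 24928) (nat_lit 6) (nat_lit 328) (nat_lit 1) (nat_lit 211) (nat_lit 158) (nat_lit 201)) (PT.lf (nat_lit 24852) (nat_lit 6) (nat_lit 327) (nat_lit 1) (nat_lit 212) (nat_lit 158) (nat_lit 200))))))) (PT.nd (nat_lit 58968) (PT.nd (nat_lit 58344) (PT.nd (nat_lit 58032) (PT.nd (nat_lit 156) (PT.nd (nat_lit 78) (PT.lf (nat_lit 24776) (nat_lit 6) (nat_lit 326) (nat_lit 1) (nat_lit 213) (nat_lit 158) (nat_lit 199)) (PT.lf (nat_lit 24700) (nat_lit 6) (nat_lit 325) (nat_lit 1) (nat_lit 214) (nat_lit 158) (nat_lit 198))) (PT.nd (nat_lit 78) (PT.lf (nat_lit 24624) (nat_lit 6) (nat_lit 324) (nat_lit 1) (nat_lit 215) (nat_lit 158) (nat_lit 197)) (PT.lf (nat_lit 24548) (nat_lit 6) (nat_lit 323)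 (nat_lit 1) (nat_lit 216) (nat_lit 158) (nat_lit 196)))) (PT.nd (nat_lit 156) (PT.nd (nat_lit 78) (PT.lf (nat_lit 25384) (nat_lit 6) (nat_lit 334) (nat_lit 3) (nat_lit 196) (nat_lit 159) (nat_lit 215)) (PT.lf (nat_lit 25460) (nat_lit 6) (nat_lit 335) (nat_lit 3) (nat_lit 197) (nat_lit 159) (nat_lit 214))) (PT.nd (nat_lit 78) (PT.lf (nat_lit 25536) (nat_lit 6) (nat_lit 336) (nat_lit 3) (nat_lit 198) (nat_lit 159) (nat_lit 213)) (PT.lf (nat_lit 25612) (nat_lit 6) (nat_lit 337) (nat_lit 3) (nat_lit 199) (nat_lit 159) (nat_lit 212))))) (PT.nd (nat_lit 312) (PT.nd (nat_lit 156) (PT.nd (nat_lit 78) (PT.lf (nat_lit 25688) (nat_lit 6) (nat_lit 338) (nat_lit 3) (nat_lit 200) (nat_lit 159) (nat_lit 211)) (PT.lf (nat_lit 25764) (nat_lit 6) (nat_lit 339) (nat_lit 3) (nat_lit 201) (nat_lit 159) (nat_lit 210))) (PT.nd (nat_lit 78) (PT.lf (nat_lit 25840) (nat_lit 6) (nat_lit 340) (nat_lit 3) (nat_lit 202) (nat_lit 159) (nat_lit 209)) (PT.lf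 (nat_lit 25916) (nat_lit 6) (nat_lit 341) (nat_lit 3) (nat_lit 203) (nat_lit 159) (nat_lit 208)))) (PT.nd (nat_lit 156) (PT.nd (nat_lit 78) (PT.lf (nat_lit 25992) (nat_lit 6) (nat_lit 342) (nat_lit 3) (nat_lit 204) (nat_lit 159) (nat_lit 207)) (PT.lf (nat_lit 26068) (nat_lit 6) (nat_lit 343) (nat_lit 3) (nat_lit 205) (nat_lit 159) (nat_lit 206))) (PT.nd (nat_lit 78) (PT.lf (nat_lit 26068) (nat_lit 6) (nat_lit 343) (nat_lit 1) (nat_lit 206) (nat_lit 159) (nat_lit 205)) (PT.lf (nat_lit 25992) (nat_lit 6) (nat_lit 342) (nat_lit 1) (nat_lit 207) (nat_lit 159) (nat_lit 204)))))) (PT.nd (nat_lit 58344) (PT.nd (nat_lit 312) (PT.nd (nat_lit 156) (PT.nd (nat_lit 78) (PT.lf (nat_lit 25916) (nat_lit 6) (nat_lit 341) (nat_lit 1) (nat_lit 208) (nat_lit 159) (nat_lit 203)) (PT.lf (nat_lit 25840) (nat_lit 6) (nat_lit 340) (nat_lit 1) (nat_lit 209) (nat_lit 159) (nat_lit 202))) (PT.nd (nat_lit 78) (PT.lf (nat_lit 25764) (nat_lit 6) (nat_lit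 339) (nat_lit 1) (nat_lit 210) (nat_lit 159) (nat_lit 201)) (PT.lf (nat_lit 25688) (nat_lit 6) (nat_lit 338) (nat_lit 1) (nat_lit 211) (nat_lit 159) (nat_lit 200)))) (PT.nd (nat_lit 156) (PT.nd (nat_lit 78) (PT.lf (nat_lit 25612) (nat_lit 6) (nat_lit 337) (nat_lit 1) (nat_lit 212) (nat_lit 159) (nat_lit 199)) (PT.lf (nat_lit 25536) (nat_lit 6) (nat_lit 336) (nat_lit 1) (nat_lit 213) (nat_lit 159) (nat_lit 198))) (PT.nd (nat_lit 78) (PT.lf (nat_lit 25460) (nat_lit 6) (nat_lit 335) (nat_lit 1) (nat_lit 214) (nat_lit 159) (nat_lit 197)) (PT.lf (nat_lit 25384) (nat_lit 6) (nat_lit 334) (nat_lit 1) (nat_lit 215) (nat_lit 159) (nat_lit 196))))) (PT.nd (nat_lit 312) (PT.nd (nat_lit 156) (PT.nd (nat_lit 78) (PT.lf (nat_lit 26144) (nat_lit 6) (nat_lit 344) (nat_lit 3) (nat_lit 195) (nat_lit 160) (nat_lit 215)) (PT.lf (nat_lit 26220) (nat_lit 6) (nat_lit 345) (nat_lit 3) (nat_lit 196) (nat_lit 160) (nat_lit 214))) (PT.nd (nat_lit 78)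 (PT.lf (nat_lit 26296) (nat_lit 6) (nat_lit 346) (nat_lit 3) (nat_lit 197) (nat_lit 160) (nat_lit 213)) (PT.lf (nat_lit 26372) (nat_lit 6) (nat_lit 347) (nat_lit 3) (nat_lit 198) (nat_lit 160) (nat_lit 212)))) (PT.nd (nat_lit 156) (PT.nd (nat_lit 78) (PT.lf (nat_lit 26448) (nat_lit 6) (nat_lit 348) (nat_lit 3) (nat_lit 199) (nat_lit 160) (nat_lit 211)) (PT.lf (nat_lit 26524) (nat_lit 6) (nat_lit 349) (nat_lit 3) (nat_lit 200) (nat_lit 160) (nat_lit 210))) (PT.nd (nat_lit 78) (PT.lf (nat_lit 26600) (nat_lit 6) (nat_lit 350) (nat_lit 3) (nat_lit 201) (nat_lit 160) (nat_lit 209)) (PT.lf (nat_lit 26676) (nat_lit 6) (nat_lit 351) (nat_lit 3) (nat_lit 202) (nat_lit 160) (nat_lit 208))))))))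
noncomputable def pc10 : PT := (PT.nd (nat_lit 60060) (PT.nd (nat_lit 58812) (PT.nd (nat_lit 546) (PT.nd (nat_lit 234) (PT.nd (nat_lit 78) (PT.lf (nat_lit 26752) (nat_lit 6) (nat_lit 352) (nat_lit 3) (nat_lit 203) (nat_lit 160) (nat_lit 207)) (PT.nd (nat_lit 78) (PT.lf (nat_lit 26828) (nat_lit 6) (nat_lit 353) (nat_lit 3) (nat_lit 204) (nat_lit 160) (nat_lit 206)) (PT.lf (nat_lit 26904) (nat_lit 3) (nat_lit 354) (nat_lit 1) (nat_lit 205) (nat_lit 160) (nat_lit 205)))) (PT.nd (nat_lit 156) (PT.nd (nat_lit 78) (PT.lf (nat_lit 26828) (nat_lit 6) (nat_lit 353) (nat_lit 1) (nat_lit 206) (nat_lit 160) (nat_lit 204)) (PT.lf (nat_lit 26752) (nat_lit 6) (nat_lit 352) (nat_lit 1) (nat_lit 207) (nat_lit 160) (nat_lit 203))) (PT.nd (nat_lit 78) (PT.lf (nat_lit 26676) (nat_lit 6) (nat_lit 351) (nat_lit 1) (nat_lit 208) (nat_lit 160) (nat_lit 202)) (PT.lf (nat_lit 26600) (nat_lit 6) (nat_lit 350) (nat_lit 1) (nat_lit 209) (nat_lit 160) (nat_lit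 201))))) (PT.nd (nat_lit 312) (PT.nd (nat_lit 156) (PT.nd (nat_lit 78) (PT.lf (nat_lit 26524) (nat_lit 6) (nat_lit 349) (nat_lit 1) (nat_lit 210) (nat_lit 160) (nat_lit 200)) (PT.lf (nat_lit 26448) (nat_lit 6) (nat_lit 348) (nat_lit 1) (nat_lit 211) (nat_lit 160) (nat_lit 199))) (PT.nd (nat_lit 78) (PT.lf (nat_lit 26372) (nat_lit 6) (nat_lit 347) (nat_lit 1) (nat_lit 212) (nat_lit 160) (nat_lit 198)) (PT.lf (nat_lit 26296) (nat_lit 6) (nat_lit 346) (nat_lit 1) (nat_lit 213) (nat_lit 160) (nat_lit 197)))) (PT.nd (nat_lit 57798) (PT.nd (nat_lit 78) (PT.lf (nat_lit 26220) (nat_lit 6) (nat_lit 345) (nat_lit 1) (nat_lit 214) (nat_lit 160) (nat_lit 196)) (PT.lf (nat_lit 26144) (nat_lit 6) (nat_lit 344) (nat_lit 1) (nat_lit 215) (nat_lit 160) (nat_lit 195))) (PT.nd (nat_lit 78) (PT.lf (nat_lit 26980) (nat_lit 6) (nat_lit 355) (nat_lit 3) (nat_lit 194) (nat_lit 161) (nat_lit 215)) (PT.lf (nat_lit 27056) (nat_lit 6) (nat_lit 356) (nat_lit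 3) (nat_lit 195) (nat_lit 161) (nat_lit 214)))))) (PT.nd (nat_lit 624) (PT.nd (nat_lit 312) (PT.nd (nat_lit 156) (PT.nd (nat_lit 78) (PT.lf (nat_lit 27132) (nat_lit 6) (nat_lit 357) (nat_lit 3) (nat_lit 196) (nat_lit 161) (nat_lit 213)) (PT.lf (nat_lit 27208) (nat_lit 6) (nat_lit 358) (nat_lit 3) (nat_lit 197) (nat_lit 161) (nat_lit 212))) (PT.nd (nat_lit 78) (PT.lf (nat_lit 27284) (nat_lit 6) (nat_lit 359) (nat_lit 3) (nat_lit 198) (nat_lit 161) (nat_lit 211)) (PT.lf (nat_lit 27360) (nat_lit 6) (nat_lit 360) (nat_lit 3) (nat_lit 199) (nat_lit 161) (nat_lit 210)))) (PT.nd (nat_lit 156) (PT.nd (nat_lit 78) (PT.lf (nat_lit 27436) (nat_lit 6) (nat_lit 361) (nat_lit 3) (nat_lit 200) (nat_lit 161) (nat_lit 209)) (PT.lf (nat_lit 27512) (nat_lit 6) (nat_lit 362) (nat_lit 3) (nat_lit 201) (nat_lit 161) (nat_lit 208))) (PT.nd (nat_lit 78) (PT.lf (nat_lit 27588) (nat_lit 6) (nat_lit 363) (nat_lit 3) (nat_lit 202) (nat_lit 161) (nat_lit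 207)) (PT.lf (nat_lit 27664) (nat_lit 6) (nat_lit 364) (nat_lit 3) (nat_lit 203) (nat_lit 161) (nat_lit 206))))) (PT.nd (nat_lit 312) (PT.nd (nat_lit 156) (PT.nd (nat_lit 78) (PT.lf (nat_lit 27740) (nat_lit 6) (nat_lit 365) (nat_lit 3) (nat_lit 204) (nat_lit 161) (nat_lit 205)) (PT.lf (nat_lit 27740) (nat_lit 6) (nat_lit 365) (nat_lit 1) (nat_lit 205) (nat_lit 161) (nat_lit 204))) (PT.nd (nat_lit 78) (PT.lf (nat_lit 27664) (nat_lit 6) (nat_lit 364) (nat_lit 1) (nat_lit 206) (nat_lit 161) (nat_lit 203)) (PT.lf (nat_lit 27588) (nat_lit 6) (nat_lit 363) (nat_lit 1) (nat_lit 207) (nat_lit 161) (nat_lit 202)))) (PT.nd (nat_lit 156) (PT.nd (nat_lit 78) (PT.lf (nat_lit 27512) (nat_lit 6) (nat_lit 362) (nat_lit 1) (nat_lit 208) (nat_lit 161) (nat_lit 201)) (PT.lf (nat_lit 27436) (nat_lit 6) (nat_lit 361) (nat_lit 1) (nat_lit 209) (nat_lit 161) (nat_lit 200))) (PT.nd (nat_lit 78) (PT.lf (nat_lit 27360) (nat_lit 6) (nat_lit 360) (nat_lit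 1) (nat_lit 210) (nat_lit 161) (nat_lit 199)) (PT.lf (nat_lit 27284) (nat_lit 6) (nat_lit 359) (nat_lit 1) (nat_lit 211) (nat_lit 161) (nat_lit 198))))))) (PT.nd (nat_lit 58812) (PT.nd (nat_lit 58188) (PT.nd (nat_lit 57876) (PT.nd (nat_lit 156) (PT.nd (nat_lit 78) (PT.lf (nat_lit 27208) (nat_lit 6) (nat_lit 358) (nat_lit 1) (nat_lit 212) (nat_lit 161) (nat_lit 197)) (PT.lf (nat_lit 27132) (nat_lit 6) (nat_lit 357) (nat_lit 1) (nat_lit 213) (nat_lit 161) (nat_lit 196))) (PT.nd (nat_lit 78) (PT.lf (nat_lit 27056) (nat_lit 6) (nat_lit 356) (nat_lit 1) (nat_lit 214) (nat_lit 161) (nat_lit 195)) (PT.lf (nat_lit 26980) (nat_lit 6) (nat_lit 355) (nat_lit 1) (nat_lit 215) (nat_lit 161) (nat_lit 194)))) (PT.nd (nat_lit 156) (PT.nd (nat_lit 78) (PT.lf (nat_lit 27816) (nat_lit 6) (nat_lit 366) (nat_lit 3) (nat_lit 193) (nat_lit 162) (nat_lit 215)) (PT.lf (nat_lit 27892) (nat_lit 6) (nat_lit 367) (nat_lit 3) (nat_lit 194) (nat_lit 162)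 (nat_lit 214))) (PT.nd (nat_lit 78) (PT.lf (nat_lit 27968) (nat_lit 6) (nat_lit 368) (nat_lit 3) (nat_lit 195) (nat_lit 162) (nat_lit 213)) (PT.lf (nat_lit 28044) (nat_lit 6) (nat_lit 369) (nat_lit 3) (nat_lit 196) (nat_lit 162) (nat_lit 212))))) (PT.nd (nat_lit 312) (PT.nd (nat_lit 156) (PT.nd (nat_lit 78) (PT.lf (nat_lit 28120) (nat_lit 6) (nat_lit 370) (nat_lit 3) (nat_lit 197) (nat_lit 162) (nat_lit 211)) (PT.lf (nat_lit 28196) (nat_lit 6) (nat_lit 371) (nat_lit 3) (nat_lit 198) (nat_lit 162) (nat_lit 210))) (PT.nd (nat_lit 78) (PT.lf (nat_lit 28272) (nat_lit 6) (nat_lit 372) (nat_lit 3) (nat_lit 199) (nat_lit 162) (nat_lit 209)) (PT.lf (nat_lit 28348) (nat_lit 6) (nat_lit 373) (nat_lit 3) (nat_lit 200) (nat_lit 162) (nat_lit 208)))) (PT.nd (nat_lit 156) (PT.nd (nat_lit 78) (PT.lf (nat_lit 28424) (nat_lit 6) (nat_lit 374) (nat_lit 3) (nat_lit 201) (nat_lit 162) (nat_lit 207)) (PT.lf (nat_lit 28500) (nat_lit 6) (nat_lit 375)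 (nat_lit 3) (nat_lit 202) (nat_lit 162) (nat_lit 206))) (PT.nd (nat_lit 78) (PT.lf (nat_lit 28576) (nat_lit 6) (nat_lit 376) (nat_lit 3) (nat_lit 203) (nat_lit 162) (nat_lit 205)) (PT.lf (nat_lit 28652) (nat_lit 3) (nat_lit 377) (nat_lit 1) (nat_lit 204) (nat_lit 162) (nat_lit 204)))))) (PT.nd (nat_lit 624) (PT.nd (nat_lit 312) (PT.nd (nat_lit 156) (PT.nd (nat_lit 78) (PT.lf (nat_lit 28576) (nat_lit 6) (nat_lit 376) (nat_lit 1) (nat_lit 205) (nat_lit 162) (nat_lit 203)) (PT.lf (nat_lit 28500) (nat_lit 6) (nat_lit 375) (nat_lit 1) (nat_lit 206) (nat_lit 162) (nat_lit 202))) (PT.nd (nat_lit 78) (PT.lf (nat_lit 28424) (nat_lit 6) (nat_lit 374) (nat_lit 1) (nat_lit 207) (nat_lit 162) (nat_lit 201)) (PT.lf (nat_lit 28348) (nat_lit 6) (nat_lit 373) (nat_lit 1) (nat_lit 208) (nat_lit 162) (nat_lit 200)))) (PT.nd (nat_lit 156) (PT.nd (nat_lit 78) (PT.lf (nat_lit 28272) (nat_lit 6) (nat_lit 372) (nat_lit 1) (nat_lit 209) (nat_lit 162)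 (nat_lit 199)) (PT.lf (nat_lit 28196) (nat_lit 6) (nat_lit 371) (nat_lit 1) (nat_lit 210) (nat_lit 162) (nat_lit 198))) (PT.nd (nat_lit 78) (PT.lf (nat_lit 28120) (nat_lit 6) (nat_lit 370) (nat_lit 1) (nat_lit 211) (nat_lit 162) (nat_lit 197)) (PT.lf (nat_lit 28044) (nat_lit 6) (nat_lit 369) (nat_lit 1) (nat_lit 212) (nat_lit 162) (nat_lit 196))))) (PT.nd (nat_lit 57798) (PT.nd (nat_lit 156) (PT.nd (nat_lit 78) (PT.lf (nat_lit 27968) (nat_lit 6) (nat_lit 368) (nat_lit 1) (nat_lit 213) (nat_lit 162) (nat_lit 195)) (PT.lf (nat_lit 27892) (nat_lit 6) (nat_lit 367) (nat_lit 1) (nat_lit 214) (nat_lit 162) (nat_lit 194))) (PT.nd (nat_lit 57564) (PT.lf (nat_lit 27816) (nat_lit 6) (nat_lit 366) (nat_lit 1) (nat_lit 215) (nat_lit 162) (nat_lit 193)) (PT.lf (nat_lit 28728) (nat_lit 6) (nat_lit 378) (nat_lit 3) (nat_lit 192) (nat_lit 163) (nat_lit 215)))) (PT.nd (nat_lit 156) (PT.nd (nat_lit 78) (PT.lf (nat_lit 28804) (nat_lit 6) (nat_lit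 379) (nat_lit 3) (nat_lit 193) (nat_lit 163) (nat_lit 214)) (PT.lf (nat_lit 28880) (nat_lit 6) (nat_lit 380) (nat_lit 3) (nat_lit 194) (nat_lit 163) (nat_lit 213))) (PT.nd (nat_lit 78) (PT.lf (nat_lit 28956) (nat_lit 6) (nat_lit 381) (nat_lit 3) (nat_lit 195) (nat_lit 163) (nat_lit 212)) (PT.lf (nat_lit 29032) (nat_lit 6) (nat_lit 382) (nat_lit 3) (nat_lit 196) (nat_lit 163) (nat_lit 211))))))))
noncomputable def pc11 : PT := (PT.nd (nat_lit 59904) (PT.nd (nat_lit 1170) (PT.nd (nat_lit 546) (PT.nd (nat_lit 234) (PT.nd (nat_lit 78) (PT.lf (nat_lit 29108) (nat_lit 6) (nat_lit 383) (nat_lit 3) (nat_lit 197) (nat_lit 163) (nat_lit 210)) (PT.nd (nat_lit 78) (PT.lf (nat_lit 29184) (nat_lit 6) (nat_lit 384) (nat_lit 3) (nat_lit 198) (nat_lit 163) (nat_lit 209)) (PT.lf (nat_lit 29260) (nat_lit 6) (nat_lit 385) (nat_lit 3) (nat_lit 199) (nat_lit 163) (nat_lit 208)))) (PT.nd (nat_lit 156) (PT.nd (nat_lit 78) (PT.lf (nat_lit 29336) (nat_lit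 6) (nat_lit 386) (nat_lit 3) (nat_lit 200) (nat_lit 163) (nat_lit 207)) (PT.lf (nat_lit 29412) (nat_lit 6) (nat_lit 387) (nat_lit 3) (nat_lit 201) (nat_lit 163) (nat_lit 206))) (PT.nd (nat_lit 78) (PT.lf (nat_lit 29488) (nat_lit 6) (nat_lit 388) (nat_lit 3) (nat_lit 202) (nat_lit 163) (nat_lit 205)) (PT.lf (nat_lit 29564) (nat_lit 6) (nat_lit 389) (nat_lit 3) (nat_lit 203) (nat_lit 163) (nat_lit 204))))) (PT.nd (nat_lit 312) (PT.nd (nat_lit 156) (PT.nd (nat_lit 78) (PT.lf (nat_lit 29564) (nat_lit 6) (nat_lit 389) (nat_lit 1) (nat_lit 204) (nat_lit 163) (nat_lit 203)) (PT.lf (nat_lit 29488) (nat_lit 6) (nat_lit 388) (nat_lit 1) (nat_lit 205) (nat_lit 163) (nat_lit 202))) (PT.nd (nat_lit 78) (PT.lf (nat_lit 29412) (nat_lit 6) (nat_lit 387) (nat_lit 1) (nat_lit 206) (nat_lit 163) (nat_lit 201)) (PT.lf (nat_lit 29336) (nat_lit 6) (nat_lit 386) (nat_lit 1) (nat_lit 207) (nat_lit 163) (nat_lit 200)))) (PT.nd (nat_lit 156) (PT.nd (nat_lit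 78) (PT.lf (nat_lit 29260) (nat_lit 6) (nat_lit 385) (nat_lit 1) (nat_lit 208) (nat_lit 163) (nat_lit 199)) (PT.lf (nat_lit 29184) (nat_lit 6) (nat_lit 384) (nat_lit 1) (nat_lit 209) (nat_lit 163) (nat_lit 198))) (PT.nd (nat_lit 78) (PT.lf (nat_lit 29108) (nat_lit 6) (nat_lit 383) (nat_lit 1) (nat_lit 210) (nat_lit 163) (nat_lit 197)) (PT.lf (nat_lit 29032) (nat_lit 6) (nat_lit 382) (nat_lit 1) (nat_lit 211) (nat_lit 163) (nat_lit 196)))))) (PT.nd (nat_lit 58110) (PT.nd (nat_lit 57798) (PT.nd (nat_lit 156) (PT.nd (nat_lit 78) (PT.lf (nat_lit 28956) (nat_lit 6) (nat_lit 381) (nat_lit 1) (nat_lit 212) (nat_lit 163) (nat_lit 195)) (PT.lf (nat_lit 28880) (nat_lit 6) (nat_lit 380) (nat_lit 1) (nat_lit 213) (nat_lit 163) (nat_lit 194))) (PT.nd (nat_lit 78) (PT.lf (nat_lit 28804) (nat_lit 6) (nat_lit 379) (nat_lit 1) (nat_lit 214) (nat_lit 163) (nat_lit 193)) (PT.lf (nat_lit 28728) (nat_lit 6) (nat_lit 378) (nat_lit 1) (nat_lit 215)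 (nat_lit 163) (nat_lit 192)))) (PT.nd (nat_lit 156) (PT.nd (nat_lit 78) (PT.lf (nat_lit 29640) (nat_lit 6) (nat_lit 390) (nat_lit 3) (nat_lit 192) (nat_lit 164) (nat_lit 214)) (PT.lf (nat_lit 29716) (nat_lit 6) (nat_lit 391) (nat_lit 3) (nat_lit 193) (nat_lit 164) (nat_lit 213))) (PT.nd (nat_lit 78) (PT.lf (nat_lit 29792) (nat_lit 6) (nat_lit 392) (nat_lit 3) (nat_lit 194) (nat_lit 164) (nat_lit 212)) (PT.lf (nat_lit 29868) (nat_lit 6) (nat_lit 393) (nat_lit 3) (nat_lit 195) (nat_lit 164) (nat_lit 211))))) (PT.nd (nat_lit 312) (PT.nd (nat_lit 156) (PT.nd (nat_lit 78) (PT.lf (nat_lit 29944) (nat_lit 6) (nat_lit 394) (nat_lit 3) (nat_lit 196) (nat_lit 164) (nat_lit 210)) (PT.lf (nat_lit 30020) (nat_lit 6) (nat_lit 395) (nat_lit 3) (nat_lit 197) (nat_lit 164) (nat_lit 209))) (PT.nd (nat_lit 78) (PT.lf (nat_lit 30096) (nat_lit 6) (nat_lit 396) (nat_lit 3) (nat_lit 198) (nat_lit 164) (nat_lit 208)) (PT.lf (nat_lit 30172) (nat_lit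 6) (nat_lit 397) (nat_lit 3) (nat_lit 199) (nat_lit 164) (nat_lit 207)))) (PT.nd (nat_lit 156) (PT.nd (nat_lit 78) (PT.lf (nat_lit 30248) (nat_lit 6) (nat_lit 398) (nat_lit 3) (nat_lit 200) (nat_lit 164) (nat_lit 206)) (PT.lf (nat_lit 30324) (nat_lit 6) (nat_lit 399) (nat_lit 3) (nat_lit 201) (nat_lit 164) (nat_lit 205))) (PT.nd (nat_lit 78) (PT.lf (nat_lit 30400) (nat_lit 6) (nat_lit 400) (nat_lit 3) (nat_lit 202) (nat_lit 164) (nat_lit 204)) (PT.lf (nat_lit 30476) (nat_lit 3) (nat_lit 401) (nat_lit 1) (nat_lit 203) (nat_lit 164) (nat_lit 203))))))) (PT.nd (nat_lit 58734) (PT.nd (nat_lit 624) (PT.nd (nat_lit 312) (PT.nd (nat_lit 156) (PT.nd (nat_lit 78) (PT.lf (nat_lit 30400) (nat_lit 6) (nat_lit 400) (nat_lit 1) (nat_lit 204) (nat_lit 164) (nat_lit 202)) (PT.lf (nat_lit 30324) (nat_lit 6) (nat_lit 399) (nat_lit 1) (nat_lit 205) (nat_lit 164) (nat_lit 201))) (PT.nd (nat_lit 78) (PT.lf (nat_lit 30248) (nat_lit 6) (nat_lit 398)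 (nat_lit 1) (nat_lit 206) (nat_lit 164) (nat_lit 200)) (PT.lf (nat_lit 30172) (nat_lit 6) (nat_lit 397) (nat_lit 1) (nat_lit 207) (nat_lit 164) (nat_lit 199)))) (PT.nd (nat_lit 156) (PT.nd (nat_lit 78) (PT.lf (nat_lit 30096) (nat_lit 6) (nat_lit 396) (nat_lit 1) (nat_lit 208) (nat_lit 164) (nat_lit 198)) (PT.lf (nat_lit 30020) (nat_lit 6) (nat_lit 395) (nat_lit 1) (nat_lit 209) (nat_lit 164) (nat_lit 197))) (PT.nd (nat_lit 78) (PT.lf (nat_lit 29944) (nat_lit 6) (nat_lit 394) (nat_lit 1) (nat_lit 210) (nat_lit 164) (nat_lit 196)) (PT.lf (nat_lit 29868) (nat_lit 6) (nat_lit 393) (nat_lit 1) (nat_lit 211) (nat_lit 164) (nat_lit 195))))) (PT.nd (nat_lit 57798) (PT.nd (nat_lit 156) (PT.nd (nat_lit 78) (PT.lf (nat_lit 29792) (nat_lit 6) (nat_lit 392) (nat_lit 1) (nat_lit 212) (nat_lit 164) (nat_lit 194)) (PT.lf (nat_lit 29716) (nat_lit 6) (nat_lit 391) (nat_lit 1) (nat_lit 213) (nat_lit 164) (nat_lit 193))) (PT.nd (nat_lit 57564)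 (PT.lf (nat_lit 29640) (nat_lit 6) (nat_lit 390) (nat_lit 1) (nat_lit 214) (nat_lit 164) (nat_lit 192)) (PT.lf (nat_lit 30552) (nat_lit 6) (nat_lit 402) (nat_lit 3) (nat_lit 191) (nat_lit 165) (nat_lit 214)))) (PT.nd (nat_lit 156) (PT.nd (nat_lit 78) (PT.lf (nat_lit 30628) (nat_lit 6) (nat_lit 403) (nat_lit 3) (nat_lit 192) (nat_lit 165) (nat_lit 213)) (PT.lf (nat_lit 30704) (nat_lit 6) (nat_lit 404) (nat_lit 3) (nat_lit 193) (nat_lit 165) (nat_lit 212))) (PT.nd (nat_lit 78) (PT.lf (nat_lit 30780) (nat_lit 6) (nat_lit 405) (nat_lit 3) (nat_lit 194) (nat_lit 165) (nat_lit 211)) (PT.lf (nat_lit 30856) (nat_lit 6) (nat_lit 406) (nat_lit 3) (nat_lit 195) (nat_lit 165) (nat_lit 210)))))) (PT.nd (nat_lit 624) (PT.nd (nat_lit 312) (PT.nd (nat_lit 156) (PT.nd (nat_lit 78) (PT.lf (nat_lit 30932) (nat_lit 6) (nat_lit 407) (nat_lit 3) (nat_lit 196) (nat_lit 165) (nat_lit 209)) (PT.lf (nat_lit 31008) (nat_lit 6) (nat_lit 408) (nat_lit 3)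 (nat_lit 197) (nat_lit 165) (nat_lit 208))) (PT.nd (nat_lit 78) (PT.lf (nat_lit 31084) (nat_lit 6) (nat_lit 409) (nat_lit 3) (nat_lit 198) (nat_lit 165) (nat_lit 207)) (PT.lf (nat_lit 31160) (nat_lit 6) (nat_lit 410) (nat_lit 3) (nat_lit 199) (nat_lit 165) (nat_lit 206)))) (PT.nd (nat_lit 156) (PT.nd (nat_lit 78) (PT.lf (nat_lit 31236) (nat_lit 6) (nat_lit 411) (nat_lit 3) (nat_lit 200) (nat_lit 165) (nat_lit 205)) (PT.lf (nat_lit 31312) (nat_lit 6) (nat_lit 412) (nat_lit 3) (nat_lit 201) (nat_lit 165) (nat_lit 204))) (PT.nd (nat_lit 78) (PT.lf (nat_lit 31388) (nat_lit 6) (nat_lit 413) (nat_lit 3) (nat_lit 202) (nat_lit 165) (nat_lit 203)) (PT.lf (nat_lit 31388) (nat_lit 6) (nat_lit 413) (nat_lit 1) (nat_lit 203) (nat_lit 165) (nat_lit 202))))) (PT.nd (nat_lit 312) (PT.nd (nat_lit 156) (PT.nd (nat_lit 78) (PT.lf (nat_lit 31312) (nat_lit 6) (nat_lit 412) (nat_lit 1) (nat_lit 204) (nat_lit 165) (nat_lit 201)) (PT.lf (nat_lit 31236)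 (nat_lit 6) (nat_lit 411) (nat_lit 1) (nat_lit 205) (nat_lit 165) (nat_lit 200))) (PT.nd (nat_lit 78) (PT.lf (nat_lit 31160) (nat_lit 6) (nat_lit 410) (nat_lit 1) (nat_lit 206) (nat_lit 165) (nat_lit 199)) (PT.lf (nat_lit 31084) (nat_lit 6) (nat_lit 409) (nat_lit 1) (nat_lit 207) (nat_lit 165) (nat_lit 198)))) (PT.nd (nat_lit 156) (PT.nd (nat_lit 78) (PT.lf (nat_lit 31008) (nat_lit 6) (nat_lit 408) (nat_lit 1) (nat_lit 208) (nat_lit 165) (nat_lit 197)) (PT.lf (nat_lit 30932) (nat_lit 6) (nat_lit 407) (nat_lit 1) (nat_lit 209) (nat_lit 165) (nat_lit 196))) (PT.nd (nat_lit 78) (PT.lf (nat_lit 30856) (nat_lit 6) (nat_lit 406) (nat_lit 1) (nat_lit 210) (nat_lit 165) (nat_lit 195)) (PT.lf (nat_lit 30780) (nat_lit 6) (nat_lit 405) (nat_lit 1) (nat_lit 211) (nat_lit 165) (nat_lit 194))))))))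
noncomputable def pc12 : PT := (PT.nd (nat_lit 117156) (PT.nd (nat_lit 58578) (PT.nd (nat_lit 57954) (PT.nd (nat_lit 57642) (PT.nd (nat_lit 78) (PT.lf (nat_lit 30704) (nat_lit 6) (nat_lit 404) (nat_lit 1) (nat_lit 212) (nat_lit 165) (nat_lit 193)) (PT.nd (nat_lit 78) (PT.lf (nat_lit 30628) (nat_lit 6) (nat_lit 403) (nat_lit 1) (nat_lit 213) (nat_lit 165) (nat_lit 192)) (PT.lf (nat_lit 30552) (nat_lit 6) (nat_lit 402) (nat_lit 1) (nat_lit 214) (nat_lit 165) (nat_lit 191)))) (PT.nd (nat_lit 156) (PT.nd (nat_lit 78) (PT.lf (nat_lit 31844) (nat_lit 6) (nat_lit 419) (nat_lit 3) (nat_lit 190) (nat_lit 166) (nat_lit 214)) (PT.lf (nat_lit 31920) (nat_lit 6) (nat_lit 420) (nat_lit 3) (nat_lit 191) (nat_lit 166) (nat_lit 213))) (PT.nd (nat_lit 78) (PT.lf (nat_lit 31996) (nat_lit 6) (nat_lit 421) (nat_lit 3) (nat_lit 192) (nat_lit 166) (nat_lit 212)) (PT.lf (nat_lit 32072) (nat_lit 6) (nat_lit 422) (nat_lit 3) (nat_lit 193) (nat_lit 166)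 (nat_lit 211))))) (PT.nd (nat_lit 312) (PT.nd (nat_lit 156) (PT.nd (nat_lit 78) (PT.lf (nat_lit 32148) (nat_lit 6) (nat_lit 423) (nat_lit 3) (nat_lit 194) (nat_lit 166) (nat_lit 210)) (PT.lf (nat_lit 32224) (nat_lit 6) (nat_lit 424) (nat_lit 3) (nat_lit 195) (nat_lit 166) (nat_lit 209))) (PT.nd (nat_lit 78) (PT.lf (nat_lit 32300) (nat_lit 6) (nat_lit 425) (nat_lit 3) (nat_lit 196) (nat_lit 166) (nat_lit 208)) (PT.lf (nat_lit 32376) (nat_lit 6) (nat_lit 426) (nat_lit 3) (nat_lit 197) (nat_lit 166) (nat_lit 207)))) (PT.nd (nat_lit 156) (PT.nd (nat_lit 78) (PT.lf (nat_lit 32452) (nat_lit 6) (nat_lit 427) (nat_lit 3) (nat_lit 198) (nat_lit 166) (nat_lit 206)) (PT.lf (nat_lit 32528) (nat_lit 6) (nat_lit 428) (nat_lit 3) (nat_lit 199) (nat_lit 166) (nat_lit 205))) (PT.nd (nat_lit 78) (PT.lf (nat_lit 32604) (nat_lit 6) (nat_lit 429) (nat_lit 3) (nat_lit 200) (nat_lit 166) (nat_lit 204)) (PT.lf (nat_lit 32680) (nat_lit 6) (nat_lit 430)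 (nat_lit 3) (nat_lit 201) (nat_lit 166) (nat_lit 203)))))) (PT.nd (nat_lit 624) (PT.nd (nat_lit 312) (PT.nd (nat_lit 156) (PT.nd (nat_lit 78) (PT.lf (nat_lit 32756) (nat_lit 3) (nat_lit 431) (nat_lit 1) (nat_lit 202) (nat_lit 166) (nat_lit 202)) (PT.lf (nat_lit 32680) (nat_lit 6) (nat_lit 430) (nat_lit 1) (nat_lit 203) (nat_lit 166) (nat_lit 201))) (PT.nd (nat_lit 78) (PT.lf (nat_lit 32604) (nat_lit 6) (nat_lit 429) (nat_lit 1) (nat_lit 204) (nat_lit 166) (nat_lit 200)) (PT.lf (nat_lit 32528) (nat_lit 6) (nat_lit 428) (nat_lit 1) (nat_lit 205) (nat_lit 166) (nat_lit 199)))) (PT.nd (nat_lit 156) (PT.nd (nat_lit 78) (PT.lf (nat_lit 32452) (nat_lit 6) (nat_lit 427) (nat_lit 1) (nat_lit 206) (nat_lit 166) (nat_lit 198)) (PT.lf (nat_lit 32376) (nat_lit 6) (nat_lit 426) (nat_lit 1) (nat_lit 207) (nat_lit 166) (nat_lit 197))) (PT.nd (nat_lit 78) (PT.lf (nat_lit 32300) (nat_lit 6) (nat_lit 425) (nat_lit 1) (nat_lit 208) (nat_lit 166)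 (nat_lit 196)) (PT.lf (nat_lit 32224) (nat_lit 6) (nat_lit 424) (nat_lit 1) (nat_lit 209) (nat_lit 166) (nat_lit 195))))) (PT.nd (nat_lit 312) (PT.nd (nat_lit 156) (PT.nd (nat_lit 78) (PT.lf (nat_lit 32148) (nat_lit 6) (nat_lit 423) (nat_lit 1) (nat_lit 210) (nat_lit 166) (nat_lit 194)) (PT.lf (nat_lit 32072) (nat_lit 6) (nat_lit 422) (nat_lit 1) (nat_lit 211) (nat_lit 166) (nat_lit 193))) (PT.nd (nat_lit 78) (PT.lf (nat_lit 31996) (nat_lit 6) (nat_lit 421) (nat_lit 1) (nat_lit 212) (nat_lit 166) (nat_lit 192)) (PT.lf (nat_lit 31920) (nat_lit 6) (nat_lit 420) (nat_lit 1) (nat_lit 213) (nat_lit 166) (nat_lit 191)))) (PT.nd (nat_lit 57486) (PT.nd (nat_lit 57408) (PT.lf (nat_lit 31844) (nat_lit 6) (nat_lit 419) (nat_lit 1) (nat_lit 214) (nat_lit 166) (nat_lit 190)) (PT.lf (nat_lit 31768) (nat_lit 6) (nat_lit 418) (nat_lit 3) (nat_lit 189) (nat_lit 167) (nat_lit 214))) (PT.nd (nat_lit 78) (PT.lf (nat_lit 33668) (nat_lit 6) (nat_lit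 443) (nat_lit 3) (nat_lit 190) (nat_lit 167) (nat_lit 213)) (PT.lf (nat_lit 33744) (nat_lit 6) (nat_lit 444) (nat_lit 3) (nat_lit 191) (nat_lit 167) (nat_lit 212))))))) (PT.nd (nat_lit 1248) (PT.nd (nat_lit 624) (PT.nd (nat_lit 312) (PT.nd (nat_lit 156) (PT.nd (nat_lit 78) (PT.lf (nat_lit 33820) (nat_lit 6) (nat_lit 445) (nat_lit 3) (nat_lit 192) (nat_lit 167) (nat_lit 211)) (PT.lf (nat_lit 33896) (nat_lit 6) (nat_lit 446) (nat_lit 3) (nat_lit 193) (nat_lit 167) (nat_lit 210))) (PT.nd (nat_lit 78) (PT.lf (nat_lit 33972) (nat_lit 6) (nat_lit 447) (nat_lit 3) (nat_lit 194) (nat_lit 167) (nat_lit 209)) (PT.lf (nat_lit 34048) (nat_lit 6) (nat_lit 448) (nat_lit 3) (nat_lit 195) (nat_lit 167) (nat_lit 208)))) (PT.nd (nat_lit 156) (PT.nd (nat_lit 78) (PT.lf (nat_lit 34124) (nat_lit 6) (nat_lit 449) (nat_lit 3) (nat_lit 196) (nat_lit 167) (nat_lit 207)) (PT.lf (nat_lit 34200) (nat_lit 6) (nat_lit 450) (nat_lit 3) (nat_lit 197) (nat_lit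 167) (nat_lit 206))) (PT.nd (nat_lit 78) (PT.lf (nat_lit 34276) (nat_lit 6) (nat_lit 451) (nat_lit 3) (nat_lit 198) (nat_lit 167) (nat_lit 205)) (PT.lf (nat_lit 34352) (nat_lit 6) (nat_lit 452) (nat_lit 3) (nat_lit 199) (nat_lit 167) (nat_lit 204))))) (PT.nd (nat_lit 312) (PT.nd (nat_lit 156) (PT.nd (nat_lit 78) (PT.lf (nat_lit 34428) (nat_lit 6) (nat_lit 453) (nat_lit 3) (nat_lit 200) (nat_lit 167) (nat_lit 203)) (PT.lf (nat_lit 34504) (nat_lit 6) (nat_lit 454) (nat_lit 3) (nat_lit 201) (nat_lit 167) (nat_lit 202))) (PT.nd (nat_lit 78) (PT.lf (nat_lit 34504) (nat_lit 6) (nat_lit 454) (nat_lit 1) (nat_lit 202) (nat_lit 167) (nat_lit 201)) (PT.lf (nat_lit 34428) (nat_lit 6) (nat_lit 453) (nat_lit 1) (nat_lit 203) (nat_lit 167) (nat_lit 200)))) (PT.nd (nat_lit 156) (PT.nd (nat_lit 78) (PT.lf (nat_lit 34352) (nat_lit 6) (nat_lit 452) (nat_lit 1) (nat_lit 204) (nat_lit 167) (nat_lit 199)) (PT.lf (nat_lit 34276) (nat_lit 6) (nat_lit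 451) (nat_lit 1) (nat_lit 205) (nat_lit 167) (nat_lit 198))) (PT.nd (nat_lit 78) (PT.lf (nat_lit 34200) (nat_lit 6) (nat_lit 450) (nat_lit 1) (nat_lit 206) (nat_lit 167) (nat_lit 197)) (PT.lf (nat_lit 34124) (nat_lit 6) (nat_lit 449) (nat_lit 1) (nat_lit 207) (nat_lit 167) (nat_lit 196)))))) (PT.nd (nat_lit 57876) (PT.nd (nat_lit 312) (PT.nd (nat_lit 156) (PT.nd (nat_lit 78) (PT.lf (nat_lit 34048) (nat_lit 6) (nat_lit 448) (nat_lit 1) (nat_lit 208) (nat_lit 167) (nat_lit 195)) (PT.lf (nat_lit 33972) (nat_lit 6) (nat_lit 447) (nat_lit 1) (nat_lit 209) (nat_lit 167) (nat_lit 194))) (PT.nd (nat_lit 78) (PT.lf (nat_lit 33896) (nat_lit 6) (nat_lit 446) (nat_lit 1) (nat_lit 210) (nat_lit 167) (nat_lit 193)) (PT.lf (nat_lit 33820) (nat_lit 6) (nat_lit 445) (nat_lit 1) (nat_lit 211) (nat_lit 167) (nat_lit 192)))) (PT.nd (nat_lit 156) (PT.nd (nat_lit 78) (PT.lf (nat_lit 33744) (nat_lit 6) (nat_lit 444) (nat_lit 1) (nat_lit 212) (nat_lit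 167) (nat_lit 191)) (PT.lf (nat_lit 33668) (nat_lit 6) (nat_lit 443) (nat_lit 1) (nat_lit 213) (nat_lit 167) (nat_lit 190))) (PT.nd (nat_lit 57330) (PT.lf (nat_lit 31768) (nat_lit 6) (nat_lit 418) (nat_lit 1) (nat_lit 214) (nat_lit 167) (nat_lit 189)) (PT.lf (nat_lit 31692) (nat_lit 6) (nat_lit 417) (nat_lit 3) (nat_lit 188) (nat_lit 168) (nat_lit 214))))) (PT.nd (nat_lit 312) (PT.nd (nat_lit 156) (PT.nd (nat_lit 78) (PT.lf (nat_lit 33592) (nat_lit 6) (nat_lit 442) (nat_lit 3) (nat_lit 189) (nat_lit 168) (nat_lit 213)) (PT.lf (nat_lit 35416) (nat_lit 6) (nat_lit 466) (nat_lit 3) (nat_lit 190) (nat_lit 168) (nat_lit 212))) (PT.nd (nat_lit 78) (PT.lf (nat_lit 35492) (nat_lit 6) (nat_lit 467) (nat_lit 3) (nat_lit 191) (nat_lit 168) (nat_lit 211)) (PT.lf (nat_lit 35568) (nat_lit 6) (nat_lit 468) (nat_lit 3) (nat_lit 192) (nat_lit 168) (nat_lit 210)))) (PT.nd (nat_lit 156) (PT.nd (nat_lit 78) (PT.lf (nat_lit 35644) (nat_lit 6) (nat_lit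 469) (nat_lit 3) (nat_lit 193) (nat_lit 168) (nat_lit 209)) (PT.lf (nat_lit 35720) (nat_lit 6) (nat_lit 470) (nat_lit 3) (nat_lit 194) (nat_lit 168) (nat_lit 208))) (PT.nd (nat_lit 78) (PT.lf (nat_lit 35796) (nat_lit 6) (nat_lit 471) (nat_lit 3) (nat_lit 195) (nat_lit 168) (nat_lit 207)) (PT.lf (nat_lit 35872) (nat_lit 6) (nat_lit 472) (nat_lit 3) (nat_lit 196) (nat_lit 168) (nat_lit 206))))))))
noncomputable def pc13 : PT := (PT.nd (nat_lit 59592) (PT.nd (nat_lit 1170) (PT.nd (nat_lit 546) (PT.nd (nat_lit 234) (PT.nd (nat_lit 78) (PT.lf (nat_lit 35948) (nat_lit 6) (nat_lit 473) (nat_lit 3) (nat_lit 197) (nat_lit 168) (nat_lit 205)) (PT.nd (nat_lit 78) (PT.lf (nat_lit 36024) (nat_lit 6) (nat_lit 474) (nat_lit 3) (nat_lit 198) (nat_lit 168) (nat_lit 204)) (PT.lf (nat_lit 36100) (nat_lit 6) (nat_lit 475) (nat_lit 3) (nat_lit 199) (nat_lit 168) (nat_lit 203)))) (PT.nd (nat_lit 156) (PT.nd (nat_lit 78) (PT.lf (nat_lit 36176) (nat_lit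 6) (nat_lit 476) (nat_lit 3) (nat_lit 200) (nat_lit 168) (nat_lit 202)) (PT.lf (nat_lit 36252) (nat_lit 3) (nat_lit 477) (nat_lit 1) (nat_lit 201) (nat_lit 168) (nat_lit 201))) (PT.nd (nat_lit 78) (PT.lf (nat_lit 36176) (nat_lit 6) (nat_lit 476) (nat_lit 1) (nat_lit 202) (nat_lit 168) (nat_lit 200)) (PT.lf (nat_lit 36100) (nat_lit 6) (nat_lit 475) (nat_lit 1) (nat_lit 203) (nat_lit 168) (nat_lit 199))))) (PT.nd (nat_lit 312) (PT.nd (nat_lit 156) (PT.nd (nat_lit 78) (PT.lf (nat_lit 36024) (nat_lit 6) (nat_lit 474) (nat_lit 1) (nat_lit 204) (nat_lit 168) (nat_lit 198)) (PT.lf (nat_lit 35948) (nat_lit 6) (nat_lit 473) (nat_lit 1) (nat_lit 205) (nat_lit 168) (nat_lit 197))) (PT.nd (nat_lit 78) (PT.lf (nat_lit 35872) (nat_lit 6) (nat_lit 472) (nat_lit 1) (nat_lit 206) (nat_lit 168) (nat_lit 196)) (PT.lf (nat_lit 35796) (nat_lit 6) (nat_lit 471) (nat_lit 1) (nat_lit 207) (nat_lit 168) (nat_lit 195)))) (PT.nd (nat_lit 156) (PT.nd (nat_lit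 78) (PT.lf (nat_lit 35720) (nat_lit 6) (nat_lit 470) (nat_lit 1) (nat_lit 208) (nat_lit 168) (nat_lit 194)) (PT.lf (nat_lit 35644) (nat_lit 6) (nat_lit 469) (nat_lit 1) (nat_lit 209) (nat_lit 168) (nat_lit 193))) (PT.nd (nat_lit 78) (PT.lf (nat_lit 35568) (nat_lit 6) (nat_lit 468) (nat_lit 1) (nat_lit 210) (nat_lit 168) (nat_lit 192)) (PT.lf (nat_lit 35492) (nat_lit 6) (nat_lit 467) (nat_lit 1) (nat_lit 211) (nat_lit 168) (nat_lit 191)))))) (PT.nd (nat_lit 57798) (PT.nd (nat_lit 57486) (PT.nd (nat_lit 156) (PT.nd (nat_lit 78) (PT.lf (nat_lit 35416) (nat_lit 6) (nat_lit 466) (nat_lit 1) (nat_lit 212) (nat_lit 168) (nat_lit 190)) (PT.lf (nat_lit 33592) (nat_lit 6) (nat_lit 442) (nat_lit 1) (nat_lit 213) (nat_lit 168) (nat_lit 189))) (PT.nd (nat_lit 57252) (PT.lf (nat_lit 31692) (nat_lit 6) (nat_lit 417) (nat_lit 1) (nat_lit 214) (nat_lit 168) (nat_lit 188)) (PT.lf (nat_lit 31616) (nat_lit 6) (nat_lit 416) (nat_lit 3) (nat_lit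 187) (nat_lit 169) (nat_lit 214)))) (PT.nd (nat_lit 156) (PT.nd (nat_lit 78) (PT.lf (nat_lit 33516) (nat_lit 6) (nat_lit 441) (nat_lit 3) (nat_lit 188) (nat_lit 169) (nat_lit 213)) (PT.lf (nat_lit 35340) (nat_lit 6) (nat_lit 465) (nat_lit 3) (nat_lit 189) (nat_lit 169) (nat_lit 212))) (PT.nd (nat_lit 78) (PT.lf (nat_lit 37088) (nat_lit 6) (nat_lit 488) (nat_lit 3) (nat_lit 190) (nat_lit 169) (nat_lit 211)) (PT.lf (nat_lit 37164) (nat_lit 6) (nat_lit 489) (nat_lit 3) (nat_lit 191) (nat_lit 169) (nat_lit 210))))) (PT.nd (nat_lit 312) (PT.nd (nat_lit 156) (PT.nd (nat_lit 78) (PT.lf (nat_lit 37240) (nat_lit 6) (nat_lit 490) (nat_lit 3) (nat_lit 192) (nat_lit 169) (nat_lit 209)) (PT.lf (nat_lit 37316) (nat_lit 6) (nat_lit 491) (nat_lit 3) (nat_lit 193) (nat_lit 169) (nat_lit 208))) (PT.nd (nat_lit 78) (PT.lf (nat_lit 37392) (nat_lit 6) (nat_lit 492) (nat_lit 3) (nat_lit 194) (nat_lit 169) (nat_lit 207)) (PT.lf (nat_lit 37468) (nat_lit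 6) (nat_lit 493) (nat_lit 3) (nat_lit 195) (nat_lit 169) (nat_lit 206)))) (PT.nd (nat_lit 156) (PT.nd (nat_lit 78) (PT.lf (nat_lit 37544) (nat_lit 6) (nat_lit 494) (nat_lit 3) (nat_lit 196) (nat_lit 169) (nat_lit 205)) (PT.lf (nat_lit 37620) (nat_lit 6) (nat_lit 495) (nat_lit 3) (nat_lit 197) (nat_lit 169) (nat_lit 204))) (PT.nd (nat_lit 78) (PT.lf (nat_lit 37696) (nat_lit 6) (nat_lit 496) (nat_lit 3) (nat_lit 198) (nat_lit 169) (nat_lit 203)) (PT.lf (nat_lit 37772) (nat_lit 6) (nat_lit 497) (nat_lit 3) (nat_lit 199) (nat_lit 169) (nat_lit 202))))))) (PT.nd (nat_lit 58344) (PT.nd (nat_lit 624) (PT.nd (nat_lit 312) (PT.nd (nat_lit 156) (PT.nd (nat_lit 78) (PT.lf (nat_lit 37848) (nat_lit 6) (nat_lit 498) (nat_lit 3) (nat_lit 200) (nat_lit 169) (nat_lit 201)) (PT.lf (nat_lit 37848) (nat_lit 6) (nat_lit 498) (nat_lit 1) (nat_lit 201) (nat_lit 169) (nat_lit 200))) (PT.nd (nat_lit 78) (PT.lf (nat_lit 37772) (nat_lit 6) (nat_lit 497)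 (nat_lit 1) (nat_lit 202) (nat_lit 169) (nat_lit 199)) (PT.lf (nat_lit 37696) (nat_lit 6) (nat_lit 496) (nat_lit 1) (nat_lit 203) (nat_lit 169) (nat_lit 198)))) (PT.nd (nat_lit 156) (PT.nd (nat_lit 78) (PT.lf (nat_lit 37620) (nat_lit 6) (nat_lit 495) (nat_lit 1) (nat_lit 204) (nat_lit 169) (nat_lit 197)) (PT.lf (nat_lit 37544) (nat_lit 6) (nat_lit 494) (nat_lit 1) (nat_lit 205) (nat_lit 169) (nat_lit 196))) (PT.nd (nat_lit 78) (PT.lf (nat_lit 37468) (nat_lit 6) (nat_lit 493) (nat_lit 1) (nat_lit 206) (nat_lit 169) (nat_lit 195)) (PT.lf (nat_lit 37392) (nat_lit 6) (nat_lit 492) (nat_lit 1) (nat_lit 207) (nat_lit 169) (nat_lit 194))))) (PT.nd (nat_lit 312) (PT.nd (nat_lit 156) (PT.nd (nat_lit 78) (PT.lf (nat_lit 37316) (nat_lit 6) (nat_lit 491) (nat_lit 1) (nat_lit 208) (nat_lit 169) (nat_lit 193)) (PT.lf (nat_lit 37240) (nat_lit 6) (nat_lit 490) (nat_lit 1) (nat_lit 209) (nat_lit 169) (nat_lit 192))) (PT.nd (nat_lit 78) (PT.lf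 (nat_lit 37164) (nat_lit 6) (nat_lit 489) (nat_lit 1) (nat_lit 210) (nat_lit 169) (nat_lit 191)) (PT.lf (nat_lit 37088) (nat_lit 6) (nat_lit 488) (nat_lit 1) (nat_lit 211) (nat_lit 169) (nat_lit 190)))) (PT.nd (nat_lit 156) (PT.nd (nat_lit 78) (PT.lf (nat_lit 35340) (nat_lit 6) (nat_lit 465) (nat_lit 1) (nat_lit 212) (nat_lit 169) (nat_lit 189)) (PT.lf (nat_lit 33516) (nat_lit 6) (nat_lit 441) (nat_lit 1) (nat_lit 213) (nat_lit 169) (nat_lit 188))) (PT.nd (nat_lit 57174) (PT.lf (nat_lit 31616) (nat_lit 6) (nat_lit 416) (nat_lit 1) (nat_lit 214) (nat_lit 169) (nat_lit 187)) (PT.lf (nat_lit 31540) (nat_lit 6) (nat_lit 415) (nat_lit 3) (nat_lit 186) (nat_lit 170) (nat_lit 214)))))) (PT.nd (nat_lit 624) (PT.nd (nat_lit 312) (PT.nd (nat_lit 156) (PT.nd (nat_lit 78) (PT.lf (nat_lit 33440) (nat_lit 6) (nat_lit 440) (nat_lit 3) (nat_lit 187) (nat_lit 170) (nat_lit 213)) (PT.lf (nat_lit 35264) (nat_lit 6) (nat_lit 464) (nat_lit 3) (nat_lit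 188) (nat_lit 170) (nat_lit 212))) (PT.nd (nat_lit 78) (PT.lf (nat_lit 37012) (nat_lit 6) (nat_lit 487) (nat_lit 3) (nat_lit 189) (nat_lit 170) (nat_lit 211)) (PT.lf (nat_lit 38684) (nat_lit 6) (nat_lit 509) (nat_lit 3) (nat_lit 190) (nat_lit 170) (nat_lit 210)))) (PT.nd (nat_lit 156) (PT.nd (nat_lit 78) (PT.lf (nat_lit 38760) (nat_lit 6) (nat_lit 510) (nat_lit 3) (nat_lit 191) (nat_lit 170) (nat_lit 209)) (PT.lf (nat_lit 38836) (nat_lit 6) (nat_lit 511) (nat_lit 3) (nat_lit 192) (nat_lit 170) (nat_lit 208))) (PT.nd (nat_lit 78) (PT.lf (nat_lit 38912) (nat_lit 6) (nat_lit 512) (nat_lit 3) (nat_lit 193) (nat_lit 170) (nat_lit 207)) (PT.lf (nat_lit 38988) (nat_lit 6) (nat_lit 513) (nat_lit 3) (nat_lit 194) (nat_lit 170) (nat_lit 206))))) (PT.nd (nat_lit 312) (PT.nd (nat_lit 156) (PT.nd (nat_lit 78) (PT.lf (nat_lit 39064) (nat_lit 6) (nat_lit 514) (nat_lit 3) (nat_lit 195) (nat_lit 170) (nat_lit 205)) (PT.lf (nat_lit 39140) (nat_lit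 6) (nat_lit 515) (nat_lit 3) (nat_lit 196) (nat_lit 170) (nat_lit 204))) (PT.nd (nat_lit 78) (PT.lf (nat_lit 39216) (nat_lit 6) (nat_lit 516) (nat_lit 3) (nat_lit 197) (nat_lit 170) (nat_lit 203)) (PT.lf (nat_lit 39292) (nat_lit 6) (nat_lit 517) (nat_lit 3) (nat_lit 198) (nat_lit 170) (nat_lit 202)))) (PT.nd (nat_lit 156) (PT.nd (nat_lit 78) (PT.lf (nat_lit 39368) (nat_lit 6) (nat_lit 518) (nat_lit 3) (nat_lit 199) (nat_lit 170) (nat_lit 201)) (PT.lf (nat_lit 39444) (nat_lit 3) (nat_lit 519) (nat_lit 1) (nat_lit 200) (nat_lit 170) (nat_lit 200))) (PT.nd (nat_lit 78) (PT.lf (nat_lit 39368) (nat_lit 6) (nat_lit 518) (nat_lit 1) (nat_lit 201) (nat_lit 170) (nat_lit 199)) (PT.lf (nat_lit 39292) (nat_lit 6) (nat_lit 517) (nat_lit 1) (nat_lit 202) (nat_lit 170) (nat_lit 198))))))))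
noncomputable def pc14 : PT := (PT.nd (nat_lit 59514) (PT.nd (nat_lit 58266) (PT.nd (nat_lit 546) (PT.nd (nat_lit 234) (PT.nd (nat_lit 78) (PT.lf (nat_lit 39216) (nat_lit 6) (nat_lit 516) (nat_lit 1) (nat_lit 203) (nat_lit 170) (nat_lit 197)) (PT.nd (nat_lit 78) (PT.lf (nat_lit 39140) (nat_lit 6) (nat_lit 515) (nat_lit 1) (nat_lit 204) (nat_lit 170) (nat_lit 196)) (PT.lf (nat_lit 39064) (nat_lit 6) (nat_lit 514) (nat_lit 1) (nat_lit 205) (nat_lit 170) (nat_lit 195)))) (PT.nd (nat_lit 156) (PT.nd (nat_lit 78) (PT.lf (nat_lit 38988) (nat_lit 6) (nat_lit 513) (nat_lit 1) (nat_lit 206) (nat_lit 170) (nat_lit 194)) (PT.lf (nat_lit 38912) (nat_lit 6) (nat_lit 512) (nat_lit 1) (nat_lit 207) (nat_lit 170) (nat_lit 193))) (PT.nd (nat_lit 78) (PT.lf (nat_lit 38836) (nat_lit 6) (nat_lit 511) (nat_lit 1) (nat_lit 208) (nat_lit 170) (nat_lit 192)) (PT.lf (nat_lit 38760) (nat_lit 6) (nat_lit 510) (nat_lit 1) (nat_lit 209) (nat_lit 170) (nat_lit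 191))))) (PT.nd (nat_lit 312) (PT.nd (nat_lit 156) (PT.nd (nat_lit 78) (PT.lf (nat_lit 38684) (nat_lit 6) (nat_lit 509) (nat_lit 1) (nat_lit 210) (nat_lit 170) (nat_lit 190)) (PT.lf (nat_lit 37012) (nat_lit 6) (nat_lit 487) (nat_lit 1) (nat_lit 211) (nat_lit 170) (nat_lit 189))) (PT.nd (nat_lit 78) (PT.lf (nat_lit 35264) (nat_lit 6) (nat_lit 464) (nat_lit 1) (nat_lit 212) (nat_lit 170) (nat_lit 188)) (PT.lf (nat_lit 33440) (nat_lit 6) (nat_lit 440) (nat_lit 1) (nat_lit 213) (nat_lit 170) (nat_lit 187)))) (PT.nd (nat_lit 57252) (PT.nd (nat_lit 57174) (PT.lf (nat_lit 31540) (nat_lit 6) (nat_lit 415) (nat_lit 1) (nat_lit 214) (nat_lit 170) (nat_lit 186)) (PT.lf (nat_lit 33364) (nat_lit 6) (nat_lit 439) (nat_lit 3) (nat_lit 186) (nat_lit 171) (nat_lit 213))) (PT.nd (nat_lit 78) (PT.lf (nat_lit 35188) (nat_lit 6) (nat_lit 463) (nat_lit 3) (nat_lit 187) (nat_lit 171) (nat_lit 212)) (PT.lf (nat_lit 36936) (nat_lit 6) (nat_lit 486)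 (nat_lit 3) (nat_lit 188) (nat_lit 171) (nat_lit 211)))))) (PT.nd (nat_lit 624) (PT.nd (nat_lit 312) (PT.nd (nat_lit 156) (PT.nd (nat_lit 78) (PT.lf (nat_lit 38608) (nat_lit 6) (nat_lit 508) (nat_lit 3) (nat_lit 189) (nat_lit 171) (nat_lit 210)) (PT.lf (nat_lit 40204) (nat_lit 6) (nat_lit 529) (nat_lit 3) (nat_lit 190) (nat_lit 171) (nat_lit 209))) (PT.nd (nat_lit 78) (PT.lf (nat_lit 40280) (nat_lit 6) (nat_lit 530) (nat_lit 3) (nat_lit 191) (nat_lit 171) (nat_lit 208)) (PT.lf (nat_lit 40356) (nat_lit 6) (nat_lit 531) (nat_lit 3) (nat_lit 192) (nat_lit 171) (nat_lit 207)))) (PT.nd (nat_lit 156) (PT.nd (nat_lit 78) (PT.lf (nat_lit 40432) (nat_lit 6) (nat_lit 532) (nat_lit 3) (nat_lit 193) (nat_lit 171) (nat_lit 206)) (PT.lf (nat_lit 40508) (nat_lit 6) (nat_lit 533) (nat_lit 3) (nat_lit 194) (nat_lit 171) (nat_lit 205))) (PT.nd (nat_lit 78) (PT.lf (nat_lit 40584) (nat_lit 6) (nat_lit 534) (nat_lit 3) (nat_lit 195) (nat_lit 171)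 (nat_lit 204)) (PT.lf (nat_lit 40660) (nat_lit 6) (nat_lit 535) (nat_lit 3) (nat_lit 196) (nat_lit 171) (nat_lit 203))))) (PT.nd (nat_lit 312) (PT.nd (nat_lit 156) (PT.nd (nat_lit 78) (PT.lf (nat_lit 40736) (nat_lit 6) (nat_lit 536) (nat_lit 3) (nat_lit 197) (nat_lit 171) (nat_lit 202)) (PT.lf (nat_lit 40812) (nat_lit 6) (nat_lit 537) (nat_lit 3) (nat_lit 198) (nat_lit 171) (nat_lit 201))) (PT.nd (nat_lit 78) (PT.lf (nat_lit 40888) (nat_lit 6) (nat_lit 538) (nat_lit 3) (nat_lit 199) (nat_lit 171) (nat_lit 200)) (PT.lf (nat_lit 40888) (nat_lit 6) (nat_lit 538) (nat_lit 1) (nat_lit 200) (nat_lit 171) (nat_lit 199)))) (PT.nd (nat_lit 156) (PT.nd (nat_lit 78) (PT.lf (nat_lit 40812) (nat_lit 6) (nat_lit 537) (nat_lit 1) (nat_lit 201) (nat_lit 171) (nat_lit 198)) (PT.lf (nat_lit 40736) (nat_lit 6) (nat_lit 536) (nat_lit 1) (nat_lit 202) (nat_lit 171) (nat_lit 197))) (PT.nd (nat_lit 78) (PT.lf (nat_lit 40660) (nat_lit 6) (nat_lit 535)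 (nat_lit 1) (nat_lit 203) (nat_lit 171) (nat_lit 196)) (PT.lf (nat_lit 40584) (nat_lit 6) (nat_lit 534) (nat_lit 1) (nat_lit 204) (nat_lit 171) (nat_lit 195))))))) (PT.nd (nat_lit 58344) (PT.nd (nat_lit 624) (PT.nd (nat_lit 312) (PT.nd (nat_lit 156) (PT.nd (nat_lit 78) (PT.lf (nat_lit 40508) (nat_lit 6) (nat_lit 533) (nat_lit 1) (nat_lit 205) (nat_lit 171) (nat_lit 194)) (PT.lf (nat_lit 40432) (nat_lit 6) (nat_lit 532) (nat_lit 1) (nat_lit 206) (nat_lit 171) (nat_lit 193))) (PT.nd (nat_lit 78) (PT.lf (nat_lit 40356) (nat_lit 6) (nat_lit 531) (nat_lit 1) (nat_lit 207) (nat_lit 171) (nat_lit 192)) (PT.lf (nat_lit 40280) (nat_lit 6) (nat_lit 530) (nat_lit 1) (nat_lit 208) (nat_lit 171) (nat_lit 191)))) (PT.nd (nat_lit 156) (PT.nd (nat_lit 78) (PT.lf (nat_lit 40204) (nat_lit 6) (nat_lit 529) (nat_lit 1) (nat_lit 209) (nat_lit 171) (nat_lit 190)) (PT.lf (nat_lit 38608) (nat_lit 6) (nat_lit 508) (nat_lit 1) (nat_lit 210) (nat_lit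 171) (nat_lit 189))) (PT.nd (nat_lit 78) (PT.lf (nat_lit 36936) (nat_lit 6) (nat_lit 486) (nat_lit 1) (nat_lit 211) (nat_lit 171) (nat_lit 188)) (PT.lf (nat_lit 35188) (nat_lit 6) (nat_lit 463) (nat_lit 1) (nat_lit 212) (nat_lit 171) (nat_lit 187))))) (PT.nd (nat_lit 57408) (PT.nd (nat_lit 57252) (PT.nd (nat_lit 57174) (PT.lf (nat_lit 33364) (nat_lit 6) (nat_lit 439) (nat_lit 1) (nat_lit 213) (nat_lit 171) (nat_lit 186)) (PT.lf (nat_lit 33288) (nat_lit 6) (nat_lit 438) (nat_lit 3) (nat_lit 185) (nat_lit 172) (nat_lit 213))) (PT.nd (nat_lit 78) (PT.lf (nat_lit 35112) (nat_lit 6) (nat_lit 462) (nat_lit 3) (nat_lit 186) (nat_lit 172) (nat_lit 212)) (PT.lf (nat_lit 36860) (nat_lit 6) (nat_lit 485) (nat_lit 3) (nat_lit 187) (nat_lit 172) (nat_lit 211)))) (PT.nd (nat_lit 156) (PT.nd (nat_lit 78) (PT.lf (nat_lit 38532) (nat_lit 6) (nat_lit 507) (nat_lit 3) (nat_lit 188) (nat_lit 172) (nat_lit 210)) (PT.lf (nat_lit 40128) (nat_lit 6)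 (nat_lit 528) (nat_lit 3) (nat_lit 189) (nat_lit 172) (nat_lit 209))) (PT.nd (nat_lit 78) (PT.lf (nat_lit 41648) (nat_lit 6) (nat_lit 548) (nat_lit 3) (nat_lit 190) (nat_lit 172) (nat_lit 208)) (PT.lf (nat_lit 41724) (nat_lit 6) (nat_lit 549) (nat_lit 3) (nat_lit 191) (nat_lit 172) (nat_lit 207)))))) (PT.nd (nat_lit 624) (PT.nd (nat_lit 312) (PT.nd (nat_lit 156) (PT.nd (nat_lit 78) (PT.lf (nat_lit 41800) (nat_lit 6) (nat_lit 550) (nat_lit 3) (nat_lit 192) (nat_lit 172) (nat_lit 206)) (PT.lf (nat_lit 41876) (nat_lit 6) (nat_lit 551) (nat_lit 3) (nat_lit 193) (nat_lit 172) (nat_lit 205))) (PT.nd (nat_lit 78) (PT.lf (nat_lit 41952) (nat_lit 6) (nat_lit 552) (nat_lit 3) (nat_lit 194) (nat_lit 172) (nat_lit 204)) (PT.lf (nat_lit 42028) (nat_lit 6) (nat_lit 553) (nat_lit 3) (nat_lit 195) (nat_lit 172) (nat_lit 203)))) (PT.nd (nat_lit 156) (PT.nd (nat_lit 78) (PT.lf (nat_lit 42104) (nat_lit 6) (nat_lit 554) (nat_lit 3) (nat_lit 196)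 (nat_lit 172) (nat_lit 202)) (PT.lf (nat_lit 42180) (nat_lit 6) (nat_lit 555) (nat_lit 3) (nat_lit 197) (nat_lit 172) (nat_lit 201))) (PT.nd (nat_lit 78) (PT.lf (nat_lit 42256) (nat_lit 6) (nat_lit 556) (nat_lit 3) (nat_lit 198) (nat_lit 172) (nat_lit 200)) (PT.lf (nat_lit 42332) (nat_lit 3) (nat_lit 557) (nat_lit 1) (nat_lit 199) (nat_lit 172) (nat_lit 199))))) (PT.nd (nat_lit 312) (PT.nd (nat_lit 156) (PT.nd (nat_lit 78) (PT.lf (nat_lit 42256) (nat_lit 6) (nat_lit 556) (nat_lit 1) (nat_lit 200) (nat_lit 172) (nat_lit 198)) (PT.lf (nat_lit 42180) (nat_lit 6) (nat_lit 555) (nat_lit 1) (nat_lit 201) (nat_lit 172) (nat_lit 197))) (PT.nd (nat_lit 78) (PT.lf (nat_lit 42104) (nat_lit 6) (nat_lit 554) (nat_lit 1) (nat_lit 202) (nat_lit 172) (nat_lit 196)) (PT.lf (nat_lit 42028) (nat_lit 6) (nat_lit 553) (nat_lit 1) (nat_lit 203) (nat_lit 172) (nat_lit 195)))) (PT.nd (nat_lit 156) (PT.nd (nat_lit 78) (PT.lf (nat_lit 41952) (nat_lit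 6) (nat_lit 552) (nat_lit 1) (nat_lit 204) (nat_lit 172) (nat_lit 194)) (PT.lf (nat_lit 41876) (nat_lit 6) (nat_lit 551) (nat_lit 1) (nat_lit 205) (nat_lit 172) (nat_lit 193))) (PT.nd (nat_lit 78) (PT.lf (nat_lit 41800) (nat_lit 6) (nat_lit 550) (nat_lit 1) (nat_lit 206) (nat_lit 172) (nat_lit 192)) (PT.lf (nat_lit 41724) (nat_lit 6) (nat_lit 549) (nat_lit 1) (nat_lit 207) (nat_lit 172) (nat_lit 191))))))))
noncomputable def pc15 : PT := (PT.nd (nat_lit 59436) (PT.nd (nat_lit 58188) (PT.nd (nat_lit 57564) (PT.nd (nat_lit 234) (PT.nd (nat_lit 78) (PT.lf (nat_lit 41648) (nat_lit 6) (nat_lit 548) (nat_lit 1) (nat_lit 208) (nat_lit 172) (nat_lit 190)) (PT.nd (nat_lit 78) (PT.lf (nat_lit 40128) (nat_lit 6) (nat_lit 528) (nat_lit 1) (nat_lit 209) (nat_lit 172) (nat_lit 189)) (PT.lf (nat_lit 38532) (nat_lit 6) (nat_lit 507) (nat_lit 1) (nat_lit 210) (nat_lit 172) (nat_lit 188)))) (PT.nd (nat_lit 156) (PT.nd (nat_lit 78) (PT.lf (nat_lit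 36860) (nat_lit 6) (nat_lit 485) (nat_lit 1) (nat_lit 211) (nat_lit 172) (nat_lit 187)) (PT.lf (nat_lit 35112) (nat_lit 6) (nat_lit 462) (nat_lit 1) (nat_lit 212) (nat_lit 172) (nat_lit 186))) (PT.nd (nat_lit 57096) (PT.lf (nat_lit 33288) (nat_lit 6) (nat_lit 438) (nat_lit 1) (nat_lit 213) (nat_lit 172) (nat_lit 185)) (PT.lf (nat_lit 33212) (nat_lit 6) (nat_lit 437) (nat_lit 3) (nat_lit 184) (nat_lit 173) (nat_lit 213))))) (PT.nd (nat_lit 312) (PT.nd (nat_lit 156) (PT.nd (nat_lit 78) (PT.lf (nat_lit 35036) (nat_lit 6) (nat_lit 461) (nat_lit 3) (nat_lit 185) (nat_lit 173) (nat_lit 212)) (PT.lf (nat_lit 36784) (nat_lit 6) (nat_lit 484) (nat_lit 3) (nat_lit 186) (nat_lit 173) (nat_lit 211))) (PT.nd (nat_lit 78) (PT.lf (nat_lit 38456) (nat_lit 6) (nat_lit 506) (nat_lit 3) (nat_lit 187) (nat_lit 173) (nat_lit 210)) (PT.lf (nat_lit 40052) (nat_lit 6) (nat_lit 527) (nat_lit 3) (nat_lit 188) (nat_lit 173) (nat_lit 209)))) (PT.nd (nat_lit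 156) (PT.nd (nat_lit 78) (PT.lf (nat_lit 41572) (nat_lit 6) (nat_lit 547) (nat_lit 3) (nat_lit 189) (nat_lit 173) (nat_lit 208)) (PT.lf (nat_lit 43016) (nat_lit 6) (nat_lit 566) (nat_lit 3) (nat_lit 190) (nat_lit 173) (nat_lit 207))) (PT.nd (nat_lit 78) (PT.lf (nat_lit 43092) (nat_lit 6) (nat_lit 567) (nat_lit 3) (nat_lit 191) (nat_lit 173) (nat_lit 206)) (PT.lf (nat_lit 43168) (nat_lit 6) (nat_lit 568) (nat_lit 3) (nat_lit 192) (nat_lit 173) (nat_lit 205)))))) (PT.nd (nat_lit 624) (PT.nd (nat_lit 312) (PT.nd (nat_lit 156) (PT.nd (nat_lit 78) (PT.lf (nat_lit 43244) (nat_lit 6) (nat_lit 569) (nat_lit 3) (nat_lit 193) (nat_lit 173) (nat_lit 204)) (PT.lf (nat_lit 43320) (nat_lit 6) (nat_lit 570) (nat_lit 3) (nat_lit 194) (nat_lit 173) (nat_lit 203))) (PT.nd (nat_lit 78) (PT.lf (nat_lit 43396) (nat_lit 6) (nat_lit 571) (nat_lit 3) (nat_lit 195) (nat_lit 173) (nat_lit 202)) (PT.lf (nat_lit 43472) (nat_lit 6) (nat_lit 572) (nat_lit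 3) (nat_lit 196) (nat_lit 173) (nat_lit 201)))) (PT.nd (nat_lit 156) (PT.nd (nat_lit 78) (PT.lf (nat_lit 43548) (nat_lit 6) (nat_lit 573) (nat_lit 3) (nat_lit 197) (nat_lit 173) (nat_lit 200)) (PT.lf (nat_lit 43624) (nat_lit 6) (nat_lit 574) (nat_lit 3) (nat_lit 198) (nat_lit 173) (nat_lit 199))) (PT.nd (nat_lit 78) (PT.lf (nat_lit 43624) (nat_lit 6) (nat_lit 574) (nat_lit 1) (nat_lit 199) (nat_lit 173) (nat_lit 198)) (PT.lf (nat_lit 43548) (nat_lit 6) (nat_lit 573) (nat_lit 1) (nat_lit 200) (nat_lit 173) (nat_lit 197))))) (PT.nd (nat_lit 312) (PT.nd (nat_lit 156) (PT.nd (nat_lit 78) (PT.lf (nat_lit 43472) (nat_lit 6) (nat_lit 572) (nat_lit 1) (nat_lit 201) (nat_lit 173) (nat_lit 196)) (PT.lf (nat_lit 43396) (nat_lit 6) (nat_lit 571) (nat_lit 1) (nat_lit 202) (nat_lit 173) (nat_lit 195))) (PT.nd (nat_lit 78) (PT.lf (nat_lit 43320) (nat_lit 6) (nat_lit 570) (nat_lit 1) (nat_lit 203) (nat_lit 173) (nat_lit 194)) (PT.lf (nat_lit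 43244) (nat_lit 6) (nat_lit 569) (nat_lit 1) (nat_lit 204) (nat_lit 173) (nat_lit 193)))) (PT.nd (nat_lit 156) (PT.nd (nat_lit 78) (PT.lf (nat_lit 43168) (nat_lit 6) (nat_lit 568) (nat_lit 1) (nat_lit 205) (nat_lit 173) (nat_lit 192)) (PT.lf (nat_lit 43092) (nat_lit 6) (nat_lit 567) (nat_lit 1) (nat_lit 206) (nat_lit 173) (nat_lit 191))) (PT.nd (nat_lit 78) (PT.lf (nat_lit 43016) (nat_lit 6) (nat_lit 566) (nat_lit 1) (nat_lit 207) (nat_lit 173) (nat_lit 190)) (PT.lf (nat_lit 41572) (nat_lit 6) (nat_lit 547) (nat_lit 1) (nat_lit 208) (nat_lit 173) (nat_lit 189))))))) (PT.nd (nat_lit 58188) (PT.nd (nat_lit 57564) (PT.nd (nat_lit 312) (PT.nd (nat_lit 156) (PT.nd (nat_lit 78) (PT.lf (nat_lit 40052) (nat_lit 6) (nat_lit 527) (nat_lit 1) (nat_lit 209) (nat_lit 173) (nat_lit 188)) (PT.lf (nat_lit 38456) (nat_lit 6) (nat_lit 506) (nat_lit 1) (nat_lit 210) (nat_lit 173) (nat_lit 187))) (PT.nd (nat_lit 78) (PT.lf (nat_lit 36784) (nat_lit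 6) (nat_lit 484) (nat_lit 1) (nat_lit 211) (nat_lit 173) (nat_lit 186)) (PT.lf (nat_lit 35036) (nat_lit 6) (nat_lit 461) (nat_lit 1) (nat_lit 212) (nat_lit 173) (nat_lit 185)))) (PT.nd (nat_lit 57096) (PT.nd (nat_lit 57018) (PT.lf (nat_lit 33212) (nat_lit 6) (nat_lit 437) (nat_lit 1) (nat_lit 213) (nat_lit 173) (nat_lit 184)) (PT.lf (nat_lit 33136) (nat_lit 6) (nat_lit 436) (nat_lit 3) (nat_lit 183) (nat_lit 174) (nat_lit 213))) (PT.nd (nat_lit 78) (PT.lf (nat_lit 34960) (nat_lit 6) (nat_lit 460) (nat_lit 3) (nat_lit 184) (nat_lit 174) (nat_lit 212)) (PT.lf (nat_lit 36708) (nat_lit 6) (nat_lit 483) (nat_lit 3) (nat_lit 185) (nat_lit 174) (nat_lit 211))))) (PT.nd (nat_lit 312) (PT.nd (nat_lit 156) (PT.nd (nat_lit 78) (PT.lf (nat_lit 38380) (nat_lit 6) (nat_lit 505) (nat_lit 3) (nat_lit 186) (nat_lit 174) (nat_lit 210)) (PT.lf (nat_lit 39976) (nat_lit 6) (nat_lit 526) (nat_lit 3) (nat_lit 187) (nat_lit 174) (nat_lit 209))) (PT.nd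 (nat_lit 78) (PT.lf (nat_lit 41496) (nat_lit 6) (nat_lit 546) (nat_lit 3) (nat_lit 188) (nat_lit 174) (nat_lit 208)) (PT.lf (nat_lit 42940) (nat_lit 6) (nat_lit 565) (nat_lit 3) (nat_lit 189) (nat_lit 174) (nat_lit 207)))) (PT.nd (nat_lit 156) (PT.nd (nat_lit 78) (PT.lf (nat_lit 44308) (nat_lit 6) (nat_lit 583) (nat_lit 3) (nat_lit 190) (nat_lit 174) (nat_lit 206)) (PT.lf (nat_lit 44384) (nat_lit 6) (nat_lit 584) (nat_lit 3) (nat_lit 191) (nat_lit 174) (nat_lit 205))) (PT.nd (nat_lit 78) (PT.lf (nat_lit 44460) (nat_lit 6) (nat_lit 585) (nat_lit 3) (nat_lit 192) (nat_lit 174) (nat_lit 204)) (PT.lf (nat_lit 44536) (nat_lit 6) (nat_lit 586) (nat_lit 3) (nat_lit 193) (nat_lit 174) (nat_lit 203)))))) (PT.nd (nat_lit 624) (PT.nd (nat_lit 312) (PT.nd (nat_lit 156) (PT.nd (nat_lit 78) (PT.lf (nat_lit 44612) (nat_lit 6) (nat_lit 587) (nat_lit 3) (nat_lit 194) (nat_lit 174) (nat_lit 202)) (PT.lf (nat_lit 44688) (nat_lit 6) (nat_lit 588)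 (nat_lit 3) (nat_lit 195) (nat_lit 174) (nat_lit 201))) (PT.nd (nat_lit 78) (PT.lf (nat_lit 44764) (nat_lit 6) (nat_lit 589) (nat_lit 3) (nat_lit 196) (nat_lit 174) (nat_lit 200)) (PT.lf (nat_lit 44840) (nat_lit 6) (nat_lit 590) (nat_lit 3) (nat_lit 197) (nat_lit 174) (nat_lit 199)))) (PT.nd (nat_lit 156) (PT.nd (nat_lit 78) (PT.lf (nat_lit 44916) (nat_lit 3) (nat_lit 591) (nat_lit 1) (nat_lit 198) (nat_lit 174) (nat_lit 198)) (PT.lf (nat_lit 44840) (nat_lit 6) (nat_lit 590) (nat_lit 1) (nat_lit 199) (nat_lit 174) (nat_lit 197))) (PT.nd (nat_lit 78) (PT.lf (nat_lit 44764) (nat_lit 6) (nat_lit 589) (nat_lit 1) (nat_lit 200) (nat_lit 174) (nat_lit 196)) (PT.lf (nat_lit 44688) (nat_lit 6) (nat_lit 588) (nat_lit 1) (nat_lit 201) (nat_lit 174) (nat_lit 195))))) (PT.nd (nat_lit 312) (PT.nd (nat_lit 156) (PT.nd (nat_lit 78) (PT.lf (nat_lit 44612) (nat_lit 6) (nat_lit 587) (nat_lit 1) (nat_lit 202) (nat_lit 174) (nat_lit 194)) (PT.lf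 (nat_lit 44536) (nat_lit 6) (nat_lit 586) (nat_lit 1) (nat_lit 203) (nat_lit 174) (nat_lit 193))) (PT.nd (nat_lit 78) (PT.lf (nat_lit 44460) (nat_lit 6) (nat_lit 585) (nat_lit 1) (nat_lit 204) (nat_lit 174) (nat_lit 192)) (PT.lf (nat_lit 44384) (nat_lit 6) (nat_lit 584) (nat_lit 1) (nat_lit 205) (nat_lit 174) (nat_lit 191)))) (PT.nd (nat_lit 156) (PT.nd (nat_lit 78) (PT.lf (nat_lit 44308) (nat_lit 6) (nat_lit 583) (nat_lit 1) (nat_lit 206) (nat_lit 174) (nat_lit 190)) (PT.lf (nat_lit 42940) (nat_lit 6) (nat_lit 565) (nat_lit 1) (nat_lit 207) (nat_lit 174) (nat_lit 189))) (PT.nd (nat_lit 78) (PT.lf (nat_lit 41496) (nat_lit 6) (nat_lit 546) (nat_lit 1) (nat_lit 208) (nat_lit 174) (nat_lit 188)) (PT.lf (nat_lit 39976) (nat_lit 6) (nat_lit 526) (nat_lit 1) (nat_lit 209) (nat_lit 174) (nat_lit 187))))))))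
noncomputable def pc16 : PT := (PT.nd (nat_lit 59280) (PT.nd (nat_lit 58032) (PT.nd (nat_lit 57408) (PT.nd (nat_lit 234) (PT.nd (nat_lit 78) (PT.lf (nat_lit 38380) (nat_lit 6) (nat_lit 505) (nat_lit 1) (nat_lit 210) (nat_lit 174) (nat_lit 186)) (PT.nd (nat_lit 78) (PT.lf (nat_lit 36708) (nat_lit 6) (nat_lit 483) (nat_lit 1) (nat_lit 211) (nat_lit 174) (nat_lit 185)) (PT.lf (nat_lit 34960) (nat_lit 6) (nat_lit 460) (nat_lit 1) (nat_lit 212) (nat_lit 174) (nat_lit 184)))) (PT.nd (nat_lit 57018) (PT.nd (nat_lit 56940) (PT.lf (nat_lit 33136) (nat_lit 6) (nat_lit 436) (nat_lit 1) (nat_lit 213) (nat_lit 174) (nat_lit 183)) (PT.lf (nat_lit 33060) (nat_lit 6) (nat_lit 435) (nat_lit 3) (nat_lit 182) (nat_lit 175) (nat_lit 213))) (PT.nd (nat_lit 78) (PT.lf (nat_lit 34884) (nat_lit 6) (nat_lit 459) (nat_lit 3) (nat_lit 183) (nat_lit 175) (nat_lit 212)) (PT.lf (nat_lit 36632) (nat_lit 6) (nat_lit 482) (nat_lit 3) (nat_lit 184) (nat_lit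 175) (nat_lit 211))))) (PT.nd (nat_lit 312) (PT.nd (nat_lit 156) (PT.nd (nat_lit 78) (PT.lf (nat_lit 38304) (nat_lit 6) (nat_lit 504) (nat_lit 3) (nat_lit 185) (nat_lit 175) (nat_lit 210)) (PT.lf (nat_lit 39900) (nat_lit 6) (nat_lit 525) (nat_lit 3) (nat_lit 186) (nat_lit 175) (nat_lit 209))) (PT.nd (nat_lit 78) (PT.lf (nat_lit 41420) (nat_lit 6) (nat_lit 545) (nat_lit 3) (nat_lit 187) (nat_lit 175) (nat_lit 208)) (PT.lf (nat_lit 42864) (nat_lit 6) (nat_lit 564) (nat_lit 3) (nat_lit 188) (nat_lit 175) (nat_lit 207)))) (PT.nd (nat_lit 156) (PT.nd (nat_lit 78) (PT.lf (nat_lit 44232) (nat_lit 6) (nat_lit 582) (nat_lit 3) (nat_lit 189) (nat_lit 175) (nat_lit 206)) (PT.lf (nat_lit 45524) (nat_lit 6) (nat_lit 599) (nat_lit 3) (nat_lit 190) (nat_lit 175) (nat_lit 205))) (PT.nd (nat_lit 78) (PT.lf (nat_lit 45600) (nat_lit 6) (nat_lit 600) (nat_lit 3) (nat_lit 191) (nat_lit 175) (nat_lit 204)) (PT.lf (nat_lit 45676) (nat_lit 6) (nat_lit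 601) (nat_lit 3) (nat_lit 192) (nat_lit 175) (nat_lit 203)))))) (PT.nd (nat_lit 624) (PT.nd (nat_lit 312) (PT.nd (nat_lit 156) (PT.nd (nat_lit 78) (PT.lf (nat_lit 45752) (nat_lit 6) (nat_lit 602) (nat_lit 3) (nat_lit 193) (nat_lit 175) (nat_lit 202)) (PT.lf (nat_lit 45828) (nat_lit 6) (nat_lit 603) (nat_lit 3) (nat_lit 194) (nat_lit 175) (nat_lit 201))) (PT.nd (nat_lit 78) (PT.lf (nat_lit 45904) (nat_lit 6) (nat_lit 604) (nat_lit 3) (nat_lit 195) (nat_lit 175) (nat_lit 200)) (PT.lf (nat_lit 45980) (nat_lit 6) (nat_lit 605) (nat_lit 3) (nat_lit 196) (nat_lit 175) (nat_lit 199)))) (PT.nd (nat_lit 156) (PT.nd (nat_lit 78) (PT.lf (nat_lit 46056) (nat_lit 6) (nat_lit 606) (nat_lit 3) (nat_lit 197) (nat_lit 175) (nat_lit 198)) (PT.lf (nat_lit 46056) (nat_lit 6) (nat_lit 606) (nat_lit 1) (nat_lit 198) (nat_lit 175) (nat_lit 197))) (PT.nd (nat_lit 78) (PT.lf (nat_lit 45980) (nat_lit 6) (nat_lit 605) (nat_lit 1) (nat_lit 199) (nat_lit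 175) (nat_lit 196)) (PT.lf (nat_lit 45904) (nat_lit 6) (nat_lit 604) (nat_lit 1) (nat_lit 200) (nat_lit 175) (nat_lit 195))))) (PT.nd (nat_lit 312) (PT.nd (nat_lit 156) (PT.nd (nat_lit 78) (PT.lf (nat_lit 45828) (nat_lit 6) (nat_lit 603) (nat_lit 1) (nat_lit 201) (nat_lit 175) (nat_lit 194)) (PT.lf (nat_lit 45752) (nat_lit 6) (nat_lit 602) (nat_lit 1) (nat_lit 202) (nat_lit 175) (nat_lit 193))) (PT.nd (nat_lit 78) (PT.lf (nat_lit 45676) (nat_lit 6) (nat_lit 601) (nat_lit 1) (nat_lit 203) (nat_lit 175) (nat_lit 192)) (PT.lf (nat_lit 45600) (nat_lit 6) (nat_lit 600) (nat_lit 1) (nat_lit 204) (nat_lit 175) (nat_lit 191)))) (PT.nd (nat_lit 156) (PT.nd (nat_lit 78) (PT.lf (nat_lit 45524) (nat_lit 6) (nat_lit 599) (nat_lit 1) (nat_lit 205) (nat_lit 175) (nat_lit 190)) (PT.lf (nat_lit 44232) (nat_lit 6) (nat_lit 582) (nat_lit 1) (nat_lit 206) (nat_lit 175) (nat_lit 189))) (PT.nd (nat_lit 78) (PT.lf (nat_lit 42864) (nat_lit 6) (nat_lit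 564) (nat_lit 1) (nat_lit 207) (nat_lit 175) (nat_lit 188)) (PT.lf (nat_lit 41420) (nat_lit 6) (nat_lit 545) (nat_lit 1) (nat_lit 208) (nat_lit 175) (nat_lit 187))))))) (PT.nd (nat_lit 57954) (PT.nd (nat_lit 57330) (PT.nd (nat_lit 234) (PT.nd (nat_lit 78) (PT.lf (nat_lit 39900) (nat_lit 6) (nat_lit 525) (nat_lit 1) (nat_lit 209) (nat_lit 175) (nat_lit 186)) (PT.nd (nat_lit 78) (PT.lf (nat_lit 38304) (nat_lit 6) (nat_lit 504) (nat_lit 1) (nat_lit 210) (nat_lit 175) (nat_lit 185)) (PT.lf (nat_lit 36632) (nat_lit 6) (nat_lit 482) (nat_lit 1) (nat_lit 211) (nat_lit 175) (nat_lit 184)))) (PT.nd (nat_lit 56940) (PT.nd (nat_lit 78) (PT.lf (nat_lit 34884) (nat_lit 6) (nat_lit 459) (nat_lit 1) (nat_lit 212) (nat_lit 175) (nat_lit 183)) (PT.lf (nat_lit 33060) (nat_lit 6) (nat_lit 435) (nat_lit 1) (nat_lit 213) (nat_lit 175) (nat_lit 182))) (PT.nd (nat_lit 78) (PT.lf (nat_lit 32984) (nat_lit 6) (nat_lit 434) (nat_lit 3) (nat_lit 181) (nat_lit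 176) (nat_lit 213)) (PT.lf (nat_lit 34808) (nat_lit 6) (nat_lit 458) (nat_lit 3) (nat_lit 182) (nat_lit 176) (nat_lit 212))))) (PT.nd (nat_lit 312) (PT.nd (nat_lit 156) (PT.nd (nat_lit 78) (PT.lf (nat_lit 36556) (nat_lit 6) (nat_lit 481) (nat_lit 3) (nat_lit 183) (nat_lit 176) (nat_lit 211)) (PT.lf (nat_lit 38228) (nat_lit 6) (nat_lit 503) (nat_lit 3) (nat_lit 184) (nat_lit 176) (nat_lit 210))) (PT.nd (nat_lit 78) (PT.lf (nat_lit 39824) (nat_lit 6) (nat_lit 524) (nat_lit 3) (nat_lit 185) (nat_lit 176) (nat_lit 209)) (PT.lf (nat_lit 41344) (nat_lit 6) (nat_lit 544) (nat_lit 3) (nat_lit 186) (nat_lit 176) (nat_lit 208)))) (PT.nd (nat_lit 156) (PT.nd (nat_lit 78) (PT.lf (nat_lit 42788) (nat_lit 6) (nat_lit 563) (nat_lit 3) (nat_lit 187) (nat_lit 176) (nat_lit 207)) (PT.lf (nat_lit 44156) (nat_lit 6) (nat_lit 581) (nat_lit 3) (nat_lit 188) (nat_lit 176) (nat_lit 206))) (PT.nd (nat_lit 78) (PT.lf (nat_lit 45448) (nat_lit 6) (nat_lit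 598) (nat_lit 3) (nat_lit 189) (nat_lit 176) (nat_lit 205)) (PT.lf (nat_lit 46664) (nat_lit 6) (nat_lit 614) (nat_lit 3) (nat_lit 190) (nat_lit 176) (nat_lit 204)))))) (PT.nd (nat_lit 624) (PT.nd (nat_lit 312) (PT.nd (nat_lit 156) (PT.nd (nat_lit 78) (PT.lf (nat_lit 46740) (nat_lit 6) (nat_lit 615) (nat_lit 3) (nat_lit 191) (nat_lit 176) (nat_lit 203)) (PT.lf (nat_lit 46816) (nat_lit 6) (nat_lit 616) (nat_lit 3) (nat_lit 192) (nat_lit 176) (nat_lit 202))) (PT.nd (nat_lit 78) (PT.lf (nat_lit 46892) (nat_lit 6) (nat_lit 617) (nat_lit 3) (nat_lit 193) (nat_lit 176) (nat_lit 201)) (PT.lf (nat_lit 46968) (nat_lit 6) (nat_lit 618) (nat_lit 3) (nat_lit 194) (nat_lit 176) (nat_lit 200)))) (PT.nd (nat_lit 156) (PT.nd (nat_lit 78) (PT.lf (nat_lit 47044) (nat_lit 6) (nat_lit 619) (nat_lit 3) (nat_lit 195) (nat_lit 176) (nat_lit 199)) (PT.lf (nat_lit 47120) (nat_lit 6) (nat_lit 620) (nat_lit 3) (nat_lit 196) (nat_lit 176) (nat_lit 198)))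 (PT.nd (nat_lit 78) (PT.lf (nat_lit 47196) (nat_lit 3) (nat_lit 621) (nat_lit 1) (nat_lit 197) (nat_lit 176) (nat_lit 197)) (PT.lf (nat_lit 47120) (nat_lit 6) (nat_lit 620) (nat_lit 1) (nat_lit 198) (nat_lit 176) (nat_lit 196))))) (PT.nd (nat_lit 312) (PT.nd (nat_lit 156) (PT.nd (nat_lit 78) (PT.lf (nat_lit 47044) (nat_lit 6) (nat_lit 619) (nat_lit 1) (nat_lit 199) (nat_lit 176) (nat_lit 195)) (PT.lf (nat_lit 46968) (nat_lit 6) (nat_lit 618) (nat_lit 1) (nat_lit 200) (nat_lit 176) (nat_lit 194))) (PT.nd (nat_lit 78) (PT.lf (nat_lit 46892) (nat_lit 6) (nat_lit 617) (nat_lit 1) (nat_lit 201) (nat_lit 176) (nat_lit 193)) (PT.lf (nat_lit 46816) (nat_lit 6) (nat_lit 616) (nat_lit 1) (nat_lit 202) (nat_lit 176) (nat_lit 192)))) (PT.nd (nat_lit 156) (PT.nd (nat_lit 78) (PT.lf (nat_lit 46740) (nat_lit 6) (nat_lit 615) (nat_lit 1) (nat_lit 203) (nat_lit 176) (nat_lit 191)) (PT.lf (nat_lit 46664) (nat_lit 6) (nat_lit 614) (nat_lit 1)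 (nat_lit 204) (nat_lit 176) (nat_lit 190))) (PT.nd (nat_lit 78) (PT.lf (nat_lit 45448) (nat_lit 6) (nat_lit 598) (nat_lit 1) (nat_lit 205) (nat_lit 176) (nat_lit 189)) (PT.lf (nat_lit 44156) (nat_lit 6) (nat_lit 581) (nat_lit 1) (nat_lit 206) (nat_lit 176) (nat_lit 188))))))))
noncomputable def pc17 : PT := (PT.nd (nat_lit 59124) (PT.nd (nat_lit 57876) (PT.nd (nat_lit 57252) (PT.nd (nat_lit 234) (PT.nd (nat_lit 78) (PT.lf (nat_lit 42788) (nat_lit 6) (nat_lit 563) (nat_lit 1) (nat_lit 207) (nat_lit 176) (nat_lit 187)) (PT.nd (nat_lit 78) (PT.lf (nat_lit 41344) (nat_lit 6) (nat_lit 544) (nat_lit 1) (nat_lit 208) (nat_lit 176) (nat_lit 186)) (PT.lf (nat_lit 39824) (nat_lit 6) (nat_lit 524) (nat_lit 1) (nat_lit 209) (nat_lit 176) (nat_lit 185)))) (PT.nd (nat_lit 156) (PT.nd (nat_lit 78) (PT.lf (nat_lit 38228) (nat_lit 6) (nat_lit 503) (nat_lit 1) (nat_lit 210) (nat_lit 176) (nat_lit 184)) (PT.lf (nat_lit 36556) (nat_lit 6) (nat_lit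 481) (nat_lit 1) (nat_lit 211) (nat_lit 176) (nat_lit 183))) (PT.nd (nat_lit 78) (PT.lf (nat_lit 34808) (nat_lit 6) (nat_lit 458) (nat_lit 1) (nat_lit 212) (nat_lit 176) (nat_lit 182)) (PT.lf (nat_lit 32984) (nat_lit 6) (nat_lit 434) (nat_lit 1) (nat_lit 213) (nat_lit 176) (nat_lit 181))))) (PT.nd (nat_lit 312) (PT.nd (nat_lit 156) (PT.nd (nat_lit 78) (PT.lf (nat_lit 32908) (nat_lit 6) (nat_lit 433) (nat_lit 3) (nat_lit 180) (nat_lit 177) (nat_lit 213)) (PT.lf (nat_lit 34732) (nat_lit 6) (nat_lit 457) (nat_lit 3) (nat_lit 181) (nat_lit 177) (nat_lit 212))) (PT.nd (nat_lit 78) (PT.lf (nat_lit 36480) (nat_lit 6) (nat_lit 480) (nat_lit 3) (nat_lit 182) (nat_lit 177) (nat_lit 211)) (PT.lf (nat_lit 38152) (nat_lit 6) (nat_lit 502) (nat_lit 3) (nat_lit 183) (nat_lit 177) (nat_lit 210)))) (PT.nd (nat_lit 156) (PT.nd (nat_lit 78) (PT.lf (nat_lit 39748) (nat_lit 6) (nat_lit 523) (nat_lit 3) (nat_lit 184) (nat_lit 177) (nat_lit 209))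 (PT.lf (nat_lit 41268) (nat_lit 6) (nat_lit 543) (nat_lit 3) (nat_lit 185) (nat_lit 177) (nat_lit 208))) (PT.nd (nat_lit 78) (PT.lf (nat_lit 42712) (nat_lit 6) (nat_lit 562) (nat_lit 3) (nat_lit 186) (nat_lit 177) (nat_lit 207)) (PT.lf (nat_lit 44080) (nat_lit 6) (nat_lit 580) (nat_lit 3) (nat_lit 187) (nat_lit 177) (nat_lit 206)))))) (PT.nd (nat_lit 624) (PT.nd (nat_lit 312) (PT.nd (nat_lit 156) (PT.nd (nat_lit 78) (PT.lf (nat_lit 45372) (nat_lit 6) (nat_lit 597) (nat_lit 3) (nat_lit 188) (nat_lit 177) (nat_lit 205)) (PT.lf (nat_lit 46588) (nat_lit 6) (nat_lit 613) (nat_lit 3) (nat_lit 189) (nat_lit 177) (nat_lit 204))) (PT.nd (nat_lit 78) (PT.lf (nat_lit 47728) (nat_lit 6) (nat_lit 628) (nat_lit 3) (nat_lit 190) (nat_lit 177) (nat_lit 203)) (PT.lf (nat_lit 47804) (nat_lit 6) (nat_lit 629) (nat_lit 3) (nat_lit 191) (nat_lit 177) (nat_lit 202)))) (PT.nd (nat_lit 156) (PT.nd (nat_lit 78) (PT.lf (nat_lit 47880) (nat_lit 6) (nat_lit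 630) (nat_lit 3) (nat_lit 192) (nat_lit 177) (nat_lit 201)) (PT.lf (nat_lit 47956) (nat_lit 6) (nat_lit 631) (nat_lit 3) (nat_lit 193) (nat_lit 177) (nat_lit 200))) (PT.nd (nat_lit 78) (PT.lf (nat_lit 48032) (nat_lit 6) (nat_lit 632) (nat_lit 3) (nat_lit 194) (nat_lit 177) (nat_lit 199)) (PT.lf (nat_lit 48108) (nat_lit 6) (nat_lit 633) (nat_lit 3) (nat_lit 195) (nat_lit 177) (nat_lit 198))))) (PT.nd (nat_lit 312) (PT.nd (nat_lit 156) (PT.nd (nat_lit 78) (PT.lf (nat_lit 48184) (nat_lit 6) (nat_lit 634) (nat_lit 3) (nat_lit 196) (nat_lit 177) (nat_lit 197)) (PT.lf (nat_lit 48184) (nat_lit 6) (nat_lit 634) (nat_lit 1) (nat_lit 197) (nat_lit 177) (nat_lit 196))) (PT.nd (nat_lit 78) (PT.lf (nat_lit 48108) (nat_lit 6) (nat_lit 633) (nat_lit 1) (nat_lit 198) (nat_lit 177) (nat_lit 195)) (PT.lf (nat_lit 48032) (nat_lit 6) (nat_lit 632) (nat_lit 1) (nat_lit 199) (nat_lit 177) (nat_lit 194)))) (PT.nd (nat_lit 156) (PT.nd (nat_lit 78)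 (PT.lf (nat_lit 47956) (nat_lit 6) (nat_lit 631) (nat_lit 1) (nat_lit 200) (nat_lit 177) (nat_lit 193)) (PT.lf (nat_lit 47880) (nat_lit 6) (nat_lit 630) (nat_lit 1) (nat_lit 201) (nat_lit 177) (nat_lit 192))) (PT.nd (nat_lit 78) (PT.lf (nat_lit 47804) (nat_lit 6) (nat_lit 629) (nat_lit 1) (nat_lit 202) (nat_lit 177) (nat_lit 191)) (PT.lf (nat_lit 47728) (nat_lit 6) (nat_lit 628) (nat_lit 1) (nat_lit 203) (nat_lit 177) (nat_lit 190))))))) (PT.nd (nat_lit 57876) (PT.nd (nat_lit 624) (PT.nd (nat_lit 312) (PT.nd (nat_lit 156) (PT.nd (nat_lit 78) (PT.lf (nat_lit 46588) (nat_lit 6) (nat_lit 613) (nat_lit 1) (nat_lit 204) (nat_lit 177) (nat_lit 189)) (PT.lf (nat_lit 45372) (nat_lit 6) (nat_lit 597) (nat_lit 1) (nat_lit 205) (nat_lit 177) (nat_lit 188))) (PT.nd (nat_lit 78) (PT.lf (nat_lit 44080) (nat_lit 6) (nat_lit 580) (nat_lit 1) (nat_lit 206) (nat_lit 177) (nat_lit 187)) (PT.lf (nat_lit 42712) (nat_lit 6) (nat_lit 562) (nat_lit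 1) (nat_lit 207) (nat_lit 177) (nat_lit 186)))) (PT.nd (nat_lit 156) (PT.nd (nat_lit 78) (PT.lf (nat_lit 41268) (nat_lit 6) (nat_lit 543) (nat_lit 1) (nat_lit 208) (nat_lit 177) (nat_lit 185)) (PT.lf (nat_lit 39748) (nat_lit 6) (nat_lit 523) (nat_lit 1) (nat_lit 209) (nat_lit 177) (nat_lit 184))) (PT.nd (nat_lit 78) (PT.lf (nat_lit 38152) (nat_lit 6) (nat_lit 502) (nat_lit 1) (nat_lit 210) (nat_lit 177) (nat_lit 183)) (PT.lf (nat_lit 36480) (nat_lit 6) (nat_lit 480) (nat_lit 1) (nat_lit 211) (nat_lit 177) (nat_lit 182))))) (PT.nd (nat_lit 56940) (PT.nd (nat_lit 56784) (PT.nd (nat_lit 78) (PT.lf (nat_lit 34732) (nat_lit 6) (nat_lit 457) (nat_lit 1) (nat_lit 212) (nat_lit 177) (nat_lit 181)) (PT.lf (nat_lit 32908) (nat_lit 6) (nat_lit 433) (nat_lit 1) (nat_lit 213) (nat_lit 177) (nat_lit 180))) (PT.nd (nat_lit 78) (PT.lf (nat_lit 32832) (nat_lit 6) (nat_lit 432) (nat_lit 3) (nat_lit 179) (nat_lit 178) (nat_lit 213)) (PT.lf (nat_lit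 34656) (nat_lit 6) (nat_lit 456) (nat_lit 3) (nat_lit 180) (nat_lit 178) (nat_lit 212)))) (PT.nd (nat_lit 156) (PT.nd (nat_lit 78) (PT.lf (nat_lit 36404) (nat_lit 6) (nat_lit 479) (nat_lit 3) (nat_lit 181) (nat_lit 178) (nat_lit 211)) (PT.lf (nat_lit 38076) (nat_lit 6) (nat_lit 501) (nat_lit 3) (nat_lit 182) (nat_lit 178) (nat_lit 210))) (PT.nd (nat_lit 78) (PT.lf (nat_lit 39672) (nat_lit 6) (nat_lit 522) (nat_lit 3) (nat_lit 183) (nat_lit 178) (nat_lit 209)) (PT.lf (nat_lit 41192) (nat_lit 6) (nat_lit 542) (nat_lit 3) (nat_lit 184) (nat_lit 178) (nat_lit 208)))))) (PT.nd (nat_lit 624) (PT.nd (nat_lit 312) (PT.nd (nat_lit 156) (PT.nd (nat_lit 78) (PT.lf (nat_lit 42636) (nat_lit 6) (nat_lit 561) (nat_lit 3) (nat_lit 185) (nat_lit 178) (nat_lit 207)) (PT.lf (nat_lit 44004) (nat_lit 6) (nat_lit 579) (nat_lit 3) (nat_lit 186) (nat_lit 178) (nat_lit 206))) (PT.nd (nat_lit 78) (PT.lf (nat_lit 45296) (nat_lit 6) (nat_lit 596) (nat_lit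 3) (nat_lit 187) (nat_lit 178) (nat_lit 205)) (PT.lf (nat_lit 46512) (nat_lit 6) (nat_lit 612) (nat_lit 3) (nat_lit 188) (nat_lit 178) (nat_lit 204)))) (PT.nd (nat_lit 156) (PT.nd (nat_lit 78) (PT.lf (nat_lit 47652) (nat_lit 6) (nat_lit 627) (nat_lit 3) (nat_lit 189) (nat_lit 178) (nat_lit 203)) (PT.lf (nat_lit 48716) (nat_lit 6) (nat_lit 641) (nat_lit 3) (nat_lit 190) (nat_lit 178) (nat_lit 202))) (PT.nd (nat_lit 78) (PT.lf (nat_lit 48792) (nat_lit 6) (nat_lit 642) (nat_lit 3) (nat_lit 191) (nat_lit 178) (nat_lit 201)) (PT.lf (nat_lit 48868) (nat_lit 6) (nat_lit 643) (nat_lit 3) (nat_lit 192) (nat_lit 178) (nat_lit 200))))) (PT.nd (nat_lit 312) (PT.nd (nat_lit 156) (PT.nd (nat_lit 78) (PT.lf (nat_lit 48944) (nat_lit 6) (nat_lit 644) (nat_lit 3) (nat_lit 193) (nat_lit 178) (nat_lit 199)) (PT.lf (nat_lit 49020) (nat_lit 6) (nat_lit 645) (nat_lit 3) (nat_lit 194) (nat_lit 178) (nat_lit 198))) (PT.nd (nat_lit 78) (PT.lf (nat_lit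 49096) (nat_lit 6) (nat_lit 646) (nat_lit 3) (nat_lit 195) (nat_lit 178) (nat_lit 197)) (PT.lf (nat_lit 49172) (nat_lit 3) (nat_lit 647) (nat_lit 1) (nat_lit 196) (nat_lit 178) (nat_lit 196)))) (PT.nd (nat_lit 156) (PT.nd (nat_lit 78) (PT.lf (nat_lit 49096) (nat_lit 6) (nat_lit 646) (nat_lit 1) (nat_lit 197) (nat_lit 178) (nat_lit 195)) (PT.lf (nat_lit 49020) (nat_lit 6) (nat_lit 645) (nat_lit 1) (nat_lit 198) (nat_lit 178) (nat_lit 194))) (PT.nd (nat_lit 78) (PT.lf (nat_lit 48944) (nat_lit 6) (nat_lit 644) (nat_lit 1) (nat_lit 199) (nat_lit 178) (nat_lit 193)) (PT.lf (nat_lit 48868) (nat_lit 6) (nat_lit 643) (nat_lit 1) (nat_lit 200) (nat_lit 178) (nat_lit 192))))))))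
noncomputable def pc18 : PT := (PT.nd (nat_lit 58968) (PT.nd (nat_lit 57720) (PT.nd (nat_lit 546) (PT.nd (nat_lit 234) (PT.nd (nat_lit 78) (PT.lf (nat_lit 48792) (nat_lit 6) (nat_lit 642) (nat_lit 1) (nat_lit 201) (nat_lit 178) (nat_lit 191)) (PT.nd (nat_lit 78) (PT.lf (nat_lit 48716) (nat_lit 6) (nat_lit 641) (nat_lit 1) (nat_lit 202) (nat_lit 178) (nat_lit 190)) (PT.lf (nat_lit 47652) (nat_lit 6) (nat_lit 627) (nat_lit 1) (nat_lit 203) (nat_lit 178) (nat_lit 189)))) (PT.nd (nat_lit 156) (PT.nd (nat_lit 78) (PT.lf (nat_lit 46512) (nat_lit 6) (nat_lit 612) (nat_lit 1) (nat_lit 204) (nat_lit 178) (nat_lit 188)) (PT.lf (nat_lit 45296) (nat_lit 6) (nat_lit 596) (nat_lit 1) (nat_lit 205) (nat_lit 178) (nat_lit 187))) (PT.nd (nat_lit 78) (PT.lf (nat_lit 44004) (nat_lit 6) (nat_lit 579) (nat_lit 1) (nat_lit 206) (nat_lit 178) (nat_lit 186)) (PT.lf (nat_lit 42636) (nat_lit 6) (nat_lit 561) (nat_lit 1) (nat_lit 207) (nat_lit 178) (nat_lit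 185))))) (PT.nd (nat_lit 312) (PT.nd (nat_lit 156) (PT.nd (nat_lit 78) (PT.lf (nat_lit 41192) (nat_lit 6) (nat_lit 542) (nat_lit 1) (nat_lit 208) (nat_lit 178) (nat_lit 184)) (PT.lf (nat_lit 39672) (nat_lit 6) (nat_lit 522) (nat_lit 1) (nat_lit 209) (nat_lit 178) (nat_lit 183))) (PT.nd (nat_lit 78) (PT.lf (nat_lit 38076) (nat_lit 6) (nat_lit 501) (nat_lit 1) (nat_lit 210) (nat_lit 178) (nat_lit 182)) (PT.lf (nat_lit 36404) (nat_lit 6) (nat_lit 479) (nat_lit 1) (nat_lit 211) (nat_lit 178) (nat_lit 181)))) (PT.nd (nat_lit 56706) (PT.nd (nat_lit 78) (PT.lf (nat_lit 34656) (nat_lit 6) (nat_lit 456) (nat_lit 1) (nat_lit 212) (nat_lit 178) (nat_lit 180)) (PT.lf (nat_lit 32832) (nat_lit 6) (nat_lit 432) (nat_lit 1) (nat_lit 213) (nat_lit 178) (nat_lit 179))) (PT.nd (nat_lit 78) (PT.lf (nat_lit 32832) (nat_lit 6) (nat_lit 432) (nat_lit 5) (nat_lit 178) (nat_lit 179) (nat_lit 213)) (PT.lf (nat_lit 34580) (nat_lit 3) (nat_lit 455) (nat_lit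 3) (nat_lit 179) (nat_lit 179) (nat_lit 212)))))) (PT.nd (nat_lit 624) (PT.nd (nat_lit 312) (PT.nd (nat_lit 156) (PT.nd (nat_lit 78) (PT.lf (nat_lit 36328) (nat_lit 6) (nat_lit 478) (nat_lit 3) (nat_lit 180) (nat_lit 179) (nat_lit 211)) (PT.lf (nat_lit 38000) (nat_lit 6) (nat_lit 500) (nat_lit 3) (nat_lit 181) (nat_lit 179) (nat_lit 210))) (PT.nd (nat_lit 78) (PT.lf (nat_lit 39596) (nat_lit 6) (nat_lit 521) (nat_lit 3) (nat_lit 182) (nat_lit 179) (nat_lit 209)) (PT.lf (nat_lit 41116) (nat_lit 6) (nat_lit 541) (nat_lit 3) (nat_lit 183) (nat_lit 179) (nat_lit 208)))) (PT.nd (nat_lit 156) (PT.nd (nat_lit 78) (PT.lf (nat_lit 42560) (nat_lit 6) (nat_lit 560) (nat_lit 3) (nat_lit 184) (nat_lit 179) (nat_lit 207)) (PT.lf (nat_lit 43928) (nat_lit 6) (nat_lit 578) (nat_lit 3) (nat_lit 185) (nat_lit 179) (nat_lit 206))) (PT.nd (nat_lit 78) (PT.lf (nat_lit 45220) (nat_lit 6) (nat_lit 595) (nat_lit 3) (nat_lit 186) (nat_lit 179) (nat_lit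 205)) (PT.lf (nat_lit 46436) (nat_lit 6) (nat_lit 611) (nat_lit 3) (nat_lit 187) (nat_lit 179) (nat_lit 204))))) (PT.nd (nat_lit 312) (PT.nd (nat_lit 156) (PT.nd (nat_lit 78) (PT.lf (nat_lit 47576) (nat_lit 6) (nat_lit 626) (nat_lit 3) (nat_lit 188) (nat_lit 179) (nat_lit 203)) (PT.lf (nat_lit 48640) (nat_lit 6) (nat_lit 640) (nat_lit 3) (nat_lit 189) (nat_lit 179) (nat_lit 202))) (PT.nd (nat_lit 78) (PT.lf (nat_lit 49628) (nat_lit 6) (nat_lit 653) (nat_lit 3) (nat_lit 190) (nat_lit 179) (nat_lit 201)) (PT.lf (nat_lit 49704) (nat_lit 6) (nat_lit 654) (nat_lit 3) (nat_lit 191) (nat_lit 179) (nat_lit 200)))) (PT.nd (nat_lit 156) (PT.nd (nat_lit 78) (PT.lf (nat_lit 49780) (nat_lit 6) (nat_lit 655) (nat_lit 3) (nat_lit 192) (nat_lit 179) (nat_lit 199)) (PT.lf (nat_lit 49856) (nat_lit 6) (nat_lit 656) (nat_lit 3) (nat_lit 193) (nat_lit 179) (nat_lit 198))) (PT.nd (nat_lit 78) (PT.lf (nat_lit 49932) (nat_lit 6) (nat_lit 657) (nat_lit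 3) (nat_lit 194) (nat_lit 179) (nat_lit 197)) (PT.lf (nat_lit 50008) (nat_lit 6) (nat_lit 658) (nat_lit 3) (nat_lit 195) (nat_lit 179) (nat_lit 196))))))) (PT.nd (nat_lit 1248) (PT.nd (nat_lit 624) (PT.nd (nat_lit 312) (PT.nd (nat_lit 156) (PT.nd (nat_lit 78) (PT.lf (nat_lit 50008) (nat_lit 6) (nat_lit 658) (nat_lit 1) (nat_lit 196) (nat_lit 179) (nat_lit 195)) (PT.lf (nat_lit 49932) (nat_lit 6) (nat_lit 657) (nat_lit 1) (nat_lit 197) (nat_lit 179) (nat_lit 194))) (PT.nd (nat_lit 78) (PT.lf (nat_lit 49856) (nat_lit 6) (nat_lit 656) (nat_lit 1) (nat_lit 198) (nat_lit 179) (nat_lit 193)) (PT.lf (nat_lit 49780) (nat_lit 6) (nat_lit 655) (nat_lit 1) (nat_lit 199) (nat_lit 179) (nat_lit 192)))) (PT.nd (nat_lit 156) (PT.nd (nat_lit 78) (PT.lf (nat_lit 49704) (nat_lit 6) (nat_lit 654) (nat_lit 1) (nat_lit 200) (nat_lit 179) (nat_lit 191)) (PT.lf (nat_lit 49628) (nat_lit 6) (nat_lit 653) (nat_lit 1) (nat_lit 201) (nat_lit 179) (nat_lit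 190))) (PT.nd (nat_lit 78) (PT.lf (nat_lit 48640) (nat_lit 6) (nat_lit 640) (nat_lit 1) (nat_lit 202) (nat_lit 179) (nat_lit 189)) (PT.lf (nat_lit 47576) (nat_lit 6) (nat_lit 626) (nat_lit 1) (nat_lit 203) (nat_lit 179) (nat_lit 188))))) (PT.nd (nat_lit 312) (PT.nd (nat_lit 156) (PT.nd (nat_lit 78) (PT.lf (nat_lit 46436) (nat_lit 6) (nat_lit 611) (nat_lit 1) (nat_lit 204) (nat_lit 179) (nat_lit 187)) (PT.lf (nat_lit 45220) (nat_lit 6) (nat_lit 595) (nat_lit 1) (nat_lit 205) (nat_lit 179) (nat_lit 186))) (PT.nd (nat_lit 78) (PT.lf (nat_lit 43928) (nat_lit 6) (nat_lit 578) (nat_lit 1) (nat_lit 206) (nat_lit 179) (nat_lit 185)) (PT.lf (nat_lit 42560) (nat_lit 6) (nat_lit 560) (nat_lit 1) (nat_lit 207) (nat_lit 179) (nat_lit 184)))) (PT.nd (nat_lit 156) (PT.nd (nat_lit 78) (PT.lf (nat_lit 41116) (nat_lit 6) (nat_lit 541) (nat_lit 1) (nat_lit 208) (nat_lit 179) (nat_lit 183)) (PT.lf (nat_lit 39596) (nat_lit 6) (nat_lit 521) (nat_lit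 1) (nat_lit 209) (nat_lit 179) (nat_lit 182))) (PT.nd (nat_lit 78) (PT.lf (nat_lit 38000) (nat_lit 6) (nat_lit 500) (nat_lit 1) (nat_lit 210) (nat_lit 179) (nat_lit 181)) (PT.lf (nat_lit 36328) (nat_lit 6) (nat_lit 478) (nat_lit 1) (nat_lit 211) (nat_lit 179) (nat_lit 180)))))) (PT.nd (nat_lit 57096) (PT.nd (nat_lit 56784) (PT.nd (nat_lit 56628) (PT.nd (nat_lit 78) (PT.lf (nat_lit 34580) (nat_lit 3) (nat_lit 455) (nat_lit 0) (nat_lit 212) (nat_lit 179) (nat_lit 179)) (PT.lf (nat_lit 32832) (nat_lit 6) (nat_lit 432) (nat_lit 0) (nat_lit 213) (nat_lit 179) (nat_lit 178))) (PT.nd (nat_lit 78) (PT.lf (nat_lit 32908) (nat_lit 6) (nat_lit 433) (nat_lit 5) (nat_lit 177) (nat_lit 180) (nat_lit 213)) (PT.lf (nat_lit 34656) (nat_lit 6) (nat_lit 456) (nat_lit 5) (nat_lit 178) (nat_lit 180) (nat_lit 212)))) (PT.nd (nat_lit 156) (PT.nd (nat_lit 78) (PT.lf (nat_lit 36328) (nat_lit 6) (nat_lit 478) (nat_lit 5) (nat_lit 179) (nat_lit 180) (nat_lit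 211)) (PT.lf (nat_lit 37924) (nat_lit 3) (nat_lit 499) (nat_lit 3) (nat_lit 180) (nat_lit 180) (nat_lit 210))) (PT.nd (nat_lit 78) (PT.lf (nat_lit 39520) (nat_lit 6) (nat_lit 520) (nat_lit 3) (nat_lit 181) (nat_lit 180) (nat_lit 209)) (PT.lf (nat_lit 41040) (nat_lit 6) (nat_lit 540) (nat_lit 3) (nat_lit 182) (nat_lit 180) (nat_lit 208))))) (PT.nd (nat_lit 312) (PT.nd (nat_lit 156) (PT.nd (nat_lit 78) (PT.lf (nat_lit 42484) (nat_lit 6) (nat_lit 559) (nat_lit 3) (nat_lit 183) (nat_lit 180) (nat_lit 207)) (PT.lf (nat_lit 43852) (nat_lit 6) (nat_lit 577) (nat_lit 3) (nat_lit 184) (nat_lit 180) (nat_lit 206))) (PT.nd (nat_lit 78) (PT.lf (nat_lit 45144) (nat_lit 6) (nat_lit 594) (nat_lit 3) (nat_lit 185) (nat_lit 180) (nat_lit 205)) (PT.lf (nat_lit 46360) (nat_lit 6) (nat_lit 610) (nat_lit 3) (nat_lit 186) (nat_lit 180) (nat_lit 204)))) (PT.nd (nat_lit 156) (PT.nd (nat_lit 78) (PT.lf (nat_lit 47500) (nat_lit 6) (nat_lit 625) (nat_lit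 3) (nat_lit 187) (nat_lit 180) (nat_lit 203)) (PT.lf (nat_lit 48564) (nat_lit 6) (nat_lit 639) (nat_lit 3) (nat_lit 188) (nat_lit 180) (nat_lit 202))) (PT.nd (nat_lit 78) (PT.lf (nat_lit 49552) (nat_lit 6) (nat_lit 652) (nat_lit 3) (nat_lit 189) (nat_lit 180) (nat_lit 201)) (PT.lf (nat_lit 50464) (nat_lit 6) (nat_lit 664) (nat_lit 3) (nat_lit 190) (nat_lit 180) (nat_lit 200))))))))
noncomputable def pc19 : PT := (PT.nd (nat_lit 58812) (PT.nd (nat_lit 1170) (PT.nd (nat_lit 546) (PT.nd (nat_lit 234) (PT.nd (nat_lit 78) (PT.lf (nat_lit 50540) (nat_lit 6) (nat_lit 665) (nat_lit 3) (nat_lit 191) (nat_lit 180) (nat_lit 199)) (PT.nd (nat_lit 78) (PT.lf (nat_lit 50616) (nat_lit 6) (nat_lit 666) (nat_lit 3) (nat_lit 192) (nat_lit 180) (nat_lit 198)) (PT.lf (nat_lit 50692) (nat_lit 6) (nat_lit 667) (nat_lit 3) (nat_lit 193) (nat_lit 180) (nat_lit 197)))) (PT.nd (nat_lit 156) (PT.nd (nat_lit 78) (PT.lf (nat_lit 50768) (nat_lit 6) (nat_lit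 668) (nat_lit 3) (nat_lit 194) (nat_lit 180) (nat_lit 196)) (PT.lf (nat_lit 50844) (nat_lit 3) (nat_lit 669) (nat_lit 1) (nat_lit 195) (nat_lit 180) (nat_lit 195))) (PT.nd (nat_lit 78) (PT.lf (nat_lit 50768) (nat_lit 6) (nat_lit 668) (nat_lit 1) (nat_lit 196) (nat_lit 180) (nat_lit 194)) (PT.lf (nat_lit 50692) (nat_lit 6) (nat_lit 667) (nat_lit 1) (nat_lit 197) (nat_lit 180) (nat_lit 193))))) (PT.nd (nat_lit 312) (PT.nd (nat_lit 156) (PT.nd (nat_lit 78) (PT.lf (nat_lit 50616) (nat_lit 6) (nat_lit 666) (nat_lit 1) (nat_lit 198) (nat_lit 180) (nat_lit 192)) (PT.lf (nat_lit 50540) (nat_lit 6) (nat_lit 665) (nat_lit 1) (nat_lit 199) (nat_lit 180) (nat_lit 191))) (PT.nd (nat_lit 78) (PT.lf (nat_lit 50464) (nat_lit 6) (nat_lit 664) (nat_lit 1) (nat_lit 200) (nat_lit 180) (nat_lit 190)) (PT.lf (nat_lit 49552) (nat_lit 6) (nat_lit 652) (nat_lit 1) (nat_lit 201) (nat_lit 180) (nat_lit 189)))) (PT.nd (nat_lit 156) (PT.nd (nat_lit 78)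 (PT.lf (nat_lit 48564) (nat_lit 6) (nat_lit 639) (nat_lit 1) (nat_lit 202) (nat_lit 180) (nat_lit 188)) (PT.lf (nat_lit 47500) (nat_lit 6) (nat_lit 625) (nat_lit 1) (nat_lit 203) (nat_lit 180) (nat_lit 187))) (PT.nd (nat_lit 78) (PT.lf (nat_lit 46360) (nat_lit 6) (nat_lit 610) (nat_lit 1) (nat_lit 204) (nat_lit 180) (nat_lit 186)) (PT.lf (nat_lit 45144) (nat_lit 6) (nat_lit 594) (nat_lit 1) (nat_lit 205) (nat_lit 180) (nat_lit 185)))))) (PT.nd (nat_lit 57018) (PT.nd (nat_lit 312) (PT.nd (nat_lit 156) (PT.nd (nat_lit 78) (PT.lf (nat_lit 43852) (nat_lit 6) (nat_lit 577) (nat_lit 1) (nat_lit 206) (nat_lit 180) (nat_lit 184)) (PT.lf (nat_lit 42484) (nat_lit 6) (nat_lit 559) (nat_lit 1) (nat_lit 207) (nat_lit 180) (nat_lit 183))) (PT.nd (nat_lit 78) (PT.lf (nat_lit 41040) (nat_lit 6) (nat_lit 540) (nat_lit 1) (nat_lit 208) (nat_lit 180) (nat_lit 182)) (PT.lf (nat_lit 39520) (nat_lit 6) (nat_lit 520) (nat_lit 1) (nat_lit 209) (nat_lit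 180) (nat_lit 181)))) (PT.nd (nat_lit 156) (PT.nd (nat_lit 78) (PT.lf (nat_lit 37924) (nat_lit 3) (nat_lit 499) (nat_lit 0) (nat_lit 210) (nat_lit 180) (nat_lit 180)) (PT.lf (nat_lit 36328) (nat_lit 6) (nat_lit 478) (nat_lit 0) (nat_lit 211) (nat_lit 180) (nat_lit 179))) (PT.nd (nat_lit 78) (PT.lf (nat_lit 34656) (nat_lit 6) (nat_lit 456) (nat_lit 0) (nat_lit 212) (nat_lit 180) (nat_lit 178)) (PT.lf (nat_lit 32908) (nat_lit 6) (nat_lit 433) (nat_lit 0) (nat_lit 213) (nat_lit 180) (nat_lit 177))))) (PT.nd (nat_lit 312) (PT.nd (nat_lit 156) (PT.nd (nat_lit 78) (PT.lf (nat_lit 32984) (nat_lit 6) (nat_lit 434) (nat_lit 5) (nat_lit 176) (nat_lit 181) (nat_lit 213)) (PT.lf (nat_lit 34732) (nat_lit 6) (nat_lit 457) (nat_lit 5) (nat_lit 177) (nat_lit 181) (nat_lit 212))) (PT.nd (nat_lit 78) (PT.lf (nat_lit 36404) (nat_lit 6) (nat_lit 479) (nat_lit 5) (nat_lit 178) (nat_lit 181) (nat_lit 211)) (PT.lf (nat_lit 38000) (nat_lit 6) (nat_lit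 500) (nat_lit 5) (nat_lit 179) (nat_lit 181) (nat_lit 210)))) (PT.nd (nat_lit 156) (PT.nd (nat_lit 78) (PT.lf (nat_lit 39520) (nat_lit 6) (nat_lit 520) (nat_lit 5) (nat_lit 180) (nat_lit 181) (nat_lit 209)) (PT.lf (nat_lit 40964) (nat_lit 3) (nat_lit 539) (nat_lit 3) (nat_lit 181) (nat_lit 181) (nat_lit 208))) (PT.nd (nat_lit 78) (PT.lf (nat_lit 42408) (nat_lit 6) (nat_lit 558) (nat_lit 3) (nat_lit 182) (nat_lit 181) (nat_lit 207)) (PT.lf (nat_lit 43776) (nat_lit 6) (nat_lit 576) (nat_lit 3) (nat_lit 183) (nat_lit 181) (nat_lit 206))))))) (PT.nd (nat_lit 1248) (PT.nd (nat_lit 624) (PT.nd (nat_lit 312) (PT.nd (nat_lit 156) (PT.nd (nat_lit 78) (PT.lf (nat_lit 45068) (nat_lit 6) (nat_lit 593) (nat_lit 3) (nat_lit 184) (nat_lit 181) (nat_lit 205)) (PT.lf (nat_lit 46284) (nat_lit 6) (nat_lit 609) (nat_lit 3) (nat_lit 185) (nat_lit 181) (nat_lit 204))) (PT.nd (nat_lit 78) (PT.lf (nat_lit 47424) (nat_lit 6) (nat_lit 624) (nat_lit 3)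 (nat_lit 186) (nat_lit 181) (nat_lit 203)) (PT.lf (nat_lit 48488) (nat_lit 6) (nat_lit 638) (nat_lit 3) (nat_lit 187) (nat_lit 181) (nat_lit 202)))) (PT.nd (nat_lit 156) (PT.nd (nat_lit 78) (PT.lf (nat_lit 49476) (nat_lit 6) (nat_lit 651) (nat_lit 3) (nat_lit 188) (nat_lit 181) (nat_lit 201)) (PT.lf (nat_lit 50388) (nat_lit 6) (nat_lit 663) (nat_lit 3) (nat_lit 189) (nat_lit 181) (nat_lit 200))) (PT.nd (nat_lit 78) (PT.lf (nat_lit 51224) (nat_lit 6) (nat_lit 674) (nat_lit 3) (nat_lit 190) (nat_lit 181) (nat_lit 199)) (PT.lf (nat_lit 51300) (nat_lit 6) (nat_lit 675) (nat_lit 3) (nat_lit 191) (nat_lit 181) (nat_lit 198))))) (PT.nd (nat_lit 312) (PT.nd (nat_lit 156) (PT.nd (nat_lit 78) (PT.lf (nat_lit 51376) (nat_lit 6) (nat_lit 676) (nat_lit 3) (nat_lit 192) (nat_lit 181) (nat_lit 197)) (PT.lf (nat_lit 51452) (nat_lit 6) (nat_lit 677) (nat_lit 3) (nat_lit 193) (nat_lit 181) (nat_lit 196))) (PT.nd (nat_lit 78) (PT.lf (nat_lit 51528)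 (nat_lit 6) (nat_lit 678) (nat_lit 3) (nat_lit 194) (nat_lit 181) (nat_lit 195)) (PT.lf (nat_lit 51528) (nat_lit 6) (nat_lit 678) (nat_lit 1) (nat_lit 195) (nat_lit 181) (nat_lit 194)))) (PT.nd (nat_lit 156) (PT.nd (nat_lit 78) (PT.lf (nat_lit 51452) (nat_lit 6) (nat_lit 677) (nat_lit 1) (nat_lit 196) (nat_lit 181) (nat_lit 193)) (PT.lf (nat_lit 51376) (nat_lit 6) (nat_lit 676) (nat_lit 1) (nat_lit 197) (nat_lit 181) (nat_lit 192))) (PT.nd (nat_lit 78) (PT.lf (nat_lit 51300) (nat_lit 6) (nat_lit 675) (nat_lit 1) (nat_lit 198) (nat_lit 181) (nat_lit 191)) (PT.lf (nat_lit 51224) (nat_lit 6) (nat_lit 674) (nat_lit 1) (nat_lit 199) (nat_lit 181) (nat_lit 190)))))) (PT.nd (nat_lit 624) (PT.nd (nat_lit 312) (PT.nd (nat_lit 156) (PT.nd (nat_lit 78) (PT.lf (nat_lit 50388) (nat_lit 6) (nat_lit 663) (nat_lit 1) (nat_lit 200) (nat_lit 181) (nat_lit 189)) (PT.lf (nat_lit 49476) (nat_lit 6) (nat_lit 651) (nat_lit 1) (nat_lit 201) (nat_lit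 181) (nat_lit 188))) (PT.nd (nat_lit 78) (PT.lf (nat_lit 48488) (nat_lit 6) (nat_lit 638) (nat_lit 1) (nat_lit 202) (nat_lit 181) (nat_lit 187)) (PT.lf (nat_lit 47424) (nat_lit 6) (nat_lit 624) (nat_lit 1) (nat_lit 203) (nat_lit 181) (nat_lit 186)))) (PT.nd (nat_lit 156) (PT.nd (nat_lit 78) (PT.lf (nat_lit 46284) (nat_lit 6) (nat_lit 609) (nat_lit 1) (nat_lit 204) (nat_lit 181) (nat_lit 185)) (PT.lf (nat_lit 45068) (nat_lit 6) (nat_lit 593) (nat_lit 1) (nat_lit 205) (nat_lit 181) (nat_lit 184))) (PT.nd (nat_lit 78) (PT.lf (nat_lit 43776) (nat_lit 6) (nat_lit 576) (nat_lit 1) (nat_lit 206) (nat_lit 181) (nat_lit 183)) (PT.lf (nat_lit 42408) (nat_lit 6) (nat_lit 558) (nat_lit 1) (nat_lit 207) (nat_lit 181) (nat_lit 182))))) (PT.nd (nat_lit 312) (PT.nd (nat_lit 156) (PT.nd (nat_lit 78) (PT.lf (nat_lit 40964) (nat_lit 3) (nat_lit 539) (nat_lit 0) (nat_lit 208) (nat_lit 181) (nat_lit 181)) (PT.lf (nat_lit 39520) (nat_lit 6) (nat_lit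 520) (nat_lit 0) (nat_lit 209) (nat_lit 181) (nat_lit 180))) (PT.nd (nat_lit 78) (PT.lf (nat_lit 38000) (nat_lit 6) (nat_lit 500) (nat_lit 0) (nat_lit 210) (nat_lit 181) (nat_lit 179)) (PT.lf (nat_lit 36404) (nat_lit 6) (nat_lit 479) (nat_lit 0) (nat_lit 211) (nat_lit 181) (nat_lit 178)))) (PT.nd (nat_lit 56472) (PT.nd (nat_lit 78) (PT.lf (nat_lit 34732) (nat_lit 6) (nat_lit 457) (nat_lit 0) (nat_lit 212) (nat_lit 181) (nat_lit 177)) (PT.lf (nat_lit 32984) (nat_lit 6) (nat_lit 434) (nat_lit 0) (nat_lit 213) (nat_lit 181) (nat_lit 176))) (PT.nd (nat_lit 78) (PT.lf (nat_lit 33060) (nat_lit 6) (nat_lit 435) (nat_lit 5) (nat_lit 175) (nat_lit 182) (nat_lit 213)) (PT.lf (nat_lit 34808) (nat_lit 6) (nat_lit 458) (nat_lit 5) (nat_lit 176) (nat_lit 182) (nat_lit 212))))))))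
noncomputable def pc20 : PT := (PT.nd (nat_lit 2418) (PT.nd (nat_lit 1170) (PT.nd (nat_lit 546) (PT.nd (nat_lit 234) (PT.nd (nat_lit 78) (PT.lf (nat_lit 36480) (nat_lit 6) (nat_lit 480) (nat_lit 5) (nat_lit 177) (nat_lit 182) (nat_lit 211)) (PT.nd (nat_lit 78) (PT.lf (nat_lit 38076) (nat_lit 6) (nat_lit 501) (nat_lit 5) (nat_lit 178) (nat_lit 182) (nat_lit 210)) (PT.lf (nat_lit 39596) (nat_lit 6) (nat_lit 521) (nat_lit 5) (nat_lit 179) (nat_lit 182) (nat_lit 209)))) (PT.nd (nat_lit 156) (PT.nd (nat_lit 78) (PT.lf (nat_lit 41040) (nat_lit 6) (nat_lit 540) (nat_lit 5) (nat_lit 180) (nat_lit 182) (nat_lit 208)) (PT.lf (nat_lit 42408) (nat_lit 6) (nat_lit 558) (nat_lit 5) (nat_lit 181) (nat_lit 182) (nat_lit 207))) (PT.nd (nat_lit 78) (PT.lf (nat_lit 43700) (nat_lit 3) (nat_lit 575) (nat_lit 3) (nat_lit 182) (nat_lit 182) (nat_lit 206)) (PT.lf (nat_lit 44992) (nat_lit 6) (nat_lit 592) (nat_lit 3) (nat_lit 183) (nat_lit 182) (nat_lit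 205))))) (PT.nd (nat_lit 312) (PT.nd (nat_lit 156) (PT.nd (nat_lit 78) (PT.lf (nat_lit 46208) (nat_lit 6) (nat_lit 608) (nat_lit 3) (nat_lit 184) (nat_lit 182) (nat_lit 204)) (PT.lf (nat_lit 47348) (nat_lit 6) (nat_lit 623) (nat_lit 3) (nat_lit 185) (nat_lit 182) (nat_lit 203))) (PT.nd (nat_lit 78) (PT.lf (nat_lit 48412) (nat_lit 6) (nat_lit 637) (nat_lit 3) (nat_lit 186) (nat_lit 182) (nat_lit 202)) (PT.lf (nat_lit 49400) (nat_lit 6) (nat_lit 650) (nat_lit 3) (nat_lit 187) (nat_lit 182) (nat_lit 201)))) (PT.nd (nat_lit 156) (PT.nd (nat_lit 78) (PT.lf (nat_lit 50312) (nat_lit 6) (nat_lit 662) (nat_lit 3) (nat_lit 188) (nat_lit 182) (nat_lit 200)) (PT.lf (nat_lit 51148) (nat_lit 6) (nat_lit 673) (nat_lit 3) (nat_lit 189) (nat_lit 182) (nat_lit 199))) (PT.nd (nat_lit 78) (PT.lf (nat_lit 51908) (nat_lit 6) (nat_lit 683) (nat_lit 3) (nat_lit 190) (nat_lit 182) (nat_lit 198)) (PT.lf (nat_lit 51984) (nat_lit 6) (nat_lit 684) (nat_lit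 3) (nat_lit 191) (nat_lit 182) (nat_lit 197)))))) (PT.nd (nat_lit 624) (PT.nd (nat_lit 312) (PT.nd (nat_lit 156) (PT.nd (nat_lit 78) (PT.lf (nat_lit 52060) (nat_lit 6) (nat_lit 685) (nat_lit 3) (nat_lit 192) (nat_lit 182) (nat_lit 196)) (PT.lf (nat_lit 52136) (nat_lit 6) (nat_lit 686) (nat_lit 3) (nat_lit 193) (nat_lit 182) (nat_lit 195))) (PT.nd (nat_lit 78) (PT.lf (nat_lit 52212) (nat_lit 3) (nat_lit 687) (nat_lit 1) (nat_lit 194) (nat_lit 182) (nat_lit 194)) (PT.lf (nat_lit 52136) (nat_lit 6) (nat_lit 686) (nat_lit 1) (nat_lit 195) (nat_lit 182) (nat_lit 193)))) (PT.nd (nat_lit 156) (PT.nd (nat_lit 78) (PT.lf (nat_lit 52060) (nat_lit 6) (nat_lit 685) (nat_lit 1) (nat_lit 196) (nat_lit 182) (nat_lit 192)) (PT.lf (nat_lit 51984) (nat_lit 6) (nat_lit 684) (nat_lit 1) (nat_lit 197) (nat_lit 182) (nat_lit 191))) (PT.nd (nat_lit 78) (PT.lf (nat_lit 51908) (nat_lit 6) (nat_lit 683) (nat_lit 1) (nat_lit 198) (nat_lit 182) (nat_lit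 190)) (PT.lf (nat_lit 51148) (nat_lit 6) (nat_lit 673) (nat_lit 1) (nat_lit 199) (nat_lit 182) (nat_lit 189))))) (PT.nd (nat_lit 312) (PT.nd (nat_lit 156) (PT.nd (nat_lit 78) (PT.lf (nat_lit 50312) (nat_lit 6) (nat_lit 662) (nat_lit 1) (nat_lit 200) (nat_lit 182) (nat_lit 188)) (PT.lf (nat_lit 49400) (nat_lit 6) (nat_lit 650) (nat_lit 1) (nat_lit 201) (nat_lit 182) (nat_lit 187))) (PT.nd (nat_lit 78) (PT.lf (nat_lit 48412) (nat_lit 6) (nat_lit 637) (nat_lit 1) (nat_lit 202) (nat_lit 182) (nat_lit 186)) (PT.lf (nat_lit 47348) (nat_lit 6) (nat_lit 623) (nat_lit 1) (nat_lit 203) (nat_lit 182) (nat_lit 185)))) (PT.nd (nat_lit 156) (PT.nd (nat_lit 78) (PT.lf (nat_lit 46208) (nat_lit 6) (nat_lit 608) (nat_lit 1) (nat_lit 204) (nat_lit 182) (nat_lit 184)) (PT.lf (nat_lit 44992) (nat_lit 6) (nat_lit 592) (nat_lit 1) (nat_lit 205) (nat_lit 182) (nat_lit 183))) (PT.nd (nat_lit 78) (PT.lf (nat_lit 43700) (nat_lit 3) (nat_lit 575) (nat_lit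 0) (nat_lit 206) (nat_lit 182) (nat_lit 182)) (PT.lf (nat_lit 42408) (nat_lit 6) (nat_lit 558) (nat_lit 0) (nat_lit 207) (nat_lit 182) (nat_lit 181))))))) (PT.nd (nat_lit 57486) (PT.nd (nat_lit 56862) (PT.nd (nat_lit 312) (PT.nd (nat_lit 156) (PT.nd (nat_lit 78) (PT.lf (nat_lit 41040) (nat_lit 6) (nat_lit 540) (nat_lit 0) (nat_lit 208) (nat_lit 182) (nat_lit 180)) (PT.lf (nat_lit 39596) (nat_lit 6) (nat_lit 521) (nat_lit 0) (nat_lit 209) (nat_lit 182) (nat_lit 179))) (PT.nd (nat_lit 78) (PT.lf (nat_lit 38076) (nat_lit 6) (nat_lit 501) (nat_lit 0) (nat_lit 210) (nat_lit 182) (nat_lit 178)) (PT.lf (nat_lit 36480) (nat_lit 6) (nat_lit 480) (nat_lit 0) (nat_lit 211) (nat_lit 182) (nat_lit 177)))) (PT.nd (nat_lit 56394) (PT.nd (nat_lit 78) (PT.lf (nat_lit 34808) (nat_lit 6) (nat_lit 458) (nat_lit 0) (nat_lit 212) (nat_lit 182) (nat_lit 176)) (PT.lf (nat_lit 33060) (nat_lit 6) (nat_lit 435) (nat_lit 0) (nat_lit 213) (nat_lit 182)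 (nat_lit 175))) (PT.nd (nat_lit 78) (PT.lf (nat_lit 33136) (nat_lit 6) (nat_lit 436) (nat_lit 5) (nat_lit 174) (nat_lit 183) (nat_lit 213)) (PT.lf (nat_lit 34884) (nat_lit 6) (nat_lit 459) (nat_lit 5) (nat_lit 175) (nat_lit 183) (nat_lit 212))))) (PT.nd (nat_lit 312) (PT.nd (nat_lit 156) (PT.nd (nat_lit 78) (PT.lf (nat_lit 36556) (nat_lit 6) (nat_lit 481) (nat_lit 5) (nat_lit 176) (nat_lit 183) (nat_lit 211)) (PT.lf (nat_lit 38152) (nat_lit 6) (nat_lit 502) (nat_lit 5) (nat_lit 177) (nat_lit 183) (nat_lit 210))) (PT.nd (nat_lit 78) (PT.lf (nat_lit 39672) (nat_lit 6) (nat_lit 522) (nat_lit 5) (nat_lit 178) (nat_lit 183) (nat_lit 209)) (PT.lf (nat_lit 41116) (nat_lit 6) (nat_lit 541) (nat_lit 5) (nat_lit 179) (nat_lit 183) (nat_lit 208)))) (PT.nd (nat_lit 156) (PT.nd (nat_lit 78) (PT.lf (nat_lit 42484) (nat_lit 6) (nat_lit 559) (nat_lit 5) (nat_lit 180) (nat_lit 183) (nat_lit 207)) (PT.lf (nat_lit 43776) (nat_lit 6) (nat_lit 576)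 (nat_lit 5) (nat_lit 181) (nat_lit 183) (nat_lit 206))) (PT.nd (nat_lit 78) (PT.lf (nat_lit 44992) (nat_lit 6) (nat_lit 592) (nat_lit 5) (nat_lit 182) (nat_lit 183) (nat_lit 205)) (PT.lf (nat_lit 46132) (nat_lit 3) (nat_lit 607) (nat_lit 3) (nat_lit 183) (nat_lit 183) (nat_lit 204)))))) (PT.nd (nat_lit 624) (PT.nd (nat_lit 312) (PT.nd (nat_lit 156) (PT.nd (nat_lit 78) (PT.lf (nat_lit 47272) (nat_lit 6) (nat_lit 622) (nat_lit 3) (nat_lit 184) (nat_lit 183) (nat_lit 203)) (PT.lf (nat_lit 48336) (nat_lit 6) (nat_lit 636) (nat_lit 3) (nat_lit 185) (nat_lit 183) (nat_lit 202))) (PT.nd (nat_lit 78) (PT.lf (nat_lit 49324) (nat_lit 6) (nat_lit 649) (nat_lit 3) (nat_lit 186) (nat_lit 183) (nat_lit 201)) (PT.lf (nat_lit 50236) (nat_lit 6) (nat_lit 661) (nat_lit 3) (nat_lit 187) (nat_lit 183) (nat_lit 200)))) (PT.nd (nat_lit 156) (PT.nd (nat_lit 78) (PT.lf (nat_lit 51072) (nat_lit 6) (nat_lit 672) (nat_lit 3) (nat_lit 188) (nat_lit 183)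 (nat_lit 199)) (PT.lf (nat_lit 51832) (nat_lit 6) (nat_lit 682) (nat_lit 3) (nat_lit 189) (nat_lit 183) (nat_lit 198))) (PT.nd (nat_lit 78) (PT.lf (nat_lit 52516) (nat_lit 6) (nat_lit 691) (nat_lit 3) (nat_lit 190) (nat_lit 183) (nat_lit 197)) (PT.lf (nat_lit 52592) (nat_lit 6) (nat_lit 692) (nat_lit 3) (nat_lit 191) (nat_lit 183) (nat_lit 196))))) (PT.nd (nat_lit 312) (PT.nd (nat_lit 156) (PT.nd (nat_lit 78) (PT.lf (nat_lit 52668) (nat_lit 6) (nat_lit 693) (nat_lit 3) (nat_lit 192) (nat_lit 183) (nat_lit 195)) (PT.lf (nat_lit 52744) (nat_lit 6) (nat_lit 694) (nat_lit 3) (nat_lit 193) (nat_lit 183) (nat_lit 194))) (PT.nd (nat_lit 78) (PT.lf (nat_lit 52744) (nat_lit 6) (nat_lit 694) (nat_lit 1) (nat_lit 194) (nat_lit 183) (nat_lit 193)) (PT.lf (nat_lit 52668) (nat_lit 6) (nat_lit 693) (nat_lit 1) (nat_lit 195) (nat_lit 183) (nat_lit 192)))) (PT.nd (nat_lit 156) (PT.nd (nat_lit 78) (PT.lf (nat_lit 52592) (nat_lit 6) (nat_lit 692)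 (nat_lit 1) (nat_lit 196) (nat_lit 183) (nat_lit 191)) (PT.lf (nat_lit 52516) (nat_lit 6) (nat_lit 691) (nat_lit 1) (nat_lit 197) (nat_lit 183) (nat_lit 190))) (PT.nd (nat_lit 78) (PT.lf (nat_lit 51832) (nat_lit 6) (nat_lit 682) (nat_lit 1) (nat_lit 198) (nat_lit 183) (nat_lit 189)) (PT.lf (nat_lit 51072) (nat_lit 6) (nat_lit 672) (nat_lit 1) (nat_lit 199) (nat_lit 183) (nat_lit 188))))))))
noncomputable def pc21 : PT := (PT.nd (nat_lit 58578) (PT.nd (nat_lit 57330) (PT.nd (nat_lit 546) (PT.nd (nat_lit 234) (PT.nd (nat_lit 78) (PT.lf (nat_lit 50236) (nat_lit 6) (nat_lit 661) (nat_lit 1) (nat_lit 200) (nat_lit 183) (nat_lit 187)) (PT.nd (nat_lit 78) (PT.lf (nat_lit 49324) (nat_lit 6) (nat_lit 649) (nat_lit 1) (nat_lit 201) (nat_lit 183) (nat_lit 186)) (PT.lf (nat_lit 48336) (nat_lit 6) (nat_lit 636) (nat_lit 1) (nat_lit 202) (nat_lit 183) (nat_lit 185)))) (PT.nd (nat_lit 156) (PT.nd (nat_lit 78) (PT.lf (nat_lit 47272) (nat_lit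 6) (nat_lit 622) (nat_lit 1) (nat_lit 203) (nat_lit 183) (nat_lit 184)) (PT.lf (nat_lit 46132) (nat_lit 3) (nat_lit 607) (nat_lit 0) (nat_lit 204) (nat_lit 183) (nat_lit 183))) (PT.nd (nat_lit 78) (PT.lf (nat_lit 44992) (nat_lit 6) (nat_lit 592) (nat_lit 0) (nat_lit 205) (nat_lit 183) (nat_lit 182)) (PT.lf (nat_lit 43776) (nat_lit 6) (nat_lit 576) (nat_lit 0) (nat_lit 206) (nat_lit 183) (nat_lit 181))))) (PT.nd (nat_lit 312) (PT.nd (nat_lit 156) (PT.nd (nat_lit 78) (PT.lf (nat_lit 42484) (nat_lit 6) (nat_lit 559) (nat_lit 0) (nat_lit 207) (nat_lit 183) (nat_lit 180)) (PT.lf (nat_lit 41116) (nat_lit 6) (nat_lit 541) (nat_lit 0) (nat_lit 208) (nat_lit 183) (nat_lit 179))) (PT.nd (nat_lit 78) (PT.lf (nat_lit 39672) (nat_lit 6) (nat_lit 522) (nat_lit 0) (nat_lit 209) (nat_lit 183) (nat_lit 178)) (PT.lf (nat_lit 38152) (nat_lit 6) (nat_lit 502) (nat_lit 0) (nat_lit 210) (nat_lit 183) (nat_lit 177)))) (PT.nd (nat_lit 156) (PT.nd (nat_lit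 78) (PT.lf (nat_lit 36556) (nat_lit 6) (nat_lit 481) (nat_lit 0) (nat_lit 211) (nat_lit 183) (nat_lit 176)) (PT.lf (nat_lit 34884) (nat_lit 6) (nat_lit 459) (nat_lit 0) (nat_lit 212) (nat_lit 183) (nat_lit 175))) (PT.nd (nat_lit 56238) (PT.lf (nat_lit 33136) (nat_lit 6) (nat_lit 436) (nat_lit 0) (nat_lit 213) (nat_lit 183) (nat_lit 174)) (PT.lf (nat_lit 33212) (nat_lit 6) (nat_lit 437) (nat_lit 5) (nat_lit 173) (nat_lit 184) (nat_lit 213)))))) (PT.nd (nat_lit 624) (PT.nd (nat_lit 312) (PT.nd (nat_lit 156) (PT.nd (nat_lit 78) (PT.lf (nat_lit 34960) (nat_lit 6) (nat_lit 460) (nat_lit 5) (nat_lit 174) (nat_lit 184) (nat_lit 212)) (PT.lf (nat_lit 36632) (nat_lit 6) (nat_lit 482) (nat_lit 5) (nat_lit 175) (nat_lit 184) (nat_lit 211))) (PT.nd (nat_lit 78) (PT.lf (nat_lit 38228) (nat_lit 6) (nat_lit 503) (nat_lit 5) (nat_lit 176) (nat_lit 184) (nat_lit 210)) (PT.lf (nat_lit 39748) (nat_lit 6) (nat_lit 523) (nat_lit 5) (nat_lit 177)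 (nat_lit 184) (nat_lit 209)))) (PT.nd (nat_lit 156) (PT.nd (nat_lit 78) (PT.lf (nat_lit 41192) (nat_lit 6) (nat_lit 542) (nat_lit 5) (nat_lit 178) (nat_lit 184) (nat_lit 208)) (PT.lf (nat_lit 42560) (nat_lit 6) (nat_lit 560) (nat_lit 5) (nat_lit 179) (nat_lit 184) (nat_lit 207))) (PT.nd (nat_lit 78) (PT.lf (nat_lit 43852) (nat_lit 6) (nat_lit 577) (nat_lit 5) (nat_lit 180) (nat_lit 184) (nat_lit 206)) (PT.lf (nat_lit 45068) (nat_lit 6) (nat_lit 593) (nat_lit 5) (nat_lit 181) (nat_lit 184) (nat_lit 205))))) (PT.nd (nat_lit 312) (PT.nd (nat_lit 156) (PT.nd (nat_lit 78) (PT.lf (nat_lit 46208) (nat_lit 6) (nat_lit 608) (nat_lit 5) (nat_lit 182) (nat_lit 184) (nat_lit 204)) (PT.lf (nat_lit 47272) (nat_lit 6) (nat_lit 622) (nat_lit 5) (nat_lit 183) (nat_lit 184) (nat_lit 203))) (PT.nd (nat_lit 78) (PT.lf (nat_lit 48260) (nat_lit 3) (nat_lit 635) (nat_lit 3) (nat_lit 184) (nat_lit 184) (nat_lit 202)) (PT.lf (nat_lit 49248) (nat_lit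 6) (nat_lit 648) (nat_lit 3) (nat_lit 185) (nat_lit 184) (nat_lit 201)))) (PT.nd (nat_lit 156) (PT.nd (nat_lit 78) (PT.lf (nat_lit 50160) (nat_lit 6) (nat_lit 660) (nat_lit 3) (nat_lit 186) (nat_lit 184) (nat_lit 200)) (PT.lf (nat_lit 50996) (nat_lit 6) (nat_lit 671) (nat_lit 3) (nat_lit 187) (nat_lit 184) (nat_lit 199))) (PT.nd (nat_lit 78) (PT.lf (nat_lit 51756) (nat_lit 6) (nat_lit 681) (nat_lit 3) (nat_lit 188) (nat_lit 184) (nat_lit 198)) (PT.lf (nat_lit 52440) (nat_lit 6) (nat_lit 690) (nat_lit 3) (nat_lit 189) (nat_lit 184) (nat_lit 197))))))) (PT.nd (nat_lit 1248) (PT.nd (nat_lit 624) (PT.nd (nat_lit 312) (PT.nd (nat_lit 156) (PT.nd (nat_lit 78) (PT.lf (nat_lit 53048) (nat_lit 6) (nat_lit 698) (nat_lit 3) (nat_lit 190) (nat_lit 184) (nat_lit 196)) (PT.lf (nat_lit 53124) (nat_lit 6) (nat_lit 699) (nat_lit 3) (nat_lit 191) (nat_lit 184) (nat_lit 195))) (PT.nd (nat_lit 78) (PT.lf (nat_lit 53200) (nat_lit 6) (nat_lit 700)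 (nat_lit 3) (nat_lit 192) (nat_lit 184) (nat_lit 194)) (PT.lf (nat_lit 53276) (nat_lit 3) (nat_lit 701) (nat_lit 1) (nat_lit 193) (nat_lit 184) (nat_lit 193)))) (PT.nd (nat_lit 156) (PT.nd (nat_lit 78) (PT.lf (nat_lit 53200) (nat_lit 6) (nat_lit 700) (nat_lit 1) (nat_lit 194) (nat_lit 184) (nat_lit 192)) (PT.lf (nat_lit 53124) (nat_lit 6) (nat_lit 699) (nat_lit 1) (nat_lit 195) (nat_lit 184) (nat_lit 191))) (PT.nd (nat_lit 78) (PT.lf (nat_lit 53048) (nat_lit 6) (nat_lit 698) (nat_lit 1) (nat_lit 196) (nat_lit 184) (nat_lit 190)) (PT.lf (nat_lit 52440) (nat_lit 6) (nat_lit 690) (nat_lit 1) (nat_lit 197) (nat_lit 184) (nat_lit 189))))) (PT.nd (nat_lit 312) (PT.nd (nat_lit 156) (PT.nd (nat_lit 78) (PT.lf (nat_lit 51756) (nat_lit 6) (nat_lit 681) (nat_lit 1) (nat_lit 198) (nat_lit 184) (nat_lit 188)) (PT.lf (nat_lit 50996) (nat_lit 6) (nat_lit 671) (nat_lit 1) (nat_lit 199) (nat_lit 184) (nat_lit 187))) (PT.nd (nat_lit 78) (PT.lf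 (nat_lit 50160) (nat_lit 6) (nat_lit 660) (nat_lit 1) (nat_lit 200) (nat_lit 184) (nat_lit 186)) (PT.lf (nat_lit 49248) (nat_lit 6) (nat_lit 648) (nat_lit 1) (nat_lit 201) (nat_lit 184) (nat_lit 185)))) (PT.nd (nat_lit 156) (PT.nd (nat_lit 78) (PT.lf (nat_lit 48260) (nat_lit 3) (nat_lit 635) (nat_lit 0) (nat_lit 202) (nat_lit 184) (nat_lit 184)) (PT.lf (nat_lit 47272) (nat_lit 6) (nat_lit 622) (nat_lit 0) (nat_lit 203) (nat_lit 184) (nat_lit 183))) (PT.nd (nat_lit 78) (PT.lf (nat_lit 46208) (nat_lit 6) (nat_lit 608) (nat_lit 0) (nat_lit 204) (nat_lit 184) (nat_lit 182)) (PT.lf (nat_lit 45068) (nat_lit 6) (nat_lit 593) (nat_lit 0) (nat_lit 205) (nat_lit 184) (nat_lit 181)))))) (PT.nd (nat_lit 56706) (PT.nd (nat_lit 312) (PT.nd (nat_lit 156) (PT.nd (nat_lit 78) (PT.lf (nat_lit 43852) (nat_lit 6) (nat_lit 577) (nat_lit 0) (nat_lit 206) (nat_lit 184) (nat_lit 180)) (PT.lf (nat_lit 42560) (nat_lit 6) (nat_lit 560) (nat_lit 0) (nat_lit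 207) (nat_lit 184) (nat_lit 179))) (PT.nd (nat_lit 78) (PT.lf (nat_lit 41192) (nat_lit 6) (nat_lit 542) (nat_lit 0) (nat_lit 208) (nat_lit 184) (nat_lit 178)) (PT.lf (nat_lit 39748) (nat_lit 6) (nat_lit 523) (nat_lit 0) (nat_lit 209) (nat_lit 184) (nat_lit 177)))) (PT.nd (nat_lit 156) (PT.nd (nat_lit 78) (PT.lf (nat_lit 38228) (nat_lit 6) (nat_lit 503) (nat_lit 0) (nat_lit 210) (nat_lit 184) (nat_lit 176)) (PT.lf (nat_lit 36632) (nat_lit 6) (nat_lit 482) (nat_lit 0) (nat_lit 211) (nat_lit 184) (nat_lit 175))) (PT.nd (nat_lit 78) (PT.lf (nat_lit 34960) (nat_lit 6) (nat_lit 460) (nat_lit 0) (nat_lit 212) (nat_lit 184) (nat_lit 174)) (PT.lf (nat_lit 33212) (nat_lit 6) (nat_lit 437) (nat_lit 0) (nat_lit 213) (nat_lit 184) (nat_lit 173))))) (PT.nd (nat_lit 312) (PT.nd (nat_lit 156) (PT.nd (nat_lit 78) (PT.lf (nat_lit 33288) (nat_lit 6) (nat_lit 438) (nat_lit 5) (nat_lit 172) (nat_lit 185) (nat_lit 213)) (PT.lf (nat_lit 35036) (nat_lit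 6) (nat_lit 461) (nat_lit 5) (nat_lit 173) (nat_lit 185) (nat_lit 212))) (PT.nd (nat_lit 78) (PT.lf (nat_lit 36708) (nat_lit 6) (nat_lit 483) (nat_lit 5) (nat_lit 174) (nat_lit 185) (nat_lit 211)) (PT.lf (nat_lit 38304) (nat_lit 6) (nat_lit 504) (nat_lit 5) (nat_lit 175) (nat_lit 185) (nat_lit 210)))) (PT.nd (nat_lit 156) (PT.nd (nat_lit 78) (PT.lf (nat_lit 39824) (nat_lit 6) (nat_lit 524) (nat_lit 5) (nat_lit 176) (nat_lit 185) (nat_lit 209)) (PT.lf (nat_lit 41268) (nat_lit 6) (nat_lit 543) (nat_lit 5) (nat_lit 177) (nat_lit 185) (nat_lit 208))) (PT.nd (nat_lit 78) (PT.lf (nat_lit 42636) (nat_lit 6) (nat_lit 561) (nat_lit 5) (nat_lit 178) (nat_lit 185) (nat_lit 207)) (PT.lf (nat_lit 43928) (nat_lit 6) (nat_lit 578) (nat_lit 5) (nat_lit 179) (nat_lit 185) (nat_lit 206))))))))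
noncomputable def pc22 : PT := (PT.nd (nat_lit 2418) (PT.nd (nat_lit 1170) (PT.nd (nat_lit 546) (PT.nd (nat_lit 234) (PT.nd (nat_lit 78) (PT.lf (nat_lit 45144) (nat_lit 6) (nat_lit 594) (nat_lit 5) (nat_lit 180) (nat_lit 185) (nat_lit 205)) (PT.nd (nat_lit 78) (PT.lf (nat_lit 46284) (nat_lit 6) (nat_lit 609) (nat_lit 5) (nat_lit 181) (nat_lit 185) (nat_lit 204)) (PT.lf (nat_lit 47348) (nat_lit 6) (nat_lit 623) (nat_lit 5) (nat_lit 182) (nat_lit 185) (nat_lit 203)))) (PT.nd (nat_lit 156) (PT.nd (nat_lit 78) (PT.lf (nat_lit 48336) (nat_lit 6) (nat_lit 636) (nat_lit 5) (nat_lit 183) (nat_lit 185) (nat_lit 202)) (PT.lf (nat_lit 49248) (nat_lit 6) (nat_lit 648) (nat_lit 5) (nat_lit 184) (nat_lit 185) (nat_lit 201))) (PT.nd (nat_lit 78) (PT.lf (nat_lit 50084) (nat_lit 3) (nat_lit 659) (nat_lit 3) (nat_lit 185) (nat_lit 185) (nat_lit 200)) (PT.lf (nat_lit 50920) (nat_lit 6) (nat_lit 670) (nat_lit 3) (nat_lit 186) (nat_lit 185) (nat_lit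 199))))) (PT.nd (nat_lit 312) (PT.nd (nat_lit 156) (PT.nd (nat_lit 78) (PT.lf (nat_lit 51680) (nat_lit 6) (nat_lit 680) (nat_lit 3) (nat_lit 187) (nat_lit 185) (nat_lit 198)) (PT.lf (nat_lit 52364) (nat_lit 6) (nat_lit 689) (nat_lit 3) (nat_lit 188) (nat_lit 185) (nat_lit 197))) (PT.nd (nat_lit 78) (PT.lf (nat_lit 52972) (nat_lit 6) (nat_lit 697) (nat_lit 3) (nat_lit 189) (nat_lit 185) (nat_lit 196)) (PT.lf (nat_lit 53504) (nat_lit 6) (nat_lit 704) (nat_lit 3) (nat_lit 190) (nat_lit 185) (nat_lit 195)))) (PT.nd (nat_lit 156) (PT.nd (nat_lit 78) (PT.lf (nat_lit 53580) (nat_lit 6) (nat_lit 705) (nat_lit 3) (nat_lit 191) (nat_lit 185) (nat_lit 194)) (PT.lf (nat_lit 53656) (nat_lit 6) (nat_lit 706) (nat_lit 3) (nat_lit 192) (nat_lit 185) (nat_lit 193))) (PT.nd (nat_lit 78) (PT.lf (nat_lit 53656) (nat_lit 6) (nat_lit 706) (nat_lit 1) (nat_lit 193) (nat_lit 185) (nat_lit 192)) (PT.lf (nat_lit 53580) (nat_lit 6) (nat_lit 705) (nat_lit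 1) (nat_lit 194) (nat_lit 185) (nat_lit 191)))))) (PT.nd (nat_lit 624) (PT.nd (nat_lit 312) (PT.nd (nat_lit 156) (PT.nd (nat_lit 78) (PT.lf (nat_lit 53504) (nat_lit 6) (nat_lit 704) (nat_lit 1) (nat_lit 195) (nat_lit 185) (nat_lit 190)) (PT.lf (nat_lit 52972) (nat_lit 6) (nat_lit 697) (nat_lit 1) (nat_lit 196) (nat_lit 185) (nat_lit 189))) (PT.nd (nat_lit 78) (PT.lf (nat_lit 52364) (nat_lit 6) (nat_lit 689) (nat_lit 1) (nat_lit 197) (nat_lit 185) (nat_lit 188)) (PT.lf (nat_lit 51680) (nat_lit 6) (nat_lit 680) (nat_lit 1) (nat_lit 198) (nat_lit 185) (nat_lit 187)))) (PT.nd (nat_lit 156) (PT.nd (nat_lit 78) (PT.lf (nat_lit 50920) (nat_lit 6) (nat_lit 670) (nat_lit 1) (nat_lit 199) (nat_lit 185) (nat_lit 186)) (PT.lf (nat_lit 50084) (nat_lit 3) (nat_lit 659) (nat_lit 0) (nat_lit 200) (nat_lit 185) (nat_lit 185))) (PT.nd (nat_lit 78) (PT.lf (nat_lit 49248) (nat_lit 6) (nat_lit 648) (nat_lit 0) (nat_lit 201) (nat_lit 185) (nat_lit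 184)) (PT.lf (nat_lit 48336) (nat_lit 6) (nat_lit 636) (nat_lit 0) (nat_lit 202) (nat_lit 185) (nat_lit 183))))) (PT.nd (nat_lit 312) (PT.nd (nat_lit 156) (PT.nd (nat_lit 78) (PT.lf (nat_lit 47348) (nat_lit 6) (nat_lit 623) (nat_lit 0) (nat_lit 203) (nat_lit 185) (nat_lit 182)) (PT.lf (nat_lit 46284) (nat_lit 6) (nat_lit 609) (nat_lit 0) (nat_lit 204) (nat_lit 185) (nat_lit 181))) (PT.nd (nat_lit 78) (PT.lf (nat_lit 45144) (nat_lit 6) (nat_lit 594) (nat_lit 0) (nat_lit 205) (nat_lit 185) (nat_lit 180)) (PT.lf (nat_lit 43928) (nat_lit 6) (nat_lit 578) (nat_lit 0) (nat_lit 206) (nat_lit 185) (nat_lit 179)))) (PT.nd (nat_lit 156) (PT.nd (nat_lit 78) (PT.lf (nat_lit 42636) (nat_lit 6) (nat_lit 561) (nat_lit 0) (nat_lit 207) (nat_lit 185) (nat_lit 178)) (PT.lf (nat_lit 41268) (nat_lit 6) (nat_lit 543) (nat_lit 0) (nat_lit 208) (nat_lit 185) (nat_lit 177))) (PT.nd (nat_lit 78) (PT.lf (nat_lit 39824) (nat_lit 6) (nat_lit 524) (nat_lit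 0) (nat_lit 209) (nat_lit 185) (nat_lit 176)) (PT.lf (nat_lit 38304) (nat_lit 6) (nat_lit 504) (nat_lit 0) (nat_lit 210) (nat_lit 185) (nat_lit 175))))))) (PT.nd (nat_lit 57174) (PT.nd (nat_lit 56550) (PT.nd (nat_lit 56238) (PT.nd (nat_lit 156) (PT.nd (nat_lit 78) (PT.lf (nat_lit 36708) (nat_lit 6) (nat_lit 483) (nat_lit 0) (nat_lit 211) (nat_lit 185) (nat_lit 174)) (PT.lf (nat_lit 35036) (nat_lit 6) (nat_lit 461) (nat_lit 0) (nat_lit 212) (nat_lit 185) (nat_lit 173))) (PT.nd (nat_lit 56004) (PT.lf (nat_lit 33288) (nat_lit 6) (nat_lit 438) (nat_lit 0) (nat_lit 213) (nat_lit 185) (nat_lit 172)) (PT.lf (nat_lit 31540) (nat_lit 6) (nat_lit 415) (nat_lit 5) (nat_lit 170) (nat_lit 186) (nat_lit 214)))) (PT.nd (nat_lit 156) (PT.nd (nat_lit 78) (PT.lf (nat_lit 33364) (nat_lit 6) (nat_lit 439) (nat_lit 5) (nat_lit 171) (nat_lit 186) (nat_lit 213)) (PT.lf (nat_lit 35112) (nat_lit 6) (nat_lit 462) (nat_lit 5) (nat_lit 172) (nat_lit 186)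 (nat_lit 212))) (PT.nd (nat_lit 78) (PT.lf (nat_lit 36784) (nat_lit 6) (nat_lit 484) (nat_lit 5) (nat_lit 173) (nat_lit 186) (nat_lit 211)) (PT.lf (nat_lit 38380) (nat_lit 6) (nat_lit 505) (nat_lit 5) (nat_lit 174) (nat_lit 186) (nat_lit 210))))) (PT.nd (nat_lit 312) (PT.nd (nat_lit 156) (PT.nd (nat_lit 78) (PT.lf (nat_lit 39900) (nat_lit 6) (nat_lit 525) (nat_lit 5) (nat_lit 175) (nat_lit 186) (nat_lit 209)) (PT.lf (nat_lit 41344) (nat_lit 6) (nat_lit 544) (nat_lit 5) (nat_lit 176) (nat_lit 186) (nat_lit 208))) (PT.nd (nat_lit 78) (PT.lf (nat_lit 42712) (nat_lit 6) (nat_lit 562) (nat_lit 5) (nat_lit 177) (nat_lit 186) (nat_lit 207)) (PT.lf (nat_lit 44004) (nat_lit 6) (nat_lit 579) (nat_lit 5) (nat_lit 178) (nat_lit 186) (nat_lit 206)))) (PT.nd (nat_lit 156) (PT.nd (nat_lit 78) (PT.lf (nat_lit 45220) (nat_lit 6) (nat_lit 595) (nat_lit 5) (nat_lit 179) (nat_lit 186) (nat_lit 205)) (PT.lf (nat_lit 46360) (nat_lit 6) (nat_lit 610)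 (nat_lit 5) (nat_lit 180) (nat_lit 186) (nat_lit 204))) (PT.nd (nat_lit 78) (PT.lf (nat_lit 47424) (nat_lit 6) (nat_lit 624) (nat_lit 5) (nat_lit 181) (nat_lit 186) (nat_lit 203)) (PT.lf (nat_lit 48412) (nat_lit 6) (nat_lit 637) (nat_lit 5) (nat_lit 182) (nat_lit 186) (nat_lit 202)))))) (PT.nd (nat_lit 624) (PT.nd (nat_lit 312) (PT.nd (nat_lit 156) (PT.nd (nat_lit 78) (PT.lf (nat_lit 49324) (nat_lit 6) (nat_lit 649) (nat_lit 5) (nat_lit 183) (nat_lit 186) (nat_lit 201)) (PT.lf (nat_lit 50160) (nat_lit 6) (nat_lit 660) (nat_lit 5) (nat_lit 184) (nat_lit 186) (nat_lit 200))) (PT.nd (nat_lit 78) (PT.lf (nat_lit 50920) (nat_lit 6) (nat_lit 670) (nat_lit 5) (nat_lit 185) (nat_lit 186) (nat_lit 199)) (PT.lf (nat_lit 51604) (nat_lit 3) (nat_lit 679) (nat_lit 3) (nat_lit 186) (nat_lit 186) (nat_lit 198)))) (PT.nd (nat_lit 156) (PT.nd (nat_lit 78) (PT.lf (nat_lit 52288) (nat_lit 6) (nat_lit 688) (nat_lit 3) (nat_lit 187) (nat_lit 186)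 (nat_lit 197)) (PT.lf (nat_lit 52896) (nat_lit 6) (nat_lit 696) (nat_lit 3) (nat_lit 188) (nat_lit 186) (nat_lit 196))) (PT.nd (nat_lit 78) (PT.lf (nat_lit 53428) (nat_lit 6) (nat_lit 703) (nat_lit 3) (nat_lit 189) (nat_lit 186) (nat_lit 195)) (PT.lf (nat_lit 53884) (nat_lit 6) (nat_lit 709) (nat_lit 3) (nat_lit 190) (nat_lit 186) (nat_lit 194))))) (PT.nd (nat_lit 312) (PT.nd (nat_lit 156) (PT.nd (nat_lit 78) (PT.lf (nat_lit 53960) (nat_lit 6) (nat_lit 710) (nat_lit 3) (nat_lit 191) (nat_lit 186) (nat_lit 193)) (PT.lf (nat_lit 54036) (nat_lit 3) (nat_lit 711) (nat_lit 1) (nat_lit 192) (nat_lit 186) (nat_lit 192))) (PT.nd (nat_lit 78) (PT.lf (nat_lit 53960) (nat_lit 6) (nat_lit 710) (nat_lit 1) (nat_lit 193) (nat_lit 186) (nat_lit 191)) (PT.lf (nat_lit 53884) (nat_lit 6) (nat_lit 709) (nat_lit 1) (nat_lit 194) (nat_lit 186) (nat_lit 190)))) (PT.nd (nat_lit 156) (PT.nd (nat_lit 78) (PT.lf (nat_lit 53428) (nat_lit 6) (nat_lit 703)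 (nat_lit 1) (nat_lit 195) (nat_lit 186) (nat_lit 189)) (PT.lf (nat_lit 52896) (nat_lit 6) (nat_lit 696) (nat_lit 1) (nat_lit 196) (nat_lit 186) (nat_lit 188))) (PT.nd (nat_lit 78) (PT.lf (nat_lit 52288) (nat_lit 6) (nat_lit 688) (nat_lit 1) (nat_lit 197) (nat_lit 186) (nat_lit 187)) (PT.lf (nat_lit 51604) (nat_lit 3) (nat_lit 679) (nat_lit 0) (nat_lit 198) (nat_lit 186) (nat_lit 186))))))))
noncomputable def pc23 : PT := (PT.nd (nat_lit 58188) (PT.nd (nat_lit 1170) (PT.nd (nat_lit 546) (PT.nd (nat_lit 234) (PT.nd (nat_lit 78) (PT.lf (nat_lit 50920) (nat_lit 6) (nat_lit 670) (nat_lit 0) (nat_lit 199) (nat_lit 186) (nat_lit 185)) (PT.nd (nat_lit 78) (PT.lf (nat_lit 50160) (nat_lit 6) (nat_lit 660) (nat_lit 0) (nat_lit 200) (nat_lit 186) (nat_lit 184)) (PT.lf (nat_lit 49324) (nat_lit 6) (nat_lit 649) (nat_lit 0) (nat_lit 201) (nat_lit 186) (nat_lit 183)))) (PT.nd (nat_lit 156) (PT.nd (nat_lit 78) (PT.lf (nat_lit 48412) (nat_lit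 6) (nat_lit 637) (nat_lit 0) (nat_lit 202) (nat_lit 186) (nat_lit 182)) (PT.lf (nat_lit 47424) (nat_lit 6) (nat_lit 624) (nat_lit 0) (nat_lit 203) (nat_lit 186) (nat_lit 181))) (PT.nd (nat_lit 78) (PT.lf (nat_lit 46360) (nat_lit 6) (nat_lit 610) (nat_lit 0) (nat_lit 204) (nat_lit 186) (nat_lit 180)) (PT.lf (nat_lit 45220) (nat_lit 6) (nat_lit 595) (nat_lit 0) (nat_lit 205) (nat_lit 186) (nat_lit 179))))) (PT.nd (nat_lit 312) (PT.nd (nat_lit 156) (PT.nd (nat_lit 78) (PT.lf (nat_lit 44004) (nat_lit 6) (nat_lit 579) (nat_lit 0) (nat_lit 206) (nat_lit 186) (nat_lit 178)) (PT.lf (nat_lit 42712) (nat_lit 6) (nat_lit 562) (nat_lit 0) (nat_lit 207) (nat_lit 186) (nat_lit 177))) (PT.nd (nat_lit 78) (PT.lf (nat_lit 41344) (nat_lit 6) (nat_lit 544) (nat_lit 0) (nat_lit 208) (nat_lit 186) (nat_lit 176)) (PT.lf (nat_lit 39900) (nat_lit 6) (nat_lit 525) (nat_lit 0) (nat_lit 209) (nat_lit 186) (nat_lit 175)))) (PT.nd (nat_lit 156) (PT.nd (nat_lit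 78) (PT.lf (nat_lit 38380) (nat_lit 6) (nat_lit 505) (nat_lit 0) (nat_lit 210) (nat_lit 186) (nat_lit 174)) (PT.lf (nat_lit 36784) (nat_lit 6) (nat_lit 484) (nat_lit 0) (nat_lit 211) (nat_lit 186) (nat_lit 173))) (PT.nd (nat_lit 78) (PT.lf (nat_lit 35112) (nat_lit 6) (nat_lit 462) (nat_lit 0) (nat_lit 212) (nat_lit 186) (nat_lit 172)) (PT.lf (nat_lit 33364) (nat_lit 6) (nat_lit 439) (nat_lit 0) (nat_lit 213) (nat_lit 186) (nat_lit 171)))))) (PT.nd (nat_lit 56394) (PT.nd (nat_lit 56082) (PT.nd (nat_lit 55926) (PT.nd (nat_lit 55848) (PT.lf (nat_lit 31540) (nat_lit 6) (nat_lit 415) (nat_lit 0) (nat_lit 214) (nat_lit 186) (nat_lit 170)) (PT.lf (nat_lit 31616) (nat_lit 6) (nat_lit 416) (nat_lit 5) (nat_lit 169) (nat_lit 187) (nat_lit 214))) (PT.nd (nat_lit 78) (PT.lf (nat_lit 33440) (nat_lit 6) (nat_lit 440) (nat_lit 5) (nat_lit 170) (nat_lit 187) (nat_lit 213)) (PT.lf (nat_lit 35188) (nat_lit 6) (nat_lit 463) (nat_lit 5) (nat_lit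 171) (nat_lit 187) (nat_lit 212)))) (PT.nd (nat_lit 156) (PT.nd (nat_lit 78) (PT.lf (nat_lit 36860) (nat_lit 6) (nat_lit 485) (nat_lit 5) (nat_lit 172) (nat_lit 187) (nat_lit 211)) (PT.lf (nat_lit 38456) (nat_lit 6) (nat_lit 506) (nat_lit 5) (nat_lit 173) (nat_lit 187) (nat_lit 210))) (PT.nd (nat_lit 78) (PT.lf (nat_lit 39976) (nat_lit 6) (nat_lit 526) (nat_lit 5) (nat_lit 174) (nat_lit 187) (nat_lit 209)) (PT.lf (nat_lit 41420) (nat_lit 6) (nat_lit 545) (nat_lit 5) (nat_lit 175) (nat_lit 187) (nat_lit 208))))) (PT.nd (nat_lit 312) (PT.nd (nat_lit 156) (PT.nd (nat_lit 78) (PT.lf (nat_lit 42788) (nat_lit 6) (nat_lit 563) (nat_lit 5) (nat_lit 176) (nat_lit 187) (nat_lit 207)) (PT.lf (nat_lit 44080) (nat_lit 6) (nat_lit 580) (nat_lit 5) (nat_lit 177) (nat_lit 187) (nat_lit 206))) (PT.nd (nat_lit 78) (PT.lf (nat_lit 45296) (nat_lit 6) (nat_lit 596) (nat_lit 5) (nat_lit 178) (nat_lit 187) (nat_lit 205)) (PT.lf (nat_lit 46436) (nat_lit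 6) (nat_lit 611) (nat_lit 5) (nat_lit 179) (nat_lit 187) (nat_lit 204)))) (PT.nd (nat_lit 156) (PT.nd (nat_lit 78) (PT.lf (nat_lit 47500) (nat_lit 6) (nat_lit 625) (nat_lit 5) (nat_lit 180) (nat_lit 187) (nat_lit 203)) (PT.lf (nat_lit 48488) (nat_lit 6) (nat_lit 638) (nat_lit 5) (nat_lit 181) (nat_lit 187) (nat_lit 202))) (PT.nd (nat_lit 78) (PT.lf (nat_lit 49400) (nat_lit 6) (nat_lit 650) (nat_lit 5) (nat_lit 182) (nat_lit 187) (nat_lit 201)) (PT.lf (nat_lit 50236) (nat_lit 6) (nat_lit 661) (nat_lit 5) (nat_lit 183) (nat_lit 187) (nat_lit 200))))))) (PT.nd (nat_lit 1248) (PT.nd (nat_lit 624) (PT.nd (nat_lit 312) (PT.nd (nat_lit 156) (PT.nd (nat_lit 78) (PT.lf (nat_lit 50996) (nat_lit 6) (nat_lit 671) (nat_lit 5) (nat_lit 184) (nat_lit 187) (nat_lit 199)) (PT.lf (nat_lit 51680) (nat_lit 6) (nat_lit 680) (nat_lit 5) (nat_lit 185) (nat_lit 187) (nat_lit 198))) (PT.nd (nat_lit 78) (PT.lf (nat_lit 52288) (nat_lit 6) (nat_lit 688)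 (nat_lit 5) (nat_lit 186) (nat_lit 187) (nat_lit 197)) (PT.lf (nat_lit 52820) (nat_lit 3) (nat_lit 695) (nat_lit 3) (nat_lit 187) (nat_lit 187) (nat_lit 196)))) (PT.nd (nat_lit 156) (PT.nd (nat_lit 78) (PT.lf (nat_lit 53352) (nat_lit 6) (nat_lit 702) (nat_lit 3) (nat_lit 188) (nat_lit 187) (nat_lit 195)) (PT.lf (nat_lit 53808) (nat_lit 6) (nat_lit 708) (nat_lit 3) (nat_lit 189) (nat_lit 187) (nat_lit 194))) (PT.nd (nat_lit 78) (PT.lf (nat_lit 54188) (nat_lit 6) (nat_lit 713) (nat_lit 3) (nat_lit 190) (nat_lit 187) (nat_lit 193)) (PT.lf (nat_lit 54264) (nat_lit 6) (nat_lit 714) (nat_lit 3) (nat_lit 191) (nat_lit 187) (nat_lit 192))))) (PT.nd (nat_lit 312) (PT.nd (nat_lit 156) (PT.nd (nat_lit 78) (PT.lf (nat_lit 54264) (nat_lit 6) (nat_lit 714) (nat_lit 1) (nat_lit 192) (nat_lit 187) (nat_lit 191)) (PT.lf (nat_lit 54188) (nat_lit 6) (nat_lit 713) (nat_lit 1) (nat_lit 193) (nat_lit 187) (nat_lit 190))) (PT.nd (nat_lit 78) (PT.lf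 (nat_lit 53808) (nat_lit 6) (nat_lit 708) (nat_lit 1) (nat_lit 194) (nat_lit 187) (nat_lit 189)) (PT.lf (nat_lit 53352) (nat_lit 6) (nat_lit 702) (nat_lit 1) (nat_lit 195) (nat_lit 187) (nat_lit 188)))) (PT.nd (nat_lit 156) (PT.nd (nat_lit 78) (PT.lf (nat_lit 52820) (nat_lit 3) (nat_lit 695) (nat_lit 0) (nat_lit 196) (nat_lit 187) (nat_lit 187)) (PT.lf (nat_lit 52288) (nat_lit 6) (nat_lit 688) (nat_lit 0) (nat_lit 197) (nat_lit 187) (nat_lit 186))) (PT.nd (nat_lit 78) (PT.lf (nat_lit 51680) (nat_lit 6) (nat_lit 680) (nat_lit 0) (nat_lit 198) (nat_lit 187) (nat_lit 185)) (PT.lf (nat_lit 50996) (nat_lit 6) (nat_lit 671) (nat_lit 0) (nat_lit 199) (nat_lit 187) (nat_lit 184)))))) (PT.nd (nat_lit 624) (PT.nd (nat_lit 312) (PT.nd (nat_lit 156) (PT.nd (nat_lit 78) (PT.lf (nat_lit 50236) (nat_lit 6) (nat_lit 661) (nat_lit 0) (nat_lit 200) (nat_lit 187) (nat_lit 183)) (PT.lf (nat_lit 49400) (nat_lit 6) (nat_lit 650) (nat_lit 0) (nat_lit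 201) (nat_lit 187) (nat_lit 182))) (PT.nd (nat_lit 78) (PT.lf (nat_lit 48488) (nat_lit 6) (nat_lit 638) (nat_lit 0) (nat_lit 202) (nat_lit 187) (nat_lit 181)) (PT.lf (nat_lit 47500) (nat_lit 6) (nat_lit 625) (nat_lit 0) (nat_lit 203) (nat_lit 187) (nat_lit 180)))) (PT.nd (nat_lit 156) (PT.nd (nat_lit 78) (PT.lf (nat_lit 46436) (nat_lit 6) (nat_lit 611) (nat_lit 0) (nat_lit 204) (nat_lit 187) (nat_lit 179)) (PT.lf (nat_lit 45296) (nat_lit 6) (nat_lit 596) (nat_lit 0) (nat_lit 205) (nat_lit 187) (nat_lit 178))) (PT.nd (nat_lit 78) (PT.lf (nat_lit 44080) (nat_lit 6) (nat_lit 580) (nat_lit 0) (nat_lit 206) (nat_lit 187) (nat_lit 177)) (PT.lf (nat_lit 42788) (nat_lit 6) (nat_lit 563) (nat_lit 0) (nat_lit 207) (nat_lit 187) (nat_lit 176))))) (PT.nd (nat_lit 312) (PT.nd (nat_lit 156) (PT.nd (nat_lit 78) (PT.lf (nat_lit 41420) (nat_lit 6) (nat_lit 545) (nat_lit 0) (nat_lit 208) (nat_lit 187) (nat_lit 175)) (PT.lf (nat_lit 39976) (nat_lit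 6) (nat_lit 526) (nat_lit 0) (nat_lit 209) (nat_lit 187) (nat_lit 174))) (PT.nd (nat_lit 78) (PT.lf (nat_lit 38456) (nat_lit 6) (nat_lit 506) (nat_lit 0) (nat_lit 210) (nat_lit 187) (nat_lit 173)) (PT.lf (nat_lit 36860) (nat_lit 6) (nat_lit 485) (nat_lit 0) (nat_lit 211) (nat_lit 187) (nat_lit 172)))) (PT.nd (nat_lit 156) (PT.nd (nat_lit 78) (PT.lf (nat_lit 35188) (nat_lit 6) (nat_lit 463) (nat_lit 0) (nat_lit 212) (nat_lit 187) (nat_lit 171)) (PT.lf (nat_lit 33440) (nat_lit 6) (nat_lit 440) (nat_lit 0) (nat_lit 213) (nat_lit 187) (nat_lit 170))) (PT.nd (nat_lit 55770) (PT.lf (nat_lit 31616) (nat_lit 6) (nat_lit 416) (nat_lit 0) (nat_lit 214) (nat_lit 187) (nat_lit 169)) (PT.lf (nat_lit 31692) (nat_lit 6) (nat_lit 417) (nat_lit 5) (nat_lit 168) (nat_lit 188) (nat_lit 214))))))))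
noncomputable def pc24 : PT := (PT.nd (nat_lit 2418) (PT.nd (nat_lit 1170) (PT.nd (nat_lit 546) (PT.nd (nat_lit 234) (PT.nd (nat_lit 78) (PT.lf (nat_lit 33516) (nat_lit 6) (nat_lit 441) (nat_lit 5) (nat_lit 169) (nat_lit 188) (nat_lit 213)) (PT.nd (nat_lit 78) (PT.lf (nat_lit 35264) (nat_lit 6) (nat_lit 464) (nat_lit 5) (nat_lit 170) (nat_lit 188) (nat_lit 212)) (PT.lf (nat_lit 36936) (nat_lit 6) (nat_lit 486) (nat_lit 5) (nat_lit 171) (nat_lit 188) (nat_lit 211)))) (PT.nd (nat_lit 156) (PT.nd (nat_lit 78) (PT.lf (nat_lit 38532) (nat_lit 6) (nat_lit 507) (nat_lit 5) (nat_lit 172) (nat_lit 188) (nat_lit 210)) (PT.lf (nat_lit 40052) (nat_lit 6) (nat_lit 527) (nat_lit 5) (nat_lit 173) (nat_lit 188) (nat_lit 209))) (PT.nd (nat_lit 78) (PT.lf (nat_lit 41496) (nat_lit 6) (nat_lit 546) (nat_lit 5) (nat_lit 174) (nat_lit 188) (nat_lit 208)) (PT.lf (nat_lit 42864) (nat_lit 6) (nat_lit 564) (nat_lit 5) (nat_lit 175) (nat_lit 188) (nat_lit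 207))))) (PT.nd (nat_lit 312) (PT.nd (nat_lit 156) (PT.nd (nat_lit 78) (PT.lf (nat_lit 44156) (nat_lit 6) (nat_lit 581) (nat_lit 5) (nat_lit 176) (nat_lit 188) (nat_lit 206)) (PT.lf (nat_lit 45372) (nat_lit 6) (nat_lit 597) (nat_lit 5) (nat_lit 177) (nat_lit 188) (nat_lit 205))) (PT.nd (nat_lit 78) (PT.lf (nat_lit 46512) (nat_lit 6) (nat_lit 612) (nat_lit 5) (nat_lit 178) (nat_lit 188) (nat_lit 204)) (PT.lf (nat_lit 47576) (nat_lit 6) (nat_lit 626) (nat_lit 5) (nat_lit 179) (nat_lit 188) (nat_lit 203)))) (PT.nd (nat_lit 156) (PT.nd (nat_lit 78) (PT.lf (nat_lit 48564) (nat_lit 6) (nat_lit 639) (nat_lit 5) (nat_lit 180) (nat_lit 188) (nat_lit 202)) (PT.lf (nat_lit 49476) (nat_lit 6) (nat_lit 651) (nat_lit 5) (nat_lit 181) (nat_lit 188) (nat_lit 201))) (PT.nd (nat_lit 78) (PT.lf (nat_lit 50312) (nat_lit 6) (nat_lit 662) (nat_lit 5) (nat_lit 182) (nat_lit 188) (nat_lit 200)) (PT.lf (nat_lit 51072) (nat_lit 6) (nat_lit 672) (nat_lit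 5) (nat_lit 183) (nat_lit 188) (nat_lit 199)))))) (PT.nd (nat_lit 624) (PT.nd (nat_lit 312) (PT.nd (nat_lit 156) (PT.nd (nat_lit 78) (PT.lf (nat_lit 51756) (nat_lit 6) (nat_lit 681) (nat_lit 5) (nat_lit 184) (nat_lit 188) (nat_lit 198)) (PT.lf (nat_lit 52364) (nat_lit 6) (nat_lit 689) (nat_lit 5) (nat_lit 185) (nat_lit 188) (nat_lit 197))) (PT.nd (nat_lit 78) (PT.lf (nat_lit 52896) (nat_lit 6) (nat_lit 696) (nat_lit 5) (nat_lit 186) (nat_lit 188) (nat_lit 196)) (PT.lf (nat_lit 53352) (nat_lit 6) (nat_lit 702) (nat_lit 5) (nat_lit 187) (nat_lit 188) (nat_lit 195)))) (PT.nd (nat_lit 156) (PT.nd (nat_lit 78) (PT.lf (nat_lit 53732) (nat_lit 3) (nat_lit 707) (nat_lit 3) (nat_lit 188) (nat_lit 188) (nat_lit 194)) (PT.lf (nat_lit 54112) (nat_lit 6) (nat_lit 712) (nat_lit 3) (nat_lit 189) (nat_lit 188) (nat_lit 193))) (PT.nd (nat_lit 78) (PT.lf (nat_lit 54416) (nat_lit 6) (nat_lit 716) (nat_lit 3) (nat_lit 190) (nat_lit 188) (nat_lit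 192)) (PT.lf (nat_lit 54492) (nat_lit 3) (nat_lit 717) (nat_lit 1) (nat_lit 191) (nat_lit 188) (nat_lit 191))))) (PT.nd (nat_lit 312) (PT.nd (nat_lit 156) (PT.nd (nat_lit 78) (PT.lf (nat_lit 54416) (nat_lit 6) (nat_lit 716) (nat_lit 1) (nat_lit 192) (nat_lit 188) (nat_lit 190)) (PT.lf (nat_lit 54112) (nat_lit 6) (nat_lit 712) (nat_lit 1) (nat_lit 193) (nat_lit 188) (nat_lit 189))) (PT.nd (nat_lit 78) (PT.lf (nat_lit 53732) (nat_lit 3) (nat_lit 707) (nat_lit 0) (nat_lit 194) (nat_lit 188) (nat_lit 188)) (PT.lf (nat_lit 53352) (nat_lit 6) (nat_lit 702) (nat_lit 0) (nat_lit 195) (nat_lit 188) (nat_lit 187)))) (PT.nd (nat_lit 156) (PT.nd (nat_lit 78) (PT.lf (nat_lit 52896) (nat_lit 6) (nat_lit 696) (nat_lit 0) (nat_lit 196) (nat_lit 188) (nat_lit 186)) (PT.lf (nat_lit 52364) (nat_lit 6) (nat_lit 689) (nat_lit 0) (nat_lit 197) (nat_lit 188) (nat_lit 185))) (PT.nd (nat_lit 78) (PT.lf (nat_lit 51756) (nat_lit 6) (nat_lit 681) (nat_lit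 0) (nat_lit 198) (nat_lit 188) (nat_lit 184)) (PT.lf (nat_lit 51072) (nat_lit 6) (nat_lit 672) (nat_lit 0) (nat_lit 199) (nat_lit 188) (nat_lit 183))))))) (PT.nd (nat_lit 56862) (PT.nd (nat_lit 624) (PT.nd (nat_lit 312) (PT.nd (nat_lit 156) (PT.nd (nat_lit 78) (PT.lf (nat_lit 50312) (nat_lit 6) (nat_lit 662) (nat_lit 0) (nat_lit 200) (nat_lit 188) (nat_lit 182)) (PT.lf (nat_lit 49476) (nat_lit 6) (nat_lit 651) (nat_lit 0) (nat_lit 201) (nat_lit 188) (nat_lit 181))) (PT.nd (nat_lit 78) (PT.lf (nat_lit 48564) (nat_lit 6) (nat_lit 639) (nat_lit 0) (nat_lit 202) (nat_lit 188) (nat_lit 180)) (PT.lf (nat_lit 47576) (nat_lit 6) (nat_lit 626) (nat_lit 0) (nat_lit 203) (nat_lit 188) (nat_lit 179)))) (PT.nd (nat_lit 156) (PT.nd (nat_lit 78) (PT.lf (nat_lit 46512) (nat_lit 6) (nat_lit 612) (nat_lit 0) (nat_lit 204) (nat_lit 188) (nat_lit 178)) (PT.lf (nat_lit 45372) (nat_lit 6) (nat_lit 597) (nat_lit 0) (nat_lit 205) (nat_lit 188) (nat_lit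 177))) (PT.nd (nat_lit 78) (PT.lf (nat_lit 44156) (nat_lit 6) (nat_lit 581) (nat_lit 0) (nat_lit 206) (nat_lit 188) (nat_lit 176)) (PT.lf (nat_lit 42864) (nat_lit 6) (nat_lit 564) (nat_lit 0) (nat_lit 207) (nat_lit 188) (nat_lit 175))))) (PT.nd (nat_lit 312) (PT.nd (nat_lit 156) (PT.nd (nat_lit 78) (PT.lf (nat_lit 41496) (nat_lit 6) (nat_lit 546) (nat_lit 0) (nat_lit 208) (nat_lit 188) (nat_lit 174)) (PT.lf (nat_lit 40052) (nat_lit 6) (nat_lit 527) (nat_lit 0) (nat_lit 209) (nat_lit 188) (nat_lit 173))) (PT.nd (nat_lit 78) (PT.lf (nat_lit 38532) (nat_lit 6) (nat_lit 507) (nat_lit 0) (nat_lit 210) (nat_lit 188) (nat_lit 172)) (PT.lf (nat_lit 36936) (nat_lit 6) (nat_lit 486) (nat_lit 0) (nat_lit 211) (nat_lit 188) (nat_lit 171)))) (PT.nd (nat_lit 156) (PT.nd (nat_lit 78) (PT.lf (nat_lit 35264) (nat_lit 6) (nat_lit 464) (nat_lit 0) (nat_lit 212) (nat_lit 188) (nat_lit 170)) (PT.lf (nat_lit 33516) (nat_lit 6) (nat_lit 441) (nat_lit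 0) (nat_lit 213) (nat_lit 188) (nat_lit 169))) (PT.nd (nat_lit 55692) (PT.lf (nat_lit 31692) (nat_lit 6) (nat_lit 417) (nat_lit 0) (nat_lit 214) (nat_lit 188) (nat_lit 168)) (PT.lf (nat_lit 31768) (nat_lit 6) (nat_lit 418) (nat_lit 5) (nat_lit 167) (nat_lit 189) (nat_lit 214)))))) (PT.nd (nat_lit 624) (PT.nd (nat_lit 312) (PT.nd (nat_lit 156) (PT.nd (nat_lit 78) (PT.lf (nat_lit 33592) (nat_lit 6) (nat_lit 442) (nat_lit 5) (nat_lit 168) (nat_lit 189) (nat_lit 213)) (PT.lf (nat_lit 35340) (nat_lit 6) (nat_lit 465) (nat_lit 5) (nat_lit 169) (nat_lit 189) (nat_lit 212))) (PT.nd (nat_lit 78) (PT.lf (nat_lit 37012) (nat_lit 6) (nat_lit 487) (nat_lit 5) (nat_lit 170) (nat_lit 189) (nat_lit 211)) (PT.lf (nat_lit 38608) (nat_lit 6) (nat_lit 508) (nat_lit 5) (nat_lit 171) (nat_lit 189) (nat_lit 210)))) (PT.nd (nat_lit 156) (PT.nd (nat_lit 78) (PT.lf (nat_lit 40128) (nat_lit 6) (nat_lit 528) (nat_lit 5) (nat_lit 172) (nat_lit 189) (nat_lit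 209)) (PT.lf (nat_lit 41572) (nat_lit 6) (nat_lit 547) (nat_lit 5) (nat_lit 173) (nat_lit 189) (nat_lit 208))) (PT.nd (nat_lit 78) (PT.lf (nat_lit 42940) (nat_lit 6) (nat_lit 565) (nat_lit 5) (nat_lit 174) (nat_lit 189) (nat_lit 207)) (PT.lf (nat_lit 44232) (nat_lit 6) (nat_lit 582) (nat_lit 5) (nat_lit 175) (nat_lit 189) (nat_lit 206))))) (PT.nd (nat_lit 312) (PT.nd (nat_lit 156) (PT.nd (nat_lit 78) (PT.lf (nat_lit 45448) (nat_lit 6) (nat_lit 598) (nat_lit 5) (nat_lit 176) (nat_lit 189) (nat_lit 205)) (PT.lf (nat_lit 46588) (nat_lit 6) (nat_lit 613) (nat_lit 5) (nat_lit 177) (nat_lit 189) (nat_lit 204))) (PT.nd (nat_lit 78) (PT.lf (nat_lit 47652) (nat_lit 6) (nat_lit 627) (nat_lit 5) (nat_lit 178) (nat_lit 189) (nat_lit 203)) (PT.lf (nat_lit 48640) (nat_lit 6) (nat_lit 640) (nat_lit 5) (nat_lit 179) (nat_lit 189) (nat_lit 202)))) (PT.nd (nat_lit 156) (PT.nd (nat_lit 78) (PT.lf (nat_lit 49552) (nat_lit 6) (nat_lit 652) (nat_lit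 5) (nat_lit 180) (nat_lit 189) (nat_lit 201)) (PT.lf (nat_lit 50388) (nat_lit 6) (nat_lit 663) (nat_lit 5) (nat_lit 181) (nat_lit 189) (nat_lit 200))) (PT.nd (nat_lit 78) (PT.lf (nat_lit 51148) (nat_lit 6) (nat_lit 673) (nat_lit 5) (nat_lit 182) (nat_lit 189) (nat_lit 199)) (PT.lf (nat_lit 51832) (nat_lit 6) (nat_lit 682) (nat_lit 5) (nat_lit 183) (nat_lit 189) (nat_lit 198))))))))
noncomputable def pc25 : PT := (PT.nd (nat_lit 57954) (PT.nd (nat_lit 1170) (PT.nd (nat_lit 546) (PT.nd (nat_lit 234) (PT.nd (nat_lit 78) (PT.lf (nat_lit 52440) (nat_lit 6) (nat_lit 690) (nat_lit 5) (nat_lit 184) (nat_lit 189) (nat_lit 197)) (PT.nd (nat_lit 78) (PT.lf (nat_lit 52972) (nat_lit 6) (nat_lit 697) (nat_lit 5) (nat_lit 185) (nat_lit 189) (nat_lit 196)) (PT.lf (nat_lit 53428) (nat_lit 6) (nat_lit 703) (nat_lit 5) (nat_lit 186) (nat_lit 189) (nat_lit 195)))) (PT.nd (nat_lit 156) (PT.nd (nat_lit 78) (PT.lf (nat_lit 53808) (nat_lit 6) (nat_lit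 708) (nat_lit 5) (nat_lit 187) (nat_lit 189) (nat_lit 194)) (PT.lf (nat_lit 54112) (nat_lit 6) (nat_lit 712) (nat_lit 5) (nat_lit 188) (nat_lit 189) (nat_lit 193))) (PT.nd (nat_lit 78) (PT.lf (nat_lit 54340) (nat_lit 3) (nat_lit 715) (nat_lit 3) (nat_lit 189) (nat_lit 189) (nat_lit 192)) (PT.lf (nat_lit 54568) (nat_lit 6) (nat_lit 718) (nat_lit 3) (nat_lit 190) (nat_lit 189) (nat_lit 191))))) (PT.nd (nat_lit 312) (PT.nd (nat_lit 156) (PT.nd (nat_lit 78) (PT.lf (nat_lit 54568) (nat_lit 6) (nat_lit 718) (nat_lit 1) (nat_lit 191) (nat_lit 189) (nat_lit 190)) (PT.lf (nat_lit 54340) (nat_lit 3) (nat_lit 715) (nat_lit 0) (nat_lit 192) (nat_lit 189) (nat_lit 189))) (PT.nd (nat_lit 78) (PT.lf (nat_lit 54112) (nat_lit 6) (nat_lit 712) (nat_lit 0) (nat_lit 193) (nat_lit 189) (nat_lit 188)) (PT.lf (nat_lit 53808) (nat_lit 6) (nat_lit 708) (nat_lit 0) (nat_lit 194) (nat_lit 189) (nat_lit 187)))) (PT.nd (nat_lit 156) (PT.nd (nat_lit 78)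 (PT.lf (nat_lit 53428) (nat_lit 6) (nat_lit 703) (nat_lit 0) (nat_lit 195) (nat_lit 189) (nat_lit 186)) (PT.lf (nat_lit 52972) (nat_lit 6) (nat_lit 697) (nat_lit 0) (nat_lit 196) (nat_lit 189) (nat_lit 185))) (PT.nd (nat_lit 78) (PT.lf (nat_lit 52440) (nat_lit 6) (nat_lit 690) (nat_lit 0) (nat_lit 197) (nat_lit 189) (nat_lit 184)) (PT.lf (nat_lit 51832) (nat_lit 6) (nat_lit 682) (nat_lit 0) (nat_lit 198) (nat_lit 189) (nat_lit 183)))))) (PT.nd (nat_lit 624) (PT.nd (nat_lit 312) (PT.nd (nat_lit 156) (PT.nd (nat_lit 78) (PT.lf (nat_lit 51148) (nat_lit 6) (nat_lit 673) (nat_lit 0) (nat_lit 199) (nat_lit 189) (nat_lit 182)) (PT.lf (nat_lit 50388) (nat_lit 6) (nat_lit 663) (nat_lit 0) (nat_lit 200) (nat_lit 189) (nat_lit 181))) (PT.nd (nat_lit 78) (PT.lf (nat_lit 49552) (nat_lit 6) (nat_lit 652) (nat_lit 0) (nat_lit 201) (nat_lit 189) (nat_lit 180)) (PT.lf (nat_lit 48640) (nat_lit 6) (nat_lit 640) (nat_lit 0) (nat_lit 202) (nat_lit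 189) (nat_lit 179)))) (PT.nd (nat_lit 156) (PT.nd (nat_lit 78) (PT.lf (nat_lit 47652) (nat_lit 6) (nat_lit 627) (nat_lit 0) (nat_lit 203) (nat_lit 189) (nat_lit 178)) (PT.lf (nat_lit 46588) (nat_lit 6) (nat_lit 613) (nat_lit 0) (nat_lit 204) (nat_lit 189) (nat_lit 177))) (PT.nd (nat_lit 78) (PT.lf (nat_lit 45448) (nat_lit 6) (nat_lit 598) (nat_lit 0) (nat_lit 205) (nat_lit 189) (nat_lit 176)) (PT.lf (nat_lit 44232) (nat_lit 6) (nat_lit 582) (nat_lit 0) (nat_lit 206) (nat_lit 189) (nat_lit 175))))) (PT.nd (nat_lit 312) (PT.nd (nat_lit 156) (PT.nd (nat_lit 78) (PT.lf (nat_lit 42940) (nat_lit 6) (nat_lit 565) (nat_lit 0) (nat_lit 207) (nat_lit 189) (nat_lit 174)) (PT.lf (nat_lit 41572) (nat_lit 6) (nat_lit 547) (nat_lit 0) (nat_lit 208) (nat_lit 189) (nat_lit 173))) (PT.nd (nat_lit 78) (PT.lf (nat_lit 40128) (nat_lit 6) (nat_lit 528) (nat_lit 0) (nat_lit 209) (nat_lit 189) (nat_lit 172)) (PT.lf (nat_lit 38608) (nat_lit 6) (nat_lit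 508) (nat_lit 0) (nat_lit 210) (nat_lit 189) (nat_lit 171)))) (PT.nd (nat_lit 156) (PT.nd (nat_lit 78) (PT.lf (nat_lit 37012) (nat_lit 6) (nat_lit 487) (nat_lit 0) (nat_lit 211) (nat_lit 189) (nat_lit 170)) (PT.lf (nat_lit 35340) (nat_lit 6) (nat_lit 465) (nat_lit 0) (nat_lit 212) (nat_lit 189) (nat_lit 169))) (PT.nd (nat_lit 78) (PT.lf (nat_lit 33592) (nat_lit 6) (nat_lit 442) (nat_lit 0) (nat_lit 213) (nat_lit 189) (nat_lit 168)) (PT.lf (nat_lit 31768) (nat_lit 6) (nat_lit 418) (nat_lit 0) (nat_lit 214) (nat_lit 189) (nat_lit 167))))))) (PT.nd (nat_lit 1248) (PT.nd (nat_lit 624) (PT.nd (nat_lit 312) (PT.nd (nat_lit 156) (PT.nd (nat_lit 78) (PT.lf (nat_lit 31844) (nat_lit 6) (nat_lit 419) (nat_lit 5) (nat_lit 166) (nat_lit 190) (nat_lit 214)) (PT.lf (nat_lit 33668) (nat_lit 6) (nat_lit 443) (nat_lit 5) (nat_lit 167) (nat_lit 190) (nat_lit 213))) (PT.nd (nat_lit 78) (PT.lf (nat_lit 35416) (nat_lit 6) (nat_lit 466) (nat_lit 5)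 (nat_lit 168) (nat_lit 190) (nat_lit 212)) (PT.lf (nat_lit 37088) (nat_lit 6) (nat_lit 488) (nat_lit 5) (nat_lit 169) (nat_lit 190) (nat_lit 211)))) (PT.nd (nat_lit 156) (PT.nd (nat_lit 78) (PT.lf (nat_lit 38684) (nat_lit 6) (nat_lit 509) (nat_lit 5) (nat_lit 170) (nat_lit 190) (nat_lit 210)) (PT.lf (nat_lit 40204) (nat_lit 6) (nat_lit 529) (nat_lit 5) (nat_lit 171) (nat_lit 190) (nat_lit 209))) (PT.nd (nat_lit 78) (PT.lf (nat_lit 41648) (nat_lit 6) (nat_lit 548) (nat_lit 5) (nat_lit 172) (nat_lit 190) (nat_lit 208)) (PT.lf (nat_lit 43016) (nat_lit 6) (nat_lit 566) (nat_lit 5) (nat_lit 173) (nat_lit 190) (nat_lit 207))))) (PT.nd (nat_lit 312) (PT.nd (nat_lit 156) (PT.nd (nat_lit 78) (PT.lf (nat_lit 44308) (nat_lit 6) (nat_lit 583) (nat_lit 5) (nat_lit 174) (nat_lit 190) (nat_lit 206)) (PT.lf (nat_lit 45524) (nat_lit 6) (nat_lit 599) (nat_lit 5) (nat_lit 175) (nat_lit 190) (nat_lit 205))) (PT.nd (nat_lit 78) (PT.lf (nat_lit 46664)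 (nat_lit 6) (nat_lit 614) (nat_lit 5) (nat_lit 176) (nat_lit 190) (nat_lit 204)) (PT.lf (nat_lit 47728) (nat_lit 6) (nat_lit 628) (nat_lit 5) (nat_lit 177) (nat_lit 190) (nat_lit 203)))) (PT.nd (nat_lit 156) (PT.nd (nat_lit 78) (PT.lf (nat_lit 48716) (nat_lit 6) (nat_lit 641) (nat_lit 5) (nat_lit 178) (nat_lit 190) (nat_lit 202)) (PT.lf (nat_lit 49628) (nat_lit 6) (nat_lit 653) (nat_lit 5) (nat_lit 179) (nat_lit 190) (nat_lit 201))) (PT.nd (nat_lit 78) (PT.lf (nat_lit 50464) (nat_lit 6) (nat_lit 664) (nat_lit 5) (nat_lit 180) (nat_lit 190) (nat_lit 200)) (PT.lf (nat_lit 51224) (nat_lit 6) (nat_lit 674) (nat_lit 5) (nat_lit 181) (nat_lit 190) (nat_lit 199)))))) (PT.nd (nat_lit 624) (PT.nd (nat_lit 312) (PT.nd (nat_lit 156) (PT.nd (nat_lit 78) (PT.lf (nat_lit 51908) (nat_lit 6) (nat_lit 683) (nat_lit 5) (nat_lit 182) (nat_lit 190) (nat_lit 198)) (PT.lf (nat_lit 52516) (nat_lit 6) (nat_lit 691) (nat_lit 5) (nat_lit 183) (nat_lit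 190) (nat_lit 197))) (PT.nd (nat_lit 78) (PT.lf (nat_lit 53048) (nat_lit 6) (nat_lit 698) (nat_lit 5) (nat_lit 184) (nat_lit 190) (nat_lit 196)) (PT.lf (nat_lit 53504) (nat_lit 6) (nat_lit 704) (nat_lit 5) (nat_lit 185) (nat_lit 190) (nat_lit 195)))) (PT.nd (nat_lit 156) (PT.nd (nat_lit 78) (PT.lf (nat_lit 53884) (nat_lit 6) (nat_lit 709) (nat_lit 5) (nat_lit 186) (nat_lit 190) (nat_lit 194)) (PT.lf (nat_lit 54188) (nat_lit 6) (nat_lit 713) (nat_lit 5) (nat_lit 187) (nat_lit 190) (nat_lit 193))) (PT.nd (nat_lit 78) (PT.lf (nat_lit 54416) (nat_lit 6) (nat_lit 716) (nat_lit 5) (nat_lit 188) (nat_lit 190) (nat_lit 192)) (PT.lf (nat_lit 54568) (nat_lit 6) (nat_lit 718) (nat_lit 5) (nat_lit 189) (nat_lit 190) (nat_lit 191))))) (PT.nd (nat_lit 312) (PT.nd (nat_lit 156) (PT.nd (nat_lit 78) (PT.lf (nat_lit 54644) (nat_lit 1) (nat_lit 719) (nat_lit 0) (nat_lit 190) (nat_lit 190) (nat_lit 190)) (PT.lf (nat_lit 54568) (nat_lit 6) (nat_lit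 718) (nat_lit 0) (nat_lit 191) (nat_lit 190) (nat_lit 189))) (PT.nd (nat_lit 78) (PT.lf (nat_lit 54416) (nat_lit 6) (nat_lit 716) (nat_lit 0) (nat_lit 192) (nat_lit 190) (nat_lit 188)) (PT.lf (nat_lit 54188) (nat_lit 6) (nat_lit 713) (nat_lit 0) (nat_lit 193) (nat_lit 190) (nat_lit 187)))) (PT.nd (nat_lit 156) (PT.nd (nat_lit 78) (PT.lf (nat_lit 53884) (nat_lit 6) (nat_lit 709) (nat_lit 0) (nat_lit 194) (nat_lit 190) (nat_lit 186)) (PT.lf (nat_lit 53504) (nat_lit 6) (nat_lit 704) (nat_lit 0) (nat_lit 195) (nat_lit 190) (nat_lit 185))) (PT.nd (nat_lit 78) (PT.lf (nat_lit 53048) (nat_lit 6) (nat_lit 698) (nat_lit 0) (nat_lit 196) (nat_lit 190) (nat_lit 184)) (PT.lf (nat_lit 52516) (nat_lit 6) (nat_lit 691) (nat_lit 0) (nat_lit 197) (nat_lit 190) (nat_lit 183))))))))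
noncomputable def pc26 : PT := (PT.nd (nat_lit 57876) (PT.nd (nat_lit 1170) (PT.nd (nat_lit 546) (PT.nd (nat_lit 234) (PT.nd (nat_lit 78) (PT.lf (nat_lit 51908) (nat_lit 6) (nat_lit 683) (nat_lit 0) (nat_lit 198) (nat_lit 190) (nat_lit 182)) (PT.nd (nat_lit 78) (PT.lf (nat_lit 51224) (nat_lit 6) (nat_lit 674) (nat_lit 0) (nat_lit 199) (nat_lit 190) (nat_lit 181)) (PT.lf (nat_lit 50464) (nat_lit 6) (nat_lit 664) (nat_lit 0) (nat_lit 200) (nat_lit 190) (nat_lit 180)))) (PT.nd (nat_lit 156) (PT.nd (nat_lit 78) (PT.lf (nat_lit 49628) (nat_lit 6) (nat_lit 653) (nat_lit 0) (nat_lit 201) (nat_lit 190) (nat_lit 179)) (PT.lf (nat_lit 48716) (nat_lit 6) (nat_lit 641) (nat_lit 0) (nat_lit 202) (nat_lit 190) (nat_lit 178))) (PT.nd (nat_lit 78) (PT.lf (nat_lit 47728) (nat_lit 6) (nat_lit 628) (nat_lit 0) (nat_lit 203) (nat_lit 190) (nat_lit 177)) (PT.lf (nat_lit 46664) (nat_lit 6) (nat_lit 614) (nat_lit 0) (nat_lit 204) (nat_lit 190) (nat_lit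 176))))) (PT.nd (nat_lit 312) (PT.nd (nat_lit 156) (PT.nd (nat_lit 78) (PT.lf (nat_lit 45524) (nat_lit 6) (nat_lit 599) (nat_lit 0) (nat_lit 205) (nat_lit 190) (nat_lit 175)) (PT.lf (nat_lit 44308) (nat_lit 6) (nat_lit 583) (nat_lit 0) (nat_lit 206) (nat_lit 190) (nat_lit 174))) (PT.nd (nat_lit 78) (PT.lf (nat_lit 43016) (nat_lit 6) (nat_lit 566) (nat_lit 0) (nat_lit 207) (nat_lit 190) (nat_lit 173)) (PT.lf (nat_lit 41648) (nat_lit 6) (nat_lit 548) (nat_lit 0) (nat_lit 208) (nat_lit 190) (nat_lit 172)))) (PT.nd (nat_lit 156) (PT.nd (nat_lit 78) (PT.lf (nat_lit 40204) (nat_lit 6) (nat_lit 529) (nat_lit 0) (nat_lit 209) (nat_lit 190) (nat_lit 171)) (PT.lf (nat_lit 38684) (nat_lit 6) (nat_lit 509) (nat_lit 0) (nat_lit 210) (nat_lit 190) (nat_lit 170))) (PT.nd (nat_lit 78) (PT.lf (nat_lit 37088) (nat_lit 6) (nat_lit 488) (nat_lit 0) (nat_lit 211) (nat_lit 190) (nat_lit 169)) (PT.lf (nat_lit 35416) (nat_lit 6) (nat_lit 466) (nat_lit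 0) (nat_lit 212) (nat_lit 190) (nat_lit 168)))))) (PT.nd (nat_lit 56082) (PT.nd (nat_lit 55770) (PT.nd (nat_lit 55614) (PT.nd (nat_lit 78) (PT.lf (nat_lit 33668) (nat_lit 6) (nat_lit 443) (nat_lit 0) (nat_lit 213) (nat_lit 190) (nat_lit 167)) (PT.lf (nat_lit 31844) (nat_lit 6) (nat_lit 419) (nat_lit 0) (nat_lit 214) (nat_lit 190) (nat_lit 166))) (PT.nd (nat_lit 78) (PT.lf (nat_lit 30552) (nat_lit 6) (nat_lit 402) (nat_lit 5) (nat_lit 165) (nat_lit 191) (nat_lit 214)) (PT.lf (nat_lit 31920) (nat_lit 6) (nat_lit 420) (nat_lit 5) (nat_lit 166) (nat_lit 191) (nat_lit 213)))) (PT.nd (nat_lit 156) (PT.nd (nat_lit 78) (PT.lf (nat_lit 33744) (nat_lit 6) (nat_lit 444) (nat_lit 5) (nat_lit 167) (nat_lit 191) (nat_lit 212)) (PT.lf (nat_lit 35492) (nat_lit 6) (nat_lit 467) (nat_lit 5) (nat_lit 168) (nat_lit 191) (nat_lit 211))) (PT.nd (nat_lit 78) (PT.lf (nat_lit 37164) (nat_lit 6) (nat_lit 489) (nat_lit 5) (nat_lit 169) (nat_lit 191) (nat_lit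 210)) (PT.lf (nat_lit 38760) (nat_lit 6) (nat_lit 510) (nat_lit 5) (nat_lit 170) (nat_lit 191) (nat_lit 209))))) (PT.nd (nat_lit 312) (PT.nd (nat_lit 156) (PT.nd (nat_lit 78) (PT.lf (nat_lit 40280) (nat_lit 6) (nat_lit 530) (nat_lit 5) (nat_lit 171) (nat_lit 191) (nat_lit 208)) (PT.lf (nat_lit 41724) (nat_lit 6) (nat_lit 549) (nat_lit 5) (nat_lit 172) (nat_lit 191) (nat_lit 207))) (PT.nd (nat_lit 78) (PT.lf (nat_lit 43092) (nat_lit 6) (nat_lit 567) (nat_lit 5) (nat_lit 173) (nat_lit 191) (nat_lit 206)) (PT.lf (nat_lit 44384) (nat_lit 6) (nat_lit 584) (nat_lit 5) (nat_lit 174) (nat_lit 191) (nat_lit 205)))) (PT.nd (nat_lit 156) (PT.nd (nat_lit 78) (PT.lf (nat_lit 45600) (nat_lit 6) (nat_lit 600) (nat_lit 5) (nat_lit 175) (nat_lit 191) (nat_lit 204)) (PT.lf (nat_lit 46740) (nat_lit 6) (nat_lit 615) (nat_lit 5) (nat_lit 176) (nat_lit 191) (nat_lit 203))) (PT.nd (nat_lit 78) (PT.lf (nat_lit 47804) (nat_lit 6) (nat_lit 629) (nat_lit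 5) (nat_lit 177) (nat_lit 191) (nat_lit 202)) (PT.lf (nat_lit 48792) (nat_lit 6) (nat_lit 642) (nat_lit 5) (nat_lit 178) (nat_lit 191) (nat_lit 201))))))) (PT.nd (nat_lit 1248) (PT.nd (nat_lit 624) (PT.nd (nat_lit 312) (PT.nd (nat_lit 156) (PT.nd (nat_lit 78) (PT.lf (nat_lit 49704) (nat_lit 6) (nat_lit 654) (nat_lit 5) (nat_lit 179) (nat_lit 191) (nat_lit 200)) (PT.lf (nat_lit 50540) (nat_lit 6) (nat_lit 665) (nat_lit 5) (nat_lit 180) (nat_lit 191) (nat_lit 199))) (PT.nd (nat_lit 78) (PT.lf (nat_lit 51300) (nat_lit 6) (nat_lit 675) (nat_lit 5) (nat_lit 181) (nat_lit 191) (nat_lit 198)) (PT.lf (nat_lit 51984) (nat_lit 6) (nat_lit 684) (nat_lit 5) (nat_lit 182) (nat_lit 191) (nat_lit 197)))) (PT.nd (nat_lit 156) (PT.nd (nat_lit 78) (PT.lf (nat_lit 52592) (nat_lit 6) (nat_lit 692) (nat_lit 5) (nat_lit 183) (nat_lit 191) (nat_lit 196)) (PT.lf (nat_lit 53124) (nat_lit 6) (nat_lit 699) (nat_lit 5) (nat_lit 184) (nat_lit 191) (nat_lit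 195))) (PT.nd (nat_lit 78) (PT.lf (nat_lit 53580) (nat_lit 6) (nat_lit 705) (nat_lit 5) (nat_lit 185) (nat_lit 191) (nat_lit 194)) (PT.lf (nat_lit 53960) (nat_lit 6) (nat_lit 710) (nat_lit 5) (nat_lit 186) (nat_lit 191) (nat_lit 193))))) (PT.nd (nat_lit 312) (PT.nd (nat_lit 156) (PT.nd (nat_lit 78) (PT.lf (nat_lit 54264) (nat_lit 6) (nat_lit 714) (nat_lit 5) (nat_lit 187) (nat_lit 191) (nat_lit 192)) (PT.lf (nat_lit 54492) (nat_lit 3) (nat_lit 717) (nat_lit 4) (nat_lit 188) (nat_lit 191) (nat_lit 191))) (PT.nd (nat_lit 78) (PT.lf (nat_lit 54568) (nat_lit 6) (nat_lit 718) (nat_lit 4) (nat_lit 189) (nat_lit 191) (nat_lit 190)) (PT.lf (nat_lit 54568) (nat_lit 6) (nat_lit 718) (nat_lit 2) (nat_lit 190) (nat_lit 191) (nat_lit 189)))) (PT.nd (nat_lit 156) (PT.nd (nat_lit 78) (PT.lf (nat_lit 54492) (nat_lit 3) (nat_lit 717) (nat_lit 0) (nat_lit 191) (nat_lit 191) (nat_lit 188)) (PT.lf (nat_lit 54264) (nat_lit 6) (nat_lit 714) (nat_lit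 0) (nat_lit 192) (nat_lit 191) (nat_lit 187))) (PT.nd (nat_lit 78) (PT.lf (nat_lit 53960) (nat_lit 6) (nat_lit 710) (nat_lit 0) (nat_lit 193) (nat_lit 191) (nat_lit 186)) (PT.lf (nat_lit 53580) (nat_lit 6) (nat_lit 705) (nat_lit 0) (nat_lit 194) (nat_lit 191) (nat_lit 185)))))) (PT.nd (nat_lit 624) (PT.nd (nat_lit 312) (PT.nd (nat_lit 156) (PT.nd (nat_lit 78) (PT.lf (nat_lit 53124) (nat_lit 6) (nat_lit 699) (nat_lit 0) (nat_lit 195) (nat_lit 191) (nat_lit 184)) (PT.lf (nat_lit 52592) (nat_lit 6) (nat_lit 692) (nat_lit 0) (nat_lit 196) (nat_lit 191) (nat_lit 183))) (PT.nd (nat_lit 78) (PT.lf (nat_lit 51984) (nat_lit 6) (nat_lit 684) (nat_lit 0) (nat_lit 197) (nat_lit 191) (nat_lit 182)) (PT.lf (nat_lit 51300) (nat_lit 6) (nat_lit 675) (nat_lit 0) (nat_lit 198) (nat_lit 191) (nat_lit 181)))) (PT.nd (nat_lit 156) (PT.nd (nat_lit 78) (PT.lf (nat_lit 50540) (nat_lit 6) (nat_lit 665) (nat_lit 0) (nat_lit 199) (nat_lit 191) (nat_lit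 180)) (PT.lf (nat_lit 49704) (nat_lit 6) (nat_lit 654) (nat_lit 0) (nat_lit 200) (nat_lit 191) (nat_lit 179))) (PT.nd (nat_lit 78) (PT.lf (nat_lit 48792) (nat_lit 6) (nat_lit 642) (nat_lit 0) (nat_lit 201) (nat_lit 191) (nat_lit 178)) (PT.lf (nat_lit 47804) (nat_lit 6) (nat_lit 629) (nat_lit 0) (nat_lit 202) (nat_lit 191) (nat_lit 177))))) (PT.nd (nat_lit 312) (PT.nd (nat_lit 156) (PT.nd (nat_lit 78) (PT.lf (nat_lit 46740) (nat_lit 6) (nat_lit 615) (nat_lit 0) (nat_lit 203) (nat_lit 191) (nat_lit 176)) (PT.lf (nat_lit 45600) (nat_lit 6) (nat_lit 600) (nat_lit 0) (nat_lit 204) (nat_lit 191) (nat_lit 175))) (PT.nd (nat_lit 78) (PT.lf (nat_lit 44384) (nat_lit 6) (nat_lit 584) (nat_lit 0) (nat_lit 205) (nat_lit 191) (nat_lit 174)) (PT.lf (nat_lit 43092) (nat_lit 6) (nat_lit 567) (nat_lit 0) (nat_lit 206) (nat_lit 191) (nat_lit 173)))) (PT.nd (nat_lit 156) (PT.nd (nat_lit 78) (PT.lf (nat_lit 41724) (nat_lit 6) (nat_lit 549) (nat_lit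 0) (nat_lit 207) (nat_lit 191) (nat_lit 172)) (PT.lf (nat_lit 40280) (nat_lit 6) (nat_lit 530) (nat_lit 0) (nat_lit 208) (nat_lit 191) (nat_lit 171))) (PT.nd (nat_lit 78) (PT.lf (nat_lit 38760) (nat_lit 6) (nat_lit 510) (nat_lit 0) (nat_lit 209) (nat_lit 191) (nat_lit 170)) (PT.lf (nat_lit 37164) (nat_lit 6) (nat_lit 489) (nat_lit 0) (nat_lit 210) (nat_lit 191) (nat_lit 169))))))))
noncomputable def pc27 : PT := (PT.nd (nat_lit 57720) (PT.nd (nat_lit 56472) (PT.nd (nat_lit 55848) (PT.nd (nat_lit 234) (PT.nd (nat_lit 78) (PT.lf (nat_lit 35492) (nat_lit 6) (nat_lit 467) (nat_lit 0) (nat_lit 211) (nat_lit 191) (nat_lit 168)) (PT.nd (nat_lit 78) (PT.lf (nat_lit 33744) (nat_lit 6) (nat_lit 444) (nat_lit 0) (nat_lit 212) (nat_lit 191) (nat_lit 167)) (PT.lf (nat_lit 31920) (nat_lit 6) (nat_lit 420) (nat_lit 0) (nat_lit 213) (nat_lit 191) (nat_lit 166)))) (PT.nd (nat_lit 55458) (PT.nd (nat_lit 55380) (PT.lf (nat_lit 30552) (nat_lit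 6) (nat_lit 402) (nat_lit 0) (nat_lit 214) (nat_lit 191) (nat_lit 165)) (PT.lf (nat_lit 28728) (nat_lit 6) (nat_lit 378) (nat_lit 5) (nat_lit 163) (nat_lit 192) (nat_lit 215))) (PT.nd (nat_lit 78) (PT.lf (nat_lit 29640) (nat_lit 6) (nat_lit 390) (nat_lit 5) (nat_lit 164) (nat_lit 192) (nat_lit 214)) (PT.lf (nat_lit 30628) (nat_lit 6) (nat_lit 403) (nat_lit 5) (nat_lit 165) (nat_lit 192) (nat_lit 213))))) (PT.nd (nat_lit 312) (PT.nd (nat_lit 156) (PT.nd (nat_lit 78) (PT.lf (nat_lit 31996) (nat_lit 6) (nat_lit 421) (nat_lit 5) (nat_lit 166) (nat_lit 192) (nat_lit 212)) (PT.lf (nat_lit 33820) (nat_lit 6) (nat_lit 445) (nat_lit 5) (nat_lit 167) (nat_lit 192) (nat_lit 211))) (PT.nd (nat_lit 78) (PT.lf (nat_lit 35568) (nat_lit 6) (nat_lit 468) (nat_lit 5) (nat_lit 168) (nat_lit 192) (nat_lit 210)) (PT.lf (nat_lit 37240) (nat_lit 6) (nat_lit 490) (nat_lit 5) (nat_lit 169) (nat_lit 192) (nat_lit 209)))) (PT.nd (nat_lit 156) (PT.nd (nat_lit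 78) (PT.lf (nat_lit 38836) (nat_lit 6) (nat_lit 511) (nat_lit 5) (nat_lit 170) (nat_lit 192) (nat_lit 208)) (PT.lf (nat_lit 40356) (nat_lit 6) (nat_lit 531) (nat_lit 5) (nat_lit 171) (nat_lit 192) (nat_lit 207))) (PT.nd (nat_lit 78) (PT.lf (nat_lit 41800) (nat_lit 6) (nat_lit 550) (nat_lit 5) (nat_lit 172) (nat_lit 192) (nat_lit 206)) (PT.lf (nat_lit 43168) (nat_lit 6) (nat_lit 568) (nat_lit 5) (nat_lit 173) (nat_lit 192) (nat_lit 205)))))) (PT.nd (nat_lit 624) (PT.nd (nat_lit 312) (PT.nd (nat_lit 156) (PT.nd (nat_lit 78) (PT.lf (nat_lit 44460) (nat_lit 6) (nat_lit 585) (nat_lit 5) (nat_lit 174) (nat_lit 192) (nat_lit 204)) (PT.lf (nat_lit 45676) (nat_lit 6) (nat_lit 601) (nat_lit 5) (nat_lit 175) (nat_lit 192) (nat_lit 203))) (PT.nd (nat_lit 78) (PT.lf (nat_lit 46816) (nat_lit 6) (nat_lit 616) (nat_lit 5) (nat_lit 176) (nat_lit 192) (nat_lit 202)) (PT.lf (nat_lit 47880) (nat_lit 6) (nat_lit 630) (nat_lit 5) (nat_lit 177) (nat_lit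 192) (nat_lit 201)))) (PT.nd (nat_lit 156) (PT.nd (nat_lit 78) (PT.lf (nat_lit 48868) (nat_lit 6) (nat_lit 643) (nat_lit 5) (nat_lit 178) (nat_lit 192) (nat_lit 200)) (PT.lf (nat_lit 49780) (nat_lit 6) (nat_lit 655) (nat_lit 5) (nat_lit 179) (nat_lit 192) (nat_lit 199))) (PT.nd (nat_lit 78) (PT.lf (nat_lit 50616) (nat_lit 6) (nat_lit 666) (nat_lit 5) (nat_lit 180) (nat_lit 192) (nat_lit 198)) (PT.lf (nat_lit 51376) (nat_lit 6) (nat_lit 676) (nat_lit 5) (nat_lit 181) (nat_lit 192) (nat_lit 197))))) (PT.nd (nat_lit 312) (PT.nd (nat_lit 156) (PT.nd (nat_lit 78) (PT.lf (nat_lit 52060) (nat_lit 6) (nat_lit 685) (nat_lit 5) (nat_lit 182) (nat_lit 192) (nat_lit 196)) (PT.lf (nat_lit 52668) (nat_lit 6) (nat_lit 693) (nat_lit 5) (nat_lit 183) (nat_lit 192) (nat_lit 195))) (PT.nd (nat_lit 78) (PT.lf (nat_lit 53200) (nat_lit 6) (nat_lit 700) (nat_lit 5) (nat_lit 184) (nat_lit 192) (nat_lit 194)) (PT.lf (nat_lit 53656) (nat_lit 6) (nat_lit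 706) (nat_lit 5) (nat_lit 185) (nat_lit 192) (nat_lit 193)))) (PT.nd (nat_lit 156) (PT.nd (nat_lit 78) (PT.lf (nat_lit 54036) (nat_lit 3) (nat_lit 711) (nat_lit 4) (nat_lit 186) (nat_lit 192) (nat_lit 192)) (PT.lf (nat_lit 54264) (nat_lit 6) (nat_lit 714) (nat_lit 4) (nat_lit 187) (nat_lit 192) (nat_lit 191))) (PT.nd (nat_lit 78) (PT.lf (nat_lit 54416) (nat_lit 6) (nat_lit 716) (nat_lit 4) (nat_lit 188) (nat_lit 192) (nat_lit 190)) (PT.lf (nat_lit 54340) (nat_lit 3) (nat_lit 715) (nat_lit 2) (nat_lit 189) (nat_lit 192) (nat_lit 189))))))) (PT.nd (nat_lit 1248) (PT.nd (nat_lit 624) (PT.nd (nat_lit 312) (PT.nd (nat_lit 156) (PT.nd (nat_lit 78) (PT.lf (nat_lit 54416) (nat_lit 6) (nat_lit 716) (nat_lit 2) (nat_lit 190) (nat_lit 192) (nat_lit 188)) (PT.lf (nat_lit 54264) (nat_lit 6) (nat_lit 714) (nat_lit 2) (nat_lit 191) (nat_lit 192) (nat_lit 187))) (PT.nd (nat_lit 78) (PT.lf (nat_lit 54036) (nat_lit 3) (nat_lit 711) (nat_lit 0)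 (nat_lit 192) (nat_lit 192) (nat_lit 186)) (PT.lf (nat_lit 53656) (nat_lit 6) (nat_lit 706) (nat_lit 0) (nat_lit 193) (nat_lit 192) (nat_lit 185)))) (PT.nd (nat_lit 156) (PT.nd (nat_lit 78) (PT.lf (nat_lit 53200) (nat_lit 6) (nat_lit 700) (nat_lit 0) (nat_lit 194) (nat_lit 192) (nat_lit 184)) (PT.lf (nat_lit 52668) (nat_lit 6) (nat_lit 693) (nat_lit 0) (nat_lit 195) (nat_lit 192) (nat_lit 183))) (PT.nd (nat_lit 78) (PT.lf (nat_lit 52060) (nat_lit 6) (nat_lit 685) (nat_lit 0) (nat_lit 196) (nat_lit 192) (nat_lit 182)) (PT.lf (nat_lit 51376) (nat_lit 6) (nat_lit 676) (nat_lit 0) (nat_lit 197) (nat_lit 192) (nat_lit 181))))) (PT.nd (nat_lit 312) (PT.nd (nat_lit 156) (PT.nd (nat_lit 78) (PT.lf (nat_lit 50616) (nat_lit 6) (nat_lit 666) (nat_lit 0) (nat_lit 198) (nat_lit 192) (nat_lit 180)) (PT.lf (nat_lit 49780) (nat_lit 6) (nat_lit 655) (nat_lit 0) (nat_lit 199) (nat_lit 192) (nat_lit 179))) (PT.nd (nat_lit 78) (PT.lf (nat_lit 48868)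 (nat_lit 6) (nat_lit 643) (nat_lit 0) (nat_lit 200) (nat_lit 192) (nat_lit 178)) (PT.lf (nat_lit 47880) (nat_lit 6) (nat_lit 630) (nat_lit 0) (nat_lit 201) (nat_lit 192) (nat_lit 177)))) (PT.nd (nat_lit 156) (PT.nd (nat_lit 78) (PT.lf (nat_lit 46816) (nat_lit 6) (nat_lit 616) (nat_lit 0) (nat_lit 202) (nat_lit 192) (nat_lit 176)) (PT.lf (nat_lit 45676) (nat_lit 6) (nat_lit 601) (nat_lit 0) (nat_lit 203) (nat_lit 192) (nat_lit 175))) (PT.nd (nat_lit 78) (PT.lf (nat_lit 44460) (nat_lit 6) (nat_lit 585) (nat_lit 0) (nat_lit 204) (nat_lit 192) (nat_lit 174)) (PT.lf (nat_lit 43168) (nat_lit 6) (nat_lit 568) (nat_lit 0) (nat_lit 205) (nat_lit 192) (nat_lit 173)))))) (PT.nd (nat_lit 624) (PT.nd (nat_lit 312) (PT.nd (nat_lit 156) (PT.nd (nat_lit 78) (PT.lf (nat_lit 41800) (nat_lit 6) (nat_lit 550) (nat_lit 0) (nat_lit 206) (nat_lit 192) (nat_lit 172)) (PT.lf (nat_lit 40356) (nat_lit 6) (nat_lit 531) (nat_lit 0) (nat_lit 207) (nat_lit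 192) (nat_lit 171))) (PT.nd (nat_lit 78) (PT.lf (nat_lit 38836) (nat_lit 6) (nat_lit 511) (nat_lit 0) (nat_lit 208) (nat_lit 192) (nat_lit 170)) (PT.lf (nat_lit 37240) (nat_lit 6) (nat_lit 490) (nat_lit 0) (nat_lit 209) (nat_lit 192) (nat_lit 169)))) (PT.nd (nat_lit 156) (PT.nd (nat_lit 78) (PT.lf (nat_lit 35568) (nat_lit 6) (nat_lit 468) (nat_lit 0) (nat_lit 210) (nat_lit 192) (nat_lit 168)) (PT.lf (nat_lit 33820) (nat_lit 6) (nat_lit 445) (nat_lit 0) (nat_lit 211) (nat_lit 192) (nat_lit 167))) (PT.nd (nat_lit 78) (PT.lf (nat_lit 31996) (nat_lit 6) (nat_lit 421) (nat_lit 0) (nat_lit 212) (nat_lit 192) (nat_lit 166)) (PT.lf (nat_lit 30628) (nat_lit 6) (nat_lit 403) (nat_lit 0) (nat_lit 213) (nat_lit 192) (nat_lit 165))))) (PT.nd (nat_lit 55458) (PT.nd (nat_lit 55302) (PT.nd (nat_lit 78) (PT.lf (nat_lit 29640) (nat_lit 6) (nat_lit 390) (nat_lit 0) (nat_lit 214) (nat_lit 192) (nat_lit 164)) (PT.lf (nat_lit 28728) (nat_lit 6) (nat_lit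 378) (nat_lit 0) (nat_lit 215) (nat_lit 192) (nat_lit 163))) (PT.nd (nat_lit 78) (PT.lf (nat_lit 27816) (nat_lit 6) (nat_lit 366) (nat_lit 5) (nat_lit 162) (nat_lit 193) (nat_lit 215)) (PT.lf (nat_lit 28804) (nat_lit 6) (nat_lit 379) (nat_lit 5) (nat_lit 163) (nat_lit 193) (nat_lit 214)))) (PT.nd (nat_lit 156) (PT.nd (nat_lit 78) (PT.lf (nat_lit 29716) (nat_lit 6) (nat_lit 391) (nat_lit 5) (nat_lit 164) (nat_lit 193) (nat_lit 213)) (PT.lf (nat_lit 30704) (nat_lit 6) (nat_lit 404) (nat_lit 5) (nat_lit 165) (nat_lit 193) (nat_lit 212))) (PT.nd (nat_lit 78) (PT.lf (nat_lit 32072) (nat_lit 6) (nat_lit 422) (nat_lit 5) (nat_lit 166) (nat_lit 193) (nat_lit 211)) (PT.lf (nat_lit 33896) (nat_lit 6) (nat_lit 446) (nat_lit 5) (nat_lit 167) (nat_lit 193) (nat_lit 210))))))))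
noncomputable def pc28 : PT := (PT.nd (nat_lit 2418) (PT.nd (nat_lit 1170) (PT.nd (nat_lit 546) (PT.nd (nat_lit 234) (PT.nd (nat_lit 78) (PT.lf (nat_lit 35644) (nat_lit 6) (nat_lit 469) (nat_lit 5) (nat_lit 168) (nat_lit 193) (nat_lit 209)) (PT.nd (nat_lit 78) (PT.lf (nat_lit 37316) (nat_lit 6) (nat_lit 491) (nat_lit 5) (nat_lit 169) (nat_lit 193) (nat_lit 208)) (PT.lf (nat_lit 38912) (nat_lit 6) (nat_lit 512) (nat_lit 5) (nat_lit 170) (nat_lit 193) (nat_lit 207)))) (PT.nd (nat_lit 156) (PT.nd (nat_lit 78) (PT.lf (nat_lit 40432) (nat_lit 6) (nat_lit 532) (nat_lit 5) (nat_lit 171) (nat_lit 193) (nat_lit 206)) (PT.lf (nat_lit 41876) (nat_lit 6) (nat_lit 551) (nat_lit 5) (nat_lit 172) (nat_lit 193) (nat_lit 205))) (PT.nd (nat_lit 78) (PT.lf (nat_lit 43244) (nat_lit 6) (nat_lit 569) (nat_lit 5) (nat_lit 173) (nat_lit 193) (nat_lit 204)) (PT.lf (nat_lit 44536) (nat_lit 6) (nat_lit 586) (nat_lit 5) (nat_lit 174) (nat_lit 193) (nat_lit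 203))))) (PT.nd (nat_lit 312) (PT.nd (nat_lit 156) (PT.nd (nat_lit 78) (PT.lf (nat_lit 45752) (nat_lit 6) (nat_lit 602) (nat_lit 5) (nat_lit 175) (nat_lit 193) (nat_lit 202)) (PT.lf (nat_lit 46892) (nat_lit 6) (nat_lit 617) (nat_lit 5) (nat_lit 176) (nat_lit 193) (nat_lit 201))) (PT.nd (nat_lit 78) (PT.lf (nat_lit 47956) (nat_lit 6) (nat_lit 631) (nat_lit 5) (nat_lit 177) (nat_lit 193) (nat_lit 200)) (PT.lf (nat_lit 48944) (nat_lit 6) (nat_lit 644) (nat_lit 5) (nat_lit 178) (nat_lit 193) (nat_lit 199)))) (PT.nd (nat_lit 156) (PT.nd (nat_lit 78) (PT.lf (nat_lit 49856) (nat_lit 6) (nat_lit 656) (nat_lit 5) (nat_lit 179) (nat_lit 193) (nat_lit 198)) (PT.lf (nat_lit 50692) (nat_lit 6) (nat_lit 667) (nat_lit 5) (nat_lit 180) (nat_lit 193) (nat_lit 197))) (PT.nd (nat_lit 78) (PT.lf (nat_lit 51452) (nat_lit 6) (nat_lit 677) (nat_lit 5) (nat_lit 181) (nat_lit 193) (nat_lit 196)) (PT.lf (nat_lit 52136) (nat_lit 6) (nat_lit 686) (nat_lit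 5) (nat_lit 182) (nat_lit 193) (nat_lit 195)))))) (PT.nd (nat_lit 624) (PT.nd (nat_lit 312) (PT.nd (nat_lit 156) (PT.nd (nat_lit 78) (PT.lf (nat_lit 52744) (nat_lit 6) (nat_lit 694) (nat_lit 5) (nat_lit 183) (nat_lit 193) (nat_lit 194)) (PT.lf (nat_lit 53276) (nat_lit 3) (nat_lit 701) (nat_lit 4) (nat_lit 184) (nat_lit 193) (nat_lit 193))) (PT.nd (nat_lit 78) (PT.lf (nat_lit 53656) (nat_lit 6) (nat_lit 706) (nat_lit 4) (nat_lit 185) (nat_lit 193) (nat_lit 192)) (PT.lf (nat_lit 53960) (nat_lit 6) (nat_lit 710) (nat_lit 4) (nat_lit 186) (nat_lit 193) (nat_lit 191)))) (PT.nd (nat_lit 156) (PT.nd (nat_lit 78) (PT.lf (nat_lit 54188) (nat_lit 6) (nat_lit 713) (nat_lit 4) (nat_lit 187) (nat_lit 193) (nat_lit 190)) (PT.lf (nat_lit 54112) (nat_lit 6) (nat_lit 712) (nat_lit 4) (nat_lit 188) (nat_lit 193) (nat_lit 189))) (PT.nd (nat_lit 78) (PT.lf (nat_lit 54112) (nat_lit 6) (nat_lit 712) (nat_lit 2) (nat_lit 189) (nat_lit 193) (nat_lit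 188)) (PT.lf (nat_lit 54188) (nat_lit 6) (nat_lit 713) (nat_lit 2) (nat_lit 190) (nat_lit 193) (nat_lit 187))))) (PT.nd (nat_lit 312) (PT.nd (nat_lit 156) (PT.nd (nat_lit 78) (PT.lf (nat_lit 53960) (nat_lit 6) (nat_lit 710) (nat_lit 2) (nat_lit 191) (nat_lit 193) (nat_lit 186)) (PT.lf (nat_lit 53656) (nat_lit 6) (nat_lit 706) (nat_lit 2) (nat_lit 192) (nat_lit 193) (nat_lit 185))) (PT.nd (nat_lit 78) (PT.lf (nat_lit 53276) (nat_lit 3) (nat_lit 701) (nat_lit 0) (nat_lit 193) (nat_lit 193) (nat_lit 184)) (PT.lf (nat_lit 52744) (nat_lit 6) (nat_lit 694) (nat_lit 0) (nat_lit 194) (nat_lit 193) (nat_lit 183)))) (PT.nd (nat_lit 156) (PT.nd (nat_lit 78) (PT.lf (nat_lit 52136) (nat_lit 6) (nat_lit 686) (nat_lit 0) (nat_lit 195) (nat_lit 193) (nat_lit 182)) (PT.lf (nat_lit 51452) (nat_lit 6) (nat_lit 677) (nat_lit 0) (nat_lit 196) (nat_lit 193) (nat_lit 181))) (PT.nd (nat_lit 78) (PT.lf (nat_lit 50692) (nat_lit 6) (nat_lit 667) (nat_lit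 0) (nat_lit 197) (nat_lit 193) (nat_lit 180)) (PT.lf (nat_lit 49856) (nat_lit 6) (nat_lit 656) (nat_lit 0) (nat_lit 198) (nat_lit 193) (nat_lit 179))))))) (PT.nd (nat_lit 1248) (PT.nd (nat_lit 624) (PT.nd (nat_lit 312) (PT.nd (nat_lit 156) (PT.nd (nat_lit 78) (PT.lf (nat_lit 48944) (nat_lit 6) (nat_lit 644) (nat_lit 0) (nat_lit 199) (nat_lit 193) (nat_lit 178)) (PT.lf (nat_lit 47956) (nat_lit 6) (nat_lit 631) (nat_lit 0) (nat_lit 200) (nat_lit 193) (nat_lit 177))) (PT.nd (nat_lit 78) (PT.lf (nat_lit 46892) (nat_lit 6) (nat_lit 617) (nat_lit 0) (nat_lit 201) (nat_lit 193) (nat_lit 176)) (PT.lf (nat_lit 45752) (nat_lit 6) (nat_lit 602) (nat_lit 0) (nat_lit 202) (nat_lit 193) (nat_lit 175)))) (PT.nd (nat_lit 156) (PT.nd (nat_lit 78) (PT.lf (nat_lit 44536) (nat_lit 6) (nat_lit 586) (nat_lit 0) (nat_lit 203) (nat_lit 193) (nat_lit 174)) (PT.lf (nat_lit 43244) (nat_lit 6) (nat_lit 569) (nat_lit 0) (nat_lit 204) (nat_lit 193) (nat_lit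 173))) (PT.nd (nat_lit 78) (PT.lf (nat_lit 41876) (nat_lit 6) (nat_lit 551) (nat_lit 0) (nat_lit 205) (nat_lit 193) (nat_lit 172)) (PT.lf (nat_lit 40432) (nat_lit 6) (nat_lit 532) (nat_lit 0) (nat_lit 206) (nat_lit 193) (nat_lit 171))))) (PT.nd (nat_lit 312) (PT.nd (nat_lit 156) (PT.nd (nat_lit 78) (PT.lf (nat_lit 38912) (nat_lit 6) (nat_lit 512) (nat_lit 0) (nat_lit 207) (nat_lit 193) (nat_lit 170)) (PT.lf (nat_lit 37316) (nat_lit 6) (nat_lit 491) (nat_lit 0) (nat_lit 208) (nat_lit 193) (nat_lit 169))) (PT.nd (nat_lit 78) (PT.lf (nat_lit 35644) (nat_lit 6) (nat_lit 469) (nat_lit 0) (nat_lit 209) (nat_lit 193) (nat_lit 168)) (PT.lf (nat_lit 33896) (nat_lit 6) (nat_lit 446) (nat_lit 0) (nat_lit 210) (nat_lit 193) (nat_lit 167)))) (PT.nd (nat_lit 156) (PT.nd (nat_lit 78) (PT.lf (nat_lit 32072) (nat_lit 6) (nat_lit 422) (nat_lit 0) (nat_lit 211) (nat_lit 193) (nat_lit 166)) (PT.lf (nat_lit 30704) (nat_lit 6) (nat_lit 404) (nat_lit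 0) (nat_lit 212) (nat_lit 193) (nat_lit 165))) (PT.nd (nat_lit 78) (PT.lf (nat_lit 29716) (nat_lit 6) (nat_lit 391) (nat_lit 0) (nat_lit 213) (nat_lit 193) (nat_lit 164)) (PT.lf (nat_lit 28804) (nat_lit 6) (nat_lit 379) (nat_lit 0) (nat_lit 214) (nat_lit 193) (nat_lit 163)))))) (PT.nd (nat_lit 55692) (PT.nd (nat_lit 55380) (PT.nd (nat_lit 55224) (PT.nd (nat_lit 55146) (PT.lf (nat_lit 27816) (nat_lit 6) (nat_lit 366) (nat_lit 0) (nat_lit 215) (nat_lit 193) (nat_lit 162)) (PT.lf (nat_lit 26980) (nat_lit 6) (nat_lit 355) (nat_lit 5) (nat_lit 161) (nat_lit 194) (nat_lit 215))) (PT.nd (nat_lit 78) (PT.lf (nat_lit 27892) (nat_lit 6) (nat_lit 367) (nat_lit 5) (nat_lit 162) (nat_lit 194) (nat_lit 214)) (PT.lf (nat_lit 28880) (nat_lit 6) (nat_lit 380) (nat_lit 5) (nat_lit 163) (nat_lit 194) (nat_lit 213)))) (PT.nd (nat_lit 156) (PT.nd (nat_lit 78) (PT.lf (nat_lit 29792) (nat_lit 6) (nat_lit 392) (nat_lit 5) (nat_lit 164) (nat_lit 194)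 (nat_lit 212)) (PT.lf (nat_lit 30780) (nat_lit 6) (nat_lit 405) (nat_lit 5) (nat_lit 165) (nat_lit 194) (nat_lit 211))) (PT.nd (nat_lit 78) (PT.lf (nat_lit 32148) (nat_lit 6) (nat_lit 423) (nat_lit 5) (nat_lit 166) (nat_lit 194) (nat_lit 210)) (PT.lf (nat_lit 33972) (nat_lit 6) (nat_lit 447) (nat_lit 5) (nat_lit 167) (nat_lit 194) (nat_lit 209))))) (PT.nd (nat_lit 312) (PT.nd (nat_lit 156) (PT.nd (nat_lit 78) (PT.lf (nat_lit 35720) (nat_lit 6) (nat_lit 470) (nat_lit 5) (nat_lit 168) (nat_lit 194) (nat_lit 208)) (PT.lf (nat_lit 37392) (nat_lit 6) (nat_lit 492) (nat_lit 5) (nat_lit 169) (nat_lit 194) (nat_lit 207))) (PT.nd (nat_lit 78) (PT.lf (nat_lit 38988) (nat_lit 6) (nat_lit 513) (nat_lit 5) (nat_lit 170) (nat_lit 194) (nat_lit 206)) (PT.lf (nat_lit 40508) (nat_lit 6) (nat_lit 533) (nat_lit 5) (nat_lit 171) (nat_lit 194) (nat_lit 205)))) (PT.nd (nat_lit 156) (PT.nd (nat_lit 78) (PT.lf (nat_lit 41952) (nat_lit 6) (nat_lit 552)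 (nat_lit 5) (nat_lit 172) (nat_lit 194) (nat_lit 204)) (PT.lf (nat_lit 43320) (nat_lit 6) (nat_lit 570) (nat_lit 5) (nat_lit 173) (nat_lit 194) (nat_lit 203))) (PT.nd (nat_lit 78) (PT.lf (nat_lit 44612) (nat_lit 6) (nat_lit 587) (nat_lit 5) (nat_lit 174) (nat_lit 194) (nat_lit 202)) (PT.lf (nat_lit 45828) (nat_lit 6) (nat_lit 603) (nat_lit 5) (nat_lit 175) (nat_lit 194) (nat_lit 201))))))))
noncomputable def pc29 : PT := (PT.nd (nat_lit 2418) (PT.nd (nat_lit 1170) (PT.nd (nat_lit 546) (PT.nd (nat_lit 234) (PT.nd (nat_lit 78) (PT.lf (nat_lit 46968) (nat_lit 6) (nat_lit 618) (nat_lit 5) (nat_lit 176) (nat_lit 194) (nat_lit 200)) (PT.nd (nat_lit 78) (PT.lf (nat_lit 48032) (nat_lit 6) (nat_lit 632) (nat_lit 5) (nat_lit 177) (nat_lit 194) (nat_lit 199)) (PT.lf (nat_lit 49020) (nat_lit 6) (nat_lit 645) (nat_lit 5) (nat_lit 178) (nat_lit 194) (nat_lit 198)))) (PT.nd (nat_lit 156) (PT.nd (nat_lit 78) (PT.lf (nat_lit 49932) (nat_lit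 6) (nat_lit 657) (nat_lit 5) (nat_lit 179) (nat_lit 194) (nat_lit 197)) (PT.lf (nat_lit 50768) (nat_lit 6) (nat_lit 668) (nat_lit 5) (nat_lit 180) (nat_lit 194) (nat_lit 196))) (PT.nd (nat_lit 78) (PT.lf (nat_lit 51528) (nat_lit 6) (nat_lit 678) (nat_lit 5) (nat_lit 181) (nat_lit 194) (nat_lit 195)) (PT.lf (nat_lit 52212) (nat_lit 3) (nat_lit 687) (nat_lit 4) (nat_lit 182) (nat_lit 194) (nat_lit 194))))) (PT.nd (nat_lit 312) (PT.nd (nat_lit 156) (PT.nd (nat_lit 78) (PT.lf (nat_lit 52744) (nat_lit 6) (nat_lit 694) (nat_lit 4) (nat_lit 183) (nat_lit 194) (nat_lit 193)) (PT.lf (nat_lit 53200) (nat_lit 6) (nat_lit 700) (nat_lit 4) (nat_lit 184) (nat_lit 194) (nat_lit 192))) (PT.nd (nat_lit 78) (PT.lf (nat_lit 53580) (nat_lit 6) (nat_lit 705) (nat_lit 4) (nat_lit 185) (nat_lit 194) (nat_lit 191)) (PT.lf (nat_lit 53884) (nat_lit 6) (nat_lit 709) (nat_lit 4) (nat_lit 186) (nat_lit 194) (nat_lit 190)))) (PT.nd (nat_lit 156) (PT.nd (nat_lit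 78) (PT.lf (nat_lit 53808) (nat_lit 6) (nat_lit 708) (nat_lit 4) (nat_lit 187) (nat_lit 194) (nat_lit 189)) (PT.lf (nat_lit 53732) (nat_lit 3) (nat_lit 707) (nat_lit 2) (nat_lit 188) (nat_lit 194) (nat_lit 188))) (PT.nd (nat_lit 78) (PT.lf (nat_lit 53808) (nat_lit 6) (nat_lit 708) (nat_lit 2) (nat_lit 189) (nat_lit 194) (nat_lit 187)) (PT.lf (nat_lit 53884) (nat_lit 6) (nat_lit 709) (nat_lit 2) (nat_lit 190) (nat_lit 194) (nat_lit 186)))))) (PT.nd (nat_lit 624) (PT.nd (nat_lit 312) (PT.nd (nat_lit 156) (PT.nd (nat_lit 78) (PT.lf (nat_lit 53580) (nat_lit 6) (nat_lit 705) (nat_lit 2) (nat_lit 191) (nat_lit 194) (nat_lit 185)) (PT.lf (nat_lit 53200) (nat_lit 6) (nat_lit 700) (nat_lit 2) (nat_lit 192) (nat_lit 194) (nat_lit 184))) (PT.nd (nat_lit 78) (PT.lf (nat_lit 52744) (nat_lit 6) (nat_lit 694) (nat_lit 2) (nat_lit 193) (nat_lit 194) (nat_lit 183)) (PT.lf (nat_lit 52212) (nat_lit 3) (nat_lit 687) (nat_lit 0) (nat_lit 194) (nat_lit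 194) (nat_lit 182)))) (PT.nd (nat_lit 156) (PT.nd (nat_lit 78) (PT.lf (nat_lit 51528) (nat_lit 6) (nat_lit 678) (nat_lit 0) (nat_lit 195) (nat_lit 194) (nat_lit 181)) (PT.lf (nat_lit 50768) (nat_lit 6) (nat_lit 668) (nat_lit 0) (nat_lit 196) (nat_lit 194) (nat_lit 180))) (PT.nd (nat_lit 78) (PT.lf (nat_lit 49932) (nat_lit 6) (nat_lit 657) (nat_lit 0) (nat_lit 197) (nat_lit 194) (nat_lit 179)) (PT.lf (nat_lit 49020) (nat_lit 6) (nat_lit 645) (nat_lit 0) (nat_lit 198) (nat_lit 194) (nat_lit 178))))) (PT.nd (nat_lit 312) (PT.nd (nat_lit 156) (PT.nd (nat_lit 78) (PT.lf (nat_lit 48032) (nat_lit 6) (nat_lit 632) (nat_lit 0) (nat_lit 199) (nat_lit 194) (nat_lit 177)) (PT.lf (nat_lit 46968) (nat_lit 6) (nat_lit 618) (nat_lit 0) (nat_lit 200) (nat_lit 194) (nat_lit 176))) (PT.nd (nat_lit 78) (PT.lf (nat_lit 45828) (nat_lit 6) (nat_lit 603) (nat_lit 0) (nat_lit 201) (nat_lit 194) (nat_lit 175)) (PT.lf (nat_lit 44612) (nat_lit 6) (nat_lit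 587) (nat_lit 0) (nat_lit 202) (nat_lit 194) (nat_lit 174)))) (PT.nd (nat_lit 156) (PT.nd (nat_lit 78) (PT.lf (nat_lit 43320) (nat_lit 6) (nat_lit 570) (nat_lit 0) (nat_lit 203) (nat_lit 194) (nat_lit 173)) (PT.lf (nat_lit 41952) (nat_lit 6) (nat_lit 552) (nat_lit 0) (nat_lit 204) (nat_lit 194) (nat_lit 172))) (PT.nd (nat_lit 78) (PT.lf (nat_lit 40508) (nat_lit 6) (nat_lit 533) (nat_lit 0) (nat_lit 205) (nat_lit 194) (nat_lit 171)) (PT.lf (nat_lit 38988) (nat_lit 6) (nat_lit 513) (nat_lit 0) (nat_lit 206) (nat_lit 194) (nat_lit 170))))))) (PT.nd (nat_lit 56238) (PT.nd (nat_lit 624) (PT.nd (nat_lit 312) (PT.nd (nat_lit 156) (PT.nd (nat_lit 78) (PT.lf (nat_lit 37392) (nat_lit 6) (nat_lit 492) (nat_lit 0) (nat_lit 207) (nat_lit 194) (nat_lit 169)) (PT.lf (nat_lit 35720) (nat_lit 6) (nat_lit 470) (nat_lit 0) (nat_lit 208) (nat_lit 194) (nat_lit 168))) (PT.nd (nat_lit 78) (PT.lf (nat_lit 33972) (nat_lit 6) (nat_lit 447) (nat_lit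 0) (nat_lit 209) (nat_lit 194) (nat_lit 167)) (PT.lf (nat_lit 32148) (nat_lit 6) (nat_lit 423) (nat_lit 0) (nat_lit 210) (nat_lit 194) (nat_lit 166)))) (PT.nd (nat_lit 156) (PT.nd (nat_lit 78) (PT.lf (nat_lit 30780) (nat_lit 6) (nat_lit 405) (nat_lit 0) (nat_lit 211) (nat_lit 194) (nat_lit 165)) (PT.lf (nat_lit 29792) (nat_lit 6) (nat_lit 392) (nat_lit 0) (nat_lit 212) (nat_lit 194) (nat_lit 164))) (PT.nd (nat_lit 78) (PT.lf (nat_lit 28880) (nat_lit 6) (nat_lit 380) (nat_lit 0) (nat_lit 213) (nat_lit 194) (nat_lit 163)) (PT.lf (nat_lit 27892) (nat_lit 6) (nat_lit 367) (nat_lit 0) (nat_lit 214) (nat_lit 194) (nat_lit 162))))) (PT.nd (nat_lit 55302) (PT.nd (nat_lit 55146) (PT.nd (nat_lit 55068) (PT.lf (nat_lit 26980) (nat_lit 6) (nat_lit 355) (nat_lit 0) (nat_lit 215) (nat_lit 194) (nat_lit 161)) (PT.lf (nat_lit 26144) (nat_lit 6) (nat_lit 344) (nat_lit 5) (nat_lit 160) (nat_lit 195) (nat_lit 215))) (PT.nd (nat_lit 78) (PT.lf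 (nat_lit 27056) (nat_lit 6) (nat_lit 356) (nat_lit 5) (nat_lit 161) (nat_lit 195) (nat_lit 214)) (PT.lf (nat_lit 27968) (nat_lit 6) (nat_lit 368) (nat_lit 5) (nat_lit 162) (nat_lit 195) (nat_lit 213)))) (PT.nd (nat_lit 156) (PT.nd (nat_lit 78) (PT.lf (nat_lit 28956) (nat_lit 6) (nat_lit 381) (nat_lit 5) (nat_lit 163) (nat_lit 195) (nat_lit 212)) (PT.lf (nat_lit 29868) (nat_lit 6) (nat_lit 393) (nat_lit 5) (nat_lit 164) (nat_lit 195) (nat_lit 211))) (PT.nd (nat_lit 78) (PT.lf (nat_lit 30856) (nat_lit 6) (nat_lit 406) (nat_lit 5) (nat_lit 165) (nat_lit 195) (nat_lit 210)) (PT.lf (nat_lit 32224) (nat_lit 6) (nat_lit 424) (nat_lit 5) (nat_lit 166) (nat_lit 195) (nat_lit 209)))))) (PT.nd (nat_lit 624) (PT.nd (nat_lit 312) (PT.nd (nat_lit 156) (PT.nd (nat_lit 78) (PT.lf (nat_lit 34048) (nat_lit 6) (nat_lit 448) (nat_lit 5) (nat_lit 167) (nat_lit 195) (nat_lit 208)) (PT.lf (nat_lit 35796) (nat_lit 6) (nat_lit 471) (nat_lit 5) (nat_lit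 168) (nat_lit 195) (nat_lit 207))) (PT.nd (nat_lit 78) (PT.lf (nat_lit 37468) (nat_lit 6) (nat_lit 493) (nat_lit 5) (nat_lit 169) (nat_lit 195) (nat_lit 206)) (PT.lf (nat_lit 39064) (nat_lit 6) (nat_lit 514) (nat_lit 5) (nat_lit 170) (nat_lit 195) (nat_lit 205)))) (PT.nd (nat_lit 156) (PT.nd (nat_lit 78) (PT.lf (nat_lit 40584) (nat_lit 6) (nat_lit 534) (nat_lit 5) (nat_lit 171) (nat_lit 195) (nat_lit 204)) (PT.lf (nat_lit 42028) (nat_lit 6) (nat_lit 553) (nat_lit 5) (nat_lit 172) (nat_lit 195) (nat_lit 203))) (PT.nd (nat_lit 78) (PT.lf (nat_lit 43396) (nat_lit 6) (nat_lit 571) (nat_lit 5) (nat_lit 173) (nat_lit 195) (nat_lit 202)) (PT.lf (nat_lit 44688) (nat_lit 6) (nat_lit 588) (nat_lit 5) (nat_lit 174) (nat_lit 195) (nat_lit 201))))) (PT.nd (nat_lit 312) (PT.nd (nat_lit 156) (PT.nd (nat_lit 78) (PT.lf (nat_lit 45904) (nat_lit 6) (nat_lit 604) (nat_lit 5) (nat_lit 175) (nat_lit 195) (nat_lit 200)) (PT.lf (nat_lit 47044) (nat_lit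 6) (nat_lit 619) (nat_lit 5) (nat_lit 176) (nat_lit 195) (nat_lit 199))) (PT.nd (nat_lit 78) (PT.lf (nat_lit 48108) (nat_lit 6) (nat_lit 633) (nat_lit 5) (nat_lit 177) (nat_lit 195) (nat_lit 198)) (PT.lf (nat_lit 49096) (nat_lit 6) (nat_lit 646) (nat_lit 5) (nat_lit 178) (nat_lit 195) (nat_lit 197)))) (PT.nd (nat_lit 156) (PT.nd (nat_lit 78) (PT.lf (nat_lit 50008) (nat_lit 6) (nat_lit 658) (nat_lit 5) (nat_lit 179) (nat_lit 195) (nat_lit 196)) (PT.lf (nat_lit 50844) (nat_lit 3) (nat_lit 669) (nat_lit 4) (nat_lit 180) (nat_lit 195) (nat_lit 195))) (PT.nd (nat_lit 78) (PT.lf (nat_lit 51528) (nat_lit 6) (nat_lit 678) (nat_lit 4) (nat_lit 181) (nat_lit 195) (nat_lit 194)) (PT.lf (nat_lit 52136) (nat_lit 6) (nat_lit 686) (nat_lit 4) (nat_lit 182) (nat_lit 195) (nat_lit 193))))))))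
noncomputable def pc30 : PT := (PT.nd (nat_lit 2418) (PT.nd (nat_lit 1170) (PT.nd (nat_lit 546) (PT.nd (nat_lit 234) (PT.nd (nat_lit 78) (PT.lf (nat_lit 52668) (nat_lit 6) (nat_lit 693) (nat_lit 4) (nat_lit 183) (nat_lit 195) (nat_lit 192)) (PT.nd (nat_lit 78) (PT.lf (nat_lit 53124) (nat_lit 6) (nat_lit 699) (nat_lit 4) (nat_lit 184) (nat_lit 195) (nat_lit 191)) (PT.lf (nat_lit 53504) (nat_lit 6) (nat_lit 704) (nat_lit 4) (nat_lit 185) (nat_lit 195) (nat_lit 190)))) (PT.nd (nat_lit 156) (PT.nd (nat_lit 78) (PT.lf (nat_lit 53428) (nat_lit 6) (nat_lit 703) (nat_lit 4) (nat_lit 186) (nat_lit 195) (nat_lit 189)) (PT.lf (nat_lit 53352) (nat_lit 6) (nat_lit 702) (nat_lit 4) (nat_lit 187) (nat_lit 195) (nat_lit 188))) (PT.nd (nat_lit 78) (PT.lf (nat_lit 53352) (nat_lit 6) (nat_lit 702) (nat_lit 2) (nat_lit 188) (nat_lit 195) (nat_lit 187)) (PT.lf (nat_lit 53428) (nat_lit 6) (nat_lit 703) (nat_lit 2) (nat_lit 189) (nat_lit 195) (nat_lit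 186))))) (PT.nd (nat_lit 312) (PT.nd (nat_lit 156) (PT.nd (nat_lit 78) (PT.lf (nat_lit 53504) (nat_lit 6) (nat_lit 704) (nat_lit 2) (nat_lit 190) (nat_lit 195) (nat_lit 185)) (PT.lf (nat_lit 53124) (nat_lit 6) (nat_lit 699) (nat_lit 2) (nat_lit 191) (nat_lit 195) (nat_lit 184))) (PT.nd (nat_lit 78) (PT.lf (nat_lit 52668) (nat_lit 6) (nat_lit 693) (nat_lit 2) (nat_lit 192) (nat_lit 195) (nat_lit 183)) (PT.lf (nat_lit 52136) (nat_lit 6) (nat_lit 686) (nat_lit 2) (nat_lit 193) (nat_lit 195) (nat_lit 182)))) (PT.nd (nat_lit 156) (PT.nd (nat_lit 78) (PT.lf (nat_lit 51528) (nat_lit 6) (nat_lit 678) (nat_lit 2) (nat_lit 194) (nat_lit 195) (nat_lit 181)) (PT.lf (nat_lit 50844) (nat_lit 3) (nat_lit 669) (nat_lit 0) (nat_lit 195) (nat_lit 195) (nat_lit 180))) (PT.nd (nat_lit 78) (PT.lf (nat_lit 50008) (nat_lit 6) (nat_lit 658) (nat_lit 0) (nat_lit 196) (nat_lit 195) (nat_lit 179)) (PT.lf (nat_lit 49096) (nat_lit 6) (nat_lit 646) (nat_lit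 0) (nat_lit 197) (nat_lit 195) (nat_lit 178)))))) (PT.nd (nat_lit 624) (PT.nd (nat_lit 312) (PT.nd (nat_lit 156) (PT.nd (nat_lit 78) (PT.lf (nat_lit 48108) (nat_lit 6) (nat_lit 633) (nat_lit 0) (nat_lit 198) (nat_lit 195) (nat_lit 177)) (PT.lf (nat_lit 47044) (nat_lit 6) (nat_lit 619) (nat_lit 0) (nat_lit 199) (nat_lit 195) (nat_lit 176))) (PT.nd (nat_lit 78) (PT.lf (nat_lit 45904) (nat_lit 6) (nat_lit 604) (nat_lit 0) (nat_lit 200) (nat_lit 195) (nat_lit 175)) (PT.lf (nat_lit 44688) (nat_lit 6) (nat_lit 588) (nat_lit 0) (nat_lit 201) (nat_lit 195) (nat_lit 174)))) (PT.nd (nat_lit 156) (PT.nd (nat_lit 78) (PT.lf (nat_lit 43396) (nat_lit 6) (nat_lit 571) (nat_lit 0) (nat_lit 202) (nat_lit 195) (nat_lit 173)) (PT.lf (nat_lit 42028) (nat_lit 6) (nat_lit 553) (nat_lit 0) (nat_lit 203) (nat_lit 195) (nat_lit 172))) (PT.nd (nat_lit 78) (PT.lf (nat_lit 40584) (nat_lit 6) (nat_lit 534) (nat_lit 0) (nat_lit 204) (nat_lit 195) (nat_lit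 171)) (PT.lf (nat_lit 39064) (nat_lit 6) (nat_lit 514) (nat_lit 0) (nat_lit 205) (nat_lit 195) (nat_lit 170))))) (PT.nd (nat_lit 312) (PT.nd (nat_lit 156) (PT.nd (nat_lit 78) (PT.lf (nat_lit 37468) (nat_lit 6) (nat_lit 493) (nat_lit 0) (nat_lit 206) (nat_lit 195) (nat_lit 169)) (PT.lf (nat_lit 35796) (nat_lit 6) (nat_lit 471) (nat_lit 0) (nat_lit 207) (nat_lit 195) (nat_lit 168))) (PT.nd (nat_lit 78) (PT.lf (nat_lit 34048) (nat_lit 6) (nat_lit 448) (nat_lit 0) (nat_lit 208) (nat_lit 195) (nat_lit 167)) (PT.lf (nat_lit 32224) (nat_lit 6) (nat_lit 424) (nat_lit 0) (nat_lit 209) (nat_lit 195) (nat_lit 166)))) (PT.nd (nat_lit 156) (PT.nd (nat_lit 78) (PT.lf (nat_lit 30856) (nat_lit 6) (nat_lit 406) (nat_lit 0) (nat_lit 210) (nat_lit 195) (nat_lit 165)) (PT.lf (nat_lit 29868) (nat_lit 6) (nat_lit 393) (nat_lit 0) (nat_lit 211) (nat_lit 195) (nat_lit 164))) (PT.nd (nat_lit 78) (PT.lf (nat_lit 28956) (nat_lit 6) (nat_lit 381) (nat_lit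 0) (nat_lit 212) (nat_lit 195) (nat_lit 163)) (PT.lf (nat_lit 27968) (nat_lit 6) (nat_lit 368) (nat_lit 0) (nat_lit 213) (nat_lit 195) (nat_lit 162))))))) (PT.nd (nat_lit 56082) (PT.nd (nat_lit 55458) (PT.nd (nat_lit 55146) (PT.nd (nat_lit 54990) (PT.nd (nat_lit 78) (PT.lf (nat_lit 27056) (nat_lit 6) (nat_lit 356) (nat_lit 0) (nat_lit 214) (nat_lit 195) (nat_lit 161)) (PT.lf (nat_lit 26144) (nat_lit 6) (nat_lit 344) (nat_lit 0) (nat_lit 215) (nat_lit 195) (nat_lit 160))) (PT.nd (nat_lit 78) (PT.lf (nat_lit 24548) (nat_lit 6) (nat_lit 323) (nat_lit 5) (nat_lit 158) (nat_lit 196) (nat_lit 216)) (PT.lf (nat_lit 25384) (nat_lit 6) (nat_lit 334) (nat_lit 5) (nat_lit 159) (nat_lit 196) (nat_lit 215)))) (PT.nd (nat_lit 156) (PT.nd (nat_lit 78) (PT.lf (nat_lit 26220) (nat_lit 6) (nat_lit 345) (nat_lit 5) (nat_lit 160) (nat_lit 196) (nat_lit 214)) (PT.lf (nat_lit 27132) (nat_lit 6) (nat_lit 357) (nat_lit 5) (nat_lit 161) (nat_lit 196)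 (nat_lit 213))) (PT.nd (nat_lit 78) (PT.lf (nat_lit 28044) (nat_lit 6) (nat_lit 369) (nat_lit 5) (nat_lit 162) (nat_lit 196) (nat_lit 212)) (PT.lf (nat_lit 29032) (nat_lit 6) (nat_lit 382) (nat_lit 5) (nat_lit 163) (nat_lit 196) (nat_lit 211))))) (PT.nd (nat_lit 312) (PT.nd (nat_lit 156) (PT.nd (nat_lit 78) (PT.lf (nat_lit 29944) (nat_lit 6) (nat_lit 394) (nat_lit 5) (nat_lit 164) (nat_lit 196) (nat_lit 210)) (PT.lf (nat_lit 30932) (nat_lit 6) (nat_lit 407) (nat_lit 5) (nat_lit 165) (nat_lit 196) (nat_lit 209))) (PT.nd (nat_lit 78) (PT.lf (nat_lit 32300) (nat_lit 6) (nat_lit 425) (nat_lit 5) (nat_lit 166) (nat_lit 196) (nat_lit 208)) (PT.lf (nat_lit 34124) (nat_lit 6) (nat_lit 449) (nat_lit 5) (nat_lit 167) (nat_lit 196) (nat_lit 207)))) (PT.nd (nat_lit 156) (PT.nd (nat_lit 78) (PT.lf (nat_lit 35872) (nat_lit 6) (nat_lit 472) (nat_lit 5) (nat_lit 168) (nat_lit 196) (nat_lit 206)) (PT.lf (nat_lit 37544) (nat_lit 6) (nat_lit 494)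 (nat_lit 5) (nat_lit 169) (nat_lit 196) (nat_lit 205))) (PT.nd (nat_lit 78) (PT.lf (nat_lit 39140) (nat_lit 6) (nat_lit 515) (nat_lit 5) (nat_lit 170) (nat_lit 196) (nat_lit 204)) (PT.lf (nat_lit 40660) (nat_lit 6) (nat_lit 535) (nat_lit 5) (nat_lit 171) (nat_lit 196) (nat_lit 203)))))) (PT.nd (nat_lit 624) (PT.nd (nat_lit 312) (PT.nd (nat_lit 156) (PT.nd (nat_lit 78) (PT.lf (nat_lit 42104) (nat_lit 6) (nat_lit 554) (nat_lit 5) (nat_lit 172) (nat_lit 196) (nat_lit 202)) (PT.lf (nat_lit 43472) (nat_lit 6) (nat_lit 572) (nat_lit 5) (nat_lit 173) (nat_lit 196) (nat_lit 201))) (PT.nd (nat_lit 78) (PT.lf (nat_lit 44764) (nat_lit 6) (nat_lit 589) (nat_lit 5) (nat_lit 174) (nat_lit 196) (nat_lit 200)) (PT.lf (nat_lit 45980) (nat_lit 6) (nat_lit 605) (nat_lit 5) (nat_lit 175) (nat_lit 196) (nat_lit 199)))) (PT.nd (nat_lit 156) (PT.nd (nat_lit 78) (PT.lf (nat_lit 47120) (nat_lit 6) (nat_lit 620) (nat_lit 5) (nat_lit 176) (nat_lit 196)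 (nat_lit 198)) (PT.lf (nat_lit 48184) (nat_lit 6) (nat_lit 634) (nat_lit 5) (nat_lit 177) (nat_lit 196) (nat_lit 197))) (PT.nd (nat_lit 78) (PT.lf (nat_lit 49172) (nat_lit 3) (nat_lit 647) (nat_lit 4) (nat_lit 178) (nat_lit 196) (nat_lit 196)) (PT.lf (nat_lit 50008) (nat_lit 6) (nat_lit 658) (nat_lit 4) (nat_lit 179) (nat_lit 196) (nat_lit 195))))) (PT.nd (nat_lit 312) (PT.nd (nat_lit 156) (PT.nd (nat_lit 78) (PT.lf (nat_lit 50768) (nat_lit 6) (nat_lit 668) (nat_lit 4) (nat_lit 180) (nat_lit 196) (nat_lit 194)) (PT.lf (nat_lit 51452) (nat_lit 6) (nat_lit 677) (nat_lit 4) (nat_lit 181) (nat_lit 196) (nat_lit 193))) (PT.nd (nat_lit 78) (PT.lf (nat_lit 52060) (nat_lit 6) (nat_lit 685) (nat_lit 4) (nat_lit 182) (nat_lit 196) (nat_lit 192)) (PT.lf (nat_lit 52592) (nat_lit 6) (nat_lit 692) (nat_lit 4) (nat_lit 183) (nat_lit 196) (nat_lit 191)))) (PT.nd (nat_lit 156) (PT.nd (nat_lit 78) (PT.lf (nat_lit 53048) (nat_lit 6) (nat_lit 698)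 (nat_lit 4) (nat_lit 184) (nat_lit 196) (nat_lit 190)) (PT.lf (nat_lit 52972) (nat_lit 6) (nat_lit 697) (nat_lit 4) (nat_lit 185) (nat_lit 196) (nat_lit 189))) (PT.nd (nat_lit 78) (PT.lf (nat_lit 52896) (nat_lit 6) (nat_lit 696) (nat_lit 4) (nat_lit 186) (nat_lit 196) (nat_lit 188)) (PT.lf (nat_lit 52820) (nat_lit 3) (nat_lit 695) (nat_lit 2) (nat_lit 187) (nat_lit 196) (nat_lit 187))))))))
noncomputable def pc31 : PT := (PT.nd (nat_lit 57096) (PT.nd (nat_lit 1170) (PT.nd (nat_lit 546) (PT.nd (nat_lit 234) (PT.nd (nat_lit 78) (PT.lf (nat_lit 52896) (nat_lit 6) (nat_lit 696) (nat_lit 2) (nat_lit 188) (nat_lit 196) (nat_lit 186)) (PT.nd (nat_lit 78) (PT.lf (nat_lit 52972) (nat_lit 6) (nat_lit 697) (nat_lit 2) (nat_lit 189) (nat_lit 196) (nat_lit 185)) (PT.lf (nat_lit 53048) (nat_lit 6) (nat_lit 698) (nat_lit 2) (nat_lit 190) (nat_lit 196) (nat_lit 184)))) (PT.nd (nat_lit 156) (PT.nd (nat_lit 78) (PT.lf (nat_lit 52592) (nat_lit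 6) (nat_lit 692) (nat_lit 2) (nat_lit 191) (nat_lit 196) (nat_lit 183)) (PT.lf (nat_lit 52060) (nat_lit 6) (nat_lit 685) (nat_lit 2) (nat_lit 192) (nat_lit 196) (nat_lit 182))) (PT.nd (nat_lit 78) (PT.lf (nat_lit 51452) (nat_lit 6) (nat_lit 677) (nat_lit 2) (nat_lit 193) (nat_lit 196) (nat_lit 181)) (PT.lf (nat_lit 50768) (nat_lit 6) (nat_lit 668) (nat_lit 2) (nat_lit 194) (nat_lit 196) (nat_lit 180))))) (PT.nd (nat_lit 312) (PT.nd (nat_lit 156) (PT.nd (nat_lit 78) (PT.lf (nat_lit 50008) (nat_lit 6) (nat_lit 658) (nat_lit 2) (nat_lit 195) (nat_lit 196) (nat_lit 179)) (PT.lf (nat_lit 49172) (nat_lit 3) (nat_lit 647) (nat_lit 0) (nat_lit 196) (nat_lit 196) (nat_lit 178))) (PT.nd (nat_lit 78) (PT.lf (nat_lit 48184) (nat_lit 6) (nat_lit 634) (nat_lit 0) (nat_lit 197) (nat_lit 196) (nat_lit 177)) (PT.lf (nat_lit 47120) (nat_lit 6) (nat_lit 620) (nat_lit 0) (nat_lit 198) (nat_lit 196) (nat_lit 176)))) (PT.nd (nat_lit 156) (PT.nd (nat_lit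 78) (PT.lf (nat_lit 45980) (nat_lit 6) (nat_lit 605) (nat_lit 0) (nat_lit 199) (nat_lit 196) (nat_lit 175)) (PT.lf (nat_lit 44764) (nat_lit 6) (nat_lit 589) (nat_lit 0) (nat_lit 200) (nat_lit 196) (nat_lit 174))) (PT.nd (nat_lit 78) (PT.lf (nat_lit 43472) (nat_lit 6) (nat_lit 572) (nat_lit 0) (nat_lit 201) (nat_lit 196) (nat_lit 173)) (PT.lf (nat_lit 42104) (nat_lit 6) (nat_lit 554) (nat_lit 0) (nat_lit 202) (nat_lit 196) (nat_lit 172)))))) (PT.nd (nat_lit 624) (PT.nd (nat_lit 312) (PT.nd (nat_lit 156) (PT.nd (nat_lit 78) (PT.lf (nat_lit 40660) (nat_lit 6) (nat_lit 535) (nat_lit 0) (nat_lit 203) (nat_lit 196) (nat_lit 171)) (PT.lf (nat_lit 39140) (nat_lit 6) (nat_lit 515) (nat_lit 0) (nat_lit 204) (nat_lit 196) (nat_lit 170))) (PT.nd (nat_lit 78) (PT.lf (nat_lit 37544) (nat_lit 6) (nat_lit 494) (nat_lit 0) (nat_lit 205) (nat_lit 196) (nat_lit 169)) (PT.lf (nat_lit 35872) (nat_lit 6) (nat_lit 472) (nat_lit 0) (nat_lit 206) (nat_lit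 196) (nat_lit 168)))) (PT.nd (nat_lit 156) (PT.nd (nat_lit 78) (PT.lf (nat_lit 34124) (nat_lit 6) (nat_lit 449) (nat_lit 0) (nat_lit 207) (nat_lit 196) (nat_lit 167)) (PT.lf (nat_lit 32300) (nat_lit 6) (nat_lit 425) (nat_lit 0) (nat_lit 208) (nat_lit 196) (nat_lit 166))) (PT.nd (nat_lit 78) (PT.lf (nat_lit 30932) (nat_lit 6) (nat_lit 407) (nat_lit 0) (nat_lit 209) (nat_lit 196) (nat_lit 165)) (PT.lf (nat_lit 29944) (nat_lit 6) (nat_lit 394) (nat_lit 0) (nat_lit 210) (nat_lit 196) (nat_lit 164))))) (PT.nd (nat_lit 312) (PT.nd (nat_lit 156) (PT.nd (nat_lit 78) (PT.lf (nat_lit 29032) (nat_lit 6) (nat_lit 382) (nat_lit 0) (nat_lit 211) (nat_lit 196) (nat_lit 163)) (PT.lf (nat_lit 28044) (nat_lit 6) (nat_lit 369) (nat_lit 0) (nat_lit 212) (nat_lit 196) (nat_lit 162))) (PT.nd (nat_lit 78) (PT.lf (nat_lit 27132) (nat_lit 6) (nat_lit 357) (nat_lit 0) (nat_lit 213) (nat_lit 196) (nat_lit 161)) (PT.lf (nat_lit 26220) (nat_lit 6) (nat_lit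 345) (nat_lit 0) (nat_lit 214) (nat_lit 196) (nat_lit 160)))) (PT.nd (nat_lit 54834) (PT.nd (nat_lit 78) (PT.lf (nat_lit 25384) (nat_lit 6) (nat_lit 334) (nat_lit 0) (nat_lit 215) (nat_lit 196) (nat_lit 159)) (PT.lf (nat_lit 24548) (nat_lit 6) (nat_lit 323) (nat_lit 0) (nat_lit 216) (nat_lit 196) (nat_lit 158))) (PT.nd (nat_lit 78) (PT.lf (nat_lit 23788) (nat_lit 6) (nat_lit 313) (nat_lit 5) (nat_lit 157) (nat_lit 197) (nat_lit 216)) (PT.lf (nat_lit 24624) (nat_lit 6) (nat_lit 324) (nat_lit 5) (nat_lit 158) (nat_lit 197) (nat_lit 215))))))) (PT.nd (nat_lit 1248) (PT.nd (nat_lit 624) (PT.nd (nat_lit 312) (PT.nd (nat_lit 156) (PT.nd (nat_lit 78) (PT.lf (nat_lit 25460) (nat_lit 6) (nat_lit 335) (nat_lit 5) (nat_lit 159) (nat_lit 197) (nat_lit 214)) (PT.lf (nat_lit 26296) (nat_lit 6) (nat_lit 346) (nat_lit 5) (nat_lit 160) (nat_lit 197) (nat_lit 213))) (PT.nd (nat_lit 78) (PT.lf (nat_lit 27208) (nat_lit 6) (nat_lit 358) (nat_lit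 5) (nat_lit 161) (nat_lit 197) (nat_lit 212)) (PT.lf (nat_lit 28120) (nat_lit 6) (nat_lit 370) (nat_lit 5) (nat_lit 162) (nat_lit 197) (nat_lit 211)))) (PT.nd (nat_lit 156) (PT.nd (nat_lit 78) (PT.lf (nat_lit 29108) (nat_lit 6) (nat_lit 383) (nat_lit 5) (nat_lit 163) (nat_lit 197) (nat_lit 210)) (PT.lf (nat_lit 30020) (nat_lit 6) (nat_lit 395) (nat_lit 5) (nat_lit 164) (nat_lit 197) (nat_lit 209))) (PT.nd (nat_lit 78) (PT.lf (nat_lit 31008) (nat_lit 6) (nat_lit 408) (nat_lit 5) (nat_lit 165) (nat_lit 197) (nat_lit 208)) (PT.lf (nat_lit 32376) (nat_lit 6) (nat_lit 426) (nat_lit 5) (nat_lit 166) (nat_lit 197) (nat_lit 207))))) (PT.nd (nat_lit 312) (PT.nd (nat_lit 156) (PT.nd (nat_lit 78) (PT.lf (nat_lit 34200) (nat_lit 6) (nat_lit 450) (nat_lit 5) (nat_lit 167) (nat_lit 197) (nat_lit 206)) (PT.lf (nat_lit 35948) (nat_lit 6) (nat_lit 473) (nat_lit 5) (nat_lit 168) (nat_lit 197) (nat_lit 205))) (PT.nd (nat_lit 78) (PT.lf (nat_lit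 37620) (nat_lit 6) (nat_lit 495) (nat_lit 5) (nat_lit 169) (nat_lit 197) (nat_lit 204)) (PT.lf (nat_lit 39216) (nat_lit 6) (nat_lit 516) (nat_lit 5) (nat_lit 170) (nat_lit 197) (nat_lit 203)))) (PT.nd (nat_lit 156) (PT.nd (nat_lit 78) (PT.lf (nat_lit 40736) (nat_lit 6) (nat_lit 536) (nat_lit 5) (nat_lit 171) (nat_lit 197) (nat_lit 202)) (PT.lf (nat_lit 42180) (nat_lit 6) (nat_lit 555) (nat_lit 5) (nat_lit 172) (nat_lit 197) (nat_lit 201))) (PT.nd (nat_lit 78) (PT.lf (nat_lit 43548) (nat_lit 6) (nat_lit 573) (nat_lit 5) (nat_lit 173) (nat_lit 197) (nat_lit 200)) (PT.lf (nat_lit 44840) (nat_lit 6) (nat_lit 590) (nat_lit 5) (nat_lit 174) (nat_lit 197) (nat_lit 199)))))) (PT.nd (nat_lit 624) (PT.nd (nat_lit 312) (PT.nd (nat_lit 156) (PT.nd (nat_lit 78) (PT.lf (nat_lit 46056) (nat_lit 6) (nat_lit 606) (nat_lit 5) (nat_lit 175) (nat_lit 197) (nat_lit 198)) (PT.lf (nat_lit 47196) (nat_lit 3) (nat_lit 621) (nat_lit 4) (nat_lit 176)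 (nat_lit 197) (nat_lit 197))) (PT.nd (nat_lit 78) (PT.lf (nat_lit 48184) (nat_lit 6) (nat_lit 634) (nat_lit 4) (nat_lit 177) (nat_lit 197) (nat_lit 196)) (PT.lf (nat_lit 49096) (nat_lit 6) (nat_lit 646) (nat_lit 4) (nat_lit 178) (nat_lit 197) (nat_lit 195)))) (PT.nd (nat_lit 156) (PT.nd (nat_lit 78) (PT.lf (nat_lit 49932) (nat_lit 6) (nat_lit 657) (nat_lit 4) (nat_lit 179) (nat_lit 197) (nat_lit 194)) (PT.lf (nat_lit 50692) (nat_lit 6) (nat_lit 667) (nat_lit 4) (nat_lit 180) (nat_lit 197) (nat_lit 193))) (PT.nd (nat_lit 78) (PT.lf (nat_lit 51376) (nat_lit 6) (nat_lit 676) (nat_lit 4) (nat_lit 181) (nat_lit 197) (nat_lit 192)) (PT.lf (nat_lit 51984) (nat_lit 6) (nat_lit 684) (nat_lit 4) (nat_lit 182) (nat_lit 197) (nat_lit 191))))) (PT.nd (nat_lit 312) (PT.nd (nat_lit 156) (PT.nd (nat_lit 78) (PT.lf (nat_lit 52516) (nat_lit 6) (nat_lit 691) (nat_lit 4) (nat_lit 183) (nat_lit 197) (nat_lit 190)) (PT.lf (nat_lit 52440) (nat_lit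 6) (nat_lit 690) (nat_lit 4) (nat_lit 184) (nat_lit 197) (nat_lit 189))) (PT.nd (nat_lit 78) (PT.lf (nat_lit 52364) (nat_lit 6) (nat_lit 689) (nat_lit 4) (nat_lit 185) (nat_lit 197) (nat_lit 188)) (PT.lf (nat_lit 52288) (nat_lit 6) (nat_lit 688) (nat_lit 4) (nat_lit 186) (nat_lit 197) (nat_lit 187)))) (PT.nd (nat_lit 156) (PT.nd (nat_lit 78) (PT.lf (nat_lit 52288) (nat_lit 6) (nat_lit 688) (nat_lit 2) (nat_lit 187) (nat_lit 197) (nat_lit 186)) (PT.lf (nat_lit 52364) (nat_lit 6) (nat_lit 689) (nat_lit 2) (nat_lit 188) (nat_lit 197) (nat_lit 185))) (PT.nd (nat_lit 78) (PT.lf (nat_lit 52440) (nat_lit 6) (nat_lit 690) (nat_lit 2) (nat_lit 189) (nat_lit 197) (nat_lit 184)) (PT.lf (nat_lit 52516) (nat_lit 6) (nat_lit 691) (nat_lit 2) (nat_lit 190) (nat_lit 197) (nat_lit 183))))))))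
noncomputable def pc32 : PT := (PT.nd (nat_lit 57018) (PT.nd (nat_lit 1170) (PT.nd (nat_lit 546) (PT.nd (nat_lit 234) (PT.nd (nat_lit 78) (PT.lf (nat_lit 51984) (nat_lit 6) (nat_lit 684) (nat_lit 2) (nat_lit 191) (nat_lit 197) (nat_lit 182)) (PT.nd (nat_lit 78) (PT.lf (nat_lit 51376) (nat_lit 6) (nat_lit 676) (nat_lit 2) (nat_lit 192) (nat_lit 197) (nat_lit 181)) (PT.lf (nat_lit 50692) (nat_lit 6) (nat_lit 667) (nat_lit 2) (nat_lit 193) (nat_lit 197) (nat_lit 180)))) (PT.nd (nat_lit 156) (PT.nd (nat_lit 78) (PT.lf (nat_lit 49932) (nat_lit 6) (nat_lit 657) (nat_lit 2) (nat_lit 194) (nat_lit 197) (nat_lit 179)) (PT.lf (nat_lit 49096) (nat_lit 6) (nat_lit 646) (nat_lit 2) (nat_lit 195) (nat_lit 197) (nat_lit 178))) (PT.nd (nat_lit 78) (PT.lf (nat_lit 48184) (nat_lit 6) (nat_lit 634) (nat_lit 2) (nat_lit 196) (nat_lit 197) (nat_lit 177)) (PT.lf (nat_lit 47196) (nat_lit 3) (nat_lit 621) (nat_lit 0) (nat_lit 197) (nat_lit 197) (nat_lit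 176))))) (PT.nd (nat_lit 312) (PT.nd (nat_lit 156) (PT.nd (nat_lit 78) (PT.lf (nat_lit 46056) (nat_lit 6) (nat_lit 606) (nat_lit 0) (nat_lit 198) (nat_lit 197) (nat_lit 175)) (PT.lf (nat_lit 44840) (nat_lit 6) (nat_lit 590) (nat_lit 0) (nat_lit 199) (nat_lit 197) (nat_lit 174))) (PT.nd (nat_lit 78) (PT.lf (nat_lit 43548) (nat_lit 6) (nat_lit 573) (nat_lit 0) (nat_lit 200) (nat_lit 197) (nat_lit 173)) (PT.lf (nat_lit 42180) (nat_lit 6) (nat_lit 555) (nat_lit 0) (nat_lit 201) (nat_lit 197) (nat_lit 172)))) (PT.nd (nat_lit 156) (PT.nd (nat_lit 78) (PT.lf (nat_lit 40736) (nat_lit 6) (nat_lit 536) (nat_lit 0) (nat_lit 202) (nat_lit 197) (nat_lit 171)) (PT.lf (nat_lit 39216) (nat_lit 6) (nat_lit 516) (nat_lit 0) (nat_lit 203) (nat_lit 197) (nat_lit 170))) (PT.nd (nat_lit 78) (PT.lf (nat_lit 37620) (nat_lit 6) (nat_lit 495) (nat_lit 0) (nat_lit 204) (nat_lit 197) (nat_lit 169)) (PT.lf (nat_lit 35948) (nat_lit 6) (nat_lit 473) (nat_lit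 0) (nat_lit 205) (nat_lit 197) (nat_lit 168)))))) (PT.nd (nat_lit 624) (PT.nd (nat_lit 312) (PT.nd (nat_lit 156) (PT.nd (nat_lit 78) (PT.lf (nat_lit 34200) (nat_lit 6) (nat_lit 450) (nat_lit 0) (nat_lit 206) (nat_lit 197) (nat_lit 167)) (PT.lf (nat_lit 32376) (nat_lit 6) (nat_lit 426) (nat_lit 0) (nat_lit 207) (nat_lit 197) (nat_lit 166))) (PT.nd (nat_lit 78) (PT.lf (nat_lit 31008) (nat_lit 6) (nat_lit 408) (nat_lit 0) (nat_lit 208) (nat_lit 197) (nat_lit 165)) (PT.lf (nat_lit 30020) (nat_lit 6) (nat_lit 395) (nat_lit 0) (nat_lit 209) (nat_lit 197) (nat_lit 164)))) (PT.nd (nat_lit 156) (PT.nd (nat_lit 78) (PT.lf (nat_lit 29108) (nat_lit 6) (nat_lit 383) (nat_lit 0) (nat_lit 210) (nat_lit 197) (nat_lit 163)) (PT.lf (nat_lit 28120) (nat_lit 6) (nat_lit 370) (nat_lit 0) (nat_lit 211) (nat_lit 197) (nat_lit 162))) (PT.nd (nat_lit 78) (PT.lf (nat_lit 27208) (nat_lit 6) (nat_lit 358) (nat_lit 0) (nat_lit 212) (nat_lit 197) (nat_lit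 161)) (PT.lf (nat_lit 26296) (nat_lit 6) (nat_lit 346) (nat_lit 0) (nat_lit 213) (nat_lit 197) (nat_lit 160))))) (PT.nd (nat_lit 54912) (PT.nd (nat_lit 156) (PT.nd (nat_lit 78) (PT.lf (nat_lit 25460) (nat_lit 6) (nat_lit 335) (nat_lit 0) (nat_lit 214) (nat_lit 197) (nat_lit 159)) (PT.lf (nat_lit 24624) (nat_lit 6) (nat_lit 324) (nat_lit 0) (nat_lit 215) (nat_lit 197) (nat_lit 158))) (PT.nd (nat_lit 54678) (PT.lf (nat_lit 23788) (nat_lit 6) (nat_lit 313) (nat_lit 0) (nat_lit 216) (nat_lit 197) (nat_lit 157)) (PT.lf (nat_lit 23028) (nat_lit 6) (nat_lit 303) (nat_lit 5) (nat_lit 156) (nat_lit 198) (nat_lit 216)))) (PT.nd (nat_lit 156) (PT.nd (nat_lit 78) (PT.lf (nat_lit 23864) (nat_lit 6) (nat_lit 314) (nat_lit 5) (nat_lit 157) (nat_lit 198) (nat_lit 215)) (PT.lf (nat_lit 24700) (nat_lit 6) (nat_lit 325) (nat_lit 5) (nat_lit 158) (nat_lit 198) (nat_lit 214))) (PT.nd (nat_lit 78) (PT.lf (nat_lit 25536) (nat_lit 6) (nat_lit 336)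 (nat_lit 5) (nat_lit 159) (nat_lit 198) (nat_lit 213)) (PT.lf (nat_lit 26372) (nat_lit 6) (nat_lit 347) (nat_lit 5) (nat_lit 160) (nat_lit 198) (nat_lit 212))))))) (PT.nd (nat_lit 1170) (PT.nd (nat_lit 546) (PT.nd (nat_lit 234) (PT.nd (nat_lit 78) (PT.lf (nat_lit 27284) (nat_lit 6) (nat_lit 359) (nat_lit 5) (nat_lit 161) (nat_lit 198) (nat_lit 211)) (PT.nd (nat_lit 78) (PT.lf (nat_lit 28196) (nat_lit 6) (nat_lit 371) (nat_lit 5) (nat_lit 162) (nat_lit 198) (nat_lit 210)) (PT.lf (nat_lit 29184) (nat_lit 6) (nat_lit 384) (nat_lit 5) (nat_lit 163) (nat_lit 198) (nat_lit 209)))) (PT.nd (nat_lit 156) (PT.nd (nat_lit 78) (PT.lf (nat_lit 30096) (nat_lit 6) (nat_lit 396) (nat_lit 5) (nat_lit 164) (nat_lit 198) (nat_lit 208)) (PT.lf (nat_lit 31084) (nat_lit 6) (nat_lit 409) (nat_lit 5) (nat_lit 165) (nat_lit 198) (nat_lit 207))) (PT.nd (nat_lit 78) (PT.lf (nat_lit 32452) (nat_lit 6) (nat_lit 427) (nat_lit 5) (nat_lit 166) (nat_lit 198)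 (nat_lit 206)) (PT.lf (nat_lit 34276) (nat_lit 6) (nat_lit 451) (nat_lit 5) (nat_lit 167) (nat_lit 198) (nat_lit 205))))) (PT.nd (nat_lit 312) (PT.nd (nat_lit 156) (PT.nd (nat_lit 78) (PT.lf (nat_lit 36024) (nat_lit 6) (nat_lit 474) (nat_lit 5) (nat_lit 168) (nat_lit 198) (nat_lit 204)) (PT.lf (nat_lit 37696) (nat_lit 6) (nat_lit 496) (nat_lit 5) (nat_lit 169) (nat_lit 198) (nat_lit 203))) (PT.nd (nat_lit 78) (PT.lf (nat_lit 39292) (nat_lit 6) (nat_lit 517) (nat_lit 5) (nat_lit 170) (nat_lit 198) (nat_lit 202)) (PT.lf (nat_lit 40812) (nat_lit 6) (nat_lit 537) (nat_lit 5) (nat_lit 171) (nat_lit 198) (nat_lit 201)))) (PT.nd (nat_lit 156) (PT.nd (nat_lit 78) (PT.lf (nat_lit 42256) (nat_lit 6) (nat_lit 556) (nat_lit 5) (nat_lit 172) (nat_lit 198) (nat_lit 200)) (PT.lf (nat_lit 43624) (nat_lit 6) (nat_lit 574) (nat_lit 5) (nat_lit 173) (nat_lit 198) (nat_lit 199))) (PT.nd (nat_lit 78) (PT.lf (nat_lit 44916) (nat_lit 3) (nat_lit 591)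 (nat_lit 4) (nat_lit 174) (nat_lit 198) (nat_lit 198)) (PT.lf (nat_lit 46056) (nat_lit 6) (nat_lit 606) (nat_lit 4) (nat_lit 175) (nat_lit 198) (nat_lit 197)))))) (PT.nd (nat_lit 624) (PT.nd (nat_lit 312) (PT.nd (nat_lit 156) (PT.nd (nat_lit 78) (PT.lf (nat_lit 47120) (nat_lit 6) (nat_lit 620) (nat_lit 4) (nat_lit 176) (nat_lit 198) (nat_lit 196)) (PT.lf (nat_lit 48108) (nat_lit 6) (nat_lit 633) (nat_lit 4) (nat_lit 177) (nat_lit 198) (nat_lit 195))) (PT.nd (nat_lit 78) (PT.lf (nat_lit 49020) (nat_lit 6) (nat_lit 645) (nat_lit 4) (nat_lit 178) (nat_lit 198) (nat_lit 194)) (PT.lf (nat_lit 49856) (nat_lit 6) (nat_lit 656) (nat_lit 4) (nat_lit 179) (nat_lit 198) (nat_lit 193)))) (PT.nd (nat_lit 156) (PT.nd (nat_lit 78) (PT.lf (nat_lit 50616) (nat_lit 6) (nat_lit 666) (nat_lit 4) (nat_lit 180) (nat_lit 198) (nat_lit 192)) (PT.lf (nat_lit 51300) (nat_lit 6) (nat_lit 675) (nat_lit 4) (nat_lit 181) (nat_lit 198) (nat_lit 191))) (PT.nd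 (nat_lit 78) (PT.lf (nat_lit 51908) (nat_lit 6) (nat_lit 683) (nat_lit 4) (nat_lit 182) (nat_lit 198) (nat_lit 190)) (PT.lf (nat_lit 51832) (nat_lit 6) (nat_lit 682) (nat_lit 4) (nat_lit 183) (nat_lit 198) (nat_lit 189))))) (PT.nd (nat_lit 312) (PT.nd (nat_lit 156) (PT.nd (nat_lit 78) (PT.lf (nat_lit 51756) (nat_lit 6) (nat_lit 681) (nat_lit 4) (nat_lit 184) (nat_lit 198) (nat_lit 188)) (PT.lf (nat_lit 51680) (nat_lit 6) (nat_lit 680) (nat_lit 4) (nat_lit 185) (nat_lit 198) (nat_lit 187))) (PT.nd (nat_lit 78) (PT.lf (nat_lit 51604) (nat_lit 3) (nat_lit 679) (nat_lit 2) (nat_lit 186) (nat_lit 198) (nat_lit 186)) (PT.lf (nat_lit 51680) (nat_lit 6) (nat_lit 680) (nat_lit 2) (nat_lit 187) (nat_lit 198) (nat_lit 185)))) (PT.nd (nat_lit 156) (PT.nd (nat_lit 78) (PT.lf (nat_lit 51756) (nat_lit 6) (nat_lit 681) (nat_lit 2) (nat_lit 188) (nat_lit 198) (nat_lit 184)) (PT.lf (nat_lit 51832) (nat_lit 6) (nat_lit 682) (nat_lit 2) (nat_lit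 189) (nat_lit 198) (nat_lit 183))) (PT.nd (nat_lit 78) (PT.lf (nat_lit 51908) (nat_lit 6) (nat_lit 683) (nat_lit 2) (nat_lit 190) (nat_lit 198) (nat_lit 182)) (PT.lf (nat_lit 51300) (nat_lit 6) (nat_lit 675) (nat_lit 2) (nat_lit 191) (nat_lit 198) (nat_lit 181))))))))
noncomputable def pc33 : PT := (PT.nd (nat_lit 56940) (PT.nd (nat_lit 1170) (PT.nd (nat_lit 546) (PT.nd (nat_lit 234) (PT.nd (nat_lit 78) (PT.lf (nat_lit 50616) (nat_lit 6) (nat_lit 666) (nat_lit 2) (nat_lit 192) (nat_lit 198) (nat_lit 180)) (PT.nd (nat_lit 78) (PT.lf (nat_lit 49856) (nat_lit 6) (nat_lit 656) (nat_lit 2) (nat_lit 193) (nat_lit 198) (nat_lit 179)) (PT.lf (nat_lit 49020) (nat_lit 6) (nat_lit 645) (nat_lit 2) (nat_lit 194) (nat_lit 198) (nat_lit 178)))) (PT.nd (nat_lit 156) (PT.nd (nat_lit 78) (PT.lf (nat_lit 48108) (nat_lit 6) (nat_lit 633) (nat_lit 2) (nat_lit 195) (nat_lit 198) (nat_lit 177)) (PT.lf (nat_lit 47120) (nat_lit 6) (nat_lit 620) (nat_lit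 2) (nat_lit 196) (nat_lit 198) (nat_lit 176))) (PT.nd (nat_lit 78) (PT.lf (nat_lit 46056) (nat_lit 6) (nat_lit 606) (nat_lit 2) (nat_lit 197) (nat_lit 198) (nat_lit 175)) (PT.lf (nat_lit 44916) (nat_lit 3) (nat_lit 591) (nat_lit 0) (nat_lit 198) (nat_lit 198) (nat_lit 174))))) (PT.nd (nat_lit 312) (PT.nd (nat_lit 156) (PT.nd (nat_lit 78) (PT.lf (nat_lit 43624) (nat_lit 6) (nat_lit 574) (nat_lit 0) (nat_lit 199) (nat_lit 198) (nat_lit 173)) (PT.lf (nat_lit 42256) (nat_lit 6) (nat_lit 556) (nat_lit 0) (nat_lit 200) (nat_lit 198) (nat_lit 172))) (PT.nd (nat_lit 78) (PT.lf (nat_lit 40812) (nat_lit 6) (nat_lit 537) (nat_lit 0) (nat_lit 201) (nat_lit 198) (nat_lit 171)) (PT.lf (nat_lit 39292) (nat_lit 6) (nat_lit 517) (nat_lit 0) (nat_lit 202) (nat_lit 198) (nat_lit 170)))) (PT.nd (nat_lit 156) (PT.nd (nat_lit 78) (PT.lf (nat_lit 37696) (nat_lit 6) (nat_lit 496) (nat_lit 0) (nat_lit 203) (nat_lit 198) (nat_lit 169)) (PT.lf (nat_lit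 36024) (nat_lit 6) (nat_lit 474) (nat_lit 0) (nat_lit 204) (nat_lit 198) (nat_lit 168))) (PT.nd (nat_lit 78) (PT.lf (nat_lit 34276) (nat_lit 6) (nat_lit 451) (nat_lit 0) (nat_lit 205) (nat_lit 198) (nat_lit 167)) (PT.lf (nat_lit 32452) (nat_lit 6) (nat_lit 427) (nat_lit 0) (nat_lit 206) (nat_lit 198) (nat_lit 166)))))) (PT.nd (nat_lit 624) (PT.nd (nat_lit 312) (PT.nd (nat_lit 156) (PT.nd (nat_lit 78) (PT.lf (nat_lit 31084) (nat_lit 6) (nat_lit 409) (nat_lit 0) (nat_lit 207) (nat_lit 198) (nat_lit 165)) (PT.lf (nat_lit 30096) (nat_lit 6) (nat_lit 396) (nat_lit 0) (nat_lit 208) (nat_lit 198) (nat_lit 164))) (PT.nd (nat_lit 78) (PT.lf (nat_lit 29184) (nat_lit 6) (nat_lit 384) (nat_lit 0) (nat_lit 209) (nat_lit 198) (nat_lit 163)) (PT.lf (nat_lit 28196) (nat_lit 6) (nat_lit 371) (nat_lit 0) (nat_lit 210) (nat_lit 198) (nat_lit 162)))) (PT.nd (nat_lit 156) (PT.nd (nat_lit 78) (PT.lf (nat_lit 27284) (nat_lit 6) (nat_lit 359) (nat_lit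 0) (nat_lit 211) (nat_lit 198) (nat_lit 161)) (PT.lf (nat_lit 26372) (nat_lit 6) (nat_lit 347) (nat_lit 0) (nat_lit 212) (nat_lit 198) (nat_lit 160))) (PT.nd (nat_lit 78) (PT.lf (nat_lit 25536) (nat_lit 6) (nat_lit 336) (nat_lit 0) (nat_lit 213) (nat_lit 198) (nat_lit 159)) (PT.lf (nat_lit 24700) (nat_lit 6) (nat_lit 325) (nat_lit 0) (nat_lit 214) (nat_lit 198) (nat_lit 158))))) (PT.nd (nat_lit 54834) (PT.nd (nat_lit 54678) (PT.nd (nat_lit 78) (PT.lf (nat_lit 23864) (nat_lit 6) (nat_lit 314) (nat_lit 0) (nat_lit 215) (nat_lit 198) (nat_lit 157)) (PT.lf (nat_lit 23028) (nat_lit 6) (nat_lit 303) (nat_lit 0) (nat_lit 216) (nat_lit 198) (nat_lit 156))) (PT.nd (nat_lit 78) (PT.lf (nat_lit 22344) (nat_lit 6) (nat_lit 294) (nat_lit 5) (nat_lit 155) (nat_lit 199) (nat_lit 216)) (PT.lf (nat_lit 23104) (nat_lit 6) (nat_lit 304) (nat_lit 5) (nat_lit 156) (nat_lit 199) (nat_lit 215)))) (PT.nd (nat_lit 156) (PT.nd (nat_lit 78) (PT.lf (nat_lit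 23940) (nat_lit 6) (nat_lit 315) (nat_lit 5) (nat_lit 157) (nat_lit 199) (nat_lit 214)) (PT.lf (nat_lit 24776) (nat_lit 6) (nat_lit 326) (nat_lit 5) (nat_lit 158) (nat_lit 199) (nat_lit 213))) (PT.nd (nat_lit 78) (PT.lf (nat_lit 25612) (nat_lit 6) (nat_lit 337) (nat_lit 5) (nat_lit 159) (nat_lit 199) (nat_lit 212)) (PT.lf (nat_lit 26448) (nat_lit 6) (nat_lit 348) (nat_lit 5) (nat_lit 160) (nat_lit 199) (nat_lit 211))))))) (PT.nd (nat_lit 1248) (PT.nd (nat_lit 624) (PT.nd (nat_lit 312) (PT.nd (nat_lit 156) (PT.nd (nat_lit 78) (PT.lf (nat_lit 27360) (nat_lit 6) (nat_lit 360) (nat_lit 5) (nat_lit 161) (nat_lit 199) (nat_lit 210)) (PT.lf (nat_lit 28272) (nat_lit 6) (nat_lit 372) (nat_lit 5) (nat_lit 162) (nat_lit 199) (nat_lit 209))) (PT.nd (nat_lit 78) (PT.lf (nat_lit 29260) (nat_lit 6) (nat_lit 385) (nat_lit 5) (nat_lit 163) (nat_lit 199) (nat_lit 208)) (PT.lf (nat_lit 30172) (nat_lit 6) (nat_lit 397) (nat_lit 5) (nat_lit 164)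 (nat_lit 199) (nat_lit 207)))) (PT.nd (nat_lit 156) (PT.nd (nat_lit 78) (PT.lf (nat_lit 31160) (nat_lit 6) (nat_lit 410) (nat_lit 5) (nat_lit 165) (nat_lit 199) (nat_lit 206)) (PT.lf (nat_lit 32528) (nat_lit 6) (nat_lit 428) (nat_lit 5) (nat_lit 166) (nat_lit 199) (nat_lit 205))) (PT.nd (nat_lit 78) (PT.lf (nat_lit 34352) (nat_lit 6) (nat_lit 452) (nat_lit 5) (nat_lit 167) (nat_lit 199) (nat_lit 204)) (PT.lf (nat_lit 36100) (nat_lit 6) (nat_lit 475) (nat_lit 5) (nat_lit 168) (nat_lit 199) (nat_lit 203))))) (PT.nd (nat_lit 312) (PT.nd (nat_lit 156) (PT.nd (nat_lit 78) (PT.lf (nat_lit 37772) (nat_lit 6) (nat_lit 497) (nat_lit 5) (nat_lit 169) (nat_lit 199) (nat_lit 202)) (PT.lf (nat_lit 39368) (nat_lit 6) (nat_lit 518) (nat_lit 5) (nat_lit 170) (nat_lit 199) (nat_lit 201))) (PT.nd (nat_lit 78) (PT.lf (nat_lit 40888) (nat_lit 6) (nat_lit 538) (nat_lit 5) (nat_lit 171) (nat_lit 199) (nat_lit 200)) (PT.lf (nat_lit 42332) (nat_lit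 3) (nat_lit 557) (nat_lit 4) (nat_lit 172) (nat_lit 199) (nat_lit 199)))) (PT.nd (nat_lit 156) (PT.nd (nat_lit 78) (PT.lf (nat_lit 43624) (nat_lit 6) (nat_lit 574) (nat_lit 4) (nat_lit 173) (nat_lit 199) (nat_lit 198)) (PT.lf (nat_lit 44840) (nat_lit 6) (nat_lit 590) (nat_lit 4) (nat_lit 174) (nat_lit 199) (nat_lit 197))) (PT.nd (nat_lit 78) (PT.lf (nat_lit 45980) (nat_lit 6) (nat_lit 605) (nat_lit 4) (nat_lit 175) (nat_lit 199) (nat_lit 196)) (PT.lf (nat_lit 47044) (nat_lit 6) (nat_lit 619) (nat_lit 4) (nat_lit 176) (nat_lit 199) (nat_lit 195)))))) (PT.nd (nat_lit 624) (PT.nd (nat_lit 312) (PT.nd (nat_lit 156) (PT.nd (nat_lit 78) (PT.lf (nat_lit 48032) (nat_lit 6) (nat_lit 632) (nat_lit 4) (nat_lit 177) (nat_lit 199) (nat_lit 194)) (PT.lf (nat_lit 48944) (nat_lit 6) (nat_lit 644) (nat_lit 4) (nat_lit 178) (nat_lit 199) (nat_lit 193))) (PT.nd (nat_lit 78) (PT.lf (nat_lit 49780) (nat_lit 6) (nat_lit 655) (nat_lit 4) (nat_lit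 179) (nat_lit 199) (nat_lit 192)) (PT.lf (nat_lit 50540) (nat_lit 6) (nat_lit 665) (nat_lit 4) (nat_lit 180) (nat_lit 199) (nat_lit 191)))) (PT.nd (nat_lit 156) (PT.nd (nat_lit 78) (PT.lf (nat_lit 51224) (nat_lit 6) (nat_lit 674) (nat_lit 4) (nat_lit 181) (nat_lit 199) (nat_lit 190)) (PT.lf (nat_lit 51148) (nat_lit 6) (nat_lit 673) (nat_lit 4) (nat_lit 182) (nat_lit 199) (nat_lit 189))) (PT.nd (nat_lit 78) (PT.lf (nat_lit 51072) (nat_lit 6) (nat_lit 672) (nat_lit 4) (nat_lit 183) (nat_lit 199) (nat_lit 188)) (PT.lf (nat_lit 50996) (nat_lit 6) (nat_lit 671) (nat_lit 4) (nat_lit 184) (nat_lit 199) (nat_lit 187))))) (PT.nd (nat_lit 312) (PT.nd (nat_lit 156) (PT.nd (nat_lit 78) (PT.lf (nat_lit 50920) (nat_lit 6) (nat_lit 670) (nat_lit 4) (nat_lit 185) (nat_lit 199) (nat_lit 186)) (PT.lf (nat_lit 50920) (nat_lit 6) (nat_lit 670) (nat_lit 2) (nat_lit 186) (nat_lit 199) (nat_lit 185))) (PT.nd (nat_lit 78) (PT.lf (nat_lit 50996) (nat_lit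 6) (nat_lit 671) (nat_lit 2) (nat_lit 187) (nat_lit 199) (nat_lit 184)) (PT.lf (nat_lit 51072) (nat_lit 6) (nat_lit 672) (nat_lit 2) (nat_lit 188) (nat_lit 199) (nat_lit 183)))) (PT.nd (nat_lit 156) (PT.nd (nat_lit 78) (PT.lf (nat_lit 51148) (nat_lit 6) (nat_lit 673) (nat_lit 2) (nat_lit 189) (nat_lit 199) (nat_lit 182)) (PT.lf (nat_lit 51224) (nat_lit 6) (nat_lit 674) (nat_lit 2) (nat_lit 190) (nat_lit 199) (nat_lit 181))) (PT.nd (nat_lit 78) (PT.lf (nat_lit 50540) (nat_lit 6) (nat_lit 665) (nat_lit 2) (nat_lit 191) (nat_lit 199) (nat_lit 180)) (PT.lf (nat_lit 49780) (nat_lit 6) (nat_lit 655) (nat_lit 2) (nat_lit 192) (nat_lit 199) (nat_lit 179))))))))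
noncomputable def pc34 : PT := (PT.nd (nat_lit 56784) (PT.nd (nat_lit 1170) (PT.nd (nat_lit 546) (PT.nd (nat_lit 234) (PT.nd (nat_lit 78) (PT.lf (nat_lit 48944) (nat_lit 6) (nat_lit 644) (nat_lit 2) (nat_lit 193) (nat_lit 199) (nat_lit 178)) (PT.nd (nat_lit 78) (PT.lf (nat_lit 48032) (nat_lit 6) (nat_lit 632) (nat_lit 2) (nat_lit 194) (nat_lit 199) (nat_lit 177)) (PT.lf (nat_lit 47044) (nat_lit 6) (nat_lit 619) (nat_lit 2) (nat_lit 195) (nat_lit 199) (nat_lit 176)))) (PT.nd (nat_lit 156) (PT.nd (nat_lit 78) (PT.lf (nat_lit 45980) (nat_lit 6) (nat_lit 605) (nat_lit 2) (nat_lit 196) (nat_lit 199) (nat_lit 175)) (PT.lf (nat_lit 44840) (nat_lit 6) (nat_lit 590) (nat_lit 2) (nat_lit 197) (nat_lit 199) (nat_lit 174))) (PT.nd (nat_lit 78) (PT.lf (nat_lit 43624) (nat_lit 6) (nat_lit 574) (nat_lit 2) (nat_lit 198) (nat_lit 199) (nat_lit 173)) (PT.lf (nat_lit 42332) (nat_lit 3) (nat_lit 557) (nat_lit 0) (nat_lit 199) (nat_lit 199) (nat_lit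 172))))) (PT.nd (nat_lit 312) (PT.nd (nat_lit 156) (PT.nd (nat_lit 78) (PT.lf (nat_lit 40888) (nat_lit 6) (nat_lit 538) (nat_lit 0) (nat_lit 200) (nat_lit 199) (nat_lit 171)) (PT.lf (nat_lit 39368) (nat_lit 6) (nat_lit 518) (nat_lit 0) (nat_lit 201) (nat_lit 199) (nat_lit 170))) (PT.nd (nat_lit 78) (PT.lf (nat_lit 37772) (nat_lit 6) (nat_lit 497) (nat_lit 0) (nat_lit 202) (nat_lit 199) (nat_lit 169)) (PT.lf (nat_lit 36100) (nat_lit 6) (nat_lit 475) (nat_lit 0) (nat_lit 203) (nat_lit 199) (nat_lit 168)))) (PT.nd (nat_lit 156) (PT.nd (nat_lit 78) (PT.lf (nat_lit 34352) (nat_lit 6) (nat_lit 452) (nat_lit 0) (nat_lit 204) (nat_lit 199) (nat_lit 167)) (PT.lf (nat_lit 32528) (nat_lit 6) (nat_lit 428) (nat_lit 0) (nat_lit 205) (nat_lit 199) (nat_lit 166))) (PT.nd (nat_lit 78) (PT.lf (nat_lit 31160) (nat_lit 6) (nat_lit 410) (nat_lit 0) (nat_lit 206) (nat_lit 199) (nat_lit 165)) (PT.lf (nat_lit 30172) (nat_lit 6) (nat_lit 397) (nat_lit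 0) (nat_lit 207) (nat_lit 199) (nat_lit 164)))))) (PT.nd (nat_lit 624) (PT.nd (nat_lit 312) (PT.nd (nat_lit 156) (PT.nd (nat_lit 78) (PT.lf (nat_lit 29260) (nat_lit 6) (nat_lit 385) (nat_lit 0) (nat_lit 208) (nat_lit 199) (nat_lit 163)) (PT.lf (nat_lit 28272) (nat_lit 6) (nat_lit 372) (nat_lit 0) (nat_lit 209) (nat_lit 199) (nat_lit 162))) (PT.nd (nat_lit 78) (PT.lf (nat_lit 27360) (nat_lit 6) (nat_lit 360) (nat_lit 0) (nat_lit 210) (nat_lit 199) (nat_lit 161)) (PT.lf (nat_lit 26448) (nat_lit 6) (nat_lit 348) (nat_lit 0) (nat_lit 211) (nat_lit 199) (nat_lit 160)))) (PT.nd (nat_lit 156) (PT.nd (nat_lit 78) (PT.lf (nat_lit 25612) (nat_lit 6) (nat_lit 337) (nat_lit 0) (nat_lit 212) (nat_lit 199) (nat_lit 159)) (PT.lf (nat_lit 24776) (nat_lit 6) (nat_lit 326) (nat_lit 0) (nat_lit 213) (nat_lit 199) (nat_lit 158))) (PT.nd (nat_lit 78) (PT.lf (nat_lit 23940) (nat_lit 6) (nat_lit 315) (nat_lit 0) (nat_lit 214) (nat_lit 199) (nat_lit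 157)) (PT.lf (nat_lit 23104) (nat_lit 6) (nat_lit 304) (nat_lit 0) (nat_lit 215) (nat_lit 199) (nat_lit 156))))) (PT.nd (nat_lit 54678) (PT.nd (nat_lit 54522) (PT.nd (nat_lit 54444) (PT.lf (nat_lit 22344) (nat_lit 6) (nat_lit 294) (nat_lit 0) (nat_lit 216) (nat_lit 199) (nat_lit 155)) (PT.lf (nat_lit 20900) (nat_lit 6) (nat_lit 275) (nat_lit 5) (nat_lit 153) (nat_lit 200) (nat_lit 217))) (PT.nd (nat_lit 78) (PT.lf (nat_lit 21660) (nat_lit 6) (nat_lit 285) (nat_lit 5) (nat_lit 154) (nat_lit 200) (nat_lit 216)) (PT.lf (nat_lit 22420) (nat_lit 6) (nat_lit 295) (nat_lit 5) (nat_lit 155) (nat_lit 200) (nat_lit 215)))) (PT.nd (nat_lit 156) (PT.nd (nat_lit 78) (PT.lf (nat_lit 23180) (nat_lit 6) (nat_lit 305) (nat_lit 5) (nat_lit 156) (nat_lit 200) (nat_lit 214)) (PT.lf (nat_lit 24016) (nat_lit 6) (nat_lit 316) (nat_lit 5) (nat_lit 157) (nat_lit 200) (nat_lit 213))) (PT.nd (nat_lit 78) (PT.lf (nat_lit 24852) (nat_lit 6) (nat_lit 327)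 (nat_lit 5) (nat_lit 158) (nat_lit 200) (nat_lit 212)) (PT.lf (nat_lit 25688) (nat_lit 6) (nat_lit 338) (nat_lit 5) (nat_lit 159) (nat_lit 200) (nat_lit 211))))))) (PT.nd (nat_lit 1248) (PT.nd (nat_lit 624) (PT.nd (nat_lit 312) (PT.nd (nat_lit 156) (PT.nd (nat_lit 78) (PT.lf (nat_lit 26524) (nat_lit 6) (nat_lit 349) (nat_lit 5) (nat_lit 160) (nat_lit 200) (nat_lit 210)) (PT.lf (nat_lit 27436) (nat_lit 6) (nat_lit 361) (nat_lit 5) (nat_lit 161) (nat_lit 200) (nat_lit 209))) (PT.nd (nat_lit 78) (PT.lf (nat_lit 28348) (nat_lit 6) (nat_lit 373) (nat_lit 5) (nat_lit 162) (nat_lit 200) (nat_lit 208)) (PT.lf (nat_lit 29336) (nat_lit 6) (nat_lit 386) (nat_lit 5) (nat_lit 163) (nat_lit 200) (nat_lit 207)))) (PT.nd (nat_lit 156) (PT.nd (nat_lit 78) (PT.lf (nat_lit 30248) (nat_lit 6) (nat_lit 398) (nat_lit 5) (nat_lit 164) (nat_lit 200) (nat_lit 206)) (PT.lf (nat_lit 31236) (nat_lit 6) (nat_lit 411) (nat_lit 5) (nat_lit 165) (nat_lit 200)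 (nat_lit 205))) (PT.nd (nat_lit 78) (PT.lf (nat_lit 32604) (nat_lit 6) (nat_lit 429) (nat_lit 5) (nat_lit 166) (nat_lit 200) (nat_lit 204)) (PT.lf (nat_lit 34428) (nat_lit 6) (nat_lit 453) (nat_lit 5) (nat_lit 167) (nat_lit 200) (nat_lit 203))))) (PT.nd (nat_lit 312) (PT.nd (nat_lit 156) (PT.nd (nat_lit 78) (PT.lf (nat_lit 36176) (nat_lit 6) (nat_lit 476) (nat_lit 5) (nat_lit 168) (nat_lit 200) (nat_lit 202)) (PT.lf (nat_lit 37848) (nat_lit 6) (nat_lit 498) (nat_lit 5) (nat_lit 169) (nat_lit 200) (nat_lit 201))) (PT.nd (nat_lit 78) (PT.lf (nat_lit 39444) (nat_lit 3) (nat_lit 519) (nat_lit 4) (nat_lit 170) (nat_lit 200) (nat_lit 200)) (PT.lf (nat_lit 40888) (nat_lit 6) (nat_lit 538) (nat_lit 4) (nat_lit 171) (nat_lit 200) (nat_lit 199)))) (PT.nd (nat_lit 156) (PT.nd (nat_lit 78) (PT.lf (nat_lit 42256) (nat_lit 6) (nat_lit 556) (nat_lit 4) (nat_lit 172) (nat_lit 200) (nat_lit 198)) (PT.lf (nat_lit 43548) (nat_lit 6) (nat_lit 573)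 (nat_lit 4) (nat_lit 173) (nat_lit 200) (nat_lit 197))) (PT.nd (nat_lit 78) (PT.lf (nat_lit 44764) (nat_lit 6) (nat_lit 589) (nat_lit 4) (nat_lit 174) (nat_lit 200) (nat_lit 196)) (PT.lf (nat_lit 45904) (nat_lit 6) (nat_lit 604) (nat_lit 4) (nat_lit 175) (nat_lit 200) (nat_lit 195)))))) (PT.nd (nat_lit 624) (PT.nd (nat_lit 312) (PT.nd (nat_lit 156) (PT.nd (nat_lit 78) (PT.lf (nat_lit 46968) (nat_lit 6) (nat_lit 618) (nat_lit 4) (nat_lit 176) (nat_lit 200) (nat_lit 194)) (PT.lf (nat_lit 47956) (nat_lit 6) (nat_lit 631) (nat_lit 4) (nat_lit 177) (nat_lit 200) (nat_lit 193))) (PT.nd (nat_lit 78) (PT.lf (nat_lit 48868) (nat_lit 6) (nat_lit 643) (nat_lit 4) (nat_lit 178) (nat_lit 200) (nat_lit 192)) (PT.lf (nat_lit 49704) (nat_lit 6) (nat_lit 654) (nat_lit 4) (nat_lit 179) (nat_lit 200) (nat_lit 191)))) (PT.nd (nat_lit 156) (PT.nd (nat_lit 78) (PT.lf (nat_lit 50464) (nat_lit 6) (nat_lit 664) (nat_lit 4) (nat_lit 180) (nat_lit 200)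 (nat_lit 190)) (PT.lf (nat_lit 50388) (nat_lit 6) (nat_lit 663) (nat_lit 4) (nat_lit 181) (nat_lit 200) (nat_lit 189))) (PT.nd (nat_lit 78) (PT.lf (nat_lit 50312) (nat_lit 6) (nat_lit 662) (nat_lit 4) (nat_lit 182) (nat_lit 200) (nat_lit 188)) (PT.lf (nat_lit 50236) (nat_lit 6) (nat_lit 661) (nat_lit 4) (nat_lit 183) (nat_lit 200) (nat_lit 187))))) (PT.nd (nat_lit 312) (PT.nd (nat_lit 156) (PT.nd (nat_lit 78) (PT.lf (nat_lit 50160) (nat_lit 6) (nat_lit 660) (nat_lit 4) (nat_lit 184) (nat_lit 200) (nat_lit 186)) (PT.lf (nat_lit 50084) (nat_lit 3) (nat_lit 659) (nat_lit 2) (nat_lit 185) (nat_lit 200) (nat_lit 185))) (PT.nd (nat_lit 78) (PT.lf (nat_lit 50160) (nat_lit 6) (nat_lit 660) (nat_lit 2) (nat_lit 186) (nat_lit 200) (nat_lit 184)) (PT.lf (nat_lit 50236) (nat_lit 6) (nat_lit 661) (nat_lit 2) (nat_lit 187) (nat_lit 200) (nat_lit 183)))) (PT.nd (nat_lit 156) (PT.nd (nat_lit 78) (PT.lf (nat_lit 50312) (nat_lit 6) (nat_lit 662)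 (nat_lit 2) (nat_lit 188) (nat_lit 200) (nat_lit 182)) (PT.lf (nat_lit 50388) (nat_lit 6) (nat_lit 663) (nat_lit 2) (nat_lit 189) (nat_lit 200) (nat_lit 181))) (PT.nd (nat_lit 78) (PT.lf (nat_lit 50464) (nat_lit 6) (nat_lit 664) (nat_lit 2) (nat_lit 190) (nat_lit 200) (nat_lit 180)) (PT.lf (nat_lit 49704) (nat_lit 6) (nat_lit 654) (nat_lit 2) (nat_lit 191) (nat_lit 200) (nat_lit 179))))))))
noncomputable def pc35 : PT := (PT.nd (nat_lit 56628) (PT.nd (nat_lit 1170) (PT.nd (nat_lit 546) (PT.nd (nat_lit 234) (PT.nd (nat_lit 78) (PT.lf (nat_lit 48868) (nat_lit 6) (nat_lit 643) (nat_lit 2) (nat_lit 192) (nat_lit 200) (nat_lit 178)) (PT.nd (nat_lit 78) (PT.lf (nat_lit 47956) (nat_lit 6) (nat_lit 631) (nat_lit 2) (nat_lit 193) (nat_lit 200) (nat_lit 177)) (PT.lf (nat_lit 46968) (nat_lit 6) (nat_lit 618) (nat_lit 2) (nat_lit 194) (nat_lit 200) (nat_lit 176)))) (PT.nd (nat_lit 156) (PT.nd (nat_lit 78) (PT.lf (nat_lit 45904) (nat_lit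 6) (nat_lit 604) (nat_lit 2) (nat_lit 195) (nat_lit 200) (nat_lit 175)) (PT.lf (nat_lit 44764) (nat_lit 6) (nat_lit 589) (nat_lit 2) (nat_lit 196) (nat_lit 200) (nat_lit 174))) (PT.nd (nat_lit 78) (PT.lf (nat_lit 43548) (nat_lit 6) (nat_lit 573) (nat_lit 2) (nat_lit 197) (nat_lit 200) (nat_lit 173)) (PT.lf (nat_lit 42256) (nat_lit 6) (nat_lit 556) (nat_lit 2) (nat_lit 198) (nat_lit 200) (nat_lit 172))))) (PT.nd (nat_lit 312) (PT.nd (nat_lit 156) (PT.nd (nat_lit 78) (PT.lf (nat_lit 40888) (nat_lit 6) (nat_lit 538) (nat_lit 2) (nat_lit 199) (nat_lit 200) (nat_lit 171)) (PT.lf (nat_lit 39444) (nat_lit 3) (nat_lit 519) (nat_lit 0) (nat_lit 200) (nat_lit 200) (nat_lit 170))) (PT.nd (nat_lit 78) (PT.lf (nat_lit 37848) (nat_lit 6) (nat_lit 498) (nat_lit 0) (nat_lit 201) (nat_lit 200) (nat_lit 169)) (PT.lf (nat_lit 36176) (nat_lit 6) (nat_lit 476) (nat_lit 0) (nat_lit 202) (nat_lit 200) (nat_lit 168)))) (PT.nd (nat_lit 156) (PT.nd (nat_lit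 78) (PT.lf (nat_lit 34428) (nat_lit 6) (nat_lit 453) (nat_lit 0) (nat_lit 203) (nat_lit 200) (nat_lit 167)) (PT.lf (nat_lit 32604) (nat_lit 6) (nat_lit 429) (nat_lit 0) (nat_lit 204) (nat_lit 200) (nat_lit 166))) (PT.nd (nat_lit 78) (PT.lf (nat_lit 31236) (nat_lit 6) (nat_lit 411) (nat_lit 0) (nat_lit 205) (nat_lit 200) (nat_lit 165)) (PT.lf (nat_lit 30248) (nat_lit 6) (nat_lit 398) (nat_lit 0) (nat_lit 206) (nat_lit 200) (nat_lit 164)))))) (PT.nd (nat_lit 624) (PT.nd (nat_lit 312) (PT.nd (nat_lit 156) (PT.nd (nat_lit 78) (PT.lf (nat_lit 29336) (nat_lit 6) (nat_lit 386) (nat_lit 0) (nat_lit 207) (nat_lit 200) (nat_lit 163)) (PT.lf (nat_lit 28348) (nat_lit 6) (nat_lit 373) (nat_lit 0) (nat_lit 208) (nat_lit 200) (nat_lit 162))) (PT.nd (nat_lit 78) (PT.lf (nat_lit 27436) (nat_lit 6) (nat_lit 361) (nat_lit 0) (nat_lit 209) (nat_lit 200) (nat_lit 161)) (PT.lf (nat_lit 26524) (nat_lit 6) (nat_lit 349) (nat_lit 0) (nat_lit 210) (nat_lit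 200) (nat_lit 160)))) (PT.nd (nat_lit 156) (PT.nd (nat_lit 78) (PT.lf (nat_lit 25688) (nat_lit 6) (nat_lit 338) (nat_lit 0) (nat_lit 211) (nat_lit 200) (nat_lit 159)) (PT.lf (nat_lit 24852) (nat_lit 6) (nat_lit 327) (nat_lit 0) (nat_lit 212) (nat_lit 200) (nat_lit 158))) (PT.nd (nat_lit 78) (PT.lf (nat_lit 24016) (nat_lit 6) (nat_lit 316) (nat_lit 0) (nat_lit 213) (nat_lit 200) (nat_lit 157)) (PT.lf (nat_lit 23180) (nat_lit 6) (nat_lit 305) (nat_lit 0) (nat_lit 214) (nat_lit 200) (nat_lit 156))))) (PT.nd (nat_lit 54522) (PT.nd (nat_lit 156) (PT.nd (nat_lit 78) (PT.lf (nat_lit 22420) (nat_lit 6) (nat_lit 295) (nat_lit 0) (nat_lit 215) (nat_lit 200) (nat_lit 155)) (PT.lf (nat_lit 21660) (nat_lit 6) (nat_lit 285) (nat_lit 0) (nat_lit 216) (nat_lit 200) (nat_lit 154))) (PT.nd (nat_lit 54288) (PT.lf (nat_lit 20900) (nat_lit 6) (nat_lit 275) (nat_lit 0) (nat_lit 217) (nat_lit 200) (nat_lit 153)) (PT.lf (nat_lit 20216) (nat_lit 6)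 (nat_lit 266) (nat_lit 5) (nat_lit 152) (nat_lit 201) (nat_lit 217)))) (PT.nd (nat_lit 156) (PT.nd (nat_lit 78) (PT.lf (nat_lit 20976) (nat_lit 6) (nat_lit 276) (nat_lit 5) (nat_lit 153) (nat_lit 201) (nat_lit 216)) (PT.lf (nat_lit 21736) (nat_lit 6) (nat_lit 286) (nat_lit 5) (nat_lit 154) (nat_lit 201) (nat_lit 215))) (PT.nd (nat_lit 78) (PT.lf (nat_lit 22496) (nat_lit 6) (nat_lit 296) (nat_lit 5) (nat_lit 155) (nat_lit 201) (nat_lit 214)) (PT.lf (nat_lit 23256) (nat_lit 6) (nat_lit 306) (nat_lit 5) (nat_lit 156) (nat_lit 201) (nat_lit 213))))))) (PT.nd (nat_lit 1248) (PT.nd (nat_lit 624) (PT.nd (nat_lit 312) (PT.nd (nat_lit 156) (PT.nd (nat_lit 78) (PT.lf (nat_lit 24092) (nat_lit 6) (nat_lit 317) (nat_lit 5) (nat_lit 157) (nat_lit 201) (nat_lit 212)) (PT.lf (nat_lit 24928) (nat_lit 6) (nat_lit 328) (nat_lit 5) (nat_lit 158) (nat_lit 201) (nat_lit 211))) (PT.nd (nat_lit 78) (PT.lf (nat_lit 25764) (nat_lit 6) (nat_lit 339) (nat_lit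 5) (nat_lit 159) (nat_lit 201) (nat_lit 210)) (PT.lf (nat_lit 26600) (nat_lit 6) (nat_lit 350) (nat_lit 5) (nat_lit 160) (nat_lit 201) (nat_lit 209)))) (PT.nd (nat_lit 156) (PT.nd (nat_lit 78) (PT.lf (nat_lit 27512) (nat_lit 6) (nat_lit 362) (nat_lit 5) (nat_lit 161) (nat_lit 201) (nat_lit 208)) (PT.lf (nat_lit 28424) (nat_lit 6) (nat_lit 374) (nat_lit 5) (nat_lit 162) (nat_lit 201) (nat_lit 207))) (PT.nd (nat_lit 78) (PT.lf (nat_lit 29412) (nat_lit 6) (nat_lit 387) (nat_lit 5) (nat_lit 163) (nat_lit 201) (nat_lit 206)) (PT.lf (nat_lit 30324) (nat_lit 6) (nat_lit 399) (nat_lit 5) (nat_lit 164) (nat_lit 201) (nat_lit 205))))) (PT.nd (nat_lit 312) (PT.nd (nat_lit 156) (PT.nd (nat_lit 78) (PT.lf (nat_lit 31312) (nat_lit 6) (nat_lit 412) (nat_lit 5) (nat_lit 165) (nat_lit 201) (nat_lit 204)) (PT.lf (nat_lit 32680) (nat_lit 6) (nat_lit 430) (nat_lit 5) (nat_lit 166) (nat_lit 201) (nat_lit 203))) (PT.nd (nat_lit 78) (PT.lf (nat_lit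 34504) (nat_lit 6) (nat_lit 454) (nat_lit 5) (nat_lit 167) (nat_lit 201) (nat_lit 202)) (PT.lf (nat_lit 36252) (nat_lit 3) (nat_lit 477) (nat_lit 4) (nat_lit 168) (nat_lit 201) (nat_lit 201)))) (PT.nd (nat_lit 156) (PT.nd (nat_lit 78) (PT.lf (nat_lit 37848) (nat_lit 6) (nat_lit 498) (nat_lit 4) (nat_lit 169) (nat_lit 201) (nat_lit 200)) (PT.lf (nat_lit 39368) (nat_lit 6) (nat_lit 518) (nat_lit 4) (nat_lit 170) (nat_lit 201) (nat_lit 199))) (PT.nd (nat_lit 78) (PT.lf (nat_lit 40812) (nat_lit 6) (nat_lit 537) (nat_lit 4) (nat_lit 171) (nat_lit 201) (nat_lit 198)) (PT.lf (nat_lit 42180) (nat_lit 6) (nat_lit 555) (nat_lit 4) (nat_lit 172) (nat_lit 201) (nat_lit 197)))))) (PT.nd (nat_lit 624) (PT.nd (nat_lit 312) (PT.nd (nat_lit 156) (PT.nd (nat_lit 78) (PT.lf (nat_lit 43472) (nat_lit 6) (nat_lit 572) (nat_lit 4) (nat_lit 173) (nat_lit 201) (nat_lit 196)) (PT.lf (nat_lit 44688) (nat_lit 6) (nat_lit 588) (nat_lit 4) (nat_lit 174)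 (nat_lit 201) (nat_lit 195))) (PT.nd (nat_lit 78) (PT.lf (nat_lit 45828) (nat_lit 6) (nat_lit 603) (nat_lit 4) (nat_lit 175) (nat_lit 201) (nat_lit 194)) (PT.lf (nat_lit 46892) (nat_lit 6) (nat_lit 617) (nat_lit 4) (nat_lit 176) (nat_lit 201) (nat_lit 193)))) (PT.nd (nat_lit 156) (PT.nd (nat_lit 78) (PT.lf (nat_lit 47880) (nat_lit 6) (nat_lit 630) (nat_lit 4) (nat_lit 177) (nat_lit 201) (nat_lit 192)) (PT.lf (nat_lit 48792) (nat_lit 6) (nat_lit 642) (nat_lit 4) (nat_lit 178) (nat_lit 201) (nat_lit 191))) (PT.nd (nat_lit 78) (PT.lf (nat_lit 49628) (nat_lit 6) (nat_lit 653) (nat_lit 4) (nat_lit 179) (nat_lit 201) (nat_lit 190)) (PT.lf (nat_lit 49552) (nat_lit 6) (nat_lit 652) (nat_lit 4) (nat_lit 180) (nat_lit 201) (nat_lit 189))))) (PT.nd (nat_lit 312) (PT.nd (nat_lit 156) (PT.nd (nat_lit 78) (PT.lf (nat_lit 49476) (nat_lit 6) (nat_lit 651) (nat_lit 4) (nat_lit 181) (nat_lit 201) (nat_lit 188)) (PT.lf (nat_lit 49400) (nat_lit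 6) (nat_lit 650) (nat_lit 4) (nat_lit 182) (nat_lit 201) (nat_lit 187))) (PT.nd (nat_lit 78) (PT.lf (nat_lit 49324) (nat_lit 6) (nat_lit 649) (nat_lit 4) (nat_lit 183) (nat_lit 201) (nat_lit 186)) (PT.lf (nat_lit 49248) (nat_lit 6) (nat_lit 648) (nat_lit 4) (nat_lit 184) (nat_lit 201) (nat_lit 185)))) (PT.nd (nat_lit 156) (PT.nd (nat_lit 78) (PT.lf (nat_lit 49248) (nat_lit 6) (nat_lit 648) (nat_lit 2) (nat_lit 185) (nat_lit 201) (nat_lit 184)) (PT.lf (nat_lit 49324) (nat_lit 6) (nat_lit 649) (nat_lit 2) (nat_lit 186) (nat_lit 201) (nat_lit 183))) (PT.nd (nat_lit 78) (PT.lf (nat_lit 49400) (nat_lit 6) (nat_lit 650) (nat_lit 2) (nat_lit 187) (nat_lit 201) (nat_lit 182)) (PT.lf (nat_lit 49476) (nat_lit 6) (nat_lit 651) (nat_lit 2) (nat_lit 188) (nat_lit 201) (nat_lit 181))))))))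
noncomputable def pc36 : PT := (PT.nd (nat_lit 56550) (PT.nd (nat_lit 1170) (PT.nd (nat_lit 546) (PT.nd (nat_lit 234) (PT.nd (nat_lit 78) (PT.lf (nat_lit 49552) (nat_lit 6) (nat_lit 652) (nat_lit 2) (nat_lit 189) (nat_lit 201) (nat_lit 180)) (PT.nd (nat_lit 78) (PT.lf (nat_lit 49628) (nat_lit 6) (nat_lit 653) (nat_lit 2) (nat_lit 190) (nat_lit 201) (nat_lit 179)) (PT.lf (nat_lit 48792) (nat_lit 6) (nat_lit 642) (nat_lit 2) (nat_lit 191) (nat_lit 201) (nat_lit 178)))) (PT.nd (nat_lit 156) (PT.nd (nat_lit 78) (PT.lf (nat_lit 47880) (nat_lit 6) (nat_lit 630) (nat_lit 2) (nat_lit 192) (nat_lit 201) (nat_lit 177)) (PT.lf (nat_lit 46892) (nat_lit 6) (nat_lit 617) (nat_lit 2) (nat_lit 193) (nat_lit 201) (nat_lit 176))) (PT.nd (nat_lit 78) (PT.lf (nat_lit 45828) (nat_lit 6) (nat_lit 603) (nat_lit 2) (nat_lit 194) (nat_lit 201) (nat_lit 175)) (PT.lf (nat_lit 44688) (nat_lit 6) (nat_lit 588) (nat_lit 2) (nat_lit 195) (nat_lit 201) (nat_lit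 174))))) (PT.nd (nat_lit 312) (PT.nd (nat_lit 156) (PT.nd (nat_lit 78) (PT.lf (nat_lit 43472) (nat_lit 6) (nat_lit 572) (nat_lit 2) (nat_lit 196) (nat_lit 201) (nat_lit 173)) (PT.lf (nat_lit 42180) (nat_lit 6) (nat_lit 555) (nat_lit 2) (nat_lit 197) (nat_lit 201) (nat_lit 172))) (PT.nd (nat_lit 78) (PT.lf (nat_lit 40812) (nat_lit 6) (nat_lit 537) (nat_lit 2) (nat_lit 198) (nat_lit 201) (nat_lit 171)) (PT.lf (nat_lit 39368) (nat_lit 6) (nat_lit 518) (nat_lit 2) (nat_lit 199) (nat_lit 201) (nat_lit 170)))) (PT.nd (nat_lit 156) (PT.nd (nat_lit 78) (PT.lf (nat_lit 37848) (nat_lit 6) (nat_lit 498) (nat_lit 2) (nat_lit 200) (nat_lit 201) (nat_lit 169)) (PT.lf (nat_lit 36252) (nat_lit 3) (nat_lit 477) (nat_lit 0) (nat_lit 201) (nat_lit 201) (nat_lit 168))) (PT.nd (nat_lit 78) (PT.lf (nat_lit 34504) (nat_lit 6) (nat_lit 454) (nat_lit 0) (nat_lit 202) (nat_lit 201) (nat_lit 167)) (PT.lf (nat_lit 32680) (nat_lit 6) (nat_lit 430) (nat_lit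 0) (nat_lit 203) (nat_lit 201) (nat_lit 166)))))) (PT.nd (nat_lit 624) (PT.nd (nat_lit 312) (PT.nd (nat_lit 156) (PT.nd (nat_lit 78) (PT.lf (nat_lit 31312) (nat_lit 6) (nat_lit 412) (nat_lit 0) (nat_lit 204) (nat_lit 201) (nat_lit 165)) (PT.lf (nat_lit 30324) (nat_lit 6) (nat_lit 399) (nat_lit 0) (nat_lit 205) (nat_lit 201) (nat_lit 164))) (PT.nd (nat_lit 78) (PT.lf (nat_lit 29412) (nat_lit 6) (nat_lit 387) (nat_lit 0) (nat_lit 206) (nat_lit 201) (nat_lit 163)) (PT.lf (nat_lit 28424) (nat_lit 6) (nat_lit 374) (nat_lit 0) (nat_lit 207) (nat_lit 201) (nat_lit 162)))) (PT.nd (nat_lit 156) (PT.nd (nat_lit 78) (PT.lf (nat_lit 27512) (nat_lit 6) (nat_lit 362) (nat_lit 0) (nat_lit 208) (nat_lit 201) (nat_lit 161)) (PT.lf (nat_lit 26600) (nat_lit 6) (nat_lit 350) (nat_lit 0) (nat_lit 209) (nat_lit 201) (nat_lit 160))) (PT.nd (nat_lit 78) (PT.lf (nat_lit 25764) (nat_lit 6) (nat_lit 339) (nat_lit 0) (nat_lit 210) (nat_lit 201) (nat_lit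 159)) (PT.lf (nat_lit 24928) (nat_lit 6) (nat_lit 328) (nat_lit 0) (nat_lit 211) (nat_lit 201) (nat_lit 158))))) (PT.nd (nat_lit 312) (PT.nd (nat_lit 156) (PT.nd (nat_lit 78) (PT.lf (nat_lit 24092) (nat_lit 6) (nat_lit 317) (nat_lit 0) (nat_lit 212) (nat_lit 201) (nat_lit 157)) (PT.lf (nat_lit 23256) (nat_lit 6) (nat_lit 306) (nat_lit 0) (nat_lit 213) (nat_lit 201) (nat_lit 156))) (PT.nd (nat_lit 78) (PT.lf (nat_lit 22496) (nat_lit 6) (nat_lit 296) (nat_lit 0) (nat_lit 214) (nat_lit 201) (nat_lit 155)) (PT.lf (nat_lit 21736) (nat_lit 6) (nat_lit 286) (nat_lit 0) (nat_lit 215) (nat_lit 201) (nat_lit 154)))) (PT.nd (nat_lit 54288) (PT.nd (nat_lit 78) (PT.lf (nat_lit 20976) (nat_lit 6) (nat_lit 276) (nat_lit 0) (nat_lit 216) (nat_lit 201) (nat_lit 153)) (PT.lf (nat_lit 20216) (nat_lit 6) (nat_lit 266) (nat_lit 0) (nat_lit 217) (nat_lit 201) (nat_lit 152))) (PT.nd (nat_lit 78) (PT.lf (nat_lit 19608) (nat_lit 6) (nat_lit 258) (nat_lit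 5) (nat_lit 151) (nat_lit 202) (nat_lit 217)) (PT.lf (nat_lit 20292) (nat_lit 6) (nat_lit 267) (nat_lit 5) (nat_lit 152) (nat_lit 202) (nat_lit 216))))))) (PT.nd (nat_lit 1248) (PT.nd (nat_lit 624) (PT.nd (nat_lit 312) (PT.nd (nat_lit 156) (PT.nd (nat_lit 78) (PT.lf (nat_lit 21052) (nat_lit 6) (nat_lit 277) (nat_lit 5) (nat_lit 153) (nat_lit 202) (nat_lit 215)) (PT.lf (nat_lit 21812) (nat_lit 6) (nat_lit 287) (nat_lit 5) (nat_lit 154) (nat_lit 202) (nat_lit 214))) (PT.nd (nat_lit 78) (PT.lf (nat_lit 22572) (nat_lit 6) (nat_lit 297) (nat_lit 5) (nat_lit 155) (nat_lit 202) (nat_lit 213)) (PT.lf (nat_lit 23332) (nat_lit 6) (nat_lit 307) (nat_lit 5) (nat_lit 156) (nat_lit 202) (nat_lit 212)))) (PT.nd (nat_lit 156) (PT.nd (nat_lit 78) (PT.lf (nat_lit 24168) (nat_lit 6) (nat_lit 318) (nat_lit 5) (nat_lit 157) (nat_lit 202) (nat_lit 211)) (PT.lf (nat_lit 25004) (nat_lit 6) (nat_lit 329) (nat_lit 5) (nat_lit 158) (nat_lit 202) (nat_lit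 210))) (PT.nd (nat_lit 78) (PT.lf (nat_lit 25840) (nat_lit 6) (nat_lit 340) (nat_lit 5) (nat_lit 159) (nat_lit 202) (nat_lit 209)) (PT.lf (nat_lit 26676) (nat_lit 6) (nat_lit 351) (nat_lit 5) (nat_lit 160) (nat_lit 202) (nat_lit 208))))) (PT.nd (nat_lit 312) (PT.nd (nat_lit 156) (PT.nd (nat_lit 78) (PT.lf (nat_lit 27588) (nat_lit 6) (nat_lit 363) (nat_lit 5) (nat_lit 161) (nat_lit 202) (nat_lit 207)) (PT.lf (nat_lit 28500) (nat_lit 6) (nat_lit 375) (nat_lit 5) (nat_lit 162) (nat_lit 202) (nat_lit 206))) (PT.nd (nat_lit 78) (PT.lf (nat_lit 29488) (nat_lit 6) (nat_lit 388) (nat_lit 5) (nat_lit 163) (nat_lit 202) (nat_lit 205)) (PT.lf (nat_lit 30400) (nat_lit 6) (nat_lit 400) (nat_lit 5) (nat_lit 164) (nat_lit 202) (nat_lit 204)))) (PT.nd (nat_lit 156) (PT.nd (nat_lit 78) (PT.lf (nat_lit 31388) (nat_lit 6) (nat_lit 413) (nat_lit 5) (nat_lit 165) (nat_lit 202) (nat_lit 203)) (PT.lf (nat_lit 32756) (nat_lit 3) (nat_lit 431) (nat_lit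 4) (nat_lit 166) (nat_lit 202) (nat_lit 202))) (PT.nd (nat_lit 78) (PT.lf (nat_lit 34504) (nat_lit 6) (nat_lit 454) (nat_lit 4) (nat_lit 167) (nat_lit 202) (nat_lit 201)) (PT.lf (nat_lit 36176) (nat_lit 6) (nat_lit 476) (nat_lit 4) (nat_lit 168) (nat_lit 202) (nat_lit 200)))))) (PT.nd (nat_lit 624) (PT.nd (nat_lit 312) (PT.nd (nat_lit 156) (PT.nd (nat_lit 78) (PT.lf (nat_lit 37772) (nat_lit 6) (nat_lit 497) (nat_lit 4) (nat_lit 169) (nat_lit 202) (nat_lit 199)) (PT.lf (nat_lit 39292) (nat_lit 6) (nat_lit 517) (nat_lit 4) (nat_lit 170) (nat_lit 202) (nat_lit 198))) (PT.nd (nat_lit 78) (PT.lf (nat_lit 40736) (nat_lit 6) (nat_lit 536) (nat_lit 4) (nat_lit 171) (nat_lit 202) (nat_lit 197)) (PT.lf (nat_lit 42104) (nat_lit 6) (nat_lit 554) (nat_lit 4) (nat_lit 172) (nat_lit 202) (nat_lit 196)))) (PT.nd (nat_lit 156) (PT.nd (nat_lit 78) (PT.lf (nat_lit 43396) (nat_lit 6) (nat_lit 571) (nat_lit 4) (nat_lit 173) (nat_lit 202) (nat_lit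 195)) (PT.lf (nat_lit 44612) (nat_lit 6) (nat_lit 587) (nat_lit 4) (nat_lit 174) (nat_lit 202) (nat_lit 194))) (PT.nd (nat_lit 78) (PT.lf (nat_lit 45752) (nat_lit 6) (nat_lit 602) (nat_lit 4) (nat_lit 175) (nat_lit 202) (nat_lit 193)) (PT.lf (nat_lit 46816) (nat_lit 6) (nat_lit 616) (nat_lit 4) (nat_lit 176) (nat_lit 202) (nat_lit 192))))) (PT.nd (nat_lit 312) (PT.nd (nat_lit 156) (PT.nd (nat_lit 78) (PT.lf (nat_lit 47804) (nat_lit 6) (nat_lit 629) (nat_lit 4) (nat_lit 177) (nat_lit 202) (nat_lit 191)) (PT.lf (nat_lit 48716) (nat_lit 6) (nat_lit 641) (nat_lit 4) (nat_lit 178) (nat_lit 202) (nat_lit 190))) (PT.nd (nat_lit 78) (PT.lf (nat_lit 48640) (nat_lit 6) (nat_lit 640) (nat_lit 4) (nat_lit 179) (nat_lit 202) (nat_lit 189)) (PT.lf (nat_lit 48564) (nat_lit 6) (nat_lit 639) (nat_lit 4) (nat_lit 180) (nat_lit 202) (nat_lit 188)))) (PT.nd (nat_lit 156) (PT.nd (nat_lit 78) (PT.lf (nat_lit 48488) (nat_lit 6) (nat_lit 638) (nat_lit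 4) (nat_lit 181) (nat_lit 202) (nat_lit 187)) (PT.lf (nat_lit 48412) (nat_lit 6) (nat_lit 637) (nat_lit 4) (nat_lit 182) (nat_lit 202) (nat_lit 186))) (PT.nd (nat_lit 78) (PT.lf (nat_lit 48336) (nat_lit 6) (nat_lit 636) (nat_lit 4) (nat_lit 183) (nat_lit 202) (nat_lit 185)) (PT.lf (nat_lit 48260) (nat_lit 3) (nat_lit 635) (nat_lit 2) (nat_lit 184) (nat_lit 202) (nat_lit 184))))))))
noncomputable def pc37 : PT := (PT.nd (nat_lit 2418) (PT.nd (nat_lit 1170) (PT.nd (nat_lit 546) (PT.nd (nat_lit 234) (PT.nd (nat_lit 78) (PT.lf (nat_lit 48336) (nat_lit 6) (nat_lit 636) (nat_lit 2) (nat_lit 185) (nat_lit 202) (nat_lit 183)) (PT.nd (nat_lit 78) (PT.lf (nat_lit 48412) (nat_lit 6) (nat_lit 637) (nat_lit 2) (nat_lit 186) (nat_lit 202) (nat_lit 182)) (PT.lf (nat_lit 48488) (nat_lit 6) (nat_lit 638) (nat_lit 2) (nat_lit 187) (nat_lit 202) (nat_lit 181)))) (PT.nd (nat_lit 156) (PT.nd (nat_lit 78) (PT.lf (nat_lit 48564) (nat_lit 6) (nat_lit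 639) (nat_lit 2) (nat_lit 188) (nat_lit 202) (nat_lit 180)) (PT.lf (nat_lit 48640) (nat_lit 6) (nat_lit 640) (nat_lit 2) (nat_lit 189) (nat_lit 202) (nat_lit 179))) (PT.nd (nat_lit 78) (PT.lf (nat_lit 48716) (nat_lit 6) (nat_lit 641) (nat_lit 2) (nat_lit 190) (nat_lit 202) (nat_lit 178)) (PT.lf (nat_lit 47804) (nat_lit 6) (nat_lit 629) (nat_lit 2) (nat_lit 191) (nat_lit 202) (nat_lit 177))))) (PT.nd (nat_lit 312) (PT.nd (nat_lit 156) (PT.nd (nat_lit 78) (PT.lf (nat_lit 46816) (nat_lit 6) (nat_lit 616) (nat_lit 2) (nat_lit 192) (nat_lit 202) (nat_lit 176)) (PT.lf (nat_lit 45752) (nat_lit 6) (nat_lit 602) (nat_lit 2) (nat_lit 193) (nat_lit 202) (nat_lit 175))) (PT.nd (nat_lit 78) (PT.lf (nat_lit 44612) (nat_lit 6) (nat_lit 587) (nat_lit 2) (nat_lit 194) (nat_lit 202) (nat_lit 174)) (PT.lf (nat_lit 43396) (nat_lit 6) (nat_lit 571) (nat_lit 2) (nat_lit 195) (nat_lit 202) (nat_lit 173)))) (PT.nd (nat_lit 156) (PT.nd (nat_lit 78)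 (PT.lf (nat_lit 42104) (nat_lit 6) (nat_lit 554) (nat_lit 2) (nat_lit 196) (nat_lit 202) (nat_lit 172)) (PT.lf (nat_lit 40736) (nat_lit 6) (nat_lit 536) (nat_lit 2) (nat_lit 197) (nat_lit 202) (nat_lit 171))) (PT.nd (nat_lit 78) (PT.lf (nat_lit 39292) (nat_lit 6) (nat_lit 517) (nat_lit 2) (nat_lit 198) (nat_lit 202) (nat_lit 170)) (PT.lf (nat_lit 37772) (nat_lit 6) (nat_lit 497) (nat_lit 2) (nat_lit 199) (nat_lit 202) (nat_lit 169)))))) (PT.nd (nat_lit 624) (PT.nd (nat_lit 312) (PT.nd (nat_lit 156) (PT.nd (nat_lit 78) (PT.lf (nat_lit 36176) (nat_lit 6) (nat_lit 476) (nat_lit 2) (nat_lit 200) (nat_lit 202) (nat_lit 168)) (PT.lf (nat_lit 34504) (nat_lit 6) (nat_lit 454) (nat_lit 2) (nat_lit 201) (nat_lit 202) (nat_lit 167))) (PT.nd (nat_lit 78) (PT.lf (nat_lit 32756) (nat_lit 3) (nat_lit 431) (nat_lit 0) (nat_lit 202) (nat_lit 202) (nat_lit 166)) (PT.lf (nat_lit 31388) (nat_lit 6) (nat_lit 413) (nat_lit 0) (nat_lit 203) (nat_lit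 202) (nat_lit 165)))) (PT.nd (nat_lit 156) (PT.nd (nat_lit 78) (PT.lf (nat_lit 30400) (nat_lit 6) (nat_lit 400) (nat_lit 0) (nat_lit 204) (nat_lit 202) (nat_lit 164)) (PT.lf (nat_lit 29488) (nat_lit 6) (nat_lit 388) (nat_lit 0) (nat_lit 205) (nat_lit 202) (nat_lit 163))) (PT.nd (nat_lit 78) (PT.lf (nat_lit 28500) (nat_lit 6) (nat_lit 375) (nat_lit 0) (nat_lit 206) (nat_lit 202) (nat_lit 162)) (PT.lf (nat_lit 27588) (nat_lit 6) (nat_lit 363) (nat_lit 0) (nat_lit 207) (nat_lit 202) (nat_lit 161))))) (PT.nd (nat_lit 312) (PT.nd (nat_lit 156) (PT.nd (nat_lit 78) (PT.lf (nat_lit 26676) (nat_lit 6) (nat_lit 351) (nat_lit 0) (nat_lit 208) (nat_lit 202) (nat_lit 160)) (PT.lf (nat_lit 25840) (nat_lit 6) (nat_lit 340) (nat_lit 0) (nat_lit 209) (nat_lit 202) (nat_lit 159))) (PT.nd (nat_lit 78) (PT.lf (nat_lit 25004) (nat_lit 6) (nat_lit 329) (nat_lit 0) (nat_lit 210) (nat_lit 202) (nat_lit 158)) (PT.lf (nat_lit 24168) (nat_lit 6) (nat_lit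 318) (nat_lit 0) (nat_lit 211) (nat_lit 202) (nat_lit 157)))) (PT.nd (nat_lit 156) (PT.nd (nat_lit 78) (PT.lf (nat_lit 23332) (nat_lit 6) (nat_lit 307) (nat_lit 0) (nat_lit 212) (nat_lit 202) (nat_lit 156)) (PT.lf (nat_lit 22572) (nat_lit 6) (nat_lit 297) (nat_lit 0) (nat_lit 213) (nat_lit 202) (nat_lit 155))) (PT.nd (nat_lit 78) (PT.lf (nat_lit 21812) (nat_lit 6) (nat_lit 287) (nat_lit 0) (nat_lit 214) (nat_lit 202) (nat_lit 154)) (PT.lf (nat_lit 21052) (nat_lit 6) (nat_lit 277) (nat_lit 0) (nat_lit 215) (nat_lit 202) (nat_lit 153))))))) (PT.nd (nat_lit 55224) (PT.nd (nat_lit 54600) (PT.nd (nat_lit 54288) (PT.nd (nat_lit 54132) (PT.nd (nat_lit 78) (PT.lf (nat_lit 20292) (nat_lit 6) (nat_lit 267) (nat_lit 0) (nat_lit 216) (nat_lit 202) (nat_lit 152)) (PT.lf (nat_lit 19608) (nat_lit 6) (nat_lit 258) (nat_lit 0) (nat_lit 217) (nat_lit 202) (nat_lit 151))) (PT.nd (nat_lit 78) (PT.lf (nat_lit 18316) (nat_lit 6) (nat_lit 241) (nat_lit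 5) (nat_lit 149) (nat_lit 203) (nat_lit 218)) (PT.lf (nat_lit 19000) (nat_lit 6) (nat_lit 250) (nat_lit 5) (nat_lit 150) (nat_lit 203) (nat_lit 217)))) (PT.nd (nat_lit 156) (PT.nd (nat_lit 78) (PT.lf (nat_lit 19684) (nat_lit 6) (nat_lit 259) (nat_lit 5) (nat_lit 151) (nat_lit 203) (nat_lit 216)) (PT.lf (nat_lit 20368) (nat_lit 6) (nat_lit 268) (nat_lit 5) (nat_lit 152) (nat_lit 203) (nat_lit 215))) (PT.nd (nat_lit 78) (PT.lf (nat_lit 21128) (nat_lit 6) (nat_lit 278) (nat_lit 5) (nat_lit 153) (nat_lit 203) (nat_lit 214)) (PT.lf (nat_lit 21888) (nat_lit 6) (nat_lit 288) (nat_lit 5) (nat_lit 154) (nat_lit 203) (nat_lit 213))))) (PT.nd (nat_lit 312) (PT.nd (nat_lit 156) (PT.nd (nat_lit 78) (PT.lf (nat_lit 22648) (nat_lit 6) (nat_lit 298) (nat_lit 5) (nat_lit 155) (nat_lit 203) (nat_lit 212)) (PT.lf (nat_lit 23408) (nat_lit 6) (nat_lit 308) (nat_lit 5) (nat_lit 156) (nat_lit 203) (nat_lit 211))) (PT.nd (nat_lit 78) (PT.lf (nat_lit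 24244) (nat_lit 6) (nat_lit 319) (nat_lit 5) (nat_lit 157) (nat_lit 203) (nat_lit 210)) (PT.lf (nat_lit 25080) (nat_lit 6) (nat_lit 330) (nat_lit 5) (nat_lit 158) (nat_lit 203) (nat_lit 209)))) (PT.nd (nat_lit 156) (PT.nd (nat_lit 78) (PT.lf (nat_lit 25916) (nat_lit 6) (nat_lit 341) (nat_lit 5) (nat_lit 159) (nat_lit 203) (nat_lit 208)) (PT.lf (nat_lit 26752) (nat_lit 6) (nat_lit 352) (nat_lit 5) (nat_lit 160) (nat_lit 203) (nat_lit 207))) (PT.nd (nat_lit 78) (PT.lf (nat_lit 27664) (nat_lit 6) (nat_lit 364) (nat_lit 5) (nat_lit 161) (nat_lit 203) (nat_lit 206)) (PT.lf (nat_lit 28576) (nat_lit 6) (nat_lit 376) (nat_lit 5) (nat_lit 162) (nat_lit 203) (nat_lit 205)))))) (PT.nd (nat_lit 624) (PT.nd (nat_lit 312) (PT.nd (nat_lit 156) (PT.nd (nat_lit 78) (PT.lf (nat_lit 29564) (nat_lit 6) (nat_lit 389) (nat_lit 5) (nat_lit 163) (nat_lit 203) (nat_lit 204)) (PT.lf (nat_lit 30476) (nat_lit 3) (nat_lit 401) (nat_lit 4) (nat_lit 164)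 (nat_lit 203) (nat_lit 203))) (PT.nd (nat_lit 78) (PT.lf (nat_lit 31388) (nat_lit 6) (nat_lit 413) (nat_lit 4) (nat_lit 165) (nat_lit 203) (nat_lit 202)) (PT.lf (nat_lit 32680) (nat_lit 6) (nat_lit 430) (nat_lit 4) (nat_lit 166) (nat_lit 203) (nat_lit 201)))) (PT.nd (nat_lit 156) (PT.nd (nat_lit 78) (PT.lf (nat_lit 34428) (nat_lit 6) (nat_lit 453) (nat_lit 4) (nat_lit 167) (nat_lit 203) (nat_lit 200)) (PT.lf (nat_lit 36100) (nat_lit 6) (nat_lit 475) (nat_lit 4) (nat_lit 168) (nat_lit 203) (nat_lit 199))) (PT.nd (nat_lit 78) (PT.lf (nat_lit 37696) (nat_lit 6) (nat_lit 496) (nat_lit 4) (nat_lit 169) (nat_lit 203) (nat_lit 198)) (PT.lf (nat_lit 39216) (nat_lit 6) (nat_lit 516) (nat_lit 4) (nat_lit 170) (nat_lit 203) (nat_lit 197))))) (PT.nd (nat_lit 312) (PT.nd (nat_lit 156) (PT.nd (nat_lit 78) (PT.lf (nat_lit 40660) (nat_lit 6) (nat_lit 535) (nat_lit 4) (nat_lit 171) (nat_lit 203) (nat_lit 196)) (PT.lf (nat_lit 42028) (nat_lit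 6) (nat_lit 553) (nat_lit 4) (nat_lit 172) (nat_lit 203) (nat_lit 195))) (PT.nd (nat_lit 78) (PT.lf (nat_lit 43320) (nat_lit 6) (nat_lit 570) (nat_lit 4) (nat_lit 173) (nat_lit 203) (nat_lit 194)) (PT.lf (nat_lit 44536) (nat_lit 6) (nat_lit 586) (nat_lit 4) (nat_lit 174) (nat_lit 203) (nat_lit 193)))) (PT.nd (nat_lit 156) (PT.nd (nat_lit 78) (PT.lf (nat_lit 45676) (nat_lit 6) (nat_lit 601) (nat_lit 4) (nat_lit 175) (nat_lit 203) (nat_lit 192)) (PT.lf (nat_lit 46740) (nat_lit 6) (nat_lit 615) (nat_lit 4) (nat_lit 176) (nat_lit 203) (nat_lit 191))) (PT.nd (nat_lit 78) (PT.lf (nat_lit 47728) (nat_lit 6) (nat_lit 628) (nat_lit 4) (nat_lit 177) (nat_lit 203) (nat_lit 190)) (PT.lf (nat_lit 47652) (nat_lit 6) (nat_lit 627) (nat_lit 4) (nat_lit 178) (nat_lit 203) (nat_lit 189))))))))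
noncomputable def pc38 : PT := (PT.nd (nat_lit 2418) (PT.nd (nat_lit 1170) (PT.nd (nat_lit 546) (PT.nd (nat_lit 234) (PT.nd (nat_lit 78) (PT.lf (nat_lit 47576) (nat_lit 6) (nat_lit 626) (nat_lit 4) (nat_lit 179) (nat_lit 203) (nat_lit 188)) (PT.nd (nat_lit 78) (PT.lf (nat_lit 47500) (nat_lit 6) (nat_lit 625) (nat_lit 4) (nat_lit 180) (nat_lit 203) (nat_lit 187)) (PT.lf (nat_lit 47424) (nat_lit 6) (nat_lit 624) (nat_lit 4) (nat_lit 181) (nat_lit 203) (nat_lit 186)))) (PT.nd (nat_lit 156) (PT.nd (nat_lit 78) (PT.lf (nat_lit 47348) (nat_lit 6) (nat_lit 623) (nat_lit 4) (nat_lit 182) (nat_lit 203) (nat_lit 185)) (PT.lf (nat_lit 47272) (nat_lit 6) (nat_lit 622) (nat_lit 4) (nat_lit 183) (nat_lit 203) (nat_lit 184))) (PT.nd (nat_lit 78) (PT.lf (nat_lit 47272) (nat_lit 6) (nat_lit 622) (nat_lit 2) (nat_lit 184) (nat_lit 203) (nat_lit 183)) (PT.lf (nat_lit 47348) (nat_lit 6) (nat_lit 623) (nat_lit 2) (nat_lit 185) (nat_lit 203) (nat_lit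 182))))) (PT.nd (nat_lit 312) (PT.nd (nat_lit 156) (PT.nd (nat_lit 78) (PT.lf (nat_lit 47424) (nat_lit 6) (nat_lit 624) (nat_lit 2) (nat_lit 186) (nat_lit 203) (nat_lit 181)) (PT.lf (nat_lit 47500) (nat_lit 6) (nat_lit 625) (nat_lit 2) (nat_lit 187) (nat_lit 203) (nat_lit 180))) (PT.nd (nat_lit 78) (PT.lf (nat_lit 47576) (nat_lit 6) (nat_lit 626) (nat_lit 2) (nat_lit 188) (nat_lit 203) (nat_lit 179)) (PT.lf (nat_lit 47652) (nat_lit 6) (nat_lit 627) (nat_lit 2) (nat_lit 189) (nat_lit 203) (nat_lit 178)))) (PT.nd (nat_lit 156) (PT.nd (nat_lit 78) (PT.lf (nat_lit 47728) (nat_lit 6) (nat_lit 628) (nat_lit 2) (nat_lit 190) (nat_lit 203) (nat_lit 177)) (PT.lf (nat_lit 46740) (nat_lit 6) (nat_lit 615) (nat_lit 2) (nat_lit 191) (nat_lit 203) (nat_lit 176))) (PT.nd (nat_lit 78) (PT.lf (nat_lit 45676) (nat_lit 6) (nat_lit 601) (nat_lit 2) (nat_lit 192) (nat_lit 203) (nat_lit 175)) (PT.lf (nat_lit 44536) (nat_lit 6) (nat_lit 586) (nat_lit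 2) (nat_lit 193) (nat_lit 203) (nat_lit 174)))))) (PT.nd (nat_lit 624) (PT.nd (nat_lit 312) (PT.nd (nat_lit 156) (PT.nd (nat_lit 78) (PT.lf (nat_lit 43320) (nat_lit 6) (nat_lit 570) (nat_lit 2) (nat_lit 194) (nat_lit 203) (nat_lit 173)) (PT.lf (nat_lit 42028) (nat_lit 6) (nat_lit 553) (nat_lit 2) (nat_lit 195) (nat_lit 203) (nat_lit 172))) (PT.nd (nat_lit 78) (PT.lf (nat_lit 40660) (nat_lit 6) (nat_lit 535) (nat_lit 2) (nat_lit 196) (nat_lit 203) (nat_lit 171)) (PT.lf (nat_lit 39216) (nat_lit 6) (nat_lit 516) (nat_lit 2) (nat_lit 197) (nat_lit 203) (nat_lit 170)))) (PT.nd (nat_lit 156) (PT.nd (nat_lit 78) (PT.lf (nat_lit 37696) (nat_lit 6) (nat_lit 496) (nat_lit 2) (nat_lit 198) (nat_lit 203) (nat_lit 169)) (PT.lf (nat_lit 36100) (nat_lit 6) (nat_lit 475) (nat_lit 2) (nat_lit 199) (nat_lit 203) (nat_lit 168))) (PT.nd (nat_lit 78) (PT.lf (nat_lit 34428) (nat_lit 6) (nat_lit 453) (nat_lit 2) (nat_lit 200) (nat_lit 203) (nat_lit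 167)) (PT.lf (nat_lit 32680) (nat_lit 6) (nat_lit 430) (nat_lit 2) (nat_lit 201) (nat_lit 203) (nat_lit 166))))) (PT.nd (nat_lit 312) (PT.nd (nat_lit 156) (PT.nd (nat_lit 78) (PT.lf (nat_lit 31388) (nat_lit 6) (nat_lit 413) (nat_lit 2) (nat_lit 202) (nat_lit 203) (nat_lit 165)) (PT.lf (nat_lit 30476) (nat_lit 3) (nat_lit 401) (nat_lit 0) (nat_lit 203) (nat_lit 203) (nat_lit 164))) (PT.nd (nat_lit 78) (PT.lf (nat_lit 29564) (nat_lit 6) (nat_lit 389) (nat_lit 0) (nat_lit 204) (nat_lit 203) (nat_lit 163)) (PT.lf (nat_lit 28576) (nat_lit 6) (nat_lit 376) (nat_lit 0) (nat_lit 205) (nat_lit 203) (nat_lit 162)))) (PT.nd (nat_lit 156) (PT.nd (nat_lit 78) (PT.lf (nat_lit 27664) (nat_lit 6) (nat_lit 364) (nat_lit 0) (nat_lit 206) (nat_lit 203) (nat_lit 161)) (PT.lf (nat_lit 26752) (nat_lit 6) (nat_lit 352) (nat_lit 0) (nat_lit 207) (nat_lit 203) (nat_lit 160))) (PT.nd (nat_lit 78) (PT.lf (nat_lit 25916) (nat_lit 6) (nat_lit 341) (nat_lit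 0) (nat_lit 208) (nat_lit 203) (nat_lit 159)) (PT.lf (nat_lit 25080) (nat_lit 6) (nat_lit 330) (nat_lit 0) (nat_lit 209) (nat_lit 203) (nat_lit 158))))))) (PT.nd (nat_lit 55068) (PT.nd (nat_lit 624) (PT.nd (nat_lit 312) (PT.nd (nat_lit 156) (PT.nd (nat_lit 78) (PT.lf (nat_lit 24244) (nat_lit 6) (nat_lit 319) (nat_lit 0) (nat_lit 210) (nat_lit 203) (nat_lit 157)) (PT.lf (nat_lit 23408) (nat_lit 6) (nat_lit 308) (nat_lit 0) (nat_lit 211) (nat_lit 203) (nat_lit 156))) (PT.nd (nat_lit 78) (PT.lf (nat_lit 22648) (nat_lit 6) (nat_lit 298) (nat_lit 0) (nat_lit 212) (nat_lit 203) (nat_lit 155)) (PT.lf (nat_lit 21888) (nat_lit 6) (nat_lit 288) (nat_lit 0) (nat_lit 213) (nat_lit 203) (nat_lit 154)))) (PT.nd (nat_lit 156) (PT.nd (nat_lit 78) (PT.lf (nat_lit 21128) (nat_lit 6) (nat_lit 278) (nat_lit 0) (nat_lit 214) (nat_lit 203) (nat_lit 153)) (PT.lf (nat_lit 20368) (nat_lit 6) (nat_lit 268) (nat_lit 0) (nat_lit 215) (nat_lit 203) (nat_lit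 152))) (PT.nd (nat_lit 78) (PT.lf (nat_lit 19684) (nat_lit 6) (nat_lit 259) (nat_lit 0) (nat_lit 216) (nat_lit 203) (nat_lit 151)) (PT.lf (nat_lit 19000) (nat_lit 6) (nat_lit 250) (nat_lit 0) (nat_lit 217) (nat_lit 203) (nat_lit 150))))) (PT.nd (nat_lit 54132) (PT.nd (nat_lit 53976) (PT.nd (nat_lit 53898) (PT.lf (nat_lit 18316) (nat_lit 6) (nat_lit 241) (nat_lit 0) (nat_lit 218) (nat_lit 203) (nat_lit 149)) (PT.lf (nat_lit 17708) (nat_lit 6) (nat_lit 233) (nat_lit 5) (nat_lit 148) (nat_lit 204) (nat_lit 218))) (PT.nd (nat_lit 78) (PT.lf (nat_lit 18392) (nat_lit 6) (nat_lit 242) (nat_lit 5) (nat_lit 149) (nat_lit 204) (nat_lit 217)) (PT.lf (nat_lit 19076) (nat_lit 6) (nat_lit 251) (nat_lit 5) (nat_lit 150) (nat_lit 204) (nat_lit 216)))) (PT.nd (nat_lit 156) (PT.nd (nat_lit 78) (PT.lf (nat_lit 19760) (nat_lit 6) (nat_lit 260) (nat_lit 5) (nat_lit 151) (nat_lit 204) (nat_lit 215)) (PT.lf (nat_lit 20444) (nat_lit 6) (nat_lit 269)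 (nat_lit 5) (nat_lit 152) (nat_lit 204) (nat_lit 214))) (PT.nd (nat_lit 78) (PT.lf (nat_lit 21204) (nat_lit 6) (nat_lit 279) (nat_lit 5) (nat_lit 153) (nat_lit 204) (nat_lit 213)) (PT.lf (nat_lit 21964) (nat_lit 6) (nat_lit 289) (nat_lit 5) (nat_lit 154) (nat_lit 204) (nat_lit 212)))))) (PT.nd (nat_lit 624) (PT.nd (nat_lit 312) (PT.nd (nat_lit 156) (PT.nd (nat_lit 78) (PT.lf (nat_lit 22724) (nat_lit 6) (nat_lit 299) (nat_lit 5) (nat_lit 155) (nat_lit 204) (nat_lit 211)) (PT.lf (nat_lit 23484) (nat_lit 6) (nat_lit 309) (nat_lit 5) (nat_lit 156) (nat_lit 204) (nat_lit 210))) (PT.nd (nat_lit 78) (PT.lf (nat_lit 24320) (nat_lit 6) (nat_lit 320) (nat_lit 5) (nat_lit 157) (nat_lit 204) (nat_lit 209)) (PT.lf (nat_lit 25156) (nat_lit 6) (nat_lit 331) (nat_lit 5) (nat_lit 158) (nat_lit 204) (nat_lit 208)))) (PT.nd (nat_lit 156) (PT.nd (nat_lit 78) (PT.lf (nat_lit 25992) (nat_lit 6) (nat_lit 342) (nat_lit 5) (nat_lit 159) (nat_lit 204)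 (nat_lit 207)) (PT.lf (nat_lit 26828) (nat_lit 6) (nat_lit 353) (nat_lit 5) (nat_lit 160) (nat_lit 204) (nat_lit 206))) (PT.nd (nat_lit 78) (PT.lf (nat_lit 27740) (nat_lit 6) (nat_lit 365) (nat_lit 5) (nat_lit 161) (nat_lit 204) (nat_lit 205)) (PT.lf (nat_lit 28652) (nat_lit 3) (nat_lit 377) (nat_lit 4) (nat_lit 162) (nat_lit 204) (nat_lit 204))))) (PT.nd (nat_lit 312) (PT.nd (nat_lit 156) (PT.nd (nat_lit 78) (PT.lf (nat_lit 29564) (nat_lit 6) (nat_lit 389) (nat_lit 4) (nat_lit 163) (nat_lit 204) (nat_lit 203)) (PT.lf (nat_lit 30400) (nat_lit 6) (nat_lit 400) (nat_lit 4) (nat_lit 164) (nat_lit 204) (nat_lit 202))) (PT.nd (nat_lit 78) (PT.lf (nat_lit 31312) (nat_lit 6) (nat_lit 412) (nat_lit 4) (nat_lit 165) (nat_lit 204) (nat_lit 201)) (PT.lf (nat_lit 32604) (nat_lit 6) (nat_lit 429) (nat_lit 4) (nat_lit 166) (nat_lit 204) (nat_lit 200)))) (PT.nd (nat_lit 156) (PT.nd (nat_lit 78) (PT.lf (nat_lit 34352) (nat_lit 6) (nat_lit 452)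 (nat_lit 4) (nat_lit 167) (nat_lit 204) (nat_lit 199)) (PT.lf (nat_lit 36024) (nat_lit 6) (nat_lit 474) (nat_lit 4) (nat_lit 168) (nat_lit 204) (nat_lit 198))) (PT.nd (nat_lit 78) (PT.lf (nat_lit 37620) (nat_lit 6) (nat_lit 495) (nat_lit 4) (nat_lit 169) (nat_lit 204) (nat_lit 197)) (PT.lf (nat_lit 39140) (nat_lit 6) (nat_lit 515) (nat_lit 4) (nat_lit 170) (nat_lit 204) (nat_lit 196))))))))
noncomputable def pc39 : PT := (PT.nd (nat_lit 2418) (PT.nd (nat_lit 1170) (PT.nd (nat_lit 546) (PT.nd (nat_lit 234) (PT.nd (nat_lit 78) (PT.lf (nat_lit 40584) (nat_lit 6) (nat_lit 534) (nat_lit 4) (nat_lit 171) (nat_lit 204) (nat_lit 195)) (PT.nd (nat_lit 78) (PT.lf (nat_lit 41952) (nat_lit 6) (nat_lit 552) (nat_lit 4) (nat_lit 172) (nat_lit 204) (nat_lit 194)) (PT.lf (nat_lit 43244) (nat_lit 6) (nat_lit 569) (nat_lit 4) (nat_lit 173) (nat_lit 204) (nat_lit 193)))) (PT.nd (nat_lit 156) (PT.nd (nat_lit 78) (PT.lf (nat_lit 44460) (nat_lit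 6) (nat_lit 585) (nat_lit 4) (nat_lit 174) (nat_lit 204) (nat_lit 192)) (PT.lf (nat_lit 45600) (nat_lit 6) (nat_lit 600) (nat_lit 4) (nat_lit 175) (nat_lit 204) (nat_lit 191))) (PT.nd (nat_lit 78) (PT.lf (nat_lit 46664) (nat_lit 6) (nat_lit 614) (nat_lit 4) (nat_lit 176) (nat_lit 204) (nat_lit 190)) (PT.lf (nat_lit 46588) (nat_lit 6) (nat_lit 613) (nat_lit 4) (nat_lit 177) (nat_lit 204) (nat_lit 189))))) (PT.nd (nat_lit 312) (PT.nd (nat_lit 156) (PT.nd (nat_lit 78) (PT.lf (nat_lit 46512) (nat_lit 6) (nat_lit 612) (nat_lit 4) (nat_lit 178) (nat_lit 204) (nat_lit 188)) (PT.lf (nat_lit 46436) (nat_lit 6) (nat_lit 611) (nat_lit 4) (nat_lit 179) (nat_lit 204) (nat_lit 187))) (PT.nd (nat_lit 78) (PT.lf (nat_lit 46360) (nat_lit 6) (nat_lit 610) (nat_lit 4) (nat_lit 180) (nat_lit 204) (nat_lit 186)) (PT.lf (nat_lit 46284) (nat_lit 6) (nat_lit 609) (nat_lit 4) (nat_lit 181) (nat_lit 204) (nat_lit 185)))) (PT.nd (nat_lit 156) (PT.nd (nat_lit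 78) (PT.lf (nat_lit 46208) (nat_lit 6) (nat_lit 608) (nat_lit 4) (nat_lit 182) (nat_lit 204) (nat_lit 184)) (PT.lf (nat_lit 46132) (nat_lit 3) (nat_lit 607) (nat_lit 2) (nat_lit 183) (nat_lit 204) (nat_lit 183))) (PT.nd (nat_lit 78) (PT.lf (nat_lit 46208) (nat_lit 6) (nat_lit 608) (nat_lit 2) (nat_lit 184) (nat_lit 204) (nat_lit 182)) (PT.lf (nat_lit 46284) (nat_lit 6) (nat_lit 609) (nat_lit 2) (nat_lit 185) (nat_lit 204) (nat_lit 181)))))) (PT.nd (nat_lit 624) (PT.nd (nat_lit 312) (PT.nd (nat_lit 156) (PT.nd (nat_lit 78) (PT.lf (nat_lit 46360) (nat_lit 6) (nat_lit 610) (nat_lit 2) (nat_lit 186) (nat_lit 204) (nat_lit 180)) (PT.lf (nat_lit 46436) (nat_lit 6) (nat_lit 611) (nat_lit 2) (nat_lit 187) (nat_lit 204) (nat_lit 179))) (PT.nd (nat_lit 78) (PT.lf (nat_lit 46512) (nat_lit 6) (nat_lit 612) (nat_lit 2) (nat_lit 188) (nat_lit 204) (nat_lit 178)) (PT.lf (nat_lit 46588) (nat_lit 6) (nat_lit 613) (nat_lit 2) (nat_lit 189) (nat_lit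 204) (nat_lit 177)))) (PT.nd (nat_lit 156) (PT.nd (nat_lit 78) (PT.lf (nat_lit 46664) (nat_lit 6) (nat_lit 614) (nat_lit 2) (nat_lit 190) (nat_lit 204) (nat_lit 176)) (PT.lf (nat_lit 45600) (nat_lit 6) (nat_lit 600) (nat_lit 2) (nat_lit 191) (nat_lit 204) (nat_lit 175))) (PT.nd (nat_lit 78) (PT.lf (nat_lit 44460) (nat_lit 6) (nat_lit 585) (nat_lit 2) (nat_lit 192) (nat_lit 204) (nat_lit 174)) (PT.lf (nat_lit 43244) (nat_lit 6) (nat_lit 569) (nat_lit 2) (nat_lit 193) (nat_lit 204) (nat_lit 173))))) (PT.nd (nat_lit 312) (PT.nd (nat_lit 156) (PT.nd (nat_lit 78) (PT.lf (nat_lit 41952) (nat_lit 6) (nat_lit 552) (nat_lit 2) (nat_lit 194) (nat_lit 204) (nat_lit 172)) (PT.lf (nat_lit 40584) (nat_lit 6) (nat_lit 534) (nat_lit 2) (nat_lit 195) (nat_lit 204) (nat_lit 171))) (PT.nd (nat_lit 78) (PT.lf (nat_lit 39140) (nat_lit 6) (nat_lit 515) (nat_lit 2) (nat_lit 196) (nat_lit 204) (nat_lit 170)) (PT.lf (nat_lit 37620) (nat_lit 6) (nat_lit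 495) (nat_lit 2) (nat_lit 197) (nat_lit 204) (nat_lit 169)))) (PT.nd (nat_lit 156) (PT.nd (nat_lit 78) (PT.lf (nat_lit 36024) (nat_lit 6) (nat_lit 474) (nat_lit 2) (nat_lit 198) (nat_lit 204) (nat_lit 168)) (PT.lf (nat_lit 34352) (nat_lit 6) (nat_lit 452) (nat_lit 2) (nat_lit 199) (nat_lit 204) (nat_lit 167))) (PT.nd (nat_lit 78) (PT.lf (nat_lit 32604) (nat_lit 6) (nat_lit 429) (nat_lit 2) (nat_lit 200) (nat_lit 204) (nat_lit 166)) (PT.lf (nat_lit 31312) (nat_lit 6) (nat_lit 412) (nat_lit 2) (nat_lit 201) (nat_lit 204) (nat_lit 165))))))) (PT.nd (nat_lit 1248) (PT.nd (nat_lit 624) (PT.nd (nat_lit 312) (PT.nd (nat_lit 156) (PT.nd (nat_lit 78) (PT.lf (nat_lit 30400) (nat_lit 6) (nat_lit 400) (nat_lit 2) (nat_lit 202) (nat_lit 204) (nat_lit 164)) (PT.lf (nat_lit 29564) (nat_lit 6) (nat_lit 389) (nat_lit 2) (nat_lit 203) (nat_lit 204) (nat_lit 163))) (PT.nd (nat_lit 78) (PT.lf (nat_lit 28652) (nat_lit 3) (nat_lit 377) (nat_lit 0)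 (nat_lit 204) (nat_lit 204) (nat_lit 162)) (PT.lf (nat_lit 27740) (nat_lit 6) (nat_lit 365) (nat_lit 0) (nat_lit 205) (nat_lit 204) (nat_lit 161)))) (PT.nd (nat_lit 156) (PT.nd (nat_lit 78) (PT.lf (nat_lit 26828) (nat_lit 6) (nat_lit 353) (nat_lit 0) (nat_lit 206) (nat_lit 204) (nat_lit 160)) (PT.lf (nat_lit 25992) (nat_lit 6) (nat_lit 342) (nat_lit 0) (nat_lit 207) (nat_lit 204) (nat_lit 159))) (PT.nd (nat_lit 78) (PT.lf (nat_lit 25156) (nat_lit 6) (nat_lit 331) (nat_lit 0) (nat_lit 208) (nat_lit 204) (nat_lit 158)) (PT.lf (nat_lit 24320) (nat_lit 6) (nat_lit 320) (nat_lit 0) (nat_lit 209) (nat_lit 204) (nat_lit 157))))) (PT.nd (nat_lit 312) (PT.nd (nat_lit 156) (PT.nd (nat_lit 78) (PT.lf (nat_lit 23484) (nat_lit 6) (nat_lit 309) (nat_lit 0) (nat_lit 210) (nat_lit 204) (nat_lit 156)) (PT.lf (nat_lit 22724) (nat_lit 6) (nat_lit 299) (nat_lit 0) (nat_lit 211) (nat_lit 204) (nat_lit 155))) (PT.nd (nat_lit 78) (PT.lf (nat_lit 21964)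 (nat_lit 6) (nat_lit 289) (nat_lit 0) (nat_lit 212) (nat_lit 204) (nat_lit 154)) (PT.lf (nat_lit 21204) (nat_lit 6) (nat_lit 279) (nat_lit 0) (nat_lit 213) (nat_lit 204) (nat_lit 153)))) (PT.nd (nat_lit 156) (PT.nd (nat_lit 78) (PT.lf (nat_lit 20444) (nat_lit 6) (nat_lit 269) (nat_lit 0) (nat_lit 214) (nat_lit 204) (nat_lit 152)) (PT.lf (nat_lit 19760) (nat_lit 6) (nat_lit 260) (nat_lit 0) (nat_lit 215) (nat_lit 204) (nat_lit 151))) (PT.nd (nat_lit 78) (PT.lf (nat_lit 19076) (nat_lit 6) (nat_lit 251) (nat_lit 0) (nat_lit 216) (nat_lit 204) (nat_lit 150)) (PT.lf (nat_lit 18392) (nat_lit 6) (nat_lit 242) (nat_lit 0) (nat_lit 217) (nat_lit 204) (nat_lit 149)))))) (PT.nd (nat_lit 54288) (PT.nd (nat_lit 53976) (PT.nd (nat_lit 53820) (PT.nd (nat_lit 53742) (PT.lf (nat_lit 17708) (nat_lit 6) (nat_lit 233) (nat_lit 0) (nat_lit 218) (nat_lit 204) (nat_lit 148)) (PT.lf (nat_lit 16568) (nat_lit 6) (nat_lit 218) (nat_lit 5) (nat_lit 146)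 (nat_lit 205) (nat_lit 219))) (PT.nd (nat_lit 78) (PT.lf (nat_lit 17176) (nat_lit 6) (nat_lit 226) (nat_lit 5) (nat_lit 147) (nat_lit 205) (nat_lit 218)) (PT.lf (nat_lit 17784) (nat_lit 6) (nat_lit 234) (nat_lit 5) (nat_lit 148) (nat_lit 205) (nat_lit 217)))) (PT.nd (nat_lit 156) (PT.nd (nat_lit 78) (PT.lf (nat_lit 18468) (nat_lit 6) (nat_lit 243) (nat_lit 5) (nat_lit 149) (nat_lit 205) (nat_lit 216)) (PT.lf (nat_lit 19152) (nat_lit 6) (nat_lit 252) (nat_lit 5) (nat_lit 150) (nat_lit 205) (nat_lit 215))) (PT.nd (nat_lit 78) (PT.lf (nat_lit 19836) (nat_lit 6) (nat_lit 261) (nat_lit 5) (nat_lit 151) (nat_lit 205) (nat_lit 214)) (PT.lf (nat_lit 20520) (nat_lit 6) (nat_lit 270) (nat_lit 5) (nat_lit 152) (nat_lit 205) (nat_lit 213))))) (PT.nd (nat_lit 312) (PT.nd (nat_lit 156) (PT.nd (nat_lit 78) (PT.lf (nat_lit 21280) (nat_lit 6) (nat_lit 280) (nat_lit 5) (nat_lit 153) (nat_lit 205) (nat_lit 212)) (PT.lf (nat_lit 22040) (nat_lit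 6) (nat_lit 290) (nat_lit 5) (nat_lit 154) (nat_lit 205) (nat_lit 211))) (PT.nd (nat_lit 78) (PT.lf (nat_lit 22800) (nat_lit 6) (nat_lit 300) (nat_lit 5) (nat_lit 155) (nat_lit 205) (nat_lit 210)) (PT.lf (nat_lit 23560) (nat_lit 6) (nat_lit 310) (nat_lit 5) (nat_lit 156) (nat_lit 205) (nat_lit 209)))) (PT.nd (nat_lit 156) (PT.nd (nat_lit 78) (PT.lf (nat_lit 24396) (nat_lit 6) (nat_lit 321) (nat_lit 5) (nat_lit 157) (nat_lit 205) (nat_lit 208)) (PT.lf (nat_lit 25232) (nat_lit 6) (nat_lit 332) (nat_lit 5) (nat_lit 158) (nat_lit 205) (nat_lit 207))) (PT.nd (nat_lit 78) (PT.lf (nat_lit 26068) (nat_lit 6) (nat_lit 343) (nat_lit 5) (nat_lit 159) (nat_lit 205) (nat_lit 206)) (PT.lf (nat_lit 26904) (nat_lit 3) (nat_lit 354) (nat_lit 4) (nat_lit 160) (nat_lit 205) (nat_lit 205))))))))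
noncomputable def pc40 : PT := (PT.nd (nat_lit 2418) (PT.nd (nat_lit 1170) (PT.nd (nat_lit 546) (PT.nd (nat_lit 234) (PT.nd (nat_lit 78) (PT.lf (nat_lit 27740) (nat_lit 6) (nat_lit 365) (nat_lit 4) (nat_lit 161) (nat_lit 205) (nat_lit 204)) (PT.nd (nat_lit 78) (PT.lf (nat_lit 28576) (nat_lit 6) (nat_lit 376) (nat_lit 4) (nat_lit 162) (nat_lit 205) (nat_lit 203)) (PT.lf (nat_lit 29488) (nat_lit 6) (nat_lit 388) (nat_lit 4) (nat_lit 163) (nat_lit 205) (nat_lit 202)))) (PT.nd (nat_lit 156) (PT.nd (nat_lit 78) (PT.lf (nat_lit 30324) (nat_lit 6) (nat_lit 399) (nat_lit 4) (nat_lit 164) (nat_lit 205) (nat_lit 201)) (PT.lf (nat_lit 31236) (nat_lit 6) (nat_lit 411) (nat_lit 4) (nat_lit 165) (nat_lit 205) (nat_lit 200))) (PT.nd (nat_lit 78) (PT.lf (nat_lit 32528) (nat_lit 6) (nat_lit 428) (nat_lit 4) (nat_lit 166) (nat_lit 205) (nat_lit 199)) (PT.lf (nat_lit 34276) (nat_lit 6) (nat_lit 451) (nat_lit 4) (nat_lit 167) (nat_lit 205) (nat_lit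 198))))) (PT.nd (nat_lit 312) (PT.nd (nat_lit 156) (PT.nd (nat_lit 78) (PT.lf (nat_lit 35948) (nat_lit 6) (nat_lit 473) (nat_lit 4) (nat_lit 168) (nat_lit 205) (nat_lit 197)) (PT.lf (nat_lit 37544) (nat_lit 6) (nat_lit 494) (nat_lit 4) (nat_lit 169) (nat_lit 205) (nat_lit 196))) (PT.nd (nat_lit 78) (PT.lf (nat_lit 39064) (nat_lit 6) (nat_lit 514) (nat_lit 4) (nat_lit 170) (nat_lit 205) (nat_lit 195)) (PT.lf (nat_lit 40508) (nat_lit 6) (nat_lit 533) (nat_lit 4) (nat_lit 171) (nat_lit 205) (nat_lit 194)))) (PT.nd (nat_lit 156) (PT.nd (nat_lit 78) (PT.lf (nat_lit 41876) (nat_lit 6) (nat_lit 551) (nat_lit 4) (nat_lit 172) (nat_lit 205) (nat_lit 193)) (PT.lf (nat_lit 43168) (nat_lit 6) (nat_lit 568) (nat_lit 4) (nat_lit 173) (nat_lit 205) (nat_lit 192))) (PT.nd (nat_lit 78) (PT.lf (nat_lit 44384) (nat_lit 6) (nat_lit 584) (nat_lit 4) (nat_lit 174) (nat_lit 205) (nat_lit 191)) (PT.lf (nat_lit 45524) (nat_lit 6) (nat_lit 599) (nat_lit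 4) (nat_lit 175) (nat_lit 205) (nat_lit 190)))))) (PT.nd (nat_lit 624) (PT.nd (nat_lit 312) (PT.nd (nat_lit 156) (PT.nd (nat_lit 78) (PT.lf (nat_lit 45448) (nat_lit 6) (nat_lit 598) (nat_lit 4) (nat_lit 176) (nat_lit 205) (nat_lit 189)) (PT.lf (nat_lit 45372) (nat_lit 6) (nat_lit 597) (nat_lit 4) (nat_lit 177) (nat_lit 205) (nat_lit 188))) (PT.nd (nat_lit 78) (PT.lf (nat_lit 45296) (nat_lit 6) (nat_lit 596) (nat_lit 4) (nat_lit 178) (nat_lit 205) (nat_lit 187)) (PT.lf (nat_lit 45220) (nat_lit 6) (nat_lit 595) (nat_lit 4) (nat_lit 179) (nat_lit 205) (nat_lit 186)))) (PT.nd (nat_lit 156) (PT.nd (nat_lit 78) (PT.lf (nat_lit 45144) (nat_lit 6) (nat_lit 594) (nat_lit 4) (nat_lit 180) (nat_lit 205) (nat_lit 185)) (PT.lf (nat_lit 45068) (nat_lit 6) (nat_lit 593) (nat_lit 4) (nat_lit 181) (nat_lit 205) (nat_lit 184))) (PT.nd (nat_lit 78) (PT.lf (nat_lit 44992) (nat_lit 6) (nat_lit 592) (nat_lit 4) (nat_lit 182) (nat_lit 205) (nat_lit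 183)) (PT.lf (nat_lit 44992) (nat_lit 6) (nat_lit 592) (nat_lit 2) (nat_lit 183) (nat_lit 205) (nat_lit 182))))) (PT.nd (nat_lit 312) (PT.nd (nat_lit 156) (PT.nd (nat_lit 78) (PT.lf (nat_lit 45068) (nat_lit 6) (nat_lit 593) (nat_lit 2) (nat_lit 184) (nat_lit 205) (nat_lit 181)) (PT.lf (nat_lit 45144) (nat_lit 6) (nat_lit 594) (nat_lit 2) (nat_lit 185) (nat_lit 205) (nat_lit 180))) (PT.nd (nat_lit 78) (PT.lf (nat_lit 45220) (nat_lit 6) (nat_lit 595) (nat_lit 2) (nat_lit 186) (nat_lit 205) (nat_lit 179)) (PT.lf (nat_lit 45296) (nat_lit 6) (nat_lit 596) (nat_lit 2) (nat_lit 187) (nat_lit 205) (nat_lit 178)))) (PT.nd (nat_lit 156) (PT.nd (nat_lit 78) (PT.lf (nat_lit 45372) (nat_lit 6) (nat_lit 597) (nat_lit 2) (nat_lit 188) (nat_lit 205) (nat_lit 177)) (PT.lf (nat_lit 45448) (nat_lit 6) (nat_lit 598) (nat_lit 2) (nat_lit 189) (nat_lit 205) (nat_lit 176))) (PT.nd (nat_lit 78) (PT.lf (nat_lit 45524) (nat_lit 6) (nat_lit 599) (nat_lit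 2) (nat_lit 190) (nat_lit 205) (nat_lit 175)) (PT.lf (nat_lit 44384) (nat_lit 6) (nat_lit 584) (nat_lit 2) (nat_lit 191) (nat_lit 205) (nat_lit 174))))))) (PT.nd (nat_lit 1248) (PT.nd (nat_lit 624) (PT.nd (nat_lit 312) (PT.nd (nat_lit 156) (PT.nd (nat_lit 78) (PT.lf (nat_lit 43168) (nat_lit 6) (nat_lit 568) (nat_lit 2) (nat_lit 192) (nat_lit 205) (nat_lit 173)) (PT.lf (nat_lit 41876) (nat_lit 6) (nat_lit 551) (nat_lit 2) (nat_lit 193) (nat_lit 205) (nat_lit 172))) (PT.nd (nat_lit 78) (PT.lf (nat_lit 40508) (nat_lit 6) (nat_lit 533) (nat_lit 2) (nat_lit 194) (nat_lit 205) (nat_lit 171)) (PT.lf (nat_lit 39064) (nat_lit 6) (nat_lit 514) (nat_lit 2) (nat_lit 195) (nat_lit 205) (nat_lit 170)))) (PT.nd (nat_lit 156) (PT.nd (nat_lit 78) (PT.lf (nat_lit 37544) (nat_lit 6) (nat_lit 494) (nat_lit 2) (nat_lit 196) (nat_lit 205) (nat_lit 169)) (PT.lf (nat_lit 35948) (nat_lit 6) (nat_lit 473) (nat_lit 2) (nat_lit 197) (nat_lit 205) (nat_lit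 168))) (PT.nd (nat_lit 78) (PT.lf (nat_lit 34276) (nat_lit 6) (nat_lit 451) (nat_lit 2) (nat_lit 198) (nat_lit 205) (nat_lit 167)) (PT.lf (nat_lit 32528) (nat_lit 6) (nat_lit 428) (nat_lit 2) (nat_lit 199) (nat_lit 205) (nat_lit 166))))) (PT.nd (nat_lit 312) (PT.nd (nat_lit 156) (PT.nd (nat_lit 78) (PT.lf (nat_lit 31236) (nat_lit 6) (nat_lit 411) (nat_lit 2) (nat_lit 200) (nat_lit 205) (nat_lit 165)) (PT.lf (nat_lit 30324) (nat_lit 6) (nat_lit 399) (nat_lit 2) (nat_lit 201) (nat_lit 205) (nat_lit 164))) (PT.nd (nat_lit 78) (PT.lf (nat_lit 29488) (nat_lit 6) (nat_lit 388) (nat_lit 2) (nat_lit 202) (nat_lit 205) (nat_lit 163)) (PT.lf (nat_lit 28576) (nat_lit 6) (nat_lit 376) (nat_lit 2) (nat_lit 203) (nat_lit 205) (nat_lit 162)))) (PT.nd (nat_lit 156) (PT.nd (nat_lit 78) (PT.lf (nat_lit 27740) (nat_lit 6) (nat_lit 365) (nat_lit 2) (nat_lit 204) (nat_lit 205) (nat_lit 161)) (PT.lf (nat_lit 26904) (nat_lit 3) (nat_lit 354) (nat_lit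 0) (nat_lit 205) (nat_lit 205) (nat_lit 160))) (PT.nd (nat_lit 78) (PT.lf (nat_lit 26068) (nat_lit 6) (nat_lit 343) (nat_lit 0) (nat_lit 206) (nat_lit 205) (nat_lit 159)) (PT.lf (nat_lit 25232) (nat_lit 6) (nat_lit 332) (nat_lit 0) (nat_lit 207) (nat_lit 205) (nat_lit 158)))))) (PT.nd (nat_lit 624) (PT.nd (nat_lit 312) (PT.nd (nat_lit 156) (PT.nd (nat_lit 78) (PT.lf (nat_lit 24396) (nat_lit 6) (nat_lit 321) (nat_lit 0) (nat_lit 208) (nat_lit 205) (nat_lit 157)) (PT.lf (nat_lit 23560) (nat_lit 6) (nat_lit 310) (nat_lit 0) (nat_lit 209) (nat_lit 205) (nat_lit 156))) (PT.nd (nat_lit 78) (PT.lf (nat_lit 22800) (nat_lit 6) (nat_lit 300) (nat_lit 0) (nat_lit 210) (nat_lit 205) (nat_lit 155)) (PT.lf (nat_lit 22040) (nat_lit 6) (nat_lit 290) (nat_lit 0) (nat_lit 211) (nat_lit 205) (nat_lit 154)))) (PT.nd (nat_lit 156) (PT.nd (nat_lit 78) (PT.lf (nat_lit 21280) (nat_lit 6) (nat_lit 280) (nat_lit 0) (nat_lit 212) (nat_lit 205) (nat_lit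 153)) (PT.lf (nat_lit 20520) (nat_lit 6) (nat_lit 270) (nat_lit 0) (nat_lit 213) (nat_lit 205) (nat_lit 152))) (PT.nd (nat_lit 78) (PT.lf (nat_lit 19836) (nat_lit 6) (nat_lit 261) (nat_lit 0) (nat_lit 214) (nat_lit 205) (nat_lit 151)) (PT.lf (nat_lit 19152) (nat_lit 6) (nat_lit 252) (nat_lit 0) (nat_lit 215) (nat_lit 205) (nat_lit 150))))) (PT.nd (nat_lit 53820) (PT.nd (nat_lit 156) (PT.nd (nat_lit 78) (PT.lf (nat_lit 18468) (nat_lit 6) (nat_lit 243) (nat_lit 0) (nat_lit 216) (nat_lit 205) (nat_lit 149)) (PT.lf (nat_lit 17784) (nat_lit 6) (nat_lit 234) (nat_lit 0) (nat_lit 217) (nat_lit 205) (nat_lit 148))) (PT.nd (nat_lit 78) (PT.lf (nat_lit 17176) (nat_lit 6) (nat_lit 226) (nat_lit 0) (nat_lit 218) (nat_lit 205) (nat_lit 147)) (PT.lf (nat_lit 16568) (nat_lit 6) (nat_lit 218) (nat_lit 0) (nat_lit 219) (nat_lit 205) (nat_lit 146)))) (PT.nd (nat_lit 156) (PT.nd (nat_lit 78) (PT.lf (nat_lit 16036) (nat_lit 6) (nat_lit 211) (nat_lit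 5) (nat_lit 145) (nat_lit 206) (nat_lit 219)) (PT.lf (nat_lit 16644) (nat_lit 6) (nat_lit 219) (nat_lit 5) (nat_lit 146) (nat_lit 206) (nat_lit 218))) (PT.nd (nat_lit 78) (PT.lf (nat_lit 17252) (nat_lit 6) (nat_lit 227) (nat_lit 5) (nat_lit 147) (nat_lit 206) (nat_lit 217)) (PT.lf (nat_lit 17860) (nat_lit 6) (nat_lit 235) (nat_lit 5) (nat_lit 148) (nat_lit 206) (nat_lit 216))))))))
noncomputable def pc41 : PT := (PT.nd (nat_lit 2418) (PT.nd (nat_lit 1170) (PT.nd (nat_lit 546) (PT.nd (nat_lit 234) (PT.nd (nat_lit 78) (PT.lf (nat_lit 18544) (nat_lit 6) (nat_lit 244) (nat_lit 5) (nat_lit 149) (nat_lit 206) (nat_lit 215)) (PT.nd (nat_lit 78) (PT.lf (nat_lit 19228) (nat_lit 6) (nat_lit 253) (nat_lit 5) (nat_lit 150) (nat_lit 206) (nat_lit 214)) (PT.lf (nat_lit 19912) (nat_lit 6) (nat_lit 262) (nat_lit 5) (nat_lit 151) (nat_lit 206) (nat_lit 213)))) (PT.nd (nat_lit 156) (PT.nd (nat_lit 78) (PT.lf (nat_lit 20596) (nat_lit 6) (nat_lit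 271) (nat_lit 5) (nat_lit 152) (nat_lit 206) (nat_lit 212)) (PT.lf (nat_lit 21356) (nat_lit 6) (nat_lit 281) (nat_lit 5) (nat_lit 153) (nat_lit 206) (nat_lit 211))) (PT.nd (nat_lit 78) (PT.lf (nat_lit 22116) (nat_lit 6) (nat_lit 291) (nat_lit 5) (nat_lit 154) (nat_lit 206) (nat_lit 210)) (PT.lf (nat_lit 22876) (nat_lit 6) (nat_lit 301) (nat_lit 5) (nat_lit 155) (nat_lit 206) (nat_lit 209))))) (PT.nd (nat_lit 312) (PT.nd (nat_lit 156) (PT.nd (nat_lit 78) (PT.lf (nat_lit 23636) (nat_lit 6) (nat_lit 311) (nat_lit 5) (nat_lit 156) (nat_lit 206) (nat_lit 208)) (PT.lf (nat_lit 24472) (nat_lit 6) (nat_lit 322) (nat_lit 5) (nat_lit 157) (nat_lit 206) (nat_lit 207))) (PT.nd (nat_lit 78) (PT.lf (nat_lit 25308) (nat_lit 3) (nat_lit 333) (nat_lit 4) (nat_lit 158) (nat_lit 206) (nat_lit 206)) (PT.lf (nat_lit 26068) (nat_lit 6) (nat_lit 343) (nat_lit 4) (nat_lit 159) (nat_lit 206) (nat_lit 205)))) (PT.nd (nat_lit 156) (PT.nd (nat_lit 78)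 (PT.lf (nat_lit 26828) (nat_lit 6) (nat_lit 353) (nat_lit 4) (nat_lit 160) (nat_lit 206) (nat_lit 204)) (PT.lf (nat_lit 27664) (nat_lit 6) (nat_lit 364) (nat_lit 4) (nat_lit 161) (nat_lit 206) (nat_lit 203))) (PT.nd (nat_lit 78) (PT.lf (nat_lit 28500) (nat_lit 6) (nat_lit 375) (nat_lit 4) (nat_lit 162) (nat_lit 206) (nat_lit 202)) (PT.lf (nat_lit 29412) (nat_lit 6) (nat_lit 387) (nat_lit 4) (nat_lit 163) (nat_lit 206) (nat_lit 201)))))) (PT.nd (nat_lit 624) (PT.nd (nat_lit 312) (PT.nd (nat_lit 156) (PT.nd (nat_lit 78) (PT.lf (nat_lit 30248) (nat_lit 6) (nat_lit 398) (nat_lit 4) (nat_lit 164) (nat_lit 206) (nat_lit 200)) (PT.lf (nat_lit 31160) (nat_lit 6) (nat_lit 410) (nat_lit 4) (nat_lit 165) (nat_lit 206) (nat_lit 199))) (PT.nd (nat_lit 78) (PT.lf (nat_lit 32452) (nat_lit 6) (nat_lit 427) (nat_lit 4) (nat_lit 166) (nat_lit 206) (nat_lit 198)) (PT.lf (nat_lit 34200) (nat_lit 6) (nat_lit 450) (nat_lit 4) (nat_lit 167) (nat_lit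 206) (nat_lit 197)))) (PT.nd (nat_lit 156) (PT.nd (nat_lit 78) (PT.lf (nat_lit 35872) (nat_lit 6) (nat_lit 472) (nat_lit 4) (nat_lit 168) (nat_lit 206) (nat_lit 196)) (PT.lf (nat_lit 37468) (nat_lit 6) (nat_lit 493) (nat_lit 4) (nat_lit 169) (nat_lit 206) (nat_lit 195))) (PT.nd (nat_lit 78) (PT.lf (nat_lit 38988) (nat_lit 6) (nat_lit 513) (nat_lit 4) (nat_lit 170) (nat_lit 206) (nat_lit 194)) (PT.lf (nat_lit 40432) (nat_lit 6) (nat_lit 532) (nat_lit 4) (nat_lit 171) (nat_lit 206) (nat_lit 193))))) (PT.nd (nat_lit 312) (PT.nd (nat_lit 156) (PT.nd (nat_lit 78) (PT.lf (nat_lit 41800) (nat_lit 6) (nat_lit 550) (nat_lit 4) (nat_lit 172) (nat_lit 206) (nat_lit 192)) (PT.lf (nat_lit 43092) (nat_lit 6) (nat_lit 567) (nat_lit 4) (nat_lit 173) (nat_lit 206) (nat_lit 191))) (PT.nd (nat_lit 78) (PT.lf (nat_lit 44308) (nat_lit 6) (nat_lit 583) (nat_lit 4) (nat_lit 174) (nat_lit 206) (nat_lit 190)) (PT.lf (nat_lit 44232) (nat_lit 6) (nat_lit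 582) (nat_lit 4) (nat_lit 175) (nat_lit 206) (nat_lit 189)))) (PT.nd (nat_lit 156) (PT.nd (nat_lit 78) (PT.lf (nat_lit 44156) (nat_lit 6) (nat_lit 581) (nat_lit 4) (nat_lit 176) (nat_lit 206) (nat_lit 188)) (PT.lf (nat_lit 44080) (nat_lit 6) (nat_lit 580) (nat_lit 4) (nat_lit 177) (nat_lit 206) (nat_lit 187))) (PT.nd (nat_lit 78) (PT.lf (nat_lit 44004) (nat_lit 6) (nat_lit 579) (nat_lit 4) (nat_lit 178) (nat_lit 206) (nat_lit 186)) (PT.lf (nat_lit 43928) (nat_lit 6) (nat_lit 578) (nat_lit 4) (nat_lit 179) (nat_lit 206) (nat_lit 185))))))) (PT.nd (nat_lit 1248) (PT.nd (nat_lit 624) (PT.nd (nat_lit 312) (PT.nd (nat_lit 156) (PT.nd (nat_lit 78) (PT.lf (nat_lit 43852) (nat_lit 6) (nat_lit 577) (nat_lit 4) (nat_lit 180) (nat_lit 206) (nat_lit 184)) (PT.lf (nat_lit 43776) (nat_lit 6) (nat_lit 576) (nat_lit 4) (nat_lit 181) (nat_lit 206) (nat_lit 183))) (PT.nd (nat_lit 78) (PT.lf (nat_lit 43700) (nat_lit 3) (nat_lit 575) (nat_lit 2)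 (nat_lit 182) (nat_lit 206) (nat_lit 182)) (PT.lf (nat_lit 43776) (nat_lit 6) (nat_lit 576) (nat_lit 2) (nat_lit 183) (nat_lit 206) (nat_lit 181)))) (PT.nd (nat_lit 156) (PT.nd (nat_lit 78) (PT.lf (nat_lit 43852) (nat_lit 6) (nat_lit 577) (nat_lit 2) (nat_lit 184) (nat_lit 206) (nat_lit 180)) (PT.lf (nat_lit 43928) (nat_lit 6) (nat_lit 578) (nat_lit 2) (nat_lit 185) (nat_lit 206) (nat_lit 179))) (PT.nd (nat_lit 78) (PT.lf (nat_lit 44004) (nat_lit 6) (nat_lit 579) (nat_lit 2) (nat_lit 186) (nat_lit 206) (nat_lit 178)) (PT.lf (nat_lit 44080) (nat_lit 6) (nat_lit 580) (nat_lit 2) (nat_lit 187) (nat_lit 206) (nat_lit 177))))) (PT.nd (nat_lit 312) (PT.nd (nat_lit 156) (PT.nd (nat_lit 78) (PT.lf (nat_lit 44156) (nat_lit 6) (nat_lit 581) (nat_lit 2) (nat_lit 188) (nat_lit 206) (nat_lit 176)) (PT.lf (nat_lit 44232) (nat_lit 6) (nat_lit 582) (nat_lit 2) (nat_lit 189) (nat_lit 206) (nat_lit 175))) (PT.nd (nat_lit 78) (PT.lf (nat_lit 44308)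 (nat_lit 6) (nat_lit 583) (nat_lit 2) (nat_lit 190) (nat_lit 206) (nat_lit 174)) (PT.lf (nat_lit 43092) (nat_lit 6) (nat_lit 567) (nat_lit 2) (nat_lit 191) (nat_lit 206) (nat_lit 173)))) (PT.nd (nat_lit 156) (PT.nd (nat_lit 78) (PT.lf (nat_lit 41800) (nat_lit 6) (nat_lit 550) (nat_lit 2) (nat_lit 192) (nat_lit 206) (nat_lit 172)) (PT.lf (nat_lit 40432) (nat_lit 6) (nat_lit 532) (nat_lit 2) (nat_lit 193) (nat_lit 206) (nat_lit 171))) (PT.nd (nat_lit 78) (PT.lf (nat_lit 38988) (nat_lit 6) (nat_lit 513) (nat_lit 2) (nat_lit 194) (nat_lit 206) (nat_lit 170)) (PT.lf (nat_lit 37468) (nat_lit 6) (nat_lit 493) (nat_lit 2) (nat_lit 195) (nat_lit 206) (nat_lit 169)))))) (PT.nd (nat_lit 624) (PT.nd (nat_lit 312) (PT.nd (nat_lit 156) (PT.nd (nat_lit 78) (PT.lf (nat_lit 35872) (nat_lit 6) (nat_lit 472) (nat_lit 2) (nat_lit 196) (nat_lit 206) (nat_lit 168)) (PT.lf (nat_lit 34200) (nat_lit 6) (nat_lit 450) (nat_lit 2) (nat_lit 197) (nat_lit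 206) (nat_lit 167))) (PT.nd (nat_lit 78) (PT.lf (nat_lit 32452) (nat_lit 6) (nat_lit 427) (nat_lit 2) (nat_lit 198) (nat_lit 206) (nat_lit 166)) (PT.lf (nat_lit 31160) (nat_lit 6) (nat_lit 410) (nat_lit 2) (nat_lit 199) (nat_lit 206) (nat_lit 165)))) (PT.nd (nat_lit 156) (PT.nd (nat_lit 78) (PT.lf (nat_lit 30248) (nat_lit 6) (nat_lit 398) (nat_lit 2) (nat_lit 200) (nat_lit 206) (nat_lit 164)) (PT.lf (nat_lit 29412) (nat_lit 6) (nat_lit 387) (nat_lit 2) (nat_lit 201) (nat_lit 206) (nat_lit 163))) (PT.nd (nat_lit 78) (PT.lf (nat_lit 28500) (nat_lit 6) (nat_lit 375) (nat_lit 2) (nat_lit 202) (nat_lit 206) (nat_lit 162)) (PT.lf (nat_lit 27664) (nat_lit 6) (nat_lit 364) (nat_lit 2) (nat_lit 203) (nat_lit 206) (nat_lit 161))))) (PT.nd (nat_lit 312) (PT.nd (nat_lit 156) (PT.nd (nat_lit 78) (PT.lf (nat_lit 26828) (nat_lit 6) (nat_lit 353) (nat_lit 2) (nat_lit 204) (nat_lit 206) (nat_lit 160)) (PT.lf (nat_lit 26068) (nat_lit 6) (nat_lit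 343) (nat_lit 2) (nat_lit 205) (nat_lit 206) (nat_lit 159))) (PT.nd (nat_lit 78) (PT.lf (nat_lit 25308) (nat_lit 3) (nat_lit 333) (nat_lit 0) (nat_lit 206) (nat_lit 206) (nat_lit 158)) (PT.lf (nat_lit 24472) (nat_lit 6) (nat_lit 322) (nat_lit 0) (nat_lit 207) (nat_lit 206) (nat_lit 157)))) (PT.nd (nat_lit 156) (PT.nd (nat_lit 78) (PT.lf (nat_lit 23636) (nat_lit 6) (nat_lit 311) (nat_lit 0) (nat_lit 208) (nat_lit 206) (nat_lit 156)) (PT.lf (nat_lit 22876) (nat_lit 6) (nat_lit 301) (nat_lit 0) (nat_lit 209) (nat_lit 206) (nat_lit 155))) (PT.nd (nat_lit 78) (PT.lf (nat_lit 22116) (nat_lit 6) (nat_lit 291) (nat_lit 0) (nat_lit 210) (nat_lit 206) (nat_lit 154)) (PT.lf (nat_lit 21356) (nat_lit 6) (nat_lit 281) (nat_lit 0) (nat_lit 211) (nat_lit 206) (nat_lit 153))))))))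
noncomputable def pc42 : PT := (PT.nd (nat_lit 55770) (PT.nd (nat_lit 54522) (PT.nd (nat_lit 546) (PT.nd (nat_lit 234) (PT.nd (nat_lit 78) (PT.lf (nat_lit 20596) (nat_lit 6) (nat_lit 271) (nat_lit 0) (nat_lit 212) (nat_lit 206) (nat_lit 152)) (PT.nd (nat_lit 78) (PT.lf (nat_lit 19912) (nat_lit 6) (nat_lit 262) (nat_lit 0) (nat_lit 213) (nat_lit 206) (nat_lit 151)) (PT.lf (nat_lit 19228) (nat_lit 6) (nat_lit 253) (nat_lit 0) (nat_lit 214) (nat_lit 206) (nat_lit 150)))) (PT.nd (nat_lit 156) (PT.nd (nat_lit 78) (PT.lf (nat_lit 18544) (nat_lit 6) (nat_lit 244) (nat_lit 0) (nat_lit 215) (nat_lit 206) (nat_lit 149)) (PT.lf (nat_lit 17860) (nat_lit 6) (nat_lit 235) (nat_lit 0) (nat_lit 216) (nat_lit 206) (nat_lit 148))) (PT.nd (nat_lit 78) (PT.lf (nat_lit 17252) (nat_lit 6) (nat_lit 227) (nat_lit 0) (nat_lit 217) (nat_lit 206) (nat_lit 147)) (PT.lf (nat_lit 16644) (nat_lit 6) (nat_lit 219) (nat_lit 0) (nat_lit 218) (nat_lit 206) (nat_lit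 146))))) (PT.nd (nat_lit 53664) (PT.nd (nat_lit 53508) (PT.nd (nat_lit 53430) (PT.lf (nat_lit 16036) (nat_lit 6) (nat_lit 211) (nat_lit 0) (nat_lit 219) (nat_lit 206) (nat_lit 145)) (PT.lf (nat_lit 14972) (nat_lit 6) (nat_lit 197) (nat_lit 5) (nat_lit 143) (nat_lit 207) (nat_lit 220))) (PT.nd (nat_lit 78) (PT.lf (nat_lit 15504) (nat_lit 6) (nat_lit 204) (nat_lit 5) (nat_lit 144) (nat_lit 207) (nat_lit 219)) (PT.lf (nat_lit 16112) (nat_lit 6) (nat_lit 212) (nat_lit 5) (nat_lit 145) (nat_lit 207) (nat_lit 218)))) (PT.nd (nat_lit 156) (PT.nd (nat_lit 78) (PT.lf (nat_lit 16720) (nat_lit 6) (nat_lit 220) (nat_lit 5) (nat_lit 146) (nat_lit 207) (nat_lit 217)) (PT.lf (nat_lit 17328) (nat_lit 6) (nat_lit 228) (nat_lit 5) (nat_lit 147) (nat_lit 207) (nat_lit 216))) (PT.nd (nat_lit 78) (PT.lf (nat_lit 17936) (nat_lit 6) (nat_lit 236) (nat_lit 5) (nat_lit 148) (nat_lit 207) (nat_lit 215)) (PT.lf (nat_lit 18620) (nat_lit 6) (nat_lit 245)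 (nat_lit 5) (nat_lit 149) (nat_lit 207) (nat_lit 214)))))) (PT.nd (nat_lit 624) (PT.nd (nat_lit 312) (PT.nd (nat_lit 156) (PT.nd (nat_lit 78) (PT.lf (nat_lit 19304) (nat_lit 6) (nat_lit 254) (nat_lit 5) (nat_lit 150) (nat_lit 207) (nat_lit 213)) (PT.lf (nat_lit 19988) (nat_lit 6) (nat_lit 263) (nat_lit 5) (nat_lit 151) (nat_lit 207) (nat_lit 212))) (PT.nd (nat_lit 78) (PT.lf (nat_lit 20672) (nat_lit 6) (nat_lit 272) (nat_lit 5) (nat_lit 152) (nat_lit 207) (nat_lit 211)) (PT.lf (nat_lit 21432) (nat_lit 6) (nat_lit 282) (nat_lit 5) (nat_lit 153) (nat_lit 207) (nat_lit 210)))) (PT.nd (nat_lit 156) (PT.nd (nat_lit 78) (PT.lf (nat_lit 22192) (nat_lit 6) (nat_lit 292) (nat_lit 5) (nat_lit 154) (nat_lit 207) (nat_lit 209)) (PT.lf (nat_lit 22952) (nat_lit 6) (nat_lit 302) (nat_lit 5) (nat_lit 155) (nat_lit 207) (nat_lit 208))) (PT.nd (nat_lit 78) (PT.lf (nat_lit 23712) (nat_lit 3) (nat_lit 312) (nat_lit 4) (nat_lit 156) (nat_lit 207)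 (nat_lit 207)) (PT.lf (nat_lit 24472) (nat_lit 6) (nat_lit 322) (nat_lit 4) (nat_lit 157) (nat_lit 207) (nat_lit 206))))) (PT.nd (nat_lit 312) (PT.nd (nat_lit 156) (PT.nd (nat_lit 78) (PT.lf (nat_lit 25232) (nat_lit 6) (nat_lit 332) (nat_lit 4) (nat_lit 158) (nat_lit 207) (nat_lit 205)) (PT.lf (nat_lit 25992) (nat_lit 6) (nat_lit 342) (nat_lit 4) (nat_lit 159) (nat_lit 207) (nat_lit 204))) (PT.nd (nat_lit 78) (PT.lf (nat_lit 26752) (nat_lit 6) (nat_lit 352) (nat_lit 4) (nat_lit 160) (nat_lit 207) (nat_lit 203)) (PT.lf (nat_lit 27588) (nat_lit 6) (nat_lit 363) (nat_lit 4) (nat_lit 161) (nat_lit 207) (nat_lit 202)))) (PT.nd (nat_lit 156) (PT.nd (nat_lit 78) (PT.lf (nat_lit 28424) (nat_lit 6) (nat_lit 374) (nat_lit 4) (nat_lit 162) (nat_lit 207) (nat_lit 201)) (PT.lf (nat_lit 29336) (nat_lit 6) (nat_lit 386) (nat_lit 4) (nat_lit 163) (nat_lit 207) (nat_lit 200))) (PT.nd (nat_lit 78) (PT.lf (nat_lit 30172) (nat_lit 6) (nat_lit 397)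 (nat_lit 4) (nat_lit 164) (nat_lit 207) (nat_lit 199)) (PT.lf (nat_lit 31084) (nat_lit 6) (nat_lit 409) (nat_lit 4) (nat_lit 165) (nat_lit 207) (nat_lit 198))))))) (PT.nd (nat_lit 1248) (PT.nd (nat_lit 624) (PT.nd (nat_lit 312) (PT.nd (nat_lit 156) (PT.nd (nat_lit 78) (PT.lf (nat_lit 32376) (nat_lit 6) (nat_lit 426) (nat_lit 4) (nat_lit 166) (nat_lit 207) (nat_lit 197)) (PT.lf (nat_lit 34124) (nat_lit 6) (nat_lit 449) (nat_lit 4) (nat_lit 167) (nat_lit 207) (nat_lit 196))) (PT.nd (nat_lit 78) (PT.lf (nat_lit 35796) (nat_lit 6) (nat_lit 471) (nat_lit 4) (nat_lit 168) (nat_lit 207) (nat_lit 195)) (PT.lf (nat_lit 37392) (nat_lit 6) (nat_lit 492) (nat_lit 4) (nat_lit 169) (nat_lit 207) (nat_lit 194)))) (PT.nd (nat_lit 156) (PT.nd (nat_lit 78) (PT.lf (nat_lit 38912) (nat_lit 6) (nat_lit 512) (nat_lit 4) (nat_lit 170) (nat_lit 207) (nat_lit 193)) (PT.lf (nat_lit 40356) (nat_lit 6) (nat_lit 531) (nat_lit 4) (nat_lit 171) (nat_lit 207)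 (nat_lit 192))) (PT.nd (nat_lit 78) (PT.lf (nat_lit 41724) (nat_lit 6) (nat_lit 549) (nat_lit 4) (nat_lit 172) (nat_lit 207) (nat_lit 191)) (PT.lf (nat_lit 43016) (nat_lit 6) (nat_lit 566) (nat_lit 4) (nat_lit 173) (nat_lit 207) (nat_lit 190))))) (PT.nd (nat_lit 312) (PT.nd (nat_lit 156) (PT.nd (nat_lit 78) (PT.lf (nat_lit 42940) (nat_lit 6) (nat_lit 565) (nat_lit 4) (nat_lit 174) (nat_lit 207) (nat_lit 189)) (PT.lf (nat_lit 42864) (nat_lit 6) (nat_lit 564) (nat_lit 4) (nat_lit 175) (nat_lit 207) (nat_lit 188))) (PT.nd (nat_lit 78) (PT.lf (nat_lit 42788) (nat_lit 6) (nat_lit 563) (nat_lit 4) (nat_lit 176) (nat_lit 207) (nat_lit 187)) (PT.lf (nat_lit 42712) (nat_lit 6) (nat_lit 562) (nat_lit 4) (nat_lit 177) (nat_lit 207) (nat_lit 186)))) (PT.nd (nat_lit 156) (PT.nd (nat_lit 78) (PT.lf (nat_lit 42636) (nat_lit 6) (nat_lit 561) (nat_lit 4) (nat_lit 178) (nat_lit 207) (nat_lit 185)) (PT.lf (nat_lit 42560) (nat_lit 6) (nat_lit 560)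 (nat_lit 4) (nat_lit 179) (nat_lit 207) (nat_lit 184))) (PT.nd (nat_lit 78) (PT.lf (nat_lit 42484) (nat_lit 6) (nat_lit 559) (nat_lit 4) (nat_lit 180) (nat_lit 207) (nat_lit 183)) (PT.lf (nat_lit 42408) (nat_lit 6) (nat_lit 558) (nat_lit 4) (nat_lit 181) (nat_lit 207) (nat_lit 182)))))) (PT.nd (nat_lit 624) (PT.nd (nat_lit 312) (PT.nd (nat_lit 156) (PT.nd (nat_lit 78) (PT.lf (nat_lit 42408) (nat_lit 6) (nat_lit 558) (nat_lit 2) (nat_lit 182) (nat_lit 207) (nat_lit 181)) (PT.lf (nat_lit 42484) (nat_lit 6) (nat_lit 559) (nat_lit 2) (nat_lit 183) (nat_lit 207) (nat_lit 180))) (PT.nd (nat_lit 78) (PT.lf (nat_lit 42560) (nat_lit 6) (nat_lit 560) (nat_lit 2) (nat_lit 184) (nat_lit 207) (nat_lit 179)) (PT.lf (nat_lit 42636) (nat_lit 6) (nat_lit 561) (nat_lit 2) (nat_lit 185) (nat_lit 207) (nat_lit 178)))) (PT.nd (nat_lit 156) (PT.nd (nat_lit 78) (PT.lf (nat_lit 42712) (nat_lit 6) (nat_lit 562) (nat_lit 2) (nat_lit 186) (nat_lit 207)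 (nat_lit 177)) (PT.lf (nat_lit 42788) (nat_lit 6) (nat_lit 563) (nat_lit 2) (nat_lit 187) (nat_lit 207) (nat_lit 176))) (PT.nd (nat_lit 78) (PT.lf (nat_lit 42864) (nat_lit 6) (nat_lit 564) (nat_lit 2) (nat_lit 188) (nat_lit 207) (nat_lit 175)) (PT.lf (nat_lit 42940) (nat_lit 6) (nat_lit 565) (nat_lit 2) (nat_lit 189) (nat_lit 207) (nat_lit 174))))) (PT.nd (nat_lit 312) (PT.nd (nat_lit 156) (PT.nd (nat_lit 78) (PT.lf (nat_lit 43016) (nat_lit 6) (nat_lit 566) (nat_lit 2) (nat_lit 190) (nat_lit 207) (nat_lit 173)) (PT.lf (nat_lit 41724) (nat_lit 6) (nat_lit 549) (nat_lit 2) (nat_lit 191) (nat_lit 207) (nat_lit 172))) (PT.nd (nat_lit 78) (PT.lf (nat_lit 40356) (nat_lit 6) (nat_lit 531) (nat_lit 2) (nat_lit 192) (nat_lit 207) (nat_lit 171)) (PT.lf (nat_lit 38912) (nat_lit 6) (nat_lit 512) (nat_lit 2) (nat_lit 193) (nat_lit 207) (nat_lit 170)))) (PT.nd (nat_lit 156) (PT.nd (nat_lit 78) (PT.lf (nat_lit 37392) (nat_lit 6) (nat_lit 492)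 (nat_lit 2) (nat_lit 194) (nat_lit 207) (nat_lit 169)) (PT.lf (nat_lit 35796) (nat_lit 6) (nat_lit 471) (nat_lit 2) (nat_lit 195) (nat_lit 207) (nat_lit 168))) (PT.nd (nat_lit 78) (PT.lf (nat_lit 34124) (nat_lit 6) (nat_lit 449) (nat_lit 2) (nat_lit 196) (nat_lit 207) (nat_lit 167)) (PT.lf (nat_lit 32376) (nat_lit 6) (nat_lit 426) (nat_lit 2) (nat_lit 197) (nat_lit 207) (nat_lit 166))))))))
noncomputable def pc43 : PT := (PT.nd (nat_lit 55614) (PT.nd (nat_lit 1170) (PT.nd (nat_lit 546) (PT.nd (nat_lit 234) (PT.nd (nat_lit 78) (PT.lf (nat_lit 31084) (nat_lit 6) (nat_lit 409) (nat_lit 2) (nat_lit 198) (nat_lit 207) (nat_lit 165)) (PT.nd (nat_lit 78) (PT.lf (nat_lit 30172) (nat_lit 6) (nat_lit 397) (nat_lit 2) (nat_lit 199) (nat_lit 207) (nat_lit 164)) (PT.lf (nat_lit 29336) (nat_lit 6) (nat_lit 386) (nat_lit 2) (nat_lit 200) (nat_lit 207) (nat_lit 163)))) (PT.nd (nat_lit 156) (PT.nd (nat_lit 78) (PT.lf (nat_lit 28424) (nat_lit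 6) (nat_lit 374) (nat_lit 2) (nat_lit 201) (nat_lit 207) (nat_lit 162)) (PT.lf (nat_lit 27588) (nat_lit 6) (nat_lit 363) (nat_lit 2) (nat_lit 202) (nat_lit 207) (nat_lit 161))) (PT.nd (nat_lit 78) (PT.lf (nat_lit 26752) (nat_lit 6) (nat_lit 352) (nat_lit 2) (nat_lit 203) (nat_lit 207) (nat_lit 160)) (PT.lf (nat_lit 25992) (nat_lit 6) (nat_lit 342) (nat_lit 2) (nat_lit 204) (nat_lit 207) (nat_lit 159))))) (PT.nd (nat_lit 312) (PT.nd (nat_lit 156) (PT.nd (nat_lit 78) (PT.lf (nat_lit 25232) (nat_lit 6) (nat_lit 332) (nat_lit 2) (nat_lit 205) (nat_lit 207) (nat_lit 158)) (PT.lf (nat_lit 24472) (nat_lit 6) (nat_lit 322) (nat_lit 2) (nat_lit 206) (nat_lit 207) (nat_lit 157))) (PT.nd (nat_lit 78) (PT.lf (nat_lit 23712) (nat_lit 3) (nat_lit 312) (nat_lit 0) (nat_lit 207) (nat_lit 207) (nat_lit 156)) (PT.lf (nat_lit 22952) (nat_lit 6) (nat_lit 302) (nat_lit 0) (nat_lit 208) (nat_lit 207) (nat_lit 155)))) (PT.nd (nat_lit 156) (PT.nd (nat_lit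 78) (PT.lf (nat_lit 22192) (nat_lit 6) (nat_lit 292) (nat_lit 0) (nat_lit 209) (nat_lit 207) (nat_lit 154)) (PT.lf (nat_lit 21432) (nat_lit 6) (nat_lit 282) (nat_lit 0) (nat_lit 210) (nat_lit 207) (nat_lit 153))) (PT.nd (nat_lit 78) (PT.lf (nat_lit 20672) (nat_lit 6) (nat_lit 272) (nat_lit 0) (nat_lit 211) (nat_lit 207) (nat_lit 152)) (PT.lf (nat_lit 19988) (nat_lit 6) (nat_lit 263) (nat_lit 0) (nat_lit 212) (nat_lit 207) (nat_lit 151)))))) (PT.nd (nat_lit 53820) (PT.nd (nat_lit 312) (PT.nd (nat_lit 156) (PT.nd (nat_lit 78) (PT.lf (nat_lit 19304) (nat_lit 6) (nat_lit 254) (nat_lit 0) (nat_lit 213) (nat_lit 207) (nat_lit 150)) (PT.lf (nat_lit 18620) (nat_lit 6) (nat_lit 245) (nat_lit 0) (nat_lit 214) (nat_lit 207) (nat_lit 149))) (PT.nd (nat_lit 78) (PT.lf (nat_lit 17936) (nat_lit 6) (nat_lit 236) (nat_lit 0) (nat_lit 215) (nat_lit 207) (nat_lit 148)) (PT.lf (nat_lit 17328) (nat_lit 6) (nat_lit 228) (nat_lit 0) (nat_lit 216)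 (nat_lit 207) (nat_lit 147)))) (PT.nd (nat_lit 156) (PT.nd (nat_lit 78) (PT.lf (nat_lit 16720) (nat_lit 6) (nat_lit 220) (nat_lit 0) (nat_lit 217) (nat_lit 207) (nat_lit 146)) (PT.lf (nat_lit 16112) (nat_lit 6) (nat_lit 212) (nat_lit 0) (nat_lit 218) (nat_lit 207) (nat_lit 145))) (PT.nd (nat_lit 78) (PT.lf (nat_lit 15504) (nat_lit 6) (nat_lit 204) (nat_lit 0) (nat_lit 219) (nat_lit 207) (nat_lit 144)) (PT.lf (nat_lit 14972) (nat_lit 6) (nat_lit 197) (nat_lit 0) (nat_lit 220) (nat_lit 207) (nat_lit 143))))) (PT.nd (nat_lit 312) (PT.nd (nat_lit 156) (PT.nd (nat_lit 78) (PT.lf (nat_lit 14440) (nat_lit 6) (nat_lit 190) (nat_lit 5) (nat_lit 142) (nat_lit 208) (nat_lit 220)) (PT.lf (nat_lit 15048) (nat_lit 6) (nat_lit 198) (nat_lit 5) (nat_lit 143) (nat_lit 208) (nat_lit 219))) (PT.nd (nat_lit 78) (PT.lf (nat_lit 15580) (nat_lit 6) (nat_lit 205) (nat_lit 5) (nat_lit 144) (nat_lit 208) (nat_lit 218)) (PT.lf (nat_lit 16188) (nat_lit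 6) (nat_lit 213) (nat_lit 5) (nat_lit 145) (nat_lit 208) (nat_lit 217)))) (PT.nd (nat_lit 156) (PT.nd (nat_lit 78) (PT.lf (nat_lit 16796) (nat_lit 6) (nat_lit 221) (nat_lit 5) (nat_lit 146) (nat_lit 208) (nat_lit 216)) (PT.lf (nat_lit 17404) (nat_lit 6) (nat_lit 229) (nat_lit 5) (nat_lit 147) (nat_lit 208) (nat_lit 215))) (PT.nd (nat_lit 78) (PT.lf (nat_lit 18012) (nat_lit 6) (nat_lit 237) (nat_lit 5) (nat_lit 148) (nat_lit 208) (nat_lit 214)) (PT.lf (nat_lit 18696) (nat_lit 6) (nat_lit 246) (nat_lit 5) (nat_lit 149) (nat_lit 208) (nat_lit 213))))))) (PT.nd (nat_lit 1248) (PT.nd (nat_lit 624) (PT.nd (nat_lit 312) (PT.nd (nat_lit 156) (PT.nd (nat_lit 78) (PT.lf (nat_lit 19380) (nat_lit 6) (nat_lit 255) (nat_lit 5) (nat_lit 150) (nat_lit 208) (nat_lit 212)) (PT.lf (nat_lit 20064) (nat_lit 6) (nat_lit 264) (nat_lit 5) (nat_lit 151) (nat_lit 208) (nat_lit 211))) (PT.nd (nat_lit 78) (PT.lf (nat_lit 20748) (nat_lit 6) (nat_lit 273)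 (nat_lit 5) (nat_lit 152) (nat_lit 208) (nat_lit 210)) (PT.lf (nat_lit 21508) (nat_lit 6) (nat_lit 283) (nat_lit 5) (nat_lit 153) (nat_lit 208) (nat_lit 209)))) (PT.nd (nat_lit 156) (PT.nd (nat_lit 78) (PT.lf (nat_lit 22268) (nat_lit 3) (nat_lit 293) (nat_lit 4) (nat_lit 154) (nat_lit 208) (nat_lit 208)) (PT.lf (nat_lit 22952) (nat_lit 6) (nat_lit 302) (nat_lit 4) (nat_lit 155) (nat_lit 208) (nat_lit 207))) (PT.nd (nat_lit 78) (PT.lf (nat_lit 23636) (nat_lit 6) (nat_lit 311) (nat_lit 4) (nat_lit 156) (nat_lit 208) (nat_lit 206)) (PT.lf (nat_lit 24396) (nat_lit 6) (nat_lit 321) (nat_lit 4) (nat_lit 157) (nat_lit 208) (nat_lit 205))))) (PT.nd (nat_lit 312) (PT.nd (nat_lit 156) (PT.nd (nat_lit 78) (PT.lf (nat_lit 25156) (nat_lit 6) (nat_lit 331) (nat_lit 4) (nat_lit 158) (nat_lit 208) (nat_lit 204)) (PT.lf (nat_lit 25916) (nat_lit 6) (nat_lit 341) (nat_lit 4) (nat_lit 159) (nat_lit 208) (nat_lit 203))) (PT.nd (nat_lit 78) (PT.lf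 (nat_lit 26676) (nat_lit 6) (nat_lit 351) (nat_lit 4) (nat_lit 160) (nat_lit 208) (nat_lit 202)) (PT.lf (nat_lit 27512) (nat_lit 6) (nat_lit 362) (nat_lit 4) (nat_lit 161) (nat_lit 208) (nat_lit 201)))) (PT.nd (nat_lit 156) (PT.nd (nat_lit 78) (PT.lf (nat_lit 28348) (nat_lit 6) (nat_lit 373) (nat_lit 4) (nat_lit 162) (nat_lit 208) (nat_lit 200)) (PT.lf (nat_lit 29260) (nat_lit 6) (nat_lit 385) (nat_lit 4) (nat_lit 163) (nat_lit 208) (nat_lit 199))) (PT.nd (nat_lit 78) (PT.lf (nat_lit 30096) (nat_lit 6) (nat_lit 396) (nat_lit 4) (nat_lit 164) (nat_lit 208) (nat_lit 198)) (PT.lf (nat_lit 31008) (nat_lit 6) (nat_lit 408) (nat_lit 4) (nat_lit 165) (nat_lit 208) (nat_lit 197)))))) (PT.nd (nat_lit 624) (PT.nd (nat_lit 312) (PT.nd (nat_lit 156) (PT.nd (nat_lit 78) (PT.lf (nat_lit 32300) (nat_lit 6) (nat_lit 425) (nat_lit 4) (nat_lit 166) (nat_lit 208) (nat_lit 196)) (PT.lf (nat_lit 34048) (nat_lit 6) (nat_lit 448) (nat_lit 4) (nat_lit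 167) (nat_lit 208) (nat_lit 195))) (PT.nd (nat_lit 78) (PT.lf (nat_lit 35720) (nat_lit 6) (nat_lit 470) (nat_lit 4) (nat_lit 168) (nat_lit 208) (nat_lit 194)) (PT.lf (nat_lit 37316) (nat_lit 6) (nat_lit 491) (nat_lit 4) (nat_lit 169) (nat_lit 208) (nat_lit 193)))) (PT.nd (nat_lit 156) (PT.nd (nat_lit 78) (PT.lf (nat_lit 38836) (nat_lit 6) (nat_lit 511) (nat_lit 4) (nat_lit 170) (nat_lit 208) (nat_lit 192)) (PT.lf (nat_lit 40280) (nat_lit 6) (nat_lit 530) (nat_lit 4) (nat_lit 171) (nat_lit 208) (nat_lit 191))) (PT.nd (nat_lit 78) (PT.lf (nat_lit 41648) (nat_lit 6) (nat_lit 548) (nat_lit 4) (nat_lit 172) (nat_lit 208) (nat_lit 190)) (PT.lf (nat_lit 41572) (nat_lit 6) (nat_lit 547) (nat_lit 4) (nat_lit 173) (nat_lit 208) (nat_lit 189))))) (PT.nd (nat_lit 312) (PT.nd (nat_lit 156) (PT.nd (nat_lit 78) (PT.lf (nat_lit 41496) (nat_lit 6) (nat_lit 546) (nat_lit 4) (nat_lit 174) (nat_lit 208) (nat_lit 188)) (PT.lf (nat_lit 41420) (nat_lit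 6) (nat_lit 545) (nat_lit 4) (nat_lit 175) (nat_lit 208) (nat_lit 187))) (PT.nd (nat_lit 78) (PT.lf (nat_lit 41344) (nat_lit 6) (nat_lit 544) (nat_lit 4) (nat_lit 176) (nat_lit 208) (nat_lit 186)) (PT.lf (nat_lit 41268) (nat_lit 6) (nat_lit 543) (nat_lit 4) (nat_lit 177) (nat_lit 208) (nat_lit 185)))) (PT.nd (nat_lit 156) (PT.nd (nat_lit 78) (PT.lf (nat_lit 41192) (nat_lit 6) (nat_lit 542) (nat_lit 4) (nat_lit 178) (nat_lit 208) (nat_lit 184)) (PT.lf (nat_lit 41116) (nat_lit 6) (nat_lit 541) (nat_lit 4) (nat_lit 179) (nat_lit 208) (nat_lit 183))) (PT.nd (nat_lit 78) (PT.lf (nat_lit 41040) (nat_lit 6) (nat_lit 540) (nat_lit 4) (nat_lit 180) (nat_lit 208) (nat_lit 182)) (PT.lf (nat_lit 40964) (nat_lit 3) (nat_lit 539) (nat_lit 2) (nat_lit 181) (nat_lit 208) (nat_lit 181))))))))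
noncomputable def pc44 : PT := (PT.nd (nat_lit 2418) (PT.nd (nat_lit 1170) (PT.nd (nat_lit 546) (PT.nd (nat_lit 234) (PT.nd (nat_lit 78) (PT.lf (nat_lit 41040) (nat_lit 6) (nat_lit 540) (nat_lit 2) (nat_lit 182) (nat_lit 208) (nat_lit 180)) (PT.nd (nat_lit 78) (PT.lf (nat_lit 41116) (nat_lit 6) (nat_lit 541) (nat_lit 2) (nat_lit 183) (nat_lit 208) (nat_lit 179)) (PT.lf (nat_lit 41192) (nat_lit 6) (nat_lit 542) (nat_lit 2) (nat_lit 184) (nat_lit 208) (nat_lit 178)))) (PT.nd (nat_lit 156) (PT.nd (nat_lit 78) (PT.lf (nat_lit 41268) (nat_lit 6) (nat_lit 543) (nat_lit 2) (nat_lit 185) (nat_lit 208) (nat_lit 177)) (PT.lf (nat_lit 41344) (nat_lit 6) (nat_lit 544) (nat_lit 2) (nat_lit 186) (nat_lit 208) (nat_lit 176))) (PT.nd (nat_lit 78) (PT.lf (nat_lit 41420) (nat_lit 6) (nat_lit 545) (nat_lit 2) (nat_lit 187) (nat_lit 208) (nat_lit 175)) (PT.lf (nat_lit 41496) (nat_lit 6) (nat_lit 546) (nat_lit 2) (nat_lit 188) (nat_lit 208) (nat_lit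 174))))) (PT.nd (nat_lit 312) (PT.nd (nat_lit 156) (PT.nd (nat_lit 78) (PT.lf (nat_lit 41572) (nat_lit 6) (nat_lit 547) (nat_lit 2) (nat_lit 189) (nat_lit 208) (nat_lit 173)) (PT.lf (nat_lit 41648) (nat_lit 6) (nat_lit 548) (nat_lit 2) (nat_lit 190) (nat_lit 208) (nat_lit 172))) (PT.nd (nat_lit 78) (PT.lf (nat_lit 40280) (nat_lit 6) (nat_lit 530) (nat_lit 2) (nat_lit 191) (nat_lit 208) (nat_lit 171)) (PT.lf (nat_lit 38836) (nat_lit 6) (nat_lit 511) (nat_lit 2) (nat_lit 192) (nat_lit 208) (nat_lit 170)))) (PT.nd (nat_lit 156) (PT.nd (nat_lit 78) (PT.lf (nat_lit 37316) (nat_lit 6) (nat_lit 491) (nat_lit 2) (nat_lit 193) (nat_lit 208) (nat_lit 169)) (PT.lf (nat_lit 35720) (nat_lit 6) (nat_lit 470) (nat_lit 2) (nat_lit 194) (nat_lit 208) (nat_lit 168))) (PT.nd (nat_lit 78) (PT.lf (nat_lit 34048) (nat_lit 6) (nat_lit 448) (nat_lit 2) (nat_lit 195) (nat_lit 208) (nat_lit 167)) (PT.lf (nat_lit 32300) (nat_lit 6) (nat_lit 425) (nat_lit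 2) (nat_lit 196) (nat_lit 208) (nat_lit 166)))))) (PT.nd (nat_lit 624) (PT.nd (nat_lit 312) (PT.nd (nat_lit 156) (PT.nd (nat_lit 78) (PT.lf (nat_lit 31008) (nat_lit 6) (nat_lit 408) (nat_lit 2) (nat_lit 197) (nat_lit 208) (nat_lit 165)) (PT.lf (nat_lit 30096) (nat_lit 6) (nat_lit 396) (nat_lit 2) (nat_lit 198) (nat_lit 208) (nat_lit 164))) (PT.nd (nat_lit 78) (PT.lf (nat_lit 29260) (nat_lit 6) (nat_lit 385) (nat_lit 2) (nat_lit 199) (nat_lit 208) (nat_lit 163)) (PT.lf (nat_lit 28348) (nat_lit 6) (nat_lit 373) (nat_lit 2) (nat_lit 200) (nat_lit 208) (nat_lit 162)))) (PT.nd (nat_lit 156) (PT.nd (nat_lit 78) (PT.lf (nat_lit 27512) (nat_lit 6) (nat_lit 362) (nat_lit 2) (nat_lit 201) (nat_lit 208) (nat_lit 161)) (PT.lf (nat_lit 26676) (nat_lit 6) (nat_lit 351) (nat_lit 2) (nat_lit 202) (nat_lit 208) (nat_lit 160))) (PT.nd (nat_lit 78) (PT.lf (nat_lit 25916) (nat_lit 6) (nat_lit 341) (nat_lit 2) (nat_lit 203) (nat_lit 208) (nat_lit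 159)) (PT.lf (nat_lit 25156) (nat_lit 6) (nat_lit 331) (nat_lit 2) (nat_lit 204) (nat_lit 208) (nat_lit 158))))) (PT.nd (nat_lit 312) (PT.nd (nat_lit 156) (PT.nd (nat_lit 78) (PT.lf (nat_lit 24396) (nat_lit 6) (nat_lit 321) (nat_lit 2) (nat_lit 205) (nat_lit 208) (nat_lit 157)) (PT.lf (nat_lit 23636) (nat_lit 6) (nat_lit 311) (nat_lit 2) (nat_lit 206) (nat_lit 208) (nat_lit 156))) (PT.nd (nat_lit 78) (PT.lf (nat_lit 22952) (nat_lit 6) (nat_lit 302) (nat_lit 2) (nat_lit 207) (nat_lit 208) (nat_lit 155)) (PT.lf (nat_lit 22268) (nat_lit 3) (nat_lit 293) (nat_lit 0) (nat_lit 208) (nat_lit 208) (nat_lit 154)))) (PT.nd (nat_lit 156) (PT.nd (nat_lit 78) (PT.lf (nat_lit 21508) (nat_lit 6) (nat_lit 283) (nat_lit 0) (nat_lit 209) (nat_lit 208) (nat_lit 153)) (PT.lf (nat_lit 20748) (nat_lit 6) (nat_lit 273) (nat_lit 0) (nat_lit 210) (nat_lit 208) (nat_lit 152))) (PT.nd (nat_lit 78) (PT.lf (nat_lit 20064) (nat_lit 6) (nat_lit 264) (nat_lit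 0) (nat_lit 211) (nat_lit 208) (nat_lit 151)) (PT.lf (nat_lit 19380) (nat_lit 6) (nat_lit 255) (nat_lit 0) (nat_lit 212) (nat_lit 208) (nat_lit 150))))))) (PT.nd (nat_lit 54288) (PT.nd (nat_lit 53664) (PT.nd (nat_lit 312) (PT.nd (nat_lit 156) (PT.nd (nat_lit 78) (PT.lf (nat_lit 18696) (nat_lit 6) (nat_lit 246) (nat_lit 0) (nat_lit 213) (nat_lit 208) (nat_lit 149)) (PT.lf (nat_lit 18012) (nat_lit 6) (nat_lit 237) (nat_lit 0) (nat_lit 214) (nat_lit 208) (nat_lit 148))) (PT.nd (nat_lit 78) (PT.lf (nat_lit 17404) (nat_lit 6) (nat_lit 229) (nat_lit 0) (nat_lit 215) (nat_lit 208) (nat_lit 147)) (PT.lf (nat_lit 16796) (nat_lit 6) (nat_lit 221) (nat_lit 0) (nat_lit 216) (nat_lit 208) (nat_lit 146)))) (PT.nd (nat_lit 156) (PT.nd (nat_lit 78) (PT.lf (nat_lit 16188) (nat_lit 6) (nat_lit 213) (nat_lit 0) (nat_lit 217) (nat_lit 208) (nat_lit 145)) (PT.lf (nat_lit 15580) (nat_lit 6) (nat_lit 205) (nat_lit 0) (nat_lit 218) (nat_lit 208) (nat_lit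 144))) (PT.nd (nat_lit 78) (PT.lf (nat_lit 15048) (nat_lit 6) (nat_lit 198) (nat_lit 0) (nat_lit 219) (nat_lit 208) (nat_lit 143)) (PT.lf (nat_lit 14440) (nat_lit 6) (nat_lit 190) (nat_lit 0) (nat_lit 220) (nat_lit 208) (nat_lit 142))))) (PT.nd (nat_lit 312) (PT.nd (nat_lit 156) (PT.nd (nat_lit 78) (PT.lf (nat_lit 13452) (nat_lit 6) (nat_lit 177) (nat_lit 5) (nat_lit 140) (nat_lit 209) (nat_lit 221)) (PT.lf (nat_lit 13984) (nat_lit 6) (nat_lit 184) (nat_lit 5) (nat_lit 141) (nat_lit 209) (nat_lit 220))) (PT.nd (nat_lit 78) (PT.lf (nat_lit 14516) (nat_lit 6) (nat_lit 191) (nat_lit 5) (nat_lit 142) (nat_lit 209) (nat_lit 219)) (PT.lf (nat_lit 15124) (nat_lit 6) (nat_lit 199) (nat_lit 5) (nat_lit 143) (nat_lit 209) (nat_lit 218)))) (PT.nd (nat_lit 156) (PT.nd (nat_lit 78) (PT.lf (nat_lit 15656) (nat_lit 6) (nat_lit 206) (nat_lit 5) (nat_lit 144) (nat_lit 209) (nat_lit 217)) (PT.lf (nat_lit 16264) (nat_lit 6) (nat_lit 214) (nat_lit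 5) (nat_lit 145) (nat_lit 209) (nat_lit 216))) (PT.nd (nat_lit 78) (PT.lf (nat_lit 16872) (nat_lit 6) (nat_lit 222) (nat_lit 5) (nat_lit 146) (nat_lit 209) (nat_lit 215)) (PT.lf (nat_lit 17480) (nat_lit 6) (nat_lit 230) (nat_lit 5) (nat_lit 147) (nat_lit 209) (nat_lit 214)))))) (PT.nd (nat_lit 624) (PT.nd (nat_lit 312) (PT.nd (nat_lit 156) (PT.nd (nat_lit 78) (PT.lf (nat_lit 18088) (nat_lit 6) (nat_lit 238) (nat_lit 5) (nat_lit 148) (nat_lit 209) (nat_lit 213)) (PT.lf (nat_lit 18772) (nat_lit 6) (nat_lit 247) (nat_lit 5) (nat_lit 149) (nat_lit 209) (nat_lit 212))) (PT.nd (nat_lit 78) (PT.lf (nat_lit 19456) (nat_lit 6) (nat_lit 256) (nat_lit 5) (nat_lit 150) (nat_lit 209) (nat_lit 211)) (PT.lf (nat_lit 20140) (nat_lit 6) (nat_lit 265) (nat_lit 5) (nat_lit 151) (nat_lit 209) (nat_lit 210)))) (PT.nd (nat_lit 156) (PT.nd (nat_lit 78) (PT.lf (nat_lit 20824) (nat_lit 3) (nat_lit 274) (nat_lit 4) (nat_lit 152) (nat_lit 209) (nat_lit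 209)) (PT.lf (nat_lit 21508) (nat_lit 6) (nat_lit 283) (nat_lit 4) (nat_lit 153) (nat_lit 209) (nat_lit 208))) (PT.nd (nat_lit 78) (PT.lf (nat_lit 22192) (nat_lit 6) (nat_lit 292) (nat_lit 4) (nat_lit 154) (nat_lit 209) (nat_lit 207)) (PT.lf (nat_lit 22876) (nat_lit 6) (nat_lit 301) (nat_lit 4) (nat_lit 155) (nat_lit 209) (nat_lit 206))))) (PT.nd (nat_lit 312) (PT.nd (nat_lit 156) (PT.nd (nat_lit 78) (PT.lf (nat_lit 23560) (nat_lit 6) (nat_lit 310) (nat_lit 4) (nat_lit 156) (nat_lit 209) (nat_lit 205)) (PT.lf (nat_lit 24320) (nat_lit 6) (nat_lit 320) (nat_lit 4) (nat_lit 157) (nat_lit 209) (nat_lit 204))) (PT.nd (nat_lit 78) (PT.lf (nat_lit 25080) (nat_lit 6) (nat_lit 330) (nat_lit 4) (nat_lit 158) (nat_lit 209) (nat_lit 203)) (PT.lf (nat_lit 25840) (nat_lit 6) (nat_lit 340) (nat_lit 4) (nat_lit 159) (nat_lit 209) (nat_lit 202)))) (PT.nd (nat_lit 156) (PT.nd (nat_lit 78) (PT.lf (nat_lit 26600) (nat_lit 6) (nat_lit 350) (nat_lit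 4) (nat_lit 160) (nat_lit 209) (nat_lit 201)) (PT.lf (nat_lit 27436) (nat_lit 6) (nat_lit 361) (nat_lit 4) (nat_lit 161) (nat_lit 209) (nat_lit 200))) (PT.nd (nat_lit 78) (PT.lf (nat_lit 28272) (nat_lit 6) (nat_lit 372) (nat_lit 4) (nat_lit 162) (nat_lit 209) (nat_lit 199)) (PT.lf (nat_lit 29184) (nat_lit 6) (nat_lit 384) (nat_lit 4) (nat_lit 163) (nat_lit 209) (nat_lit 198))))))))
noncomputable def pc45 : PT := (PT.nd (nat_lit 2418) (PT.nd (nat_lit 1170) (PT.nd (nat_lit 546) (PT.nd (nat_lit 234) (PT.nd (nat_lit 78) (PT.lf (nat_lit 30020) (nat_lit 6) (nat_lit 395) (nat_lit 4) (nat_lit 164) (nat_lit 209) (nat_lit 197)) (PT.nd (nat_lit 78) (PT.lf (nat_lit 30932) (nat_lit 6) (nat_lit 407) (nat_lit 4) (nat_lit 165) (nat_lit 209) (nat_lit 196)) (PT.lf (nat_lit 32224) (nat_lit 6) (nat_lit 424) (nat_lit 4) (nat_lit 166) (nat_lit 209) (nat_lit 195)))) (PT.nd (nat_lit 156) (PT.nd (nat_lit 78) (PT.lf (nat_lit 33972) (nat_lit 6) (nat_lit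 447) (nat_lit 4) (nat_lit 167) (nat_lit 209) (nat_lit 194)) (PT.lf (nat_lit 35644) (nat_lit 6) (nat_lit 469) (nat_lit 4) (nat_lit 168) (nat_lit 209) (nat_lit 193))) (PT.nd (nat_lit 78) (PT.lf (nat_lit 37240) (nat_lit 6) (nat_lit 490) (nat_lit 4) (nat_lit 169) (nat_lit 209) (nat_lit 192)) (PT.lf (nat_lit 38760) (nat_lit 6) (nat_lit 510) (nat_lit 4) (nat_lit 170) (nat_lit 209) (nat_lit 191))))) (PT.nd (nat_lit 312) (PT.nd (nat_lit 156) (PT.nd (nat_lit 78) (PT.lf (nat_lit 40204) (nat_lit 6) (nat_lit 529) (nat_lit 4) (nat_lit 171) (nat_lit 209) (nat_lit 190)) (PT.lf (nat_lit 40128) (nat_lit 6) (nat_lit 528) (nat_lit 4) (nat_lit 172) (nat_lit 209) (nat_lit 189))) (PT.nd (nat_lit 78) (PT.lf (nat_lit 40052) (nat_lit 6) (nat_lit 527) (nat_lit 4) (nat_lit 173) (nat_lit 209) (nat_lit 188)) (PT.lf (nat_lit 39976) (nat_lit 6) (nat_lit 526) (nat_lit 4) (nat_lit 174) (nat_lit 209) (nat_lit 187)))) (PT.nd (nat_lit 156) (PT.nd (nat_lit 78)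 (PT.lf (nat_lit 39900) (nat_lit 6) (nat_lit 525) (nat_lit 4) (nat_lit 175) (nat_lit 209) (nat_lit 186)) (PT.lf (nat_lit 39824) (nat_lit 6) (nat_lit 524) (nat_lit 4) (nat_lit 176) (nat_lit 209) (nat_lit 185))) (PT.nd (nat_lit 78) (PT.lf (nat_lit 39748) (nat_lit 6) (nat_lit 523) (nat_lit 4) (nat_lit 177) (nat_lit 209) (nat_lit 184)) (PT.lf (nat_lit 39672) (nat_lit 6) (nat_lit 522) (nat_lit 4) (nat_lit 178) (nat_lit 209) (nat_lit 183)))))) (PT.nd (nat_lit 624) (PT.nd (nat_lit 312) (PT.nd (nat_lit 156) (PT.nd (nat_lit 78) (PT.lf (nat_lit 39596) (nat_lit 6) (nat_lit 521) (nat_lit 4) (nat_lit 179) (nat_lit 209) (nat_lit 182)) (PT.lf (nat_lit 39520) (nat_lit 6) (nat_lit 520) (nat_lit 4) (nat_lit 180) (nat_lit 209) (nat_lit 181))) (PT.nd (nat_lit 78) (PT.lf (nat_lit 39520) (nat_lit 6) (nat_lit 520) (nat_lit 2) (nat_lit 181) (nat_lit 209) (nat_lit 180)) (PT.lf (nat_lit 39596) (nat_lit 6) (nat_lit 521) (nat_lit 2) (nat_lit 182) (nat_lit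 209) (nat_lit 179)))) (PT.nd (nat_lit 156) (PT.nd (nat_lit 78) (PT.lf (nat_lit 39672) (nat_lit 6) (nat_lit 522) (nat_lit 2) (nat_lit 183) (nat_lit 209) (nat_lit 178)) (PT.lf (nat_lit 39748) (nat_lit 6) (nat_lit 523) (nat_lit 2) (nat_lit 184) (nat_lit 209) (nat_lit 177))) (PT.nd (nat_lit 78) (PT.lf (nat_lit 39824) (nat_lit 6) (nat_lit 524) (nat_lit 2) (nat_lit 185) (nat_lit 209) (nat_lit 176)) (PT.lf (nat_lit 39900) (nat_lit 6) (nat_lit 525) (nat_lit 2) (nat_lit 186) (nat_lit 209) (nat_lit 175))))) (PT.nd (nat_lit 312) (PT.nd (nat_lit 156) (PT.nd (nat_lit 78) (PT.lf (nat_lit 39976) (nat_lit 6) (nat_lit 526) (nat_lit 2) (nat_lit 187) (nat_lit 209) (nat_lit 174)) (PT.lf (nat_lit 40052) (nat_lit 6) (nat_lit 527) (nat_lit 2) (nat_lit 188) (nat_lit 209) (nat_lit 173))) (PT.nd (nat_lit 78) (PT.lf (nat_lit 40128) (nat_lit 6) (nat_lit 528) (nat_lit 2) (nat_lit 189) (nat_lit 209) (nat_lit 172)) (PT.lf (nat_lit 40204) (nat_lit 6) (nat_lit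 529) (nat_lit 2) (nat_lit 190) (nat_lit 209) (nat_lit 171)))) (PT.nd (nat_lit 156) (PT.nd (nat_lit 78) (PT.lf (nat_lit 38760) (nat_lit 6) (nat_lit 510) (nat_lit 2) (nat_lit 191) (nat_lit 209) (nat_lit 170)) (PT.lf (nat_lit 37240) (nat_lit 6) (nat_lit 490) (nat_lit 2) (nat_lit 192) (nat_lit 209) (nat_lit 169))) (PT.nd (nat_lit 78) (PT.lf (nat_lit 35644) (nat_lit 6) (nat_lit 469) (nat_lit 2) (nat_lit 193) (nat_lit 209) (nat_lit 168)) (PT.lf (nat_lit 33972) (nat_lit 6) (nat_lit 447) (nat_lit 2) (nat_lit 194) (nat_lit 209) (nat_lit 167))))))) (PT.nd (nat_lit 1248) (PT.nd (nat_lit 624) (PT.nd (nat_lit 312) (PT.nd (nat_lit 156) (PT.nd (nat_lit 78) (PT.lf (nat_lit 32224) (nat_lit 6) (nat_lit 424) (nat_lit 2) (nat_lit 195) (nat_lit 209) (nat_lit 166)) (PT.lf (nat_lit 30932) (nat_lit 6) (nat_lit 407) (nat_lit 2) (nat_lit 196) (nat_lit 209) (nat_lit 165))) (PT.nd (nat_lit 78) (PT.lf (nat_lit 30020) (nat_lit 6) (nat_lit 395) (nat_lit 2)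 (nat_lit 197) (nat_lit 209) (nat_lit 164)) (PT.lf (nat_lit 29184) (nat_lit 6) (nat_lit 384) (nat_lit 2) (nat_lit 198) (nat_lit 209) (nat_lit 163)))) (PT.nd (nat_lit 156) (PT.nd (nat_lit 78) (PT.lf (nat_lit 28272) (nat_lit 6) (nat_lit 372) (nat_lit 2) (nat_lit 199) (nat_lit 209) (nat_lit 162)) (PT.lf (nat_lit 27436) (nat_lit 6) (nat_lit 361) (nat_lit 2) (nat_lit 200) (nat_lit 209) (nat_lit 161))) (PT.nd (nat_lit 78) (PT.lf (nat_lit 26600) (nat_lit 6) (nat_lit 350) (nat_lit 2) (nat_lit 201) (nat_lit 209) (nat_lit 160)) (PT.lf (nat_lit 25840) (nat_lit 6) (nat_lit 340) (nat_lit 2) (nat_lit 202) (nat_lit 209) (nat_lit 159))))) (PT.nd (nat_lit 312) (PT.nd (nat_lit 156) (PT.nd (nat_lit 78) (PT.lf (nat_lit 25080) (nat_lit 6) (nat_lit 330) (nat_lit 2) (nat_lit 203) (nat_lit 209) (nat_lit 158)) (PT.lf (nat_lit 24320) (nat_lit 6) (nat_lit 320) (nat_lit 2) (nat_lit 204) (nat_lit 209) (nat_lit 157))) (PT.nd (nat_lit 78) (PT.lf (nat_lit 23560)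 (nat_lit 6) (nat_lit 310) (nat_lit 2) (nat_lit 205) (nat_lit 209) (nat_lit 156)) (PT.lf (nat_lit 22876) (nat_lit 6) (nat_lit 301) (nat_lit 2) (nat_lit 206) (nat_lit 209) (nat_lit 155)))) (PT.nd (nat_lit 156) (PT.nd (nat_lit 78) (PT.lf (nat_lit 22192) (nat_lit 6) (nat_lit 292) (nat_lit 2) (nat_lit 207) (nat_lit 209) (nat_lit 154)) (PT.lf (nat_lit 21508) (nat_lit 6) (nat_lit 283) (nat_lit 2) (nat_lit 208) (nat_lit 209) (nat_lit 153))) (PT.nd (nat_lit 78) (PT.lf (nat_lit 20824) (nat_lit 3) (nat_lit 274) (nat_lit 0) (nat_lit 209) (nat_lit 209) (nat_lit 152)) (PT.lf (nat_lit 20140) (nat_lit 6) (nat_lit 265) (nat_lit 0) (nat_lit 210) (nat_lit 209) (nat_lit 151)))))) (PT.nd (nat_lit 624) (PT.nd (nat_lit 312) (PT.nd (nat_lit 156) (PT.nd (nat_lit 78) (PT.lf (nat_lit 19456) (nat_lit 6) (nat_lit 256) (nat_lit 0) (nat_lit 211) (nat_lit 209) (nat_lit 150)) (PT.lf (nat_lit 18772) (nat_lit 6) (nat_lit 247) (nat_lit 0) (nat_lit 212) (nat_lit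 209) (nat_lit 149))) (PT.nd (nat_lit 78) (PT.lf (nat_lit 18088) (nat_lit 6) (nat_lit 238) (nat_lit 0) (nat_lit 213) (nat_lit 209) (nat_lit 148)) (PT.lf (nat_lit 17480) (nat_lit 6) (nat_lit 230) (nat_lit 0) (nat_lit 214) (nat_lit 209) (nat_lit 147)))) (PT.nd (nat_lit 156) (PT.nd (nat_lit 78) (PT.lf (nat_lit 16872) (nat_lit 6) (nat_lit 222) (nat_lit 0) (nat_lit 215) (nat_lit 209) (nat_lit 146)) (PT.lf (nat_lit 16264) (nat_lit 6) (nat_lit 214) (nat_lit 0) (nat_lit 216) (nat_lit 209) (nat_lit 145))) (PT.nd (nat_lit 78) (PT.lf (nat_lit 15656) (nat_lit 6) (nat_lit 206) (nat_lit 0) (nat_lit 217) (nat_lit 209) (nat_lit 144)) (PT.lf (nat_lit 15124) (nat_lit 6) (nat_lit 199) (nat_lit 0) (nat_lit 218) (nat_lit 209) (nat_lit 143))))) (PT.nd (nat_lit 53196) (PT.nd (nat_lit 156) (PT.nd (nat_lit 78) (PT.lf (nat_lit 14516) (nat_lit 6) (nat_lit 191) (nat_lit 0) (nat_lit 219) (nat_lit 209) (nat_lit 142)) (PT.lf (nat_lit 13984) (nat_lit 6) (nat_lit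 184) (nat_lit 0) (nat_lit 220) (nat_lit 209) (nat_lit 141))) (PT.nd (nat_lit 52962) (PT.lf (nat_lit 13452) (nat_lit 6) (nat_lit 177) (nat_lit 0) (nat_lit 221) (nat_lit 209) (nat_lit 140)) (PT.lf (nat_lit 12996) (nat_lit 6) (nat_lit 171) (nat_lit 5) (nat_lit 139) (nat_lit 210) (nat_lit 221)))) (PT.nd (nat_lit 156) (PT.nd (nat_lit 78) (PT.lf (nat_lit 13528) (nat_lit 6) (nat_lit 178) (nat_lit 5) (nat_lit 140) (nat_lit 210) (nat_lit 220)) (PT.lf (nat_lit 14060) (nat_lit 6) (nat_lit 185) (nat_lit 5) (nat_lit 141) (nat_lit 210) (nat_lit 219))) (PT.nd (nat_lit 78) (PT.lf (nat_lit 14592) (nat_lit 6) (nat_lit 192) (nat_lit 5) (nat_lit 142) (nat_lit 210) (nat_lit 218)) (PT.lf (nat_lit 15200) (nat_lit 6) (nat_lit 200) (nat_lit 5) (nat_lit 143) (nat_lit 210) (nat_lit 217))))))))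
noncomputable def pc46 : PT := (PT.nd (nat_lit 2418) (PT.nd (nat_lit 1170) (PT.nd (nat_lit 546) (PT.nd (nat_lit 234) (PT.nd (nat_lit 78) (PT.lf (nat_lit 15732) (nat_lit 6) (nat_lit 207) (nat_lit 5) (nat_lit 144) (nat_lit 210) (nat_lit 216)) (PT.nd (nat_lit 78) (PT.lf (nat_lit 16340) (nat_lit 6) (nat_lit 215) (nat_lit 5) (nat_lit 145) (nat_lit 210) (nat_lit 215)) (PT.lf (nat_lit 16948) (nat_lit 6) (nat_lit 223) (nat_lit 5) (nat_lit 146) (nat_lit 210) (nat_lit 214)))) (PT.nd (nat_lit 156) (PT.nd (nat_lit 78) (PT.lf (nat_lit 17556) (nat_lit 6) (nat_lit 231) (nat_lit 5) (nat_lit 147) (nat_lit 210) (nat_lit 213)) (PT.lf (nat_lit 18164) (nat_lit 6) (nat_lit 239) (nat_lit 5) (nat_lit 148) (nat_lit 210) (nat_lit 212))) (PT.nd (nat_lit 78) (PT.lf (nat_lit 18848) (nat_lit 6) (nat_lit 248) (nat_lit 5) (nat_lit 149) (nat_lit 210) (nat_lit 211)) (PT.lf (nat_lit 19532) (nat_lit 3) (nat_lit 257) (nat_lit 4) (nat_lit 150) (nat_lit 210) (nat_lit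 210))))) (PT.nd (nat_lit 312) (PT.nd (nat_lit 156) (PT.nd (nat_lit 78) (PT.lf (nat_lit 20140) (nat_lit 6) (nat_lit 265) (nat_lit 4) (nat_lit 151) (nat_lit 210) (nat_lit 209)) (PT.lf (nat_lit 20748) (nat_lit 6) (nat_lit 273) (nat_lit 4) (nat_lit 152) (nat_lit 210) (nat_lit 208))) (PT.nd (nat_lit 78) (PT.lf (nat_lit 21432) (nat_lit 6) (nat_lit 282) (nat_lit 4) (nat_lit 153) (nat_lit 210) (nat_lit 207)) (PT.lf (nat_lit 22116) (nat_lit 6) (nat_lit 291) (nat_lit 4) (nat_lit 154) (nat_lit 210) (nat_lit 206)))) (PT.nd (nat_lit 156) (PT.nd (nat_lit 78) (PT.lf (nat_lit 22800) (nat_lit 6) (nat_lit 300) (nat_lit 4) (nat_lit 155) (nat_lit 210) (nat_lit 205)) (PT.lf (nat_lit 23484) (nat_lit 6) (nat_lit 309) (nat_lit 4) (nat_lit 156) (nat_lit 210) (nat_lit 204))) (PT.nd (nat_lit 78) (PT.lf (nat_lit 24244) (nat_lit 6) (nat_lit 319) (nat_lit 4) (nat_lit 157) (nat_lit 210) (nat_lit 203)) (PT.lf (nat_lit 25004) (nat_lit 6) (nat_lit 329) (nat_lit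 4) (nat_lit 158) (nat_lit 210) (nat_lit 202)))))) (PT.nd (nat_lit 624) (PT.nd (nat_lit 312) (PT.nd (nat_lit 156) (PT.nd (nat_lit 78) (PT.lf (nat_lit 25764) (nat_lit 6) (nat_lit 339) (nat_lit 4) (nat_lit 159) (nat_lit 210) (nat_lit 201)) (PT.lf (nat_lit 26524) (nat_lit 6) (nat_lit 349) (nat_lit 4) (nat_lit 160) (nat_lit 210) (nat_lit 200))) (PT.nd (nat_lit 78) (PT.lf (nat_lit 27360) (nat_lit 6) (nat_lit 360) (nat_lit 4) (nat_lit 161) (nat_lit 210) (nat_lit 199)) (PT.lf (nat_lit 28196) (nat_lit 6) (nat_lit 371) (nat_lit 4) (nat_lit 162) (nat_lit 210) (nat_lit 198)))) (PT.nd (nat_lit 156) (PT.nd (nat_lit 78) (PT.lf (nat_lit 29108) (nat_lit 6) (nat_lit 383) (nat_lit 4) (nat_lit 163) (nat_lit 210) (nat_lit 197)) (PT.lf (nat_lit 29944) (nat_lit 6) (nat_lit 394) (nat_lit 4) (nat_lit 164) (nat_lit 210) (nat_lit 196))) (PT.nd (nat_lit 78) (PT.lf (nat_lit 30856) (nat_lit 6) (nat_lit 406) (nat_lit 4) (nat_lit 165) (nat_lit 210) (nat_lit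 195)) (PT.lf (nat_lit 32148) (nat_lit 6) (nat_lit 423) (nat_lit 4) (nat_lit 166) (nat_lit 210) (nat_lit 194))))) (PT.nd (nat_lit 312) (PT.nd (nat_lit 156) (PT.nd (nat_lit 78) (PT.lf (nat_lit 33896) (nat_lit 6) (nat_lit 446) (nat_lit 4) (nat_lit 167) (nat_lit 210) (nat_lit 193)) (PT.lf (nat_lit 35568) (nat_lit 6) (nat_lit 468) (nat_lit 4) (nat_lit 168) (nat_lit 210) (nat_lit 192))) (PT.nd (nat_lit 78) (PT.lf (nat_lit 37164) (nat_lit 6) (nat_lit 489) (nat_lit 4) (nat_lit 169) (nat_lit 210) (nat_lit 191)) (PT.lf (nat_lit 38684) (nat_lit 6) (nat_lit 509) (nat_lit 4) (nat_lit 170) (nat_lit 210) (nat_lit 190)))) (PT.nd (nat_lit 156) (PT.nd (nat_lit 78) (PT.lf (nat_lit 38608) (nat_lit 6) (nat_lit 508) (nat_lit 4) (nat_lit 171) (nat_lit 210) (nat_lit 189)) (PT.lf (nat_lit 38532) (nat_lit 6) (nat_lit 507) (nat_lit 4) (nat_lit 172) (nat_lit 210) (nat_lit 188))) (PT.nd (nat_lit 78) (PT.lf (nat_lit 38456) (nat_lit 6) (nat_lit 506) (nat_lit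 4) (nat_lit 173) (nat_lit 210) (nat_lit 187)) (PT.lf (nat_lit 38380) (nat_lit 6) (nat_lit 505) (nat_lit 4) (nat_lit 174) (nat_lit 210) (nat_lit 186))))))) (PT.nd (nat_lit 1248) (PT.nd (nat_lit 624) (PT.nd (nat_lit 312) (PT.nd (nat_lit 156) (PT.nd (nat_lit 78) (PT.lf (nat_lit 38304) (nat_lit 6) (nat_lit 504) (nat_lit 4) (nat_lit 175) (nat_lit 210) (nat_lit 185)) (PT.lf (nat_lit 38228) (nat_lit 6) (nat_lit 503) (nat_lit 4) (nat_lit 176) (nat_lit 210) (nat_lit 184))) (PT.nd (nat_lit 78) (PT.lf (nat_lit 38152) (nat_lit 6) (nat_lit 502) (nat_lit 4) (nat_lit 177) (nat_lit 210) (nat_lit 183)) (PT.lf (nat_lit 38076) (nat_lit 6) (nat_lit 501) (nat_lit 4) (nat_lit 178) (nat_lit 210) (nat_lit 182)))) (PT.nd (nat_lit 156) (PT.nd (nat_lit 78) (PT.lf (nat_lit 38000) (nat_lit 6) (nat_lit 500) (nat_lit 4) (nat_lit 179) (nat_lit 210) (nat_lit 181)) (PT.lf (nat_lit 37924) (nat_lit 3) (nat_lit 499) (nat_lit 2) (nat_lit 180) (nat_lit 210) (nat_lit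 180))) (PT.nd (nat_lit 78) (PT.lf (nat_lit 38000) (nat_lit 6) (nat_lit 500) (nat_lit 2) (nat_lit 181) (nat_lit 210) (nat_lit 179)) (PT.lf (nat_lit 38076) (nat_lit 6) (nat_lit 501) (nat_lit 2) (nat_lit 182) (nat_lit 210) (nat_lit 178))))) (PT.nd (nat_lit 312) (PT.nd (nat_lit 156) (PT.nd (nat_lit 78) (PT.lf (nat_lit 38152) (nat_lit 6) (nat_lit 502) (nat_lit 2) (nat_lit 183) (nat_lit 210) (nat_lit 177)) (PT.lf (nat_lit 38228) (nat_lit 6) (nat_lit 503) (nat_lit 2) (nat_lit 184) (nat_lit 210) (nat_lit 176))) (PT.nd (nat_lit 78) (PT.lf (nat_lit 38304) (nat_lit 6) (nat_lit 504) (nat_lit 2) (nat_lit 185) (nat_lit 210) (nat_lit 175)) (PT.lf (nat_lit 38380) (nat_lit 6) (nat_lit 505) (nat_lit 2) (nat_lit 186) (nat_lit 210) (nat_lit 174)))) (PT.nd (nat_lit 156) (PT.nd (nat_lit 78) (PT.lf (nat_lit 38456) (nat_lit 6) (nat_lit 506) (nat_lit 2) (nat_lit 187) (nat_lit 210) (nat_lit 173)) (PT.lf (nat_lit 38532) (nat_lit 6) (nat_lit 507) (nat_lit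 2) (nat_lit 188) (nat_lit 210) (nat_lit 172))) (PT.nd (nat_lit 78) (PT.lf (nat_lit 38608) (nat_lit 6) (nat_lit 508) (nat_lit 2) (nat_lit 189) (nat_lit 210) (nat_lit 171)) (PT.lf (nat_lit 38684) (nat_lit 6) (nat_lit 509) (nat_lit 2) (nat_lit 190) (nat_lit 210) (nat_lit 170)))))) (PT.nd (nat_lit 624) (PT.nd (nat_lit 312) (PT.nd (nat_lit 156) (PT.nd (nat_lit 78) (PT.lf (nat_lit 37164) (nat_lit 6) (nat_lit 489) (nat_lit 2) (nat_lit 191) (nat_lit 210) (nat_lit 169)) (PT.lf (nat_lit 35568) (nat_lit 6) (nat_lit 468) (nat_lit 2) (nat_lit 192) (nat_lit 210) (nat_lit 168))) (PT.nd (nat_lit 78) (PT.lf (nat_lit 33896) (nat_lit 6) (nat_lit 446) (nat_lit 2) (nat_lit 193) (nat_lit 210) (nat_lit 167)) (PT.lf (nat_lit 32148) (nat_lit 6) (nat_lit 423) (nat_lit 2) (nat_lit 194) (nat_lit 210) (nat_lit 166)))) (PT.nd (nat_lit 156) (PT.nd (nat_lit 78) (PT.lf (nat_lit 30856) (nat_lit 6) (nat_lit 406) (nat_lit 2) (nat_lit 195) (nat_lit 210) (nat_lit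 165)) (PT.lf (nat_lit 29944) (nat_lit 6) (nat_lit 394) (nat_lit 2) (nat_lit 196) (nat_lit 210) (nat_lit 164))) (PT.nd (nat_lit 78) (PT.lf (nat_lit 29108) (nat_lit 6) (nat_lit 383) (nat_lit 2) (nat_lit 197) (nat_lit 210) (nat_lit 163)) (PT.lf (nat_lit 28196) (nat_lit 6) (nat_lit 371) (nat_lit 2) (nat_lit 198) (nat_lit 210) (nat_lit 162))))) (PT.nd (nat_lit 312) (PT.nd (nat_lit 156) (PT.nd (nat_lit 78) (PT.lf (nat_lit 27360) (nat_lit 6) (nat_lit 360) (nat_lit 2) (nat_lit 199) (nat_lit 210) (nat_lit 161)) (PT.lf (nat_lit 26524) (nat_lit 6) (nat_lit 349) (nat_lit 2) (nat_lit 200) (nat_lit 210) (nat_lit 160))) (PT.nd (nat_lit 78) (PT.lf (nat_lit 25764) (nat_lit 6) (nat_lit 339) (nat_lit 2) (nat_lit 201) (nat_lit 210) (nat_lit 159)) (PT.lf (nat_lit 25004) (nat_lit 6) (nat_lit 329) (nat_lit 2) (nat_lit 202) (nat_lit 210) (nat_lit 158)))) (PT.nd (nat_lit 156) (PT.nd (nat_lit 78) (PT.lf (nat_lit 24244) (nat_lit 6) (nat_lit 319) (nat_lit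 2) (nat_lit 203) (nat_lit 210) (nat_lit 157)) (PT.lf (nat_lit 23484) (nat_lit 6) (nat_lit 309) (nat_lit 2) (nat_lit 204) (nat_lit 210) (nat_lit 156))) (PT.nd (nat_lit 78) (PT.lf (nat_lit 22800) (nat_lit 6) (nat_lit 300) (nat_lit 2) (nat_lit 205) (nat_lit 210) (nat_lit 155)) (PT.lf (nat_lit 22116) (nat_lit 6) (nat_lit 291) (nat_lit 2) (nat_lit 206) (nat_lit 210) (nat_lit 154))))))))
noncomputable def pc47 : PT := (PT.nd (nat_lit 55146) (PT.nd (nat_lit 53898) (PT.nd (nat_lit 546) (PT.nd (nat_lit 234) (PT.nd (nat_lit 78) (PT.lf (nat_lit 21432) (nat_lit 6) (nat_lit 282) (nat_lit 2) (nat_lit 207) (nat_lit 210) (nat_lit 153)) (PT.nd (nat_lit 78) (PT.lf (nat_lit 20748) (nat_lit 6) (nat_lit 273) (nat_lit 2) (nat_lit 208) (nat_lit 210) (nat_lit 152)) (PT.lf (nat_lit 20140) (nat_lit 6) (nat_lit 265) (nat_lit 2) (nat_lit 209) (nat_lit 210) (nat_lit 151)))) (PT.nd (nat_lit 156) (PT.nd (nat_lit 78) (PT.lf (nat_lit 19532) (nat_lit 3) (nat_lit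 257) (nat_lit 0) (nat_lit 210) (nat_lit 210) (nat_lit 150)) (PT.lf (nat_lit 18848) (nat_lit 6) (nat_lit 248) (nat_lit 0) (nat_lit 211) (nat_lit 210) (nat_lit 149))) (PT.nd (nat_lit 78) (PT.lf (nat_lit 18164) (nat_lit 6) (nat_lit 239) (nat_lit 0) (nat_lit 212) (nat_lit 210) (nat_lit 148)) (PT.lf (nat_lit 17556) (nat_lit 6) (nat_lit 231) (nat_lit 0) (nat_lit 213) (nat_lit 210) (nat_lit 147))))) (PT.nd (nat_lit 312) (PT.nd (nat_lit 156) (PT.nd (nat_lit 78) (PT.lf (nat_lit 16948) (nat_lit 6) (nat_lit 223) (nat_lit 0) (nat_lit 214) (nat_lit 210) (nat_lit 146)) (PT.lf (nat_lit 16340) (nat_lit 6) (nat_lit 215) (nat_lit 0) (nat_lit 215) (nat_lit 210) (nat_lit 145))) (PT.nd (nat_lit 78) (PT.lf (nat_lit 15732) (nat_lit 6) (nat_lit 207) (nat_lit 0) (nat_lit 216) (nat_lit 210) (nat_lit 144)) (PT.lf (nat_lit 15200) (nat_lit 6) (nat_lit 200) (nat_lit 0) (nat_lit 217) (nat_lit 210) (nat_lit 143)))) (PT.nd (nat_lit 156) (PT.nd (nat_lit 78)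 (PT.lf (nat_lit 14592) (nat_lit 6) (nat_lit 192) (nat_lit 0) (nat_lit 218) (nat_lit 210) (nat_lit 142)) (PT.lf (nat_lit 14060) (nat_lit 6) (nat_lit 185) (nat_lit 0) (nat_lit 219) (nat_lit 210) (nat_lit 141))) (PT.nd (nat_lit 78) (PT.lf (nat_lit 13528) (nat_lit 6) (nat_lit 178) (nat_lit 0) (nat_lit 220) (nat_lit 210) (nat_lit 140)) (PT.lf (nat_lit 12996) (nat_lit 6) (nat_lit 171) (nat_lit 0) (nat_lit 221) (nat_lit 210) (nat_lit 139)))))) (PT.nd (nat_lit 624) (PT.nd (nat_lit 312) (PT.nd (nat_lit 156) (PT.nd (nat_lit 78) (PT.lf (nat_lit 12084) (nat_lit 6) (nat_lit 159) (nat_lit 5) (nat_lit 137) (nat_lit 211) (nat_lit 222)) (PT.lf (nat_lit 12540) (nat_lit 6) (nat_lit 165) (nat_lit 5) (nat_lit 138) (nat_lit 211) (nat_lit 221))) (PT.nd (nat_lit 78) (PT.lf (nat_lit 13072) (nat_lit 6) (nat_lit 172) (nat_lit 5) (nat_lit 139) (nat_lit 211) (nat_lit 220)) (PT.lf (nat_lit 13604) (nat_lit 6) (nat_lit 179) (nat_lit 5) (nat_lit 140) (nat_lit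 211) (nat_lit 219)))) (PT.nd (nat_lit 156) (PT.nd (nat_lit 78) (PT.lf (nat_lit 14136) (nat_lit 6) (nat_lit 186) (nat_lit 5) (nat_lit 141) (nat_lit 211) (nat_lit 218)) (PT.lf (nat_lit 14668) (nat_lit 6) (nat_lit 193) (nat_lit 5) (nat_lit 142) (nat_lit 211) (nat_lit 217))) (PT.nd (nat_lit 78) (PT.lf (nat_lit 15276) (nat_lit 6) (nat_lit 201) (nat_lit 5) (nat_lit 143) (nat_lit 211) (nat_lit 216)) (PT.lf (nat_lit 15808) (nat_lit 6) (nat_lit 208) (nat_lit 5) (nat_lit 144) (nat_lit 211) (nat_lit 215))))) (PT.nd (nat_lit 312) (PT.nd (nat_lit 156) (PT.nd (nat_lit 78) (PT.lf (nat_lit 16416) (nat_lit 6) (nat_lit 216) (nat_lit 5) (nat_lit 145) (nat_lit 211) (nat_lit 214)) (PT.lf (nat_lit 17024) (nat_lit 6) (nat_lit 224) (nat_lit 5) (nat_lit 146) (nat_lit 211) (nat_lit 213))) (PT.nd (nat_lit 78) (PT.lf (nat_lit 17632) (nat_lit 6) (nat_lit 232) (nat_lit 5) (nat_lit 147) (nat_lit 211) (nat_lit 212)) (PT.lf (nat_lit 18240) (nat_lit 3) (nat_lit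 240) (nat_lit 4) (nat_lit 148) (nat_lit 211) (nat_lit 211)))) (PT.nd (nat_lit 156) (PT.nd (nat_lit 78) (PT.lf (nat_lit 18848) (nat_lit 6) (nat_lit 248) (nat_lit 4) (nat_lit 149) (nat_lit 211) (nat_lit 210)) (PT.lf (nat_lit 19456) (nat_lit 6) (nat_lit 256) (nat_lit 4) (nat_lit 150) (nat_lit 211) (nat_lit 209))) (PT.nd (nat_lit 78) (PT.lf (nat_lit 20064) (nat_lit 6) (nat_lit 264) (nat_lit 4) (nat_lit 151) (nat_lit 211) (nat_lit 208)) (PT.lf (nat_lit 20672) (nat_lit 6) (nat_lit 272) (nat_lit 4) (nat_lit 152) (nat_lit 211) (nat_lit 207))))))) (PT.nd (nat_lit 1248) (PT.nd (nat_lit 624) (PT.nd (nat_lit 312) (PT.nd (nat_lit 156) (PT.nd (nat_lit 78) (PT.lf (nat_lit 21356) (nat_lit 6) (nat_lit 281) (nat_lit 4) (nat_lit 153) (nat_lit 211) (nat_lit 206)) (PT.lf (nat_lit 22040) (nat_lit 6) (nat_lit 290) (nat_lit 4) (nat_lit 154) (nat_lit 211) (nat_lit 205))) (PT.nd (nat_lit 78) (PT.lf (nat_lit 22724) (nat_lit 6) (nat_lit 299) (nat_lit 4)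 (nat_lit 155) (nat_lit 211) (nat_lit 204)) (PT.lf (nat_lit 23408) (nat_lit 6) (nat_lit 308) (nat_lit 4) (nat_lit 156) (nat_lit 211) (nat_lit 203)))) (PT.nd (nat_lit 156) (PT.nd (nat_lit 78) (PT.lf (nat_lit 24168) (nat_lit 6) (nat_lit 318) (nat_lit 4) (nat_lit 157) (nat_lit 211) (nat_lit 202)) (PT.lf (nat_lit 24928) (nat_lit 6) (nat_lit 328) (nat_lit 4) (nat_lit 158) (nat_lit 211) (nat_lit 201))) (PT.nd (nat_lit 78) (PT.lf (nat_lit 25688) (nat_lit 6) (nat_lit 338) (nat_lit 4) (nat_lit 159) (nat_lit 211) (nat_lit 200)) (PT.lf (nat_lit 26448) (nat_lit 6) (nat_lit 348) (nat_lit 4) (nat_lit 160) (nat_lit 211) (nat_lit 199))))) (PT.nd (nat_lit 312) (PT.nd (nat_lit 156) (PT.nd (nat_lit 78) (PT.lf (nat_lit 27284) (nat_lit 6) (nat_lit 359) (nat_lit 4) (nat_lit 161) (nat_lit 211) (nat_lit 198)) (PT.lf (nat_lit 28120) (nat_lit 6) (nat_lit 370) (nat_lit 4) (nat_lit 162) (nat_lit 211) (nat_lit 197))) (PT.nd (nat_lit 78) (PT.lf (nat_lit 29032)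 (nat_lit 6) (nat_lit 382) (nat_lit 4) (nat_lit 163) (nat_lit 211) (nat_lit 196)) (PT.lf (nat_lit 29868) (nat_lit 6) (nat_lit 393) (nat_lit 4) (nat_lit 164) (nat_lit 211) (nat_lit 195)))) (PT.nd (nat_lit 156) (PT.nd (nat_lit 78) (PT.lf (nat_lit 30780) (nat_lit 6) (nat_lit 405) (nat_lit 4) (nat_lit 165) (nat_lit 211) (nat_lit 194)) (PT.lf (nat_lit 32072) (nat_lit 6) (nat_lit 422) (nat_lit 4) (nat_lit 166) (nat_lit 211) (nat_lit 193))) (PT.nd (nat_lit 78) (PT.lf (nat_lit 33820) (nat_lit 6) (nat_lit 445) (nat_lit 4) (nat_lit 167) (nat_lit 211) (nat_lit 192)) (PT.lf (nat_lit 35492) (nat_lit 6) (nat_lit 467) (nat_lit 4) (nat_lit 168) (nat_lit 211) (nat_lit 191)))))) (PT.nd (nat_lit 624) (PT.nd (nat_lit 312) (PT.nd (nat_lit 156) (PT.nd (nat_lit 78) (PT.lf (nat_lit 37088) (nat_lit 6) (nat_lit 488) (nat_lit 4) (nat_lit 169) (nat_lit 211) (nat_lit 190)) (PT.lf (nat_lit 37012) (nat_lit 6) (nat_lit 487) (nat_lit 4) (nat_lit 170) (nat_lit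 211) (nat_lit 189))) (PT.nd (nat_lit 78) (PT.lf (nat_lit 36936) (nat_lit 6) (nat_lit 486) (nat_lit 4) (nat_lit 171) (nat_lit 211) (nat_lit 188)) (PT.lf (nat_lit 36860) (nat_lit 6) (nat_lit 485) (nat_lit 4) (nat_lit 172) (nat_lit 211) (nat_lit 187)))) (PT.nd (nat_lit 156) (PT.nd (nat_lit 78) (PT.lf (nat_lit 36784) (nat_lit 6) (nat_lit 484) (nat_lit 4) (nat_lit 173) (nat_lit 211) (nat_lit 186)) (PT.lf (nat_lit 36708) (nat_lit 6) (nat_lit 483) (nat_lit 4) (nat_lit 174) (nat_lit 211) (nat_lit 185))) (PT.nd (nat_lit 78) (PT.lf (nat_lit 36632) (nat_lit 6) (nat_lit 482) (nat_lit 4) (nat_lit 175) (nat_lit 211) (nat_lit 184)) (PT.lf (nat_lit 36556) (nat_lit 6) (nat_lit 481) (nat_lit 4) (nat_lit 176) (nat_lit 211) (nat_lit 183))))) (PT.nd (nat_lit 312) (PT.nd (nat_lit 156) (PT.nd (nat_lit 78) (PT.lf (nat_lit 36480) (nat_lit 6) (nat_lit 480) (nat_lit 4) (nat_lit 177) (nat_lit 211) (nat_lit 182)) (PT.lf (nat_lit 36404) (nat_lit 6) (nat_lit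 479) (nat_lit 4) (nat_lit 178) (nat_lit 211) (nat_lit 181))) (PT.nd (nat_lit 78) (PT.lf (nat_lit 36328) (nat_lit 6) (nat_lit 478) (nat_lit 4) (nat_lit 179) (nat_lit 211) (nat_lit 180)) (PT.lf (nat_lit 36328) (nat_lit 6) (nat_lit 478) (nat_lit 2) (nat_lit 180) (nat_lit 211) (nat_lit 179)))) (PT.nd (nat_lit 156) (PT.nd (nat_lit 78) (PT.lf (nat_lit 36404) (nat_lit 6) (nat_lit 479) (nat_lit 2) (nat_lit 181) (nat_lit 211) (nat_lit 178)) (PT.lf (nat_lit 36480) (nat_lit 6) (nat_lit 480) (nat_lit 2) (nat_lit 182) (nat_lit 211) (nat_lit 177))) (PT.nd (nat_lit 78) (PT.lf (nat_lit 36556) (nat_lit 6) (nat_lit 481) (nat_lit 2) (nat_lit 183) (nat_lit 211) (nat_lit 176)) (PT.lf (nat_lit 36632) (nat_lit 6) (nat_lit 482) (nat_lit 2) (nat_lit 184) (nat_lit 211) (nat_lit 175))))))))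
noncomputable def pc48 : PT := (PT.nd (nat_lit 2418) (PT.nd (nat_lit 1170) (PT.nd (nat_lit 546) (PT.nd (nat_lit 234) (PT.nd (nat_lit 78) (PT.lf (nat_lit 36708) (nat_lit 6) (nat_lit 483) (nat_lit 2) (nat_lit 185) (nat_lit 211) (nat_lit 174)) (PT.nd (nat_lit 78) (PT.lf (nat_lit 36784) (nat_lit 6) (nat_lit 484) (nat_lit 2) (nat_lit 186) (nat_lit 211) (nat_lit 173)) (PT.lf (nat_lit 36860) (nat_lit 6) (nat_lit 485) (nat_lit 2) (nat_lit 187) (nat_lit 211) (nat_lit 172)))) (PT.nd (nat_lit 156) (PT.nd (nat_lit 78) (PT.lf (nat_lit 36936) (nat_lit 6) (nat_lit 486) (nat_lit 2) (nat_lit 188) (nat_lit 211) (nat_lit 171)) (PT.lf (nat_lit 37012) (nat_lit 6) (nat_lit 487) (nat_lit 2) (nat_lit 189) (nat_lit 211) (nat_lit 170))) (PT.nd (nat_lit 78) (PT.lf (nat_lit 37088) (nat_lit 6) (nat_lit 488) (nat_lit 2) (nat_lit 190) (nat_lit 211) (nat_lit 169)) (PT.lf (nat_lit 35492) (nat_lit 6) (nat_lit 467) (nat_lit 2) (nat_lit 191) (nat_lit 211) (nat_lit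 168))))) (PT.nd (nat_lit 312) (PT.nd (nat_lit 156) (PT.nd (nat_lit 78) (PT.lf (nat_lit 33820) (nat_lit 6) (nat_lit 445) (nat_lit 2) (nat_lit 192) (nat_lit 211) (nat_lit 167)) (PT.lf (nat_lit 32072) (nat_lit 6) (nat_lit 422) (nat_lit 2) (nat_lit 193) (nat_lit 211) (nat_lit 166))) (PT.nd (nat_lit 78) (PT.lf (nat_lit 30780) (nat_lit 6) (nat_lit 405) (nat_lit 2) (nat_lit 194) (nat_lit 211) (nat_lit 165)) (PT.lf (nat_lit 29868) (nat_lit 6) (nat_lit 393) (nat_lit 2) (nat_lit 195) (nat_lit 211) (nat_lit 164)))) (PT.nd (nat_lit 156) (PT.nd (nat_lit 78) (PT.lf (nat_lit 29032) (nat_lit 6) (nat_lit 382) (nat_lit 2) (nat_lit 196) (nat_lit 211) (nat_lit 163)) (PT.lf (nat_lit 28120) (nat_lit 6) (nat_lit 370) (nat_lit 2) (nat_lit 197) (nat_lit 211) (nat_lit 162))) (PT.nd (nat_lit 78) (PT.lf (nat_lit 27284) (nat_lit 6) (nat_lit 359) (nat_lit 2) (nat_lit 198) (nat_lit 211) (nat_lit 161)) (PT.lf (nat_lit 26448) (nat_lit 6) (nat_lit 348) (nat_lit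 2) (nat_lit 199) (nat_lit 211) (nat_lit 160)))))) (PT.nd (nat_lit 624) (PT.nd (nat_lit 312) (PT.nd (nat_lit 156) (PT.nd (nat_lit 78) (PT.lf (nat_lit 25688) (nat_lit 6) (nat_lit 338) (nat_lit 2) (nat_lit 200) (nat_lit 211) (nat_lit 159)) (PT.lf (nat_lit 24928) (nat_lit 6) (nat_lit 328) (nat_lit 2) (nat_lit 201) (nat_lit 211) (nat_lit 158))) (PT.nd (nat_lit 78) (PT.lf (nat_lit 24168) (nat_lit 6) (nat_lit 318) (nat_lit 2) (nat_lit 202) (nat_lit 211) (nat_lit 157)) (PT.lf (nat_lit 23408) (nat_lit 6) (nat_lit 308) (nat_lit 2) (nat_lit 203) (nat_lit 211) (nat_lit 156)))) (PT.nd (nat_lit 156) (PT.nd (nat_lit 78) (PT.lf (nat_lit 22724) (nat_lit 6) (nat_lit 299) (nat_lit 2) (nat_lit 204) (nat_lit 211) (nat_lit 155)) (PT.lf (nat_lit 22040) (nat_lit 6) (nat_lit 290) (nat_lit 2) (nat_lit 205) (nat_lit 211) (nat_lit 154))) (PT.nd (nat_lit 78) (PT.lf (nat_lit 21356) (nat_lit 6) (nat_lit 281) (nat_lit 2) (nat_lit 206) (nat_lit 211) (nat_lit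 153)) (PT.lf (nat_lit 20672) (nat_lit 6) (nat_lit 272) (nat_lit 2) (nat_lit 207) (nat_lit 211) (nat_lit 152))))) (PT.nd (nat_lit 312) (PT.nd (nat_lit 156) (PT.nd (nat_lit 78) (PT.lf (nat_lit 20064) (nat_lit 6) (nat_lit 264) (nat_lit 2) (nat_lit 208) (nat_lit 211) (nat_lit 151)) (PT.lf (nat_lit 19456) (nat_lit 6) (nat_lit 256) (nat_lit 2) (nat_lit 209) (nat_lit 211) (nat_lit 150))) (PT.nd (nat_lit 78) (PT.lf (nat_lit 18848) (nat_lit 6) (nat_lit 248) (nat_lit 2) (nat_lit 210) (nat_lit 211) (nat_lit 149)) (PT.lf (nat_lit 18240) (nat_lit 3) (nat_lit 240) (nat_lit 0) (nat_lit 211) (nat_lit 211) (nat_lit 148)))) (PT.nd (nat_lit 156) (PT.nd (nat_lit 78) (PT.lf (nat_lit 17632) (nat_lit 6) (nat_lit 232) (nat_lit 0) (nat_lit 212) (nat_lit 211) (nat_lit 147)) (PT.lf (nat_lit 17024) (nat_lit 6) (nat_lit 224) (nat_lit 0) (nat_lit 213) (nat_lit 211) (nat_lit 146))) (PT.nd (nat_lit 78) (PT.lf (nat_lit 16416) (nat_lit 6) (nat_lit 216) (nat_lit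 0) (nat_lit 214) (nat_lit 211) (nat_lit 145)) (PT.lf (nat_lit 15808) (nat_lit 6) (nat_lit 208) (nat_lit 0) (nat_lit 215) (nat_lit 211) (nat_lit 144))))))) (PT.nd (nat_lit 53742) (PT.nd (nat_lit 53118) (PT.nd (nat_lit 234) (PT.nd (nat_lit 78) (PT.lf (nat_lit 15276) (nat_lit 6) (nat_lit 201) (nat_lit 0) (nat_lit 216) (nat_lit 211) (nat_lit 143)) (PT.nd (nat_lit 78) (PT.lf (nat_lit 14668) (nat_lit 6) (nat_lit 193) (nat_lit 0) (nat_lit 217) (nat_lit 211) (nat_lit 142)) (PT.lf (nat_lit 14136) (nat_lit 6) (nat_lit 186) (nat_lit 0) (nat_lit 218) (nat_lit 211) (nat_lit 141)))) (PT.nd (nat_lit 156) (PT.nd (nat_lit 78) (PT.lf (nat_lit 13604) (nat_lit 6) (nat_lit 179) (nat_lit 0) (nat_lit 219) (nat_lit 211) (nat_lit 140)) (PT.lf (nat_lit 13072) (nat_lit 6) (nat_lit 172) (nat_lit 0) (nat_lit 220) (nat_lit 211) (nat_lit 139))) (PT.nd (nat_lit 78) (PT.lf (nat_lit 12540) (nat_lit 6) (nat_lit 165) (nat_lit 0) (nat_lit 221) (nat_lit 211) (nat_lit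 138)) (PT.lf (nat_lit 12084) (nat_lit 6) (nat_lit 159) (nat_lit 0) (nat_lit 222) (nat_lit 211) (nat_lit 137))))) (PT.nd (nat_lit 312) (PT.nd (nat_lit 156) (PT.nd (nat_lit 78) (PT.lf (nat_lit 11628) (nat_lit 6) (nat_lit 153) (nat_lit 5) (nat_lit 136) (nat_lit 212) (nat_lit 222)) (PT.lf (nat_lit 12160) (nat_lit 6) (nat_lit 160) (nat_lit 5) (nat_lit 137) (nat_lit 212) (nat_lit 221))) (PT.nd (nat_lit 78) (PT.lf (nat_lit 12616) (nat_lit 6) (nat_lit 166) (nat_lit 5) (nat_lit 138) (nat_lit 212) (nat_lit 220)) (PT.lf (nat_lit 13148) (nat_lit 6) (nat_lit 173) (nat_lit 5) (nat_lit 139) (nat_lit 212) (nat_lit 219)))) (PT.nd (nat_lit 156) (PT.nd (nat_lit 78) (PT.lf (nat_lit 13680) (nat_lit 6) (nat_lit 180) (nat_lit 5) (nat_lit 140) (nat_lit 212) (nat_lit 218)) (PT.lf (nat_lit 14212) (nat_lit 6) (nat_lit 187) (nat_lit 5) (nat_lit 141) (nat_lit 212) (nat_lit 217))) (PT.nd (nat_lit 78) (PT.lf (nat_lit 14744) (nat_lit 6) (nat_lit 194) (nat_lit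 5) (nat_lit 142) (nat_lit 212) (nat_lit 216)) (PT.lf (nat_lit 15352) (nat_lit 6) (nat_lit 202) (nat_lit 5) (nat_lit 143) (nat_lit 212) (nat_lit 215)))))) (PT.nd (nat_lit 624) (PT.nd (nat_lit 312) (PT.nd (nat_lit 156) (PT.nd (nat_lit 78) (PT.lf (nat_lit 15884) (nat_lit 6) (nat_lit 209) (nat_lit 5) (nat_lit 144) (nat_lit 212) (nat_lit 214)) (PT.lf (nat_lit 16492) (nat_lit 6) (nat_lit 217) (nat_lit 5) (nat_lit 145) (nat_lit 212) (nat_lit 213))) (PT.nd (nat_lit 78) (PT.lf (nat_lit 17100) (nat_lit 3) (nat_lit 225) (nat_lit 4) (nat_lit 146) (nat_lit 212) (nat_lit 212)) (PT.lf (nat_lit 17632) (nat_lit 6) (nat_lit 232) (nat_lit 4) (nat_lit 147) (nat_lit 212) (nat_lit 211)))) (PT.nd (nat_lit 156) (PT.nd (nat_lit 78) (PT.lf (nat_lit 18164) (nat_lit 6) (nat_lit 239) (nat_lit 4) (nat_lit 148) (nat_lit 212) (nat_lit 210)) (PT.lf (nat_lit 18772) (nat_lit 6) (nat_lit 247) (nat_lit 4) (nat_lit 149) (nat_lit 212) (nat_lit 209))) (PT.nd (nat_lit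 78) (PT.lf (nat_lit 19380) (nat_lit 6) (nat_lit 255) (nat_lit 4) (nat_lit 150) (nat_lit 212) (nat_lit 208)) (PT.lf (nat_lit 19988) (nat_lit 6) (nat_lit 263) (nat_lit 4) (nat_lit 151) (nat_lit 212) (nat_lit 207))))) (PT.nd (nat_lit 312) (PT.nd (nat_lit 156) (PT.nd (nat_lit 78) (PT.lf (nat_lit 20596) (nat_lit 6) (nat_lit 271) (nat_lit 4) (nat_lit 152) (nat_lit 212) (nat_lit 206)) (PT.lf (nat_lit 21280) (nat_lit 6) (nat_lit 280) (nat_lit 4) (nat_lit 153) (nat_lit 212) (nat_lit 205))) (PT.nd (nat_lit 78) (PT.lf (nat_lit 21964) (nat_lit 6) (nat_lit 289) (nat_lit 4) (nat_lit 154) (nat_lit 212) (nat_lit 204)) (PT.lf (nat_lit 22648) (nat_lit 6) (nat_lit 298) (nat_lit 4) (nat_lit 155) (nat_lit 212) (nat_lit 203)))) (PT.nd (nat_lit 156) (PT.nd (nat_lit 78) (PT.lf (nat_lit 23332) (nat_lit 6) (nat_lit 307) (nat_lit 4) (nat_lit 156) (nat_lit 212) (nat_lit 202)) (PT.lf (nat_lit 24092) (nat_lit 6) (nat_lit 317) (nat_lit 4) (nat_lit 157) (nat_lit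 212) (nat_lit 201))) (PT.nd (nat_lit 78) (PT.lf (nat_lit 24852) (nat_lit 6) (nat_lit 327) (nat_lit 4) (nat_lit 158) (nat_lit 212) (nat_lit 200)) (PT.lf (nat_lit 25612) (nat_lit 6) (nat_lit 337) (nat_lit 4) (nat_lit 159) (nat_lit 212) (nat_lit 199))))))))
noncomputable def pc49 : PT := (PT.nd (nat_lit 2418) (PT.nd (nat_lit 1170) (PT.nd (nat_lit 546) (PT.nd (nat_lit 234) (PT.nd (nat_lit 78) (PT.lf (nat_lit 26372) (nat_lit 6) (nat_lit 347) (nat_lit 4) (nat_lit 160) (nat_lit 212) (nat_lit 198)) (PT.nd (nat_lit 78) (PT.lf (nat_lit 27208) (nat_lit 6) (nat_lit 358) (nat_lit 4) (nat_lit 161) (nat_lit 212) (nat_lit 197)) (PT.lf (nat_lit 28044) (nat_lit 6) (nat_lit 369) (nat_lit 4) (nat_lit 162) (nat_lit 212) (nat_lit 196)))) (PT.nd (nat_lit 156) (PT.nd (nat_lit 78) (PT.lf (nat_lit 28956) (nat_lit 6) (nat_lit 381) (nat_lit 4) (nat_lit 163) (nat_lit 212) (nat_lit 195)) (PT.lf (nat_lit 29792) (nat_lit 6) (nat_lit 392) (nat_lit 4) (nat_lit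 164) (nat_lit 212) (nat_lit 194))) (PT.nd (nat_lit 78) (PT.lf (nat_lit 30704) (nat_lit 6) (nat_lit 404) (nat_lit 4) (nat_lit 165) (nat_lit 212) (nat_lit 193)) (PT.lf (nat_lit 31996) (nat_lit 6) (nat_lit 421) (nat_lit 4) (nat_lit 166) (nat_lit 212) (nat_lit 192))))) (PT.nd (nat_lit 312) (PT.nd (nat_lit 156) (PT.nd (nat_lit 78) (PT.lf (nat_lit 33744) (nat_lit 6) (nat_lit 444) (nat_lit 4) (nat_lit 167) (nat_lit 212) (nat_lit 191)) (PT.lf (nat_lit 35416) (nat_lit 6) (nat_lit 466) (nat_lit 4) (nat_lit 168) (nat_lit 212) (nat_lit 190))) (PT.nd (nat_lit 78) (PT.lf (nat_lit 35340) (nat_lit 6) (nat_lit 465) (nat_lit 4) (nat_lit 169) (nat_lit 212) (nat_lit 189)) (PT.lf (nat_lit 35264) (nat_lit 6) (nat_lit 464) (nat_lit 4) (nat_lit 170) (nat_lit 212) (nat_lit 188)))) (PT.nd (nat_lit 156) (PT.nd (nat_lit 78) (PT.lf (nat_lit 35188) (nat_lit 6) (nat_lit 463) (nat_lit 4) (nat_lit 171) (nat_lit 212) (nat_lit 187)) (PT.lf (nat_lit 35112) (nat_lit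 6) (nat_lit 462) (nat_lit 4) (nat_lit 172) (nat_lit 212) (nat_lit 186))) (PT.nd (nat_lit 78) (PT.lf (nat_lit 35036) (nat_lit 6) (nat_lit 461) (nat_lit 4) (nat_lit 173) (nat_lit 212) (nat_lit 185)) (PT.lf (nat_lit 34960) (nat_lit 6) (nat_lit 460) (nat_lit 4) (nat_lit 174) (nat_lit 212) (nat_lit 184)))))) (PT.nd (nat_lit 624) (PT.nd (nat_lit 312) (PT.nd (nat_lit 156) (PT.nd (nat_lit 78) (PT.lf (nat_lit 34884) (nat_lit 6) (nat_lit 459) (nat_lit 4) (nat_lit 175) (nat_lit 212) (nat_lit 183)) (PT.lf (nat_lit 34808) (nat_lit 6) (nat_lit 458) (nat_lit 4) (nat_lit 176) (nat_lit 212) (nat_lit 182))) (PT.nd (nat_lit 78) (PT.lf (nat_lit 34732) (nat_lit 6) (nat_lit 457) (nat_lit 4) (nat_lit 177) (nat_lit 212) (nat_lit 181)) (PT.lf (nat_lit 34656) (nat_lit 6) (nat_lit 456) (nat_lit 4) (nat_lit 178) (nat_lit 212) (nat_lit 180)))) (PT.nd (nat_lit 156) (PT.nd (nat_lit 78) (PT.lf (nat_lit 34580) (nat_lit 3) (nat_lit 455) (nat_lit 2) (nat_lit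 179) (nat_lit 212) (nat_lit 179)) (PT.lf (nat_lit 34656) (nat_lit 6) (nat_lit 456) (nat_lit 2) (nat_lit 180) (nat_lit 212) (nat_lit 178))) (PT.nd (nat_lit 78) (PT.lf (nat_lit 34732) (nat_lit 6) (nat_lit 457) (nat_lit 2) (nat_lit 181) (nat_lit 212) (nat_lit 177)) (PT.lf (nat_lit 34808) (nat_lit 6) (nat_lit 458) (nat_lit 2) (nat_lit 182) (nat_lit 212) (nat_lit 176))))) (PT.nd (nat_lit 312) (PT.nd (nat_lit 156) (PT.nd (nat_lit 78) (PT.lf (nat_lit 34884) (nat_lit 6) (nat_lit 459) (nat_lit 2) (nat_lit 183) (nat_lit 212) (nat_lit 175)) (PT.lf (nat_lit 34960) (nat_lit 6) (nat_lit 460) (nat_lit 2) (nat_lit 184) (nat_lit 212) (nat_lit 174))) (PT.nd (nat_lit 78) (PT.lf (nat_lit 35036) (nat_lit 6) (nat_lit 461) (nat_lit 2) (nat_lit 185) (nat_lit 212) (nat_lit 173)) (PT.lf (nat_lit 35112) (nat_lit 6) (nat_lit 462) (nat_lit 2) (nat_lit 186) (nat_lit 212) (nat_lit 172)))) (PT.nd (nat_lit 156) (PT.nd (nat_lit 78) (PT.lf (nat_lit 35188) (nat_lit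 6) (nat_lit 463) (nat_lit 2) (nat_lit 187) (nat_lit 212) (nat_lit 171)) (PT.lf (nat_lit 35264) (nat_lit 6) (nat_lit 464) (nat_lit 2) (nat_lit 188) (nat_lit 212) (nat_lit 170))) (PT.nd (nat_lit 78) (PT.lf (nat_lit 35340) (nat_lit 6) (nat_lit 465) (nat_lit 2) (nat_lit 189) (nat_lit 212) (nat_lit 169)) (PT.lf (nat_lit 35416) (nat_lit 6) (nat_lit 466) (nat_lit 2) (nat_lit 190) (nat_lit 212) (nat_lit 168))))))) (PT.nd (nat_lit 1248) (PT.nd (nat_lit 624) (PT.nd (nat_lit 312) (PT.nd (nat_lit 156) (PT.nd (nat_lit 78) (PT.lf (nat_lit 33744) (nat_lit 6) (nat_lit 444) (nat_lit 2) (nat_lit 191) (nat_lit 212) (nat_lit 167)) (PT.lf (nat_lit 31996) (nat_lit 6) (nat_lit 421) (nat_lit 2) (nat_lit 192) (nat_lit 212) (nat_lit 166))) (PT.nd (nat_lit 78) (PT.lf (nat_lit 30704) (nat_lit 6) (nat_lit 404) (nat_lit 2) (nat_lit 193) (nat_lit 212) (nat_lit 165)) (PT.lf (nat_lit 29792) (nat_lit 6) (nat_lit 392) (nat_lit 2) (nat_lit 194) (nat_lit 212) (nat_lit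 164)))) (PT.nd (nat_lit 156) (PT.nd (nat_lit 78) (PT.lf (nat_lit 28956) (nat_lit 6) (nat_lit 381) (nat_lit 2) (nat_lit 195) (nat_lit 212) (nat_lit 163)) (PT.lf (nat_lit 28044) (nat_lit 6) (nat_lit 369) (nat_lit 2) (nat_lit 196) (nat_lit 212) (nat_lit 162))) (PT.nd (nat_lit 78) (PT.lf (nat_lit 27208) (nat_lit 6) (nat_lit 358) (nat_lit 2) (nat_lit 197) (nat_lit 212) (nat_lit 161)) (PT.lf (nat_lit 26372) (nat_lit 6) (nat_lit 347) (nat_lit 2) (nat_lit 198) (nat_lit 212) (nat_lit 160))))) (PT.nd (nat_lit 312) (PT.nd (nat_lit 156) (PT.nd (nat_lit 78) (PT.lf (nat_lit 25612) (nat_lit 6) (nat_lit 337) (nat_lit 2) (nat_lit 199) (nat_lit 212) (nat_lit 159)) (PT.lf (nat_lit 24852) (nat_lit 6) (nat_lit 327) (nat_lit 2) (nat_lit 200) (nat_lit 212) (nat_lit 158))) (PT.nd (nat_lit 78) (PT.lf (nat_lit 24092) (nat_lit 6) (nat_lit 317) (nat_lit 2) (nat_lit 201) (nat_lit 212) (nat_lit 157)) (PT.lf (nat_lit 23332) (nat_lit 6) (nat_lit 307) (nat_lit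 2) (nat_lit 202) (nat_lit 212) (nat_lit 156)))) (PT.nd (nat_lit 156) (PT.nd (nat_lit 78) (PT.lf (nat_lit 22648) (nat_lit 6) (nat_lit 298) (nat_lit 2) (nat_lit 203) (nat_lit 212) (nat_lit 155)) (PT.lf (nat_lit 21964) (nat_lit 6) (nat_lit 289) (nat_lit 2) (nat_lit 204) (nat_lit 212) (nat_lit 154))) (PT.nd (nat_lit 78) (PT.lf (nat_lit 21280) (nat_lit 6) (nat_lit 280) (nat_lit 2) (nat_lit 205) (nat_lit 212) (nat_lit 153)) (PT.lf (nat_lit 20596) (nat_lit 6) (nat_lit 271) (nat_lit 2) (nat_lit 206) (nat_lit 212) (nat_lit 152)))))) (PT.nd (nat_lit 624) (PT.nd (nat_lit 312) (PT.nd (nat_lit 156) (PT.nd (nat_lit 78) (PT.lf (nat_lit 19988) (nat_lit 6) (nat_lit 263) (nat_lit 2) (nat_lit 207) (nat_lit 212) (nat_lit 151)) (PT.lf (nat_lit 19380) (nat_lit 6) (nat_lit 255) (nat_lit 2) (nat_lit 208) (nat_lit 212) (nat_lit 150))) (PT.nd (nat_lit 78) (PT.lf (nat_lit 18772) (nat_lit 6) (nat_lit 247) (nat_lit 2) (nat_lit 209) (nat_lit 212) (nat_lit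 149)) (PT.lf (nat_lit 18164) (nat_lit 6) (nat_lit 239) (nat_lit 2) (nat_lit 210) (nat_lit 212) (nat_lit 148)))) (PT.nd (nat_lit 156) (PT.nd (nat_lit 78) (PT.lf (nat_lit 17632) (nat_lit 6) (nat_lit 232) (nat_lit 2) (nat_lit 211) (nat_lit 212) (nat_lit 147)) (PT.lf (nat_lit 17100) (nat_lit 3) (nat_lit 225) (nat_lit 0) (nat_lit 212) (nat_lit 212) (nat_lit 146))) (PT.nd (nat_lit 78) (PT.lf (nat_lit 16492) (nat_lit 6) (nat_lit 217) (nat_lit 0) (nat_lit 213) (nat_lit 212) (nat_lit 145)) (PT.lf (nat_lit 15884) (nat_lit 6) (nat_lit 209) (nat_lit 0) (nat_lit 214) (nat_lit 212) (nat_lit 144))))) (PT.nd (nat_lit 312) (PT.nd (nat_lit 156) (PT.nd (nat_lit 78) (PT.lf (nat_lit 15352) (nat_lit 6) (nat_lit 202) (nat_lit 0) (nat_lit 215) (nat_lit 212) (nat_lit 143)) (PT.lf (nat_lit 14744) (nat_lit 6) (nat_lit 194) (nat_lit 0) (nat_lit 216) (nat_lit 212) (nat_lit 142))) (PT.nd (nat_lit 78) (PT.lf (nat_lit 14212) (nat_lit 6) (nat_lit 187) (nat_lit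 0) (nat_lit 217) (nat_lit 212) (nat_lit 141)) (PT.lf (nat_lit 13680) (nat_lit 6) (nat_lit 180) (nat_lit 0) (nat_lit 218) (nat_lit 212) (nat_lit 140)))) (PT.nd (nat_lit 156) (PT.nd (nat_lit 78) (PT.lf (nat_lit 13148) (nat_lit 6) (nat_lit 173) (nat_lit 0) (nat_lit 219) (nat_lit 212) (nat_lit 139)) (PT.lf (nat_lit 12616) (nat_lit 6) (nat_lit 166) (nat_lit 0) (nat_lit 220) (nat_lit 212) (nat_lit 138))) (PT.nd (nat_lit 78) (PT.lf (nat_lit 12160) (nat_lit 6) (nat_lit 160) (nat_lit 0) (nat_lit 221) (nat_lit 212) (nat_lit 137)) (PT.lf (nat_lit 11628) (nat_lit 6) (nat_lit 153) (nat_lit 0) (nat_lit 222) (nat_lit 212) (nat_lit 136))))))))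
noncomputable def pc50 : PT := (PT.nd (nat_lit 2418) (PT.nd (nat_lit 1170) (PT.nd (nat_lit 546) (PT.nd (nat_lit 234) (PT.nd (nat_lit 78) (PT.lf (nat_lit 10792) (nat_lit 6) (nat_lit 142) (nat_lit 5) (nat_lit 134) (nat_lit 213) (nat_lit 223)) (PT.nd (nat_lit 78) (PT.lf (nat_lit 11248) (nat_lit 6) (nat_lit 148) (nat_lit 5) (nat_lit 135) (nat_lit 213) (nat_lit 222)) (PT.lf (nat_lit 11704) (nat_lit 6) (nat_lit 154) (nat_lit 5) (nat_lit 136) (nat_lit 213) (nat_lit 221)))) (PT.nd (nat_lit 156) (PT.nd (nat_lit 78) (PT.lf (nat_lit 12236) (nat_lit 6) (nat_lit 161) (nat_lit 5) (nat_lit 137) (nat_lit 213) (nat_lit 220)) (PT.lf (nat_lit 12692) (nat_lit 6) (nat_lit 167) (nat_lit 5) (nat_lit 138) (nat_lit 213) (nat_lit 219))) (PT.nd (nat_lit 78) (PT.lf (nat_lit 13224) (nat_lit 6) (nat_lit 174) (nat_lit 5) (nat_lit 139) (nat_lit 213) (nat_lit 218)) (PT.lf (nat_lit 13756) (nat_lit 6) (nat_lit 181) (nat_lit 5) (nat_lit 140) (nat_lit 213) (nat_lit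 217))))) (PT.nd (nat_lit 312) (PT.nd (nat_lit 156) (PT.nd (nat_lit 78) (PT.lf (nat_lit 14288) (nat_lit 6) (nat_lit 188) (nat_lit 5) (nat_lit 141) (nat_lit 213) (nat_lit 216)) (PT.lf (nat_lit 14820) (nat_lit 6) (nat_lit 195) (nat_lit 5) (nat_lit 142) (nat_lit 213) (nat_lit 215))) (PT.nd (nat_lit 78) (PT.lf (nat_lit 15428) (nat_lit 6) (nat_lit 203) (nat_lit 5) (nat_lit 143) (nat_lit 213) (nat_lit 214)) (PT.lf (nat_lit 15960) (nat_lit 3) (nat_lit 210) (nat_lit 4) (nat_lit 144) (nat_lit 213) (nat_lit 213)))) (PT.nd (nat_lit 156) (PT.nd (nat_lit 78) (PT.lf (nat_lit 16492) (nat_lit 6) (nat_lit 217) (nat_lit 4) (nat_lit 145) (nat_lit 213) (nat_lit 212)) (PT.lf (nat_lit 17024) (nat_lit 6) (nat_lit 224) (nat_lit 4) (nat_lit 146) (nat_lit 213) (nat_lit 211))) (PT.nd (nat_lit 78) (PT.lf (nat_lit 17556) (nat_lit 6) (nat_lit 231) (nat_lit 4) (nat_lit 147) (nat_lit 213) (nat_lit 210)) (PT.lf (nat_lit 18088) (nat_lit 6) (nat_lit 238) (nat_lit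 4) (nat_lit 148) (nat_lit 213) (nat_lit 209)))))) (PT.nd (nat_lit 624) (PT.nd (nat_lit 312) (PT.nd (nat_lit 156) (PT.nd (nat_lit 78) (PT.lf (nat_lit 18696) (nat_lit 6) (nat_lit 246) (nat_lit 4) (nat_lit 149) (nat_lit 213) (nat_lit 208)) (PT.lf (nat_lit 19304) (nat_lit 6) (nat_lit 254) (nat_lit 4) (nat_lit 150) (nat_lit 213) (nat_lit 207))) (PT.nd (nat_lit 78) (PT.lf (nat_lit 19912) (nat_lit 6) (nat_lit 262) (nat_lit 4) (nat_lit 151) (nat_lit 213) (nat_lit 206)) (PT.lf (nat_lit 20520) (nat_lit 6) (nat_lit 270) (nat_lit 4) (nat_lit 152) (nat_lit 213) (nat_lit 205)))) (PT.nd (nat_lit 156) (PT.nd (nat_lit 78) (PT.lf (nat_lit 21204) (nat_lit 6) (nat_lit 279) (nat_lit 4) (nat_lit 153) (nat_lit 213) (nat_lit 204)) (PT.lf (nat_lit 21888) (nat_lit 6) (nat_lit 288) (nat_lit 4) (nat_lit 154) (nat_lit 213) (nat_lit 203))) (PT.nd (nat_lit 78) (PT.lf (nat_lit 22572) (nat_lit 6) (nat_lit 297) (nat_lit 4) (nat_lit 155) (nat_lit 213) (nat_lit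 202)) (PT.lf (nat_lit 23256) (nat_lit 6) (nat_lit 306) (nat_lit 4) (nat_lit 156) (nat_lit 213) (nat_lit 201))))) (PT.nd (nat_lit 312) (PT.nd (nat_lit 156) (PT.nd (nat_lit 78) (PT.lf (nat_lit 24016) (nat_lit 6) (nat_lit 316) (nat_lit 4) (nat_lit 157) (nat_lit 213) (nat_lit 200)) (PT.lf (nat_lit 24776) (nat_lit 6) (nat_lit 326) (nat_lit 4) (nat_lit 158) (nat_lit 213) (nat_lit 199))) (PT.nd (nat_lit 78) (PT.lf (nat_lit 25536) (nat_lit 6) (nat_lit 336) (nat_lit 4) (nat_lit 159) (nat_lit 213) (nat_lit 198)) (PT.lf (nat_lit 26296) (nat_lit 6) (nat_lit 346) (nat_lit 4) (nat_lit 160) (nat_lit 213) (nat_lit 197)))) (PT.nd (nat_lit 156) (PT.nd (nat_lit 78) (PT.lf (nat_lit 27132) (nat_lit 6) (nat_lit 357) (nat_lit 4) (nat_lit 161) (nat_lit 213) (nat_lit 196)) (PT.lf (nat_lit 27968) (nat_lit 6) (nat_lit 368) (nat_lit 4) (nat_lit 162) (nat_lit 213) (nat_lit 195))) (PT.nd (nat_lit 78) (PT.lf (nat_lit 28880) (nat_lit 6) (nat_lit 380) (nat_lit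 4) (nat_lit 163) (nat_lit 213) (nat_lit 194)) (PT.lf (nat_lit 29716) (nat_lit 6) (nat_lit 391) (nat_lit 4) (nat_lit 164) (nat_lit 213) (nat_lit 193))))))) (PT.nd (nat_lit 1248) (PT.nd (nat_lit 624) (PT.nd (nat_lit 312) (PT.nd (nat_lit 156) (PT.nd (nat_lit 78) (PT.lf (nat_lit 30628) (nat_lit 6) (nat_lit 403) (nat_lit 4) (nat_lit 165) (nat_lit 213) (nat_lit 192)) (PT.lf (nat_lit 31920) (nat_lit 6) (nat_lit 420) (nat_lit 4) (nat_lit 166) (nat_lit 213) (nat_lit 191))) (PT.nd (nat_lit 78) (PT.lf (nat_lit 33668) (nat_lit 6) (nat_lit 443) (nat_lit 4) (nat_lit 167) (nat_lit 213) (nat_lit 190)) (PT.lf (nat_lit 33592) (nat_lit 6) (nat_lit 442) (nat_lit 4) (nat_lit 168) (nat_lit 213) (nat_lit 189)))) (PT.nd (nat_lit 156) (PT.nd (nat_lit 78) (PT.lf (nat_lit 33516) (nat_lit 6) (nat_lit 441) (nat_lit 4) (nat_lit 169) (nat_lit 213) (nat_lit 188)) (PT.lf (nat_lit 33440) (nat_lit 6) (nat_lit 440) (nat_lit 4) (nat_lit 170) (nat_lit 213) (nat_lit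 187))) (PT.nd (nat_lit 78) (PT.lf (nat_lit 33364) (nat_lit 6) (nat_lit 439) (nat_lit 4) (nat_lit 171) (nat_lit 213) (nat_lit 186)) (PT.lf (nat_lit 33288) (nat_lit 6) (nat_lit 438) (nat_lit 4) (nat_lit 172) (nat_lit 213) (nat_lit 185))))) (PT.nd (nat_lit 312) (PT.nd (nat_lit 156) (PT.nd (nat_lit 78) (PT.lf (nat_lit 33212) (nat_lit 6) (nat_lit 437) (nat_lit 4) (nat_lit 173) (nat_lit 213) (nat_lit 184)) (PT.lf (nat_lit 33136) (nat_lit 6) (nat_lit 436) (nat_lit 4) (nat_lit 174) (nat_lit 213) (nat_lit 183))) (PT.nd (nat_lit 78) (PT.lf (nat_lit 33060) (nat_lit 6) (nat_lit 435) (nat_lit 4) (nat_lit 175) (nat_lit 213) (nat_lit 182)) (PT.lf (nat_lit 32984) (nat_lit 6) (nat_lit 434) (nat_lit 4) (nat_lit 176) (nat_lit 213) (nat_lit 181)))) (PT.nd (nat_lit 156) (PT.nd (nat_lit 78) (PT.lf (nat_lit 32908) (nat_lit 6) (nat_lit 433) (nat_lit 4) (nat_lit 177) (nat_lit 213) (nat_lit 180)) (PT.lf (nat_lit 32832) (nat_lit 6) (nat_lit 432) (nat_lit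 4) (nat_lit 178) (nat_lit 213) (nat_lit 179))) (PT.nd (nat_lit 78) (PT.lf (nat_lit 32832) (nat_lit 6) (nat_lit 432) (nat_lit 2) (nat_lit 179) (nat_lit 213) (nat_lit 178)) (PT.lf (nat_lit 32908) (nat_lit 6) (nat_lit 433) (nat_lit 2) (nat_lit 180) (nat_lit 213) (nat_lit 177)))))) (PT.nd (nat_lit 624) (PT.nd (nat_lit 312) (PT.nd (nat_lit 156) (PT.nd (nat_lit 78) (PT.lf (nat_lit 32984) (nat_lit 6) (nat_lit 434) (nat_lit 2) (nat_lit 181) (nat_lit 213) (nat_lit 176)) (PT.lf (nat_lit 33060) (nat_lit 6) (nat_lit 435) (nat_lit 2) (nat_lit 182) (nat_lit 213) (nat_lit 175))) (PT.nd (nat_lit 78) (PT.lf (nat_lit 33136) (nat_lit 6) (nat_lit 436) (nat_lit 2) (nat_lit 183) (nat_lit 213) (nat_lit 174)) (PT.lf (nat_lit 33212) (nat_lit 6) (nat_lit 437) (nat_lit 2) (nat_lit 184) (nat_lit 213) (nat_lit 173)))) (PT.nd (nat_lit 156) (PT.nd (nat_lit 78) (PT.lf (nat_lit 33288) (nat_lit 6) (nat_lit 438) (nat_lit 2) (nat_lit 185) (nat_lit 213) (nat_lit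 172)) (PT.lf (nat_lit 33364) (nat_lit 6) (nat_lit 439) (nat_lit 2) (nat_lit 186) (nat_lit 213) (nat_lit 171))) (PT.nd (nat_lit 78) (PT.lf (nat_lit 33440) (nat_lit 6) (nat_lit 440) (nat_lit 2) (nat_lit 187) (nat_lit 213) (nat_lit 170)) (PT.lf (nat_lit 33516) (nat_lit 6) (nat_lit 441) (nat_lit 2) (nat_lit 188) (nat_lit 213) (nat_lit 169))))) (PT.nd (nat_lit 312) (PT.nd (nat_lit 156) (PT.nd (nat_lit 78) (PT.lf (nat_lit 33592) (nat_lit 6) (nat_lit 442) (nat_lit 2) (nat_lit 189) (nat_lit 213) (nat_lit 168)) (PT.lf (nat_lit 33668) (nat_lit 6) (nat_lit 443) (nat_lit 2) (nat_lit 190) (nat_lit 213) (nat_lit 167))) (PT.nd (nat_lit 78) (PT.lf (nat_lit 31920) (nat_lit 6) (nat_lit 420) (nat_lit 2) (nat_lit 191) (nat_lit 213) (nat_lit 166)) (PT.lf (nat_lit 30628) (nat_lit 6) (nat_lit 403) (nat_lit 2) (nat_lit 192) (nat_lit 213) (nat_lit 165)))) (PT.nd (nat_lit 156) (PT.nd (nat_lit 78) (PT.lf (nat_lit 29716) (nat_lit 6) (nat_lit 391) (nat_lit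 2) (nat_lit 193) (nat_lit 213) (nat_lit 164)) (PT.lf (nat_lit 28880) (nat_lit 6) (nat_lit 380) (nat_lit 2) (nat_lit 194) (nat_lit 213) (nat_lit 163))) (PT.nd (nat_lit 78) (PT.lf (nat_lit 27968) (nat_lit 6) (nat_lit 368) (nat_lit 2) (nat_lit 195) (nat_lit 213) (nat_lit 162)) (PT.lf (nat_lit 27132) (nat_lit 6) (nat_lit 357) (nat_lit 2) (nat_lit 196) (nat_lit 213) (nat_lit 161))))))))
noncomputable def pc51 : PT := (PT.nd (nat_lit 54678) (PT.nd (nat_lit 1170) (PT.nd (nat_lit 546) (PT.nd (nat_lit 234) (PT.nd (nat_lit 78) (PT.lf (nat_lit 26296) (nat_lit 6) (nat_lit 346) (nat_lit 2) (nat_lit 197) (nat_lit 213) (nat_lit 160)) (PT.nd (nat_lit 78) (PT.lf (nat_lit 25536) (nat_lit 6) (nat_lit 336) (nat_lit 2) (nat_lit 198) (nat_lit 213) (nat_lit 159)) (PT.lf (nat_lit 24776) (nat_lit 6) (nat_lit 326) (nat_lit 2) (nat_lit 199) (nat_lit 213) (nat_lit 158)))) (PT.nd (nat_lit 156) (PT.nd (nat_lit 78) (PT.lf (nat_lit 24016) (nat_lit 6) (nat_lit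 316) (nat_lit 2) (nat_lit 200) (nat_lit 213) (nat_lit 157)) (PT.lf (nat_lit 23256) (nat_lit 6) (nat_lit 306) (nat_lit 2) (nat_lit 201) (nat_lit 213) (nat_lit 156))) (PT.nd (nat_lit 78) (PT.lf (nat_lit 22572) (nat_lit 6) (nat_lit 297) (nat_lit 2) (nat_lit 202) (nat_lit 213) (nat_lit 155)) (PT.lf (nat_lit 21888) (nat_lit 6) (nat_lit 288) (nat_lit 2) (nat_lit 203) (nat_lit 213) (nat_lit 154))))) (PT.nd (nat_lit 312) (PT.nd (nat_lit 156) (PT.nd (nat_lit 78) (PT.lf (nat_lit 21204) (nat_lit 6) (nat_lit 279) (nat_lit 2) (nat_lit 204) (nat_lit 213) (nat_lit 153)) (PT.lf (nat_lit 20520) (nat_lit 6) (nat_lit 270) (nat_lit 2) (nat_lit 205) (nat_lit 213) (nat_lit 152))) (PT.nd (nat_lit 78) (PT.lf (nat_lit 19912) (nat_lit 6) (nat_lit 262) (nat_lit 2) (nat_lit 206) (nat_lit 213) (nat_lit 151)) (PT.lf (nat_lit 19304) (nat_lit 6) (nat_lit 254) (nat_lit 2) (nat_lit 207) (nat_lit 213) (nat_lit 150)))) (PT.nd (nat_lit 156) (PT.nd (nat_lit 78)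 (PT.lf (nat_lit 18696) (nat_lit 6) (nat_lit 246) (nat_lit 2) (nat_lit 208) (nat_lit 213) (nat_lit 149)) (PT.lf (nat_lit 18088) (nat_lit 6) (nat_lit 238) (nat_lit 2) (nat_lit 209) (nat_lit 213) (nat_lit 148))) (PT.nd (nat_lit 78) (PT.lf (nat_lit 17556) (nat_lit 6) (nat_lit 231) (nat_lit 2) (nat_lit 210) (nat_lit 213) (nat_lit 147)) (PT.lf (nat_lit 17024) (nat_lit 6) (nat_lit 224) (nat_lit 2) (nat_lit 211) (nat_lit 213) (nat_lit 146)))))) (PT.nd (nat_lit 624) (PT.nd (nat_lit 312) (PT.nd (nat_lit 156) (PT.nd (nat_lit 78) (PT.lf (nat_lit 16492) (nat_lit 6) (nat_lit 217) (nat_lit 2) (nat_lit 212) (nat_lit 213) (nat_lit 145)) (PT.lf (nat_lit 15960) (nat_lit 3) (nat_lit 210) (nat_lit 0) (nat_lit 213) (nat_lit 213) (nat_lit 144))) (PT.nd (nat_lit 78) (PT.lf (nat_lit 15428) (nat_lit 6) (nat_lit 203) (nat_lit 0) (nat_lit 214) (nat_lit 213) (nat_lit 143)) (PT.lf (nat_lit 14820) (nat_lit 6) (nat_lit 195) (nat_lit 0) (nat_lit 215) (nat_lit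 213) (nat_lit 142)))) (PT.nd (nat_lit 156) (PT.nd (nat_lit 78) (PT.lf (nat_lit 14288) (nat_lit 6) (nat_lit 188) (nat_lit 0) (nat_lit 216) (nat_lit 213) (nat_lit 141)) (PT.lf (nat_lit 13756) (nat_lit 6) (nat_lit 181) (nat_lit 0) (nat_lit 217) (nat_lit 213) (nat_lit 140))) (PT.nd (nat_lit 78) (PT.lf (nat_lit 13224) (nat_lit 6) (nat_lit 174) (nat_lit 0) (nat_lit 218) (nat_lit 213) (nat_lit 139)) (PT.lf (nat_lit 12692) (nat_lit 6) (nat_lit 167) (nat_lit 0) (nat_lit 219) (nat_lit 213) (nat_lit 138))))) (PT.nd (nat_lit 52572) (PT.nd (nat_lit 156) (PT.nd (nat_lit 78) (PT.lf (nat_lit 12236) (nat_lit 6) (nat_lit 161) (nat_lit 0) (nat_lit 220) (nat_lit 213) (nat_lit 137)) (PT.lf (nat_lit 11704) (nat_lit 6) (nat_lit 154) (nat_lit 0) (nat_lit 221) (nat_lit 213) (nat_lit 136))) (PT.nd (nat_lit 78) (PT.lf (nat_lit 11248) (nat_lit 6) (nat_lit 148) (nat_lit 0) (nat_lit 222) (nat_lit 213) (nat_lit 135)) (PT.lf (nat_lit 10792) (nat_lit 6) (nat_lit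 142) (nat_lit 0) (nat_lit 223) (nat_lit 213) (nat_lit 134)))) (PT.nd (nat_lit 156) (PT.nd (nat_lit 78) (PT.lf (nat_lit 10412) (nat_lit 6) (nat_lit 137) (nat_lit 5) (nat_lit 133) (nat_lit 214) (nat_lit 223)) (PT.lf (nat_lit 10868) (nat_lit 6) (nat_lit 143) (nat_lit 5) (nat_lit 134) (nat_lit 214) (nat_lit 222))) (PT.nd (nat_lit 78) (PT.lf (nat_lit 11324) (nat_lit 6) (nat_lit 149) (nat_lit 5) (nat_lit 135) (nat_lit 214) (nat_lit 221)) (PT.lf (nat_lit 11780) (nat_lit 6) (nat_lit 155) (nat_lit 5) (nat_lit 136) (nat_lit 214) (nat_lit 220))))))) (PT.nd (nat_lit 1248) (PT.nd (nat_lit 624) (PT.nd (nat_lit 312) (PT.nd (nat_lit 156) (PT.nd (nat_lit 78) (PT.lf (nat_lit 12312) (nat_lit 6) (nat_lit 162) (nat_lit 5) (nat_lit 137) (nat_lit 214) (nat_lit 219)) (PT.lf (nat_lit 12768) (nat_lit 6) (nat_lit 168) (nat_lit 5) (nat_lit 138) (nat_lit 214) (nat_lit 218))) (PT.nd (nat_lit 78) (PT.lf (nat_lit 13300) (nat_lit 6) (nat_lit 175) (nat_lit 5)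 (nat_lit 139) (nat_lit 214) (nat_lit 217)) (PT.lf (nat_lit 13832) (nat_lit 6) (nat_lit 182) (nat_lit 5) (nat_lit 140) (nat_lit 214) (nat_lit 216)))) (PT.nd (nat_lit 156) (PT.nd (nat_lit 78) (PT.lf (nat_lit 14364) (nat_lit 6) (nat_lit 189) (nat_lit 5) (nat_lit 141) (nat_lit 214) (nat_lit 215)) (PT.lf (nat_lit 14896) (nat_lit 3) (nat_lit 196) (nat_lit 4) (nat_lit 142) (nat_lit 214) (nat_lit 214))) (PT.nd (nat_lit 78) (PT.lf (nat_lit 15428) (nat_lit 6) (nat_lit 203) (nat_lit 4) (nat_lit 143) (nat_lit 214) (nat_lit 213)) (PT.lf (nat_lit 15884) (nat_lit 6) (nat_lit 209) (nat_lit 4) (nat_lit 144) (nat_lit 214) (nat_lit 212))))) (PT.nd (nat_lit 312) (PT.nd (nat_lit 156) (PT.nd (nat_lit 78) (PT.lf (nat_lit 16416) (nat_lit 6) (nat_lit 216) (nat_lit 4) (nat_lit 145) (nat_lit 214) (nat_lit 211)) (PT.lf (nat_lit 16948) (nat_lit 6) (nat_lit 223) (nat_lit 4) (nat_lit 146) (nat_lit 214) (nat_lit 210))) (PT.nd (nat_lit 78) (PT.lf (nat_lit 17480)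 (nat_lit 6) (nat_lit 230) (nat_lit 4) (nat_lit 147) (nat_lit 214) (nat_lit 209)) (PT.lf (nat_lit 18012) (nat_lit 6) (nat_lit 237) (nat_lit 4) (nat_lit 148) (nat_lit 214) (nat_lit 208)))) (PT.nd (nat_lit 156) (PT.nd (nat_lit 78) (PT.lf (nat_lit 18620) (nat_lit 6) (nat_lit 245) (nat_lit 4) (nat_lit 149) (nat_lit 214) (nat_lit 207)) (PT.lf (nat_lit 19228) (nat_lit 6) (nat_lit 253) (nat_lit 4) (nat_lit 150) (nat_lit 214) (nat_lit 206))) (PT.nd (nat_lit 78) (PT.lf (nat_lit 19836) (nat_lit 6) (nat_lit 261) (nat_lit 4) (nat_lit 151) (nat_lit 214) (nat_lit 205)) (PT.lf (nat_lit 20444) (nat_lit 6) (nat_lit 269) (nat_lit 4) (nat_lit 152) (nat_lit 214) (nat_lit 204)))))) (PT.nd (nat_lit 624) (PT.nd (nat_lit 312) (PT.nd (nat_lit 156) (PT.nd (nat_lit 78) (PT.lf (nat_lit 21128) (nat_lit 6) (nat_lit 278) (nat_lit 4) (nat_lit 153) (nat_lit 214) (nat_lit 203)) (PT.lf (nat_lit 21812) (nat_lit 6) (nat_lit 287) (nat_lit 4) (nat_lit 154) (nat_lit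 214) (nat_lit 202))) (PT.nd (nat_lit 78) (PT.lf (nat_lit 22496) (nat_lit 6) (nat_lit 296) (nat_lit 4) (nat_lit 155) (nat_lit 214) (nat_lit 201)) (PT.lf (nat_lit 23180) (nat_lit 6) (nat_lit 305) (nat_lit 4) (nat_lit 156) (nat_lit 214) (nat_lit 200)))) (PT.nd (nat_lit 156) (PT.nd (nat_lit 78) (PT.lf (nat_lit 23940) (nat_lit 6) (nat_lit 315) (nat_lit 4) (nat_lit 157) (nat_lit 214) (nat_lit 199)) (PT.lf (nat_lit 24700) (nat_lit 6) (nat_lit 325) (nat_lit 4) (nat_lit 158) (nat_lit 214) (nat_lit 198))) (PT.nd (nat_lit 78) (PT.lf (nat_lit 25460) (nat_lit 6) (nat_lit 335) (nat_lit 4) (nat_lit 159) (nat_lit 214) (nat_lit 197)) (PT.lf (nat_lit 26220) (nat_lit 6) (nat_lit 345) (nat_lit 4) (nat_lit 160) (nat_lit 214) (nat_lit 196))))) (PT.nd (nat_lit 312) (PT.nd (nat_lit 156) (PT.nd (nat_lit 78) (PT.lf (nat_lit 27056) (nat_lit 6) (nat_lit 356) (nat_lit 4) (nat_lit 161) (nat_lit 214) (nat_lit 195)) (PT.lf (nat_lit 27892) (nat_lit 6) (nat_lit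 367) (nat_lit 4) (nat_lit 162) (nat_lit 214) (nat_lit 194))) (PT.nd (nat_lit 78) (PT.lf (nat_lit 28804) (nat_lit 6) (nat_lit 379) (nat_lit 4) (nat_lit 163) (nat_lit 214) (nat_lit 193)) (PT.lf (nat_lit 29640) (nat_lit 6) (nat_lit 390) (nat_lit 4) (nat_lit 164) (nat_lit 214) (nat_lit 192)))) (PT.nd (nat_lit 156) (PT.nd (nat_lit 78) (PT.lf (nat_lit 30552) (nat_lit 6) (nat_lit 402) (nat_lit 4) (nat_lit 165) (nat_lit 214) (nat_lit 191)) (PT.lf (nat_lit 31844) (nat_lit 6) (nat_lit 419) (nat_lit 4) (nat_lit 166) (nat_lit 214) (nat_lit 190))) (PT.nd (nat_lit 78) (PT.lf (nat_lit 31768) (nat_lit 6) (nat_lit 418) (nat_lit 4) (nat_lit 167) (nat_lit 214) (nat_lit 189)) (PT.lf (nat_lit 31692) (nat_lit 6) (nat_lit 417) (nat_lit 4) (nat_lit 168) (nat_lit 214) (nat_lit 188))))))))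
noncomputable def pc52 : PT := (PT.nd (nat_lit 3588) (PT.nd (nat_lit 2340) (PT.nd (nat_lit 1716) (PT.nd (nat_lit 1404) (PT.nd (nat_lit 78) (PT.lf (nat_lit 31616) (nat_lit 6) (nat_lit 416) (nat_lit 4) (nat_lit 169) (nat_lit 214) (nat_lit 187)) (PT.nd (nat_lit 1248) (PT.lf (nat_lit 31540) (nat_lit 6) (nat_lit 415) (nat_lit 4) (nat_lit 170) (nat_lit 214) (nat_lit 186)) (PT.lf (nat_lit 31540) (nat_lit 6) (nat_lit 415) (nat_lit 2) (nat_lit 186) (nat_lit 214) (nat_lit 170)))) (PT.nd (nat_lit 156) (PT.nd (nat_lit 78) (PT.lf (nat_lit 31616) (nat_lit 6) (nat_lit 416) (nat_lit 2) (nat_lit 187) (nat_lit 214) (nat_lit 169)) (PT.lf (nat_lit 31692) (nat_lit 6) (nat_lit 417) (nat_lit 2) (nat_lit 188) (nat_lit 214) (nat_lit 168))) (PT.nd (nat_lit 78) (PT.lf (nat_lit 31768) (nat_lit 6) (nat_lit 418) (nat_lit 2) (nat_lit 189) (nat_lit 214) (nat_lit 167)) (PT.lf (nat_lit 31844) (nat_lit 6) (nat_lit 419) (nat_lit 2) (nat_lit 190) (nat_lit 214)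 (nat_lit 166))))) (PT.nd (nat_lit 312) (PT.nd (nat_lit 156) (PT.nd (nat_lit 78) (PT.lf (nat_lit 30552) (nat_lit 6) (nat_lit 402) (nat_lit 2) (nat_lit 191) (nat_lit 214) (nat_lit 165)) (PT.lf (nat_lit 29640) (nat_lit 6) (nat_lit 390) (nat_lit 2) (nat_lit 192) (nat_lit 214) (nat_lit 164))) (PT.nd (nat_lit 78) (PT.lf (nat_lit 28804) (nat_lit 6) (nat_lit 379) (nat_lit 2) (nat_lit 193) (nat_lit 214) (nat_lit 163)) (PT.lf (nat_lit 27892) (nat_lit 6) (nat_lit 367) (nat_lit 2) (nat_lit 194) (nat_lit 214) (nat_lit 162)))) (PT.nd (nat_lit 156) (PT.nd (nat_lit 78) (PT.lf (nat_lit 27056) (nat_lit 6) (nat_lit 356) (nat_lit 2) (nat_lit 195) (nat_lit 214) (nat_lit 161)) (PT.lf (nat_lit 26220) (nat_lit 6) (nat_lit 345) (nat_lit 2) (nat_lit 196) (nat_lit 214) (nat_lit 160))) (PT.nd (nat_lit 78) (PT.lf (nat_lit 25460) (nat_lit 6) (nat_lit 335) (nat_lit 2) (nat_lit 197) (nat_lit 214) (nat_lit 159)) (PT.lf (nat_lit 24700) (nat_lit 6) (nat_lit 325)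 (nat_lit 2) (nat_lit 198) (nat_lit 214) (nat_lit 158)))))) (PT.nd (nat_lit 624) (PT.nd (nat_lit 312) (PT.nd (nat_lit 156) (PT.nd (nat_lit 78) (PT.lf (nat_lit 23940) (nat_lit 6) (nat_lit 315) (nat_lit 2) (nat_lit 199) (nat_lit 214) (nat_lit 157)) (PT.lf (nat_lit 23180) (nat_lit 6) (nat_lit 305) (nat_lit 2) (nat_lit 200) (nat_lit 214) (nat_lit 156))) (PT.nd (nat_lit 78) (PT.lf (nat_lit 22496) (nat_lit 6) (nat_lit 296) (nat_lit 2) (nat_lit 201) (nat_lit 214) (nat_lit 155)) (PT.lf (nat_lit 21812) (nat_lit 6) (nat_lit 287) (nat_lit 2) (nat_lit 202) (nat_lit 214) (nat_lit 154)))) (PT.nd (nat_lit 156) (PT.nd (nat_lit 78) (PT.lf (nat_lit 21128) (nat_lit 6) (nat_lit 278) (nat_lit 2) (nat_lit 203) (nat_lit 214) (nat_lit 153)) (PT.lf (nat_lit 20444) (nat_lit 6) (nat_lit 269) (nat_lit 2) (nat_lit 204) (nat_lit 214) (nat_lit 152))) (PT.nd (nat_lit 78) (PT.lf (nat_lit 19836) (nat_lit 6) (nat_lit 261) (nat_lit 2) (nat_lit 205) (nat_lit 214)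 (nat_lit 151)) (PT.lf (nat_lit 19228) (nat_lit 6) (nat_lit 253) (nat_lit 2) (nat_lit 206) (nat_lit 214) (nat_lit 150))))) (PT.nd (nat_lit 312) (PT.nd (nat_lit 156) (PT.nd (nat_lit 78) (PT.lf (nat_lit 18620) (nat_lit 6) (nat_lit 245) (nat_lit 2) (nat_lit 207) (nat_lit 214) (nat_lit 149)) (PT.lf (nat_lit 18012) (nat_lit 6) (nat_lit 237) (nat_lit 2) (nat_lit 208) (nat_lit 214) (nat_lit 148))) (PT.nd (nat_lit 78) (PT.lf (nat_lit 17480) (nat_lit 6) (nat_lit 230) (nat_lit 2) (nat_lit 209) (nat_lit 214) (nat_lit 147)) (PT.lf (nat_lit 16948) (nat_lit 6) (nat_lit 223) (nat_lit 2) (nat_lit 210) (nat_lit 214) (nat_lit 146)))) (PT.nd (nat_lit 156) (PT.nd (nat_lit 78) (PT.lf (nat_lit 16416) (nat_lit 6) (nat_lit 216) (nat_lit 2) (nat_lit 211) (nat_lit 214) (nat_lit 145)) (PT.lf (nat_lit 15884) (nat_lit 6) (nat_lit 209) (nat_lit 2) (nat_lit 212) (nat_lit 214) (nat_lit 144))) (PT.nd (nat_lit 78) (PT.lf (nat_lit 15428) (nat_lit 6) (nat_lit 203)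 (nat_lit 2) (nat_lit 213) (nat_lit 214) (nat_lit 143)) (PT.lf (nat_lit 14896) (nat_lit 3) (nat_lit 196) (nat_lit 0) (nat_lit 214) (nat_lit 214) (nat_lit 142))))))) (PT.nd (nat_lit 53352) (PT.nd (nat_lit 624) (PT.nd (nat_lit 312) (PT.nd (nat_lit 156) (PT.nd (nat_lit 78) (PT.lf (nat_lit 14364) (nat_lit 6) (nat_lit 189) (nat_lit 0) (nat_lit 215) (nat_lit 214) (nat_lit 141)) (PT.lf (nat_lit 13832) (nat_lit 6) (nat_lit 182) (nat_lit 0) (nat_lit 216) (nat_lit 214) (nat_lit 140))) (PT.nd (nat_lit 78) (PT.lf (nat_lit 13300) (nat_lit 6) (nat_lit 175) (nat_lit 0) (nat_lit 217) (nat_lit 214) (nat_lit 139)) (PT.lf (nat_lit 12768) (nat_lit 6) (nat_lit 168) (nat_lit 0) (nat_lit 218) (nat_lit 214) (nat_lit 138)))) (PT.nd (nat_lit 156) (PT.nd (nat_lit 78) (PT.lf (nat_lit 12312) (nat_lit 6) (nat_lit 162) (nat_lit 0) (nat_lit 219) (nat_lit 214) (nat_lit 137)) (PT.lf (nat_lit 11780) (nat_lit 6) (nat_lit 155) (nat_lit 0) (nat_lit 220) (nat_lit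 214) (nat_lit 136))) (PT.nd (nat_lit 78) (PT.lf (nat_lit 11324) (nat_lit 6) (nat_lit 149) (nat_lit 0) (nat_lit 221) (nat_lit 214) (nat_lit 135)) (PT.lf (nat_lit 10868) (nat_lit 6) (nat_lit 143) (nat_lit 0) (nat_lit 222) (nat_lit 214) (nat_lit 134))))) (PT.nd (nat_lit 52416) (PT.nd (nat_lit 52260) (PT.nd (nat_lit 52182) (PT.lf (nat_lit 10412) (nat_lit 6) (nat_lit 137) (nat_lit 0) (nat_lit 223) (nat_lit 214) (nat_lit 133)) (PT.lf (nat_lit 9652) (nat_lit 6) (nat_lit 127) (nat_lit 5) (nat_lit 131) (nat_lit 215) (nat_lit 224))) (PT.nd (nat_lit 78) (PT.lf (nat_lit 10032) (nat_lit 6) (nat_lit 132) (nat_lit 5) (nat_lit 132) (nat_lit 215) (nat_lit 223)) (PT.lf (nat_lit 10488) (nat_lit 6) (nat_lit 138) (nat_lit 5) (nat_lit 133) (nat_lit 215) (nat_lit 222)))) (PT.nd (nat_lit 156) (PT.nd (nat_lit 78) (PT.lf (nat_lit 10944) (nat_lit 6) (nat_lit 144) (nat_lit 5) (nat_lit 134) (nat_lit 215) (nat_lit 221)) (PT.lf (nat_lit 11400) (nat_lit 6)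 (nat_lit 150) (nat_lit 5) (nat_lit 135) (nat_lit 215) (nat_lit 220))) (PT.nd (nat_lit 78) (PT.lf (nat_lit 11856) (nat_lit 6) (nat_lit 156) (nat_lit 5) (nat_lit 136) (nat_lit 215) (nat_lit 219)) (PT.lf (nat_lit 12388) (nat_lit 6) (nat_lit 163) (nat_lit 5) (nat_lit 137) (nat_lit 215) (nat_lit 218)))))) (PT.nd (nat_lit 624) (PT.nd (nat_lit 312) (PT.nd (nat_lit 156) (PT.nd (nat_lit 78) (PT.lf (nat_lit 12844) (nat_lit 6) (nat_lit 169) (nat_lit 5) (nat_lit 138) (nat_lit 215) (nat_lit 217)) (PT.lf (nat_lit 13376) (nat_lit 6) (nat_lit 176) (nat_lit 5) (nat_lit 139) (nat_lit 215) (nat_lit 216))) (PT.nd (nat_lit 78) (PT.lf (nat_lit 13908) (nat_lit 3) (nat_lit 183) (nat_lit 4) (nat_lit 140) (nat_lit 215) (nat_lit 215)) (PT.lf (nat_lit 14364) (nat_lit 6) (nat_lit 189) (nat_lit 4) (nat_lit 141) (nat_lit 215) (nat_lit 214)))) (PT.nd (nat_lit 156) (PT.nd (nat_lit 78) (PT.lf (nat_lit 14820) (nat_lit 6) (nat_lit 195) (nat_lit 4) (nat_lit 142)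 (nat_lit 215) (nat_lit 213)) (PT.lf (nat_lit 15352) (nat_lit 6) (nat_lit 202) (nat_lit 4) (nat_lit 143) (nat_lit 215) (nat_lit 212))) (PT.nd (nat_lit 78) (PT.lf (nat_lit 15808) (nat_lit 6) (nat_lit 208) (nat_lit 4) (nat_lit 144) (nat_lit 215) (nat_lit 211)) (PT.lf (nat_lit 16340) (nat_lit 6) (nat_lit 215) (nat_lit 4) (nat_lit 145) (nat_lit 215) (nat_lit 210))))) (PT.nd (nat_lit 312) (PT.nd (nat_lit 156) (PT.nd (nat_lit 78) (PT.lf (nat_lit 16872) (nat_lit 6) (nat_lit 222) (nat_lit 4) (nat_lit 146) (nat_lit 215) (nat_lit 209)) (PT.lf (nat_lit 17404) (nat_lit 6) (nat_lit 229) (nat_lit 4) (nat_lit 147) (nat_lit 215) (nat_lit 208))) (PT.nd (nat_lit 78) (PT.lf (nat_lit 17936) (nat_lit 6) (nat_lit 236) (nat_lit 4) (nat_lit 148) (nat_lit 215) (nat_lit 207)) (PT.lf (nat_lit 18544) (nat_lit 6) (nat_lit 244) (nat_lit 4) (nat_lit 149) (nat_lit 215) (nat_lit 206)))) (PT.nd (nat_lit 156) (PT.nd (nat_lit 78) (PT.lf (nat_lit 19152) (nat_lit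 6) (nat_lit 252) (nat_lit 4) (nat_lit 150) (nat_lit 215) (nat_lit 205)) (PT.lf (nat_lit 19760) (nat_lit 6) (nat_lit 260) (nat_lit 4) (nat_lit 151) (nat_lit 215) (nat_lit 204))) (PT.nd (nat_lit 78) (PT.lf (nat_lit 20368) (nat_lit 6) (nat_lit 268) (nat_lit 4) (nat_lit 152) (nat_lit 215) (nat_lit 203)) (PT.lf (nat_lit 21052) (nat_lit 6) (nat_lit 277) (nat_lit 4) (nat_lit 153) (nat_lit 215) (nat_lit 202))))))))
noncomputable def pc53 : PT := (PT.nd (nat_lit 4602) (PT.nd (nat_lit 3354) (PT.nd (nat_lit 546) (PT.nd (nat_lit 234) (PT.nd (nat_lit 78) (PT.lf (nat_lit 21736) (nat_lit 6) (nat_lit 286) (nat_lit 4) (nat_lit 154) (nat_lit 215) (nat_lit 201)) (PT.nd (nat_lit 78) (PT.lf (nat_lit 22420) (nat_lit 6) (nat_lit 295) (nat_lit 4) (nat_lit 155) (nat_lit 215) (nat_lit 200)) (PT.lf (nat_lit 23104) (nat_lit 6) (nat_lit 304) (nat_lit 4) (nat_lit 156) (nat_lit 215) (nat_lit 199)))) (PT.nd (nat_lit 156) (PT.nd (nat_lit 78) (PT.lf (nat_lit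 23864) (nat_lit 6) (nat_lit 314) (nat_lit 4) (nat_lit 157) (nat_lit 215) (nat_lit 198)) (PT.lf (nat_lit 24624) (nat_lit 6) (nat_lit 324) (nat_lit 4) (nat_lit 158) (nat_lit 215) (nat_lit 197))) (PT.nd (nat_lit 78) (PT.lf (nat_lit 25384) (nat_lit 6) (nat_lit 334) (nat_lit 4) (nat_lit 159) (nat_lit 215) (nat_lit 196)) (PT.lf (nat_lit 26144) (nat_lit 6) (nat_lit 344) (nat_lit 4) (nat_lit 160) (nat_lit 215) (nat_lit 195))))) (PT.nd (nat_lit 2496) (PT.nd (nat_lit 156) (PT.nd (nat_lit 78) (PT.lf (nat_lit 26980) (nat_lit 6) (nat_lit 355) (nat_lit 4) (nat_lit 161) (nat_lit 215) (nat_lit 194)) (PT.lf (nat_lit 27816) (nat_lit 6) (nat_lit 366) (nat_lit 4) (nat_lit 162) (nat_lit 215) (nat_lit 193))) (PT.nd (nat_lit 2262) (PT.lf (nat_lit 28728) (nat_lit 6) (nat_lit 378) (nat_lit 4) (nat_lit 163) (nat_lit 215) (nat_lit 192)) (PT.lf (nat_lit 28728) (nat_lit 6) (nat_lit 378) (nat_lit 2) (nat_lit 192) (nat_lit 215) (nat_lit 163)))) (PT.nd (nat_lit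 156) (PT.nd (nat_lit 78) (PT.lf (nat_lit 27816) (nat_lit 6) (nat_lit 366) (nat_lit 2) (nat_lit 193) (nat_lit 215) (nat_lit 162)) (PT.lf (nat_lit 26980) (nat_lit 6) (nat_lit 355) (nat_lit 2) (nat_lit 194) (nat_lit 215) (nat_lit 161))) (PT.nd (nat_lit 78) (PT.lf (nat_lit 26144) (nat_lit 6) (nat_lit 344) (nat_lit 2) (nat_lit 195) (nat_lit 215) (nat_lit 160)) (PT.lf (nat_lit 25384) (nat_lit 6) (nat_lit 334) (nat_lit 2) (nat_lit 196) (nat_lit 215) (nat_lit 159)))))) (PT.nd (nat_lit 624) (PT.nd (nat_lit 312) (PT.nd (nat_lit 156) (PT.nd (nat_lit 78) (PT.lf (nat_lit 24624) (nat_lit 6) (nat_lit 324) (nat_lit 2) (nat_lit 197) (nat_lit 215) (nat_lit 158)) (PT.lf (nat_lit 23864) (nat_lit 6) (nat_lit 314) (nat_lit 2) (nat_lit 198) (nat_lit 215) (nat_lit 157))) (PT.nd (nat_lit 78) (PT.lf (nat_lit 23104) (nat_lit 6) (nat_lit 304) (nat_lit 2) (nat_lit 199) (nat_lit 215) (nat_lit 156)) (PT.lf (nat_lit 22420) (nat_lit 6) (nat_lit 295) (nat_lit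 2) (nat_lit 200) (nat_lit 215) (nat_lit 155)))) (PT.nd (nat_lit 156) (PT.nd (nat_lit 78) (PT.lf (nat_lit 21736) (nat_lit 6) (nat_lit 286) (nat_lit 2) (nat_lit 201) (nat_lit 215) (nat_lit 154)) (PT.lf (nat_lit 21052) (nat_lit 6) (nat_lit 277) (nat_lit 2) (nat_lit 202) (nat_lit 215) (nat_lit 153))) (PT.nd (nat_lit 78) (PT.lf (nat_lit 20368) (nat_lit 6) (nat_lit 268) (nat_lit 2) (nat_lit 203) (nat_lit 215) (nat_lit 152)) (PT.lf (nat_lit 19760) (nat_lit 6) (nat_lit 260) (nat_lit 2) (nat_lit 204) (nat_lit 215) (nat_lit 151))))) (PT.nd (nat_lit 312) (PT.nd (nat_lit 156) (PT.nd (nat_lit 78) (PT.lf (nat_lit 19152) (nat_lit 6) (nat_lit 252) (nat_lit 2) (nat_lit 205) (nat_lit 215) (nat_lit 150)) (PT.lf (nat_lit 18544) (nat_lit 6) (nat_lit 244) (nat_lit 2) (nat_lit 206) (nat_lit 215) (nat_lit 149))) (PT.nd (nat_lit 78) (PT.lf (nat_lit 17936) (nat_lit 6) (nat_lit 236) (nat_lit 2) (nat_lit 207) (nat_lit 215) (nat_lit 148)) (PT.lf (nat_lit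 17404) (nat_lit 6) (nat_lit 229) (nat_lit 2) (nat_lit 208) (nat_lit 215) (nat_lit 147)))) (PT.nd (nat_lit 156) (PT.nd (nat_lit 78) (PT.lf (nat_lit 16872) (nat_lit 6) (nat_lit 222) (nat_lit 2) (nat_lit 209) (nat_lit 215) (nat_lit 146)) (PT.lf (nat_lit 16340) (nat_lit 6) (nat_lit 215) (nat_lit 2) (nat_lit 210) (nat_lit 215) (nat_lit 145))) (PT.nd (nat_lit 78) (PT.lf (nat_lit 15808) (nat_lit 6) (nat_lit 208) (nat_lit 2) (nat_lit 211) (nat_lit 215) (nat_lit 144)) (PT.lf (nat_lit 15352) (nat_lit 6) (nat_lit 202) (nat_lit 2) (nat_lit 212) (nat_lit 215) (nat_lit 143))))))) (PT.nd (nat_lit 53196) (PT.nd (nat_lit 624) (PT.nd (nat_lit 312) (PT.nd (nat_lit 156) (PT.nd (nat_lit 78) (PT.lf (nat_lit 14820) (nat_lit 6) (nat_lit 195) (nat_lit 2) (nat_lit 213) (nat_lit 215) (nat_lit 142)) (PT.lf (nat_lit 14364) (nat_lit 6) (nat_lit 189) (nat_lit 2) (nat_lit 214) (nat_lit 215) (nat_lit 141))) (PT.nd (nat_lit 78) (PT.lf (nat_lit 13908) (nat_lit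 3) (nat_lit 183) (nat_lit 0) (nat_lit 215) (nat_lit 215) (nat_lit 140)) (PT.lf (nat_lit 13376) (nat_lit 6) (nat_lit 176) (nat_lit 0) (nat_lit 216) (nat_lit 215) (nat_lit 139)))) (PT.nd (nat_lit 156) (PT.nd (nat_lit 78) (PT.lf (nat_lit 12844) (nat_lit 6) (nat_lit 169) (nat_lit 0) (nat_lit 217) (nat_lit 215) (nat_lit 138)) (PT.lf (nat_lit 12388) (nat_lit 6) (nat_lit 163) (nat_lit 0) (nat_lit 218) (nat_lit 215) (nat_lit 137))) (PT.nd (nat_lit 78) (PT.lf (nat_lit 11856) (nat_lit 6) (nat_lit 156) (nat_lit 0) (nat_lit 219) (nat_lit 215) (nat_lit 136)) (PT.lf (nat_lit 11400) (nat_lit 6) (nat_lit 150) (nat_lit 0) (nat_lit 220) (nat_lit 215) (nat_lit 135))))) (PT.nd (nat_lit 52260) (PT.nd (nat_lit 156) (PT.nd (nat_lit 78) (PT.lf (nat_lit 10944) (nat_lit 6) (nat_lit 144) (nat_lit 0) (nat_lit 221) (nat_lit 215) (nat_lit 134)) (PT.lf (nat_lit 10488) (nat_lit 6) (nat_lit 138) (nat_lit 0) (nat_lit 222) (nat_lit 215) (nat_lit 133))) (PT.nd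 (nat_lit 78) (PT.lf (nat_lit 10032) (nat_lit 6) (nat_lit 132) (nat_lit 0) (nat_lit 223) (nat_lit 215) (nat_lit 132)) (PT.lf (nat_lit 9652) (nat_lit 6) (nat_lit 127) (nat_lit 0) (nat_lit 224) (nat_lit 215) (nat_lit 131)))) (PT.nd (nat_lit 156) (PT.nd (nat_lit 78) (PT.lf (nat_lit 9272) (nat_lit 6) (nat_lit 122) (nat_lit 5) (nat_lit 130) (nat_lit 216) (nat_lit 224)) (PT.lf (nat_lit 9728) (nat_lit 6) (nat_lit 128) (nat_lit 5) (nat_lit 131) (nat_lit 216) (nat_lit 223))) (PT.nd (nat_lit 78) (PT.lf (nat_lit 10108) (nat_lit 6) (nat_lit 133) (nat_lit 5) (nat_lit 132) (nat_lit 216) (nat_lit 222)) (PT.lf (nat_lit 10564) (nat_lit 6) (nat_lit 139) (nat_lit 5) (nat_lit 133) (nat_lit 216) (nat_lit 221)))))) (PT.nd (nat_lit 624) (PT.nd (nat_lit 312) (PT.nd (nat_lit 156) (PT.nd (nat_lit 78) (PT.lf (nat_lit 11020) (nat_lit 6) (nat_lit 145) (nat_lit 5) (nat_lit 134) (nat_lit 216) (nat_lit 220)) (PT.lf (nat_lit 11476) (nat_lit 6) (nat_lit 151)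 (nat_lit 5) (nat_lit 135) (nat_lit 216) (nat_lit 219))) (PT.nd (nat_lit 78) (PT.lf (nat_lit 11932) (nat_lit 6) (nat_lit 157) (nat_lit 5) (nat_lit 136) (nat_lit 216) (nat_lit 218)) (PT.lf (nat_lit 12464) (nat_lit 6) (nat_lit 164) (nat_lit 5) (nat_lit 137) (nat_lit 216) (nat_lit 217)))) (PT.nd (nat_lit 156) (PT.nd (nat_lit 78) (PT.lf (nat_lit 12920) (nat_lit 3) (nat_lit 170) (nat_lit 4) (nat_lit 138) (nat_lit 216) (nat_lit 216)) (PT.lf (nat_lit 13376) (nat_lit 6) (nat_lit 176) (nat_lit 4) (nat_lit 139) (nat_lit 216) (nat_lit 215))) (PT.nd (nat_lit 78) (PT.lf (nat_lit 13832) (nat_lit 6) (nat_lit 182) (nat_lit 4) (nat_lit 140) (nat_lit 216) (nat_lit 214)) (PT.lf (nat_lit 14288) (nat_lit 6) (nat_lit 188) (nat_lit 4) (nat_lit 141) (nat_lit 216) (nat_lit 213))))) (PT.nd (nat_lit 312) (PT.nd (nat_lit 156) (PT.nd (nat_lit 78) (PT.lf (nat_lit 14744) (nat_lit 6) (nat_lit 194) (nat_lit 4) (nat_lit 142) (nat_lit 216) (nat_lit 212)) (PT.lf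 (nat_lit 15276) (nat_lit 6) (nat_lit 201) (nat_lit 4) (nat_lit 143) (nat_lit 216) (nat_lit 211))) (PT.nd (nat_lit 78) (PT.lf (nat_lit 15732) (nat_lit 6) (nat_lit 207) (nat_lit 4) (nat_lit 144) (nat_lit 216) (nat_lit 210)) (PT.lf (nat_lit 16264) (nat_lit 6) (nat_lit 214) (nat_lit 4) (nat_lit 145) (nat_lit 216) (nat_lit 209)))) (PT.nd (nat_lit 156) (PT.nd (nat_lit 78) (PT.lf (nat_lit 16796) (nat_lit 6) (nat_lit 221) (nat_lit 4) (nat_lit 146) (nat_lit 216) (nat_lit 208)) (PT.lf (nat_lit 17328) (nat_lit 6) (nat_lit 228) (nat_lit 4) (nat_lit 147) (nat_lit 216) (nat_lit 207))) (PT.nd (nat_lit 78) (PT.lf (nat_lit 17860) (nat_lit 6) (nat_lit 235) (nat_lit 4) (nat_lit 148) (nat_lit 216) (nat_lit 206)) (PT.lf (nat_lit 18468) (nat_lit 6) (nat_lit 243) (nat_lit 4) (nat_lit 149) (nat_lit 216) (nat_lit 205))))))))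
noncomputable def pc54 : PT := (PT.nd (nat_lit 5304) (PT.nd (nat_lit 4056) (PT.nd (nat_lit 546) (PT.nd (nat_lit 234) (PT.nd (nat_lit 78) (PT.lf (nat_lit 19076) (nat_lit 6) (nat_lit 251) (nat_lit 4) (nat_lit 150) (nat_lit 216) (nat_lit 204)) (PT.nd (nat_lit 78) (PT.lf (nat_lit 19684) (nat_lit 6) (nat_lit 259) (nat_lit 4) (nat_lit 151) (nat_lit 216) (nat_lit 203)) (PT.lf (nat_lit 20292) (nat_lit 6) (nat_lit 267) (nat_lit 4) (nat_lit 152) (nat_lit 216) (nat_lit 202)))) (PT.nd (nat_lit 156) (PT.nd (nat_lit 78) (PT.lf (nat_lit 20976) (nat_lit 6) (nat_lit 276) (nat_lit 4) (nat_lit 153) (nat_lit 216) (nat_lit 201)) (PT.lf (nat_lit 21660) (nat_lit 6) (nat_lit 285) (nat_lit 4) (nat_lit 154) (nat_lit 216) (nat_lit 200))) (PT.nd (nat_lit 78) (PT.lf (nat_lit 22344) (nat_lit 6) (nat_lit 294) (nat_lit 4) (nat_lit 155) (nat_lit 216) (nat_lit 199)) (PT.lf (nat_lit 23028) (nat_lit 6) (nat_lit 303) (nat_lit 4) (nat_lit 156) (nat_lit 216) (nat_lit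 198))))) (PT.nd (nat_lit 3198) (PT.nd (nat_lit 3042) (PT.nd (nat_lit 78) (PT.lf (nat_lit 23788) (nat_lit 6) (nat_lit 313) (nat_lit 4) (nat_lit 157) (nat_lit 216) (nat_lit 197)) (PT.lf (nat_lit 24548) (nat_lit 6) (nat_lit 323) (nat_lit 4) (nat_lit 158) (nat_lit 216) (nat_lit 196))) (PT.nd (nat_lit 78) (PT.lf (nat_lit 24548) (nat_lit 6) (nat_lit 323) (nat_lit 2) (nat_lit 196) (nat_lit 216) (nat_lit 158)) (PT.lf (nat_lit 23788) (nat_lit 6) (nat_lit 313) (nat_lit 2) (nat_lit 197) (nat_lit 216) (nat_lit 157)))) (PT.nd (nat_lit 156) (PT.nd (nat_lit 78) (PT.lf (nat_lit 23028) (nat_lit 6) (nat_lit 303) (nat_lit 2) (nat_lit 198) (nat_lit 216) (nat_lit 156)) (PT.lf (nat_lit 22344) (nat_lit 6) (nat_lit 294) (nat_lit 2) (nat_lit 199) (nat_lit 216) (nat_lit 155))) (PT.nd (nat_lit 78) (PT.lf (nat_lit 21660) (nat_lit 6) (nat_lit 285) (nat_lit 2) (nat_lit 200) (nat_lit 216) (nat_lit 154)) (PT.lf (nat_lit 20976) (nat_lit 6) (nat_lit 276) (nat_lit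 2) (nat_lit 201) (nat_lit 216) (nat_lit 153)))))) (PT.nd (nat_lit 624) (PT.nd (nat_lit 312) (PT.nd (nat_lit 156) (PT.nd (nat_lit 78) (PT.lf (nat_lit 20292) (nat_lit 6) (nat_lit 267) (nat_lit 2) (nat_lit 202) (nat_lit 216) (nat_lit 152)) (PT.lf (nat_lit 19684) (nat_lit 6) (nat_lit 259) (nat_lit 2) (nat_lit 203) (nat_lit 216) (nat_lit 151))) (PT.nd (nat_lit 78) (PT.lf (nat_lit 19076) (nat_lit 6) (nat_lit 251) (nat_lit 2) (nat_lit 204) (nat_lit 216) (nat_lit 150)) (PT.lf (nat_lit 18468) (nat_lit 6) (nat_lit 243) (nat_lit 2) (nat_lit 205) (nat_lit 216) (nat_lit 149)))) (PT.nd (nat_lit 156) (PT.nd (nat_lit 78) (PT.lf (nat_lit 17860) (nat_lit 6) (nat_lit 235) (nat_lit 2) (nat_lit 206) (nat_lit 216) (nat_lit 148)) (PT.lf (nat_lit 17328) (nat_lit 6) (nat_lit 228) (nat_lit 2) (nat_lit 207) (nat_lit 216) (nat_lit 147))) (PT.nd (nat_lit 78) (PT.lf (nat_lit 16796) (nat_lit 6) (nat_lit 221) (nat_lit 2) (nat_lit 208) (nat_lit 216) (nat_lit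 146)) (PT.lf (nat_lit 16264) (nat_lit 6) (nat_lit 214) (nat_lit 2) (nat_lit 209) (nat_lit 216) (nat_lit 145))))) (PT.nd (nat_lit 312) (PT.nd (nat_lit 156) (PT.nd (nat_lit 78) (PT.lf (nat_lit 15732) (nat_lit 6) (nat_lit 207) (nat_lit 2) (nat_lit 210) (nat_lit 216) (nat_lit 144)) (PT.lf (nat_lit 15276) (nat_lit 6) (nat_lit 201) (nat_lit 2) (nat_lit 211) (nat_lit 216) (nat_lit 143))) (PT.nd (nat_lit 78) (PT.lf (nat_lit 14744) (nat_lit 6) (nat_lit 194) (nat_lit 2) (nat_lit 212) (nat_lit 216) (nat_lit 142)) (PT.lf (nat_lit 14288) (nat_lit 6) (nat_lit 188) (nat_lit 2) (nat_lit 213) (nat_lit 216) (nat_lit 141)))) (PT.nd (nat_lit 156) (PT.nd (nat_lit 78) (PT.lf (nat_lit 13832) (nat_lit 6) (nat_lit 182) (nat_lit 2) (nat_lit 214) (nat_lit 216) (nat_lit 140)) (PT.lf (nat_lit 13376) (nat_lit 6) (nat_lit 176) (nat_lit 2) (nat_lit 215) (nat_lit 216) (nat_lit 139))) (PT.nd (nat_lit 78) (PT.lf (nat_lit 12920) (nat_lit 3) (nat_lit 170) (nat_lit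 0) (nat_lit 216) (nat_lit 216) (nat_lit 138)) (PT.lf (nat_lit 12464) (nat_lit 6) (nat_lit 164) (nat_lit 0) (nat_lit 217) (nat_lit 216) (nat_lit 137))))))) (PT.nd (nat_lit 53040) (PT.nd (nat_lit 52416) (PT.nd (nat_lit 312) (PT.nd (nat_lit 156) (PT.nd (nat_lit 78) (PT.lf (nat_lit 11932) (nat_lit 6) (nat_lit 157) (nat_lit 0) (nat_lit 218) (nat_lit 216) (nat_lit 136)) (PT.lf (nat_lit 11476) (nat_lit 6) (nat_lit 151) (nat_lit 0) (nat_lit 219) (nat_lit 216) (nat_lit 135))) (PT.nd (nat_lit 78) (PT.lf (nat_lit 11020) (nat_lit 6) (nat_lit 145) (nat_lit 0) (nat_lit 220) (nat_lit 216) (nat_lit 134)) (PT.lf (nat_lit 10564) (nat_lit 6) (nat_lit 139) (nat_lit 0) (nat_lit 221) (nat_lit 216) (nat_lit 133)))) (PT.nd (nat_lit 156) (PT.nd (nat_lit 78) (PT.lf (nat_lit 10108) (nat_lit 6) (nat_lit 133) (nat_lit 0) (nat_lit 222) (nat_lit 216) (nat_lit 132)) (PT.lf (nat_lit 9728) (nat_lit 6) (nat_lit 128) (nat_lit 0) (nat_lit 223) (nat_lit 216) (nat_lit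 131))) (PT.nd (nat_lit 51870) (PT.lf (nat_lit 9272) (nat_lit 6) (nat_lit 122) (nat_lit 0) (nat_lit 224) (nat_lit 216) (nat_lit 130)) (PT.lf (nat_lit 8512) (nat_lit 6) (nat_lit 112) (nat_lit 5) (nat_lit 128) (nat_lit 217) (nat_lit 225))))) (PT.nd (nat_lit 312) (PT.nd (nat_lit 156) (PT.nd (nat_lit 78) (PT.lf (nat_lit 8968) (nat_lit 6) (nat_lit 118) (nat_lit 5) (nat_lit 129) (nat_lit 217) (nat_lit 224)) (PT.lf (nat_lit 9348) (nat_lit 6) (nat_lit 123) (nat_lit 5) (nat_lit 130) (nat_lit 217) (nat_lit 223))) (PT.nd (nat_lit 78) (PT.lf (nat_lit 9804) (nat_lit 6) (nat_lit 129) (nat_lit 5) (nat_lit 131) (nat_lit 217) (nat_lit 222)) (PT.lf (nat_lit 10184) (nat_lit 6) (nat_lit 134) (nat_lit 5) (nat_lit 132) (nat_lit 217) (nat_lit 221)))) (PT.nd (nat_lit 156) (PT.nd (nat_lit 78) (PT.lf (nat_lit 10640) (nat_lit 6) (nat_lit 140) (nat_lit 5) (nat_lit 133) (nat_lit 217) (nat_lit 220)) (PT.lf (nat_lit 11096) (nat_lit 6) (nat_lit 146) (nat_lit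 5) (nat_lit 134) (nat_lit 217) (nat_lit 219))) (PT.nd (nat_lit 78) (PT.lf (nat_lit 11552) (nat_lit 6) (nat_lit 152) (nat_lit 5) (nat_lit 135) (nat_lit 217) (nat_lit 218)) (PT.lf (nat_lit 12008) (nat_lit 3) (nat_lit 158) (nat_lit 4) (nat_lit 136) (nat_lit 217) (nat_lit 217)))))) (PT.nd (nat_lit 624) (PT.nd (nat_lit 312) (PT.nd (nat_lit 156) (PT.nd (nat_lit 78) (PT.lf (nat_lit 12464) (nat_lit 6) (nat_lit 164) (nat_lit 4) (nat_lit 137) (nat_lit 217) (nat_lit 216)) (PT.lf (nat_lit 12844) (nat_lit 6) (nat_lit 169) (nat_lit 4) (nat_lit 138) (nat_lit 217) (nat_lit 215))) (PT.nd (nat_lit 78) (PT.lf (nat_lit 13300) (nat_lit 6) (nat_lit 175) (nat_lit 4) (nat_lit 139) (nat_lit 217) (nat_lit 214)) (PT.lf (nat_lit 13756) (nat_lit 6) (nat_lit 181) (nat_lit 4) (nat_lit 140) (nat_lit 217) (nat_lit 213)))) (PT.nd (nat_lit 156) (PT.nd (nat_lit 78) (PT.lf (nat_lit 14212) (nat_lit 6) (nat_lit 187) (nat_lit 4) (nat_lit 141) (nat_lit 217) (nat_lit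 212)) (PT.lf (nat_lit 14668) (nat_lit 6) (nat_lit 193) (nat_lit 4) (nat_lit 142) (nat_lit 217) (nat_lit 211))) (PT.nd (nat_lit 78) (PT.lf (nat_lit 15200) (nat_lit 6) (nat_lit 200) (nat_lit 4) (nat_lit 143) (nat_lit 217) (nat_lit 210)) (PT.lf (nat_lit 15656) (nat_lit 6) (nat_lit 206) (nat_lit 4) (nat_lit 144) (nat_lit 217) (nat_lit 209))))) (PT.nd (nat_lit 312) (PT.nd (nat_lit 156) (PT.nd (nat_lit 78) (PT.lf (nat_lit 16188) (nat_lit 6) (nat_lit 213) (nat_lit 4) (nat_lit 145) (nat_lit 217) (nat_lit 208)) (PT.lf (nat_lit 16720) (nat_lit 6) (nat_lit 220) (nat_lit 4) (nat_lit 146) (nat_lit 217) (nat_lit 207))) (PT.nd (nat_lit 78) (PT.lf (nat_lit 17252) (nat_lit 6) (nat_lit 227) (nat_lit 4) (nat_lit 147) (nat_lit 217) (nat_lit 206)) (PT.lf (nat_lit 17784) (nat_lit 6) (nat_lit 234) (nat_lit 4) (nat_lit 148) (nat_lit 217) (nat_lit 205)))) (PT.nd (nat_lit 156) (PT.nd (nat_lit 78) (PT.lf (nat_lit 18392) (nat_lit 6) (nat_lit 242) (nat_lit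 4) (nat_lit 149) (nat_lit 217) (nat_lit 204)) (PT.lf (nat_lit 19000) (nat_lit 6) (nat_lit 250) (nat_lit 4) (nat_lit 150) (nat_lit 217) (nat_lit 203))) (PT.nd (nat_lit 78) (PT.lf (nat_lit 19608) (nat_lit 6) (nat_lit 258) (nat_lit 4) (nat_lit 151) (nat_lit 217) (nat_lit 202)) (PT.lf (nat_lit 20216) (nat_lit 6) (nat_lit 266) (nat_lit 4) (nat_lit 152) (nat_lit 217) (nat_lit 201))))))))
noncomputable def pc55 : PT := (PT.nd (nat_lit 57564) (PT.nd (nat_lit 4758) (PT.nd (nat_lit 4134) (PT.nd (nat_lit 3822) (PT.nd (nat_lit 3666) (PT.lf (nat_lit 20900) (nat_lit 6) (nat_lit 275) (nat_lit 4) (nat_lit 153) (nat_lit 217) (nat_lit 200)) (PT.nd (nat_lit 78) (PT.lf (nat_lit 20900) (nat_lit 6) (nat_lit 275) (nat_lit 2) (nat_lit 200) (nat_lit 217) (nat_lit 153)) (PT.lf (nat_lit 20216) (nat_lit 6) (nat_lit 266) (nat_lit 2) (nat_lit 201) (nat_lit 217) (nat_lit 152)))) (PT.nd (nat_lit 156) (PT.nd (nat_lit 78) (PT.lf (nat_lit 19608) (nat_lit 6) (nat_lit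 258) (nat_lit 2) (nat_lit 202) (nat_lit 217) (nat_lit 151)) (PT.lf (nat_lit 19000) (nat_lit 6) (nat_lit 250) (nat_lit 2) (nat_lit 203) (nat_lit 217) (nat_lit 150))) (PT.nd (nat_lit 78) (PT.lf (nat_lit 18392) (nat_lit 6) (nat_lit 242) (nat_lit 2) (nat_lit 204) (nat_lit 217) (nat_lit 149)) (PT.lf (nat_lit 17784) (nat_lit 6) (nat_lit 234) (nat_lit 2) (nat_lit 205) (nat_lit 217) (nat_lit 148))))) (PT.nd (nat_lit 312) (PT.nd (nat_lit 156) (PT.nd (nat_lit 78) (PT.lf (nat_lit 17252) (nat_lit 6) (nat_lit 227) (nat_lit 2) (nat_lit 206) (nat_lit 217) (nat_lit 147)) (PT.lf (nat_lit 16720) (nat_lit 6) (nat_lit 220) (nat_lit 2) (nat_lit 207) (nat_lit 217) (nat_lit 146))) (PT.nd (nat_lit 78) (PT.lf (nat_lit 16188) (nat_lit 6) (nat_lit 213) (nat_lit 2) (nat_lit 208) (nat_lit 217) (nat_lit 145)) (PT.lf (nat_lit 15656) (nat_lit 6) (nat_lit 206) (nat_lit 2) (nat_lit 209) (nat_lit 217) (nat_lit 144)))) (PT.nd (nat_lit 156) (PT.nd (nat_lit 78)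 (PT.lf (nat_lit 15200) (nat_lit 6) (nat_lit 200) (nat_lit 2) (nat_lit 210) (nat_lit 217) (nat_lit 143)) (PT.lf (nat_lit 14668) (nat_lit 6) (nat_lit 193) (nat_lit 2) (nat_lit 211) (nat_lit 217) (nat_lit 142))) (PT.nd (nat_lit 78) (PT.lf (nat_lit 14212) (nat_lit 6) (nat_lit 187) (nat_lit 2) (nat_lit 212) (nat_lit 217) (nat_lit 141)) (PT.lf (nat_lit 13756) (nat_lit 6) (nat_lit 181) (nat_lit 2) (nat_lit 213) (nat_lit 217) (nat_lit 140)))))) (PT.nd (nat_lit 624) (PT.nd (nat_lit 312) (PT.nd (nat_lit 156) (PT.nd (nat_lit 78) (PT.lf (nat_lit 13300) (nat_lit 6) (nat_lit 175) (nat_lit 2) (nat_lit 214) (nat_lit 217) (nat_lit 139)) (PT.lf (nat_lit 12844) (nat_lit 6) (nat_lit 169) (nat_lit 2) (nat_lit 215) (nat_lit 217) (nat_lit 138))) (PT.nd (nat_lit 78) (PT.lf (nat_lit 12464) (nat_lit 6) (nat_lit 164) (nat_lit 2) (nat_lit 216) (nat_lit 217) (nat_lit 137)) (PT.lf (nat_lit 12008) (nat_lit 3) (nat_lit 158) (nat_lit 0) (nat_lit 217) (nat_lit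 217) (nat_lit 136)))) (PT.nd (nat_lit 156) (PT.nd (nat_lit 78) (PT.lf (nat_lit 11552) (nat_lit 6) (nat_lit 152) (nat_lit 0) (nat_lit 218) (nat_lit 217) (nat_lit 135)) (PT.lf (nat_lit 11096) (nat_lit 6) (nat_lit 146) (nat_lit 0) (nat_lit 219) (nat_lit 217) (nat_lit 134))) (PT.nd (nat_lit 78) (PT.lf (nat_lit 10640) (nat_lit 6) (nat_lit 140) (nat_lit 0) (nat_lit 220) (nat_lit 217) (nat_lit 133)) (PT.lf (nat_lit 10184) (nat_lit 6) (nat_lit 134) (nat_lit 0) (nat_lit 221) (nat_lit 217) (nat_lit 132))))) (PT.nd (nat_lit 51870) (PT.nd (nat_lit 156) (PT.nd (nat_lit 78) (PT.lf (nat_lit 9804) (nat_lit 6) (nat_lit 129) (nat_lit 0) (nat_lit 222) (nat_lit 217) (nat_lit 131)) (PT.lf (nat_lit 9348) (nat_lit 6) (nat_lit 123) (nat_lit 0) (nat_lit 223) (nat_lit 217) (nat_lit 130))) (PT.nd (nat_lit 78) (PT.lf (nat_lit 8968) (nat_lit 6) (nat_lit 118) (nat_lit 0) (nat_lit 224) (nat_lit 217) (nat_lit 129)) (PT.lf (nat_lit 8512) (nat_lit 6) (nat_lit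 112) (nat_lit 0) (nat_lit 225) (nat_lit 217) (nat_lit 128)))) (PT.nd (nat_lit 156) (PT.nd (nat_lit 78) (PT.lf (nat_lit 7828) (nat_lit 6) (nat_lit 103) (nat_lit 5) (nat_lit 126) (nat_lit 218) (nat_lit 226)) (PT.lf (nat_lit 8208) (nat_lit 6) (nat_lit 108) (nat_lit 5) (nat_lit 127) (nat_lit 218) (nat_lit 225))) (PT.nd (nat_lit 78) (PT.lf (nat_lit 8588) (nat_lit 6) (nat_lit 113) (nat_lit 5) (nat_lit 128) (nat_lit 218) (nat_lit 224)) (PT.lf (nat_lit 9044) (nat_lit 6) (nat_lit 119) (nat_lit 5) (nat_lit 129) (nat_lit 218) (nat_lit 223))))))) (PT.nd (nat_lit 1248) (PT.nd (nat_lit 624) (PT.nd (nat_lit 312) (PT.nd (nat_lit 156) (PT.nd (nat_lit 78) (PT.lf (nat_lit 9424) (nat_lit 6) (nat_lit 124) (nat_lit 5) (nat_lit 130) (nat_lit 218) (nat_lit 222)) (PT.lf (nat_lit 9880) (nat_lit 6) (nat_lit 130) (nat_lit 5) (nat_lit 131) (nat_lit 218) (nat_lit 221))) (PT.nd (nat_lit 78) (PT.lf (nat_lit 10260) (nat_lit 6) (nat_lit 135) (nat_lit 5) (nat_lit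 132) (nat_lit 218) (nat_lit 220)) (PT.lf (nat_lit 10716) (nat_lit 6) (nat_lit 141) (nat_lit 5) (nat_lit 133) (nat_lit 218) (nat_lit 219)))) (PT.nd (nat_lit 156) (PT.nd (nat_lit 78) (PT.lf (nat_lit 11172) (nat_lit 3) (nat_lit 147) (nat_lit 4) (nat_lit 134) (nat_lit 218) (nat_lit 218)) (PT.lf (nat_lit 11552) (nat_lit 6) (nat_lit 152) (nat_lit 4) (nat_lit 135) (nat_lit 218) (nat_lit 217))) (PT.nd (nat_lit 78) (PT.lf (nat_lit 11932) (nat_lit 6) (nat_lit 157) (nat_lit 4) (nat_lit 136) (nat_lit 218) (nat_lit 216)) (PT.lf (nat_lit 12388) (nat_lit 6) (nat_lit 163) (nat_lit 4) (nat_lit 137) (nat_lit 218) (nat_lit 215))))) (PT.nd (nat_lit 312) (PT.nd (nat_lit 156) (PT.nd (nat_lit 78) (PT.lf (nat_lit 12768) (nat_lit 6) (nat_lit 168) (nat_lit 4) (nat_lit 138) (nat_lit 218) (nat_lit 214)) (PT.lf (nat_lit 13224) (nat_lit 6) (nat_lit 174) (nat_lit 4) (nat_lit 139) (nat_lit 218) (nat_lit 213))) (PT.nd (nat_lit 78) (PT.lf (nat_lit 13680) (nat_lit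 6) (nat_lit 180) (nat_lit 4) (nat_lit 140) (nat_lit 218) (nat_lit 212)) (PT.lf (nat_lit 14136) (nat_lit 6) (nat_lit 186) (nat_lit 4) (nat_lit 141) (nat_lit 218) (nat_lit 211)))) (PT.nd (nat_lit 156) (PT.nd (nat_lit 78) (PT.lf (nat_lit 14592) (nat_lit 6) (nat_lit 192) (nat_lit 4) (nat_lit 142) (nat_lit 218) (nat_lit 210)) (PT.lf (nat_lit 15124) (nat_lit 6) (nat_lit 199) (nat_lit 4) (nat_lit 143) (nat_lit 218) (nat_lit 209))) (PT.nd (nat_lit 78) (PT.lf (nat_lit 15580) (nat_lit 6) (nat_lit 205) (nat_lit 4) (nat_lit 144) (nat_lit 218) (nat_lit 208)) (PT.lf (nat_lit 16112) (nat_lit 6) (nat_lit 212) (nat_lit 4) (nat_lit 145) (nat_lit 218) (nat_lit 207)))))) (PT.nd (nat_lit 4758) (PT.nd (nat_lit 4446) (PT.nd (nat_lit 156) (PT.nd (nat_lit 78) (PT.lf (nat_lit 16644) (nat_lit 6) (nat_lit 219) (nat_lit 4) (nat_lit 146) (nat_lit 218) (nat_lit 206)) (PT.lf (nat_lit 17176) (nat_lit 6) (nat_lit 226) (nat_lit 4) (nat_lit 147) (nat_lit 218)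 (nat_lit 205))) (PT.nd (nat_lit 78) (PT.lf (nat_lit 17708) (nat_lit 6) (nat_lit 233) (nat_lit 4) (nat_lit 148) (nat_lit 218) (nat_lit 204)) (PT.lf (nat_lit 18316) (nat_lit 6) (nat_lit 241) (nat_lit 4) (nat_lit 149) (nat_lit 218) (nat_lit 203)))) (PT.nd (nat_lit 156) (PT.nd (nat_lit 78) (PT.lf (nat_lit 18316) (nat_lit 6) (nat_lit 241) (nat_lit 2) (nat_lit 203) (nat_lit 218) (nat_lit 149)) (PT.lf (nat_lit 17708) (nat_lit 6) (nat_lit 233) (nat_lit 2) (nat_lit 204) (nat_lit 218) (nat_lit 148))) (PT.nd (nat_lit 78) (PT.lf (nat_lit 17176) (nat_lit 6) (nat_lit 226) (nat_lit 2) (nat_lit 205) (nat_lit 218) (nat_lit 147)) (PT.lf (nat_lit 16644) (nat_lit 6) (nat_lit 219) (nat_lit 2) (nat_lit 206) (nat_lit 218) (nat_lit 146))))) (PT.nd (nat_lit 312) (PT.nd (nat_lit 156) (PT.nd (nat_lit 78) (PT.lf (nat_lit 16112) (nat_lit 6) (nat_lit 212) (nat_lit 2) (nat_lit 207) (nat_lit 218) (nat_lit 145)) (PT.lf (nat_lit 15580) (nat_lit 6) (nat_lit 205)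 (nat_lit 2) (nat_lit 208) (nat_lit 218) (nat_lit 144))) (PT.nd (nat_lit 78) (PT.lf (nat_lit 15124) (nat_lit 6) (nat_lit 199) (nat_lit 2) (nat_lit 209) (nat_lit 218) (nat_lit 143)) (PT.lf (nat_lit 14592) (nat_lit 6) (nat_lit 192) (nat_lit 2) (nat_lit 210) (nat_lit 218) (nat_lit 142)))) (PT.nd (nat_lit 156) (PT.nd (nat_lit 78) (PT.lf (nat_lit 14136) (nat_lit 6) (nat_lit 186) (nat_lit 2) (nat_lit 211) (nat_lit 218) (nat_lit 141)) (PT.lf (nat_lit 13680) (nat_lit 6) (nat_lit 180) (nat_lit 2) (nat_lit 212) (nat_lit 218) (nat_lit 140))) (PT.nd (nat_lit 78) (PT.lf (nat_lit 13224) (nat_lit 6) (nat_lit 174) (nat_lit 2) (nat_lit 213) (nat_lit 218) (nat_lit 139)) (PT.lf (nat_lit 12768) (nat_lit 6) (nat_lit 168) (nat_lit 2) (nat_lit 214) (nat_lit 218) (nat_lit 138))))))))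
noncomputable def pc56 : PT := (PT.nd (nat_lit 53820) (PT.nd (nat_lit 52572) (PT.nd (nat_lit 546) (PT.nd (nat_lit 234) (PT.nd (nat_lit 78) (PT.lf (nat_lit 12388) (nat_lit 6) (nat_lit 163) (nat_lit 2) (nat_lit 215) (nat_lit 218) (nat_lit 137)) (PT.nd (nat_lit 78) (PT.lf (nat_lit 11932) (nat_lit 6) (nat_lit 157) (nat_lit 2) (nat_lit 216) (nat_lit 218) (nat_lit 136)) (PT.lf (nat_lit 11552) (nat_lit 6) (nat_lit 152) (nat_lit 2) (nat_lit 217) (nat_lit 218) (nat_lit 135)))) (PT.nd (nat_lit 156) (PT.nd (nat_lit 78) (PT.lf (nat_lit 11172) (nat_lit 3) (nat_lit 147) (nat_lit 0) (nat_lit 218) (nat_lit 218) (nat_lit 134)) (PT.lf (nat_lit 10716) (nat_lit 6) (nat_lit 141) (nat_lit 0) (nat_lit 219) (nat_lit 218) (nat_lit 133))) (PT.nd (nat_lit 78) (PT.lf (nat_lit 10260) (nat_lit 6) (nat_lit 135) (nat_lit 0) (nat_lit 220) (nat_lit 218) (nat_lit 132)) (PT.lf (nat_lit 9880) (nat_lit 6) (nat_lit 130) (nat_lit 0) (nat_lit 221) (nat_lit 218) (nat_lit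 131))))) (PT.nd (nat_lit 312) (PT.nd (nat_lit 156) (PT.nd (nat_lit 78) (PT.lf (nat_lit 9424) (nat_lit 6) (nat_lit 124) (nat_lit 0) (nat_lit 222) (nat_lit 218) (nat_lit 130)) (PT.lf (nat_lit 9044) (nat_lit 6) (nat_lit 119) (nat_lit 0) (nat_lit 223) (nat_lit 218) (nat_lit 129))) (PT.nd (nat_lit 78) (PT.lf (nat_lit 8588) (nat_lit 6) (nat_lit 113) (nat_lit 0) (nat_lit 224) (nat_lit 218) (nat_lit 128)) (PT.lf (nat_lit 8208) (nat_lit 6) (nat_lit 108) (nat_lit 0) (nat_lit 225) (nat_lit 218) (nat_lit 127)))) (PT.nd (nat_lit 51558) (PT.nd (nat_lit 51480) (PT.lf (nat_lit 7828) (nat_lit 6) (nat_lit 103) (nat_lit 0) (nat_lit 226) (nat_lit 218) (nat_lit 126)) (PT.lf (nat_lit 7524) (nat_lit 6) (nat_lit 99) (nat_lit 5) (nat_lit 125) (nat_lit 219) (nat_lit 226))) (PT.nd (nat_lit 78) (PT.lf (nat_lit 7904) (nat_lit 6) (nat_lit 104) (nat_lit 5) (nat_lit 126) (nat_lit 219) (nat_lit 225)) (PT.lf (nat_lit 8284) (nat_lit 6) (nat_lit 109) (nat_lit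 5) (nat_lit 127) (nat_lit 219) (nat_lit 224)))))) (PT.nd (nat_lit 624) (PT.nd (nat_lit 312) (PT.nd (nat_lit 156) (PT.nd (nat_lit 78) (PT.lf (nat_lit 8664) (nat_lit 6) (nat_lit 114) (nat_lit 5) (nat_lit 128) (nat_lit 219) (nat_lit 223)) (PT.lf (nat_lit 9120) (nat_lit 6) (nat_lit 120) (nat_lit 5) (nat_lit 129) (nat_lit 219) (nat_lit 222))) (PT.nd (nat_lit 78) (PT.lf (nat_lit 9500) (nat_lit 6) (nat_lit 125) (nat_lit 5) (nat_lit 130) (nat_lit 219) (nat_lit 221)) (PT.lf (nat_lit 9956) (nat_lit 6) (nat_lit 131) (nat_lit 5) (nat_lit 131) (nat_lit 219) (nat_lit 220)))) (PT.nd (nat_lit 156) (PT.nd (nat_lit 78) (PT.lf (nat_lit 10336) (nat_lit 3) (nat_lit 136) (nat_lit 4) (nat_lit 132) (nat_lit 219) (nat_lit 219)) (PT.lf (nat_lit 10716) (nat_lit 6) (nat_lit 141) (nat_lit 4) (nat_lit 133) (nat_lit 219) (nat_lit 218))) (PT.nd (nat_lit 78) (PT.lf (nat_lit 11096) (nat_lit 6) (nat_lit 146) (nat_lit 4) (nat_lit 134) (nat_lit 219) (nat_lit 217))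 (PT.lf (nat_lit 11476) (nat_lit 6) (nat_lit 151) (nat_lit 4) (nat_lit 135) (nat_lit 219) (nat_lit 216))))) (PT.nd (nat_lit 312) (PT.nd (nat_lit 156) (PT.nd (nat_lit 78) (PT.lf (nat_lit 11856) (nat_lit 6) (nat_lit 156) (nat_lit 4) (nat_lit 136) (nat_lit 219) (nat_lit 215)) (PT.lf (nat_lit 12312) (nat_lit 6) (nat_lit 162) (nat_lit 4) (nat_lit 137) (nat_lit 219) (nat_lit 214))) (PT.nd (nat_lit 78) (PT.lf (nat_lit 12692) (nat_lit 6) (nat_lit 167) (nat_lit 4) (nat_lit 138) (nat_lit 219) (nat_lit 213)) (PT.lf (nat_lit 13148) (nat_lit 6) (nat_lit 173) (nat_lit 4) (nat_lit 139) (nat_lit 219) (nat_lit 212)))) (PT.nd (nat_lit 156) (PT.nd (nat_lit 78) (PT.lf (nat_lit 13604) (nat_lit 6) (nat_lit 179) (nat_lit 4) (nat_lit 140) (nat_lit 219) (nat_lit 211)) (PT.lf (nat_lit 14060) (nat_lit 6) (nat_lit 185) (nat_lit 4) (nat_lit 141) (nat_lit 219) (nat_lit 210))) (PT.nd (nat_lit 78) (PT.lf (nat_lit 14516) (nat_lit 6) (nat_lit 191) (nat_lit 4)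 (nat_lit 142) (nat_lit 219) (nat_lit 209)) (PT.lf (nat_lit 15048) (nat_lit 6) (nat_lit 198) (nat_lit 4) (nat_lit 143) (nat_lit 219) (nat_lit 208))))))) (PT.nd (nat_lit 5772) (PT.nd (nat_lit 5148) (PT.nd (nat_lit 4836) (PT.nd (nat_lit 156) (PT.nd (nat_lit 78) (PT.lf (nat_lit 15504) (nat_lit 6) (nat_lit 204) (nat_lit 4) (nat_lit 144) (nat_lit 219) (nat_lit 207)) (PT.lf (nat_lit 16036) (nat_lit 6) (nat_lit 211) (nat_lit 4) (nat_lit 145) (nat_lit 219) (nat_lit 206))) (PT.nd (nat_lit 4602) (PT.lf (nat_lit 16568) (nat_lit 6) (nat_lit 218) (nat_lit 4) (nat_lit 146) (nat_lit 219) (nat_lit 205)) (PT.lf (nat_lit 16568) (nat_lit 6) (nat_lit 218) (nat_lit 2) (nat_lit 205) (nat_lit 219) (nat_lit 146)))) (PT.nd (nat_lit 156) (PT.nd (nat_lit 78) (PT.lf (nat_lit 16036) (nat_lit 6) (nat_lit 211) (nat_lit 2) (nat_lit 206) (nat_lit 219) (nat_lit 145)) (PT.lf (nat_lit 15504) (nat_lit 6) (nat_lit 204) (nat_lit 2) (nat_lit 207) (nat_lit 219) (nat_lit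 144))) (PT.nd (nat_lit 78) (PT.lf (nat_lit 15048) (nat_lit 6) (nat_lit 198) (nat_lit 2) (nat_lit 208) (nat_lit 219) (nat_lit 143)) (PT.lf (nat_lit 14516) (nat_lit 6) (nat_lit 191) (nat_lit 2) (nat_lit 209) (nat_lit 219) (nat_lit 142))))) (PT.nd (nat_lit 312) (PT.nd (nat_lit 156) (PT.nd (nat_lit 78) (PT.lf (nat_lit 14060) (nat_lit 6) (nat_lit 185) (nat_lit 2) (nat_lit 210) (nat_lit 219) (nat_lit 141)) (PT.lf (nat_lit 13604) (nat_lit 6) (nat_lit 179) (nat_lit 2) (nat_lit 211) (nat_lit 219) (nat_lit 140))) (PT.nd (nat_lit 78) (PT.lf (nat_lit 13148) (nat_lit 6) (nat_lit 173) (nat_lit 2) (nat_lit 212) (nat_lit 219) (nat_lit 139)) (PT.lf (nat_lit 12692) (nat_lit 6) (nat_lit 167) (nat_lit 2) (nat_lit 213) (nat_lit 219) (nat_lit 138)))) (PT.nd (nat_lit 156) (PT.nd (nat_lit 78) (PT.lf (nat_lit 12312) (nat_lit 6) (nat_lit 162) (nat_lit 2) (nat_lit 214) (nat_lit 219) (nat_lit 137)) (PT.lf (nat_lit 11856) (nat_lit 6) (nat_lit 156) (nat_lit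 2) (nat_lit 215) (nat_lit 219) (nat_lit 136))) (PT.nd (nat_lit 78) (PT.lf (nat_lit 11476) (nat_lit 6) (nat_lit 151) (nat_lit 2) (nat_lit 216) (nat_lit 219) (nat_lit 135)) (PT.lf (nat_lit 11096) (nat_lit 6) (nat_lit 146) (nat_lit 2) (nat_lit 217) (nat_lit 219) (nat_lit 134)))))) (PT.nd (nat_lit 624) (PT.nd (nat_lit 312) (PT.nd (nat_lit 156) (PT.nd (nat_lit 78) (PT.lf (nat_lit 10716) (nat_lit 6) (nat_lit 141) (nat_lit 2) (nat_lit 218) (nat_lit 219) (nat_lit 133)) (PT.lf (nat_lit 10336) (nat_lit 3) (nat_lit 136) (nat_lit 0) (nat_lit 219) (nat_lit 219) (nat_lit 132))) (PT.nd (nat_lit 78) (PT.lf (nat_lit 9956) (nat_lit 6) (nat_lit 131) (nat_lit 0) (nat_lit 220) (nat_lit 219) (nat_lit 131)) (PT.lf (nat_lit 9500) (nat_lit 6) (nat_lit 125) (nat_lit 0) (nat_lit 221) (nat_lit 219) (nat_lit 130)))) (PT.nd (nat_lit 156) (PT.nd (nat_lit 78) (PT.lf (nat_lit 9120) (nat_lit 6) (nat_lit 120) (nat_lit 0) (nat_lit 222) (nat_lit 219) (nat_lit 129))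 (PT.lf (nat_lit 8664) (nat_lit 6) (nat_lit 114) (nat_lit 0) (nat_lit 223) (nat_lit 219) (nat_lit 128))) (PT.nd (nat_lit 78) (PT.lf (nat_lit 8284) (nat_lit 6) (nat_lit 109) (nat_lit 0) (nat_lit 224) (nat_lit 219) (nat_lit 127)) (PT.lf (nat_lit 7904) (nat_lit 6) (nat_lit 104) (nat_lit 0) (nat_lit 225) (nat_lit 219) (nat_lit 126))))) (PT.nd (nat_lit 51558) (PT.nd (nat_lit 51402) (PT.nd (nat_lit 51324) (PT.lf (nat_lit 7524) (nat_lit 6) (nat_lit 99) (nat_lit 0) (nat_lit 226) (nat_lit 219) (nat_lit 125)) (PT.lf (nat_lit 6916) (nat_lit 6) (nat_lit 91) (nat_lit 5) (nat_lit 123) (nat_lit 220) (nat_lit 227))) (PT.nd (nat_lit 78) (PT.lf (nat_lit 7220) (nat_lit 6) (nat_lit 95) (nat_lit 5) (nat_lit 124) (nat_lit 220) (nat_lit 226)) (PT.lf (nat_lit 7600) (nat_lit 6) (nat_lit 100) (nat_lit 5) (nat_lit 125) (nat_lit 220) (nat_lit 225)))) (PT.nd (nat_lit 156) (PT.nd (nat_lit 78) (PT.lf (nat_lit 7980) (nat_lit 6) (nat_lit 105) (nat_lit 5) (nat_lit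 126) (nat_lit 220) (nat_lit 224)) (PT.lf (nat_lit 8360) (nat_lit 6) (nat_lit 110) (nat_lit 5) (nat_lit 127) (nat_lit 220) (nat_lit 223))) (PT.nd (nat_lit 78) (PT.lf (nat_lit 8740) (nat_lit 6) (nat_lit 115) (nat_lit 5) (nat_lit 128) (nat_lit 220) (nat_lit 222)) (PT.lf (nat_lit 9196) (nat_lit 6) (nat_lit 121) (nat_lit 5) (nat_lit 129) (nat_lit 220) (nat_lit 221))))))))
noncomputable def pc57 : PT := (PT.nd (nat_lit 7332) (PT.nd (nat_lit 6084) (PT.nd (nat_lit 546) (PT.nd (nat_lit 234) (PT.nd (nat_lit 78) (PT.lf (nat_lit 9576) (nat_lit 3) (nat_lit 126) (nat_lit 4) (nat_lit 130) (nat_lit 220) (nat_lit 220)) (PT.nd (nat_lit 78) (PT.lf (nat_lit 9956) (nat_lit 6) (nat_lit 131) (nat_lit 4) (nat_lit 131) (nat_lit 220) (nat_lit 219)) (PT.lf (nat_lit 10260) (nat_lit 6) (nat_lit 135) (nat_lit 4) (nat_lit 132) (nat_lit 220) (nat_lit 218)))) (PT.nd (nat_lit 156) (PT.nd (nat_lit 78) (PT.lf (nat_lit 10640) (nat_lit 6) (nat_lit 140) (nat_lit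 4) (nat_lit 133) (nat_lit 220) (nat_lit 217)) (PT.lf (nat_lit 11020) (nat_lit 6) (nat_lit 145) (nat_lit 4) (nat_lit 134) (nat_lit 220) (nat_lit 216))) (PT.nd (nat_lit 78) (PT.lf (nat_lit 11400) (nat_lit 6) (nat_lit 150) (nat_lit 4) (nat_lit 135) (nat_lit 220) (nat_lit 215)) (PT.lf (nat_lit 11780) (nat_lit 6) (nat_lit 155) (nat_lit 4) (nat_lit 136) (nat_lit 220) (nat_lit 214))))) (PT.nd (nat_lit 312) (PT.nd (nat_lit 156) (PT.nd (nat_lit 78) (PT.lf (nat_lit 12236) (nat_lit 6) (nat_lit 161) (nat_lit 4) (nat_lit 137) (nat_lit 220) (nat_lit 213)) (PT.lf (nat_lit 12616) (nat_lit 6) (nat_lit 166) (nat_lit 4) (nat_lit 138) (nat_lit 220) (nat_lit 212))) (PT.nd (nat_lit 78) (PT.lf (nat_lit 13072) (nat_lit 6) (nat_lit 172) (nat_lit 4) (nat_lit 139) (nat_lit 220) (nat_lit 211)) (PT.lf (nat_lit 13528) (nat_lit 6) (nat_lit 178) (nat_lit 4) (nat_lit 140) (nat_lit 220) (nat_lit 210)))) (PT.nd (nat_lit 156) (PT.nd (nat_lit 78) (PT.lf (nat_lit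 13984) (nat_lit 6) (nat_lit 184) (nat_lit 4) (nat_lit 141) (nat_lit 220) (nat_lit 209)) (PT.lf (nat_lit 14440) (nat_lit 6) (nat_lit 190) (nat_lit 4) (nat_lit 142) (nat_lit 220) (nat_lit 208))) (PT.nd (nat_lit 4992) (PT.lf (nat_lit 14972) (nat_lit 6) (nat_lit 197) (nat_lit 4) (nat_lit 143) (nat_lit 220) (nat_lit 207)) (PT.lf (nat_lit 14972) (nat_lit 6) (nat_lit 197) (nat_lit 2) (nat_lit 207) (nat_lit 220) (nat_lit 143)))))) (PT.nd (nat_lit 624) (PT.nd (nat_lit 312) (PT.nd (nat_lit 156) (PT.nd (nat_lit 78) (PT.lf (nat_lit 14440) (nat_lit 6) (nat_lit 190) (nat_lit 2) (nat_lit 208) (nat_lit 220) (nat_lit 142)) (PT.lf (nat_lit 13984) (nat_lit 6) (nat_lit 184) (nat_lit 2) (nat_lit 209) (nat_lit 220) (nat_lit 141))) (PT.nd (nat_lit 78) (PT.lf (nat_lit 13528) (nat_lit 6) (nat_lit 178) (nat_lit 2) (nat_lit 210) (nat_lit 220) (nat_lit 140)) (PT.lf (nat_lit 13072) (nat_lit 6) (nat_lit 172) (nat_lit 2) (nat_lit 211) (nat_lit 220) (nat_lit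 139)))) (PT.nd (nat_lit 156) (PT.nd (nat_lit 78) (PT.lf (nat_lit 12616) (nat_lit 6) (nat_lit 166) (nat_lit 2) (nat_lit 212) (nat_lit 220) (nat_lit 138)) (PT.lf (nat_lit 12236) (nat_lit 6) (nat_lit 161) (nat_lit 2) (nat_lit 213) (nat_lit 220) (nat_lit 137))) (PT.nd (nat_lit 78) (PT.lf (nat_lit 11780) (nat_lit 6) (nat_lit 155) (nat_lit 2) (nat_lit 214) (nat_lit 220) (nat_lit 136)) (PT.lf (nat_lit 11400) (nat_lit 6) (nat_lit 150) (nat_lit 2) (nat_lit 215) (nat_lit 220) (nat_lit 135))))) (PT.nd (nat_lit 312) (PT.nd (nat_lit 156) (PT.nd (nat_lit 78) (PT.lf (nat_lit 11020) (nat_lit 6) (nat_lit 145) (nat_lit 2) (nat_lit 216) (nat_lit 220) (nat_lit 134)) (PT.lf (nat_lit 10640) (nat_lit 6) (nat_lit 140) (nat_lit 2) (nat_lit 217) (nat_lit 220) (nat_lit 133))) (PT.nd (nat_lit 78) (PT.lf (nat_lit 10260) (nat_lit 6) (nat_lit 135) (nat_lit 2) (nat_lit 218) (nat_lit 220) (nat_lit 132)) (PT.lf (nat_lit 9956) (nat_lit 6) (nat_lit 131) (nat_lit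 2) (nat_lit 219) (nat_lit 220) (nat_lit 131)))) (PT.nd (nat_lit 156) (PT.nd (nat_lit 78) (PT.lf (nat_lit 9576) (nat_lit 3) (nat_lit 126) (nat_lit 0) (nat_lit 220) (nat_lit 220) (nat_lit 130)) (PT.lf (nat_lit 9196) (nat_lit 6) (nat_lit 121) (nat_lit 0) (nat_lit 221) (nat_lit 220) (nat_lit 129))) (PT.nd (nat_lit 78) (PT.lf (nat_lit 8740) (nat_lit 6) (nat_lit 115) (nat_lit 0) (nat_lit 222) (nat_lit 220) (nat_lit 128)) (PT.lf (nat_lit 8360) (nat_lit 6) (nat_lit 110) (nat_lit 0) (nat_lit 223) (nat_lit 220) (nat_lit 127))))))) (PT.nd (nat_lit 52338) (PT.nd (nat_lit 51714) (PT.nd (nat_lit 51402) (PT.nd (nat_lit 156) (PT.nd (nat_lit 78) (PT.lf (nat_lit 7980) (nat_lit 6) (nat_lit 105) (nat_lit 0) (nat_lit 224) (nat_lit 220) (nat_lit 126)) (PT.lf (nat_lit 7600) (nat_lit 6) (nat_lit 100) (nat_lit 0) (nat_lit 225) (nat_lit 220) (nat_lit 125))) (PT.nd (nat_lit 78) (PT.lf (nat_lit 7220) (nat_lit 6) (nat_lit 95) (nat_lit 0) (nat_lit 226) (nat_lit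 220) (nat_lit 124)) (PT.lf (nat_lit 6916) (nat_lit 6) (nat_lit 91) (nat_lit 0) (nat_lit 227) (nat_lit 220) (nat_lit 123)))) (PT.nd (nat_lit 156) (PT.nd (nat_lit 78) (PT.lf (nat_lit 6612) (nat_lit 6) (nat_lit 87) (nat_lit 5) (nat_lit 122) (nat_lit 221) (nat_lit 227)) (PT.lf (nat_lit 6992) (nat_lit 6) (nat_lit 92) (nat_lit 5) (nat_lit 123) (nat_lit 221) (nat_lit 226))) (PT.nd (nat_lit 78) (PT.lf (nat_lit 7296) (nat_lit 6) (nat_lit 96) (nat_lit 5) (nat_lit 124) (nat_lit 221) (nat_lit 225)) (PT.lf (nat_lit 7676) (nat_lit 6) (nat_lit 101) (nat_lit 5) (nat_lit 125) (nat_lit 221) (nat_lit 224))))) (PT.nd (nat_lit 312) (PT.nd (nat_lit 156) (PT.nd (nat_lit 78) (PT.lf (nat_lit 8056) (nat_lit 6) (nat_lit 106) (nat_lit 5) (nat_lit 126) (nat_lit 221) (nat_lit 223)) (PT.lf (nat_lit 8436) (nat_lit 6) (nat_lit 111) (nat_lit 5) (nat_lit 127) (nat_lit 221) (nat_lit 222))) (PT.nd (nat_lit 78) (PT.lf (nat_lit 8816) (nat_lit 3) (nat_lit 116) (nat_lit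 4) (nat_lit 128) (nat_lit 221) (nat_lit 221)) (PT.lf (nat_lit 9196) (nat_lit 6) (nat_lit 121) (nat_lit 4) (nat_lit 129) (nat_lit 221) (nat_lit 220)))) (PT.nd (nat_lit 156) (PT.nd (nat_lit 78) (PT.lf (nat_lit 9500) (nat_lit 6) (nat_lit 125) (nat_lit 4) (nat_lit 130) (nat_lit 221) (nat_lit 219)) (PT.lf (nat_lit 9880) (nat_lit 6) (nat_lit 130) (nat_lit 4) (nat_lit 131) (nat_lit 221) (nat_lit 218))) (PT.nd (nat_lit 78) (PT.lf (nat_lit 10184) (nat_lit 6) (nat_lit 134) (nat_lit 4) (nat_lit 132) (nat_lit 221) (nat_lit 217)) (PT.lf (nat_lit 10564) (nat_lit 6) (nat_lit 139) (nat_lit 4) (nat_lit 133) (nat_lit 221) (nat_lit 216)))))) (PT.nd (nat_lit 5928) (PT.nd (nat_lit 312) (PT.nd (nat_lit 156) (PT.nd (nat_lit 78) (PT.lf (nat_lit 10944) (nat_lit 6) (nat_lit 144) (nat_lit 4) (nat_lit 134) (nat_lit 221) (nat_lit 215)) (PT.lf (nat_lit 11324) (nat_lit 6) (nat_lit 149) (nat_lit 4) (nat_lit 135) (nat_lit 221) (nat_lit 214))) (PT.nd (nat_lit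 78) (PT.lf (nat_lit 11704) (nat_lit 6) (nat_lit 154) (nat_lit 4) (nat_lit 136) (nat_lit 221) (nat_lit 213)) (PT.lf (nat_lit 12160) (nat_lit 6) (nat_lit 160) (nat_lit 4) (nat_lit 137) (nat_lit 221) (nat_lit 212)))) (PT.nd (nat_lit 156) (PT.nd (nat_lit 78) (PT.lf (nat_lit 12540) (nat_lit 6) (nat_lit 165) (nat_lit 4) (nat_lit 138) (nat_lit 221) (nat_lit 211)) (PT.lf (nat_lit 12996) (nat_lit 6) (nat_lit 171) (nat_lit 4) (nat_lit 139) (nat_lit 221) (nat_lit 210))) (PT.nd (nat_lit 5382) (PT.lf (nat_lit 13452) (nat_lit 6) (nat_lit 177) (nat_lit 4) (nat_lit 140) (nat_lit 221) (nat_lit 209)) (PT.lf (nat_lit 13452) (nat_lit 6) (nat_lit 177) (nat_lit 2) (nat_lit 209) (nat_lit 221) (nat_lit 140))))) (PT.nd (nat_lit 312) (PT.nd (nat_lit 156) (PT.nd (nat_lit 78) (PT.lf (nat_lit 12996) (nat_lit 6) (nat_lit 171) (nat_lit 2) (nat_lit 210) (nat_lit 221) (nat_lit 139)) (PT.lf (nat_lit 12540) (nat_lit 6) (nat_lit 165) (nat_lit 2) (nat_lit 211)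 (nat_lit 221) (nat_lit 138))) (PT.nd (nat_lit 78) (PT.lf (nat_lit 12160) (nat_lit 6) (nat_lit 160) (nat_lit 2) (nat_lit 212) (nat_lit 221) (nat_lit 137)) (PT.lf (nat_lit 11704) (nat_lit 6) (nat_lit 154) (nat_lit 2) (nat_lit 213) (nat_lit 221) (nat_lit 136)))) (PT.nd (nat_lit 156) (PT.nd (nat_lit 78) (PT.lf (nat_lit 11324) (nat_lit 6) (nat_lit 149) (nat_lit 2) (nat_lit 214) (nat_lit 221) (nat_lit 135)) (PT.lf (nat_lit 10944) (nat_lit 6) (nat_lit 144) (nat_lit 2) (nat_lit 215) (nat_lit 221) (nat_lit 134))) (PT.nd (nat_lit 78) (PT.lf (nat_lit 10564) (nat_lit 6) (nat_lit 139) (nat_lit 2) (nat_lit 216) (nat_lit 221) (nat_lit 133)) (PT.lf (nat_lit 10184) (nat_lit 6) (nat_lit 134) (nat_lit 2) (nat_lit 217) (nat_lit 221) (nat_lit 132))))))))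
noncomputable def pc58 : PT := (PT.nd (nat_lit 59046) (PT.nd (nat_lit 52104) (PT.nd (nat_lit 546) (PT.nd (nat_lit 234) (PT.nd (nat_lit 78) (PT.lf (nat_lit 9880) (nat_lit 6) (nat_lit 130) (nat_lit 2) (nat_lit 218) (nat_lit 221) (nat_lit 131)) (PT.nd (nat_lit 78) (PT.lf (nat_lit 9500) (nat_lit 6) (nat_lit 125) (nat_lit 2) (nat_lit 219) (nat_lit 221) (nat_lit 130)) (PT.lf (nat_lit 9196) (nat_lit 6) (nat_lit 121) (nat_lit 2) (nat_lit 220) (nat_lit 221) (nat_lit 129)))) (PT.nd (nat_lit 156) (PT.nd (nat_lit 78) (PT.lf (nat_lit 8816) (nat_lit 3) (nat_lit 116) (nat_lit 0) (nat_lit 221) (nat_lit 221) (nat_lit 128)) (PT.lf (nat_lit 8436) (nat_lit 6) (nat_lit 111) (nat_lit 0) (nat_lit 222) (nat_lit 221) (nat_lit 127))) (PT.nd (nat_lit 78) (PT.lf (nat_lit 8056) (nat_lit 6) (nat_lit 106) (nat_lit 0) (nat_lit 223) (nat_lit 221) (nat_lit 126)) (PT.lf (nat_lit 7676) (nat_lit 6) (nat_lit 101) (nat_lit 0) (nat_lit 224) (nat_lit 221) (nat_lit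 125))))) (PT.nd (nat_lit 51246) (PT.nd (nat_lit 156) (PT.nd (nat_lit 78) (PT.lf (nat_lit 7296) (nat_lit 6) (nat_lit 96) (nat_lit 0) (nat_lit 225) (nat_lit 221) (nat_lit 124)) (PT.lf (nat_lit 6992) (nat_lit 6) (nat_lit 92) (nat_lit 0) (nat_lit 226) (nat_lit 221) (nat_lit 123))) (PT.nd (nat_lit 51012) (PT.lf (nat_lit 6612) (nat_lit 6) (nat_lit 87) (nat_lit 0) (nat_lit 227) (nat_lit 221) (nat_lit 122)) (PT.lf (nat_lit 6004) (nat_lit 6) (nat_lit 79) (nat_lit 5) (nat_lit 120) (nat_lit 222) (nat_lit 228)))) (PT.nd (nat_lit 156) (PT.nd (nat_lit 78) (PT.lf (nat_lit 6384) (nat_lit 6) (nat_lit 84) (nat_lit 5) (nat_lit 121) (nat_lit 222) (nat_lit 227)) (PT.lf (nat_lit 6688) (nat_lit 6) (nat_lit 88) (nat_lit 5) (nat_lit 122) (nat_lit 222) (nat_lit 226))) (PT.nd (nat_lit 78) (PT.lf (nat_lit 7068) (nat_lit 6) (nat_lit 93) (nat_lit 5) (nat_lit 123) (nat_lit 222) (nat_lit 225)) (PT.lf (nat_lit 7372) (nat_lit 6) (nat_lit 97) (nat_lit 5) (nat_lit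 124) (nat_lit 222) (nat_lit 224)))))) (PT.nd (nat_lit 624) (PT.nd (nat_lit 312) (PT.nd (nat_lit 156) (PT.nd (nat_lit 78) (PT.lf (nat_lit 7752) (nat_lit 6) (nat_lit 102) (nat_lit 5) (nat_lit 125) (nat_lit 222) (nat_lit 223)) (PT.lf (nat_lit 8132) (nat_lit 3) (nat_lit 107) (nat_lit 4) (nat_lit 126) (nat_lit 222) (nat_lit 222))) (PT.nd (nat_lit 78) (PT.lf (nat_lit 8436) (nat_lit 6) (nat_lit 111) (nat_lit 4) (nat_lit 127) (nat_lit 222) (nat_lit 221)) (PT.lf (nat_lit 8740) (nat_lit 6) (nat_lit 115) (nat_lit 4) (nat_lit 128) (nat_lit 222) (nat_lit 220)))) (PT.nd (nat_lit 156) (PT.nd (nat_lit 78) (PT.lf (nat_lit 9120) (nat_lit 6) (nat_lit 120) (nat_lit 4) (nat_lit 129) (nat_lit 222) (nat_lit 219)) (PT.lf (nat_lit 9424) (nat_lit 6) (nat_lit 124) (nat_lit 4) (nat_lit 130) (nat_lit 222) (nat_lit 218))) (PT.nd (nat_lit 78) (PT.lf (nat_lit 9804) (nat_lit 6) (nat_lit 129) (nat_lit 4) (nat_lit 131) (nat_lit 222) (nat_lit 217)) (PT.lf (nat_lit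 10108) (nat_lit 6) (nat_lit 133) (nat_lit 4) (nat_lit 132) (nat_lit 222) (nat_lit 216))))) (PT.nd (nat_lit 312) (PT.nd (nat_lit 156) (PT.nd (nat_lit 78) (PT.lf (nat_lit 10488) (nat_lit 6) (nat_lit 138) (nat_lit 4) (nat_lit 133) (nat_lit 222) (nat_lit 215)) (PT.lf (nat_lit 10868) (nat_lit 6) (nat_lit 143) (nat_lit 4) (nat_lit 134) (nat_lit 222) (nat_lit 214))) (PT.nd (nat_lit 78) (PT.lf (nat_lit 11248) (nat_lit 6) (nat_lit 148) (nat_lit 4) (nat_lit 135) (nat_lit 222) (nat_lit 213)) (PT.lf (nat_lit 11628) (nat_lit 6) (nat_lit 153) (nat_lit 4) (nat_lit 136) (nat_lit 222) (nat_lit 212)))) (PT.nd (nat_lit 5850) (PT.nd (nat_lit 5772) (PT.lf (nat_lit 12084) (nat_lit 6) (nat_lit 159) (nat_lit 4) (nat_lit 137) (nat_lit 222) (nat_lit 211)) (PT.lf (nat_lit 12084) (nat_lit 6) (nat_lit 159) (nat_lit 2) (nat_lit 211) (nat_lit 222) (nat_lit 137))) (PT.nd (nat_lit 78) (PT.lf (nat_lit 11628) (nat_lit 6) (nat_lit 153) (nat_lit 2) (nat_lit 212)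 (nat_lit 222) (nat_lit 136)) (PT.lf (nat_lit 11248) (nat_lit 6) (nat_lit 148) (nat_lit 2) (nat_lit 213) (nat_lit 222) (nat_lit 135))))))) (PT.nd (nat_lit 51948) (PT.nd (nat_lit 624) (PT.nd (nat_lit 312) (PT.nd (nat_lit 156) (PT.nd (nat_lit 78) (PT.lf (nat_lit 10868) (nat_lit 6) (nat_lit 143) (nat_lit 2) (nat_lit 214) (nat_lit 222) (nat_lit 134)) (PT.lf (nat_lit 10488) (nat_lit 6) (nat_lit 138) (nat_lit 2) (nat_lit 215) (nat_lit 222) (nat_lit 133))) (PT.nd (nat_lit 78) (PT.lf (nat_lit 10108) (nat_lit 6) (nat_lit 133) (nat_lit 2) (nat_lit 216) (nat_lit 222) (nat_lit 132)) (PT.lf (nat_lit 9804) (nat_lit 6) (nat_lit 129) (nat_lit 2) (nat_lit 217) (nat_lit 222) (nat_lit 131)))) (PT.nd (nat_lit 156) (PT.nd (nat_lit 78) (PT.lf (nat_lit 9424) (nat_lit 6) (nat_lit 124) (nat_lit 2) (nat_lit 218) (nat_lit 222) (nat_lit 130)) (PT.lf (nat_lit 9120) (nat_lit 6) (nat_lit 120) (nat_lit 2) (nat_lit 219) (nat_lit 222) (nat_lit 129))) (PT.nd (nat_lit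 78) (PT.lf (nat_lit 8740) (nat_lit 6) (nat_lit 115) (nat_lit 2) (nat_lit 220) (nat_lit 222) (nat_lit 128)) (PT.lf (nat_lit 8436) (nat_lit 6) (nat_lit 111) (nat_lit 2) (nat_lit 221) (nat_lit 222) (nat_lit 127))))) (PT.nd (nat_lit 312) (PT.nd (nat_lit 156) (PT.nd (nat_lit 78) (PT.lf (nat_lit 8132) (nat_lit 3) (nat_lit 107) (nat_lit 0) (nat_lit 222) (nat_lit 222) (nat_lit 126)) (PT.lf (nat_lit 7752) (nat_lit 6) (nat_lit 102) (nat_lit 0) (nat_lit 223) (nat_lit 222) (nat_lit 125))) (PT.nd (nat_lit 78) (PT.lf (nat_lit 7372) (nat_lit 6) (nat_lit 97) (nat_lit 0) (nat_lit 224) (nat_lit 222) (nat_lit 124)) (PT.lf (nat_lit 7068) (nat_lit 6) (nat_lit 93) (nat_lit 0) (nat_lit 225) (nat_lit 222) (nat_lit 123)))) (PT.nd (nat_lit 156) (PT.nd (nat_lit 78) (PT.lf (nat_lit 6688) (nat_lit 6) (nat_lit 88) (nat_lit 0) (nat_lit 226) (nat_lit 222) (nat_lit 122)) (PT.lf (nat_lit 6384) (nat_lit 6) (nat_lit 84) (nat_lit 0) (nat_lit 227) (nat_lit 222)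 (nat_lit 121))) (PT.nd (nat_lit 50778) (PT.lf (nat_lit 6004) (nat_lit 6) (nat_lit 79) (nat_lit 0) (nat_lit 228) (nat_lit 222) (nat_lit 120)) (PT.lf (nat_lit 5472) (nat_lit 6) (nat_lit 72) (nat_lit 5) (nat_lit 118) (nat_lit 223) (nat_lit 229)))))) (PT.nd (nat_lit 624) (PT.nd (nat_lit 312) (PT.nd (nat_lit 156) (PT.nd (nat_lit 78) (PT.lf (nat_lit 5776) (nat_lit 6) (nat_lit 76) (nat_lit 5) (nat_lit 119) (nat_lit 223) (nat_lit 228)) (PT.lf (nat_lit 6080) (nat_lit 6) (nat_lit 80) (nat_lit 5) (nat_lit 120) (nat_lit 223) (nat_lit 227))) (PT.nd (nat_lit 78) (PT.lf (nat_lit 6460) (nat_lit 6) (nat_lit 85) (nat_lit 5) (nat_lit 121) (nat_lit 223) (nat_lit 226)) (PT.lf (nat_lit 6764) (nat_lit 6) (nat_lit 89) (nat_lit 5) (nat_lit 122) (nat_lit 223) (nat_lit 225)))) (PT.nd (nat_lit 156) (PT.nd (nat_lit 78) (PT.lf (nat_lit 7144) (nat_lit 6) (nat_lit 94) (nat_lit 5) (nat_lit 123) (nat_lit 223) (nat_lit 224)) (PT.lf (nat_lit 7448) (nat_lit 3)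 (nat_lit 98) (nat_lit 4) (nat_lit 124) (nat_lit 223) (nat_lit 223))) (PT.nd (nat_lit 78) (PT.lf (nat_lit 7752) (nat_lit 6) (nat_lit 102) (nat_lit 4) (nat_lit 125) (nat_lit 223) (nat_lit 222)) (PT.lf (nat_lit 8056) (nat_lit 6) (nat_lit 106) (nat_lit 4) (nat_lit 126) (nat_lit 223) (nat_lit 221))))) (PT.nd (nat_lit 312) (PT.nd (nat_lit 156) (PT.nd (nat_lit 78) (PT.lf (nat_lit 8360) (nat_lit 6) (nat_lit 110) (nat_lit 4) (nat_lit 127) (nat_lit 223) (nat_lit 220)) (PT.lf (nat_lit 8664) (nat_lit 6) (nat_lit 114) (nat_lit 4) (nat_lit 128) (nat_lit 223) (nat_lit 219))) (PT.nd (nat_lit 78) (PT.lf (nat_lit 9044) (nat_lit 6) (nat_lit 119) (nat_lit 4) (nat_lit 129) (nat_lit 223) (nat_lit 218)) (PT.lf (nat_lit 9348) (nat_lit 6) (nat_lit 123) (nat_lit 4) (nat_lit 130) (nat_lit 223) (nat_lit 217)))) (PT.nd (nat_lit 156) (PT.nd (nat_lit 78) (PT.lf (nat_lit 9728) (nat_lit 6) (nat_lit 128) (nat_lit 4) (nat_lit 131) (nat_lit 223) (nat_lit 216))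 (PT.lf (nat_lit 10032) (nat_lit 6) (nat_lit 132) (nat_lit 4) (nat_lit 132) (nat_lit 223) (nat_lit 215))) (PT.nd (nat_lit 78) (PT.lf (nat_lit 10412) (nat_lit 6) (nat_lit 137) (nat_lit 4) (nat_lit 133) (nat_lit 223) (nat_lit 214)) (PT.lf (nat_lit 10792) (nat_lit 6) (nat_lit 142) (nat_lit 4) (nat_lit 134) (nat_lit 223) (nat_lit 213))))))))
noncomputable def pc59 : PT := (PT.nd (nat_lit 52962) (PT.nd (nat_lit 1170) (PT.nd (nat_lit 546) (PT.nd (nat_lit 234) (PT.nd (nat_lit 78) (PT.lf (nat_lit 10792) (nat_lit 6) (nat_lit 142) (nat_lit 2) (nat_lit 213) (nat_lit 223) (nat_lit 134)) (PT.nd (nat_lit 78) (PT.lf (nat_lit 10412) (nat_lit 6) (nat_lit 137) (nat_lit 2) (nat_lit 214) (nat_lit 223) (nat_lit 133)) (PT.lf (nat_lit 10032) (nat_lit 6) (nat_lit 132) (nat_lit 2) (nat_lit 215) (nat_lit 223) (nat_lit 132)))) (PT.nd (nat_lit 156) (PT.nd (nat_lit 78) (PT.lf (nat_lit 9728) (nat_lit 6) (nat_lit 128) (nat_lit 2) (nat_lit 216) (nat_lit 223)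 (nat_lit 131)) (PT.lf (nat_lit 9348) (nat_lit 6) (nat_lit 123) (nat_lit 2) (nat_lit 217) (nat_lit 223) (nat_lit 130))) (PT.nd (nat_lit 78) (PT.lf (nat_lit 9044) (nat_lit 6) (nat_lit 119) (nat_lit 2) (nat_lit 218) (nat_lit 223) (nat_lit 129)) (PT.lf (nat_lit 8664) (nat_lit 6) (nat_lit 114) (nat_lit 2) (nat_lit 219) (nat_lit 223) (nat_lit 128))))) (PT.nd (nat_lit 312) (PT.nd (nat_lit 156) (PT.nd (nat_lit 78) (PT.lf (nat_lit 8360) (nat_lit 6) (nat_lit 110) (nat_lit 2) (nat_lit 220) (nat_lit 223) (nat_lit 127)) (PT.lf (nat_lit 8056) (nat_lit 6) (nat_lit 106) (nat_lit 2) (nat_lit 221) (nat_lit 223) (nat_lit 126))) (PT.nd (nat_lit 78) (PT.lf (nat_lit 7752) (nat_lit 6) (nat_lit 102) (nat_lit 2) (nat_lit 222) (nat_lit 223) (nat_lit 125)) (PT.lf (nat_lit 7448) (nat_lit 3) (nat_lit 98) (nat_lit 0) (nat_lit 223) (nat_lit 223) (nat_lit 124)))) (PT.nd (nat_lit 156) (PT.nd (nat_lit 78) (PT.lf (nat_lit 7144) (nat_lit 6) (nat_lit 94) (nat_lit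 0) (nat_lit 224) (nat_lit 223) (nat_lit 123)) (PT.lf (nat_lit 6764) (nat_lit 6) (nat_lit 89) (nat_lit 0) (nat_lit 225) (nat_lit 223) (nat_lit 122))) (PT.nd (nat_lit 78) (PT.lf (nat_lit 6460) (nat_lit 6) (nat_lit 85) (nat_lit 0) (nat_lit 226) (nat_lit 223) (nat_lit 121)) (PT.lf (nat_lit 6080) (nat_lit 6) (nat_lit 80) (nat_lit 0) (nat_lit 227) (nat_lit 223) (nat_lit 120)))))) (PT.nd (nat_lit 51168) (PT.nd (nat_lit 50856) (PT.nd (nat_lit 50700) (PT.nd (nat_lit 78) (PT.lf (nat_lit 5776) (nat_lit 6) (nat_lit 76) (nat_lit 0) (nat_lit 228) (nat_lit 223) (nat_lit 119)) (PT.lf (nat_lit 5472) (nat_lit 6) (nat_lit 72) (nat_lit 0) (nat_lit 229) (nat_lit 223) (nat_lit 118))) (PT.nd (nat_lit 78) (PT.lf (nat_lit 5244) (nat_lit 6) (nat_lit 69) (nat_lit 5) (nat_lit 117) (nat_lit 224) (nat_lit 229)) (PT.lf (nat_lit 5548) (nat_lit 6) (nat_lit 73) (nat_lit 5) (nat_lit 118) (nat_lit 224) (nat_lit 228)))) (PT.nd (nat_lit 156) (PT.nd (nat_lit 78)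 (PT.lf (nat_lit 5852) (nat_lit 6) (nat_lit 77) (nat_lit 5) (nat_lit 119) (nat_lit 224) (nat_lit 227)) (PT.lf (nat_lit 6156) (nat_lit 6) (nat_lit 81) (nat_lit 5) (nat_lit 120) (nat_lit 224) (nat_lit 226))) (PT.nd (nat_lit 78) (PT.lf (nat_lit 6536) (nat_lit 6) (nat_lit 86) (nat_lit 5) (nat_lit 121) (nat_lit 224) (nat_lit 225)) (PT.lf (nat_lit 6840) (nat_lit 3) (nat_lit 90) (nat_lit 4) (nat_lit 122) (nat_lit 224) (nat_lit 224))))) (PT.nd (nat_lit 312) (PT.nd (nat_lit 156) (PT.nd (nat_lit 78) (PT.lf (nat_lit 7144) (nat_lit 6) (nat_lit 94) (nat_lit 4) (nat_lit 123) (nat_lit 224) (nat_lit 223)) (PT.lf (nat_lit 7372) (nat_lit 6) (nat_lit 97) (nat_lit 4) (nat_lit 124) (nat_lit 224) (nat_lit 222))) (PT.nd (nat_lit 78) (PT.lf (nat_lit 7676) (nat_lit 6) (nat_lit 101) (nat_lit 4) (nat_lit 125) (nat_lit 224) (nat_lit 221)) (PT.lf (nat_lit 7980) (nat_lit 6) (nat_lit 105) (nat_lit 4) (nat_lit 126) (nat_lit 224) (nat_lit 220)))) (PT.nd (nat_lit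 156) (PT.nd (nat_lit 78) (PT.lf (nat_lit 8284) (nat_lit 6) (nat_lit 109) (nat_lit 4) (nat_lit 127) (nat_lit 224) (nat_lit 219)) (PT.lf (nat_lit 8588) (nat_lit 6) (nat_lit 113) (nat_lit 4) (nat_lit 128) (nat_lit 224) (nat_lit 218))) (PT.nd (nat_lit 78) (PT.lf (nat_lit 8968) (nat_lit 6) (nat_lit 118) (nat_lit 4) (nat_lit 129) (nat_lit 224) (nat_lit 217)) (PT.lf (nat_lit 9272) (nat_lit 6) (nat_lit 122) (nat_lit 4) (nat_lit 130) (nat_lit 224) (nat_lit 216))))))) (PT.nd (nat_lit 58110) (PT.nd (nat_lit 7098) (PT.nd (nat_lit 6786) (PT.nd (nat_lit 6630) (PT.nd (nat_lit 6552) (PT.lf (nat_lit 9652) (nat_lit 6) (nat_lit 127) (nat_lit 4) (nat_lit 131) (nat_lit 224) (nat_lit 215)) (PT.lf (nat_lit 9652) (nat_lit 6) (nat_lit 127) (nat_lit 2) (nat_lit 215) (nat_lit 224) (nat_lit 131))) (PT.nd (nat_lit 78) (PT.lf (nat_lit 9272) (nat_lit 6) (nat_lit 122) (nat_lit 2) (nat_lit 216) (nat_lit 224) (nat_lit 130)) (PT.lf (nat_lit 8968) (nat_lit 6)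 (nat_lit 118) (nat_lit 2) (nat_lit 217) (nat_lit 224) (nat_lit 129)))) (PT.nd (nat_lit 156) (PT.nd (nat_lit 78) (PT.lf (nat_lit 8588) (nat_lit 6) (nat_lit 113) (nat_lit 2) (nat_lit 218) (nat_lit 224) (nat_lit 128)) (PT.lf (nat_lit 8284) (nat_lit 6) (nat_lit 109) (nat_lit 2) (nat_lit 219) (nat_lit 224) (nat_lit 127))) (PT.nd (nat_lit 78) (PT.lf (nat_lit 7980) (nat_lit 6) (nat_lit 105) (nat_lit 2) (nat_lit 220) (nat_lit 224) (nat_lit 126)) (PT.lf (nat_lit 7676) (nat_lit 6) (nat_lit 101) (nat_lit 2) (nat_lit 221) (nat_lit 224) (nat_lit 125))))) (PT.nd (nat_lit 312) (PT.nd (nat_lit 156) (PT.nd (nat_lit 78) (PT.lf (nat_lit 7372) (nat_lit 6) (nat_lit 97) (nat_lit 2) (nat_lit 222) (nat_lit 224) (nat_lit 124)) (PT.lf (nat_lit 7144) (nat_lit 6) (nat_lit 94) (nat_lit 2) (nat_lit 223) (nat_lit 224) (nat_lit 123))) (PT.nd (nat_lit 78) (PT.lf (nat_lit 6840) (nat_lit 3) (nat_lit 90) (nat_lit 0) (nat_lit 224) (nat_lit 224) (nat_lit 122)) (PT.lf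 (nat_lit 6536) (nat_lit 6) (nat_lit 86) (nat_lit 0) (nat_lit 225) (nat_lit 224) (nat_lit 121)))) (PT.nd (nat_lit 156) (PT.nd (nat_lit 78) (PT.lf (nat_lit 6156) (nat_lit 6) (nat_lit 81) (nat_lit 0) (nat_lit 226) (nat_lit 224) (nat_lit 120)) (PT.lf (nat_lit 5852) (nat_lit 6) (nat_lit 77) (nat_lit 0) (nat_lit 227) (nat_lit 224) (nat_lit 119))) (PT.nd (nat_lit 78) (PT.lf (nat_lit 5548) (nat_lit 6) (nat_lit 73) (nat_lit 0) (nat_lit 228) (nat_lit 224) (nat_lit 118)) (PT.lf (nat_lit 5244) (nat_lit 6) (nat_lit 69) (nat_lit 0) (nat_lit 229) (nat_lit 224) (nat_lit 117)))))) (PT.nd (nat_lit 624) (PT.nd (nat_lit 312) (PT.nd (nat_lit 156) (PT.nd (nat_lit 78) (PT.lf (nat_lit 4712) (nat_lit 6) (nat_lit 62) (nat_lit 5) (nat_lit 115) (nat_lit 225) (nat_lit 230)) (PT.lf (nat_lit 5016) (nat_lit 6) (nat_lit 66) (nat_lit 5) (nat_lit 116) (nat_lit 225) (nat_lit 229))) (PT.nd (nat_lit 78) (PT.lf (nat_lit 5320) (nat_lit 6) (nat_lit 70) (nat_lit 5)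 (nat_lit 117) (nat_lit 225) (nat_lit 228)) (PT.lf (nat_lit 5624) (nat_lit 6) (nat_lit 74) (nat_lit 5) (nat_lit 118) (nat_lit 225) (nat_lit 227)))) (PT.nd (nat_lit 156) (PT.nd (nat_lit 78) (PT.lf (nat_lit 5928) (nat_lit 6) (nat_lit 78) (nat_lit 5) (nat_lit 119) (nat_lit 225) (nat_lit 226)) (PT.lf (nat_lit 6232) (nat_lit 3) (nat_lit 82) (nat_lit 4) (nat_lit 120) (nat_lit 225) (nat_lit 225))) (PT.nd (nat_lit 78) (PT.lf (nat_lit 6536) (nat_lit 6) (nat_lit 86) (nat_lit 4) (nat_lit 121) (nat_lit 225) (nat_lit 224)) (PT.lf (nat_lit 6764) (nat_lit 6) (nat_lit 89) (nat_lit 4) (nat_lit 122) (nat_lit 225) (nat_lit 223))))) (PT.nd (nat_lit 312) (PT.nd (nat_lit 156) (PT.nd (nat_lit 78) (PT.lf (nat_lit 7068) (nat_lit 6) (nat_lit 93) (nat_lit 4) (nat_lit 123) (nat_lit 225) (nat_lit 222)) (PT.lf (nat_lit 7296) (nat_lit 6) (nat_lit 96) (nat_lit 4) (nat_lit 124) (nat_lit 225) (nat_lit 221))) (PT.nd (nat_lit 78) (PT.lf (nat_lit 7600) (nat_lit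 6) (nat_lit 100) (nat_lit 4) (nat_lit 125) (nat_lit 225) (nat_lit 220)) (PT.lf (nat_lit 7904) (nat_lit 6) (nat_lit 104) (nat_lit 4) (nat_lit 126) (nat_lit 225) (nat_lit 219)))) (PT.nd (nat_lit 7020) (PT.nd (nat_lit 78) (PT.lf (nat_lit 8208) (nat_lit 6) (nat_lit 108) (nat_lit 4) (nat_lit 127) (nat_lit 225) (nat_lit 218)) (PT.lf (nat_lit 8512) (nat_lit 6) (nat_lit 112) (nat_lit 4) (nat_lit 128) (nat_lit 225) (nat_lit 217))) (PT.nd (nat_lit 78) (PT.lf (nat_lit 8512) (nat_lit 6) (nat_lit 112) (nat_lit 2) (nat_lit 217) (nat_lit 225) (nat_lit 128)) (PT.lf (nat_lit 8208) (nat_lit 6) (nat_lit 108) (nat_lit 2) (nat_lit 218) (nat_lit 225) (nat_lit 127))))))))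
noncomputable def pc60 : PT := (PT.nd (nat_lit 59670) (PT.nd (nat_lit 51324) (PT.nd (nat_lit 546) (PT.nd (nat_lit 234) (PT.nd (nat_lit 78) (PT.lf (nat_lit 7904) (nat_lit 6) (nat_lit 104) (nat_lit 2) (nat_lit 219) (nat_lit 225) (nat_lit 126)) (PT.nd (nat_lit 78) (PT.lf (nat_lit 7600) (nat_lit 6) (nat_lit 100) (nat_lit 2) (nat_lit 220) (nat_lit 225) (nat_lit 125)) (PT.lf (nat_lit 7296) (nat_lit 6) (nat_lit 96) (nat_lit 2) (nat_lit 221) (nat_lit 225) (nat_lit 124)))) (PT.nd (nat_lit 156) (PT.nd (nat_lit 78) (PT.lf (nat_lit 7068) (nat_lit 6) (nat_lit 93) (nat_lit 2) (nat_lit 222) (nat_lit 225) (nat_lit 123)) (PT.lf (nat_lit 6764) (nat_lit 6) (nat_lit 89) (nat_lit 2) (nat_lit 223) (nat_lit 225) (nat_lit 122))) (PT.nd (nat_lit 78) (PT.lf (nat_lit 6536) (nat_lit 6) (nat_lit 86) (nat_lit 2) (nat_lit 224) (nat_lit 225) (nat_lit 121)) (PT.lf (nat_lit 6232) (nat_lit 3) (nat_lit 82) (nat_lit 0) (nat_lit 225) (nat_lit 225) (nat_lit 120)))))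 (PT.nd (nat_lit 312) (PT.nd (nat_lit 156) (PT.nd (nat_lit 78) (PT.lf (nat_lit 5928) (nat_lit 6) (nat_lit 78) (nat_lit 0) (nat_lit 226) (nat_lit 225) (nat_lit 119)) (PT.lf (nat_lit 5624) (nat_lit 6) (nat_lit 74) (nat_lit 0) (nat_lit 227) (nat_lit 225) (nat_lit 118))) (PT.nd (nat_lit 78) (PT.lf (nat_lit 5320) (nat_lit 6) (nat_lit 70) (nat_lit 0) (nat_lit 228) (nat_lit 225) (nat_lit 117)) (PT.lf (nat_lit 5016) (nat_lit 6) (nat_lit 66) (nat_lit 0) (nat_lit 229) (nat_lit 225) (nat_lit 116)))) (PT.nd (nat_lit 50310) (PT.nd (nat_lit 50232) (PT.lf (nat_lit 4712) (nat_lit 6) (nat_lit 62) (nat_lit 0) (nat_lit 230) (nat_lit 225) (nat_lit 115)) (PT.lf (nat_lit 4256) (nat_lit 6) (nat_lit 56) (nat_lit 5) (nat_lit 113) (nat_lit 226) (nat_lit 231))) (PT.nd (nat_lit 78) (PT.lf (nat_lit 4484) (nat_lit 6) (nat_lit 59) (nat_lit 5) (nat_lit 114) (nat_lit 226) (nat_lit 230)) (PT.lf (nat_lit 4788) (nat_lit 6) (nat_lit 63) (nat_lit 5) (nat_lit 115)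 (nat_lit 226) (nat_lit 229)))))) (PT.nd (nat_lit 624) (PT.nd (nat_lit 312) (PT.nd (nat_lit 156) (PT.nd (nat_lit 78) (PT.lf (nat_lit 5092) (nat_lit 6) (nat_lit 67) (nat_lit 5) (nat_lit 116) (nat_lit 226) (nat_lit 228)) (PT.lf (nat_lit 5396) (nat_lit 6) (nat_lit 71) (nat_lit 5) (nat_lit 117) (nat_lit 226) (nat_lit 227))) (PT.nd (nat_lit 78) (PT.lf (nat_lit 5700) (nat_lit 3) (nat_lit 75) (nat_lit 4) (nat_lit 118) (nat_lit 226) (nat_lit 226)) (PT.lf (nat_lit 5928) (nat_lit 6) (nat_lit 78) (nat_lit 4) (nat_lit 119) (nat_lit 226) (nat_lit 225)))) (PT.nd (nat_lit 156) (PT.nd (nat_lit 78) (PT.lf (nat_lit 6156) (nat_lit 6) (nat_lit 81) (nat_lit 4) (nat_lit 120) (nat_lit 226) (nat_lit 224)) (PT.lf (nat_lit 6460) (nat_lit 6) (nat_lit 85) (nat_lit 4) (nat_lit 121) (nat_lit 226) (nat_lit 223))) (PT.nd (nat_lit 78) (PT.lf (nat_lit 6688) (nat_lit 6) (nat_lit 88) (nat_lit 4) (nat_lit 122) (nat_lit 226) (nat_lit 222)) (PT.lf (nat_lit 6992) (nat_lit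 6) (nat_lit 92) (nat_lit 4) (nat_lit 123) (nat_lit 226) (nat_lit 221))))) (PT.nd (nat_lit 7410) (PT.nd (nat_lit 156) (PT.nd (nat_lit 78) (PT.lf (nat_lit 7220) (nat_lit 6) (nat_lit 95) (nat_lit 4) (nat_lit 124) (nat_lit 226) (nat_lit 220)) (PT.lf (nat_lit 7524) (nat_lit 6) (nat_lit 99) (nat_lit 4) (nat_lit 125) (nat_lit 226) (nat_lit 219))) (PT.nd (nat_lit 7176) (PT.lf (nat_lit 7828) (nat_lit 6) (nat_lit 103) (nat_lit 4) (nat_lit 126) (nat_lit 226) (nat_lit 218)) (PT.lf (nat_lit 7828) (nat_lit 6) (nat_lit 103) (nat_lit 2) (nat_lit 218) (nat_lit 226) (nat_lit 126)))) (PT.nd (nat_lit 156) (PT.nd (nat_lit 78) (PT.lf (nat_lit 7524) (nat_lit 6) (nat_lit 99) (nat_lit 2) (nat_lit 219) (nat_lit 226) (nat_lit 125)) (PT.lf (nat_lit 7220) (nat_lit 6) (nat_lit 95) (nat_lit 2) (nat_lit 220) (nat_lit 226) (nat_lit 124))) (PT.nd (nat_lit 78) (PT.lf (nat_lit 6992) (nat_lit 6) (nat_lit 92) (nat_lit 2) (nat_lit 221) (nat_lit 226) (nat_lit 123))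 (PT.lf (nat_lit 6688) (nat_lit 6) (nat_lit 88) (nat_lit 2) (nat_lit 222) (nat_lit 226) (nat_lit 122))))))) (PT.nd (nat_lit 51168) (PT.nd (nat_lit 624) (PT.nd (nat_lit 312) (PT.nd (nat_lit 156) (PT.nd (nat_lit 78) (PT.lf (nat_lit 6460) (nat_lit 6) (nat_lit 85) (nat_lit 2) (nat_lit 223) (nat_lit 226) (nat_lit 121)) (PT.lf (nat_lit 6156) (nat_lit 6) (nat_lit 81) (nat_lit 2) (nat_lit 224) (nat_lit 226) (nat_lit 120))) (PT.nd (nat_lit 78) (PT.lf (nat_lit 5928) (nat_lit 6) (nat_lit 78) (nat_lit 2) (nat_lit 225) (nat_lit 226) (nat_lit 119)) (PT.lf (nat_lit 5700) (nat_lit 3) (nat_lit 75) (nat_lit 0) (nat_lit 226) (nat_lit 226) (nat_lit 118)))) (PT.nd (nat_lit 156) (PT.nd (nat_lit 78) (PT.lf (nat_lit 5396) (nat_lit 6) (nat_lit 71) (nat_lit 0) (nat_lit 227) (nat_lit 226) (nat_lit 117)) (PT.lf (nat_lit 5092) (nat_lit 6) (nat_lit 67) (nat_lit 0) (nat_lit 228) (nat_lit 226) (nat_lit 116))) (PT.nd (nat_lit 78) (PT.lf (nat_lit 4788) (nat_lit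 6) (nat_lit 63) (nat_lit 0) (nat_lit 229) (nat_lit 226) (nat_lit 115)) (PT.lf (nat_lit 4484) (nat_lit 6) (nat_lit 59) (nat_lit 0) (nat_lit 230) (nat_lit 226) (nat_lit 114))))) (PT.nd (nat_lit 50232) (PT.nd (nat_lit 50076) (PT.nd (nat_lit 49998) (PT.lf (nat_lit 4256) (nat_lit 6) (nat_lit 56) (nat_lit 0) (nat_lit 231) (nat_lit 226) (nat_lit 113)) (PT.lf (nat_lit 3800) (nat_lit 6) (nat_lit 50) (nat_lit 5) (nat_lit 111) (nat_lit 227) (nat_lit 232))) (PT.nd (nat_lit 78) (PT.lf (nat_lit 4028) (nat_lit 6) (nat_lit 53) (nat_lit 5) (nat_lit 112) (nat_lit 227) (nat_lit 231)) (PT.lf (nat_lit 4332) (nat_lit 6) (nat_lit 57) (nat_lit 5) (nat_lit 113) (nat_lit 227) (nat_lit 230)))) (PT.nd (nat_lit 156) (PT.nd (nat_lit 78) (PT.lf (nat_lit 4560) (nat_lit 6) (nat_lit 60) (nat_lit 5) (nat_lit 114) (nat_lit 227) (nat_lit 229)) (PT.lf (nat_lit 4864) (nat_lit 6) (nat_lit 64) (nat_lit 5) (nat_lit 115) (nat_lit 227) (nat_lit 228))) (PT.nd (nat_lit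 78) (PT.lf (nat_lit 5168) (nat_lit 3) (nat_lit 68) (nat_lit 4) (nat_lit 116) (nat_lit 227) (nat_lit 227)) (PT.lf (nat_lit 5396) (nat_lit 6) (nat_lit 71) (nat_lit 4) (nat_lit 117) (nat_lit 227) (nat_lit 226)))))) (PT.nd (nat_lit 8112) (PT.nd (nat_lit 312) (PT.nd (nat_lit 156) (PT.nd (nat_lit 78) (PT.lf (nat_lit 5624) (nat_lit 6) (nat_lit 74) (nat_lit 4) (nat_lit 118) (nat_lit 227) (nat_lit 225)) (PT.lf (nat_lit 5852) (nat_lit 6) (nat_lit 77) (nat_lit 4) (nat_lit 119) (nat_lit 227) (nat_lit 224))) (PT.nd (nat_lit 78) (PT.lf (nat_lit 6080) (nat_lit 6) (nat_lit 80) (nat_lit 4) (nat_lit 120) (nat_lit 227) (nat_lit 223)) (PT.lf (nat_lit 6384) (nat_lit 6) (nat_lit 84) (nat_lit 4) (nat_lit 121) (nat_lit 227) (nat_lit 222)))) (PT.nd (nat_lit 7644) (PT.nd (nat_lit 78) (PT.lf (nat_lit 6612) (nat_lit 6) (nat_lit 87) (nat_lit 4) (nat_lit 122) (nat_lit 227) (nat_lit 221)) (PT.lf (nat_lit 6916) (nat_lit 6) (nat_lit 91) (nat_lit 4) (nat_lit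 123) (nat_lit 227) (nat_lit 220))) (PT.nd (nat_lit 78) (PT.lf (nat_lit 6916) (nat_lit 6) (nat_lit 91) (nat_lit 2) (nat_lit 220) (nat_lit 227) (nat_lit 123)) (PT.lf (nat_lit 6612) (nat_lit 6) (nat_lit 87) (nat_lit 2) (nat_lit 221) (nat_lit 227) (nat_lit 122))))) (PT.nd (nat_lit 312) (PT.nd (nat_lit 156) (PT.nd (nat_lit 78) (PT.lf (nat_lit 6384) (nat_lit 6) (nat_lit 84) (nat_lit 2) (nat_lit 222) (nat_lit 227) (nat_lit 121)) (PT.lf (nat_lit 6080) (nat_lit 6) (nat_lit 80) (nat_lit 2) (nat_lit 223) (nat_lit 227) (nat_lit 120))) (PT.nd (nat_lit 78) (PT.lf (nat_lit 5852) (nat_lit 6) (nat_lit 77) (nat_lit 2) (nat_lit 224) (nat_lit 227) (nat_lit 119)) (PT.lf (nat_lit 5624) (nat_lit 6) (nat_lit 74) (nat_lit 2) (nat_lit 225) (nat_lit 227) (nat_lit 118)))) (PT.nd (nat_lit 156) (PT.nd (nat_lit 78) (PT.lf (nat_lit 5396) (nat_lit 6) (nat_lit 71) (nat_lit 2) (nat_lit 226) (nat_lit 227) (nat_lit 117)) (PT.lf (nat_lit 5168) (nat_lit 3) (nat_lit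 68) (nat_lit 0) (nat_lit 227) (nat_lit 227) (nat_lit 116))) (PT.nd (nat_lit 78) (PT.lf (nat_lit 4864) (nat_lit 6) (nat_lit 64) (nat_lit 0) (nat_lit 228) (nat_lit 227) (nat_lit 115)) (PT.lf (nat_lit 4560) (nat_lit 6) (nat_lit 60) (nat_lit 0) (nat_lit 229) (nat_lit 227) (nat_lit 114))))))))
noncomputable def pc61 : PT := (PT.nd (nat_lit 109668) (PT.nd (nat_lit 58812) (PT.nd (nat_lit 50310) (PT.nd (nat_lit 49998) (PT.nd (nat_lit 78) (PT.lf (nat_lit 4332) (nat_lit 6) (nat_lit 57) (nat_lit 0) (nat_lit 230) (nat_lit 227) (nat_lit 113)) (PT.nd (nat_lit 78) (PT.lf (nat_lit 4028) (nat_lit 6) (nat_lit 53) (nat_lit 0) (nat_lit 231) (nat_lit 227) (nat_lit 112)) (PT.lf (nat_lit 3800) (nat_lit 6) (nat_lit 50) (nat_lit 0) (nat_lit 232) (nat_lit 227) (nat_lit 111)))) (PT.nd (nat_lit 156) (PT.nd (nat_lit 78) (PT.lf (nat_lit 3572) (nat_lit 6) (nat_lit 47) (nat_lit 5) (nat_lit 110) (nat_lit 228) (nat_lit 232)) (PT.lf (nat_lit 3876) (nat_lit 6)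 (nat_lit 51) (nat_lit 5) (nat_lit 111) (nat_lit 228) (nat_lit 231))) (PT.nd (nat_lit 78) (PT.lf (nat_lit 4104) (nat_lit 6) (nat_lit 54) (nat_lit 5) (nat_lit 112) (nat_lit 228) (nat_lit 230)) (PT.lf (nat_lit 4408) (nat_lit 6) (nat_lit 58) (nat_lit 5) (nat_lit 113) (nat_lit 228) (nat_lit 229))))) (PT.nd (nat_lit 312) (PT.nd (nat_lit 156) (PT.nd (nat_lit 78) (PT.lf (nat_lit 4636) (nat_lit 3) (nat_lit 61) (nat_lit 4) (nat_lit 114) (nat_lit 228) (nat_lit 228)) (PT.lf (nat_lit 4864) (nat_lit 6) (nat_lit 64) (nat_lit 4) (nat_lit 115) (nat_lit 228) (nat_lit 227))) (PT.nd (nat_lit 78) (PT.lf (nat_lit 5092) (nat_lit 6) (nat_lit 67) (nat_lit 4) (nat_lit 116) (nat_lit 228) (nat_lit 226)) (PT.lf (nat_lit 5320) (nat_lit 6) (nat_lit 70) (nat_lit 4) (nat_lit 117) (nat_lit 228) (nat_lit 225)))) (PT.nd (nat_lit 156) (PT.nd (nat_lit 78) (PT.lf (nat_lit 5548) (nat_lit 6) (nat_lit 73) (nat_lit 4) (nat_lit 118) (nat_lit 228) (nat_lit 224)) (PT.lf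 (nat_lit 5776) (nat_lit 6) (nat_lit 76) (nat_lit 4) (nat_lit 119) (nat_lit 228) (nat_lit 223))) (PT.nd (nat_lit 7956) (PT.lf (nat_lit 6004) (nat_lit 6) (nat_lit 79) (nat_lit 4) (nat_lit 120) (nat_lit 228) (nat_lit 222)) (PT.lf (nat_lit 6004) (nat_lit 6) (nat_lit 79) (nat_lit 2) (nat_lit 222) (nat_lit 228) (nat_lit 120)))))) (PT.nd (nat_lit 624) (PT.nd (nat_lit 312) (PT.nd (nat_lit 156) (PT.nd (nat_lit 78) (PT.lf (nat_lit 5776) (nat_lit 6) (nat_lit 76) (nat_lit 2) (nat_lit 223) (nat_lit 228) (nat_lit 119)) (PT.lf (nat_lit 5548) (nat_lit 6) (nat_lit 73) (nat_lit 2) (nat_lit 224) (nat_lit 228) (nat_lit 118))) (PT.nd (nat_lit 78) (PT.lf (nat_lit 5320) (nat_lit 6) (nat_lit 70) (nat_lit 2) (nat_lit 225) (nat_lit 228) (nat_lit 117)) (PT.lf (nat_lit 5092) (nat_lit 6) (nat_lit 67) (nat_lit 2) (nat_lit 226) (nat_lit 228) (nat_lit 116)))) (PT.nd (nat_lit 156) (PT.nd (nat_lit 78) (PT.lf (nat_lit 4864) (nat_lit 6) (nat_lit 64) (nat_lit 2)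 (nat_lit 227) (nat_lit 228) (nat_lit 115)) (PT.lf (nat_lit 4636) (nat_lit 3) (nat_lit 61) (nat_lit 0) (nat_lit 228) (nat_lit 228) (nat_lit 114))) (PT.nd (nat_lit 78) (PT.lf (nat_lit 4408) (nat_lit 6) (nat_lit 58) (nat_lit 0) (nat_lit 229) (nat_lit 228) (nat_lit 113)) (PT.lf (nat_lit 4104) (nat_lit 6) (nat_lit 54) (nat_lit 0) (nat_lit 230) (nat_lit 228) (nat_lit 112))))) (PT.nd (nat_lit 49920) (PT.nd (nat_lit 49764) (PT.nd (nat_lit 78) (PT.lf (nat_lit 3876) (nat_lit 6) (nat_lit 51) (nat_lit 0) (nat_lit 231) (nat_lit 228) (nat_lit 111)) (PT.lf (nat_lit 3572) (nat_lit 6) (nat_lit 47) (nat_lit 0) (nat_lit 232) (nat_lit 228) (nat_lit 110))) (PT.nd (nat_lit 78) (PT.lf (nat_lit 3116) (nat_lit 6) (nat_lit 41) (nat_lit 5) (nat_lit 108) (nat_lit 229) (nat_lit 233)) (PT.lf (nat_lit 3420) (nat_lit 6) (nat_lit 45) (nat_lit 5) (nat_lit 109) (nat_lit 229) (nat_lit 232)))) (PT.nd (nat_lit 156) (PT.nd (nat_lit 78) (PT.lf (nat_lit 3648) (nat_lit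 6) (nat_lit 48) (nat_lit 5) (nat_lit 110) (nat_lit 229) (nat_lit 231)) (PT.lf (nat_lit 3952) (nat_lit 6) (nat_lit 52) (nat_lit 5) (nat_lit 111) (nat_lit 229) (nat_lit 230))) (PT.nd (nat_lit 78) (PT.lf (nat_lit 4180) (nat_lit 3) (nat_lit 55) (nat_lit 4) (nat_lit 112) (nat_lit 229) (nat_lit 229)) (PT.lf (nat_lit 4408) (nat_lit 6) (nat_lit 58) (nat_lit 4) (nat_lit 113) (nat_lit 229) (nat_lit 228))))))) (PT.nd (nat_lit 58734) (PT.nd (nat_lit 8736) (PT.nd (nat_lit 312) (PT.nd (nat_lit 156) (PT.nd (nat_lit 78) (PT.lf (nat_lit 4560) (nat_lit 6) (nat_lit 60) (nat_lit 4) (nat_lit 114) (nat_lit 229) (nat_lit 227)) (PT.lf (nat_lit 4788) (nat_lit 6) (nat_lit 63) (nat_lit 4) (nat_lit 115) (nat_lit 229) (nat_lit 226))) (PT.nd (nat_lit 78) (PT.lf (nat_lit 5016) (nat_lit 6) (nat_lit 66) (nat_lit 4) (nat_lit 116) (nat_lit 229) (nat_lit 225)) (PT.lf (nat_lit 5244) (nat_lit 6) (nat_lit 69) (nat_lit 4) (nat_lit 117) (nat_lit 229) (nat_lit 224))))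 (PT.nd (nat_lit 8268) (PT.nd (nat_lit 8190) (PT.lf (nat_lit 5472) (nat_lit 6) (nat_lit 72) (nat_lit 4) (nat_lit 118) (nat_lit 229) (nat_lit 223)) (PT.lf (nat_lit 5472) (nat_lit 6) (nat_lit 72) (nat_lit 2) (nat_lit 223) (nat_lit 229) (nat_lit 118))) (PT.nd (nat_lit 78) (PT.lf (nat_lit 5244) (nat_lit 6) (nat_lit 69) (nat_lit 2) (nat_lit 224) (nat_lit 229) (nat_lit 117)) (PT.lf (nat_lit 5016) (nat_lit 6) (nat_lit 66) (nat_lit 2) (nat_lit 225) (nat_lit 229) (nat_lit 116))))) (PT.nd (nat_lit 312) (PT.nd (nat_lit 156) (PT.nd (nat_lit 78) (PT.lf (nat_lit 4788) (nat_lit 6) (nat_lit 63) (nat_lit 2) (nat_lit 226) (nat_lit 229) (nat_lit 115)) (PT.lf (nat_lit 4560) (nat_lit 6) (nat_lit 60) (nat_lit 2) (nat_lit 227) (nat_lit 229) (nat_lit 114))) (PT.nd (nat_lit 78) (PT.lf (nat_lit 4408) (nat_lit 6) (nat_lit 58) (nat_lit 2) (nat_lit 228) (nat_lit 229) (nat_lit 113)) (PT.lf (nat_lit 4180) (nat_lit 3) (nat_lit 55) (nat_lit 0) (nat_lit 229)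 (nat_lit 229) (nat_lit 112)))) (PT.nd (nat_lit 156) (PT.nd (nat_lit 78) (PT.lf (nat_lit 3952) (nat_lit 6) (nat_lit 52) (nat_lit 0) (nat_lit 230) (nat_lit 229) (nat_lit 111)) (PT.lf (nat_lit 3648) (nat_lit 6) (nat_lit 48) (nat_lit 0) (nat_lit 231) (nat_lit 229) (nat_lit 110))) (PT.nd (nat_lit 78) (PT.lf (nat_lit 3420) (nat_lit 6) (nat_lit 45) (nat_lit 0) (nat_lit 232) (nat_lit 229) (nat_lit 109)) (PT.lf (nat_lit 3116) (nat_lit 6) (nat_lit 41) (nat_lit 0) (nat_lit 233) (nat_lit 229) (nat_lit 108)))))) (PT.nd (nat_lit 624) (PT.nd (nat_lit 312) (PT.nd (nat_lit 156) (PT.nd (nat_lit 78) (PT.lf (nat_lit 2736) (nat_lit 6) (nat_lit 36) (nat_lit 5) (nat_lit 106) (nat_lit 230) (nat_lit 234)) (PT.lf (nat_lit 2964) (nat_lit 6) (nat_lit 39) (nat_lit 5) (nat_lit 107) (nat_lit 230) (nat_lit 233))) (PT.nd (nat_lit 78) (PT.lf (nat_lit 3192) (nat_lit 6) (nat_lit 42) (nat_lit 5) (nat_lit 108) (nat_lit 230) (nat_lit 232)) (PT.lf (nat_lit 3496) (nat_lit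 6) (nat_lit 46) (nat_lit 5) (nat_lit 109) (nat_lit 230) (nat_lit 231)))) (PT.nd (nat_lit 156) (PT.nd (nat_lit 78) (PT.lf (nat_lit 3724) (nat_lit 3) (nat_lit 49) (nat_lit 4) (nat_lit 110) (nat_lit 230) (nat_lit 230)) (PT.lf (nat_lit 3952) (nat_lit 6) (nat_lit 52) (nat_lit 4) (nat_lit 111) (nat_lit 230) (nat_lit 229))) (PT.nd (nat_lit 78) (PT.lf (nat_lit 4104) (nat_lit 6) (nat_lit 54) (nat_lit 4) (nat_lit 112) (nat_lit 230) (nat_lit 228)) (PT.lf (nat_lit 4332) (nat_lit 6) (nat_lit 57) (nat_lit 4) (nat_lit 113) (nat_lit 230) (nat_lit 227))))) (PT.nd (nat_lit 8814) (PT.nd (nat_lit 8658) (PT.nd (nat_lit 78) (PT.lf (nat_lit 4484) (nat_lit 6) (nat_lit 59) (nat_lit 4) (nat_lit 114) (nat_lit 230) (nat_lit 226)) (PT.lf (nat_lit 4712) (nat_lit 6) (nat_lit 62) (nat_lit 4) (nat_lit 115) (nat_lit 230) (nat_lit 225))) (PT.nd (nat_lit 78) (PT.lf (nat_lit 4712) (nat_lit 6) (nat_lit 62) (nat_lit 2) (nat_lit 225) (nat_lit 230) (nat_lit 115)) (PT.lf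 (nat_lit 4484) (nat_lit 6) (nat_lit 59) (nat_lit 2) (nat_lit 226) (nat_lit 230) (nat_lit 114)))) (PT.nd (nat_lit 156) (PT.nd (nat_lit 78) (PT.lf (nat_lit 4332) (nat_lit 6) (nat_lit 57) (nat_lit 2) (nat_lit 227) (nat_lit 230) (nat_lit 113)) (PT.lf (nat_lit 4104) (nat_lit 6) (nat_lit 54) (nat_lit 2) (nat_lit 228) (nat_lit 230) (nat_lit 112))) (PT.nd (nat_lit 78) (PT.lf (nat_lit 3952) (nat_lit 6) (nat_lit 52) (nat_lit 2) (nat_lit 229) (nat_lit 230) (nat_lit 111)) (PT.lf (nat_lit 3724) (nat_lit 3) (nat_lit 49) (nat_lit 0) (nat_lit 230) (nat_lit 230) (nat_lit 110))))))))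
noncomputable def pc62 : PT := (PT.nd (nat_lit 118404) (PT.nd (nat_lit 59124) (PT.nd (nat_lit 49764) (PT.nd (nat_lit 234) (PT.nd (nat_lit 78) (PT.lf (nat_lit 3496) (nat_lit 6) (nat_lit 46) (nat_lit 0) (nat_lit 231) (nat_lit 230) (nat_lit 109)) (PT.nd (nat_lit 78) (PT.lf (nat_lit 3192) (nat_lit 6) (nat_lit 42) (nat_lit 0) (nat_lit 232) (nat_lit 230) (nat_lit 108)) (PT.lf (nat_lit 2964) (nat_lit 6) (nat_lit 39) (nat_lit 0) (nat_lit 233) (nat_lit 230) (nat_lit 107)))) (PT.nd (nat_lit 49374) (PT.nd (nat_lit 49296) (PT.lf (nat_lit 2736) (nat_lit 6) (nat_lit 36) (nat_lit 0) (nat_lit 234) (nat_lit 230) (nat_lit 106)) (PT.lf (nat_lit 2584) (nat_lit 6) (nat_lit 34) (nat_lit 5) (nat_lit 105) (nat_lit 231) (nat_lit 234))) (PT.nd (nat_lit 78) (PT.lf (nat_lit 2812) (nat_lit 6) (nat_lit 37) (nat_lit 5) (nat_lit 106) (nat_lit 231) (nat_lit 233)) (PT.lf (nat_lit 3040) (nat_lit 6) (nat_lit 40) (nat_lit 5) (nat_lit 107) (nat_lit 231) (nat_lit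 232))))) (PT.nd (nat_lit 312) (PT.nd (nat_lit 156) (PT.nd (nat_lit 78) (PT.lf (nat_lit 3268) (nat_lit 3) (nat_lit 43) (nat_lit 4) (nat_lit 108) (nat_lit 231) (nat_lit 231)) (PT.lf (nat_lit 3496) (nat_lit 6) (nat_lit 46) (nat_lit 4) (nat_lit 109) (nat_lit 231) (nat_lit 230))) (PT.nd (nat_lit 78) (PT.lf (nat_lit 3648) (nat_lit 6) (nat_lit 48) (nat_lit 4) (nat_lit 110) (nat_lit 231) (nat_lit 229)) (PT.lf (nat_lit 3876) (nat_lit 6) (nat_lit 51) (nat_lit 4) (nat_lit 111) (nat_lit 231) (nat_lit 228)))) (PT.nd (nat_lit 8892) (PT.nd (nat_lit 78) (PT.lf (nat_lit 4028) (nat_lit 6) (nat_lit 53) (nat_lit 4) (nat_lit 112) (nat_lit 231) (nat_lit 227)) (PT.lf (nat_lit 4256) (nat_lit 6) (nat_lit 56) (nat_lit 4) (nat_lit 113) (nat_lit 231) (nat_lit 226))) (PT.nd (nat_lit 78) (PT.lf (nat_lit 4256) (nat_lit 6) (nat_lit 56) (nat_lit 2) (nat_lit 226) (nat_lit 231) (nat_lit 113)) (PT.lf (nat_lit 4028) (nat_lit 6) (nat_lit 53) (nat_lit 2) (nat_lit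 227) (nat_lit 231) (nat_lit 112)))))) (PT.nd (nat_lit 49686) (PT.nd (nat_lit 312) (PT.nd (nat_lit 156) (PT.nd (nat_lit 78) (PT.lf (nat_lit 3876) (nat_lit 6) (nat_lit 51) (nat_lit 2) (nat_lit 228) (nat_lit 231) (nat_lit 111)) (PT.lf (nat_lit 3648) (nat_lit 6) (nat_lit 48) (nat_lit 2) (nat_lit 229) (nat_lit 231) (nat_lit 110))) (PT.nd (nat_lit 78) (PT.lf (nat_lit 3496) (nat_lit 6) (nat_lit 46) (nat_lit 2) (nat_lit 230) (nat_lit 231) (nat_lit 109)) (PT.lf (nat_lit 3268) (nat_lit 3) (nat_lit 43) (nat_lit 0) (nat_lit 231) (nat_lit 231) (nat_lit 108)))) (PT.nd (nat_lit 156) (PT.nd (nat_lit 78) (PT.lf (nat_lit 3040) (nat_lit 6) (nat_lit 40) (nat_lit 0) (nat_lit 232) (nat_lit 231) (nat_lit 107)) (PT.lf (nat_lit 2812) (nat_lit 6) (nat_lit 37) (nat_lit 0) (nat_lit 233) (nat_lit 231) (nat_lit 106))) (PT.nd (nat_lit 49140) (PT.lf (nat_lit 2584) (nat_lit 6) (nat_lit 34) (nat_lit 0) (nat_lit 234) (nat_lit 231) (nat_lit 105)) (PT.lf (nat_lit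 2204) (nat_lit 6) (nat_lit 29) (nat_lit 5) (nat_lit 103) (nat_lit 232) (nat_lit 235))))) (PT.nd (nat_lit 312) (PT.nd (nat_lit 156) (PT.nd (nat_lit 78) (PT.lf (nat_lit 2432) (nat_lit 6) (nat_lit 32) (nat_lit 5) (nat_lit 104) (nat_lit 232) (nat_lit 234)) (PT.lf (nat_lit 2660) (nat_lit 6) (nat_lit 35) (nat_lit 5) (nat_lit 105) (nat_lit 232) (nat_lit 233))) (PT.nd (nat_lit 78) (PT.lf (nat_lit 2888) (nat_lit 3) (nat_lit 38) (nat_lit 4) (nat_lit 106) (nat_lit 232) (nat_lit 232)) (PT.lf (nat_lit 3040) (nat_lit 6) (nat_lit 40) (nat_lit 4) (nat_lit 107) (nat_lit 232) (nat_lit 231)))) (PT.nd (nat_lit 156) (PT.nd (nat_lit 78) (PT.lf (nat_lit 3192) (nat_lit 6) (nat_lit 42) (nat_lit 4) (nat_lit 108) (nat_lit 232) (nat_lit 230)) (PT.lf (nat_lit 3420) (nat_lit 6) (nat_lit 45) (nat_lit 4) (nat_lit 109) (nat_lit 232) (nat_lit 229))) (PT.nd (nat_lit 78) (PT.lf (nat_lit 3572) (nat_lit 6) (nat_lit 47) (nat_lit 4) (nat_lit 110) (nat_lit 232) (nat_lit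 228)) (PT.lf (nat_lit 3800) (nat_lit 6) (nat_lit 50) (nat_lit 4) (nat_lit 111) (nat_lit 232) (nat_lit 227))))))) (PT.nd (nat_lit 50076) (PT.nd (nat_lit 624) (PT.nd (nat_lit 312) (PT.nd (nat_lit 156) (PT.nd (nat_lit 78) (PT.lf (nat_lit 3800) (nat_lit 6) (nat_lit 50) (nat_lit 2) (nat_lit 227) (nat_lit 232) (nat_lit 111)) (PT.lf (nat_lit 3572) (nat_lit 6) (nat_lit 47) (nat_lit 2) (nat_lit 228) (nat_lit 232) (nat_lit 110))) (PT.nd (nat_lit 78) (PT.lf (nat_lit 3420) (nat_lit 6) (nat_lit 45) (nat_lit 2) (nat_lit 229) (nat_lit 232) (nat_lit 109)) (PT.lf (nat_lit 3192) (nat_lit 6) (nat_lit 42) (nat_lit 2) (nat_lit 230) (nat_lit 232) (nat_lit 108)))) (PT.nd (nat_lit 156) (PT.nd (nat_lit 78) (PT.lf (nat_lit 3040) (nat_lit 6) (nat_lit 40) (nat_lit 2) (nat_lit 231) (nat_lit 232) (nat_lit 107)) (PT.lf (nat_lit 2888) (nat_lit 3) (nat_lit 38) (nat_lit 0) (nat_lit 232) (nat_lit 232) (nat_lit 106))) (PT.nd (nat_lit 78) (PT.lf (nat_lit 2660)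 (nat_lit 6) (nat_lit 35) (nat_lit 0) (nat_lit 233) (nat_lit 232) (nat_lit 105)) (PT.lf (nat_lit 2432) (nat_lit 6) (nat_lit 32) (nat_lit 0) (nat_lit 234) (nat_lit 232) (nat_lit 104))))) (PT.nd (nat_lit 49140) (PT.nd (nat_lit 48984) (PT.nd (nat_lit 48906) (PT.lf (nat_lit 2204) (nat_lit 6) (nat_lit 29) (nat_lit 0) (nat_lit 235) (nat_lit 232) (nat_lit 103)) (PT.lf (nat_lit 1824) (nat_lit 6) (nat_lit 24) (nat_lit 5) (nat_lit 101) (nat_lit 233) (nat_lit 236))) (PT.nd (nat_lit 78) (PT.lf (nat_lit 2052) (nat_lit 6) (nat_lit 27) (nat_lit 5) (nat_lit 102) (nat_lit 233) (nat_lit 235)) (PT.lf (nat_lit 2280) (nat_lit 6) (nat_lit 30) (nat_lit 5) (nat_lit 103) (nat_lit 233) (nat_lit 234)))) (PT.nd (nat_lit 156) (PT.nd (nat_lit 78) (PT.lf (nat_lit 2508) (nat_lit 3) (nat_lit 33) (nat_lit 4) (nat_lit 104) (nat_lit 233) (nat_lit 233)) (PT.lf (nat_lit 2660) (nat_lit 6) (nat_lit 35) (nat_lit 4) (nat_lit 105) (nat_lit 233) (nat_lit 232))) (PT.nd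 (nat_lit 78) (PT.lf (nat_lit 2812) (nat_lit 6) (nat_lit 37) (nat_lit 4) (nat_lit 106) (nat_lit 233) (nat_lit 231)) (PT.lf (nat_lit 2964) (nat_lit 6) (nat_lit 39) (nat_lit 4) (nat_lit 107) (nat_lit 233) (nat_lit 230)))))) (PT.nd (nat_lit 9984) (PT.nd (nat_lit 9672) (PT.nd (nat_lit 9516) (PT.nd (nat_lit 9438) (PT.lf (nat_lit 3116) (nat_lit 6) (nat_lit 41) (nat_lit 4) (nat_lit 108) (nat_lit 233) (nat_lit 229)) (PT.lf (nat_lit 3116) (nat_lit 6) (nat_lit 41) (nat_lit 2) (nat_lit 229) (nat_lit 233) (nat_lit 108))) (PT.nd (nat_lit 78) (PT.lf (nat_lit 2964) (nat_lit 6) (nat_lit 39) (nat_lit 2) (nat_lit 230) (nat_lit 233) (nat_lit 107)) (PT.lf (nat_lit 2812) (nat_lit 6) (nat_lit 37) (nat_lit 2) (nat_lit 231) (nat_lit 233) (nat_lit 106)))) (PT.nd (nat_lit 156) (PT.nd (nat_lit 78) (PT.lf (nat_lit 2660) (nat_lit 6) (nat_lit 35) (nat_lit 2) (nat_lit 232) (nat_lit 233) (nat_lit 105)) (PT.lf (nat_lit 2508) (nat_lit 3) (nat_lit 33) (nat_lit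 0) (nat_lit 233) (nat_lit 233) (nat_lit 104))) (PT.nd (nat_lit 78) (PT.lf (nat_lit 2280) (nat_lit 6) (nat_lit 30) (nat_lit 0) (nat_lit 234) (nat_lit 233) (nat_lit 103)) (PT.lf (nat_lit 2052) (nat_lit 6) (nat_lit 27) (nat_lit 0) (nat_lit 235) (nat_lit 233) (nat_lit 102))))) (PT.nd (nat_lit 48906) (PT.nd (nat_lit 48750) (PT.nd (nat_lit 48672) (PT.lf (nat_lit 1824) (nat_lit 6) (nat_lit 24) (nat_lit 0) (nat_lit 236) (nat_lit 233) (nat_lit 101)) (PT.lf (nat_lit 1520) (nat_lit 6) (nat_lit 20) (nat_lit 5) (nat_lit 99) (nat_lit 234) (nat_lit 237))) (PT.nd (nat_lit 78) (PT.lf (nat_lit 1672) (nat_lit 6) (nat_lit 22) (nat_lit 5) (nat_lit 100) (nat_lit 234) (nat_lit 236)) (PT.lf (nat_lit 1900) (nat_lit 6) (nat_lit 25) (nat_lit 5) (nat_lit 101) (nat_lit 234) (nat_lit 235)))) (PT.nd (nat_lit 156) (PT.nd (nat_lit 78) (PT.lf (nat_lit 2128) (nat_lit 3) (nat_lit 28) (nat_lit 4) (nat_lit 102) (nat_lit 234) (nat_lit 234)) (PT.lf (nat_lit 2280)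 (nat_lit 6) (nat_lit 30) (nat_lit 4) (nat_lit 103) (nat_lit 234) (nat_lit 233))) (PT.nd (nat_lit 78) (PT.lf (nat_lit 2432) (nat_lit 6) (nat_lit 32) (nat_lit 4) (nat_lit 104) (nat_lit 234) (nat_lit 232)) (PT.lf (nat_lit 2584) (nat_lit 6) (nat_lit 34) (nat_lit 4) (nat_lit 105) (nat_lit 234) (nat_lit 231))))))))
noncomputable def pc63 : PT := (PT.nd (nat_lit 128934) (PT.nd (nat_lit 69186) (PT.nd (nat_lit 10140) (PT.nd (nat_lit 9828) (PT.nd (nat_lit 9672) (PT.lf (nat_lit 2736) (nat_lit 6) (nat_lit 36) (nat_lit 4) (nat_lit 106) (nat_lit 234) (nat_lit 230)) (PT.nd (nat_lit 78) (PT.lf (nat_lit 2736) (nat_lit 6) (nat_lit 36) (nat_lit 2) (nat_lit 230) (nat_lit 234) (nat_lit 106)) (PT.lf (nat_lit 2584) (nat_lit 6) (nat_lit 34) (nat_lit 2) (nat_lit 231) (nat_lit 234) (nat_lit 105)))) (PT.nd (nat_lit 156) (PT.nd (nat_lit 78) (PT.lf (nat_lit 2432) (nat_lit 6) (nat_lit 32) (nat_lit 2) (nat_lit 232) (nat_lit 234) (nat_lit 104)) (PT.lf (nat_lit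 2280) (nat_lit 6) (nat_lit 30) (nat_lit 2) (nat_lit 233) (nat_lit 234) (nat_lit 103))) (PT.nd (nat_lit 78) (PT.lf (nat_lit 2128) (nat_lit 3) (nat_lit 28) (nat_lit 0) (nat_lit 234) (nat_lit 234) (nat_lit 102)) (PT.lf (nat_lit 1900) (nat_lit 6) (nat_lit 25) (nat_lit 0) (nat_lit 235) (nat_lit 234) (nat_lit 101))))) (PT.nd (nat_lit 48750) (PT.nd (nat_lit 48594) (PT.nd (nat_lit 78) (PT.lf (nat_lit 1672) (nat_lit 6) (nat_lit 22) (nat_lit 0) (nat_lit 236) (nat_lit 234) (nat_lit 100)) (PT.lf (nat_lit 1520) (nat_lit 6) (nat_lit 20) (nat_lit 0) (nat_lit 237) (nat_lit 234) (nat_lit 99))) (PT.nd (nat_lit 78) (PT.lf (nat_lit 1368) (nat_lit 6) (nat_lit 18) (nat_lit 5) (nat_lit 98) (nat_lit 235) (nat_lit 237)) (PT.lf (nat_lit 1596) (nat_lit 6) (nat_lit 21) (nat_lit 5) (nat_lit 99) (nat_lit 235) (nat_lit 236)))) (PT.nd (nat_lit 156) (PT.nd (nat_lit 78) (PT.lf (nat_lit 1748) (nat_lit 3) (nat_lit 23) (nat_lit 4) (nat_lit 100) (nat_lit 235) (nat_lit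 235)) (PT.lf (nat_lit 1900) (nat_lit 6) (nat_lit 25) (nat_lit 4) (nat_lit 101) (nat_lit 235) (nat_lit 234))) (PT.nd (nat_lit 78) (PT.lf (nat_lit 2052) (nat_lit 6) (nat_lit 27) (nat_lit 4) (nat_lit 102) (nat_lit 235) (nat_lit 233)) (PT.lf (nat_lit 2204) (nat_lit 6) (nat_lit 29) (nat_lit 4) (nat_lit 103) (nat_lit 235) (nat_lit 232)))))) (PT.nd (nat_lit 48906) (PT.nd (nat_lit 312) (PT.nd (nat_lit 156) (PT.nd (nat_lit 78) (PT.lf (nat_lit 2204) (nat_lit 6) (nat_lit 29) (nat_lit 2) (nat_lit 232) (nat_lit 235) (nat_lit 103)) (PT.lf (nat_lit 2052) (nat_lit 6) (nat_lit 27) (nat_lit 2) (nat_lit 233) (nat_lit 235) (nat_lit 102))) (PT.nd (nat_lit 78) (PT.lf (nat_lit 1900) (nat_lit 6) (nat_lit 25) (nat_lit 2) (nat_lit 234) (nat_lit 235) (nat_lit 101)) (PT.lf (nat_lit 1748) (nat_lit 3) (nat_lit 23) (nat_lit 0) (nat_lit 235) (nat_lit 235) (nat_lit 100)))) (PT.nd (nat_lit 48438) (PT.nd (nat_lit 78) (PT.lf (nat_lit 1596) (nat_lit 6) (nat_lit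 21) (nat_lit 0) (nat_lit 236) (nat_lit 235) (nat_lit 99)) (PT.lf (nat_lit 1368) (nat_lit 6) (nat_lit 18) (nat_lit 0) (nat_lit 237) (nat_lit 235) (nat_lit 98))) (PT.nd (nat_lit 78) (PT.lf (nat_lit 1064) (nat_lit 6) (nat_lit 14) (nat_lit 5) (nat_lit 96) (nat_lit 236) (nat_lit 238)) (PT.lf (nat_lit 1292) (nat_lit 6) (nat_lit 17) (nat_lit 5) (nat_lit 97) (nat_lit 236) (nat_lit 237))))) (PT.nd (nat_lit 10530) (PT.nd (nat_lit 156) (PT.nd (nat_lit 78) (PT.lf (nat_lit 1444) (nat_lit 3) (nat_lit 19) (nat_lit 4) (nat_lit 98) (nat_lit 236) (nat_lit 236)) (PT.lf (nat_lit 1596) (nat_lit 6) (nat_lit 21) (nat_lit 4) (nat_lit 99) (nat_lit 236) (nat_lit 235))) (PT.nd (nat_lit 78) (PT.lf (nat_lit 1672) (nat_lit 6) (nat_lit 22) (nat_lit 4) (nat_lit 100) (nat_lit 236) (nat_lit 234)) (PT.lf (nat_lit 1824) (nat_lit 6) (nat_lit 24) (nat_lit 4) (nat_lit 101) (nat_lit 236) (nat_lit 233)))) (PT.nd (nat_lit 156) (PT.nd (nat_lit 78) (PT.lf (nat_lit 1824)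 (nat_lit 6) (nat_lit 24) (nat_lit 2) (nat_lit 233) (nat_lit 236) (nat_lit 101)) (PT.lf (nat_lit 1672) (nat_lit 6) (nat_lit 22) (nat_lit 2) (nat_lit 234) (nat_lit 236) (nat_lit 100))) (PT.nd (nat_lit 78) (PT.lf (nat_lit 1596) (nat_lit 6) (nat_lit 21) (nat_lit 2) (nat_lit 235) (nat_lit 236) (nat_lit 99)) (PT.lf (nat_lit 1444) (nat_lit 3) (nat_lit 19) (nat_lit 0) (nat_lit 236) (nat_lit 236) (nat_lit 98))))))) (PT.nd (nat_lit 107640) (PT.nd (nat_lit 59124) (PT.nd (nat_lit 48360) (PT.nd (nat_lit 48204) (PT.nd (nat_lit 78) (PT.lf (nat_lit 1292) (nat_lit 6) (nat_lit 17) (nat_lit 0) (nat_lit 237) (nat_lit 236) (nat_lit 97)) (PT.lf (nat_lit 1064) (nat_lit 6) (nat_lit 14) (nat_lit 0) (nat_lit 238) (nat_lit 236) (nat_lit 96))) (PT.nd (nat_lit 78) (PT.lf (nat_lit 760) (nat_lit 6) (nat_lit 10) (nat_lit 5) (nat_lit 94) (nat_lit 237) (nat_lit 239)) (PT.lf (nat_lit 988) (nat_lit 6) (nat_lit 13) (nat_lit 5) (nat_lit 95) (nat_lit 237) (nat_lit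 238)))) (PT.nd (nat_lit 156) (PT.nd (nat_lit 78) (PT.lf (nat_lit 1140) (nat_lit 3) (nat_lit 15) (nat_lit 4) (nat_lit 96) (nat_lit 237) (nat_lit 237)) (PT.lf (nat_lit 1292) (nat_lit 6) (nat_lit 17) (nat_lit 4) (nat_lit 97) (nat_lit 237) (nat_lit 236))) (PT.nd (nat_lit 78) (PT.lf (nat_lit 1368) (nat_lit 6) (nat_lit 18) (nat_lit 4) (nat_lit 98) (nat_lit 237) (nat_lit 235)) (PT.lf (nat_lit 1520) (nat_lit 6) (nat_lit 20) (nat_lit 4) (nat_lit 99) (nat_lit 237) (nat_lit 234))))) (PT.nd (nat_lit 312) (PT.nd (nat_lit 156) (PT.nd (nat_lit 78) (PT.lf (nat_lit 1520) (nat_lit 6) (nat_lit 20) (nat_lit 2) (nat_lit 234) (nat_lit 237) (nat_lit 99)) (PT.lf (nat_lit 1368) (nat_lit 6) (nat_lit 18) (nat_lit 2) (nat_lit 235) (nat_lit 237) (nat_lit 98))) (PT.nd (nat_lit 78) (PT.lf (nat_lit 1292) (nat_lit 6) (nat_lit 17) (nat_lit 2) (nat_lit 236) (nat_lit 237) (nat_lit 97)) (PT.lf (nat_lit 1140) (nat_lit 3) (nat_lit 15) (nat_lit 0) (nat_lit 237) (nat_lit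 237) (nat_lit 96)))) (PT.nd (nat_lit 48048) (PT.nd (nat_lit 78) (PT.lf (nat_lit 988) (nat_lit 6) (nat_lit 13) (nat_lit 0) (nat_lit 238) (nat_lit 237) (nat_lit 95)) (PT.lf (nat_lit 760) (nat_lit 6) (nat_lit 10) (nat_lit 0) (nat_lit 239) (nat_lit 237) (nat_lit 94))) (PT.nd (nat_lit 78) (PT.lf (nat_lit 684) (nat_lit 6) (nat_lit 9) (nat_lit 5) (nat_lit 93) (nat_lit 238) (nat_lit 239)) (PT.lf (nat_lit 836) (nat_lit 3) (nat_lit 11) (nat_lit 4) (nat_lit 94) (nat_lit 238) (nat_lit 238)))))) (PT.nd (nat_lit 70434) (PT.nd (nat_lit 11154) (PT.nd (nat_lit 10998) (PT.nd (nat_lit 78) (PT.lf (nat_lit 988) (nat_lit 6) (nat_lit 13) (nat_lit 4) (nat_lit 95) (nat_lit 238) (nat_lit 237)) (PT.lf (nat_lit 1064) (nat_lit 6) (nat_lit 14) (nat_lit 4) (nat_lit 96) (nat_lit 238) (nat_lit 236))) (PT.nd (nat_lit 78) (PT.lf (nat_lit 1064) (nat_lit 6) (nat_lit 14) (nat_lit 2) (nat_lit 236) (nat_lit 238) (nat_lit 96)) (PT.lf (nat_lit 988) (nat_lit 6) (nat_lit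 13) (nat_lit 2) (nat_lit 237) (nat_lit 238) (nat_lit 95)))) (PT.nd (nat_lit 48048) (PT.nd (nat_lit 78) (PT.lf (nat_lit 836) (nat_lit 3) (nat_lit 11) (nat_lit 0) (nat_lit 238) (nat_lit 238) (nat_lit 94)) (PT.lf (nat_lit 684) (nat_lit 6) (nat_lit 9) (nat_lit 0) (nat_lit 239) (nat_lit 238) (nat_lit 93))) (PT.nd (nat_lit 78) (PT.lf (nat_lit 684) (nat_lit 6) (nat_lit 9) (nat_lit 4) (nat_lit 93) (nat_lit 239) (nat_lit 238)) (PT.lf (nat_lit 760) (nat_lit 6) (nat_lit 10) (nat_lit 4) (nat_lit 94) (nat_lit 239) (nat_lit 237))))) (PT.nd (nat_lit 1070004) (PT.nd (nat_lit 1054248) (PT.nd (nat_lit 78) (PT.lf (nat_lit 760) (nat_lit 6) (nat_lit 10) (nat_lit 2) (nat_lit 237) (nat_lit 239) (nat_lit 94)) (PT.lf (nat_lit 684) (nat_lit 6) (nat_lit 9) (nat_lit 2) (nat_lit 238) (nat_lit 239) (nat_lit 93))) (PT.nd (nat_lit 78) (PT.lf (nat_lit 76) (nat_lit 6) (nat_lit 1) (nat_lit 5) (nat_lit 55) (nat_lit 257) (nat_lit 258)) (PT.lf (nat_lit 152) (nat_lit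 3) (nat_lit 2) (nat_lit 4) (nat_lit 56) (nat_lit 257) (nat_lit 257)))) (PT.nd (nat_lit 43602) (PT.nd (nat_lit 78) (PT.lf (nat_lit 152) (nat_lit 3) (nat_lit 2) (nat_lit 0) (nat_lit 257) (nat_lit 257) (nat_lit 56)) (PT.lf (nat_lit 76) (nat_lit 6) (nat_lit 1) (nat_lit 0) (nat_lit 258) (nat_lit 257) (nat_lit 55))) (PT.nd (nat_lit 15756) (PT.lf (nat_lit 76) (nat_lit 6) (nat_lit 1) (nat_lit 4) (nat_lit 55) (nat_lit 258) (nat_lit 257)) (PT.lf (nat_lit 76) (nat_lit 6) (nat_lit 1) (nat_lit 2) (nat_lit 257) (nat_lit 258) (nat_lit 55))))))))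
noncomputable def xc0 : XT := (XT.nd (nat_lit 178152) (nat_lit 0) (nat_lit 0) (XT.nd (nat_lit 118638) (nat_lit 76) (nat_lit 0) (XT.nd (nat_lit 59358) (nat_lit 0) (nat_lit 0) (XT.nd (nat_lit 156) (nat_lit 0) (nat_lit 0) (XT.nd (nat_lit 78) (nat_lit 152) (nat_lit 0) (XT.lf (nat_lit 0) (nat_lit 2150656432) (nat_lit 152) (nat_lit 3625146102) (nat_lit 0) (nat_lit 2150656432) (nat_lit 17) (nat_lit 5) (nat_lit 19) (nat_lit 4) (nat_lit 17) (nat_lit 4) (nat_lit 506) (nat_lit 317) (nat_lit 317)) (XT.lf (nat_lit 0) (nat_lit 3811250426) (nat_lit 152) (nat_lit 6295799878) (nat_lit 152) (nat_lit 5940892465) (nat_lit 15) (nat_lit 4) (nat_lit 17) (nat_lit 5) (nat_lit 17) (nat_lit 4) (nat_lit 507) (nat_lit 317) (nat_lit 316))) (XT.nd (nat_lit 59046) (nat_lit 0) (nat_lit 304) (XT.lf (nat_lit 0) (nat_lit 15045014103) (nat_lit 152) (nat_lit 952669715) (nat_lit 152) (nat_lit 249813857) (nat_lit 15) (nat_lit 4) (nat_lit 17) (nat_lit 5) (nat_lit 17)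 (nat_lit 4) (nat_lit 508) (nat_lit 317) (nat_lit 315)) (XT.nd (nat_lit 78) (nat_lit 0) (nat_lit 0) (XT.lf (nat_lit 0) (nat_lit 1024350207) (nat_lit 152) (nat_lit 3356254544) (nat_lit 152) (nat_lit 3356254544) (nat_lit 19) (nat_lit 4) (nat_lit 21) (nat_lit 5) (nat_lit 21) (nat_lit 4) (nat_lit 504) (nat_lit 318) (nat_lit 318)) (XT.lf (nat_lit 0) (nat_lit 13150312314) (nat_lit 152) (nat_lit 1440544962) (nat_lit 152) (nat_lit 1071299289) (nat_lit 19) (nat_lit 4) (nat_lit 21) (nat_lit 5) (nat_lit 21) (nat_lit 4) (nat_lit 505) (nat_lit 318) (nat_lit 317))))) (XT.nd (nat_lit 59046) (nat_lit 0) (nat_lit 304) (XT.nd (nat_lit 78) (nat_lit 152) (nat_lit 0) (XT.lf (nat_lit 0) (nat_lit 4623469929) (nat_lit 152) (nat_lit 7323690648) (nat_lit 0) (nat_lit 3906556954) (nat_lit 17) (nat_lit 5) (nat_lit 19) (nat_lit 4) (nat_lit 17) (nat_lit 4) (nat_lit 506) (nat_lit 318) (nat_lit 316)) (XT.nd (nat_lit 78) (nat_lit 0) (nat_lit 0) (XT.lf (nat_lit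 0) (nat_lit 3663960999) (nat_lit 152) (nat_lit 6725222915) (nat_lit 152) (nat_lit 5660361495) (nat_lit 15) (nat_lit 4) (nat_lit 17) (nat_lit 5) (nat_lit 17) (nat_lit 4) (nat_lit 507) (nat_lit 318) (nat_lit 315)) (XT.lf (nat_lit 0) (nat_lit 14826238835) (nat_lit 152) (nat_lit 1414813328) (nat_lit 152) (nat_lit 8825982) (nat_lit 15) (nat_lit 4) (nat_lit 17) (nat_lit 5) (nat_lit 17) (nat_lit 4) (nat_lit 508) (nat_lit 318) (nat_lit 314)))) (XT.nd (nat_lit 78) (nat_lit 304) (nat_lit 0) (XT.lf (nat_lit 0) (nat_lit 5321695555) (nat_lit 152) (nat_lit 1116158126) (nat_lit 152) (nat_lit 1116158126) (nat_lit 23) (nat_lit 4) (nat_lit 25) (nat_lit 5) (nat_lit 25) (nat_lit 4) (nat_lit 502) (nat_lit 319) (nat_lit 319)) (XT.nd (nat_lit 78) (nat_lit 152) (nat_lit 0) (XT.lf (nat_lit 0) (nat_lit 3402220996) (nat_lit 152) (nat_lit 8861575049) (nat_lit 0) (nat_lit 3025590410) (nat_lit 21) (nat_lit 5) (nat_lit 23) (nat_lit 4) (nat_lit 21) (nat_lit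 4) (nat_lit 503) (nat_lit 319) (nat_lit 318)) (XT.lf (nat_lit 0) (nat_lit 1975933060) (nat_lit 152) (nat_lit 7122229042) (nat_lit 152) (nat_lit 6376352782) (nat_lit 19) (nat_lit 4) (nat_lit 21) (nat_lit 5) (nat_lit 21) (nat_lit 4) (nat_lit 504) (nat_lit 319) (nat_lit 317)))))) (XT.nd (nat_lit 59046) (nat_lit 0) (nat_lit 228) (XT.nd (nat_lit 156) (nat_lit 228) (nat_lit 0) (XT.nd (nat_lit 78) (nat_lit 152) (nat_lit 0) (XT.lf (nat_lit 0) (nat_lit 13006204416) (nat_lit 152) (nat_lit 1882705470) (nat_lit 152) (nat_lit 774823649) (nat_lit 19) (nat_lit 4) (nat_lit 21) (nat_lit 5) (nat_lit 21) (nat_lit 4) (nat_lit 505) (nat_lit 319) (nat_lit 316)) (XT.lf (nat_lit 0) (nat_lit 4873154483) (nat_lit 152) (nat_lit 7543914759) (nat_lit 0) (nat_lit 3439047391) (nat_lit 17) (nat_lit 5) (nat_lit 19) (nat_lit 4) (nat_lit 17) (nat_lit 4) (nat_lit 506) (nat_lit 319) (nat_lit 315))) (XT.nd (nat_lit 78) (nat_lit 76) (nat_lit 0) (XT.lf (nat_lit 0)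 (nat_lit 3369324385) (nat_lit 152) (nat_lit 7229329976) (nat_lit 152) (nat_lit 5454096957) (nat_lit 15) (nat_lit 4) (nat_lit 17) (nat_lit 5) (nat_lit 17) (nat_lit 4) (nat_lit 507) (nat_lit 319) (nat_lit 314)) (XT.nd (nat_lit 58734) (nat_lit 0) (nat_lit 836) (XT.lf (nat_lit 0) (nat_lit 156589819) (nat_lit 228) (nat_lit 1793358766) (nat_lit 76) (nat_lit 14303877443) (nat_lit 14) (nat_lit 5) (nat_lit 17) (nat_lit 5) (nat_lit 15) (nat_lit 4) (nat_lit 508) (nat_lit 319) (nat_lit 313)) (XT.lf (nat_lit 0) (nat_lit 943102060) (nat_lit 228) (nat_lit 5491324307) (nat_lit 0) (nat_lit 943102060) (nat_lit 25) (nat_lit 5) (nat_lit 28) (nat_lit 4) (nat_lit 25) (nat_lit 4) (nat_lit 500) (nat_lit 320) (nat_lit 320))))) (XT.nd (nat_lit 234) (nat_lit 304) (nat_lit 0) (XT.nd (nat_lit 78) (nat_lit 304) (nat_lit 0) (XT.lf (nat_lit 0) (nat_lit 7505807157) (nat_lit 228) (nat_lit 310318157) (nat_lit 0) (nat_lit 7113960695) (nat_lit 25) (nat_lit 5) (nat_lit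 28) (nat_lit 4) (nat_lit 25) (nat_lit 4) (nat_lit 501) (nat_lit 320) (nat_lit 319)) (XT.nd (nat_lit 78) (nat_lit 152) (nat_lit 0) (XT.lf (nat_lit 0) (nat_lit 10572204758) (nat_lit 152) (nat_lit 2656306109) (nat_lit 152) (nat_lit 1880296449) (nat_lit 23) (nat_lit 4) (nat_lit 25) (nat_lit 5) (nat_lit 25) (nat_lit 4) (nat_lit 502) (nat_lit 320) (nat_lit 318)) (XT.lf (nat_lit 0) (nat_lit 3707189016) (nat_lit 152) (nat_lit 9006637304) (nat_lit 0) (nat_lit 2577149558) (nat_lit 21) (nat_lit 5) (nat_lit 23) (nat_lit 4) (nat_lit 21) (nat_lit 4) (nat_lit 503) (nat_lit 320) (nat_lit 317)))) (XT.nd (nat_lit 78) (nat_lit 152) (nat_lit 0) (XT.lf (nat_lit 0) (nat_lit 1757602460) (nat_lit 152) (nat_lit 7605673316) (nat_lit 152) (nat_lit 6113628297) (nat_lit 19) (nat_lit 4) (nat_lit 21) (nat_lit 5) (nat_lit 21) (nat_lit 4) (nat_lit 504) (nat_lit 320) (nat_lit 316)) (XT.nd (nat_lit 78) (nat_lit 152) (nat_lit 0) (XT.lf (nat_lit 0) (nat_lit 12717932106)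 (nat_lit 152) (nat_lit 2397954210) (nat_lit 152) (nat_lit 551001778) (nat_lit 19) (nat_lit 4) (nat_lit 21) (nat_lit 5) (nat_lit 21) (nat_lit 4) (nat_lit 505) (nat_lit 320) (nat_lit 315)) (XT.lf (nat_lit 0) (nat_lit 5050464443) (nat_lit 152) (nat_lit 7911050900) (nat_lit 0) (nat_lit 2898600838) (nat_lit 17) (nat_lit 5) (nat_lit 19) (nat_lit 4) (nat_lit 17) (nat_lit 4) (nat_lit 506) (nat_lit 320) (nat_lit 314))))))) (XT.nd (nat_lit 59358) (nat_lit 0) (nat_lit 0) (XT.nd (nat_lit 58890) (nat_lit 0) (nat_lit 228) (XT.nd (nat_lit 58656) (nat_lit 0) (nat_lit 836) (XT.nd (nat_lit 78) (nat_lit 76) (nat_lit 0) (XT.lf (nat_lit 0) (nat_lit 2927225039) (nat_lit 152) (nat_lit 7808318750) (nat_lit 152) (nat_lit 5322017963) (nat_lit 15) (nat_lit 4) (nat_lit 17) (nat_lit 5) (nat_lit 17) (nat_lit 4) (nat_lit 507) (nat_lit 320) (nat_lit 313)) (XT.lf (nat_lit 0) (nat_lit 249427462) (nat_lit 228) (nat_lit 2310336904) (nat_lit 76) (nat_lit 13699607506)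 (nat_lit 14) (nat_lit 5) (nat_lit 17) (nat_lit 5) (nat_lit 15) (nat_lit 4) (nat_lit 508) (nat_lit 320) (nat_lit 312))) (XT.nd (nat_lit 78) (nat_lit 380) (nat_lit 0) (XT.lf (nat_lit 0) (nat_lit 2837051048) (nat_lit 228) (nat_lit 1532955851) (nat_lit 0) (nat_lit 2837051048) (nat_lit 30) (nat_lit 5) (nat_lit 33) (nat_lit 4) (nat_lit 30) (nat_lit 4) (nat_lit 498) (nat_lit 321) (nat_lit 321)) (XT.nd (nat_lit 78) (nat_lit 228) (nat_lit 0) (XT.lf (nat_lit 0) (nat_lit 7626664940) (nat_lit 152) (nat_lit 3682105724) (nat_lit 152) (nat_lit 3274428665) (nat_lit 28) (nat_lit 4) (nat_lit 30) (nat_lit 5) (nat_lit 30) (nat_lit 4) (nat_lit 499) (nat_lit 321) (nat_lit 320)) (XT.lf (nat_lit 0) (nat_lit 2246535128) (nat_lit 228) (nat_lit 11054306400) (nat_lit 0) (nat_lit 1455005275) (nat_lit 25) (nat_lit 5) (nat_lit 28) (nat_lit 4) (nat_lit 25) (nat_lit 4) (nat_lit 500) (nat_lit 321) (nat_lit 319))))) (XT.nd (nat_lit 234) (nat_lit 304) (nat_lit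 0) (XT.nd (nat_lit 78) (nat_lit 304) (nat_lit 0) (XT.lf (nat_lit 0) (nat_lit 7827557396) (nat_lit 228) (nat_lit 452228674) (nat_lit 0) (nat_lit 6651864345) (nat_lit 25) (nat_lit 5) (nat_lit 28) (nat_lit 4) (nat_lit 25) (nat_lit 4) (nat_lit 501) (nat_lit 321) (nat_lit 318)) (XT.nd (nat_lit 78) (nat_lit 152) (nat_lit 0) (XT.lf (nat_lit 0) (nat_lit 10358617783) (nat_lit 152) (nat_lit 3152432292) (nat_lit 152) (nat_lit 1600108654) (nat_lit 23) (nat_lit 4) (nat_lit 25) (nat_lit 5) (nat_lit 25) (nat_lit 4) (nat_lit 502) (nat_lit 321) (nat_lit 317)) (XT.lf (nat_lit 0) (nat_lit 3940614063) (nat_lit 152) (nat_lit 9296818702) (nat_lit 0) (nat_lit 2056722582) (nat_lit 21) (nat_lit 5) (nat_lit 23) (nat_lit 4) (nat_lit 21) (nat_lit 4) (nat_lit 503) (nat_lit 321) (nat_lit 316)))) (XT.nd (nat_lit 78) (nat_lit 152) (nat_lit 0) (XT.lf (nat_lit 0) (nat_lit 1393622995) (nat_lit 152) (nat_lit 8163031497) (nat_lit 152) (nat_lit 5924232603) (nat_lit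 19) (nat_lit 4) (nat_lit 21) (nat_lit 5) (nat_lit 21) (nat_lit 4) (nat_lit 504) (nat_lit 321) (nat_lit 315)) (XT.nd (nat_lit 78) (nat_lit 152) (nat_lit 0) (XT.lf (nat_lit 0) (nat_lit 12285382338) (nat_lit 152) (nat_lit 2986493241) (nat_lit 152) (nat_lit 399745902) (nat_lit 19) (nat_lit 4) (nat_lit 21) (nat_lit 5) (nat_lit 21) (nat_lit 4) (nat_lit 505) (nat_lit 321) (nat_lit 314)) (XT.lf (nat_lit 0) (nat_lit 5155469341) (nat_lit 152) (nat_lit 8425243048) (nat_lit 0) (nat_lit 2285005356) (nat_lit 17) (nat_lit 5) (nat_lit 19) (nat_lit 4) (nat_lit 17) (nat_lit 4) (nat_lit 506) (nat_lit 321) (nat_lit 313)))))) (XT.nd (nat_lit 58734) (nat_lit 0) (nat_lit 380) (XT.nd (nat_lit 58500) (nat_lit 0) (nat_lit 1216) (XT.nd (nat_lit 78) (nat_lit 76) (nat_lit 0) (XT.lf (nat_lit 0) (nat_lit 2337489590) (nat_lit 152) (nat_lit 8462416292) (nat_lit 152) (nat_lit 5264072717) (nat_lit 15) (nat_lit 4) (nat_lit 17) (nat_lit 5) (nat_lit 17) (nat_lit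 4) (nat_lit 507) (nat_lit 321) (nat_lit 312)) (XT.lf (nat_lit 0) (nat_lit 269839107) (nat_lit 228) (nat_lit 2974719158) (nat_lit 76) (nat_lit 13021960734) (nat_lit 14) (nat_lit 5) (nat_lit 17) (nat_lit 5) (nat_lit 15) (nat_lit 4) (nat_lit 508) (nat_lit 321) (nat_lit 311))) (XT.nd (nat_lit 78) (nat_lit 228) (nat_lit 0) (XT.lf (nat_lit 0) (nat_lit 2130486045) (nat_lit 152) (nat_lit 2456046505) (nat_lit 152) (nat_lit 2456046505) (nat_lit 33) (nat_lit 4) (nat_lit 35) (nat_lit 5) (nat_lit 35) (nat_lit 4) (nat_lit 496) (nat_lit 322) (nat_lit 322)) (XT.nd (nat_lit 78) (nat_lit 0) (nat_lit 0) (XT.lf (nat_lit 0) (nat_lit 537586645) (nat_lit 228) (nat_lit 13589574332) (nat_lit 0) (nat_lit 121756045) (nat_lit 30) (nat_lit 5) (nat_lit 33) (nat_lit 4) (nat_lit 30) (nat_lit 4) (nat_lit 497) (nat_lit 322) (nat_lit 321)) (XT.lf (nat_lit 0) (nat_lit 6051199146) (nat_lit 228) (nat_lit 3136002951) (nat_lit 0) (nat_lit 5227691486) (nat_lit 30)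 (nat_lit 5) (nat_lit 33) (nat_lit 4) (nat_lit 30) (nat_lit 4) (nat_lit 498) (nat_lit 322) (nat_lit 320))))) (XT.nd (nat_lit 234) (nat_lit 456) (nat_lit 0) (XT.nd (nat_lit 78) (nat_lit 228) (nat_lit 0) (XT.lf (nat_lit 0) (nat_lit 7486012093) (nat_lit 152) (nat_lit 4160968338) (nat_lit 152) (nat_lit 2937777287) (nat_lit 28) (nat_lit 4) (nat_lit 30) (nat_lit 5) (nat_lit 30) (nat_lit 4) (nat_lit 499) (nat_lit 322) (nat_lit 319)) (XT.nd (nat_lit 78) (nat_lit 0) (nat_lit 0) (XT.lf (nat_lit 0) (nat_lit 2536139604) (nat_lit 228) (nat_lit 11269307858) (nat_lit 0) (nat_lit 952769493) (nat_lit 25) (nat_lit 5) (nat_lit 28) (nat_lit 4) (nat_lit 25) (nat_lit 4) (nat_lit 500) (nat_lit 322) (nat_lit 318)) (XT.lf (nat_lit 0) (nat_lit 8079337589) (nat_lit 228) (nat_lit 736105359) (nat_lit 0) (nat_lit 6119336892) (nat_lit 25) (nat_lit 5) (nat_lit 28) (nat_lit 4) (nat_lit 25) (nat_lit 4) (nat_lit 501) (nat_lit 322) (nat_lit 317)))) (XT.nd (nat_lit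 78) (nat_lit 304) (nat_lit 0) (XT.lf (nat_lit 0) (nat_lit 10002546426) (nat_lit 152) (nat_lit 3720889360) (nat_lit 152) (nat_lit 1391642990) (nat_lit 23) (nat_lit 4) (nat_lit 25) (nat_lit 5) (nat_lit 25) (nat_lit 4) (nat_lit 502) (nat_lit 322) (nat_lit 316)) (XT.nd (nat_lit 78) (nat_lit 152) (nat_lit 0) (XT.lf (nat_lit 0) (nat_lit 4102587678) (nat_lit 152) (nat_lit 9732233038) (nat_lit 0) (nat_lit 1464105393) (nat_lit 21) (nat_lit 5) (nat_lit 23) (nat_lit 4) (nat_lit 21) (nat_lit 4) (nat_lit 503) (nat_lit 322) (nat_lit 315)) (XT.lf (nat_lit 0) (nat_lit 883851928) (nat_lit 152) (nat_lit 8794522157) (nat_lit 152) (nat_lit 5808091427) (nat_lit 19) (nat_lit 4) (nat_lit 21) (nat_lit 5) (nat_lit 21) (nat_lit 4) (nat_lit 504) (nat_lit 322) (nat_lit 314))))))))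
noncomputable def xc1 : XT := (XT.nd (nat_lit 117936) (nat_lit 0) (nat_lit 76) (XT.nd (nat_lit 59046) (nat_lit 0) (nat_lit 0) (XT.nd (nat_lit 58578) (nat_lit 0) (nat_lit 836) (XT.nd (nat_lit 156) (nat_lit 228) (nat_lit 0) (XT.nd (nat_lit 78) (nat_lit 152) (nat_lit 0) (XT.lf (nat_lit 0) (nat_lit 11708385483) (nat_lit 152) (nat_lit 3648553361) (nat_lit 152) (nat_lit 320996705) (nat_lit 19) (nat_lit 4) (nat_lit 21) (nat_lit 5) (nat_lit 21) (nat_lit 4) (nat_lit 505) (nat_lit 322) (nat_lit 313)) (XT.lf (nat_lit 0) (nat_lit 5188210357) (nat_lit 152) (nat_lit 9086692845) (nat_lit 0) (nat_lit 1598020319) (nat_lit 17) (nat_lit 5) (nat_lit 19) (nat_lit 4) (nat_lit 17) (nat_lit 4) (nat_lit 506) (nat_lit 322) (nat_lit 312))) (XT.nd (nat_lit 78) (nat_lit 76) (nat_lit 0) (XT.lf (nat_lit 0) (nat_lit 1599886768) (nat_lit 152) (nat_lit 9191879111) (nat_lit 152) (nat_lit 5280238494) (nat_lit 15) (nat_lit 4) (nat_lit 17) (nat_lit 5) (nat_lit 17)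 (nat_lit 4) (nat_lit 507) (nat_lit 322) (nat_lit 311)) (XT.nd (nat_lit 58266) (nat_lit 0) (nat_lit 1824) (XT.lf (nat_lit 0) (nat_lit 217832759) (nat_lit 228) (nat_lit 3786766069) (nat_lit 76) (nat_lit 12270671383) (nat_lit 14) (nat_lit 5) (nat_lit 17) (nat_lit 5) (nat_lit 15) (nat_lit 4) (nat_lit 508) (nat_lit 322) (nat_lit 310)) (XT.lf (nat_lit 0) (nat_lit 5514446108) (nat_lit 152) (nat_lit 684726297) (nat_lit 152) (nat_lit 684726297) (nat_lit 38) (nat_lit 4) (nat_lit 40) (nat_lit 5) (nat_lit 40) (nat_lit 4) (nat_lit 494) (nat_lit 323) (nat_lit 323))))) (XT.nd (nat_lit 234) (nat_lit 380) (nat_lit 0) (XT.nd (nat_lit 78) (nat_lit 380) (nat_lit 0) (XT.lf (nat_lit 0) (nat_lit 4064769125) (nat_lit 228) (nat_lit 6228248562) (nat_lit 0) (nat_lit 3632138968) (nat_lit 35) (nat_lit 5) (nat_lit 38) (nat_lit 4) (nat_lit 35) (nat_lit 4) (nat_lit 495) (nat_lit 323) (nat_lit 322)) (XT.nd (nat_lit 78) (nat_lit 228) (nat_lit 0) (XT.lf (nat_lit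 0) (nat_lit 4191512208) (nat_lit 152) (nat_lit 5375599045) (nat_lit 152) (nat_lit 4518821676) (nat_lit 33) (nat_lit 4) (nat_lit 35) (nat_lit 5) (nat_lit 35) (nat_lit 4) (nat_lit 496) (nat_lit 323) (nat_lit 321)) (XT.lf (nat_lit 0) (nat_lit 516885573) (nat_lit 152) (nat_lit 369002318) (nat_lit 228) (nat_lit 13364552143) (nat_lit 30) (nat_lit 5) (nat_lit 32) (nat_lit 5) (nat_lit 33) (nat_lit 4) (nat_lit 497) (nat_lit 323) (nat_lit 320)))) (XT.nd (nat_lit 78) (nat_lit 380) (nat_lit 0) (XT.lf (nat_lit 0) (nat_lit 6359130515) (nat_lit 228) (nat_lit 3346304183) (nat_lit 0) (nat_lit 4711792252) (nat_lit 30) (nat_lit 5) (nat_lit 33) (nat_lit 4) (nat_lit 30) (nat_lit 4) (nat_lit 498) (nat_lit 323) (nat_lit 319)) (XT.nd (nat_lit 78) (nat_lit 228) (nat_lit 0) (XT.lf (nat_lit 0) (nat_lit 7204651242) (nat_lit 152) (nat_lit 4711204297) (nat_lit 152) (nat_lit 2672019572) (nat_lit 28) (nat_lit 4) (nat_lit 30) (nat_lit 5) (nat_lit 30) (nat_lit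 4) (nat_lit 499) (nat_lit 323) (nat_lit 318)) (XT.lf (nat_lit 0) (nat_lit 2755131117) (nat_lit 228) (nat_lit 11627737303) (nat_lit 0) (nat_lit 379299820) (nat_lit 25) (nat_lit 5) (nat_lit 28) (nat_lit 4) (nat_lit 25) (nat_lit 4) (nat_lit 500) (nat_lit 323) (nat_lit 317)))))) (XT.nd (nat_lit 390) (nat_lit 380) (nat_lit 0) (XT.nd (nat_lit 156) (nat_lit 304) (nat_lit 0) (XT.nd (nat_lit 78) (nat_lit 152) (nat_lit 0) (XT.lf (nat_lit 0) (nat_lit 8261246472) (nat_lit 228) (nat_lit 1162059536) (nat_lit 0) (nat_lit 5516169502) (nat_lit 25) (nat_lit 5) (nat_lit 28) (nat_lit 4) (nat_lit 25) (nat_lit 4) (nat_lit 501) (nat_lit 323) (nat_lit 316)) (XT.lf (nat_lit 0) (nat_lit 9503851052) (nat_lit 152) (nat_lit 4361900236) (nat_lit 152) (nat_lit 1254817704) (nat_lit 23) (nat_lit 4) (nat_lit 25) (nat_lit 5) (nat_lit 25) (nat_lit 4) (nat_lit 502) (nat_lit 323) (nat_lit 315))) (XT.nd (nat_lit 78) (nat_lit 152) (nat_lit 0) (XT.lf (nat_lit 0) (nat_lit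 4193173380) (nat_lit 152) (nat_lit 10313051065) (nat_lit 0) (nat_lit 799065591) (nat_lit 21) (nat_lit 5) (nat_lit 23) (nat_lit 4) (nat_lit 21) (nat_lit 4) (nat_lit 503) (nat_lit 323) (nat_lit 314)) (XT.nd (nat_lit 78) (nat_lit 0) (nat_lit 0) (XT.lf (nat_lit 0) (nat_lit 228089348) (nat_lit 152) (nat_lit 9500392940) (nat_lit 152) (nat_lit 5765159224) (nat_lit 19) (nat_lit 4) (nat_lit 21) (nat_lit 5) (nat_lit 21) (nat_lit 4) (nat_lit 504) (nat_lit 323) (nat_lit 313)) (XT.lf (nat_lit 0) (nat_lit 10986715269) (nat_lit 152) (nat_lit 4384394202) (nat_lit 152) (nat_lit 314723305) (nat_lit 19) (nat_lit 4) (nat_lit 21) (nat_lit 5) (nat_lit 21) (nat_lit 4) (nat_lit 505) (nat_lit 323) (nat_lit 312))))) (XT.nd (nat_lit 58266) (nat_lit 0) (nat_lit 1824) (XT.nd (nat_lit 78) (nat_lit 228) (nat_lit 0) (XT.lf (nat_lit 0) (nat_lit 5148700329) (nat_lit 152) (nat_lit 9895659684) (nat_lit 0) (nat_lit 837376321) (nat_lit 17) (nat_lit 5) (nat_lit 19)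 (nat_lit 4) (nat_lit 17) (nat_lit 4) (nat_lit 506) (nat_lit 323) (nat_lit 311)) (XT.nd (nat_lit 78) (nat_lit 76) (nat_lit 0) (XT.lf (nat_lit 0) (nat_lit 714127318) (nat_lit 152) (nat_lit 9996993270) (nat_lit 152) (nat_lit 5370521636) (nat_lit 15) (nat_lit 4) (nat_lit 17) (nat_lit 5) (nat_lit 17) (nat_lit 4) (nat_lit 507) (nat_lit 323) (nat_lit 310)) (XT.lf (nat_lit 0) (nat_lit 93388023) (nat_lit 228) (nat_lit 4746796087) (nat_lit 76) (nat_lit 11445444830) (nat_lit 14) (nat_lit 5) (nat_lit 17) (nat_lit 5) (nat_lit 15) (nat_lit 4) (nat_lit 508) (nat_lit 323) (nat_lit 309)))) (XT.nd (nat_lit 78) (nat_lit 152) (nat_lit 0) (XT.lf (nat_lit 0) (nat_lit 952707960) (nat_lit 228) (nat_lit 4825017554) (nat_lit 0) (nat_lit 952707960) (nat_lit 40) (nat_lit 5) (nat_lit 43) (nat_lit 4) (nat_lit 40) (nat_lit 4) (nat_lit 492) (nat_lit 324) (nat_lit 324)) (XT.nd (nat_lit 78) (nat_lit 0) (nat_lit 0) (XT.lf (nat_lit 0) (nat_lit 556597457) (nat_lit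 152) (nat_lit 6753289753) (nat_lit 152) (nat_lit 6303181338) (nat_lit 38) (nat_lit 4) (nat_lit 40) (nat_lit 5) (nat_lit 40) (nat_lit 4) (nat_lit 493) (nat_lit 324) (nat_lit 323)) (XT.lf (nat_lit 0) (nat_lit 10960971409) (nat_lit 152) (nat_lit 1849490135) (nat_lit 152) (nat_lit 958098960) (nat_lit 38) (nat_lit 4) (nat_lit 40) (nat_lit 5) (nat_lit 40) (nat_lit 4) (nat_lit 494) (nat_lit 324) (nat_lit 322))))))) (XT.nd (nat_lit 858) (nat_lit 304) (nat_lit 0) (XT.nd (nat_lit 390) (nat_lit 684) (nat_lit 0) (XT.nd (nat_lit 156) (nat_lit 380) (nat_lit 0) (XT.nd (nat_lit 78) (nat_lit 152) (nat_lit 0) (XT.lf (nat_lit 0) (nat_lit 4429023174) (nat_lit 228) (nat_lit 6366717348) (nat_lit 0) (nat_lit 3130963046) (nat_lit 35) (nat_lit 5) (nat_lit 38) (nat_lit 4) (nat_lit 35) (nat_lit 4) (nat_lit 495) (nat_lit 324) (nat_lit 321)) (XT.lf (nat_lit 0) (nat_lit 3983105320) (nat_lit 152) (nat_lit 5909521549) (nat_lit 152) (nat_lit 4195630820) (nat_lit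 33) (nat_lit 4) (nat_lit 35) (nat_lit 5) (nat_lit 35) (nat_lit 4) (nat_lit 496) (nat_lit 324) (nat_lit 320))) (XT.nd (nat_lit 78) (nat_lit 152) (nat_lit 0) (XT.lf (nat_lit 0) (nat_lit 233071501) (nat_lit 152) (nat_lit 932591513) (nat_lit 228) (nat_lit 13087846312) (nat_lit 30) (nat_lit 5) (nat_lit 32) (nat_lit 5) (nat_lit 33) (nat_lit 4) (nat_lit 497) (nat_lit 324) (nat_lit 319)) (XT.nd (nat_lit 78) (nat_lit 152) (nat_lit 0) (XT.lf (nat_lit 0) (nat_lit 6598016963) (nat_lit 228) (nat_lit 3696897871) (nat_lit 0) (nat_lit 4126202081) (nat_lit 30) (nat_lit 5) (nat_lit 33) (nat_lit 4) (nat_lit 30) (nat_lit 4) (nat_lit 498) (nat_lit 324) (nat_lit 318)) (XT.lf (nat_lit 0) (nat_lit 6782472049) (nat_lit 152) (nat_lit 5333029380) (nat_lit 152) (nat_lit 2477051300) (nat_lit 28) (nat_lit 4) (nat_lit 30) (nat_lit 5) (nat_lit 30) (nat_lit 4) (nat_lit 499) (nat_lit 324) (nat_lit 317))))) (XT.nd (nat_lit 234) (nat_lit 304) (nat_lit 0) (XT.nd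 (nat_lit 78) (nat_lit 152) (nat_lit 0) (XT.lf (nat_lit 0) (nat_lit 2636184406) (nat_lit 152) (nat_lit 269158698) (nat_lit 228) (nat_lit 11862324154) (nat_lit 25) (nat_lit 5) (nat_lit 27) (nat_lit 5) (nat_lit 28) (nat_lit 4) (nat_lit 500) (nat_lit 324) (nat_lit 316)) (XT.nd (nat_lit 78) (nat_lit 152) (nat_lit 0) (XT.lf (nat_lit 0) (nat_lit 8373355383) (nat_lit 228) (nat_lit 1730258246) (nat_lit 0) (nat_lit 4842125639) (nat_lit 25) (nat_lit 5) (nat_lit 28) (nat_lit 4) (nat_lit 25) (nat_lit 4) (nat_lit 501) (nat_lit 324) (nat_lit 315)) (XT.lf (nat_lit 0) (nat_lit 8862336094) (nat_lit 152) (nat_lit 5075716298) (nat_lit 152) (nat_lit 1189579141) (nat_lit 23) (nat_lit 4) (nat_lit 25) (nat_lit 5) (nat_lit 25) (nat_lit 4) (nat_lit 502) (nat_lit 324) (nat_lit 314)))) (XT.nd (nat_lit 78) (nat_lit 152) (nat_lit 0) (XT.lf (nat_lit 0) (nat_lit 4212406692) (nat_lit 152) (nat_lit 11039500552) (nat_lit 0) (nat_lit 61342377) (nat_lit 21) (nat_lit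 5) (nat_lit 23) (nat_lit 4) (nat_lit 21) (nat_lit 4) (nat_lit 503) (nat_lit 324) (nat_lit 313)) (XT.nd (nat_lit 78) (nat_lit 152) (nat_lit 0) (XT.lf (nat_lit 0) (nat_lit 9710725033) (nat_lit 152) (nat_lit 566394816) (nat_lit 0) (nat_lit 5225223535) (nat_lit 21) (nat_lit 5) (nat_lit 23) (nat_lit 4) (nat_lit 21) (nat_lit 4) (nat_lit 504) (nat_lit 324) (nat_lit 312)) (XT.lf (nat_lit 0) (nat_lit 10120088686) (nat_lit 152) (nat_lit 5194304330) (nat_lit 152) (nat_lit 380923241) (nat_lit 19) (nat_lit 4) (nat_lit 21) (nat_lit 5) (nat_lit 21) (nat_lit 4) (nat_lit 505) (nat_lit 324) (nat_lit 311)))))) (XT.nd (nat_lit 58344) (nat_lit 0) (nat_lit 1140) (XT.nd (nat_lit 58110) (nat_lit 0) (nat_lit 1900) (XT.nd (nat_lit 78) (nat_lit 152) (nat_lit 0) (XT.lf (nat_lit 0) (nat_lit 5036923764) (nat_lit 152) (nat_lit 10852460807) (nat_lit 0) (nat_lit 2775071) (nat_lit 17) (nat_lit 5) (nat_lit 19) (nat_lit 4) (nat_lit 17) (nat_lit 4) (nat_lit 506)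 (nat_lit 324) (nat_lit 310)) (XT.nd (nat_lit 78) (nat_lit 152) (nat_lit 0) (XT.lf (nat_lit 0) (nat_lit 10560016921) (nat_lit 152) (nat_lit 315937473) (nat_lit 0) (nat_lit 5216899966) (nat_lit 17) (nat_lit 5) (nat_lit 19) (nat_lit 4) (nat_lit 17) (nat_lit 4) (nat_lit 507) (nat_lit 324) (nat_lit 309)) (XT.lf (nat_lit 0) (nat_lit 10441718720) (nat_lit 152) (nat_lit 5750946960) (nat_lit 152) (nat_lit 104919945) (nat_lit 15) (nat_lit 4) (nat_lit 17) (nat_lit 5) (nat_lit 17) (nat_lit 4) (nat_lit 508) (nat_lit 324) (nat_lit 308)))) (XT.nd (nat_lit 78) (nat_lit 456) (nat_lit 0) (XT.lf (nat_lit 0) (nat_lit 2465492153) (nat_lit 228) (nat_lit 1651135371) (nat_lit 0) (nat_lit 2465492153) (nat_lit 46) (nat_lit 5) (nat_lit 49) (nat_lit 4) (nat_lit 46) (nat_lit 4) (nat_lit 490) (nat_lit 325) (nat_lit 325)) (XT.nd (nat_lit 78) (nat_lit 228) (nat_lit 0) (XT.lf (nat_lit 0) (nat_lit 6882313906) (nat_lit 228) (nat_lit 3448697495) (nat_lit 228)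 (nat_lit 2980404701) (nat_lit 43) (nat_lit 4) (nat_lit 46) (nat_lit 5) (nat_lit 46) (nat_lit 4) (nat_lit 491) (nat_lit 325) (nat_lit 324)) (XT.lf (nat_lit 0) (nat_lit 2326224794) (nat_lit 228) (nat_lit 9718405723) (nat_lit 0) (nat_lit 1417005796) (nat_lit 40) (nat_lit 5) (nat_lit 43) (nat_lit 4) (nat_lit 40) (nat_lit 4) (nat_lit 492) (nat_lit 325) (nat_lit 323))))) (XT.nd (nat_lit 234) (nat_lit 380) (nat_lit 0) (XT.nd (nat_lit 78) (nat_lit 228) (nat_lit 0) (XT.lf (nat_lit 0) (nat_lit 419397426) (nat_lit 152) (nat_lit 7272857170) (nat_lit 152) (nat_lit 5922355412) (nat_lit 38) (nat_lit 4) (nat_lit 40) (nat_lit 5) (nat_lit 40) (nat_lit 4) (nat_lit 493) (nat_lit 325) (nat_lit 322)) (XT.nd (nat_lit 78) (nat_lit 228) (nat_lit 0) (XT.lf (nat_lit 0) (nat_lit 10757182350) (nat_lit 152) (nat_lit 2398399832) (nat_lit 152) (nat_lit 615267918) (nat_lit 38) (nat_lit 4) (nat_lit 40) (nat_lit 5) (nat_lit 40) (nat_lit 4) (nat_lit 494) (nat_lit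 325) (nat_lit 321)) (XT.lf (nat_lit 0) (nat_lit 4725043962) (nat_lit 228) (nat_lit 6643709222) (nat_lit 0) (nat_lit 2561044819) (nat_lit 35) (nat_lit 5) (nat_lit 38) (nat_lit 4) (nat_lit 35) (nat_lit 4) (nat_lit 495) (nat_lit 325) (nat_lit 320)))) (XT.nd (nat_lit 78) (nat_lit 228) (nat_lit 0) (XT.lf (nat_lit 0) (nat_lit 3635669698) (nat_lit 152) (nat_lit 6514069903) (nat_lit 152) (nat_lit 3942393700) (nat_lit 33) (nat_lit 4) (nat_lit 35) (nat_lit 5) (nat_lit 35) (nat_lit 4) (nat_lit 496) (nat_lit 325) (nat_lit 319)) (XT.nd (nat_lit 78) (nat_lit 152) (nat_lit 0) (XT.lf (nat_lit 0) (nat_lit 1377463356) (nat_lit 228) (nat_lit 188883614) (nat_lit 76) (nat_lit 12691770295) (nat_lit 32) (nat_lit 5) (nat_lit 35) (nat_lit 5) (nat_lit 33) (nat_lit 4) (nat_lit 497) (nat_lit 325) (nat_lit 318)) (XT.lf (nat_lit 0) (nat_lit 6767952168) (nat_lit 228) (nat_lit 4187921502) (nat_lit 0) (nat_lit 3470691329) (nat_lit 30) (nat_lit 5) (nat_lit 33)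 (nat_lit 4) (nat_lit 30) (nat_lit 4) (nat_lit 498) (nat_lit 325) (nat_lit 317))))))))
noncomputable def xc2 : XT := (XT.nd (nat_lit 59436) (nat_lit 0) (nat_lit 0) (XT.nd (nat_lit 58578) (nat_lit 0) (nat_lit 988) (XT.nd (nat_lit 390) (nat_lit 456) (nat_lit 0) (XT.nd (nat_lit 156) (nat_lit 304) (nat_lit 0) (XT.nd (nat_lit 78) (nat_lit 228) (nat_lit 0) (XT.lf (nat_lit 0) (nat_lit 6219308954) (nat_lit 152) (nat_lit 6026687439) (nat_lit 152) (nat_lit 2352796013) (nat_lit 28) (nat_lit 4) (nat_lit 30) (nat_lit 5) (nat_lit 30) (nat_lit 4) (nat_lit 499) (nat_lit 325) (nat_lit 316)) (XT.lf (nat_lit 0) (nat_lit 1992730793) (nat_lit 152) (nat_lit 995322618) (nat_lit 228) (nat_lit 11786638374) (nat_lit 25) (nat_lit 5) (nat_lit 27) (nat_lit 5) (nat_lit 28) (nat_lit 4) (nat_lit 500) (nat_lit 325) (nat_lit 315))) (XT.nd (nat_lit 78) (nat_lit 304) (nat_lit 0) (XT.lf (nat_lit 0) (nat_lit 8415708285) (nat_lit 228) (nat_lit 2440924312) (nat_lit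 0) (nat_lit 4096940971) (nat_lit 25) (nat_lit 5) (nat_lit 28) (nat_lit 4) (nat_lit 25) (nat_lit 4) (nat_lit 501) (nat_lit 325) (nat_lit 314)) (XT.nd (nat_lit 78) (nat_lit 152) (nat_lit 0) (XT.lf (nat_lit 0) (nat_lit 8077749977) (nat_lit 152) (nat_lit 5862617474) (nat_lit 152) (nat_lit 1195901715) (nat_lit 23) (nat_lit 4) (nat_lit 25) (nat_lit 5) (nat_lit 25) (nat_lit 4) (nat_lit 502) (nat_lit 325) (nat_lit 313)) (XT.lf (nat_lit 0) (nat_lit 3405913049) (nat_lit 76) (nat_lit 759312066) (nat_lit 152) (nat_lit 11157484274) (nat_lit 21) (nat_lit 5) (nat_lit 22) (nat_lit 5) (nat_lit 23) (nat_lit 4) (nat_lit 503) (nat_lit 325) (nat_lit 312))))) (XT.nd (nat_lit 234) (nat_lit 152) (nat_lit 0) (XT.nd (nat_lit 78) (nat_lit 304) (nat_lit 0) (XT.lf (nat_lit 0) (nat_lit 9623800106) (nat_lit 152) (nat_lit 1502528534) (nat_lit 0) (nat_lit 4386271805) (nat_lit 21) (nat_lit 5) (nat_lit 23) (nat_lit 4) (nat_lit 21) (nat_lit 4) (nat_lit 504) (nat_lit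 325) (nat_lit 311)) (XT.nd (nat_lit 78) (nat_lit 152) (nat_lit 0) (XT.lf (nat_lit 0) (nat_lit 9108165883) (nat_lit 152) (nat_lit 6078601355) (nat_lit 152) (nat_lit 519622476) (nat_lit 19) (nat_lit 4) (nat_lit 21) (nat_lit 5) (nat_lit 21) (nat_lit 4) (nat_lit 505) (nat_lit 325) (nat_lit 310)) (XT.lf (nat_lit 0) (nat_lit 3940645622) (nat_lit 76) (nat_lit 918152461) (nat_lit 152) (nat_lit 11045280224) (nat_lit 17) (nat_lit 5) (nat_lit 18) (nat_lit 5) (nat_lit 19) (nat_lit 4) (nat_lit 506) (nat_lit 325) (nat_lit 309)))) (XT.nd (nat_lit 78) (nat_lit 152) (nat_lit 0) (XT.lf (nat_lit 0) (nat_lit 10341919676) (nat_lit 152) (nat_lit 1483592960) (nat_lit 0) (nat_lit 4280062061) (nat_lit 17) (nat_lit 5) (nat_lit 19) (nat_lit 4) (nat_lit 17) (nat_lit 4) (nat_lit 507) (nat_lit 325) (nat_lit 308)) (XT.nd (nat_lit 57798) (nat_lit 0) (nat_lit 2584) (XT.lf (nat_lit 0) (nat_lit 9196312980) (nat_lit 152) (nat_lit 6736826015) (nat_lit 152) (nat_lit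 377997753) (nat_lit 15) (nat_lit 4) (nat_lit 17) (nat_lit 5) (nat_lit 17) (nat_lit 4) (nat_lit 508) (nat_lit 325) (nat_lit 307)) (XT.lf (nat_lit 0) (nat_lit 1298169779) (nat_lit 228) (nat_lit 2570361488) (nat_lit 228) (nat_lit 2570361488) (nat_lit 49) (nat_lit 4) (nat_lit 52) (nat_lit 5) (nat_lit 52) (nat_lit 4) (nat_lit 488) (nat_lit 326) (nat_lit 326)))))) (XT.nd (nat_lit 390) (nat_lit 760) (nat_lit 0) (XT.nd (nat_lit 156) (nat_lit 608) (nat_lit 0) (XT.nd (nat_lit 78) (nat_lit 152) (nat_lit 0) (XT.lf (nat_lit 0) (nat_lit 88219940) (nat_lit 304) (nat_lit 309007543) (nat_lit 76) (nat_lit 12623253386) (nat_lit 48) (nat_lit 5) (nat_lit 52) (nat_lit 5) (nat_lit 49) (nat_lit 4) (nat_lit 489) (nat_lit 326) (nat_lit 325)) (XT.lf (nat_lit 0) (nat_lit 5370916764) (nat_lit 228) (nat_lit 3369115264) (nat_lit 0) (nat_lit 4424965318) (nat_lit 46) (nat_lit 5) (nat_lit 49) (nat_lit 4) (nat_lit 46) (nat_lit 4) (nat_lit 490) (nat_lit 326) (nat_lit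 324))) (XT.nd (nat_lit 78) (nat_lit 380) (nat_lit 0) (XT.lf (nat_lit 0) (nat_lit 6748176301) (nat_lit 228) (nat_lit 3984910182) (nat_lit 228) (nat_lit 2579848153) (nat_lit 43) (nat_lit 4) (nat_lit 46) (nat_lit 5) (nat_lit 46) (nat_lit 4) (nat_lit 491) (nat_lit 326) (nat_lit 323)) (XT.nd (nat_lit 78) (nat_lit 152) (nat_lit 0) (XT.lf (nat_lit 0) (nat_lit 2679597442) (nat_lit 228) (nat_lit 9923544378) (nat_lit 0) (nat_lit 860802889) (nat_lit 40) (nat_lit 5) (nat_lit 43) (nat_lit 4) (nat_lit 40) (nat_lit 4) (nat_lit 492) (nat_lit 326) (nat_lit 322)) (XT.lf (nat_lit 0) (nat_lit 144943558) (nat_lit 152) (nat_lit 7862087342) (nat_lit 152) (nat_lit 5610662633) (nat_lit 38) (nat_lit 4) (nat_lit 40) (nat_lit 5) (nat_lit 40) (nat_lit 4) (nat_lit 493) (nat_lit 326) (nat_lit 321))))) (XT.nd (nat_lit 234) (nat_lit 380) (nat_lit 0) (XT.nd (nat_lit 78) (nat_lit 380) (nat_lit 0) (XT.lf (nat_lit 0) (nat_lit 10417445123) (nat_lit 152) (nat_lit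 3016396945) (nat_lit 152) (nat_lit 340825024) (nat_lit 38) (nat_lit 4) (nat_lit 40) (nat_lit 5) (nat_lit 40) (nat_lit 4) (nat_lit 494) (nat_lit 326) (nat_lit 320)) (XT.nd (nat_lit 78) (nat_lit 152) (nat_lit 0) (XT.lf (nat_lit 0) (nat_lit 4952947575) (nat_lit 228) (nat_lit 7059332808) (nat_lit 0) (nat_lit 1922160789) (nat_lit 35) (nat_lit 5) (nat_lit 38) (nat_lit 4) (nat_lit 35) (nat_lit 4) (nat_lit 495) (nat_lit 326) (nat_lit 319)) (XT.lf (nat_lit 0) (nat_lit 3149069094) (nat_lit 152) (nat_lit 7189481185) (nat_lit 152) (nat_lit 3759011007) (nat_lit 33) (nat_lit 4) (nat_lit 35) (nat_lit 5) (nat_lit 35) (nat_lit 4) (nat_lit 496) (nat_lit 326) (nat_lit 318)))) (XT.nd (nat_lit 78) (nat_lit 304) (nat_lit 0) (XT.lf (nat_lit 0) (nat_lit 1522556370) (nat_lit 228) (nat_lit 746752771) (nat_lit 76) (nat_lit 11994932831) (nat_lit 32) (nat_lit 5) (nat_lit 35) (nat_lit 5) (nat_lit 33) (nat_lit 4) (nat_lit 497) (nat_lit 326) (nat_lit 317))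 (XT.nd (nat_lit 78) (nat_lit 152) (nat_lit 0) (XT.lf (nat_lit 0) (nat_lit 6869002774) (nat_lit 228) (nat_lit 4819567634) (nat_lit 0) (nat_lit 2745002934) (nat_lit 30) (nat_lit 5) (nat_lit 33) (nat_lit 4) (nat_lit 30) (nat_lit 4) (nat_lit 498) (nat_lit 326) (nat_lit 316)) (XT.lf (nat_lit 0) (nat_lit 5514941108) (nat_lit 152) (nat_lit 6792450497) (nat_lit 152) (nat_lit 2299204984) (nat_lit 28) (nat_lit 4) (nat_lit 30) (nat_lit 5) (nat_lit 30) (nat_lit 4) (nat_lit 499) (nat_lit 326) (nat_lit 315))))))) (XT.nd (nat_lit 58422) (nat_lit 0) (nat_lit 988) (XT.nd (nat_lit 390) (nat_lit 456) (nat_lit 0) (XT.nd (nat_lit 156) (nat_lit 304) (nat_lit 0) (XT.nd (nat_lit 78) (nat_lit 0) (nat_lit 0) (XT.lf (nat_lit 0) (nat_lit 1206363067) (nat_lit 152) (nat_lit 1794436012) (nat_lit 228) (nat_lit 11782495405) (nat_lit 25) (nat_lit 5) (nat_lit 27) (nat_lit 5) (nat_lit 28) (nat_lit 4) (nat_lit 500) (nat_lit 326) (nat_lit 314)) (XT.lf (nat_lit 0)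 (nat_lit 8388321789) (nat_lit 228) (nat_lit 3294336427) (nat_lit 0) (nat_lit 3280323271) (nat_lit 25) (nat_lit 5) (nat_lit 28) (nat_lit 4) (nat_lit 25) (nat_lit 4) (nat_lit 501) (nat_lit 326) (nat_lit 313))) (XT.nd (nat_lit 78) (nat_lit 152) (nat_lit 0) (XT.lf (nat_lit 0) (nat_lit 7149785020) (nat_lit 152) (nat_lit 6722912352) (nat_lit 152) (nat_lit 1273787908) (nat_lit 23) (nat_lit 4) (nat_lit 25) (nat_lit 5) (nat_lit 25) (nat_lit 4) (nat_lit 502) (nat_lit 326) (nat_lit 312)) (XT.nd (nat_lit 78) (nat_lit 0) (nat_lit 0) (XT.lf (nat_lit 0) (nat_lit 2392517651) (nat_lit 76) (nat_lit 1655046347) (nat_lit 152) (nat_lit 11286189973) (nat_lit 21) (nat_lit 5) (nat_lit 22) (nat_lit 5) (nat_lit 23) (nat_lit 4) (nat_lit 503) (nat_lit 326) (nat_lit 311)) (XT.lf (nat_lit 0) (nat_lit 9466192511) (nat_lit 152) (nat_lit 2583670349) (nat_lit 0) (nat_lit 3474583475) (nat_lit 21) (nat_lit 5) (nat_lit 23) (nat_lit 4) (nat_lit 21) (nat_lit 4) (nat_lit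 504) (nat_lit 326) (nat_lit 310))))) (XT.nd (nat_lit 234) (nat_lit 152) (nat_lit 0) (XT.nd (nat_lit 78) (nat_lit 152) (nat_lit 0) (XT.lf (nat_lit 0) (nat_lit 7950550026) (nat_lit 152) (nat_lit 7037632062) (nat_lit 152) (nat_lit 730875400) (nat_lit 19) (nat_lit 4) (nat_lit 21) (nat_lit 5) (nat_lit 21) (nat_lit 4) (nat_lit 505) (nat_lit 326) (nat_lit 309)) (XT.nd (nat_lit 78) (nat_lit 0) (nat_lit 0) (XT.lf (nat_lit 0) (nat_lit 2694049370) (nat_lit 76) (nat_lit 1914749785) (nat_lit 152) (nat_lit 11308806931) (nat_lit 17) (nat_lit 5) (nat_lit 18) (nat_lit 5) (nat_lit 19) (nat_lit 4) (nat_lit 506) (nat_lit 326) (nat_lit 308)) (XT.lf (nat_lit 0) (nat_lit 10052106737) (nat_lit 152) (nat_lit 2798662953) (nat_lit 0) (nat_lit 3269131263) (nat_lit 17) (nat_lit 5) (nat_lit 19) (nat_lit 4) (nat_lit 17) (nat_lit 4) (nat_lit 507) (nat_lit 326) (nat_lit 307)))) (XT.nd (nat_lit 57642) (nat_lit 0) (nat_lit 2812) (XT.lf (nat_lit 0) (nat_lit 7802753922)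 (nat_lit 152) (nat_lit 7798834578) (nat_lit 152) (nat_lit 724711411) (nat_lit 15) (nat_lit 4) (nat_lit 17) (nat_lit 5) (nat_lit 17) (nat_lit 4) (nat_lit 508) (nat_lit 326) (nat_lit 306)) (XT.nd (nat_lit 78) (nat_lit 228) (nat_lit 0) (XT.lf (nat_lit 0) (nat_lit 4045502632) (nat_lit 228) (nat_lit 1127496601) (nat_lit 228) (nat_lit 1127496601) (nat_lit 55) (nat_lit 4) (nat_lit 58) (nat_lit 5) (nat_lit 58) (nat_lit 4) (nat_lit 486) (nat_lit 327) (nat_lit 327)) (XT.lf (nat_lit 0) (nat_lit 2940469505) (nat_lit 228) (nat_lit 7354422433) (nat_lit 0) (nat_lit 2443513444) (nat_lit 52) (nat_lit 5) (nat_lit 55) (nat_lit 4) (nat_lit 52) (nat_lit 4) (nat_lit 487) (nat_lit 327) (nat_lit 326)))))) (XT.nd (nat_lit 468) (nat_lit 912) (nat_lit 0) (XT.nd (nat_lit 234) (nat_lit 456) (nat_lit 0) (XT.nd (nat_lit 78) (nat_lit 228) (nat_lit 0) (XT.lf (nat_lit 0) (nat_lit 2530130354) (nat_lit 228) (nat_lit 5666289312) (nat_lit 228) (nat_lit 4682121428)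 (nat_lit 49) (nat_lit 4) (nat_lit 52) (nat_lit 5) (nat_lit 52) (nat_lit 4) (nat_lit 488) (nat_lit 327) (nat_lit 325)) (XT.nd (nat_lit 78) (nat_lit 152) (nat_lit 0) (XT.lf (nat_lit 0) (nat_lit 503697547) (nat_lit 304) (nat_lit 444357488) (nat_lit 76) (nat_lit 12073867518) (nat_lit 48) (nat_lit 5) (nat_lit 52) (nat_lit 5) (nat_lit 49) (nat_lit 4) (nat_lit 489) (nat_lit 327) (nat_lit 324)) (XT.lf (nat_lit 0) (nat_lit 5744935211) (nat_lit 228) (nat_lit 3569675042) (nat_lit 0) (nat_lit 3852661358) (nat_lit 46) (nat_lit 5) (nat_lit 49) (nat_lit 4) (nat_lit 46) (nat_lit 4) (nat_lit 490) (nat_lit 327) (nat_lit 323)))) (XT.nd (nat_lit 78) (nat_lit 228) (nat_lit 0) (XT.lf (nat_lit 0) (nat_lit 6479848487) (nat_lit 228) (nat_lit 4589253040) (nat_lit 228) (nat_lit 2246870772) (nat_lit 43) (nat_lit 4) (nat_lit 46) (nat_lit 5) (nat_lit 46) (nat_lit 4) (nat_lit 491) (nat_lit 327) (nat_lit 322)) (XT.nd (nat_lit 78) (nat_lit 0) (nat_lit 0) (XT.lf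 (nat_lit 0) (nat_lit 2965672441) (nat_lit 228) (nat_lit 10265531521) (nat_lit 0) (nat_lit 236589081) (nat_lit 40) (nat_lit 5) (nat_lit 43) (nat_lit 4) (nat_lit 40) (nat_lit 4) (nat_lit 492) (nat_lit 327) (nat_lit 321)) (XT.lf (nat_lit 0) (nat_lit 8256072274) (nat_lit 228) (nat_lit 263371701) (nat_lit 0) (nat_lit 5102841702) (nat_lit 40) (nat_lit 5) (nat_lit 43) (nat_lit 4) (nat_lit 40) (nat_lit 4) (nat_lit 493) (nat_lit 327) (nat_lit 320))))) (XT.nd (nat_lit 234) (nat_lit 380) (nat_lit 0) (XT.nd (nat_lit 78) (nat_lit 380) (nat_lit 0) (XT.lf (nat_lit 0) (nat_lit 9941626497) (nat_lit 152) (nat_lit 3703723825) (nat_lit 152) (nat_lit 134662653) (nat_lit 38) (nat_lit 4) (nat_lit 40) (nat_lit 5) (nat_lit 40) (nat_lit 4) (nat_lit 494) (nat_lit 327) (nat_lit 319)) (XT.nd (nat_lit 78) (nat_lit 152) (nat_lit 0) (XT.lf (nat_lit 0) (nat_lit 5112823387) (nat_lit 228) (nat_lit 7613751096) (nat_lit 0) (nat_lit 1214060415) (nat_lit 35) (nat_lit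 5) (nat_lit 38) (nat_lit 4) (nat_lit 35) (nat_lit 4) (nat_lit 495) (nat_lit 327) (nat_lit 318)) (XT.lf (nat_lit 0) (nat_lit 2523112684) (nat_lit 152) (nat_lit 7936020262) (nat_lit 152) (nat_lit 3645410828) (nat_lit 33) (nat_lit 4) (nat_lit 35) (nat_lit 5) (nat_lit 35) (nat_lit 4) (nat_lit 496) (nat_lit 327) (nat_lit 317)))) (XT.nd (nat_lit 78) (nat_lit 304) (nat_lit 0) (XT.lf (nat_lit 0) (nat_lit 1599485701) (nat_lit 228) (nat_lit 1443811515) (nat_lit 76) (nat_lit 11228618897) (nat_lit 32) (nat_lit 5) (nat_lit 35) (nat_lit 5) (nat_lit 33) (nat_lit 4) (nat_lit 497) (nat_lit 327) (nat_lit 316)) (XT.nd (nat_lit 78) (nat_lit 152) (nat_lit 0) (XT.lf (nat_lit 0) (nat_lit 6901208408) (nat_lit 228) (nat_lit 5592083971) (nat_lit 0) (nat_lit 1948852311) (nat_lit 30) (nat_lit 5) (nat_lit 33) (nat_lit 4) (nat_lit 30) (nat_lit 4) (nat_lit 498) (nat_lit 327) (nat_lit 315)) (XT.lf (nat_lit 0) (nat_lit 4669092288) (nat_lit 152) (nat_lit 7630618854)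 (nat_lit 152) (nat_lit 2316257195) (nat_lit 28) (nat_lit 4) (nat_lit 30) (nat_lit 5) (nat_lit 30) (nat_lit 4) (nat_lit 499) (nat_lit 327) (nat_lit 314))))))))
noncomputable def xc3 : XT := (XT.nd (nat_lit 59124) (nat_lit 0) (nat_lit 0) (XT.nd (nat_lit 58266) (nat_lit 0) (nat_lit 1368) (XT.nd (nat_lit 390) (nat_lit 456) (nat_lit 0) (XT.nd (nat_lit 156) (nat_lit 304) (nat_lit 0) (XT.nd (nat_lit 78) (nat_lit 0) (nat_lit 0) (XT.lf (nat_lit 0) (nat_lit 276772848) (nat_lit 152) (nat_lit 2666812260) (nat_lit 228) (nat_lit 11849893623) (nat_lit 25) (nat_lit 5) (nat_lit 27) (nat_lit 5) (nat_lit 28) (nat_lit 4) (nat_lit 500) (nat_lit 327) (nat_lit 313)) (XT.lf (nat_lit 0) (nat_lit 8291185154) (nat_lit 228) (nat_lit 4290829262) (nat_lit 0) (nat_lit 2391952295) (nat_lit 25) (nat_lit 5) (nat_lit 28) (nat_lit 4) (nat_lit 25) (nat_lit 4) (nat_lit 501) (nat_lit 327) (nat_lit 312))) (XT.nd (nat_lit 78) (nat_lit 152) (nat_lit 0) (XT.lf (nat_lit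 0) (nat_lit 6078077316) (nat_lit 152) (nat_lit 7656938303) (nat_lit 152) (nat_lit 1423268262) (nat_lit 23) (nat_lit 4) (nat_lit 25) (nat_lit 5) (nat_lit 25) (nat_lit 4) (nat_lit 502) (nat_lit 327) (nat_lit 311)) (XT.nd (nat_lit 78) (nat_lit 0) (nat_lit 0) (XT.lf (nat_lit 0) (nat_lit 1233577106) (nat_lit 76) (nat_lit 2625396526) (nat_lit 152) (nat_lit 11487422139) (nat_lit 21) (nat_lit 5) (nat_lit 22) (nat_lit 5) (nat_lit 23) (nat_lit 4) (nat_lit 503) (nat_lit 327) (nat_lit 310)) (XT.lf (nat_lit 0) (nat_lit 9237840442) (nat_lit 152) (nat_lit 3810244238) (nat_lit 0) (nat_lit 2489801020) (nat_lit 21) (nat_lit 5) (nat_lit 23) (nat_lit 4) (nat_lit 21) (nat_lit 4) (nat_lit 504) (nat_lit 327) (nat_lit 309))))) (XT.nd (nat_lit 234) (nat_lit 152) (nat_lit 0) (XT.nd (nat_lit 78) (nat_lit 152) (nat_lit 0) (XT.lf (nat_lit 0) (nat_lit 6646787148) (nat_lit 152) (nat_lit 8071772541) (nat_lit 152) (nat_lit 1014764857) (nat_lit 19) (nat_lit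 4) (nat_lit 21) (nat_lit 5) (nat_lit 21) (nat_lit 4) (nat_lit 505) (nat_lit 327) (nat_lit 308)) (XT.nd (nat_lit 78) (nat_lit 0) (nat_lit 0) (XT.lf (nat_lit 0) (nat_lit 1299439841) (nat_lit 76) (nat_lit 2987370844) (nat_lit 152) (nat_lit 11645937966) (nat_lit 17) (nat_lit 5) (nat_lit 18) (nat_lit 5) (nat_lit 19) (nat_lit 4) (nat_lit 506) (nat_lit 327) (nat_lit 307)) (XT.lf (nat_lit 0) (nat_lit 9690464453) (nat_lit 152) (nat_lit 4261663167) (nat_lit 0) (nat_lit 2183711129) (nat_lit 17) (nat_lit 5) (nat_lit 19) (nat_lit 4) (nat_lit 17) (nat_lit 4) (nat_lit 507) (nat_lit 327) (nat_lit 306)))) (XT.nd (nat_lit 57486) (nat_lit 0) (nat_lit 3268) (XT.lf (nat_lit 0) (nat_lit 6260495051) (nat_lit 152) (nat_lit 8937389124) (nat_lit 152) (nat_lit 1145196885) (nat_lit 15) (nat_lit 4) (nat_lit 17) (nat_lit 5) (nat_lit 17) (nat_lit 4) (nat_lit 508) (nat_lit 327) (nat_lit 305)) (XT.nd (nat_lit 78) (nat_lit 0) (nat_lit 0) (XT.lf (nat_lit 0) (nat_lit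 212070886) (nat_lit 228) (nat_lit 5742670774) (nat_lit 0) (nat_lit 212070886) (nat_lit 58) (nat_lit 5) (nat_lit 61) (nat_lit 4) (nat_lit 58) (nat_lit 4) (nat_lit 484) (nat_lit 328) (nat_lit 328)) (XT.lf (nat_lit 0) (nat_lit 5584399408) (nat_lit 228) (nat_lit 1814367349) (nat_lit 0) (nat_lit 5067366323) (nat_lit 58) (nat_lit 5) (nat_lit 61) (nat_lit 4) (nat_lit 58) (nat_lit 4) (nat_lit 485) (nat_lit 328) (nat_lit 327)))))) (XT.nd (nat_lit 390) (nat_lit 988) (nat_lit 0) (XT.nd (nat_lit 156) (nat_lit 456) (nat_lit 0) (XT.nd (nat_lit 78) (nat_lit 228) (nat_lit 0) (XT.lf (nat_lit 0) (nat_lit 8026297731) (nat_lit 228) (nat_lit 2799683480) (nat_lit 228) (nat_lit 1775755214) (nat_lit 55) (nat_lit 4) (nat_lit 58) (nat_lit 5) (nat_lit 58) (nat_lit 4) (nat_lit 486) (nat_lit 328) (nat_lit 326)) (XT.lf (nat_lit 0) (nat_lit 3372283197) (nat_lit 228) (nat_lit 7486410967) (nat_lit 0) (nat_lit 1881220131) (nat_lit 52) (nat_lit 5) (nat_lit 55)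 (nat_lit 4) (nat_lit 52) (nat_lit 4) (nat_lit 487) (nat_lit 328) (nat_lit 325))) (XT.nd (nat_lit 78) (nat_lit 228) (nat_lit 0) (XT.lf (nat_lit 0) (nat_lit 2331476778) (nat_lit 228) (nat_lit 6259026540) (nat_lit 228) (nat_lit 4290304823) (nat_lit 49) (nat_lit 4) (nat_lit 52) (nat_lit 5) (nat_lit 52) (nat_lit 4) (nat_lit 488) (nat_lit 328) (nat_lit 324)) (XT.nd (nat_lit 78) (nat_lit 152) (nat_lit 0) (XT.lf (nat_lit 0) (nat_lit 853993740) (nat_lit 304) (nat_lit 711947155) (nat_lit 76) (nat_lit 11458928858) (nat_lit 48) (nat_lit 5) (nat_lit 52) (nat_lit 5) (nat_lit 49) (nat_lit 4) (nat_lit 489) (nat_lit 328) (nat_lit 323)) (XT.lf (nat_lit 0) (nat_lit 6053186321) (nat_lit 228) (nat_lit 3904028728) (nat_lit 0) (nat_lit 3213847994) (nat_lit 46) (nat_lit 5) (nat_lit 49) (nat_lit 4) (nat_lit 46) (nat_lit 4) (nat_lit 490) (nat_lit 328) (nat_lit 322))))) (XT.nd (nat_lit 234) (nat_lit 532) (nat_lit 0) (XT.nd (nat_lit 78) (nat_lit 228) (nat_lit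 0) (XT.lf (nat_lit 0) (nat_lit 6077225240) (nat_lit 228) (nat_lit 5261963065) (nat_lit 228) (nat_lit 1981341978) (nat_lit 43) (nat_lit 4) (nat_lit 46) (nat_lit 5) (nat_lit 46) (nat_lit 4) (nat_lit 491) (nat_lit 328) (nat_lit 321)) (XT.nd (nat_lit 78) (nat_lit 0) (nat_lit 0) (XT.lf (nat_lit 0) (nat_lit 2725622361) (nat_lit 152) (nat_lit 461938829) (nat_lit 228) (nat_lit 10285561647) (nat_lit 40) (nat_lit 5) (nat_lit 42) (nat_lit 5) (nat_lit 43) (nat_lit 4) (nat_lit 492) (nat_lit 328) (nat_lit 320)) (XT.lf (nat_lit 0) (nat_lit 8439576951) (nat_lit 228) (nat_lit 805505323) (nat_lit 0) (nat_lit 4383303955) (nat_lit 40) (nat_lit 5) (nat_lit 43) (nat_lit 4) (nat_lit 40) (nat_lit 4) (nat_lit 493) (nat_lit 328) (nat_lit 319)))) (XT.nd (nat_lit 78) (nat_lit 304) (nat_lit 0) (XT.lf (nat_lit 0) (nat_lit 3256761) (nat_lit 228) (nat_lit 4457371397) (nat_lit 76) (nat_lit 9326261261) (nat_lit 37) (nat_lit 5) (nat_lit 40) (nat_lit 5) (nat_lit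 38) (nat_lit 4) (nat_lit 494) (nat_lit 328) (nat_lit 318)) (XT.nd (nat_lit 78) (nat_lit 152) (nat_lit 0) (XT.lf (nat_lit 0) (nat_lit 5204734093) (nat_lit 228) (nat_lit 8307181504) (nat_lit 0) (nat_lit 436466008) (nat_lit 35) (nat_lit 5) (nat_lit 38) (nat_lit 4) (nat_lit 35) (nat_lit 4) (nat_lit 495) (nat_lit 328) (nat_lit 317)) (XT.lf (nat_lit 0) (nat_lit 1757554995) (nat_lit 152) (nat_lit 8753979894) (nat_lit 152) (nat_lit 3601548611) (nat_lit 33) (nat_lit 4) (nat_lit 35) (nat_lit 5) (nat_lit 35) (nat_lit 4) (nat_lit 496) (nat_lit 328) (nat_lit 316))))))) (XT.nd (nat_lit 858) (nat_lit 152) (nat_lit 0) (XT.nd (nat_lit 390) (nat_lit 608) (nat_lit 0) (XT.nd (nat_lit 156) (nat_lit 380) (nat_lit 0) (XT.nd (nat_lit 78) (nat_lit 152) (nat_lit 0) (XT.lf (nat_lit 0) (nat_lit 1608281517) (nat_lit 228) (nat_lit 2280333203) (nat_lit 76) (nat_lit 10392527979) (nat_lit 32) (nat_lit 5) (nat_lit 35) (nat_lit 5) (nat_lit 33) (nat_lit 4) (nat_lit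 497) (nat_lit 328) (nat_lit 315)) (XT.lf (nat_lit 0) (nat_lit 6864581698) (nat_lit 228) (nat_lit 6505773461) (nat_lit 0) (nat_lit 1081927245) (nat_lit 30) (nat_lit 5) (nat_lit 33) (nat_lit 4) (nat_lit 30) (nat_lit 4) (nat_lit 498) (nat_lit 328) (nat_lit 314))) (XT.nd (nat_lit 78) (nat_lit 228) (nat_lit 0) (XT.lf (nat_lit 0) (nat_lit 3681430790) (nat_lit 152) (nat_lit 8541521202) (nat_lit 152) (nat_lit 2403959336) (nat_lit 28) (nat_lit 4) (nat_lit 30) (nat_lit 5) (nat_lit 30) (nat_lit 4) (nat_lit 499) (nat_lit 328) (nat_lit 313)) (XT.nd (nat_lit 78) (nat_lit 152) (nat_lit 0) (XT.lf (nat_lit 0) (nat_lit 2821559845) (nat_lit 228) (nat_lit 785959422) (nat_lit 76) (nat_lit 11197625833) (nat_lit 27) (nat_lit 5) (nat_lit 30) (nat_lit 5) (nat_lit 28) (nat_lit 4) (nat_lit 500) (nat_lit 328) (nat_lit 312)) (XT.lf (nat_lit 0) (nat_lit 8124260287) (nat_lit 228) (nat_lit 5430793598) (nat_lit 0) (nat_lit 1431479662) (nat_lit 25) (nat_lit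 5) (nat_lit 28) (nat_lit 4) (nat_lit 25) (nat_lit 4) (nat_lit 501) (nat_lit 328) (nat_lit 311))))) (XT.nd (nat_lit 234) (nat_lit 304) (nat_lit 0) (XT.nd (nat_lit 78) (nat_lit 152) (nat_lit 0) (XT.lf (nat_lit 0) (nat_lit 4862206586) (nat_lit 152) (nat_lit 8665061611) (nat_lit 152) (nat_lit 1644401396) (nat_lit 23) (nat_lit 4) (nat_lit 25) (nat_lit 5) (nat_lit 25) (nat_lit 4) (nat_lit 502) (nat_lit 328) (nat_lit 310)) (XT.nd (nat_lit 78) (nat_lit 76) (nat_lit 0) (XT.lf (nat_lit 0) (nat_lit 3599843396) (nat_lit 228) (nat_lit 70427133) (nat_lit 76) (nat_lit 11690359949) (nat_lit 22) (nat_lit 5) (nat_lit 25) (nat_lit 5) (nat_lit 23) (nat_lit 4) (nat_lit 503) (nat_lit 328) (nat_lit 309)) (XT.lf (nat_lit 0) (nat_lit 8938654349) (nat_lit 152) (nat_lit 5182731211) (nat_lit 0) (nat_lit 1431538251) (nat_lit 21) (nat_lit 5) (nat_lit 23) (nat_lit 4) (nat_lit 21) (nat_lit 4) (nat_lit 504) (nat_lit 328) (nat_lit 308)))) (XT.nd (nat_lit 78)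 (nat_lit 152) (nat_lit 0) (XT.lf (nat_lit 0) (nat_lit 5196365970) (nat_lit 152) (nat_lit 9181428336) (nat_lit 152) (nat_lit 1371402178) (nat_lit 19) (nat_lit 4) (nat_lit 21) (nat_lit 5) (nat_lit 21) (nat_lit 4) (nat_lit 505) (nat_lit 328) (nat_lit 307)) (XT.nd (nat_lit 78) (nat_lit 76) (nat_lit 0) (XT.lf (nat_lit 0) (nat_lit 3894288859) (nat_lit 228) (nat_lit 240533308) (nat_lit 76) (nat_lit 11814658123) (nat_lit 18) (nat_lit 5) (nat_lit 21) (nat_lit 5) (nat_lit 19) (nat_lit 4) (nat_lit 506) (nat_lit 328) (nat_lit 306)) (XT.lf (nat_lit 0) (nat_lit 9256851003) (nat_lit 152) (nat_lit 5873167327) (nat_lit 0) (nat_lit 1023376004) (nat_lit 17) (nat_lit 5) (nat_lit 19) (nat_lit 4) (nat_lit 17) (nat_lit 4) (nat_lit 507) (nat_lit 328) (nat_lit 305)))))) (XT.nd (nat_lit 57720) (nat_lit 0) (nat_lit 1900) (XT.nd (nat_lit 57486) (nat_lit 0) (nat_lit 3040) (XT.nd (nat_lit 57330) (nat_lit 0) (nat_lit 3496) (XT.lf (nat_lit 0) (nat_lit 4568931561)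 (nat_lit 152) (nat_lit 10152936143) (nat_lit 152) (nat_lit 1639619071) (nat_lit 15) (nat_lit 4) (nat_lit 17) (nat_lit 5) (nat_lit 17) (nat_lit 4) (nat_lit 508) (nat_lit 328) (nat_lit 304)) (XT.nd (nat_lit 78) (nat_lit 228) (nat_lit 0) (XT.lf (nat_lit 0) (nat_lit 1462847972) (nat_lit 304) (nat_lit 3111508727) (nat_lit 0) (nat_lit 1462847972) (nat_lit 64) (nat_lit 5) (nat_lit 68) (nat_lit 4) (nat_lit 64) (nat_lit 4) (nat_lit 482) (nat_lit 329) (nat_lit 329)) (XT.lf (nat_lit 0) (nat_lit 3370895076) (nat_lit 228) (nat_lit 4684956110) (nat_lit 228) (nat_lit 4147034888) (nat_lit 61) (nat_lit 4) (nat_lit 64) (nat_lit 5) (nat_lit 64) (nat_lit 4) (nat_lit 483) (nat_lit 329) (nat_lit 328)))) (XT.nd (nat_lit 78) (nat_lit 228) (nat_lit 0) (XT.lf (nat_lit 0) (nat_lit 783024493) (nat_lit 152) (nat_lit 131985140) (nat_lit 228) (nat_lit 11419349402) (nat_lit 58) (nat_lit 5) (nat_lit 60) (nat_lit 5) (nat_lit 61) (nat_lit 4) (nat_lit 484) (nat_lit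 329) (nat_lit 327)) (XT.nd (nat_lit 78) (nat_lit 228) (nat_lit 0) (XT.lf (nat_lit 0) (nat_lit 6037780121) (nat_lit 228) (nat_lit 1943362290) (nat_lit 0) (nat_lit 4486478108) (nat_lit 58) (nat_lit 5) (nat_lit 61) (nat_lit 4) (nat_lit 58) (nat_lit 4) (nat_lit 485) (nat_lit 329) (nat_lit 326)) (XT.lf (nat_lit 0) (nat_lit 7832149757) (nat_lit 228) (nat_lit 3410039653) (nat_lit 228) (nat_lit 1361781580) (nat_lit 55) (nat_lit 4) (nat_lit 58) (nat_lit 5) (nat_lit 58) (nat_lit 4) (nat_lit 486) (nat_lit 329) (nat_lit 325))))) (XT.nd (nat_lit 234) (nat_lit 608) (nat_lit 0) (XT.nd (nat_lit 78) (nat_lit 304) (nat_lit 0) (XT.lf (nat_lit 0) (nat_lit 3739123859) (nat_lit 228) (nat_lit 7750439794) (nat_lit 0) (nat_lit 1253369058) (nat_lit 52) (nat_lit 5) (nat_lit 55) (nat_lit 4) (nat_lit 52) (nat_lit 4) (nat_lit 487) (nat_lit 329) (nat_lit 324)) (XT.nd (nat_lit 78) (nat_lit 76) (nat_lit 0) (XT.lf (nat_lit 0) (nat_lit 2000300927) (nat_lit 228)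 (nat_lit 6919167106) (nat_lit 228) (nat_lit 3965119510) (nat_lit 49) (nat_lit 4) (nat_lit 52) (nat_lit 5) (nat_lit 52) (nat_lit 4) (nat_lit 488) (nat_lit 329) (nat_lit 323)) (XT.lf (nat_lit 0) (nat_lit 1139245889) (nat_lit 304) (nat_lit 1111881481) (nat_lit 76) (nat_lit 10778196254) (nat_lit 48) (nat_lit 5) (nat_lit 52) (nat_lit 5) (nat_lit 49) (nat_lit 4) (nat_lit 489) (nat_lit 329) (nat_lit 322)))) (XT.nd (nat_lit 78) (nat_lit 456) (nat_lit 0) (XT.lf (nat_lit 0) (nat_lit 6295790979) (nat_lit 228) (nat_lit 4372307440) (nat_lit 0) (nat_lit 2508274710) (nat_lit 46) (nat_lit 5) (nat_lit 49) (nat_lit 4) (nat_lit 46) (nat_lit 4) (nat_lit 490) (nat_lit 329) (nat_lit 321)) (XT.nd (nat_lit 78) (nat_lit 228) (nat_lit 0) (XT.lf (nat_lit 0) (nat_lit 5540148666) (nat_lit 228) (nat_lit 6003304068) (nat_lit 228) (nat_lit 1783157642) (nat_lit 43) (nat_lit 4) (nat_lit 46) (nat_lit 5) (nat_lit 46) (nat_lit 4) (nat_lit 491) (nat_lit 329) (nat_lit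 320)) (XT.lf (nat_lit 0) (nat_lit 2111308837) (nat_lit 152) (nat_lit 1233048823) (nat_lit 228) (nat_lit 10135598385) (nat_lit 40) (nat_lit 5) (nat_lit 42) (nat_lit 5) (nat_lit 43) (nat_lit 4) (nat_lit 492) (nat_lit 329) (nat_lit 319))))))))
noncomputable def xc4 : XT := (XT.nd (nat_lit 58812) (nat_lit 0) (nat_lit 0) (XT.nd (nat_lit 858) (nat_lit 532) (nat_lit 0) (XT.nd (nat_lit 390) (nat_lit 760) (nat_lit 0) (XT.nd (nat_lit 156) (nat_lit 380) (nat_lit 0) (XT.nd (nat_lit 78) (nat_lit 228) (nat_lit 0) (XT.lf (nat_lit 0) (nat_lit 8556675826) (nat_lit 228) (nat_lit 1483570869) (nat_lit 0) (nat_lit 3595769711) (nat_lit 40) (nat_lit 5) (nat_lit 43) (nat_lit 4) (nat_lit 40) (nat_lit 4) (nat_lit 493) (nat_lit 329) (nat_lit 318)) (XT.lf (nat_lit 0) (nat_lit 72158219) (nat_lit 228) (nat_lit 5214829902) (nat_lit 76) (nat_lit 8508302789) (nat_lit 37) (nat_lit 5) (nat_lit 40) (nat_lit 5) (nat_lit 38) (nat_lit 4) (nat_lit 494) (nat_lit 329)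 (nat_lit 317))) (XT.nd (nat_lit 78) (nat_lit 228) (nat_lit 0) (XT.lf (nat_lit 0) (nat_lit 4815030831) (nat_lit 152) (nat_lit 416388376) (nat_lit 228) (nat_lit 8726211060) (nat_lit 35) (nat_lit 5) (nat_lit 37) (nat_lit 5) (nat_lit 38) (nat_lit 4) (nat_lit 495) (nat_lit 329) (nat_lit 316)) (XT.nd (nat_lit 78) (nat_lit 76) (nat_lit 0) (XT.lf (nat_lit 0) (nat_lit 852095807) (nat_lit 152) (nat_lit 9643680850) (nat_lit 152) (nat_lit 3627407158) (nat_lit 33) (nat_lit 4) (nat_lit 35) (nat_lit 5) (nat_lit 35) (nat_lit 4) (nat_lit 496) (nat_lit 329) (nat_lit 315)) (XT.lf (nat_lit 0) (nat_lit 1548947268) (nat_lit 228) (nat_lit 3256645883) (nat_lit 76) (nat_lit 9486332196) (nat_lit 32) (nat_lit 5) (nat_lit 35) (nat_lit 5) (nat_lit 33) (nat_lit 4) (nat_lit 497) (nat_lit 329) (nat_lit 314))))) (XT.nd (nat_lit 234) (nat_lit 380) (nat_lit 0) (XT.nd (nat_lit 78) (nat_lit 228) (nat_lit 0) (XT.lf (nat_lit 0) (nat_lit 6759108283) (nat_lit 228)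 (nat_lit 7560994415) (nat_lit 0) (nat_lit 143887766) (nat_lit 30) (nat_lit 5) (nat_lit 33) (nat_lit 4) (nat_lit 30) (nat_lit 4) (nat_lit 498) (nat_lit 329) (nat_lit 313)) (XT.nd (nat_lit 78) (nat_lit 76) (nat_lit 0) (XT.lf (nat_lit 0) (nat_lit 2551569294) (nat_lit 152) (nat_lit 9525514759) (nat_lit 152) (nat_lit 2562345798) (nat_lit 28) (nat_lit 4) (nat_lit 30) (nat_lit 5) (nat_lit 30) (nat_lit 4) (nat_lit 499) (nat_lit 329) (nat_lit 312)) (XT.lf (nat_lit 0) (nat_lit 2632234612) (nat_lit 228) (nat_lit 1987180970) (nat_lit 76) (nat_lit 10198931404) (nat_lit 27) (nat_lit 5) (nat_lit 30) (nat_lit 5) (nat_lit 28) (nat_lit 4) (nat_lit 500) (nat_lit 329) (nat_lit 311)))) (XT.nd (nat_lit 78) (nat_lit 228) (nat_lit 0) (XT.lf (nat_lit 0) (nat_lit 7887481727) (nat_lit 228) (nat_lit 6714676481) (nat_lit 0) (nat_lit 398528718) (nat_lit 25) (nat_lit 5) (nat_lit 28) (nat_lit 4) (nat_lit 25) (nat_lit 4) (nat_lit 501) (nat_lit 329) (nat_lit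 310)) (XT.nd (nat_lit 78) (nat_lit 76) (nat_lit 0) (XT.lf (nat_lit 0) (nat_lit 3501696020) (nat_lit 152) (nat_lit 9747677620) (nat_lit 152) (nat_lit 1937274031) (nat_lit 23) (nat_lit 4) (nat_lit 25) (nat_lit 5) (nat_lit 25) (nat_lit 4) (nat_lit 502) (nat_lit 329) (nat_lit 309)) (XT.lf (nat_lit 0) (nat_lit 3278568602) (nat_lit 228) (nat_lit 1502842638) (nat_lit 76) (nat_lit 10594882496) (nat_lit 22) (nat_lit 5) (nat_lit 25) (nat_lit 5) (nat_lit 23) (nat_lit 4) (nat_lit 503) (nat_lit 329) (nat_lit 308)))))) (XT.nd (nat_lit 57486) (nat_lit 0) (nat_lit 3268) (XT.nd (nat_lit 156) (nat_lit 304) (nat_lit 0) (XT.nd (nat_lit 78) (nat_lit 152) (nat_lit 0) (XT.lf (nat_lit 0) (nat_lit 8568516904) (nat_lit 152) (nat_lit 6701669498) (nat_lit 0) (nat_lit 299380162) (nat_lit 21) (nat_lit 5) (nat_lit 23) (nat_lit 4) (nat_lit 21) (nat_lit 4) (nat_lit 504) (nat_lit 329) (nat_lit 307)) (XT.lf (nat_lit 0) (nat_lit 3598717699) (nat_lit 152) (nat_lit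 10367034607) (nat_lit 152) (nat_lit 1800927219) (nat_lit 19) (nat_lit 4) (nat_lit 21) (nat_lit 5) (nat_lit 21) (nat_lit 4) (nat_lit 505) (nat_lit 329) (nat_lit 306))) (XT.nd (nat_lit 78) (nat_lit 228) (nat_lit 0) (XT.lf (nat_lit 0) (nat_lit 3438901976) (nat_lit 228) (nat_lit 1910673088) (nat_lit 76) (nat_lit 10618076058) (nat_lit 18) (nat_lit 5) (nat_lit 21) (nat_lit 5) (nat_lit 19) (nat_lit 4) (nat_lit 506) (nat_lit 329) (nat_lit 305)) (XT.nd (nat_lit 78) (nat_lit 152) (nat_lit 0) (XT.lf (nat_lit 0) (nat_lit 8537342357) (nat_lit 76) (nat_lit 215150887) (nat_lit 152) (nat_lit 7420053411) (nat_lit 17) (nat_lit 5) (nat_lit 18) (nat_lit 5) (nat_lit 19) (nat_lit 4) (nat_lit 507) (nat_lit 329) (nat_lit 304)) (XT.lf (nat_lit 0) (nat_lit 2727400093) (nat_lit 152) (nat_lit 11445952322) (nat_lit 152) (nat_lit 2208171861) (nat_lit 15) (nat_lit 4) (nat_lit 17) (nat_lit 5) (nat_lit 17) (nat_lit 4) (nat_lit 508) (nat_lit 329) (nat_lit 303)))))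 (XT.nd (nat_lit 234) (nat_lit 456) (nat_lit 0) (XT.nd (nat_lit 78) (nat_lit 532) (nat_lit 0) (XT.lf (nat_lit 0) (nat_lit 2625828340) (nat_lit 304) (nat_lit 660409794) (nat_lit 0) (nat_lit 2625828340) (nat_lit 71) (nat_lit 5) (nat_lit 75) (nat_lit 4) (nat_lit 71) (nat_lit 4) (nat_lit 480) (nat_lit 330) (nat_lit 330)) (XT.nd (nat_lit 78) (nat_lit 304) (nat_lit 0) (XT.lf (nat_lit 0) (nat_lit 8211233862) (nat_lit 228) (nat_lit 2148464207) (nat_lit 228) (nat_lit 1588810968) (nat_lit 68) (nat_lit 4) (nat_lit 71) (nat_lit 5) (nat_lit 71) (nat_lit 4) (nat_lit 481) (nat_lit 330) (nat_lit 329)) (XT.lf (nat_lit 0) (nat_lit 3437543782) (nat_lit 304) (nat_lit 6286663264) (nat_lit 0) (nat_lit 2350942915) (nat_lit 64) (nat_lit 5) (nat_lit 68) (nat_lit 4) (nat_lit 64) (nat_lit 4) (nat_lit 482) (nat_lit 330) (nat_lit 328)))) (XT.nd (nat_lit 78) (nat_lit 228) (nat_lit 0) (XT.lf (nat_lit 0) (nat_lit 3243176361) (nat_lit 228) (nat_lit 5287583812)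 (nat_lit 228) (nat_lit 3673609198) (nat_lit 61) (nat_lit 4) (nat_lit 64) (nat_lit 5) (nat_lit 64) (nat_lit 4) (nat_lit 483) (nat_lit 330) (nat_lit 327)) (XT.nd (nat_lit 78) (nat_lit 0) (nat_lit 0) (XT.lf (nat_lit 0) (nat_lit 585690509) (nat_lit 152) (nat_lit 759209594) (nat_lit 228) (nat_lit 10991631028) (nat_lit 58) (nat_lit 5) (nat_lit 60) (nat_lit 5) (nat_lit 61) (nat_lit 4) (nat_lit 484) (nat_lit 330) (nat_lit 326)) (XT.lf (nat_lit 0) (nat_lit 6427686257) (nat_lit 228) (nat_lit 2201402759) (nat_lit 0) (nat_lit 3841506961) (nat_lit 58) (nat_lit 5) (nat_lit 61) (nat_lit 4) (nat_lit 58) (nat_lit 4) (nat_lit 485) (nat_lit 330) (nat_lit 325))))))) (XT.nd (nat_lit 858) (nat_lit 1520) (nat_lit 0) (XT.nd (nat_lit 390) (nat_lit 836) (nat_lit 0) (XT.nd (nat_lit 156) (nat_lit 456) (nat_lit 0) (XT.nd (nat_lit 78) (nat_lit 228) (nat_lit 0) (XT.lf (nat_lit 0) (nat_lit 7508485206) (nat_lit 228) (nat_lit 4086301076) (nat_lit 228) (nat_lit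 1012909957) (nat_lit 55) (nat_lit 4) (nat_lit 58) (nat_lit 5) (nat_lit 58) (nat_lit 4) (nat_lit 486) (nat_lit 330) (nat_lit 324)) (XT.lf (nat_lit 0) (nat_lit 4041135351) (nat_lit 228) (nat_lit 8146612456) (nat_lit 0) (nat_lit 559714009) (nat_lit 52) (nat_lit 5) (nat_lit 55) (nat_lit 4) (nat_lit 52) (nat_lit 4) (nat_lit 487) (nat_lit 330) (nat_lit 323))) (XT.nd (nat_lit 78) (nat_lit 228) (nat_lit 0) (XT.lf (nat_lit 0) (nat_lit 1536472927) (nat_lit 228) (nat_lit 7646969888) (nat_lit 228) (nat_lit 3706437962) (nat_lit 49) (nat_lit 4) (nat_lit 52) (nat_lit 5) (nat_lit 52) (nat_lit 4) (nat_lit 488) (nat_lit 330) (nat_lit 322)) (XT.nd (nat_lit 78) (nat_lit 152) (nat_lit 0) (XT.lf (nat_lit 0) (nat_lit 1359565859) (nat_lit 304) (nat_lit 1644317303) (nat_lit 76) (nat_lit 10031402751) (nat_lit 48) (nat_lit 5) (nat_lit 52) (nat_lit 5) (nat_lit 49) (nat_lit 4) (nat_lit 489) (nat_lit 330) (nat_lit 321)) (XT.lf (nat_lit 0) (nat_lit 6472844322)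 (nat_lit 228) (nat_lit 4974694818) (nat_lit 0) (nat_lit 1735664812) (nat_lit 46) (nat_lit 5) (nat_lit 49) (nat_lit 4) (nat_lit 46) (nat_lit 4) (nat_lit 490) (nat_lit 330) (nat_lit 320))))) (XT.nd (nat_lit 234) (nat_lit 380) (nat_lit 0) (XT.nd (nat_lit 78) (nat_lit 228) (nat_lit 0) (XT.lf (nat_lit 0) (nat_lit 4868408148) (nat_lit 228) (nat_lit 6813566768) (nat_lit 228) (nat_lit 1652240045) (nat_lit 43) (nat_lit 4) (nat_lit 46) (nat_lit 5) (nat_lit 46) (nat_lit 4) (nat_lit 491) (nat_lit 330) (nat_lit 319)) (XT.nd (nat_lit 78) (nat_lit 0) (nat_lit 0) (XT.lf (nat_lit 0) (nat_lit 1360667680) (nat_lit 152) (nat_lit 2073899152) (nat_lit 228) (nat_lit 10053759642) (nat_lit 40) (nat_lit 5) (nat_lit 42) (nat_lit 5) (nat_lit 43) (nat_lit 4) (nat_lit 492) (nat_lit 330) (nat_lit 318)) (XT.lf (nat_lit 0) (nat_lit 8607414819) (nat_lit 228) (nat_lit 2297834247) (nat_lit 0) (nat_lit 2739930131) (nat_lit 40) (nat_lit 5) (nat_lit 43) (nat_lit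 4) (nat_lit 40) (nat_lit 4) (nat_lit 493) (nat_lit 330) (nat_lit 317)))) (XT.nd (nat_lit 78) (nat_lit 152) (nat_lit 0) (XT.lf (nat_lit 0) (nat_lit 73834867) (nat_lit 228) (nat_lit 6110184717) (nat_lit 76) (nat_lit 7621218647) (nat_lit 37) (nat_lit 5) (nat_lit 40) (nat_lit 5) (nat_lit 38) (nat_lit 4) (nat_lit 494) (nat_lit 330) (nat_lit 316)) (XT.nd (nat_lit 78) (nat_lit 0) (nat_lit 0) (XT.lf (nat_lit 0) (nat_lit 3847411087) (nat_lit 152) (nat_lit 1346106454) (nat_lit 228) (nat_lit 8774854399) (nat_lit 35) (nat_lit 5) (nat_lit 37) (nat_lit 5) (nat_lit 38) (nat_lit 4) (nat_lit 495) (nat_lit 330) (nat_lit 315)) (XT.lf (nat_lit 0) (nat_lit 10413109182) (nat_lit 228) (nat_lit 191080599) (nat_lit 0) (nat_lit 3530633756) (nat_lit 35) (nat_lit 5) (nat_lit 38) (nat_lit 4) (nat_lit 35) (nat_lit 4) (nat_lit 496) (nat_lit 330) (nat_lit 314)))))) (XT.nd (nat_lit 468) (nat_lit 608) (nat_lit 0) (XT.nd (nat_lit 234) (nat_lit 380) (nat_lit 0)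 (XT.nd (nat_lit 78) (nat_lit 304) (nat_lit 0) (XT.lf (nat_lit 0) (nat_lit 1421459685) (nat_lit 228) (nat_lit 4373132423) (nat_lit 76) (nat_lit 8509676179) (nat_lit 32) (nat_lit 5) (nat_lit 35) (nat_lit 5) (nat_lit 33) (nat_lit 4) (nat_lit 497) (nat_lit 330) (nat_lit 313)) (XT.nd (nat_lit 78) (nat_lit 152) (nat_lit 0) (XT.lf (nat_lit 0) (nat_lit 5713303954) (nat_lit 152) (nat_lit 877137805) (nat_lit 228) (nat_lit 7886717797) (nat_lit 30) (nat_lit 5) (nat_lit 32) (nat_lit 5) (nat_lit 33) (nat_lit 4) (nat_lit 498) (nat_lit 330) (nat_lit 312)) (XT.lf (nat_lit 0) (nat_lit 1279064718) (nat_lit 152) (nat_lit 10582985405) (nat_lit 152) (nat_lit 2791478693) (nat_lit 28) (nat_lit 4) (nat_lit 30) (nat_lit 5) (nat_lit 30) (nat_lit 4) (nat_lit 499) (nat_lit 330) (nat_lit 311)))) (XT.nd (nat_lit 78) (nat_lit 304) (nat_lit 0) (XT.lf (nat_lit 0) (nat_lit 2373738170) (nat_lit 228) (nat_lit 3330992788) (nat_lit 76) (nat_lit 9128394546) (nat_lit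 27) (nat_lit 5) (nat_lit 30) (nat_lit 5) (nat_lit 28) (nat_lit 4) (nat_lit 500) (nat_lit 330) (nat_lit 310)) (XT.nd (nat_lit 78) (nat_lit 152) (nat_lit 0) (XT.lf (nat_lit 0) (nat_lit 6868704610) (nat_lit 152) (nat_lit 716705337) (nat_lit 228) (nat_lit 7430929382) (nat_lit 25) (nat_lit 5) (nat_lit 27) (nat_lit 5) (nat_lit 28) (nat_lit 4) (nat_lit 501) (nat_lit 330) (nat_lit 309)) (XT.lf (nat_lit 0) (nat_lit 1996012083) (nat_lit 152) (nat_lit 10905210884) (nat_lit 152) (nat_lit 2302001018) (nat_lit 23) (nat_lit 4) (nat_lit 25) (nat_lit 5) (nat_lit 25) (nat_lit 4) (nat_lit 502) (nat_lit 330) (nat_lit 308))))) (XT.nd (nat_lit 234) (nat_lit 304) (nat_lit 0) (XT.nd (nat_lit 78) (nat_lit 228) (nat_lit 0) (XT.lf (nat_lit 0) (nat_lit 2887014059) (nat_lit 228) (nat_lit 3080409727) (nat_lit 76) (nat_lit 9426128087) (nat_lit 22) (nat_lit 5) (nat_lit 25) (nat_lit 5) (nat_lit 23) (nat_lit 4) (nat_lit 503) (nat_lit 330) (nat_lit 307)) (XT.nd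 (nat_lit 78) (nat_lit 152) (nat_lit 0) (XT.lf (nat_lit 0) (nat_lit 7214078492) (nat_lit 76) (nat_lit 919172338) (nat_lit 152) (nat_lit 7454450298) (nat_lit 21) (nat_lit 5) (nat_lit 22) (nat_lit 5) (nat_lit 23) (nat_lit 4) (nat_lit 504) (nat_lit 330) (nat_lit 306)) (XT.lf (nat_lit 0) (nat_lit 1853215806) (nat_lit 152) (nat_lit 11629056299) (nat_lit 152) (nat_lit 2303508422) (nat_lit 19) (nat_lit 4) (nat_lit 21) (nat_lit 5) (nat_lit 21) (nat_lit 4) (nat_lit 505) (nat_lit 330) (nat_lit 305)))) (XT.nd (nat_lit 78) (nat_lit 228) (nat_lit 0) (XT.lf (nat_lit 0) (nat_lit 2912034628) (nat_lit 228) (nat_lit 3728676841) (nat_lit 76) (nat_lit 9346725540) (nat_lit 18) (nat_lit 5) (nat_lit 21) (nat_lit 5) (nat_lit 19) (nat_lit 4) (nat_lit 506) (nat_lit 330) (nat_lit 304)) (XT.nd (nat_lit 78) (nat_lit 152) (nat_lit 0) (XT.lf (nat_lit 0) (nat_lit 6638887131) (nat_lit 76) (nat_lit 1544140589) (nat_lit 152) (nat_lit 8010158815) (nat_lit 17) (nat_lit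 5) (nat_lit 18) (nat_lit 5) (nat_lit 19) (nat_lit 4) (nat_lit 507) (nat_lit 330) (nat_lit 303)) (XT.lf (nat_lit 0) (nat_lit 735178478) (nat_lit 152) (nat_lit 12816944726) (nat_lit 152) (nat_lit 2851078217) (nat_lit 15) (nat_lit 4) (nat_lit 17) (nat_lit 5) (nat_lit 17) (nat_lit 4) (nat_lit 508) (nat_lit 330) (nat_lit 302))))))))
noncomputable def xc5 : XT := (XT.nd (nat_lit 1716) (nat_lit 988) (nat_lit 0) (XT.nd (nat_lit 858) (nat_lit 1444) (nat_lit 0) (XT.nd (nat_lit 390) (nat_lit 1140) (nat_lit 0) (XT.nd (nat_lit 156) (nat_lit 532) (nat_lit 0) (XT.nd (nat_lit 78) (nat_lit 304) (nat_lit 0) (XT.lf (nat_lit 0) (nat_lit 1648114155) (nat_lit 228) (nat_lit 2071443231) (nat_lit 228) (nat_lit 2071443231) (nat_lit 75) (nat_lit 4) (nat_lit 78) (nat_lit 5) (nat_lit 78) (nat_lit 4) (nat_lit 478) (nat_lit 331) (nat_lit 331)) (XT.lf (nat_lit 0) (nat_lit 794960135) (nat_lit 304) (nat_lit 10683523028) (nat_lit 0) (nat_lit 224113831) (nat_lit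 71) (nat_lit 5) (nat_lit 75) (nat_lit 4) (nat_lit 71) (nat_lit 4) (nat_lit 479) (nat_lit 331) (nat_lit 330))) (XT.nd (nat_lit 78) (nat_lit 532) (nat_lit 0) (XT.lf (nat_lit 0) (nat_lit 5786183631) (nat_lit 304) (nat_lit 1382995759) (nat_lit 0) (nat_lit 4655684088) (nat_lit 71) (nat_lit 5) (nat_lit 75) (nat_lit 4) (nat_lit 71) (nat_lit 4) (nat_lit 480) (nat_lit 331) (nat_lit 329)) (XT.nd (nat_lit 78) (nat_lit 304) (nat_lit 0) (XT.lf (nat_lit 0) (nat_lit 8086464285) (nat_lit 228) (nat_lit 2771343438) (nat_lit 228) (nat_lit 1092164249) (nat_lit 68) (nat_lit 4) (nat_lit 71) (nat_lit 5) (nat_lit 71) (nat_lit 4) (nat_lit 481) (nat_lit 331) (nat_lit 328)) (XT.lf (nat_lit 0) (nat_lit 3886687152) (nat_lit 304) (nat_lit 6477625650) (nat_lit 0) (nat_lit 1713059299) (nat_lit 64) (nat_lit 5) (nat_lit 68) (nat_lit 4) (nat_lit 64) (nat_lit 4) (nat_lit 482) (nat_lit 331) (nat_lit 327))))) (XT.nd (nat_lit 234) (nat_lit 684) (nat_lit 0) (XT.nd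 (nat_lit 78) (nat_lit 228) (nat_lit 0) (XT.lf (nat_lit 0) (nat_lit 2987688845) (nat_lit 228) (nat_lit 5955154319) (nat_lit 228) (nat_lit 3264493380) (nat_lit 61) (nat_lit 4) (nat_lit 64) (nat_lit 5) (nat_lit 64) (nat_lit 4) (nat_lit 483) (nat_lit 331) (nat_lit 326)) (XT.nd (nat_lit 78) (nat_lit 0) (nat_lit 0) (XT.lf (nat_lit 0) (nat_lit 259050419) (nat_lit 152) (nat_lit 1452140936) (nat_lit 228) (nat_lit 10629006680) (nat_lit 58) (nat_lit 5) (nat_lit 60) (nat_lit 5) (nat_lit 61) (nat_lit 4) (nat_lit 484) (nat_lit 331) (nat_lit 325)) (XT.lf (nat_lit 0) (nat_lit 6754270720) (nat_lit 228) (nat_lit 2588589947) (nat_lit 0) (nat_lit 3132199955) (nat_lit 58) (nat_lit 5) (nat_lit 61) (nat_lit 4) (nat_lit 58) (nat_lit 4) (nat_lit 485) (nat_lit 331) (nat_lit 324)))) (XT.nd (nat_lit 78) (nat_lit 456) (nat_lit 0) (XT.lf (nat_lit 0) (nat_lit 7055177151) (nat_lit 228) (nat_lit 4828732949) (nat_lit 228) (nat_lit 729003533) (nat_lit 55) (nat_lit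 4) (nat_lit 58) (nat_lit 5) (nat_lit 58) (nat_lit 4) (nat_lit 486) (nat_lit 331) (nat_lit 323)) (XT.nd (nat_lit 78) (nat_lit 228) (nat_lit 0) (XT.lf (nat_lit 0) (nat_lit 4077076851) (nat_lit 152) (nat_lit 202675159) (nat_lit 228) (nat_lit 8473725057) (nat_lit 52) (nat_lit 5) (nat_lit 54) (nat_lit 5) (nat_lit 55) (nat_lit 4) (nat_lit 487) (nat_lit 331) (nat_lit 322)) (XT.lf (nat_lit 0) (nat_lit 939810886) (nat_lit 228) (nat_lit 8442720300) (nat_lit 228) (nat_lit 3514158738) (nat_lit 49) (nat_lit 4) (nat_lit 52) (nat_lit 5) (nat_lit 52) (nat_lit 4) (nat_lit 488) (nat_lit 331) (nat_lit 321)))))) (XT.nd (nat_lit 390) (nat_lit 760) (nat_lit 0) (XT.nd (nat_lit 156) (nat_lit 456) (nat_lit 0) (XT.nd (nat_lit 78) (nat_lit 152) (nat_lit 0) (XT.lf (nat_lit 0) (nat_lit 1515040050) (nat_lit 304) (nat_lit 2309463419) (nat_lit 76) (nat_lit 9218255490) (nat_lit 48) (nat_lit 5) (nat_lit 52) (nat_lit 5) (nat_lit 49) (nat_lit 4) (nat_lit 489)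 (nat_lit 331) (nat_lit 320)) (XT.lf (nat_lit 0) (nat_lit 6584415784) (nat_lit 228) (nat_lit 5711427092) (nat_lit 0) (nat_lit 895715315) (nat_lit 46) (nat_lit 5) (nat_lit 49) (nat_lit 4) (nat_lit 46) (nat_lit 4) (nat_lit 490) (nat_lit 331) (nat_lit 319))) (XT.nd (nat_lit 78) (nat_lit 228) (nat_lit 0) (XT.lf (nat_lit 0) (nat_lit 4061740257) (nat_lit 228) (nat_lit 7693068916) (nat_lit 228) (nat_lit 1588537847) (nat_lit 43) (nat_lit 4) (nat_lit 46) (nat_lit 5) (nat_lit 46) (nat_lit 4) (nat_lit 491) (nat_lit 331) (nat_lit 318)) (XT.nd (nat_lit 78) (nat_lit 0) (nat_lit 0) (XT.lf (nat_lit 0) (nat_lit 473404521) (nat_lit 152) (nat_lit 2984819562) (nat_lit 228) (nat_lit 10040013326) (nat_lit 40) (nat_lit 5) (nat_lit 42) (nat_lit 5) (nat_lit 43) (nat_lit 4) (nat_lit 492) (nat_lit 331) (nat_lit 317)) (XT.lf (nat_lit 0) (nat_lit 8591813828) (nat_lit 228) (nat_lit 3248614776) (nat_lit 0) (nat_lit 1815449593) (nat_lit 40) (nat_lit 5) (nat_lit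 43) (nat_lit 4) (nat_lit 40) (nat_lit 4) (nat_lit 493) (nat_lit 331) (nat_lit 316))))) (XT.nd (nat_lit 234) (nat_lit 380) (nat_lit 0) (XT.nd (nat_lit 78) (nat_lit 152) (nat_lit 0) (XT.lf (nat_lit 0) (nat_lit 8287362) (nat_lit 228) (nat_lit 7143786961) (nat_lit 76) (nat_lit 6664660958) (nat_lit 37) (nat_lit 5) (nat_lit 40) (nat_lit 5) (nat_lit 38) (nat_lit 4) (nat_lit 494) (nat_lit 331) (nat_lit 315)) (XT.nd (nat_lit 78) (nat_lit 0) (nat_lit 0) (XT.lf (nat_lit 0) (nat_lit 2740890328) (nat_lit 152) (nat_lit 2347252418) (nat_lit 228) (nat_lit 8892525523) (nat_lit 35) (nat_lit 5) (nat_lit 37) (nat_lit 5) (nat_lit 38) (nat_lit 4) (nat_lit 495) (nat_lit 331) (nat_lit 314)) (XT.lf (nat_lit 0) (nat_lit 10268688113) (nat_lit 228) (nat_lit 1361903413) (nat_lit 0) (nat_lit 2517311944) (nat_lit 35) (nat_lit 5) (nat_lit 38) (nat_lit 4) (nat_lit 35) (nat_lit 4) (nat_lit 496) (nat_lit 331) (nat_lit 313)))) (XT.nd (nat_lit 78) (nat_lit 152)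 (nat_lit 0) (XT.lf (nat_lit 0) (nat_lit 1225768773) (nat_lit 228) (nat_lit 5630230660) (nat_lit 76) (nat_lit 7462176925) (nat_lit 32) (nat_lit 5) (nat_lit 35) (nat_lit 5) (nat_lit 33) (nat_lit 4) (nat_lit 497) (nat_lit 331) (nat_lit 312)) (XT.nd (nat_lit 78) (nat_lit 0) (nat_lit 0) (XT.lf (nat_lit 0) (nat_lit 4381329347) (nat_lit 152) (nat_lit 1972908956) (nat_lit 228) (nat_lit 8137642099) (nat_lit 30) (nat_lit 5) (nat_lit 32) (nat_lit 5) (nat_lit 33) (nat_lit 4) (nat_lit 498) (nat_lit 331) (nat_lit 311)) (XT.lf (nat_lit 0) (nat_lit 11578652655) (nat_lit 228) (nat_lit 134790661) (nat_lit 0) (nat_lit 2955752701) (nat_lit 30) (nat_lit 5) (nat_lit 33) (nat_lit 4) (nat_lit 30) (nat_lit 4) (nat_lit 499) (nat_lit 331) (nat_lit 310))))))) (XT.nd (nat_lit 57642) (nat_lit 0) (nat_lit 2356) (XT.nd (nat_lit 390) (nat_lit 304) (nat_lit 0) (XT.nd (nat_lit 156) (nat_lit 304) (nat_lit 0) (XT.nd (nat_lit 78) (nat_lit 152) (nat_lit 0) (XT.lf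 (nat_lit 0) (nat_lit 2045969149) (nat_lit 228) (nat_lit 4817921862) (nat_lit 76) (nat_lit 7985595441) (nat_lit 27) (nat_lit 5) (nat_lit 30) (nat_lit 5) (nat_lit 28) (nat_lit 4) (nat_lit 500) (nat_lit 331) (nat_lit 309)) (XT.lf (nat_lit 0) (nat_lit 5304848559) (nat_lit 152) (nat_lit 1911527026) (nat_lit 228) (nat_lit 7817152331) (nat_lit 25) (nat_lit 5) (nat_lit 27) (nat_lit 5) (nat_lit 28) (nat_lit 4) (nat_lit 501) (nat_lit 331) (nat_lit 308))) (XT.nd (nat_lit 78) (nat_lit 152) (nat_lit 0) (XT.lf (nat_lit 0) (nat_lit 344564312) (nat_lit 152) (nat_lit 12138115338) (nat_lit 152) (nat_lit 2738725387) (nat_lit 23) (nat_lit 4) (nat_lit 25) (nat_lit 5) (nat_lit 25) (nat_lit 4) (nat_lit 502) (nat_lit 331) (nat_lit 307)) (XT.nd (nat_lit 78) (nat_lit 76) (nat_lit 0) (XT.lf (nat_lit 0) (nat_lit 2425026216) (nat_lit 228) (nat_lit 4803747053) (nat_lit 76) (nat_lit 8183638386) (nat_lit 22) (nat_lit 5) (nat_lit 25) (nat_lit 5) (nat_lit 23)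 (nat_lit 4) (nat_lit 503) (nat_lit 331) (nat_lit 306)) (XT.lf (nat_lit 0) (nat_lit 5411666913) (nat_lit 76) (nat_lit 2217510102) (nat_lit 152) (nat_lit 7978227771) (nat_lit 21) (nat_lit 5) (nat_lit 22) (nat_lit 5) (nat_lit 23) (nat_lit 4) (nat_lit 504) (nat_lit 331) (nat_lit 305))))) (XT.nd (nat_lit 234) (nat_lit 0) (nat_lit 0) (XT.nd (nat_lit 78) (nat_lit 304) (nat_lit 0) (XT.lf (nat_lit 0) (nat_lit 12927429160) (nat_lit 152) (nat_lit 40288801) (nat_lit 0) (nat_lit 2838783718) (nat_lit 21) (nat_lit 5) (nat_lit 23) (nat_lit 4) (nat_lit 21) (nat_lit 4) (nat_lit 505) (nat_lit 331) (nat_lit 304)) (XT.nd (nat_lit 78) (nat_lit 76) (nat_lit 0) (XT.lf (nat_lit 0) (nat_lit 2313480200) (nat_lit 228) (nat_lit 5695257511) (nat_lit 76) (nat_lit 8000107998) (nat_lit 18) (nat_lit 5) (nat_lit 21) (nat_lit 5) (nat_lit 19) (nat_lit 4) (nat_lit 506) (nat_lit 331) (nat_lit 303)) (XT.lf (nat_lit 0) (nat_lit 4590984227) (nat_lit 76) (nat_lit 2950514147)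 (nat_lit 152) (nat_lit 8673958349) (nat_lit 17) (nat_lit 5) (nat_lit 18) (nat_lit 5) (nat_lit 19) (nat_lit 4) (nat_lit 507) (nat_lit 331) (nat_lit 302)))) (XT.nd (nat_lit 56862) (nat_lit 0) (nat_lit 4636) (XT.lf (nat_lit 0) (nat_lit 12867081461) (nat_lit 152) (nat_lit 1390041625) (nat_lit 0) (nat_lit 2169220722) (nat_lit 17) (nat_lit 5) (nat_lit 19) (nat_lit 4) (nat_lit 17) (nat_lit 4) (nat_lit 508) (nat_lit 331) (nat_lit 301)) (XT.nd (nat_lit 78) (nat_lit 304) (nat_lit 0) (XT.lf (nat_lit 0) (nat_lit 3813963026) (nat_lit 304) (nat_lit 930010241) (nat_lit 304) (nat_lit 930010241) (nat_lit 82) (nat_lit 4) (nat_lit 86) (nat_lit 5) (nat_lit 86) (nat_lit 4) (nat_lit 476) (nat_lit 332) (nat_lit 332)) (XT.lf (nat_lit 0) (nat_lit 3038801300) (nat_lit 304) (nat_lit 5980472073) (nat_lit 0) (nat_lit 2444892806) (nat_lit 78) (nat_lit 5) (nat_lit 82) (nat_lit 4) (nat_lit 78) (nat_lit 4) (nat_lit 477) (nat_lit 332) (nat_lit 331)))))) (XT.nd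 (nat_lit 468) (nat_lit 988) (nat_lit 0) (XT.nd (nat_lit 234) (nat_lit 760) (nat_lit 0) (XT.nd (nat_lit 78) (nat_lit 304) (nat_lit 0) (XT.lf (nat_lit 0) (nat_lit 3234694894) (nat_lit 228) (nat_lit 4762103436) (nat_lit 228) (nat_lit 3585931712) (nat_lit 75) (nat_lit 4) (nat_lit 78) (nat_lit 5) (nat_lit 78) (nat_lit 4) (nat_lit 478) (nat_lit 332) (nat_lit 330)) (XT.nd (nat_lit 78) (nat_lit 0) (nat_lit 0) (XT.lf (nat_lit 0) (nat_lit 892209803) (nat_lit 228) (nat_lit 414338628) (nat_lit 304) (nat_lit 10397470427) (nat_lit 71) (nat_lit 5) (nat_lit 74) (nat_lit 5) (nat_lit 75) (nat_lit 4) (nat_lit 479) (nat_lit 332) (nat_lit 329)) (XT.lf (nat_lit 0) (nat_lit 6259474556) (nat_lit 304) (nat_lit 1569548656) (nat_lit 0) (nat_lit 3998032137) (nat_lit 71) (nat_lit 5) (nat_lit 75) (nat_lit 4) (nat_lit 71) (nat_lit 4) (nat_lit 480) (nat_lit 332) (nat_lit 328)))) (XT.nd (nat_lit 78) (nat_lit 532) (nat_lit 0) (XT.lf (nat_lit 0) (nat_lit 7836876201)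 (nat_lit 228) (nat_lit 3457692927) (nat_lit 228) (nat_lit 658329286) (nat_lit 68) (nat_lit 4) (nat_lit 71) (nat_lit 5) (nat_lit 71) (nat_lit 4) (nat_lit 481) (nat_lit 332) (nat_lit 327)) (XT.nd (nat_lit 78) (nat_lit 228) (nat_lit 0) (XT.lf (nat_lit 0) (nat_lit 4273302189) (nat_lit 304) (nat_lit 6795979501) (nat_lit 0) (nat_lit 1011794947) (nat_lit 64) (nat_lit 5) (nat_lit 68) (nat_lit 4) (nat_lit 64) (nat_lit 4) (nat_lit 482) (nat_lit 332) (nat_lit 326)) (XT.lf (nat_lit 0) (nat_lit 2604332337) (nat_lit 228) (nat_lit 6687929423) (nat_lit 228) (nat_lit 2919527000) (nat_lit 61) (nat_lit 4) (nat_lit 64) (nat_lit 5) (nat_lit 64) (nat_lit 4) (nat_lit 483) (nat_lit 332) (nat_lit 325))))) (XT.nd (nat_lit 234) (nat_lit 532) (nat_lit 0) (XT.nd (nat_lit 78) (nat_lit 380) (nat_lit 0) (XT.lf (nat_lit 0) (nat_lit 2015306246) (nat_lit 304) (nat_lit 194439865) (nat_lit 76) (nat_lit 10135589494) (nat_lit 60) (nat_lit 5) (nat_lit 64) (nat_lit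 5) (nat_lit 61) (nat_lit 4) (nat_lit 484) (nat_lit 332) (nat_lit 324)) (XT.nd (nat_lit 78) (nat_lit 228) (nat_lit 0) (XT.lf (nat_lit 0) (nat_lit 7017661584) (nat_lit 228) (nat_lit 3105075693) (nat_lit 0) (nat_lit 2358278930) (nat_lit 58) (nat_lit 5) (nat_lit 61) (nat_lit 4) (nat_lit 58) (nat_lit 4) (nat_lit 485) (nat_lit 332) (nat_lit 323)) (XT.lf (nat_lit 0) (nat_lit 6472047823) (nat_lit 228) (nat_lit 5637626422) (nat_lit 228) (nat_lit 509950973) (nat_lit 55) (nat_lit 4) (nat_lit 58) (nat_lit 5) (nat_lit 58) (nat_lit 4) (nat_lit 486) (nat_lit 332) (nat_lit 322)))) (XT.nd (nat_lit 78) (nat_lit 304) (nat_lit 0) (XT.lf (nat_lit 0) (nat_lit 3418111355) (nat_lit 152) (nat_lit 1039758638) (nat_lit 228) (nat_lit 8303054777) (nat_lit 52) (nat_lit 5) (nat_lit 54) (nat_lit 5) (nat_lit 55) (nat_lit 4) (nat_lit 487) (nat_lit 332) (nat_lit 321)) (XT.nd (nat_lit 78) (nat_lit 76) (nat_lit 0) (XT.lf (nat_lit 0) (nat_lit 210080818) (nat_lit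 228) (nat_lit 9306730401) (nat_lit 228) (nat_lit 3388206433) (nat_lit 49) (nat_lit 4) (nat_lit 52) (nat_lit 5) (nat_lit 52) (nat_lit 4) (nat_lit 488) (nat_lit 332) (nat_lit 320)) (XT.lf (nat_lit 0) (nat_lit 1605729432) (nat_lit 304) (nat_lit 3107580671) (nat_lit 76) (nat_lit 8338435588) (nat_lit 48) (nat_lit 5) (nat_lit 52) (nat_lit 5) (nat_lit 49) (nat_lit 4) (nat_lit 489) (nat_lit 332) (nat_lit 319))))))))
noncomputable def xc6 : XT := (XT.nd (nat_lit 58344) (nat_lit 0) (nat_lit 988) (XT.nd (nat_lit 858) (nat_lit 760) (nat_lit 0) (XT.nd (nat_lit 390) (nat_lit 836) (nat_lit 0) (XT.nd (nat_lit 156) (nat_lit 380) (nat_lit 0) (XT.nd (nat_lit 78) (nat_lit 228) (nat_lit 0) (XT.lf (nat_lit 0) (nat_lit 6618566069) (nat_lit 152) (nat_lit 12061359) (nat_lit 228) (nat_lit 6570810126) (nat_lit 46) (nat_lit 5) (nat_lit 48) (nat_lit 5) (nat_lit 49) (nat_lit 4) (nat_lit 490) (nat_lit 332) (nat_lit 318)) (XT.lf (nat_lit 0) (nat_lit 3119828655)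 (nat_lit 228) (nat_lit 8642155416) (nat_lit 228) (nat_lit 1592026065) (nat_lit 43) (nat_lit 4) (nat_lit 46) (nat_lit 5) (nat_lit 46) (nat_lit 4) (nat_lit 491) (nat_lit 332) (nat_lit 317))) (XT.nd (nat_lit 78) (nat_lit 304) (nat_lit 0) (XT.lf (nat_lit 0) (nat_lit 3418915035) (nat_lit 304) (nat_lit 543604370) (nat_lit 76) (nat_lit 9547101804) (nat_lit 42) (nat_lit 5) (nat_lit 46) (nat_lit 5) (nat_lit 43) (nat_lit 4) (nat_lit 492) (nat_lit 332) (nat_lit 316)) (XT.nd (nat_lit 78) (nat_lit 152) (nat_lit 0) (XT.lf (nat_lit 0) (nat_lit 8509866735) (nat_lit 228) (nat_lit 4336285310) (nat_lit 0) (nat_lit 821965555) (nat_lit 40) (nat_lit 5) (nat_lit 43) (nat_lit 4) (nat_lit 40) (nat_lit 4) (nat_lit 493) (nat_lit 332) (nat_lit 315)) (XT.lf (nat_lit 0) (nat_lit 5512909074) (nat_lit 152) (nat_lit 8190696440) (nat_lit 152) (nat_lit 126164673) (nat_lit 38) (nat_lit 4) (nat_lit 40) (nat_lit 5) (nat_lit 40) (nat_lit 4) (nat_lit 494) (nat_lit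 332) (nat_lit 314))))) (XT.nd (nat_lit 234) (nat_lit 380) (nat_lit 0) (XT.nd (nat_lit 78) (nat_lit 228) (nat_lit 0) (XT.lf (nat_lit 0) (nat_lit 1495034624) (nat_lit 152) (nat_lit 3420218872) (nat_lit 228) (nat_lit 9079270578) (nat_lit 35) (nat_lit 5) (nat_lit 37) (nat_lit 5) (nat_lit 38) (nat_lit 4) (nat_lit 495) (nat_lit 332) (nat_lit 313)) (XT.nd (nat_lit 78) (nat_lit 228) (nat_lit 0) (XT.lf (nat_lit 0) (nat_lit 10056924444) (nat_lit 228) (nat_lit 2672007169) (nat_lit 0) (nat_lit 1433607777) (nat_lit 35) (nat_lit 5) (nat_lit 38) (nat_lit 4) (nat_lit 35) (nat_lit 4) (nat_lit 496) (nat_lit 332) (nat_lit 312)) (XT.lf (nat_lit 0) (nat_lit 961797790) (nat_lit 228) (nat_lit 7028433574) (nat_lit 76) (nat_lit 6343423649) (nat_lit 32) (nat_lit 5) (nat_lit 35) (nat_lit 5) (nat_lit 33) (nat_lit 4) (nat_lit 497) (nat_lit 332) (nat_lit 311)))) (XT.nd (nat_lit 78) (nat_lit 228) (nat_lit 0) (XT.lf (nat_lit 0) (nat_lit 2907515448) (nat_lit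 152) (nat_lit 3141943208) (nat_lit 228) (nat_lit 8458719051) (nat_lit 30) (nat_lit 5) (nat_lit 32) (nat_lit 5) (nat_lit 33) (nat_lit 4) (nat_lit 498) (nat_lit 332) (nat_lit 310)) (XT.nd (nat_lit 78) (nat_lit 228) (nat_lit 0) (XT.lf (nat_lit 0) (nat_lit 11235130898) (nat_lit 228) (nat_lit 1673683519) (nat_lit 0) (nat_lit 1777456172) (nat_lit 30) (nat_lit 5) (nat_lit 33) (nat_lit 4) (nat_lit 30) (nat_lit 4) (nat_lit 499) (nat_lit 332) (nat_lit 309)) (XT.lf (nat_lit 0) (nat_lit 1648799011) (nat_lit 228) (nat_lit 6448551300) (nat_lit 76) (nat_lit 6770085931) (nat_lit 27) (nat_lit 5) (nat_lit 30) (nat_lit 5) (nat_lit 28) (nat_lit 4) (nat_lit 500) (nat_lit 332) (nat_lit 308)))))) (XT.nd (nat_lit 390) (nat_lit 304) (nat_lit 0) (XT.nd (nat_lit 156) (nat_lit 304) (nat_lit 0) (XT.nd (nat_lit 78) (nat_lit 0) (nat_lit 0) (XT.lf (nat_lit 0) (nat_lit 3596503352) (nat_lit 152) (nat_lit 3181108669) (nat_lit 228) (nat_lit 8274699841) (nat_lit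 25) (nat_lit 5) (nat_lit 27) (nat_lit 5) (nat_lit 28) (nat_lit 4) (nat_lit 501) (nat_lit 332) (nat_lit 307)) (XT.lf (nat_lit 0) (nat_lit 12003015307) (nat_lit 228) (nat_lit 1434234696) (nat_lit 0) (nat_lit 1803759236) (nat_lit 25) (nat_lit 5) (nat_lit 28) (nat_lit 4) (nat_lit 25) (nat_lit 4) (nat_lit 502) (nat_lit 332) (nat_lit 306))) (XT.nd (nat_lit 78) (nat_lit 76) (nat_lit 0) (XT.lf (nat_lit 0) (nat_lit 1892423902) (nat_lit 228) (nat_lit 6673530435) (nat_lit 76) (nat_lit 6866926143) (nat_lit 22) (nat_lit 5) (nat_lit 25) (nat_lit 5) (nat_lit 23) (nat_lit 4) (nat_lit 503) (nat_lit 332) (nat_lit 305)) (XT.nd (nat_lit 78) (nat_lit 0) (nat_lit 0) (XT.lf (nat_lit 0) (nat_lit 3461964498) (nat_lit 76) (nat_lit 3592163674) (nat_lit 152) (nat_lit 8574596481) (nat_lit 21) (nat_lit 5) (nat_lit 22) (nat_lit 5) (nat_lit 23) (nat_lit 4) (nat_lit 504) (nat_lit 332) (nat_lit 304)) (XT.lf (nat_lit 0) (nat_lit 12313742260) (nat_lit 152) (nat_lit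 2056811197) (nat_lit 0) (nat_lit 1458042920) (nat_lit 21) (nat_lit 5) (nat_lit 23) (nat_lit 4) (nat_lit 21) (nat_lit 4) (nat_lit 505) (nat_lit 332) (nat_lit 303))))) (XT.nd (nat_lit 56862) (nat_lit 0) (nat_lit 4940) (XT.nd (nat_lit 78) (nat_lit 76) (nat_lit 0) (XT.lf (nat_lit 0) (nat_lit 1643003964) (nat_lit 228) (nat_lit 7811186305) (nat_lit 76) (nat_lit 6577695348) (nat_lit 18) (nat_lit 5) (nat_lit 21) (nat_lit 5) (nat_lit 19) (nat_lit 4) (nat_lit 506) (nat_lit 332) (nat_lit 302)) (XT.nd (nat_lit 78) (nat_lit 0) (nat_lit 0) (XT.lf (nat_lit 0) (nat_lit 2392830547) (nat_lit 76) (nat_lit 4434823079) (nat_lit 152) (nat_lit 9411712327) (nat_lit 17) (nat_lit 5) (nat_lit 18) (nat_lit 5) (nat_lit 19) (nat_lit 4) (nat_lit 507) (nat_lit 332) (nat_lit 301)) (XT.lf (nat_lit 0) (nat_lit 12114572124) (nat_lit 152) (nat_lit 3655934205) (nat_lit 0) (nat_lit 680521914) (nat_lit 17) (nat_lit 5) (nat_lit 19) (nat_lit 4) (nat_lit 17) (nat_lit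 4) (nat_lit 508) (nat_lit 332) (nat_lit 300)))) (XT.nd (nat_lit 78) (nat_lit 304) (nat_lit 0) (XT.lf (nat_lit 0) (nat_lit 141565179) (nat_lit 304) (nat_lit 5277737799) (nat_lit 0) (nat_lit 141565179) (nat_lit 86) (nat_lit 5) (nat_lit 90) (nat_lit 4) (nat_lit 86) (nat_lit 4) (nat_lit 474) (nat_lit 333) (nat_lit 333)) (XT.nd (nat_lit 78) (nat_lit 304) (nat_lit 0) (XT.lf (nat_lit 0) (nat_lit 5139194718) (nat_lit 304) (nat_lit 1573375762) (nat_lit 0) (nat_lit 4521292321) (nat_lit 86) (nat_lit 5) (nat_lit 90) (nat_lit 4) (nat_lit 86) (nat_lit 4) (nat_lit 475) (nat_lit 333) (nat_lit 332)) (XT.lf (nat_lit 0) (nat_lit 7567842317) (nat_lit 304) (nat_lit 2502266523) (nat_lit 304) (nat_lit 1278577461) (nat_lit 82) (nat_lit 4) (nat_lit 86) (nat_lit 5) (nat_lit 86) (nat_lit 4) (nat_lit 476) (nat_lit 333) (nat_lit 331))))))) (XT.nd (nat_lit 858) (nat_lit 1672) (nat_lit 0) (XT.nd (nat_lit 390) (nat_lit 1216) (nat_lit 0) (XT.nd (nat_lit 156)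 (nat_lit 532) (nat_lit 0) (XT.nd (nat_lit 78) (nat_lit 228) (nat_lit 0) (XT.lf (nat_lit 0) (nat_lit 3572220615) (nat_lit 304) (nat_lit 6103139388) (nat_lit 0) (nat_lit 1790262226) (nat_lit 78) (nat_lit 5) (nat_lit 82) (nat_lit 4) (nat_lit 78) (nat_lit 4) (nat_lit 477) (nat_lit 333) (nat_lit 330)) (XT.lf (nat_lit 0) (nat_lit 3050070516) (nat_lit 228) (nat_lit 5443825463) (nat_lit 228) (nat_lit 3091020771) (nat_lit 75) (nat_lit 4) (nat_lit 78) (nat_lit 5) (nat_lit 78) (nat_lit 4) (nat_lit 478) (nat_lit 333) (nat_lit 329))) (XT.nd (nat_lit 78) (nat_lit 228) (nat_lit 0) (XT.lf (nat_lit 0) (nat_lit 639253972) (nat_lit 228) (nat_lit 1119019247) (nat_lit 304) (nat_lit 9948606047) (nat_lit 71) (nat_lit 5) (nat_lit 74) (nat_lit 5) (nat_lit 75) (nat_lit 4) (nat_lit 479) (nat_lit 333) (nat_lit 328)) (XT.nd (nat_lit 78) (nat_lit 228) (nat_lit 0) (XT.lf (nat_lit 0) (nat_lit 6671715062) (nat_lit 304) (nat_lit 1880551436) (nat_lit 0) (nat_lit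 3278442927) (nat_lit 71) (nat_lit 5) (nat_lit 75) (nat_lit 4) (nat_lit 71) (nat_lit 4) (nat_lit 480) (nat_lit 333) (nat_lit 327)) (XT.lf (nat_lit 0) (nat_lit 7462371733) (nat_lit 228) (nat_lit 4207781831) (nat_lit 228) (nat_lit 287135949) (nat_lit 68) (nat_lit 4) (nat_lit 71) (nat_lit 5) (nat_lit 71) (nat_lit 4) (nat_lit 481) (nat_lit 333) (nat_lit 326))))) (XT.nd (nat_lit 234) (nat_lit 608) (nat_lit 0) (XT.nd (nat_lit 78) (nat_lit 304) (nat_lit 0) (XT.lf (nat_lit 0) (nat_lit 4597540506) (nat_lit 304) (nat_lit 7241849661) (nat_lit 0) (nat_lit 246874853) (nat_lit 64) (nat_lit 5) (nat_lit 68) (nat_lit 4) (nat_lit 64) (nat_lit 4) (nat_lit 482) (nat_lit 333) (nat_lit 325)) (XT.nd (nat_lit 78) (nat_lit 76) (nat_lit 0) (XT.lf (nat_lit 0) (nat_lit 2092956501) (nat_lit 228) (nat_lit 7486196488) (nat_lit 228) (nat_lit 2638574774) (nat_lit 61) (nat_lit 4) (nat_lit 64) (nat_lit 5) (nat_lit 64) (nat_lit 4) (nat_lit 483) (nat_lit 333) (nat_lit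 324)) (XT.lf (nat_lit 0) (nat_lit 2258607785) (nat_lit 304) (nat_lit 772445811) (nat_lit 76) (nat_lit 9320867383) (nat_lit 60) (nat_lit 5) (nat_lit 64) (nat_lit 5) (nat_lit 61) (nat_lit 4) (nat_lit 484) (nat_lit 333) (nat_lit 323)))) (XT.nd (nat_lit 78) (nat_lit 456) (nat_lit 0) (XT.lf (nat_lit 0) (nat_lit 7217962139) (nat_lit 228) (nat_lit 3751062541) (nat_lit 0) (nat_lit 1519440386) (nat_lit 58) (nat_lit 5) (nat_lit 61) (nat_lit 4) (nat_lit 58) (nat_lit 4) (nat_lit 485) (nat_lit 333) (nat_lit 322)) (XT.nd (nat_lit 78) (nat_lit 228) (nat_lit 0) (XT.lf (nat_lit 0) (nat_lit 5758868544) (nat_lit 228) (nat_lit 6513298709) (nat_lit 228) (nat_lit 355666372) (nat_lit 55) (nat_lit 4) (nat_lit 58) (nat_lit 5) (nat_lit 58) (nat_lit 4) (nat_lit 486) (nat_lit 333) (nat_lit 321)) (XT.lf (nat_lit 0) (nat_lit 2627450430) (nat_lit 152) (nat_lit 1944426392) (nat_lit 228) (nat_lit 8198004672) (nat_lit 52) (nat_lit 5) (nat_lit 54) (nat_lit 5)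 (nat_lit 55) (nat_lit 4) (nat_lit 487) (nat_lit 333) (nat_lit 320)))))) (XT.nd (nat_lit 468) (nat_lit 760) (nat_lit 0) (XT.nd (nat_lit 234) (nat_lit 456) (nat_lit 0) (XT.nd (nat_lit 78) (nat_lit 456) (nat_lit 0) (XT.lf (nat_lit 0) (nat_lit 9590575305) (nat_lit 228) (nat_lit 644439186) (nat_lit 0) (nat_lit 2679767941) (nat_lit 52) (nat_lit 5) (nat_lit 55) (nat_lit 4) (nat_lit 52) (nat_lit 4) (nat_lit 488) (nat_lit 333) (nat_lit 319)) (XT.nd (nat_lit 78) (nat_lit 152) (nat_lit 0) (XT.lf (nat_lit 0) (nat_lit 1631669569) (nat_lit 304) (nat_lit 4038982045) (nat_lit 76) (nat_lit 7391598020) (nat_lit 48) (nat_lit 5) (nat_lit 52) (nat_lit 5) (nat_lit 49) (nat_lit 4) (nat_lit 489) (nat_lit 333) (nat_lit 318)) (XT.lf (nat_lit 0) (nat_lit 5617088879) (nat_lit 152) (nat_lit 1000670554) (nat_lit 228) (nat_lit 6594961245) (nat_lit 46) (nat_lit 5) (nat_lit 48) (nat_lit 5) (nat_lit 49) (nat_lit 4) (nat_lit 490) (nat_lit 333) (nat_lit 317))))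 (XT.nd (nat_lit 78) (nat_lit 228) (nat_lit 0) (XT.lf (nat_lit 0) (nat_lit 2042303963) (nat_lit 228) (nat_lit 9661198457) (nat_lit 228) (nat_lit 1662706069) (nat_lit 43) (nat_lit 4) (nat_lit 46) (nat_lit 5) (nat_lit 46) (nat_lit 4) (nat_lit 491) (nat_lit 333) (nat_lit 316)) (XT.nd (nat_lit 78) (nat_lit 152) (nat_lit 0) (XT.lf (nat_lit 0) (nat_lit 3317012088) (nat_lit 304) (nat_lit 1689974431) (nat_lit 76) (nat_lit 8515488063) (nat_lit 42) (nat_lit 5) (nat_lit 46) (nat_lit 5) (nat_lit 43) (nat_lit 4) (nat_lit 492) (nat_lit 333) (nat_lit 315)) (XT.lf (nat_lit 0) (nat_lit 8119013175) (nat_lit 152) (nat_lit 244113172) (nat_lit 228) (nat_lit 5318744160) (nat_lit 40) (nat_lit 5) (nat_lit 42) (nat_lit 5) (nat_lit 43) (nat_lit 4) (nat_lit 493) (nat_lit 333) (nat_lit 314))))) (XT.nd (nat_lit 234) (nat_lit 380) (nat_lit 0) (XT.nd (nat_lit 78) (nat_lit 228) (nat_lit 0) (XT.lf (nat_lit 0) (nat_lit 4214809469) (nat_lit 152) (nat_lit 9300621848)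 (nat_lit 152) (nat_lit 328923187) (nat_lit 38) (nat_lit 4) (nat_lit 40) (nat_lit 5) (nat_lit 40) (nat_lit 4) (nat_lit 494) (nat_lit 333) (nat_lit 313)) (XT.nd (nat_lit 78) (nat_lit 0) (nat_lit 0) (XT.lf (nat_lit 0) (nat_lit 109355404) (nat_lit 152) (nat_lit 4565426589) (nat_lit 228) (nat_lit 9335162797) (nat_lit 35) (nat_lit 5) (nat_lit 37) (nat_lit 5) (nat_lit 38) (nat_lit 4) (nat_lit 495) (nat_lit 333) (nat_lit 312)) (XT.lf (nat_lit 0) (nat_lit 9777735131) (nat_lit 228) (nat_lit 4121905633) (nat_lit 0) (nat_lit 279096272) (nat_lit 35) (nat_lit 5) (nat_lit 38) (nat_lit 4) (nat_lit 35) (nat_lit 4) (nat_lit 496) (nat_lit 333) (nat_lit 311)))) (XT.nd (nat_lit 78) (nat_lit 152) (nat_lit 0) (XT.lf (nat_lit 0) (nat_lit 629443219) (nat_lit 228) (nat_lit 8568289481) (nat_lit 76) (nat_lit 5152977626) (nat_lit 32) (nat_lit 5) (nat_lit 35) (nat_lit 5) (nat_lit 33) (nat_lit 4) (nat_lit 497) (nat_lit 333) (nat_lit 310)) (XT.nd (nat_lit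 78) (nat_lit 0) (nat_lit 0) (XT.lf (nat_lit 0) (nat_lit 1291284291) (nat_lit 152) (nat_lit 4384699005) (nat_lit 228) (nat_lit 8850074565) (nat_lit 30) (nat_lit 5) (nat_lit 32) (nat_lit 5) (nat_lit 33) (nat_lit 4) (nat_lit 498) (nat_lit 333) (nat_lit 309)) (XT.lf (nat_lit 0) (nat_lit 10823045602) (nat_lit 228) (nat_lit 3354992506) (nat_lit 0) (nat_lit 526887212) (nat_lit 30) (nat_lit 5) (nat_lit 33) (nat_lit 4) (nat_lit 30) (nat_lit 4) (nat_lit 499) (nat_lit 333) (nat_lit 308))))))))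
noncomputable def xc7 : XT := (XT.nd (nat_lit 58188) (nat_lit 0) (nat_lit 76) (XT.nd (nat_lit 57330) (nat_lit 0) (nat_lit 3268) (XT.nd (nat_lit 390) (nat_lit 304) (nat_lit 0) (XT.nd (nat_lit 156) (nat_lit 304) (nat_lit 0) (XT.nd (nat_lit 78) (nat_lit 152) (nat_lit 0) (XT.lf (nat_lit 0) (nat_lit 1182072004) (nat_lit 228) (nat_lit 8223520566) (nat_lit 76) (nat_lit 5481389348) (nat_lit 27) (nat_lit 5) (nat_lit 30) (nat_lit 5) (nat_lit 28) (nat_lit 4) (nat_lit 500) (nat_lit 333) (nat_lit 307)) (XT.lf (nat_lit 0) (nat_lit 1742999050) (nat_lit 152) (nat_lit 4525948141) (nat_lit 228) (nat_lit 8803751343) (nat_lit 25) (nat_lit 5) (nat_lit 27) (nat_lit 5) (nat_lit 28) (nat_lit 4) (nat_lit 501) (nat_lit 333) (nat_lit 306))) (XT.nd (nat_lit 78) (nat_lit 304) (nat_lit 0) (XT.lf (nat_lit 0) (nat_lit 11455794699) (nat_lit 228) (nat_lit 3353701727) (nat_lit 0) (nat_lit 452672799) (nat_lit 25) (nat_lit 5) (nat_lit 28) (nat_lit 4) (nat_lit 25)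 (nat_lit 4) (nat_lit 502) (nat_lit 333) (nat_lit 305)) (XT.nd (nat_lit 78) (nat_lit 76) (nat_lit 0) (XT.lf (nat_lit 0) (nat_lit 1288998253) (nat_lit 228) (nat_lit 8690493121) (nat_lit 76) (nat_lit 5475475000) (nat_lit 22) (nat_lit 5) (nat_lit 25) (nat_lit 5) (nat_lit 23) (nat_lit 4) (nat_lit 503) (nat_lit 333) (nat_lit 304)) (XT.lf (nat_lit 0) (nat_lit 1364206659) (nat_lit 76) (nat_lit 5043672135) (nat_lit 152) (nat_lit 9243790297) (nat_lit 21) (nat_lit 5) (nat_lit 22) (nat_lit 5) (nat_lit 23) (nat_lit 4) (nat_lit 504) (nat_lit 333) (nat_lit 303))))) (XT.nd (nat_lit 234) (nat_lit 0) (nat_lit 0) (XT.nd (nat_lit 78) (nat_lit 304) (nat_lit 0) (XT.lf (nat_lit 0) (nat_lit 11628938438) (nat_lit 152) (nat_lit 4221447434) (nat_lit 0) (nat_lit 1928064) (nat_lit 21) (nat_lit 5) (nat_lit 23) (nat_lit 4) (nat_lit 21) (nat_lit 4) (nat_lit 505) (nat_lit 333) (nat_lit 302)) (XT.nd (nat_lit 78) (nat_lit 76) (nat_lit 0) (XT.lf (nat_lit 0) (nat_lit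 900342989) (nat_lit 228) (nat_lit 10077292999) (nat_lit 76) (nat_lit 5078929781) (nat_lit 18) (nat_lit 5) (nat_lit 21) (nat_lit 5) (nat_lit 19) (nat_lit 4) (nat_lit 506) (nat_lit 333) (nat_lit 301)) (XT.lf (nat_lit 0) (nat_lit 43564070) (nat_lit 76) (nat_lit 5997649466) (nat_lit 152) (nat_lit 10223710065) (nat_lit 17) (nat_lit 5) (nat_lit 18) (nat_lit 5) (nat_lit 19) (nat_lit 4) (nat_lit 507) (nat_lit 333) (nat_lit 300)))) (XT.nd (nat_lit 56550) (nat_lit 0) (nat_lit 5548) (XT.lf (nat_lit 0) (nat_lit 10398389891) (nat_lit 76) (nat_lit 896960596) (nat_lit 152) (nat_lit 5181892911) (nat_lit 17) (nat_lit 5) (nat_lit 18) (nat_lit 5) (nat_lit 19) (nat_lit 4) (nat_lit 508) (nat_lit 333) (nat_lit 299)) (XT.nd (nat_lit 78) (nat_lit 304) (nat_lit 0) (XT.lf (nat_lit 0) (nat_lit 1154590615) (nat_lit 304) (nat_lit 3141944219) (nat_lit 0) (nat_lit 1154590615) (nat_lit 94) (nat_lit 5) (nat_lit 98) (nat_lit 4) (nat_lit 94) (nat_lit 4) (nat_lit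 472) (nat_lit 334) (nat_lit 334)) (XT.lf (nat_lit 0) (nat_lit 2598761847) (nat_lit 304) (nat_lit 4527571410) (nat_lit 304) (nat_lit 3884705756) (nat_lit 90) (nat_lit 4) (nat_lit 94) (nat_lit 5) (nat_lit 94) (nat_lit 4) (nat_lit 473) (nat_lit 334) (nat_lit 333)))))) (XT.nd (nat_lit 390) (nat_lit 1140) (nat_lit 0) (XT.nd (nat_lit 156) (nat_lit 836) (nat_lit 0) (XT.nd (nat_lit 78) (nat_lit 0) (nat_lit 0) (XT.lf (nat_lit 0) (nat_lit 504016331) (nat_lit 228) (nat_lit 375757149) (nat_lit 304) (nat_lit 10242639755) (nat_lit 86) (nat_lit 5) (nat_lit 89) (nat_lit 5) (nat_lit 90) (nat_lit 4) (nat_lit 474) (nat_lit 334) (nat_lit 332)) (XT.lf (nat_lit 0) (nat_lit 5698048187) (nat_lit 304) (nat_lit 1693153129) (nat_lit 0) (nat_lit 3844098680) (nat_lit 86) (nat_lit 5) (nat_lit 90) (nat_lit 4) (nat_lit 86) (nat_lit 4) (nat_lit 475) (nat_lit 334) (nat_lit 331))) (XT.nd (nat_lit 78) (nat_lit 532) (nat_lit 0) (XT.lf (nat_lit 0) (nat_lit 7387567550)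 (nat_lit 304) (nat_lit 3205567445) (nat_lit 304) (nat_lit 757709442) (nat_lit 82) (nat_lit 4) (nat_lit 86) (nat_lit 5) (nat_lit 86) (nat_lit 4) (nat_lit 476) (nat_lit 334) (nat_lit 330)) (XT.nd (nat_lit 78) (nat_lit 228) (nat_lit 0) (XT.lf (nat_lit 0) (nat_lit 4045359933) (nat_lit 304) (nat_lit 6348522125) (nat_lit 0) (nat_lit 1074652843) (nat_lit 78) (nat_lit 5) (nat_lit 82) (nat_lit 4) (nat_lit 78) (nat_lit 4) (nat_lit 477) (nat_lit 334) (nat_lit 329)) (XT.lf (nat_lit 0) (nat_lit 2742282774) (nat_lit 228) (nat_lit 6188319886) (nat_lit 228) (nat_lit 2657959556) (nat_lit 75) (nat_lit 4) (nat_lit 78) (nat_lit 5) (nat_lit 78) (nat_lit 4) (nat_lit 478) (nat_lit 334) (nat_lit 328))))) (XT.nd (nat_lit 234) (nat_lit 532) (nat_lit 0) (XT.nd (nat_lit 78) (nat_lit 304) (nat_lit 0) (XT.lf (nat_lit 0) (nat_lit 261611197) (nat_lit 228) (nat_lit 1887226016) (nat_lit 304) (nat_lit 9562371615) (nat_lit 71) (nat_lit 5) (nat_lit 74) (nat_lit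 5) (nat_lit 75) (nat_lit 4) (nat_lit 479) (nat_lit 334) (nat_lit 327)) (XT.nd (nat_lit 78) (nat_lit 304) (nat_lit 0) (XT.lf (nat_lit 0) (nat_lit 7023066810) (nat_lit 304) (nat_lit 2316126061) (nat_lit 0) (nat_lit 2496634263) (nat_lit 71) (nat_lit 5) (nat_lit 75) (nat_lit 4) (nat_lit 71) (nat_lit 4) (nat_lit 480) (nat_lit 334) (nat_lit 326)) (XT.lf (nat_lit 0) (nat_lit 21278547) (nat_lit 304) (nat_lit 5000482964) (nat_lit 76) (nat_lit 6941382677) (nat_lit 67) (nat_lit 5) (nat_lit 71) (nat_lit 5) (nat_lit 68) (nat_lit 4) (nat_lit 481) (nat_lit 334) (nat_lit 325)))) (XT.nd (nat_lit 78) (nat_lit 304) (nat_lit 0) (XT.lf (nat_lit 0) (nat_lit 4273622773) (nat_lit 228) (nat_lit 589735437) (nat_lit 304) (nat_lit 7229504498) (nat_lit 64) (nat_lit 5) (nat_lit 67) (nat_lit 5) (nat_lit 68) (nat_lit 4) (nat_lit 482) (nat_lit 334) (nat_lit 324)) (XT.nd (nat_lit 78) (nat_lit 76) (nat_lit 0) (XT.lf (nat_lit 0) (nat_lit 1453360798) (nat_lit 228)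 (nat_lit 8350268558) (nat_lit 228) (nat_lit 2421526526) (nat_lit 61) (nat_lit 4) (nat_lit 64) (nat_lit 5) (nat_lit 64) (nat_lit 4) (nat_lit 483) (nat_lit 334) (nat_lit 323)) (XT.lf (nat_lit 0) (nat_lit 2439509456) (nat_lit 304) (nat_lit 1478591580) (nat_lit 76) (nat_lit 8441889342) (nat_lit 60) (nat_lit 5) (nat_lit 64) (nat_lit 5) (nat_lit 61) (nat_lit 4) (nat_lit 484) (nat_lit 334) (nat_lit 322))))))) (XT.nd (nat_lit 858) (nat_lit 1444) (nat_lit 0) (XT.nd (nat_lit 390) (nat_lit 836) (nat_lit 0) (XT.nd (nat_lit 156) (nat_lit 532) (nat_lit 0) (XT.nd (nat_lit 78) (nat_lit 228) (nat_lit 0) (XT.lf (nat_lit 0) (nat_lit 7355250934) (nat_lit 228) (nat_lit 4526803818) (nat_lit 0) (nat_lit 615355368) (nat_lit 58) (nat_lit 5) (nat_lit 61) (nat_lit 4) (nat_lit 58) (nat_lit 4) (nat_lit 485) (nat_lit 334) (nat_lit 321)) (XT.lf (nat_lit 0) (nat_lit 4915359636) (nat_lit 228) (nat_lit 7456093209) (nat_lit 228) (nat_lit 266089228) (nat_lit 55)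 (nat_lit 4) (nat_lit 58) (nat_lit 5) (nat_lit 58) (nat_lit 4) (nat_lit 486) (nat_lit 334) (nat_lit 320))) (XT.nd (nat_lit 78) (nat_lit 304) (nat_lit 0) (XT.lf (nat_lit 0) (nat_lit 1704784014) (nat_lit 152) (nat_lit 2917033191) (nat_lit 228) (nat_lit 8158533547) (nat_lit 52) (nat_lit 5) (nat_lit 54) (nat_lit 5) (nat_lit 55) (nat_lit 4) (nat_lit 487) (nat_lit 334) (nat_lit 319)) (XT.nd (nat_lit 78) (nat_lit 304) (nat_lit 0) (XT.lf (nat_lit 0) (nat_lit 9601842981) (nat_lit 228) (nat_lit 1628143201) (nat_lit 0) (nat_lit 1696042101) (nat_lit 52) (nat_lit 5) (nat_lit 55) (nat_lit 4) (nat_lit 52) (nat_lit 4) (nat_lit 488) (nat_lit 334) (nat_lit 318)) (XT.lf (nat_lit 0) (nat_lit 1592870634) (nat_lit 304) (nat_lit 5104032798) (nat_lit 76) (nat_lit 6377371475) (nat_lit 48) (nat_lit 5) (nat_lit 52) (nat_lit 5) (nat_lit 49) (nat_lit 4) (nat_lit 489) (nat_lit 334) (nat_lit 317))))) (XT.nd (nat_lit 234) (nat_lit 380) (nat_lit 0) (XT.nd (nat_lit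 78) (nat_lit 304) (nat_lit 0) (XT.lf (nat_lit 0) (nat_lit 4481317513) (nat_lit 152) (nat_lit 2058596374) (nat_lit 228) (nat_lit 6685615954) (nat_lit 46) (nat_lit 5) (nat_lit 48) (nat_lit 5) (nat_lit 49) (nat_lit 4) (nat_lit 490) (nat_lit 334) (nat_lit 316)) (XT.nd (nat_lit 78) (nat_lit 76) (nat_lit 0) (XT.lf (nat_lit 0) (nat_lit 828743622) (nat_lit 228) (nat_lit 10750597665) (nat_lit 228) (nat_lit 1800605576) (nat_lit 43) (nat_lit 4) (nat_lit 46) (nat_lit 5) (nat_lit 46) (nat_lit 4) (nat_lit 491) (nat_lit 334) (nat_lit 315)) (XT.lf (nat_lit 0) (nat_lit 3149401625) (nat_lit 304) (nat_lit 2972364003) (nat_lit 76) (nat_lit 7415098411) (nat_lit 42) (nat_lit 5) (nat_lit 46) (nat_lit 5) (nat_lit 43) (nat_lit 4) (nat_lit 492) (nat_lit 334) (nat_lit 314)))) (XT.nd (nat_lit 78) (nat_lit 228) (nat_lit 0) (XT.lf (nat_lit 0) (nat_lit 6763963457) (nat_lit 152) (nat_lit 1391853042) (nat_lit 228) (nat_lit 5541240187) (nat_lit 40) (nat_lit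 5) (nat_lit 42) (nat_lit 5) (nat_lit 43) (nat_lit 4) (nat_lit 493) (nat_lit 334) (nat_lit 313)) (XT.nd (nat_lit 78) (nat_lit 76) (nat_lit 0) (XT.lf (nat_lit 0) (nat_lit 2778196059) (nat_lit 152) (nat_lit 10482341425) (nat_lit 152) (nat_lit 599957556) (nat_lit 38) (nat_lit 4) (nat_lit 40) (nat_lit 5) (nat_lit 40) (nat_lit 4) (nat_lit 494) (nat_lit 334) (nat_lit 312)) (XT.lf (nat_lit 0) (nat_lit 4375832030) (nat_lit 228) (nat_lit 1398110581) (nat_lit 76) (nat_lit 8252809891) (nat_lit 37) (nat_lit 5) (nat_lit 40) (nat_lit 5) (nat_lit 38) (nat_lit 4) (nat_lit 495) (nat_lit 334) (nat_lit 311)))))) (XT.nd (nat_lit 468) (nat_lit 684) (nat_lit 0) (XT.nd (nat_lit 234) (nat_lit 380) (nat_lit 0) (XT.nd (nat_lit 78) (nat_lit 228) (nat_lit 0) (XT.lf (nat_lit 0) (nat_lit 8477982679) (nat_lit 152) (nat_lit 959256135) (nat_lit 228) (nat_lit 4759139386) (nat_lit 35) (nat_lit 5) (nat_lit 37) (nat_lit 5) (nat_lit 38) (nat_lit 4) (nat_lit 496)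 (nat_lit 334) (nat_lit 310)) (XT.nd (nat_lit 78) (nat_lit 0) (nat_lit 0) (XT.lf (nat_lit 0) (nat_lit 228574725) (nat_lit 228) (nat_lit 10250402244) (nat_lit 76) (nat_lit 3890372013) (nat_lit 32) (nat_lit 5) (nat_lit 35) (nat_lit 5) (nat_lit 33) (nat_lit 4) (nat_lit 497) (nat_lit 334) (nat_lit 309)) (XT.lf (nat_lit 0) (nat_lit 5236704315) (nat_lit 228) (nat_lit 461860063) (nat_lit 76) (nat_lit 8846902727) (nat_lit 32) (nat_lit 5) (nat_lit 35) (nat_lit 5) (nat_lit 33) (nat_lit 4) (nat_lit 498) (nat_lit 334) (nat_lit 308)))) (XT.nd (nat_lit 78) (nat_lit 228) (nat_lit 0) (XT.lf (nat_lit 0) (nat_lit 9540446005) (nat_lit 152) (nat_lit 807028927) (nat_lit 228) (nat_lit 4377587799) (nat_lit 30) (nat_lit 5) (nat_lit 32) (nat_lit 5) (nat_lit 33) (nat_lit 4) (nat_lit 499) (nat_lit 334) (nat_lit 307)) (XT.nd (nat_lit 78) (nat_lit 0) (nat_lit 0) (XT.lf (nat_lit 0) (nat_lit 645605098) (nat_lit 228) (nat_lit 10143525725) (nat_lit 76) (nat_lit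 4119000318) (nat_lit 27) (nat_lit 5) (nat_lit 30) (nat_lit 5) (nat_lit 28) (nat_lit 4) (nat_lit 500) (nat_lit 334) (nat_lit 306)) (XT.lf (nat_lit 0) (nat_lit 5691846282) (nat_lit 228) (nat_lit 253028593) (nat_lit 76) (nat_lit 9149787759) (nat_lit 27) (nat_lit 5) (nat_lit 30) (nat_lit 5) (nat_lit 28) (nat_lit 4) (nat_lit 501) (nat_lit 334) (nat_lit 305))))) (XT.nd (nat_lit 234) (nat_lit 304) (nat_lit 0) (XT.nd (nat_lit 78) (nat_lit 228) (nat_lit 0) (XT.lf (nat_lit 0) (nat_lit 9859301926) (nat_lit 152) (nat_lit 985663745) (nat_lit 228) (nat_lit 4439844372) (nat_lit 25) (nat_lit 5) (nat_lit 27) (nat_lit 5) (nat_lit 28) (nat_lit 4) (nat_lit 502) (nat_lit 334) (nat_lit 304)) (XT.nd (nat_lit 78) (nat_lit 0) (nat_lit 0) (XT.lf (nat_lit 0) (nat_lit 614512631) (nat_lit 228) (nat_lit 10855426077) (nat_lit 76) (nat_lit 4008739289) (nat_lit 22) (nat_lit 5) (nat_lit 25) (nat_lit 5) (nat_lit 23) (nat_lit 4) (nat_lit 503) (nat_lit 334) (nat_lit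 303)) (XT.lf (nat_lit 0) (nat_lit 5695904768) (nat_lit 228) (nat_lit 870856034) (nat_lit 76) (nat_lit 9109371711) (nat_lit 22) (nat_lit 5) (nat_lit 25) (nat_lit 5) (nat_lit 23) (nat_lit 4) (nat_lit 504) (nat_lit 334) (nat_lit 302)))) (XT.nd (nat_lit 78) (nat_lit 228) (nat_lit 0) (XT.lf (nat_lit 0) (nat_lit 9332349275) (nat_lit 76) (nat_lit 1550466524) (nat_lit 152) (nat_lit 4994646520) (nat_lit 21) (nat_lit 5) (nat_lit 22) (nat_lit 5) (nat_lit 23) (nat_lit 4) (nat_lit 505) (nat_lit 334) (nat_lit 301)) (XT.nd (nat_lit 78) (nat_lit 0) (nat_lit 0) (XT.lf (nat_lit 0) (nat_lit 85206035) (nat_lit 228) (nat_lit 12494466263) (nat_lit 76) (nat_lit 3503223546) (nat_lit 18) (nat_lit 5) (nat_lit 21) (nat_lit 5) (nat_lit 19) (nat_lit 4) (nat_lit 506) (nat_lit 334) (nat_lit 300)) (XT.lf (nat_lit 0) (nat_lit 5197826953) (nat_lit 228) (nat_lit 2425502829) (nat_lit 76) (nat_lit 8668490762) (nat_lit 18) (nat_lit 5) (nat_lit 21) (nat_lit 5) (nat_lit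 19) (nat_lit 4) (nat_lit 507) (nat_lit 334) (nat_lit 299))))))))
noncomputable def xc8 : XT := (XT.nd (nat_lit 58032) (nat_lit 0) (nat_lit 0) (XT.nd (nat_lit 57174) (nat_lit 0) (nat_lit 2204) (XT.nd (nat_lit 56706) (nat_lit 0) (nat_lit 4332) (XT.nd (nat_lit 56472) (nat_lit 0) (nat_lit 5548) (XT.nd (nat_lit 56394) (nat_lit 0) (nat_lit 6460) (XT.lf (nat_lit 0) (nat_lit 7846104697) (nat_lit 76) (nat_lit 2562152510) (nat_lit 152) (nat_lit 6096759106) (nat_lit 17) (nat_lit 5) (nat_lit 18) (nat_lit 5) (nat_lit 19) (nat_lit 4) (nat_lit 508) (nat_lit 334) (nat_lit 298)) (XT.lf (nat_lit 0) (nat_lit 2108993266) (nat_lit 380) (nat_lit 1127115457) (nat_lit 0) (nat_lit 2108993266) (nat_lit 102) (nat_lit 5) (nat_lit 107) (nat_lit 4) (nat_lit 102) (nat_lit 4) (nat_lit 470) (nat_lit 335) (nat_lit 335))) (XT.nd (nat_lit 78) (nat_lit 608) (nat_lit 0) (XT.lf (nat_lit 0) (nat_lit 6544527138) (nat_lit 304) (nat_lit 2459939684) (nat_lit 304) (nat_lit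 1791102257) (nat_lit 98) (nat_lit 4) (nat_lit 102) (nat_lit 5) (nat_lit 102) (nat_lit 4) (nat_lit 471) (nat_lit 335) (nat_lit 334)) (XT.nd (nat_lit 78) (nat_lit 304) (nat_lit 0) (XT.lf (nat_lit 0) (nat_lit 2929313287) (nat_lit 304) (nat_lit 6342929522) (nat_lit 0) (nat_lit 1630724665) (nat_lit 94) (nat_lit 5) (nat_lit 98) (nat_lit 4) (nat_lit 94) (nat_lit 4) (nat_lit 472) (nat_lit 335) (nat_lit 333)) (XT.lf (nat_lit 0) (nat_lit 2480283482) (nat_lit 304) (nat_lit 5230519542) (nat_lit 304) (nat_lit 3301670474) (nat_lit 90) (nat_lit 4) (nat_lit 94) (nat_lit 5) (nat_lit 94) (nat_lit 4) (nat_lit 473) (nat_lit 335) (nat_lit 332))))) (XT.nd (nat_lit 234) (nat_lit 608) (nat_lit 0) (XT.nd (nat_lit 78) (nat_lit 304) (nat_lit 0) (XT.lf (nat_lit 0) (nat_lit 319933986) (nat_lit 228) (nat_lit 1099217227) (nat_lit 304) (nat_lit 9705345499) (nat_lit 86) (nat_lit 5) (nat_lit 89) (nat_lit 5) (nat_lit 90) (nat_lit 4) (nat_lit 474) (nat_lit 335)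 (nat_lit 331)) (XT.nd (nat_lit 78) (nat_lit 304) (nat_lit 0) (XT.lf (nat_lit 0) (nat_lit 6198071886) (nat_lit 304) (nat_lit 1932754833) (nat_lit 0) (nat_lit 3107348229) (nat_lit 86) (nat_lit 5) (nat_lit 90) (nat_lit 4) (nat_lit 86) (nat_lit 4) (nat_lit 475) (nat_lit 335) (nat_lit 330)) (XT.lf (nat_lit 0) (nat_lit 7087031055) (nat_lit 304) (nat_lit 3970199051) (nat_lit 304) (nat_lit 297212164) (nat_lit 82) (nat_lit 4) (nat_lit 86) (nat_lit 5) (nat_lit 86) (nat_lit 4) (nat_lit 476) (nat_lit 335) (nat_lit 329)))) (XT.nd (nat_lit 78) (nat_lit 304) (nat_lit 0) (XT.lf (nat_lit 0) (nat_lit 4458404800) (nat_lit 304) (nat_lit 6716716510) (nat_lit 0) (nat_lit 297784025) (nat_lit 78) (nat_lit 5) (nat_lit 82) (nat_lit 4) (nat_lit 78) (nat_lit 4) (nat_lit 477) (nat_lit 335) (nat_lit 328)) (XT.nd (nat_lit 78) (nat_lit 76) (nat_lit 0) (XT.lf (nat_lit 0) (nat_lit 2311210967) (nat_lit 228) (nat_lit 6995878662) (nat_lit 228) (nat_lit 2286578241)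 (nat_lit 75) (nat_lit 4) (nat_lit 78) (nat_lit 5) (nat_lit 78) (nat_lit 4) (nat_lit 478) (nat_lit 335) (nat_lit 327)) (XT.lf (nat_lit 0) (nat_lit 2479957442) (nat_lit 304) (nat_lit 237707608) (nat_lit 76) (nat_lit 8999312916) (nat_lit 74) (nat_lit 5) (nat_lit 78) (nat_lit 5) (nat_lit 75) (nat_lit 4) (nat_lit 479) (nat_lit 335) (nat_lit 326)))))) (XT.nd (nat_lit 390) (nat_lit 1064) (nat_lit 0) (XT.nd (nat_lit 156) (nat_lit 532) (nat_lit 0) (XT.nd (nat_lit 78) (nat_lit 304) (nat_lit 0) (XT.lf (nat_lit 0) (nat_lit 7313667585) (nat_lit 304) (nat_lit 2876443345) (nat_lit 0) (nat_lit 1652299557) (nat_lit 71) (nat_lit 5) (nat_lit 75) (nat_lit 4) (nat_lit 71) (nat_lit 4) (nat_lit 480) (nat_lit 335) (nat_lit 325)) (XT.lf (nat_lit 0) (nat_lit 264370263) (nat_lit 304) (nat_lit 5634235277) (nat_lit 76) (nat_lit 6071832813) (nat_lit 67) (nat_lit 5) (nat_lit 71) (nat_lit 5) (nat_lit 68) (nat_lit 4) (nat_lit 481) (nat_lit 335) (nat_lit 324)))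 (XT.nd (nat_lit 78) (nat_lit 304) (nat_lit 0) (XT.lf (nat_lit 0) (nat_lit 3574314581) (nat_lit 228) (nat_lit 1494761582) (nat_lit 304) (nat_lit 7031831790) (nat_lit 64) (nat_lit 5) (nat_lit 67) (nat_lit 5) (nat_lit 68) (nat_lit 4) (nat_lit 482) (nat_lit 335) (nat_lit 323)) (XT.nd (nat_lit 78) (nat_lit 76) (nat_lit 0) (XT.lf (nat_lit 0) (nat_lit 685294405) (nat_lit 228) (nat_lit 9280484487) (nat_lit 228) (nat_lit 2268297139) (nat_lit 61) (nat_lit 4) (nat_lit 64) (nat_lit 5) (nat_lit 64) (nat_lit 4) (nat_lit 483) (nat_lit 335) (nat_lit 322)) (XT.lf (nat_lit 0) (nat_lit 2558082203) (nat_lit 304) (nat_lit 2313154090) (nat_lit 76) (nat_lit 7498310673) (nat_lit 60) (nat_lit 5) (nat_lit 64) (nat_lit 5) (nat_lit 61) (nat_lit 4) (nat_lit 484) (nat_lit 335) (nat_lit 321))))) (XT.nd (nat_lit 234) (nat_lit 456) (nat_lit 0) (XT.nd (nat_lit 78) (nat_lit 456) (nat_lit 0) (XT.lf (nat_lit 0) (nat_lit 7072873395) (nat_lit 152) (nat_lit 359039535)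 (nat_lit 228) (nat_lit 5075895324) (nat_lit 58) (nat_lit 5) (nat_lit 60) (nat_lit 5) (nat_lit 61) (nat_lit 4) (nat_lit 485) (nat_lit 335) (nat_lit 320)) (XT.nd (nat_lit 78) (nat_lit 228) (nat_lit 0) (XT.lf (nat_lit 0) (nat_lit 3941190312) (nat_lit 228) (nat_lit 8466379647) (nat_lit 228) (nat_lit 241184412) (nat_lit 55) (nat_lit 4) (nat_lit 58) (nat_lit 5) (nat_lit 58) (nat_lit 4) (nat_lit 486) (nat_lit 335) (nat_lit 319)) (XT.lf (nat_lit 0) (nat_lit 649750275) (nat_lit 152) (nat_lit 3957960451) (nat_lit 228) (nat_lit 8184625921) (nat_lit 52) (nat_lit 5) (nat_lit 54) (nat_lit 5) (nat_lit 55) (nat_lit 4) (nat_lit 487) (nat_lit 335) (nat_lit 318)))) (XT.nd (nat_lit 78) (nat_lit 456) (nat_lit 0) (XT.lf (nat_lit 0) (nat_lit 9549254682) (nat_lit 228) (nat_lit 2744172238) (nat_lit 0) (nat_lit 645359972) (nat_lit 52) (nat_lit 5) (nat_lit 55) (nat_lit 4) (nat_lit 52) (nat_lit 4) (nat_lit 488) (nat_lit 335) (nat_lit 317)) (XT.nd (nat_lit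 78) (nat_lit 152) (nat_lit 0) (XT.lf (nat_lit 0) (nat_lit 1489317412) (nat_lit 304) (nat_lit 6303150596) (nat_lit 76) (nat_lit 5295358218) (nat_lit 48) (nat_lit 5) (nat_lit 52) (nat_lit 5) (nat_lit 49) (nat_lit 4) (nat_lit 489) (nat_lit 335) (nat_lit 316)) (XT.lf (nat_lit 0) (nat_lit 3210806571) (nat_lit 152) (nat_lit 3186253691) (nat_lit 228) (nat_lit 6842809804) (nat_lit 46) (nat_lit 5) (nat_lit 48) (nat_lit 5) (nat_lit 49) (nat_lit 4) (nat_lit 490) (nat_lit 335) (nat_lit 315))))))) (XT.nd (nat_lit 858) (nat_lit 760) (nat_lit 0) (XT.nd (nat_lit 390) (nat_lit 760) (nat_lit 0) (XT.nd (nat_lit 156) (nat_lit 380) (nat_lit 0) (XT.nd (nat_lit 78) (nat_lit 304) (nat_lit 0) (XT.lf (nat_lit 0) (nat_lit 11392836792) (nat_lit 228) (nat_lit 514490957) (nat_lit 0) (nat_lit 1487835201) (nat_lit 46) (nat_lit 5) (nat_lit 49) (nat_lit 4) (nat_lit 46) (nat_lit 4) (nat_lit 491) (nat_lit 335) (nat_lit 314)) (XT.lf (nat_lit 0) (nat_lit 2916017916)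 (nat_lit 304) (nat_lit 4391275986) (nat_lit 76) (nat_lit 6245501326) (nat_lit 42) (nat_lit 5) (nat_lit 46) (nat_lit 5) (nat_lit 43) (nat_lit 4) (nat_lit 492) (nat_lit 335) (nat_lit 313))) (XT.nd (nat_lit 78) (nat_lit 228) (nat_lit 0) (XT.lf (nat_lit 0) (nat_lit 5271667564) (nat_lit 152) (nat_lit 2610780660) (nat_lit 228) (nat_lit 5831342020) (nat_lit 40) (nat_lit 5) (nat_lit 42) (nat_lit 5) (nat_lit 43) (nat_lit 4) (nat_lit 493) (nat_lit 335) (nat_lit 312)) (XT.nd (nat_lit 78) (nat_lit 76) (nat_lit 0) (XT.lf (nat_lit 0) (nat_lit 1202505467) (nat_lit 152) (nat_lit 11736318591) (nat_lit 152) (nat_lit 939374070) (nat_lit 38) (nat_lit 4) (nat_lit 40) (nat_lit 5) (nat_lit 40) (nat_lit 4) (nat_lit 494) (nat_lit 335) (nat_lit 311)) (XT.lf (nat_lit 0) (nat_lit 4010709916) (nat_lit 228) (nat_lit 3043258933) (nat_lit 76) (nat_lit 6991136480) (nat_lit 37) (nat_lit 5) (nat_lit 40) (nat_lit 5) (nat_lit 38) (nat_lit 4) (nat_lit 495) (nat_lit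 335) (nat_lit 310))))) (XT.nd (nat_lit 234) (nat_lit 380) (nat_lit 0) (XT.nd (nat_lit 78) (nat_lit 228) (nat_lit 0) (XT.lf (nat_lit 0) (nat_lit 6757367771) (nat_lit 152) (nat_lit 2274011764) (nat_lit 228) (nat_lit 5184168711) (nat_lit 35) (nat_lit 5) (nat_lit 37) (nat_lit 5) (nat_lit 38) (nat_lit 4) (nat_lit 496) (nat_lit 335) (nat_lit 309)) (XT.nd (nat_lit 78) (nat_lit 76) (nat_lit 0) (XT.lf (nat_lit 0) (nat_lit 2312529773) (nat_lit 152) (nat_lit 11832849618) (nat_lit 152) (nat_lit 244167193) (nat_lit 33) (nat_lit 4) (nat_lit 35) (nat_lit 5) (nat_lit 35) (nat_lit 4) (nat_lit 497) (nat_lit 335) (nat_lit 308)) (XT.lf (nat_lit 0) (nat_lit 4737726838) (nat_lit 228) (nat_lit 2339924791) (nat_lit 76) (nat_lit 7488635873) (nat_lit 32) (nat_lit 5) (nat_lit 35) (nat_lit 5) (nat_lit 33) (nat_lit 4) (nat_lit 498) (nat_lit 335) (nat_lit 307)))) (XT.nd (nat_lit 78) (nat_lit 228) (nat_lit 0) (XT.lf (nat_lit 0) (nat_lit 7584736246) (nat_lit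 152) (nat_lit 2222202801) (nat_lit 228) (nat_lit 4939777536) (nat_lit 30) (nat_lit 5) (nat_lit 32) (nat_lit 5) (nat_lit 33) (nat_lit 4) (nat_lit 499) (nat_lit 335) (nat_lit 306)) (XT.nd (nat_lit 78) (nat_lit 0) (nat_lit 0) (XT.lf (nat_lit 0) (nat_lit 39187913) (nat_lit 228) (nat_lit 12209319721) (nat_lit 76) (nat_lit 2682384573) (nat_lit 27) (nat_lit 5) (nat_lit 30) (nat_lit 5) (nat_lit 28) (nat_lit 4) (nat_lit 500) (nat_lit 335) (nat_lit 305)) (XT.lf (nat_lit 0) (nat_lit 5056686648) (nat_lit 228) (nat_lit 2370942922) (nat_lit 76) (nat_lit 7690371133) (nat_lit 27) (nat_lit 5) (nat_lit 30) (nat_lit 5) (nat_lit 28) (nat_lit 4) (nat_lit 501) (nat_lit 335) (nat_lit 304)))))) (XT.nd (nat_lit 390) (nat_lit 152) (nat_lit 0) (XT.nd (nat_lit 156) (nat_lit 304) (nat_lit 0) (XT.nd (nat_lit 78) (nat_lit 152) (nat_lit 0) (XT.lf (nat_lit 0) (nat_lit 7661464194) (nat_lit 152) (nat_lit 2505893152) (nat_lit 228) (nat_lit 5141641851) (nat_lit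 25) (nat_lit 5) (nat_lit 27) (nat_lit 5) (nat_lit 28) (nat_lit 4) (nat_lit 502) (nat_lit 335) (nat_lit 303)) (XT.lf (nat_lit 0) (nat_lit 2333965278) (nat_lit 152) (nat_lit 13036999754) (nat_lit 152) (nat_lit 133042341) (nat_lit 23) (nat_lit 4) (nat_lit 25) (nat_lit 5) (nat_lit 25) (nat_lit 4) (nat_lit 503) (nat_lit 335) (nat_lit 302))) (XT.nd (nat_lit 78) (nat_lit 228) (nat_lit 0) (XT.lf (nat_lit 0) (nat_lit 4922024991) (nat_lit 228) (nat_lit 3235821903) (nat_lit 76) (nat_lit 7544195655) (nat_lit 22) (nat_lit 5) (nat_lit 25) (nat_lit 5) (nat_lit 23) (nat_lit 4) (nat_lit 504) (nat_lit 335) (nat_lit 301)) (XT.nd (nat_lit 78) (nat_lit 152) (nat_lit 0) (XT.lf (nat_lit 0) (nat_lit 6885077537) (nat_lit 76) (nat_lit 3180449882) (nat_lit 152) (nat_lit 5838715060) (nat_lit 21) (nat_lit 5) (nat_lit 22) (nat_lit 5) (nat_lit 23) (nat_lit 4) (nat_lit 505) (nat_lit 335) (nat_lit 300)) (XT.lf (nat_lit 0) (nat_lit 1041845443) (nat_lit 152)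 (nat_lit 14255540731) (nat_lit 152) (nat_lit 813394371) (nat_lit 19) (nat_lit 4) (nat_lit 21) (nat_lit 5) (nat_lit 21) (nat_lit 4) (nat_lit 506) (nat_lit 335) (nat_lit 299))))) (XT.nd (nat_lit 56394) (nat_lit 0) (nat_lit 6156) (XT.nd (nat_lit 78) (nat_lit 76) (nat_lit 0) (XT.lf (nat_lit 0) (nat_lit 4282475944) (nat_lit 228) (nat_lit 5045006539) (nat_lit 76) (nat_lit 6992878591) (nat_lit 18) (nat_lit 5) (nat_lit 21) (nat_lit 5) (nat_lit 19) (nat_lit 4) (nat_lit 507) (nat_lit 335) (nat_lit 298)) (XT.nd (nat_lit 56238) (nat_lit 0) (nat_lit 6840) (XT.lf (nat_lit 0) (nat_lit 5141804222) (nat_lit 76) (nat_lit 4306663066) (nat_lit 152) (nat_lit 7085980137) (nat_lit 17) (nat_lit 5) (nat_lit 18) (nat_lit 5) (nat_lit 19) (nat_lit 4) (nat_lit 508) (nat_lit 335) (nat_lit 297)) (XT.lf (nat_lit 0) (nat_lit 788542618) (nat_lit 304) (nat_lit 2227010813) (nat_lit 304) (nat_lit 2227010813) (nat_lit 107) (nat_lit 4) (nat_lit 111) (nat_lit 5) (nat_lit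 111) (nat_lit 4) (nat_lit 468) (nat_lit 336) (nat_lit 336)))) (XT.nd (nat_lit 78) (nat_lit 608) (nat_lit 0) (XT.lf (nat_lit 0) (nat_lit 185058049) (nat_lit 380) (nat_lit 322041199) (nat_lit 76) (nat_lit 10080265718) (nat_lit 106) (nat_lit 5) (nat_lit 111) (nat_lit 5) (nat_lit 107) (nat_lit 4) (nat_lit 469) (nat_lit 336) (nat_lit 335)) (XT.nd (nat_lit 78) (nat_lit 304) (nat_lit 0) (XT.lf (nat_lit 0) (nat_lit 4865057003) (nat_lit 380) (nat_lit 2311849401) (nat_lit 0) (nat_lit 3514005400) (nat_lit 102) (nat_lit 5) (nat_lit 107) (nat_lit 4) (nat_lit 102) (nat_lit 4) (nat_lit 470) (nat_lit 336) (nat_lit 334)) (XT.lf (nat_lit 0) (nat_lit 6428903514) (nat_lit 304) (nat_lit 3187428458) (nat_lit 304) (nat_lit 1180653888) (nat_lit 98) (nat_lit 4) (nat_lit 102) (nat_lit 5) (nat_lit 102) (nat_lit 4) (nat_lit 471) (nat_lit 336) (nat_lit 333))))))))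
noncomputable def xc9 : XT := (XT.nd (nat_lit 1716) (nat_lit 1748) (nat_lit 0) (XT.nd (nat_lit 858) (nat_lit 1824) (nat_lit 0) (XT.nd (nat_lit 390) (nat_lit 1292) (nat_lit 0) (XT.nd (nat_lit 156) (nat_lit 684) (nat_lit 0) (XT.nd (nat_lit 78) (nat_lit 304) (nat_lit 0) (XT.lf (nat_lit 0) (nat_lit 3491364023) (nat_lit 304) (nat_lit 6520075929) (nat_lit 0) (nat_lit 893677528) (nat_lit 94) (nat_lit 5) (nat_lit 98) (nat_lit 4) (nat_lit 94) (nat_lit 4) (nat_lit 472) (nat_lit 336) (nat_lit 332)) (XT.lf (nat_lit 0) (nat_lit 2243280288) (nat_lit 304) (nat_lit 5993825817) (nat_lit 304) (nat_lit 2778236925) (nat_lit 90) (nat_lit 4) (nat_lit 94) (nat_lit 5) (nat_lit 94) (nat_lit 4) (nat_lit 473) (nat_lit 336) (nat_lit 331))) (XT.nd (nat_lit 78) (nat_lit 380) (nat_lit 0) (XT.lf (nat_lit 0) (nat_lit 15841447) (nat_lit 228) (nat_lit 1883770930) (nat_lit 304) (nat_lit 9228412441) (nat_lit 86) (nat_lit 5) (nat_lit 89) (nat_lit 5) (nat_lit 90)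 (nat_lit 4) (nat_lit 474) (nat_lit 336) (nat_lit 330)) (XT.nd (nat_lit 78) (nat_lit 380) (nat_lit 0) (XT.lf (nat_lit 0) (nat_lit 6639461902) (nat_lit 304) (nat_lit 2292274836) (nat_lit 0) (nat_lit 2310752048) (nat_lit 86) (nat_lit 5) (nat_lit 90) (nat_lit 4) (nat_lit 86) (nat_lit 4) (nat_lit 475) (nat_lit 336) (nat_lit 329)) (XT.lf (nat_lit 0) (nat_lit 101742850) (nat_lit 380) (nat_lit 4694035599) (nat_lit 76) (nat_lit 6563689375) (nat_lit 81) (nat_lit 5) (nat_lit 86) (nat_lit 5) (nat_lit 82) (nat_lit 4) (nat_lit 476) (nat_lit 336) (nat_lit 328))))) (XT.nd (nat_lit 234) (nat_lit 760) (nat_lit 0) (XT.nd (nat_lit 78) (nat_lit 304) (nat_lit 0) (XT.lf (nat_lit 0) (nat_lit 4267240276) (nat_lit 228) (nat_lit 547833819) (nat_lit 304) (nat_lit 6663590016) (nat_lit 78) (nat_lit 5) (nat_lit 81) (nat_lit 5) (nat_lit 82) (nat_lit 4) (nat_lit 477) (nat_lit 336) (nat_lit 327)) (XT.nd (nat_lit 78) (nat_lit 76) (nat_lit 0) (XT.lf (nat_lit 0)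 (nat_lit 1756686047) (nat_lit 228) (nat_lit 7866818482) (nat_lit 228) (nat_lit 1976731185) (nat_lit 75) (nat_lit 4) (nat_lit 78) (nat_lit 5) (nat_lit 78) (nat_lit 4) (nat_lit 478) (nat_lit 336) (nat_lit 326)) (XT.lf (nat_lit 0) (nat_lit 2752709621) (nat_lit 304) (nat_lit 856987608) (nat_lit 76) (nat_lit 8114472796) (nat_lit 74) (nat_lit 5) (nat_lit 78) (nat_lit 5) (nat_lit 75) (nat_lit 4) (nat_lit 479) (nat_lit 336) (nat_lit 325)))) (XT.nd (nat_lit 78) (nat_lit 532) (nat_lit 0) (XT.lf (nat_lit 0) (nat_lit 7543631350) (nat_lit 304) (nat_lit 3561723020) (nat_lit 0) (nat_lit 745107694) (nat_lit 71) (nat_lit 5) (nat_lit 75) (nat_lit 4) (nat_lit 71) (nat_lit 4) (nat_lit 480) (nat_lit 336) (nat_lit 324)) (XT.nd (nat_lit 78) (nat_lit 228) (nat_lit 0) (XT.lf (nat_lit 0) (nat_lit 446000367) (nat_lit 304) (nat_lit 6394558974) (nat_lit 76) (nat_lit 5138652813) (nat_lit 67) (nat_lit 5) (nat_lit 71) (nat_lit 5) (nat_lit 68) (nat_lit 4) (nat_lit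 481) (nat_lit 336) (nat_lit 323)) (XT.lf (nat_lit 0) (nat_lit 2747873208) (nat_lit 228) (nat_lit 2465277657) (nat_lit 304) (nat_lit 6897285532) (nat_lit 64) (nat_lit 5) (nat_lit 67) (nat_lit 5) (nat_lit 68) (nat_lit 4) (nat_lit 482) (nat_lit 336) (nat_lit 322)))))) (XT.nd (nat_lit 390) (nat_lit 1064) (nat_lit 0) (XT.nd (nat_lit 156) (nat_lit 456) (nat_lit 0) (XT.nd (nat_lit 78) (nat_lit 304) (nat_lit 0) (XT.lf (nat_lit 0) (nat_lit 10067038667) (nat_lit 304) (nat_lit 208769443) (nat_lit 0) (nat_lit 1968656127) (nat_lit 64) (nat_lit 5) (nat_lit 68) (nat_lit 4) (nat_lit 64) (nat_lit 4) (nat_lit 483) (nat_lit 336) (nat_lit 321)) (XT.lf (nat_lit 0) (nat_lit 2614372524) (nat_lit 304) (nat_lit 3276460623) (nat_lit 76) (nat_lit 6489761346) (nat_lit 60) (nat_lit 5) (nat_lit 64) (nat_lit 5) (nat_lit 61) (nat_lit 4) (nat_lit 484) (nat_lit 336) (nat_lit 320))) (XT.nd (nat_lit 78) (nat_lit 304) (nat_lit 0) (XT.lf (nat_lit 0) (nat_lit 6041658302)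 (nat_lit 152) (nat_lit 1408470331) (nat_lit 228) (nat_lit 5069491906) (nat_lit 58) (nat_lit 5) (nat_lit 60) (nat_lit 5) (nat_lit 61) (nat_lit 4) (nat_lit 485) (nat_lit 336) (nat_lit 319)) (XT.nd (nat_lit 78) (nat_lit 76) (nat_lit 0) (XT.lf (nat_lit 0) (nat_lit 2835978544) (nat_lit 228) (nat_lit 9544554213) (nat_lit 228) (nat_lit 280942157) (nat_lit 55) (nat_lit 4) (nat_lit 58) (nat_lit 5) (nat_lit 58) (nat_lit 4) (nat_lit 486) (nat_lit 336) (nat_lit 318)) (XT.lf (nat_lit 0) (nat_lit 4533045325) (nat_lit 304) (nat_lit 531007710) (nat_lit 76) (nat_lit 7741720976) (nat_lit 54) (nat_lit 5) (nat_lit 58) (nat_lit 5) (nat_lit 55) (nat_lit 4) (nat_lit 487) (nat_lit 336) (nat_lit 317))))) (XT.nd (nat_lit 234) (nat_lit 456) (nat_lit 0) (XT.nd (nat_lit 78) (nat_lit 456) (nat_lit 0) (XT.lf (nat_lit 0) (nat_lit 8956927305) (nat_lit 152) (nat_lit 478972285) (nat_lit 228) (nat_lit 3517101477) (nat_lit 52) (nat_lit 5) (nat_lit 54) (nat_lit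 5) (nat_lit 55) (nat_lit 4) (nat_lit 488) (nat_lit 336) (nat_lit 316)) (XT.nd (nat_lit 78) (nat_lit 152) (nat_lit 0) (XT.lf (nat_lit 0) (nat_lit 1320969293) (nat_lit 304) (nat_lit 7636805682) (nat_lit 76) (nat_lit 4145133931) (nat_lit 48) (nat_lit 5) (nat_lit 52) (nat_lit 5) (nat_lit 49) (nat_lit 4) (nat_lit 489) (nat_lit 336) (nat_lit 315)) (XT.lf (nat_lit 0) (nat_lit 1805057814) (nat_lit 152) (nat_lit 4384084726) (nat_lit 228) (nat_lit 7066604441) (nat_lit 46) (nat_lit 5) (nat_lit 48) (nat_lit 5) (nat_lit 49) (nat_lit 4) (nat_lit 490) (nat_lit 336) (nat_lit 314)))) (XT.nd (nat_lit 78) (nat_lit 456) (nat_lit 0) (XT.lf (nat_lit 0) (nat_lit 11146800171) (nat_lit 228) (nat_lit 1982100093) (nat_lit 0) (nat_lit 282904765) (nat_lit 46) (nat_lit 5) (nat_lit 49) (nat_lit 4) (nat_lit 46) (nat_lit 4) (nat_lit 491) (nat_lit 336) (nat_lit 313)) (XT.nd (nat_lit 78) (nat_lit 152) (nat_lit 0) (XT.lf (nat_lit 0) (nat_lit 2616769438) (nat_lit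 304) (nat_lit 5947266814) (nat_lit 76) (nat_lit 5006238140) (nat_lit 42) (nat_lit 5) (nat_lit 46) (nat_lit 5) (nat_lit 43) (nat_lit 4) (nat_lit 492) (nat_lit 336) (nat_lit 312)) (XT.lf (nat_lit 0) (nat_lit 3641540282) (nat_lit 152) (nat_lit 3901374036) (nat_lit 228) (nat_lit 6189163426) (nat_lit 40) (nat_lit 5) (nat_lit 42) (nat_lit 5) (nat_lit 43) (nat_lit 4) (nat_lit 493) (nat_lit 336) (nat_lit 311))))))) (XT.nd (nat_lit 858) (nat_lit 380) (nat_lit 0) (XT.nd (nat_lit 390) (nat_lit 760) (nat_lit 0) (XT.nd (nat_lit 156) (nat_lit 380) (nat_lit 0) (XT.nd (nat_lit 78) (nat_lit 228) (nat_lit 0) (XT.lf (nat_lit 0) (nat_lit 12553494834) (nat_lit 228) (nat_lit 506153709) (nat_lit 0) (nat_lit 837755565) (nat_lit 40) (nat_lit 5) (nat_lit 43) (nat_lit 4) (nat_lit 40) (nat_lit 4) (nat_lit 494) (nat_lit 336) (nat_lit 310)) (XT.lf (nat_lit 0) (nat_lit 3578562460) (nat_lit 228) (nat_lit 4828169024) (nat_lit 76) (nat_lit 5658293187) (nat_lit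 37) (nat_lit 5) (nat_lit 40) (nat_lit 5) (nat_lit 38) (nat_lit 4) (nat_lit 495) (nat_lit 336) (nat_lit 309))) (XT.nd (nat_lit 78) (nat_lit 228) (nat_lit 0) (XT.lf (nat_lit 0) (nat_lit 4896184811) (nat_lit 152) (nat_lit 3661977163) (nat_lit 228) (nat_lit 5678129442) (nat_lit 35) (nat_lit 5) (nat_lit 37) (nat_lit 5) (nat_lit 38) (nat_lit 4) (nat_lit 496) (nat_lit 336) (nat_lit 308)) (XT.nd (nat_lit 78) (nat_lit 76) (nat_lit 0) (XT.lf (nat_lit 0) (nat_lit 362083276) (nat_lit 152) (nat_lit 13259503303) (nat_lit 152) (nat_lit 789717059) (nat_lit 33) (nat_lit 4) (nat_lit 35) (nat_lit 5) (nat_lit 35) (nat_lit 4) (nat_lit 497) (nat_lit 336) (nat_lit 307)) (XT.lf (nat_lit 0) (nat_lit 4170471313) (nat_lit 228) (nat_lit 4360581815) (nat_lit 76) (nat_lit 6057641767) (nat_lit 32) (nat_lit 5) (nat_lit 35) (nat_lit 5) (nat_lit 33) (nat_lit 4) (nat_lit 498) (nat_lit 336) (nat_lit 306))))) (XT.nd (nat_lit 234) (nat_lit 380) (nat_lit 0) (XT.nd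 (nat_lit 78) (nat_lit 228) (nat_lit 0) (XT.lf (nat_lit 0) (nat_lit 5485572284) (nat_lit 152) (nat_lit 3712187327) (nat_lit 228) (nat_lit 5572205086) (nat_lit 30) (nat_lit 5) (nat_lit 32) (nat_lit 5) (nat_lit 33) (nat_lit 4) (nat_lit 499) (nat_lit 336) (nat_lit 305)) (XT.nd (nat_lit 78) (nat_lit 76) (nat_lit 0) (XT.lf (nat_lit 0) (nat_lit 529283966) (nat_lit 152) (nat_lit 13780017901) (nat_lit 152) (nat_lit 645888302) (nat_lit 28) (nat_lit 4) (nat_lit 30) (nat_lit 5) (nat_lit 30) (nat_lit 4) (nat_lit 500) (nat_lit 336) (nat_lit 304)) (XT.lf (nat_lit 0) (nat_lit 4351902503) (nat_lit 228) (nat_lit 4634434235) (nat_lit 76) (nat_lit 6156611489) (nat_lit 27) (nat_lit 5) (nat_lit 30) (nat_lit 5) (nat_lit 28) (nat_lit 4) (nat_lit 501) (nat_lit 336) (nat_lit 303)))) (XT.nd (nat_lit 78) (nat_lit 228) (nat_lit 0) (XT.lf (nat_lit 0) (nat_lit 5317130081) (nat_lit 152) (nat_lit 4102595804) (nat_lit 228) (nat_lit 5915079853) (nat_lit 25) (nat_lit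 5) (nat_lit 27) (nat_lit 5) (nat_lit 28) (nat_lit 4) (nat_lit 502) (nat_lit 336) (nat_lit 302)) (XT.nd (nat_lit 78) (nat_lit 228) (nat_lit 0) (XT.lf (nat_lit 0) (nat_lit 14570260127) (nat_lit 228) (nat_lit 106590767) (nat_lit 0) (nat_lit 854026518) (nat_lit 25) (nat_lit 5) (nat_lit 28) (nat_lit 4) (nat_lit 25) (nat_lit 4) (nat_lit 503) (nat_lit 336) (nat_lit 301)) (XT.lf (nat_lit 0) (nat_lit 4077078649) (nat_lit 228) (nat_lit 5749510200) (nat_lit 76) (nat_lit 5902997658) (nat_lit 22) (nat_lit 5) (nat_lit 25) (nat_lit 5) (nat_lit 23) (nat_lit 4) (nat_lit 504) (nat_lit 336) (nat_lit 300)))))) (XT.nd (nat_lit 56472) (nat_lit 0) (nat_lit 5548) (XT.nd (nat_lit 234) (nat_lit 76) (nat_lit 0) (XT.nd (nat_lit 78) (nat_lit 228) (nat_lit 0) (XT.lf (nat_lit 0) (nat_lit 4288104510) (nat_lit 76) (nat_lit 4888635597) (nat_lit 152) (nat_lit 6755925061) (nat_lit 21) (nat_lit 5) (nat_lit 22) (nat_lit 5) (nat_lit 23) (nat_lit 4) (nat_lit 505)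 (nat_lit 336) (nat_lit 299)) (XT.nd (nat_lit 78) (nat_lit 228) (nat_lit 0) (XT.lf (nat_lit 0) (nat_lit 14363831953) (nat_lit 152) (nat_lit 1635418239) (nat_lit 0) (nat_lit 140850258) (nat_lit 21) (nat_lit 5) (nat_lit 23) (nat_lit 4) (nat_lit 21) (nat_lit 4) (nat_lit 506) (nat_lit 336) (nat_lit 298)) (XT.lf (nat_lit 0) (nat_lit 3294518703) (nat_lit 228) (nat_lit 7816545666) (nat_lit 76) (nat_lit 5239497672) (nat_lit 18) (nat_lit 5) (nat_lit 21) (nat_lit 5) (nat_lit 19) (nat_lit 4) (nat_lit 507) (nat_lit 336) (nat_lit 297)))) (XT.nd (nat_lit 56082) (nat_lit 0) (nat_lit 7144) (XT.lf (nat_lit 0) (nat_lit 2284427955) (nat_lit 76) (nat_lit 6131176385) (nat_lit 152) (nat_lit 8149943933) (nat_lit 17) (nat_lit 5) (nat_lit 18) (nat_lit 5) (nat_lit 19) (nat_lit 4) (nat_lit 508) (nat_lit 336) (nat_lit 296)) (XT.nd (nat_lit 78) (nat_lit 380) (nat_lit 0) (XT.lf (nat_lit 0) (nat_lit 2619012914) (nat_lit 380) (nat_lit 1262172366) (nat_lit 380)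 (nat_lit 1262172366) (nat_lit 116) (nat_lit 4) (nat_lit 121) (nat_lit 5) (nat_lit 121) (nat_lit 4) (nat_lit 466) (nat_lit 337) (nat_lit 337)) (XT.lf (nat_lit 0) (nat_lit 2066420407) (nat_lit 380) (nat_lit 6962291353) (nat_lit 0) (nat_lit 1356644779) (nat_lit 111) (nat_lit 5) (nat_lit 116) (nat_lit 4) (nat_lit 111) (nat_lit 4) (nat_lit 467) (nat_lit 337) (nat_lit 336))))) (XT.nd (nat_lit 234) (nat_lit 912) (nat_lit 0) (XT.nd (nat_lit 78) (nat_lit 380) (nat_lit 0) (XT.lf (nat_lit 0) (nat_lit 1520125114) (nat_lit 304) (nat_lit 5185672159) (nat_lit 304) (nat_lit 3780038072) (nat_lit 107) (nat_lit 4) (nat_lit 111) (nat_lit 5) (nat_lit 111) (nat_lit 4) (nat_lit 468) (nat_lit 337) (nat_lit 335)) (XT.nd (nat_lit 78) (nat_lit 304) (nat_lit 0) (XT.lf (nat_lit 0) (nat_lit 815572136) (nat_lit 380) (nat_lit 440392546) (nat_lit 76) (nat_lit 9332717168) (nat_lit 106) (nat_lit 5) (nat_lit 111) (nat_lit 5) (nat_lit 107) (nat_lit 4) (nat_lit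 469) (nat_lit 337) (nat_lit 334)) (XT.lf (nat_lit 0) (nat_lit 5455470562) (nat_lit 380) (nat_lit 2484727458) (nat_lit 0) (nat_lit 2752837533) (nat_lit 102) (nat_lit 5) (nat_lit 107) (nat_lit 4) (nat_lit 102) (nat_lit 4) (nat_lit 470) (nat_lit 337) (nat_lit 333)))) (XT.nd (nat_lit 78) (nat_lit 608) (nat_lit 0) (XT.lf (nat_lit 0) (nat_lit 6197610923) (nat_lit 304) (nat_lit 3973853871) (nat_lit 304) (nat_lit 628355187) (nat_lit 98) (nat_lit 4) (nat_lit 102) (nat_lit 5) (nat_lit 102) (nat_lit 4) (nat_lit 471) (nat_lit 337) (nat_lit 332)) (XT.nd (nat_lit 78) (nat_lit 304) (nat_lit 0) (XT.lf (nat_lit 0) (nat_lit 3995553852) (nat_lit 304) (nat_lit 6815397126) (nat_lit 0) (nat_lit 97750784) (nat_lit 94) (nat_lit 5) (nat_lit 98) (nat_lit 4) (nat_lit 94) (nat_lit 4) (nat_lit 472) (nat_lit 337) (nat_lit 331)) (XT.lf (nat_lit 0) (nat_lit 1887659325) (nat_lit 304) (nat_lit 6817789571) (nat_lit 304) (nat_lit 2314199839) (nat_lit 90) (nat_lit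 4) (nat_lit 94) (nat_lit 5) (nat_lit 94) (nat_lit 4) (nat_lit 473) (nat_lit 337) (nat_lit 330))))))))
noncomputable def xc10 : XT := (XT.nd (nat_lit 1716) (nat_lit 1444) (nat_lit 0) (XT.nd (nat_lit 858) (nat_lit 1748) (nat_lit 0) (XT.nd (nat_lit 390) (nat_lit 1140) (nat_lit 0) (XT.nd (nat_lit 156) (nat_lit 836) (nat_lit 0) (XT.nd (nat_lit 78) (nat_lit 228) (nat_lit 0) (XT.lf (nat_lit 0) (nat_lit 2323996867) (nat_lit 380) (nat_lit 403024553) (nat_lit 76) (nat_lit 8405924489) (nat_lit 89) (nat_lit 5) (nat_lit 94) (nat_lit 5) (nat_lit 90) (nat_lit 4) (nat_lit 474) (nat_lit 337) (nat_lit 329)) (XT.lf (nat_lit 0) (nat_lit 7022391330) (nat_lit 304) (nat_lit 2771854128) (nat_lit 0) (nat_lit 1453997745) (nat_lit 86) (nat_lit 5) (nat_lit 90) (nat_lit 4) (nat_lit 86) (nat_lit 4) (nat_lit 475) (nat_lit 337) (nat_lit 328))) (XT.nd (nat_lit 78) (nat_lit 456) (nat_lit 0) (XT.lf (nat_lit 0) (nat_lit 437554051) (nat_lit 380) (nat_lit 5244187640)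 (nat_lit 76) (nat_lit 5684163974) (nat_lit 81) (nat_lit 5) (nat_lit 86) (nat_lit 5) (nat_lit 82) (nat_lit 4) (nat_lit 476) (nat_lit 337) (nat_lit 327)) (XT.nd (nat_lit 78) (nat_lit 228) (nat_lit 0) (XT.lf (nat_lit 0) (nat_lit 3654191221) (nat_lit 228) (nat_lit 1460124467) (nat_lit 304) (nat_lit 6371521636) (nat_lit 78) (nat_lit 5) (nat_lit 81) (nat_lit 5) (nat_lit 82) (nat_lit 4) (nat_lit 477) (nat_lit 337) (nat_lit 326)) (XT.lf (nat_lit 0) (nat_lit 1078490553) (nat_lit 228) (nat_lit 8801480890) (nat_lit 228) (nat_lit 1728296879) (nat_lit 75) (nat_lit 4) (nat_lit 78) (nat_lit 5) (nat_lit 78) (nat_lit 4) (nat_lit 478) (nat_lit 337) (nat_lit 325))))) (XT.nd (nat_lit 234) (nat_lit 532) (nat_lit 0) (XT.nd (nat_lit 78) (nat_lit 532) (nat_lit 0) (XT.lf (nat_lit 0) (nat_lit 2965502159) (nat_lit 304) (nat_lit 1599902734) (nat_lit 76) (nat_lit 7167416902) (nat_lit 74) (nat_lit 5) (nat_lit 78) (nat_lit 5) (nat_lit 75) (nat_lit 4) (nat_lit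 479) (nat_lit 337) (nat_lit 324)) (XT.nd (nat_lit 78) (nat_lit 304) (nat_lit 0) (XT.lf (nat_lit 0) (nat_lit 7486239339) (nat_lit 228) (nat_lit 228291164) (nat_lit 304) (nat_lit 4145424877) (nat_lit 71) (nat_lit 5) (nat_lit 74) (nat_lit 5) (nat_lit 75) (nat_lit 4) (nat_lit 480) (nat_lit 337) (nat_lit 323)) (XT.lf (nat_lit 0) (nat_lit 566240086) (nat_lit 304) (nat_lit 7281752219) (nat_lit 76) (nat_lit 4141476724) (nat_lit 67) (nat_lit 5) (nat_lit 71) (nat_lit 5) (nat_lit 68) (nat_lit 4) (nat_lit 481) (nat_lit 337) (nat_lit 322)))) (XT.nd (nat_lit 78) (nat_lit 304) (nat_lit 0) (XT.lf (nat_lit 0) (nat_lit 1793974557) (nat_lit 228) (nat_lit 3501664255) (nat_lit 304) (nat_lit 6825812960) (nat_lit 64) (nat_lit 5) (nat_lit 67) (nat_lit 5) (nat_lit 68) (nat_lit 4) (nat_lit 482) (nat_lit 337) (nat_lit 321)) (XT.nd (nat_lit 78) (nat_lit 304) (nat_lit 0) (XT.lf (nat_lit 0) (nat_lit 10111362112) (nat_lit 304) (nat_lit 1221275646) (nat_lit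 0) (nat_lit 923608543) (nat_lit 64) (nat_lit 5) (nat_lit 68) (nat_lit 4) (nat_lit 64) (nat_lit 4) (nat_lit 483) (nat_lit 337) (nat_lit 320)) (XT.lf (nat_lit 0) (nat_lit 2608402494) (nat_lit 304) (nat_lit 4368888944) (nat_lit 76) (nat_lit 5415845851) (nat_lit 60) (nat_lit 5) (nat_lit 64) (nat_lit 5) (nat_lit 61) (nat_lit 4) (nat_lit 484) (nat_lit 337) (nat_lit 319)))))) (XT.nd (nat_lit 390) (nat_lit 836) (nat_lit 0) (XT.nd (nat_lit 156) (nat_lit 532) (nat_lit 0) (XT.nd (nat_lit 78) (nat_lit 228) (nat_lit 0) (XT.lf (nat_lit 0) (nat_lit 4880685983) (nat_lit 152) (nat_lit 2525170811) (nat_lit 228) (nat_lit 5127075778) (nat_lit 58) (nat_lit 5) (nat_lit 60) (nat_lit 5) (nat_lit 61) (nat_lit 4) (nat_lit 485) (nat_lit 337) (nat_lit 318)) (XT.lf (nat_lit 0) (nat_lit 1599290915) (nat_lit 228) (nat_lit 10691039721) (nat_lit 228) (nat_lit 385378055) (nat_lit 55) (nat_lit 4) (nat_lit 58) (nat_lit 5) (nat_lit 58) (nat_lit 4) (nat_lit 486)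 (nat_lit 337) (nat_lit 317))) (XT.nd (nat_lit 78) (nat_lit 456) (nat_lit 0) (XT.lf (nat_lit 0) (nat_lit 4399380617) (nat_lit 304) (nat_lit 1834743419) (nat_lit 76) (nat_lit 6586512302) (nat_lit 54) (nat_lit 5) (nat_lit 58) (nat_lit 5) (nat_lit 55) (nat_lit 4) (nat_lit 487) (nat_lit 337) (nat_lit 316)) (XT.nd (nat_lit 78) (nat_lit 304) (nat_lit 0) (XT.lf (nat_lit 0) (nat_lit 7582725190) (nat_lit 152) (nat_lit 1680588926) (nat_lit 228) (nat_lit 3705330650) (nat_lit 52) (nat_lit 5) (nat_lit 54) (nat_lit 5) (nat_lit 55) (nat_lit 4) (nat_lit 488) (nat_lit 337) (nat_lit 315)) (XT.lf (nat_lit 0) (nat_lit 1087760259) (nat_lit 304) (nat_lit 9105521057) (nat_lit 76) (nat_lit 2926247544) (nat_lit 48) (nat_lit 5) (nat_lit 52) (nat_lit 5) (nat_lit 49) (nat_lit 4) (nat_lit 489) (nat_lit 337) (nat_lit 314))))) (XT.nd (nat_lit 234) (nat_lit 380) (nat_lit 0) (XT.nd (nat_lit 78) (nat_lit 304) (nat_lit 0) (XT.lf (nat_lit 0) (nat_lit 263519967)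 (nat_lit 152) (nat_lit 5652559214) (nat_lit 228) (nat_lit 7357087627) (nat_lit 46) (nat_lit 5) (nat_lit 48) (nat_lit 5) (nat_lit 49) (nat_lit 4) (nat_lit 490) (nat_lit 337) (nat_lit 313)) (XT.nd (nat_lit 78) (nat_lit 304) (nat_lit 0) (XT.lf (nat_lit 0) (nat_lit 9837806690) (nat_lit 152) (nat_lit 1004469179) (nat_lit 228) (nat_lit 2587580939) (nat_lit 46) (nat_lit 5) (nat_lit 48) (nat_lit 5) (nat_lit 49) (nat_lit 4) (nat_lit 491) (nat_lit 337) (nat_lit 312)) (XT.lf (nat_lit 0) (nat_lit 2251538838) (nat_lit 304) (nat_lit 7640946681) (nat_lit 76) (nat_lit 3696822868) (nat_lit 42) (nat_lit 5) (nat_lit 46) (nat_lit 5) (nat_lit 43) (nat_lit 4) (nat_lit 492) (nat_lit 337) (nat_lit 311)))) (XT.nd (nat_lit 78) (nat_lit 228) (nat_lit 0) (XT.lf (nat_lit 0) (nat_lit 1872942347) (nat_lit 152) (nat_lit 5264139284) (nat_lit 228) (nat_lit 6614844725) (nat_lit 40) (nat_lit 5) (nat_lit 42) (nat_lit 5) (nat_lit 43) (nat_lit 4) (nat_lit 493) (nat_lit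 337) (nat_lit 310)) (XT.nd (nat_lit 78) (nat_lit 228) (nat_lit 0) (XT.lf (nat_lit 0) (nat_lit 11576891937) (nat_lit 152) (nat_lit 536376840) (nat_lit 228) (nat_lit 1804674336) (nat_lit 40) (nat_lit 5) (nat_lit 42) (nat_lit 5) (nat_lit 43) (nat_lit 4) (nat_lit 494) (nat_lit 337) (nat_lit 309)) (XT.lf (nat_lit 0) (nat_lit 3079220192) (nat_lit 228) (nat_lit 6753540819) (nat_lit 76) (nat_lit 4253757327) (nat_lit 37) (nat_lit 5) (nat_lit 40) (nat_lit 5) (nat_lit 38) (nat_lit 4) (nat_lit 495) (nat_lit 337) (nat_lit 308))))))) (XT.nd (nat_lit 858) (nat_lit 228) (nat_lit 0) (XT.nd (nat_lit 390) (nat_lit 684) (nat_lit 0) (XT.nd (nat_lit 156) (nat_lit 380) (nat_lit 0) (XT.nd (nat_lit 78) (nat_lit 0) (nat_lit 0) (XT.lf (nat_lit 0) (nat_lit 2893703923) (nat_lit 152) (nat_lit 5123696631) (nat_lit 228) (nat_lit 6241215290) (nat_lit 35) (nat_lit 5) (nat_lit 37) (nat_lit 5) (nat_lit 38) (nat_lit 4) (nat_lit 496) (nat_lit 337) (nat_lit 307))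 (XT.lf (nat_lit 0) (nat_lit 12723405988) (nat_lit 152) (nat_lit 319317658) (nat_lit 228) (nat_lit 1391668783) (nat_lit 35) (nat_lit 5) (nat_lit 37) (nat_lit 5) (nat_lit 38) (nat_lit 4) (nat_lit 497) (nat_lit 337) (nat_lit 306))) (XT.nd (nat_lit 78) (nat_lit 152) (nat_lit 0) (XT.lf (nat_lit 0) (nat_lit 3534715289) (nat_lit 228) (nat_lit 6524623550) (nat_lit 76) (nat_lit 4553359235) (nat_lit 32) (nat_lit 5) (nat_lit 35) (nat_lit 5) (nat_lit 33) (nat_lit 4) (nat_lit 498) (nat_lit 337) (nat_lit 305)) (XT.nd (nat_lit 78) (nat_lit 0) (nat_lit 0) (XT.lf (nat_lit 0) (nat_lit 3242130918) (nat_lit 152) (nat_lit 5277566811) (nat_lit 228) (nat_lit 6275118461) (nat_lit 30) (nat_lit 5) (nat_lit 32) (nat_lit 5) (nat_lit 33) (nat_lit 4) (nat_lit 499) (nat_lit 337) (nat_lit 304)) (XT.lf (nat_lit 0) (nat_lit 13192375107) (nat_lit 152) (nat_lit 400201253) (nat_lit 228) (nat_lit 1388240728) (nat_lit 30) (nat_lit 5) (nat_lit 32) (nat_lit 5) (nat_lit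 33) (nat_lit 4) (nat_lit 500) (nat_lit 337) (nat_lit 303))))) (XT.nd (nat_lit 234) (nat_lit 304) (nat_lit 0) (XT.nd (nat_lit 78) (nat_lit 152) (nat_lit 0) (XT.lf (nat_lit 0) (nat_lit 3577217459) (nat_lit 228) (nat_lit 7044390177) (nat_lit 76) (nat_lit 4547907351) (nat_lit 27) (nat_lit 5) (nat_lit 30) (nat_lit 5) (nat_lit 28) (nat_lit 4) (nat_lit 501) (nat_lit 337) (nat_lit 302)) (XT.nd (nat_lit 78) (nat_lit 0) (nat_lit 0) (XT.lf (nat_lit 0) (nat_lit 2825380238) (nat_lit 152) (nat_lit 5776397859) (nat_lit 228) (nat_lit 6760461687) (nat_lit 25) (nat_lit 5) (nat_lit 27) (nat_lit 5) (nat_lit 28) (nat_lit 4) (nat_lit 502) (nat_lit 337) (nat_lit 301)) (XT.lf (nat_lit 0) (nat_lit 12889476736) (nat_lit 152) (nat_lit 830346644) (nat_lit 228) (nat_lit 1839139847) (nat_lit 25) (nat_lit 5) (nat_lit 27) (nat_lit 5) (nat_lit 28) (nat_lit 4) (nat_lit 503) (nat_lit 337) (nat_lit 300)))) (XT.nd (nat_lit 78) (nat_lit 76) (nat_lit 0) (XT.lf (nat_lit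 0) (nat_lit 3160734391) (nat_lit 228) (nat_lit 8412906684) (nat_lit 76) (nat_lit 4185134113) (nat_lit 22) (nat_lit 5) (nat_lit 25) (nat_lit 5) (nat_lit 23) (nat_lit 4) (nat_lit 504) (nat_lit 337) (nat_lit 299)) (XT.nd (nat_lit 78) (nat_lit 0) (nat_lit 0) (XT.lf (nat_lit 0) (nat_lit 1540411775) (nat_lit 76) (nat_lit 6675693546) (nat_lit 152) (nat_lit 7746636215) (nat_lit 21) (nat_lit 5) (nat_lit 22) (nat_lit 5) (nat_lit 23) (nat_lit 4) (nat_lit 505) (nat_lit 337) (nat_lit 298)) (XT.lf (nat_lit 0) (nat_lit 11709992389) (nat_lit 76) (nat_lit 1666034814) (nat_lit 152) (nat_lit 2794694853) (nat_lit 21) (nat_lit 5) (nat_lit 22) (nat_lit 5) (nat_lit 23) (nat_lit 4) (nat_lit 506) (nat_lit 337) (nat_lit 297)))))) (XT.nd (nat_lit 56316) (nat_lit 0) (nat_lit 5472) (XT.nd (nat_lit 56082) (nat_lit 0) (nat_lit 7068) (XT.nd (nat_lit 78) (nat_lit 0) (nat_lit 0) (XT.lf (nat_lit 0) (nat_lit 2233567793) (nat_lit 228) (nat_lit 10741207090) (nat_lit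 76) (nat_lit 3407660404) (nat_lit 18) (nat_lit 5) (nat_lit 21) (nat_lit 5) (nat_lit 19) (nat_lit 4) (nat_lit 507) (nat_lit 337) (nat_lit 296)) (XT.nd (nat_lit 55926) (nat_lit 0) (nat_lit 8208) (XT.lf (nat_lit 0) (nat_lit 7313984425) (nat_lit 228) (nat_lit 717608009) (nat_lit 76) (nat_lit 8566644198) (nat_lit 18) (nat_lit 5) (nat_lit 21) (nat_lit 5) (nat_lit 19) (nat_lit 4) (nat_lit 508) (nat_lit 337) (nat_lit 295)) (XT.lf (nat_lit 0) (nat_lit 4359379594) (nat_lit 380) (nat_lit 344068395) (nat_lit 380) (nat_lit 344068395) (nat_lit 126) (nat_lit 4) (nat_lit 131) (nat_lit 5) (nat_lit 131) (nat_lit 4) (nat_lit 464) (nat_lit 338) (nat_lit 338)))) (XT.nd (nat_lit 78) (nat_lit 760) (nat_lit 0) (XT.lf (nat_lit 0) (nat_lit 3859037949) (nat_lit 380) (nat_lit 3210469619) (nat_lit 0) (nat_lit 3120587386) (nat_lit 121) (nat_lit 5) (nat_lit 126) (nat_lit 4) (nat_lit 121) (nat_lit 4) (nat_lit 465) (nat_lit 338) (nat_lit 337)) (XT.nd (nat_lit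 78) (nat_lit 380) (nat_lit 0) (XT.lf (nat_lit 0) (nat_lit 5182473150) (nat_lit 380) (nat_lit 3283681269) (nat_lit 380) (nat_lit 1821259565) (nat_lit 116) (nat_lit 4) (nat_lit 121) (nat_lit 5) (nat_lit 121) (nat_lit 4) (nat_lit 466) (nat_lit 338) (nat_lit 336)) (XT.lf (nat_lit 0) (nat_lit 2720266447) (nat_lit 380) (nat_lit 7075841776) (nat_lit 0) (nat_lit 590661219) (nat_lit 111) (nat_lit 5) (nat_lit 116) (nat_lit 4) (nat_lit 111) (nat_lit 4) (nat_lit 467) (nat_lit 338) (nat_lit 335))))) (XT.nd (nat_lit 234) (nat_lit 912) (nat_lit 0) (XT.nd (nat_lit 78) (nat_lit 380) (nat_lit 0) (XT.lf (nat_lit 0) (nat_lit 1349222409) (nat_lit 304) (nat_lit 5975276589) (nat_lit 304) (nat_lit 3163457186) (nat_lit 107) (nat_lit 4) (nat_lit 111) (nat_lit 5) (nat_lit 111) (nat_lit 4) (nat_lit 468) (nat_lit 338) (nat_lit 334)) (XT.nd (nat_lit 78) (nat_lit 304) (nat_lit 0) (XT.lf (nat_lit 0) (nat_lit 1390115422) (nat_lit 380) (nat_lit 672623677) (nat_lit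 76) (nat_lit 8528667398) (nat_lit 106) (nat_lit 5) (nat_lit 111) (nat_lit 5) (nat_lit 107) (nat_lit 4) (nat_lit 469) (nat_lit 338) (nat_lit 333)) (XT.lf (nat_lit 0) (nat_lit 5989458745) (nat_lit 380) (nat_lit 2772932879) (nat_lit 0) (nat_lit 1934184433) (nat_lit 102) (nat_lit 5) (nat_lit 107) (nat_lit 4) (nat_lit 102) (nat_lit 4) (nat_lit 470) (nat_lit 338) (nat_lit 332)))) (XT.nd (nat_lit 78) (nat_lit 608) (nat_lit 0) (XT.lf (nat_lit 0) (nat_lit 5850558662) (nat_lit 304) (nat_lit 4819524322) (nat_lit 304) (nat_lit 133989565) (nat_lit 98) (nat_lit 4) (nat_lit 102) (nat_lit 5) (nat_lit 102) (nat_lit 4) (nat_lit 471) (nat_lit 338) (nat_lit 331)) (XT.nd (nat_lit 78) (nat_lit 304) (nat_lit 0) (XT.lf (nat_lit 0) (nat_lit 3679630461) (nat_lit 228) (nat_lit 767432715) (nat_lit 304) (nat_lit 6466558895) (nat_lit 94) (nat_lit 5) (nat_lit 97) (nat_lit 5) (nat_lit 98) (nat_lit 4) (nat_lit 472) (nat_lit 338) (nat_lit 330)) (XT.lf (nat_lit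 0) (nat_lit 1413281133) (nat_lit 304) (nat_lit 7702733927) (nat_lit 304) (nat_lit 1909377242) (nat_lit 90) (nat_lit 4) (nat_lit 94) (nat_lit 5) (nat_lit 94) (nat_lit 4) (nat_lit 473) (nat_lit 338) (nat_lit 329))))))))
noncomputable def xc11 : XT := (XT.nd (nat_lit 1716) (nat_lit 1444) (nat_lit 0) (XT.nd (nat_lit 858) (nat_lit 1748) (nat_lit 0) (XT.nd (nat_lit 390) (nat_lit 1140) (nat_lit 0) (XT.nd (nat_lit 156) (nat_lit 836) (nat_lit 0) (XT.nd (nat_lit 78) (nat_lit 228) (nat_lit 0) (XT.lf (nat_lit 0) (nat_lit 2690702484) (nat_lit 380) (nat_lit 940400898) (nat_lit 76) (nat_lit 7508193904) (nat_lit 89) (nat_lit 5) (nat_lit 94) (nat_lit 5) (nat_lit 90) (nat_lit 4) (nat_lit 474) (nat_lit 338) (nat_lit 328)) (XT.lf (nat_lit 0) (nat_lit 7347010337) (nat_lit 304) (nat_lit 3371680777) (nat_lit 0) (nat_lit 536749338) (nat_lit 86) (nat_lit 5) (nat_lit 90) (nat_lit 4) (nat_lit 86) (nat_lit 4) (nat_lit 475) (nat_lit 338) (nat_lit 327)))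 (XT.nd (nat_lit 78) (nat_lit 456) (nat_lit 0) (XT.lf (nat_lit 0) (nat_lit 714251117) (nat_lit 380) (nat_lit 5916153388) (nat_lit 76) (nat_lit 4743392405) (nat_lit 81) (nat_lit 5) (nat_lit 86) (nat_lit 5) (nat_lit 82) (nat_lit 4) (nat_lit 476) (nat_lit 338) (nat_lit 326)) (XT.nd (nat_lit 78) (nat_lit 228) (nat_lit 0) (XT.lf (nat_lit 0) (nat_lit 2918799538) (nat_lit 228) (nat_lit 2435488286) (nat_lit 304) (nat_lit 6140179147) (nat_lit 78) (nat_lit 5) (nat_lit 81) (nat_lit 5) (nat_lit 82) (nat_lit 4) (nat_lit 477) (nat_lit 338) (nat_lit 325)) (XT.lf (nat_lit 0) (nat_lit 276358527) (nat_lit 228) (nat_lit 9800232422) (nat_lit 228) (nat_lit 1541177898) (nat_lit 75) (nat_lit 4) (nat_lit 78) (nat_lit 5) (nat_lit 78) (nat_lit 4) (nat_lit 478) (nat_lit 338) (nat_lit 324))))) (XT.nd (nat_lit 234) (nat_lit 532) (nat_lit 0) (XT.nd (nat_lit 78) (nat_lit 532) (nat_lit 0) (XT.lf (nat_lit 0) (nat_lit 3118418504) (nat_lit 304) (nat_lit 2466744325)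 (nat_lit 76) (nat_lit 6157773840) (nat_lit 74) (nat_lit 5) (nat_lit 78) (nat_lit 5) (nat_lit 75) (nat_lit 4) (nat_lit 479) (nat_lit 338) (nat_lit 323)) (XT.nd (nat_lit 78) (nat_lit 304) (nat_lit 0) (XT.lf (nat_lit 0) (nat_lit 6554238963) (nat_lit 228) (nat_lit 1276030703) (nat_lit 304) (nat_lit 4040547737) (nat_lit 71) (nat_lit 5) (nat_lit 74) (nat_lit 5) (nat_lit 75) (nat_lit 4) (nat_lit 480) (nat_lit 338) (nat_lit 322)) (XT.lf (nat_lit 0) (nat_lit 625136573) (nat_lit 304) (nat_lit 8296162933) (nat_lit 76) (nat_lit 3079913497) (nat_lit 67) (nat_lit 5) (nat_lit 71) (nat_lit 5) (nat_lit 68) (nat_lit 4) (nat_lit 481) (nat_lit 338) (nat_lit 321)))) (XT.nd (nat_lit 78) (nat_lit 304) (nat_lit 0) (XT.lf (nat_lit 0) (nat_lit 712244551) (nat_lit 228) (nat_lit 4604327804) (nat_lit 304) (nat_lit 6817386047) (nat_lit 64) (nat_lit 5) (nat_lit 67) (nat_lit 5) (nat_lit 68) (nat_lit 4) (nat_lit 482) (nat_lit 338) (nat_lit 320)) (XT.nd (nat_lit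 78) (nat_lit 304) (nat_lit 0) (XT.lf (nat_lit 0) (nat_lit 9906655894) (nat_lit 228) (nat_lit 188887712) (nat_lit 304) (nat_lit 2173947697) (nat_lit 64) (nat_lit 5) (nat_lit 67) (nat_lit 5) (nat_lit 68) (nat_lit 4) (nat_lit 483) (nat_lit 338) (nat_lit 319)) (XT.lf (nat_lit 0) (nat_lit 2540169771) (nat_lit 304) (nat_lit 5590867458) (nat_lit 76) (nat_lit 4276143044) (nat_lit 60) (nat_lit 5) (nat_lit 64) (nat_lit 5) (nat_lit 61) (nat_lit 4) (nat_lit 484) (nat_lit 338) (nat_lit 318)))))) (XT.nd (nat_lit 390) (nat_lit 836) (nat_lit 0) (XT.nd (nat_lit 156) (nat_lit 532) (nat_lit 0) (XT.nd (nat_lit 78) (nat_lit 228) (nat_lit 0) (XT.lf (nat_lit 0) (nat_lit 3589501156) (nat_lit 152) (nat_lit 3709578898) (nat_lit 228) (nat_lit 5248669522) (nat_lit 58) (nat_lit 5) (nat_lit 60) (nat_lit 5) (nat_lit 61) (nat_lit 4) (nat_lit 485) (nat_lit 338) (nat_lit 317)) (XT.lf (nat_lit 0) (nat_lit 230642451) (nat_lit 228) (nat_lit 11906285773) (nat_lit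 228) (nat_lit 554533061) (nat_lit 55) (nat_lit 4) (nat_lit 58) (nat_lit 5) (nat_lit 58) (nat_lit 4) (nat_lit 486) (nat_lit 338) (nat_lit 316))) (XT.nd (nat_lit 78) (nat_lit 456) (nat_lit 0) (XT.lf (nat_lit 0) (nat_lit 4202445574) (nat_lit 304) (nat_lit 3270489709) (nat_lit 76) (nat_lit 5364078541) (nat_lit 54) (nat_lit 5) (nat_lit 58) (nat_lit 5) (nat_lit 55) (nat_lit 4) (nat_lit 487) (nat_lit 338) (nat_lit 315)) (XT.nd (nat_lit 78) (nat_lit 304) (nat_lit 0) (XT.lf (nat_lit 0) (nat_lit 6075800110) (nat_lit 152) (nat_lit 2951384678) (nat_lit 228) (nat_lit 3958624251) (nat_lit 52) (nat_lit 5) (nat_lit 54) (nat_lit 5) (nat_lit 55) (nat_lit 4) (nat_lit 488) (nat_lit 338) (nat_lit 314)) (XT.lf (nat_lit 0) (nat_lit 789598855) (nat_lit 304) (nat_lit 10709872689) (nat_lit 76) (nat_lit 1638221063) (nat_lit 48) (nat_lit 5) (nat_lit 52) (nat_lit 5) (nat_lit 49) (nat_lit 4) (nat_lit 489) (nat_lit 338) (nat_lit 313))))) (XT.nd (nat_lit 234)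 (nat_lit 380) (nat_lit 0) (XT.nd (nat_lit 78) (nat_lit 456) (nat_lit 0) (XT.lf (nat_lit 0) (nat_lit 5586946401) (nat_lit 304) (nat_lit 1395861231) (nat_lit 76) (nat_lit 6309145082) (nat_lit 48) (nat_lit 5) (nat_lit 52) (nat_lit 5) (nat_lit 49) (nat_lit 4) (nat_lit 490) (nat_lit 338) (nat_lit 312)) (XT.nd (nat_lit 78) (nat_lit 304) (nat_lit 0) (XT.lf (nat_lit 0) (nat_lit 8108641072) (nat_lit 152) (nat_lit 2366299377) (nat_lit 228) (nat_lit 2974468997) (nat_lit 46) (nat_lit 5) (nat_lit 48) (nat_lit 5) (nat_lit 49) (nat_lit 4) (nat_lit 491) (nat_lit 338) (nat_lit 311)) (XT.lf (nat_lit 0) (nat_lit 1820182890) (nat_lit 304) (nat_lit 9472979775) (nat_lit 76) (nat_lit 2316742015) (nat_lit 42) (nat_lit 5) (nat_lit 46) (nat_lit 5) (nat_lit 43) (nat_lit 4) (nat_lit 492) (nat_lit 338) (nat_lit 310)))) (XT.nd (nat_lit 78) (nat_lit 380) (nat_lit 0) (XT.lf (nat_lit 0) (nat_lit 6665017087) (nat_lit 304) (nat_lit 34363141) (nat_lit 76) (nat_lit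 7073959115) (nat_lit 42) (nat_lit 5) (nat_lit 46) (nat_lit 5) (nat_lit 43) (nat_lit 4) (nat_lit 493) (nat_lit 338) (nat_lit 309)) (XT.nd (nat_lit 78) (nat_lit 228) (nat_lit 0) (XT.lf (nat_lit 0) (nat_lit 9618754967) (nat_lit 152) (nat_lit 1993907681) (nat_lit 228) (nat_lit 2327266758) (nat_lit 40) (nat_lit 5) (nat_lit 42) (nat_lit 5) (nat_lit 43) (nat_lit 4) (nat_lit 494) (nat_lit 338) (nat_lit 308)) (XT.lf (nat_lit 0) (nat_lit 2512487290) (nat_lit 228) (nat_lit 8820129366) (nat_lit 76) (nat_lit 2776978103) (nat_lit 37) (nat_lit 5) (nat_lit 40) (nat_lit 5) (nat_lit 38) (nat_lit 4) (nat_lit 495) (nat_lit 338) (nat_lit 307))))))) (XT.nd (nat_lit 858) (nat_lit 228) (nat_lit 0) (XT.nd (nat_lit 390) (nat_lit 684) (nat_lit 0) (XT.nd (nat_lit 156) (nat_lit 380) (nat_lit 0) (XT.nd (nat_lit 78) (nat_lit 0) (nat_lit 0) (XT.lf (nat_lit 0) (nat_lit 749139821) (nat_lit 152) (nat_lit 6659743392) (nat_lit 228) (nat_lit 6873647072) (nat_lit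 35) (nat_lit 5) (nat_lit 37) (nat_lit 5) (nat_lit 38) (nat_lit 4) (nat_lit 496) (nat_lit 338) (nat_lit 306)) (XT.lf (nat_lit 0) (nat_lit 10529320629) (nat_lit 152) (nat_lit 1877249928) (nat_lit 228) (nat_lit 2052291314) (nat_lit 35) (nat_lit 5) (nat_lit 37) (nat_lit 5) (nat_lit 38) (nat_lit 4) (nat_lit 497) (nat_lit 338) (nat_lit 305))) (XT.nd (nat_lit 78) (nat_lit 152) (nat_lit 0) (XT.lf (nat_lit 0) (nat_lit 2830209448) (nat_lit 228) (nat_lit 8832898639) (nat_lit 76) (nat_lit 2975198361) (nat_lit 32) (nat_lit 5) (nat_lit 35) (nat_lit 5) (nat_lit 33) (nat_lit 4) (nat_lit 498) (nat_lit 338) (nat_lit 304)) (XT.nd (nat_lit 78) (nat_lit 0) (nat_lit 0) (XT.lf (nat_lit 0) (nat_lit 853532365) (nat_lit 152) (nat_lit 6918955127) (nat_lit 228) (nat_lit 7048793313) (nat_lit 30) (nat_lit 5) (nat_lit 32) (nat_lit 5) (nat_lit 33) (nat_lit 4) (nat_lit 499) (nat_lit 338) (nat_lit 303)) (XT.lf (nat_lit 0) (nat_lit 10755102337) (nat_lit 152)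 (nat_lit 2063284990) (nat_lit 228) (nat_lit 2189436066) (nat_lit 30) (nat_lit 5) (nat_lit 32) (nat_lit 5) (nat_lit 33) (nat_lit 4) (nat_lit 500) (nat_lit 338) (nat_lit 302))))) (XT.nd (nat_lit 234) (nat_lit 304) (nat_lit 0) (XT.nd (nat_lit 78) (nat_lit 152) (nat_lit 0) (XT.lf (nat_lit 0) (nat_lit 2732327720) (nat_lit 228) (nat_lit 9601755828) (nat_lit 76) (nat_lit 2863627857) (nat_lit 27) (nat_lit 5) (nat_lit 30) (nat_lit 5) (nat_lit 28) (nat_lit 4) (nat_lit 501) (nat_lit 338) (nat_lit 301)) (XT.nd (nat_lit 78) (nat_lit 0) (nat_lit 0) (XT.lf (nat_lit 0) (nat_lit 185237509) (nat_lit 152) (nat_lit 7527955711) (nat_lit 228) (nat_lit 7678118873) (nat_lit 25) (nat_lit 5) (nat_lit 27) (nat_lit 5) (nat_lit 28) (nat_lit 4) (nat_lit 502) (nat_lit 338) (nat_lit 300)) (XT.lf (nat_lit 0) (nat_lit 10201499660) (nat_lit 152) (nat_lit 2603395350) (nat_lit 228) (nat_lit 2783669349) (nat_lit 25) (nat_lit 5) (nat_lit 27) (nat_lit 5) (nat_lit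 28) (nat_lit 4) (nat_lit 503) (nat_lit 338) (nat_lit 299)))) (XT.nd (nat_lit 78) (nat_lit 76) (nat_lit 0) (XT.lf (nat_lit 0) (nat_lit 2172632864) (nat_lit 228) (nat_lit 11227055826) (nat_lit 76) (nat_lit 2389931349) (nat_lit 22) (nat_lit 5) (nat_lit 25) (nat_lit 5) (nat_lit 23) (nat_lit 4) (nat_lit 504) (nat_lit 338) (nat_lit 298)) (XT.nd (nat_lit 78) (nat_lit 76) (nat_lit 0) (XT.lf (nat_lit 0) (nat_lit 7192070377) (nat_lit 228) (nat_lit 1341253639) (nat_lit 76) (nat_lit 7460982879) (nat_lit 22) (nat_lit 5) (nat_lit 25) (nat_lit 5) (nat_lit 23) (nat_lit 4) (nat_lit 505) (nat_lit 338) (nat_lit 297)) (XT.lf (nat_lit 0) (nat_lit 8763500195) (nat_lit 76) (nat_lit 3553939284) (nat_lit 152) (nat_lit 3885540793) (nat_lit 21) (nat_lit 5) (nat_lit 22) (nat_lit 5) (nat_lit 23) (nat_lit 4) (nat_lit 506) (nat_lit 338) (nat_lit 296)))))) (XT.nd (nat_lit 56160) (nat_lit 0) (nat_lit 6004) (XT.nd (nat_lit 55926) (nat_lit 0) (nat_lit 7828) (XT.nd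 (nat_lit 78) (nat_lit 0) (nat_lit 0) (XT.lf (nat_lit 0) (nat_lit 1099207158) (nat_lit 228) (nat_lit 13820137736) (nat_lit 76) (nat_lit 1496648420) (nat_lit 18) (nat_lit 5) (nat_lit 21) (nat_lit 5) (nat_lit 19) (nat_lit 4) (nat_lit 507) (nat_lit 338) (nat_lit 295)) (XT.nd (nat_lit 55770) (nat_lit 0) (nat_lit 8588) (XT.lf (nat_lit 0) (nat_lit 6154293413) (nat_lit 228) (nat_lit 3843022830) (nat_lit 76) (nat_lit 6634986723) (nat_lit 18) (nat_lit 5) (nat_lit 21) (nat_lit 5) (nat_lit 19) (nat_lit 4) (nat_lit 508) (nat_lit 338) (nat_lit 294)) (XT.lf (nat_lit 0) (nat_lit 535569613) (nat_lit 380) (nat_lit 3883516403) (nat_lit 0) (nat_lit 535569613) (nat_lit 131) (nat_lit 5) (nat_lit 136) (nat_lit 4) (nat_lit 131) (nat_lit 4) (nat_lit 462) (nat_lit 339) (nat_lit 339)))) (XT.nd (nat_lit 78) (nat_lit 380) (nat_lit 0) (XT.lf (nat_lit 0) (nat_lit 369478152) (nat_lit 380) (nat_lit 5200112792) (nat_lit 380) (nat_lit 4431828825) (nat_lit 126)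 (nat_lit 4) (nat_lit 131) (nat_lit 5) (nat_lit 131) (nat_lit 4) (nat_lit 463) (nat_lit 339) (nat_lit 338)) (XT.nd (nat_lit 78) (nat_lit 304) (nat_lit 0) (XT.lf (nat_lit 0) (nat_lit 44596311) (nat_lit 456) (nat_lit 1431418991) (nat_lit 76) (nat_lit 8619702520) (nat_lit 125) (nat_lit 5) (nat_lit 131) (nat_lit 5) (nat_lit 126) (nat_lit 4) (nat_lit 464) (nat_lit 339) (nat_lit 337)) (XT.lf (nat_lit 0) (nat_lit 4542959363) (nat_lit 380) (nat_lit 3321214292) (nat_lit 0) (nat_lit 2327318084) (nat_lit 121) (nat_lit 5) (nat_lit 126) (nat_lit 4) (nat_lit 121) (nat_lit 4) (nat_lit 465) (nat_lit 339) (nat_lit 336))))) (XT.nd (nat_lit 234) (nat_lit 760) (nat_lit 0) (XT.nd (nat_lit 78) (nat_lit 684) (nat_lit 0) (XT.lf (nat_lit 0) (nat_lit 5015793328) (nat_lit 380) (nat_lit 4099566955) (nat_lit 380) (nat_lit 1174150048) (nat_lit 116) (nat_lit 4) (nat_lit 121) (nat_lit 5) (nat_lit 121) (nat_lit 4) (nat_lit 466) (nat_lit 339) (nat_lit 335)) (XT.nd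 (nat_lit 78) (nat_lit 304) (nat_lit 0) (XT.lf (nat_lit 0) (nat_lit 3085052947) (nat_lit 304) (nat_lit 234911564) (nat_lit 380) (nat_lit 7069600788) (nat_lit 111) (nat_lit 5) (nat_lit 115) (nat_lit 5) (nat_lit 116) (nat_lit 4) (nat_lit 467) (nat_lit 339) (nat_lit 334)) (XT.lf (nat_lit 0) (nat_lit 1064310100) (nat_lit 304) (nat_lit 6823144566) (nat_lit 304) (nat_lit 2604037172) (nat_lit 107) (nat_lit 4) (nat_lit 111) (nat_lit 5) (nat_lit 111) (nat_lit 4) (nat_lit 468) (nat_lit 339) (nat_lit 333)))) (XT.nd (nat_lit 78) (nat_lit 684) (nat_lit 0) (XT.lf (nat_lit 0) (nat_lit 1908913216) (nat_lit 380) (nat_lit 1018825664) (nat_lit 76) (nat_lit 7667801092) (nat_lit 106) (nat_lit 5) (nat_lit 111) (nat_lit 5) (nat_lit 107) (nat_lit 4) (nat_lit 469) (nat_lit 339) (nat_lit 332)) (XT.nd (nat_lit 78) (nat_lit 380) (nat_lit 0) (XT.lf (nat_lit 0) (nat_lit 6467230960) (nat_lit 380) (nat_lit 3176578687) (nat_lit 0) (nat_lit 1057725061) (nat_lit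 102) (nat_lit 5) (nat_lit 107) (nat_lit 4) (nat_lit 102) (nat_lit 4) (nat_lit 470) (nat_lit 339) (nat_lit 331)) (XT.lf (nat_lit 0) (nat_lit 298667709) (nat_lit 380) (nat_lit 5424099522) (nat_lit 76) (nat_lit 5086938704) (nat_lit 97) (nat_lit 5) (nat_lit 102) (nat_lit 5) (nat_lit 98) (nat_lit 4) (nat_lit 471) (nat_lit 339) (nat_lit 330))))))))
noncomputable def xc12 : XT := (XT.nd (nat_lit 1716) (nat_lit 1824) (nat_lit 0) (XT.nd (nat_lit 858) (nat_lit 1900) (nat_lit 0) (XT.nd (nat_lit 390) (nat_lit 1064) (nat_lit 0) (XT.nd (nat_lit 156) (nat_lit 684) (nat_lit 0) (XT.nd (nat_lit 78) (nat_lit 304) (nat_lit 0) (XT.lf (nat_lit 0) (nat_lit 3147885713) (nat_lit 228) (nat_lit 1694233431) (nat_lit 304) (nat_lit 6077840189) (nat_lit 94) (nat_lit 5) (nat_lit 97) (nat_lit 5) (nat_lit 98) (nat_lit 4) (nat_lit 472) (nat_lit 339) (nat_lit 329)) (XT.lf (nat_lit 0) (nat_lit 819959681) (nat_lit 304) (nat_lit 8649005923) (nat_lit 304) (nat_lit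 1563610379) (nat_lit 90) (nat_lit 4) (nat_lit 94) (nat_lit 5) (nat_lit 94) (nat_lit 4) (nat_lit 473) (nat_lit 339) (nat_lit 328))) (XT.nd (nat_lit 78) (nat_lit 608) (nat_lit 0) (XT.lf (nat_lit 0) (nat_lit 2999770179) (nat_lit 380) (nat_lit 1596706084) (nat_lit 76) (nat_lit 6550607232) (nat_lit 89) (nat_lit 5) (nat_lit 94) (nat_lit 5) (nat_lit 90) (nat_lit 4) (nat_lit 474) (nat_lit 339) (nat_lit 327)) (XT.nd (nat_lit 78) (nat_lit 380) (nat_lit 0) (XT.lf (nat_lit 0) (nat_lit 7169131639) (nat_lit 228) (nat_lit 447218225) (nat_lit 304) (nat_lit 3647675422) (nat_lit 86) (nat_lit 5) (nat_lit 89) (nat_lit 5) (nat_lit 90) (nat_lit 4) (nat_lit 475) (nat_lit 339) (nat_lit 326)) (XT.lf (nat_lit 0) (nat_lit 931942558) (nat_lit 380) (nat_lit 6710196357) (nat_lit 76) (nat_lit 3741005738) (nat_lit 81) (nat_lit 5) (nat_lit 86) (nat_lit 5) (nat_lit 82) (nat_lit 4) (nat_lit 476) (nat_lit 339) (nat_lit 325))))) (XT.nd (nat_lit 234) (nat_lit 532)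 (nat_lit 0) (XT.nd (nat_lit 78) (nat_lit 304) (nat_lit 0) (XT.lf (nat_lit 0) (nat_lit 2060776837) (nat_lit 228) (nat_lit 3474307771) (nat_lit 304) (nat_lit 5969471825) (nat_lit 78) (nat_lit 5) (nat_lit 81) (nat_lit 5) (nat_lit 82) (nat_lit 4) (nat_lit 477) (nat_lit 339) (nat_lit 324)) (XT.nd (nat_lit 78) (nat_lit 304) (nat_lit 0) (XT.lf (nat_lit 0) (nat_lit 10217660541) (nat_lit 304) (nat_lit 641499403) (nat_lit 0) (nat_lit 769496660) (nat_lit 78) (nat_lit 5) (nat_lit 82) (nat_lit 4) (nat_lit 78) (nat_lit 4) (nat_lit 478) (nat_lit 339) (nat_lit 323)) (XT.lf (nat_lit 0) (nat_lit 3211518623) (nat_lit 304) (nat_lit 3457852320) (nat_lit 76) (nat_lit 5085147672) (nat_lit 74) (nat_lit 5) (nat_lit 78) (nat_lit 5) (nat_lit 75) (nat_lit 4) (nat_lit 479) (nat_lit 339) (nat_lit 322)))) (XT.nd (nat_lit 78) (nat_lit 304) (nat_lit 0) (XT.lf (nat_lit 0) (nat_lit 5497372493) (nat_lit 228) (nat_lit 2388619713) (nat_lit 304) (nat_lit 3997158230)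 (nat_lit 71) (nat_lit 5) (nat_lit 74) (nat_lit 5) (nat_lit 75) (nat_lit 4) (nat_lit 480) (nat_lit 339) (nat_lit 321)) (XT.nd (nat_lit 78) (nat_lit 0) (nat_lit 0) (XT.lf (nat_lit 0) (nat_lit 622712926) (nat_lit 304) (nat_lit 9438188923) (nat_lit 76) (nat_lit 1953546831) (nat_lit 67) (nat_lit 5) (nat_lit 71) (nat_lit 5) (nat_lit 68) (nat_lit 4) (nat_lit 481) (nat_lit 339) (nat_lit 320)) (XT.lf (nat_lit 0) (nat_lit 5279191367) (nat_lit 304) (nat_lit 491213054) (nat_lit 76) (nat_lit 6377492135) (nat_lit 67) (nat_lit 5) (nat_lit 71) (nat_lit 5) (nat_lit 68) (nat_lit 4) (nat_lit 482) (nat_lit 339) (nat_lit 319)))))) (XT.nd (nat_lit 390) (nat_lit 912) (nat_lit 0) (XT.nd (nat_lit 156) (nat_lit 456) (nat_lit 0) (XT.nd (nat_lit 78) (nat_lit 304) (nat_lit 0) (XT.lf (nat_lit 0) (nat_lit 8644922624) (nat_lit 228) (nat_lit 1379934136) (nat_lit 304) (nat_lit 2259242079) (nat_lit 64) (nat_lit 5) (nat_lit 67) (nat_lit 5) (nat_lit 68) (nat_lit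 4) (nat_lit 483) (nat_lit 339) (nat_lit 318)) (XT.lf (nat_lit 0) (nat_lit 2409647599) (nat_lit 304) (nat_lit 6942875371) (nat_lit 76) (nat_lit 3070205984) (nat_lit 60) (nat_lit 5) (nat_lit 64) (nat_lit 5) (nat_lit 61) (nat_lit 4) (nat_lit 484) (nat_lit 339) (nat_lit 317))) (XT.nd (nat_lit 78) (nat_lit 304) (nat_lit 0) (XT.lf (nat_lit 0) (nat_lit 2167597472) (nat_lit 152) (nat_lit 4962159065) (nat_lit 228) (nat_lit 5434320823) (nat_lit 58) (nat_lit 5) (nat_lit 60) (nat_lit 5) (nat_lit 61) (nat_lit 4) (nat_lit 485) (nat_lit 339) (nat_lit 316)) (XT.nd (nat_lit 78) (nat_lit 304) (nat_lit 0) (XT.lf (nat_lit 0) (nat_lit 11451553885) (nat_lit 152) (nat_lit 480077411) (nat_lit 228) (nat_lit 776880259) (nat_lit 58) (nat_lit 5) (nat_lit 60) (nat_lit 5) (nat_lit 61) (nat_lit 4) (nat_lit 486) (nat_lit 339) (nat_lit 315)) (XT.lf (nat_lit 0) (nat_lit 3942162968) (nat_lit 304) (nat_lit 4838809621) (nat_lit 76) (nat_lit 4073940308) (nat_lit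 54) (nat_lit 5) (nat_lit 58) (nat_lit 5) (nat_lit 55) (nat_lit 4) (nat_lit 487) (nat_lit 339) (nat_lit 314))))) (XT.nd (nat_lit 234) (nat_lit 456) (nat_lit 0) (XT.nd (nat_lit 78) (nat_lit 304) (nat_lit 0) (XT.lf (nat_lit 0) (nat_lit 4435561116) (nat_lit 152) (nat_lit 4291857891) (nat_lit 228) (nat_lit 4277081610) (nat_lit 52) (nat_lit 5) (nat_lit 54) (nat_lit 5) (nat_lit 55) (nat_lit 4) (nat_lit 488) (nat_lit 339) (nat_lit 313)) (XT.nd (nat_lit 78) (nat_lit 0) (nat_lit 0) (XT.lf (nat_lit 0) (nat_lit 426368155) (nat_lit 304) (nat_lit 12450489734) (nat_lit 76) (nat_lit 280549379) (nat_lit 48) (nat_lit 5) (nat_lit 52) (nat_lit 5) (nat_lit 49) (nat_lit 4) (nat_lit 489) (nat_lit 339) (nat_lit 312)) (XT.lf (nat_lit 0) (nat_lit 5195029006) (nat_lit 304) (nat_lit 3187040489) (nat_lit 76) (nat_lit 4930174295) (nat_lit 48) (nat_lit 5) (nat_lit 52) (nat_lit 5) (nat_lit 49) (nat_lit 4) (nat_lit 490) (nat_lit 339) (nat_lit 311)))) (XT.nd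 (nat_lit 78) (nat_lit 304) (nat_lit 0) (XT.lf (nat_lit 0) (nat_lit 6243428420) (nat_lit 152) (nat_lit 3799360225) (nat_lit 228) (nat_lit 3427719191) (nat_lit 46) (nat_lit 5) (nat_lit 48) (nat_lit 5) (nat_lit 49) (nat_lit 4) (nat_lit 491) (nat_lit 339) (nat_lit 310)) (XT.nd (nat_lit 78) (nat_lit 0) (nat_lit 0) (XT.lf (nat_lit 0) (nat_lit 1322532434) (nat_lit 304) (nat_lit 11444084539) (nat_lit 76) (nat_lit 865454371) (nat_lit 42) (nat_lit 5) (nat_lit 46) (nat_lit 5) (nat_lit 43) (nat_lit 4) (nat_lit 492) (nat_lit 339) (nat_lit 309)) (XT.lf (nat_lit 0) (nat_lit 6139378187) (nat_lit 304) (nat_lit 2055182043) (nat_lit 76) (nat_lit 5601508022) (nat_lit 42) (nat_lit 5) (nat_lit 46) (nat_lit 5) (nat_lit 43) (nat_lit 4) (nat_lit 493) (nat_lit 339) (nat_lit 308))))))) (XT.nd (nat_lit 858) (nat_lit 304) (nat_lit 0) (XT.nd (nat_lit 390) (nat_lit 760) (nat_lit 0) (XT.nd (nat_lit 156) (nat_lit 380) (nat_lit 0) (XT.nd (nat_lit 78) (nat_lit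 228) (nat_lit 0) (XT.lf (nat_lit 0) (nat_lit 7521693375) (nat_lit 152) (nat_lit 3524275208) (nat_lit 228) (nat_lit 2917513261) (nat_lit 40) (nat_lit 5) (nat_lit 42) (nat_lit 5) (nat_lit 43) (nat_lit 4) (nat_lit 494) (nat_lit 339) (nat_lit 307)) (XT.lf (nat_lit 0) (nat_lit 1878141507) (nat_lit 228) (nat_lit 11028745090) (nat_lit 76) (nat_lit 1227376385) (nat_lit 37) (nat_lit 5) (nat_lit 40) (nat_lit 5) (nat_lit 38) (nat_lit 4) (nat_lit 495) (nat_lit 339) (nat_lit 306))) (XT.nd (nat_lit 78) (nat_lit 380) (nat_lit 0) (XT.lf (nat_lit 0) (nat_lit 6742359296) (nat_lit 228) (nat_lit 1518172782) (nat_lit 76) (nat_lit 6047312280) (nat_lit 37) (nat_lit 5) (nat_lit 40) (nat_lit 5) (nat_lit 38) (nat_lit 4) (nat_lit 496) (nat_lit 339) (nat_lit 305)) (XT.nd (nat_lit 78) (nat_lit 228) (nat_lit 0) (XT.lf (nat_lit 0) (nat_lit 8193282057) (nat_lit 152) (nat_lit 3509682735) (nat_lit 228) (nat_lit 2781955031) (nat_lit 35) (nat_lit 5) (nat_lit 37)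 (nat_lit 5) (nat_lit 38) (nat_lit 4) (nat_lit 497) (nat_lit 339) (nat_lit 304)) (XT.lf (nat_lit 0) (nat_lit 2056677513) (nat_lit 228) (nat_lit 11286312288) (nat_lit 76) (nat_lit 1322540259) (nat_lit 32) (nat_lit 5) (nat_lit 35) (nat_lit 5) (nat_lit 33) (nat_lit 4) (nat_lit 498) (nat_lit 339) (nat_lit 303))))) (XT.nd (nat_lit 234) (nat_lit 380) (nat_lit 0) (XT.nd (nat_lit 78) (nat_lit 380) (nat_lit 0) (XT.lf (nat_lit 0) (nat_lit 6966751088) (nat_lit 228) (nat_lit 1659111360) (nat_lit 76) (nat_lit 6223288172) (nat_lit 32) (nat_lit 5) (nat_lit 35) (nat_lit 5) (nat_lit 33) (nat_lit 4) (nat_lit 499) (nat_lit 339) (nat_lit 302)) (XT.nd (nat_lit 78) (nat_lit 228) (nat_lit 0) (XT.lf (nat_lit 0) (nat_lit 8172690072) (nat_lit 152) (nat_lit 3802595841) (nat_lit 228) (nat_lit 3061156665) (nat_lit 30) (nat_lit 5) (nat_lit 32) (nat_lit 5) (nat_lit 33) (nat_lit 4) (nat_lit 500) (nat_lit 339) (nat_lit 301)) (XT.lf (nat_lit 0) (nat_lit 1816901955)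 (nat_lit 228) (nat_lit 12307534076) (nat_lit 76) (nat_lit 1103112504) (nat_lit 27) (nat_lit 5) (nat_lit 30) (nat_lit 5) (nat_lit 28) (nat_lit 4) (nat_lit 501) (nat_lit 339) (nat_lit 300)))) (XT.nd (nat_lit 78) (nat_lit 380) (nat_lit 0) (XT.lf (nat_lit 0) (nat_lit 6770531850) (nat_lit 228) (nat_lit 2570177153) (nat_lit 76) (nat_lit 6080986885) (nat_lit 27) (nat_lit 5) (nat_lit 30) (nat_lit 5) (nat_lit 28) (nat_lit 4) (nat_lit 502) (nat_lit 339) (nat_lit 299)) (XT.nd (nat_lit 78) (nat_lit 228) (nat_lit 0) (XT.lf (nat_lit 0) (nat_lit 7365032277) (nat_lit 152) (nat_lit 4454465349) (nat_lit 228) (nat_lit 3800307161) (nat_lit 25) (nat_lit 5) (nat_lit 27) (nat_lit 5) (nat_lit 28) (nat_lit 4) (nat_lit 503) (nat_lit 339) (nat_lit 298)) (XT.lf (nat_lit 0) (nat_lit 1112386580) (nat_lit 228) (nat_lit 14193061213) (nat_lit 76) (nat_lit 516685364) (nat_lit 22) (nat_lit 5) (nat_lit 25) (nat_lit 5) (nat_lit 23) (nat_lit 4) (nat_lit 504) (nat_lit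 339) (nat_lit 297)))))) (XT.nd (nat_lit 56004) (nat_lit 0) (nat_lit 7068) (XT.nd (nat_lit 234) (nat_lit 228) (nat_lit 0) (XT.nd (nat_lit 78) (nat_lit 76) (nat_lit 0) (XT.lf (nat_lit 0) (nat_lit 6106400520) (nat_lit 228) (nat_lit 4353644806) (nat_lit 76) (nat_lit 5567284959) (nat_lit 22) (nat_lit 5) (nat_lit 25) (nat_lit 5) (nat_lit 23) (nat_lit 4) (nat_lit 505) (nat_lit 339) (nat_lit 296)) (XT.nd (nat_lit 78) (nat_lit 0) (nat_lit 0) (XT.lf (nat_lit 0) (nat_lit 5664995324) (nat_lit 76) (nat_lit 5521731679) (nat_lit 152) (nat_lit 5050179280) (nat_lit 21) (nat_lit 5) (nat_lit 22) (nat_lit 5) (nat_lit 23) (nat_lit 4) (nat_lit 506) (nat_lit 339) (nat_lit 295)) (XT.lf (nat_lit 0) (nat_lit 15851765378) (nat_lit 76) (nat_lit 496155966) (nat_lit 152) (nat_lit 103170729) (nat_lit 21) (nat_lit 5) (nat_lit 22) (nat_lit 5) (nat_lit 23) (nat_lit 4) (nat_lit 507) (nat_lit 339) (nat_lit 294)))) (XT.nd (nat_lit 55614) (nat_lit 0) (nat_lit 8968)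 (XT.lf (nat_lit 0) (nat_lit 4921244500) (nat_lit 228) (nat_lit 7123002841) (nat_lit 76) (nat_lit 4623809928) (nat_lit 18) (nat_lit 5) (nat_lit 21) (nat_lit 5) (nat_lit 19) (nat_lit 4) (nat_lit 508) (nat_lit 339) (nat_lit 293)) (XT.nd (nat_lit 78) (nat_lit 380) (nat_lit 0) (XT.lf (nat_lit 0) (nat_lit 1379677553) (nat_lit 456) (nat_lit 2105440729) (nat_lit 0) (nat_lit 1379677553) (nat_lit 141) (nat_lit 5) (nat_lit 147) (nat_lit 4) (nat_lit 141) (nat_lit 4) (nat_lit 460) (nat_lit 340) (nat_lit 340)) (XT.lf (nat_lit 0) (nat_lit 3831542366) (nat_lit 380) (nat_lit 3393276504) (nat_lit 380) (nat_lit 2593953866) (nat_lit 136) (nat_lit 4) (nat_lit 141) (nat_lit 5) (nat_lit 141) (nat_lit 4) (nat_lit 461) (nat_lit 340) (nat_lit 339))))) (XT.nd (nat_lit 234) (nat_lit 1064) (nat_lit 0) (XT.nd (nat_lit 78) (nat_lit 456) (nat_lit 0) (XT.lf (nat_lit 0) (nat_lit 1820194926) (nat_lit 380) (nat_lit 7821552581) (nat_lit 0) (nat_lit 268261314) (nat_lit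 131) (nat_lit 5) (nat_lit 136) (nat_lit 4) (nat_lit 131) (nat_lit 4) (nat_lit 462) (nat_lit 340) (nat_lit 338)) (XT.nd (nat_lit 78) (nat_lit 76) (nat_lit 0) (XT.lf (nat_lit 0) (nat_lit 260072745) (nat_lit 380) (nat_lit 6023947934) (nat_lit 380) (nat_lit 3718794747) (nat_lit 126) (nat_lit 4) (nat_lit 131) (nat_lit 5) (nat_lit 131) (nat_lit 4) (nat_lit 463) (nat_lit 340) (nat_lit 337)) (XT.lf (nat_lit 0) (nat_lit 714455566) (nat_lit 456) (nat_lit 1600403506) (nat_lit 76) (nat_lit 7782843640) (nat_lit 125) (nat_lit 5) (nat_lit 131) (nat_lit 5) (nat_lit 126) (nat_lit 4) (nat_lit 464) (nat_lit 340) (nat_lit 336)))) (XT.nd (nat_lit 78) (nat_lit 760) (nat_lit 0) (XT.lf (nat_lit 0) (nat_lit 5172619832) (nat_lit 380) (nat_lit 3542747067) (nat_lit 0) (nat_lit 1478918958) (nat_lit 121) (nat_lit 5) (nat_lit 126) (nat_lit 4) (nat_lit 121) (nat_lit 4) (nat_lit 465) (nat_lit 340) (nat_lit 335)) (XT.nd (nat_lit 78) (nat_lit 380) (nat_lit 0)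 (XT.lf (nat_lit 0) (nat_lit 4737920998) (nat_lit 380) (nat_lit 4972321746) (nat_lit 380) (nat_lit 582762414) (nat_lit 116) (nat_lit 4) (nat_lit 121) (nat_lit 5) (nat_lit 121) (nat_lit 4) (nat_lit 466) (nat_lit 340) (nat_lit 334)) (XT.lf (nat_lit 0) (nat_lit 2742563751) (nat_lit 304) (nat_lit 1125920040) (nat_lit 380) (nat_lit 6525206734) (nat_lit 111) (nat_lit 5) (nat_lit 115) (nat_lit 5) (nat_lit 116) (nat_lit 4) (nat_lit 467) (nat_lit 340) (nat_lit 333))))))))
noncomputable def xc13 : XT := (XT.nd (nat_lit 1716) (nat_lit 2508) (nat_lit 0) (XT.nd (nat_lit 858) (nat_lit 2052) (nat_lit 0) (XT.nd (nat_lit 390) (nat_lit 1216) (nat_lit 0) (XT.nd (nat_lit 156) (nat_lit 912) (nat_lit 0) (XT.nd (nat_lit 78) (nat_lit 76) (nat_lit 0) (XT.lf (nat_lit 0) (nat_lit 665276457) (nat_lit 304) (nat_lit 7729608587) (nat_lit 304) (nat_lit 2101558651) (nat_lit 107) (nat_lit 4) (nat_lit 111) (nat_lit 5) (nat_lit 111) (nat_lit 4) (nat_lit 468) (nat_lit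 340) (nat_lit 332)) (XT.lf (nat_lit 0) (nat_lit 2372168970) (nat_lit 380) (nat_lit 1479134271) (nat_lit 76) (nat_lit 6749780657) (nat_lit 106) (nat_lit 5) (nat_lit 111) (nat_lit 5) (nat_lit 107) (nat_lit 4) (nat_lit 469) (nat_lit 340) (nat_lit 331))) (XT.nd (nat_lit 78) (nat_lit 608) (nat_lit 0) (XT.lf (nat_lit 0) (nat_lit 6888974567) (nat_lit 380) (nat_lit 3695823173) (nat_lit 0) (nat_lit 123115708) (nat_lit 102) (nat_lit 5) (nat_lit 107) (nat_lit 4) (nat_lit 102) (nat_lit 4) (nat_lit 470) (nat_lit 340) (nat_lit 330)) (XT.nd (nat_lit 78) (nat_lit 228) (nat_lit 0) (XT.lf (nat_lit 0) (nat_lit 672754717) (nat_lit 380) (nat_lit 6012680994) (nat_lit 76) (nat_lit 4131316029) (nat_lit 97) (nat_lit 5) (nat_lit 102) (nat_lit 5) (nat_lit 98) (nat_lit 4) (nat_lit 471) (nat_lit 340) (nat_lit 329)) (XT.lf (nat_lit 0) (nat_lit 2498517825) (nat_lit 228) (nat_lit 2681715760) (nat_lit 304) (nat_lit 5747495313) (nat_lit 94) (nat_lit 5) (nat_lit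 97) (nat_lit 5) (nat_lit 98) (nat_lit 4) (nat_lit 472) (nat_lit 340) (nat_lit 328))))) (XT.nd (nat_lit 234) (nat_lit 608) (nat_lit 0) (XT.nd (nat_lit 78) (nat_lit 304) (nat_lit 0) (XT.lf (nat_lit 0) (nat_lit 107462293) (nat_lit 304) (nat_lit 9656976644) (nat_lit 304) (nat_lit 1276763655) (nat_lit 90) (nat_lit 4) (nat_lit 94) (nat_lit 5) (nat_lit 94) (nat_lit 4) (nat_lit 473) (nat_lit 340) (nat_lit 327)) (XT.nd (nat_lit 78) (nat_lit 228) (nat_lit 0) (XT.lf (nat_lit 0) (nat_lit 3251321157) (nat_lit 380) (nat_lit 2372197488) (nat_lit 76) (nat_lit 5532788946) (nat_lit 89) (nat_lit 5) (nat_lit 94) (nat_lit 5) (nat_lit 90) (nat_lit 4) (nat_lit 474) (nat_lit 340) (nat_lit 326)) (XT.lf (nat_lit 0) (nat_lit 6331174783) (nat_lit 228) (nat_lit 1500370096) (nat_lit 304) (nat_lit 3442435603) (nat_lit 86) (nat_lit 5) (nat_lit 89) (nat_lit 5) (nat_lit 90) (nat_lit 4) (nat_lit 475) (nat_lit 340) (nat_lit 325)))) (XT.nd (nat_lit 78) (nat_lit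 228) (nat_lit 0) (XT.lf (nat_lit 0) (nat_lit 1090713744) (nat_lit 380) (nat_lit 7626627937) (nat_lit 76) (nat_lit 2676610882) (nat_lit 81) (nat_lit 5) (nat_lit 86) (nat_lit 5) (nat_lit 82) (nat_lit 4) (nat_lit 476) (nat_lit 340) (nat_lit 324)) (XT.nd (nat_lit 78) (nat_lit 0) (nat_lit 0) (XT.lf (nat_lit 0) (nat_lit 1079786639) (nat_lit 228) (nat_lit 4576990304) (nat_lit 304) (nat_lit 5859332728) (nat_lit 78) (nat_lit 5) (nat_lit 81) (nat_lit 5) (nat_lit 82) (nat_lit 4) (nat_lit 477) (nat_lit 340) (nat_lit 323)) (XT.lf (nat_lit 0) (nat_lit 9959978061) (nat_lit 228) (nat_lit 343871458) (nat_lit 304) (nat_lit 1337074068) (nat_lit 78) (nat_lit 5) (nat_lit 81) (nat_lit 5) (nat_lit 82) (nat_lit 4) (nat_lit 478) (nat_lit 340) (nat_lit 322)))))) (XT.nd (nat_lit 390) (nat_lit 988) (nat_lit 0) (XT.nd (nat_lit 156) (nat_lit 532) (nat_lit 0) (XT.nd (nat_lit 78) (nat_lit 228) (nat_lit 0) (XT.lf (nat_lit 0) (nat_lit 3244839026) (nat_lit 304)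 (nat_lit 4573615389) (nat_lit 76) (nat_lit 3949117759) (nat_lit 74) (nat_lit 5) (nat_lit 78) (nat_lit 5) (nat_lit 75) (nat_lit 4) (nat_lit 479) (nat_lit 340) (nat_lit 321)) (XT.lf (nat_lit 0) (nat_lit 4315225469) (nat_lit 228) (nat_lit 3566494502) (nat_lit 304) (nat_lit 4015239341) (nat_lit 71) (nat_lit 5) (nat_lit 74) (nat_lit 5) (nat_lit 75) (nat_lit 4) (nat_lit 480) (nat_lit 340) (nat_lit 320))) (XT.nd (nat_lit 78) (nat_lit 228) (nat_lit 0) (XT.lf (nat_lit 0) (nat_lit 558968193) (nat_lit 304) (nat_lit 10708278042) (nat_lit 76) (nat_lit 761935016) (nat_lit 67) (nat_lit 5) (nat_lit 71) (nat_lit 5) (nat_lit 68) (nat_lit 4) (nat_lit 481) (nat_lit 340) (nat_lit 319)) (XT.nd (nat_lit 78) (nat_lit 228) (nat_lit 0) (XT.lf (nat_lit 0) (nat_lit 5185708422) (nat_lit 304) (nat_lit 1812371194) (nat_lit 76) (nat_lit 5165147541) (nat_lit 67) (nat_lit 5) (nat_lit 71) (nat_lit 5) (nat_lit 68) (nat_lit 4) (nat_lit 482) (nat_lit 340) (nat_lit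 318)) (XT.lf (nat_lit 0) (nat_lit 7255473948) (nat_lit 228) (nat_lit 2637723534) (nat_lit 304) (nat_lit 2406998685) (nat_lit 64) (nat_lit 5) (nat_lit 67) (nat_lit 5) (nat_lit 68) (nat_lit 4) (nat_lit 483) (nat_lit 340) (nat_lit 317))))) (XT.nd (nat_lit 234) (nat_lit 532) (nat_lit 0) (XT.nd (nat_lit 78) (nat_lit 152) (nat_lit 0) (XT.lf (nat_lit 0) (nat_lit 2216784790) (nat_lit 304) (nat_lit 8425442883) (nat_lit 76) (nat_lit 1797561753) (nat_lit 60) (nat_lit 5) (nat_lit 64) (nat_lit 5) (nat_lit 61) (nat_lit 4) (nat_lit 484) (nat_lit 340) (nat_lit 316)) (XT.nd (nat_lit 78) (nat_lit 0) (nat_lit 0) (XT.lf (nat_lit 0) (nat_lit 614417323) (nat_lit 152) (nat_lit 6283402520) (nat_lit 228) (nat_lit 5684102484) (nat_lit 58) (nat_lit 5) (nat_lit 60) (nat_lit 5) (nat_lit 61) (nat_lit 4) (nat_lit 485) (nat_lit 340) (nat_lit 315)) (XT.lf (nat_lit 0) (nat_lit 9848461878) (nat_lit 152) (nat_lit 1822487477) (nat_lit 228) (nat_lit 1055985030)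 (nat_lit 58) (nat_lit 5) (nat_lit 60) (nat_lit 5) (nat_lit 61) (nat_lit 4) (nat_lit 486) (nat_lit 340) (nat_lit 314)))) (XT.nd (nat_lit 78) (nat_lit 228) (nat_lit 0) (XT.lf (nat_lit 0) (nat_lit 3618430726) (nat_lit 304) (nat_lit 6540318179) (nat_lit 76) (nat_lit 2715591667) (nat_lit 54) (nat_lit 5) (nat_lit 58) (nat_lit 5) (nat_lit 55) (nat_lit 4) (nat_lit 487) (nat_lit 340) (nat_lit 313)) (XT.nd (nat_lit 78) (nat_lit 76) (nat_lit 0) (XT.lf (nat_lit 0) (nat_lit 2661364974) (nat_lit 152) (nat_lit 5702534242) (nat_lit 228) (nat_lit 4660827613) (nat_lit 52) (nat_lit 5) (nat_lit 54) (nat_lit 5) (nat_lit 55) (nat_lit 4) (nat_lit 488) (nat_lit 340) (nat_lit 312)) (XT.lf (nat_lit 0) (nat_lit 12986229) (nat_lit 228) (nat_lit 1141897972) (nat_lit 76) (nat_lit 12023495166) (nat_lit 51) (nat_lit 5) (nat_lit 54) (nat_lit 5) (nat_lit 52) (nat_lit 5) (nat_lit 489) (nat_lit 340) (nat_lit 311))))))) (XT.nd (nat_lit 858) (nat_lit 912) (nat_lit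 0) (XT.nd (nat_lit 390) (nat_lit 760) (nat_lit 0) (XT.nd (nat_lit 156) (nat_lit 456) (nat_lit 0) (XT.nd (nat_lit 78) (nat_lit 152) (nat_lit 0) (XT.lf (nat_lit 0) (nat_lit 4738462355) (nat_lit 304) (nat_lit 5114176339) (nat_lit 76) (nat_lit 3481443515) (nat_lit 48) (nat_lit 5) (nat_lit 52) (nat_lit 5) (nat_lit 49) (nat_lit 4) (nat_lit 490) (nat_lit 340) (nat_lit 310)) (XT.lf (nat_lit 0) (nat_lit 4241437276) (nat_lit 152) (nat_lit 5304213707) (nat_lit 228) (nat_lit 3947509267) (nat_lit 46) (nat_lit 5) (nat_lit 48) (nat_lit 5) (nat_lit 49) (nat_lit 4) (nat_lit 491) (nat_lit 340) (nat_lit 309))) (XT.nd (nat_lit 78) (nat_lit 152) (nat_lit 0) (XT.lf (nat_lit 0) (nat_lit 96370214) (nat_lit 228) (nat_lit 666348474) (nat_lit 304) (nat_lit 12893011858) (nat_lit 42) (nat_lit 5) (nat_lit 45) (nat_lit 5) (nat_lit 46) (nat_lit 5) (nat_lit 492) (nat_lit 340) (nat_lit 308)) (XT.nd (nat_lit 78) (nat_lit 152) (nat_lit 0) (XT.lf (nat_lit 0) (nat_lit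 5547798415) (nat_lit 304) (nat_lit 4214870811) (nat_lit 76) (nat_lit 4057695975) (nat_lit 42) (nat_lit 5) (nat_lit 46) (nat_lit 5) (nat_lit 43) (nat_lit 4) (nat_lit 493) (nat_lit 340) (nat_lit 307)) (XT.lf (nat_lit 0) (nat_lit 5284884783) (nat_lit 152) (nat_lit 5128079565) (nat_lit 228) (nat_lit 3575645313) (nat_lit 40) (nat_lit 5) (nat_lit 42) (nat_lit 5) (nat_lit 43) (nat_lit 4) (nat_lit 494) (nat_lit 340) (nat_lit 306))))) (XT.nd (nat_lit 234) (nat_lit 380) (nat_lit 0) (XT.nd (nat_lit 78) (nat_lit 152) (nat_lit 0) (XT.lf (nat_lit 0) (nat_lit 777623511) (nat_lit 152) (nat_lit 400913565) (nat_lit 228) (nat_lit 12981943548) (nat_lit 37) (nat_lit 5) (nat_lit 39) (nat_lit 5) (nat_lit 40) (nat_lit 5) (nat_lit 495) (nat_lit 340) (nat_lit 305)) (XT.nd (nat_lit 78) (nat_lit 152) (nat_lit 0) (XT.lf (nat_lit 0) (nat_lit 6013373220) (nat_lit 228) (nat_lit 3917595315) (nat_lit 76) (nat_lit 4403683339) (nat_lit 37) (nat_lit 5) (nat_lit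 40) (nat_lit 5) (nat_lit 38) (nat_lit 4) (nat_lit 496) (nat_lit 340) (nat_lit 304)) (XT.lf (nat_lit 0) (nat_lit 5714374176) (nat_lit 152) (nat_lit 5217256248) (nat_lit 228) (nat_lit 3580946078) (nat_lit 35) (nat_lit 5) (nat_lit 37) (nat_lit 5) (nat_lit 38) (nat_lit 4) (nat_lit 497) (nat_lit 340) (nat_lit 303)))) (XT.nd (nat_lit 78) (nat_lit 152) (nat_lit 0) (XT.lf (nat_lit 0) (nat_lit 805833439) (nat_lit 152) (nat_lit 410648905) (nat_lit 228) (nat_lit 13477843920) (nat_lit 32) (nat_lit 5) (nat_lit 34) (nat_lit 5) (nat_lit 35) (nat_lit 5) (nat_lit 498) (nat_lit 340) (nat_lit 302)) (XT.nd (nat_lit 78) (nat_lit 152) (nat_lit 0) (XT.lf (nat_lit 0) (nat_lit 6097749741) (nat_lit 228) (nat_lit 4305719660) (nat_lit 76) (nat_lit 4475055617) (nat_lit 32) (nat_lit 5) (nat_lit 35) (nat_lit 5) (nat_lit 33) (nat_lit 4) (nat_lit 499) (nat_lit 340) (nat_lit 301)) (XT.lf (nat_lit 0) (nat_lit 5444125603) (nat_lit 152) (nat_lit 5618815889) (nat_lit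 228) (nat_lit 4003744377) (nat_lit 30) (nat_lit 5) (nat_lit 32) (nat_lit 5) (nat_lit 33) (nat_lit 4) (nat_lit 500) (nat_lit 340) (nat_lit 300)))))) (XT.nd (nat_lit 468) (nat_lit 228) (nat_lit 0) (XT.nd (nat_lit 234) (nat_lit 304) (nat_lit 0) (XT.nd (nat_lit 78) (nat_lit 152) (nat_lit 0) (XT.lf (nat_lit 0) (nat_lit 91324333) (nat_lit 152) (nat_lit 744087953) (nat_lit 228) (nat_lit 14423529171) (nat_lit 27) (nat_lit 5) (nat_lit 29) (nat_lit 5) (nat_lit 30) (nat_lit 5) (nat_lit 501) (nat_lit 340) (nat_lit 299)) (XT.nd (nat_lit 78) (nat_lit 152) (nat_lit 0) (XT.lf (nat_lit 0) (nat_lit 5758688598) (nat_lit 228) (nat_lit 5471710452) (nat_lit 76) (nat_lit 4223298744) (nat_lit 27) (nat_lit 5) (nat_lit 30) (nat_lit 5) (nat_lit 28) (nat_lit 4) (nat_lit 502) (nat_lit 340) (nat_lit 298)) (XT.lf (nat_lit 0) (nat_lit 4378962245) (nat_lit 152) (nat_lit 6384282550) (nat_lit 228) (nat_lit 4889451966) (nat_lit 25) (nat_lit 5) (nat_lit 27) (nat_lit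 5) (nat_lit 28) (nat_lit 4) (nat_lit 503) (nat_lit 340) (nat_lit 297)))) (XT.nd (nat_lit 78) (nat_lit 304) (nat_lit 0) (XT.lf (nat_lit 0) (nat_lit 14409766618) (nat_lit 152) (nat_lit 1444698949) (nat_lit 228) (nat_lit 1482383) (nat_lit 25) (nat_lit 5) (nat_lit 27) (nat_lit 5) (nat_lit 28) (nat_lit 4) (nat_lit 504) (nat_lit 340) (nat_lit 296)) (XT.nd (nat_lit 78) (nat_lit 76) (nat_lit 0) (XT.lf (nat_lit 0) (nat_lit 4948668623) (nat_lit 228) (nat_lit 7518145833) (nat_lit 76) (nat_lit 3595210231) (nat_lit 22) (nat_lit 5) (nat_lit 25) (nat_lit 5) (nat_lit 23) (nat_lit 4) (nat_lit 505) (nat_lit 340) (nat_lit 295)) (XT.lf (nat_lit 0) (nat_lit 2413262674) (nat_lit 76) (nat_lit 7570183683) (nat_lit 152) (nat_lit 6289067035) (nat_lit 21) (nat_lit 5) (nat_lit 22) (nat_lit 5) (nat_lit 23) (nat_lit 4) (nat_lit 506) (nat_lit 340) (nat_lit 294))))) (XT.nd (nat_lit 55614) (nat_lit 0) (nat_lit 8968) (XT.nd (nat_lit 78) (nat_lit 228) (nat_lit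 0) (XT.lf (nat_lit 0) (nat_lit 12555741484) (nat_lit 76) (nat_lit 2564654446) (nat_lit 152) (nat_lit 1366789847) (nat_lit 21) (nat_lit 5) (nat_lit 22) (nat_lit 5) (nat_lit 23) (nat_lit 4) (nat_lit 507) (nat_lit 340) (nat_lit 293)) (XT.nd (nat_lit 55458) (nat_lit 0) (nat_lit 10184) (XT.lf (nat_lit 0) (nat_lit 3614354139) (nat_lit 228) (nat_lit 10558834310) (nat_lit 76) (nat_lit 2532325118) (nat_lit 18) (nat_lit 5) (nat_lit 21) (nat_lit 5) (nat_lit 19) (nat_lit 4) (nat_lit 508) (nat_lit 340) (nat_lit 292)) (XT.lf (nat_lit 0) (nat_lit 2190144170) (nat_lit 456) (nat_lit 397736515) (nat_lit 0) (nat_lit 2190144170) (nat_lit 152) (nat_lit 5) (nat_lit 158) (nat_lit 4) (nat_lit 152) (nat_lit 4) (nat_lit 458) (nat_lit 341) (nat_lit 341)))) (XT.nd (nat_lit 78) (nat_lit 836) (nat_lit 0) (XT.lf (nat_lit 0) (nat_lit 7150355491) (nat_lit 380) (nat_lit 1661822244) (nat_lit 380) (nat_lit 830206971) (nat_lit 147) (nat_lit 4) (nat_lit 152) (nat_lit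 5) (nat_lit 152) (nat_lit 4) (nat_lit 459) (nat_lit 341) (nat_lit 340)) (XT.nd (nat_lit 78) (nat_lit 380) (nat_lit 0) (XT.lf (nat_lit 0) (nat_lit 3540449008) (nat_lit 456) (nat_lit 4264015603) (nat_lit 0) (nat_lit 1925817278) (nat_lit 141) (nat_lit 5) (nat_lit 147) (nat_lit 4) (nat_lit 141) (nat_lit 4) (nat_lit 460) (nat_lit 341) (nat_lit 339)) (XT.lf (nat_lit 0) (nat_lit 3724917518) (nat_lit 380) (nat_lit 4246758672) (nat_lit 380) (nat_lit 1848477296) (nat_lit 136) (nat_lit 4) (nat_lit 141) (nat_lit 5) (nat_lit 141) (nat_lit 4) (nat_lit 461) (nat_lit 341) (nat_lit 338))))))))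
noncomputable def xc14 : XT := (XT.nd (nat_lit 1716) (nat_lit 3192) (nat_lit 0) (XT.nd (nat_lit 858) (nat_lit 2280) (nat_lit 0) (XT.nd (nat_lit 390) (nat_lit 1672) (nat_lit 0) (XT.nd (nat_lit 156) (nat_lit 760) (nat_lit 0) (XT.nd (nat_lit 78) (nat_lit 380) (nat_lit 0) (XT.lf (nat_lit 0) (nat_lit 1923017654) (nat_lit 304) (nat_lit 596577888) (nat_lit 380) (nat_lit 7392428778) (nat_lit 131) (nat_lit 5) (nat_lit 135) (nat_lit 5) (nat_lit 136) (nat_lit 4) (nat_lit 462) (nat_lit 341) (nat_lit 337)) (XT.lf (nat_lit 0) (nat_lit 41219027) (nat_lit 380) (nat_lit 6903657325) (nat_lit 380) (nat_lit 3060730936) (nat_lit 126) (nat_lit 4) (nat_lit 131) (nat_lit 5) (nat_lit 131) (nat_lit 4) (nat_lit 463) (nat_lit 341) (nat_lit 336))) (XT.nd (nat_lit 78) (nat_lit 684) (nat_lit 0) (XT.lf (nat_lit 0) (nat_lit 1330728699) (nat_lit 456) (nat_lit 1878825555) (nat_lit 76) (nat_lit 6891523320) (nat_lit 125) (nat_lit 5) (nat_lit 131) (nat_lit 5) (nat_lit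 126) (nat_lit 4) (nat_lit 464) (nat_lit 341) (nat_lit 335)) (XT.nd (nat_lit 78) (nat_lit 380) (nat_lit 0) (XT.lf (nat_lit 0) (nat_lit 5748266280) (nat_lit 380) (nat_lit 3875154820) (nat_lit 0) (nat_lit 575057302) (nat_lit 121) (nat_lit 5) (nat_lit 126) (nat_lit 4) (nat_lit 121) (nat_lit 4) (nat_lit 465) (nat_lit 341) (nat_lit 334)) (XT.lf (nat_lit 0) (nat_lit 4348747191) (nat_lit 380) (nat_lit 5902287899) (nat_lit 380) (nat_lit 46864745) (nat_lit 116) (nat_lit 4) (nat_lit 121) (nat_lit 5) (nat_lit 121) (nat_lit 4) (nat_lit 466) (nat_lit 341) (nat_lit 333))))) (XT.nd (nat_lit 234) (nat_lit 912) (nat_lit 0) (XT.nd (nat_lit 78) (nat_lit 380) (nat_lit 0) (XT.lf (nat_lit 0) (nat_lit 2287289419) (nat_lit 304) (nat_lit 2074864046) (nat_lit 380) (nat_lit 6037070993) (nat_lit 111) (nat_lit 5) (nat_lit 115) (nat_lit 5) (nat_lit 116) (nat_lit 4) (nat_lit 467) (nat_lit 341) (nat_lit 332)) (XT.nd (nat_lit 78) (nat_lit 76) (nat_lit 0) (XT.lf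 (nat_lit 0) (nat_lit 151964996) (nat_lit 304) (nat_lit 8695024128) (nat_lit 304) (nat_lit 1655824571) (nat_lit 107) (nat_lit 4) (nat_lit 111) (nat_lit 5) (nat_lit 111) (nat_lit 4) (nat_lit 468) (nat_lit 341) (nat_lit 331)) (XT.lf (nat_lit 0) (nat_lit 2780064351) (nat_lit 380) (nat_lit 2053730012) (nat_lit 76) (nat_lit 5774246084) (nat_lit 106) (nat_lit 5) (nat_lit 111) (nat_lit 5) (nat_lit 107) (nat_lit 4) (nat_lit 469) (nat_lit 341) (nat_lit 330)))) (XT.nd (nat_lit 78) (nat_lit 608) (nat_lit 0) (XT.lf (nat_lit 0) (nat_lit 6379006591) (nat_lit 304) (nat_lit 881572117) (nat_lit 380) (nat_lit 3455021598) (nat_lit 102) (nat_lit 5) (nat_lit 106) (nat_lit 5) (nat_lit 107) (nat_lit 4) (nat_lit 470) (nat_lit 341) (nat_lit 329)) (XT.nd (nat_lit 78) (nat_lit 228) (nat_lit 0) (XT.lf (nat_lit 0) (nat_lit 990175455) (nat_lit 380) (nat_lit 6718619172) (nat_lit 76) (nat_lit 3116435497) (nat_lit 97) (nat_lit 5) (nat_lit 102) (nat_lit 5) (nat_lit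 98) (nat_lit 4) (nat_lit 471) (nat_lit 341) (nat_lit 328)) (XT.lf (nat_lit 0) (nat_lit 1731272142) (nat_lit 228) (nat_lit 3730266949) (nat_lit 304) (nat_lit 5475394720) (nat_lit 94) (nat_lit 5) (nat_lit 97) (nat_lit 5) (nat_lit 98) (nat_lit 4) (nat_lit 472) (nat_lit 341) (nat_lit 327)))))) (XT.nd (nat_lit 390) (nat_lit 1292) (nat_lit 0) (XT.nd (nat_lit 156) (nat_lit 608) (nat_lit 0) (XT.nd (nat_lit 78) (nat_lit 380) (nat_lit 0) (XT.lf (nat_lit 0) (nat_lit 10007254807) (nat_lit 304) (nat_lit 714988616) (nat_lit 0) (nat_lit 328938016) (nat_lit 94) (nat_lit 5) (nat_lit 98) (nat_lit 4) (nat_lit 94) (nat_lit 4) (nat_lit 473) (nat_lit 341) (nat_lit 326)) (XT.lf (nat_lit 0) (nat_lit 3445454066) (nat_lit 380) (nat_lit 3267179223) (nat_lit 76) (nat_lit 4454339904) (nat_lit 89) (nat_lit 5) (nat_lit 94) (nat_lit 5) (nat_lit 90) (nat_lit 4) (nat_lit 474) (nat_lit 341) (nat_lit 325))) (XT.nd (nat_lit 78) (nat_lit 380) (nat_lit 0) (XT.lf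 (nat_lit 0) (nat_lit 5373162370) (nat_lit 228) (nat_lit 2615986158) (nat_lit 304) (nat_lit 3296232042) (nat_lit 86) (nat_lit 5) (nat_lit 89) (nat_lit 5) (nat_lit 90) (nat_lit 4) (nat_lit 475) (nat_lit 341) (nat_lit 324)) (XT.nd (nat_lit 78) (nat_lit 0) (nat_lit 0) (XT.lf (nat_lit 0) (nat_lit 1190626937) (nat_lit 380) (nat_lit 8665807514) (nat_lit 76) (nat_lit 1549790425) (nat_lit 81) (nat_lit 5) (nat_lit 86) (nat_lit 5) (nat_lit 82) (nat_lit 4) (nat_lit 476) (nat_lit 341) (nat_lit 323)) (XT.lf (nat_lit 0) (nat_lit 5719571982) (nat_lit 380) (nat_lit 24233704) (nat_lit 76) (nat_lit 5785322337) (nat_lit 81) (nat_lit 5) (nat_lit 86) (nat_lit 5) (nat_lit 82) (nat_lit 4) (nat_lit 477) (nat_lit 341) (nat_lit 322))))) (XT.nd (nat_lit 234) (nat_lit 532) (nat_lit 0) (XT.nd (nat_lit 78) (nat_lit 532) (nat_lit 0) (XT.lf (nat_lit 0) (nat_lit 8805289908) (nat_lit 228) (nat_lit 1531351218) (nat_lit 304) (nat_lit 1317904486) (nat_lit 78) (nat_lit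 5) (nat_lit 81) (nat_lit 5) (nat_lit 82) (nat_lit 4) (nat_lit 478) (nat_lit 341) (nat_lit 321)) (XT.nd (nat_lit 78) (nat_lit 228) (nat_lit 0) (XT.lf (nat_lit 0) (nat_lit 3218392781) (nat_lit 304) (nat_lit 5814471084) (nat_lit 76) (nat_lit 2749238600) (nat_lit 74) (nat_lit 5) (nat_lit 78) (nat_lit 5) (nat_lit 75) (nat_lit 4) (nat_lit 479) (nat_lit 341) (nat_lit 320)) (XT.lf (nat_lit 0) (nat_lit 3007334307) (nat_lit 228) (nat_lit 4810116982) (nat_lit 304) (nat_lit 4094798161) (nat_lit 71) (nat_lit 5) (nat_lit 74) (nat_lit 5) (nat_lit 75) (nat_lit 4) (nat_lit 480) (nat_lit 341) (nat_lit 319)))) (XT.nd (nat_lit 78) (nat_lit 456) (nat_lit 0) (XT.lf (nat_lit 0) (nat_lit 437557476) (nat_lit 304) (nat_lit 63985855) (nat_lit 76) (nat_lit 11543799559) (nat_lit 70) (nat_lit 5) (nat_lit 74) (nat_lit 5) (nat_lit 71) (nat_lit 5) (nat_lit 481) (nat_lit 341) (nat_lit 318)) (XT.nd (nat_lit 78) (nat_lit 228) (nat_lit 0) (XT.lf (nat_lit 0) (nat_lit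 5031462496) (nat_lit 304) (nat_lit 3261089184) (nat_lit 76) (nat_lit 3887497023) (nat_lit 67) (nat_lit 5) (nat_lit 71) (nat_lit 5) (nat_lit 68) (nat_lit 4) (nat_lit 482) (nat_lit 341) (nat_lit 317)) (XT.lf (nat_lit 0) (nat_lit 5737764984) (nat_lit 228) (nat_lit 3962749157) (nat_lit 304) (nat_lit 2617275459) (nat_lit 64) (nat_lit 5) (nat_lit 67) (nat_lit 5) (nat_lit 68) (nat_lit 4) (nat_lit 483) (nat_lit 341) (nat_lit 316))))))) (XT.nd (nat_lit 858) (nat_lit 1368) (nat_lit 0) (XT.nd (nat_lit 390) (nat_lit 912) (nat_lit 0) (XT.nd (nat_lit 156) (nat_lit 608) (nat_lit 0) (XT.nd (nat_lit 78) (nat_lit 0) (nat_lit 0) (XT.lf (nat_lit 0) (nat_lit 1961505714) (nat_lit 304) (nat_lit 10039151393) (nat_lit 76) (nat_lit 457711277) (nat_lit 60) (nat_lit 5) (nat_lit 64) (nat_lit 5) (nat_lit 61) (nat_lit 4) (nat_lit 484) (nat_lit 341) (nat_lit 315)) (XT.lf (nat_lit 0) (nat_lit 6610130377) (nat_lit 304) (nat_lit 1056606634) (nat_lit 76) (nat_lit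 4934415439) (nat_lit 60) (nat_lit 5) (nat_lit 64) (nat_lit 5) (nat_lit 61) (nat_lit 4) (nat_lit 485) (nat_lit 341) (nat_lit 314))) (XT.nd (nat_lit 78) (nat_lit 456) (nat_lit 0) (XT.lf (nat_lit 0) (nat_lit 8114462980) (nat_lit 152) (nat_lit 3233663934) (nat_lit 228) (nat_lit 1398743152) (nat_lit 58) (nat_lit 5) (nat_lit 60) (nat_lit 5) (nat_lit 61) (nat_lit 4) (nat_lit 486) (nat_lit 341) (nat_lit 313)) (XT.nd (nat_lit 78) (nat_lit 152) (nat_lit 0) (XT.lf (nat_lit 0) (nat_lit 3231121894) (nat_lit 304) (nat_lit 8375682644) (nat_lit 76) (nat_lit 1288499931) (nat_lit 54) (nat_lit 5) (nat_lit 58) (nat_lit 5) (nat_lit 55) (nat_lit 4) (nat_lit 487) (nat_lit 341) (nat_lit 312)) (XT.lf (nat_lit 0) (nat_lit 752515924) (nat_lit 152) (nat_lit 7183966938) (nat_lit 228) (nat_lit 5110012748) (nat_lit 52) (nat_lit 5) (nat_lit 54) (nat_lit 5) (nat_lit 55) (nat_lit 4) (nat_lit 488) (nat_lit 341) (nat_lit 311))))) (XT.nd (nat_lit 234) (nat_lit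 456) (nat_lit 0) (XT.nd (nat_lit 78) (nat_lit 456) (nat_lit 0) (XT.lf (nat_lit 0) (nat_lit 10079588551) (nat_lit 152) (nat_lit 2657051885) (nat_lit 228) (nat_lit 464061761) (nat_lit 52) (nat_lit 5) (nat_lit 54) (nat_lit 5) (nat_lit 55) (nat_lit 4) (nat_lit 489) (nat_lit 341) (nat_lit 310)) (XT.nd (nat_lit 78) (nat_lit 152) (nat_lit 0) (XT.lf (nat_lit 0) (nat_lit 4217067404) (nat_lit 304) (nat_lit 7178024521) (nat_lit 76) (nat_lit 1962384613) (nat_lit 48) (nat_lit 5) (nat_lit 52) (nat_lit 5) (nat_lit 49) (nat_lit 4) (nat_lit 490) (nat_lit 341) (nat_lit 309)) (XT.lf (nat_lit 0) (nat_lit 2101882547) (nat_lit 152) (nat_lit 6881449963) (nat_lit 228) (nat_lit 4534043064) (nat_lit 46) (nat_lit 5) (nat_lit 48) (nat_lit 5) (nat_lit 49) (nat_lit 4) (nat_lit 491) (nat_lit 341) (nat_lit 308)))) (XT.nd (nat_lit 78) (nat_lit 380) (nat_lit 0) (XT.lf (nat_lit 0) (nat_lit 156262314) (nat_lit 228) (nat_lit 2112549126) (nat_lit 76) (nat_lit 11411765320)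 (nat_lit 45) (nat_lit 5) (nat_lit 48) (nat_lit 5) (nat_lit 46) (nat_lit 5) (nat_lit 492) (nat_lit 341) (nat_lit 307)) (XT.nd (nat_lit 78) (nat_lit 152) (nat_lit 0) (XT.lf (nat_lit 0) (nat_lit 4890045778) (nat_lit 304) (nat_lit 6514276382) (nat_lit 76) (nat_lit 2441917559) (nat_lit 42) (nat_lit 5) (nat_lit 46) (nat_lit 5) (nat_lit 43) (nat_lit 4) (nat_lit 493) (nat_lit 341) (nat_lit 306)) (XT.lf (nat_lit 0) (nat_lit 2907452012) (nat_lit 152) (nat_lit 6805949693) (nat_lit 228) (nat_lit 4301921006) (nat_lit 40) (nat_lit 5) (nat_lit 42) (nat_lit 5) (nat_lit 43) (nat_lit 4) (nat_lit 494) (nat_lit 341) (nat_lit 305)))))) (XT.nd (nat_lit 468) (nat_lit 608) (nat_lit 0) (XT.nd (nat_lit 234) (nat_lit 380) (nat_lit 0) (XT.nd (nat_lit 78) (nat_lit 304) (nat_lit 0) (XT.lf (nat_lit 0) (nat_lit 430403122) (nat_lit 228) (nat_lit 1678896273) (nat_lit 76) (nat_lit 12078618500) (nat_lit 39) (nat_lit 5) (nat_lit 42) (nat_lit 5) (nat_lit 40) (nat_lit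 5) (nat_lit 495) (nat_lit 341) (nat_lit 304)) (XT.nd (nat_lit 78) (nat_lit 152) (nat_lit 0) (XT.lf (nat_lit 0) (nat_lit 5216775196) (nat_lit 228) (nat_lit 6459893830) (nat_lit 76) (nat_lit 2686391599) (nat_lit 37) (nat_lit 5) (nat_lit 40) (nat_lit 5) (nat_lit 38) (nat_lit 4) (nat_lit 496) (nat_lit 341) (nat_lit 303)) (XT.lf (nat_lit 0) (nat_lit 3091624866) (nat_lit 152) (nat_lit 7000640103) (nat_lit 228) (nat_lit 4449577785) (nat_lit 35) (nat_lit 5) (nat_lit 37) (nat_lit 5) (nat_lit 38) (nat_lit 4) (nat_lit 497) (nat_lit 341) (nat_lit 302)))) (XT.nd (nat_lit 78) (nat_lit 304) (nat_lit 0) (XT.lf (nat_lit 0) (nat_lit 328308570) (nat_lit 228) (nat_lit 1897204667) (nat_lit 76) (nat_lit 12498812832) (nat_lit 34) (nat_lit 5) (nat_lit 37) (nat_lit 5) (nat_lit 35) (nat_lit 5) (nat_lit 498) (nat_lit 341) (nat_lit 301)) (XT.nd (nat_lit 78) (nat_lit 152) (nat_lit 0) (XT.lf (nat_lit 0) (nat_lit 5159600970) (nat_lit 228) (nat_lit 7098524649)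 (nat_lit 76) (nat_lit 2651400735) (nat_lit 32) (nat_lit 5) (nat_lit 35) (nat_lit 5) (nat_lit 33) (nat_lit 4) (nat_lit 499) (nat_lit 341) (nat_lit 300)) (XT.lf (nat_lit 0) (nat_lit 2568338903) (nat_lit 152) (nat_lit 7512657377) (nat_lit 228) (nat_lit 5017568843) (nat_lit 30) (nat_lit 5) (nat_lit 32) (nat_lit 5) (nat_lit 33) (nat_lit 4) (nat_lit 500) (nat_lit 341) (nat_lit 299))))) (XT.nd (nat_lit 234) (nat_lit 228) (nat_lit 0) (XT.nd (nat_lit 78) (nat_lit 380) (nat_lit 0) (XT.lf (nat_lit 0) (nat_lit 12433927840) (nat_lit 152) (nat_lit 2664179530) (nat_lit 228) (nat_lit 193335482) (nat_lit 30) (nat_lit 5) (nat_lit 32) (nat_lit 5) (nat_lit 33) (nat_lit 4) (nat_lit 501) (nat_lit 341) (nat_lit 298)) (XT.nd (nat_lit 78) (nat_lit 152) (nat_lit 0) (XT.lf (nat_lit 0) (nat_lit 4676063979) (nat_lit 228) (nat_lit 8522929668) (nat_lit 76) (nat_lit 2288360773) (nat_lit 27) (nat_lit 5) (nat_lit 30) (nat_lit 5) (nat_lit 28) (nat_lit 4) (nat_lit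 502) (nat_lit 341) (nat_lit 297)) (XT.lf (nat_lit 0) (nat_lit 1242118558) (nat_lit 152) (nat_lit 8393603744) (nat_lit 228) (nat_lit 6051530879) (nat_lit 25) (nat_lit 5) (nat_lit 27) (nat_lit 5) (nat_lit 28) (nat_lit 4) (nat_lit 503) (nat_lit 341) (nat_lit 296)))) (XT.nd (nat_lit 78) (nat_lit 228) (nat_lit 0) (XT.lf (nat_lit 0) (nat_lit 11228731388) (nat_lit 152) (nat_lit 3473874371) (nat_lit 228) (nat_lit 1188387161) (nat_lit 25) (nat_lit 5) (nat_lit 27) (nat_lit 5) (nat_lit 28) (nat_lit 4) (nat_lit 504) (nat_lit 341) (nat_lit 295)) (XT.nd (nat_lit 78) (nat_lit 0) (nat_lit 0) (XT.lf (nat_lit 0) (nat_lit 3718420674) (nat_lit 228) (nat_lit 10835997700) (nat_lit 76) (nat_lit 1543985332) (nat_lit 22) (nat_lit 5) (nat_lit 25) (nat_lit 5) (nat_lit 23) (nat_lit 4) (nat_lit 505) (nat_lit 341) (nat_lit 294)) (XT.lf (nat_lit 0) (nat_lit 8713572707) (nat_lit 228) (nat_lit 979949922) (nat_lit 76) (nat_lit 6616163995) (nat_lit 22) (nat_lit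 5) (nat_lit 25) (nat_lit 5) (nat_lit 23) (nat_lit 4) (nat_lit 506) (nat_lit 341) (nat_lit 293))))))))
noncomputable def xc15 : XT := (XT.nd (nat_lit 56940) (nat_lit 0) (nat_lit 1292) (XT.nd (nat_lit 56082) (nat_lit 0) (nat_lit 5168) (XT.nd (nat_lit 55614) (nat_lit 0) (nat_lit 8132) (XT.nd (nat_lit 55380) (nat_lit 0) (nat_lit 10184) (XT.nd (nat_lit 78) (nat_lit 228) (nat_lit 0) (XT.lf (nat_lit 0) (nat_lit 9106083079) (nat_lit 76) (nat_lit 4714222782) (nat_lit 152) (nat_lit 2704659142) (nat_lit 21) (nat_lit 5) (nat_lit 22) (nat_lit 5) (nat_lit 23) (nat_lit 4) (nat_lit 507) (nat_lit 341) (nat_lit 292)) (XT.lf (nat_lit 0) (nat_lit 2233109824) (nat_lit 228) (nat_lit 14151864623) (nat_lit 76) (nat_lit 359712102) (nat_lit 18) (nat_lit 5) (nat_lit 21) (nat_lit 5) (nat_lit 19) (nat_lit 4) (nat_lit 508) (nat_lit 341) (nat_lit 291))) (XT.nd (nat_lit 78) (nat_lit 456) (nat_lit 0) (XT.lf (nat_lit 0) (nat_lit 1264060222) (nat_lit 456) (nat_lit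 1715016374) (nat_lit 456) (nat_lit 1715016374) (nat_lit 158) (nat_lit 4) (nat_lit 164) (nat_lit 5) (nat_lit 164) (nat_lit 4) (nat_lit 456) (nat_lit 342) (nat_lit 342)) (XT.nd (nat_lit 78) (nat_lit 0) (nat_lit 0) (XT.lf (nat_lit 0) (nat_lit 862012792) (nat_lit 456) (nat_lit 8596072412) (nat_lit 0) (nat_lit 13765213) (nat_lit 152) (nat_lit 5) (nat_lit 158) (nat_lit 4) (nat_lit 152) (nat_lit 4) (nat_lit 457) (nat_lit 342) (nat_lit 341)) (XT.lf (nat_lit 0) (nat_lit 5194679956) (nat_lit 456) (nat_lit 847235924) (nat_lit 0) (nat_lit 3514817104) (nat_lit 152) (nat_lit 5) (nat_lit 158) (nat_lit 4) (nat_lit 152) (nat_lit 4) (nat_lit 458) (nat_lit 342) (nat_lit 340))))) (XT.nd (nat_lit 234) (nat_lit 836) (nat_lit 0) (XT.nd (nat_lit 78) (nat_lit 836) (nat_lit 0) (XT.lf (nat_lit 0) (nat_lit 7046482348) (nat_lit 380) (nat_lit 2546220469) (nat_lit 380) (nat_lit 51048526) (nat_lit 147) (nat_lit 4) (nat_lit 152) (nat_lit 5) (nat_lit 152) (nat_lit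 4) (nat_lit 459) (nat_lit 342) (nat_lit 339)) (XT.nd (nat_lit 78) (nat_lit 380) (nat_lit 0) (XT.lf (nat_lit 0) (nat_lit 4269405294) (nat_lit 456) (nat_lit 4423438876) (nat_lit 0) (nat_lit 1039508645) (nat_lit 141) (nat_lit 5) (nat_lit 147) (nat_lit 4) (nat_lit 141) (nat_lit 4) (nat_lit 460) (nat_lit 342) (nat_lit 338)) (XT.lf (nat_lit 0) (nat_lit 3511626006) (nat_lit 380) (nat_lit 5154735067) (nat_lit 380) (nat_lit 1156554452) (nat_lit 136) (nat_lit 4) (nat_lit 141) (nat_lit 5) (nat_lit 141) (nat_lit 4) (nat_lit 461) (nat_lit 342) (nat_lit 337)))) (XT.nd (nat_lit 78) (nat_lit 456) (nat_lit 0) (XT.lf (nat_lit 0) (nat_lit 1647684490) (nat_lit 304) (nat_lit 1520179212) (nat_lit 380) (nat_lit 6747529873) (nat_lit 131) (nat_lit 5) (nat_lit 135) (nat_lit 5) (nat_lit 136) (nat_lit 4) (nat_lit 462) (nat_lit 342) (nat_lit 336)) (XT.nd (nat_lit 78) (nat_lit 456) (nat_lit 0) (XT.lf (nat_lit 0) (nat_lit 7554281612) (nat_lit 380) (nat_lit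 283402555) (nat_lit 0) (nat_lit 2172074991) (nat_lit 131) (nat_lit 5) (nat_lit 136) (nat_lit 4) (nat_lit 131) (nat_lit 4) (nat_lit 463) (nat_lit 342) (nat_lit 335)) (XT.lf (nat_lit 0) (nat_lit 1893657388) (nat_lit 456) (nat_lit 2266794324) (nat_lit 76) (nat_lit 5945392023) (nat_lit 125) (nat_lit 5) (nat_lit 131) (nat_lit 5) (nat_lit 126) (nat_lit 4) (nat_lit 464) (nat_lit 342) (nat_lit 334)))))) (XT.nd (nat_lit 390) (nat_lit 1520) (nat_lit 0) (XT.nd (nat_lit 156) (nat_lit 684) (nat_lit 0) (XT.nd (nat_lit 78) (nat_lit 456) (nat_lit 0) (XT.lf (nat_lit 0) (nat_lit 5882922103) (nat_lit 304) (nat_lit 389732753) (nat_lit 380) (nat_lit 3931365556) (nat_lit 121) (nat_lit 5) (nat_lit 125) (nat_lit 5) (nat_lit 126) (nat_lit 4) (nat_lit 465) (nat_lit 342) (nat_lit 333)) (XT.lf (nat_lit 0) (nat_lit 428064364) (nat_lit 456) (nat_lit 6458893203) (nat_lit 76) (nat_lit 3417182388) (nat_lit 115) (nat_lit 5) (nat_lit 121) (nat_lit 5) (nat_lit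 116) (nat_lit 4) (nat_lit 466) (nat_lit 342) (nat_lit 332))) (XT.nd (nat_lit 78) (nat_lit 380) (nat_lit 0) (XT.lf (nat_lit 0) (nat_lit 1719051409) (nat_lit 304) (nat_lit 3082115717) (nat_lit 380) (nat_lit 5605002140) (nat_lit 111) (nat_lit 5) (nat_lit 115) (nat_lit 5) (nat_lit 116) (nat_lit 4) (nat_lit 467) (nat_lit 342) (nat_lit 331)) (XT.nd (nat_lit 78) (nat_lit 380) (nat_lit 0) (XT.lf (nat_lit 0) (nat_lit 9247033579) (nat_lit 380) (nat_lit 469585042) (nat_lit 0) (nat_lit 793923930) (nat_lit 111) (nat_lit 5) (nat_lit 116) (nat_lit 4) (nat_lit 111) (nat_lit 4) (nat_lit 468) (nat_lit 342) (nat_lit 330)) (XT.lf (nat_lit 0) (nat_lit 3132759320) (nat_lit 380) (nat_lit 2742838219) (nat_lit 76) (nat_lit 4740814810) (nat_lit 106) (nat_lit 5) (nat_lit 111) (nat_lit 5) (nat_lit 107) (nat_lit 4) (nat_lit 469) (nat_lit 342) (nat_lit 329))))) (XT.nd (nat_lit 234) (nat_lit 608) (nat_lit 0) (XT.nd (nat_lit 78) (nat_lit 608) (nat_lit 0) (XT.lf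 (nat_lit 0) (nat_lit 5630075754) (nat_lit 304) (nat_lit 1947584871) (nat_lit 380) (nat_lit 3147028238) (nat_lit 102) (nat_lit 5) (nat_lit 106) (nat_lit 5) (nat_lit 107) (nat_lit 4) (nat_lit 470) (nat_lit 342) (nat_lit 328)) (XT.nd (nat_lit 78) (nat_lit 228) (nat_lit 0) (XT.lf (nat_lit 0) (nat_lit 1251054404) (nat_lit 380) (nat_lit 7542190893) (nat_lit 76) (nat_lit 2041899117) (nat_lit 97) (nat_lit 5) (nat_lit 102) (nat_lit 5) (nat_lit 98) (nat_lit 4) (nat_lit 471) (nat_lit 342) (nat_lit 327)) (XT.lf (nat_lit 0) (nat_lit 845847783) (nat_lit 228) (nat_lit 4840298195) (nat_lit 304) (nat_lit 5261431704) (nat_lit 94) (nat_lit 5) (nat_lit 97) (nat_lit 5) (nat_lit 98) (nat_lit 4) (nat_lit 472) (nat_lit 342) (nat_lit 326)))) (XT.nd (nat_lit 78) (nat_lit 608) (nat_lit 0) (XT.lf (nat_lit 0) (nat_lit 9403066202) (nat_lit 228) (nat_lit 796382577) (nat_lit 304) (nat_lit 863028851) (nat_lit 94) (nat_lit 5) (nat_lit 97) (nat_lit 5) (nat_lit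 98) (nat_lit 4) (nat_lit 473) (nat_lit 342) (nat_lit 325)) (XT.nd (nat_lit 78) (nat_lit 228) (nat_lit 0) (XT.lf (nat_lit 0) (nat_lit 3582245034) (nat_lit 380) (nat_lit 4282002263) (nat_lit 76) (nat_lit 3314837184) (nat_lit 89) (nat_lit 5) (nat_lit 94) (nat_lit 5) (nat_lit 90) (nat_lit 4) (nat_lit 474) (nat_lit 342) (nat_lit 324)) (XT.lf (nat_lit 0) (nat_lit 4294718707) (nat_lit 228) (nat_lit 3794503910) (nat_lit 304) (nat_lit 3209007405) (nat_lit 86) (nat_lit 5) (nat_lit 89) (nat_lit 5) (nat_lit 90) (nat_lit 4) (nat_lit 475) (nat_lit 342) (nat_lit 323))))))) (XT.nd (nat_lit 858) (nat_lit 1748) (nat_lit 0) (XT.nd (nat_lit 390) (nat_lit 988) (nat_lit 0) (XT.nd (nat_lit 156) (nat_lit 760) (nat_lit 0) (XT.nd (nat_lit 78) (nat_lit 0) (nat_lit 0) (XT.lf (nat_lit 0) (nat_lit 1231721318) (nat_lit 380) (nat_lit 9828142608) (nat_lit 76) (nat_lit 360102478) (nat_lit 81) (nat_lit 5) (nat_lit 86) (nat_lit 5) (nat_lit 82) (nat_lit 4) (nat_lit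 476) (nat_lit 342) (nat_lit 322)) (XT.lf (nat_lit 0) (nat_lit 5731149243) (nat_lit 380) (nat_lit 1236254260) (nat_lit 76) (nat_lit 4576059996) (nat_lit 81) (nat_lit 5) (nat_lit 86) (nat_lit 5) (nat_lit 82) (nat_lit 4) (nat_lit 477) (nat_lit 342) (nat_lit 321))) (XT.nd (nat_lit 78) (nat_lit 532) (nat_lit 0) (XT.lf (nat_lit 0) (nat_lit 7527803653) (nat_lit 228) (nat_lit 2783182093) (nat_lit 304) (nat_lit 1358643530) (nat_lit 78) (nat_lit 5) (nat_lit 81) (nat_lit 5) (nat_lit 82) (nat_lit 4) (nat_lit 478) (nat_lit 342) (nat_lit 320)) (XT.nd (nat_lit 78) (nat_lit 228) (nat_lit 0) (XT.lf (nat_lit 0) (nat_lit 3132169514) (nat_lit 304) (nat_lit 7180906017) (nat_lit 76) (nat_lit 1485039655) (nat_lit 74) (nat_lit 5) (nat_lit 78) (nat_lit 5) (nat_lit 75) (nat_lit 4) (nat_lit 479) (nat_lit 342) (nat_lit 319)) (XT.lf (nat_lit 0) (nat_lit 1573186105) (nat_lit 228) (nat_lit 6119974848) (nat_lit 304) (nat_lit 4235865890) (nat_lit 71) (nat_lit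 5) (nat_lit 74) (nat_lit 5) (nat_lit 75) (nat_lit 4) (nat_lit 480) (nat_lit 342) (nat_lit 318))))) (XT.nd (nat_lit 234) (nat_lit 456) (nat_lit 0) (XT.nd (nat_lit 78) (nat_lit 456) (nat_lit 0) (XT.lf (nat_lit 0) (nat_lit 269640643) (nat_lit 304) (nat_lit 1562962562) (nat_lit 76) (nat_lit 10230112584) (nat_lit 70) (nat_lit 5) (nat_lit 74) (nat_lit 5) (nat_lit 71) (nat_lit 5) (nat_lit 481) (nat_lit 342) (nat_lit 317)) (XT.nd (nat_lit 78) (nat_lit 228) (nat_lit 0) (XT.lf (nat_lit 0) (nat_lit 4816393100) (nat_lit 304) (nat_lit 4837935149) (nat_lit 76) (nat_lit 2544039541) (nat_lit 67) (nat_lit 5) (nat_lit 71) (nat_lit 5) (nat_lit 68) (nat_lit 4) (nat_lit 482) (nat_lit 342) (nat_lit 316)) (XT.lf (nat_lit 0) (nat_lit 4091200552) (nat_lit 228) (nat_lit 5355530624) (nat_lit 304) (nat_lit 2890154861) (nat_lit 64) (nat_lit 5) (nat_lit 67) (nat_lit 5) (nat_lit 68) (nat_lit 4) (nat_lit 483) (nat_lit 342) (nat_lit 315)))) (XT.nd (nat_lit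 78) (nat_lit 152) (nat_lit 0) (XT.lf (nat_lit 0) (nat_lit 687465249) (nat_lit 228) (nat_lit 962494161) (nat_lit 304) (nat_lit 10828388716) (nat_lit 60) (nat_lit 5) (nat_lit 63) (nat_lit 5) (nat_lit 64) (nat_lit 5) (nat_lit 484) (nat_lit 342) (nat_lit 314)) (XT.nd (nat_lit 78) (nat_lit 152) (nat_lit 0) (XT.lf (nat_lit 0) (nat_lit 6264471015) (nat_lit 304) (nat_lit 2850380394) (nat_lit 76) (nat_lit 3506965944) (nat_lit 60) (nat_lit 5) (nat_lit 64) (nat_lit 5) (nat_lit 61) (nat_lit 4) (nat_lit 485) (nat_lit 342) (nat_lit 313)) (XT.lf (nat_lit 0) (nat_lit 6248877191) (nat_lit 152) (nat_lit 4714160184) (nat_lit 228) (nat_lit 1805289041) (nat_lit 58) (nat_lit 5) (nat_lit 60) (nat_lit 5) (nat_lit 61) (nat_lit 4) (nat_lit 486) (nat_lit 342) (nat_lit 312)))))) (XT.nd (nat_lit 468) (nat_lit 836) (nat_lit 0) (XT.nd (nat_lit 234) (nat_lit 456) (nat_lit 0) (XT.nd (nat_lit 78) (nat_lit 152) (nat_lit 0) (XT.lf (nat_lit 0) (nat_lit 2570794962)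 (nat_lit 228) (nat_lit 210657352) (nat_lit 304) (nat_lit 10136333141) (nat_lit 54) (nat_lit 5) (nat_lit 57) (nat_lit 5) (nat_lit 58) (nat_lit 5) (nat_lit 487) (nat_lit 342) (nat_lit 311)) (XT.nd (nat_lit 78) (nat_lit 152) (nat_lit 0) (XT.lf (nat_lit 0) (nat_lit 7453389126) (nat_lit 304) (nat_lit 1274793271) (nat_lit 76) (nat_lit 4341465361) (nat_lit 54) (nat_lit 5) (nat_lit 58) (nat_lit 5) (nat_lit 55) (nat_lit 4) (nat_lit 488) (nat_lit 342) (nat_lit 310)) (XT.lf (nat_lit 0) (nat_lit 7988150827) (nat_lit 152) (nat_lit 4230064863) (nat_lit 228) (nat_lit 1006347901) (nat_lit 52) (nat_lit 5) (nat_lit 54) (nat_lit 5) (nat_lit 55) (nat_lit 4) (nat_lit 489) (nat_lit 342) (nat_lit 309)))) (XT.nd (nat_lit 78) (nat_lit 152) (nat_lit 0) (XT.lf (nat_lit 0) (nat_lit 3630639683) (nat_lit 304) (nat_lit 9379394389) (nat_lit 76) (nat_lit 372401877) (nat_lit 48) (nat_lit 5) (nat_lit 52) (nat_lit 5) (nat_lit 49) (nat_lit 4) (nat_lit 490) (nat_lit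 342) (nat_lit 308)) (XT.nd (nat_lit 78) (nat_lit 152) (nat_lit 0) (XT.lf (nat_lit 0) (nat_lit 8356755901) (nat_lit 304) (nat_lit 173765555) (nat_lit 76) (nat_lit 5012618981) (nat_lit 48) (nat_lit 5) (nat_lit 52) (nat_lit 5) (nat_lit 49) (nat_lit 4) (nat_lit 491) (nat_lit 342) (nat_lit 307)) (XT.lf (nat_lit 0) (nat_lit 9244714526) (nat_lit 152) (nat_lit 3940218238) (nat_lit 228) (nat_lit 521980385) (nat_lit 46) (nat_lit 5) (nat_lit 48) (nat_lit 5) (nat_lit 49) (nat_lit 4) (nat_lit 492) (nat_lit 342) (nat_lit 306))))) (XT.nd (nat_lit 234) (nat_lit 380) (nat_lit 0) (XT.nd (nat_lit 78) (nat_lit 152) (nat_lit 0) (XT.lf (nat_lit 0) (nat_lit 4165862335) (nat_lit 304) (nat_lit 8954300483) (nat_lit 76) (nat_lit 753539135) (nat_lit 42) (nat_lit 5) (nat_lit 46) (nat_lit 5) (nat_lit 43) (nat_lit 4) (nat_lit 493) (nat_lit 342) (nat_lit 305)) (XT.nd (nat_lit 78) (nat_lit 0) (nat_lit 0) (XT.lf (nat_lit 0) (nat_lit 388462734) (nat_lit 152)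 (nat_lit 8558543583) (nat_lit 228) (nat_lit 5096625153) (nat_lit 40) (nat_lit 5) (nat_lit 42) (nat_lit 5) (nat_lit 43) (nat_lit 4) (nat_lit 494) (nat_lit 342) (nat_lit 304)) (XT.lf (nat_lit 0) (nat_lit 9947294557) (nat_lit 152) (nat_lit 3884761307) (nat_lit 228) (nat_lit 384742589) (nat_lit 40) (nat_lit 5) (nat_lit 42) (nat_lit 5) (nat_lit 43) (nat_lit 4) (nat_lit 495) (nat_lit 342) (nat_lit 303)))) (XT.nd (nat_lit 78) (nat_lit 152) (nat_lit 0) (XT.lf (nat_lit 0) (nat_lit 4352252832) (nat_lit 228) (nat_lit 9146065306) (nat_lit 76) (nat_lit 894763611) (nat_lit 37) (nat_lit 5) (nat_lit 40) (nat_lit 5) (nat_lit 38) (nat_lit 4) (nat_lit 496) (nat_lit 342) (nat_lit 302)) (XT.nd (nat_lit 78) (nat_lit 0) (nat_lit 0) (XT.lf (nat_lit 0) (nat_lit 324005599) (nat_lit 152) (nat_lit 8860533668) (nat_lit 228) (nat_lit 5388190792) (nat_lit 35) (nat_lit 5) (nat_lit 37) (nat_lit 5) (nat_lit 38) (nat_lit 4) (nat_lit 497) (nat_lit 342) (nat_lit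 301)) (XT.lf (nat_lit 0) (nat_lit 10016852331) (nat_lit 152) (nat_lit 4107432306) (nat_lit 228) (nat_lit 631474616) (nat_lit 35) (nat_lit 5) (nat_lit 37) (nat_lit 5) (nat_lit 38) (nat_lit 4) (nat_lit 498) (nat_lit 342) (nat_lit 300))))))))
noncomputable def xc16 : XT := (XT.nd (nat_lit 56784) (nat_lit 0) (nat_lit 2584) (XT.nd (nat_lit 55926) (nat_lit 0) (nat_lit 7676) (XT.nd (nat_lit 390) (nat_lit 532) (nat_lit 0) (XT.nd (nat_lit 156) (nat_lit 380) (nat_lit 0) (XT.nd (nat_lit 78) (nat_lit 0) (nat_lit 0) (XT.lf (nat_lit 0) (nat_lit 4151936873) (nat_lit 228) (nat_lit 10038621545) (nat_lit 76) (nat_lit 751608365) (nat_lit 32) (nat_lit 5) (nat_lit 35) (nat_lit 5) (nat_lit 33) (nat_lit 4) (nat_lit 499) (nat_lit 342) (nat_lit 299)) (XT.lf (nat_lit 0) (nat_lit 9032024543) (nat_lit 228) (nat_lit 449819916) (nat_lit 76) (nat_lit 5650189197) (nat_lit 32) (nat_lit 5) (nat_lit 35) (nat_lit 5) (nat_lit 33) (nat_lit 4) (nat_lit 500) (nat_lit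 342) (nat_lit 298))) (XT.nd (nat_lit 78) (nat_lit 228) (nat_lit 0) (XT.lf (nat_lit 0) (nat_lit 9365705411) (nat_lit 152) (nat_lit 4656035351) (nat_lit 228) (nat_lit 1303720433) (nat_lit 30) (nat_lit 5) (nat_lit 32) (nat_lit 5) (nat_lit 33) (nat_lit 4) (nat_lit 501) (nat_lit 342) (nat_lit 297)) (XT.nd (nat_lit 78) (nat_lit 0) (nat_lit 0) (XT.lf (nat_lit 0) (nat_lit 3522233433) (nat_lit 228) (nat_lit 11725031356) (nat_lit 76) (nat_lit 275414170) (nat_lit 27) (nat_lit 5) (nat_lit 30) (nat_lit 5) (nat_lit 28) (nat_lit 4) (nat_lit 502) (nat_lit 342) (nat_lit 296)) (XT.lf (nat_lit 0) (nat_lit 8449776704) (nat_lit 228) (nat_lit 2019885700) (nat_lit 76) (nat_lit 5253559420) (nat_lit 27) (nat_lit 5) (nat_lit 30) (nat_lit 5) (nat_lit 28) (nat_lit 4) (nat_lit 503) (nat_lit 342) (nat_lit 295))))) (XT.nd (nat_lit 234) (nat_lit 152) (nat_lit 0) (XT.nd (nat_lit 78) (nat_lit 228) (nat_lit 0) (XT.lf (nat_lit 0) (nat_lit 7896558868) (nat_lit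 152) (nat_lit 5582952457) (nat_lit 228) (nat_lit 2448194983) (nat_lit 25) (nat_lit 5) (nat_lit 27) (nat_lit 5) (nat_lit 28) (nat_lit 4) (nat_lit 504) (nat_lit 342) (nat_lit 294)) (XT.nd (nat_lit 78) (nat_lit 0) (nat_lit 0) (XT.lf (nat_lit 0) (nat_lit 1824039701) (nat_lit 152) (nat_lit 594997640) (nat_lit 228) (nat_lit 13717367004) (nat_lit 22) (nat_lit 5) (nat_lit 24) (nat_lit 5) (nat_lit 25) (nat_lit 5) (nat_lit 505) (nat_lit 342) (nat_lit 293)) (XT.lf (nat_lit 0) (nat_lit 7386838804) (nat_lit 228) (nat_lit 4495307039) (nat_lit 76) (nat_lit 4466090096) (nat_lit 22) (nat_lit 5) (nat_lit 25) (nat_lit 5) (nat_lit 23) (nat_lit 4) (nat_lit 506) (nat_lit 342) (nat_lit 292)))) (XT.nd (nat_lit 78) (nat_lit 76) (nat_lit 0) (XT.lf (nat_lit 0) (nat_lit 5501437355) (nat_lit 76) (nat_lit 6945703940) (nat_lit 152) (nat_lit 4117303269) (nat_lit 21) (nat_lit 5) (nat_lit 22) (nat_lit 5) (nat_lit 23) (nat_lit 4) (nat_lit 507) (nat_lit 342) (nat_lit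 291)) (XT.nd (nat_lit 55146) (nat_lit 0) (nat_lit 11400) (XT.lf (nat_lit 0) (nat_lit 796776992) (nat_lit 152) (nat_lit 1115798509) (nat_lit 76) (nat_lit 14872619931) (nat_lit 20) (nat_lit 5) (nat_lit 22) (nat_lit 5) (nat_lit 21) (nat_lit 5) (nat_lit 508) (nat_lit 342) (nat_lit 290)) (XT.lf (nat_lit 0) (nat_lit 2875313743) (nat_lit 456) (nat_lit 868863286) (nat_lit 456) (nat_lit 868863286) (nat_lit 170) (nat_lit 4) (nat_lit 176) (nat_lit 5) (nat_lit 176) (nat_lit 4) (nat_lit 454) (nat_lit 343) (nat_lit 343)))))) (XT.nd (nat_lit 390) (nat_lit 1900) (nat_lit 0) (XT.nd (nat_lit 156) (nat_lit 912) (nat_lit 0) (XT.nd (nat_lit 78) (nat_lit 456) (nat_lit 0) (XT.lf (nat_lit 0) (nat_lit 2511991607) (nat_lit 456) (nat_lit 5165145480) (nat_lit 0) (nat_lit 1629474826) (nat_lit 164) (nat_lit 5) (nat_lit 170) (nat_lit 4) (nat_lit 164) (nat_lit 4) (nat_lit 455) (nat_lit 343) (nat_lit 342)) (XT.lf (nat_lit 0) (nat_lit 2477045365) (nat_lit 456)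 (nat_lit 4329776625) (nat_lit 456) (nat_lit 2582047314) (nat_lit 158) (nat_lit 4) (nat_lit 164) (nat_lit 5) (nat_lit 164) (nat_lit 4) (nat_lit 456) (nat_lit 343) (nat_lit 341))) (XT.nd (nat_lit 78) (nat_lit 456) (nat_lit 0) (XT.lf (nat_lit 0) (nat_lit 766650041) (nat_lit 380) (nat_lit 898016756) (nat_lit 456) (nat_lit 7808447221) (nat_lit 152) (nat_lit 5) (nat_lit 157) (nat_lit 5) (nat_lit 158) (nat_lit 4) (nat_lit 457) (nat_lit 343) (nat_lit 340)) (XT.nd (nat_lit 78) (nat_lit 456) (nat_lit 0) (XT.lf (nat_lit 0) (nat_lit 5958311321) (nat_lit 456) (nat_lit 1002544903) (nat_lit 0) (nat_lit 2597926847) (nat_lit 152) (nat_lit 5) (nat_lit 158) (nat_lit 4) (nat_lit 152) (nat_lit 4) (nat_lit 458) (nat_lit 343) (nat_lit 339)) (XT.lf (nat_lit 0) (nat_lit 667093323) (nat_lit 456) (nat_lit 2812178598) (nat_lit 76) (nat_lit 6167125457) (nat_lit 146) (nat_lit 5) (nat_lit 152) (nat_lit 5) (nat_lit 147) (nat_lit 4) (nat_lit 459) (nat_lit 343)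 (nat_lit 338))))) (XT.nd (nat_lit 234) (nat_lit 760) (nat_lit 0) (XT.nd (nat_lit 78) (nat_lit 760) (nat_lit 0) (XT.lf (nat_lit 0) (nat_lit 4946509830) (nat_lit 456) (nat_lit 4689213796) (nat_lit 0) (nat_lit 100081636) (nat_lit 141) (nat_lit 5) (nat_lit 147) (nat_lit 4) (nat_lit 141) (nat_lit 4) (nat_lit 460) (nat_lit 343) (nat_lit 337)) (XT.nd (nat_lit 78) (nat_lit 380) (nat_lit 0) (XT.lf (nat_lit 0) (nat_lit 3191584189) (nat_lit 380) (nat_lit 6117561759) (nat_lit 380) (nat_lit 517913990) (nat_lit 136) (nat_lit 4) (nat_lit 141) (nat_lit 5) (nat_lit 141) (nat_lit 4) (nat_lit 461) (nat_lit 343) (nat_lit 336)) (XT.lf (nat_lit 0) (nat_lit 1264148952) (nat_lit 304) (nat_lit 2499339802) (nat_lit 380) (nat_lit 6156664453) (nat_lit 131) (nat_lit 5) (nat_lit 135) (nat_lit 5) (nat_lit 136) (nat_lit 4) (nat_lit 462) (nat_lit 343) (nat_lit 335)))) (XT.nd (nat_lit 78) (nat_lit 760) (nat_lit 0) (XT.lf (nat_lit 0) (nat_lit 8111589846) (nat_lit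 380) (nat_lit 715708210) (nat_lit 0) (nat_lit 1187992323) (nat_lit 131) (nat_lit 5) (nat_lit 136) (nat_lit 4) (nat_lit 131) (nat_lit 4) (nat_lit 463) (nat_lit 343) (nat_lit 334)) (XT.nd (nat_lit 78) (nat_lit 304) (nat_lit 0) (XT.lf (nat_lit 0) (nat_lit 2403462388) (nat_lit 456) (nat_lit 2764461957) (nat_lit 76) (nat_lit 4944078716) (nat_lit 125) (nat_lit 5) (nat_lit 131) (nat_lit 5) (nat_lit 126) (nat_lit 4) (nat_lit 464) (nat_lit 343) (nat_lit 333)) (XT.lf (nat_lit 0) (nat_lit 5328507643) (nat_lit 304) (nat_lit 1419105129) (nat_lit 380) (nat_lit 3463268857) (nat_lit 121) (nat_lit 5) (nat_lit 125) (nat_lit 5) (nat_lit 126) (nat_lit 4) (nat_lit 465) (nat_lit 343) (nat_lit 332))))))) (XT.nd (nat_lit 858) (nat_lit 2052) (nat_lit 0) (XT.nd (nat_lit 390) (nat_lit 1596) (nat_lit 0) (XT.nd (nat_lit 156) (nat_lit 684) (nat_lit 0) (XT.nd (nat_lit 78) (nat_lit 304) (nat_lit 0) (XT.lf (nat_lit 0) (nat_lit 848010035) (nat_lit 456) (nat_lit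 7081635007) (nat_lit 76) (nat_lit 2382140340) (nat_lit 115) (nat_lit 5) (nat_lit 121) (nat_lit 5) (nat_lit 116) (nat_lit 4) (nat_lit 466) (nat_lit 343) (nat_lit 331)) (XT.lf (nat_lit 0) (nat_lit 1037626885) (nat_lit 304) (nat_lit 4148070054) (nat_lit 380) (nat_lit 5228830735) (nat_lit 111) (nat_lit 5) (nat_lit 115) (nat_lit 5) (nat_lit 116) (nat_lit 4) (nat_lit 467) (nat_lit 343) (nat_lit 330))) (XT.nd (nat_lit 78) (nat_lit 684) (nat_lit 0) (XT.lf (nat_lit 0) (nat_lit 9315442193) (nat_lit 304) (nat_lit 280193238) (nat_lit 380) (nat_lit 923988660) (nat_lit 111) (nat_lit 5) (nat_lit 115) (nat_lit 5) (nat_lit 116) (nat_lit 4) (nat_lit 468) (nat_lit 343) (nat_lit 329)) (XT.nd (nat_lit 78) (nat_lit 304) (nat_lit 0) (XT.lf (nat_lit 0) (nat_lit 3430392187) (nat_lit 380) (nat_lit 3546729130) (nat_lit 76) (nat_lit 3649081570) (nat_lit 106) (nat_lit 5) (nat_lit 111) (nat_lit 5) (nat_lit 107) (nat_lit 4) (nat_lit 469) (nat_lit 343) (nat_lit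 328)) (XT.lf (nat_lit 0) (nat_lit 4765830237) (nat_lit 304) (nat_lit 3073704456) (nat_lit 380) (nat_lit 2895664193) (nat_lit 102) (nat_lit 5) (nat_lit 106) (nat_lit 5) (nat_lit 107) (nat_lit 4) (nat_lit 470) (nat_lit 343) (nat_lit 327))))) (XT.nd (nat_lit 234) (nat_lit 988) (nat_lit 0) (XT.nd (nat_lit 78) (nat_lit 228) (nat_lit 0) (XT.lf (nat_lit 0) (nat_lit 1455493867) (nat_lit 380) (nat_lit 8483719127) (nat_lit 76) (nat_lit 907285501) (nat_lit 97) (nat_lit 5) (nat_lit 102) (nat_lit 5) (nat_lit 98) (nat_lit 4) (nat_lit 471) (nat_lit 343) (nat_lit 326)) (XT.nd (nat_lit 78) (nat_lit 228) (nat_lit 0) (XT.lf (nat_lit 0) (nat_lit 5855168834) (nat_lit 380) (nat_lit 156028933) (nat_lit 76) (nat_lit 4948446389) (nat_lit 97) (nat_lit 5) (nat_lit 102) (nat_lit 5) (nat_lit 98) (nat_lit 4) (nat_lit 472) (nat_lit 343) (nat_lit 325)) (XT.lf (nat_lit 0) (nat_lit 8350184952) (nat_lit 228) (nat_lit 1987604441) (nat_lit 304) (nat_lit 737372335)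 (nat_lit 94) (nat_lit 5) (nat_lit 97) (nat_lit 5) (nat_lit 98) (nat_lit 4) (nat_lit 473) (nat_lit 343) (nat_lit 324)))) (XT.nd (nat_lit 78) (nat_lit 608) (nat_lit 0) (XT.lf (nat_lit 0) (nat_lit 3661747707) (nat_lit 380) (nat_lit 5417064577) (nat_lit 76) (nat_lit 2113833922) (nat_lit 89) (nat_lit 5) (nat_lit 94) (nat_lit 5) (nat_lit 90) (nat_lit 4) (nat_lit 474) (nat_lit 343) (nat_lit 323)) (XT.nd (nat_lit 78) (nat_lit 380) (nat_lit 0) (XT.lf (nat_lit 0) (nat_lit 3095420877) (nat_lit 228) (nat_lit 5036385513) (nat_lit 304) (nat_lit 3180727486) (nat_lit 86) (nat_lit 5) (nat_lit 89) (nat_lit 5) (nat_lit 90) (nat_lit 4) (nat_lit 475) (nat_lit 343) (nat_lit 322)) (XT.lf (nat_lit 0) (nat_lit 315101541) (nat_lit 304) (nat_lit 904785934) (nat_lit 380) (nat_lit 10215177573) (nat_lit 81) (nat_lit 5) (nat_lit 85) (nat_lit 5) (nat_lit 86) (nat_lit 5) (nat_lit 476) (nat_lit 343) (nat_lit 321)))))) (XT.nd (nat_lit 390) (nat_lit 1216) (nat_lit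 0) (XT.nd (nat_lit 156) (nat_lit 608) (nat_lit 0) (XT.nd (nat_lit 78) (nat_lit 228) (nat_lit 0) (XT.lf (nat_lit 0) (nat_lit 5684502576) (nat_lit 380) (nat_lit 2570911927) (nat_lit 76) (nat_lit 3303847432) (nat_lit 81) (nat_lit 5) (nat_lit 86) (nat_lit 5) (nat_lit 82) (nat_lit 4) (nat_lit 477) (nat_lit 343) (nat_lit 320)) (XT.lf (nat_lit 0) (nat_lit 6127018320) (nat_lit 228) (nat_lit 4099854997) (nat_lit 304) (nat_lit 1459307175) (nat_lit 78) (nat_lit 5) (nat_lit 81) (nat_lit 5) (nat_lit 82) (nat_lit 4) (nat_lit 478) (nat_lit 343) (nat_lit 319))) (XT.nd (nat_lit 78) (nat_lit 304) (nat_lit 0) (XT.lf (nat_lit 0) (nat_lit 2986135415) (nat_lit 304) (nat_lit 8673456045) (nat_lit 76) (nat_lit 156025158) (nat_lit 74) (nat_lit 5) (nat_lit 78) (nat_lit 5) (nat_lit 75) (nat_lit 4) (nat_lit 479) (nat_lit 343) (nat_lit 318)) (XT.nd (nat_lit 78) (nat_lit 76) (nat_lit 0) (XT.lf (nat_lit 0) (nat_lit 12218455) (nat_lit 228) (nat_lit 7496581769)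 (nat_lit 304) (nat_lit 4438497848) (nat_lit 71) (nat_lit 5) (nat_lit 74) (nat_lit 5) (nat_lit 75) (nat_lit 4) (nat_lit 480) (nat_lit 343) (nat_lit 317)) (XT.lf (nat_lit 0) (nat_lit 41529736) (nat_lit 304) (nat_lit 3188892700) (nat_lit 76) (nat_lit 8851156762) (nat_lit 70) (nat_lit 5) (nat_lit 74) (nat_lit 5) (nat_lit 71) (nat_lit 5) (nat_lit 481) (nat_lit 343) (nat_lit 316))))) (XT.nd (nat_lit 234) (nat_lit 684) (nat_lit 0) (XT.nd (nat_lit 78) (nat_lit 304) (nat_lit 0) (XT.lf (nat_lit 0) (nat_lit 4540415893) (nat_lit 304) (nat_lit 6543527460) (nat_lit 76) (nat_lit 1134248251) (nat_lit 67) (nat_lit 5) (nat_lit 71) (nat_lit 5) (nat_lit 68) (nat_lit 4) (nat_lit 482) (nat_lit 343) (nat_lit 315)) (XT.nd (nat_lit 78) (nat_lit 76) (nat_lit 0) (XT.lf (nat_lit 0) (nat_lit 2315134940) (nat_lit 228) (nat_lit 6816614121) (nat_lit 304) (nat_lit 3225743903) (nat_lit 64) (nat_lit 5) (nat_lit 67) (nat_lit 5) (nat_lit 68) (nat_lit 4) (nat_lit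 483) (nat_lit 343) (nat_lit 314)) (XT.lf (nat_lit 0) (nat_lit 1286885766) (nat_lit 304) (nat_lit 1163281470) (nat_lit 76) (nat_lit 10049472015) (nat_lit 63) (nat_lit 5) (nat_lit 67) (nat_lit 5) (nat_lit 64) (nat_lit 5) (nat_lit 484) (nat_lit 343) (nat_lit 313)))) (XT.nd (nat_lit 78) (nat_lit 456) (nat_lit 0) (XT.lf (nat_lit 0) (nat_lit 5856717002) (nat_lit 304) (nat_lit 4775665591) (nat_lit 76) (nat_lit 2011622334) (nat_lit 60) (nat_lit 5) (nat_lit 64) (nat_lit 5) (nat_lit 61) (nat_lit 4) (nat_lit 485) (nat_lit 343) (nat_lit 312)) (XT.nd (nat_lit 78) (nat_lit 304) (nat_lit 0) (XT.lf (nat_lit 0) (nat_lit 4250972909) (nat_lit 152) (nat_lit 6264556815) (nat_lit 228) (nat_lit 2275782126) (nat_lit 58) (nat_lit 5) (nat_lit 60) (nat_lit 5) (nat_lit 61) (nat_lit 4) (nat_lit 486) (nat_lit 343) (nat_lit 311)) (XT.lf (nat_lit 0) (nat_lit 479057679) (nat_lit 228) (nat_lit 1797756476) (nat_lit 304) (nat_lit 10664826821) (nat_lit 54) (nat_lit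 5) (nat_lit 57) (nat_lit 5) (nat_lit 58) (nat_lit 5) (nat_lit 487) (nat_lit 343) (nat_lit 310))))))))
noncomputable def xc17 : XT := (XT.nd (nat_lit 56628) (nat_lit 0) (nat_lit 4940) (XT.nd (nat_lit 858) (nat_lit 1064) (nat_lit 0) (XT.nd (nat_lit 390) (nat_lit 836) (nat_lit 0) (XT.nd (nat_lit 156) (nat_lit 456) (nat_lit 0) (XT.nd (nat_lit 78) (nat_lit 152) (nat_lit 0) (XT.lf (nat_lit 0) (nat_lit 6911808626) (nat_lit 304) (nat_lit 3426649902) (nat_lit 76) (nat_lit 2755786224) (nat_lit 54) (nat_lit 5) (nat_lit 58) (nat_lit 5) (nat_lit 55) (nat_lit 4) (nat_lit 488) (nat_lit 343) (nat_lit 309)) (XT.lf (nat_lit 0) (nat_lit 5761435199) (nat_lit 152) (nat_lit 5874627147) (nat_lit 228) (nat_lit 1613912271) (nat_lit 52) (nat_lit 5) (nat_lit 54) (nat_lit 5) (nat_lit 55) (nat_lit 4) (nat_lit 489) (nat_lit 343) (nat_lit 308))) (XT.nd (nat_lit 78) (nat_lit 152) (nat_lit 0) (XT.lf (nat_lit 0) (nat_lit 1681170281) (nat_lit 228) (nat_lit 1306260047)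 (nat_lit 304) (nat_lit 10421370282) (nat_lit 48) (nat_lit 5) (nat_lit 51) (nat_lit 5) (nat_lit 52) (nat_lit 5) (nat_lit 490) (nat_lit 343) (nat_lit 307)) (XT.nd (nat_lit 78) (nat_lit 152) (nat_lit 0) (XT.lf (nat_lit 0) (nat_lit 7679083015) (nat_lit 304) (nat_lit 2559316143) (nat_lit 76) (nat_lit 3331797637) (nat_lit 48) (nat_lit 5) (nat_lit 52) (nat_lit 5) (nat_lit 49) (nat_lit 4) (nat_lit 491) (nat_lit 343) (nat_lit 306)) (XT.lf (nat_lit 0) (nat_lit 6781966762) (nat_lit 152) (nat_lit 5683830360) (nat_lit 228) (nat_lit 1269004018) (nat_lit 46) (nat_lit 5) (nat_lit 48) (nat_lit 5) (nat_lit 49) (nat_lit 4) (nat_lit 492) (nat_lit 343) (nat_lit 305))))) (XT.nd (nat_lit 234) (nat_lit 380) (nat_lit 0) (XT.nd (nat_lit 78) (nat_lit 152) (nat_lit 0) (XT.lf (nat_lit 0) (nat_lit 2360097795) (nat_lit 228) (nat_lit 1021498543) (nat_lit 304) (nat_lit 10521033690) (nat_lit 42) (nat_lit 5) (nat_lit 45) (nat_lit 5) (nat_lit 46) (nat_lit 5) (nat_lit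 493) (nat_lit 343) (nat_lit 304)) (XT.nd (nat_lit 78) (nat_lit 152) (nat_lit 0) (XT.lf (nat_lit 0) (nat_lit 8128235921) (nat_lit 304) (nat_lit 2243259153) (nat_lit 76) (nat_lit 3701756800) (nat_lit 42) (nat_lit 5) (nat_lit 46) (nat_lit 5) (nat_lit 43) (nat_lit 4) (nat_lit 494) (nat_lit 343) (nat_lit 303)) (XT.lf (nat_lit 0) (nat_lit 7241029543) (nat_lit 152) (nat_lit 5732354277) (nat_lit 228) (nat_lit 1273835267) (nat_lit 40) (nat_lit 5) (nat_lit 42) (nat_lit 5) (nat_lit 43) (nat_lit 4) (nat_lit 495) (nat_lit 343) (nat_lit 302)))) (XT.nd (nat_lit 78) (nat_lit 152) (nat_lit 0) (XT.lf (nat_lit 0) (nat_lit 2441041894) (nat_lit 152) (nat_lit 984819306) (nat_lit 228) (nat_lit 10998737939) (nat_lit 37) (nat_lit 5) (nat_lit 39) (nat_lit 5) (nat_lit 40) (nat_lit 5) (nat_lit 496) (nat_lit 343) (nat_lit 301)) (XT.nd (nat_lit 78) (nat_lit 152) (nat_lit 0) (XT.lf (nat_lit 0) (nat_lit 8224910544) (nat_lit 228) (nat_lit 2555606304) (nat_lit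 76) (nat_lit 3824397413) (nat_lit 37) (nat_lit 5) (nat_lit 40) (nat_lit 5) (nat_lit 38) (nat_lit 4) (nat_lit 497) (nat_lit 343) (nat_lit 300)) (XT.lf (nat_lit 0) (nat_lit 7059304306) (nat_lit 152) (nat_lit 6063998655) (nat_lit 228) (nat_lit 1665469583) (nat_lit 35) (nat_lit 5) (nat_lit 37) (nat_lit 5) (nat_lit 38) (nat_lit 4) (nat_lit 498) (nat_lit 343) (nat_lit 299)))))) (XT.nd (nat_lit 390) (nat_lit 456) (nat_lit 0) (XT.nd (nat_lit 156) (nat_lit 380) (nat_lit 0) (XT.nd (nat_lit 78) (nat_lit 0) (nat_lit 0) (XT.lf (nat_lit 0) (nat_lit 1841074938) (nat_lit 152) (nat_lit 1241346996) (nat_lit 228) (nat_lit 11893875979) (nat_lit 32) (nat_lit 5) (nat_lit 34) (nat_lit 5) (nat_lit 35) (nat_lit 5) (nat_lit 499) (nat_lit 343) (nat_lit 298)) (XT.lf (nat_lit 0) (nat_lit 7930300662) (nat_lit 228) (nat_lit 3581869245) (nat_lit 76) (nat_lit 3654640971) (nat_lit 32) (nat_lit 5) (nat_lit 35) (nat_lit 5) (nat_lit 33) (nat_lit 4) (nat_lit 500)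 (nat_lit 343) (nat_lit 297))) (XT.nd (nat_lit 78) (nat_lit 228) (nat_lit 0) (XT.lf (nat_lit 0) (nat_lit 6148811483) (nat_lit 152) (nat_lit 6726643411) (nat_lit 228) (nat_lit 2485676639) (nat_lit 30) (nat_lit 5) (nat_lit 32) (nat_lit 5) (nat_lit 33) (nat_lit 4) (nat_lit 501) (nat_lit 343) (nat_lit 296)) (XT.nd (nat_lit 78) (nat_lit 0) (nat_lit 0) (XT.lf (nat_lit 0) (nat_lit 468225490) (nat_lit 152) (nat_lit 1840468529) (nat_lit 228) (nat_lit 13250752256) (nat_lit 27) (nat_lit 5) (nat_lit 29) (nat_lit 5) (nat_lit 30) (nat_lit 5) (nat_lit 502) (nat_lit 343) (nat_lit 295)) (XT.lf (nat_lit 0) (nat_lit 7200708931) (nat_lit 228) (nat_lit 5416882414) (nat_lit 76) (nat_lit 3143110131) (nat_lit 27) (nat_lit 5) (nat_lit 30) (nat_lit 5) (nat_lit 28) (nat_lit 4) (nat_lit 503) (nat_lit 343) (nat_lit 294))))) (XT.nd (nat_lit 234) (nat_lit 76) (nat_lit 0) (XT.nd (nat_lit 78) (nat_lit 228) (nat_lit 0) (XT.lf (nat_lit 0) (nat_lit 4411942325)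 (nat_lit 152) (nat_lit 7772760296) (nat_lit 228) (nat_lit 3781399890) (nat_lit 25) (nat_lit 5) (nat_lit 27) (nat_lit 5) (nat_lit 28) (nat_lit 4) (nat_lit 504) (nat_lit 343) (nat_lit 293)) (XT.nd (nat_lit 78) (nat_lit 152) (nat_lit 0) (XT.lf (nat_lit 0) (nat_lit 1068387630) (nat_lit 228) (nat_lit 1756190762) (nat_lit 76) (nat_lit 13351095543) (nat_lit 24) (nat_lit 5) (nat_lit 27) (nat_lit 5) (nat_lit 25) (nat_lit 5) (nat_lit 505) (nat_lit 343) (nat_lit 292)) (XT.lf (nat_lit 0) (nat_lit 5987055861) (nat_lit 228) (nat_lit 8165837619) (nat_lit 76) (nat_lit 2235596347) (nat_lit 22) (nat_lit 5) (nat_lit 25) (nat_lit 5) (nat_lit 23) (nat_lit 4) (nat_lit 506) (nat_lit 343) (nat_lit 291)))) (XT.nd (nat_lit 78) (nat_lit 0) (nat_lit 0) (XT.lf (nat_lit 0) (nat_lit 1740390726) (nat_lit 76) (nat_lit 9259973011) (nat_lit 152) (nat_lit 5605276207) (nat_lit 21) (nat_lit 5) (nat_lit 22) (nat_lit 5) (nat_lit 23) (nat_lit 4) (nat_lit 507) (nat_lit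 343) (nat_lit 290)) (XT.nd (nat_lit 54990) (nat_lit 0) (nat_lit 12312) (XT.lf (nat_lit 0) (nat_lit 11872778824) (nat_lit 76) (nat_lit 4250711211) (nat_lit 152) (nat_lit 703455154) (nat_lit 21) (nat_lit 5) (nat_lit 22) (nat_lit 5) (nat_lit 23) (nat_lit 4) (nat_lit 508) (nat_lit 343) (nat_lit 289)) (XT.lf (nat_lit 0) (nat_lit 4437765129) (nat_lit 456) (nat_lit 48540267) (nat_lit 456) (nat_lit 48540267) (nat_lit 183) (nat_lit 4) (nat_lit 189) (nat_lit 5) (nat_lit 189) (nat_lit 4) (nat_lit 452) (nat_lit 344) (nat_lit 344))))))) (XT.nd (nat_lit 858) (nat_lit 3420) (nat_lit 0) (XT.nd (nat_lit 390) (nat_lit 1596) (nat_lit 0) (XT.nd (nat_lit 156) (nat_lit 1368) (nat_lit 0) (XT.nd (nat_lit 78) (nat_lit 456) (nat_lit 0) (XT.lf (nat_lit 0) (nat_lit 4110579296) (nat_lit 532) (nat_lit 1844180414) (nat_lit 0) (nat_lit 3192408837) (nat_lit 176) (nat_lit 5) (nat_lit 183) (nat_lit 4) (nat_lit 176) (nat_lit 4) (nat_lit 453) (nat_lit 344) (nat_lit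 343)) (XT.lf (nat_lit 0) (nat_lit 5700915178) (nat_lit 456) (nat_lit 2672090039) (nat_lit 456) (nat_lit 853752464) (nat_lit 170) (nat_lit 4) (nat_lit 176) (nat_lit 5) (nat_lit 176) (nat_lit 4) (nat_lit 454) (nat_lit 344) (nat_lit 342))) (XT.nd (nat_lit 78) (nat_lit 912) (nat_lit 0) (XT.lf (nat_lit 0) (nat_lit 3344455655) (nat_lit 456) (nat_lit 5266964025) (nat_lit 0) (nat_lit 696559227) (nat_lit 164) (nat_lit 5) (nat_lit 170) (nat_lit 4) (nat_lit 164) (nat_lit 4) (nat_lit 455) (nat_lit 344) (nat_lit 341)) (XT.nd (nat_lit 78) (nat_lit 456) (nat_lit 0) (XT.lf (nat_lit 0) (nat_lit 2323800097) (nat_lit 456) (nat_lit 5281631783) (nat_lit 456) (nat_lit 1785487777) (nat_lit 158) (nat_lit 4) (nat_lit 164) (nat_lit 5) (nat_lit 164) (nat_lit 4) (nat_lit 456) (nat_lit 344) (nat_lit 340)) (XT.lf (nat_lit 0) (nat_lit 553858726) (nat_lit 380) (nat_lit 1862783850) (nat_lit 456) (nat_lit 7059107127) (nat_lit 152) (nat_lit 5) (nat_lit 157) (nat_lit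 5) (nat_lit 158) (nat_lit 4) (nat_lit 457) (nat_lit 344) (nat_lit 339))))) (XT.nd (nat_lit 234) (nat_lit 760) (nat_lit 0) (XT.nd (nat_lit 78) (nat_lit 836) (nat_lit 0) (XT.lf (nat_lit 0) (nat_lit 6671481898) (nat_lit 456) (nat_lit 1261460874) (nat_lit 0) (nat_lit 1629258005) (nat_lit 152) (nat_lit 5) (nat_lit 158) (nat_lit 4) (nat_lit 152) (nat_lit 4) (nat_lit 458) (nat_lit 344) (nat_lit 338)) (XT.nd (nat_lit 78) (nat_lit 380) (nat_lit 0) (XT.lf (nat_lit 0) (nat_lit 1333379722) (nat_lit 456) (nat_lit 3132446498) (nat_lit 76) (nat_lit 5184585542) (nat_lit 146) (nat_lit 5) (nat_lit 152) (nat_lit 5) (nat_lit 147) (nat_lit 4) (nat_lit 459) (nat_lit 344) (nat_lit 337)) (XT.lf (nat_lit 0) (nat_lit 4673204623) (nat_lit 380) (nat_lit 904697420) (nat_lit 456) (nat_lit 4162621062) (nat_lit 141) (nat_lit 5) (nat_lit 146) (nat_lit 5) (nat_lit 147) (nat_lit 4) (nat_lit 460) (nat_lit 344) (nat_lit 336)))) (XT.nd (nat_lit 78) (nat_lit 304)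 (nat_lit 0) (XT.lf (nat_lit 0) (nat_lit 66806709) (nat_lit 456) (nat_lit 7068361310) (nat_lit 76) (nat_lit 2697411542) (nat_lit 135) (nat_lit 5) (nat_lit 141) (nat_lit 5) (nat_lit 136) (nat_lit 4) (nat_lit 461) (nat_lit 344) (nat_lit 335)) (XT.nd (nat_lit 78) (nat_lit 0) (nat_lit 0) (XT.lf (nat_lit 0) (nat_lit 772260633) (nat_lit 304) (nat_lit 3534443642) (nat_lit 380) (nat_lit 5619600807) (nat_lit 131) (nat_lit 5) (nat_lit 135) (nat_lit 5) (nat_lit 136) (nat_lit 4) (nat_lit 462) (nat_lit 344) (nat_lit 334)) (XT.lf (nat_lit 0) (nat_lit 8616751983) (nat_lit 380) (nat_lit 1256408063) (nat_lit 0) (nat_lit 149048423) (nat_lit 131) (nat_lit 5) (nat_lit 136) (nat_lit 4) (nat_lit 131) (nat_lit 4) (nat_lit 463) (nat_lit 344) (nat_lit 333)))))) (XT.nd (nat_lit 468) (nat_lit 1520) (nat_lit 0) (XT.nd (nat_lit 234) (nat_lit 684) (nat_lit 0) (XT.nd (nat_lit 78) (nat_lit 760) (nat_lit 0) (XT.lf (nat_lit 0) (nat_lit 2860343622) (nat_lit 456)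 (nat_lit 3372023617) (nat_lit 76) (nat_lit 3887190728) (nat_lit 125) (nat_lit 5) (nat_lit 131) (nat_lit 5) (nat_lit 126) (nat_lit 4) (nat_lit 464) (nat_lit 344) (nat_lit 332)) (XT.nd (nat_lit 78) (nat_lit 456) (nat_lit 0) (XT.lf (nat_lit 0) (nat_lit 4663721724) (nat_lit 304) (nat_lit 2505821289) (nat_lit 380) (nat_lit 3049597396) (nat_lit 121) (nat_lit 5) (nat_lit 125) (nat_lit 5) (nat_lit 126) (nat_lit 4) (nat_lit 465) (nat_lit 344) (nat_lit 331)) (XT.lf (nat_lit 0) (nat_lit 1213751591) (nat_lit 456) (nat_lit 7817317991) (nat_lit 76) (nat_lit 1289775616) (nat_lit 115) (nat_lit 5) (nat_lit 121) (nat_lit 5) (nat_lit 116) (nat_lit 4) (nat_lit 466) (nat_lit 344) (nat_lit 330)))) (XT.nd (nat_lit 78) (nat_lit 380) (nat_lit 0) (XT.lf (nat_lit 0) (nat_lit 242748621) (nat_lit 304) (nat_lit 5273145078) (nat_lit 380) (nat_lit 4908409260) (nat_lit 111) (nat_lit 5) (nat_lit 115) (nat_lit 5) (nat_lit 116) (nat_lit 4) (nat_lit 467) (nat_lit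 344) (nat_lit 329)) (XT.nd (nat_lit 78) (nat_lit 380) (nat_lit 0) (XT.lf (nat_lit 0) (nat_lit 8472114477) (nat_lit 304) (nat_lit 1423614991) (nat_lit 380) (nat_lit 634276445) (nat_lit 111) (nat_lit 5) (nat_lit 115) (nat_lit 5) (nat_lit 116) (nat_lit 4) (nat_lit 468) (nat_lit 344) (nat_lit 328)) (XT.lf (nat_lit 0) (nat_lit 3673079672) (nat_lit 380) (nat_lit 4465717997) (nat_lit 76) (nat_lit 2498618231) (nat_lit 106) (nat_lit 5) (nat_lit 111) (nat_lit 5) (nat_lit 107) (nat_lit 4) (nat_lit 469) (nat_lit 344) (nat_lit 327))))) (XT.nd (nat_lit 234) (nat_lit 836) (nat_lit 0) (XT.nd (nat_lit 78) (nat_lit 380) (nat_lit 0) (XT.lf (nat_lit 0) (nat_lit 3785931121) (nat_lit 304) (nat_lit 4260372485) (nat_lit 380) (nat_lit 2700830888) (nat_lit 102) (nat_lit 5) (nat_lit 106) (nat_lit 5) (nat_lit 107) (nat_lit 4) (nat_lit 470) (nat_lit 344) (nat_lit 326)) (XT.nd (nat_lit 78) (nat_lit 0) (nat_lit 0) (XT.lf (nat_lit 0) (nat_lit 1313792094) (nat_lit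 304) (nat_lit 291675675) (nat_lit 380) (nat_lit 9253791177) (nat_lit 97) (nat_lit 5) (nat_lit 101) (nat_lit 5) (nat_lit 102) (nat_lit 5) (nat_lit 471) (nat_lit 344) (nat_lit 325)) (XT.lf (nat_lit 0) (nat_lit 5973910942) (nat_lit 380) (nat_lit 1264172158) (nat_lit 76) (nat_lit 3734950123) (nat_lit 97) (nat_lit 5) (nat_lit 102) (nat_lit 5) (nat_lit 98) (nat_lit 4) (nat_lit 472) (nat_lit 344) (nat_lit 324)))) (XT.nd (nat_lit 78) (nat_lit 608) (nat_lit 0) (XT.lf (nat_lit 0) (nat_lit 7179343527) (nat_lit 228) (nat_lit 3240823310) (nat_lit 304) (nat_lit 669115155) (nat_lit 94) (nat_lit 5) (nat_lit 97) (nat_lit 5) (nat_lit 98) (nat_lit 4) (nat_lit 473) (nat_lit 344) (nat_lit 323)) (XT.nd (nat_lit 78) (nat_lit 228) (nat_lit 0) (XT.lf (nat_lit 0) (nat_lit 3683993262) (nat_lit 380) (nat_lit 6672811287) (nat_lit 76) (nat_lit 850859136) (nat_lit 89) (nat_lit 5) (nat_lit 94) (nat_lit 5) (nat_lit 90) (nat_lit 4) (nat_lit 474) (nat_lit 344)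 (nat_lit 322)) (XT.lf (nat_lit 0) (nat_lit 1774798565) (nat_lit 228) (nat_lit 6342117981) (nat_lit 304) (nat_lit 3211381195) (nat_lit 86) (nat_lit 5) (nat_lit 89) (nat_lit 5) (nat_lit 90) (nat_lit 4) (nat_lit 475) (nat_lit 344) (nat_lit 321))))))))
noncomputable def xc18 : XT := (XT.nd (nat_lit 1716) (nat_lit 1216) (nat_lit 0) (XT.nd (nat_lit 858) (nat_lit 1596) (nat_lit 0) (XT.nd (nat_lit 390) (nat_lit 1216) (nat_lit 0) (XT.nd (nat_lit 156) (nat_lit 532) (nat_lit 0) (XT.nd (nat_lit 78) (nat_lit 304) (nat_lit 0) (XT.lf (nat_lit 0) (nat_lit 1159091168) (nat_lit 304) (nat_lit 1072843030) (nat_lit 76) (nat_lit 9219513121) (nat_lit 85) (nat_lit 5) (nat_lit 89) (nat_lit 5) (nat_lit 86) (nat_lit 5) (nat_lit 476) (nat_lit 344) (nat_lit 320)) (XT.lf (nat_lit 0) (nat_lit 5579613687) (nat_lit 380) (nat_lit 4028730099) (nat_lit 76) (nat_lit 1968185738) (nat_lit 81) (nat_lit 5) (nat_lit 86) (nat_lit 5) (nat_lit 82) (nat_lit 4) (nat_lit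 477) (nat_lit 344) (nat_lit 319))) (XT.nd (nat_lit 78) (nat_lit 304) (nat_lit 0) (XT.lf (nat_lit 0) (nat_lit 4602384581) (nat_lit 228) (nat_lit 5481886272) (nat_lit 304) (nat_lit 1619934897) (nat_lit 78) (nat_lit 5) (nat_lit 81) (nat_lit 5) (nat_lit 82) (nat_lit 4) (nat_lit 478) (nat_lit 344) (nat_lit 318)) (XT.nd (nat_lit 78) (nat_lit 0) (nat_lit 0) (XT.lf (nat_lit 0) (nat_lit 1533597322) (nat_lit 228) (nat_lit 1254782773) (nat_lit 304) (nat_lit 9046070589) (nat_lit 74) (nat_lit 5) (nat_lit 77) (nat_lit 5) (nat_lit 78) (nat_lit 5) (nat_lit 479) (nat_lit 344) (nat_lit 317)) (XT.lf (nat_lit 0) (nat_lit 7275179682) (nat_lit 304) (nat_lit 1654197375) (nat_lit 76) (nat_lit 3037475588) (nat_lit 74) (nat_lit 5) (nat_lit 78) (nat_lit 5) (nat_lit 75) (nat_lit 4) (nat_lit 480) (nat_lit 344) (nat_lit 316))))) (XT.nd (nat_lit 234) (nat_lit 456) (nat_lit 0) (XT.nd (nat_lit 78) (nat_lit 532) (nat_lit 0) (XT.lf (nat_lit 0) (nat_lit 7157870038)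 (nat_lit 228) (nat_lit 4693892599) (nat_lit 304) (nat_lit 250145399) (nat_lit 71) (nat_lit 5) (nat_lit 74) (nat_lit 5) (nat_lit 75) (nat_lit 4) (nat_lit 481) (nat_lit 344) (nat_lit 315)) (XT.nd (nat_lit 78) (nat_lit 228) (nat_lit 0) (XT.lf (nat_lit 0) (nat_lit 3858695057) (nat_lit 228) (nat_lit 346980418) (nat_lit 304) (nat_lit 8033807385) (nat_lit 67) (nat_lit 5) (nat_lit 70) (nat_lit 5) (nat_lit 71) (nat_lit 5) (nat_lit 482) (nat_lit 344) (nat_lit 314)) (XT.lf (nat_lit 0) (nat_lit 408871652) (nat_lit 228) (nat_lit 8346572624) (nat_lit 304) (nat_lit 3624174190) (nat_lit 64) (nat_lit 5) (nat_lit 67) (nat_lit 5) (nat_lit 68) (nat_lit 4) (nat_lit 483) (nat_lit 344) (nat_lit 313)))) (XT.nd (nat_lit 78) (nat_lit 380) (nat_lit 0) (XT.lf (nat_lit 0) (nat_lit 866796226) (nat_lit 304) (nat_lit 3135393990) (nat_lit 76) (nat_lit 8520166811) (nat_lit 63) (nat_lit 5) (nat_lit 67) (nat_lit 5) (nat_lit 64) (nat_lit 5) (nat_lit 484) (nat_lit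 344) (nat_lit 312)) (XT.nd (nat_lit 78) (nat_lit 152) (nat_lit 0) (XT.lf (nat_lit 0) (nat_lit 5386708433) (nat_lit 304) (nat_lit 6833217239) (nat_lit 76) (nat_lit 447798199) (nat_lit 60) (nat_lit 5) (nat_lit 64) (nat_lit 5) (nat_lit 61) (nat_lit 4) (nat_lit 485) (nat_lit 344) (nat_lit 311)) (XT.lf (nat_lit 0) (nat_lit 2119966642) (nat_lit 152) (nat_lit 7885461825) (nat_lit 228) (nat_lit 2810406914) (nat_lit 58) (nat_lit 5) (nat_lit 60) (nat_lit 5) (nat_lit 61) (nat_lit 4) (nat_lit 486) (nat_lit 344) (nat_lit 310)))))) (XT.nd (nat_lit 390) (nat_lit 836) (nat_lit 0) (XT.nd (nat_lit 156) (nat_lit 456) (nat_lit 0) (XT.nd (nat_lit 78) (nat_lit 228) (nat_lit 0) (XT.lf (nat_lit 0) (nat_lit 1719880188) (nat_lit 228) (nat_lit 1724841565) (nat_lit 76) (nat_lit 9522101221) (nat_lit 57) (nat_lit 5) (nat_lit 60) (nat_lit 5) (nat_lit 58) (nat_lit 5) (nat_lit 487) (nat_lit 344) (nat_lit 309)) (XT.lf (nat_lit 0) (nat_lit 6306643145) (nat_lit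 304) (nat_lit 5713767214) (nat_lit 76) (nat_lit 1099983594) (nat_lit 54) (nat_lit 5) (nat_lit 58) (nat_lit 5) (nat_lit 55) (nat_lit 4) (nat_lit 488) (nat_lit 344) (nat_lit 308))) (XT.nd (nat_lit 78) (nat_lit 304) (nat_lit 0) (XT.lf (nat_lit 0) (nat_lit 3398568443) (nat_lit 152) (nat_lit 7591383663) (nat_lit 228) (nat_lit 2286993131) (nat_lit 52) (nat_lit 5) (nat_lit 54) (nat_lit 5) (nat_lit 55) (nat_lit 4) (nat_lit 489) (nat_lit 344) (nat_lit 307)) (XT.nd (nat_lit 78) (nat_lit 228) (nat_lit 0) (XT.lf (nat_lit 0) (nat_lit 2286701051) (nat_lit 228) (nat_lit 771153521) (nat_lit 76) (nat_lit 10378736007) (nat_lit 51) (nat_lit 5) (nat_lit 54) (nat_lit 5) (nat_lit 52) (nat_lit 5) (nat_lit 490) (nat_lit 344) (nat_lit 306)) (XT.lf (nat_lit 0) (nat_lit 6936401283) (nat_lit 304) (nat_lit 5083271292) (nat_lit 76) (nat_lit 1579155617) (nat_lit 48) (nat_lit 5) (nat_lit 52) (nat_lit 5) (nat_lit 49) (nat_lit 4) (nat_lit 491) (nat_lit 344)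 (nat_lit 305))))) (XT.nd (nat_lit 234) (nat_lit 380) (nat_lit 0) (XT.nd (nat_lit 78) (nat_lit 304) (nat_lit 0) (XT.lf (nat_lit 0) (nat_lit 4179867160) (nat_lit 152) (nat_lit 7501380177) (nat_lit 228) (nat_lit 2083024893) (nat_lit 46) (nat_lit 5) (nat_lit 48) (nat_lit 5) (nat_lit 49) (nat_lit 4) (nat_lit 492) (nat_lit 344) (nat_lit 304)) (XT.nd (nat_lit 78) (nat_lit 228) (nat_lit 0) (XT.lf (nat_lit 0) (nat_lit 2537994164) (nat_lit 228) (nat_lit 341202300) (nat_lit 76) (nat_lit 11053817745) (nat_lit 45) (nat_lit 5) (nat_lit 48) (nat_lit 5) (nat_lit 46) (nat_lit 5) (nat_lit 493) (nat_lit 344) (nat_lit 303)) (XT.lf (nat_lit 0) (nat_lit 7245459785) (nat_lit 304) (nat_lit 5011591183) (nat_lit 76) (nat_lit 1847370764) (nat_lit 42) (nat_lit 5) (nat_lit 46) (nat_lit 5) (nat_lit 43) (nat_lit 4) (nat_lit 494) (nat_lit 344) (nat_lit 302)))) (XT.nd (nat_lit 78) (nat_lit 228) (nat_lit 0) (XT.lf (nat_lit 0) (nat_lit 4392053532) (nat_lit 152)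 (nat_lit 7655691086) (nat_lit 228) (nat_lit 2231503743) (nat_lit 40) (nat_lit 5) (nat_lit 42) (nat_lit 5) (nat_lit 43) (nat_lit 4) (nat_lit 495) (nat_lit 344) (nat_lit 301)) (XT.nd (nat_lit 78) (nat_lit 152) (nat_lit 0) (XT.lf (nat_lit 0) (nat_lit 2440574709) (nat_lit 228) (nat_lit 509080084) (nat_lit 76) (nat_lit 11507903607) (nat_lit 39) (nat_lit 5) (nat_lit 42) (nat_lit 5) (nat_lit 40) (nat_lit 5) (nat_lit 496) (nat_lit 344) (nat_lit 300)) (XT.lf (nat_lit 0) (nat_lit 7199241398) (nat_lit 228) (nat_lit 5576137479) (nat_lit 76) (nat_lit 1863304329) (nat_lit 37) (nat_lit 5) (nat_lit 40) (nat_lit 5) (nat_lit 38) (nat_lit 4) (nat_lit 497) (nat_lit 344) (nat_lit 299))))))) (XT.nd (nat_lit 55614) (nat_lit 0) (nat_lit 8664) (XT.nd (nat_lit 390) (nat_lit 608) (nat_lit 0) (XT.nd (nat_lit 156) (nat_lit 380) (nat_lit 0) (XT.nd (nat_lit 78) (nat_lit 76) (nat_lit 0) (XT.lf (nat_lit 0) (nat_lit 3955520629) (nat_lit 152) (nat_lit 8098182691)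 (nat_lit 228) (nat_lit 2769718770) (nat_lit 35) (nat_lit 5) (nat_lit 37) (nat_lit 5) (nat_lit 38) (nat_lit 4) (nat_lit 498) (nat_lit 344) (nat_lit 298)) (XT.lf (nat_lit 0) (nat_lit 1956956721) (nat_lit 228) (nat_lit 1356918180) (nat_lit 76) (nat_lit 11697931829) (nat_lit 34) (nat_lit 5) (nat_lit 37) (nat_lit 5) (nat_lit 35) (nat_lit 5) (nat_lit 499) (nat_lit 344) (nat_lit 297))) (XT.nd (nat_lit 78) (nat_lit 228) (nat_lit 0) (XT.lf (nat_lit 0) (nat_lit 6758717231) (nat_lit 228) (nat_lit 6862721564) (nat_lit 76) (nat_lit 1581805141) (nat_lit 32) (nat_lit 5) (nat_lit 35) (nat_lit 5) (nat_lit 33) (nat_lit 4) (nat_lit 500) (nat_lit 344) (nat_lit 296)) (XT.nd (nat_lit 78) (nat_lit 76) (nat_lit 0) (XT.lf (nat_lit 0) (nat_lit 2781984528) (nat_lit 152) (nat_lit 8876815713) (nat_lit 228) (nat_lit 3739667613) (nat_lit 30) (nat_lit 5) (nat_lit 32) (nat_lit 5) (nat_lit 33) (nat_lit 4) (nat_lit 501) (nat_lit 344) (nat_lit 295)) (XT.lf (nat_lit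 0) (nat_lit 1044928919) (nat_lit 228) (nat_lit 2975789704) (nat_lit 76) (nat_lit 11576752985) (nat_lit 29) (nat_lit 5) (nat_lit 32) (nat_lit 5) (nat_lit 30) (nat_lit 5) (nat_lit 502) (nat_lit 344) (nat_lit 294))))) (XT.nd (nat_lit 234) (nat_lit 304) (nat_lit 0) (XT.nd (nat_lit 78) (nat_lit 152) (nat_lit 0) (XT.lf (nat_lit 0) (nat_lit 5879964494) (nat_lit 228) (nat_lit 8966494345) (nat_lit 76) (nat_lit 953409288) (nat_lit 27) (nat_lit 5) (nat_lit 30) (nat_lit 5) (nat_lit 28) (nat_lit 4) (nat_lit 503) (nat_lit 344) (nat_lit 293)) (XT.nd (nat_lit 78) (nat_lit 0) (nat_lit 0) (XT.lf (nat_lit 0) (nat_lit 773515241) (nat_lit 152) (nat_lit 10044156637) (nat_lit 228) (nat_lit 5188524709) (nat_lit 25) (nat_lit 5) (nat_lit 27) (nat_lit 5) (nat_lit 28) (nat_lit 4) (nat_lit 504) (nat_lit 344) (nat_lit 292)) (XT.lf (nat_lit 0) (nat_lit 10747399378) (nat_lit 152) (nat_lit 5121486414) (nat_lit 228) (nat_lit 347474140) (nat_lit 25) (nat_lit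 5) (nat_lit 27) (nat_lit 5) (nat_lit 28) (nat_lit 4) (nat_lit 505) (nat_lit 344) (nat_lit 291)))) (XT.nd (nat_lit 78) (nat_lit 76) (nat_lit 0) (XT.lf (nat_lit 0) (nat_lit 4436971697) (nat_lit 152) (nat_lit 77204507) (nat_lit 228) (nat_lit 11916277843) (nat_lit 22) (nat_lit 5) (nat_lit 24) (nat_lit 5) (nat_lit 25) (nat_lit 5) (nat_lit 506) (nat_lit 344) (nat_lit 290)) (XT.nd (nat_lit 78) (nat_lit 76) (nat_lit 0) (XT.lf (nat_lit 0) (nat_lit 9493550298) (nat_lit 228) (nat_lit 2149959892) (nat_lit 76) (nat_lit 5004774220) (nat_lit 22) (nat_lit 5) (nat_lit 25) (nat_lit 5) (nat_lit 23) (nat_lit 4) (nat_lit 507) (nat_lit 344) (nat_lit 289)) (XT.lf (nat_lit 0) (nat_lit 7913740425) (nat_lit 76) (nat_lit 6666832464) (nat_lit 152) (nat_lit 2289740378) (nat_lit 21) (nat_lit 5) (nat_lit 22) (nat_lit 5) (nat_lit 23) (nat_lit 4) (nat_lit 508) (nat_lit 344) (nat_lit 288)))))) (XT.nd (nat_lit 468) (nat_lit 2204) (nat_lit 0) (XT.nd (nat_lit 234)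 (nat_lit 1368) (nat_lit 0) (XT.nd (nat_lit 78) (nat_lit 532) (nat_lit 0) (XT.lf (nat_lit 0) (nat_lit 754251520) (nat_lit 532) (nat_lit 2950545289) (nat_lit 0) (nat_lit 754251520) (nat_lit 189) (nat_lit 5) (nat_lit 196) (nat_lit 4) (nat_lit 189) (nat_lit 4) (nat_lit 450) (nat_lit 345) (nat_lit 345)) (XT.nd (nat_lit 78) (nat_lit 76) (nat_lit 0) (XT.lf (nat_lit 0) (nat_lit 1398889073) (nat_lit 456) (nat_lit 4274786088) (nat_lit 456) (nat_lit 3319521543) (nat_lit 183) (nat_lit 4) (nat_lit 189) (nat_lit 5) (nat_lit 189) (nat_lit 4) (nat_lit 451) (nat_lit 345) (nat_lit 344)) (XT.lf (nat_lit 0) (nat_lit 813491397) (nat_lit 532) (nat_lit 248545790) (nat_lit 76) (nat_lit 8008218242) (nat_lit 182) (nat_lit 5) (nat_lit 189) (nat_lit 5) (nat_lit 183) (nat_lit 4) (nat_lit 452) (nat_lit 345) (nat_lit 343)))) (XT.nd (nat_lit 78) (nat_lit 912) (nat_lit 0) (XT.lf (nat_lit 0) (nat_lit 4980056159) (nat_lit 532) (nat_lit 1943282267) (nat_lit 0)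 (nat_lit 2225184716) (nat_lit 176) (nat_lit 5) (nat_lit 183) (nat_lit 4) (nat_lit 176) (nat_lit 4) (nat_lit 453) (nat_lit 345) (nat_lit 342)) (XT.nd (nat_lit 78) (nat_lit 456) (nat_lit 0) (XT.lf (nat_lit 0) (nat_lit 5551758755) (nat_lit 456) (nat_lit 3657209278) (nat_lit 456) (nat_lit 19821054) (nat_lit 170) (nat_lit 4) (nat_lit 176) (nat_lit 5) (nat_lit 176) (nat_lit 4) (nat_lit 454) (nat_lit 345) (nat_lit 341)) (XT.lf (nat_lit 0) (nat_lit 3838145653) (nat_lit 380) (nat_lit 290936726) (nat_lit 456) (nat_lit 5181593273) (nat_lit 164) (nat_lit 5) (nat_lit 169) (nat_lit 5) (nat_lit 170) (nat_lit 4) (nat_lit 455) (nat_lit 345) (nat_lit 340))))) (XT.nd (nat_lit 234) (nat_lit 1292) (nat_lit 0) (XT.nd (nat_lit 78) (nat_lit 456) (nat_lit 0) (XT.lf (nat_lit 0) (nat_lit 2068324545) (nat_lit 456) (nat_lit 6285971501) (nat_lit 456) (nat_lit 1040041763) (nat_lit 158) (nat_lit 4) (nat_lit 164) (nat_lit 5) (nat_lit 164) (nat_lit 4) (nat_lit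 456) (nat_lit 345) (nat_lit 339)) (XT.nd (nat_lit 78) (nat_lit 0) (nat_lit 0) (XT.lf (nat_lit 0) (nat_lit 237412984) (nat_lit 380) (nat_lit 2880731477) (nat_lit 456) (nat_lit 6361615858) (nat_lit 152) (nat_lit 5) (nat_lit 157) (nat_lit 5) (nat_lit 158) (nat_lit 4) (nat_lit 457) (nat_lit 345) (nat_lit 338)) (XT.lf (nat_lit 0) (nat_lit 7334471362) (nat_lit 456) (nat_lit 1624085371) (nat_lit 0) (nat_lit 608430707) (nat_lit 152) (nat_lit 5) (nat_lit 158) (nat_lit 4) (nat_lit 152) (nat_lit 4) (nat_lit 458) (nat_lit 345) (nat_lit 337)))) (XT.nd (nat_lit 78) (nat_lit 836) (nat_lit 0) (XT.lf (nat_lit 0) (nat_lit 1948741469) (nat_lit 456) (nat_lit 3557866852) (nat_lit 76) (nat_lit 4149194381) (nat_lit 146) (nat_lit 5) (nat_lit 152) (nat_lit 5) (nat_lit 147) (nat_lit 4) (nat_lit 459) (nat_lit 345) (nat_lit 336)) (XT.nd (nat_lit 78) (nat_lit 456) (nat_lit 0) (XT.lf (nat_lit 0) (nat_lit 4193567566) (nat_lit 380) (nat_lit 1965398652) (nat_lit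 456) (nat_lit 3587639242) (nat_lit 141) (nat_lit 5) (nat_lit 146) (nat_lit 5) (nat_lit 147) (nat_lit 4) (nat_lit 460) (nat_lit 345) (nat_lit 335)) (XT.lf (nat_lit 0) (nat_lit 592625099) (nat_lit 456) (nat_lit 7612696082) (nat_lit 76) (nat_lit 1634103772) (nat_lit 135) (nat_lit 5) (nat_lit 141) (nat_lit 5) (nat_lit 136) (nat_lit 4) (nat_lit 461) (nat_lit 345) (nat_lit 334))))))))
noncomputable def xc19 : XT := (XT.nd (nat_lit 1716) (nat_lit 3420) (nat_lit 0) (XT.nd (nat_lit 858) (nat_lit 2280) (nat_lit 0) (XT.nd (nat_lit 390) (nat_lit 1368) (nat_lit 0) (XT.nd (nat_lit 156) (nat_lit 1216) (nat_lit 0) (XT.nd (nat_lit 78) (nat_lit 0) (nat_lit 0) (XT.lf (nat_lit 0) (nat_lit 171826635) (nat_lit 304) (nat_lit 4625896655) (nat_lit 380) (nat_lit 5136128321) (nat_lit 131) (nat_lit 5) (nat_lit 135) (nat_lit 5) (nat_lit 136) (nat_lit 4) (nat_lit 462) (nat_lit 345) (nat_lit 333)) (XT.lf (nat_lit 0) (nat_lit 8118459443) (nat_lit 304) (nat_lit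 957724870) (nat_lit 380) (nat_lit 954207468) (nat_lit 131) (nat_lit 5) (nat_lit 135) (nat_lit 5) (nat_lit 136) (nat_lit 4) (nat_lit 463) (nat_lit 345) (nat_lit 332))) (XT.nd (nat_lit 78) (nat_lit 760) (nat_lit 0) (XT.lf (nat_lit 0) (nat_lit 3264480261) (nat_lit 456) (nat_lit 4089717565) (nat_lit 76) (nat_lit 2774313593) (nat_lit 125) (nat_lit 5) (nat_lit 131) (nat_lit 5) (nat_lit 126) (nat_lit 4) (nat_lit 464) (nat_lit 345) (nat_lit 331)) (XT.nd (nat_lit 78) (nat_lit 456) (nat_lit 0) (XT.lf (nat_lit 0) (nat_lit 3888303644) (nat_lit 304) (nat_lit 3650307397) (nat_lit 380) (nat_lit 2690188947) (nat_lit 121) (nat_lit 5) (nat_lit 125) (nat_lit 5) (nat_lit 126) (nat_lit 4) (nat_lit 465) (nat_lit 345) (nat_lit 330)) (XT.lf (nat_lit 0) (nat_lit 1525432461) (nat_lit 456) (nat_lit 8666230659) (nat_lit 76) (nat_lit 139659839) (nat_lit 115) (nat_lit 5) (nat_lit 121) (nat_lit 5) (nat_lit 116) (nat_lit 4) (nat_lit 466) (nat_lit 345) (nat_lit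 329))))) (XT.nd (nat_lit 234) (nat_lit 684) (nat_lit 0) (XT.nd (nat_lit 78) (nat_lit 684) (nat_lit 0) (XT.lf (nat_lit 0) (nat_lit 5796210327) (nat_lit 456) (nat_lit 657161765) (nat_lit 76) (nat_lit 3982040393) (nat_lit 115) (nat_lit 5) (nat_lit 121) (nat_lit 5) (nat_lit 116) (nat_lit 4) (nat_lit 467) (nat_lit 345) (nat_lit 328)) (XT.nd (nat_lit 78) (nat_lit 380) (nat_lit 0) (XT.lf (nat_lit 0) (nat_lit 7515971294) (nat_lit 304) (nat_lit 2626238897) (nat_lit 380) (nat_lit 399586363) (nat_lit 111) (nat_lit 5) (nat_lit 115) (nat_lit 5) (nat_lit 116) (nat_lit 4) (nat_lit 468) (nat_lit 345) (nat_lit 327)) (XT.lf (nat_lit 0) (nat_lit 3860916946) (nat_lit 380) (nat_lit 5500165207) (nat_lit 76) (nat_lit 1288973632) (nat_lit 106) (nat_lit 5) (nat_lit 111) (nat_lit 5) (nat_lit 107) (nat_lit 4) (nat_lit 469) (nat_lit 345) (nat_lit 326)))) (XT.nd (nat_lit 78) (nat_lit 380) (nat_lit 0) (XT.lf (nat_lit 0) (nat_lit 2689994132) (nat_lit 304)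 (nat_lit 5508054320) (nat_lit 380) (nat_lit 2562451918) (nat_lit 102) (nat_lit 5) (nat_lit 106) (nat_lit 5) (nat_lit 107) (nat_lit 4) (nat_lit 470) (nat_lit 345) (nat_lit 325)) (XT.nd (nat_lit 78) (nat_lit 0) (nat_lit 0) (XT.lf (nat_lit 0) (nat_lit 141015071) (nat_lit 304) (nat_lit 1564495597) (nat_lit 380) (nat_lit 9167830588) (nat_lit 97) (nat_lit 5) (nat_lit 101) (nat_lit 5) (nat_lit 102) (nat_lit 5) (nat_lit 471) (nat_lit 345) (nat_lit 324)) (XT.lf (nat_lit 0) (nat_lit 6036927064) (nat_lit 380) (nat_lit 2490109904) (nat_lit 76) (nat_lit 2460823003) (nat_lit 97) (nat_lit 5) (nat_lit 102) (nat_lit 5) (nat_lit 98) (nat_lit 4) (nat_lit 472) (nat_lit 345) (nat_lit 323)))))) (XT.nd (nat_lit 390) (nat_lit 1064) (nat_lit 0) (XT.nd (nat_lit 156) (nat_lit 608) (nat_lit 0) (XT.nd (nat_lit 78) (nat_lit 380) (nat_lit 0) (XT.lf (nat_lit 0) (nat_lit 5890082772) (nat_lit 228) (nat_lit 4556530640) (nat_lit 304) (nat_lit 658230545) (nat_lit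 94) (nat_lit 5) (nat_lit 97) (nat_lit 5) (nat_lit 98) (nat_lit 4) (nat_lit 473) (nat_lit 345) (nat_lit 322)) (XT.lf (nat_lit 0) (nat_lit 3171223267) (nat_lit 304) (nat_lit 480889407) (nat_lit 380) (nat_lit 7571967689) (nat_lit 89) (nat_lit 5) (nat_lit 93) (nat_lit 5) (nat_lit 94) (nat_lit 5) (nat_lit 474) (nat_lit 345) (nat_lit 321))) (XT.nd (nat_lit 78) (nat_lit 380) (nat_lit 0) (XT.lf (nat_lit 0) (nat_lit 332333881) (nat_lit 228) (nat_lit 7712213365) (nat_lit 304) (nat_lit 3300980553) (nat_lit 86) (nat_lit 5) (nat_lit 89) (nat_lit 5) (nat_lit 90) (nat_lit 4) (nat_lit 475) (nat_lit 345) (nat_lit 320)) (XT.nd (nat_lit 78) (nat_lit 304) (nat_lit 0) (XT.lf (nat_lit 0) (nat_lit 1042726944) (nat_lit 304) (nat_lit 2578647020) (nat_lit 76) (nat_lit 7847877314) (nat_lit 85) (nat_lit 5) (nat_lit 89) (nat_lit 5) (nat_lit 86) (nat_lit 5) (nat_lit 476) (nat_lit 345) (nat_lit 319)) (XT.lf (nat_lit 0) (nat_lit 5416441444) (nat_lit 380) (nat_lit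 5610280470) (nat_lit 76) (nat_lit 568551124) (nat_lit 81) (nat_lit 5) (nat_lit 86) (nat_lit 5) (nat_lit 82) (nat_lit 4) (nat_lit 477) (nat_lit 345) (nat_lit 318))))) (XT.nd (nat_lit 234) (nat_lit 532) (nat_lit 0) (XT.nd (nat_lit 78) (nat_lit 304) (nat_lit 0) (XT.lf (nat_lit 0) (nat_lit 2953304542) (nat_lit 228) (nat_lit 6929817890) (nat_lit 304) (nat_lit 1840589688) (nat_lit 78) (nat_lit 5) (nat_lit 81) (nat_lit 5) (nat_lit 82) (nat_lit 4) (nat_lit 478) (nat_lit 345) (nat_lit 317)) (XT.nd (nat_lit 78) (nat_lit 228) (nat_lit 0) (XT.lf (nat_lit 0) (nat_lit 2533449240) (nat_lit 304) (nat_lit 199634401) (nat_lit 76) (nat_lit 9121648667) (nat_lit 77) (nat_lit 5) (nat_lit 81) (nat_lit 5) (nat_lit 78) (nat_lit 5) (nat_lit 479) (nat_lit 345) (nat_lit 316)) (XT.lf (nat_lit 0) (nat_lit 6982231563) (nat_lit 304) (nat_lit 3446866698) (nat_lit 76) (nat_lit 1558799491) (nat_lit 74) (nat_lit 5) (nat_lit 78) (nat_lit 5) (nat_lit 75) (nat_lit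 4) (nat_lit 480) (nat_lit 345) (nat_lit 315)))) (XT.nd (nat_lit 78) (nat_lit 304) (nat_lit 0) (XT.lf (nat_lit 0) (nat_lit 5295596785) (nat_lit 228) (nat_lit 6224560865) (nat_lit 304) (nat_lit 603571708) (nat_lit 71) (nat_lit 5) (nat_lit 74) (nat_lit 5) (nat_lit 75) (nat_lit 4) (nat_lit 481) (nat_lit 345) (nat_lit 314)) (XT.nd (nat_lit 78) (nat_lit 0) (nat_lit 0) (XT.lf (nat_lit 0) (nat_lit 1906047887) (nat_lit 228) (nat_lit 1911644993) (nat_lit 304) (nat_lit 8444443983) (nat_lit 67) (nat_lit 5) (nat_lit 70) (nat_lit 5) (nat_lit 71) (nat_lit 5) (nat_lit 482) (nat_lit 345) (nat_lit 313)) (XT.lf (nat_lit 0) (nat_lit 8328241494) (nat_lit 304) (nat_lit 1606980934) (nat_lit 76) (nat_lit 2467837345) (nat_lit 67) (nat_lit 5) (nat_lit 71) (nat_lit 5) (nat_lit 68) (nat_lit 4) (nat_lit 483) (nat_lit 345) (nat_lit 312))))))) (XT.nd (nat_lit 858) (nat_lit 1520) (nat_lit 0) (XT.nd (nat_lit 390) (nat_lit 912) (nat_lit 0) (XT.nd (nat_lit 156)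 (nat_lit 456) (nat_lit 0) (XT.nd (nat_lit 78) (nat_lit 228) (nat_lit 0) (XT.lf (nat_lit 0) (nat_lit 385062570) (nat_lit 304) (nat_lit 5238661917) (nat_lit 76) (nat_lit 6922875148) (nat_lit 63) (nat_lit 5) (nat_lit 67) (nat_lit 5) (nat_lit 64) (nat_lit 5) (nat_lit 484) (nat_lit 345) (nat_lit 311)) (XT.lf (nat_lit 0) (nat_lit 3661188491) (nat_lit 228) (nat_lit 1200869341) (nat_lit 304) (nat_lit 7830769719) (nat_lit 60) (nat_lit 5) (nat_lit 63) (nat_lit 5) (nat_lit 64) (nat_lit 5) (nat_lit 485) (nat_lit 345) (nat_lit 310))) (XT.nd (nat_lit 78) (nat_lit 456) (nat_lit 0) (XT.lf (nat_lit 0) (nat_lit 9433474852) (nat_lit 304) (nat_lit 143075896) (nat_lit 76) (nat_lit 3265337051) (nat_lit 60) (nat_lit 5) (nat_lit 64) (nat_lit 5) (nat_lit 61) (nat_lit 4) (nat_lit 486) (nat_lit 345) (nat_lit 309)) (XT.nd (nat_lit 78) (nat_lit 228) (nat_lit 0) (XT.lf (nat_lit 0) (nat_lit 1103073000) (nat_lit 228) (nat_lit 4056632235) (nat_lit 76) (nat_lit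 7833783266) (nat_lit 57) (nat_lit 5) (nat_lit 60) (nat_lit 5) (nat_lit 58) (nat_lit 5) (nat_lit 487) (nat_lit 345) (nat_lit 308)) (XT.lf (nat_lit 0) (nat_lit 5006858742) (nat_lit 228) (nat_lit 634918937) (nat_lit 304) (nat_lit 7506245493) (nat_lit 54) (nat_lit 5) (nat_lit 57) (nat_lit 5) (nat_lit 58) (nat_lit 5) (nat_lit 488) (nat_lit 345) (nat_lit 307))))) (XT.nd (nat_lit 234) (nat_lit 456) (nat_lit 0) (XT.nd (nat_lit 78) (nat_lit 304) (nat_lit 0) (XT.lf (nat_lit 0) (nat_lit 898623946) (nat_lit 152) (nat_lit 9381007651) (nat_lit 228) (nat_lit 3025854436) (nat_lit 52) (nat_lit 5) (nat_lit 54) (nat_lit 5) (nat_lit 55) (nat_lit 4) (nat_lit 489) (nat_lit 345) (nat_lit 306)) (XT.nd (nat_lit 78) (nat_lit 228) (nat_lit 0) (XT.lf (nat_lit 0) (nat_lit 1532470515) (nat_lit 228) (nat_lit 3338770716) (nat_lit 76) (nat_lit 8594489654) (nat_lit 51) (nat_lit 5) (nat_lit 54) (nat_lit 5) (nat_lit 52) (nat_lit 5) (nat_lit 490) (nat_lit 345)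 (nat_lit 305)) (XT.lf (nat_lit 0) (nat_lit 5880774315) (nat_lit 228) (nat_lit 249263524) (nat_lit 304) (nat_lit 7498975649) (nat_lit 48) (nat_lit 5) (nat_lit 51) (nat_lit 5) (nat_lit 52) (nat_lit 5) (nat_lit 491) (nat_lit 345) (nat_lit 304)))) (XT.nd (nat_lit 78) (nat_lit 304) (nat_lit 0) (XT.lf (nat_lit 0) (nat_lit 1437395290) (nat_lit 152) (nat_lit 9393580456) (nat_lit 228) (nat_lit 2964362231) (nat_lit 46) (nat_lit 5) (nat_lit 48) (nat_lit 5) (nat_lit 49) (nat_lit 4) (nat_lit 492) (nat_lit 345) (nat_lit 303)) (XT.nd (nat_lit 78) (nat_lit 228) (nat_lit 0) (XT.lf (nat_lit 0) (nat_lit 1643770616) (nat_lit 228) (nat_lit 3152215201) (nat_lit 76) (nat_lit 9168699683) (nat_lit 45) (nat_lit 5) (nat_lit 48) (nat_lit 5) (nat_lit 46) (nat_lit 5) (nat_lit 493) (nat_lit 345) (nat_lit 302)) (XT.lf (nat_lit 0) (nat_lit 6213944281) (nat_lit 228) (nat_lit 82400281) (nat_lit 304) (nat_lit 7840848449) (nat_lit 42) (nat_lit 5) (nat_lit 45) (nat_lit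 5) (nat_lit 46) (nat_lit 5) (nat_lit 494) (nat_lit 345) (nat_lit 301)))))) (XT.nd (nat_lit 468) (nat_lit 760) (nat_lit 0) (XT.nd (nat_lit 234) (nat_lit 380) (nat_lit 0) (XT.nd (nat_lit 78) (nat_lit 228) (nat_lit 0) (XT.lf (nat_lit 0) (nat_lit 1399249278) (nat_lit 152) (nat_lit 9655525983) (nat_lit 228) (nat_lit 3258123574) (nat_lit 40) (nat_lit 5) (nat_lit 42) (nat_lit 5) (nat_lit 43) (nat_lit 4) (nat_lit 495) (nat_lit 345) (nat_lit 300)) (XT.nd (nat_lit 78) (nat_lit 152) (nat_lit 0) (XT.lf (nat_lit 0) (nat_lit 1403567078) (nat_lit 228) (nat_lit 3571339717) (nat_lit 76) (nat_lit 9516914461) (nat_lit 39) (nat_lit 5) (nat_lit 42) (nat_lit 5) (nat_lit 40) (nat_lit 5) (nat_lit 496) (nat_lit 345) (nat_lit 299)) (XT.lf (nat_lit 0) (nat_lit 5929903038) (nat_lit 152) (nat_lit 176267355) (nat_lit 228) (nat_lit 8567898927) (nat_lit 37) (nat_lit 5) (nat_lit 39) (nat_lit 5) (nat_lit 40) (nat_lit 5) (nat_lit 497) (nat_lit 345) (nat_lit 298))))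 (XT.nd (nat_lit 78) (nat_lit 228) (nat_lit 0) (XT.lf (nat_lit 0) (nat_lit 704284128) (nat_lit 152) (nat_lit 10210782132) (nat_lit 228) (nat_lit 3944655215) (nat_lit 35) (nat_lit 5) (nat_lit 37) (nat_lit 5) (nat_lit 38) (nat_lit 4) (nat_lit 498) (nat_lit 345) (nat_lit 297)) (XT.nd (nat_lit 78) (nat_lit 152) (nat_lit 0) (XT.lf (nat_lit 0) (nat_lit 774150393) (nat_lit 228) (nat_lit 4678574018) (nat_lit 76) (nat_lit 9596001739) (nat_lit 34) (nat_lit 5) (nat_lit 37) (nat_lit 5) (nat_lit 35) (nat_lit 5) (nat_lit 499) (nat_lit 345) (nat_lit 296)) (XT.lf (nat_lit 0) (nat_lit 4943864465) (nat_lit 152) (nat_lit 576694623) (nat_lit 228) (nat_lit 9720713142) (nat_lit 32) (nat_lit 5) (nat_lit 34) (nat_lit 5) (nat_lit 35) (nat_lit 5) (nat_lit 500) (nat_lit 345) (nat_lit 295))))) (XT.nd (nat_lit 234) (nat_lit 380) (nat_lit 0) (XT.nd (nat_lit 78) (nat_lit 380) (nat_lit 0) (XT.lf (nat_lit 0) (nat_lit 10376078905) (nat_lit 228) (nat_lit 726441749)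 (nat_lit 76) (nat_lit 4334868560) (nat_lit 32) (nat_lit 5) (nat_lit 35) (nat_lit 5) (nat_lit 33) (nat_lit 4) (nat_lit 501) (nat_lit 345) (nat_lit 294)) (XT.nd (nat_lit 78) (nat_lit 228) (nat_lit 0) (XT.lf (nat_lit 0) (nat_lit 9069885213) (nat_lit 152) (nat_lit 6276464151) (nat_lit 228) (nat_lit 290729939) (nat_lit 30) (nat_lit 5) (nat_lit 32) (nat_lit 5) (nat_lit 33) (nat_lit 4) (nat_lit 502) (nat_lit 345) (nat_lit 293)) (XT.lf (nat_lit 0) (nat_lit 3161789889) (nat_lit 152) (nat_lit 1333896104) (nat_lit 228) (nat_lit 11344877933) (nat_lit 27) (nat_lit 5) (nat_lit 29) (nat_lit 5) (nat_lit 30) (nat_lit 5) (nat_lit 503) (nat_lit 345) (nat_lit 292)))) (XT.nd (nat_lit 78) (nat_lit 380) (nat_lit 0) (XT.lf (nat_lit 0) (nat_lit 9397491819) (nat_lit 228) (nat_lit 2980539416) (nat_lit 76) (nat_lit 3669580848) (nat_lit 27) (nat_lit 5) (nat_lit 30) (nat_lit 5) (nat_lit 28) (nat_lit 4) (nat_lit 504) (nat_lit 345) (nat_lit 291)) (XT.nd (nat_lit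 78) (nat_lit 228) (nat_lit 0) (XT.lf (nat_lit 0) (nat_lit 6913709278) (nat_lit 152) (nat_lit 7493344585) (nat_lit 228) (nat_lit 1851556235) (nat_lit 25) (nat_lit 5) (nat_lit 27) (nat_lit 5) (nat_lit 28) (nat_lit 4) (nat_lit 505) (nat_lit 345) (nat_lit 290)) (XT.lf (nat_lit 0) (nat_lit 479360634) (nat_lit 152) (nat_lit 2503008808) (nat_lit 228) (nat_lit 13491480669) (nat_lit 22) (nat_lit 5) (nat_lit 24) (nat_lit 5) (nat_lit 25) (nat_lit 5) (nat_lit 506) (nat_lit 345) (nat_lit 289))))))))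
noncomputable def xc20 : XT := (XT.nd (nat_lit 56394) (nat_lit 0) (nat_lit 1976) (XT.nd (nat_lit 55536) (nat_lit 0) (nat_lit 6764) (XT.nd (nat_lit 55068) (nat_lit 0) (nat_lit 10260) (XT.nd (nat_lit 54834) (nat_lit 0) (nat_lit 12236) (XT.nd (nat_lit 54756) (nat_lit 0) (nat_lit 13756) (XT.lf (nat_lit 0) (nat_lit 7924294832) (nat_lit 228) (nat_lit 6174806906) (nat_lit 76) (nat_lit 2593329249) (nat_lit 22) (nat_lit 5) (nat_lit 25) (nat_lit 5) (nat_lit 23) (nat_lit 4) (nat_lit 507) (nat_lit 345) (nat_lit 288)) (XT.lf (nat_lit 0) (nat_lit 1537884808) (nat_lit 532) (nat_lit 1310194520) (nat_lit 0) (nat_lit 1537884808) (nat_lit 203) (nat_lit 5) (nat_lit 210) (nat_lit 4) (nat_lit 203) (nat_lit 4) (nat_lit 448) (nat_lit 346) (nat_lit 346))) (XT.nd (nat_lit 78) (nat_lit 988) (nat_lit 0) (XT.lf (nat_lit 0) (nat_lit 4582022802) (nat_lit 532) (nat_lit 2628175232) (nat_lit 532) (nat_lit 1634317999) (nat_lit 196) (nat_lit 4) (nat_lit 203) (nat_lit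 5) (nat_lit 203) (nat_lit 4) (nat_lit 449) (nat_lit 346) (nat_lit 345)) (XT.nd (nat_lit 78) (nat_lit 456) (nat_lit 0) (XT.lf (nat_lit 0) (nat_lit 2449318341) (nat_lit 532) (nat_lit 5949772518) (nat_lit 0) (nat_lit 519683960) (nat_lit 189) (nat_lit 5) (nat_lit 196) (nat_lit 4) (nat_lit 189) (nat_lit 4) (nat_lit 450) (nat_lit 346) (nat_lit 344)) (XT.lf (nat_lit 0) (nat_lit 1301198513) (nat_lit 456) (nat_lit 5279761074) (nat_lit 456) (nat_lit 2413592824) (nat_lit 183) (nat_lit 4) (nat_lit 189) (nat_lit 5) (nat_lit 189) (nat_lit 4) (nat_lit 451) (nat_lit 346) (nat_lit 343))))) (XT.nd (nat_lit 234) (nat_lit 912) (nat_lit 0) (XT.nd (nat_lit 78) (nat_lit 988) (nat_lit 0) (XT.lf (nat_lit 0) (nat_lit 1674756956) (nat_lit 532) (nat_lit 401329656) (nat_lit 76) (nat_lit 6996069182) (nat_lit 182) (nat_lit 5) (nat_lit 189) (nat_lit 5) (nat_lit 183) (nat_lit 4) (nat_lit 452) (nat_lit 346) (nat_lit 342)) (XT.nd (nat_lit 78) (nat_lit 532) (nat_lit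 0) (XT.lf (nat_lit 0) (nat_lit 5801180399) (nat_lit 532) (nat_lit 2141524837) (nat_lit 0) (nat_lit 1208527629) (nat_lit 176) (nat_lit 5) (nat_lit 183) (nat_lit 4) (nat_lit 176) (nat_lit 4) (nat_lit 453) (nat_lit 346) (nat_lit 341)) (XT.lf (nat_lit 0) (nat_lit 754369513) (nat_lit 532) (nat_lit 3934038882) (nat_lit 76) (nat_lit 4543667996) (nat_lit 169) (nat_lit 5) (nat_lit 176) (nat_lit 5) (nat_lit 170) (nat_lit 4) (nat_lit 454) (nat_lit 346) (nat_lit 340)))) (XT.nd (nat_lit 78) (nat_lit 532) (nat_lit 0) (XT.lf (nat_lit 0) (nat_lit 3529689154) (nat_lit 380) (nat_lit 1339519772) (nat_lit 456) (nat_lit 4445433692) (nat_lit 164) (nat_lit 5) (nat_lit 169) (nat_lit 5) (nat_lit 170) (nat_lit 4) (nat_lit 455) (nat_lit 346) (nat_lit 339)) (XT.nd (nat_lit 78) (nat_lit 76) (nat_lit 0) (XT.lf (nat_lit 0) (nat_lit 1710518521) (nat_lit 456) (nat_lit 7343189636) (nat_lit 456) (nat_lit 345416938) (nat_lit 158) (nat_lit 4) (nat_lit 164) (nat_lit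 5) (nat_lit 164) (nat_lit 4) (nat_lit 456) (nat_lit 346) (nat_lit 338)) (XT.lf (nat_lit 0) (nat_lit 3770634484) (nat_lit 532) (nat_lit 180413678) (nat_lit 76) (nat_lit 5534075539) (nat_lit 157) (nat_lit 5) (nat_lit 164) (nat_lit 5) (nat_lit 158) (nat_lit 4) (nat_lit 457) (nat_lit 346) (nat_lit 337)))))) (XT.nd (nat_lit 390) (nat_lit 1824) (nat_lit 0) (XT.nd (nat_lit 156) (nat_lit 836) (nat_lit 0) (XT.nd (nat_lit 78) (nat_lit 456) (nat_lit 0) (XT.lf (nat_lit 0) (nat_lit 7479464243) (nat_lit 380) (nat_lit 471134383) (nat_lit 456) (nat_lit 1622485135) (nat_lit 152) (nat_lit 5) (nat_lit 157) (nat_lit 5) (nat_lit 158) (nat_lit 4) (nat_lit 458) (nat_lit 346) (nat_lit 336)) (XT.lf (nat_lit 0) (nat_lit 2513419883) (nat_lit 456) (nat_lit 4088606490) (nat_lit 76) (nat_lit 3060545937) (nat_lit 146) (nat_lit 5) (nat_lit 152) (nat_lit 5) (nat_lit 147) (nat_lit 4) (nat_lit 459) (nat_lit 346) (nat_lit 335))) (XT.nd (nat_lit 78) (nat_lit 456)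 (nat_lit 0) (XT.lf (nat_lit 0) (nat_lit 3608163804) (nat_lit 380) (nat_lit 3081107989) (nat_lit 456) (nat_lit 3064796089) (nat_lit 141) (nat_lit 5) (nat_lit 146) (nat_lit 5) (nat_lit 147) (nat_lit 4) (nat_lit 460) (nat_lit 346) (nat_lit 334)) (XT.nd (nat_lit 78) (nat_lit 0) (nat_lit 0) (XT.lf (nat_lit 0) (nat_lit 1066539920) (nat_lit 456) (nat_lit 8265330890) (nat_lit 76) (nat_lit 515795245) (nat_lit 135) (nat_lit 5) (nat_lit 141) (nat_lit 5) (nat_lit 136) (nat_lit 4) (nat_lit 461) (nat_lit 346) (nat_lit 333)) (XT.lf (nat_lit 0) (nat_lit 5240227440) (nat_lit 456) (nat_lit 530340558) (nat_lit 76) (nat_lit 4172157975) (nat_lit 135) (nat_lit 5) (nat_lit 141) (nat_lit 5) (nat_lit 136) (nat_lit 4) (nat_lit 462) (nat_lit 346) (nat_lit 332))))) (XT.nd (nat_lit 234) (nat_lit 760) (nat_lit 0) (XT.nd (nat_lit 78) (nat_lit 760) (nat_lit 0) (XT.lf (nat_lit 0) (nat_lit 7362276498) (nat_lit 304) (nat_lit 2122916898) (nat_lit 380) (nat_lit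 554747598) (nat_lit 131) (nat_lit 5) (nat_lit 135) (nat_lit 5) (nat_lit 136) (nat_lit 4) (nat_lit 463) (nat_lit 346) (nat_lit 331)) (XT.nd (nat_lit 78) (nat_lit 304) (nat_lit 0) (XT.lf (nat_lit 0) (nat_lit 3616030788) (nat_lit 456) (nat_lit 4917825248) (nat_lit 76) (nat_lit 1605010888) (nat_lit 125) (nat_lit 5) (nat_lit 131) (nat_lit 5) (nat_lit 126) (nat_lit 4) (nat_lit 464) (nat_lit 346) (nat_lit 330)) (XT.lf (nat_lit 0) (nat_lit 3001949318) (nat_lit 304) (nat_lit 4853012272) (nat_lit 380) (nat_lit 2384902567) (nat_lit 121) (nat_lit 5) (nat_lit 125) (nat_lit 5) (nat_lit 126) (nat_lit 4) (nat_lit 465) (nat_lit 346) (nat_lit 329)))) (XT.nd (nat_lit 78) (nat_lit 304) (nat_lit 0) (XT.lf (nat_lit 0) (nat_lit 707345596) (nat_lit 380) (nat_lit 1082859920) (nat_lit 456) (nat_lit 8552876641) (nat_lit 115) (nat_lit 5) (nat_lit 120) (nat_lit 5) (nat_lit 121) (nat_lit 5) (nat_lit 466) (nat_lit 346) (nat_lit 328)) (XT.nd (nat_lit 78) (nat_lit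 304) (nat_lit 0) (XT.lf (nat_lit 0) (nat_lit 6024748664) (nat_lit 456) (nat_lit 1666513521) (nat_lit 76) (nat_lit 2756638589) (nat_lit 115) (nat_lit 5) (nat_lit 121) (nat_lit 5) (nat_lit 116) (nat_lit 4) (nat_lit 467) (nat_lit 346) (nat_lit 327)) (XT.lf (nat_lit 0) (nat_lit 6446637684) (nat_lit 304) (nat_lit 3888536573) (nat_lit 380) (nat_lit 219826377) (nat_lit 111) (nat_lit 5) (nat_lit 115) (nat_lit 5) (nat_lit 116) (nat_lit 4) (nat_lit 468) (nat_lit 346) (nat_lit 326))))))) (XT.nd (nat_lit 858) (nat_lit 2204) (nat_lit 0) (XT.nd (nat_lit 390) (nat_lit 1292) (nat_lit 0) (XT.nd (nat_lit 156) (nat_lit 608) (nat_lit 0) (XT.nd (nat_lit 78) (nat_lit 304) (nat_lit 0) (XT.lf (nat_lit 0) (nat_lit 3993977670) (nat_lit 380) (nat_lit 6650476426) (nat_lit 76) (nat_lit 19673403) (nat_lit 106) (nat_lit 5) (nat_lit 111) (nat_lit 5) (nat_lit 107) (nat_lit 4) (nat_lit 469) (nat_lit 346) (nat_lit 325)) (XT.lf (nat_lit 0) (nat_lit 1477589490)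 (nat_lit 304) (nat_lit 6817239247) (nat_lit 380) (nat_lit 2480473016) (nat_lit 102) (nat_lit 5) (nat_lit 106) (nat_lit 5) (nat_lit 107) (nat_lit 4) (nat_lit 470) (nat_lit 346) (nat_lit 324))) (XT.nd (nat_lit 78) (nat_lit 532) (nat_lit 0) (XT.lf (nat_lit 0) (nat_lit 1757158880) (nat_lit 380) (nat_lit 1134841798) (nat_lit 76) (nat_lit 7996720329) (nat_lit 101) (nat_lit 5) (nat_lit 106) (nat_lit 5) (nat_lit 102) (nat_lit 5) (nat_lit 471) (nat_lit 346) (nat_lit 323)) (XT.nd (nat_lit 78) (nat_lit 228) (nat_lit 0) (XT.lf (nat_lit 0) (nat_lit 6044241913) (nat_lit 380) (nat_lit 3834322931) (nat_lit 76) (nat_lit 1125565372) (nat_lit 97) (nat_lit 5) (nat_lit 102) (nat_lit 5) (nat_lit 98) (nat_lit 4) (nat_lit 472) (nat_lit 346) (nat_lit 322)) (XT.lf (nat_lit 0) (nat_lit 4481897097) (nat_lit 228) (nat_lit 5935242396) (nat_lit 304) (nat_lit 704714235) (nat_lit 94) (nat_lit 5) (nat_lit 97) (nat_lit 5) (nat_lit 98) (nat_lit 4) (nat_lit 473)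 (nat_lit 346) (nat_lit 321))))) (XT.nd (nat_lit 234) (nat_lit 608) (nat_lit 0) (XT.nd (nat_lit 78) (nat_lit 304) (nat_lit 0) (XT.lf (nat_lit 0) (nat_lit 1681213039) (nat_lit 304) (nat_lit 1887769070) (nat_lit 380) (nat_lit 7672862797) (nat_lit 89) (nat_lit 5) (nat_lit 93) (nat_lit 5) (nat_lit 94) (nat_lit 5) (nat_lit 474) (nat_lit 346) (nat_lit 320)) (XT.nd (nat_lit 78) (nat_lit 304) (nat_lit 0) (XT.lf (nat_lit 0) (nat_lit 7922672571) (nat_lit 380) (nat_lit 1216373879) (nat_lit 76) (nat_lit 2225024308) (nat_lit 89) (nat_lit 5) (nat_lit 94) (nat_lit 5) (nat_lit 90) (nat_lit 4) (nat_lit 475) (nat_lit 346) (nat_lit 319)) (XT.lf (nat_lit 0) (nat_lit 868703320) (nat_lit 304) (nat_lit 4207033552) (nat_lit 76) (nat_lit 6412787947) (nat_lit 85) (nat_lit 5) (nat_lit 89) (nat_lit 5) (nat_lit 86) (nat_lit 5) (nat_lit 476) (nat_lit 346) (nat_lit 318)))) (XT.nd (nat_lit 78) (nat_lit 304) (nat_lit 0) (XT.lf (nat_lit 0) (nat_lit 4293306592)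 (nat_lit 304) (nat_lit 907507406) (nat_lit 380) (nat_lit 6414567990) (nat_lit 81) (nat_lit 5) (nat_lit 85) (nat_lit 5) (nat_lit 86) (nat_lit 5) (nat_lit 477) (nat_lit 346) (nat_lit 317)) (XT.nd (nat_lit 78) (nat_lit 76) (nat_lit 0) (XT.lf (nat_lit 0) (nat_lit 1179131503) (nat_lit 228) (nat_lit 8444217668) (nat_lit 304) (nat_lit 2121358078) (nat_lit 78) (nat_lit 5) (nat_lit 81) (nat_lit 5) (nat_lit 82) (nat_lit 4) (nat_lit 478) (nat_lit 346) (nat_lit 316)) (XT.lf (nat_lit 0) (nat_lit 2229683901) (nat_lit 304) (nat_lit 2038042918) (nat_lit 76) (nat_lit 7608573803) (nat_lit 77) (nat_lit 5) (nat_lit 81) (nat_lit 5) (nat_lit 78) (nat_lit 5) (nat_lit 479) (nat_lit 346) (nat_lit 315)))))) (XT.nd (nat_lit 468) (nat_lit 912) (nat_lit 0) (XT.nd (nat_lit 234) (nat_lit 760) (nat_lit 0) (XT.nd (nat_lit 78) (nat_lit 304) (nat_lit 0) (XT.lf (nat_lit 0) (nat_lit 6629761657) (nat_lit 304) (nat_lit 5366652766) (nat_lit 76) (nat_lit 14028810)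 (nat_lit 74) (nat_lit 5) (nat_lit 78) (nat_lit 5) (nat_lit 75) (nat_lit 4) (nat_lit 480) (nat_lit 346) (nat_lit 314)) (XT.nd (nat_lit 78) (nat_lit 76) (nat_lit 0) (XT.lf (nat_lit 0) (nat_lit 3305415125) (nat_lit 228) (nat_lit 7823306181) (nat_lit 304) (nat_lit 1018335879) (nat_lit 71) (nat_lit 5) (nat_lit 74) (nat_lit 5) (nat_lit 75) (nat_lit 4) (nat_lit 481) (nat_lit 346) (nat_lit 313)) (XT.lf (nat_lit 0) (nat_lit 3369999310) (nat_lit 304) (nat_lit 174117773) (nat_lit 76) (nat_lit 8742171748) (nat_lit 70) (nat_lit 5) (nat_lit 74) (nat_lit 5) (nat_lit 71) (nat_lit 5) (nat_lit 482) (nat_lit 346) (nat_lit 312)))) (XT.nd (nat_lit 78) (nat_lit 532) (nat_lit 0) (XT.lf (nat_lit 0) (nat_lit 7842906830) (nat_lit 304) (nat_lit 3747487383) (nat_lit 76) (nat_lit 837573191) (nat_lit 67) (nat_lit 5) (nat_lit 71) (nat_lit 5) (nat_lit 68) (nat_lit 4) (nat_lit 483) (nat_lit 346) (nat_lit 311)) (XT.nd (nat_lit 78) (nat_lit 304) (nat_lit 0) (XT.lf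 (nat_lit 0) (nat_lit 5097402873) (nat_lit 228) (nat_lit 7314342301) (nat_lit 304) (nat_lit 160610552) (nat_lit 64) (nat_lit 5) (nat_lit 67) (nat_lit 5) (nat_lit 68) (nat_lit 4) (nat_lit 484) (nat_lit 346) (nat_lit 310)) (XT.lf (nat_lit 0) (nat_lit 1352015610) (nat_lit 228) (nat_lit 2926148763) (nat_lit 304) (nat_lit 8441249338) (nat_lit 60) (nat_lit 5) (nat_lit 63) (nat_lit 5) (nat_lit 64) (nat_lit 5) (nat_lit 485) (nat_lit 346) (nat_lit 309))))) (XT.nd (nat_lit 234) (nat_lit 456) (nat_lit 0) (XT.nd (nat_lit 78) (nat_lit 456) (nat_lit 0) (XT.lf (nat_lit 0) (nat_lit 8813142535) (nat_lit 304) (nat_lit 2511372312) (nat_lit 76) (nat_lit 1544690516) (nat_lit 60) (nat_lit 5) (nat_lit 64) (nat_lit 5) (nat_lit 61) (nat_lit 4) (nat_lit 486) (nat_lit 346) (nat_lit 308)) (XT.nd (nat_lit 78) (nat_lit 228) (nat_lit 0) (XT.lf (nat_lit 0) (nat_lit 423040348) (nat_lit 228) (nat_lit 6523511687) (nat_lit 76) (nat_lit 6075158190) (nat_lit 57)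 (nat_lit 5) (nat_lit 60) (nat_lit 5) (nat_lit 58) (nat_lit 5) (nat_lit 487) (nat_lit 346) (nat_lit 307)) (XT.lf (nat_lit 0) (nat_lit 2463695245) (nat_lit 228) (nat_lit 2456839120) (nat_lit 304) (nat_lit 8256537220) (nat_lit 54) (nat_lit 5) (nat_lit 57) (nat_lit 5) (nat_lit 58) (nat_lit 5) (nat_lit 488) (nat_lit 346) (nat_lit 306)))) (XT.nd (nat_lit 78) (nat_lit 456) (nat_lit 0) (XT.lf (nat_lit 0) (nat_lit 9516115458) (nat_lit 304) (nat_lit 1716566399) (nat_lit 76) (nat_lit 2102700470) (nat_lit 54) (nat_lit 5) (nat_lit 58) (nat_lit 5) (nat_lit 55) (nat_lit 4) (nat_lit 489) (nat_lit 346) (nat_lit 305)) (XT.nd (nat_lit 78) (nat_lit 228) (nat_lit 0) (XT.lf (nat_lit 0) (nat_lit 713527672) (nat_lit 228) (nat_lit 6044737062) (nat_lit 76) (nat_lit 6738186529) (nat_lit 51) (nat_lit 5) (nat_lit 54) (nat_lit 5) (nat_lit 52) (nat_lit 5) (nat_lit 490) (nat_lit 346) (nat_lit 304)) (XT.lf (nat_lit 0) (nat_lit 3096062715) (nat_lit 228) (nat_lit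 2172865649) (nat_lit 304) (nat_lit 8391651122) (nat_lit 48) (nat_lit 5) (nat_lit 51) (nat_lit 5) (nat_lit 52) (nat_lit 5) (nat_lit 491) (nat_lit 346) (nat_lit 303))))))))
noncomputable def xc21 : XT := (XT.nd (nat_lit 56238) (nat_lit 0) (nat_lit 5092) (XT.nd (nat_lit 858) (nat_lit 608) (nat_lit 0) (XT.nd (nat_lit 390) (nat_lit 684) (nat_lit 0) (XT.nd (nat_lit 156) (nat_lit 456) (nat_lit 0) (XT.nd (nat_lit 78) (nat_lit 228) (nat_lit 0) (XT.lf (nat_lit 0) (nat_lit 9924040702) (nat_lit 304) (nat_lit 1427552900) (nat_lit 76) (nat_lit 2476229124) (nat_lit 48) (nat_lit 5) (nat_lit 52) (nat_lit 5) (nat_lit 49) (nat_lit 4) (nat_lit 492) (nat_lit 346) (nat_lit 302)) (XT.lf (nat_lit 0) (nat_lit 683251697) (nat_lit 228) (nat_lit 6104996372) (nat_lit 76) (nat_lit 7209714717) (nat_lit 45) (nat_lit 5) (nat_lit 48) (nat_lit 5) (nat_lit 46) (nat_lit 5) (nat_lit 493) (nat_lit 346) (nat_lit 301))) (XT.nd (nat_lit 78) (nat_lit 228) (nat_lit 0)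 (XT.lf (nat_lit 0) (nat_lit 3179850324) (nat_lit 228) (nat_lit 2112780095) (nat_lit 304) (nat_lit 8878705896) (nat_lit 42) (nat_lit 5) (nat_lit 45) (nat_lit 5) (nat_lit 46) (nat_lit 5) (nat_lit 494) (nat_lit 346) (nat_lit 300)) (XT.nd (nat_lit 78) (nat_lit 228) (nat_lit 0) (XT.lf (nat_lit 0) (nat_lit 10005374213) (nat_lit 304) (nat_lit 1715755382) (nat_lit 76) (nat_lit 2626828352) (nat_lit 42) (nat_lit 5) (nat_lit 46) (nat_lit 5) (nat_lit 43) (nat_lit 4) (nat_lit 495) (nat_lit 346) (nat_lit 299)) (XT.lf (nat_lit 0) (nat_lit 298582773) (nat_lit 228) (nat_lit 6778952592) (nat_lit 76) (nat_lit 7450182754) (nat_lit 39) (nat_lit 5) (nat_lit 42) (nat_lit 5) (nat_lit 40) (nat_lit 5) (nat_lit 496) (nat_lit 346) (nat_lit 298))))) (XT.nd (nat_lit 234) (nat_lit 380) (nat_lit 0) (XT.nd (nat_lit 78) (nat_lit 152) (nat_lit 0) (XT.lf (nat_lit 0) (nat_lit 2638298959) (nat_lit 152) (nat_lit 2318589954) (nat_lit 228) (nat_lit 9753965164) (nat_lit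 37) (nat_lit 5) (nat_lit 39) (nat_lit 5) (nat_lit 40) (nat_lit 5) (nat_lit 497) (nat_lit 346) (nat_lit 297)) (XT.nd (nat_lit 78) (nat_lit 152) (nat_lit 0) (XT.lf (nat_lit 0) (nat_lit 9724447403) (nat_lit 228) (nat_lit 2660325857) (nat_lit 76) (nat_lit 2512561634) (nat_lit 37) (nat_lit 5) (nat_lit 40) (nat_lit 5) (nat_lit 38) (nat_lit 4) (nat_lit 498) (nat_lit 346) (nat_lit 296)) (XT.lf (nat_lit 0) (nat_lit 6934758093) (nat_lit 152) (nat_lit 7667716424) (nat_lit 228) (nat_lit 484772250) (nat_lit 35) (nat_lit 5) (nat_lit 37) (nat_lit 5) (nat_lit 38) (nat_lit 4) (nat_lit 499) (nat_lit 346) (nat_lit 295)))) (XT.nd (nat_lit 78) (nat_lit 152) (nat_lit 0) (XT.lf (nat_lit 0) (nat_lit 1386312054) (nat_lit 152) (nat_lit 2836208855) (nat_lit 228) (nat_lit 11058246159) (nat_lit 32) (nat_lit 5) (nat_lit 34) (nat_lit 5) (nat_lit 35) (nat_lit 5) (nat_lit 500) (nat_lit 346) (nat_lit 294)) (XT.nd (nat_lit 78) (nat_lit 152) (nat_lit 0) (XT.lf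 (nat_lit 0) (nat_lit 9041060247) (nat_lit 228) (nat_lit 4349012980) (nat_lit 76) (nat_lit 2087552202) (nat_lit 32) (nat_lit 5) (nat_lit 35) (nat_lit 5) (nat_lit 33) (nat_lit 4) (nat_lit 501) (nat_lit 346) (nat_lit 293)) (XT.lf (nat_lit 0) (nat_lit 5359242105) (nat_lit 152) (nat_lit 8606123884) (nat_lit 228) (nat_lit 1712870556) (nat_lit 30) (nat_lit 5) (nat_lit 32) (nat_lit 5) (nat_lit 33) (nat_lit 4) (nat_lit 502) (nat_lit 346) (nat_lit 292)))))) (XT.nd (nat_lit 54912) (nat_lit 0) (nat_lit 12236) (XT.nd (nat_lit 156) (nat_lit 380) (nat_lit 0) (XT.nd (nat_lit 78) (nat_lit 152) (nat_lit 0) (XT.lf (nat_lit 0) (nat_lit 3049825147) (nat_lit 228) (nat_lit 661683251) (nat_lit 76) (nat_lit 12171246543) (nat_lit 29) (nat_lit 5) (nat_lit 32) (nat_lit 5) (nat_lit 30) (nat_lit 5) (nat_lit 503) (nat_lit 346) (nat_lit 291)) (XT.lf (nat_lit 0) (nat_lit 7910028744) (nat_lit 228) (nat_lit 6879118890) (nat_lit 76) (nat_lit 1301489140) (nat_lit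 27) (nat_lit 5) (nat_lit 30) (nat_lit 5) (nat_lit 28) (nat_lit 4) (nat_lit 504) (nat_lit 346) (nat_lit 290))) (XT.nd (nat_lit 78) (nat_lit 228) (nat_lit 0) (XT.lf (nat_lit 0) (nat_lit 2924078909) (nat_lit 152) (nat_lit 9948252490) (nat_lit 228) (nat_lit 3430250179) (nat_lit 25) (nat_lit 5) (nat_lit 27) (nat_lit 5) (nat_lit 28) (nat_lit 4) (nat_lit 505) (nat_lit 346) (nat_lit 289)) (XT.nd (nat_lit 78) (nat_lit 152) (nat_lit 0) (XT.lf (nat_lit 0) (nat_lit 1399939067) (nat_lit 228) (nat_lit 3589034574) (nat_lit 76) (nat_lit 11529543313) (nat_lit 24) (nat_lit 5) (nat_lit 27) (nat_lit 5) (nat_lit 25) (nat_lit 5) (nat_lit 506) (nat_lit 346) (nat_lit 288)) (XT.lf (nat_lit 0) (nat_lit 6280682175) (nat_lit 228) (nat_lit 10358554223) (nat_lit 76) (nat_lit 99086586) (nat_lit 22) (nat_lit 5) (nat_lit 25) (nat_lit 5) (nat_lit 23) (nat_lit 4) (nat_lit 507) (nat_lit 346) (nat_lit 287))))) (XT.nd (nat_lit 234) (nat_lit 1520) (nat_lit 0) (XT.nd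 (nat_lit 78) (nat_lit 532) (nat_lit 0) (XT.lf (nat_lit 0) (nat_lit 298396144) (nat_lit 532) (nat_lit 2008562745) (nat_lit 532) (nat_lit 2008562745) (nat_lit 210) (nat_lit 4) (nat_lit 217) (nat_lit 5) (nat_lit 217) (nat_lit 4) (nat_lit 446) (nat_lit 347) (nat_lit 347)) (XT.nd (nat_lit 78) (nat_lit 456) (nat_lit 0) (XT.lf (nat_lit 0) (nat_lit 12729831) (nat_lit 608) (nat_lit 1008294804) (nat_lit 76) (nat_lit 7680221994) (nat_lit 209) (nat_lit 5) (nat_lit 217) (nat_lit 5) (nat_lit 210) (nat_lit 4) (nat_lit 447) (nat_lit 347) (nat_lit 346)) (XT.lf (nat_lit 0) (nat_lit 4056234930) (nat_lit 532) (nat_lit 2667722761) (nat_lit 0) (nat_lit 2048643319) (nat_lit 203) (nat_lit 5) (nat_lit 210) (nat_lit 4) (nat_lit 203) (nat_lit 4) (nat_lit 448) (nat_lit 347) (nat_lit 345)))) (XT.nd (nat_lit 78) (nat_lit 988) (nat_lit 0) (XT.lf (nat_lit 0) (nat_lit 4487037726) (nat_lit 532) (nat_lit 3670392184) (nat_lit 532) (nat_lit 688430737) (nat_lit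 196) (nat_lit 4) (nat_lit 203) (nat_lit 5) (nat_lit 203) (nat_lit 4) (nat_lit 449) (nat_lit 347) (nat_lit 344)) (XT.nd (nat_lit 78) (nat_lit 456) (nat_lit 0) (XT.lf (nat_lit 0) (nat_lit 2821499261) (nat_lit 456) (nat_lit 524404329) (nat_lit 532) (nat_lit 5574837879) (nat_lit 189) (nat_lit 5) (nat_lit 195) (nat_lit 5) (nat_lit 196) (nat_lit 4) (nat_lit 450) (nat_lit 347) (nat_lit 343)) (XT.lf (nat_lit 0) (nat_lit 1105779082) (nat_lit 456) (nat_lit 6334840608) (nat_lit 456) (nat_lit 1556644667) (nat_lit 183) (nat_lit 4) (nat_lit 189) (nat_lit 5) (nat_lit 189) (nat_lit 4) (nat_lit 451) (nat_lit 347) (nat_lit 342))))))) (XT.nd (nat_lit 858) (nat_lit 3496) (nat_lit 0) (XT.nd (nat_lit 390) (nat_lit 1672) (nat_lit 0) (XT.nd (nat_lit 156) (nat_lit 1444) (nat_lit 0) (XT.nd (nat_lit 78) (nat_lit 456) (nat_lit 0) (XT.lf (nat_lit 0) (nat_lit 2488327122) (nat_lit 532) (nat_lit 651942270) (nat_lit 76) (nat_lit 5935136380) (nat_lit 182) (nat_lit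 5) (nat_lit 189) (nat_lit 5) (nat_lit 183) (nat_lit 4) (nat_lit 452) (nat_lit 347) (nat_lit 341)) (XT.lf (nat_lit 0) (nat_lit 6574274023) (nat_lit 532) (nat_lit 2438985866) (nat_lit 0) (nat_lit 142038888) (nat_lit 176) (nat_lit 5) (nat_lit 183) (nat_lit 4) (nat_lit 176) (nat_lit 4) (nat_lit 453) (nat_lit 347) (nat_lit 340))) (XT.nd (nat_lit 78) (nat_lit 912) (nat_lit 0) (XT.lf (nat_lit 0) (nat_lit 1479539989) (nat_lit 532) (nat_lit 4291811936) (nat_lit 76) (nat_lit 3465372097) (nat_lit 169) (nat_lit 5) (nat_lit 176) (nat_lit 5) (nat_lit 170) (nat_lit 4) (nat_lit 454) (nat_lit 347) (nat_lit 339)) (XT.nd (nat_lit 78) (nat_lit 532) (nat_lit 0) (XT.lf (nat_lit 0) (nat_lit 3120198700) (nat_lit 380) (nat_lit 2440344214) (nat_lit 456) (nat_lit 3759430097) (nat_lit 164) (nat_lit 5) (nat_lit 169) (nat_lit 5) (nat_lit 170) (nat_lit 4) (nat_lit 455) (nat_lit 347) (nat_lit 338)) (XT.lf (nat_lit 0) (nat_lit 294742129) (nat_lit 532) (nat_lit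 8156980779) (nat_lit 76) (nat_lit 953521706) (nat_lit 157) (nat_lit 5) (nat_lit 164) (nat_lit 5) (nat_lit 158) (nat_lit 4) (nat_lit 456) (nat_lit 347) (nat_lit 337))))) (XT.nd (nat_lit 234) (nat_lit 836) (nat_lit 0) (XT.nd (nat_lit 78) (nat_lit 836) (nat_lit 0) (XT.lf (nat_lit 0) (nat_lit 4375397434) (nat_lit 532) (nat_lit 697706708) (nat_lit 76) (nat_lit 4418717226) (nat_lit 157) (nat_lit 5) (nat_lit 164) (nat_lit 5) (nat_lit 158) (nat_lit 4) (nat_lit 457) (nat_lit 347) (nat_lit 336)) (XT.nd (nat_lit 78) (nat_lit 456) (nat_lit 0) (XT.lf (nat_lit 0) (nat_lit 6908927590) (nat_lit 380) (nat_lit 1612468985) (nat_lit 456) (nat_lit 1059069728) (nat_lit 152) (nat_lit 5) (nat_lit 157) (nat_lit 5) (nat_lit 158) (nat_lit 4) (nat_lit 458) (nat_lit 347) (nat_lit 335)) (XT.lf (nat_lit 0) (nat_lit 3027636405) (nat_lit 456) (nat_lit 4724873546) (nat_lit 76) (nat_lit 1918213288) (nat_lit 146) (nat_lit 5) (nat_lit 152) (nat_lit 5) (nat_lit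 147) (nat_lit 4) (nat_lit 459) (nat_lit 347) (nat_lit 334)))) (XT.nd (nat_lit 78) (nat_lit 456) (nat_lit 0) (XT.lf (nat_lit 0) (nat_lit 2916763767) (nat_lit 380) (nat_lit 4252262962) (nat_lit 456) (nat_lit 2593886567) (nat_lit 141) (nat_lit 5) (nat_lit 146) (nat_lit 5) (nat_lit 147) (nat_lit 4) (nat_lit 460) (nat_lit 347) (nat_lit 333)) (XT.nd (nat_lit 78) (nat_lit 0) (nat_lit 0) (XT.lf (nat_lit 0) (nat_lit 826369219) (nat_lit 380) (nat_lit 666696434) (nat_lit 456) (nat_lit 8364153869) (nat_lit 135) (nat_lit 5) (nat_lit 140) (nat_lit 5) (nat_lit 141) (nat_lit 5) (nat_lit 461) (nat_lit 347) (nat_lit 332)) (XT.lf (nat_lit 0) (nat_lit 5632723501) (nat_lit 456) (nat_lit 1337883149) (nat_lit 76) (nat_lit 2982358334) (nat_lit 135) (nat_lit 5) (nat_lit 141) (nat_lit 5) (nat_lit 136) (nat_lit 4) (nat_lit 462) (nat_lit 347) (nat_lit 331)))))) (XT.nd (nat_lit 468) (nat_lit 1672) (nat_lit 0) (XT.nd (nat_lit 234) (nat_lit 760) (nat_lit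 0) (XT.nd (nat_lit 78) (nat_lit 760) (nat_lit 0) (XT.lf (nat_lit 0) (nat_lit 6497955225) (nat_lit 304) (nat_lit 3345003821) (nat_lit 380) (nat_lit 207920420) (nat_lit 131) (nat_lit 5) (nat_lit 135) (nat_lit 5) (nat_lit 136) (nat_lit 4) (nat_lit 463) (nat_lit 347) (nat_lit 330)) (XT.nd (nat_lit 78) (nat_lit 304) (nat_lit 0) (XT.lf (nat_lit 0) (nat_lit 3915133067) (nat_lit 456) (nat_lit 5856671416) (nat_lit 76) (nat_lit 378824064) (nat_lit 125) (nat_lit 5) (nat_lit 131) (nat_lit 5) (nat_lit 126) (nat_lit 4) (nat_lit 464) (nat_lit 347) (nat_lit 329)) (XT.lf (nat_lit 0) (nat_lit 2004311157) (nat_lit 304) (nat_lit 6114407563) (nat_lit 380) (nat_lit 2133618536) (nat_lit 121) (nat_lit 5) (nat_lit 125) (nat_lit 5) (nat_lit 126) (nat_lit 4) (nat_lit 465) (nat_lit 347) (nat_lit 328)))) (XT.nd (nat_lit 78) (nat_lit 684) (nat_lit 0) (XT.lf (nat_lit 0) (nat_lit 2004810952) (nat_lit 380) (nat_lit 359468214) (nat_lit 76) (nat_lit 7991915512)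 (nat_lit 120) (nat_lit 5) (nat_lit 125) (nat_lit 5) (nat_lit 121) (nat_lit 5) (nat_lit 466) (nat_lit 347) (nat_lit 327)) (XT.nd (nat_lit 78) (nat_lit 304) (nat_lit 0) (XT.lf (nat_lit 0) (nat_lit 6200022245) (nat_lit 456) (nat_lit 2788886161) (nat_lit 76) (nat_lit 1472895834) (nat_lit 115) (nat_lit 5) (nat_lit 121) (nat_lit 5) (nat_lit 116) (nat_lit 4) (nat_lit 467) (nat_lit 347) (nat_lit 326)) (XT.lf (nat_lit 0) (nat_lit 5263694302) (nat_lit 304) (nat_lit 5211003039) (nat_lit 380) (nat_lit 94925995) (nat_lit 111) (nat_lit 5) (nat_lit 115) (nat_lit 5) (nat_lit 116) (nat_lit 4) (nat_lit 468) (nat_lit 347) (nat_lit 325))))) (XT.nd (nat_lit 234) (nat_lit 912) (nat_lit 0) (XT.nd (nat_lit 78) (nat_lit 380) (nat_lit 0) (XT.lf (nat_lit 0) (nat_lit 2753744490) (nat_lit 304) (nat_lit 1327186510) (nat_lit 380) (nat_lit 6598533220) (nat_lit 106) (nat_lit 5) (nat_lit 110) (nat_lit 5) (nat_lit 111) (nat_lit 5) (nat_lit 469) (nat_lit 347)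 (nat_lit 324)) (XT.nd (nat_lit 78) (nat_lit 76) (nat_lit 0) (XT.lf (nat_lit 0) (nat_lit 148241742) (nat_lit 304) (nat_lit 8188440672) (nat_lit 380) (nat_lit 2454862034) (nat_lit 102) (nat_lit 5) (nat_lit 106) (nat_lit 5) (nat_lit 107) (nat_lit 4) (nat_lit 470) (nat_lit 347) (nat_lit 323)) (XT.lf (nat_lit 0) (nat_lit 1754649694) (nat_lit 380) (nat_lit 2525960432) (nat_lit 76) (nat_lit 6624909762) (nat_lit 101) (nat_lit 5) (nat_lit 106) (nat_lit 5) (nat_lit 102) (nat_lit 5) (nat_lit 471) (nat_lit 347) (nat_lit 322)))) (XT.nd (nat_lit 78) (nat_lit 608) (nat_lit 0) (XT.lf (nat_lit 0) (nat_lit 5722691078) (nat_lit 304) (nat_lit 274952450) (nat_lit 380) (nat_lit 5024171103) (nat_lit 97) (nat_lit 5) (nat_lit 101) (nat_lit 5) (nat_lit 102) (nat_lit 5) (nat_lit 472) (nat_lit 347) (nat_lit 321)) (XT.nd (nat_lit 78) (nat_lit 380) (nat_lit 0) (XT.lf (nat_lit 0) (nat_lit 2954234270) (nat_lit 228) (nat_lit 7377499249) (nat_lit 304) (nat_lit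 808584454) (nat_lit 94) (nat_lit 5) (nat_lit 97) (nat_lit 5) (nat_lit 98) (nat_lit 4) (nat_lit 473) (nat_lit 347) (nat_lit 320)) (XT.lf (nat_lit 0) (nat_lit 69947110) (nat_lit 304) (nat_lit 3359024097) (nat_lit 380) (nat_lit 7832105025) (nat_lit 89) (nat_lit 5) (nat_lit 93) (nat_lit 5) (nat_lit 94) (nat_lit 5) (nat_lit 474) (nat_lit 347) (nat_lit 319))))))))
noncomputable def xc22 : XT := (XT.nd (nat_lit 1716) (nat_lit 1368) (nat_lit 0) (XT.nd (nat_lit 858) (nat_lit 1748) (nat_lit 0) (XT.nd (nat_lit 390) (nat_lit 1064) (nat_lit 0) (XT.nd (nat_lit 156) (nat_lit 608) (nat_lit 0) (XT.nd (nat_lit 78) (nat_lit 304) (nat_lit 0) (XT.lf (nat_lit 0) (nat_lit 7746195598) (nat_lit 380) (nat_lit 2882131288) (nat_lit 76) (nat_lit 755707985) (nat_lit 89) (nat_lit 5) (nat_lit 94) (nat_lit 5) (nat_lit 90) (nat_lit 4) (nat_lit 475) (nat_lit 347) (nat_lit 318)) (XT.lf (nat_lit 0) (nat_lit 636952051) (nat_lit 304) (nat_lit 5958641211) (nat_lit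 76) (nat_lit 4913682240) (nat_lit 85) (nat_lit 5) (nat_lit 89) (nat_lit 5) (nat_lit 86) (nat_lit 5) (nat_lit 476) (nat_lit 347) (nat_lit 317))) (XT.nd (nat_lit 78) (nat_lit 304) (nat_lit 0) (XT.lf (nat_lit 0) (nat_lit 2473838321) (nat_lit 304) (nat_lit 2457082748) (nat_lit 380) (nat_lit 6705977702) (nat_lit 81) (nat_lit 5) (nat_lit 85) (nat_lit 5) (nat_lit 86) (nat_lit 5) (nat_lit 477) (nat_lit 347) (nat_lit 316)) (XT.nd (nat_lit 78) (nat_lit 304) (nat_lit 0) (XT.lf (nat_lit 0) (nat_lit 9309529310) (nat_lit 380) (nat_lit 711376468) (nat_lit 76) (nat_lit 1746199994) (nat_lit 81) (nat_lit 5) (nat_lit 86) (nat_lit 5) (nat_lit 82) (nat_lit 4) (nat_lit 478) (nat_lit 347) (nat_lit 315)) (XT.lf (nat_lit 0) (nat_lit 1867007824) (nat_lit 304) (nat_lit 4002462576) (nat_lit 76) (nat_lit 6029892825) (nat_lit 77) (nat_lit 5) (nat_lit 81) (nat_lit 5) (nat_lit 78) (nat_lit 5) (nat_lit 479) (nat_lit 347) (nat_lit 314))))) (XT.nd (nat_lit 234)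 (nat_lit 532) (nat_lit 0) (XT.nd (nat_lit 78) (nat_lit 304) (nat_lit 0) (XT.lf (nat_lit 0) (nat_lit 4609469814) (nat_lit 228) (nat_lit 1618671413) (nat_lit 304) (nat_lit 5806146514) (nat_lit 74) (nat_lit 5) (nat_lit 77) (nat_lit 5) (nat_lit 78) (nat_lit 5) (nat_lit 480) (nat_lit 347) (nat_lit 313)) (XT.nd (nat_lit 78) (nat_lit 76) (nat_lit 0) (XT.lf (nat_lit 0) (nat_lit 1186544593) (nat_lit 228) (nat_lit 9490755508) (nat_lit 304) (nat_lit 1494600564) (nat_lit 71) (nat_lit 5) (nat_lit 74) (nat_lit 5) (nat_lit 75) (nat_lit 4) (nat_lit 481) (nat_lit 347) (nat_lit 312)) (XT.lf (nat_lit 0) (nat_lit 2874496823) (nat_lit 304) (nat_lit 2358220869) (nat_lit 76) (nat_lit 7078988988) (nat_lit 70) (nat_lit 5) (nat_lit 74) (nat_lit 5) (nat_lit 71) (nat_lit 5) (nat_lit 482) (nat_lit 347) (nat_lit 311)))) (XT.nd (nat_lit 78) (nat_lit 304) (nat_lit 0) (XT.lf (nat_lit 0) (nat_lit 6429776653) (nat_lit 228) (nat_lit 872483380) (nat_lit 304) (nat_lit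 5152030895) (nat_lit 67) (nat_lit 5) (nat_lit 70) (nat_lit 5) (nat_lit 71) (nat_lit 5) (nat_lit 483) (nat_lit 347) (nat_lit 310)) (XT.nd (nat_lit 78) (nat_lit 76) (nat_lit 0) (XT.lf (nat_lit 0) (nat_lit 2752555353) (nat_lit 228) (nat_lit 9072770372) (nat_lit 304) (nat_lit 774271710) (nat_lit 64) (nat_lit 5) (nat_lit 67) (nat_lit 5) (nat_lit 68) (nat_lit 4) (nat_lit 484) (nat_lit 347) (nat_lit 309)) (XT.lf (nat_lit 0) (nat_lit 3638935968) (nat_lit 304) (nat_lit 1076605090) (nat_lit 76) (nat_lit 8031868985) (nat_lit 63) (nat_lit 5) (nat_lit 67) (nat_lit 5) (nat_lit 64) (nat_lit 5) (nat_lit 485) (nat_lit 347) (nat_lit 308)))))) (XT.nd (nat_lit 390) (nat_lit 912) (nat_lit 0) (XT.nd (nat_lit 156) (nat_lit 456) (nat_lit 0) (XT.nd (nat_lit 78) (nat_lit 152) (nat_lit 0) (XT.lf (nat_lit 0) (nat_lit 7882768155) (nat_lit 228) (nat_lit 249274318) (nat_lit 304) (nat_lit 4765999228) (nat_lit 60) (nat_lit 5) (nat_lit 63) (nat_lit 5) (nat_lit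 64) (nat_lit 5) (nat_lit 486) (nat_lit 347) (nat_lit 307)) (XT.lf (nat_lit 0) (nat_lit 3922901270) (nat_lit 152) (nat_lit 8803812258) (nat_lit 228) (nat_lit 324743517) (nat_lit 58) (nat_lit 5) (nat_lit 60) (nat_lit 5) (nat_lit 61) (nat_lit 4) (nat_lit 487) (nat_lit 347) (nat_lit 306))) (XT.nd (nat_lit 78) (nat_lit 380) (nat_lit 0) (XT.lf (nat_lit 0) (nat_lit 4136799157) (nat_lit 228) (nat_lit 213640431) (nat_lit 76) (nat_lit 8857227619) (nat_lit 57) (nat_lit 5) (nat_lit 60) (nat_lit 5) (nat_lit 58) (nat_lit 5) (nat_lit 488) (nat_lit 347) (nat_lit 305)) (XT.nd (nat_lit 78) (nat_lit 152) (nat_lit 0) (XT.lf (nat_lit 0) (nat_lit 8694544189) (nat_lit 304) (nat_lit 4457239528) (nat_lit 76) (nat_lit 214953333) (nat_lit 54) (nat_lit 5) (nat_lit 58) (nat_lit 5) (nat_lit 55) (nat_lit 4) (nat_lit 489) (nat_lit 347) (nat_lit 304)) (XT.lf (nat_lit 0) (nat_lit 4637506237) (nat_lit 152) (nat_lit 8718521291) (nat_lit 228) (nat_lit 172713804)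 (nat_lit 52) (nat_lit 5) (nat_lit 54) (nat_lit 5) (nat_lit 55) (nat_lit 4) (nat_lit 490) (nat_lit 347) (nat_lit 303))))) (XT.nd (nat_lit 234) (nat_lit 456) (nat_lit 0) (XT.nd (nat_lit 78) (nat_lit 152) (nat_lit 0) (XT.lf (nat_lit 0) (nat_lit 170927019) (nat_lit 228) (nat_lit 4171418963) (nat_lit 304) (nat_lit 9351400361) (nat_lit 48) (nat_lit 5) (nat_lit 51) (nat_lit 5) (nat_lit 52) (nat_lit 5) (nat_lit 491) (nat_lit 347) (nat_lit 302)) (XT.nd (nat_lit 78) (nat_lit 152) (nat_lit 0) (XT.lf (nat_lit 0) (nat_lit 8960949305) (nat_lit 304) (nat_lit 4414358145) (nat_lit 76) (nat_lit 486414512) (nat_lit 48) (nat_lit 5) (nat_lit 52) (nat_lit 5) (nat_lit 49) (nat_lit 4) (nat_lit 492) (nat_lit 347) (nat_lit 301)) (XT.lf (nat_lit 0) (nat_lit 4829847340) (nat_lit 152) (nat_lit 8854456486) (nat_lit 228) (nat_lit 348510037) (nat_lit 46) (nat_lit 5) (nat_lit 48) (nat_lit 5) (nat_lit 49) (nat_lit 4) (nat_lit 493) (nat_lit 347) (nat_lit 300))))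 (XT.nd (nat_lit 78) (nat_lit 152) (nat_lit 0) (XT.lf (nat_lit 0) (nat_lit 1755668) (nat_lit 228) (nat_lit 4220014318) (nat_lit 304) (nat_lit 9985338121) (nat_lit 42) (nat_lit 5) (nat_lit 45) (nat_lit 5) (nat_lit 46) (nat_lit 5) (nat_lit 494) (nat_lit 347) (nat_lit 299)) (XT.nd (nat_lit 78) (nat_lit 152) (nat_lit 0) (XT.lf (nat_lit 0) (nat_lit 8897871946) (nat_lit 304) (nat_lit 4956723175) (nat_lit 76) (nat_lit 529869484) (nat_lit 42) (nat_lit 5) (nat_lit 46) (nat_lit 5) (nat_lit 43) (nat_lit 4) (nat_lit 495) (nat_lit 347) (nat_lit 298)) (XT.lf (nat_lit 0) (nat_lit 4426216026) (nat_lit 152) (nat_lit 9252494621) (nat_lit 228) (nat_lit 886437315) (nat_lit 40) (nat_lit 5) (nat_lit 42) (nat_lit 5) (nat_lit 43) (nat_lit 4) (nat_lit 496) (nat_lit 347) (nat_lit 297))))))) (XT.nd (nat_lit 55224) (nat_lit 0) (nat_lit 10792) (XT.nd (nat_lit 390) (nat_lit 760) (nat_lit 0) (XT.nd (nat_lit 156) (nat_lit 380) (nat_lit 0) (XT.nd (nat_lit 78)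 (nat_lit 152) (nat_lit 0) (XT.lf (nat_lit 0) (nat_lit 3743888652) (nat_lit 228) (nat_lit 790547618) (nat_lit 76) (nat_lit 10214756788) (nat_lit 39) (nat_lit 5) (nat_lit 42) (nat_lit 5) (nat_lit 40) (nat_lit 5) (nat_lit 497) (nat_lit 347) (nat_lit 296)) (XT.lf (nat_lit 0) (nat_lit 8469417807) (nat_lit 228) (nat_lit 6163792089) (nat_lit 76) (nat_lit 303306442) (nat_lit 37) (nat_lit 5) (nat_lit 40) (nat_lit 5) (nat_lit 38) (nat_lit 4) (nat_lit 498) (nat_lit 347) (nat_lit 295))) (XT.nd (nat_lit 78) (nat_lit 228) (nat_lit 0) (XT.lf (nat_lit 0) (nat_lit 3344904523) (nat_lit 152) (nat_lit 9957264868) (nat_lit 228) (nat_lit 1825166169) (nat_lit 35) (nat_lit 5) (nat_lit 37) (nat_lit 5) (nat_lit 38) (nat_lit 4) (nat_lit 499) (nat_lit 347) (nat_lit 294)) (XT.nd (nat_lit 78) (nat_lit 152) (nat_lit 0) (XT.lf (nat_lit 0) (nat_lit 2868768955) (nat_lit 228) (nat_lit 2292449780) (nat_lit 76) (nat_lit 10160431698) (nat_lit 34) (nat_lit 5) (nat_lit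 37) (nat_lit 5) (nat_lit 35) (nat_lit 5) (nat_lit 500) (nat_lit 347) (nat_lit 293)) (XT.lf (nat_lit 0) (nat_lit 7394312089) (nat_lit 152) (nat_lit 242420102) (nat_lit 228) (nat_lit 7882789858) (nat_lit 32) (nat_lit 5) (nat_lit 34) (nat_lit 5) (nat_lit 35) (nat_lit 5) (nat_lit 501) (nat_lit 347) (nat_lit 292))))) (XT.nd (nat_lit 234) (nat_lit 380) (nat_lit 0) (XT.nd (nat_lit 78) (nat_lit 228) (nat_lit 0) (XT.lf (nat_lit 0) (nat_lit 1495309449) (nat_lit 152) (nat_lit 11017623437) (nat_lit 228) (nat_lit 3208164079) (nat_lit 30) (nat_lit 5) (nat_lit 32) (nat_lit 5) (nat_lit 33) (nat_lit 4) (nat_lit 502) (nat_lit 347) (nat_lit 291)) (XT.nd (nat_lit 78) (nat_lit 152) (nat_lit 0) (XT.lf (nat_lit 0) (nat_lit 1552727548) (nat_lit 228) (nat_lit 4597433407) (nat_lit 76) (nat_lit 9776078510) (nat_lit 29) (nat_lit 5) (nat_lit 32) (nat_lit 5) (nat_lit 30) (nat_lit 5) (nat_lit 503) (nat_lit 347) (nat_lit 290)) (XT.lf (nat_lit 0) (nat_lit 5193786219)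 (nat_lit 152) (nat_lit 1163444797) (nat_lit 228) (nat_lit 9778005886) (nat_lit 27) (nat_lit 5) (nat_lit 29) (nat_lit 5) (nat_lit 30) (nat_lit 5) (nat_lit 504) (nat_lit 347) (nat_lit 289)))) (XT.nd (nat_lit 78) (nat_lit 380) (nat_lit 0) (XT.lf (nat_lit 0) (nat_lit 11272057441) (nat_lit 228) (nat_lit 1207015687) (nat_lit 76) (nat_lit 3869059672) (nat_lit 27) (nat_lit 5) (nat_lit 30) (nat_lit 5) (nat_lit 28) (nat_lit 4) (nat_lit 505) (nat_lit 347) (nat_lit 288)) (XT.nd (nat_lit 78) (nat_lit 228) (nat_lit 0) (XT.lf (nat_lit 0) (nat_lit 8754024453) (nat_lit 152) (nat_lit 7554233710) (nat_lit 228) (nat_lit 256570005) (nat_lit 25) (nat_lit 5) (nat_lit 27) (nat_lit 5) (nat_lit 28) (nat_lit 4) (nat_lit 506) (nat_lit 347) (nat_lit 287)) (XT.lf (nat_lit 0) (nat_lit 2066500933) (nat_lit 152) (nat_lit 2511875602) (nat_lit 228) (nat_lit 12207275689) (nat_lit 22) (nat_lit 5) (nat_lit 24) (nat_lit 5) (nat_lit 25) (nat_lit 5) (nat_lit 507) (nat_lit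 347) (nat_lit 286)))))) (XT.nd (nat_lit 468) (nat_lit 2356) (nat_lit 0) (XT.nd (nat_lit 234) (nat_lit 1140) (nat_lit 0) (XT.nd (nat_lit 78) (nat_lit 1140) (nat_lit 0) (XT.lf (nat_lit 0) (nat_lit 1894020324) (nat_lit 532) (nat_lit 1176758891) (nat_lit 532) (nat_lit 1176758891) (nat_lit 225) (nat_lit 4) (nat_lit 232) (nat_lit 5) (nat_lit 232) (nat_lit 4) (nat_lit 444) (nat_lit 348) (nat_lit 348)) (XT.nd (nat_lit 78) (nat_lit 532) (nat_lit 0) (XT.lf (nat_lit 0) (nat_lit 1624708171) (nat_lit 608) (nat_lit 6367984179) (nat_lit 0) (nat_lit 570018925) (nat_lit 217) (nat_lit 5) (nat_lit 225) (nat_lit 4) (nat_lit 217) (nat_lit 4) (nat_lit 445) (nat_lit 348) (nat_lit 347)) (XT.lf (nat_lit 0) (nat_lit 550184993) (nat_lit 532) (nat_lit 5085115188) (nat_lit 532) (nat_lit 2996416876) (nat_lit 210) (nat_lit 4) (nat_lit 217) (nat_lit 5) (nat_lit 217) (nat_lit 4) (nat_lit 446) (nat_lit 348) (nat_lit 346)))) (XT.nd (nat_lit 78) (nat_lit 1064)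 (nat_lit 0) (XT.lf (nat_lit 0) (nat_lit 987174245) (nat_lit 608) (nat_lit 1108340713) (nat_lit 76) (nat_lit 6606937821) (nat_lit 209) (nat_lit 5) (nat_lit 217) (nat_lit 5) (nat_lit 210) (nat_lit 4) (nat_lit 447) (nat_lit 348) (nat_lit 345)) (XT.nd (nat_lit 78) (nat_lit 608) (nat_lit 0) (XT.lf (nat_lit 0) (nat_lit 4990423753) (nat_lit 532) (nat_lit 2809742486) (nat_lit 0) (nat_lit 974453241) (nat_lit 203) (nat_lit 5) (nat_lit 210) (nat_lit 4) (nat_lit 203) (nat_lit 4) (nat_lit 448) (nat_lit 348) (nat_lit 344)) (XT.lf (nat_lit 0) (nat_lit 207105170) (nat_lit 608) (nat_lit 4552882612) (nat_lit 76) (nat_lit 4088535370) (nat_lit 195) (nat_lit 5) (nat_lit 203) (nat_lit 5) (nat_lit 196) (nat_lit 4) (nat_lit 449) (nat_lit 348) (nat_lit 343))))) (XT.nd (nat_lit 234) (nat_lit 1368) (nat_lit 0) (XT.nd (nat_lit 78) (nat_lit 532) (nat_lit 0) (XT.lf (nat_lit 0) (nat_lit 2574098537) (nat_lit 456) (nat_lit 1624845750) (nat_lit 532) (nat_lit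 4725046412) (nat_lit 189) (nat_lit 5) (nat_lit 195) (nat_lit 5) (nat_lit 196) (nat_lit 4) (nat_lit 450) (nat_lit 348) (nat_lit 342)) (XT.nd (nat_lit 78) (nat_lit 76) (nat_lit 0) (XT.lf (nat_lit 0) (nat_lit 812554147) (nat_lit 456) (nat_lit 7440438447) (nat_lit 456) (nat_lit 748341011) (nat_lit 183) (nat_lit 4) (nat_lit 189) (nat_lit 5) (nat_lit 189) (nat_lit 4) (nat_lit 451) (nat_lit 348) (nat_lit 341)) (XT.lf (nat_lit 0) (nat_lit 3254520943) (nat_lit 532) (nat_lit 1000481910) (nat_lit 76) (nat_lit 4825003784) (nat_lit 182) (nat_lit 5) (nat_lit 189) (nat_lit 5) (nat_lit 183) (nat_lit 4) (nat_lit 452) (nat_lit 348) (nat_lit 340)))) (XT.nd (nat_lit 78) (nat_lit 912) (nat_lit 0) (XT.lf (nat_lit 0) (nat_lit 6318399720) (nat_lit 456) (nat_lit 987652985) (nat_lit 532) (nat_lit 1854541516) (nat_lit 176) (nat_lit 5) (nat_lit 182) (nat_lit 5) (nat_lit 183) (nat_lit 4) (nat_lit 453) (nat_lit 348) (nat_lit 339)) (XT.nd (nat_lit 78) (nat_lit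 380) (nat_lit 0) (XT.lf (nat_lit 0) (nat_lit 2156234709) (nat_lit 532) (nat_lit 4750361107) (nat_lit 76) (nat_lit 2336140559) (nat_lit 169) (nat_lit 5) (nat_lit 176) (nat_lit 5) (nat_lit 170) (nat_lit 4) (nat_lit 454) (nat_lit 348) (nat_lit 338)) (XT.lf (nat_lit 0) (nat_lit 2609513706) (nat_lit 380) (nat_lit 3593841748) (nat_lit 456) (nat_lit 3123313469) (nat_lit 164) (nat_lit 5) (nat_lit 169) (nat_lit 5) (nat_lit 170) (nat_lit 4) (nat_lit 455) (nat_lit 348) (nat_lit 337))))))))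
noncomputable def xc23 : XT := (XT.nd (nat_lit 1716) (nat_lit 3572) (nat_lit 0) (XT.nd (nat_lit 858) (nat_lit 2964) (nat_lit 0) (XT.nd (nat_lit 390) (nat_lit 1596) (nat_lit 0) (XT.nd (nat_lit 156) (nat_lit 1216) (nat_lit 0) (XT.nd (nat_lit 78) (nat_lit 0) (nat_lit 0) (XT.lf (nat_lit 0) (nat_lit 680065804) (nat_lit 456) (nat_lit 201980010) (nat_lit 532) (nat_lit 8530627198) (nat_lit 157) (nat_lit 5) (nat_lit 163) (nat_lit 5) (nat_lit 164) (nat_lit 5) (nat_lit 456) (nat_lit 348) (nat_lit 336)) (XT.lf (nat_lit 0) (nat_lit 4931129033) (nat_lit 532) (nat_lit 1317782681) (nat_lit 76) (nat_lit 3250975068) (nat_lit 157) (nat_lit 5) (nat_lit 164) (nat_lit 5) (nat_lit 158) (nat_lit 4) (nat_lit 457) (nat_lit 348) (nat_lit 335))) (XT.nd (nat_lit 78) (nat_lit 836) (nat_lit 0) (XT.lf (nat_lit 0) (nat_lit 6235151261) (nat_lit 380) (nat_lit 2807934959) (nat_lit 456) (nat_lit 546131800) (nat_lit 152) (nat_lit 5) (nat_lit 157) (nat_lit 5) (nat_lit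 158) (nat_lit 4) (nat_lit 458) (nat_lit 348) (nat_lit 334)) (XT.nd (nat_lit 78) (nat_lit 380) (nat_lit 0) (XT.lf (nat_lit 0) (nat_lit 3491592691) (nat_lit 456) (nat_lit 5466917536) (nat_lit 76) (nat_lit 721748463) (nat_lit 146) (nat_lit 5) (nat_lit 152) (nat_lit 5) (nat_lit 147) (nat_lit 4) (nat_lit 459) (nat_lit 348) (nat_lit 333)) (XT.lf (nat_lit 0) (nat_lit 2119096318) (nat_lit 380) (nat_lit 5479322849) (nat_lit 456) (nat_lit 2174726005) (nat_lit 141) (nat_lit 5) (nat_lit 146) (nat_lit 5) (nat_lit 147) (nat_lit 4) (nat_lit 460) (nat_lit 348) (nat_lit 332))))) (XT.nd (nat_lit 234) (nat_lit 760) (nat_lit 0) (XT.nd (nat_lit 78) (nat_lit 760) (nat_lit 0) (XT.lf (nat_lit 0) (nat_lit 1872065836) (nat_lit 456) (nat_lit 40348644) (nat_lit 76) (nat_lit 7955680699) (nat_lit 140) (nat_lit 5) (nat_lit 146) (nat_lit 5) (nat_lit 141) (nat_lit 5) (nat_lit 461) (nat_lit 348) (nat_lit 331)) (XT.nd (nat_lit 78) (nat_lit 380) (nat_lit 0) (XT.lf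 (nat_lit 0) (nat_lit 5974249781) (nat_lit 456) (nat_lit 2253371358) (nat_lit 76) (nat_lit 1736973831) (nat_lit 135) (nat_lit 5) (nat_lit 141) (nat_lit 5) (nat_lit 136) (nat_lit 4) (nat_lit 462) (nat_lit 348) (nat_lit 330)) (XT.lf (nat_lit 0) (nat_lit 85276793) (nat_lit 380) (nat_lit 4538615844) (nat_lit 76) (nat_lit 5439307627) (nat_lit 130) (nat_lit 5) (nat_lit 135) (nat_lit 5) (nat_lit 131) (nat_lit 5) (nat_lit 463) (nat_lit 348) (nat_lit 329)))) (XT.nd (nat_lit 78) (nat_lit 380) (nat_lit 0) (XT.lf (nat_lit 0) (nat_lit 3251105457) (nat_lit 380) (nat_lit 916751092) (nat_lit 456) (nat_lit 5995825306) (nat_lit 125) (nat_lit 5) (nat_lit 130) (nat_lit 5) (nat_lit 131) (nat_lit 5) (nat_lit 464) (nat_lit 348) (nat_lit 328)) (XT.nd (nat_lit 78) (nat_lit 76) (nat_lit 0) (XT.lf (nat_lit 0) (nat_lit 894997929) (nat_lit 304) (nat_lit 7434987933) (nat_lit 380) (nat_lit 1936238310) (nat_lit 121) (nat_lit 5) (nat_lit 125) (nat_lit 5) (nat_lit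 126) (nat_lit 4) (nat_lit 465) (nat_lit 348) (nat_lit 327)) (XT.lf (nat_lit 0) (nat_lit 2171376615) (nat_lit 380) (nat_lit 1528846044) (nat_lit 76) (nat_lit 6670402132) (nat_lit 120) (nat_lit 5) (nat_lit 125) (nat_lit 5) (nat_lit 121) (nat_lit 5) (nat_lit 466) (nat_lit 348) (nat_lit 326)))))) (XT.nd (nat_lit 390) (nat_lit 1520) (nat_lit 0) (XT.nd (nat_lit 156) (nat_lit 760) (nat_lit 0) (XT.nd (nat_lit 78) (nat_lit 304) (nat_lit 0) (XT.lf (nat_lit 0) (nat_lit 6322099807) (nat_lit 456) (nat_lit 4024719832) (nat_lit 76) (nat_lit 130308701) (nat_lit 115) (nat_lit 5) (nat_lit 121) (nat_lit 5) (nat_lit 116) (nat_lit 4) (nat_lit 467) (nat_lit 348) (nat_lit 325)) (XT.lf (nat_lit 0) (nat_lit 3966677248) (nat_lit 304) (nat_lit 6594156908) (nat_lit 380) (nat_lit 24836236) (nat_lit 111) (nat_lit 5) (nat_lit 115) (nat_lit 5) (nat_lit 116) (nat_lit 4) (nat_lit 468) (nat_lit 348) (nat_lit 324))) (XT.nd (nat_lit 78) (nat_lit 380) (nat_lit 0)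 (XT.lf (nat_lit 0) (nat_lit 1377930330) (nat_lit 304) (nat_lit 2735788959) (nat_lit 380) (nat_lit 6582514511) (nat_lit 106) (nat_lit 5) (nat_lit 110) (nat_lit 5) (nat_lit 111) (nat_lit 5) (nat_lit 469) (nat_lit 348) (nat_lit 323)) (XT.nd (nat_lit 78) (nat_lit 380) (nat_lit 0) (XT.lf (nat_lit 0) (nat_lit 8332057079) (nat_lit 380) (nat_lit 1281539438) (nat_lit 76) (nat_lit 1195469685) (nat_lit 106) (nat_lit 5) (nat_lit 111) (nat_lit 5) (nat_lit 107) (nat_lit 4) (nat_lit 470) (nat_lit 348) (nat_lit 322)) (XT.lf (nat_lit 0) (nat_lit 1697066566) (nat_lit 380) (nat_lit 4034735806) (nat_lit 76) (nat_lit 5191960428) (nat_lit 101) (nat_lit 5) (nat_lit 106) (nat_lit 5) (nat_lit 102) (nat_lit 5) (nat_lit 471) (nat_lit 348) (nat_lit 321))))) (XT.nd (nat_lit 234) (nat_lit 912) (nat_lit 0) (XT.nd (nat_lit 78) (nat_lit 304) (nat_lit 0) (XT.lf (nat_lit 0) (nat_lit 4149684998) (nat_lit 304) (nat_lit 1753457026) (nat_lit 380) (nat_lit 5137657564)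 (nat_lit 97) (nat_lit 5) (nat_lit 101) (nat_lit 5) (nat_lit 102) (nat_lit 5) (nat_lit 472) (nat_lit 348) (nat_lit 320)) (XT.nd (nat_lit 78) (nat_lit 76) (nat_lit 0) (XT.lf (nat_lit 0) (nat_lit 1306495209) (nat_lit 228) (nat_lit 8883866791) (nat_lit 304) (nat_lit 969881935) (nat_lit 94) (nat_lit 5) (nat_lit 97) (nat_lit 5) (nat_lit 98) (nat_lit 4) (nat_lit 473) (nat_lit 348) (nat_lit 319)) (XT.lf (nat_lit 0) (nat_lit 3242823703) (nat_lit 304) (nat_lit 1641393137) (nat_lit 76) (nat_lit 6397349074) (nat_lit 93) (nat_lit 5) (nat_lit 97) (nat_lit 5) (nat_lit 94) (nat_lit 5) (nat_lit 474) (nat_lit 348) (nat_lit 318)))) (XT.nd (nat_lit 78) (nat_lit 608) (nat_lit 0) (XT.lf (nat_lit 0) (nat_lit 6730304368) (nat_lit 304) (nat_lit 787699286) (nat_lit 380) (nat_lit 3887365184) (nat_lit 89) (nat_lit 5) (nat_lit 93) (nat_lit 5) (nat_lit 94) (nat_lit 5) (nat_lit 475) (nat_lit 348) (nat_lit 317)) (XT.nd (nat_lit 78) (nat_lit 304) (nat_lit 0)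 (XT.lf (nat_lit 0) (nat_lit 347382256) (nat_lit 304) (nat_lit 7834156900) (nat_lit 76) (nat_lit 3349972310) (nat_lit 85) (nat_lit 5) (nat_lit 89) (nat_lit 5) (nat_lit 86) (nat_lit 5) (nat_lit 476) (nat_lit 348) (nat_lit 316)) (XT.lf (nat_lit 0) (nat_lit 529689516) (nat_lit 304) (nat_lit 4073226831) (nat_lit 380) (nat_lit 7056990285) (nat_lit 81) (nat_lit 5) (nat_lit 85) (nat_lit 5) (nat_lit 86) (nat_lit 5) (nat_lit 477) (nat_lit 348) (nat_lit 315))))))) (XT.nd (nat_lit 858) (nat_lit 1748) (nat_lit 0) (XT.nd (nat_lit 390) (nat_lit 988) (nat_lit 0) (XT.nd (nat_lit 156) (nat_lit 532) (nat_lit 0) (XT.nd (nat_lit 78) (nat_lit 304) (nat_lit 0) (XT.lf (nat_lit 0) (nat_lit 8945335081) (nat_lit 380) (nat_lit 2711294241) (nat_lit 76) (nat_lit 134211242) (nat_lit 81) (nat_lit 5) (nat_lit 86) (nat_lit 5) (nat_lit 82) (nat_lit 4) (nat_lit 478) (nat_lit 348) (nat_lit 314)) (XT.lf (nat_lit 0) (nat_lit 1445278785) (nat_lit 304) (nat_lit 6093663736)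 (nat_lit 76) (nat_lit 4384986642) (nat_lit 77) (nat_lit 5) (nat_lit 81) (nat_lit 5) (nat_lit 78) (nat_lit 5) (nat_lit 479) (nat_lit 348) (nat_lit 313))) (XT.nd (nat_lit 78) (nat_lit 304) (nat_lit 0) (XT.lf (nat_lit 0) (nat_lit 2447449228) (nat_lit 228) (nat_lit 3319785210) (nat_lit 304) (nat_lit 6292405754) (nat_lit 74) (nat_lit 5) (nat_lit 77) (nat_lit 5) (nat_lit 78) (nat_lit 5) (nat_lit 480) (nat_lit 348) (nat_lit 312)) (XT.nd (nat_lit 78) (nat_lit 304) (nat_lit 0) (XT.lf (nat_lit 0) (nat_lit 10172611215) (nat_lit 304) (nat_lit 1047919441) (nat_lit 76) (nat_lit 977601003) (nat_lit 74) (nat_lit 5) (nat_lit 78) (nat_lit 5) (nat_lit 75) (nat_lit 4) (nat_lit 481) (nat_lit 348) (nat_lit 311)) (XT.lf (nat_lit 0) (nat_lit 2318615780) (nat_lit 304) (nat_lit 4672116073) (nat_lit 76) (nat_lit 5347916035) (nat_lit 70) (nat_lit 5) (nat_lit 74) (nat_lit 5) (nat_lit 71) (nat_lit 5) (nat_lit 482) (nat_lit 348) (nat_lit 310))))) (XT.nd (nat_lit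 234) (nat_lit 456) (nat_lit 0) (XT.nd (nat_lit 78) (nat_lit 304) (nat_lit 0) (XT.lf (nat_lit 0) (nat_lit 4042782716) (nat_lit 228) (nat_lit 2663603805) (nat_lit 304) (nat_lit 5775648194) (nat_lit 67) (nat_lit 5) (nat_lit 70) (nat_lit 5) (nat_lit 71) (nat_lit 5) (nat_lit 483) (nat_lit 348) (nat_lit 309)) (XT.nd (nat_lit 78) (nat_lit 76) (nat_lit 0) (XT.lf (nat_lit 0) (nat_lit 275059583) (nat_lit 228) (nat_lit 10902282251) (nat_lit 304) (nat_lit 1451044275) (nat_lit 64) (nat_lit 5) (nat_lit 67) (nat_lit 5) (nat_lit 68) (nat_lit 4) (nat_lit 484) (nat_lit 348) (nat_lit 308)) (XT.lf (nat_lit 0) (nat_lit 2946689061) (nat_lit 304) (nat_lit 3620440419) (nat_lit 76) (nat_lit 6209646700) (nat_lit 63) (nat_lit 5) (nat_lit 67) (nat_lit 5) (nat_lit 64) (nat_lit 5) (nat_lit 485) (nat_lit 348) (nat_lit 307)))) (XT.nd (nat_lit 78) (nat_lit 228) (nat_lit 0) (XT.lf (nat_lit 0) (nat_lit 5263457606) (nat_lit 228) (nat_lit 2135458781) (nat_lit 304)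 (nat_lit 5529311560) (nat_lit 60) (nat_lit 5) (nat_lit 63) (nat_lit 5) (nat_lit 64) (nat_lit 5) (nat_lit 486) (nat_lit 348) (nat_lit 306)) (XT.nd (nat_lit 78) (nat_lit 76) (nat_lit 0) (XT.lf (nat_lit 0) (nat_lit 1208839156) (nat_lit 152) (nat_lit 10731098856) (nat_lit 228) (nat_lit 1142780741) (nat_lit 58) (nat_lit 5) (nat_lit 60) (nat_lit 5) (nat_lit 61) (nat_lit 4) (nat_lit 487) (nat_lit 348) (nat_lit 305)) (XT.lf (nat_lit 0) (nat_lit 3305750963) (nat_lit 228) (nat_lit 2994915987) (nat_lit 76) (nat_lit 6938845363) (nat_lit 57) (nat_lit 5) (nat_lit 60) (nat_lit 5) (nat_lit 58) (nat_lit 5) (nat_lit 488) (nat_lit 348) (nat_lit 304)))))) (XT.nd (nat_lit 468) (nat_lit 836) (nat_lit 0) (XT.nd (nat_lit 234) (nat_lit 456) (nat_lit 0) (XT.nd (nat_lit 78) (nat_lit 228) (nat_lit 0) (XT.lf (nat_lit 0) (nat_lit 6051711221) (nat_lit 228) (nat_lit 1768532406) (nat_lit 304) (nat_lit 5579205908) (nat_lit 54) (nat_lit 5) (nat_lit 57) (nat_lit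 5) (nat_lit 58) (nat_lit 5) (nat_lit 489) (nat_lit 348) (nat_lit 303)) (XT.nd (nat_lit 78) (nat_lit 76) (nat_lit 0) (XT.lf (nat_lit 0) (nat_lit 1679150032) (nat_lit 152) (nat_lit 10748696995) (nat_lit 228) (nat_lit 1134686675) (nat_lit 52) (nat_lit 5) (nat_lit 54) (nat_lit 5) (nat_lit 55) (nat_lit 4) (nat_lit 490) (nat_lit 348) (nat_lit 302)) (XT.lf (nat_lit 0) (nat_lit 3368728655) (nat_lit 228) (nat_lit 2857801208) (nat_lit 76) (nat_lit 7501621181) (nat_lit 51) (nat_lit 5) (nat_lit 54) (nat_lit 5) (nat_lit 52) (nat_lit 5) (nat_lit 491) (nat_lit 348) (nat_lit 301)))) (XT.nd (nat_lit 78) (nat_lit 228) (nat_lit 0) (XT.lf (nat_lit 0) (nat_lit 6343604330) (nat_lit 228) (nat_lit 1598767276) (nat_lit 304) (nat_lit 5954656419) (nat_lit 48) (nat_lit 5) (nat_lit 51) (nat_lit 5) (nat_lit 52) (nat_lit 5) (nat_lit 492) (nat_lit 348) (nat_lit 300)) (XT.nd (nat_lit 78) (nat_lit 76) (nat_lit 0) (XT.lf (nat_lit 0) (nat_lit 1619185684) (nat_lit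 152) (nat_lit 10992695178) (nat_lit 228) (nat_lit 1457318082) (nat_lit 46) (nat_lit 5) (nat_lit 48) (nat_lit 5) (nat_lit 49) (nat_lit 4) (nat_lit 493) (nat_lit 348) (nat_lit 299)) (XT.lf (nat_lit 0) (nat_lit 3104909259) (nat_lit 228) (nat_lit 3278022799) (nat_lit 76) (nat_lit 7861159040) (nat_lit 45) (nat_lit 5) (nat_lit 48) (nat_lit 5) (nat_lit 46) (nat_lit 5) (nat_lit 494) (nat_lit 348) (nat_lit 298))))) (XT.nd (nat_lit 234) (nat_lit 380) (nat_lit 0) (XT.nd (nat_lit 78) (nat_lit 228) (nat_lit 0) (XT.lf (nat_lit 0) (nat_lit 6068310197) (nat_lit 228) (nat_lit 1665251007) (nat_lit 304) (nat_lit 6688837383) (nat_lit 42) (nat_lit 5) (nat_lit 45) (nat_lit 5) (nat_lit 46) (nat_lit 5) (nat_lit 495) (nat_lit 348) (nat_lit 297)) (XT.nd (nat_lit 78) (nat_lit 76) (nat_lit 0) (XT.lf (nat_lit 0) (nat_lit 954937018) (nat_lit 152) (nat_lit 11504044431) (nat_lit 228) (nat_lit 2145210814) (nat_lit 40) (nat_lit 5) (nat_lit 42) (nat_lit 5) (nat_lit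 43) (nat_lit 4) (nat_lit 496) (nat_lit 348) (nat_lit 296)) (XT.lf (nat_lit 0) (nat_lit 2479588536) (nat_lit 228) (nat_lit 4331934222) (nat_lit 76) (nat_lit 7977320647) (nat_lit 39) (nat_lit 5) (nat_lit 42) (nat_lit 5) (nat_lit 40) (nat_lit 5) (nat_lit 497) (nat_lit 348) (nat_lit 295)))) (XT.nd (nat_lit 78) (nat_lit 228) (nat_lit 0) (XT.lf (nat_lit 0) (nat_lit 5147331874) (nat_lit 152) (nat_lit 2010635127) (nat_lit 228) (nat_lit 7819144536) (nat_lit 37) (nat_lit 5) (nat_lit 39) (nat_lit 5) (nat_lit 40) (nat_lit 5) (nat_lit 498) (nat_lit 348) (nat_lit 294)) (XT.nd (nat_lit 78) (nat_lit 228) (nat_lit 0) (XT.lf (nat_lit 0) (nat_lit 11934409793) (nat_lit 228) (nat_lit 390432760) (nat_lit 76) (nat_lit 2844216185) (nat_lit 37) (nat_lit 5) (nat_lit 40) (nat_lit 5) (nat_lit 38) (nat_lit 4) (nat_lit 499) (nat_lit 348) (nat_lit 293)) (XT.lf (nat_lit 0) (nat_lit 1453679597) (nat_lit 228) (nat_lit 6104151038) (nat_lit 76) (nat_lit 7806209579)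 (nat_lit 34) (nat_lit 5) (nat_lit 37) (nat_lit 5) (nat_lit 35) (nat_lit 5) (nat_lit 500) (nat_lit 348) (nat_lit 292))))))))
noncomputable def xc24 : XT := (XT.nd (nat_lit 55926) (nat_lit 0) (nat_lit 4028) (XT.nd (nat_lit 55068) (nat_lit 0) (nat_lit 10108) (XT.nd (nat_lit 390) (nat_lit 228) (nat_lit 0) (XT.nd (nat_lit 156) (nat_lit 380) (nat_lit 0) (XT.nd (nat_lit 78) (nat_lit 0) (nat_lit 0) (XT.lf (nat_lit 0) (nat_lit 3493639987) (nat_lit 152) (nat_lit 2681592238) (nat_lit 228) (nat_lit 9387609516) (nat_lit 32) (nat_lit 5) (nat_lit 34) (nat_lit 5) (nat_lit 35) (nat_lit 5) (nat_lit 501) (nat_lit 348) (nat_lit 291)) (XT.lf (nat_lit 0) (nat_lit 11004864242) (nat_lit 228) (nat_lit 2490332810) (nat_lit 76) (nat_lit 2270152644) (nat_lit 32) (nat_lit 5) (nat_lit 35) (nat_lit 5) (nat_lit 33) (nat_lit 4) (nat_lit 502) (nat_lit 348) (nat_lit 290))) (XT.nd (nat_lit 78) (nat_lit 228) (nat_lit 0) (XT.lf (nat_lit 0) (nat_lit 7282861452) (nat_lit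 152) (nat_lit 8671636898) (nat_lit 228) (nat_lit 16944569) (nat_lit 30) (nat_lit 5) (nat_lit 32) (nat_lit 5) (nat_lit 33) (nat_lit 4) (nat_lit 503) (nat_lit 348) (nat_lit 289)) (XT.nd (nat_lit 78) (nat_lit 0) (nat_lit 0) (XT.lf (nat_lit 0) (nat_lit 1010722452) (nat_lit 152) (nat_lit 3729315908) (nat_lit 228) (nat_lit 11441360621) (nat_lit 27) (nat_lit 5) (nat_lit 29) (nat_lit 5) (nat_lit 30) (nat_lit 5) (nat_lit 504) (nat_lit 348) (nat_lit 288)) (XT.lf (nat_lit 0) (nat_lit 9617678668) (nat_lit 228) (nat_lit 5456804586) (nat_lit 76) (nat_lit 1320556886) (nat_lit 27) (nat_lit 5) (nat_lit 30) (nat_lit 5) (nat_lit 28) (nat_lit 4) (nat_lit 505) (nat_lit 348) (nat_lit 287))))) (XT.nd (nat_lit 54444) (nat_lit 0) (nat_lit 14668) (XT.nd (nat_lit 78) (nat_lit 76) (nat_lit 0) (XT.lf (nat_lit 0) (nat_lit 4410780589) (nat_lit 152) (nat_lit 10194775285) (nat_lit 228) (nat_lit 2007147613) (nat_lit 25) (nat_lit 5) (nat_lit 27) (nat_lit 5) (nat_lit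 28) (nat_lit 4) (nat_lit 506) (nat_lit 348) (nat_lit 286)) (XT.nd (nat_lit 54288) (nat_lit 0) (nat_lit 16416) (XT.lf (nat_lit 0) (nat_lit 2817242219) (nat_lit 228) (nat_lit 2376875878) (nat_lit 76) (nat_lit 11640308530) (nat_lit 24) (nat_lit 5) (nat_lit 27) (nat_lit 5) (nat_lit 25) (nat_lit 5) (nat_lit 507) (nat_lit 348) (nat_lit 285)) (XT.lf (nat_lit 0) (nat_lit 3464730637) (nat_lit 608) (nat_lit 358703239) (nat_lit 608) (nat_lit 358703239) (nat_lit 240) (nat_lit 4) (nat_lit 248) (nat_lit 5) (nat_lit 248) (nat_lit 4) (nat_lit 442) (nat_lit 349) (nat_lit 349)))) (XT.nd (nat_lit 78) (nat_lit 1140) (nat_lit 0) (XT.lf (nat_lit 0) (nat_lit 3223305669) (nat_lit 608) (nat_lit 3079813726) (nat_lit 0) (nat_lit 2126006977) (nat_lit 232) (nat_lit 5) (nat_lit 240) (nat_lit 4) (nat_lit 232) (nat_lit 4) (nat_lit 443) (nat_lit 349) (nat_lit 348)) (XT.nd (nat_lit 78) (nat_lit 608) (nat_lit 0) (XT.lf (nat_lit 0) (nat_lit 3742779004) (nat_lit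 532) (nat_lit 3463023987) (nat_lit 532) (nat_lit 1289942263) (nat_lit 225) (nat_lit 4) (nat_lit 232) (nat_lit 5) (nat_lit 232) (nat_lit 4) (nat_lit 444) (nat_lit 349) (nat_lit 347)) (XT.lf (nat_lit 0) (nat_lit 2099602936) (nat_lit 532) (nat_lit 537710878) (nat_lit 608) (nat_lit 5926676464) (nat_lit 217) (nat_lit 5) (nat_lit 224) (nat_lit 5) (nat_lit 225) (nat_lit 4) (nat_lit 445) (nat_lit 349) (nat_lit 346)))))) (XT.nd (nat_lit 390) (nat_lit 2432) (nat_lit 0) (XT.nd (nat_lit 156) (nat_lit 1520) (nat_lit 0) (XT.nd (nat_lit 78) (nat_lit 76) (nat_lit 0) (XT.lf (nat_lit 0) (nat_lit 410344825) (nat_lit 532) (nat_lit 6200804791) (nat_lit 532) (nat_lit 2022589071) (nat_lit 210) (nat_lit 4) (nat_lit 217) (nat_lit 5) (nat_lit 217) (nat_lit 4) (nat_lit 446) (nat_lit 349) (nat_lit 345)) (XT.lf (nat_lit 0) (nat_lit 1915997357) (nat_lit 608) (nat_lit 1301758291) (nat_lit 76) (nat_lit 5487244170) (nat_lit 209) (nat_lit 5) (nat_lit 217) (nat_lit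 5) (nat_lit 210) (nat_lit 4) (nat_lit 447) (nat_lit 349) (nat_lit 344))) (XT.nd (nat_lit 78) (nat_lit 1064) (nat_lit 0) (XT.lf (nat_lit 0) (nat_lit 5730492634) (nat_lit 456) (nat_lit 149178367) (nat_lit 532) (nat_lit 2898294106) (nat_lit 203) (nat_lit 5) (nat_lit 209) (nat_lit 5) (nat_lit 210) (nat_lit 4) (nat_lit 448) (nat_lit 349) (nat_lit 343)) (XT.nd (nat_lit 78) (nat_lit 456) (nat_lit 0) (XT.lf (nat_lit 0) (nat_lit 1046985070) (nat_lit 608) (nat_lit 4847548329) (nat_lit 76) (nat_lit 2957915196) (nat_lit 195) (nat_lit 5) (nat_lit 203) (nat_lit 5) (nat_lit 196) (nat_lit 4) (nat_lit 449) (nat_lit 349) (nat_lit 342)) (XT.lf (nat_lit 0) (nat_lit 2230190465) (nat_lit 456) (nat_lit 2775165522) (nat_lit 532) (nat_lit 3923236180) (nat_lit 189) (nat_lit 5) (nat_lit 195) (nat_lit 5) (nat_lit 196) (nat_lit 4) (nat_lit 450) (nat_lit 349) (nat_lit 341))))) (XT.nd (nat_lit 234) (nat_lit 1444) (nat_lit 0) (XT.nd (nat_lit 78) (nat_lit 456)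 (nat_lit 0) (XT.lf (nat_lit 0) (nat_lit 11482525) (nat_lit 532) (nat_lit 8585428579) (nat_lit 76) (nat_lit 409849136) (nat_lit 182) (nat_lit 5) (nat_lit 189) (nat_lit 5) (nat_lit 183) (nat_lit 4) (nat_lit 451) (nat_lit 349) (nat_lit 340)) (XT.nd (nat_lit 78) (nat_lit 456) (nat_lit 0) (XT.lf (nat_lit 0) (nat_lit 3973638886) (nat_lit 532) (nat_lit 1447085260) (nat_lit 76) (nat_lit 3665236048) (nat_lit 182) (nat_lit 5) (nat_lit 189) (nat_lit 5) (nat_lit 183) (nat_lit 4) (nat_lit 452) (nat_lit 349) (nat_lit 339)) (XT.lf (nat_lit 0) (nat_lit 5821062425) (nat_lit 456) (nat_lit 2170593919) (nat_lit 532) (nat_lit 1175567875) (nat_lit 176) (nat_lit 5) (nat_lit 182) (nat_lit 5) (nat_lit 183) (nat_lit 4) (nat_lit 453) (nat_lit 349) (nat_lit 338)))) (XT.nd (nat_lit 78) (nat_lit 912) (nat_lit 0) (XT.lf (nat_lit 0) (nat_lit 2784719045) (nat_lit 532) (nat_lit 5309866217) (nat_lit 76) (nat_lit 1155530546) (nat_lit 169) (nat_lit 5) (nat_lit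 176) (nat_lit 5) (nat_lit 170) (nat_lit 4) (nat_lit 454) (nat_lit 349) (nat_lit 337)) (XT.nd (nat_lit 78) (nat_lit 532) (nat_lit 0) (XT.lf (nat_lit 0) (nat_lit 1997433905) (nat_lit 380) (nat_lit 4800464725) (nat_lit 456) (nat_lit 2536834349) (nat_lit 164) (nat_lit 5) (nat_lit 169) (nat_lit 5) (nat_lit 170) (nat_lit 4) (nat_lit 455) (nat_lit 349) (nat_lit 336)) (XT.lf (nat_lit 0) (nat_lit 2572087) (nat_lit 456) (nat_lit 1423993381) (nat_lit 532) (nat_lit 7994786371) (nat_lit 157) (nat_lit 5) (nat_lit 163) (nat_lit 5) (nat_lit 164) (nat_lit 5) (nat_lit 456) (nat_lit 349) (nat_lit 335))))))) (XT.nd (nat_lit 858) (nat_lit 2888) (nat_lit 0) (XT.nd (nat_lit 390) (nat_lit 1900) (nat_lit 0) (XT.nd (nat_lit 156) (nat_lit 912) (nat_lit 0) (XT.nd (nat_lit 78) (nat_lit 380) (nat_lit 0) (XT.lf (nat_lit 0) (nat_lit 5438047215) (nat_lit 532) (nat_lit 2040884762) (nat_lit 76) (nat_lit 2030391126) (nat_lit 157) (nat_lit 5) (nat_lit 164) (nat_lit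 5) (nat_lit 158) (nat_lit 4) (nat_lit 457) (nat_lit 349) (nat_lit 334)) (XT.lf (nat_lit 0) (nat_lit 5457871031) (nat_lit 380) (nat_lit 4058001113) (nat_lit 456) (nat_lit 83470199) (nat_lit 152) (nat_lit 5) (nat_lit 157) (nat_lit 5) (nat_lit 158) (nat_lit 4) (nat_lit 458) (nat_lit 349) (nat_lit 333))) (XT.nd (nat_lit 78) (nat_lit 456) (nat_lit 0) (XT.lf (nat_lit 0) (nat_lit 3372600940) (nat_lit 380) (nat_lit 536352095) (nat_lit 456) (nat_lit 5782159717) (nat_lit 146) (nat_lit 5) (nat_lit 151) (nat_lit 5) (nat_lit 152) (nat_lit 5) (nat_lit 459) (nat_lit 349) (nat_lit 332)) (XT.nd (nat_lit 78) (nat_lit 76) (nat_lit 0) (XT.lf (nat_lit 0) (nat_lit 1214848646) (nat_lit 380) (nat_lit 6762768850) (nat_lit 456) (nat_lit 1807150027) (nat_lit 141) (nat_lit 5) (nat_lit 146) (nat_lit 5) (nat_lit 147) (nat_lit 4) (nat_lit 460) (nat_lit 349) (nat_lit 331)) (XT.lf (nat_lit 0) (nat_lit 2206097776) (nat_lit 456) (nat_lit 1002976869) (nat_lit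 76) (nat_lit 6671174468) (nat_lit 140) (nat_lit 5) (nat_lit 146) (nat_lit 5) (nat_lit 141) (nat_lit 5) (nat_lit 461) (nat_lit 349) (nat_lit 330))))) (XT.nd (nat_lit 234) (nat_lit 760) (nat_lit 0) (XT.nd (nat_lit 78) (nat_lit 760) (nat_lit 0) (XT.lf (nat_lit 0) (nat_lit 6264940212) (nat_lit 456) (nat_lit 3277164200) (nat_lit 76) (nat_lit 435516081) (nat_lit 135) (nat_lit 5) (nat_lit 141) (nat_lit 5) (nat_lit 136) (nat_lit 4) (nat_lit 462) (nat_lit 349) (nat_lit 329)) (XT.nd (nat_lit 78) (nat_lit 380) (nat_lit 0) (XT.lf (nat_lit 0) (nat_lit 324052826) (nat_lit 380) (nat_lit 5635574462) (nat_lit 76) (nat_lit 4117271960) (nat_lit 130) (nat_lit 5) (nat_lit 135) (nat_lit 5) (nat_lit 131) (nat_lit 5) (nat_lit 463) (nat_lit 349) (nat_lit 328)) (XT.lf (nat_lit 0) (nat_lit 2095220835) (nat_lit 380) (nat_lit 2275997991) (nat_lit 456) (nat_lit 5806874770) (nat_lit 125) (nat_lit 5) (nat_lit 130) (nat_lit 5) (nat_lit 131) (nat_lit 5) (nat_lit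 464) (nat_lit 349) (nat_lit 327)))) (XT.nd (nat_lit 78) (nat_lit 760) (nat_lit 0) (XT.lf (nat_lit 0) (nat_lit 8490965240) (nat_lit 456) (nat_lit 322144261) (nat_lit 76) (nat_lit 1468378467) (nat_lit 125) (nat_lit 5) (nat_lit 131) (nat_lit 5) (nat_lit 126) (nat_lit 4) (nat_lit 465) (nat_lit 349) (nat_lit 326)) (XT.nd (nat_lit 78) (nat_lit 380) (nat_lit 0) (XT.lf (nat_lit 0) (nat_lit 2285375267) (nat_lit 380) (nat_lit 2810523437) (nat_lit 76) (nat_lit 5290571302) (nat_lit 120) (nat_lit 5) (nat_lit 125) (nat_lit 5) (nat_lit 121) (nat_lit 5) (nat_lit 466) (nat_lit 349) (nat_lit 325)) (XT.lf (nat_lit 0) (nat_lit 5110846471) (nat_lit 380) (nat_lit 1288548866) (nat_lit 456) (nat_lit 4094316422) (nat_lit 115) (nat_lit 5) (nat_lit 120) (nat_lit 5) (nat_lit 121) (nat_lit 5) (nat_lit 467) (nat_lit 349) (nat_lit 324)))))) (XT.nd (nat_lit 468) (nat_lit 1520) (nat_lit 0) (XT.nd (nat_lit 234) (nat_lit 684) (nat_lit 0) (XT.nd (nat_lit 78) (nat_lit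 380) (nat_lit 0) (XT.lf (nat_lit 0) (nat_lit 2555077888) (nat_lit 304) (nat_lit 8038540593) (nat_lit 380) (nat_lit 9529613) (nat_lit 111) (nat_lit 5) (nat_lit 115) (nat_lit 5) (nat_lit 116) (nat_lit 4) (nat_lit 468) (nat_lit 349) (nat_lit 323)) (XT.nd (nat_lit 78) (nat_lit 304) (nat_lit 0) (XT.lf (nat_lit 0) (nat_lit 4092967420) (nat_lit 380) (nat_lit 112701182) (nat_lit 76) (nat_lit 6508761971) (nat_lit 110) (nat_lit 5) (nat_lit 115) (nat_lit 5) (nat_lit 111) (nat_lit 5) (nat_lit 469) (nat_lit 349) (nat_lit 322)) (XT.lf (nat_lit 0) (nat_lit 8000321893) (nat_lit 304) (nat_lit 275713474) (nat_lit 380) (nat_lit 2551936831) (nat_lit 106) (nat_lit 5) (nat_lit 110) (nat_lit 5) (nat_lit 111) (nat_lit 5) (nat_lit 470) (nat_lit 349) (nat_lit 321)))) (XT.nd (nat_lit 78) (nat_lit 304) (nat_lit 0) (XT.lf (nat_lit 0) (nat_lit 1584386913) (nat_lit 380) (nat_lit 5661759594) (nat_lit 76) (nat_lit 3697310387) (nat_lit 101) (nat_lit 5) (nat_lit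 106) (nat_lit 5) (nat_lit 102) (nat_lit 5) (nat_lit 471) (nat_lit 349) (nat_lit 320)) (XT.nd (nat_lit 78) (nat_lit 0) (nat_lit 0) (XT.lf (nat_lit 0) (nat_lit 2457725315) (nat_lit 304) (nat_lit 3295569989) (nat_lit 380) (nat_lit 5307945325) (nat_lit 97) (nat_lit 5) (nat_lit 101) (nat_lit 5) (nat_lit 102) (nat_lit 5) (nat_lit 472) (nat_lit 349) (nat_lit 319)) (XT.lf (nat_lit 0) (nat_lit 9995968885) (nat_lit 380) (nat_lit 455907488) (nat_lit 76) (nat_lit 729703066) (nat_lit 97) (nat_lit 5) (nat_lit 102) (nat_lit 5) (nat_lit 98) (nat_lit 4) (nat_lit 473) (nat_lit 349) (nat_lit 318))))) (XT.nd (nat_lit 234) (nat_lit 684) (nat_lit 0) (XT.nd (nat_lit 78) (nat_lit 532) (nat_lit 0) (XT.lf (nat_lit 0) (nat_lit 3000913653) (nat_lit 304) (nat_lit 3472775762) (nat_lit 76) (nat_lit 4829823628) (nat_lit 93) (nat_lit 5) (nat_lit 97) (nat_lit 5) (nat_lit 94) (nat_lit 5) (nat_lit 474) (nat_lit 349) (nat_lit 317)) (XT.nd (nat_lit 78) (nat_lit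 228) (nat_lit 0) (XT.lf (nat_lit 0) (nat_lit 4831919989) (nat_lit 304) (nat_lit 2406366186) (nat_lit 380) (nat_lit 4189789272) (nat_lit 89) (nat_lit 5) (nat_lit 93) (nat_lit 5) (nat_lit 94) (nat_lit 5) (nat_lit 475) (nat_lit 349) (nat_lit 316)) (XT.lf (nat_lit 0) (nat_lit 1720924512) (nat_lit 228) (nat_lit 9834195691) (nat_lit 304) (nat_lit 121211) (nat_lit 86) (nat_lit 5) (nat_lit 89) (nat_lit 5) (nat_lit 90) (nat_lit 4) (nat_lit 476) (nat_lit 349) (nat_lit 315)))) (XT.nd (nat_lit 78) (nat_lit 608) (nat_lit 0) (XT.lf (nat_lit 0) (nat_lit 4226669274) (nat_lit 304) (nat_lit 1519706137) (nat_lit 76) (nat_lit 5937839228) (nat_lit 85) (nat_lit 5) (nat_lit 89) (nat_lit 5) (nat_lit 86) (nat_lit 5) (nat_lit 477) (nat_lit 349) (nat_lit 314)) (XT.nd (nat_lit 78) (nat_lit 304) (nat_lit 0) (XT.lf (nat_lit 0) (nat_lit 6968843958) (nat_lit 304) (nat_lit 1564280346) (nat_lit 380) (nat_lit 3282746617) (nat_lit 81) (nat_lit 5) (nat_lit 85)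 (nat_lit 5) (nat_lit 86) (nat_lit 5) (nat_lit 478) (nat_lit 349) (nat_lit 313)) (XT.lf (nat_lit 0) (nat_lit 964331399) (nat_lit 304) (nat_lit 8312466477) (nat_lit 76) (nat_lit 2673210194) (nat_lit 77) (nat_lit 5) (nat_lit 81) (nat_lit 5) (nat_lit 78) (nat_lit 5) (nat_lit 479) (nat_lit 349) (nat_lit 312))))))))
noncomputable def xc25 : XT := (XT.nd (nat_lit 1716) (nat_lit 760) (nat_lit 0) (XT.nd (nat_lit 858) (nat_lit 1520) (nat_lit 0) (XT.nd (nat_lit 390) (nat_lit 988) (nat_lit 0) (XT.nd (nat_lit 156) (nat_lit 532) (nat_lit 0) (XT.nd (nat_lit 78) (nat_lit 0) (nat_lit 0) (XT.lf (nat_lit 0) (nat_lit 156974998) (nat_lit 228) (nat_lit 5089793248) (nat_lit 304) (nat_lit 6839744128) (nat_lit 74) (nat_lit 5) (nat_lit 77) (nat_lit 5) (nat_lit 78) (nat_lit 5) (nat_lit 480) (nat_lit 349) (nat_lit 311)) (XT.lf (nat_lit 0) (nat_lit 8824940590) (nat_lit 228) (nat_lit 796340083) (nat_lit 304) (nat_lit 2604343298) (nat_lit 74) (nat_lit 5)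 (nat_lit 77) (nat_lit 5) (nat_lit 78) (nat_lit 5) (nat_lit 481) (nat_lit 349) (nat_lit 310))) (XT.nd (nat_lit 78) (nat_lit 228) (nat_lit 0) (XT.lf (nat_lit 0) (nat_lit 1702138186) (nat_lit 304) (nat_lit 7116710794) (nat_lit 76) (nat_lit 3548274035) (nat_lit 70) (nat_lit 5) (nat_lit 74) (nat_lit 5) (nat_lit 71) (nat_lit 5) (nat_lit 482) (nat_lit 349) (nat_lit 309)) (XT.nd (nat_lit 78) (nat_lit 0) (nat_lit 0) (XT.lf (nat_lit 0) (nat_lit 1524182693) (nat_lit 228) (nat_lit 4525359579) (nat_lit 304) (nat_lit 6461777585) (nat_lit 67) (nat_lit 5) (nat_lit 70) (nat_lit 5) (nat_lit 71) (nat_lit 5) (nat_lit 483) (nat_lit 349) (nat_lit 308)) (XT.lf (nat_lit 0) (nat_lit 10352141166) (nat_lit 228) (nat_lit 131418709) (nat_lit 304) (nat_lit 2174852756) (nat_lit 67) (nat_lit 5) (nat_lit 70) (nat_lit 5) (nat_lit 71) (nat_lit 5) (nat_lit 484) (nat_lit 349) (nat_lit 307))))) (XT.nd (nat_lit 234) (nat_lit 456) (nat_lit 0) (XT.nd (nat_lit 78) (nat_lit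 228) (nat_lit 0) (XT.lf (nat_lit 0) (nat_lit 2192374002) (nat_lit 304) (nat_lit 6298219887) (nat_lit 76) (nat_lit 4317105315) (nat_lit 63) (nat_lit 5) (nat_lit 67) (nat_lit 5) (nat_lit 64) (nat_lit 5) (nat_lit 485) (nat_lit 349) (nat_lit 306)) (XT.nd (nat_lit 78) (nat_lit 0) (nat_lit 0) (XT.lf (nat_lit 0) (nat_lit 2509239910) (nat_lit 228) (nat_lit 4094074427) (nat_lit 304) (nat_lit 6356664848) (nat_lit 60) (nat_lit 5) (nat_lit 63) (nat_lit 5) (nat_lit 64) (nat_lit 5) (nat_lit 486) (nat_lit 349) (nat_lit 305)) (XT.lf (nat_lit 0) (nat_lit 11100455474) (nat_lit 304) (nat_lit 1620675393) (nat_lit 76) (nat_lit 394219161) (nat_lit 60) (nat_lit 5) (nat_lit 64) (nat_lit 5) (nat_lit 61) (nat_lit 4) (nat_lit 487) (nat_lit 349) (nat_lit 304)))) (XT.nd (nat_lit 78) (nat_lit 228) (nat_lit 0) (XT.lf (nat_lit 0) (nat_lit 2411067938) (nat_lit 228) (nat_lit 5913533924) (nat_lit 76) (nat_lit 4948337446) (nat_lit 57) (nat_lit 5) (nat_lit 60)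 (nat_lit 5) (nat_lit 58) (nat_lit 5) (nat_lit 488) (nat_lit 349) (nat_lit 303)) (XT.nd (nat_lit 78) (nat_lit 0) (nat_lit 0) (XT.lf (nat_lit 0) (nat_lit 3054118636) (nat_lit 228) (nat_lit 3829161773) (nat_lit 304) (nat_lit 6550444012) (nat_lit 54) (nat_lit 5) (nat_lit 57) (nat_lit 5) (nat_lit 58) (nat_lit 5) (nat_lit 489) (nat_lit 349) (nat_lit 302)) (XT.lf (nat_lit 0) (nat_lit 11443867539) (nat_lit 304) (nat_lit 1401106439) (nat_lit 76) (nat_lit 752777176) (nat_lit 54) (nat_lit 5) (nat_lit 58) (nat_lit 5) (nat_lit 55) (nat_lit 4) (nat_lit 490) (nat_lit 349) (nat_lit 301)))))) (XT.nd (nat_lit 390) (nat_lit 608) (nat_lit 0) (XT.nd (nat_lit 156) (nat_lit 456) (nat_lit 0) (XT.nd (nat_lit 78) (nat_lit 228) (nat_lit 0) (XT.lf (nat_lit 0) (nat_lit 2330922627) (nat_lit 228) (nat_lit 6025189030) (nat_lit 76) (nat_lit 5408030861) (nat_lit 51) (nat_lit 5) (nat_lit 54) (nat_lit 5) (nat_lit 52) (nat_lit 5) (nat_lit 491) (nat_lit 349) (nat_lit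 300)) (XT.lf (nat_lit 0) (nat_lit 3094597432) (nat_lit 228) (nat_lit 3766621293) (nat_lit 304) (nat_lit 7072669823) (nat_lit 48) (nat_lit 5) (nat_lit 51) (nat_lit 5) (nat_lit 52) (nat_lit 5) (nat_lit 492) (nat_lit 349) (nat_lit 299))) (XT.nd (nat_lit 78) (nat_lit 456) (nat_lit 0) (XT.lf (nat_lit 0) (nat_lit 11483964258) (nat_lit 304) (nat_lit 1712928737) (nat_lit 76) (nat_lit 910103817) (nat_lit 48) (nat_lit 5) (nat_lit 52) (nat_lit 5) (nat_lit 49) (nat_lit 4) (nat_lit 493) (nat_lit 349) (nat_lit 298)) (XT.nd (nat_lit 78) (nat_lit 228) (nat_lit 0) (XT.lf (nat_lit 0) (nat_lit 1920998755) (nat_lit 228) (nat_lit 6702406490) (nat_lit 76) (nat_lit 5659306775) (nat_lit 45) (nat_lit 5) (nat_lit 48) (nat_lit 5) (nat_lit 46) (nat_lit 5) (nat_lit 494) (nat_lit 349) (nat_lit 297)) (XT.lf (nat_lit 0) (nat_lit 2559550337) (nat_lit 228) (nat_lit 3945612612) (nat_lit 304) (nat_lit 7956748267) (nat_lit 42) (nat_lit 5) (nat_lit 45) (nat_lit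 5) (nat_lit 46) (nat_lit 5) (nat_lit 495) (nat_lit 349) (nat_lit 296))))) (XT.nd (nat_lit 234) (nat_lit 228) (nat_lit 0) (XT.nd (nat_lit 78) (nat_lit 380) (nat_lit 0) (XT.lf (nat_lit 0) (nat_lit 11187941512) (nat_lit 304) (nat_lit 2629484666) (nat_lit 76) (nat_lit 827133461) (nat_lit 42) (nat_lit 5) (nat_lit 46) (nat_lit 5) (nat_lit 43) (nat_lit 4) (nat_lit 496) (nat_lit 349) (nat_lit 295)) (XT.nd (nat_lit 78) (nat_lit 152) (nat_lit 0) (XT.lf (nat_lit 0) (nat_lit 1146363174) (nat_lit 228) (nat_lit 8021851395) (nat_lit 76) (nat_lit 5661948689) (nat_lit 39) (nat_lit 5) (nat_lit 42) (nat_lit 5) (nat_lit 40) (nat_lit 5) (nat_lit 497) (nat_lit 349) (nat_lit 294)) (XT.lf (nat_lit 0) (nat_lit 1370163963) (nat_lit 152) (nat_lit 4408873811) (nat_lit 228) (nat_lit 9240309496) (nat_lit 37) (nat_lit 5) (nat_lit 39) (nat_lit 5) (nat_lit 40) (nat_lit 5) (nat_lit 498) (nat_lit 349) (nat_lit 293)))) (XT.nd (nat_lit 78) (nat_lit 228) (nat_lit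 0) (XT.lf (nat_lit 0) (nat_lit 10518794827) (nat_lit 228) (nat_lit 4232044919) (nat_lit 76) (nat_lit 461190206) (nat_lit 37) (nat_lit 5) (nat_lit 40) (nat_lit 5) (nat_lit 38) (nat_lit 4) (nat_lit 499) (nat_lit 349) (nat_lit 292)) (XT.nd (nat_lit 78) (nat_lit 76) (nat_lit 0) (XT.lf (nat_lit 0) (nat_lit 5339448045) (nat_lit 152) (nat_lit 10035948504) (nat_lit 228) (nat_lit 32732249) (nat_lit 35) (nat_lit 5) (nat_lit 37) (nat_lit 5) (nat_lit 38) (nat_lit 4) (nat_lit 500) (nat_lit 349) (nat_lit 291)) (XT.lf (nat_lit 0) (nat_lit 4645895211) (nat_lit 228) (nat_lit 553568326) (nat_lit 76) (nat_lit 10408339794) (nat_lit 34) (nat_lit 5) (nat_lit 37) (nat_lit 5) (nat_lit 35) (nat_lit 5) (nat_lit 501) (nat_lit 349) (nat_lit 290))))))) (XT.nd (nat_lit 54912) (nat_lit 0) (nat_lit 10564) (XT.nd (nat_lit 390) (nat_lit 228) (nat_lit 0) (XT.nd (nat_lit 156) (nat_lit 228) (nat_lit 0) (XT.nd (nat_lit 78) (nat_lit 152) (nat_lit 0) (XT.lf (nat_lit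 0) (nat_lit 9198858349) (nat_lit 152) (nat_lit 237586551) (nat_lit 228) (nat_lit 6374649665) (nat_lit 32) (nat_lit 5) (nat_lit 34) (nat_lit 5) (nat_lit 35) (nat_lit 5) (nat_lit 502) (nat_lit 349) (nat_lit 289)) (XT.lf (nat_lit 0) (nat_lit 3070854214) (nat_lit 152) (nat_lit 11266128031) (nat_lit 228) (nat_lit 1681189080) (nat_lit 30) (nat_lit 5) (nat_lit 32) (nat_lit 5) (nat_lit 33) (nat_lit 4) (nat_lit 503) (nat_lit 349) (nat_lit 288))) (XT.nd (nat_lit 78) (nat_lit 152) (nat_lit 0) (XT.lf (nat_lit 0) (nat_lit 3070878490) (nat_lit 228) (nat_lit 3286898998) (nat_lit 76) (nat_lit 9871102389) (nat_lit 29) (nat_lit 5) (nat_lit 32) (nat_lit 5) (nat_lit 30) (nat_lit 5) (nat_lit 504) (nat_lit 349) (nat_lit 287)) (XT.nd (nat_lit 78) (nat_lit 0) (nat_lit 0) (XT.lf (nat_lit 0) (nat_lit 6569598903) (nat_lit 152) (nat_lit 1328588417) (nat_lit 228) (nat_lit 8545341854) (nat_lit 27) (nat_lit 5) (nat_lit 29) (nat_lit 5) (nat_lit 30) (nat_lit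 5) (nat_lit 505) (nat_lit 349) (nat_lit 286)) (XT.lf (nat_lit 0) (nat_lit 12829071037) (nat_lit 228) (nat_lit 91344198) (nat_lit 76) (nat_lit 3741918636) (nat_lit 27) (nat_lit 5) (nat_lit 30) (nat_lit 5) (nat_lit 28) (nat_lit 4) (nat_lit 506) (nat_lit 349) (nat_lit 285))))) (XT.nd (nat_lit 54288) (nat_lit 0) (nat_lit 15276) (XT.nd (nat_lit 54132) (nat_lit 0) (nat_lit 16416) (XT.lf (nat_lit 0) (nat_lit 994767238) (nat_lit 228) (nat_lit 6953801564) (nat_lit 76) (nat_lit 8936132948) (nat_lit 24) (nat_lit 5) (nat_lit 27) (nat_lit 5) (nat_lit 25) (nat_lit 5) (nat_lit 507) (nat_lit 349) (nat_lit 284)) (XT.nd (nat_lit 78) (nat_lit 608) (nat_lit 0) (XT.lf (nat_lit 0) (nat_lit 451188533) (nat_lit 684) (nat_lit 3216662322) (nat_lit 0) (nat_lit 451188533) (nat_lit 248) (nat_lit 5) (nat_lit 257) (nat_lit 4) (nat_lit 248) (nat_lit 4) (nat_lit 440) (nat_lit 350) (nat_lit 350)) (XT.lf (nat_lit 0) (nat_lit 160924831) (nat_lit 608) (nat_lit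 4640674140) (nat_lit 608) (nat_lit 3499044581) (nat_lit 240) (nat_lit 4) (nat_lit 248) (nat_lit 5) (nat_lit 248) (nat_lit 4) (nat_lit 441) (nat_lit 350) (nat_lit 349)))) (XT.nd (nat_lit 78) (nat_lit 1064) (nat_lit 0) (XT.lf (nat_lit 0) (nat_lit 385611231) (nat_lit 684) (nat_lit 1481939537) (nat_lit 76) (nat_lit 6497337458) (nat_lit 239) (nat_lit 5) (nat_lit 248) (nat_lit 5) (nat_lit 240) (nat_lit 4) (nat_lit 442) (nat_lit 350) (nat_lit 348)) (XT.nd (nat_lit 78) (nat_lit 532) (nat_lit 0) (XT.lf (nat_lit 0) (nat_lit 4276374606) (nat_lit 608) (nat_lit 3170043144) (nat_lit 0) (nat_lit 984048217) (nat_lit 232) (nat_lit 5) (nat_lit 240) (nat_lit 4) (nat_lit 232) (nat_lit 4) (nat_lit 443) (nat_lit 350) (nat_lit 347)) (XT.lf (nat_lit 0) (nat_lit 3606976324) (nat_lit 532) (nat_lit 4618895979) (nat_lit 532) (nat_lit 271880343) (nat_lit 225) (nat_lit 4) (nat_lit 232) (nat_lit 5) (nat_lit 232) (nat_lit 4) (nat_lit 444) (nat_lit 350) (nat_lit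 346)))))) (XT.nd (nat_lit 468) (nat_lit 1976) (nat_lit 0) (XT.nd (nat_lit 234) (nat_lit 1520) (nat_lit 0) (XT.nd (nat_lit 78) (nat_lit 608) (nat_lit 0) (XT.lf (nat_lit 0) (nat_lit 1908743078) (nat_lit 532) (nat_lit 1700052851) (nat_lit 608) (nat_lit 4957741598) (nat_lit 217) (nat_lit 5) (nat_lit 224) (nat_lit 5) (nat_lit 225) (nat_lit 4) (nat_lit 445) (nat_lit 350) (nat_lit 345)) (XT.nd (nat_lit 78) (nat_lit 76) (nat_lit 0) (XT.lf (nat_lit 0) (nat_lit 177216947) (nat_lit 532) (nat_lit 7364631824) (nat_lit 532) (nat_lit 1095260179) (nat_lit 210) (nat_lit 4) (nat_lit 217) (nat_lit 5) (nat_lit 217) (nat_lit 4) (nat_lit 446) (nat_lit 350) (nat_lit 344)) (XT.lf (nat_lit 0) (nat_lit 2799563411) (nat_lit 608) (nat_lit 1588623390) (nat_lit 76) (nat_lit 4320701948) (nat_lit 209) (nat_lit 5) (nat_lit 217) (nat_lit 5) (nat_lit 210) (nat_lit 4) (nat_lit 447) (nat_lit 350) (nat_lit 343)))) (XT.nd (nat_lit 78) (nat_lit 1064) (nat_lit 0) (XT.lf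 (nat_lit 0) (nat_lit 5395760877) (nat_lit 456) (nat_lit 1334321748) (nat_lit 532) (nat_lit 2052441431) (nat_lit 203) (nat_lit 5) (nat_lit 209) (nat_lit 5) (nat_lit 210) (nat_lit 4) (nat_lit 448) (nat_lit 350) (nat_lit 342)) (XT.nd (nat_lit 78) (nat_lit 456) (nat_lit 0) (XT.lf (nat_lit 0) (nat_lit 1840567219) (nat_lit 608) (nat_lit 5238465879) (nat_lit 76) (nat_lit 1778694811) (nat_lit 195) (nat_lit 5) (nat_lit 203) (nat_lit 5) (nat_lit 196) (nat_lit 4) (nat_lit 449) (nat_lit 350) (nat_lit 341)) (XT.lf (nat_lit 0) (nat_lit 1789640176) (nat_lit 456) (nat_lit 3975814751) (nat_lit 532) (nat_lit 3169092748) (nat_lit 189) (nat_lit 5) (nat_lit 195) (nat_lit 5) (nat_lit 196) (nat_lit 4) (nat_lit 450) (nat_lit 350) (nat_lit 340))))) (XT.nd (nat_lit 234) (nat_lit 988) (nat_lit 0) (XT.nd (nat_lit 78) (nat_lit 912) (nat_lit 0) (XT.lf (nat_lit 0) (nat_lit 719773141) (nat_lit 532) (nat_lit 76860234) (nat_lit 76) (nat_lit 8216709965) (nat_lit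 188) (nat_lit 5) (nat_lit 195) (nat_lit 5) (nat_lit 189) (nat_lit 5) (nat_lit 451) (nat_lit 350) (nat_lit 339)) (XT.nd (nat_lit 78) (nat_lit 456) (nat_lit 0) (XT.lf (nat_lit 0) (nat_lit 4645962959) (nat_lit 532) (nat_lit 1991927457) (nat_lit 76) (nat_lit 2455378361) (nat_lit 182) (nat_lit 5) (nat_lit 189) (nat_lit 5) (nat_lit 183) (nat_lit 4) (nat_lit 452) (nat_lit 350) (nat_lit 338)) (XT.lf (nat_lit 0) (nat_lit 5225059147) (nat_lit 456) (nat_lit 3405360187) (nat_lit 532) (nat_lit 544790722) (nat_lit 176) (nat_lit 5) (nat_lit 182) (nat_lit 5) (nat_lit 183) (nat_lit 4) (nat_lit 453) (nat_lit 350) (nat_lit 337)))) (XT.nd (nat_lit 78) (nat_lit 456) (nat_lit 0) (XT.lf (nat_lit 0) (nat_lit 3287802356) (nat_lit 456) (nat_lit 77943163) (nat_lit 532) (nat_lit 5893109577) (nat_lit 169) (nat_lit 5) (nat_lit 175) (nat_lit 5) (nat_lit 176) (nat_lit 5) (nat_lit 454) (nat_lit 350) (nat_lit 336)) (XT.nd (nat_lit 78) (nat_lit 76) (nat_lit 0)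 (XT.lf (nat_lit 0) (nat_lit 1283719264) (nat_lit 380) (nat_lit 6060686331) (nat_lit 456) (nat_lit 1999762746) (nat_lit 164) (nat_lit 5) (nat_lit 169) (nat_lit 5) (nat_lit 170) (nat_lit 4) (nat_lit 455) (nat_lit 350) (nat_lit 335)) (XT.lf (nat_lit 0) (nat_lit 1927293299) (nat_lit 456) (nat_lit 767879651) (nat_lit 76) (nat_lit 6736135975) (nat_lit 163) (nat_lit 5) (nat_lit 169) (nat_lit 5) (nat_lit 164) (nat_lit 5) (nat_lit 456) (nat_lit 350) (nat_lit 334))))))))
noncomputable def xc26 : XT := (XT.nd (nat_lit 1716) (nat_lit 3572) (nat_lit 0) (XT.nd (nat_lit 858) (nat_lit 2584) (nat_lit 0) (XT.nd (nat_lit 390) (nat_lit 1900) (nat_lit 0) (XT.nd (nat_lit 156) (nat_lit 836) (nat_lit 0) (XT.nd (nat_lit 78) (nat_lit 456) (nat_lit 0) (XT.lf (nat_lit 0) (nat_lit 5896350770) (nat_lit 532) (nat_lit 2867296522) (nat_lit 76) (nat_lit 756486740) (nat_lit 157) (nat_lit 5) (nat_lit 164) (nat_lit 5) (nat_lit 158) (nat_lit 4) (nat_lit 457) (nat_lit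 350) (nat_lit 333)) (XT.lf (nat_lit 0) (nat_lit 324780350) (nat_lit 456) (nat_lit 5036197872) (nat_lit 76) (nat_lit 4249822287) (nat_lit 151) (nat_lit 5) (nat_lit 157) (nat_lit 5) (nat_lit 152) (nat_lit 5) (nat_lit 458) (nat_lit 350) (nat_lit 332))) (XT.nd (nat_lit 78) (nat_lit 456) (nat_lit 0) (XT.lf (nat_lit 0) (nat_lit 2421639735) (nat_lit 380) (nat_lit 1859868448) (nat_lit 456) (nat_lit 5421748956) (nat_lit 146) (nat_lit 5) (nat_lit 151) (nat_lit 5) (nat_lit 152) (nat_lit 5) (nat_lit 459) (nat_lit 350) (nat_lit 331)) (XT.nd (nat_lit 78) (nat_lit 76) (nat_lit 0) (XT.lf (nat_lit 0) (nat_lit 203666143) (nat_lit 380) (nat_lit 8103104276) (nat_lit 456) (nat_lit 1491014485) (nat_lit 141) (nat_lit 5) (nat_lit 146) (nat_lit 5) (nat_lit 147) (nat_lit 4) (nat_lit 460) (nat_lit 350) (nat_lit 330)) (XT.lf (nat_lit 0) (nat_lit 2489927132) (nat_lit 456) (nat_lit 2072730939) (nat_lit 76) (nat_lit 5331135331) (nat_lit 140) (nat_lit 5) (nat_lit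 146) (nat_lit 5) (nat_lit 141) (nat_lit 5) (nat_lit 461) (nat_lit 350) (nat_lit 329))))) (XT.nd (nat_lit 234) (nat_lit 760) (nat_lit 0) (XT.nd (nat_lit 78) (nat_lit 760) (nat_lit 0) (XT.lf (nat_lit 0) (nat_lit 5576192869) (nat_lit 380) (nat_lit 934785167) (nat_lit 456) (nat_lit 3480947240) (nat_lit 135) (nat_lit 5) (nat_lit 140) (nat_lit 5) (nat_lit 141) (nat_lit 5) (nat_lit 462) (nat_lit 350) (nat_lit 328)) (XT.nd (nat_lit 78) (nat_lit 380) (nat_lit 0) (XT.lf (nat_lit 0) (nat_lit 511228230) (nat_lit 380) (nat_lit 6842880317) (nat_lit 76) (nat_lit 2737900244) (nat_lit 130) (nat_lit 5) (nat_lit 135) (nat_lit 5) (nat_lit 131) (nat_lit 5) (nat_lit 463) (nat_lit 350) (nat_lit 327)) (XT.lf (nat_lit 0) (nat_lit 828392087) (nat_lit 380) (nat_lit 3694415300) (nat_lit 456) (nat_lit 5671111884) (nat_lit 125) (nat_lit 5) (nat_lit 130) (nat_lit 5) (nat_lit 131) (nat_lit 5) (nat_lit 464) (nat_lit 350) (nat_lit 326)))) (XT.nd (nat_lit 78)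 (nat_lit 760) (nat_lit 0) (XT.lf (nat_lit 0) (nat_lit 8606141702) (nat_lit 456) (nat_lit 1638660848) (nat_lit 76) (nat_lit 53243643) (nat_lit 125) (nat_lit 5) (nat_lit 131) (nat_lit 5) (nat_lit 126) (nat_lit 4) (nat_lit 465) (nat_lit 350) (nat_lit 325)) (XT.nd (nat_lit 78) (nat_lit 380) (nat_lit 0) (XT.lf (nat_lit 0) (nat_lit 2346851615) (nat_lit 380) (nat_lit 4205003011) (nat_lit 76) (nat_lit 3851881909) (nat_lit 120) (nat_lit 5) (nat_lit 125) (nat_lit 5) (nat_lit 121) (nat_lit 5) (nat_lit 466) (nat_lit 350) (nat_lit 324)) (XT.lf (nat_lit 0) (nat_lit 3654966108) (nat_lit 380) (nat_lit 2769855153) (nat_lit 456) (nat_lit 4086882096) (nat_lit 115) (nat_lit 5) (nat_lit 120) (nat_lit 5) (nat_lit 121) (nat_lit 5) (nat_lit 467) (nat_lit 350) (nat_lit 323)))))) (XT.nd (nat_lit 390) (nat_lit 1216) (nat_lit 0) (XT.nd (nat_lit 156) (nat_lit 988) (nat_lit 0) (XT.nd (nat_lit 78) (nat_lit 76) (nat_lit 0) (XT.lf (nat_lit 0) (nat_lit 1028342654)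 (nat_lit 304) (nat_lit 9544720521) (nat_lit 380) (nat_lit 49000123) (nat_lit 111) (nat_lit 5) (nat_lit 115) (nat_lit 5) (nat_lit 116) (nat_lit 4) (nat_lit 468) (nat_lit 350) (nat_lit 322)) (XT.lf (nat_lit 0) (nat_lit 4027630938) (nat_lit 380) (nat_lit 1700627965) (nat_lit 76) (nat_lit 5005623497) (nat_lit 110) (nat_lit 5) (nat_lit 115) (nat_lit 5) (nat_lit 111) (nat_lit 5) (nat_lit 469) (nat_lit 350) (nat_lit 321))) (XT.nd (nat_lit 78) (nat_lit 684) (nat_lit 0) (XT.lf (nat_lit 0) (nat_lit 6349039605) (nat_lit 304) (nat_lit 1825071752) (nat_lit 380) (nat_lit 2674048169) (nat_lit 106) (nat_lit 5) (nat_lit 110) (nat_lit 5) (nat_lit 111) (nat_lit 5) (nat_lit 470) (nat_lit 350) (nat_lit 320)) (XT.nd (nat_lit 78) (nat_lit 304) (nat_lit 0) (XT.lf (nat_lit 0) (nat_lit 1416566548) (nat_lit 380) (nat_lit 7407669846) (nat_lit 76) (nat_lit 2140373502) (nat_lit 101) (nat_lit 5) (nat_lit 106) (nat_lit 5) (nat_lit 102) (nat_lit 5) (nat_lit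 471) (nat_lit 350) (nat_lit 319)) (XT.lf (nat_lit 0) (nat_lit 646148517) (nat_lit 304) (nat_lit 4901896089) (nat_lit 380) (nat_lit 5535101166) (nat_lit 97) (nat_lit 5) (nat_lit 101) (nat_lit 5) (nat_lit 102) (nat_lit 5) (nat_lit 472) (nat_lit 350) (nat_lit 318))))) (XT.nd (nat_lit 234) (nat_lit 608) (nat_lit 0) (XT.nd (nat_lit 78) (nat_lit 608) (nat_lit 0) (XT.lf (nat_lit 0) (nat_lit 8877360160) (nat_lit 304) (nat_lit 883121974) (nat_lit 380) (nat_lit 1443610634) (nat_lit 97) (nat_lit 5) (nat_lit 101) (nat_lit 5) (nat_lit 102) (nat_lit 5) (nat_lit 473) (nat_lit 350) (nat_lit 317)) (XT.nd (nat_lit 78) (nat_lit 304) (nat_lit 0) (XT.lf (nat_lit 0) (nat_lit 2702692048) (nat_lit 304) (nat_lit 5425836324) (nat_lit 76) (nat_lit 3198406938) (nat_lit 93) (nat_lit 5) (nat_lit 97) (nat_lit 5) (nat_lit 94) (nat_lit 5) (nat_lit 474) (nat_lit 350) (nat_lit 316)) (XT.lf (nat_lit 0) (nat_lit 2811077181) (nat_lit 304) (nat_lit 4090884524) (nat_lit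 380) (nat_lit 4550301332) (nat_lit 89) (nat_lit 5) (nat_lit 93) (nat_lit 5) (nat_lit 94) (nat_lit 5) (nat_lit 475) (nat_lit 350) (nat_lit 315)))) (XT.nd (nat_lit 78) (nat_lit 608) (nat_lit 0) (XT.lf (nat_lit 0) (nat_lit 11171821232) (nat_lit 380) (nat_lit 377138949) (nat_lit 76) (nat_lit 31411514) (nat_lit 89) (nat_lit 5) (nat_lit 94) (nat_lit 5) (nat_lit 90) (nat_lit 4) (nat_lit 476) (nat_lit 350) (nat_lit 314)) (XT.nd (nat_lit 78) (nat_lit 304) (nat_lit 0) (XT.lf (nat_lit 0) (nat_lit 3796289135) (nat_lit 304) (nat_lit 3686753515) (nat_lit 76) (nat_lit 4226904533) (nat_lit 85) (nat_lit 5) (nat_lit 89) (nat_lit 5) (nat_lit 86) (nat_lit 5) (nat_lit 477) (nat_lit 350) (nat_lit 313)) (XT.lf (nat_lit 0) (nat_lit 4731810166) (nat_lit 304) (nat_lit 3332086259) (nat_lit 380) (nat_lit 3778487013) (nat_lit 81) (nat_lit 5) (nat_lit 85) (nat_lit 5) (nat_lit 86) (nat_lit 5) (nat_lit 478) (nat_lit 350) (nat_lit 312))))))) (XT.nd (nat_lit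 858) (nat_lit 1748) (nat_lit 0) (XT.nd (nat_lit 390) (nat_lit 988) (nat_lit 0) (XT.nd (nat_lit 156) (nat_lit 532) (nat_lit 0) (XT.nd (nat_lit 78) (nat_lit 0) (nat_lit 0) (XT.lf (nat_lit 0) (nat_lit 423977059) (nat_lit 304) (nat_lit 10659740917) (nat_lit 76) (nat_lit 893892196) (nat_lit 77) (nat_lit 5) (nat_lit 81) (nat_lit 5) (nat_lit 78) (nat_lit 5) (nat_lit 479) (nat_lit 350) (nat_lit 311)) (XT.lf (nat_lit 0) (nat_lit 4681230478) (nat_lit 304) (nat_lit 2233173400) (nat_lit 76) (nat_lit 5200217110) (nat_lit 77) (nat_lit 5) (nat_lit 81) (nat_lit 5) (nat_lit 78) (nat_lit 5) (nat_lit 480) (nat_lit 350) (nat_lit 310))) (XT.nd (nat_lit 78) (nat_lit 304) (nat_lit 0) (XT.lf (nat_lit 0) (nat_lit 6364567809) (nat_lit 228) (nat_lit 2652529474) (nat_lit 304) (nat_lit 3237411000) (nat_lit 74) (nat_lit 5) (nat_lit 77) (nat_lit 5) (nat_lit 78) (nat_lit 5) (nat_lit 481) (nat_lit 350) (nat_lit 309)) (XT.nd (nat_lit 78) (nat_lit 0) (nat_lit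 0) (XT.lf (nat_lit 0) (nat_lit 1024822287) (nat_lit 304) (nat_lit 9692963698) (nat_lit 76) (nat_lit 1679357248) (nat_lit 70) (nat_lit 5) (nat_lit 74) (nat_lit 5) (nat_lit 71) (nat_lit 5) (nat_lit 482) (nat_lit 350) (nat_lit 308)) (XT.lf (nat_lit 0) (nat_lit 5338787001) (nat_lit 304) (nat_lit 1112230149) (nat_lit 76) (nat_lit 6090994337) (nat_lit 70) (nat_lit 5) (nat_lit 74) (nat_lit 5) (nat_lit 71) (nat_lit 5) (nat_lit 483) (nat_lit 350) (nat_lit 307))))) (XT.nd (nat_lit 234) (nat_lit 456) (nat_lit 0) (XT.nd (nat_lit 78) (nat_lit 304) (nat_lit 0) (XT.lf (nat_lit 0) (nat_lit 7661041636) (nat_lit 228) (nat_lit 2081104837) (nat_lit 304) (nat_lit 2947573526) (nat_lit 67) (nat_lit 5) (nat_lit 70) (nat_lit 5) (nat_lit 71) (nat_lit 5) (nat_lit 484) (nat_lit 350) (nat_lit 306)) (XT.nd (nat_lit 78) (nat_lit 0) (nat_lit 0) (XT.lf (nat_lit 0) (nat_lit 1375694980) (nat_lit 304) (nat_lit 9110993603) (nat_lit 76) (nat_lit 2353502656) (nat_lit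 63) (nat_lit 5) (nat_lit 67) (nat_lit 5) (nat_lit 64) (nat_lit 5) (nat_lit 485) (nat_lit 350) (nat_lit 305)) (XT.lf (nat_lit 0) (nat_lit 5747397801) (nat_lit 304) (nat_lit 375968593) (nat_lit 76) (nat_lit 6869892004) (nat_lit 63) (nat_lit 5) (nat_lit 67) (nat_lit 5) (nat_lit 64) (nat_lit 5) (nat_lit 486) (nat_lit 350) (nat_lit 304)))) (XT.nd (nat_lit 78) (nat_lit 228) (nat_lit 0) (XT.lf (nat_lit 0) (nat_lit 8567849507) (nat_lit 228) (nat_lit 1648871520) (nat_lit 304) (nat_lit 2932466950) (nat_lit 60) (nat_lit 5) (nat_lit 63) (nat_lit 5) (nat_lit 64) (nat_lit 5) (nat_lit 487) (nat_lit 350) (nat_lit 303)) (XT.nd (nat_lit 78) (nat_lit 0) (nat_lit 0) (XT.lf (nat_lit 0) (nat_lit 1452399227) (nat_lit 228) (nat_lit 8970638799) (nat_lit 76) (nat_lit 2884923277) (nat_lit 57) (nat_lit 5) (nat_lit 60) (nat_lit 5) (nat_lit 58) (nat_lit 5) (nat_lit 488) (nat_lit 350) (nat_lit 302)) (XT.lf (nat_lit 0) (nat_lit 5882411907) (nat_lit 228) (nat_lit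 81924575) (nat_lit 76) (nat_lit 7505256170) (nat_lit 57) (nat_lit 5) (nat_lit 60) (nat_lit 5) (nat_lit 58) (nat_lit 5) (nat_lit 489) (nat_lit 350) (nat_lit 301)))))) (XT.nd (nat_lit 468) (nat_lit 836) (nat_lit 0) (XT.nd (nat_lit 234) (nat_lit 456) (nat_lit 0) (XT.nd (nat_lit 78) (nat_lit 228) (nat_lit 0) (XT.lf (nat_lit 0) (nat_lit 9025937088) (nat_lit 228) (nat_lit 1389387907) (nat_lit 304) (nat_lit 3218850070) (nat_lit 54) (nat_lit 5) (nat_lit 57) (nat_lit 5) (nat_lit 58) (nat_lit 5) (nat_lit 490) (nat_lit 350) (nat_lit 300)) (XT.nd (nat_lit 78) (nat_lit 0) (nat_lit 0) (XT.lf (nat_lit 0) (nat_lit 1227411144) (nat_lit 228) (nat_lit 9334720297) (nat_lit 76) (nat_lit 3239625634) (nat_lit 51) (nat_lit 5) (nat_lit 54) (nat_lit 5) (nat_lit 52) (nat_lit 5) (nat_lit 491) (nat_lit 350) (nat_lit 299)) (XT.lf (nat_lit 0) (nat_lit 5715799235) (nat_lit 228) (nat_lit 293762945) (nat_lit 76) (nat_lit 7962781157) (nat_lit 51) (nat_lit 5)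 (nat_lit 54) (nat_lit 5) (nat_lit 52) (nat_lit 5) (nat_lit 492) (nat_lit 350) (nat_lit 298)))) (XT.nd (nat_lit 78) (nat_lit 228) (nat_lit 0) (XT.lf (nat_lit 0) (nat_lit 8969919708) (nat_lit 228) (nat_lit 1339070150) (nat_lit 304) (nat_lit 3837054869) (nat_lit 48) (nat_lit 5) (nat_lit 51) (nat_lit 5) (nat_lit 52) (nat_lit 5) (nat_lit 493) (nat_lit 350) (nat_lit 297)) (XT.nd (nat_lit 78) (nat_lit 0) (nat_lit 0) (XT.lf (nat_lit 0) (nat_lit 669562798) (nat_lit 228) (nat_lit 10272761323) (nat_lit 76) (nat_lit 3380662125) (nat_lit 45) (nat_lit 5) (nat_lit 48) (nat_lit 5) (nat_lit 46) (nat_lit 5) (nat_lit 494) (nat_lit 350) (nat_lit 296)) (XT.lf (nat_lit 0) (nat_lit 5215827756) (nat_lit 228) (nat_lit 1081979492) (nat_lit 76) (nat_lit 8205138093) (nat_lit 45) (nat_lit 5) (nat_lit 48) (nat_lit 5) (nat_lit 46) (nat_lit 5) (nat_lit 495) (nat_lit 350) (nat_lit 295))))) (XT.nd (nat_lit 234) (nat_lit 380) (nat_lit 0) (XT.nd (nat_lit 78) (nat_lit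 228) (nat_lit 0) (XT.lf (nat_lit 0) (nat_lit 8327358082) (nat_lit 228) (nat_lit 1537582062) (nat_lit 304) (nat_lit 4821328819) (nat_lit 42) (nat_lit 5) (nat_lit 45) (nat_lit 5) (nat_lit 46) (nat_lit 5) (nat_lit 496) (nat_lit 350) (nat_lit 294)) (XT.nd (nat_lit 78) (nat_lit 76) (nat_lit 0) (XT.lf (nat_lit 0) (nat_lit 3009702680) (nat_lit 152) (nat_lit 11603715920) (nat_lit 228) (nat_lit 259716494) (nat_lit 40) (nat_lit 5) (nat_lit 42) (nat_lit 5) (nat_lit 43) (nat_lit 4) (nat_lit 497) (nat_lit 350) (nat_lit 293)) (XT.lf (nat_lit 0) (nat_lit 4346703628) (nat_lit 228) (nat_lit 2524673792) (nat_lit 76) (nat_lit 8191570394) (nat_lit 39) (nat_lit 5) (nat_lit 42) (nat_lit 5) (nat_lit 40) (nat_lit 5) (nat_lit 498) (nat_lit 350) (nat_lit 292)))) (XT.nd (nat_lit 78) (nat_lit 228) (nat_lit 0) (XT.lf (nat_lit 0) (nat_lit 7017960724) (nat_lit 152) (nat_lit 2028260099) (nat_lit 228) (nat_lit 6210216204) (nat_lit 37) (nat_lit 5) (nat_lit 39)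 (nat_lit 5) (nat_lit 40) (nat_lit 5) (nat_lit 499) (nat_lit 350) (nat_lit 291)) (XT.nd (nat_lit 78) (nat_lit 76) (nat_lit 0) (XT.lf (nat_lit 0) (nat_lit 1256322091) (nat_lit 152) (nat_lit 12586526414) (nat_lit 228) (nat_lit 1610888548) (nat_lit 35) (nat_lit 5) (nat_lit 37) (nat_lit 5) (nat_lit 38) (nat_lit 4) (nat_lit 500) (nat_lit 350) (nat_lit 290)) (XT.lf (nat_lit 0) (nat_lit 3068170610) (nat_lit 228) (nat_lit 4708400607) (nat_lit 76) (nat_lit 7877452251) (nat_lit 34) (nat_lit 5) (nat_lit 37) (nat_lit 5) (nat_lit 35) (nat_lit 5) (nat_lit 501) (nat_lit 350) (nat_lit 289))))))))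
noncomputable def xc27 : XT := (XT.nd (nat_lit 55614) (nat_lit 0) (nat_lit 4864) (XT.nd (nat_lit 54756) (nat_lit 0) (nat_lit 11400) (XT.nd (nat_lit 390) (nat_lit 152) (nat_lit 0) (XT.nd (nat_lit 156) (nat_lit 380) (nat_lit 0) (XT.nd (nat_lit 78) (nat_lit 0) (nat_lit 0) (XT.lf (nat_lit 0) (nat_lit 4952705133) (nat_lit 152) (nat_lit 2858577591) (nat_lit 228) (nat_lit 8046982331) (nat_lit 32) (nat_lit 5) (nat_lit 34) (nat_lit 5) (nat_lit 35) (nat_lit 5) (nat_lit 502) (nat_lit 350) (nat_lit 288)) (XT.lf (nat_lit 0) (nat_lit 12655054002) (nat_lit 228) (nat_lit 1281418426) (nat_lit 76) (nat_lit 2130006277) (nat_lit 32) (nat_lit 5) (nat_lit 35) (nat_lit 5) (nat_lit 33) (nat_lit 4) (nat_lit 503) (nat_lit 350) (nat_lit 287))) (XT.nd (nat_lit 78) (nat_lit 152) (nat_lit 0) (XT.lf (nat_lit 0) (nat_lit 1335064742) (nat_lit 228) (nat_lit 7729108297) (nat_lit 76) (nat_lit 7213805813) (nat_lit 29) (nat_lit 5) (nat_lit 32) (nat_lit 5) (nat_lit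 30) (nat_lit 5) (nat_lit 504) (nat_lit 350) (nat_lit 286)) (XT.nd (nat_lit 78) (nat_lit 0) (nat_lit 0) (XT.lf (nat_lit 0) (nat_lit 2032869027) (nat_lit 152) (nat_lit 4080652752) (nat_lit 228) (nat_lit 10380084885) (nat_lit 27) (nat_lit 5) (nat_lit 29) (nat_lit 5) (nat_lit 30) (nat_lit 5) (nat_lit 505) (nat_lit 350) (nat_lit 285)) (XT.lf (nat_lit 0) (nat_lit 11007194425) (nat_lit 228) (nat_lit 4695358827) (nat_lit 76) (nat_lit 1010603779) (nat_lit 27) (nat_lit 5) (nat_lit 30) (nat_lit 5) (nat_lit 28) (nat_lit 4) (nat_lit 506) (nat_lit 350) (nat_lit 284))))) (XT.nd (nat_lit 54132) (nat_lit 0) (nat_lit 16264) (XT.nd (nat_lit 53976) (nat_lit 0) (nat_lit 17632) (XT.lf (nat_lit 0) (nat_lit 5237531309) (nat_lit 152) (nat_lit 10783932516) (nat_lit 228) (nat_lit 915182987) (nat_lit 25) (nat_lit 5) (nat_lit 27) (nat_lit 5) (nat_lit 28) (nat_lit 4) (nat_lit 507) (nat_lit 350) (nat_lit 283)) (XT.nd (nat_lit 78) (nat_lit 608) (nat_lit 0)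 (XT.lf (nat_lit 0) (nat_lit 1254755025) (nat_lit 684) (nat_lit 1548746709) (nat_lit 0) (nat_lit 1254755025) (nat_lit 265) (nat_lit 5) (nat_lit 274) (nat_lit 4) (nat_lit 265) (nat_lit 4) (nat_lit 438) (nat_lit 351) (nat_lit 351)) (XT.lf (nat_lit 0) (nat_lit 3402696725) (nat_lit 608) (nat_lit 2980926958) (nat_lit 608) (nat_lit 1793175565) (nat_lit 257) (nat_lit 4) (nat_lit 265) (nat_lit 5) (nat_lit 265) (nat_lit 4) (nat_lit 439) (nat_lit 351) (nat_lit 350)))) (XT.nd (nat_lit 78) (nat_lit 684) (nat_lit 0) (XT.lf (nat_lit 0) (nat_lit 1759382297) (nat_lit 608) (nat_lit 276061188) (nat_lit 684) (nat_lit 6203271653) (nat_lit 248) (nat_lit 5) (nat_lit 256) (nat_lit 5) (nat_lit 257) (nat_lit 4) (nat_lit 440) (nat_lit 351) (nat_lit 349)) (XT.nd (nat_lit 78) (nat_lit 76) (nat_lit 0) (XT.lf (nat_lit 0) (nat_lit 72196469) (nat_lit 608) (nat_lit 5827563109) (nat_lit 608) (nat_lit 2402226734) (nat_lit 240) (nat_lit 4) (nat_lit 248) (nat_lit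 5) (nat_lit 248) (nat_lit 4) (nat_lit 441) (nat_lit 351) (nat_lit 348)) (XT.lf (nat_lit 0) (nat_lit 1435644029) (nat_lit 684) (nat_lit 1622634127) (nat_lit 76) (nat_lit 5308466367) (nat_lit 239) (nat_lit 5) (nat_lit 248) (nat_lit 5) (nat_lit 240) (nat_lit 4) (nat_lit 442) (nat_lit 351) (nat_lit 347)))))) (XT.nd (nat_lit 390) (nat_lit 2584) (nat_lit 0) (XT.nd (nat_lit 156) (nat_lit 1140) (nat_lit 0) (XT.nd (nat_lit 78) (nat_lit 608) (nat_lit 0) (XT.lf (nat_lit 0) (nat_lit 5081245957) (nat_lit 532) (nat_lit 205716446) (nat_lit 608) (nat_lit 3146156566) (nat_lit 232) (nat_lit 5) (nat_lit 239) (nat_lit 5) (nat_lit 240) (nat_lit 4) (nat_lit 443) (nat_lit 351) (nat_lit 346)) (XT.lf (nat_lit 0) (nat_lit 691872595) (nat_lit 608) (nat_lit 5125071617) (nat_lit 76) (nat_lit 2684063927) (nat_lit 224) (nat_lit 5) (nat_lit 232) (nat_lit 5) (nat_lit 225) (nat_lit 4) (nat_lit 444) (nat_lit 351) (nat_lit 345))) (XT.nd (nat_lit 78) (nat_lit 608)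 (nat_lit 0) (XT.lf (nat_lit 0) (nat_lit 1625897802) (nat_lit 532) (nat_lit 2909887563) (nat_lit 608) (nat_lit 4034643659) (nat_lit 217) (nat_lit 5) (nat_lit 224) (nat_lit 5) (nat_lit 225) (nat_lit 4) (nat_lit 445) (nat_lit 351) (nat_lit 344)) (XT.nd (nat_lit 78) (nat_lit 608) (nat_lit 0) (XT.lf (nat_lit 0) (nat_lit 8428731916) (nat_lit 608) (nat_lit 147332097) (nat_lit 0) (nat_lit 65745769) (nat_lit 217) (nat_lit 5) (nat_lit 225) (nat_lit 4) (nat_lit 217) (nat_lit 4) (nat_lit 446) (nat_lit 351) (nat_lit 343)) (XT.lf (nat_lit 0) (nat_lit 3638218905) (nat_lit 608) (nat_lit 1969048504) (nat_lit 76) (nat_lit 3106853685) (nat_lit 209) (nat_lit 5) (nat_lit 217) (nat_lit 5) (nat_lit 210) (nat_lit 4) (nat_lit 447) (nat_lit 351) (nat_lit 342))))) (XT.nd (nat_lit 234) (nat_lit 1064) (nat_lit 0) (XT.nd (nat_lit 78) (nat_lit 1064) (nat_lit 0) (XT.lf (nat_lit 0) (nat_lit 4967089553) (nat_lit 456) (nat_lit 2568491691) (nat_lit 532) (nat_lit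 1252845089) (nat_lit 203) (nat_lit 5) (nat_lit 209) (nat_lit 5) (nat_lit 210) (nat_lit 4) (nat_lit 448) (nat_lit 351) (nat_lit 341)) (XT.nd (nat_lit 78) (nat_lit 456) (nat_lit 0) (XT.lf (nat_lit 0) (nat_lit 2588162826) (nat_lit 608) (nat_lit 5725788561) (nat_lit 76) (nat_lit 550411777) (nat_lit 195) (nat_lit 5) (nat_lit 203) (nat_lit 5) (nat_lit 196) (nat_lit 4) (nat_lit 449) (nat_lit 351) (nat_lit 340)) (XT.lf (nat_lit 0) (nat_lit 1252274908) (nat_lit 456) (nat_lit 5227264279) (nat_lit 532) (nat_lit 2462320373) (nat_lit 189) (nat_lit 5) (nat_lit 195) (nat_lit 5) (nat_lit 196) (nat_lit 4) (nat_lit 450) (nat_lit 351) (nat_lit 339)))) (XT.nd (nat_lit 78) (nat_lit 988) (nat_lit 0) (XT.lf (nat_lit 0) (nat_lit 1387362057) (nat_lit 532) (nat_lit 669241999) (nat_lit 76) (nat_lit 6964563825) (nat_lit 188) (nat_lit 5) (nat_lit 195) (nat_lit 5) (nat_lit 189) (nat_lit 5) (nat_lit 451) (nat_lit 351) (nat_lit 338)) (XT.nd (nat_lit 78) (nat_lit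 532) (nat_lit 0) (XT.lf (nat_lit 0) (nat_lit 5271756819) (nat_lit 532) (nat_lit 2635222166) (nat_lit 76) (nat_lit 1194956269) (nat_lit 182) (nat_lit 5) (nat_lit 189) (nat_lit 5) (nat_lit 183) (nat_lit 4) (nat_lit 452) (nat_lit 351) (nat_lit 337)) (XT.lf (nat_lit 0) (nat_lit 37538439) (nat_lit 532) (nat_lit 4654645670) (nat_lit 76) (nat_lit 4492365819) (nat_lit 175) (nat_lit 5) (nat_lit 182) (nat_lit 5) (nat_lit 176) (nat_lit 5) (nat_lit 453) (nat_lit 351) (nat_lit 336))))))) (XT.nd (nat_lit 858) (nat_lit 3116) (nat_lit 0) (XT.nd (nat_lit 390) (nat_lit 1596) (nat_lit 0) (XT.nd (nat_lit 156) (nat_lit 988) (nat_lit 0) (XT.nd (nat_lit 78) (nat_lit 380) (nat_lit 0) (XT.lf (nat_lit 0) (nat_lit 2527188737) (nat_lit 456) (nat_lit 1379793408) (nat_lit 532) (nat_lit 5361826716) (nat_lit 169) (nat_lit 5) (nat_lit 175) (nat_lit 5) (nat_lit 176) (nat_lit 5) (nat_lit 454) (nat_lit 351) (nat_lit 335)) (XT.lf (nat_lit 0) (nat_lit 468089896)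 (nat_lit 380) (nat_lit 7375000770) (nat_lit 456) (nat_lit 1511888043) (nat_lit 164) (nat_lit 5) (nat_lit 169) (nat_lit 5) (nat_lit 170) (nat_lit 4) (nat_lit 455) (nat_lit 351) (nat_lit 334))) (XT.nd (nat_lit 78) (nat_lit 912) (nat_lit 0) (XT.lf (nat_lit 0) (nat_lit 2380060337) (nat_lit 456) (nat_lit 1640409521) (nat_lit 76) (nat_lit 5422165623) (nat_lit 163) (nat_lit 5) (nat_lit 169) (nat_lit 5) (nat_lit 164) (nat_lit 5) (nat_lit 456) (nat_lit 351) (nat_lit 333)) (XT.nd (nat_lit 78) (nat_lit 456) (nat_lit 0) (XT.lf (nat_lit 0) (nat_lit 5731148460) (nat_lit 456) (nat_lit 578829108) (nat_lit 532) (nat_lit 3222271077) (nat_lit 157) (nat_lit 5) (nat_lit 163) (nat_lit 5) (nat_lit 164) (nat_lit 5) (nat_lit 457) (nat_lit 351) (nat_lit 332)) (XT.lf (nat_lit 0) (nat_lit 682657954) (nat_lit 456) (nat_lit 6036677507) (nat_lit 76) (nat_lit 2904299945) (nat_lit 151) (nat_lit 5) (nat_lit 157) (nat_lit 5) (nat_lit 152) (nat_lit 5) (nat_lit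 458) (nat_lit 351) (nat_lit 331))))) (XT.nd (nat_lit 234) (nat_lit 760) (nat_lit 0) (XT.nd (nat_lit 78) (nat_lit 456) (nat_lit 0) (XT.lf (nat_lit 0) (nat_lit 1364927926) (nat_lit 380) (nat_lit 3239727964) (nat_lit 456) (nat_lit 5112135694) (nat_lit 146) (nat_lit 5) (nat_lit 151) (nat_lit 5) (nat_lit 152) (nat_lit 5) (nat_lit 459) (nat_lit 351) (nat_lit 330)) (XT.nd (nat_lit 78) (nat_lit 456) (nat_lit 0) (XT.lf (nat_lit 0) (nat_lit 8591946817) (nat_lit 456) (nat_lit 902849338) (nat_lit 76) (nat_lit 317287473) (nat_lit 146) (nat_lit 5) (nat_lit 152) (nat_lit 5) (nat_lit 147) (nat_lit 4) (nat_lit 460) (nat_lit 351) (nat_lit 329)) (XT.lf (nat_lit 0) (nat_lit 2723665207) (nat_lit 456) (nat_lit 3250030364) (nat_lit 76) (nat_lit 3935037783) (nat_lit 140) (nat_lit 5) (nat_lit 146) (nat_lit 5) (nat_lit 141) (nat_lit 5) (nat_lit 461) (nat_lit 351) (nat_lit 328)))) (XT.nd (nat_lit 78) (nat_lit 380) (nat_lit 0) (XT.lf (nat_lit 0) (nat_lit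 4340879687) (nat_lit 380) (nat_lit 2368749427) (nat_lit 456) (nat_lit 3297942426) (nat_lit 135) (nat_lit 5) (nat_lit 140) (nat_lit 5) (nat_lit 141) (nat_lit 5) (nat_lit 462) (nat_lit 351) (nat_lit 327)) (XT.nd (nat_lit 78) (nat_lit 0) (nat_lit 0) (XT.lf (nat_lit 0) (nat_lit 646876405) (nat_lit 380) (nat_lit 8161006864) (nat_lit 76) (nat_lit 1300651546) (nat_lit 130) (nat_lit 5) (nat_lit 135) (nat_lit 5) (nat_lit 131) (nat_lit 5) (nat_lit 463) (nat_lit 351) (nat_lit 326)) (XT.lf (nat_lit 0) (nat_lit 4626251847) (nat_lit 380) (nat_lit 542665837) (nat_lit 76) (nat_lit 5042175995) (nat_lit 130) (nat_lit 5) (nat_lit 135) (nat_lit 5) (nat_lit 131) (nat_lit 5) (nat_lit 464) (nat_lit 351) (nat_lit 325)))))) (XT.nd (nat_lit 468) (nat_lit 1292) (nat_lit 0) (XT.nd (nat_lit 234) (nat_lit 684) (nat_lit 0) (XT.nd (nat_lit 78) (nat_lit 760) (nat_lit 0) (XT.lf (nat_lit 0) (nat_lit 7239682857) (nat_lit 380) (nat_lit 1439412257) (nat_lit 456)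 (nat_lit 1636739532) (nat_lit 125) (nat_lit 5) (nat_lit 130) (nat_lit 5) (nat_lit 131) (nat_lit 5) (nat_lit 465) (nat_lit 351) (nat_lit 324)) (XT.nd (nat_lit 78) (nat_lit 380) (nat_lit 0) (XT.lf (nat_lit 0) (nat_lit 2355829767) (nat_lit 380) (nat_lit 5712831622) (nat_lit 76) (nat_lit 2353769763) (nat_lit 120) (nat_lit 5) (nat_lit 125) (nat_lit 5) (nat_lit 121) (nat_lit 5) (nat_lit 466) (nat_lit 351) (nat_lit 323)) (XT.lf (nat_lit 0) (nat_lit 2085070926) (nat_lit 380) (nat_lit 4312459330) (nat_lit 456) (nat_lit 4133597081) (nat_lit 115) (nat_lit 5) (nat_lit 120) (nat_lit 5) (nat_lit 121) (nat_lit 5) (nat_lit 467) (nat_lit 351) (nat_lit 322)))) (XT.nd (nat_lit 78) (nat_lit 684) (nat_lit 0) (XT.lf (nat_lit 0) (nat_lit 10033137902) (nat_lit 380) (nat_lit 473081150) (nat_lit 456) (nat_lit 136063191) (nat_lit 115) (nat_lit 5) (nat_lit 120) (nat_lit 5) (nat_lit 121) (nat_lit 5) (nat_lit 468) (nat_lit 351) (nat_lit 321)) (XT.nd (nat_lit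 78) (nat_lit 304) (nat_lit 0) (XT.lf (nat_lit 0) (nat_lit 3908737785) (nat_lit 380) (nat_lit 3404544538) (nat_lit 76) (nat_lit 3441493517) (nat_lit 110) (nat_lit 5) (nat_lit 115) (nat_lit 5) (nat_lit 111) (nat_lit 5) (nat_lit 469) (nat_lit 351) (nat_lit 320)) (XT.lf (nat_lit 0) (nat_lit 4581054570) (nat_lit 304) (nat_lit 3437325577) (nat_lit 380) (nat_lit 2851413257) (nat_lit 106) (nat_lit 5) (nat_lit 110) (nat_lit 5) (nat_lit 111) (nat_lit 5) (nat_lit 470) (nat_lit 351) (nat_lit 319))))) (XT.nd (nat_lit 234) (nat_lit 608) (nat_lit 0) (XT.nd (nat_lit 78) (nat_lit 304) (nat_lit 0) (XT.lf (nat_lit 0) (nat_lit 1193539658) (nat_lit 380) (nat_lit 9273151233) (nat_lit 76) (nat_lit 520539209) (nat_lit 101) (nat_lit 5) (nat_lit 106) (nat_lit 5) (nat_lit 102) (nat_lit 5) (nat_lit 471) (nat_lit 351) (nat_lit 318)) (XT.nd (nat_lit 78) (nat_lit 304) (nat_lit 0) (XT.lf (nat_lit 0) (nat_lit 5295657418) (nat_lit 380) (nat_lit 1268892901) (nat_lit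 76) (nat_lit 4541806329) (nat_lit 101) (nat_lit 5) (nat_lit 106) (nat_lit 5) (nat_lit 102) (nat_lit 5) (nat_lit 472) (nat_lit 351) (nat_lit 317)) (XT.lf (nat_lit 0) (nat_lit 6904640446) (nat_lit 304) (nat_lit 2570169878) (nat_lit 380) (nat_lit 1753162408) (nat_lit 97) (nat_lit 5) (nat_lit 101) (nat_lit 5) (nat_lit 102) (nat_lit 5) (nat_lit 473) (nat_lit 351) (nat_lit 316)))) (XT.nd (nat_lit 78) (nat_lit 304) (nat_lit 0) (XT.lf (nat_lit 0) (nat_lit 2348041939) (nat_lit 304) (nat_lit 7501340727) (nat_lit 76) (nat_lit 1502459234) (nat_lit 93) (nat_lit 5) (nat_lit 97) (nat_lit 5) (nat_lit 94) (nat_lit 5) (nat_lit 474) (nat_lit 351) (nat_lit 315)) (XT.nd (nat_lit 78) (nat_lit 0) (nat_lit 0) (XT.lf (nat_lit 0) (nat_lit 666983455) (nat_lit 304) (nat_lit 5841914894) (nat_lit 380) (nat_lit 4969042743) (nat_lit 89) (nat_lit 5) (nat_lit 93) (nat_lit 5) (nat_lit 94) (nat_lit 5) (nat_lit 475) (nat_lit 351) (nat_lit 314)) (XT.lf (nat_lit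 0) (nat_lit 9019146906) (nat_lit 304) (nat_lit 1735131168) (nat_lit 380) (nat_lit 852264412) (nat_lit 89) (nat_lit 5) (nat_lit 93) (nat_lit 5) (nat_lit 94) (nat_lit 5) (nat_lit 476) (nat_lit 351) (nat_lit 313))))))))
noncomputable def xc28 : XT := (XT.nd (nat_lit 1716) (nat_lit 1064) (nat_lit 0) (XT.nd (nat_lit 858) (nat_lit 1596) (nat_lit 0) (XT.nd (nat_lit 390) (nat_lit 1064) (nat_lit 0) (XT.nd (nat_lit 156) (nat_lit 532) (nat_lit 0) (XT.nd (nat_lit 78) (nat_lit 304) (nat_lit 0) (XT.lf (nat_lit 0) (nat_lit 3308168058) (nat_lit 304) (nat_lit 5979249415) (nat_lit 76) (nat_lit 2449765666) (nat_lit 85) (nat_lit 5) (nat_lit 89) (nat_lit 5) (nat_lit 86) (nat_lit 5) (nat_lit 477) (nat_lit 351) (nat_lit 312)) (XT.lf (nat_lit 0) (nat_lit 2368468306) (nat_lit 304) (nat_lit 5168116156) (nat_lit 380) (nat_lit 4333821706) (nat_lit 81) (nat_lit 5) (nat_lit 85) (nat_lit 5) (nat_lit 86) (nat_lit 5) (nat_lit 478) (nat_lit 351) (nat_lit 311)))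 (XT.nd (nat_lit 78) (nat_lit 532) (nat_lit 0) (XT.lf (nat_lit 0) (nat_lit 10884222650) (nat_lit 304) (nat_lit 957725822) (nat_lit 380) (nat_lit 164503457) (nat_lit 81) (nat_lit 5) (nat_lit 85) (nat_lit 5) (nat_lit 86) (nat_lit 5) (nat_lit 479) (nat_lit 351) (nat_lit 310)) (XT.nd (nat_lit 78) (nat_lit 228) (nat_lit 0) (XT.lf (nat_lit 0) (nat_lit 4057566846) (nat_lit 304) (nat_lit 4749854945) (nat_lit 76) (nat_lit 3336811914) (nat_lit 77) (nat_lit 5) (nat_lit 81) (nat_lit 5) (nat_lit 78) (nat_lit 5) (nat_lit 480) (nat_lit 351) (nat_lit 309)) (XT.lf (nat_lit 0) (nat_lit 3774689242) (nat_lit 228) (nat_lit 4578703284) (nat_lit 304) (nat_lit 3931532030) (nat_lit 74) (nat_lit 5) (nat_lit 77) (nat_lit 5) (nat_lit 78) (nat_lit 5) (nat_lit 481) (nat_lit 351) (nat_lit 308))))) (XT.nd (nat_lit 234) (nat_lit 532) (nat_lit 0) (XT.nd (nat_lit 78) (nat_lit 228) (nat_lit 0) (XT.lf (nat_lit 0) (nat_lit 25093401) (nat_lit 228) (nat_lit 263016746)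 (nat_lit 304) (nat_lit 12140576011) (nat_lit 70) (nat_lit 5) (nat_lit 73) (nat_lit 5) (nat_lit 74) (nat_lit 5) (nat_lit 482) (nat_lit 351) (nat_lit 307)) (XT.nd (nat_lit 78) (nat_lit 228) (nat_lit 0) (XT.lf (nat_lit 0) (nat_lit 4577285450) (nat_lit 304) (nat_lit 3860533893) (nat_lit 76) (nat_lit 4136233434) (nat_lit 70) (nat_lit 5) (nat_lit 74) (nat_lit 5) (nat_lit 71) (nat_lit 5) (nat_lit 483) (nat_lit 351) (nat_lit 306)) (XT.lf (nat_lit 0) (nat_lit 4837091115) (nat_lit 228) (nat_lit 4102589697) (nat_lit 304) (nat_lit 3782902282) (nat_lit 67) (nat_lit 5) (nat_lit 70) (nat_lit 5) (nat_lit 71) (nat_lit 5) (nat_lit 484) (nat_lit 351) (nat_lit 305)))) (XT.nd (nat_lit 78) (nat_lit 228) (nat_lit 0) (XT.lf (nat_lit 0) (nat_lit 496331730) (nat_lit 304) (nat_lit 12059864617) (nat_lit 76) (nat_lit 318068684) (nat_lit 63) (nat_lit 5) (nat_lit 67) (nat_lit 5) (nat_lit 64) (nat_lit 5) (nat_lit 485) (nat_lit 351) (nat_lit 304)) (XT.nd (nat_lit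 78) (nat_lit 228) (nat_lit 0) (XT.lf (nat_lit 0) (nat_lit 4845538604) (nat_lit 304) (nat_lit 3363590248) (nat_lit 76) (nat_lit 4818655634) (nat_lit 63) (nat_lit 5) (nat_lit 67) (nat_lit 5) (nat_lit 64) (nat_lit 5) (nat_lit 486) (nat_lit 351) (nat_lit 303)) (XT.lf (nat_lit 0) (nat_lit 5502028229) (nat_lit 228) (nat_lit 3770873407) (nat_lit 304) (nat_lit 3911653965) (nat_lit 60) (nat_lit 5) (nat_lit 63) (nat_lit 5) (nat_lit 64) (nat_lit 5) (nat_lit 487) (nat_lit 351) (nat_lit 302)))))) (XT.nd (nat_lit 390) (nat_lit 912) (nat_lit 0) (XT.nd (nat_lit 156) (nat_lit 456) (nat_lit 0) (XT.nd (nat_lit 78) (nat_lit 0) (nat_lit 0) (XT.lf (nat_lit 0) (nat_lit 429368880) (nat_lit 228) (nat_lit 12167429475) (nat_lit 76) (nat_lit 747793674) (nat_lit 57) (nat_lit 5) (nat_lit 60) (nat_lit 5) (nat_lit 58) (nat_lit 5) (nat_lit 488) (nat_lit 351) (nat_lit 301)) (XT.lf (nat_lit 0) (nat_lit 4837449771) (nat_lit 228) (nat_lit 3316835862) (nat_lit 76)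 (nat_lit 5352378581) (nat_lit 57) (nat_lit 5) (nat_lit 60) (nat_lit 5) (nat_lit 58) (nat_lit 5) (nat_lit 489) (nat_lit 351) (nat_lit 300))) (XT.nd (nat_lit 78) (nat_lit 228) (nat_lit 0) (XT.lf (nat_lit 0) (nat_lit 5710165717) (nat_lit 228) (nat_lit 3617167199) (nat_lit 304) (nat_lit 4344776463) (nat_lit 54) (nat_lit 5) (nat_lit 57) (nat_lit 5) (nat_lit 58) (nat_lit 5) (nat_lit 490) (nat_lit 351) (nat_lit 299)) (XT.nd (nat_lit 78) (nat_lit 0) (nat_lit 0) (XT.lf (nat_lit 0) (nat_lit 57761457) (nat_lit 228) (nat_lit 12787692865) (nat_lit 76) (nat_lit 995555143) (nat_lit 51) (nat_lit 5) (nat_lit 54) (nat_lit 5) (nat_lit 52) (nat_lit 5) (nat_lit 491) (nat_lit 351) (nat_lit 298)) (XT.lf (nat_lit 0) (nat_lit 4524761480) (nat_lit 228) (nat_lit 3784228560) (nat_lit 76) (nat_lit 5703035478) (nat_lit 51) (nat_lit 5) (nat_lit 54) (nat_lit 5) (nat_lit 52) (nat_lit 5) (nat_lit 492) (nat_lit 351) (nat_lit 297))))) (XT.nd (nat_lit 234) (nat_lit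 456) (nat_lit 0) (XT.nd (nat_lit 78) (nat_lit 228) (nat_lit 0) (XT.lf (nat_lit 0) (nat_lit 5395821259) (nat_lit 228) (nat_lit 3677956733) (nat_lit 304) (nat_lit 5112834390) (nat_lit 48) (nat_lit 5) (nat_lit 51) (nat_lit 5) (nat_lit 52) (nat_lit 5) (nat_lit 493) (nat_lit 351) (nat_lit 296)) (XT.nd (nat_lit 78) (nat_lit 76) (nat_lit 0) (XT.lf (nat_lit 0) (nat_lit 370081034) (nat_lit 152) (nat_lit 13336236970) (nat_lit 228) (nat_lit 658526058) (nat_lit 46) (nat_lit 5) (nat_lit 48) (nat_lit 5) (nat_lit 49) (nat_lit 4) (nat_lit 494) (nat_lit 351) (nat_lit 295)) (XT.lf (nat_lit 0) (nat_lit 3875511923) (nat_lit 228) (nat_lit 4836574268) (nat_lit 76) (nat_lit 5833221625) (nat_lit 45) (nat_lit 5) (nat_lit 48) (nat_lit 5) (nat_lit 46) (nat_lit 5) (nat_lit 495) (nat_lit 351) (nat_lit 294)))) (XT.nd (nat_lit 78) (nat_lit 228) (nat_lit 0) (XT.lf (nat_lit 0) (nat_lit 4486240615) (nat_lit 228) (nat_lit 3992990041) (nat_lit 304) (nat_lit 6250310494)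 (nat_lit 42) (nat_lit 5) (nat_lit 45) (nat_lit 5) (nat_lit 46) (nat_lit 5) (nat_lit 496) (nat_lit 351) (nat_lit 293)) (XT.nd (nat_lit 78) (nat_lit 228) (nat_lit 0) (XT.lf (nat_lit 0) (nat_lit 13171837925) (nat_lit 304) (nat_lit 934431683) (nat_lit 76) (nat_lit 811256900) (nat_lit 42) (nat_lit 5) (nat_lit 46) (nat_lit 5) (nat_lit 43) (nat_lit 4) (nat_lit 497) (nat_lit 351) (nat_lit 292)) (XT.lf (nat_lit 0) (nat_lit 2853674499) (nat_lit 228) (nat_lit 6552300076) (nat_lit 76) (nat_lit 5702090259) (nat_lit 39) (nat_lit 5) (nat_lit 42) (nat_lit 5) (nat_lit 40) (nat_lit 5) (nat_lit 498) (nat_lit 351) (nat_lit 291))))))) (XT.nd (nat_lit 54600) (nat_lit 0) (nat_lit 12920) (XT.nd (nat_lit 390) (nat_lit 532) (nat_lit 0) (XT.nd (nat_lit 156) (nat_lit 380) (nat_lit 0) (XT.nd (nat_lit 78) (nat_lit 0) (nat_lit 0) (XT.lf (nat_lit 0) (nat_lit 2900799802) (nat_lit 152) (nat_lit 4605702179) (nat_lit 228) (nat_lit 7795987560) (nat_lit 37) (nat_lit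 5) (nat_lit 39) (nat_lit 5) (nat_lit 40) (nat_lit 5) (nat_lit 499) (nat_lit 351) (nat_lit 290)) (XT.lf (nat_lit 0) (nat_lit 12258341393) (nat_lit 228) (nat_lit 2942234211) (nat_lit 76) (nat_lit 300111394) (nat_lit 37) (nat_lit 5) (nat_lit 40) (nat_lit 5) (nat_lit 38) (nat_lit 4) (nat_lit 500) (nat_lit 351) (nat_lit 289))) (XT.nd (nat_lit 78) (nat_lit 152) (nat_lit 0) (XT.lf (nat_lit 0) (nat_lit 1418756678) (nat_lit 228) (nat_lit 9018305917) (nat_lit 76) (nat_lit 5264911344) (nat_lit 34) (nat_lit 5) (nat_lit 37) (nat_lit 5) (nat_lit 35) (nat_lit 5) (nat_lit 501) (nat_lit 351) (nat_lit 288)) (XT.nd (nat_lit 78) (nat_lit 0) (nat_lit 0) (XT.lf (nat_lit 0) (nat_lit 550125997) (nat_lit 152) (nat_lit 5563679182) (nat_lit 228) (nat_lit 9793373188) (nat_lit 32) (nat_lit 5) (nat_lit 34) (nat_lit 5) (nat_lit 35) (nat_lit 5) (nat_lit 502) (nat_lit 351) (nat_lit 287)) (XT.lf (nat_lit 0) (nat_lit 10362071222) (nat_lit 152) (nat_lit 562169513)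 (nat_lit 228) (nat_lit 5191819535) (nat_lit 32) (nat_lit 5) (nat_lit 34) (nat_lit 5) (nat_lit 35) (nat_lit 5) (nat_lit 503) (nat_lit 351) (nat_lit 286))))) (XT.nd (nat_lit 234) (nat_lit 152) (nat_lit 0) (XT.nd (nat_lit 78) (nat_lit 228) (nat_lit 0) (XT.lf (nat_lit 0) (nat_lit 3994757991) (nat_lit 152) (nat_lit 11853072294) (nat_lit 228) (nat_lit 480953667) (nat_lit 30) (nat_lit 5) (nat_lit 32) (nat_lit 5) (nat_lit 33) (nat_lit 4) (nat_lit 504) (nat_lit 351) (nat_lit 285)) (XT.nd (nat_lit 78) (nat_lit 152) (nat_lit 0) (XT.lf (nat_lit 0) (nat_lit 4271596415) (nat_lit 228) (nat_lit 2629921283) (nat_lit 76) (nat_lit 9643602264) (nat_lit 29) (nat_lit 5) (nat_lit 32) (nat_lit 5) (nat_lit 30) (nat_lit 5) (nat_lit 505) (nat_lit 351) (nat_lit 284)) (XT.lf (nat_lit 0) (nat_lit 7292731316) (nat_lit 152) (nat_lit 1829722320) (nat_lit 228) (nat_lit 7643074424) (nat_lit 27) (nat_lit 5) (nat_lit 29) (nat_lit 5) (nat_lit 30) (nat_lit 5) (nat_lit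 506) (nat_lit 351) (nat_lit 283)))) (XT.nd (nat_lit 53820) (nat_lit 0) (nat_lit 18924) (XT.lf (nat_lit 0) (nat_lit 374479903) (nat_lit 152) (nat_lit 13700197469) (nat_lit 228) (nat_lit 2915582775) (nat_lit 25) (nat_lit 5) (nat_lit 27) (nat_lit 5) (nat_lit 28) (nat_lit 4) (nat_lit 507) (nat_lit 351) (nat_lit 282)) (XT.nd (nat_lit 78) (nat_lit 0) (nat_lit 0) (XT.lf (nat_lit 0) (nat_lit 105462849) (nat_lit 684) (nat_lit 1947232121) (nat_lit 684) (nat_lit 1947232121) (nat_lit 274) (nat_lit 4) (nat_lit 283) (nat_lit 5) (nat_lit 283) (nat_lit 4) (nat_lit 436) (nat_lit 352) (nat_lit 352)) (XT.lf (nat_lit 0) (nat_lit 6614389162) (nat_lit 684) (nat_lit 1339634596) (nat_lit 684) (nat_lit 103898046) (nat_lit 274) (nat_lit 4) (nat_lit 283) (nat_lit 5) (nat_lit 283) (nat_lit 4) (nat_lit 437) (nat_lit 352) (nat_lit 351)))))) (XT.nd (nat_lit 468) (nat_lit 2812) (nat_lit 0) (XT.nd (nat_lit 234) (nat_lit 1216) (nat_lit 0) (XT.nd (nat_lit 78)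 (nat_lit 1292) (nat_lit 0) (XT.lf (nat_lit 0) (nat_lit 3688033990) (nat_lit 684) (nat_lit 3140371794) (nat_lit 0) (nat_lit 1288776175) (nat_lit 265) (nat_lit 5) (nat_lit 274) (nat_lit 4) (nat_lit 265) (nat_lit 4) (nat_lit 438) (nat_lit 352) (nat_lit 350)) (XT.nd (nat_lit 78) (nat_lit 684) (nat_lit 0) (XT.lf (nat_lit 0) (nat_lit 3316652238) (nat_lit 608) (nat_lit 4212600959) (nat_lit 608) (nat_lit 648880994) (nat_lit 257) (nat_lit 4) (nat_lit 265) (nat_lit 5) (nat_lit 265) (nat_lit 4) (nat_lit 439) (nat_lit 352) (nat_lit 349)) (XT.lf (nat_lit 0) (nat_lit 1620555438) (nat_lit 608) (nat_lit 1511080681) (nat_lit 684) (nat_lit 5108935541) (nat_lit 248) (nat_lit 5) (nat_lit 256) (nat_lit 5) (nat_lit 257) (nat_lit 4) (nat_lit 440) (nat_lit 352) (nat_lit 348)))) (XT.nd (nat_lit 78) (nat_lit 1216) (nat_lit 0) (XT.lf (nat_lit 0) (nat_lit 6955565532) (nat_lit 684) (nat_lit 103914085) (nat_lit 0) (nat_lit 1245179071) (nat_lit 248) (nat_lit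 5) (nat_lit 257) (nat_lit 4) (nat_lit 248) (nat_lit 4) (nat_lit 441) (nat_lit 352) (nat_lit 347)) (XT.nd (nat_lit 78) (nat_lit 532) (nat_lit 0) (XT.lf (nat_lit 0) (nat_lit 2442512608) (nat_lit 684) (nat_lit 1852294023) (nat_lit 76) (nat_lit 4075130379) (nat_lit 239) (nat_lit 5) (nat_lit 248) (nat_lit 5) (nat_lit 240) (nat_lit 4) (nat_lit 442) (nat_lit 352) (nat_lit 346)) (XT.lf (nat_lit 0) (nat_lit 4806165374) (nat_lit 532) (nat_lit 1454737651) (nat_lit 608) (nat_lit 2176074641) (nat_lit 232) (nat_lit 5) (nat_lit 239) (nat_lit 5) (nat_lit 240) (nat_lit 4) (nat_lit 443) (nat_lit 352) (nat_lit 345))))) (XT.nd (nat_lit 234) (nat_lit 1596) (nat_lit 0) (XT.nd (nat_lit 78) (nat_lit 608) (nat_lit 0) (XT.lf (nat_lit 0) (nat_lit 1607913643) (nat_lit 608) (nat_lit 5452865228) (nat_lit 76) (nat_lit 1444795713) (nat_lit 224) (nat_lit 5) (nat_lit 232) (nat_lit 5) (nat_lit 225) (nat_lit 4) (nat_lit 444) (nat_lit 352) (nat_lit 344)) (XT.nd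 (nat_lit 78) (nat_lit 76) (nat_lit 0) (XT.lf (nat_lit 0) (nat_lit 1250956189) (nat_lit 532) (nat_lit 4167689459) (nat_lit 608) (nat_lit 3157020647) (nat_lit 217) (nat_lit 5) (nat_lit 224) (nat_lit 5) (nat_lit 225) (nat_lit 4) (nat_lit 445) (nat_lit 352) (nat_lit 343)) (XT.lf (nat_lit 0) (nat_lit 624769797) (nat_lit 608) (nat_lit 573756900) (nat_lit 76) (nat_lit 7449062186) (nat_lit 216) (nat_lit 5) (nat_lit 224) (nat_lit 5) (nat_lit 217) (nat_lit 5) (nat_lit 446) (nat_lit 352) (nat_lit 342)))) (XT.nd (nat_lit 78) (nat_lit 1064) (nat_lit 0) (XT.lf (nat_lit 0) (nat_lit 4432292722) (nat_lit 608) (nat_lit 2443182820) (nat_lit 76) (nat_lit 1845223364) (nat_lit 209) (nat_lit 5) (nat_lit 217) (nat_lit 5) (nat_lit 210) (nat_lit 4) (nat_lit 447) (nat_lit 352) (nat_lit 341)) (XT.nd (nat_lit 78) (nat_lit 608) (nat_lit 0) (XT.lf (nat_lit 0) (nat_lit 4444310554) (nat_lit 456) (nat_lit 3852172184) (nat_lit 532) (nat_lit 499191514) (nat_lit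 203) (nat_lit 5) (nat_lit 209) (nat_lit 5) (nat_lit 210) (nat_lit 4) (nat_lit 448) (nat_lit 352) (nat_lit 340)) (XT.lf (nat_lit 0) (nat_lit 2557768138) (nat_lit 532) (nat_lit 737082556) (nat_lit 608) (nat_lit 5577410555) (nat_lit 195) (nat_lit 5) (nat_lit 202) (nat_lit 5) (nat_lit 203) (nat_lit 5) (nat_lit 449) (nat_lit 352) (nat_lit 339))))))))
noncomputable def xc29 : XT := (XT.nd (nat_lit 1716) (nat_lit 4332) (nat_lit 0) (XT.nd (nat_lit 858) (nat_lit 3116) (nat_lit 0) (XT.nd (nat_lit 390) (nat_lit 1748) (nat_lit 0) (XT.nd (nat_lit 156) (nat_lit 1444) (nat_lit 0) (XT.nd (nat_lit 78) (nat_lit 76) (nat_lit 0) (XT.lf (nat_lit 0) (nat_lit 617883928) (nat_lit 456) (nat_lit 6530004871) (nat_lit 532) (nat_lit 1802641888) (nat_lit 189) (nat_lit 5) (nat_lit 195) (nat_lit 5) (nat_lit 196) (nat_lit 4) (nat_lit 450) (nat_lit 352) (nat_lit 338)) (XT.lf (nat_lit 0) (nat_lit 2009061276) (nat_lit 532) (nat_lit 1358857547) (nat_lit 76) (nat_lit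 5662427107) (nat_lit 188) (nat_lit 5) (nat_lit 195) (nat_lit 5) (nat_lit 189) (nat_lit 5) (nat_lit 451) (nat_lit 352) (nat_lit 337))) (XT.nd (nat_lit 78) (nat_lit 988) (nat_lit 0) (XT.lf (nat_lit 0) (nat_lit 5733959423) (nat_lit 456) (nat_lit 118073059) (nat_lit 532) (nat_lit 3259915207) (nat_lit 182) (nat_lit 5) (nat_lit 188) (nat_lit 5) (nat_lit 189) (nat_lit 5) (nat_lit 452) (nat_lit 352) (nat_lit 336)) (XT.nd (nat_lit 78) (nat_lit 456) (nat_lit 0) (XT.lf (nat_lit 0) (nat_lit 565627873) (nat_lit 532) (nat_lit 5462902597) (nat_lit 76) (nat_lit 3166657421) (nat_lit 175) (nat_lit 5) (nat_lit 182) (nat_lit 5) (nat_lit 176) (nat_lit 5) (nat_lit 453) (nat_lit 352) (nat_lit 335)) (XT.lf (nat_lit 0) (nat_lit 1665864673) (nat_lit 456) (nat_lit 2735174324) (nat_lit 532) (nat_lit 4879094052) (nat_lit 169) (nat_lit 5) (nat_lit 175) (nat_lit 5) (nat_lit 176) (nat_lit 5) (nat_lit 454) (nat_lit 352) (nat_lit 334))))) (XT.nd (nat_lit 234)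 (nat_lit 836) (nat_lit 0) (XT.nd (nat_lit 78) (nat_lit 912) (nat_lit 0) (XT.lf (nat_lit 0) (nat_lit 8297069639) (nat_lit 532) (nat_lit 443875185) (nat_lit 76) (nat_lit 626165096) (nat_lit 169) (nat_lit 5) (nat_lit 176) (nat_lit 5) (nat_lit 170) (nat_lit 4) (nat_lit 455) (nat_lit 352) (nat_lit 333)) (XT.nd (nat_lit 78) (nat_lit 456) (nat_lit 0) (XT.lf (nat_lit 0) (nat_lit 2785027438) (nat_lit 456) (nat_lit 2615393425) (nat_lit 76) (nat_lit 4054915421) (nat_lit 163) (nat_lit 5) (nat_lit 169) (nat_lit 5) (nat_lit 164) (nat_lit 5) (nat_lit 456) (nat_lit 352) (nat_lit 332)) (XT.lf (nat_lit 0) (nat_lit 4701403473) (nat_lit 456) (nat_lit 1979261117) (nat_lit 532) (nat_lit 2864975608) (nat_lit 157) (nat_lit 5) (nat_lit 163) (nat_lit 5) (nat_lit 164) (nat_lit 5) (nat_lit 457) (nat_lit 352) (nat_lit 331)))) (XT.nd (nat_lit 78) (nat_lit 380) (nat_lit 0) (XT.lf (nat_lit 0) (nat_lit 991397684) (nat_lit 456) (nat_lit 7142760616) (nat_lit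 76) (nat_lit 1503704607) (nat_lit 151) (nat_lit 5) (nat_lit 157) (nat_lit 5) (nat_lit 152) (nat_lit 5) (nat_lit 458) (nat_lit 352) (nat_lit 330)) (XT.nd (nat_lit 78) (nat_lit 0) (nat_lit 0) (XT.lf (nat_lit 0) (nat_lit 202051116) (nat_lit 380) (nat_lit 4676471765) (nat_lit 456) (nat_lit 4853198512) (nat_lit 146) (nat_lit 5) (nat_lit 151) (nat_lit 5) (nat_lit 152) (nat_lit 5) (nat_lit 459) (nat_lit 352) (nat_lit 329)) (XT.lf (nat_lit 0) (nat_lit 7707217588) (nat_lit 380) (nat_lit 1129454020) (nat_lit 456) (nat_lit 990929429) (nat_lit 146) (nat_lit 5) (nat_lit 151) (nat_lit 5) (nat_lit 152) (nat_lit 5) (nat_lit 460) (nat_lit 352) (nat_lit 328)))))) (XT.nd (nat_lit 390) (nat_lit 1520) (nat_lit 0) (XT.nd (nat_lit 156) (nat_lit 760) (nat_lit 0) (XT.nd (nat_lit 78) (nat_lit 380) (nat_lit 0) (XT.lf (nat_lit 0) (nat_lit 2907403664) (nat_lit 456) (nat_lit 4535336831) (nat_lit 76) (nat_lit 2482334334) (nat_lit 140) (nat_lit 5) (nat_lit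 146) (nat_lit 5) (nat_lit 141) (nat_lit 5) (nat_lit 461) (nat_lit 352) (nat_lit 327)) (XT.lf (nat_lit 0) (nat_lit 2996954853) (nat_lit 380) (nat_lit 3861151259) (nat_lit 456) (nat_lit 3166516616) (nat_lit 135) (nat_lit 5) (nat_lit 140) (nat_lit 5) (nat_lit 141) (nat_lit 5) (nat_lit 462) (nat_lit 352) (nat_lit 326))) (XT.nd (nat_lit 78) (nat_lit 380) (nat_lit 0) (XT.lf (nat_lit 0) (nat_lit 534703985) (nat_lit 304) (nat_lit 197629706) (nat_lit 380) (nat_lit 9394124451) (nat_lit 130) (nat_lit 5) (nat_lit 134) (nat_lit 5) (nat_lit 135) (nat_lit 5) (nat_lit 463) (nat_lit 352) (nat_lit 325)) (XT.nd (nat_lit 78) (nat_lit 380) (nat_lit 0) (XT.lf (nat_lit 0) (nat_lit 4684126730) (nat_lit 380) (nat_lit 2013372015) (nat_lit 76) (nat_lit 3532074133) (nat_lit 130) (nat_lit 5) (nat_lit 135) (nat_lit 5) (nat_lit 131) (nat_lit 5) (nat_lit 464) (nat_lit 352) (nat_lit 324)) (XT.lf (nat_lit 0) (nat_lit 5708461070) (nat_lit 380) (nat_lit 2992783631)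 (nat_lit 456) (nat_lit 1633787790) (nat_lit 125) (nat_lit 5) (nat_lit 130) (nat_lit 5) (nat_lit 131) (nat_lit 5) (nat_lit 465) (nat_lit 352) (nat_lit 323))))) (XT.nd (nat_lit 234) (nat_lit 760) (nat_lit 0) (XT.nd (nat_lit 78) (nat_lit 380) (nat_lit 0) (XT.lf (nat_lit 0) (nat_lit 2312313243) (nat_lit 380) (nat_lit 7334600574) (nat_lit 76) (nat_lit 795647369) (nat_lit 120) (nat_lit 5) (nat_lit 125) (nat_lit 5) (nat_lit 121) (nat_lit 5) (nat_lit 466) (nat_lit 352) (nat_lit 322)) (XT.nd (nat_lit 78) (nat_lit 0) (nat_lit 0) (XT.lf (nat_lit 0) (nat_lit 400545280) (nat_lit 380) (nat_lit 5916966340) (nat_lit 456) (nat_lit 4234479696) (nat_lit 115) (nat_lit 5) (nat_lit 120) (nat_lit 5) (nat_lit 121) (nat_lit 5) (nat_lit 467) (nat_lit 352) (nat_lit 321)) (XT.lf (nat_lit 0) (nat_lit 8308215944) (nat_lit 380) (nat_lit 2092658412) (nat_lit 456) (nat_lit 262782212) (nat_lit 115) (nat_lit 5) (nat_lit 120) (nat_lit 5) (nat_lit 121) (nat_lit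 5) (nat_lit 468) (nat_lit 352) (nat_lit 320)))) (XT.nd (nat_lit 78) (nat_lit 380) (nat_lit 0) (XT.lf (nat_lit 0) (nat_lit 3736241336) (nat_lit 380) (nat_lit 5225119103) (nat_lit 76) (nat_lit 1815758647) (nat_lit 110) (nat_lit 5) (nat_lit 115) (nat_lit 5) (nat_lit 111) (nat_lit 5) (nat_lit 469) (nat_lit 352) (nat_lit 319)) (XT.nd (nat_lit 78) (nat_lit 76) (nat_lit 0) (XT.lf (nat_lit 0) (nat_lit 2695673461) (nat_lit 304) (nat_lit 5113107206) (nat_lit 380) (nat_lit 3084101650) (nat_lit 106) (nat_lit 5) (nat_lit 110) (nat_lit 5) (nat_lit 111) (nat_lit 5) (nat_lit 470) (nat_lit 352) (nat_lit 318)) (XT.lf (nat_lit 0) (nat_lit 924527268) (nat_lit 380) (nat_lit 252062348) (nat_lit 76) (nat_lit 9834550590) (nat_lit 105) (nat_lit 5) (nat_lit 110) (nat_lit 5) (nat_lit 106) (nat_lit 5) (nat_lit 471) (nat_lit 352) (nat_lit 317))))))) (XT.nd (nat_lit 858) (nat_lit 1976) (nat_lit 0) (XT.nd (nat_lit 390) (nat_lit 1140) (nat_lit 0) (XT.nd (nat_lit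 156) (nat_lit 608) (nat_lit 0) (XT.nd (nat_lit 78) (nat_lit 304) (nat_lit 0) (XT.lf (nat_lit 0) (nat_lit 4992664901) (nat_lit 380) (nat_lit 3294957059) (nat_lit 76) (nat_lit 2843327794) (nat_lit 101) (nat_lit 5) (nat_lit 106) (nat_lit 5) (nat_lit 102) (nat_lit 5) (nat_lit 472) (nat_lit 352) (nat_lit 316)) (XT.lf (nat_lit 0) (nat_lit 4811635886) (nat_lit 304) (nat_lit 4322404865) (nat_lit 380) (nat_lit 2119283961) (nat_lit 97) (nat_lit 5) (nat_lit 101) (nat_lit 5) (nat_lit 102) (nat_lit 5) (nat_lit 473) (nat_lit 352) (nat_lit 315))) (XT.nd (nat_lit 78) (nat_lit 304) (nat_lit 0) (XT.lf (nat_lit 0) (nat_lit 1676403775) (nat_lit 228) (nat_lit 262122343) (nat_lit 304) (nat_lit 9439682424) (nat_lit 93) (nat_lit 5) (nat_lit 96) (nat_lit 5) (nat_lit 97) (nat_lit 5) (nat_lit 474) (nat_lit 352) (nat_lit 314)) (XT.nd (nat_lit 78) (nat_lit 304) (nat_lit 0) (XT.lf (nat_lit 0) (nat_lit 6069338034) (nat_lit 304) (nat_lit 1580201955) (nat_lit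 76) (nat_lit 3855371774) (nat_lit 93) (nat_lit 5) (nat_lit 97) (nat_lit 5) (nat_lit 94) (nat_lit 5) (nat_lit 475) (nat_lit 352) (nat_lit 313)) (XT.lf (nat_lit 0) (nat_lit 6711546832) (nat_lit 304) (nat_lit 3568977657) (nat_lit 380) (nat_lit 1353675611) (nat_lit 89) (nat_lit 5) (nat_lit 93) (nat_lit 5) (nat_lit 94) (nat_lit 5) (nat_lit 476) (nat_lit 352) (nat_lit 312))))) (XT.nd (nat_lit 234) (nat_lit 532) (nat_lit 0) (XT.nd (nat_lit 78) (nat_lit 304) (nat_lit 0) (XT.lf (nat_lit 0) (nat_lit 2762114624) (nat_lit 304) (nat_lit 8398092852) (nat_lit 76) (nat_lit 605725711) (nat_lit 85) (nat_lit 5) (nat_lit 89) (nat_lit 5) (nat_lit 86) (nat_lit 5) (nat_lit 477) (nat_lit 352) (nat_lit 311)) (XT.nd (nat_lit 78) (nat_lit 304) (nat_lit 0) (XT.lf (nat_lit 0) (nat_lit 6951774437) (nat_lit 304) (nat_lit 120506947) (nat_lit 76) (nat_lit 4827652863) (nat_lit 85) (nat_lit 5) (nat_lit 89) (nat_lit 5) (nat_lit 86) (nat_lit 5) (nat_lit 478) (nat_lit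 352) (nat_lit 310)) (XT.lf (nat_lit 0) (nat_lit 8354834026) (nat_lit 304) (nat_lit 2878339105) (nat_lit 380) (nat_lit 803289027) (nat_lit 81) (nat_lit 5) (nat_lit 85) (nat_lit 5) (nat_lit 86) (nat_lit 5) (nat_lit 479) (nat_lit 352) (nat_lit 309)))) (XT.nd (nat_lit 78) (nat_lit 228) (nat_lit 0) (XT.lf (nat_lit 0) (nat_lit 3374513591) (nat_lit 304) (nat_lit 7396115326) (nat_lit 76) (nat_lit 1404753607) (nat_lit 77) (nat_lit 5) (nat_lit 81) (nat_lit 5) (nat_lit 78) (nat_lit 5) (nat_lit 480) (nat_lit 352) (nat_lit 308)) (XT.nd (nat_lit 78) (nat_lit 0) (nat_lit 0) (XT.lf (nat_lit 0) (nat_lit 1054289248) (nat_lit 228) (nat_lit 6575616876) (nat_lit 304) (nat_lit 4686978591) (nat_lit 74) (nat_lit 5) (nat_lit 77) (nat_lit 5) (nat_lit 78) (nat_lit 5) (nat_lit 481) (nat_lit 352) (nat_lit 307)) (XT.lf (nat_lit 0) (nat_lit 9696777955) (nat_lit 228) (nat_lit 2277664744) (nat_lit 304) (nat_lit 486698834) (nat_lit 74) (nat_lit 5) (nat_lit 77)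 (nat_lit 5) (nat_lit 78) (nat_lit 5) (nat_lit 482) (nat_lit 352) (nat_lit 306)))))) (XT.nd (nat_lit 468) (nat_lit 912) (nat_lit 0) (XT.nd (nat_lit 234) (nat_lit 532) (nat_lit 0) (XT.nd (nat_lit 78) (nat_lit 228) (nat_lit 0) (XT.lf (nat_lit 0) (nat_lit 3754842985) (nat_lit 304) (nat_lit 6741796232) (nat_lit 76) (nat_lit 2111014989) (nat_lit 70) (nat_lit 5) (nat_lit 74) (nat_lit 5) (nat_lit 71) (nat_lit 5) (nat_lit 483) (nat_lit 352) (nat_lit 305)) (XT.nd (nat_lit 78) (nat_lit 0) (nat_lit 0) (XT.lf (nat_lit 0) (nat_lit 1879182170) (nat_lit 228) (nat_lit 6196666030) (nat_lit 304) (nat_lit 4681166602) (nat_lit 67) (nat_lit 5) (nat_lit 70) (nat_lit 5) (nat_lit 71) (nat_lit 5) (nat_lit 484) (nat_lit 352) (nat_lit 304)) (XT.lf (nat_lit 0) (nat_lit 10688006755) (nat_lit 228) (nat_lit 1796078708) (nat_lit 304) (nat_lit 425265808) (nat_lit 67) (nat_lit 5) (nat_lit 70) (nat_lit 5) (nat_lit 71) (nat_lit 5) (nat_lit 485) (nat_lit 352) (nat_lit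 303)))) (XT.nd (nat_lit 78) (nat_lit 228) (nat_lit 0) (XT.lf (nat_lit 0) (nat_lit 3881091428) (nat_lit 304) (nat_lit 6487705804) (nat_lit 76) (nat_lit 2695099591) (nat_lit 63) (nat_lit 5) (nat_lit 67) (nat_lit 5) (nat_lit 64) (nat_lit 5) (nat_lit 486) (nat_lit 352) (nat_lit 302)) (XT.nd (nat_lit 78) (nat_lit 0) (nat_lit 0) (XT.lf (nat_lit 0) (nat_lit 2298653936) (nat_lit 228) (nat_lit 5967379692) (nat_lit 304) (nat_lit 4955485013) (nat_lit 60) (nat_lit 5) (nat_lit 63) (nat_lit 5) (nat_lit 64) (nat_lit 5) (nat_lit 487) (nat_lit 352) (nat_lit 301)) (XT.lf (nat_lit 0) (nat_lit 11273941677) (nat_lit 228) (nat_lit 1464962808) (nat_lit 304) (nat_lit 643388342) (nat_lit 60) (nat_lit 5) (nat_lit 63) (nat_lit 5) (nat_lit 64) (nat_lit 5) (nat_lit 488) (nat_lit 352) (nat_lit 300))))) (XT.nd (nat_lit 234) (nat_lit 456) (nat_lit 0) (XT.nd (nat_lit 78) (nat_lit 228) (nat_lit 0) (XT.lf (nat_lit 0) (nat_lit 3728154845) (nat_lit 228) (nat_lit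 6691939130) (nat_lit 76) (nat_lit 3125256252) (nat_lit 57) (nat_lit 5) (nat_lit 60) (nat_lit 5) (nat_lit 58) (nat_lit 5) (nat_lit 489) (nat_lit 352) (nat_lit 299)) (XT.nd (nat_lit 78) (nat_lit 0) (nat_lit 0) (XT.lf (nat_lit 0) (nat_lit 2253081832) (nat_lit 228) (nat_lit 5921430325) (nat_lit 304) (nat_lit 5537155865) (nat_lit 54) (nat_lit 5) (nat_lit 57) (nat_lit 5) (nat_lit 58) (nat_lit 5) (nat_lit 490) (nat_lit 352) (nat_lit 298)) (XT.lf (nat_lit 0) (nat_lit 11394187654) (nat_lit 228) (nat_lit 1318291044) (nat_lit 304) (nat_lit 1168784016) (nat_lit 54) (nat_lit 5) (nat_lit 57) (nat_lit 5) (nat_lit 58) (nat_lit 5) (nat_lit 491) (nat_lit 352) (nat_lit 297)))) (XT.nd (nat_lit 78) (nat_lit 228) (nat_lit 0) (XT.lf (nat_lit 0) (nat_lit 3267546209) (nat_lit 228) (nat_lit 7418754425) (nat_lit 76) (nat_lit 3367051865) (nat_lit 51) (nat_lit 5) (nat_lit 54) (nat_lit 5) (nat_lit 52) (nat_lit 5) (nat_lit 492) (nat_lit 352) (nat_lit 296))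 (XT.nd (nat_lit 78) (nat_lit 0) (nat_lit 0) (XT.lf (nat_lit 0) (nat_lit 1676478396) (nat_lit 228) (nat_lit 6095378341) (nat_lit 304) (nat_lit 6456978697) (nat_lit 48) (nat_lit 5) (nat_lit 51) (nat_lit 5) (nat_lit 52) (nat_lit 5) (nat_lit 493) (nat_lit 352) (nat_lit 295)) (XT.lf (nat_lit 0) (nat_lit 10981862922) (nat_lit 228) (nat_lit 1392992780) (nat_lit 304) (nat_lit 2032804146) (nat_lit 48) (nat_lit 5) (nat_lit 51) (nat_lit 5) (nat_lit 52) (nat_lit 5) (nat_lit 494) (nat_lit 352) (nat_lit 294))))))))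
noncomputable def xc30 : XT := (XT.nd (nat_lit 55302) (nat_lit 0) (nat_lit 7448) (XT.nd (nat_lit 858) (nat_lit 152) (nat_lit 0) (XT.nd (nat_lit 390) (nat_lit 760) (nat_lit 0) (XT.nd (nat_lit 156) (nat_lit 228) (nat_lit 0) (XT.nd (nat_lit 78) (nat_lit 228) (nat_lit 0) (XT.lf (nat_lit 0) (nat_lit 2467071537) (nat_lit 228) (nat_lit 8739275344) (nat_lit 76) (nat_lit 3383000739) (nat_lit 45) (nat_lit 5) (nat_lit 48) (nat_lit 5) (nat_lit 46) (nat_lit 5) (nat_lit 495) (nat_lit 352) (nat_lit 293)) (XT.lf (nat_lit 0) (nat_lit 495766752) (nat_lit 228) (nat_lit 6529061212) (nat_lit 304) (nat_lit 7749674039) (nat_lit 42) (nat_lit 5) (nat_lit 45) (nat_lit 5) (nat_lit 46) (nat_lit 5) (nat_lit 496) (nat_lit 352) (nat_lit 292))) (XT.nd (nat_lit 78) (nat_lit 228) (nat_lit 0) (XT.lf (nat_lit 0) (nat_lit 9962861058) (nat_lit 228) (nat_lit 1729348095) (nat_lit 304) (nat_lit 3270784497) (nat_lit 42) (nat_lit 5) (nat_lit 45) (nat_lit 5) (nat_lit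 46) (nat_lit 5) (nat_lit 497) (nat_lit 352) (nat_lit 291)) (XT.nd (nat_lit 78) (nat_lit 0) (nat_lit 0) (XT.lf (nat_lit 0) (nat_lit 1290468873) (nat_lit 228) (nat_lit 10732264297) (nat_lit 76) (nat_lit 3132160776) (nat_lit 39) (nat_lit 5) (nat_lit 42) (nat_lit 5) (nat_lit 40) (nat_lit 5) (nat_lit 498) (nat_lit 352) (nat_lit 290)) (XT.lf (nat_lit 0) (nat_lit 5904895405) (nat_lit 228) (nat_lit 1352049451) (nat_lit 76) (nat_lit 8093143481) (nat_lit 39) (nat_lit 5) (nat_lit 42) (nat_lit 5) (nat_lit 40) (nat_lit 5) (nat_lit 499) (nat_lit 352) (nat_lit 289))))) (XT.nd (nat_lit 234) (nat_lit 380) (nat_lit 0) (XT.nd (nat_lit 78) (nat_lit 228) (nat_lit 0) (XT.lf (nat_lit 0) (nat_lit 8255038105) (nat_lit 152) (nat_lit 2371419146) (nat_lit 228) (nat_lit 4922435726) (nat_lit 37) (nat_lit 5) (nat_lit 39) (nat_lit 5) (nat_lit 40) (nat_lit 5) (nat_lit 500) (nat_lit 352) (nat_lit 288)) (XT.nd (nat_lit 78) (nat_lit 76) (nat_lit 0) (XT.lf (nat_lit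 0) (nat_lit 2264665887) (nat_lit 152) (nat_lit 13179947756) (nat_lit 228) (nat_lit 307020036) (nat_lit 35) (nat_lit 5) (nat_lit 37) (nat_lit 5) (nat_lit 38) (nat_lit 4) (nat_lit 501) (nat_lit 352) (nat_lit 287)) (XT.lf (nat_lit 0) (nat_lit 4369386100) (nat_lit 228) (nat_lit 3958005745) (nat_lit 76) (nat_lit 7629941047) (nat_lit 34) (nat_lit 5) (nat_lit 37) (nat_lit 5) (nat_lit 35) (nat_lit 5) (nat_lit 502) (nat_lit 352) (nat_lit 286)))) (XT.nd (nat_lit 78) (nat_lit 228) (nat_lit 0) (XT.lf (nat_lit 0) (nat_lit 5767316739) (nat_lit 152) (nat_lit 3367521756) (nat_lit 228) (nat_lit 7032277472) (nat_lit 32) (nat_lit 5) (nat_lit 34) (nat_lit 5) (nat_lit 35) (nat_lit 5) (nat_lit 503) (nat_lit 352) (nat_lit 285)) (XT.nd (nat_lit 78) (nat_lit 228) (nat_lit 0) (XT.lf (nat_lit 0) (nat_lit 13995609029) (nat_lit 228) (nat_lit 718862699) (nat_lit 76) (nat_lit 1666625781) (nat_lit 32) (nat_lit 5) (nat_lit 35) (nat_lit 5) (nat_lit 33) (nat_lit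 4) (nat_lit 504) (nat_lit 352) (nat_lit 284)) (XT.lf (nat_lit 0) (nat_lit 2368636088) (nat_lit 228) (nat_lit 7426767260) (nat_lit 76) (nat_lit 6802746978) (nat_lit 29) (nat_lit 5) (nat_lit 32) (nat_lit 5) (nat_lit 30) (nat_lit 5) (nat_lit 505) (nat_lit 352) (nat_lit 283)))))) (XT.nd (nat_lit 53976) (nat_lit 0) (nat_lit 16112) (XT.nd (nat_lit 53742) (nat_lit 0) (nat_lit 18772) (XT.nd (nat_lit 78) (nat_lit 0) (nat_lit 0) (XT.lf (nat_lit 0) (nat_lit 2398698572) (nat_lit 152) (nat_lit 4770741831) (nat_lit 228) (nat_lit 9650120473) (nat_lit 27) (nat_lit 5) (nat_lit 29) (nat_lit 5) (nat_lit 30) (nat_lit 5) (nat_lit 506) (nat_lit 352) (nat_lit 282)) (XT.lf (nat_lit 0) (nat_lit 12081910525) (nat_lit 228) (nat_lit 4592454395) (nat_lit 76) (nat_lit 370724481) (nat_lit 27) (nat_lit 5) (nat_lit 30) (nat_lit 5) (nat_lit 28) (nat_lit 4) (nat_lit 507) (nat_lit 352) (nat_lit 281))) (XT.nd (nat_lit 78) (nat_lit 1444) (nat_lit 0) (XT.lf (nat_lit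 0) (nat_lit 1769629454) (nat_lit 684) (nat_lit 1087099878) (nat_lit 684) (nat_lit 1087099878) (nat_lit 293) (nat_lit 4) (nat_lit 302) (nat_lit 5) (nat_lit 302) (nat_lit 4) (nat_lit 434) (nat_lit 353) (nat_lit 353)) (XT.nd (nat_lit 78) (nat_lit 684) (nat_lit 0) (XT.lf (nat_lit 0) (nat_lit 1567107033) (nat_lit 760) (nat_lit 6069691745) (nat_lit 0) (nat_lit 306655753) (nat_lit 283) (nat_lit 5) (nat_lit 293) (nat_lit 4) (nat_lit 283) (nat_lit 4) (nat_lit 435) (nat_lit 353) (nat_lit 352)) (XT.lf (nat_lit 0) (nat_lit 168825403) (nat_lit 684) (nat_lit 5163943601) (nat_lit 684) (nat_lit 2667755770) (nat_lit 274) (nat_lit 4) (nat_lit 283) (nat_lit 5) (nat_lit 283) (nat_lit 4) (nat_lit 436) (nat_lit 353) (nat_lit 351))))) (XT.nd (nat_lit 234) (nat_lit 1292) (nat_lit 0) (XT.nd (nat_lit 78) (nat_lit 1292) (nat_lit 0) (XT.lf (nat_lit 0) (nat_lit 1075437247) (nat_lit 760) (nat_lit 1535311012) (nat_lit 76) (nat_lit 5448360070) (nat_lit 273)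 (nat_lit 5) (nat_lit 283) (nat_lit 5) (nat_lit 274) (nat_lit 4) (nat_lit 437) (nat_lit 353) (nat_lit 350)) (XT.nd (nat_lit 78) (nat_lit 684) (nat_lit 0) (XT.lf (nat_lit 0) (nat_lit 4824810159) (nat_lit 684) (nat_lit 3269023735) (nat_lit 0) (nat_lit 25353644) (nat_lit 265) (nat_lit 5) (nat_lit 274) (nat_lit 4) (nat_lit 265) (nat_lit 4) (nat_lit 438) (nat_lit 353) (nat_lit 349)) (XT.lf (nat_lit 0) (nat_lit 446472116) (nat_lit 684) (nat_lit 5039212399) (nat_lit 76) (nat_lit 2695061343) (nat_lit 256) (nat_lit 5) (nat_lit 265) (nat_lit 5) (nat_lit 257) (nat_lit 4) (nat_lit 439) (nat_lit 353) (nat_lit 348)))) (XT.nd (nat_lit 78) (nat_lit 684) (nat_lit 0) (XT.lf (nat_lit 0) (nat_lit 1394274539) (nat_lit 608) (nat_lit 2791173618) (nat_lit 684) (nat_lit 4058319646) (nat_lit 248) (nat_lit 5) (nat_lit 256) (nat_lit 5) (nat_lit 257) (nat_lit 4) (nat_lit 440) (nat_lit 353) (nat_lit 347)) (XT.nd (nat_lit 78) (nat_lit 684) (nat_lit 0) (XT.lf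 (nat_lit 0) (nat_lit 7941721907) (nat_lit 608) (nat_lit 28254002) (nat_lit 684) (nat_lit 338674915) (nat_lit 248) (nat_lit 5) (nat_lit 256) (nat_lit 5) (nat_lit 257) (nat_lit 4) (nat_lit 441) (nat_lit 353) (nat_lit 346)) (XT.lf (nat_lit 0) (nat_lit 3406611817) (nat_lit 684) (nat_lit 2171009287) (nat_lit 76) (nat_lit 2796845832) (nat_lit 239) (nat_lit 5) (nat_lit 248) (nat_lit 5) (nat_lit 240) (nat_lit 4) (nat_lit 442) (nat_lit 353) (nat_lit 345))))))) (XT.nd (nat_lit 858) (nat_lit 3800) (nat_lit 0) (XT.nd (nat_lit 390) (nat_lit 2584) (nat_lit 0) (XT.nd (nat_lit 156) (nat_lit 1140) (nat_lit 0) (XT.nd (nat_lit 78) (nat_lit 608) (nat_lit 0) (XT.lf (nat_lit 0) (nat_lit 4441676682) (nat_lit 532) (nat_lit 2750427727) (nat_lit 608) (nat_lit 1250068642) (nat_lit 232) (nat_lit 5) (nat_lit 239) (nat_lit 5) (nat_lit 240) (nat_lit 4) (nat_lit 443) (nat_lit 353) (nat_lit 344)) (XT.lf (nat_lit 0) (nat_lit 2480167791) (nat_lit 608) (nat_lit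 5872520474) (nat_lit 76) (nat_lit 158800810) (nat_lit 224) (nat_lit 5) (nat_lit 232) (nat_lit 5) (nat_lit 225) (nat_lit 4) (nat_lit 444) (nat_lit 353) (nat_lit 343))) (XT.nd (nat_lit 78) (nat_lit 608) (nat_lit 0) (XT.lf (nat_lit 0) (nat_lit 783771202) (nat_lit 532) (nat_lit 5473951793) (nat_lit 608) (nat_lit 2324528396) (nat_lit 217) (nat_lit 5) (nat_lit 224) (nat_lit 5) (nat_lit 225) (nat_lit 4) (nat_lit 445) (nat_lit 353) (nat_lit 342)) (XT.nd (nat_lit 78) (nat_lit 532) (nat_lit 0) (XT.lf (nat_lit 0) (nat_lit 1416319922) (nat_lit 608) (nat_lit 1094468012) (nat_lit 76) (nat_lit 6143885216) (nat_lit 216) (nat_lit 5) (nat_lit 224) (nat_lit 5) (nat_lit 217) (nat_lit 5) (nat_lit 446) (nat_lit 353) (nat_lit 341)) (XT.lf (nat_lit 0) (nat_lit 5182096265) (nat_lit 608) (nat_lit 3011212273) (nat_lit 76) (nat_lit 535316227) (nat_lit 209) (nat_lit 5) (nat_lit 217) (nat_lit 5) (nat_lit 210) (nat_lit 4) (nat_lit 447) (nat_lit 353) (nat_lit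 340))))) (XT.nd (nat_lit 234) (nat_lit 1520) (nat_lit 0) (XT.nd (nat_lit 78) (nat_lit 532) (nat_lit 0) (XT.lf (nat_lit 0) (nat_lit 206076199) (nat_lit 532) (nat_lit 4978407553) (nat_lit 76) (nat_lit 3619759790) (nat_lit 202) (nat_lit 5) (nat_lit 209) (nat_lit 5) (nat_lit 203) (nat_lit 5) (nat_lit 448) (nat_lit 353) (nat_lit 339)) (XT.nd (nat_lit 78) (nat_lit 0) (nat_lit 0) (XT.lf (nat_lit 0) (nat_lit 1877468739) (nat_lit 532) (nat_lit 2082602088) (nat_lit 608) (nat_lit 4921371179) (nat_lit 195) (nat_lit 5) (nat_lit 202) (nat_lit 5) (nat_lit 203) (nat_lit 5) (nat_lit 449) (nat_lit 353) (nat_lit 338)) (XT.lf (nat_lit 0) (nat_lit 7771504607) (nat_lit 608) (nat_lit 112289277) (nat_lit 76) (nat_lit 1076755800) (nat_lit 195) (nat_lit 5) (nat_lit 203) (nat_lit 5) (nat_lit 196) (nat_lit 4) (nat_lit 450) (nat_lit 353) (nat_lit 337)))) (XT.nd (nat_lit 78) (nat_lit 988) (nat_lit 0) (XT.lf (nat_lit 0) (nat_lit 2585114601) (nat_lit 532)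 (nat_lit 2145977316) (nat_lit 76) (nat_lit 4309789168) (nat_lit 188) (nat_lit 5) (nat_lit 195) (nat_lit 5) (nat_lit 189) (nat_lit 5) (nat_lit 451) (nat_lit 353) (nat_lit 336)) (XT.nd (nat_lit 78) (nat_lit 532) (nat_lit 0) (XT.lf (nat_lit 0) (nat_lit 4895210349) (nat_lit 456) (nat_lit 1499241101) (nat_lit 532) (nat_lit 2728709880) (nat_lit 182) (nat_lit 5) (nat_lit 188) (nat_lit 5) (nat_lit 189) (nat_lit 5) (nat_lit 452) (nat_lit 353) (nat_lit 335)) (XT.lf (nat_lit 0) (nat_lit 1046829701) (nat_lit 532) (nat_lit 6371701512) (nat_lit 76) (nat_lit 1788667649) (nat_lit 175) (nat_lit 5) (nat_lit 182) (nat_lit 5) (nat_lit 176) (nat_lit 5) (nat_lit 453) (nat_lit 353) (nat_lit 334)))))) (XT.nd (nat_lit 468) (nat_lit 1976) (nat_lit 0) (XT.nd (nat_lit 234) (nat_lit 912) (nat_lit 0) (XT.nd (nat_lit 78) (nat_lit 456) (nat_lit 0) (XT.lf (nat_lit 0) (nat_lit 703492389) (nat_lit 456) (nat_lit 4144617434) (nat_lit 532) (nat_lit 4444722279) (nat_lit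 169) (nat_lit 5) (nat_lit 175) (nat_lit 5) (nat_lit 176) (nat_lit 5) (nat_lit 454) (nat_lit 353) (nat_lit 333)) (XT.nd (nat_lit 78) (nat_lit 456) (nat_lit 0) (XT.lf (nat_lit 0) (nat_lit 7924382086) (nat_lit 456) (nat_lit 788038813) (nat_lit 532) (nat_lit 668027824) (nat_lit 169) (nat_lit 5) (nat_lit 175) (nat_lit 5) (nat_lit 176) (nat_lit 5) (nat_lit 455) (nat_lit 353) (nat_lit 332)) (XT.lf (nat_lit 0) (nat_lit 3142353413) (nat_lit 456) (nat_lit 3693213708) (nat_lit 76) (nat_lit 2633849192) (nat_lit 163) (nat_lit 5) (nat_lit 169) (nat_lit 5) (nat_lit 164) (nat_lit 5) (nat_lit 456) (nat_lit 353) (nat_lit 331)))) (XT.nd (nat_lit 78) (nat_lit 456) (nat_lit 0) (XT.lf (nat_lit 0) (nat_lit 3568275152) (nat_lit 456) (nat_lit 3435305166) (nat_lit 532) (nat_lit 2556833162) (nat_lit 157) (nat_lit 5) (nat_lit 163) (nat_lit 5) (nat_lit 164) (nat_lit 5) (nat_lit 457) (nat_lit 353) (nat_lit 330)) (XT.nd (nat_lit 78) (nat_lit 0) (nat_lit 0)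 (XT.lf (nat_lit 0) (nat_lit 1251120613) (nat_lit 456) (nat_lit 8354880960) (nat_lit 76) (nat_lit 47487019) (nat_lit 151) (nat_lit 5) (nat_lit 157) (nat_lit 5) (nat_lit 152) (nat_lit 5) (nat_lit 458) (nat_lit 353) (nat_lit 329)) (XT.lf (nat_lit 0) (nat_lit 5110147126) (nat_lit 456) (nat_lit 1053446969) (nat_lit 76) (nat_lit 3584319713) (nat_lit 151) (nat_lit 5) (nat_lit 157) (nat_lit 5) (nat_lit 152) (nat_lit 5) (nat_lit 459) (nat_lit 353) (nat_lit 328))))) (XT.nd (nat_lit 234) (nat_lit 760) (nat_lit 0) (XT.nd (nat_lit 78) (nat_lit 836) (nat_lit 0) (XT.lf (nat_lit 0) (nat_lit 6397259887) (nat_lit 380) (nat_lit 2637581098) (nat_lit 456) (nat_lit 809626228) (nat_lit 146) (nat_lit 5) (nat_lit 151) (nat_lit 5) (nat_lit 152) (nat_lit 5) (nat_lit 460) (nat_lit 353) (nat_lit 327)) (XT.nd (nat_lit 78) (nat_lit 380) (nat_lit 0) (XT.lf (nat_lit 0) (nat_lit 3041214558) (nat_lit 456) (nat_lit 5929154381) (nat_lit 76) (nat_lit 972455296)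 (nat_lit 140) (nat_lit 5) (nat_lit 146) (nat_lit 5) (nat_lit 141) (nat_lit 5) (nat_lit 461) (nat_lit 353) (nat_lit 326)) (XT.lf (nat_lit 0) (nat_lit 1543891337) (nat_lit 380) (nat_lit 5412575918) (nat_lit 456) (nat_lit 3086618268) (nat_lit 135) (nat_lit 5) (nat_lit 140) (nat_lit 5) (nat_lit 141) (nat_lit 5) (nat_lit 462) (nat_lit 353) (nat_lit 325)))) (XT.nd (nat_lit 78) (nat_lit 684) (nat_lit 0) (XT.lf (nat_lit 0) (nat_lit 781773021) (nat_lit 456) (nat_lit 984627140) (nat_lit 76) (nat_lit 8379102850) (nat_lit 134) (nat_lit 5) (nat_lit 140) (nat_lit 5) (nat_lit 135) (nat_lit 5) (nat_lit 463) (nat_lit 353) (nat_lit 324)) (XT.nd (nat_lit 78) (nat_lit 380) (nat_lit 0) (XT.lf (nat_lit 0) (nat_lit 4691076262) (nat_lit 380) (nat_lit 3595167703) (nat_lit 76) (nat_lit 1963227717) (nat_lit 130) (nat_lit 5) (nat_lit 135) (nat_lit 5) (nat_lit 131) (nat_lit 5) (nat_lit 464) (nat_lit 353) (nat_lit 323)) (XT.lf (nat_lit 0) (nat_lit 4065476799)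 (nat_lit 380) (nat_lit 4606772063) (nat_lit 456) (nat_lit 1683405402) (nat_lit 125) (nat_lit 5) (nat_lit 130) (nat_lit 5) (nat_lit 131) (nat_lit 5) (nat_lit 465) (nat_lit 353) (nat_lit 322))))))))
noncomputable def xc31 : XT := (XT.nd (nat_lit 1716) (nat_lit 2736) (nat_lit 0) (XT.nd (nat_lit 858) (nat_lit 1976) (nat_lit 0) (XT.nd (nat_lit 390) (nat_lit 1292) (nat_lit 0) (XT.nd (nat_lit 156) (nat_lit 1064) (nat_lit 0) (XT.nd (nat_lit 78) (nat_lit 0) (nat_lit 0) (XT.lf (nat_lit 0) (nat_lit 1387665268) (nat_lit 304) (nat_lit 834034818) (nat_lit 380) (nat_lit 8242326144) (nat_lit 120) (nat_lit 5) (nat_lit 124) (nat_lit 5) (nat_lit 125) (nat_lit 5) (nat_lit 466) (nat_lit 353) (nat_lit 321)) (XT.lf (nat_lit 0) (nat_lit 6193818972) (nat_lit 380) (nat_lit 1380919730) (nat_lit 76) (nat_lit 2999383074) (nat_lit 120) (nat_lit 5) (nat_lit 125) (nat_lit 5) (nat_lit 121) (nat_lit 5) (nat_lit 467) (nat_lit 353) (nat_lit 320))) (XT.nd (nat_lit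 78) (nat_lit 684) (nat_lit 0) (XT.lf (nat_lit 0) (nat_lit 6468795009) (nat_lit 380) (nat_lit 3774472231) (nat_lit 456) (nat_lit 443201829) (nat_lit 115) (nat_lit 5) (nat_lit 120) (nat_lit 5) (nat_lit 121) (nat_lit 5) (nat_lit 468) (nat_lit 353) (nat_lit 319)) (XT.nd (nat_lit 78) (nat_lit 304) (nat_lit 0) (XT.lf (nat_lit 0) (nat_lit 3510073945) (nat_lit 380) (nat_lit 7163065612) (nat_lit 76) (nat_lit 127781342) (nat_lit 110) (nat_lit 5) (nat_lit 115) (nat_lit 5) (nat_lit 111) (nat_lit 5) (nat_lit 469) (nat_lit 353) (nat_lit 318)) (XT.lf (nat_lit 0) (nat_lit 692156911) (nat_lit 304) (nat_lit 6853073806) (nat_lit 380) (nat_lit 3372204598) (nat_lit 106) (nat_lit 5) (nat_lit 110) (nat_lit 5) (nat_lit 111) (nat_lit 5) (nat_lit 470) (nat_lit 353) (nat_lit 317))))) (XT.nd (nat_lit 234) (nat_lit 608) (nat_lit 0) (XT.nd (nat_lit 78) (nat_lit 608) (nat_lit 0) (XT.lf (nat_lit 0) (nat_lit 615889578) (nat_lit 380) (nat_lit 2317622900) (nat_lit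 76) (nat_lit 8102707802) (nat_lit 105) (nat_lit 5) (nat_lit 110) (nat_lit 5) (nat_lit 106) (nat_lit 5) (nat_lit 471) (nat_lit 353) (nat_lit 316)) (XT.nd (nat_lit 78) (nat_lit 304) (nat_lit 0) (XT.lf (nat_lit 0) (nat_lit 4634753010) (nat_lit 380) (nat_lit 5441312847) (nat_lit 76) (nat_lit 1080952785) (nat_lit 101) (nat_lit 5) (nat_lit 106) (nat_lit 5) (nat_lit 102) (nat_lit 5) (nat_lit 472) (nat_lit 353) (nat_lit 315)) (XT.lf (nat_lit 0) (nat_lit 2597525693) (nat_lit 304) (nat_lit 6140514084) (nat_lit 380) (nat_lit 2542118869) (nat_lit 97) (nat_lit 5) (nat_lit 101) (nat_lit 5) (nat_lit 102) (nat_lit 5) (nat_lit 473) (nat_lit 353) (nat_lit 314)))) (XT.nd (nat_lit 78) (nat_lit 532) (nat_lit 0) (XT.lf (nat_lit 0) (nat_lit 1486695309) (nat_lit 380) (nat_lit 622560135) (nat_lit 76) (nat_lit 9296535908) (nat_lit 96) (nat_lit 5) (nat_lit 101) (nat_lit 5) (nat_lit 97) (nat_lit 5) (nat_lit 474) (nat_lit 353) (nat_lit 313)) (XT.nd (nat_lit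 78) (nat_lit 304) (nat_lit 0) (XT.lf (nat_lit 0) (nat_lit 5577850199) (nat_lit 304) (nat_lit 3941981830) (nat_lit 76) (nat_lit 2013458762) (nat_lit 93) (nat_lit 5) (nat_lit 97) (nat_lit 5) (nat_lit 94) (nat_lit 5) (nat_lit 475) (nat_lit 353) (nat_lit 312)) (XT.lf (nat_lit 0) (nat_lit 4279738371) (nat_lit 304) (nat_lit 5470429665) (nat_lit 380) (nat_lit 1913191480) (nat_lit 89) (nat_lit 5) (nat_lit 93) (nat_lit 5) (nat_lit 94) (nat_lit 5) (nat_lit 476) (nat_lit 353) (nat_lit 311)))))) (XT.nd (nat_lit 390) (nat_lit 1064) (nat_lit 0) (XT.nd (nat_lit 156) (nat_lit 608) (nat_lit 0) (XT.nd (nat_lit 78) (nat_lit 0) (nat_lit 0) (XT.lf (nat_lit 0) (nat_lit 843212672) (nat_lit 228) (nat_lit 1323293721) (nat_lit 304) (nat_lit 9629530374) (nat_lit 85) (nat_lit 5) (nat_lit 88) (nat_lit 5) (nat_lit 89) (nat_lit 5) (nat_lit 477) (nat_lit 353) (nat_lit 310)) (XT.lf (nat_lit 0) (nat_lit 6324653992) (nat_lit 304) (nat_lit 2704949361) (nat_lit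 76) (nat_lit 2901067562) (nat_lit 85) (nat_lit 5) (nat_lit 89) (nat_lit 5) (nat_lit 86) (nat_lit 5) (nat_lit 478) (nat_lit 353) (nat_lit 309))) (XT.nd (nat_lit 78) (nat_lit 304) (nat_lit 0) (XT.lf (nat_lit 0) (nat_lit 5697994854) (nat_lit 304) (nat_lit 4868336777) (nat_lit 380) (nat_lit 1501664401) (nat_lit 81) (nat_lit 5) (nat_lit 85) (nat_lit 5) (nat_lit 86) (nat_lit 5) (nat_lit 479) (nat_lit 353) (nat_lit 308)) (XT.nd (nat_lit 78) (nat_lit 0) (nat_lit 0) (XT.lf (nat_lit 0) (nat_lit 2031083093) (nat_lit 228) (nat_lit 604645516) (nat_lit 304) (nat_lit 9572272534) (nat_lit 77) (nat_lit 5) (nat_lit 80) (nat_lit 5) (nat_lit 81) (nat_lit 5) (nat_lit 480) (nat_lit 353) (nat_lit 307)) (XT.lf (nat_lit 0) (nat_lit 6858026213) (nat_lit 304) (nat_lit 1774121847) (nat_lit 76) (nat_lit 3718019799) (nat_lit 77) (nat_lit 5) (nat_lit 81) (nat_lit 5) (nat_lit 78) (nat_lit 5) (nat_lit 481) (nat_lit 353) (nat_lit 306))))) (XT.nd (nat_lit 234)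 (nat_lit 532) (nat_lit 0) (XT.nd (nat_lit 78) (nat_lit 304) (nat_lit 0) (XT.lf (nat_lit 0) (nat_lit 6807330846) (nat_lit 228) (nat_lit 4361430580) (nat_lit 304) (nat_lit 1326341853) (nat_lit 74) (nat_lit 5) (nat_lit 77) (nat_lit 5) (nat_lit 78) (nat_lit 5) (nat_lit 482) (nat_lit 353) (nat_lit 305)) (XT.nd (nat_lit 78) (nat_lit 0) (nat_lit 0) (XT.lf (nat_lit 0) (nat_lit 2871137081) (nat_lit 304) (nat_lit 9757147075) (nat_lit 76) (nat_lit 14544801) (nat_lit 70) (nat_lit 5) (nat_lit 74) (nat_lit 5) (nat_lit 71) (nat_lit 5) (nat_lit 483) (nat_lit 353) (nat_lit 304)) (XT.lf (nat_lit 0) (nat_lit 7158190967) (nat_lit 304) (nat_lit 1197925363) (nat_lit 76) (nat_lit 4436754675) (nat_lit 70) (nat_lit 5) (nat_lit 74) (nat_lit 5) (nat_lit 71) (nat_lit 5) (nat_lit 484) (nat_lit 353) (nat_lit 303)))) (XT.nd (nat_lit 78) (nat_lit 304) (nat_lit 0) (XT.lf (nat_lit 0) (nat_lit 7558112694) (nat_lit 228) (nat_lit 3978871131) (nat_lit 304) (nat_lit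 1408814915) (nat_lit 67) (nat_lit 5) (nat_lit 70) (nat_lit 5) (nat_lit 71) (nat_lit 5) (nat_lit 485) (nat_lit 353) (nat_lit 302)) (XT.nd (nat_lit 78) (nat_lit 0) (nat_lit 0) (XT.lf (nat_lit 0) (nat_lit 2853678057) (nat_lit 304) (nat_lit 9749540403) (nat_lit 76) (nat_lit 498391109) (nat_lit 63) (nat_lit 5) (nat_lit 67) (nat_lit 5) (nat_lit 64) (nat_lit 5) (nat_lit 486) (nat_lit 353) (nat_lit 301)) (XT.lf (nat_lit 0) (nat_lit 7202497439) (nat_lit 304) (nat_lit 1029843518) (nat_lit 76) (nat_lit 5027615129) (nat_lit 63) (nat_lit 5) (nat_lit 67) (nat_lit 5) (nat_lit 64) (nat_lit 5) (nat_lit 487) (nat_lit 353) (nat_lit 300))))))) (XT.nd (nat_lit 858) (nat_lit 988) (nat_lit 0) (XT.nd (nat_lit 390) (nat_lit 836) (nat_lit 0) (XT.nd (nat_lit 156) (nat_lit 456) (nat_lit 0) (XT.nd (nat_lit 78) (nat_lit 228) (nat_lit 0) (XT.lf (nat_lit 0) (nat_lit 7895482783) (nat_lit 228) (nat_lit 3752091926) (nat_lit 304) (nat_lit 1773713632) (nat_lit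 60) (nat_lit 5) (nat_lit 63) (nat_lit 5) (nat_lit 64) (nat_lit 5) (nat_lit 488) (nat_lit 353) (nat_lit 299)) (XT.lf (nat_lit 0) (nat_lit 2554092115) (nat_lit 228) (nat_lit 10208557951) (nat_lit 76) (nat_lit 823015801) (nat_lit 57) (nat_lit 5) (nat_lit 60) (nat_lit 5) (nat_lit 58) (nat_lit 5) (nat_lit 489) (nat_lit 353) (nat_lit 298))) (XT.nd (nat_lit 78) (nat_lit 456) (nat_lit 0) (XT.lf (nat_lit 0) (nat_lit 6965154109) (nat_lit 228) (nat_lit 1329008464) (nat_lit 76) (nat_lit 5458529066) (nat_lit 57) (nat_lit 5) (nat_lit 60) (nat_lit 5) (nat_lit 58) (nat_lit 5) (nat_lit 490) (nat_lit 353) (nat_lit 297)) (XT.nd (nat_lit 78) (nat_lit 228) (nat_lit 0) (XT.lf (nat_lit 0) (nat_lit 7758749960) (nat_lit 228) (nat_lit 3715133933) (nat_lit 304) (nat_lit 2448989202) (nat_lit 54) (nat_lit 5) (nat_lit 57) (nat_lit 5) (nat_lit 58) (nat_lit 5) (nat_lit 491) (nat_lit 353) (nat_lit 296)) (XT.lf (nat_lit 0) (nat_lit 1943660396) (nat_lit 228)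 (nat_lit 11198765844) (nat_lit 76) (nat_lit 953914246) (nat_lit 51) (nat_lit 5) (nat_lit 54) (nat_lit 5) (nat_lit 52) (nat_lit 5) (nat_lit 492) (nat_lit 353) (nat_lit 295))))) (XT.nd (nat_lit 234) (nat_lit 380) (nat_lit 0) (XT.nd (nat_lit 78) (nat_lit 456) (nat_lit 0) (XT.lf (nat_lit 0) (nat_lit 6416931661) (nat_lit 228) (nat_lit 2160850873) (nat_lit 76) (nat_lit 5694663586) (nat_lit 51) (nat_lit 5) (nat_lit 54) (nat_lit 5) (nat_lit 52) (nat_lit 5) (nat_lit 493) (nat_lit 353) (nat_lit 294)) (XT.nd (nat_lit 78) (nat_lit 228) (nat_lit 0) (XT.lf (nat_lit 0) (nat_lit 7080718982) (nat_lit 228) (nat_lit 3905008371) (nat_lit 304) (nat_lit 3466229122) (nat_lit 48) (nat_lit 5) (nat_lit 51) (nat_lit 5) (nat_lit 52) (nat_lit 5) (nat_lit 494) (nat_lit 353) (nat_lit 293)) (XT.lf (nat_lit 0) (nat_lit 989954267) (nat_lit 228) (nat_lit 12791613191) (nat_lit 76) (nat_lit 853514564) (nat_lit 45) (nat_lit 5) (nat_lit 48) (nat_lit 5) (nat_lit 46)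 (nat_lit 5) (nat_lit 495) (nat_lit 353) (nat_lit 292)))) (XT.nd (nat_lit 78) (nat_lit 380) (nat_lit 0) (XT.lf (nat_lit 0) (nat_lit 5524831552) (nat_lit 228) (nat_lit 3597815325) (nat_lit 76) (nat_lit 5698048878) (nat_lit 45) (nat_lit 5) (nat_lit 48) (nat_lit 5) (nat_lit 46) (nat_lit 5) (nat_lit 496) (nat_lit 353) (nat_lit 291)) (XT.nd (nat_lit 78) (nat_lit 152) (nat_lit 0) (XT.lf (nat_lit 0) (nat_lit 5786952313) (nat_lit 228) (nat_lit 4362091704) (nat_lit 304) (nat_lit 4861008493) (nat_lit 42) (nat_lit 5) (nat_lit 45) (nat_lit 5) (nat_lit 46) (nat_lit 5) (nat_lit 497) (nat_lit 353) (nat_lit 290)) (XT.lf (nat_lit 0) (nat_lit 134942614) (nat_lit 152) (nat_lit 14720374141) (nat_lit 228) (nat_lit 348091556) (nat_lit 40) (nat_lit 5) (nat_lit 42) (nat_lit 5) (nat_lit 43) (nat_lit 4) (nat_lit 498) (nat_lit 353) (nat_lit 289)))))) (XT.nd (nat_lit 468) (nat_lit 380) (nat_lit 0) (XT.nd (nat_lit 234) (nat_lit 380) (nat_lit 0) (XT.nd (nat_lit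 78) (nat_lit 152) (nat_lit 0) (XT.lf (nat_lit 0) (nat_lit 4251716893) (nat_lit 228) (nat_lit 5720148184) (nat_lit 76) (nat_lit 5427168126) (nat_lit 39) (nat_lit 5) (nat_lit 42) (nat_lit 5) (nat_lit 40) (nat_lit 5) (nat_lit 499) (nat_lit 353) (nat_lit 288)) (XT.nd (nat_lit 78) (nat_lit 0) (nat_lit 0) (XT.lf (nat_lit 0) (nat_lit 3794956984) (nat_lit 152) (nat_lit 5130556729) (nat_lit 228) (nat_lit 6673281032) (nat_lit 37) (nat_lit 5) (nat_lit 39) (nat_lit 5) (nat_lit 40) (nat_lit 5) (nat_lit 500) (nat_lit 353) (nat_lit 287)) (XT.lf (nat_lit 0) (nat_lit 13510702407) (nat_lit 152) (nat_lit 182787287) (nat_lit 228) (nat_lit 2109050929) (nat_lit 37) (nat_lit 5) (nat_lit 39) (nat_lit 5) (nat_lit 40) (nat_lit 5) (nat_lit 501) (nat_lit 353) (nat_lit 286)))) (XT.nd (nat_lit 78) (nat_lit 152) (nat_lit 0) (XT.lf (nat_lit 0) (nat_lit 2555901903) (nat_lit 228) (nat_lit 8616765775) (nat_lit 76) (nat_lit 4836509412) (nat_lit 34) (nat_lit 5)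 (nat_lit 37) (nat_lit 5) (nat_lit 35) (nat_lit 5) (nat_lit 502) (nat_lit 353) (nat_lit 285)) (XT.nd (nat_lit 78) (nat_lit 0) (nat_lit 0) (XT.lf (nat_lit 0) (nat_lit 1013288430) (nat_lit 152) (nat_lit 6258843926) (nat_lit 228) (nat_lit 8947813727) (nat_lit 32) (nat_lit 5) (nat_lit 34) (nat_lit 5) (nat_lit 35) (nat_lit 5) (nat_lit 503) (nat_lit 353) (nat_lit 284)) (XT.lf (nat_lit 0) (nat_lit 10886688663) (nat_lit 152) (nat_lit 1217041540) (nat_lit 228) (nat_lit 4330782326) (nat_lit 32) (nat_lit 5) (nat_lit 34) (nat_lit 5) (nat_lit 35) (nat_lit 5) (nat_lit 504) (nat_lit 353) (nat_lit 283))))) (XT.nd (nat_lit 53664) (nat_lit 0) (nat_lit 20216) (XT.nd (nat_lit 78) (nat_lit 152) (nat_lit 0) (XT.lf (nat_lit 0) (nat_lit 390695806) (nat_lit 228) (nat_lit 12386211463) (nat_lit 76) (nat_lit 3876075260) (nat_lit 29) (nat_lit 5) (nat_lit 32) (nat_lit 5) (nat_lit 30) (nat_lit 5) (nat_lit 505) (nat_lit 353) (nat_lit 282)) (XT.nd (nat_lit 78)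 (nat_lit 152) (nat_lit 0) (XT.lf (nat_lit 0) (nat_lit 5158006965) (nat_lit 228) (nat_lit 2624558567) (nat_lit 76) (nat_lit 9092498775) (nat_lit 29) (nat_lit 5) (nat_lit 32) (nat_lit 5) (nat_lit 30) (nat_lit 5) (nat_lit 506) (nat_lit 353) (nat_lit 281)) (XT.lf (nat_lit 0) (nat_lit 7364845898) (nat_lit 152) (nat_lit 2668148843) (nat_lit 228) (nat_lit 7068349079) (nat_lit 27) (nat_lit 5) (nat_lit 29) (nat_lit 5) (nat_lit 30) (nat_lit 5) (nat_lit 507) (nat_lit 353) (nat_lit 280)))) (XT.nd (nat_lit 78) (nat_lit 1444) (nat_lit 0) (XT.lf (nat_lit 0) (nat_lit 3427643222) (nat_lit 760) (nat_lit 231247308) (nat_lit 760) (nat_lit 231247308) (nat_lit 312) (nat_lit 4) (nat_lit 322) (nat_lit 5) (nat_lit 322) (nat_lit 4) (nat_lit 432) (nat_lit 354) (nat_lit 354)) (XT.nd (nat_lit 78) (nat_lit 684) (nat_lit 0) (XT.lf (nat_lit 0) (nat_lit 3247660717) (nat_lit 760) (nat_lit 2649503151) (nat_lit 0) (nat_lit 1936287204) (nat_lit 302) (nat_lit 5)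 (nat_lit 312) (nat_lit 4) (nat_lit 302) (nat_lit 4) (nat_lit 433) (nat_lit 354) (nat_lit 353)) (XT.lf (nat_lit 0) (nat_lit 3498500132) (nat_lit 684) (nat_lit 3493429833) (nat_lit 684) (nat_lit 896396014) (nat_lit 293) (nat_lit 4) (nat_lit 302) (nat_lit 5) (nat_lit 302) (nat_lit 4) (nat_lit 434) (nat_lit 354) (nat_lit 352))))))))
noncomputable def xc32 : XT := (XT.nd (nat_lit 1716) (nat_lit 5928) (nat_lit 0) (XT.nd (nat_lit 858) (nat_lit 4104) (nat_lit 0) (XT.nd (nat_lit 390) (nat_lit 2964) (nat_lit 0) (XT.nd (nat_lit 156) (nat_lit 1368) (nat_lit 0) (XT.nd (nat_lit 78) (nat_lit 684) (nat_lit 0) (XT.lf (nat_lit 0) (nat_lit 1784499866) (nat_lit 684) (nat_lit 1008561997) (nat_lit 760) (nat_lit 5151605248) (nat_lit 283) (nat_lit 5) (nat_lit 292) (nat_lit 5) (nat_lit 293) (nat_lit 4) (nat_lit 435) (nat_lit 354) (nat_lit 351)) (XT.lf (nat_lit 0) (nat_lit 42508005) (nat_lit 684) (nat_lit 6476691677) (nat_lit 684) (nat_lit 1483337120)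 (nat_lit 274) (nat_lit 4) (nat_lit 283) (nat_lit 5) (nat_lit 283) (nat_lit 4) (nat_lit 436) (nat_lit 354) (nat_lit 350))) (XT.nd (nat_lit 78) (nat_lit 1292) (nat_lit 0) (XT.lf (nat_lit 0) (nat_lit 2212314859) (nat_lit 760) (nat_lit 1712229934) (nat_lit 76) (nat_lit 4137070523) (nat_lit 273) (nat_lit 5) (nat_lit 283) (nat_lit 5) (nat_lit 274) (nat_lit 4) (nat_lit 437) (nat_lit 354) (nat_lit 349)) (XT.nd (nat_lit 78) (nat_lit 684) (nat_lit 0) (XT.lf (nat_lit 0) (nat_lit 4630433468) (nat_lit 608) (nat_lit 1298280180) (nat_lit 684) (nat_lit 2193648809) (nat_lit 265) (nat_lit 5) (nat_lit 273) (nat_lit 5) (nat_lit 274) (nat_lit 4) (nat_lit 438) (nat_lit 354) (nat_lit 348)) (XT.lf (nat_lit 0) (nat_lit 1491297227) (nat_lit 684) (nat_lit 5308361620) (nat_lit 76) (nat_lit 1384956459) (nat_lit 256) (nat_lit 5) (nat_lit 265) (nat_lit 5) (nat_lit 257) (nat_lit 4) (nat_lit 439) (nat_lit 354) (nat_lit 347))))) (XT.nd (nat_lit 234) (nat_lit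 1672) (nat_lit 0) (XT.nd (nat_lit 78) (nat_lit 684) (nat_lit 0) (XT.lf (nat_lit 0) (nat_lit 1080450862) (nat_lit 608) (nat_lit 4116841996) (nat_lit 684) (nat_lit 3051011963) (nat_lit 248) (nat_lit 5) (nat_lit 256) (nat_lit 5) (nat_lit 257) (nat_lit 4) (nat_lit 440) (nat_lit 354) (nat_lit 346)) (XT.nd (nat_lit 78) (nat_lit 608) (nat_lit 0) (XT.lf (nat_lit 0) (nat_lit 629055454) (nat_lit 684) (nat_lit 730339664) (nat_lit 76) (nat_lit 6954329714) (nat_lit 247) (nat_lit 5) (nat_lit 256) (nat_lit 5) (nat_lit 248) (nat_lit 5) (nat_lit 441) (nat_lit 354) (nat_lit 345)) (XT.lf (nat_lit 0) (nat_lit 4328319736) (nat_lit 684) (nat_lit 2578904906) (nat_lit 76) (nat_lit 1473111438) (nat_lit 239) (nat_lit 5) (nat_lit 248) (nat_lit 5) (nat_lit 240) (nat_lit 4) (nat_lit 442) (nat_lit 354) (nat_lit 344)))) (XT.nd (nat_lit 78) (nat_lit 1140) (nat_lit 0) (XT.lf (nat_lit 0) (nat_lit 3987636943) (nat_lit 532) (nat_lit 4093294787) (nat_lit 608) (nat_lit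 367775431) (nat_lit 232) (nat_lit 5) (nat_lit 239) (nat_lit 5) (nat_lit 240) (nat_lit 4) (nat_lit 443) (nat_lit 354) (nat_lit 343)) (XT.nd (nat_lit 78) (nat_lit 532) (nat_lit 0) (XT.lf (nat_lit 0) (nat_lit 2126670998) (nat_lit 532) (nat_lit 1190032583) (nat_lit 608) (nat_lit 5201895824) (nat_lit 224) (nat_lit 5) (nat_lit 231) (nat_lit 5) (nat_lit 232) (nat_lit 5) (nat_lit 444) (nat_lit 354) (nat_lit 342)) (XT.lf (nat_lit 0) (nat_lit 224159632) (nat_lit 532) (nat_lit 6829186827) (nat_lit 608) (nat_lit 1536840439) (nat_lit 217) (nat_lit 5) (nat_lit 224) (nat_lit 5) (nat_lit 225) (nat_lit 4) (nat_lit 445) (nat_lit 354) (nat_lit 341)))))) (XT.nd (nat_lit 390) (nat_lit 2432) (nat_lit 0) (XT.nd (nat_lit 156) (nat_lit 1064) (nat_lit 0) (XT.nd (nat_lit 78) (nat_lit 532) (nat_lit 0) (XT.lf (nat_lit 0) (nat_lit 2164242073) (nat_lit 608) (nat_lit 1707850786) (nat_lit 76) (nat_lit 4791008877) (nat_lit 216) (nat_lit 5) (nat_lit 224) (nat_lit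 5) (nat_lit 217) (nat_lit 5) (nat_lit 446) (nat_lit 354) (nat_lit 340)) (XT.lf (nat_lit 0) (nat_lit 5059016836) (nat_lit 532) (nat_lit 834323719) (nat_lit 608) (nat_lit 2844452884) (nat_lit 209) (nat_lit 5) (nat_lit 216) (nat_lit 5) (nat_lit 217) (nat_lit 5) (nat_lit 447) (nat_lit 354) (nat_lit 339))) (XT.nd (nat_lit 78) (nat_lit 532) (nat_lit 0) (XT.lf (nat_lit 0) (nat_lit 860022390) (nat_lit 532) (nat_lit 5704304459) (nat_lit 76) (nat_lit 2249778909) (nat_lit 202) (nat_lit 5) (nat_lit 209) (nat_lit 5) (nat_lit 203) (nat_lit 5) (nat_lit 448) (nat_lit 354) (nat_lit 338)) (XT.nd (nat_lit 78) (nat_lit 0) (nat_lit 0) (XT.lf (nat_lit 0) (nat_lit 1101103175) (nat_lit 532) (nat_lit 3479359791) (nat_lit 608) (nat_lit 4311518490) (nat_lit 195) (nat_lit 5) (nat_lit 202) (nat_lit 5) (nat_lit 203) (nat_lit 5) (nat_lit 449) (nat_lit 354) (nat_lit 337)) (XT.lf (nat_lit 0) (nat_lit 8039099001) (nat_lit 532) (nat_lit 317499693) (nat_lit 608)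 (nat_lit 615202435) (nat_lit 195) (nat_lit 5) (nat_lit 202) (nat_lit 5) (nat_lit 203) (nat_lit 5) (nat_lit 450) (nat_lit 354) (nat_lit 336))))) (XT.nd (nat_lit 234) (nat_lit 912) (nat_lit 0) (XT.nd (nat_lit 78) (nat_lit 988) (nat_lit 0) (XT.lf (nat_lit 0) (nat_lit 3115747937) (nat_lit 532) (nat_lit 3030909979) (nat_lit 76) (nat_lit 2906119563) (nat_lit 188) (nat_lit 5) (nat_lit 195) (nat_lit 5) (nat_lit 189) (nat_lit 5) (nat_lit 451) (nat_lit 354) (nat_lit 335)) (XT.nd (nat_lit 78) (nat_lit 532) (nat_lit 0) (XT.lf (nat_lit 0) (nat_lit 3958155732) (nat_lit 456) (nat_lit 2933209150) (nat_lit 532) (nat_lit 2244372925) (nat_lit 182) (nat_lit 5) (nat_lit 188) (nat_lit 5) (nat_lit 189) (nat_lit 5) (nat_lit 452) (nat_lit 354) (nat_lit 334)) (XT.lf (nat_lit 0) (nat_lit 1481332628) (nat_lit 532) (nat_lit 7381398805) (nat_lit 76) (nat_lit 357856114) (nat_lit 175) (nat_lit 5) (nat_lit 182) (nat_lit 5) (nat_lit 176) (nat_lit 5) (nat_lit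 453) (nat_lit 354) (nat_lit 333)))) (XT.nd (nat_lit 78) (nat_lit 912) (nat_lit 0) (XT.lf (nat_lit 0) (nat_lit 5250709288) (nat_lit 532) (nat_lit 355580041) (nat_lit 76) (nat_lit 3700574884) (nat_lit 175) (nat_lit 5) (nat_lit 182) (nat_lit 5) (nat_lit 176) (nat_lit 5) (nat_lit 454) (nat_lit 354) (nat_lit 332)) (XT.nd (nat_lit 78) (nat_lit 456) (nat_lit 0) (XT.lf (nat_lit 0) (nat_lit 6820699609) (nat_lit 456) (nat_lit 2264922530) (nat_lit 532) (nat_lit 309451912) (nat_lit 169) (nat_lit 5) (nat_lit 175) (nat_lit 5) (nat_lit 176) (nat_lit 5) (nat_lit 455) (nat_lit 354) (nat_lit 331)) (XT.lf (nat_lit 0) (nat_lit 3452178391) (nat_lit 456) (nat_lit 4874293045) (nat_lit 76) (nat_lit 1158409655) (nat_lit 163) (nat_lit 5) (nat_lit 169) (nat_lit 5) (nat_lit 164) (nat_lit 5) (nat_lit 456) (nat_lit 354) (nat_lit 330))))))) (XT.nd (nat_lit 858) (nat_lit 2660) (nat_lit 0) (XT.nd (nat_lit 390) (nat_lit 1520) (nat_lit 0) (XT.nd (nat_lit 156)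 (nat_lit 1216) (nat_lit 0) (XT.nd (nat_lit 78) (nat_lit 76) (nat_lit 0) (XT.lf (nat_lit 0) (nat_lit 2331319134) (nat_lit 456) (nat_lit 4947532252) (nat_lit 532) (nat_lit 2297722900) (nat_lit 157) (nat_lit 5) (nat_lit 163) (nat_lit 5) (nat_lit 164) (nat_lit 5) (nat_lit 457) (nat_lit 354) (nat_lit 329)) (XT.lf (nat_lit 0) (nat_lit 1471649524) (nat_lit 532) (nat_lit 12657488) (nat_lit 76) (nat_lit 8186017157) (nat_lit 156) (nat_lit 5) (nat_lit 163) (nat_lit 5) (nat_lit 157) (nat_lit 5) (nat_lit 458) (nat_lit 354) (nat_lit 328))) (XT.nd (nat_lit 78) (nat_lit 836) (nat_lit 0) (XT.lf (nat_lit 0) (nat_lit 5294693504) (nat_lit 456) (nat_lit 2412009109) (nat_lit 76) (nat_lit 2058771086) (nat_lit 151) (nat_lit 5) (nat_lit 157) (nat_lit 5) (nat_lit 152) (nat_lit 5) (nat_lit 459) (nat_lit 354) (nat_lit 327)) (XT.nd (nat_lit 78) (nat_lit 456) (nat_lit 0) (XT.lf (nat_lit 0) (nat_lit 4980976642) (nat_lit 380) (nat_lit 4203468602) (nat_lit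 456) (nat_lit 678285276) (nat_lit 146) (nat_lit 5) (nat_lit 151) (nat_lit 5) (nat_lit 152) (nat_lit 5) (nat_lit 460) (nat_lit 354) (nat_lit 326)) (XT.lf (nat_lit 0) (nat_lit 2525964876) (nat_lit 380) (nat_lit 603101219) (nat_lit 456) (nat_lit 6832844123) (nat_lit 140) (nat_lit 5) (nat_lit 145) (nat_lit 5) (nat_lit 146) (nat_lit 5) (nat_lit 461) (nat_lit 354) (nat_lit 325))))) (XT.nd (nat_lit 234) (nat_lit 760) (nat_lit 0) (XT.nd (nat_lit 78) (nat_lit 760) (nat_lit 0) (XT.lf (nat_lit 0) (nat_lit 7004873704) (nat_lit 456) (nat_lit 18633063) (nat_lit 76) (nat_lit 3039457950) (nat_lit 140) (nat_lit 5) (nat_lit 146) (nat_lit 5) (nat_lit 141) (nat_lit 5) (nat_lit 462) (nat_lit 354) (nat_lit 324)) (XT.nd (nat_lit 78) (nat_lit 304) (nat_lit 0) (XT.lf (nat_lit 0) (nat_lit 784371870) (nat_lit 456) (nat_lit 2606948866) (nat_lit 76) (nat_lit 6774572991) (nat_lit 134) (nat_lit 5) (nat_lit 140) (nat_lit 5) (nat_lit 135) (nat_lit 5) (nat_lit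 463) (nat_lit 354) (nat_lit 323)) (XT.lf (nat_lit 0) (nat_lit 4647103169) (nat_lit 380) (nat_lit 5288673214) (nat_lit 76) (nat_lit 335021515) (nat_lit 130) (nat_lit 5) (nat_lit 135) (nat_lit 5) (nat_lit 131) (nat_lit 5) (nat_lit 464) (nat_lit 354) (nat_lit 322)))) (XT.nd (nat_lit 78) (nat_lit 380) (nat_lit 0) (XT.lf (nat_lit 0) (nat_lit 2310085736) (nat_lit 380) (nat_lit 6282010490) (nat_lit 456) (nat_lit 1785611825) (nat_lit 125) (nat_lit 5) (nat_lit 130) (nat_lit 5) (nat_lit 131) (nat_lit 5) (nat_lit 465) (nat_lit 354) (nat_lit 321)) (XT.nd (nat_lit 78) (nat_lit 304) (nat_lit 0) (XT.lf (nat_lit 0) (nat_lit 2087110943) (nat_lit 456) (nat_lit 446255328) (nat_lit 76) (nat_lit 7953405306) (nat_lit 124) (nat_lit 5) (nat_lit 130) (nat_lit 5) (nat_lit 125) (nat_lit 5) (nat_lit 466) (nat_lit 354) (nat_lit 320)) (XT.lf (nat_lit 0) (nat_lit 6020668976) (nat_lit 380) (nat_lit 3271607072) (nat_lit 76) (nat_lit 1305366044) (nat_lit 120)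 (nat_lit 5) (nat_lit 125) (nat_lit 5) (nat_lit 121) (nat_lit 5) (nat_lit 467) (nat_lit 354) (nat_lit 319)))))) (XT.nd (nat_lit 390) (nat_lit 1216) (nat_lit 0) (XT.nd (nat_lit 156) (nat_lit 684) (nat_lit 0) (XT.nd (nat_lit 78) (nat_lit 380) (nat_lit 0) (XT.lf (nat_lit 0) (nat_lit 4514153755) (nat_lit 380) (nat_lit 5519182140) (nat_lit 456) (nat_lit 677392794) (nat_lit 115) (nat_lit 5) (nat_lit 120) (nat_lit 5) (nat_lit 121) (nat_lit 5) (nat_lit 468) (nat_lit 354) (nat_lit 318)) (XT.lf (nat_lit 0) (nat_lit 1596154713) (nat_lit 304) (nat_lit 1644670497) (nat_lit 380) (nat_lit 7585151838) (nat_lit 110) (nat_lit 5) (nat_lit 114) (nat_lit 5) (nat_lit 115) (nat_lit 5) (nat_lit 469) (nat_lit 354) (nat_lit 317))) (XT.nd (nat_lit 78) (nat_lit 684) (nat_lit 0) (XT.lf (nat_lit 0) (nat_lit 7236913280) (nat_lit 380) (nat_lit 1411522380) (nat_lit 76) (nat_lit 2294840644) (nat_lit 110) (nat_lit 5) (nat_lit 115) (nat_lit 5) (nat_lit 111) (nat_lit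 5) (nat_lit 470) (nat_lit 354) (nat_lit 316)) (XT.nd (nat_lit 78) (nat_lit 304) (nat_lit 0) (XT.lf (nat_lit 0) (nat_lit 252929335) (nat_lit 380) (nat_lit 4502445983) (nat_lit 76) (nat_lit 6307396360) (nat_lit 105) (nat_lit 5) (nat_lit 110) (nat_lit 5) (nat_lit 106) (nat_lit 5) (nat_lit 471) (nat_lit 354) (nat_lit 315)) (XT.lf (nat_lit 0) (nat_lit 3470765442) (nat_lit 304) (nat_lit 755923904) (nat_lit 380) (nat_lit 6957786028) (nat_lit 101) (nat_lit 5) (nat_lit 105) (nat_lit 5) (nat_lit 106) (nat_lit 5) (nat_lit 472) (nat_lit 354) (nat_lit 314))))) (XT.nd (nat_lit 234) (nat_lit 608) (nat_lit 0) (XT.nd (nat_lit 78) (nat_lit 304) (nat_lit 0) (XT.lf (nat_lit 0) (nat_lit 261441589) (nat_lit 304) (nat_lit 8025210520) (nat_lit 380) (nat_lit 3021832951) (nat_lit 97) (nat_lit 5) (nat_lit 101) (nat_lit 5) (nat_lit 102) (nat_lit 5) (nat_lit 473) (nat_lit 354) (nat_lit 313)) (XT.nd (nat_lit 78) (nat_lit 228) (nat_lit 0) (XT.lf (nat_lit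 0) (nat_lit 990079498) (nat_lit 380) (nat_lit 3021874433) (nat_lit 76) (nat_lit 7422693069) (nat_lit 96) (nat_lit 5) (nat_lit 101) (nat_lit 5) (nat_lit 97) (nat_lit 5) (nat_lit 474) (nat_lit 354) (nat_lit 312)) (XT.lf (nat_lit 0) (nat_lit 5029911604) (nat_lit 304) (nat_lit 6428029964) (nat_lit 76) (nat_lit 105234343) (nat_lit 93) (nat_lit 5) (nat_lit 97) (nat_lit 5) (nat_lit 94) (nat_lit 5) (nat_lit 475) (nat_lit 354) (nat_lit 311)))) (XT.nd (nat_lit 78) (nat_lit 304) (nat_lit 0) (XT.lf (nat_lit 0) (nat_lit 1722767872) (nat_lit 304) (nat_lit 7440232859) (nat_lit 380) (nat_lit 2531031437) (nat_lit 89) (nat_lit 5) (nat_lit 93) (nat_lit 5) (nat_lit 94) (nat_lit 5) (nat_lit 476) (nat_lit 354) (nat_lit 310)) (XT.nd (nat_lit 78) (nat_lit 228) (nat_lit 0) (XT.lf (nat_lit 0) (nat_lit 1528718817) (nat_lit 380) (nat_lit 1788922071) (nat_lit 76) (nat_lit 8509712617) (nat_lit 88) (nat_lit 5) (nat_lit 93) (nat_lit 5) (nat_lit 89) (nat_lit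 5) (nat_lit 477) (nat_lit 354) (nat_lit 309)) (XT.lf (nat_lit 0) (nat_lit 5639599532) (nat_lit 304) (nat_lit 5416935328) (nat_lit 76) (nat_lit 906400917) (nat_lit 85) (nat_lit 5) (nat_lit 89) (nat_lit 5) (nat_lit 86) (nat_lit 5) (nat_lit 478) (nat_lit 354) (nat_lit 308))))))))
noncomputable def xc33 : XT := (XT.nd (nat_lit 1716) (nat_lit 912) (nat_lit 0) (XT.nd (nat_lit 858) (nat_lit 1520) (nat_lit 0) (XT.nd (nat_lit 390) (nat_lit 1064) (nat_lit 0) (XT.nd (nat_lit 156) (nat_lit 532) (nat_lit 0) (XT.nd (nat_lit 78) (nat_lit 76) (nat_lit 0) (XT.lf (nat_lit 0) (nat_lit 2912663238) (nat_lit 304) (nat_lit 6928499231) (nat_lit 380) (nat_lit 2259903453) (nat_lit 81) (nat_lit 5) (nat_lit 85) (nat_lit 5) (nat_lit 86) (nat_lit 5) (nat_lit 479) (nat_lit 354) (nat_lit 307)) (XT.lf (nat_lit 0) (nat_lit 1852263638) (nat_lit 380) (nat_lit 845901529) (nat_lit 76) (nat_lit 9543710359) (nat_lit 80) (nat_lit 5) (nat_lit 85) (nat_lit 5) (nat_lit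 81) (nat_lit 5) (nat_lit 480) (nat_lit 354) (nat_lit 306))) (XT.nd (nat_lit 78) (nat_lit 304) (nat_lit 0) (XT.lf (nat_lit 0) (nat_lit 6033480427) (nat_lit 304) (nat_lit 4719671955) (nat_lit 76) (nat_lit 1631714051) (nat_lit 77) (nat_lit 5) (nat_lit 81) (nat_lit 5) (nat_lit 78) (nat_lit 5) (nat_lit 481) (nat_lit 354) (nat_lit 305)) (XT.nd (nat_lit 78) (nat_lit 76) (nat_lit 0) (XT.lf (nat_lit 0) (nat_lit 3785911548) (nat_lit 228) (nat_lit 6517229877) (nat_lit 304) (nat_lit 2227484436) (nat_lit 74) (nat_lit 5) (nat_lit 77) (nat_lit 5) (nat_lit 78) (nat_lit 5) (nat_lit 482) (nat_lit 354) (nat_lit 304)) (XT.lf (nat_lit 0) (nat_lit 1941567566) (nat_lit 304) (nat_lit 239450388) (nat_lit 76) (nat_lit 10498257939) (nat_lit 73) (nat_lit 5) (nat_lit 77) (nat_lit 5) (nat_lit 74) (nat_lit 5) (nat_lit 483) (nat_lit 354) (nat_lit 303))))) (XT.nd (nat_lit 234) (nat_lit 532) (nat_lit 0) (XT.nd (nat_lit 78) (nat_lit 304) (nat_lit 0) (XT.lf (nat_lit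 0) (nat_lit 6191551119) (nat_lit 304) (nat_lit 4384930414) (nat_lit 76) (nat_lit 2253580193) (nat_lit 70) (nat_lit 5) (nat_lit 74) (nat_lit 5) (nat_lit 71) (nat_lit 5) (nat_lit 484) (nat_lit 354) (nat_lit 302)) (XT.nd (nat_lit 78) (nat_lit 76) (nat_lit 0) (XT.lf (nat_lit 0) (nat_lit 4292610171) (nat_lit 228) (nat_lit 6235626162) (nat_lit 304) (nat_lit 2455597614) (nat_lit 67) (nat_lit 5) (nat_lit 70) (nat_lit 5) (nat_lit 71) (nat_lit 5) (nat_lit 485) (nat_lit 354) (nat_lit 301)) (XT.lf (nat_lit 0) (nat_lit 1774694141) (nat_lit 304) (nat_lit 21049223) (nat_lit 76) (nat_lit 11344958181) (nat_lit 66) (nat_lit 5) (nat_lit 70) (nat_lit 5) (nat_lit 67) (nat_lit 5) (nat_lit 486) (nat_lit 354) (nat_lit 300)))) (XT.nd (nat_lit 78) (nat_lit 304) (nat_lit 0) (XT.lf (nat_lit 0) (nat_lit 6090932189) (nat_lit 304) (nat_lit 4466475915) (nat_lit 76) (nat_lit 2742293780) (nat_lit 63) (nat_lit 5) (nat_lit 67) (nat_lit 5) (nat_lit 64) (nat_lit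 5) (nat_lit 487) (nat_lit 354) (nat_lit 299)) (XT.nd (nat_lit 78) (nat_lit 76) (nat_lit 0) (XT.lf (nat_lit 0) (nat_lit 4377615270) (nat_lit 228) (nat_lit 6115178588) (nat_lit 304) (nat_lit 2969106749) (nat_lit 60) (nat_lit 5) (nat_lit 63) (nat_lit 5) (nat_lit 64) (nat_lit 5) (nat_lit 488) (nat_lit 354) (nat_lit 298)) (XT.lf (nat_lit 0) (nat_lit 1326661925) (nat_lit 304) (nat_lit 247590615) (nat_lit 76) (nat_lit 12053137186) (nat_lit 59) (nat_lit 5) (nat_lit 63) (nat_lit 5) (nat_lit 60) (nat_lit 5) (nat_lit 489) (nat_lit 354) (nat_lit 297)))))) (XT.nd (nat_lit 390) (nat_lit 684) (nat_lit 0) (XT.nd (nat_lit 156) (nat_lit 456) (nat_lit 0) (XT.nd (nat_lit 78) (nat_lit 228) (nat_lit 0) (XT.lf (nat_lit 0) (nat_lit 5705601571) (nat_lit 228) (nat_lit 5023739454) (nat_lit 76) (nat_lit 3065718950) (nat_lit 57) (nat_lit 5) (nat_lit 60) (nat_lit 5) (nat_lit 58) (nat_lit 5) (nat_lit 490) (nat_lit 354) (nat_lit 296)) (XT.lf (nat_lit 0) (nat_lit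 3979932083) (nat_lit 228) (nat_lit 6190000383) (nat_lit 304) (nat_lit 3796198935) (nat_lit 54) (nat_lit 5) (nat_lit 57) (nat_lit 5) (nat_lit 58) (nat_lit 5) (nat_lit 491) (nat_lit 354) (nat_lit 295))) (XT.nd (nat_lit 78) (nat_lit 380) (nat_lit 0) (XT.lf (nat_lit 0) (nat_lit 569159399) (nat_lit 304) (nat_lit 982004760) (nat_lit 76) (nat_lit 12589510688) (nat_lit 53) (nat_lit 5) (nat_lit 57) (nat_lit 5) (nat_lit 54) (nat_lit 5) (nat_lit 492) (nat_lit 354) (nat_lit 294)) (XT.nd (nat_lit 78) (nat_lit 228) (nat_lit 0) (XT.lf (nat_lit 0) (nat_lit 5006096866) (nat_lit 228) (nat_lit 6122467984) (nat_lit 76) (nat_lit 3188944182) (nat_lit 51) (nat_lit 5) (nat_lit 54) (nat_lit 5) (nat_lit 52) (nat_lit 5) (nat_lit 493) (nat_lit 354) (nat_lit 293)) (XT.lf (nat_lit 0) (nat_lit 3032044164) (nat_lit 228) (nat_lit 6497189879) (nat_lit 304) (nat_lit 4968700352) (nat_lit 48) (nat_lit 5) (nat_lit 51) (nat_lit 5) (nat_lit 52) (nat_lit 5) (nat_lit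 494) (nat_lit 354) (nat_lit 292))))) (XT.nd (nat_lit 234) (nat_lit 228) (nat_lit 0) (XT.nd (nat_lit 78) (nat_lit 456) (nat_lit 0) (XT.lf (nat_lit 0) (nat_lit 12384493125) (nat_lit 228) (nat_lit 1760619556) (nat_lit 304) (nat_lit 536813654) (nat_lit 48) (nat_lit 5) (nat_lit 51) (nat_lit 5) (nat_lit 52) (nat_lit 5) (nat_lit 495) (nat_lit 354) (nat_lit 291)) (XT.nd (nat_lit 78) (nat_lit 228) (nat_lit 0) (XT.lf (nat_lit 0) (nat_lit 3959183337) (nat_lit 228) (nat_lit 7835440037) (nat_lit 76) (nat_lit 3073906546) (nat_lit 45) (nat_lit 5) (nat_lit 48) (nat_lit 5) (nat_lit 46) (nat_lit 5) (nat_lit 496) (nat_lit 354) (nat_lit 290)) (XT.lf (nat_lit 0) (nat_lit 1459174942) (nat_lit 228) (nat_lit 7077225196) (nat_lit 304) (nat_lit 6522428150) (nat_lit 42) (nat_lit 5) (nat_lit 45) (nat_lit 5) (nat_lit 46) (nat_lit 5) (nat_lit 497) (nat_lit 354) (nat_lit 289)))) (XT.nd (nat_lit 78) (nat_lit 228) (nat_lit 0) (XT.lf (nat_lit 0) (nat_lit 10978883426)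 (nat_lit 228) (nat_lit 2240999500) (nat_lit 304) (nat_lit 2032758626) (nat_lit 42) (nat_lit 5) (nat_lit 45) (nat_lit 5) (nat_lit 46) (nat_lit 5) (nat_lit 498) (nat_lit 354) (nat_lit 288)) (XT.nd (nat_lit 78) (nat_lit 0) (nat_lit 0) (XT.lf (nat_lit 0) (nat_lit 2527484223) (nat_lit 228) (nat_lit 10243253888) (nat_lit 76) (nat_lit 2678981900) (nat_lit 39) (nat_lit 5) (nat_lit 42) (nat_lit 5) (nat_lit 40) (nat_lit 5) (nat_lit 499) (nat_lit 354) (nat_lit 287)) (XT.lf (nat_lit 0) (nat_lit 7158203214) (nat_lit 228) (nat_lit 810751264) (nat_lit 76) (nat_lit 7681390202) (nat_lit 39) (nat_lit 5) (nat_lit 42) (nat_lit 5) (nat_lit 40) (nat_lit 5) (nat_lit 500) (nat_lit 354) (nat_lit 286))))))) (XT.nd (nat_lit 54132) (nat_lit 0) (nat_lit 14972) (XT.nd (nat_lit 390) (nat_lit 380) (nat_lit 0) (XT.nd (nat_lit 156) (nat_lit 152) (nat_lit 0) (XT.nd (nat_lit 78) (nat_lit 228) (nat_lit 0) (XT.lf (nat_lit 0) (nat_lit 8861604692) (nat_lit 152) (nat_lit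 3040951939) (nat_lit 228) (nat_lit 3952007916) (nat_lit 37) (nat_lit 5) (nat_lit 39) (nat_lit 5) (nat_lit 40) (nat_lit 5) (nat_lit 501) (nat_lit 354) (nat_lit 285)) (XT.lf (nat_lit 0) (nat_lit 669069636) (nat_lit 228) (nat_lit 13435196059) (nat_lit 76) (nat_lit 1958537033) (nat_lit 34) (nat_lit 5) (nat_lit 37) (nat_lit 5) (nat_lit 35) (nat_lit 5) (nat_lit 502) (nat_lit 354) (nat_lit 284))) (XT.nd (nat_lit 78) (nat_lit 152) (nat_lit 0) (XT.lf (nat_lit 0) (nat_lit 5360725425) (nat_lit 228) (nat_lit 3850704198) (nat_lit 76) (nat_lit 7062635040) (nat_lit 34) (nat_lit 5) (nat_lit 37) (nat_lit 5) (nat_lit 35) (nat_lit 5) (nat_lit 503) (nat_lit 354) (nat_lit 283)) (XT.nd (nat_lit 78) (nat_lit 0) (nat_lit 0) (XT.lf (nat_lit 0) (nat_lit 5939461638) (nat_lit 152) (nat_lit 4209677029) (nat_lit 228) (nat_lit 6340357555) (nat_lit 32) (nat_lit 5) (nat_lit 34) (nat_lit 5) (nat_lit 35) (nat_lit 5) (nat_lit 504) (nat_lit 354) (nat_lit 282))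 (XT.lf (nat_lit 0) (nat_lit 15029588994) (nat_lit 228) (nat_lit 801074446) (nat_lit 76) (nat_lit 878650411) (nat_lit 32) (nat_lit 5) (nat_lit 35) (nat_lit 5) (nat_lit 33) (nat_lit 4) (nat_lit 505) (nat_lit 354) (nat_lit 281))))) (XT.nd (nat_lit 53508) (nat_lit 0) (nat_lit 20900) (XT.nd (nat_lit 78) (nat_lit 152) (nat_lit 0) (XT.lf (nat_lit 0) (nat_lit 3086743208) (nat_lit 228) (nat_lit 7780265066) (nat_lit 76) (nat_lit 6065064272) (nat_lit 29) (nat_lit 5) (nat_lit 32) (nat_lit 5) (nat_lit 30) (nat_lit 5) (nat_lit 506) (nat_lit 354) (nat_lit 280)) (XT.nd (nat_lit 53352) (nat_lit 0) (nat_lit 22420) (XT.lf (nat_lit 0) (nat_lit 2109112261) (nat_lit 152) (nat_lit 5801271624) (nat_lit 228) (nat_lit 9248996429) (nat_lit 27) (nat_lit 5) (nat_lit 29) (nat_lit 5) (nat_lit 30) (nat_lit 5) (nat_lit 507) (nat_lit 354) (nat_lit 279)) (XT.lf (nat_lit 0) (nat_lit 626610799) (nat_lit 836) (nat_lit 2585279621) (nat_lit 0) (nat_lit 626610799)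 (nat_lit 322) (nat_lit 5) (nat_lit 333) (nat_lit 4) (nat_lit 322) (nat_lit 4) (nat_lit 430) (nat_lit 355) (nat_lit 355)))) (XT.nd (nat_lit 78) (nat_lit 760) (nat_lit 0) (XT.lf (nat_lit 0) (nat_lit 768039057) (nat_lit 760) (nat_lit 4162224749) (nat_lit 760) (nat_lit 2797871746) (nat_lit 312) (nat_lit 4) (nat_lit 322) (nat_lit 5) (nat_lit 322) (nat_lit 4) (nat_lit 431) (nat_lit 355) (nat_lit 354)) (XT.nd (nat_lit 78) (nat_lit 684) (nat_lit 0) (XT.lf (nat_lit 0) (nat_lit 857048793) (nat_lit 836) (nat_lit 970715421) (nat_lit 76) (nat_lit 5953063688) (nat_lit 311) (nat_lit 5) (nat_lit 322) (nat_lit 5) (nat_lit 312) (nat_lit 4) (nat_lit 432) (nat_lit 355) (nat_lit 353)) (XT.lf (nat_lit 0) (nat_lit 4519333788) (nat_lit 760) (nat_lit 2730756072) (nat_lit 0) (nat_lit 584698987) (nat_lit 302) (nat_lit 5) (nat_lit 312) (nat_lit 4) (nat_lit 302) (nat_lit 4) (nat_lit 433) (nat_lit 355) (nat_lit 352)))))) (XT.nd (nat_lit 468) (nat_lit 2432)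 (nat_lit 0) (XT.nd (nat_lit 234) (nat_lit 2052) (nat_lit 0) (XT.nd (nat_lit 78) (nat_lit 684) (nat_lit 0) (XT.lf (nat_lit 0) (nat_lit 336017002) (nat_lit 760) (nat_lit 4516331735) (nat_lit 76) (nat_lit 3037935963) (nat_lit 292) (nat_lit 5) (nat_lit 302) (nat_lit 5) (nat_lit 293) (nat_lit 4) (nat_lit 434) (nat_lit 355) (nat_lit 351)) (XT.nd (nat_lit 78) (nat_lit 0) (nat_lit 0) (XT.lf (nat_lit 0) (nat_lit 1610280860) (nat_lit 684) (nat_lit 2370463442) (nat_lit 760) (nat_lit 3966433581) (nat_lit 283) (nat_lit 5) (nat_lit 292) (nat_lit 5) (nat_lit 293) (nat_lit 4) (nat_lit 435) (nat_lit 355) (nat_lit 350)) (XT.lf (nat_lit 0) (nat_lit 7666238509) (nat_lit 760) (nat_lit 165871681) (nat_lit 0) (nat_lit 173759045) (nat_lit 283) (nat_lit 5) (nat_lit 293) (nat_lit 4) (nat_lit 283) (nat_lit 4) (nat_lit 436) (nat_lit 355) (nat_lit 349)))) (XT.nd (nat_lit 78) (nat_lit 1292) (nat_lit 0) (XT.lf (nat_lit 0) (nat_lit 3308543266) (nat_lit 760)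 (nat_lit 1973684216) (nat_lit 76) (nat_lit 2783229763) (nat_lit 273) (nat_lit 5) (nat_lit 283) (nat_lit 5) (nat_lit 274) (nat_lit 4) (nat_lit 437) (nat_lit 355) (nat_lit 348)) (XT.nd (nat_lit 78) (nat_lit 684) (nat_lit 0) (XT.lf (nat_lit 0) (nat_lit 4325670881) (nat_lit 608) (nat_lit 2666528155) (nat_lit 684) (nat_lit 1134668490) (nat_lit 265) (nat_lit 5) (nat_lit 273) (nat_lit 5) (nat_lit 274) (nat_lit 4) (nat_lit 438) (nat_lit 355) (nat_lit 347)) (XT.lf (nat_lit 0) (nat_lit 2494514265) (nat_lit 684) (nat_lit 5664822201) (nat_lit 76) (nat_lit 30491850) (nat_lit 256) (nat_lit 5) (nat_lit 265) (nat_lit 5) (nat_lit 257) (nat_lit 4) (nat_lit 439) (nat_lit 355) (nat_lit 346))))) (XT.nd (nat_lit 234) (nat_lit 1140) (nat_lit 0) (XT.nd (nat_lit 78) (nat_lit 684) (nat_lit 0) (XT.lf (nat_lit 0) (nat_lit 678961339) (nat_lit 608) (nat_lit 5488605684) (nat_lit 684) (nat_lit 2086617470) (nat_lit 248) (nat_lit 5) (nat_lit 256) (nat_lit 5)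 (nat_lit 257) (nat_lit 4) (nat_lit 440) (nat_lit 355) (nat_lit 345)) (XT.nd (nat_lit 78) (nat_lit 608) (nat_lit 0) (XT.lf (nat_lit 0) (nat_lit 1550597747) (nat_lit 684) (nat_lit 1183880978) (nat_lit 76) (nat_lit 5585612130) (nat_lit 247) (nat_lit 5) (nat_lit 256) (nat_lit 5) (nat_lit 248) (nat_lit 5) (nat_lit 441) (nat_lit 355) (nat_lit 344)) (XT.lf (nat_lit 0) (nat_lit 5207997819) (nat_lit 684) (nat_lit 3076140838) (nat_lit 76) (nat_lit 103408086) (nat_lit 239) (nat_lit 5) (nat_lit 248) (nat_lit 5) (nat_lit 240) (nat_lit 4) (nat_lit 442) (nat_lit 355) (nat_lit 343)))) (XT.nd (nat_lit 78) (nat_lit 532) (nat_lit 0) (XT.lf (nat_lit 0) (nat_lit 464971759) (nat_lit 608) (nat_lit 5015773481) (nat_lit 76) (nat_lit 2975776138) (nat_lit 231) (nat_lit 5) (nat_lit 239) (nat_lit 5) (nat_lit 232) (nat_lit 5) (nat_lit 443) (nat_lit 355) (nat_lit 342)) (XT.nd (nat_lit 78) (nat_lit 0) (nat_lit 0) (XT.lf (nat_lit 0) (nat_lit 1522113655) (nat_lit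 532) (nat_lit 2589364813) (nat_lit 608) (nat_lit 4415557305) (nat_lit 224) (nat_lit 5) (nat_lit 231) (nat_lit 5) (nat_lit 232) (nat_lit 5) (nat_lit 444) (nat_lit 355) (nat_lit 341)) (XT.lf (nat_lit 0) (nat_lit 7808607545) (nat_lit 608) (nat_lit 422483393) (nat_lit 76) (nat_lit 368329398) (nat_lit 224) (nat_lit 5) (nat_lit 232) (nat_lit 5) (nat_lit 225) (nat_lit 4) (nat_lit 445) (nat_lit 355) (nat_lit 340))))))))
noncomputable def xc34 : XT := (XT.nd (nat_lit 1716) (nat_lit 4788) (nat_lit 0) (XT.nd (nat_lit 858) (nat_lit 3268) (nat_lit 0) (XT.nd (nat_lit 390) (nat_lit 2432) (nat_lit 0) (XT.nd (nat_lit 156) (nat_lit 1064) (nat_lit 0) (XT.nd (nat_lit 78) (nat_lit 532) (nat_lit 0) (XT.lf (nat_lit 0) (nat_lit 2868829552) (nat_lit 608) (nat_lit 2414145767) (nat_lit 76) (nat_lit 3389902630) (nat_lit 216) (nat_lit 5) (nat_lit 224) (nat_lit 5) (nat_lit 217) (nat_lit 5) (nat_lit 446) (nat_lit 355) (nat_lit 339)) (XT.lf (nat_lit 0) (nat_lit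 4303675174) (nat_lit 532) (nat_lit 2261056546) (nat_lit 608) (nat_lit 2183508260) (nat_lit 209) (nat_lit 5) (nat_lit 216) (nat_lit 5) (nat_lit 217) (nat_lit 5) (nat_lit 447) (nat_lit 355) (nat_lit 338))) (XT.nd (nat_lit 78) (nat_lit 532) (nat_lit 0) (XT.lf (nat_lit 0) (nat_lit 1469450494) (nat_lit 532) (nat_lit 6526098000) (nat_lit 76) (nat_lit 829781095) (nat_lit 202) (nat_lit 5) (nat_lit 209) (nat_lit 5) (nat_lit 203) (nat_lit 5) (nat_lit 448) (nat_lit 355) (nat_lit 337)) (XT.nd (nat_lit 78) (nat_lit 0) (nat_lit 0) (XT.lf (nat_lit 0) (nat_lit 228366990) (nat_lit 532) (nat_lit 4927903412) (nat_lit 608) (nat_lit 3747613332) (nat_lit 195) (nat_lit 5) (nat_lit 202) (nat_lit 5) (nat_lit 203) (nat_lit 5) (nat_lit 449) (nat_lit 355) (nat_lit 336)) (XT.lf (nat_lit 0) (nat_lit 7127126109) (nat_lit 532) (nat_lit 1777619107) (nat_lit 608) (nat_lit 79517324) (nat_lit 195) (nat_lit 5) (nat_lit 202) (nat_lit 5) (nat_lit 203) (nat_lit 5)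 (nat_lit 450) (nat_lit 355) (nat_lit 335))))) (XT.nd (nat_lit 234) (nat_lit 912) (nat_lit 0) (XT.nd (nat_lit 78) (nat_lit 988) (nat_lit 0) (XT.lf (nat_lit 0) (nat_lit 3601169373) (nat_lit 532) (nat_lit 4014002570) (nat_lit 76) (nat_lit 1450867832) (nat_lit 188) (nat_lit 5) (nat_lit 195) (nat_lit 5) (nat_lit 189) (nat_lit 5) (nat_lit 451) (nat_lit 355) (nat_lit 334)) (XT.nd (nat_lit 78) (nat_lit 532) (nat_lit 0) (XT.lf (nat_lit 0) (nat_lit 2922428099) (nat_lit 456) (nat_lit 4420539546) (nat_lit 532) (nat_lit 1806714406) (nat_lit 182) (nat_lit 5) (nat_lit 188) (nat_lit 5) (nat_lit 189) (nat_lit 5) (nat_lit 452) (nat_lit 355) (nat_lit 333)) (XT.lf (nat_lit 0) (nat_lit 735410440) (nat_lit 456) (nat_lit 1141306729) (nat_lit 532) (nat_lit 7358493827) (nat_lit 175) (nat_lit 5) (nat_lit 181) (nat_lit 5) (nat_lit 182) (nat_lit 5) (nat_lit 453) (nat_lit 355) (nat_lit 332)))) (XT.nd (nat_lit 78) (nat_lit 912) (nat_lit 0) (XT.lf (nat_lit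 0) (nat_lit 5611883784) (nat_lit 532) (nat_lit 1505933153) (nat_lit 76) (nat_lit 2204360179) (nat_lit 175) (nat_lit 5) (nat_lit 182) (nat_lit 5) (nat_lit 176) (nat_lit 5) (nat_lit 454) (nat_lit 355) (nat_lit 331)) (XT.nd (nat_lit 78) (nat_lit 380) (nat_lit 0) (XT.lf (nat_lit 0) (nat_lit 1604846) (nat_lit 532) (nat_lit 3795128203) (nat_lit 76) (nat_lit 5614340771) (nat_lit 168) (nat_lit 5) (nat_lit 175) (nat_lit 5) (nat_lit 169) (nat_lit 5) (nat_lit 455) (nat_lit 355) (nat_lit 330)) (XT.lf (nat_lit 0) (nat_lit 3340145882) (nat_lit 380) (nat_lit 376925235) (nat_lit 456) (nat_lit 5784616618) (nat_lit 163) (nat_lit 5) (nat_lit 168) (nat_lit 5) (nat_lit 169) (nat_lit 5) (nat_lit 456) (nat_lit 355) (nat_lit 329)))))) (XT.nd (nat_lit 390) (nat_lit 1520) (nat_lit 0) (XT.nd (nat_lit 156) (nat_lit 1216) (nat_lit 0) (XT.nd (nat_lit 78) (nat_lit 76) (nat_lit 0) (XT.lf (nat_lit 0) (nat_lit 990050337) (nat_lit 456) (nat_lit 6516535404) (nat_lit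 532) (nat_lit 2087543209) (nat_lit 157) (nat_lit 5) (nat_lit 163) (nat_lit 5) (nat_lit 164) (nat_lit 5) (nat_lit 457) (nat_lit 355) (nat_lit 328)) (XT.lf (nat_lit 0) (nat_lit 1653153879) (nat_lit 532) (nat_lit 1411815177) (nat_lit 76) (nat_lit 6623405525) (nat_lit 156) (nat_lit 5) (nat_lit 163) (nat_lit 5) (nat_lit 157) (nat_lit 5) (nat_lit 458) (nat_lit 355) (nat_lit 327))) (XT.nd (nat_lit 78) (nat_lit 836) (nat_lit 0) (XT.lf (nat_lit 0) (nat_lit 5430922538) (nat_lit 456) (nat_lit 3876818008) (nat_lit 76) (nat_lit 476693645) (nat_lit 151) (nat_lit 5) (nat_lit 157) (nat_lit 5) (nat_lit 152) (nat_lit 5) (nat_lit 459) (nat_lit 355) (nat_lit 326)) (XT.nd (nat_lit 78) (nat_lit 456) (nat_lit 0) (XT.lf (nat_lit 0) (nat_lit 3457812449) (nat_lit 380) (nat_lit 5827730603) (nat_lit 456) (nat_lit 596855066) (nat_lit 146) (nat_lit 5) (nat_lit 151) (nat_lit 5) (nat_lit 152) (nat_lit 5) (nat_lit 460) (nat_lit 355) (nat_lit 325)) (XT.lf (nat_lit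 0) (nat_lit 923117800) (nat_lit 380) (nat_lit 2250739489) (nat_lit 456) (nat_lit 6808425684) (nat_lit 140) (nat_lit 5) (nat_lit 145) (nat_lit 5) (nat_lit 146) (nat_lit 5) (nat_lit 461) (nat_lit 355) (nat_lit 324))))) (XT.nd (nat_lit 234) (nat_lit 760) (nat_lit 0) (XT.nd (nat_lit 78) (nat_lit 760) (nat_lit 0) (XT.lf (nat_lit 0) (nat_lit 7013962051) (nat_lit 456) (nat_lit 1669783530) (nat_lit 76) (nat_lit 1400310171) (nat_lit 140) (nat_lit 5) (nat_lit 146) (nat_lit 5) (nat_lit 141) (nat_lit 5) (nat_lit 462) (nat_lit 355) (nat_lit 323)) (XT.nd (nat_lit 78) (nat_lit 304) (nat_lit 0) (XT.lf (nat_lit 0) (nat_lit 736659606) (nat_lit 456) (nat_lit 4339910136) (nat_lit 76) (nat_lit 5111137978) (nat_lit 134) (nat_lit 5) (nat_lit 140) (nat_lit 5) (nat_lit 135) (nat_lit 5) (nat_lit 463) (nat_lit 355) (nat_lit 322)) (XT.lf (nat_lit 0) (nat_lit 3189926649) (nat_lit 304) (nat_lit 1371166076) (nat_lit 380) (nat_lit 5732289110) (nat_lit 130)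 (nat_lit 5) (nat_lit 134) (nat_lit 5) (nat_lit 135) (nat_lit 5) (nat_lit 464) (nat_lit 355) (nat_lit 321)))) (XT.nd (nat_lit 78) (nat_lit 380) (nat_lit 0) (XT.lf (nat_lit 0) (nat_lit 441599491) (nat_lit 380) (nat_lit 8019155868) (nat_lit 456) (nat_lit 1940447140) (nat_lit 125) (nat_lit 5) (nat_lit 130) (nat_lit 5) (nat_lit 131) (nat_lit 5) (nat_lit 465) (nat_lit 355) (nat_lit 320)) (XT.nd (nat_lit 78) (nat_lit 304) (nat_lit 0) (XT.lf (nat_lit 0) (nat_lit 1910077368) (nat_lit 456) (nat_lit 2375407060) (nat_lit 76) (nat_lit 6225290034) (nat_lit 124) (nat_lit 5) (nat_lit 130) (nat_lit 5) (nat_lit 125) (nat_lit 5) (nat_lit 466) (nat_lit 355) (nat_lit 319)) (XT.lf (nat_lit 0) (nat_lit 5342080397) (nat_lit 304) (nat_lit 456275170) (nat_lit 380) (nat_lit 4824198683) (nat_lit 120) (nat_lit 5) (nat_lit 124) (nat_lit 5) (nat_lit 125) (nat_lit 5) (nat_lit 467) (nat_lit 355) (nat_lit 318))))))) (XT.nd (nat_lit 858) (nat_lit 2128) (nat_lit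 0) (XT.nd (nat_lit 390) (nat_lit 1216) (nat_lit 0) (XT.nd (nat_lit 156) (nat_lit 988) (nat_lit 0) (XT.nd (nat_lit 78) (nat_lit 76) (nat_lit 0) (XT.lf (nat_lit 0) (nat_lit 2443525655) (nat_lit 380) (nat_lit 7327472341) (nat_lit 456) (nat_lit 965446947) (nat_lit 115) (nat_lit 5) (nat_lit 120) (nat_lit 5) (nat_lit 121) (nat_lit 5) (nat_lit 468) (nat_lit 355) (nat_lit 317)) (XT.lf (nat_lit 0) (nat_lit 2922629844) (nat_lit 456) (nat_lit 556889714) (nat_lit 76) (nat_lit 7372892997) (nat_lit 114) (nat_lit 5) (nat_lit 120) (nat_lit 5) (nat_lit 115) (nat_lit 5) (nat_lit 469) (nat_lit 355) (nat_lit 316))) (XT.nd (nat_lit 78) (nat_lit 684) (nat_lit 0) (XT.lf (nat_lit 0) (nat_lit 6879688933) (nat_lit 380) (nat_lit 3624306783) (nat_lit 76) (nat_lit 466500071) (nat_lit 110) (nat_lit 5) (nat_lit 115) (nat_lit 5) (nat_lit 111) (nat_lit 5) (nat_lit 470) (nat_lit 355) (nat_lit 315)) (XT.nd (nat_lit 78) (nat_lit 380) (nat_lit 0) (XT.lf (nat_lit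 0) (nat_lit 4282312570) (nat_lit 304) (nat_lit 6641788741) (nat_lit 380) (nat_lit 166681859) (nat_lit 106) (nat_lit 5) (nat_lit 110) (nat_lit 5) (nat_lit 111) (nat_lit 5) (nat_lit 471) (nat_lit 355) (nat_lit 314)) (XT.lf (nat_lit 0) (nat_lit 1097607363) (nat_lit 304) (nat_lit 2673337802) (nat_lit 380) (nat_lit 7442332927) (nat_lit 101) (nat_lit 5) (nat_lit 105) (nat_lit 5) (nat_lit 106) (nat_lit 5) (nat_lit 472) (nat_lit 355) (nat_lit 313))))) (XT.nd (nat_lit 234) (nat_lit 608) (nat_lit 0) (XT.nd (nat_lit 78) (nat_lit 608) (nat_lit 0) (XT.lf (nat_lit 0) (nat_lit 7793968571) (nat_lit 380) (nat_lit 2168711502) (nat_lit 76) (nat_lit 1375349631) (nat_lit 101) (nat_lit 5) (nat_lit 106) (nat_lit 5) (nat_lit 102) (nat_lit 5) (nat_lit 473) (nat_lit 355) (nat_lit 312)) (XT.nd (nat_lit 78) (nat_lit 228) (nat_lit 0) (XT.lf (nat_lit 0) (nat_lit 437599608) (nat_lit 380) (nat_lit 5544466363) (nat_lit 76) (nat_lit 5482938520) (nat_lit 96)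 (nat_lit 5) (nat_lit 101) (nat_lit 5) (nat_lit 97) (nat_lit 5) (nat_lit 474) (nat_lit 355) (nat_lit 311)) (XT.lf (nat_lit 0) (nat_lit 2542708549) (nat_lit 228) (nat_lit 1894901781) (nat_lit 304) (nat_lit 7156722456) (nat_lit 93) (nat_lit 5) (nat_lit 96) (nat_lit 5) (nat_lit 97) (nat_lit 5) (nat_lit 475) (nat_lit 355) (nat_lit 310)))) (XT.nd (nat_lit 78) (nat_lit 608) (nat_lit 0) (XT.lf (nat_lit 0) (nat_lit 8525027656) (nat_lit 304) (nat_lit 947772006) (nat_lit 76) (nat_lit 2253305717) (nat_lit 93) (nat_lit 5) (nat_lit 97) (nat_lit 5) (nat_lit 94) (nat_lit 5) (nat_lit 476) (nat_lit 355) (nat_lit 309)) (XT.nd (nat_lit 78) (nat_lit 228) (nat_lit 0) (XT.lf (nat_lit 0) (nat_lit 839050333) (nat_lit 380) (nat_lit 4536573515) (nat_lit 76) (nat_lit 6484460862) (nat_lit 88) (nat_lit 5) (nat_lit 93) (nat_lit 5) (nat_lit 89) (nat_lit 5) (nat_lit 477) (nat_lit 355) (nat_lit 308)) (XT.lf (nat_lit 0) (nat_lit 3731448168) (nat_lit 228) (nat_lit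 1172506932) (nat_lit 304) (nat_lit 7092634133) (nat_lit 85) (nat_lit 5) (nat_lit 88) (nat_lit 5) (nat_lit 89) (nat_lit 5) (nat_lit 478) (nat_lit 355) (nat_lit 307)))))) (XT.nd (nat_lit 468) (nat_lit 988) (nat_lit 0) (XT.nd (nat_lit 234) (nat_lit 532) (nat_lit 0) (XT.nd (nat_lit 78) (nat_lit 608) (nat_lit 0) (XT.lf (nat_lit 0) (nat_lit 9057395892) (nat_lit 304) (nat_lit 2223559) (nat_lit 76) (nat_lit 3076065049) (nat_lit 85) (nat_lit 5) (nat_lit 89) (nat_lit 5) (nat_lit 86) (nat_lit 5) (nat_lit 479) (nat_lit 355) (nat_lit 306)) (XT.nd (nat_lit 78) (nat_lit 228) (nat_lit 0) (XT.lf (nat_lit 0) (nat_lit 1023044844) (nat_lit 380) (nat_lit 3826268337) (nat_lit 76) (nat_lit 7427721105) (nat_lit 80) (nat_lit 5) (nat_lit 85) (nat_lit 5) (nat_lit 81) (nat_lit 5) (nat_lit 480) (nat_lit 355) (nat_lit 305)) (XT.lf (nat_lit 0) (nat_lit 4620262437) (nat_lit 228) (nat_lit 532293836) (nat_lit 304) (nat_lit 7268505553) (nat_lit 77) (nat_lit 5)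 (nat_lit 80) (nat_lit 5) (nat_lit 81) (nat_lit 5) (nat_lit 481) (nat_lit 355) (nat_lit 304)))) (XT.nd (nat_lit 78) (nat_lit 304) (nat_lit 0) (XT.lf (nat_lit 0) (nat_lit 631335192) (nat_lit 228) (nat_lit 8745908046) (nat_lit 304) (nat_lit 3190479972) (nat_lit 74) (nat_lit 5) (nat_lit 77) (nat_lit 5) (nat_lit 78) (nat_lit 5) (nat_lit 482) (nat_lit 355) (nat_lit 303)) (XT.nd (nat_lit 78) (nat_lit 228) (nat_lit 0) (XT.lf (nat_lit 0) (nat_lit 970208266) (nat_lit 304) (nat_lit 3460451387) (nat_lit 76) (nat_lit 8286260887) (nat_lit 73) (nat_lit 5) (nat_lit 77) (nat_lit 5) (nat_lit 74) (nat_lit 5) (nat_lit 483) (nat_lit 355) (nat_lit 302)) (XT.lf (nat_lit 0) (nat_lit 5161101992) (nat_lit 228) (nat_lit 2261374) (nat_lit 304) (nat_lit 7705481908) (nat_lit 70) (nat_lit 5) (nat_lit 73) (nat_lit 5) (nat_lit 74) (nat_lit 5) (nat_lit 484) (nat_lit 355) (nat_lit 301))))) (XT.nd (nat_lit 234) (nat_lit 456) (nat_lit 0) (XT.nd (nat_lit 78) (nat_lit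 304) (nat_lit 0) (XT.lf (nat_lit 0) (nat_lit 890218596) (nat_lit 228) (nat_lit 8567228801) (nat_lit 304) (nat_lit 3566024408) (nat_lit 67) (nat_lit 5) (nat_lit 70) (nat_lit 5) (nat_lit 71) (nat_lit 5) (nat_lit 485) (nat_lit 355) (nat_lit 300)) (XT.nd (nat_lit 78) (nat_lit 228) (nat_lit 0) (XT.lf (nat_lit 0) (nat_lit 658374421) (nat_lit 304) (nat_lit 3490883423) (nat_lit 76) (nat_lit 9031637077) (nat_lit 66) (nat_lit 5) (nat_lit 70) (nat_lit 5) (nat_lit 67) (nat_lit 5) (nat_lit 486) (nat_lit 355) (nat_lit 299)) (XT.lf (nat_lit 0) (nat_lit 4915977586) (nat_lit 304) (nat_lit 8042738214) (nat_lit 76) (nat_lit 382354313) (nat_lit 63) (nat_lit 5) (nat_lit 67) (nat_lit 5) (nat_lit 64) (nat_lit 5) (nat_lit 487) (nat_lit 355) (nat_lit 298)))) (XT.nd (nat_lit 78) (nat_lit 228) (nat_lit 0) (XT.lf (nat_lit 0) (nat_lit 718959583) (nat_lit 228) (nat_lit 8555149496) (nat_lit 304) (nat_lit 4230036472) (nat_lit 60) (nat_lit 5) (nat_lit 63) (nat_lit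 5) (nat_lit 64) (nat_lit 5) (nat_lit 488) (nat_lit 355) (nat_lit 297)) (XT.nd (nat_lit 78) (nat_lit 152) (nat_lit 0) (XT.lf (nat_lit 0) (nat_lit 62330298) (nat_lit 304) (nat_lit 3974754549) (nat_lit 76) (nat_lit 9633114373) (nat_lit 59) (nat_lit 5) (nat_lit 63) (nat_lit 5) (nat_lit 60) (nat_lit 5) (nat_lit 489) (nat_lit 355) (nat_lit 296)) (XT.lf (nat_lit 0) (nat_lit 4380732100) (nat_lit 228) (nat_lit 8862109627) (nat_lit 76) (nat_lit 596240490) (nat_lit 57) (nat_lit 5) (nat_lit 60) (nat_lit 5) (nat_lit 58) (nat_lit 5) (nat_lit 490) (nat_lit 355) (nat_lit 295))))))))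
noncomputable def xc35 : XT := (XT.nd (nat_lit 54834) (nat_lit 0) (nat_lit 10564) (XT.nd (nat_lit 858) (nat_lit 608) (nat_lit 0) (XT.nd (nat_lit 390) (nat_lit 836) (nat_lit 0) (XT.nd (nat_lit 156) (nat_lit 456) (nat_lit 0) (XT.nd (nat_lit 78) (nat_lit 0) (nat_lit 0) (XT.lf (nat_lit 0) (nat_lit 56252132) (nat_lit 228) (nat_lit 8743860928) (nat_lit 304) (nat_lit 5210941533) (nat_lit 54) (nat_lit 5) (nat_lit 57) (nat_lit 5) (nat_lit 58) (nat_lit 5) (nat_lit 491) (nat_lit 355) (nat_lit 294)) (XT.lf (nat_lit 0) (nat_lit 9205182182) (nat_lit 228) (nat_lit 4123160103) (nat_lit 304) (nat_lit 857718782) (nat_lit 54) (nat_lit 5) (nat_lit 57) (nat_lit 5) (nat_lit 58) (nat_lit 5) (nat_lit 492) (nat_lit 355) (nat_lit 293))) (XT.nd (nat_lit 78) (nat_lit 228) (nat_lit 0) (XT.lf (nat_lit 0) (nat_lit 3527914275) (nat_lit 228) (nat_lit 10231913827) (nat_lit 76) (nat_lit 604431438) (nat_lit 51) (nat_lit 5) (nat_lit 54) (nat_lit 5) (nat_lit 52)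 (nat_lit 5) (nat_lit 493) (nat_lit 355) (nat_lit 292)) (XT.nd (nat_lit 78) (nat_lit 228) (nat_lit 0) (XT.lf (nat_lit 0) (nat_lit 8012373419) (nat_lit 228) (nat_lit 1150460235) (nat_lit 76) (nat_lit 5382626612) (nat_lit 51) (nat_lit 5) (nat_lit 54) (nat_lit 5) (nat_lit 52) (nat_lit 5) (nat_lit 494) (nat_lit 355) (nat_lit 291)) (XT.lf (nat_lit 0) (nat_lit 8153625992) (nat_lit 228) (nat_lit 4448222910) (nat_lit 304) (nat_lit 2128133133) (nat_lit 48) (nat_lit 5) (nat_lit 51) (nat_lit 5) (nat_lit 52) (nat_lit 5) (nat_lit 495) (nat_lit 355) (nat_lit 290))))) (XT.nd (nat_lit 234) (nat_lit 380) (nat_lit 0) (XT.nd (nat_lit 78) (nat_lit 228) (nat_lit 0) (XT.lf (nat_lit 0) (nat_lit 2324050495) (nat_lit 228) (nat_lit 12225271267) (nat_lit 76) (nat_lit 368765873) (nat_lit 45) (nat_lit 5) (nat_lit 48) (nat_lit 5) (nat_lit 46) (nat_lit 5) (nat_lit 496) (nat_lit 355) (nat_lit 289)) (XT.nd (nat_lit 78) (nat_lit 228) (nat_lit 0) (XT.lf (nat_lit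 0) (nat_lit 6873267027) (nat_lit 228) (nat_lit 2982531943) (nat_lit 76) (nat_lit 5253148701) (nat_lit 45) (nat_lit 5) (nat_lit 48) (nat_lit 5) (nat_lit 46) (nat_lit 5) (nat_lit 497) (nat_lit 355) (nat_lit 288)) (XT.lf (nat_lit 0) (nat_lit 6465017329) (nat_lit 228) (nat_lit 5053736330) (nat_lit 304) (nat_lit 3784768834) (nat_lit 42) (nat_lit 5) (nat_lit 45) (nat_lit 5) (nat_lit 46) (nat_lit 5) (nat_lit 498) (nat_lit 355) (nat_lit 287)))) (XT.nd (nat_lit 78) (nat_lit 152) (nat_lit 0) (XT.lf (nat_lit 0) (nat_lit 578005003) (nat_lit 152) (nat_lit 154519466) (nat_lit 228) (nat_lit 14769624105) (nat_lit 39) (nat_lit 5) (nat_lit 41) (nat_lit 5) (nat_lit 42) (nat_lit 5) (nat_lit 499) (nat_lit 355) (nat_lit 286)) (XT.nd (nat_lit 78) (nat_lit 152) (nat_lit 0) (XT.lf (nat_lit 0) (nat_lit 5344163303) (nat_lit 228) (nat_lit 5522824962) (nat_lit 76) (nat_lit 4836168120) (nat_lit 39) (nat_lit 5) (nat_lit 42) (nat_lit 5) (nat_lit 40) (nat_lit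 5) (nat_lit 500) (nat_lit 355) (nat_lit 285)) (XT.lf (nat_lit 0) (nat_lit 4054934517) (nat_lit 152) (nat_lit 5984651649) (nat_lit 228) (nat_lit 5868770207) (nat_lit 37) (nat_lit 5) (nat_lit 39) (nat_lit 5) (nat_lit 40) (nat_lit 5) (nat_lit 501) (nat_lit 355) (nat_lit 284)))))) (XT.nd (nat_lit 390) (nat_lit 0) (nat_lit 0) (XT.nd (nat_lit 156) (nat_lit 380) (nat_lit 0) (XT.nd (nat_lit 78) (nat_lit 228) (nat_lit 0) (XT.lf (nat_lit 0) (nat_lit 13835788505) (nat_lit 152) (nat_lit 994681471) (nat_lit 228) (nat_lit 1287162322) (nat_lit 37) (nat_lit 5) (nat_lit 39) (nat_lit 5) (nat_lit 40) (nat_lit 5) (nat_lit 502) (nat_lit 355) (nat_lit 283)) (XT.lf (nat_lit 0) (nat_lit 3382162287) (nat_lit 228) (nat_lit 8862334399) (nat_lit 76) (nat_lit 4085350362) (nat_lit 34) (nat_lit 5) (nat_lit 37) (nat_lit 5) (nat_lit 35) (nat_lit 5) (nat_lit 503) (nat_lit 355) (nat_lit 282))) (XT.nd (nat_lit 78) (nat_lit 228) (nat_lit 0) (XT.lf (nat_lit 0) (nat_lit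 829797585) (nat_lit 152) (nat_lit 7290305689) (nat_lit 228) (nat_lit 8426186172) (nat_lit 32) (nat_lit 5) (nat_lit 34) (nat_lit 5) (nat_lit 35) (nat_lit 5) (nat_lit 504) (nat_lit 355) (nat_lit 281)) (XT.nd (nat_lit 78) (nat_lit 228) (nat_lit 0) (XT.lf (nat_lit 0) (nat_lit 10773655946) (nat_lit 152) (nat_lit 2203959212) (nat_lit 228) (nat_lit 3788952051) (nat_lit 32) (nat_lit 5) (nat_lit 34) (nat_lit 5) (nat_lit 35) (nat_lit 5) (nat_lit 505) (nat_lit 355) (nat_lit 280)) (XT.lf (nat_lit 0) (nat_lit 939262929) (nat_lit 228) (nat_lit 13101902133) (nat_lit 76) (nat_lit 2949754366) (nat_lit 29) (nat_lit 5) (nat_lit 32) (nat_lit 5) (nat_lit 30) (nat_lit 5) (nat_lit 506) (nat_lit 355) (nat_lit 279))))) (XT.nd (nat_lit 53352) (nat_lit 0) (nat_lit 21432) (XT.nd (nat_lit 53196) (nat_lit 0) (nat_lit 23104) (XT.lf (nat_lit 0) (nat_lit 5732324175) (nat_lit 228) (nat_lit 3270673688) (nat_lit 76) (nat_lit 8215842208) (nat_lit 29) (nat_lit 5)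 (nat_lit 32) (nat_lit 5) (nat_lit 30) (nat_lit 5) (nat_lit 507) (nat_lit 355) (nat_lit 278)) (XT.nd (nat_lit 78) (nat_lit 760) (nat_lit 0) (XT.lf (nat_lit 0) (nat_lit 1485967990) (nat_lit 836) (nat_lit 817167176) (nat_lit 0) (nat_lit 1485967990) (nat_lit 343) (nat_lit 5) (nat_lit 354) (nat_lit 4) (nat_lit 343) (nat_lit 4) (nat_lit 428) (nat_lit 356) (nat_lit 356)) (XT.lf (nat_lit 0) (nat_lit 4216478773) (nat_lit 760) (nat_lit 2415103279) (nat_lit 760) (nat_lit 995630415) (nat_lit 333) (nat_lit 4) (nat_lit 343) (nat_lit 5) (nat_lit 343) (nat_lit 4) (nat_lit 429) (nat_lit 356) (nat_lit 355)))) (XT.nd (nat_lit 78) (nat_lit 836) (nat_lit 0) (XT.lf (nat_lit 0) (nat_lit 2466464284) (nat_lit 760) (nat_lit 146197701) (nat_lit 836) (nat_lit 5064994547) (nat_lit 322) (nat_lit 5) (nat_lit 332) (nat_lit 5) (nat_lit 333) (nat_lit 4) (nat_lit 430) (nat_lit 356) (nat_lit 354)) (XT.nd (nat_lit 78) (nat_lit 76) (nat_lit 0) (XT.lf (nat_lit 0)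 (nat_lit 688405172) (nat_lit 760) (nat_lit 5567333859) (nat_lit 760) (nat_lit 1473739811) (nat_lit 312) (nat_lit 4) (nat_lit 322) (nat_lit 5) (nat_lit 322) (nat_lit 4) (nat_lit 431) (nat_lit 356) (nat_lit 353)) (XT.lf (nat_lit 0) (nat_lit 2131479639) (nat_lit 836) (nat_lit 1099378687) (nat_lit 76) (nat_lit 4551797134) (nat_lit 311) (nat_lit 5) (nat_lit 322) (nat_lit 5) (nat_lit 312) (nat_lit 4) (nat_lit 432) (nat_lit 356) (nat_lit 352))))))) (XT.nd (nat_lit 858) (nat_lit 4788) (nat_lit 0) (XT.nd (nat_lit 390) (nat_lit 3192) (nat_lit 0) (XT.nd (nat_lit 156) (nat_lit 1444) (nat_lit 0) (XT.nd (nat_lit 78) (nat_lit 760) (nat_lit 0) (XT.lf (nat_lit 0) (nat_lit 4938751497) (nat_lit 684) (nat_lit 818366999) (nat_lit 760) (nat_lit 2080240160) (nat_lit 302) (nat_lit 5) (nat_lit 311) (nat_lit 5) (nat_lit 312) (nat_lit 4) (nat_lit 433) (nat_lit 356) (nat_lit 351)) (XT.lf (nat_lit 0) (nat_lit 1516763820) (nat_lit 760) (nat_lit 4731312716)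 (nat_lit 76) (nat_lit 1645391902) (nat_lit 292) (nat_lit 5) (nat_lit 302) (nat_lit 5) (nat_lit 293) (nat_lit 4) (nat_lit 434) (nat_lit 356) (nat_lit 350))) (XT.nd (nat_lit 78) (nat_lit 760) (nat_lit 0) (XT.lf (nat_lit 0) (nat_lit 1353095270) (nat_lit 684) (nat_lit 3775507366) (nat_lit 760) (nat_lit 2822425543) (nat_lit 283) (nat_lit 5) (nat_lit 292) (nat_lit 5) (nat_lit 293) (nat_lit 4) (nat_lit 435) (nat_lit 356) (nat_lit 349)) (XT.nd (nat_lit 78) (nat_lit 684) (nat_lit 0) (XT.lf (nat_lit 0) (nat_lit 761607184) (nat_lit 760) (nat_lit 469976849) (nat_lit 76) (nat_lit 6778683906) (nat_lit 282) (nat_lit 5) (nat_lit 292) (nat_lit 5) (nat_lit 283) (nat_lit 5) (nat_lit 436) (nat_lit 356) (nat_lit 348)) (XT.lf (nat_lit 0) (nat_lit 4364552360) (nat_lit 760) (nat_lit 2319776386) (nat_lit 76) (nat_lit 1386306872) (nat_lit 273) (nat_lit 5) (nat_lit 283) (nat_lit 5) (nat_lit 274) (nat_lit 4) (nat_lit 437) (nat_lit 356) (nat_lit 347)))))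 (XT.nd (nat_lit 234) (nat_lit 1292) (nat_lit 0) (XT.nd (nat_lit 78) (nat_lit 1292) (nat_lit 0) (XT.lf (nat_lit 0) (nat_lit 3935926665) (nat_lit 608) (nat_lit 4079589912) (nat_lit 684) (nat_lit 117191274) (nat_lit 265) (nat_lit 5) (nat_lit 273) (nat_lit 5) (nat_lit 274) (nat_lit 4) (nat_lit 438) (nat_lit 356) (nat_lit 346)) (XT.nd (nat_lit 78) (nat_lit 608) (nat_lit 0) (XT.lf (nat_lit 0) (nat_lit 2078467207) (nat_lit 608) (nat_lit 1387055123) (nat_lit 684) (nat_lit 4730684488) (nat_lit 256) (nat_lit 5) (nat_lit 264) (nat_lit 5) (nat_lit 265) (nat_lit 5) (nat_lit 439) (nat_lit 356) (nat_lit 345)) (XT.lf (nat_lit 0) (nat_lit 189648523) (nat_lit 608) (nat_lit 6907002631) (nat_lit 684) (nat_lit 1164757972) (nat_lit 248) (nat_lit 5) (nat_lit 256) (nat_lit 5) (nat_lit 257) (nat_lit 4) (nat_lit 440) (nat_lit 356) (nat_lit 344)))) (XT.nd (nat_lit 78) (nat_lit 1216) (nat_lit 0) (XT.lf (nat_lit 0) (nat_lit 2430755134) (nat_lit 684) (nat_lit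 1725531818) (nat_lit 76) (nat_lit 4171508418) (nat_lit 247) (nat_lit 5) (nat_lit 256) (nat_lit 5) (nat_lit 248) (nat_lit 5) (nat_lit 441) (nat_lit 356) (nat_lit 343)) (XT.nd (nat_lit 78) (nat_lit 608) (nat_lit 0) (XT.lf (nat_lit 0) (nat_lit 4724380085) (nat_lit 608) (nat_lit 1330247802) (nat_lit 684) (nat_lit 2341301127) (nat_lit 239) (nat_lit 5) (nat_lit 247) (nat_lit 5) (nat_lit 248) (nat_lit 5) (nat_lit 442) (nat_lit 356) (nat_lit 342)) (XT.lf (nat_lit 0) (nat_lit 1250422158) (nat_lit 608) (nat_lit 5663871876) (nat_lit 76) (nat_lit 1551343769) (nat_lit 231) (nat_lit 5) (nat_lit 239) (nat_lit 5) (nat_lit 232) (nat_lit 5) (nat_lit 443) (nat_lit 356) (nat_lit 341)))))) (XT.nd (nat_lit 468) (nat_lit 2584) (nat_lit 0) (XT.nd (nat_lit 234) (nat_lit 1064) (nat_lit 0) (XT.nd (nat_lit 78) (nat_lit 608) (nat_lit 0) (XT.lf (nat_lit 0) (nat_lit 826125128) (nat_lit 532) (nat_lit 4037634257) (nat_lit 608) (nat_lit 3673062997) (nat_lit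 224) (nat_lit 5) (nat_lit 231) (nat_lit 5) (nat_lit 232) (nat_lit 5) (nat_lit 444) (nat_lit 356) (nat_lit 340)) (XT.nd (nat_lit 78) (nat_lit 608) (nat_lit 0) (XT.lf (nat_lit 0) (nat_lit 7444912996) (nat_lit 532) (nat_lit 1085213347) (nat_lit 608) (nat_lit 79702506) (nat_lit 224) (nat_lit 5) (nat_lit 231) (nat_lit 5) (nat_lit 232) (nat_lit 5) (nat_lit 445) (nat_lit 356) (nat_lit 339)) (XT.lf (nat_lit 0) (nat_lit 3530358667) (nat_lit 608) (nat_lit 3213629931) (nat_lit 76) (nat_lit 1940017021) (nat_lit 216) (nat_lit 5) (nat_lit 224) (nat_lit 5) (nat_lit 217) (nat_lit 5) (nat_lit 446) (nat_lit 356) (nat_lit 338)))) (XT.nd (nat_lit 78) (nat_lit 532) (nat_lit 0) (XT.lf (nat_lit 0) (nat_lit 3454683548) (nat_lit 532) (nat_lit 3738327684) (nat_lit 608) (nat_lit 1567027688) (nat_lit 209) (nat_lit 5) (nat_lit 216) (nat_lit 5) (nat_lit 217) (nat_lit 5) (nat_lit 447) (nat_lit 356) (nat_lit 337)) (XT.nd (nat_lit 78) (nat_lit 0) (nat_lit 0)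 (XT.lf (nat_lit 0) (nat_lit 1389508947) (nat_lit 456) (nat_lit 649306281) (nat_lit 532) (nat_lit 6799019894) (nat_lit 202) (nat_lit 5) (nat_lit 208) (nat_lit 5) (nat_lit 209) (nat_lit 5) (nat_lit 448) (nat_lit 356) (nat_lit 336)) (XT.lf (nat_lit 0) (nat_lit 5692530538) (nat_lit 532) (nat_lit 731362641) (nat_lit 76) (nat_lit 2493164095) (nat_lit 202) (nat_lit 5) (nat_lit 209) (nat_lit 5) (nat_lit 203) (nat_lit 5) (nat_lit 449) (nat_lit 356) (nat_lit 335))))) (XT.nd (nat_lit 234) (nat_lit 1064) (nat_lit 0) (XT.nd (nat_lit 78) (nat_lit 912) (nat_lit 0) (XT.lf (nat_lit 0) (nat_lit 405604460) (nat_lit 608) (nat_lit 2881539239) (nat_lit 76) (nat_lit 5710883413) (nat_lit 194) (nat_lit 5) (nat_lit 202) (nat_lit 5) (nat_lit 195) (nat_lit 5) (nat_lit 450) (nat_lit 356) (nat_lit 334)) (XT.nd (nat_lit 78) (nat_lit 456) (nat_lit 0) (XT.lf (nat_lit 0) (nat_lit 3984653170) (nat_lit 456) (nat_lit 57288053) (nat_lit 532) (nat_lit 5038724513)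 (nat_lit 188) (nat_lit 5) (nat_lit 194) (nat_lit 5) (nat_lit 195) (nat_lit 5) (nat_lit 451) (nat_lit 356) (nat_lit 333)) (XT.lf (nat_lit 0) (nat_lit 1787621282) (nat_lit 456) (nat_lit 5961815556) (nat_lit 532) (nat_lit 1415562691) (nat_lit 182) (nat_lit 5) (nat_lit 188) (nat_lit 5) (nat_lit 189) (nat_lit 5) (nat_lit 452) (nat_lit 356) (nat_lit 332)))) (XT.nd (nat_lit 78) (nat_lit 988) (nat_lit 0) (XT.lf (nat_lit 0) (nat_lit 2231495813) (nat_lit 532) (nat_lit 465289211) (nat_lit 76) (nat_lit 6554322772) (nat_lit 181) (nat_lit 5) (nat_lit 188) (nat_lit 5) (nat_lit 182) (nat_lit 5) (nat_lit 453) (nat_lit 356) (nat_lit 331)) (XT.nd (nat_lit 78) (nat_lit 532) (nat_lit 0) (XT.lf (nat_lit 0) (nat_lit 5927207409) (nat_lit 532) (nat_lit 2757244493) (nat_lit 76) (nat_lit 654416264) (nat_lit 175) (nat_lit 5) (nat_lit 182) (nat_lit 5) (nat_lit 176) (nat_lit 5) (nat_lit 454) (nat_lit 356) (nat_lit 330)) (XT.lf (nat_lit 0) (nat_lit 261848598)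 (nat_lit 532) (nat_lit 5120497655) (nat_lit 76) (nat_lit 4046074232) (nat_lit 168) (nat_lit 5) (nat_lit 175) (nat_lit 5) (nat_lit 169) (nat_lit 5) (nat_lit 455) (nat_lit 356) (nat_lit 329))))))))
noncomputable def xc36 : XT := (XT.nd (nat_lit 1716) (nat_lit 3724) (nat_lit 0) (XT.nd (nat_lit 858) (nat_lit 2736) (nat_lit 0) (XT.nd (nat_lit 390) (nat_lit 1672) (nat_lit 0) (XT.nd (nat_lit 156) (nat_lit 1292) (nat_lit 0) (XT.nd (nat_lit 78) (nat_lit 0) (nat_lit 0) (XT.lf (nat_lit 0) (nat_lit 1958728754) (nat_lit 380) (nat_lit 1983945104) (nat_lit 456) (nat_lit 5577058215) (nat_lit 163) (nat_lit 5) (nat_lit 168) (nat_lit 5) (nat_lit 169) (nat_lit 5) (nat_lit 456) (nat_lit 356) (nat_lit 328)) (XT.lf (nat_lit 0) (nat_lit 7689833720) (nat_lit 456) (nat_lit 450075952) (nat_lit 76) (nat_lit 1473115468) (nat_lit 163) (nat_lit 5) (nat_lit 169) (nat_lit 5) (nat_lit 164) (nat_lit 5) (nat_lit 457) (nat_lit 356) (nat_lit 327))) (XT.nd (nat_lit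 78) (nat_lit 760) (nat_lit 0) (XT.lf (nat_lit 0) (nat_lit 1786958949) (nat_lit 532) (nat_lit 2916131112) (nat_lit 76) (nat_lit 5004731764) (nat_lit 156) (nat_lit 5) (nat_lit 163) (nat_lit 5) (nat_lit 157) (nat_lit 5) (nat_lit 458) (nat_lit 356) (nat_lit 326)) (XT.nd (nat_lit 78) (nat_lit 380) (nat_lit 0) (XT.lf (nat_lit 0) (nat_lit 4348553406) (nat_lit 380) (nat_lit 1177982487) (nat_lit 456) (nat_lit 4278113859) (nat_lit 151) (nat_lit 5) (nat_lit 156) (nat_lit 5) (nat_lit 157) (nat_lit 5) (nat_lit 459) (nat_lit 356) (nat_lit 325)) (XT.lf (nat_lit 0) (nat_lit 1827169989) (nat_lit 380) (nat_lit 7511004068) (nat_lit 456) (nat_lit 565303664) (nat_lit 146) (nat_lit 5) (nat_lit 151) (nat_lit 5) (nat_lit 152) (nat_lit 5) (nat_lit 460) (nat_lit 356) (nat_lit 324))))) (XT.nd (nat_lit 234) (nat_lit 760) (nat_lit 0) (XT.nd (nat_lit 78) (nat_lit 836) (nat_lit 0) (XT.lf (nat_lit 0) (nat_lit 3174330514) (nat_lit 456) (nat_lit 778626714) (nat_lit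 76) (nat_lit 6051018761) (nat_lit 145) (nat_lit 5) (nat_lit 151) (nat_lit 5) (nat_lit 146) (nat_lit 5) (nat_lit 461) (nat_lit 356) (nat_lit 323)) (XT.nd (nat_lit 78) (nat_lit 456) (nat_lit 0) (XT.lf (nat_lit 0) (nat_lit 6674114339) (nat_lit 380) (nat_lit 301555454) (nat_lit 456) (nat_lit 3130858427) (nat_lit 140) (nat_lit 5) (nat_lit 145) (nat_lit 5) (nat_lit 146) (nat_lit 5) (nat_lit 462) (nat_lit 356) (nat_lit 322)) (XT.lf (nat_lit 0) (nat_lit 638617518) (nat_lit 456) (nat_lit 6184190542) (nat_lit 76) (nat_lit 3388145485) (nat_lit 134) (nat_lit 5) (nat_lit 140) (nat_lit 5) (nat_lit 135) (nat_lit 5) (nat_lit 463) (nat_lit 356) (nat_lit 321)))) (XT.nd (nat_lit 78) (nat_lit 456) (nat_lit 0) (XT.lf (nat_lit 0) (nat_lit 1283435949) (nat_lit 304) (nat_lit 3143272411) (nat_lit 380) (nat_lit 5890650048) (nat_lit 130) (nat_lit 5) (nat_lit 134) (nat_lit 5) (nat_lit 135) (nat_lit 5) (nat_lit 464) (nat_lit 356) (nat_lit 320)) (XT.nd (nat_lit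 78) (nat_lit 456) (nat_lit 0) (XT.lf (nat_lit 0) (nat_lit 8288178098) (nat_lit 380) (nat_lit 1520507923) (nat_lit 76) (nat_lit 617260736) (nat_lit 130) (nat_lit 5) (nat_lit 135) (nat_lit 5) (nat_lit 131) (nat_lit 5) (nat_lit 465) (nat_lit 356) (nat_lit 319)) (XT.lf (nat_lit 0) (nat_lit 1681520291) (nat_lit 456) (nat_lit 4418745938) (nat_lit 76) (nat_lit 4435958260) (nat_lit 124) (nat_lit 5) (nat_lit 130) (nat_lit 5) (nat_lit 125) (nat_lit 5) (nat_lit 466) (nat_lit 356) (nat_lit 318)))))) (XT.nd (nat_lit 390) (nat_lit 1368) (nat_lit 0) (XT.nd (nat_lit 156) (nat_lit 684) (nat_lit 0) (XT.nd (nat_lit 78) (nat_lit 380) (nat_lit 0) (XT.lf (nat_lit 0) (nat_lit 3234405080) (nat_lit 304) (nat_lit 2298420871) (nat_lit 380) (nat_lit 5115921382) (nat_lit 120) (nat_lit 5) (nat_lit 124) (nat_lit 5) (nat_lit 125) (nat_lit 5) (nat_lit 467) (nat_lit 356) (nat_lit 317)) (XT.lf (nat_lit 0) (nat_lit 256098698) (nat_lit 380) (nat_lit 9200051965)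 (nat_lit 456) (nat_lit 1307477251) (nat_lit 115) (nat_lit 5) (nat_lit 120) (nat_lit 5) (nat_lit 121) (nat_lit 5) (nat_lit 468) (nat_lit 356) (nat_lit 316))) (XT.nd (nat_lit 78) (nat_lit 608) (nat_lit 0) (XT.lf (nat_lit 0) (nat_lit 2561991406) (nat_lit 456) (nat_lit 2806177442) (nat_lit 76) (nat_lit 5511936368) (nat_lit 114) (nat_lit 5) (nat_lit 120) (nat_lit 5) (nat_lit 115) (nat_lit 5) (nat_lit 469) (nat_lit 356) (nat_lit 315)) (XT.nd (nat_lit 78) (nat_lit 304) (nat_lit 0) (XT.lf (nat_lit 0) (nat_lit 5033484153) (nat_lit 304) (nat_lit 1444820223) (nat_lit 380) (nat_lit 4520702325) (nat_lit 110) (nat_lit 5) (nat_lit 114) (nat_lit 5) (nat_lit 115) (nat_lit 5) (nat_lit 470) (nat_lit 356) (nat_lit 314)) (XT.lf (nat_lit 0) (nat_lit 1882705075) (nat_lit 304) (nat_lit 8592532927) (nat_lit 380) (nat_lit 645008922) (nat_lit 106) (nat_lit 5) (nat_lit 110) (nat_lit 5) (nat_lit 111) (nat_lit 5) (nat_lit 471) (nat_lit 356) (nat_lit 313)))))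 (XT.nd (nat_lit 234) (nat_lit 684) (nat_lit 0) (XT.nd (nat_lit 78) (nat_lit 608) (nat_lit 0) (XT.lf (nat_lit 0) (nat_lit 3269303354) (nat_lit 380) (nat_lit 1379117582) (nat_lit 76) (nat_lit 6594977924) (nat_lit 105) (nat_lit 5) (nat_lit 110) (nat_lit 5) (nat_lit 106) (nat_lit 5) (nat_lit 472) (nat_lit 356) (nat_lit 312)) (XT.nd (nat_lit 78) (nat_lit 304) (nat_lit 0) (XT.lf (nat_lit 0) (nat_lit 6647370071) (nat_lit 304) (nat_lit 604579375) (nat_lit 380) (nat_lit 4117011650) (nat_lit 101) (nat_lit 5) (nat_lit 105) (nat_lit 5) (nat_lit 106) (nat_lit 5) (nat_lit 473) (nat_lit 356) (nat_lit 311)) (XT.lf (nat_lit 0) (nat_lit 3304403313) (nat_lit 304) (nat_lit 8019216919) (nat_lit 380) (nat_lit 173233001) (nat_lit 97) (nat_lit 5) (nat_lit 101) (nat_lit 5) (nat_lit 102) (nat_lit 5) (nat_lit 474) (nat_lit 356) (nat_lit 310)))) (XT.nd (nat_lit 78) (nat_lit 608) (nat_lit 0) (XT.lf (nat_lit 0) (nat_lit 3790685220) (nat_lit 380) (nat_lit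 173323934) (nat_lit 76) (nat_lit 7662965060) (nat_lit 96) (nat_lit 5) (nat_lit 101) (nat_lit 5) (nat_lit 97) (nat_lit 5) (nat_lit 475) (nat_lit 356) (nat_lit 309)) (XT.nd (nat_lit 78) (nat_lit 380) (nat_lit 0) (XT.lf (nat_lit 0) (nat_lit 7841772167) (nat_lit 304) (nat_lit 3721265981) (nat_lit 76) (nat_lit 196438108) (nat_lit 93) (nat_lit 5) (nat_lit 97) (nat_lit 5) (nat_lit 94) (nat_lit 5) (nat_lit 476) (nat_lit 356) (nat_lit 308)) (XT.lf (nat_lit 0) (nat_lit 91755788) (nat_lit 380) (nat_lit 7411878056) (nat_lit 76) (nat_lit 4390718868) (nat_lit 88) (nat_lit 5) (nat_lit 93) (nat_lit 5) (nat_lit 89) (nat_lit 5) (nat_lit 477) (nat_lit 356) (nat_lit 307))))))) (XT.nd (nat_lit 858) (nat_lit 1824) (nat_lit 0) (XT.nd (nat_lit 390) (nat_lit 1064) (nat_lit 0) (XT.nd (nat_lit 156) (nat_lit 608) (nat_lit 0) (XT.nd (nat_lit 78) (nat_lit 0) (nat_lit 0) (XT.lf (nat_lit 0) (nat_lit 782178988) (nat_lit 228) (nat_lit 3334059081) (nat_lit 304)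 (nat_lit 7915430296) (nat_lit 85) (nat_lit 5) (nat_lit 88) (nat_lit 5) (nat_lit 89) (nat_lit 5) (nat_lit 478) (nat_lit 356) (nat_lit 306)) (XT.lf (nat_lit 0) (nat_lit 8234469618) (nat_lit 304) (nat_lit 3007923573) (nat_lit 76) (nat_lit 929077252) (nat_lit 85) (nat_lit 5) (nat_lit 89) (nat_lit 5) (nat_lit 86) (nat_lit 5) (nat_lit 479) (nat_lit 356) (nat_lit 305))) (XT.nd (nat_lit 78) (nat_lit 228) (nat_lit 0) (XT.lf (nat_lit 0) (nat_lit 134559907) (nat_lit 380) (nat_lit 6937824121) (nat_lit 76) (nat_lit 5241370929) (nat_lit 80) (nat_lit 5) (nat_lit 85) (nat_lit 5) (nat_lit 81) (nat_lit 5) (nat_lit 480) (nat_lit 356) (nat_lit 304)) (XT.nd (nat_lit 78) (nat_lit 0) (nat_lit 0) (XT.lf (nat_lit 0) (nat_lit 1432152393) (nat_lit 228) (nat_lit 2790504336) (nat_lit 304) (nat_lit 8235956535) (nat_lit 77) (nat_lit 5) (nat_lit 80) (nat_lit 5) (nat_lit 81) (nat_lit 5) (nat_lit 481) (nat_lit 356) (nat_lit 303)) (XT.lf (nat_lit 0) (nat_lit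 8407958898) (nat_lit 304) (nat_lit 2622779946) (nat_lit 76) (nat_lit 1575325925) (nat_lit 77) (nat_lit 5) (nat_lit 81) (nat_lit 5) (nat_lit 78) (nat_lit 5) (nat_lit 482) (nat_lit 356) (nat_lit 302))))) (XT.nd (nat_lit 234) (nat_lit 532) (nat_lit 0) (XT.nd (nat_lit 78) (nat_lit 304) (nat_lit 0) (XT.lf (nat_lit 0) (nat_lit 5939403055) (nat_lit 228) (nat_lit 6753763253) (nat_lit 304) (nat_lit 62979817) (nat_lit 74) (nat_lit 5) (nat_lit 77) (nat_lit 5) (nat_lit 78) (nat_lit 5) (nat_lit 483) (nat_lit 356) (nat_lit 301)) (XT.nd (nat_lit 78) (nat_lit 0) (nat_lit 0) (XT.lf (nat_lit 0) (nat_lit 1725968728) (nat_lit 228) (nat_lit 2362550967) (nat_lit 304) (nat_lit 8820411261) (nat_lit 70) (nat_lit 5) (nat_lit 73) (nat_lit 5) (nat_lit 74) (nat_lit 5) (nat_lit 484) (nat_lit 356) (nat_lit 300)) (XT.lf (nat_lit 0) (nat_lit 8341405234) (nat_lit 304) (nat_lit 2615635876) (nat_lit 76) (nat_lit 2107342588) (nat_lit 70) (nat_lit 5) (nat_lit 74)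 (nat_lit 5) (nat_lit 71) (nat_lit 5) (nat_lit 485) (nat_lit 356) (nat_lit 299)))) (XT.nd (nat_lit 78) (nat_lit 304) (nat_lit 0) (XT.lf (nat_lit 0) (nat_lit 6119755481) (nat_lit 228) (nat_lit 6575178473) (nat_lit 304) (nat_lit 527704271) (nat_lit 67) (nat_lit 5) (nat_lit 70) (nat_lit 5) (nat_lit 71) (nat_lit 5) (nat_lit 486) (nat_lit 356) (nat_lit 298)) (XT.nd (nat_lit 78) (nat_lit 0) (nat_lit 0) (XT.lf (nat_lit 0) (nat_lit 1610266548) (nat_lit 228) (nat_lit 2080413739) (nat_lit 304) (nat_lit 9693126557) (nat_lit 63) (nat_lit 5) (nat_lit 66) (nat_lit 5) (nat_lit 67) (nat_lit 5) (nat_lit 487) (nat_lit 356) (nat_lit 297)) (XT.lf (nat_lit 0) (nat_lit 8011052317) (nat_lit 304) (nat_lit 3041499123) (nat_lit 76) (nat_lit 2495088102) (nat_lit 63) (nat_lit 5) (nat_lit 67) (nat_lit 5) (nat_lit 64) (nat_lit 5) (nat_lit 488) (nat_lit 356) (nat_lit 296)))))) (XT.nd (nat_lit 468) (nat_lit 912) (nat_lit 0) (XT.nd (nat_lit 234) (nat_lit 456)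 (nat_lit 0) (XT.nd (nat_lit 78) (nat_lit 228) (nat_lit 0) (XT.lf (nat_lit 0) (nat_lit 5861471486) (nat_lit 228) (nat_lit 6569410287) (nat_lit 304) (nat_lit 1283610221) (nat_lit 60) (nat_lit 5) (nat_lit 63) (nat_lit 5) (nat_lit 64) (nat_lit 5) (nat_lit 489) (nat_lit 356) (nat_lit 295)) (XT.nd (nat_lit 78) (nat_lit 0) (nat_lit 0) (XT.lf (nat_lit 0) (nat_lit 1026060008) (nat_lit 152) (nat_lit 1976800833) (nat_lit 228) (nat_lit 10881658092) (nat_lit 57) (nat_lit 5) (nat_lit 59) (nat_lit 5) (nat_lit 60) (nat_lit 5) (nat_lit 490) (nat_lit 356) (nat_lit 294)) (XT.lf (nat_lit 0) (nat_lit 7389948930) (nat_lit 228) (nat_lit 3961186506) (nat_lit 76) (nat_lit 2706003644) (nat_lit 57) (nat_lit 5) (nat_lit 60) (nat_lit 5) (nat_lit 58) (nat_lit 5) (nat_lit 491) (nat_lit 356) (nat_lit 293)))) (XT.nd (nat_lit 78) (nat_lit 228) (nat_lit 0) (XT.lf (nat_lit 0) (nat_lit 5102133506) (nat_lit 228) (nat_lit 6771051590) (nat_lit 304) (nat_lit 2359862195)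 (nat_lit 54) (nat_lit 5) (nat_lit 57) (nat_lit 5) (nat_lit 58) (nat_lit 5) (nat_lit 492) (nat_lit 356) (nat_lit 292)) (XT.nd (nat_lit 78) (nat_lit 152) (nat_lit 0) (XT.lf (nat_lit 0) (nat_lit 1995952825) (nat_lit 304) (nat_lit 90701530) (nat_lit 76) (nat_lit 12325778647) (nat_lit 53) (nat_lit 5) (nat_lit 57) (nat_lit 5) (nat_lit 54) (nat_lit 5) (nat_lit 493) (nat_lit 356) (nat_lit 291)) (XT.lf (nat_lit 0) (nat_lit 6447643752) (nat_lit 228) (nat_lit 5441986310) (nat_lit 76) (nat_lit 2704660799) (nat_lit 51) (nat_lit 5) (nat_lit 54) (nat_lit 5) (nat_lit 52) (nat_lit 5) (nat_lit 494) (nat_lit 356) (nat_lit 290))))) (XT.nd (nat_lit 234) (nat_lit 456) (nat_lit 0) (XT.nd (nat_lit 78) (nat_lit 228) (nat_lit 0) (XT.lf (nat_lit 0) (nat_lit 3772642576) (nat_lit 228) (nat_lit 7217777899) (nat_lit 304) (nat_lit 3789327862) (nat_lit 48) (nat_lit 5) (nat_lit 51) (nat_lit 5) (nat_lit 52) (nat_lit 5) (nat_lit 495) (nat_lit 356) (nat_lit 289))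 (XT.nd (nat_lit 78) (nat_lit 152) (nat_lit 0) (XT.lf (nat_lit 0) (nat_lit 646492385) (nat_lit 304) (nat_lit 1792055672) (nat_lit 76) (nat_lit 12530286261) (nat_lit 47) (nat_lit 5) (nat_lit 51) (nat_lit 5) (nat_lit 48) (nat_lit 5) (nat_lit 496) (nat_lit 356) (nat_lit 288)) (XT.lf (nat_lit 0) (nat_lit 5149845253) (nat_lit 228) (nat_lit 7558387579) (nat_lit 76) (nat_lit 2452380430) (nat_lit 45) (nat_lit 5) (nat_lit 48) (nat_lit 5) (nat_lit 46) (nat_lit 5) (nat_lit 497) (nat_lit 356) (nat_lit 287)))) (XT.nd (nat_lit 78) (nat_lit 228) (nat_lit 0) (XT.lf (nat_lit 0) (nat_lit 1796465754) (nat_lit 228) (nat_lit 7950747862) (nat_lit 304) (nat_lit 5608938434) (nat_lit 42) (nat_lit 5) (nat_lit 45) (nat_lit 5) (nat_lit 46) (nat_lit 5) (nat_lit 498) (nat_lit 356) (nat_lit 286)) (XT.nd (nat_lit 78) (nat_lit 228) (nat_lit 0) (XT.lf (nat_lit 0) (nat_lit 11377726835) (nat_lit 228) (nat_lit 3073848571) (nat_lit 304) (nat_lit 1103728456) (nat_lit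 42) (nat_lit 5) (nat_lit 45) (nat_lit 5) (nat_lit 46) (nat_lit 5) (nat_lit 499) (nat_lit 356) (nat_lit 285)) (XT.lf (nat_lit 0) (nat_lit 3458043215) (nat_lit 228) (nat_lit 10392883524) (nat_lit 76) (nat_lit 1906816619) (nat_lit 39) (nat_lit 5) (nat_lit 42) (nat_lit 5) (nat_lit 40) (nat_lit 5) (nat_lit 500) (nat_lit 356) (nat_lit 284))))))))
noncomputable def xc37 : XT := (XT.nd (nat_lit 54678) (nat_lit 0) (nat_lit 7980) (XT.nd (nat_lit 53820) (nat_lit 0) (nat_lit 17252) (XT.nd (nat_lit 390) (nat_lit 228) (nat_lit 0) (XT.nd (nat_lit 156) (nat_lit 380) (nat_lit 0) (XT.nd (nat_lit 78) (nat_lit 152) (nat_lit 0) (XT.lf (nat_lit 0) (nat_lit 8109763788) (nat_lit 228) (nat_lit 899242626) (nat_lit 76) (nat_lit 6954812457) (nat_lit 39) (nat_lit 5) (nat_lit 42) (nat_lit 5) (nat_lit 40) (nat_lit 5) (nat_lit 501) (nat_lit 356) (nat_lit 283)) (XT.lf (nat_lit 0) (nat_lit 8838927049) (nat_lit 152) (nat_lit 4038570654) (nat_lit 228) (nat_lit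 3296061540) (nat_lit 37) (nat_lit 5) (nat_lit 39) (nat_lit 5) (nat_lit 40) (nat_lit 5) (nat_lit 502) (nat_lit 356) (nat_lit 282))) (XT.nd (nat_lit 78) (nat_lit 152) (nat_lit 0) (XT.lf (nat_lit 0) (nat_lit 1329088094) (nat_lit 228) (nat_lit 14036856977) (nat_lit 76) (nat_lit 1021501621) (nat_lit 34) (nat_lit 5) (nat_lit 37) (nat_lit 5) (nat_lit 35) (nat_lit 5) (nat_lit 503) (nat_lit 356) (nat_lit 281)) (XT.nd (nat_lit 78) (nat_lit 152) (nat_lit 0) (XT.lf (nat_lit 0) (nat_lit 6044683713) (nat_lit 228) (nat_lit 4386019397) (nat_lit 76) (nat_lit 6173634252) (nat_lit 34) (nat_lit 5) (nat_lit 37) (nat_lit 5) (nat_lit 35) (nat_lit 5) (nat_lit 504) (nat_lit 356) (nat_lit 280)) (XT.lf (nat_lit 0) (nat_lit 5469339688) (nat_lit 152) (nat_lit 5387179100) (nat_lit 228) (nat_lit 5969011214) (nat_lit 32) (nat_lit 5) (nat_lit 34) (nat_lit 5) (nat_lit 35) (nat_lit 5) (nat_lit 505) (nat_lit 356) (nat_lit 279))))) (XT.nd (nat_lit 53196) (nat_lit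 0) (nat_lit 23028) (XT.nd (nat_lit 78) (nat_lit 228) (nat_lit 0) (XT.lf (nat_lit 0) (nat_lit 15521429213) (nat_lit 152) (nat_lit 239280844) (nat_lit 228) (nat_lit 1290516699) (nat_lit 32) (nat_lit 5) (nat_lit 34) (nat_lit 5) (nat_lit 35) (nat_lit 5) (nat_lit 506) (nat_lit 356) (nat_lit 278)) (XT.nd (nat_lit 53040) (nat_lit 0) (nat_lit 24700) (XT.lf (nat_lit 0) (nat_lit 3491230641) (nat_lit 228) (nat_lit 8790217940) (nat_lit 76) (nat_lit 4998432444) (nat_lit 29) (nat_lit 5) (nat_lit 32) (nat_lit 5) (nat_lit 30) (nat_lit 5) (nat_lit 507) (nat_lit 356) (nat_lit 277)) (XT.lf (nat_lit 0) (nat_lit 965257720) (nat_lit 836) (nat_lit 1388331489) (nat_lit 836) (nat_lit 1388331489) (nat_lit 354) (nat_lit 4) (nat_lit 365) (nat_lit 5) (nat_lit 365) (nat_lit 4) (nat_lit 426) (nat_lit 357) (nat_lit 357)))) (XT.nd (nat_lit 78) (nat_lit 836) (nat_lit 0) (XT.lf (nat_lit 0) (nat_lit 134416044) (nat_lit 760) (nat_lit 663225347) (nat_lit 836) (nat_lit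 6733225846) (nat_lit 343) (nat_lit 5) (nat_lit 353) (nat_lit 5) (nat_lit 354) (nat_lit 4) (nat_lit 427) (nat_lit 357) (nat_lit 356)) (XT.nd (nat_lit 78) (nat_lit 836) (nat_lit 0) (XT.lf (nat_lit 0) (nat_lit 4386767423) (nat_lit 836) (nat_lit 1672677772) (nat_lit 0) (nat_lit 1519432238) (nat_lit 343) (nat_lit 5) (nat_lit 354) (nat_lit 4) (nat_lit 343) (nat_lit 4) (nat_lit 428) (nat_lit 357) (nat_lit 355)) (XT.lf (nat_lit 0) (nat_lit 379930094) (nat_lit 836) (nat_lit 3491516455) (nat_lit 76) (nat_lit 3757055001) (nat_lit 332) (nat_lit 5) (nat_lit 343) (nat_lit 5) (nat_lit 333) (nat_lit 4) (nat_lit 429) (nat_lit 357) (nat_lit 354)))))) (XT.nd (nat_lit 390) (nat_lit 2736) (nat_lit 0) (XT.nd (nat_lit 156) (nat_lit 1520) (nat_lit 0) (XT.nd (nat_lit 78) (nat_lit 760) (nat_lit 0) (XT.lf (nat_lit 0) (nat_lit 2339773395) (nat_lit 760) (nat_lit 1602356131) (nat_lit 836) (nat_lit 3737357403) (nat_lit 322) (nat_lit 5) (nat_lit 332) (nat_lit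 5) (nat_lit 333) (nat_lit 4) (nat_lit 430) (nat_lit 357) (nat_lit 353)) (XT.lf (nat_lit 0) (nat_lit 529106174) (nat_lit 760) (nat_lit 7013750100) (nat_lit 760) (nat_lit 189309677) (nat_lit 312) (nat_lit 4) (nat_lit 322) (nat_lit 5) (nat_lit 322) (nat_lit 4) (nat_lit 431) (nat_lit 357) (nat_lit 352))) (XT.nd (nat_lit 78) (nat_lit 1444) (nat_lit 0) (XT.lf (nat_lit 0) (nat_lit 3367363398) (nat_lit 836) (nat_lit 1308026664) (nat_lit 76) (nat_lit 3110429063) (nat_lit 311) (nat_lit 5) (nat_lit 322) (nat_lit 5) (nat_lit 312) (nat_lit 4) (nat_lit 432) (nat_lit 357) (nat_lit 351)) (XT.nd (nat_lit 78) (nat_lit 760) (nat_lit 0) (XT.lf (nat_lit 0) (nat_lit 4689260322) (nat_lit 684) (nat_lit 2271042812) (nat_lit 760) (nat_lit 880882313) (nat_lit 302) (nat_lit 5) (nat_lit 311) (nat_lit 5) (nat_lit 312) (nat_lit 4) (nat_lit 433) (nat_lit 357) (nat_lit 350)) (XT.lf (nat_lit 0) (nat_lit 2658063871) (nat_lit 760) (nat_lit 5029033096) (nat_lit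 76) (nat_lit 210897870) (nat_lit 292) (nat_lit 5) (nat_lit 302) (nat_lit 5) (nat_lit 293) (nat_lit 4) (nat_lit 434) (nat_lit 357) (nat_lit 349))))) (XT.nd (nat_lit 234) (nat_lit 1292) (nat_lit 0) (XT.nd (nat_lit 78) (nat_lit 760) (nat_lit 0) (XT.lf (nat_lit 0) (nat_lit 1012842238) (nat_lit 684) (nat_lit 5224244765) (nat_lit 760) (nat_lit 1719132505) (nat_lit 283) (nat_lit 5) (nat_lit 292) (nat_lit 5) (nat_lit 293) (nat_lit 4) (nat_lit 435) (nat_lit 357) (nat_lit 348)) (XT.nd (nat_lit 78) (nat_lit 684) (nat_lit 0) (XT.lf (nat_lit 0) (nat_lit 1819969698) (nat_lit 760) (nat_lit 860817319) (nat_lit 76) (nat_lit 5335146482) (nat_lit 282) (nat_lit 5) (nat_lit 292) (nat_lit 5) (nat_lit 283) (nat_lit 5) (nat_lit 436) (nat_lit 357) (nat_lit 347)) (XT.lf (nat_lit 0) (nat_lit 5326146282) (nat_lit 684) (nat_lit 54966863) (nat_lit 760) (nat_lit 2696032187) (nat_lit 273) (nat_lit 5) (nat_lit 282) (nat_lit 5) (nat_lit 283) (nat_lit 5) (nat_lit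 437) (nat_lit 357) (nat_lit 346)))) (XT.nd (nat_lit 78) (nat_lit 608) (nat_lit 0) (XT.lf (nat_lit 0) (nat_lit 847913525) (nat_lit 684) (nat_lit 4684416121) (nat_lit 76) (nat_lit 2607444508) (nat_lit 264) (nat_lit 5) (nat_lit 273) (nat_lit 5) (nat_lit 265) (nat_lit 5) (nat_lit 438) (nat_lit 357) (nat_lit 345)) (XT.nd (nat_lit 78) (nat_lit 0) (nat_lit 0) (XT.lf (nat_lit 0) (nat_lit 1545141704) (nat_lit 608) (nat_lit 2851050843) (nat_lit 684) (nat_lit 3807730960) (nat_lit 256) (nat_lit 5) (nat_lit 264) (nat_lit 5) (nat_lit 265) (nat_lit 5) (nat_lit 439) (nat_lit 357) (nat_lit 344)) (XT.lf (nat_lit 0) (nat_lit 7886664563) (nat_lit 608) (nat_lit 101420594) (nat_lit 684) (nat_lit 281832882) (nat_lit 256) (nat_lit 5) (nat_lit 264) (nat_lit 5) (nat_lit 265) (nat_lit 5) (nat_lit 440) (nat_lit 357) (nat_lit 343))))))) (XT.nd (nat_lit 858) (nat_lit 4104) (nat_lit 0) (XT.nd (nat_lit 390) (nat_lit 2660) (nat_lit 0) (XT.nd (nat_lit 156) (nat_lit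 1216) (nat_lit 0) (XT.nd (nat_lit 78) (nat_lit 608) (nat_lit 0) (XT.lf (nat_lit 0) (nat_lit 3269872774) (nat_lit 684) (nat_lit 2355504597) (nat_lit 76) (nat_lit 2711464027) (nat_lit 247) (nat_lit 5) (nat_lit 256) (nat_lit 5) (nat_lit 248) (nat_lit 5) (nat_lit 441) (nat_lit 357) (nat_lit 342)) (XT.lf (nat_lit 0) (nat_lit 4047926822) (nat_lit 608) (nat_lit 2812964824) (nat_lit 684) (nat_lit 1544747542) (nat_lit 239) (nat_lit 5) (nat_lit 247) (nat_lit 5) (nat_lit 248) (nat_lit 5) (nat_lit 442) (nat_lit 357) (nat_lit 341))) (XT.nd (nat_lit 78) (nat_lit 608) (nat_lit 0) (XT.lf (nat_lit 0) (nat_lit 1993707226) (nat_lit 608) (nat_lit 6403231717) (nat_lit 76) (nat_lit 79168825) (nat_lit 231) (nat_lit 5) (nat_lit 239) (nat_lit 5) (nat_lit 232) (nat_lit 5) (nat_lit 443) (nat_lit 357) (nat_lit 340)) (XT.nd (nat_lit 78) (nat_lit 76) (nat_lit 0) (XT.lf (nat_lit 0) (nat_lit 38432479) (nat_lit 532) (nat_lit 5535408865) (nat_lit 608) (nat_lit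 2974121725) (nat_lit 224) (nat_lit 5) (nat_lit 231) (nat_lit 5) (nat_lit 232) (nat_lit 5) (nat_lit 444) (nat_lit 357) (nat_lit 339)) (XT.lf (nat_lit 0) (nat_lit 583143663) (nat_lit 608) (nat_lit 2005899919) (nat_lit 76) (nat_lit 6032411420) (nat_lit 223) (nat_lit 5) (nat_lit 231) (nat_lit 5) (nat_lit 224) (nat_lit 5) (nat_lit 445) (nat_lit 357) (nat_lit 338))))) (XT.nd (nat_lit 234) (nat_lit 1064) (nat_lit 0) (XT.nd (nat_lit 78) (nat_lit 1064) (nat_lit 0) (XT.lf (nat_lit 0) (nat_lit 4149088843) (nat_lit 608) (nat_lit 4106616803) (nat_lit 76) (nat_lit 440783467) (nat_lit 216) (nat_lit 5) (nat_lit 224) (nat_lit 5) (nat_lit 217) (nat_lit 5) (nat_lit 446) (nat_lit 357) (nat_lit 337)) (XT.nd (nat_lit 78) (nat_lit 532) (nat_lit 0) (XT.lf (nat_lit 0) (nat_lit 2511709019) (nat_lit 532) (nat_lit 5266716456) (nat_lit 608) (nat_lit 994769412) (nat_lit 209) (nat_lit 5) (nat_lit 216) (nat_lit 5) (nat_lit 217) (nat_lit 5) (nat_lit 447) (nat_lit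 357) (nat_lit 336)) (XT.lf (nat_lit 0) (nat_lit 378666833) (nat_lit 456) (nat_lit 2191251264) (nat_lit 532) (nat_lit 6281677599) (nat_lit 202) (nat_lit 5) (nat_lit 208) (nat_lit 5) (nat_lit 209) (nat_lit 5) (nat_lit 448) (nat_lit 357) (nat_lit 335)))) (XT.nd (nat_lit 78) (nat_lit 1064) (nat_lit 0) (XT.lf (nat_lit 0) (nat_lit 6186753290) (nat_lit 532) (nat_lit 1783916854) (nat_lit 76) (nat_lit 960891106) (nat_lit 202) (nat_lit 5) (nat_lit 209) (nat_lit 5) (nat_lit 203) (nat_lit 5) (nat_lit 449) (nat_lit 357) (nat_lit 334)) (XT.nd (nat_lit 78) (nat_lit 456) (nat_lit 0) (XT.lf (nat_lit 0) (nat_lit 845292592) (nat_lit 608) (nat_lit 4003867018) (nat_lit 76) (nat_lit 4163989540) (nat_lit 194) (nat_lit 5) (nat_lit 202) (nat_lit 5) (nat_lit 195) (nat_lit 5) (nat_lit 450) (nat_lit 357) (nat_lit 333)) (XT.lf (nat_lit 0) (nat_lit 2809586326) (nat_lit 456) (nat_lit 1638170100) (nat_lit 532) (nat_lit 4648714272) (nat_lit 188) (nat_lit 5)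 (nat_lit 194) (nat_lit 5) (nat_lit 195) (nat_lit 5) (nat_lit 451) (nat_lit 357) (nat_lit 332)))))) (XT.nd (nat_lit 468) (nat_lit 2204) (nat_lit 0) (XT.nd (nat_lit 234) (nat_lit 912) (nat_lit 0) (XT.nd (nat_lit 78) (nat_lit 532) (nat_lit 0) (XT.lf (nat_lit 0) (nat_lit 553290259) (nat_lit 456) (nat_lit 7557641602) (nat_lit 532) (nat_lit 1070764389) (nat_lit 182) (nat_lit 5) (nat_lit 188) (nat_lit 5) (nat_lit 189) (nat_lit 5) (nat_lit 452) (nat_lit 357) (nat_lit 331)) (XT.nd (nat_lit 78) (nat_lit 456) (nat_lit 0) (XT.lf (nat_lit 0) (nat_lit 2545822736) (nat_lit 532) (nat_lit 1756193555) (nat_lit 76) (nat_lit 4966267589) (nat_lit 181) (nat_lit 5) (nat_lit 188) (nat_lit 5) (nat_lit 182) (nat_lit 5) (nat_lit 453) (nat_lit 357) (nat_lit 330)) (XT.lf (nat_lit 0) (nat_lit 5240565046) (nat_lit 456) (nat_lit 962487883) (nat_lit 532) (nat_lit 3153765997) (nat_lit 175) (nat_lit 5) (nat_lit 181) (nat_lit 5) (nat_lit 182) (nat_lit 5) (nat_lit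 454) (nat_lit 357) (nat_lit 329)))) (XT.nd (nat_lit 78) (nat_lit 380) (nat_lit 0) (XT.lf (nat_lit 0) (nat_lit 475439915) (nat_lit 532) (nat_lit 6548993384) (nat_lit 76) (nat_lit 2422727731) (nat_lit 168) (nat_lit 5) (nat_lit 175) (nat_lit 5) (nat_lit 169) (nat_lit 5) (nat_lit 455) (nat_lit 357) (nat_lit 328)) (XT.nd (nat_lit 78) (nat_lit 0) (nat_lit 0) (XT.lf (nat_lit 0) (nat_lit 473568465) (nat_lit 380) (nat_lit 3647885499) (nat_lit 456) (nat_lit 5417719634) (nat_lit 163) (nat_lit 5) (nat_lit 168) (nat_lit 5) (nat_lit 169) (nat_lit 5) (nat_lit 456) (nat_lit 357) (nat_lit 327)) (XT.lf (nat_lit 0) (nat_lit 7650732513) (nat_lit 380) (nat_lit 183274851) (nat_lit 456) (nat_lit 1799156095) (nat_lit 163) (nat_lit 5) (nat_lit 168) (nat_lit 5) (nat_lit 169) (nat_lit 5) (nat_lit 457) (nat_lit 357) (nat_lit 326))))) (XT.nd (nat_lit 234) (nat_lit 912) (nat_lit 0) (XT.nd (nat_lit 78) (nat_lit 760) (nat_lit 0) (XT.lf (nat_lit 0) (nat_lit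 1873117207) (nat_lit 532) (nat_lit 4526195222) (nat_lit 76) (nat_lit 3329361099) (nat_lit 156) (nat_lit 5) (nat_lit 163) (nat_lit 5) (nat_lit 157) (nat_lit 5) (nat_lit 458) (nat_lit 357) (nat_lit 325)) (XT.nd (nat_lit 78) (nat_lit 380) (nat_lit 0) (XT.lf (nat_lit 0) (nat_lit 2679882452) (nat_lit 380) (nat_lit 2897553725) (nat_lit 456) (nat_lit 4248774832) (nat_lit 151) (nat_lit 5) (nat_lit 156) (nat_lit 5) (nat_lit 157) (nat_lit 5) (nat_lit 459) (nat_lit 357) (nat_lit 324)) (XT.lf (nat_lit 0) (nat_lit 88409793) (nat_lit 380) (nat_lit 9253949104) (nat_lit 456) (nat_lit 583618698) (nat_lit 146) (nat_lit 5) (nat_lit 151) (nat_lit 5) (nat_lit 152) (nat_lit 5) (nat_lit 460) (nat_lit 357) (nat_lit 323)))) (XT.nd (nat_lit 78) (nat_lit 836) (nat_lit 0) (XT.lf (nat_lit 0) (nat_lit 3132068546) (nat_lit 456) (nat_lit 2576739188) (nat_lit 76) (nat_lit 4318158392) (nat_lit 145) (nat_lit 5) (nat_lit 151) (nat_lit 5) (nat_lit 146) (nat_lit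 5) (nat_lit 461) (nat_lit 357) (nat_lit 322)) (XT.nd (nat_lit 78) (nat_lit 456) (nat_lit 0) (XT.lf (nat_lit 0) (nat_lit 4815377812) (nat_lit 380) (nat_lit 2082248982) (nat_lit 456) (nat_lit 3232611243) (nat_lit 140) (nat_lit 5) (nat_lit 145) (nat_lit 5) (nat_lit 146) (nat_lit 5) (nat_lit 462) (nat_lit 357) (nat_lit 321)) (XT.lf (nat_lit 0) (nat_lit 490207158) (nat_lit 456) (nat_lit 8140513333) (nat_lit 76) (nat_lit 1604919828) (nat_lit 134) (nat_lit 5) (nat_lit 140) (nat_lit 5) (nat_lit 135) (nat_lit 5) (nat_lit 463) (nat_lit 357) (nat_lit 320))))))))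
noncomputable def xc38 : XT := (XT.nd (nat_lit 1716) (nat_lit 3116) (nat_lit 0) (XT.nd (nat_lit 858) (nat_lit 2052) (nat_lit 0) (XT.nd (nat_lit 390) (nat_lit 1748) (nat_lit 0) (XT.nd (nat_lit 156) (nat_lit 760) (nat_lit 0) (XT.nd (nat_lit 78) (nat_lit 304) (nat_lit 0) (XT.lf (nat_lit 0) (nat_lit 4246470893) (nat_lit 456) (nat_lit 726196122) (nat_lit 76) (nat_lit 5370018535) (nat_lit 134) (nat_lit 5) (nat_lit 140) (nat_lit 5) (nat_lit 135) (nat_lit 5) (nat_lit 464) (nat_lit 357) (nat_lit 319)) (XT.lf (nat_lit 0) (nat_lit 6854061332) (nat_lit 304) (nat_lit 1221771973) (nat_lit 380) (nat_lit 2376086491) (nat_lit 130) (nat_lit 5) (nat_lit 134) (nat_lit 5) (nat_lit 135) (nat_lit 5) (nat_lit 465) (nat_lit 357) (nat_lit 318))) (XT.nd (nat_lit 78) (nat_lit 304) (nat_lit 0) (XT.lf (nat_lit 0) (nat_lit 1401350084) (nat_lit 456) (nat_lit 6577073269) (nat_lit 76) (nat_lit 2584708286) (nat_lit 124) (nat_lit 5) (nat_lit 130) (nat_lit 5) (nat_lit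 125) (nat_lit 5) (nat_lit 466) (nat_lit 357) (nat_lit 317)) (XT.nd (nat_lit 78) (nat_lit 0) (nat_lit 0) (XT.lf (nat_lit 0) (nat_lit 1010942222) (nat_lit 304) (nat_lit 4204445842) (nat_lit 380) (nat_lit 5461015306) (nat_lit 120) (nat_lit 5) (nat_lit 124) (nat_lit 5) (nat_lit 125) (nat_lit 5) (nat_lit 467) (nat_lit 357) (nat_lit 316)) (XT.lf (nat_lit 0) (nat_lit 8767681753) (nat_lit 304) (nat_lit 336476676) (nat_lit 380) (nat_lit 1687820075) (nat_lit 120) (nat_lit 5) (nat_lit 124) (nat_lit 5) (nat_lit 125) (nat_lit 5) (nat_lit 468) (nat_lit 357) (nat_lit 315))))) (XT.nd (nat_lit 234) (nat_lit 988) (nat_lit 0) (XT.nd (nat_lit 78) (nat_lit 304) (nat_lit 0) (XT.lf (nat_lit 0) (nat_lit 2148405177) (nat_lit 456) (nat_lit 5173524399) (nat_lit 76) (nat_lit 3587343583) (nat_lit 114) (nat_lit 5) (nat_lit 120) (nat_lit 5) (nat_lit 115) (nat_lit 5) (nat_lit 469) (nat_lit 357) (nat_lit 314)) (XT.nd (nat_lit 78) (nat_lit 0) (nat_lit 0) (XT.lf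 (nat_lit 0) (nat_lit 2598739406) (nat_lit 304) (nat_lit 3427973605) (nat_lit 380) (nat_lit 5002225001) (nat_lit 110) (nat_lit 5) (nat_lit 114) (nat_lit 5) (nat_lit 115) (nat_lit 5) (nat_lit 470) (nat_lit 357) (nat_lit 313)) (XT.lf (nat_lit 0) (nat_lit 9976470276) (nat_lit 380) (nat_lit 629376439) (nat_lit 76) (nat_lit 545278250) (nat_lit 110) (nat_lit 5) (nat_lit 115) (nat_lit 5) (nat_lit 111) (nat_lit 5) (nat_lit 471) (nat_lit 357) (nat_lit 312)))) (XT.nd (nat_lit 78) (nat_lit 608) (nat_lit 0) (XT.lf (nat_lit 0) (nat_lit 2720414659) (nat_lit 380) (nat_lit 3962708774) (nat_lit 76) (nat_lit 4591749107) (nat_lit 105) (nat_lit 5) (nat_lit 110) (nat_lit 5) (nat_lit 106) (nat_lit 5) (nat_lit 472) (nat_lit 357) (nat_lit 311)) (XT.nd (nat_lit 78) (nat_lit 304) (nat_lit 0) (XT.lf (nat_lit 0) (nat_lit 3994027881) (nat_lit 304) (nat_lit 2670216128) (nat_lit 380) (nat_lit 4736970117) (nat_lit 101) (nat_lit 5) (nat_lit 105) (nat_lit 5)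 (nat_lit 106) (nat_lit 5) (nat_lit 473) (nat_lit 357) (nat_lit 310)) (XT.lf (nat_lit 0) (nat_lit 561175419) (nat_lit 304) (nat_lit 10122038890) (nat_lit 380) (nat_lit 846948923) (nat_lit 97) (nat_lit 5) (nat_lit 101) (nat_lit 5) (nat_lit 102) (nat_lit 5) (nat_lit 474) (nat_lit 357) (nat_lit 309)))))) (XT.nd (nat_lit 390) (nat_lit 1140) (nat_lit 0) (XT.nd (nat_lit 156) (nat_lit 608) (nat_lit 0) (XT.nd (nat_lit 78) (nat_lit 228) (nat_lit 0) (XT.lf (nat_lit 0) (nat_lit 3104378211) (nat_lit 380) (nat_lit 2980610743) (nat_lit 76) (nat_lit 5575814125) (nat_lit 96) (nat_lit 5) (nat_lit 101) (nat_lit 5) (nat_lit 97) (nat_lit 5) (nat_lit 475) (nat_lit 357) (nat_lit 308)) (XT.lf (nat_lit 0) (nat_lit 5160042251) (nat_lit 228) (nat_lit 1954428160) (nat_lit 304) (nat_lit 4679657392) (nat_lit 93) (nat_lit 5) (nat_lit 96) (nat_lit 5) (nat_lit 97) (nat_lit 5) (nat_lit 476) (nat_lit 357) (nat_lit 307))) (XT.nd (nat_lit 78) (nat_lit 304) (nat_lit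 0) (XT.lf (nat_lit 0) (nat_lit 1509420010) (nat_lit 304) (nat_lit 9697717712) (nat_lit 380) (nat_lit 722939353) (nat_lit 89) (nat_lit 5) (nat_lit 93) (nat_lit 5) (nat_lit 94) (nat_lit 5) (nat_lit 477) (nat_lit 357) (nat_lit 306)) (XT.nd (nat_lit 78) (nat_lit 228) (nat_lit 0) (XT.lf (nat_lit 0) (nat_lit 3285089243) (nat_lit 380) (nat_lit 2266757228) (nat_lit 76) (nat_lit 6516161462) (nat_lit 88) (nat_lit 5) (nat_lit 93) (nat_lit 5) (nat_lit 89) (nat_lit 5) (nat_lit 478) (nat_lit 357) (nat_lit 305)) (XT.lf (nat_lit 0) (nat_lit 6056356231) (nat_lit 228) (nat_lit 1305268428) (nat_lit 304) (nat_lit 4847021849) (nat_lit 85) (nat_lit 5) (nat_lit 88) (nat_lit 5) (nat_lit 89) (nat_lit 5) (nat_lit 479) (nat_lit 357) (nat_lit 304))))) (XT.nd (nat_lit 234) (nat_lit 532) (nat_lit 0) (XT.nd (nat_lit 78) (nat_lit 304) (nat_lit 0) (XT.lf (nat_lit 0) (nat_lit 2164803560) (nat_lit 304) (nat_lit 9362790222) (nat_lit 380) (nat_lit 824351111) (nat_lit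 81) (nat_lit 5) (nat_lit 85) (nat_lit 5) (nat_lit 86) (nat_lit 5) (nat_lit 480) (nat_lit 357) (nat_lit 303)) (XT.nd (nat_lit 78) (nat_lit 228) (nat_lit 0) (XT.lf (nat_lit 0) (nat_lit 3244949640) (nat_lit 380) (nat_lit 1864655935) (nat_lit 76) (nat_lit 7387899248) (nat_lit 80) (nat_lit 5) (nat_lit 85) (nat_lit 5) (nat_lit 81) (nat_lit 5) (nat_lit 481) (nat_lit 357) (nat_lit 302)) (XT.lf (nat_lit 0) (nat_lit 6638431131) (nat_lit 228) (nat_lit 749058646) (nat_lit 304) (nat_lit 5258324170) (nat_lit 77) (nat_lit 5) (nat_lit 80) (nat_lit 5) (nat_lit 81) (nat_lit 5) (nat_lit 482) (nat_lit 357) (nat_lit 301)))) (XT.nd (nat_lit 78) (nat_lit 304) (nat_lit 0) (XT.lf (nat_lit 0) (nat_lit 2480820962) (nat_lit 228) (nat_lit 9144734336) (nat_lit 304) (nat_lit 1171285175) (nat_lit 74) (nat_lit 5) (nat_lit 77) (nat_lit 5) (nat_lit 78) (nat_lit 5) (nat_lit 483) (nat_lit 357) (nat_lit 300)) (XT.nd (nat_lit 78) (nat_lit 228) (nat_lit 0) (XT.lf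 (nat_lit 0) (nat_lit 2963761067) (nat_lit 304) (nat_lit 1822275795) (nat_lit 76) (nat_lit 8164354377) (nat_lit 73) (nat_lit 5) (nat_lit 77) (nat_lit 5) (nat_lit 74) (nat_lit 5) (nat_lit 484) (nat_lit 357) (nat_lit 299)) (XT.lf (nat_lit 0) (nat_lit 6857120621) (nat_lit 228) (nat_lit 314062118) (nat_lit 304) (nat_lit 5935572718) (nat_lit 70) (nat_lit 5) (nat_lit 73) (nat_lit 5) (nat_lit 74) (nat_lit 5) (nat_lit 485) (nat_lit 357) (nat_lit 298))))))) (XT.nd (nat_lit 858) (nat_lit 1444) (nat_lit 0) (XT.nd (nat_lit 390) (nat_lit 836) (nat_lit 0) (XT.nd (nat_lit 156) (nat_lit 532) (nat_lit 0) (XT.nd (nat_lit 78) (nat_lit 76) (nat_lit 0) (XT.lf (nat_lit 0) (nat_lit 2406137452) (nat_lit 228) (nat_lit 9073109876) (nat_lit 304) (nat_lit 1786674094) (nat_lit 67) (nat_lit 5) (nat_lit 70) (nat_lit 5) (nat_lit 71) (nat_lit 5) (nat_lit 486) (nat_lit 357) (nat_lit 297)) (XT.lf (nat_lit 0) (nat_lit 2418490664) (nat_lit 304) (nat_lit 2192574390)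 (nat_lit 76) (nat_lit 8816785167) (nat_lit 66) (nat_lit 5) (nat_lit 70) (nat_lit 5) (nat_lit 67) (nat_lit 5) (nat_lit 487) (nat_lit 357) (nat_lit 296))) (XT.nd (nat_lit 78) (nat_lit 304) (nat_lit 0) (XT.lf (nat_lit 0) (nat_lit 6658126901) (nat_lit 228) (nat_lit 30784566) (nat_lit 304) (nat_lit 6903772507) (nat_lit 63) (nat_lit 5) (nat_lit 66) (nat_lit 5) (nat_lit 67) (nat_lit 5) (nat_lit 488) (nat_lit 357) (nat_lit 295)) (XT.nd (nat_lit 78) (nat_lit 76) (nat_lit 0) (XT.lf (nat_lit 0) (nat_lit 1884023663) (nat_lit 228) (nat_lit 9179869555) (nat_lit 304) (nat_lit 2696542152) (nat_lit 60) (nat_lit 5) (nat_lit 63) (nat_lit 5) (nat_lit 64) (nat_lit 5) (nat_lit 489) (nat_lit 357) (nat_lit 294)) (XT.lf (nat_lit 0) (nat_lit 1583008729) (nat_lit 304) (nat_lit 3034077554) (nat_lit 76) (nat_lit 9314070433) (nat_lit 59) (nat_lit 5) (nat_lit 63) (nat_lit 5) (nat_lit 60) (nat_lit 5) (nat_lit 490) (nat_lit 357) (nat_lit 293))))) (XT.nd (nat_lit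 234) (nat_lit 380) (nat_lit 0) (XT.nd (nat_lit 78) (nat_lit 304) (nat_lit 0) (XT.lf (nat_lit 0) (nat_lit 5914142532) (nat_lit 228) (nat_lit 8123943264) (nat_lit 76) (nat_lit 66812028) (nat_lit 57) (nat_lit 5) (nat_lit 60) (nat_lit 5) (nat_lit 58) (nat_lit 5) (nat_lit 491) (nat_lit 357) (nat_lit 292)) (XT.nd (nat_lit 78) (nat_lit 76) (nat_lit 0) (XT.lf (nat_lit 0) (nat_lit 851734378) (nat_lit 228) (nat_lit 9499696368) (nat_lit 304) (nat_lit 3930296086) (nat_lit 54) (nat_lit 5) (nat_lit 57) (nat_lit 5) (nat_lit 58) (nat_lit 5) (nat_lit 492) (nat_lit 357) (nat_lit 291)) (XT.lf (nat_lit 0) (nat_lit 427795719) (nat_lit 304) (nat_lit 4411516897) (nat_lit 76) (nat_lit 9622372016) (nat_lit 53) (nat_lit 5) (nat_lit 57) (nat_lit 5) (nat_lit 54) (nat_lit 5) (nat_lit 493) (nat_lit 357) (nat_lit 290)))) (XT.nd (nat_lit 78) (nat_lit 228) (nat_lit 0) (XT.lf (nat_lit 0) (nat_lit 4760494610) (nat_lit 152) (nat_lit 54605306) (nat_lit 228) (nat_lit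 9829732043) (nat_lit 51) (nat_lit 5) (nat_lit 53) (nat_lit 5) (nat_lit 54) (nat_lit 5) (nat_lit 494) (nat_lit 357) (nat_lit 289)) (XT.nd (nat_lit 78) (nat_lit 228) (nat_lit 0) (XT.lf (nat_lit 0) (nat_lit 9315131030) (nat_lit 228) (nat_lit 750205319) (nat_lit 76) (nat_lit 4765809697) (nat_lit 51) (nat_lit 5) (nat_lit 54) (nat_lit 5) (nat_lit 52) (nat_lit 5) (nat_lit 495) (nat_lit 357) (nat_lit 288)) (XT.lf (nat_lit 0) (nat_lit 8617133113) (nat_lit 228) (nat_lit 5308897176) (nat_lit 304) (nat_lit 1094742140) (nat_lit 48) (nat_lit 5) (nat_lit 51) (nat_lit 5) (nat_lit 52) (nat_lit 5) (nat_lit 496) (nat_lit 357) (nat_lit 287)))))) (XT.nd (nat_lit 468) (nat_lit 608) (nat_lit 0) (XT.nd (nat_lit 234) (nat_lit 380) (nat_lit 0) (XT.nd (nat_lit 78) (nat_lit 228) (nat_lit 0) (XT.lf (nat_lit 0) (nat_lit 2921816962) (nat_lit 152) (nat_lit 437005398) (nat_lit 228) (nat_lit 11855155692) (nat_lit 45) (nat_lit 5) (nat_lit 47) (nat_lit 5) (nat_lit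 48) (nat_lit 5) (nat_lit 497) (nat_lit 357) (nat_lit 286)) (XT.nd (nat_lit 78) (nat_lit 228) (nat_lit 0) (XT.lf (nat_lit 0) (nat_lit 7924231766) (nat_lit 228) (nat_lit 2988881444) (nat_lit 76) (nat_lit 4497044378) (nat_lit 45) (nat_lit 5) (nat_lit 48) (nat_lit 5) (nat_lit 46) (nat_lit 5) (nat_lit 498) (nat_lit 357) (nat_lit 285)) (XT.lf (nat_lit 0) (nat_lit 6522011891) (nat_lit 228) (nat_lit 6069603519) (nat_lit 304) (nat_lit 3018435091) (nat_lit 42) (nat_lit 5) (nat_lit 45) (nat_lit 5) (nat_lit 46) (nat_lit 5) (nat_lit 499) (nat_lit 357) (nat_lit 284)))) (XT.nd (nat_lit 78) (nat_lit 152) (nat_lit 0) (XT.lf (nat_lit 0) (nat_lit 383856221) (nat_lit 152) (nat_lit 1122535317) (nat_lit 228) (nat_lit 14307589705) (nat_lit 39) (nat_lit 5) (nat_lit 41) (nat_lit 5) (nat_lit 42) (nat_lit 5) (nat_lit 500) (nat_lit 357) (nat_lit 283)) (XT.nd (nat_lit 78) (nat_lit 152) (nat_lit 0) (XT.lf (nat_lit 0) (nat_lit 6133789588) (nat_lit 228) (nat_lit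 5959526651) (nat_lit 76) (nat_lit 3927228417) (nat_lit 39) (nat_lit 5) (nat_lit 42) (nat_lit 5) (nat_lit 40) (nat_lit 5) (nat_lit 501) (nat_lit 357) (nat_lit 282)) (XT.lf (nat_lit 0) (nat_lit 3681263287) (nat_lit 152) (nat_lit 7170072968) (nat_lit 228) (nat_lit 5379953940) (nat_lit 37) (nat_lit 5) (nat_lit 39) (nat_lit 5) (nat_lit 40) (nat_lit 5) (nat_lit 502) (nat_lit 357) (nat_lit 281))))) (XT.nd (nat_lit 234) (nat_lit 380) (nat_lit 0) (XT.nd (nat_lit 78) (nat_lit 228) (nat_lit 0) (XT.lf (nat_lit 0) (nat_lit 13535980333) (nat_lit 152) (nat_lit 2133784564) (nat_lit 228) (nat_lit 776357943) (nat_lit 37) (nat_lit 5) (nat_lit 39) (nat_lit 5) (nat_lit 40) (nat_lit 5) (nat_lit 503) (nat_lit 357) (nat_lit 280)) (XT.nd (nat_lit 78) (nat_lit 0) (nat_lit 0) (XT.lf (nat_lit 0) (nat_lit 3899668071) (nat_lit 228) (nat_lit 9755278735) (nat_lit 76) (nat_lit 3009163891) (nat_lit 34) (nat_lit 5) (nat_lit 37) (nat_lit 5) (nat_lit 35) (nat_lit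 5) (nat_lit 504) (nat_lit 357) (nat_lit 279)) (XT.lf (nat_lit 0) (nat_lit 8659693285) (nat_lit 228) (nat_lit 881568) (nat_lit 76) (nat_lit 8225765993) (nat_lit 34) (nat_lit 5) (nat_lit 37) (nat_lit 5) (nat_lit 35) (nat_lit 5) (nat_lit 505) (nat_lit 357) (nat_lit 278)))) (XT.nd (nat_lit 78) (nat_lit 228) (nat_lit 0) (XT.lf (nat_lit 0) (nat_lit 10022158000) (nat_lit 152) (nat_lit 3525552532) (nat_lit 228) (nat_lit 3564651837) (nat_lit 32) (nat_lit 5) (nat_lit 34) (nat_lit 5) (nat_lit 35) (nat_lit 5) (nat_lit 506) (nat_lit 357) (nat_lit 277)) (XT.nd (nat_lit 52884) (nat_lit 0) (nat_lit 26448) (XT.lf (nat_lit 0) (nat_lit 1172530668) (nat_lit 228) (nat_lit 14479346410) (nat_lit 76) (nat_lit 1690923912) (nat_lit 29) (nat_lit 5) (nat_lit 32) (nat_lit 5) (nat_lit 30) (nat_lit 5) (nat_lit 507) (nat_lit 357) (nat_lit 276)) (XT.lf (nat_lit 0) (nat_lit 2764222571) (nat_lit 912) (nat_lit 466366487) (nat_lit 912) (nat_lit 466366487) (nat_lit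 377) (nat_lit 4) (nat_lit 389) (nat_lit 5) (nat_lit 389) (nat_lit 4) (nat_lit 424) (nat_lit 358) (nat_lit 358))))))))
noncomputable def xc39 : XT := (XT.nd (nat_lit 1716) (nat_lit 7752) (nat_lit 0) (XT.nd (nat_lit 858) (nat_lit 5092) (nat_lit 0) (XT.nd (nat_lit 390) (nat_lit 3724) (nat_lit 0) (XT.nd (nat_lit 156) (nat_lit 1672) (nat_lit 0) (XT.nd (nat_lit 78) (nat_lit 836) (nat_lit 0) (XT.lf (nat_lit 0) (nat_lit 2612330387) (nat_lit 912) (nat_lit 3720159265) (nat_lit 0) (nat_lit 1105974429) (nat_lit 365) (nat_lit 5) (nat_lit 377) (nat_lit 4) (nat_lit 365) (nat_lit 4) (nat_lit 425) (nat_lit 358) (nat_lit 357)) (XT.lf (nat_lit 0) (nat_lit 1893017027) (nat_lit 836) (nat_lit 4287337214) (nat_lit 836) (nat_lit 1304161688) (nat_lit 354) (nat_lit 4) (nat_lit 365) (nat_lit 5) (nat_lit 365) (nat_lit 4) (nat_lit 426) (nat_lit 358) (nat_lit 356))) (XT.nd (nat_lit 78) (nat_lit 836) (nat_lit 0) (XT.lf (nat_lit 0) (nat_lit 48344847) (nat_lit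 760) (nat_lit 2169171337) (nat_lit 836) (nat_lit 5314511166) (nat_lit 343) (nat_lit 5) (nat_lit 353) (nat_lit 5) (nat_lit 354) (nat_lit 4) (nat_lit 427) (nat_lit 358) (nat_lit 355)) (XT.nd (nat_lit 78) (nat_lit 836) (nat_lit 0) (XT.lf (nat_lit 0) (nat_lit 5764481402) (nat_lit 836) (nat_lit 1787723071) (nat_lit 0) (nat_lit 28686588) (nat_lit 343) (nat_lit 5) (nat_lit 354) (nat_lit 4) (nat_lit 343) (nat_lit 4) (nat_lit 428) (nat_lit 358) (nat_lit 354)) (XT.lf (nat_lit 0) (nat_lit 1704613464) (nat_lit 836) (nat_lit 3656828618) (nat_lit 76) (nat_lit 2269563843) (nat_lit 332) (nat_lit 5) (nat_lit 343) (nat_lit 5) (nat_lit 333) (nat_lit 4) (nat_lit 429) (nat_lit 358) (nat_lit 353))))) (XT.nd (nat_lit 234) (nat_lit 2128) (nat_lit 0) (XT.nd (nat_lit 78) (nat_lit 836) (nat_lit 0) (XT.lf (nat_lit 0) (nat_lit 2134730626) (nat_lit 760) (nat_lit 3099170079) (nat_lit 836) (nat_lit 2448758547) (nat_lit 322) (nat_lit 5) (nat_lit 332) (nat_lit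 5) (nat_lit 333) (nat_lit 4) (nat_lit 430) (nat_lit 358) (nat_lit 352)) (XT.nd (nat_lit 78) (nat_lit 0) (nat_lit 0) (XT.lf (nat_lit 0) (nat_lit 277993525) (nat_lit 760) (nat_lit 769073553) (nat_lit 836) (nat_lit 6688893870) (nat_lit 311) (nat_lit 5) (nat_lit 321) (nat_lit 5) (nat_lit 322) (nat_lit 5) (nat_lit 431) (nat_lit 358) (nat_lit 351)) (XT.lf (nat_lit 0) (nat_lit 4565184730) (nat_lit 836) (nat_lit 1596741175) (nat_lit 76) (nat_lit 1628394232) (nat_lit 311) (nat_lit 5) (nat_lit 322) (nat_lit 5) (nat_lit 312) (nat_lit 4) (nat_lit 432) (nat_lit 358) (nat_lit 350)))) (XT.nd (nat_lit 78) (nat_lit 1368) (nat_lit 0) (XT.lf (nat_lit 0) (nat_lit 275503878) (nat_lit 760) (nat_lit 3488775132) (nat_lit 76) (nat_lit 4082032395) (nat_lit 301) (nat_lit 5) (nat_lit 311) (nat_lit 5) (nat_lit 302) (nat_lit 5) (nat_lit 433) (nat_lit 358) (nat_lit 349)) (XT.nd (nat_lit 78) (nat_lit 684) (nat_lit 0) (XT.lf (nat_lit 0) (nat_lit 2485759790)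 (nat_lit 684) (nat_lit 1282934596) (nat_lit 760) (nat_lit 4135004696) (nat_lit 292) (nat_lit 5) (nat_lit 301) (nat_lit 5) (nat_lit 302) (nat_lit 5) (nat_lit 434) (nat_lit 358) (nat_lit 348)) (XT.lf (nat_lit 0) (nat_lit 589388333) (nat_lit 684) (nat_lit 6717243774) (nat_lit 760) (nat_lit 656121802) (nat_lit 283) (nat_lit 5) (nat_lit 292) (nat_lit 5) (nat_lit 293) (nat_lit 4) (nat_lit 435) (nat_lit 358) (nat_lit 347)))))) (XT.nd (nat_lit 390) (nat_lit 2964) (nat_lit 0) (XT.nd (nat_lit 156) (nat_lit 1368) (nat_lit 0) (XT.nd (nat_lit 78) (nat_lit 684) (nat_lit 0) (XT.lf (nat_lit 0) (nat_lit 2839175454) (nat_lit 760) (nat_lit 1335190530) (nat_lit 76) (nat_lit 3848569267) (nat_lit 282) (nat_lit 5) (nat_lit 292) (nat_lit 5) (nat_lit 283) (nat_lit 5) (nat_lit 436) (nat_lit 358) (nat_lit 346)) (XT.lf (nat_lit 0) (nat_lit 4808232365) (nat_lit 684) (nat_lit 1559446081) (nat_lit 760) (nat_lit 1717129408) (nat_lit 273) (nat_lit 5) (nat_lit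 282) (nat_lit 5) (nat_lit 283) (nat_lit 5) (nat_lit 437) (nat_lit 358) (nat_lit 345))) (XT.nd (nat_lit 78) (nat_lit 684) (nat_lit 0) (XT.lf (nat_lit 0) (nat_lit 1771294206) (nat_lit 684) (nat_lit 5259208606) (nat_lit 76) (nat_lit 1117668073) (nat_lit 264) (nat_lit 5) (nat_lit 273) (nat_lit 5) (nat_lit 265) (nat_lit 5) (nat_lit 438) (nat_lit 358) (nat_lit 344)) (XT.nd (nat_lit 78) (nat_lit 76) (nat_lit 0) (XT.lf (nat_lit 0) (nat_lit 925025075) (nat_lit 608) (nat_lit 4361664202) (nat_lit 684) (nat_lit 2926296141) (nat_lit 256) (nat_lit 5) (nat_lit 264) (nat_lit 5) (nat_lit 265) (nat_lit 5) (nat_lit 439) (nat_lit 358) (nat_lit 343)) (XT.lf (nat_lit 0) (nat_lit 563010054) (nat_lit 684) (nat_lit 1053660543) (nat_lit 76) (nat_lit 6662813265) (nat_lit 255) (nat_lit 5) (nat_lit 264) (nat_lit 5) (nat_lit 256) (nat_lit 5) (nat_lit 440) (nat_lit 358) (nat_lit 342))))) (XT.nd (nat_lit 234) (nat_lit 1140) (nat_lit 0) (XT.nd (nat_lit 78)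 (nat_lit 1216) (nat_lit 0) (XT.lf (nat_lit 0) (nat_lit 4068279734) (nat_lit 684) (nat_lit 3074046362) (nat_lit 76) (nat_lit 1204906390) (nat_lit 247) (nat_lit 5) (nat_lit 256) (nat_lit 5) (nat_lit 248) (nat_lit 5) (nat_lit 441) (nat_lit 358) (nat_lit 341)) (XT.nd (nat_lit 78) (nat_lit 608) (nat_lit 0) (XT.lf (nat_lit 0) (nat_lit 3282474762) (nat_lit 608) (nat_lit 4343950200) (nat_lit 684) (nat_lit 790269716) (nat_lit 239) (nat_lit 5) (nat_lit 247) (nat_lit 5) (nat_lit 248) (nat_lit 5) (nat_lit 442) (nat_lit 358) (nat_lit 340)) (XT.lf (nat_lit 0) (nat_lit 1244120373) (nat_lit 532) (nat_lit 1460480482) (nat_lit 608) (nat_lit 5783144875) (nat_lit 231) (nat_lit 5) (nat_lit 238) (nat_lit 5) (nat_lit 239) (nat_lit 5) (nat_lit 443) (nat_lit 358) (nat_lit 339)))) (XT.nd (nat_lit 78) (nat_lit 1140) (nat_lit 0) (XT.lf (nat_lit 0) (nat_lit 6247464914) (nat_lit 608) (nat_lit 830239739) (nat_lit 76) (nat_lit 1482648311) (nat_lit 231) (nat_lit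 5) (nat_lit 239) (nat_lit 5) (nat_lit 232) (nat_lit 5) (nat_lit 444) (nat_lit 358) (nat_lit 338)) (XT.nd (nat_lit 78) (nat_lit 532) (nat_lit 0) (XT.lf (nat_lit 0) (nat_lit 1202781693) (nat_lit 608) (nat_lit 2939744286) (nat_lit 76) (nat_lit 4491897798) (nat_lit 223) (nat_lit 5) (nat_lit 231) (nat_lit 5) (nat_lit 224) (nat_lit 5) (nat_lit 445) (nat_lit 358) (nat_lit 337)) (XT.lf (nat_lit 0) (nat_lit 3609438901) (nat_lit 532) (nat_lit 1123115830) (nat_lit 608) (nat_lit 3977632755) (nat_lit 216) (nat_lit 5) (nat_lit 223) (nat_lit 5) (nat_lit 224) (nat_lit 5) (nat_lit 446) (nat_lit 358) (nat_lit 336))))))) (XT.nd (nat_lit 858) (nat_lit 3724) (nat_lit 0) (XT.nd (nat_lit 390) (nat_lit 1900) (nat_lit 0) (XT.nd (nat_lit 156) (nat_lit 1520) (nat_lit 0) (XT.nd (nat_lit 78) (nat_lit 76) (nat_lit 0) (XT.lf (nat_lit 0) (nat_lit 1474381793) (nat_lit 532) (nat_lit 6846822230) (nat_lit 608) (nat_lit 466509017) (nat_lit 209) (nat_lit 5) (nat_lit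 216) (nat_lit 5) (nat_lit 217) (nat_lit 5) (nat_lit 447) (nat_lit 358) (nat_lit 335)) (XT.lf (nat_lit 0) (nat_lit 3062235747) (nat_lit 608) (nat_lit 718573431) (nat_lit 76) (nat_lit 5085822164) (nat_lit 208) (nat_lit 5) (nat_lit 216) (nat_lit 5) (nat_lit 209) (nat_lit 5) (nat_lit 448) (nat_lit 358) (nat_lit 334))) (XT.nd (nat_lit 78) (nat_lit 1064) (nat_lit 0) (XT.lf (nat_lit 0) (nat_lit 6010547380) (nat_lit 456) (nat_lit 631200554) (nat_lit 532) (nat_lit 2305601106) (nat_lit 202) (nat_lit 5) (nat_lit 208) (nat_lit 5) (nat_lit 209) (nat_lit 5) (nat_lit 449) (nat_lit 358) (nat_lit 333)) (XT.nd (nat_lit 78) (nat_lit 456) (nat_lit 0) (XT.lf (nat_lit 0) (nat_lit 1240762382) (nat_lit 608) (nat_lit 5224043615) (nat_lit 76) (nat_lit 2564838911) (nat_lit 194) (nat_lit 5) (nat_lit 202) (nat_lit 5) (nat_lit 195) (nat_lit 5) (nat_lit 450) (nat_lit 358) (nat_lit 332)) (XT.lf (nat_lit 0) (nat_lit 1536111948) (nat_lit 456) (nat_lit 3273116991)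 (nat_lit 532) (nat_lit 4304422820) (nat_lit 188) (nat_lit 5) (nat_lit 194) (nat_lit 5) (nat_lit 195) (nat_lit 5) (nat_lit 451) (nat_lit 358) (nat_lit 331))))) (XT.nd (nat_lit 234) (nat_lit 912) (nat_lit 0) (XT.nd (nat_lit 78) (nat_lit 988) (nat_lit 0) (XT.lf (nat_lit 0) (nat_lit 8428846462) (nat_lit 456) (nat_lit 3844063) (nat_lit 532) (nat_lit 766986316) (nat_lit 188) (nat_lit 5) (nat_lit 194) (nat_lit 5) (nat_lit 195) (nat_lit 5) (nat_lit 452) (nat_lit 358) (nat_lit 330)) (XT.nd (nat_lit 78) (nat_lit 456) (nat_lit 0) (XT.lf (nat_lit 0) (nat_lit 2815046431) (nat_lit 532) (nat_lit 3147453868) (nat_lit 76) (nat_lit 3324341178) (nat_lit 181) (nat_lit 5) (nat_lit 188) (nat_lit 5) (nat_lit 182) (nat_lit 5) (nat_lit 453) (nat_lit 358) (nat_lit 329)) (XT.lf (nat_lit 0) (nat_lit 3794158437) (nat_lit 456) (nat_lit 2643785511) (nat_lit 532) (nat_lit 2938124179) (nat_lit 175) (nat_lit 5) (nat_lit 181) (nat_lit 5) (nat_lit 182) (nat_lit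 5) (nat_lit 454) (nat_lit 358) (nat_lit 328)))) (XT.nd (nat_lit 78) (nat_lit 380) (nat_lit 0) (XT.lf (nat_lit 0) (nat_lit 642462559) (nat_lit 532) (nat_lit 8081175586) (nat_lit 76) (nat_lit 743664661) (nat_lit 168) (nat_lit 5) (nat_lit 175) (nat_lit 5) (nat_lit 169) (nat_lit 5) (nat_lit 455) (nat_lit 358) (nat_lit 327)) (XT.nd (nat_lit 78) (nat_lit 380) (nat_lit 0) (XT.lf (nat_lit 0) (nat_lit 4260726826) (nat_lit 532) (nat_lit 1101281939) (nat_lit 76) (nat_lit 4197866269) (nat_lit 168) (nat_lit 5) (nat_lit 175) (nat_lit 5) (nat_lit 169) (nat_lit 5) (nat_lit 456) (nat_lit 358) (nat_lit 326)) (XT.lf (nat_lit 0) (nat_lit 6025029231) (nat_lit 380) (nat_lit 1916579332) (nat_lit 456) (nat_lit 1712894337) (nat_lit 163) (nat_lit 5) (nat_lit 168) (nat_lit 5) (nat_lit 169) (nat_lit 5) (nat_lit 457) (nat_lit 358) (nat_lit 325)))))) (XT.nd (nat_lit 468) (nat_lit 1520) (nat_lit 0) (XT.nd (nat_lit 234) (nat_lit 1292) (nat_lit 0) (XT.nd (nat_lit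 78) (nat_lit 380) (nat_lit 0) (XT.lf (nat_lit 0) (nat_lit 1911662441) (nat_lit 532) (nat_lit 6242638903) (nat_lit 76) (nat_lit 1596636521) (nat_lit 156) (nat_lit 5) (nat_lit 163) (nat_lit 5) (nat_lit 157) (nat_lit 5) (nat_lit 458) (nat_lit 358) (nat_lit 324)) (XT.nd (nat_lit 78) (nat_lit 0) (nat_lit 0) (XT.lf (nat_lit 0) (nat_lit 904147803) (nat_lit 380) (nat_lit 4676359402) (nat_lit 456) (nat_lit 4268681933) (nat_lit 151) (nat_lit 5) (nat_lit 156) (nat_lit 5) (nat_lit 157) (nat_lit 5) (nat_lit 459) (nat_lit 358) (nat_lit 323)) (XT.lf (nat_lit 0) (nat_lit 8206245491) (nat_lit 380) (nat_lit 1110485298) (nat_lit 456) (nat_lit 632803143) (nat_lit 151) (nat_lit 5) (nat_lit 156) (nat_lit 5) (nat_lit 157) (nat_lit 5) (nat_lit 460) (nat_lit 358) (nat_lit 322)))) (XT.nd (nat_lit 78) (nat_lit 836) (nat_lit 0) (XT.lf (nat_lit 0) (nat_lit 3041061320) (nat_lit 456) (nat_lit 4484031618) (nat_lit 76) (nat_lit 2526289330) (nat_lit 145) (nat_lit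 5) (nat_lit 151) (nat_lit 5) (nat_lit 146) (nat_lit 5) (nat_lit 461) (nat_lit 358) (nat_lit 321)) (XT.nd (nat_lit 78) (nat_lit 456) (nat_lit 0) (XT.lf (nat_lit 0) (nat_lit 2846730543) (nat_lit 380) (nat_lit 3923859338) (nat_lit 456) (nat_lit 3384788871) (nat_lit 140) (nat_lit 5) (nat_lit 145) (nat_lit 5) (nat_lit 146) (nat_lit 5) (nat_lit 462) (nat_lit 358) (nat_lit 320)) (XT.lf (nat_lit 0) (nat_lit 50526614) (nat_lit 380) (nat_lit 242417648) (nat_lit 456) (nat_lit 9968801981) (nat_lit 134) (nat_lit 5) (nat_lit 139) (nat_lit 5) (nat_lit 140) (nat_lit 5) (nat_lit 463) (nat_lit 358) (nat_lit 319))))) (XT.nd (nat_lit 234) (nat_lit 760) (nat_lit 0) (XT.nd (nat_lit 78) (nat_lit 760) (nat_lit 0) (XT.lf (nat_lit 0) (nat_lit 4024600542) (nat_lit 456) (nat_lit 2831090040) (nat_lit 76) (nat_lit 3513596793) (nat_lit 134) (nat_lit 5) (nat_lit 140) (nat_lit 5) (nat_lit 135) (nat_lit 5) (nat_lit 464) (nat_lit 358) (nat_lit 318)) (XT.nd (nat_lit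 78) (nat_lit 456) (nat_lit 0) (XT.lf (nat_lit 0) (nat_lit 4685668197) (nat_lit 304) (nat_lit 3131634227) (nat_lit 380) (nat_lit 2661956084) (nat_lit 130) (nat_lit 5) (nat_lit 134) (nat_lit 5) (nat_lit 135) (nat_lit 5) (nat_lit 465) (nat_lit 358) (nat_lit 317)) (XT.lf (nat_lit 0) (nat_lit 1069456876) (nat_lit 456) (nat_lit 8851235457) (nat_lit 76) (nat_lit 670814130) (nat_lit 124) (nat_lit 5) (nat_lit 130) (nat_lit 5) (nat_lit 125) (nat_lit 5) (nat_lit 466) (nat_lit 358) (nat_lit 316)))) (XT.nd (nat_lit 78) (nat_lit 760) (nat_lit 0) (XT.lf (nat_lit 0) (nat_lit 4854547341) (nat_lit 456) (nat_lit 1311747685) (nat_lit 76) (nat_lit 4539065585) (nat_lit 124) (nat_lit 5) (nat_lit 130) (nat_lit 5) (nat_lit 125) (nat_lit 5) (nat_lit 467) (nat_lit 358) (nat_lit 315)) (XT.nd (nat_lit 78) (nat_lit 456) (nat_lit 0) (XT.lf (nat_lit 0) (nat_lit 6392522412) (nat_lit 304) (nat_lit 2319992982) (nat_lit 380) (nat_lit 2109039795) (nat_lit 120)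 (nat_lit 5) (nat_lit 124) (nat_lit 5) (nat_lit 125) (nat_lit 5) (nat_lit 468) (nat_lit 358) (nat_lit 314)) (XT.lf (nat_lit 0) (nat_lit 1681708965) (nat_lit 456) (nat_lit 7659858958) (nat_lit 76) (nat_lit 1598359900) (nat_lit 114) (nat_lit 5) (nat_lit 120) (nat_lit 5) (nat_lit 115) (nat_lit 5) (nat_lit 469) (nat_lit 358) (nat_lit 313))))))))
noncomputable def xc40 : XT := (XT.nd (nat_lit 1716) (nat_lit 1900) (nat_lit 0) (XT.nd (nat_lit 858) (nat_lit 2128) (nat_lit 0) (XT.nd (nat_lit 390) (nat_lit 1216) (nat_lit 0) (XT.nd (nat_lit 156) (nat_lit 684) (nat_lit 0) (XT.nd (nat_lit 78) (nat_lit 0) (nat_lit 0) (XT.lf (nat_lit 0) (nat_lit 44130422) (nat_lit 304) (nat_lit 5477538242) (nat_lit 380) (nat_lit 5538694176) (nat_lit 110) (nat_lit 5) (nat_lit 114) (nat_lit 5) (nat_lit 115) (nat_lit 5) (nat_lit 470) (nat_lit 358) (nat_lit 312)) (XT.lf (nat_lit 0) (nat_lit 7936257130) (nat_lit 304) (nat_lit 1510021961) (nat_lit 380) (nat_lit 1736776777)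 (nat_lit 110) (nat_lit 5) (nat_lit 114) (nat_lit 5) (nat_lit 115) (nat_lit 5) (nat_lit 471) (nat_lit 358) (nat_lit 311))) (XT.nd (nat_lit 78) (nat_lit 304) (nat_lit 0) (XT.lf (nat_lit 0) (nat_lit 2116937433) (nat_lit 380) (nat_lit 6668574703) (nat_lit 76) (nat_lit 2522341866) (nat_lit 105) (nat_lit 5) (nat_lit 110) (nat_lit 5) (nat_lit 106) (nat_lit 5) (nat_lit 472) (nat_lit 358) (nat_lit 310)) (XT.nd (nat_lit 78) (nat_lit 0) (nat_lit 0) (XT.lf (nat_lit 0) (nat_lit 1217480428) (nat_lit 304) (nat_lit 4804093008) (nat_lit 380) (nat_lit 5413408977) (nat_lit 101) (nat_lit 5) (nat_lit 105) (nat_lit 5) (nat_lit 106) (nat_lit 5) (nat_lit 473) (nat_lit 358) (nat_lit 309)) (XT.lf (nat_lit 0) (nat_lit 9282887791) (nat_lit 304) (nat_lit 723800261) (nat_lit 380) (nat_lit 1557923479) (nat_lit 101) (nat_lit 5) (nat_lit 105) (nat_lit 5) (nat_lit 106) (nat_lit 5) (nat_lit 474) (nat_lit 358) (nat_lit 308))))) (XT.nd (nat_lit 234) (nat_lit 608)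 (nat_lit 0) (XT.nd (nat_lit 78) (nat_lit 228) (nat_lit 0) (XT.lf (nat_lit 0) (nat_lit 2361911213) (nat_lit 380) (nat_lit 5913600854) (nat_lit 76) (nat_lit 3420650761) (nat_lit 96) (nat_lit 5) (nat_lit 101) (nat_lit 5) (nat_lit 97) (nat_lit 5) (nat_lit 475) (nat_lit 358) (nat_lit 307)) (XT.nd (nat_lit 78) (nat_lit 0) (nat_lit 0) (XT.lf (nat_lit 0) (nat_lit 2153866349) (nat_lit 228) (nat_lit 4178024020) (nat_lit 304) (nat_lit 5498402177) (nat_lit 93) (nat_lit 5) (nat_lit 96) (nat_lit 5) (nat_lit 97) (nat_lit 5) (nat_lit 476) (nat_lit 358) (nat_lit 306)) (XT.lf (nat_lit 0) (nat_lit 10379826349) (nat_lit 304) (nat_lit 1572142661) (nat_lit 76) (nat_lit 15170114) (nat_lit 93) (nat_lit 5) (nat_lit 97) (nat_lit 5) (nat_lit 94) (nat_lit 5) (nat_lit 477) (nat_lit 358) (nat_lit 305)))) (XT.nd (nat_lit 78) (nat_lit 228) (nat_lit 0) (XT.lf (nat_lit 0) (nat_lit 2401192908) (nat_lit 380) (nat_lit 5434715481) (nat_lit 76) (nat_lit 4269893595)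 (nat_lit 88) (nat_lit 5) (nat_lit 93) (nat_lit 5) (nat_lit 89) (nat_lit 5) (nat_lit 478) (nat_lit 358) (nat_lit 304)) (XT.nd (nat_lit 78) (nat_lit 0) (nat_lit 0) (XT.lf (nat_lit 0) (nat_lit 2812606295) (nat_lit 228) (nat_lit 3624014606) (nat_lit 304) (nat_lit 5810644331) (nat_lit 85) (nat_lit 5) (nat_lit 88) (nat_lit 5) (nat_lit 89) (nat_lit 5) (nat_lit 479) (nat_lit 358) (nat_lit 303)) (XT.lf (nat_lit 0) (nat_lit 10553526159) (nat_lit 304) (nat_lit 1164247002) (nat_lit 76) (nat_lit 673774207) (nat_lit 85) (nat_lit 5) (nat_lit 89) (nat_lit 5) (nat_lit 86) (nat_lit 5) (nat_lit 480) (nat_lit 358) (nat_lit 302)))))) (XT.nd (nat_lit 390) (nat_lit 988) (nat_lit 0) (XT.nd (nat_lit 156) (nat_lit 532) (nat_lit 0) (XT.nd (nat_lit 78) (nat_lit 228) (nat_lit 0) (XT.lf (nat_lit 0) (nat_lit 2216952878) (nat_lit 380) (nat_lit 5275694815) (nat_lit 76) (nat_lit 5045146035) (nat_lit 80) (nat_lit 5) (nat_lit 85) (nat_lit 5) (nat_lit 81) (nat_lit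 5) (nat_lit 481) (nat_lit 358) (nat_lit 301)) (XT.lf (nat_lit 0) (nat_lit 3148888464) (nat_lit 228) (nat_lit 3168427652) (nat_lit 304) (nat_lit 6369632606) (nat_lit 77) (nat_lit 5) (nat_lit 80) (nat_lit 5) (nat_lit 81) (nat_lit 5) (nat_lit 482) (nat_lit 358) (nat_lit 300))) (XT.nd (nat_lit 78) (nat_lit 532) (nat_lit 0) (XT.lf (nat_lit 0) (nat_lit 10504131947) (nat_lit 304) (nat_lit 1099510903) (nat_lit 76) (nat_lit 1235359678) (nat_lit 77) (nat_lit 5) (nat_lit 81) (nat_lit 5) (nat_lit 78) (nat_lit 5) (nat_lit 483) (nat_lit 358) (nat_lit 299)) (XT.nd (nat_lit 78) (nat_lit 228) (nat_lit 0) (XT.lf (nat_lit 0) (nat_lit 1788759900) (nat_lit 304) (nat_lit 5484793780) (nat_lit 76) (nat_lit 5719686436) (nat_lit 73) (nat_lit 5) (nat_lit 77) (nat_lit 5) (nat_lit 74) (nat_lit 5) (nat_lit 484) (nat_lit 358) (nat_lit 298)) (XT.lf (nat_lit 0) (nat_lit 3113275807) (nat_lit 228) (nat_lit 2839583669) (nat_lit 304) (nat_lit 7197613453) (nat_lit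 70) (nat_lit 5) (nat_lit 73) (nat_lit 5) (nat_lit 74) (nat_lit 5) (nat_lit 485) (nat_lit 358) (nat_lit 297))))) (XT.nd (nat_lit 234) (nat_lit 456) (nat_lit 0) (XT.nd (nat_lit 78) (nat_lit 532) (nat_lit 0) (XT.lf (nat_lit 0) (nat_lit 10209969404) (nat_lit 304) (nat_lit 1428891652) (nat_lit 76) (nat_lit 1671799043) (nat_lit 70) (nat_lit 5) (nat_lit 74) (nat_lit 5) (nat_lit 71) (nat_lit 5) (nat_lit 486) (nat_lit 358) (nat_lit 296)) (XT.nd (nat_lit 78) (nat_lit 228) (nat_lit 0) (XT.lf (nat_lit 0) (nat_lit 1093346241) (nat_lit 304) (nat_lit 6115273567) (nat_lit 76) (nat_lit 6264708978) (nat_lit 66) (nat_lit 5) (nat_lit 70) (nat_lit 5) (nat_lit 67) (nat_lit 5) (nat_lit 487) (nat_lit 358) (nat_lit 295)) (XT.lf (nat_lit 0) (nat_lit 2651162043) (nat_lit 228) (nat_lit 2668061158) (nat_lit 304) (nat_lit 8319832204) (nat_lit 63) (nat_lit 5) (nat_lit 66) (nat_lit 5) (nat_lit 67) (nat_lit 5) (nat_lit 488) (nat_lit 358) (nat_lit 294)))) (XT.nd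 (nat_lit 78) (nat_lit 456) (nat_lit 0) (XT.lf (nat_lit 0) (nat_lit 9646395162) (nat_lit 304) (nat_lit 2208688010) (nat_lit 76) (nat_lit 1952681778) (nat_lit 63) (nat_lit 5) (nat_lit 67) (nat_lit 5) (nat_lit 64) (nat_lit 5) (nat_lit 489) (nat_lit 358) (nat_lit 293)) (XT.nd (nat_lit 78) (nat_lit 152) (nat_lit 0) (XT.lf (nat_lit 0) (nat_lit 104344737) (nat_lit 304) (nat_lit 7225981425) (nat_lit 76) (nat_lit 6649013179) (nat_lit 59) (nat_lit 5) (nat_lit 63) (nat_lit 5) (nat_lit 60) (nat_lit 5) (nat_lit 490) (nat_lit 358) (nat_lit 292)) (XT.lf (nat_lit 0) (nat_lit 1702173660) (nat_lit 152) (nat_lit 2687022163) (nat_lit 228) (nat_lit 9764812118) (nat_lit 57) (nat_lit 5) (nat_lit 59) (nat_lit 5) (nat_lit 60) (nat_lit 5) (nat_lit 491) (nat_lit 358) (nat_lit 291))))))) (XT.nd (nat_lit 858) (nat_lit 532) (nat_lit 0) (XT.nd (nat_lit 390) (nat_lit 684) (nat_lit 0) (XT.nd (nat_lit 156) (nat_lit 456) (nat_lit 0) (XT.nd (nat_lit 78) (nat_lit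 228) (nat_lit 0) (XT.lf (nat_lit 0) (nat_lit 8785516377) (nat_lit 228) (nat_lit 3501153536) (nat_lit 76) (nat_lit 2044988194) (nat_lit 57) (nat_lit 5) (nat_lit 60) (nat_lit 5) (nat_lit 58) (nat_lit 5) (nat_lit 492) (nat_lit 358) (nat_lit 290)) (XT.lf (nat_lit 0) (nat_lit 5622555628) (nat_lit 228) (nat_lit 7665877286) (nat_lit 304) (nat_lit 1224058539) (nat_lit 54) (nat_lit 5) (nat_lit 57) (nat_lit 5) (nat_lit 58) (nat_lit 5) (nat_lit 493) (nat_lit 358) (nat_lit 289))) (XT.nd (nat_lit 78) (nat_lit 228) (nat_lit 0) (XT.lf (nat_lit 0) (nat_lit 199511976) (nat_lit 152) (nat_lit 2932566145) (nat_lit 228) (nat_lit 11564665730) (nat_lit 51) (nat_lit 5) (nat_lit 53) (nat_lit 5) (nat_lit 54) (nat_lit 5) (nat_lit 494) (nat_lit 358) (nat_lit 288)) (XT.nd (nat_lit 78) (nat_lit 228) (nat_lit 0) (XT.lf (nat_lit 0) (nat_lit 7595877939) (nat_lit 228) (nat_lit 5375171573) (nat_lit 76) (nat_lit 1912734718) (nat_lit 51) (nat_lit 5) (nat_lit 54)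 (nat_lit 5) (nat_lit 52) (nat_lit 5) (nat_lit 495) (nat_lit 358) (nat_lit 287)) (XT.lf (nat_lit 0) (nat_lit 3900148486) (nat_lit 228) (nat_lit 8258801289) (nat_lit 304) (nat_lit 2915419021) (nat_lit 48) (nat_lit 5) (nat_lit 51) (nat_lit 5) (nat_lit 52) (nat_lit 5) (nat_lit 496) (nat_lit 358) (nat_lit 286))))) (XT.nd (nat_lit 234) (nat_lit 228) (nat_lit 0) (XT.nd (nat_lit 78) (nat_lit 380) (nat_lit 0) (XT.lf (nat_lit 0) (nat_lit 1525880219) (nat_lit 304) (nat_lit 1905448827) (nat_lit 76) (nat_lit 11837206236) (nat_lit 47) (nat_lit 5) (nat_lit 51) (nat_lit 5) (nat_lit 48) (nat_lit 5) (nat_lit 497) (nat_lit 358) (nat_lit 285)) (XT.nd (nat_lit 78) (nat_lit 228) (nat_lit 0) (XT.lf (nat_lit 0) (nat_lit 6042114152) (nat_lit 228) (nat_lit 7906998582) (nat_lit 76) (nat_lit 1516587133) (nat_lit 45) (nat_lit 5) (nat_lit 48) (nat_lit 5) (nat_lit 46) (nat_lit 5) (nat_lit 498) (nat_lit 358) (nat_lit 284)) (XT.lf (nat_lit 0) (nat_lit 1508489403)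 (nat_lit 228) (nat_lit 9151677406) (nat_lit 304) (nat_lit 5006414100) (nat_lit 42) (nat_lit 5) (nat_lit 45) (nat_lit 5) (nat_lit 46) (nat_lit 5) (nat_lit 499) (nat_lit 358) (nat_lit 283)))) (XT.nd (nat_lit 78) (nat_lit 228) (nat_lit 0) (XT.lf (nat_lit 0) (nat_lit 11159965415) (nat_lit 228) (nat_lit 4230058162) (nat_lit 304) (nat_lit 481070121) (nat_lit 42) (nat_lit 5) (nat_lit 45) (nat_lit 5) (nat_lit 46) (nat_lit 5) (nat_lit 500) (nat_lit 358) (nat_lit 282)) (XT.nd (nat_lit 78) (nat_lit 0) (nat_lit 0) (XT.lf (nat_lit 0) (nat_lit 4084561350) (nat_lit 228) (nat_lit 11181083176) (nat_lit 76) (nat_lit 813437992) (nat_lit 39) (nat_lit 5) (nat_lit 42) (nat_lit 5) (nat_lit 40) (nat_lit 5) (nat_lit 501) (nat_lit 358) (nat_lit 281)) (XT.lf (nat_lit 0) (nat_lit 8761833997) (nat_lit 228) (nat_lit 1617726657) (nat_lit 76) (nat_lit 5911074278) (nat_lit 39) (nat_lit 5) (nat_lit 42) (nat_lit 5) (nat_lit 40) (nat_lit 5) (nat_lit 502) (nat_lit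 358) (nat_lit 280)))))) (XT.nd (nat_lit 53118) (nat_lit 0) (nat_lit 23636) (XT.nd (nat_lit 234) (nat_lit 152) (nat_lit 0) (XT.nd (nat_lit 78) (nat_lit 228) (nat_lit 0) (XT.lf (nat_lit 0) (nat_lit 8186530458) (nat_lit 152) (nat_lit 5366849424) (nat_lit 228) (nat_lit 2952626717) (nat_lit 37) (nat_lit 5) (nat_lit 39) (nat_lit 5) (nat_lit 40) (nat_lit 5) (nat_lit 503) (nat_lit 358) (nat_lit 279)) (XT.nd (nat_lit 78) (nat_lit 0) (nat_lit 0) (XT.lf (nat_lit 0) (nat_lit 1433133936) (nat_lit 152) (nat_lit 247299265) (nat_lit 228) (nat_lit 15045275328) (nat_lit 34) (nat_lit 5) (nat_lit 36) (nat_lit 5) (nat_lit 37) (nat_lit 5) (nat_lit 504) (nat_lit 358) (nat_lit 278)) (XT.lf (nat_lit 0) (nat_lit 6422873097) (nat_lit 228) (nat_lit 5565229195) (nat_lit 76) (nat_lit 4960189381) (nat_lit 34) (nat_lit 5) (nat_lit 37) (nat_lit 5) (nat_lit 35) (nat_lit 5) (nat_lit 505) (nat_lit 358) (nat_lit 277)))) (XT.nd (nat_lit 78) (nat_lit 0) (nat_lit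 0) (XT.lf (nat_lit 0) (nat_lit 4355394260) (nat_lit 152) (nat_lit 6903037337) (nat_lit 228) (nat_lit 5916932036) (nat_lit 32) (nat_lit 5) (nat_lit 34) (nat_lit 5) (nat_lit 35) (nat_lit 5) (nat_lit 506) (nat_lit 358) (nat_lit 276)) (XT.nd (nat_lit 52728) (nat_lit 0) (nat_lit 27132) (XT.lf (nat_lit 0) (nat_lit 14493488817) (nat_lit 152) (nat_lit 1703166477) (nat_lit 228) (nat_lit 1210205157) (nat_lit 32) (nat_lit 5) (nat_lit 34) (nat_lit 5) (nat_lit 35) (nat_lit 5) (nat_lit 507) (nat_lit 358) (nat_lit 275)) (XT.lf (nat_lit 0) (nat_lit 462271538) (nat_lit 912) (nat_lit 2729518765) (nat_lit 0) (nat_lit 462271538) (nat_lit 389) (nat_lit 5) (nat_lit 401) (nat_lit 4) (nat_lit 389) (nat_lit 4) (nat_lit 422) (nat_lit 359) (nat_lit 359))))) (XT.nd (nat_lit 234) (nat_lit 1672) (nat_lit 0) (XT.nd (nat_lit 78) (nat_lit 1824) (nat_lit 0) (XT.lf (nat_lit 0) (nat_lit 4440125974) (nat_lit 912) (nat_lit 37571215) (nat_lit 0) (nat_lit 2872913234)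 (nat_lit 389) (nat_lit 5) (nat_lit 401) (nat_lit 4) (nat_lit 389) (nat_lit 4) (nat_lit 423) (nat_lit 359) (nat_lit 358)) (XT.nd (nat_lit 78) (nat_lit 836) (nat_lit 0) (XT.lf (nat_lit 0) (nat_lit 592826653) (nat_lit 988) (nat_lit 1906185976) (nat_lit 76) (nat_lit 4895493854) (nat_lit 376) (nat_lit 5) (nat_lit 389) (nat_lit 5) (nat_lit 377) (nat_lit 4) (nat_lit 424) (nat_lit 359) (nat_lit 357)) (XT.lf (nat_lit 0) (nat_lit 3641969139) (nat_lit 836) (nat_lit 443189729) (nat_lit 912) (nat_lit 3354600379) (nat_lit 365) (nat_lit 5) (nat_lit 376) (nat_lit 5) (nat_lit 377) (nat_lit 4) (nat_lit 425) (nat_lit 359) (nat_lit 356)))) (XT.nd (nat_lit 78) (nat_lit 760) (nat_lit 0) (XT.lf (nat_lit 0) (nat_lit 129029376) (nat_lit 912) (nat_lit 5706881583) (nat_lit 76) (nat_lit 1650611849) (nat_lit 353) (nat_lit 5) (nat_lit 365) (nat_lit 5) (nat_lit 354) (nat_lit 4) (nat_lit 426) (nat_lit 359) (nat_lit 355)) (XT.nd (nat_lit 78) (nat_lit 760) (nat_lit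 0) (XT.lf (nat_lit 0) (nat_lit 3601175767) (nat_lit 912) (nat_lit 112618737) (nat_lit 76) (nat_lit 3820729217) (nat_lit 353) (nat_lit 5) (nat_lit 365) (nat_lit 5) (nat_lit 354) (nat_lit 4) (nat_lit 427) (nat_lit 359) (nat_lit 354)) (XT.lf (nat_lit 0) (nat_lit 5594660889) (nat_lit 760) (nat_lit 1520831556) (nat_lit 836) (nat_lit 468558054) (nat_lit 343) (nat_lit 5) (nat_lit 353) (nat_lit 5) (nat_lit 354) (nat_lit 4) (nat_lit 428) (nat_lit 359) (nat_lit 353))))))))
noncomputable def xc41 : XT := (XT.nd (nat_lit 1716) (nat_lit 6764) (nat_lit 0) (XT.nd (nat_lit 858) (nat_lit 4712) (nat_lit 0) (XT.nd (nat_lit 390) (nat_lit 3420) (nat_lit 0) (XT.nd (nat_lit 156) (nat_lit 1596) (nat_lit 0) (XT.nd (nat_lit 78) (nat_lit 760) (nat_lit 0) (XT.lf (nat_lit 0) (nat_lit 2991997048) (nat_lit 836) (nat_lit 3900270718) (nat_lit 76) (nat_lit 742588091) (nat_lit 332) (nat_lit 5) (nat_lit 343) (nat_lit 5) (nat_lit 333) (nat_lit 4) (nat_lit 429)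 (nat_lit 359) (nat_lit 352)) (XT.lf (nat_lit 0) (nat_lit 1851255569) (nat_lit 760) (nat_lit 4637226529) (nat_lit 836) (nat_lit 1198692644) (nat_lit 322) (nat_lit 5) (nat_lit 332) (nat_lit 5) (nat_lit 333) (nat_lit 4) (nat_lit 430) (nat_lit 359) (nat_lit 351))) (XT.nd (nat_lit 78) (nat_lit 1520) (nat_lit 0) (XT.lf (nat_lit 0) (nat_lit 2248132622) (nat_lit 836) (nat_lit 58253896) (nat_lit 76) (nat_lit 5434588850) (nat_lit 321) (nat_lit 5) (nat_lit 332) (nat_lit 5) (nat_lit 322) (nat_lit 5) (nat_lit 431) (nat_lit 359) (nat_lit 350)) (XT.nd (nat_lit 78) (nat_lit 760) (nat_lit 0) (XT.lf (nat_lit 0) (nat_lit 5725413369) (nat_lit 836) (nat_lit 1965635440) (nat_lit 76) (nat_lit 105111450) (nat_lit 311) (nat_lit 5) (nat_lit 322) (nat_lit 5) (nat_lit 312) (nat_lit 4) (nat_lit 432) (nat_lit 359) (nat_lit 349)) (XT.lf (nat_lit 0) (nat_lit 1381991302) (nat_lit 760) (nat_lit 3912943038) (nat_lit 76) (nat_lit 2557731125) (nat_lit 301) (nat_lit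 5) (nat_lit 311) (nat_lit 5) (nat_lit 302) (nat_lit 5) (nat_lit 433) (nat_lit 359) (nat_lit 348))))) (XT.nd (nat_lit 234) (nat_lit 1976) (nat_lit 0) (XT.nd (nat_lit 78) (nat_lit 760) (nat_lit 0) (XT.lf (nat_lit 0) (nat_lit 2019194775) (nat_lit 684) (nat_lit 2823234187) (nat_lit 760) (nat_lit 3068287685) (nat_lit 292) (nat_lit 5) (nat_lit 301) (nat_lit 5) (nat_lit 302) (nat_lit 5) (nat_lit 434) (nat_lit 359) (nat_lit 347)) (XT.nd (nat_lit 78) (nat_lit 0) (nat_lit 0) (XT.lf (nat_lit 0) (nat_lit 78244016) (nat_lit 684) (nat_lit 285821579) (nat_lit 760) (nat_lit 7606483573) (nat_lit 282) (nat_lit 5) (nat_lit 291) (nat_lit 5) (nat_lit 292) (nat_lit 5) (nat_lit 435) (nat_lit 359) (nat_lit 346)) (XT.lf (nat_lit 0) (nat_lit 3819624140) (nat_lit 760) (nat_lit 1893282512) (nat_lit 76) (nat_lit 2318369290) (nat_lit 282) (nat_lit 5) (nat_lit 292) (nat_lit 5) (nat_lit 283) (nat_lit 5) (nat_lit 436) (nat_lit 359) (nat_lit 345)))) (XT.nd (nat_lit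 78) (nat_lit 1292) (nat_lit 0) (XT.lf (nat_lit 0) (nat_lit 4206217227) (nat_lit 684) (nat_lit 3109297484) (nat_lit 760) (nat_lit 778293887) (nat_lit 273) (nat_lit 5) (nat_lit 282) (nat_lit 5) (nat_lit 283) (nat_lit 5) (nat_lit 437) (nat_lit 359) (nat_lit 344)) (XT.nd (nat_lit 78) (nat_lit 608) (nat_lit 0) (XT.lf (nat_lit 0) (nat_lit 2234491366) (nat_lit 608) (nat_lit 423105578) (nat_lit 684) (nat_lit 5500264672) (nat_lit 264) (nat_lit 5) (nat_lit 272) (nat_lit 5) (nat_lit 273) (nat_lit 5) (nat_lit 438) (nat_lit 359) (nat_lit 343)) (XT.lf (nat_lit 0) (nat_lit 217874139) (nat_lit 608) (nat_lit 5919487599) (nat_lit 684) (nat_lit 2086034371) (nat_lit 256) (nat_lit 5) (nat_lit 264) (nat_lit 5) (nat_lit 265) (nat_lit 5) (nat_lit 439) (nat_lit 359) (nat_lit 342)))))) (XT.nd (nat_lit 390) (nat_lit 2812) (nat_lit 0) (XT.nd (nat_lit 156) (nat_lit 1216) (nat_lit 0) (XT.nd (nat_lit 78) (nat_lit 608) (nat_lit 0) (XT.lf (nat_lit 0) (nat_lit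 1364086939) (nat_lit 684) (nat_lit 1813281150) (nat_lit 76) (nat_lit 5112987715) (nat_lit 255) (nat_lit 5) (nat_lit 264) (nat_lit 5) (nat_lit 256) (nat_lit 5) (nat_lit 440) (nat_lit 359) (nat_lit 341)) (XT.lf (nat_lit 0) (nat_lit 4475193484) (nat_lit 608) (nat_lit 353390073) (nat_lit 684) (nat_lit 3530343263) (nat_lit 247) (nat_lit 5) (nat_lit 255) (nat_lit 5) (nat_lit 256) (nat_lit 5) (nat_lit 441) (nat_lit 359) (nat_lit 340))) (XT.nd (nat_lit 78) (nat_lit 608) (nat_lit 0) (XT.lf (nat_lit 0) (nat_lit 2427723729) (nat_lit 608) (nat_lit 5923804315) (nat_lit 684) (nat_lit 77571777) (nat_lit 239) (nat_lit 5) (nat_lit 247) (nat_lit 5) (nat_lit 248) (nat_lit 5) (nat_lit 442) (nat_lit 359) (nat_lit 339)) (XT.nd (nat_lit 78) (nat_lit 0) (nat_lit 0) (XT.lf (nat_lit 0) (nat_lit 323990222) (nat_lit 532) (nat_lit 3050748143) (nat_lit 608) (nat_lit 5125990757) (nat_lit 231) (nat_lit 5) (nat_lit 238) (nat_lit 5) (nat_lit 239) (nat_lit 5)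 (nat_lit 443) (nat_lit 359) (nat_lit 338)) (XT.lf (nat_lit 0) (nat_lit 6783892108) (nat_lit 532) (nat_lit 97016983) (nat_lit 608) (nat_lit 1693167535) (nat_lit 231) (nat_lit 5) (nat_lit 238) (nat_lit 5) (nat_lit 239) (nat_lit 5) (nat_lit 444) (nat_lit 359) (nat_lit 337))))) (XT.nd (nat_lit 234) (nat_lit 1064) (nat_lit 0) (XT.nd (nat_lit 78) (nat_lit 1140) (nat_lit 0) (XT.lf (nat_lit 0) (nat_lit 1780499892) (nat_lit 608) (nat_lit 3966297689) (nat_lit 76) (nat_lit 2901953032) (nat_lit 223) (nat_lit 5) (nat_lit 231) (nat_lit 5) (nat_lit 224) (nat_lit 5) (nat_lit 445) (nat_lit 359) (nat_lit 336)) (XT.nd (nat_lit 78) (nat_lit 608) (nat_lit 0) (XT.lf (nat_lit 0) (nat_lit 2532834682) (nat_lit 532) (nat_lit 2744088001) (nat_lit 608) (nat_lit 3448264676) (nat_lit 216) (nat_lit 5) (nat_lit 223) (nat_lit 5) (nat_lit 224) (nat_lit 5) (nat_lit 446) (nat_lit 359) (nat_lit 335)) (XT.lf (nat_lit 0) (nat_lit 17725101) (nat_lit 608) (nat_lit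 8461420608) (nat_lit 76) (nat_lit 324451030) (nat_lit 208) (nat_lit 5) (nat_lit 216) (nat_lit 5) (nat_lit 209) (nat_lit 5) (nat_lit 447) (nat_lit 359) (nat_lit 334)))) (XT.nd (nat_lit 78) (nat_lit 1064) (nat_lit 0) (XT.lf (nat_lit 0) (nat_lit 3514316261) (nat_lit 608) (nat_lit 1905964998) (nat_lit 76) (nat_lit 3462699596) (nat_lit 208) (nat_lit 5) (nat_lit 216) (nat_lit 5) (nat_lit 209) (nat_lit 5) (nat_lit 448) (nat_lit 359) (nat_lit 333)) (XT.nd (nat_lit 78) (nat_lit 608) (nat_lit 0) (XT.lf (nat_lit 0) (nat_lit 4771341325) (nat_lit 456) (nat_lit 2288916616) (nat_lit 532) (nat_lit 1904117596) (nat_lit 202) (nat_lit 5) (nat_lit 208) (nat_lit 5) (nat_lit 209) (nat_lit 5) (nat_lit 449) (nat_lit 359) (nat_lit 332)) (XT.lf (nat_lit 0) (nat_lit 1592168915) (nat_lit 608) (nat_lit 6542547533) (nat_lit 76) (nat_lit 912804409) (nat_lit 194) (nat_lit 5) (nat_lit 202) (nat_lit 5) (nat_lit 195) (nat_lit 5) (nat_lit 450) (nat_lit 359) (nat_lit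 331))))))) (XT.nd (nat_lit 858) (nat_lit 3040) (nat_lit 0) (XT.nd (nat_lit 390) (nat_lit 2204) (nat_lit 0) (XT.nd (nat_lit 156) (nat_lit 1064) (nat_lit 0) (XT.nd (nat_lit 78) (nat_lit 0) (nat_lit 0) (XT.lf (nat_lit 0) (nat_lit 163730635) (nat_lit 456) (nat_lit 4962769882) (nat_lit 532) (nat_lit 4005715141) (nat_lit 188) (nat_lit 5) (nat_lit 194) (nat_lit 5) (nat_lit 195) (nat_lit 5) (nat_lit 451) (nat_lit 359) (nat_lit 330)) (XT.lf (nat_lit 0) (nat_lit 7020822824) (nat_lit 456) (nat_lit 1704177920) (nat_lit 532) (nat_lit 493744373) (nat_lit 188) (nat_lit 5) (nat_lit 194) (nat_lit 5) (nat_lit 195) (nat_lit 5) (nat_lit 452) (nat_lit 359) (nat_lit 329))) (XT.nd (nat_lit 78) (nat_lit 532) (nat_lit 0) (XT.lf (nat_lit 0) (nat_lit 3039272476) (nat_lit 532) (nat_lit 4639615743) (nat_lit 76) (nat_lit 1627899647) (nat_lit 181) (nat_lit 5) (nat_lit 188) (nat_lit 5) (nat_lit 182) (nat_lit 5) (nat_lit 453) (nat_lit 359) (nat_lit 328)) (XT.nd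 (nat_lit 78) (nat_lit 76) (nat_lit 0) (XT.lf (nat_lit 0) (nat_lit 2246228105) (nat_lit 456) (nat_lit 4381439104) (nat_lit 532) (nat_lit 2769042214) (nat_lit 175) (nat_lit 5) (nat_lit 181) (nat_lit 5) (nat_lit 182) (nat_lit 5) (nat_lit 454) (nat_lit 359) (nat_lit 327)) (XT.lf (nat_lit 0) (nat_lit 771035530) (nat_lit 532) (nat_lit 232358798) (nat_lit 76) (nat_lit 8485298312) (nat_lit 174) (nat_lit 5) (nat_lit 181) (nat_lit 5) (nat_lit 175) (nat_lit 5) (nat_lit 455) (nat_lit 359) (nat_lit 326))))) (XT.nd (nat_lit 234) (nat_lit 836) (nat_lit 0) (XT.nd (nat_lit 78) (nat_lit 912) (nat_lit 0) (XT.lf (nat_lit 0) (nat_lit 4357055058) (nat_lit 532) (nat_lit 2773493889) (nat_lit 76) (nat_lit 2451365389) (nat_lit 168) (nat_lit 5) (nat_lit 175) (nat_lit 5) (nat_lit 169) (nat_lit 5) (nat_lit 456) (nat_lit 359) (nat_lit 325)) (XT.nd (nat_lit 78) (nat_lit 532) (nat_lit 0) (XT.lf (nat_lit 0) (nat_lit 4295087192) (nat_lit 380) (nat_lit 3707900772)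 (nat_lit 456) (nat_lit 1674257697) (nat_lit 163) (nat_lit 5) (nat_lit 168) (nat_lit 5) (nat_lit 169) (nat_lit 5) (nat_lit 457) (nat_lit 359) (nat_lit 324)) (XT.lf (nat_lit 0) (nat_lit 1707185641) (nat_lit 456) (nat_lit 196701239) (nat_lit 532) (nat_lit 7870711147) (nat_lit 156) (nat_lit 5) (nat_lit 162) (nat_lit 5) (nat_lit 163) (nat_lit 5) (nat_lit 458) (nat_lit 359) (nat_lit 323)))) (XT.nd (nat_lit 78) (nat_lit 836) (nat_lit 0) (XT.lf (nat_lit 0) (nat_lit 5542108756) (nat_lit 532) (nat_lit 966502594) (nat_lit 76) (nat_lit 3364854633) (nat_lit 156) (nat_lit 5) (nat_lit 163) (nat_lit 5) (nat_lit 157) (nat_lit 5) (nat_lit 459) (nat_lit 359) (nat_lit 322)) (XT.nd (nat_lit 78) (nat_lit 456) (nat_lit 0) (XT.lf (nat_lit 0) (nat_lit 6287687024) (nat_lit 380) (nat_lit 2961043943) (nat_lit 456) (nat_lit 725675978) (nat_lit 151) (nat_lit 5) (nat_lit 156) (nat_lit 5) (nat_lit 157) (nat_lit 5) (nat_lit 460) (nat_lit 359) (nat_lit 321))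 (XT.lf (nat_lit 0) (nat_lit 2901273145) (nat_lit 456) (nat_lit 6501251962) (nat_lit 76) (nat_lit 674708881) (nat_lit 145) (nat_lit 5) (nat_lit 151) (nat_lit 5) (nat_lit 146) (nat_lit 5) (nat_lit 461) (nat_lit 359) (nat_lit 320)))))) (XT.nd (nat_lit 468) (nat_lit 1444) (nat_lit 0) (XT.nd (nat_lit 234) (nat_lit 760) (nat_lit 0) (XT.nd (nat_lit 78) (nat_lit 456) (nat_lit 0) (XT.lf (nat_lit 0) (nat_lit 767400514) (nat_lit 380) (nat_lit 5827108722) (nat_lit 456) (nat_lit 3587450989) (nat_lit 140) (nat_lit 5) (nat_lit 145) (nat_lit 5) (nat_lit 146) (nat_lit 5) (nat_lit 462) (nat_lit 359) (nat_lit 319)) (XT.nd (nat_lit 78) (nat_lit 380) (nat_lit 0) (XT.lf (nat_lit 0) (nat_lit 69888911) (nat_lit 456) (nat_lit 2089647159) (nat_lit 76) (nat_lit 8129282736) (nat_lit 139) (nat_lit 5) (nat_lit 145) (nat_lit 5) (nat_lit 140) (nat_lit 5) (nat_lit 463) (nat_lit 359) (nat_lit 318)) (XT.lf (nat_lit 0) (nat_lit 3752677380) (nat_lit 456) (nat_lit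 5048903744) (nat_lit 76) (nat_lit 1595759847) (nat_lit 134) (nat_lit 5) (nat_lit 140) (nat_lit 5) (nat_lit 135) (nat_lit 5) (nat_lit 464) (nat_lit 359) (nat_lit 317)))) (XT.nd (nat_lit 78) (nat_lit 456) (nat_lit 0) (XT.lf (nat_lit 0) (nat_lit 2403551226) (nat_lit 304) (nat_lit 5104871920) (nat_lit 380) (nat_lit 2999631687) (nat_lit 130) (nat_lit 5) (nat_lit 134) (nat_lit 5) (nat_lit 135) (nat_lit 5) (nat_lit 465) (nat_lit 359) (nat_lit 316)) (XT.nd (nat_lit 78) (nat_lit 380) (nat_lit 0) (XT.lf (nat_lit 0) (nat_lit 698393076) (nat_lit 380) (nat_lit 621274955) (nat_lit 76) (nat_lit 9301438408) (nat_lit 129) (nat_lit 5) (nat_lit 134) (nat_lit 5) (nat_lit 130) (nat_lit 5) (nat_lit 466) (nat_lit 359) (nat_lit 315)) (XT.lf (nat_lit 0) (nat_lit 4448856067) (nat_lit 456) (nat_lit 3737214040) (nat_lit 76) (nat_lit 2549586426) (nat_lit 124) (nat_lit 5) (nat_lit 130) (nat_lit 5) (nat_lit 125) (nat_lit 5) (nat_lit 467) (nat_lit 359) (nat_lit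 314))))) (XT.nd (nat_lit 234) (nat_lit 684) (nat_lit 0) (XT.nd (nat_lit 78) (nat_lit 456) (nat_lit 0) (XT.lf (nat_lit 0) (nat_lit 3900472888) (nat_lit 304) (nat_lit 4368656576) (nat_lit 380) (nat_lit 2583478870) (nat_lit 120) (nat_lit 5) (nat_lit 124) (nat_lit 5) (nat_lit 125) (nat_lit 5) (nat_lit 468) (nat_lit 359) (nat_lit 313)) (XT.nd (nat_lit 78) (nat_lit 0) (nat_lit 0) (XT.lf (nat_lit 0) (nat_lit 702866455) (nat_lit 380) (nat_lit 461851946) (nat_lit 456) (nat_lit 9807302853) (nat_lit 114) (nat_lit 5) (nat_lit 119) (nat_lit 5) (nat_lit 120) (nat_lit 5) (nat_lit 469) (nat_lit 359) (nat_lit 312)) (XT.lf (nat_lit 0) (nat_lit 4980057713) (nat_lit 456) (nat_lit 2596834047) (nat_lit 76) (nat_lit 3516060059) (nat_lit 114) (nat_lit 5) (nat_lit 120) (nat_lit 5) (nat_lit 115) (nat_lit 5) (nat_lit 470) (nat_lit 359) (nat_lit 311)))) (XT.nd (nat_lit 78) (nat_lit 380) (nat_lit 0) (XT.lf (nat_lit 0) (nat_lit 5226917870) (nat_lit 304)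 (nat_lit 3639529088) (nat_lit 380) (nat_lit 2349965388) (nat_lit 110) (nat_lit 5) (nat_lit 114) (nat_lit 5) (nat_lit 115) (nat_lit 5) (nat_lit 471) (nat_lit 359) (nat_lit 310)) (XT.nd (nat_lit 78) (nat_lit 0) (nat_lit 0) (XT.lf (nat_lit 0) (nat_lit 1458635020) (nat_lit 380) (nat_lit 9497776493) (nat_lit 76) (nat_lit 385944668) (nat_lit 105) (nat_lit 5) (nat_lit 110) (nat_lit 5) (nat_lit 106) (nat_lit 5) (nat_lit 472) (nat_lit 359) (nat_lit 309)) (XT.lf (nat_lit 0) (nat_lit 5334615195) (nat_lit 380) (nat_lit 1661283546) (nat_lit 76) (nat_lit 4474161866) (nat_lit 105) (nat_lit 5) (nat_lit 110) (nat_lit 5) (nat_lit 106) (nat_lit 5) (nat_lit 473) (nat_lit 359) (nat_lit 308))))))))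
noncomputable def xc42 : XT := (XT.nd (nat_lit 1716) (nat_lit 1444) (nat_lit 0) (XT.nd (nat_lit 858) (nat_lit 1672) (nat_lit 0) (XT.nd (nat_lit 390) (nat_lit 1140) (nat_lit 0) (XT.nd (nat_lit 156) (nat_lit 608) (nat_lit 0) (XT.nd (nat_lit 78) (nat_lit 380) (nat_lit 0) (XT.lf (nat_lit 0) (nat_lit 6348672539) (nat_lit 304) (nat_lit 2939566839) (nat_lit 380) (nat_lit 2312083000) (nat_lit 101) (nat_lit 5) (nat_lit 105) (nat_lit 5) (nat_lit 106) (nat_lit 5) (nat_lit 474) (nat_lit 359) (nat_lit 307)) (XT.lf (nat_lit 0) (nat_lit 1562993063) (nat_lit 380) (nat_lit 8973444459) (nat_lit 76) (nat_lit 1196629806) (nat_lit 96) (nat_lit 5) (nat_lit 101) (nat_lit 5) (nat_lit 97) (nat_lit 5) (nat_lit 475) (nat_lit 359) (nat_lit 306))) (XT.nd (nat_lit 78) (nat_lit 608) (nat_lit 0) (XT.lf (nat_lit 0) (nat_lit 5498796756) (nat_lit 380) (nat_lit 967322907) (nat_lit 76) (nat_lit 5401763570) (nat_lit 96) (nat_lit 5) (nat_lit 101) (nat_lit 5) (nat_lit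 97) (nat_lit 5) (nat_lit 476) (nat_lit 359) (nat_lit 305)) (XT.nd (nat_lit 78) (nat_lit 380) (nat_lit 0) (XT.lf (nat_lit 0) (nat_lit 7228174231) (nat_lit 228) (nat_lit 2292086029) (nat_lit 304) (nat_lit 2485001627) (nat_lit 93) (nat_lit 5) (nat_lit 96) (nat_lit 5) (nat_lit 97) (nat_lit 5) (nat_lit 477) (nat_lit 359) (nat_lit 304)) (XT.lf (nat_lit 0) (nat_lit 1459124015) (nat_lit 380) (nat_lit 8733196524) (nat_lit 76) (nat_lit 1952846369) (nat_lit 88) (nat_lit 5) (nat_lit 93) (nat_lit 5) (nat_lit 89) (nat_lit 5) (nat_lit 478) (nat_lit 359) (nat_lit 303))))) (XT.nd (nat_lit 234) (nat_lit 532) (nat_lit 0) (XT.nd (nat_lit 78) (nat_lit 608) (nat_lit 0) (XT.lf (nat_lit 0) (nat_lit 5456636931) (nat_lit 380) (nat_lit 555359956) (nat_lit 76) (nat_lit 6275394045) (nat_lit 88) (nat_lit 5) (nat_lit 93) (nat_lit 5) (nat_lit 89) (nat_lit 5) (nat_lit 479) (nat_lit 359) (nat_lit 302)) (XT.nd (nat_lit 78) (nat_lit 380) (nat_lit 0) (XT.lf (nat_lit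 0) (nat_lit 7824092138) (nat_lit 228) (nat_lit 1721884987) (nat_lit 304) (nat_lit 2886249672) (nat_lit 85) (nat_lit 5) (nat_lit 88) (nat_lit 5) (nat_lit 89) (nat_lit 5) (nat_lit 480) (nat_lit 359) (nat_lit 301)) (XT.lf (nat_lit 0) (nat_lit 1128964825) (nat_lit 380) (nat_lit 8821084843) (nat_lit 76) (nat_lit 2629632081) (nat_lit 80) (nat_lit 5) (nat_lit 85) (nat_lit 5) (nat_lit 81) (nat_lit 5) (nat_lit 481) (nat_lit 359) (nat_lit 300)))) (XT.nd (nat_lit 78) (nat_lit 532) (nat_lit 0) (XT.lf (nat_lit 0) (nat_lit 5189745673) (nat_lit 380) (nat_lit 469895691) (nat_lit 76) (nat_lit 7069989314) (nat_lit 80) (nat_lit 5) (nat_lit 85) (nat_lit 5) (nat_lit 81) (nat_lit 5) (nat_lit 482) (nat_lit 359) (nat_lit 299)) (XT.nd (nat_lit 78) (nat_lit 304) (nat_lit 0) (XT.lf (nat_lit 0) (nat_lit 8090867985) (nat_lit 228) (nat_lit 1255505246) (nat_lit 304) (nat_lit 3535917260) (nat_lit 77) (nat_lit 5) (nat_lit 80) (nat_lit 5) (nat_lit 81) (nat_lit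 5) (nat_lit 483) (nat_lit 359) (nat_lit 298)) (XT.lf (nat_lit 0) (nat_lit 551849275) (nat_lit 304) (nat_lit 9285657898) (nat_lit 76) (nat_lit 3200211337) (nat_lit 73) (nat_lit 5) (nat_lit 77) (nat_lit 5) (nat_lit 74) (nat_lit 5) (nat_lit 484) (nat_lit 359) (nat_lit 297)))))) (XT.nd (nat_lit 390) (nat_lit 912) (nat_lit 0) (XT.nd (nat_lit 156) (nat_lit 532) (nat_lit 0) (XT.nd (nat_lit 78) (nat_lit 228) (nat_lit 0) (XT.lf (nat_lit 0) (nat_lit 4677093664) (nat_lit 304) (nat_lit 760013237) (nat_lit 76) (nat_lit 7758623639) (nat_lit 73) (nat_lit 5) (nat_lit 77) (nat_lit 5) (nat_lit 74) (nat_lit 5) (nat_lit 485) (nat_lit 359) (nat_lit 296)) (XT.lf (nat_lit 0) (nat_lit 7978211977) (nat_lit 228) (nat_lit 921512858) (nat_lit 304) (nat_lit 4456884521) (nat_lit 70) (nat_lit 5) (nat_lit 73) (nat_lit 5) (nat_lit 74) (nat_lit 5) (nat_lit 486) (nat_lit 359) (nat_lit 295))) (XT.nd (nat_lit 78) (nat_lit 304) (nat_lit 0) (XT.lf (nat_lit 0) (nat_lit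 3337996755) (nat_lit 228) (nat_lit 9882776178) (nat_lit 304) (nat_lit 299657628) (nat_lit 67) (nat_lit 5) (nat_lit 70) (nat_lit 5) (nat_lit 71) (nat_lit 5) (nat_lit 487) (nat_lit 359) (nat_lit 294)) (XT.nd (nat_lit 78) (nat_lit 228) (nat_lit 0) (XT.lf (nat_lit 0) (nat_lit 3894771619) (nat_lit 304) (nat_lit 1479914867) (nat_lit 76) (nat_lit 8312219114) (nat_lit 66) (nat_lit 5) (nat_lit 70) (nat_lit 5) (nat_lit 67) (nat_lit 5) (nat_lit 488) (nat_lit 359) (nat_lit 293)) (XT.lf (nat_lit 0) (nat_lit 7430549034) (nat_lit 228) (nat_lit 750802627) (nat_lit 304) (nat_lit 5675077234) (nat_lit 63) (nat_lit 5) (nat_lit 66) (nat_lit 5) (nat_lit 67) (nat_lit 5) (nat_lit 489) (nat_lit 359) (nat_lit 292))))) (XT.nd (nat_lit 234) (nat_lit 456) (nat_lit 0) (XT.nd (nat_lit 78) (nat_lit 228) (nat_lit 0) (XT.lf (nat_lit 0) (nat_lit 2454800832) (nat_lit 228) (nat_lit 10114713924) (nat_lit 304) (nat_lit 1459514660) (nat_lit 60) (nat_lit 5) (nat_lit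 63) (nat_lit 5) (nat_lit 64) (nat_lit 5) (nat_lit 490) (nat_lit 359) (nat_lit 291)) (XT.nd (nat_lit 78) (nat_lit 152) (nat_lit 0) (XT.lf (nat_lit 0) (nat_lit 2815721122) (nat_lit 304) (nat_lit 2689512374) (nat_lit 76) (nat_lit 8699230988) (nat_lit 59) (nat_lit 5) (nat_lit 63) (nat_lit 5) (nat_lit 60) (nat_lit 5) (nat_lit 491) (nat_lit 359) (nat_lit 290)) (XT.lf (nat_lit 0) (nat_lit 6386409835) (nat_lit 152) (nat_lit 776928207) (nat_lit 228) (nat_lit 7219752447) (nat_lit 57) (nat_lit 5) (nat_lit 59) (nat_lit 5) (nat_lit 60) (nat_lit 5) (nat_lit 492) (nat_lit 359) (nat_lit 289)))) (XT.nd (nat_lit 78) (nat_lit 228) (nat_lit 0) (XT.lf (nat_lit 0) (nat_lit 1041939397) (nat_lit 228) (nat_lit 10572237384) (nat_lit 304) (nat_lit 2950790343) (nat_lit 54) (nat_lit 5) (nat_lit 57) (nat_lit 5) (nat_lit 58) (nat_lit 5) (nat_lit 493) (nat_lit 359) (nat_lit 288)) (XT.nd (nat_lit 78) (nat_lit 152) (nat_lit 0) (XT.lf (nat_lit 0) (nat_lit 1409434254)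 (nat_lit 304) (nat_lit 4455076647) (nat_lit 76) (nat_lit 8885305678) (nat_lit 53) (nat_lit 5) (nat_lit 57) (nat_lit 5) (nat_lit 54) (nat_lit 5) (nat_lit 494) (nat_lit 359) (nat_lit 287)) (XT.lf (nat_lit 0) (nat_lit 4777760660) (nat_lit 152) (nat_lit 1036461224) (nat_lit 228) (nat_lit 9123816952) (nat_lit 51) (nat_lit 5) (nat_lit 53) (nat_lit 5) (nat_lit 54) (nat_lit 5) (nat_lit 495) (nat_lit 359) (nat_lit 286))))))) (XT.nd (nat_lit 858) (nat_lit 152) (nat_lit 0) (XT.nd (nat_lit 390) (nat_lit 608) (nat_lit 0) (XT.nd (nat_lit 156) (nat_lit 456) (nat_lit 0) (XT.nd (nat_lit 78) (nat_lit 228) (nat_lit 0) (XT.lf (nat_lit 0) (nat_lit 10328377629) (nat_lit 228) (nat_lit 958942883) (nat_lit 76) (nat_lit 3842282809) (nat_lit 51) (nat_lit 5) (nat_lit 54) (nat_lit 5) (nat_lit 52) (nat_lit 5) (nat_lit 496) (nat_lit 359) (nat_lit 285)) (XT.lf (nat_lit 0) (nat_lit 8472122181) (nat_lit 228) (nat_lit 6489166909) (nat_lit 304) (nat_lit 363143727)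 (nat_lit 48) (nat_lit 5) (nat_lit 51) (nat_lit 5) (nat_lit 52) (nat_lit 5) (nat_lit 497) (nat_lit 359) (nat_lit 284))) (XT.nd (nat_lit 78) (nat_lit 228) (nat_lit 0) (XT.lf (nat_lit 0) (nat_lit 2529265376) (nat_lit 152) (nat_lit 1569382939) (nat_lit 228) (nat_lit 11424181841) (nat_lit 45) (nat_lit 5) (nat_lit 47) (nat_lit 5) (nat_lit 48) (nat_lit 5) (nat_lit 498) (nat_lit 359) (nat_lit 283)) (XT.nd (nat_lit 78) (nat_lit 228) (nat_lit 0) (XT.lf (nat_lit 0) (nat_lit 8680266528) (nat_lit 228) (nat_lit 3616742115) (nat_lit 76) (nat_lit 3427432723) (nat_lit 45) (nat_lit 5) (nat_lit 48) (nat_lit 5) (nat_lit 46) (nat_lit 5) (nat_lit 499) (nat_lit 359) (nat_lit 282)) (XT.lf (nat_lit 0) (nat_lit 5957789864) (nat_lit 228) (nat_lit 7412223280) (nat_lit 304) (nat_lit 2559744664) (nat_lit 42) (nat_lit 5) (nat_lit 45) (nat_lit 5) (nat_lit 46) (nat_lit 5) (nat_lit 500) (nat_lit 359) (nat_lit 281))))) (XT.nd (nat_lit 234) (nat_lit 228) (nat_lit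 0) (XT.nd (nat_lit 78) (nat_lit 304) (nat_lit 0) (XT.lf (nat_lit 0) (nat_lit 1979857716) (nat_lit 304) (nat_lit 436723884) (nat_lit 76) (nat_lit 13722502170) (nat_lit 41) (nat_lit 5) (nat_lit 45) (nat_lit 5) (nat_lit 42) (nat_lit 5) (nat_lit 501) (nat_lit 359) (nat_lit 280)) (XT.nd (nat_lit 78) (nat_lit 152) (nat_lit 0) (XT.lf (nat_lit 0) (nat_lit 6622496319) (nat_lit 228) (nat_lit 7031184716) (nat_lit 76) (nat_lit 2697649196) (nat_lit 39) (nat_lit 5) (nat_lit 42) (nat_lit 5) (nat_lit 40) (nat_lit 5) (nat_lit 502) (nat_lit 359) (nat_lit 279)) (XT.lf (nat_lit 0) (nat_lit 2672737063) (nat_lit 152) (nat_lit 8689768895) (nat_lit 228) (nat_lit 5205228004) (nat_lit 37) (nat_lit 5) (nat_lit 39) (nat_lit 5) (nat_lit 40) (nat_lit 5) (nat_lit 503) (nat_lit 359) (nat_lit 278)))) (XT.nd (nat_lit 78) (nat_lit 228) (nat_lit 0) (XT.lf (nat_lit 0) (nat_lit 12609816915) (nat_lit 152) (nat_lit 3603151230) (nat_lit 228) (nat_lit 575187227) (nat_lit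 37) (nat_lit 5) (nat_lit 39) (nat_lit 5) (nat_lit 40) (nat_lit 5) (nat_lit 504) (nat_lit 359) (nat_lit 277)) (XT.nd (nat_lit 78) (nat_lit 0) (nat_lit 0) (XT.lf (nat_lit 0) (nat_lit 4109670460) (nat_lit 228) (nat_lit 11297616661) (nat_lit 76) (nat_lit 1604829866) (nat_lit 34) (nat_lit 5) (nat_lit 37) (nat_lit 5) (nat_lit 35) (nat_lit 5) (nat_lit 505) (nat_lit 359) (nat_lit 276)) (XT.lf (nat_lit 0) (nat_lit 8901591675) (nat_lit 228) (nat_lit 1461659581) (nat_lit 76) (nat_lit 6876811673) (nat_lit 34) (nat_lit 5) (nat_lit 37) (nat_lit 5) (nat_lit 35) (nat_lit 5) (nat_lit 506) (nat_lit 359) (nat_lit 275)))))) (XT.nd (nat_lit 52962) (nat_lit 0) (nat_lit 21964) (XT.nd (nat_lit 52728) (nat_lit 0) (nat_lit 26144) (XT.nd (nat_lit 52572) (nat_lit 0) (nat_lit 28044) (XT.lf (nat_lit 0) (nat_lit 8629646907) (nat_lit 152) (nat_lit 5185316607) (nat_lit 228) (nat_lit 3657094484) (nat_lit 32) (nat_lit 5) (nat_lit 34) (nat_lit 5) (nat_lit 35)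 (nat_lit 5) (nat_lit 507) (nat_lit 359) (nat_lit 274)) (XT.nd (nat_lit 78) (nat_lit 912) (nat_lit 0) (XT.lf (nat_lit 0) (nat_lit 1399571896) (nat_lit 1368) (nat_lit 814080047) (nat_lit 0) (nat_lit 1399571896) (nat_lit 413) (nat_lit 5) (nat_lit 431) (nat_lit 4) (nat_lit 413) (nat_lit 4) (nat_lit 420) (nat_lit 360) (nat_lit 360)) (XT.lf (nat_lit 0) (nat_lit 3711992675) (nat_lit 912) (nat_lit 2592711896) (nat_lit 912) (nat_lit 962183762) (nat_lit 401) (nat_lit 4) (nat_lit 413) (nat_lit 5) (nat_lit 413) (nat_lit 4) (nat_lit 421) (nat_lit 360) (nat_lit 359)))) (XT.nd (nat_lit 78) (nat_lit 988) (nat_lit 0) (XT.lf (nat_lit 0) (nat_lit 1808844777) (nat_lit 836) (nat_lit 685179928) (nat_lit 912) (nat_lit 4814692082) (nat_lit 389) (nat_lit 5) (nat_lit 400) (nat_lit 5) (nat_lit 401) (nat_lit 4) (nat_lit 422) (nat_lit 360) (nat_lit 358)) (XT.nd (nat_lit 78) (nat_lit 988) (nat_lit 0) (XT.lf (nat_lit 0) (nat_lit 5972292288) (nat_lit 912)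 (nat_lit 109629440) (nat_lit 0) (nat_lit 1270039476) (nat_lit 389) (nat_lit 5) (nat_lit 401) (nat_lit 4) (nat_lit 389) (nat_lit 4) (nat_lit 423) (nat_lit 360) (nat_lit 357)) (XT.lf (nat_lit 0) (nat_lit 2070409829) (nat_lit 988) (nat_lit 2026380914) (nat_lit 76) (nat_lit 3299541776) (nat_lit 376) (nat_lit 5) (nat_lit 389) (nat_lit 5) (nat_lit 377) (nat_lit 4) (nat_lit 424) (nat_lit 360) (nat_lit 356))))) (XT.nd (nat_lit 234) (nat_lit 2432) (nat_lit 0) (XT.nd (nat_lit 78) (nat_lit 912) (nat_lit 0) (XT.lf (nat_lit 0) (nat_lit 3484530040) (nat_lit 836) (nat_lit 2045152324) (nat_lit 912) (nat_lit 1912574827) (nat_lit 365) (nat_lit 5) (nat_lit 376) (nat_lit 5) (nat_lit 377) (nat_lit 4) (nat_lit 425) (nat_lit 360) (nat_lit 355)) (XT.nd (nat_lit 78) (nat_lit 0) (nat_lit 0) (XT.lf (nat_lit 0) (nat_lit 1508569034) (nat_lit 912) (nat_lit 5906897078) (nat_lit 76) (nat_lit 74249156) (nat_lit 353) (nat_lit 5) (nat_lit 365) (nat_lit 5) (nat_lit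 354) (nat_lit 4) (nat_lit 426) (nat_lit 360) (nat_lit 354)) (XT.lf (nat_lit 0) (nat_lit 4949231816) (nat_lit 912) (nat_lit 348398321) (nat_lit 76) (nat_lit 2240725812) (nat_lit 353) (nat_lit 5) (nat_lit 365) (nat_lit 5) (nat_lit 354) (nat_lit 4) (nat_lit 427) (nat_lit 360) (nat_lit 353)))) (XT.nd (nat_lit 78) (nat_lit 1596) (nat_lit 0) (XT.lf (nat_lit 0) (nat_lit 831307130) (nat_lit 836) (nat_lit 2273795593) (nat_lit 76) (nat_lit 4483333481) (nat_lit 342) (nat_lit 5) (nat_lit 353) (nat_lit 5) (nat_lit 343) (nat_lit 5) (nat_lit 428) (nat_lit 360) (nat_lit 352)) (XT.nd (nat_lit 78) (nat_lit 836) (nat_lit 0) (XT.lf (nat_lit 0) (nat_lit 3412582001) (nat_lit 760) (nat_lit 835427854) (nat_lit 836) (nat_lit 3391934520) (nat_lit 332) (nat_lit 5) (nat_lit 342) (nat_lit 5) (nat_lit 343) (nat_lit 5) (nat_lit 429) (nat_lit 360) (nat_lit 351)) (XT.lf (nat_lit 0) (nat_lit 13155694) (nat_lit 836) (nat_lit 6203884665) (nat_lit 76) (nat_lit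 1475993082) (nat_lit 321) (nat_lit 5) (nat_lit 332) (nat_lit 5) (nat_lit 322) (nat_lit 5) (nat_lit 430) (nat_lit 360) (nat_lit 350))))))))
noncomputable def xc43 : XT := (XT.nd (nat_lit 1716) (nat_lit 6688) (nat_lit 0) (XT.nd (nat_lit 858) (nat_lit 4484) (nat_lit 0) (XT.nd (nat_lit 390) (nat_lit 3344) (nat_lit 0) (XT.nd (nat_lit 156) (nat_lit 1520) (nat_lit 0) (XT.nd (nat_lit 78) (nat_lit 760) (nat_lit 0) (XT.lf (nat_lit 0) (nat_lit 3414063222) (nat_lit 836) (nat_lit 469781196) (nat_lit 76) (nat_lit 3863446892) (nat_lit 321) (nat_lit 5) (nat_lit 332) (nat_lit 5) (nat_lit 322) (nat_lit 5) (nat_lit 431) (nat_lit 360) (nat_lit 349)) (XT.lf (nat_lit 0) (nat_lit 5378690179) (nat_lit 760) (nat_lit 1479419500) (nat_lit 836) (nat_lit 945039997) (nat_lit 311) (nat_lit 5) (nat_lit 321) (nat_lit 5) (nat_lit 322) (nat_lit 5) (nat_lit 432) (nat_lit 360) (nat_lit 348))) (XT.nd (nat_lit 78) (nat_lit 760) (nat_lit 0) (XT.lf (nat_lit 0) (nat_lit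 2450566806) (nat_lit 760) (nat_lit 4418875912) (nat_lit 76) (nat_lit 990921786) (nat_lit 301) (nat_lit 5) (nat_lit 311) (nat_lit 5) (nat_lit 302) (nat_lit 5) (nat_lit 433) (nat_lit 360) (nat_lit 347)) (XT.nd (nat_lit 78) (nat_lit 76) (nat_lit 0) (XT.lf (nat_lit 0) (nat_lit 1470498967) (nat_lit 684) (nat_lit 4407802220) (nat_lit 760) (nat_lit 2040776848) (nat_lit 292) (nat_lit 5) (nat_lit 301) (nat_lit 5) (nat_lit 302) (nat_lit 5) (nat_lit 434) (nat_lit 360) (nat_lit 346)) (XT.lf (nat_lit 0) (nat_lit 1348594899) (nat_lit 760) (nat_lit 522236666) (nat_lit 76) (nat_lit 6108543636) (nat_lit 291) (nat_lit 5) (nat_lit 301) (nat_lit 5) (nat_lit 292) (nat_lit 5) (nat_lit 435) (nat_lit 360) (nat_lit 345))))) (XT.nd (nat_lit 234) (nat_lit 1292) (nat_lit 0) (XT.nd (nat_lit 78) (nat_lit 1368) (nat_lit 0) (XT.lf (nat_lit 0) (nat_lit 4761700246) (nat_lit 760) (nat_lit 2535312124) (nat_lit 76) (nat_lit 743946472) (nat_lit 282) (nat_lit 5)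 (nat_lit 292) (nat_lit 5) (nat_lit 283) (nat_lit 5) (nat_lit 436) (nat_lit 360) (nat_lit 344)) (XT.nd (nat_lit 78) (nat_lit 608) (nat_lit 0) (XT.lf (nat_lit 0) (nat_lit 119257674) (nat_lit 760) (nat_lit 4585070901) (nat_lit 76) (nat_lit 3399806828) (nat_lit 272) (nat_lit 5) (nat_lit 282) (nat_lit 5) (nat_lit 273) (nat_lit 5) (nat_lit 437) (nat_lit 360) (nat_lit 343)) (XT.lf (nat_lit 0) (nat_lit 1486682597) (nat_lit 608) (nat_lit 2025394595) (nat_lit 684) (nat_lit 4656674796) (nat_lit 264) (nat_lit 5) (nat_lit 272) (nat_lit 5) (nat_lit 273) (nat_lit 5) (nat_lit 438) (nat_lit 360) (nat_lit 342)))) (XT.nd (nat_lit 78) (nat_lit 1292) (nat_lit 0) (XT.lf (nat_lit 0) (nat_lit 6952287119) (nat_lit 684) (nat_lit 569026358) (nat_lit 76) (nat_lit 713771311) (nat_lit 264) (nat_lit 5) (nat_lit 273) (nat_lit 5) (nat_lit 265) (nat_lit 5) (nat_lit 439) (nat_lit 360) (nat_lit 341)) (XT.nd (nat_lit 78) (nat_lit 608) (nat_lit 0) (XT.lf (nat_lit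 0) (nat_lit 2125408208) (nat_lit 684) (nat_lit 2660583342) (nat_lit 76) (nat_lit 3516583176) (nat_lit 255) (nat_lit 5) (nat_lit 264) (nat_lit 5) (nat_lit 256) (nat_lit 5) (nat_lit 440) (nat_lit 360) (nat_lit 340)) (XT.lf (nat_lit 0) (nat_lit 3580981453) (nat_lit 608) (nat_lit 1976046525) (nat_lit 684) (nat_lit 2814782096) (nat_lit 247) (nat_lit 5) (nat_lit 255) (nat_lit 5) (nat_lit 256) (nat_lit 5) (nat_lit 441) (nat_lit 360) (nat_lit 339)))))) (XT.nd (nat_lit 390) (nat_lit 2128) (nat_lit 0) (XT.nd (nat_lit 156) (nat_lit 1672) (nat_lit 0) (XT.nd (nat_lit 78) (nat_lit 0) (nat_lit 0) (XT.lf (nat_lit 0) (nat_lit 585840255) (nat_lit 684) (nat_lit 6963375169) (nat_lit 76) (nat_lit 893566973) (nat_lit 238) (nat_lit 5) (nat_lit 247) (nat_lit 5) (nat_lit 239) (nat_lit 5) (nat_lit 442) (nat_lit 360) (nat_lit 338)) (XT.lf (nat_lit 0) (nat_lit 4008324401) (nat_lit 684) (nat_lit 678329332) (nat_lit 76) (nat_lit 3828330467) (nat_lit 238)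 (nat_lit 5) (nat_lit 247) (nat_lit 5) (nat_lit 239) (nat_lit 5) (nat_lit 443) (nat_lit 360) (nat_lit 337))) (XT.nd (nat_lit 78) (nat_lit 1140) (nat_lit 0) (XT.lf (nat_lit 0) (nat_lit 5737224269) (nat_lit 532) (nat_lit 1746397313) (nat_lit 608) (nat_lit 1105333869) (nat_lit 231) (nat_lit 5) (nat_lit 238) (nat_lit 5) (nat_lit 239) (nat_lit 5) (nat_lit 444) (nat_lit 360) (nat_lit 336)) (XT.nd (nat_lit 78) (nat_lit 532) (nat_lit 0) (XT.lf (nat_lit 0) (nat_lit 2316524814) (nat_lit 608) (nat_lit 5085962695) (nat_lit 76) (nat_lit 1261953614) (nat_lit 223) (nat_lit 5) (nat_lit 231) (nat_lit 5) (nat_lit 224) (nat_lit 5) (nat_lit 445) (nat_lit 360) (nat_lit 335)) (XT.lf (nat_lit 0) (nat_lit 1362595346) (nat_lit 532) (nat_lit 4416910938) (nat_lit 608) (nat_lit 2962046326) (nat_lit 216) (nat_lit 5) (nat_lit 223) (nat_lit 5) (nat_lit 224) (nat_lit 5) (nat_lit 446) (nat_lit 360) (nat_lit 334))))) (XT.nd (nat_lit 234) (nat_lit 1064) (nat_lit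 0) (XT.nd (nat_lit 78) (nat_lit 988) (nat_lit 0) (XT.lf (nat_lit 0) (nat_lit 467457446) (nat_lit 608) (nat_lit 885266744) (nat_lit 76) (nat_lit 7467782532) (nat_lit 215) (nat_lit 5) (nat_lit 223) (nat_lit 5) (nat_lit 216) (nat_lit 5) (nat_lit 447) (nat_lit 360) (nat_lit 333)) (XT.nd (nat_lit 78) (nat_lit 456) (nat_lit 0) (XT.lf (nat_lit 0) (nat_lit 3923878370) (nat_lit 608) (nat_lit 3188939795) (nat_lit 76) (nat_lit 1787881651) (nat_lit 208) (nat_lit 5) (nat_lit 216) (nat_lit 5) (nat_lit 209) (nat_lit 5) (nat_lit 448) (nat_lit 360) (nat_lit 332)) (XT.lf (nat_lit 0) (nat_lit 3435988351) (nat_lit 456) (nat_lit 4000137427) (nat_lit 532) (nat_lit 1546648070) (nat_lit 202) (nat_lit 5) (nat_lit 208) (nat_lit 5) (nat_lit 209) (nat_lit 5) (nat_lit 449) (nat_lit 360) (nat_lit 331)))) (XT.nd (nat_lit 78) (nat_lit 456) (nat_lit 0) (XT.lf (nat_lit 0) (nat_lit 1101568325) (nat_lit 532) (nat_lit 803297210) (nat_lit 608) (nat_lit 7161814158)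 (nat_lit 194) (nat_lit 5) (nat_lit 201) (nat_lit 5) (nat_lit 202) (nat_lit 5) (nat_lit 450) (nat_lit 360) (nat_lit 330)) (XT.nd (nat_lit 78) (nat_lit 456) (nat_lit 0) (XT.lf (nat_lit 0) (nat_lit 5408188607) (nat_lit 608) (nat_lit 1290939888) (nat_lit 76) (nat_lit 2452871319) (nat_lit 194) (nat_lit 5) (nat_lit 202) (nat_lit 5) (nat_lit 195) (nat_lit 5) (nat_lit 451) (nat_lit 360) (nat_lit 329)) (XT.lf (nat_lit 0) (nat_lit 5514052931) (nat_lit 456) (nat_lit 3459670956) (nat_lit 532) (nat_lit 265469735) (nat_lit 188) (nat_lit 5) (nat_lit 194) (nat_lit 5) (nat_lit 195) (nat_lit 5) (nat_lit 452) (nat_lit 360) (nat_lit 328))))))) (XT.nd (nat_lit 858) (nat_lit 3040) (nat_lit 0) (XT.nd (nat_lit 390) (nat_lit 1748) (nat_lit 0) (XT.nd (nat_lit 156) (nat_lit 912) (nat_lit 0) (XT.nd (nat_lit 78) (nat_lit 456) (nat_lit 0) (XT.lf (nat_lit 0) (nat_lit 3094036288) (nat_lit 456) (nat_lit 125366478) (nat_lit 532) (nat_lit 6108711825) (nat_lit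 181) (nat_lit 5) (nat_lit 187) (nat_lit 5) (nat_lit 188) (nat_lit 5) (nat_lit 453) (nat_lit 360) (nat_lit 327)) (XT.lf (nat_lit 0) (nat_lit 596167020) (nat_lit 456) (nat_lit 6176130095) (nat_lit 532) (nat_lit 2646453797) (nat_lit 175) (nat_lit 5) (nat_lit 181) (nat_lit 5) (nat_lit 182) (nat_lit 5) (nat_lit 454) (nat_lit 360) (nat_lit 326))) (XT.nd (nat_lit 78) (nat_lit 836) (nat_lit 0) (XT.lf (nat_lit 0) (nat_lit 868127096) (nat_lit 532) (nat_lit 1940122222) (nat_lit 76) (nat_lit 6702951247) (nat_lit 174) (nat_lit 5) (nat_lit 181) (nat_lit 5) (nat_lit 175) (nat_lit 5) (nat_lit 455) (nat_lit 360) (nat_lit 325)) (XT.nd (nat_lit 78) (nat_lit 380) (nat_lit 0) (XT.lf (nat_lit 0) (nat_lit 4407401716) (nat_lit 532) (nat_lit 4549934087) (nat_lit 76) (nat_lit 648025838) (nat_lit 168) (nat_lit 5) (nat_lit 175) (nat_lit 5) (nat_lit 169) (nat_lit 5) (nat_lit 456) (nat_lit 360) (nat_lit 324)) (XT.lf (nat_lit 0) (nat_lit 2460227986) (nat_lit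 380) (nat_lit 5557941650) (nat_lit 456) (nat_lit 1683231024) (nat_lit 163) (nat_lit 5) (nat_lit 168) (nat_lit 5) (nat_lit 169) (nat_lit 5) (nat_lit 457) (nat_lit 360) (nat_lit 323))))) (XT.nd (nat_lit 234) (nat_lit 836) (nat_lit 0) (XT.nd (nat_lit 78) (nat_lit 836) (nat_lit 0) (XT.lf (nat_lit 0) (nat_lit 1860772844) (nat_lit 456) (nat_lit 208601029) (nat_lit 76) (nat_lit 7730069712) (nat_lit 162) (nat_lit 5) (nat_lit 168) (nat_lit 5) (nat_lit 163) (nat_lit 5) (nat_lit 458) (nat_lit 360) (nat_lit 322)) (XT.nd (nat_lit 78) (nat_lit 380) (nat_lit 0) (XT.lf (nat_lit 0) (nat_lit 5462439477) (nat_lit 532) (nat_lit 2932370636) (nat_lit 76) (nat_lit 1504236673) (nat_lit 156) (nat_lit 5) (nat_lit 163) (nat_lit 5) (nat_lit 157) (nat_lit 5) (nat_lit 459) (nat_lit 360) (nat_lit 321)) (XT.lf (nat_lit 0) (nat_lit 4261317396) (nat_lit 380) (nat_lit 4872023888) (nat_lit 456) (nat_lit 867364932) (nat_lit 151) (nat_lit 5) (nat_lit 156) (nat_lit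 5) (nat_lit 157) (nat_lit 5) (nat_lit 460) (nat_lit 360) (nat_lit 320)))) (XT.nd (nat_lit 78) (nat_lit 380) (nat_lit 0) (XT.lf (nat_lit 0) (nat_lit 1467037145) (nat_lit 380) (nat_lit 1253752249) (nat_lit 456) (nat_lit 7383579228) (nat_lit 145) (nat_lit 5) (nat_lit 150) (nat_lit 5) (nat_lit 151) (nat_lit 5) (nat_lit 461) (nat_lit 360) (nat_lit 319)) (XT.nd (nat_lit 78) (nat_lit 380) (nat_lit 0) (XT.lf (nat_lit 0) (nat_lit 6378557644) (nat_lit 456) (nat_lit 1404759188) (nat_lit 76) (nat_lit 2426491210) (nat_lit 145) (nat_lit 5) (nat_lit 151) (nat_lit 5) (nat_lit 146) (nat_lit 5) (nat_lit 462) (nat_lit 360) (nat_lit 318)) (XT.lf (nat_lit 0) (nat_lit 5974881353) (nat_lit 380) (nat_lit 4137443580) (nat_lit 456) (nat_lit 204982021) (nat_lit 140) (nat_lit 5) (nat_lit 145) (nat_lit 5) (nat_lit 146) (nat_lit 5) (nat_lit 463) (nat_lit 360) (nat_lit 317)))))) (XT.nd (nat_lit 468) (nat_lit 1444) (nat_lit 0) (XT.nd (nat_lit 234) (nat_lit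 760) (nat_lit 0) (XT.nd (nat_lit 78) (nat_lit 380) (nat_lit 0) (XT.lf (nat_lit 0) (nat_lit 3043771895) (nat_lit 380) (nat_lit 389350802) (nat_lit 456) (nat_lit 6993684088) (nat_lit 134) (nat_lit 5) (nat_lit 139) (nat_lit 5) (nat_lit 140) (nat_lit 5) (nat_lit 464) (nat_lit 360) (nat_lit 316)) (XT.nd (nat_lit 78) (nat_lit 76) (nat_lit 0) (XT.lf (nat_lit 0) (nat_lit 6815469) (nat_lit 304) (nat_lit 7142258871) (nat_lit 380) (nat_lit 3389245723) (nat_lit 130) (nat_lit 5) (nat_lit 134) (nat_lit 5) (nat_lit 135) (nat_lit 5) (nat_lit 465) (nat_lit 360) (nat_lit 315)) (XT.lf (nat_lit 0) (nat_lit 292246347) (nat_lit 380) (nat_lit 3079514536) (nat_lit 76) (nat_lit 7280097627) (nat_lit 129) (nat_lit 5) (nat_lit 134) (nat_lit 5) (nat_lit 130) (nat_lit 5) (nat_lit 466) (nat_lit 360) (nat_lit 314)))) (XT.nd (nat_lit 78) (nat_lit 380) (nat_lit 0) (XT.lf (nat_lit 0) (nat_lit 3991591441) (nat_lit 456) (nat_lit 6279666693) (nat_lit 76) (nat_lit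 496176158) (nat_lit 124) (nat_lit 5) (nat_lit 130) (nat_lit 5) (nat_lit 125) (nat_lit 5) (nat_lit 467) (nat_lit 360) (nat_lit 313)) (XT.nd (nat_lit 78) (nat_lit 76) (nat_lit 0) (XT.lf (nat_lit 0) (nat_lit 1290555909) (nat_lit 304) (nat_lit 6483270855) (nat_lit 380) (nat_lit 3111323357) (nat_lit 120) (nat_lit 5) (nat_lit 124) (nat_lit 5) (nat_lit 125) (nat_lit 5) (nat_lit 468) (nat_lit 360) (nat_lit 312)) (XT.lf (nat_lit 0) (nat_lit 618198146) (nat_lit 380) (nat_lit 1978682242) (nat_lit 76) (nat_lit 8408266303) (nat_lit 119) (nat_lit 5) (nat_lit 124) (nat_lit 5) (nat_lit 120) (nat_lit 5) (nat_lit 469) (nat_lit 360) (nat_lit 311))))) (XT.nd (nat_lit 234) (nat_lit 684) (nat_lit 0) (XT.nd (nat_lit 78) (nat_lit 380) (nat_lit 0) (XT.lf (nat_lit 0) (nat_lit 4385654704) (nat_lit 456) (nat_lit 5357536048) (nat_lit 76) (nat_lit 1383847236) (nat_lit 114) (nat_lit 5) (nat_lit 120) (nat_lit 5) (nat_lit 115) (nat_lit 5) (nat_lit 470) (nat_lit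 360) (nat_lit 310)) (XT.nd (nat_lit 78) (nat_lit 76) (nat_lit 0) (XT.lf (nat_lit 0) (nat_lit 2396327364) (nat_lit 304) (nat_lit 5836831772) (nat_lit 380) (nat_lit 3018120093) (nat_lit 110) (nat_lit 5) (nat_lit 114) (nat_lit 5) (nat_lit 115) (nat_lit 5) (nat_lit 471) (nat_lit 360) (nat_lit 309)) (XT.lf (nat_lit 0) (nat_lit 764257682) (nat_lit 380) (nat_lit 1070999623) (nat_lit 76) (nat_lit 9542755133) (nat_lit 109) (nat_lit 5) (nat_lit 114) (nat_lit 5) (nat_lit 110) (nat_lit 5) (nat_lit 472) (nat_lit 360) (nat_lit 308)))) (XT.nd (nat_lit 78) (nat_lit 380) (nat_lit 0) (XT.lf (nat_lit 0) (nat_lit 4600885185) (nat_lit 380) (nat_lit 4647866679) (nat_lit 76) (nat_lit 2257754897) (nat_lit 105) (nat_lit 5) (nat_lit 110) (nat_lit 5) (nat_lit 106) (nat_lit 5) (nat_lit 473) (nat_lit 360) (nat_lit 307)) (XT.nd (nat_lit 78) (nat_lit 76) (nat_lit 0) (XT.lf (nat_lit 0) (nat_lit 3289679982) (nat_lit 304) (nat_lit 5225023032) (nat_lit 380) (nat_lit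 3122864431) (nat_lit 101) (nat_lit 5) (nat_lit 105) (nat_lit 5) (nat_lit 106) (nat_lit 5) (nat_lit 474) (nat_lit 360) (nat_lit 306)) (XT.lf (nat_lit 0) (nat_lit 717107068) (nat_lit 380) (nat_lit 391963712) (nat_lit 76) (nat_lit 10662264339) (nat_lit 100) (nat_lit 5) (nat_lit 105) (nat_lit 5) (nat_lit 101) (nat_lit 5) (nat_lit 475) (nat_lit 360) (nat_lit 305))))))))
noncomputable def xc44 : XT := (XT.nd (nat_lit 1716) (nat_lit 1216) (nat_lit 0) (XT.nd (nat_lit 858) (nat_lit 1672) (nat_lit 0) (XT.nd (nat_lit 390) (nat_lit 1140) (nat_lit 0) (XT.nd (nat_lit 156) (nat_lit 608) (nat_lit 0) (XT.nd (nat_lit 78) (nat_lit 228) (nat_lit 0) (XT.lf (nat_lit 0) (nat_lit 4623318922) (nat_lit 380) (nat_lit 4187668286) (nat_lit 76) (nat_lit 3095758279) (nat_lit 96) (nat_lit 5) (nat_lit 101) (nat_lit 5) (nat_lit 97) (nat_lit 5) (nat_lit 476) (nat_lit 360) (nat_lit 304)) (XT.lf (nat_lit 0) (nat_lit 3932797293) (nat_lit 228) (nat_lit 4671182273)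 (nat_lit 304) (nat_lit 3440963207) (nat_lit 93) (nat_lit 5) (nat_lit 96) (nat_lit 5) (nat_lit 97) (nat_lit 5) (nat_lit 477) (nat_lit 360) (nat_lit 303))) (XT.nd (nat_lit 78) (nat_lit 228) (nat_lit 0) (XT.lf (nat_lit 0) (nat_lit 19699219) (nat_lit 304) (nat_lit 441681595) (nat_lit 380) (nat_lit 11724679973) (nat_lit 88) (nat_lit 5) (nat_lit 92) (nat_lit 5) (nat_lit 93) (nat_lit 5) (nat_lit 478) (nat_lit 360) (nat_lit 302)) (XT.nd (nat_lit 78) (nat_lit 228) (nat_lit 0) (XT.lf (nat_lit 0) (nat_lit 4436757637) (nat_lit 380) (nat_lit 4017615519) (nat_lit 76) (nat_lit 3874356804) (nat_lit 88) (nat_lit 5) (nat_lit 93) (nat_lit 5) (nat_lit 89) (nat_lit 5) (nat_lit 479) (nat_lit 360) (nat_lit 301)) (XT.lf (nat_lit 0) (nat_lit 4284077065) (nat_lit 228) (nat_lit 4200146048) (nat_lit 304) (nat_lit 3990182584) (nat_lit 85) (nat_lit 5) (nat_lit 88) (nat_lit 5) (nat_lit 89) (nat_lit 5) (nat_lit 480) (nat_lit 360) (nat_lit 300))))) (XT.nd (nat_lit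 234) (nat_lit 532) (nat_lit 0) (XT.nd (nat_lit 78) (nat_lit 304) (nat_lit 0) (XT.lf (nat_lit 0) (nat_lit 120838485) (nat_lit 304) (nat_lit 12482644727) (nat_lit 380) (nat_lit 19699543) (nat_lit 81) (nat_lit 5) (nat_lit 85) (nat_lit 5) (nat_lit 86) (nat_lit 5) (nat_lit 481) (nat_lit 360) (nat_lit 299)) (XT.nd (nat_lit 78) (nat_lit 228) (nat_lit 0) (XT.lf (nat_lit 0) (nat_lit 4022577198) (nat_lit 380) (nat_lit 4182493774) (nat_lit 76) (nat_lit 4568440760) (nat_lit 80) (nat_lit 5) (nat_lit 85) (nat_lit 5) (nat_lit 81) (nat_lit 5) (nat_lit 482) (nat_lit 360) (nat_lit 298)) (XT.lf (nat_lit 0) (nat_lit 4297671885) (nat_lit 228) (nat_lit 3838510348) (nat_lit 304) (nat_lit 4790851961) (nat_lit 77) (nat_lit 5) (nat_lit 80) (nat_lit 5) (nat_lit 81) (nat_lit 5) (nat_lit 483) (nat_lit 360) (nat_lit 297)))) (XT.nd (nat_lit 78) (nat_lit 532) (nat_lit 0) (XT.lf (nat_lit 0) (nat_lit 12327314219) (nat_lit 304) (nat_lit 145595748) (nat_lit 76)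 (nat_lit 610816392) (nat_lit 77) (nat_lit 5) (nat_lit 81) (nat_lit 5) (nat_lit 78) (nat_lit 5) (nat_lit 484) (nat_lit 360) (nat_lit 296)) (XT.nd (nat_lit 78) (nat_lit 228) (nat_lit 0) (XT.lf (nat_lit 0) (nat_lit 3359512306) (nat_lit 304) (nat_lit 4731688292) (nat_lit 76) (nat_lit 5151022892) (nat_lit 73) (nat_lit 5) (nat_lit 77) (nat_lit 5) (nat_lit 74) (nat_lit 5) (nat_lit 485) (nat_lit 360) (nat_lit 295)) (XT.lf (nat_lit 0) (nat_lit 3922984958) (nat_lit 228) (nat_lit 3614911439) (nat_lit 304) (nat_lit 5866092880) (nat_lit 70) (nat_lit 5) (nat_lit 73) (nat_lit 5) (nat_lit 74) (nat_lit 5) (nat_lit 486) (nat_lit 360) (nat_lit 294)))))) (XT.nd (nat_lit 390) (nat_lit 836) (nat_lit 0) (XT.nd (nat_lit 156) (nat_lit 532) (nat_lit 0) (XT.nd (nat_lit 78) (nat_lit 304) (nat_lit 0) (XT.lf (nat_lit 0) (nat_lit 11801941747) (nat_lit 304) (nat_lit 821345129) (nat_lit 76) (nat_lit 945665653) (nat_lit 70) (nat_lit 5) (nat_lit 74) (nat_lit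 5) (nat_lit 71) (nat_lit 5) (nat_lit 487) (nat_lit 360) (nat_lit 293)) (XT.lf (nat_lit 0) (nat_lit 2423415190) (nat_lit 304) (nat_lit 5719721357) (nat_lit 76) (nat_lit 5592948431) (nat_lit 66) (nat_lit 5) (nat_lit 70) (nat_lit 5) (nat_lit 67) (nat_lit 5) (nat_lit 488) (nat_lit 360) (nat_lit 292))) (XT.nd (nat_lit 78) (nat_lit 304) (nat_lit 0) (XT.lf (nat_lit 0) (nat_lit 3104116150) (nat_lit 228) (nat_lit 3560329693) (nat_lit 304) (nat_lit 7242075295) (nat_lit 63) (nat_lit 5) (nat_lit 66) (nat_lit 5) (nat_lit 67) (nat_lit 5) (nat_lit 489) (nat_lit 360) (nat_lit 291)) (XT.nd (nat_lit 78) (nat_lit 304) (nat_lit 0) (XT.lf (nat_lit 0) (nat_lit 11001039331) (nat_lit 304) (nat_lit 1965633640) (nat_lit 76) (nat_lit 1113481918) (nat_lit 63) (nat_lit 5) (nat_lit 67) (nat_lit 5) (nat_lit 64) (nat_lit 5) (nat_lit 490) (nat_lit 360) (nat_lit 290)) (XT.lf (nat_lit 0) (nat_lit 1186985845) (nat_lit 304) (nat_lit 7206842909) (nat_lit 76) (nat_lit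 5862580795) (nat_lit 59) (nat_lit 5) (nat_lit 63) (nat_lit 5) (nat_lit 60) (nat_lit 5) (nat_lit 491) (nat_lit 360) (nat_lit 289))))) (XT.nd (nat_lit 234) (nat_lit 456) (nat_lit 0) (XT.nd (nat_lit 78) (nat_lit 228) (nat_lit 0) (XT.lf (nat_lit 0) (nat_lit 1779252782) (nat_lit 152) (nat_lit 3708419328) (nat_lit 228) (nat_lit 8948303789) (nat_lit 57) (nat_lit 5) (nat_lit 59) (nat_lit 5) (nat_lit 60) (nat_lit 5) (nat_lit 492) (nat_lit 360) (nat_lit 288)) (XT.nd (nat_lit 78) (nat_lit 228) (nat_lit 0) (XT.lf (nat_lit 0) (nat_lit 9895758716) (nat_lit 228) (nat_lit 3642203575) (nat_lit 76) (nat_lit 1080746986) (nat_lit 57) (nat_lit 5) (nat_lit 60) (nat_lit 5) (nat_lit 58) (nat_lit 5) (nat_lit 493) (nat_lit 360) (nat_lit 287)) (XT.lf (nat_lit 0) (nat_lit 5542377437) (nat_lit 228) (nat_lit 8876597931) (nat_lit 304) (nat_lit 385585951) (nat_lit 54) (nat_lit 5) (nat_lit 57) (nat_lit 5) (nat_lit 58) (nat_lit 5) (nat_lit 494) (nat_lit 360)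 (nat_lit 286)))) (XT.nd (nat_lit 78) (nat_lit 380) (nat_lit 0) (XT.lf (nat_lit 0) (nat_lit 3976645566) (nat_lit 304) (nat_lit 118426983) (nat_lit 76) (nat_lit 10898714959) (nat_lit 53) (nat_lit 5) (nat_lit 57) (nat_lit 5) (nat_lit 54) (nat_lit 5) (nat_lit 495) (nat_lit 360) (nat_lit 285)) (XT.nd (nat_lit 78) (nat_lit 228) (nat_lit 0) (XT.lf (nat_lit 0) (nat_lit 8453624821) (nat_lit 228) (nat_lit 5921588266) (nat_lit 76) (nat_lit 810884006) (nat_lit 51) (nat_lit 5) (nat_lit 54) (nat_lit 5) (nat_lit 52) (nat_lit 5) (nat_lit 496) (nat_lit 360) (nat_lit 284)) (XT.lf (nat_lit 0) (nat_lit 3414733187) (nat_lit 228) (nat_lit 9622757689) (nat_lit 304) (nat_lit 2344418160) (nat_lit 48) (nat_lit 5) (nat_lit 51) (nat_lit 5) (nat_lit 52) (nat_lit 5) (nat_lit 497) (nat_lit 360) (nat_lit 283))))))) (XT.nd (nat_lit 53196) (nat_lit 0) (nat_lit 21964) (XT.nd (nat_lit 390) (nat_lit 532) (nat_lit 0) (XT.nd (nat_lit 156) (nat_lit 456) (nat_lit 0)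 (XT.nd (nat_lit 78) (nat_lit 152) (nat_lit 0) (XT.lf (nat_lit 0) (nat_lit 2110754115) (nat_lit 304) (nat_lit 2634352502) (nat_lit 76) (nat_lit 10836110603) (nat_lit 47) (nat_lit 5) (nat_lit 51) (nat_lit 5) (nat_lit 48) (nat_lit 5) (nat_lit 498) (nat_lit 360) (nat_lit 282)) (XT.lf (nat_lit 0) (nat_lit 6638179088) (nat_lit 228) (nat_lit 8881869833) (nat_lit 76) (nat_lit 263864822) (nat_lit 45) (nat_lit 5) (nat_lit 48) (nat_lit 5) (nat_lit 46) (nat_lit 5) (nat_lit 499) (nat_lit 360) (nat_lit 281))) (XT.nd (nat_lit 78) (nat_lit 228) (nat_lit 0) (XT.lf (nat_lit 0) (nat_lit 594378201) (nat_lit 228) (nat_lit 10682912627) (nat_lit 304) (nat_lit 4712953476) (nat_lit 42) (nat_lit 5) (nat_lit 45) (nat_lit 5) (nat_lit 46) (nat_lit 5) (nat_lit 500) (nat_lit 360) (nat_lit 280)) (XT.nd (nat_lit 78) (nat_lit 228) (nat_lit 0) (XT.lf (nat_lit 0) (nat_lit 10324476103) (nat_lit 228) (nat_lit 5712632611) (nat_lit 304) (nat_lit 163037099) (nat_lit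 42) (nat_lit 5) (nat_lit 45) (nat_lit 5) (nat_lit 46) (nat_lit 5) (nat_lit 501) (nat_lit 360) (nat_lit 279)) (XT.lf (nat_lit 0) (nat_lit 3800309047) (nat_lit 152) (nat_lit 612249144) (nat_lit 228) (nat_lit 12001240225) (nat_lit 39) (nat_lit 5) (nat_lit 41) (nat_lit 5) (nat_lit 42) (nat_lit 5) (nat_lit 502) (nat_lit 360) (nat_lit 278))))) (XT.nd (nat_lit 234) (nat_lit 304) (nat_lit 0) (XT.nd (nat_lit 78) (nat_lit 228) (nat_lit 0) (XT.lf (nat_lit 0) (nat_lit 9115811049) (nat_lit 228) (nat_lit 2968117403) (nat_lit 76) (nat_lit 4547010143) (nat_lit 39) (nat_lit 5) (nat_lit 42) (nat_lit 5) (nat_lit 40) (nat_lit 5) (nat_lit 503) (nat_lit 360) (nat_lit 277)) (XT.nd (nat_lit 78) (nat_lit 76) (nat_lit 0) (XT.lf (nat_lit 0) (nat_lit 6902226950) (nat_lit 152) (nat_lit 7029216054) (nat_lit 228) (nat_lit 2920614893) (nat_lit 37) (nat_lit 5) (nat_lit 39) (nat_lit 5) (nat_lit 40) (nat_lit 5) (nat_lit 504) (nat_lit 360) (nat_lit 276)) (XT.lf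 (nat_lit 0) (nat_lit 1732169476) (nat_lit 228) (nat_lit 133040403) (nat_lit 76) (nat_lit 15212372112) (nat_lit 36) (nat_lit 5) (nat_lit 39) (nat_lit 5) (nat_lit 37) (nat_lit 5) (nat_lit 505) (nat_lit 360) (nat_lit 275)))) (XT.nd (nat_lit 78) (nat_lit 152) (nat_lit 0) (XT.lf (nat_lit 0) (nat_lit 6496041433) (nat_lit 228) (nat_lit 7391339389) (nat_lit 76) (nat_lit 3418709311) (nat_lit 34) (nat_lit 5) (nat_lit 37) (nat_lit 5) (nat_lit 35) (nat_lit 5) (nat_lit 506) (nat_lit 360) (nat_lit 274)) (XT.nd (nat_lit 52416) (nat_lit 0) (nat_lit 30324) (XT.lf (nat_lit 0) (nat_lit 2594337930) (nat_lit 152) (nat_lit 8761127353) (nat_lit 228) (nat_lit 6183700068) (nat_lit 32) (nat_lit 5) (nat_lit 34) (nat_lit 5) (nat_lit 35) (nat_lit 5) (nat_lit 507) (nat_lit 360) (nat_lit 273)) (XT.lf (nat_lit 0) (nat_lit 1128769718) (nat_lit 1748) (nat_lit 1222881556) (nat_lit 1748) (nat_lit 1222881556) (nat_lit 431) (nat_lit 4) (nat_lit 454) (nat_lit 5)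 (nat_lit 454) (nat_lit 4) (nat_lit 418) (nat_lit 361) (nat_lit 361)))))) (XT.nd (nat_lit 468) (nat_lit 4180) (nat_lit 0) (XT.nd (nat_lit 234) (nat_lit 1824) (nat_lit 0) (XT.nd (nat_lit 78) (nat_lit 988) (nat_lit 0) (XT.lf (nat_lit 0) (nat_lit 297870397) (nat_lit 1292) (nat_lit 689392903) (nat_lit 1368) (nat_lit 6200324470) (nat_lit 413) (nat_lit 5) (nat_lit 430) (nat_lit 5) (nat_lit 431) (nat_lit 4) (nat_lit 419) (nat_lit 361) (nat_lit 360)) (XT.nd (nat_lit 78) (nat_lit 988) (nat_lit 0) (XT.lf (nat_lit 0) (nat_lit 4428804753) (nat_lit 1368) (nat_lit 1663186624) (nat_lit 0) (nat_lit 1135137922) (nat_lit 413) (nat_lit 5) (nat_lit 431) (nat_lit 4) (nat_lit 413) (nat_lit 4) (nat_lit 420) (nat_lit 361) (nat_lit 359)) (XT.lf (nat_lit 0) (nat_lit 624540711) (nat_lit 988) (nat_lit 3630651587) (nat_lit 76) (nat_lit 3012972861) (nat_lit 400) (nat_lit 5) (nat_lit 413) (nat_lit 5) (nat_lit 401) (nat_lit 4) (nat_lit 421) (nat_lit 361) (nat_lit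 358)))) (XT.nd (nat_lit 78) (nat_lit 988) (nat_lit 0) (XT.lf (nat_lit 0) (nat_lit 1690733910) (nat_lit 836) (nat_lit 2344003948) (nat_lit 912) (nat_lit 3275810024) (nat_lit 389) (nat_lit 5) (nat_lit 400) (nat_lit 5) (nat_lit 401) (nat_lit 4) (nat_lit 422) (nat_lit 361) (nat_lit 357)) (XT.nd (nat_lit 78) (nat_lit 912) (nat_lit 0) (XT.lf (nat_lit 0) (nat_lit 116281427) (nat_lit 912) (nat_lit 256967602) (nat_lit 76) (nat_lit 6981350396) (nat_lit 388) (nat_lit 5) (nat_lit 400) (nat_lit 5) (nat_lit 389) (nat_lit 5) (nat_lit 423) (nat_lit 361) (nat_lit 356)) (XT.lf (nat_lit 0) (nat_lit 3512828957) (nat_lit 988) (nat_lit 2220041977) (nat_lit 76) (nat_lit 1666640098) (nat_lit 376) (nat_lit 5) (nat_lit 389) (nat_lit 5) (nat_lit 377) (nat_lit 4) (nat_lit 424) (nat_lit 361) (nat_lit 355))))) (XT.nd (nat_lit 234) (nat_lit 2432) (nat_lit 0) (XT.nd (nat_lit 78) (nat_lit 912) (nat_lit 0) (XT.lf (nat_lit 0) (nat_lit 3253347447) (nat_lit 836)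 (nat_lit 3685843760) (nat_lit 912) (nat_lit 506913207) (nat_lit 365) (nat_lit 5) (nat_lit 376) (nat_lit 5) (nat_lit 377) (nat_lit 4) (nat_lit 425) (nat_lit 361) (nat_lit 354)) (XT.nd (nat_lit 78) (nat_lit 0) (nat_lit 0) (XT.lf (nat_lit 0) (nat_lit 1300766678) (nat_lit 836) (nat_lit 1561474041) (nat_lit 912) (nat_lit 4631820425) (nat_lit 353) (nat_lit 5) (nat_lit 364) (nat_lit 5) (nat_lit 365) (nat_lit 5) (nat_lit 426) (nat_lit 361) (nat_lit 353)) (XT.lf (nat_lit 0) (nat_lit 6261899093) (nat_lit 912) (nat_lit 659720418) (nat_lit 76) (nat_lit 621912301) (nat_lit 353) (nat_lit 5) (nat_lit 365) (nat_lit 5) (nat_lit 354) (nat_lit 4) (nat_lit 427) (nat_lit 361) (nat_lit 352)))) (XT.nd (nat_lit 78) (nat_lit 1596) (nat_lit 0) (XT.lf (nat_lit 0) (nat_lit 2088890128) (nat_lit 836) (nat_lit 2638197000) (nat_lit 76) (nat_lit 2867019879) (nat_lit 342) (nat_lit 5) (nat_lit 353) (nat_lit 5) (nat_lit 343) (nat_lit 5) (nat_lit 428) (nat_lit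 361) (nat_lit 351)) (XT.nd (nat_lit 78) (nat_lit 836) (nat_lit 0) (XT.lf (nat_lit 0) (nat_lit 3008320158) (nat_lit 760) (nat_lit 2464551201) (nat_lit 836) (nat_lit 2173407577) (nat_lit 332) (nat_lit 5) (nat_lit 342) (nat_lit 5) (nat_lit 343) (nat_lit 5) (nat_lit 429) (nat_lit 361) (nat_lit 350)) (XT.lf (nat_lit 0) (nat_lit 1039784277) (nat_lit 760) (nat_lit 133289362) (nat_lit 836) (nat_lit 6526997652) (nat_lit 321) (nat_lit 5) (nat_lit 331) (nat_lit 5) (nat_lit 332) (nat_lit 5) (nat_lit 430) (nat_lit 361) (nat_lit 349))))))))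
noncomputable def xc45 : XT := (XT.nd (nat_lit 1716) (nat_lit 6612) (nat_lit 0) (XT.nd (nat_lit 858) (nat_lit 4484) (nat_lit 0) (XT.nd (nat_lit 390) (nat_lit 3344) (nat_lit 0) (XT.nd (nat_lit 156) (nat_lit 1444) (nat_lit 0) (XT.nd (nat_lit 78) (nat_lit 836) (nat_lit 0) (XT.lf (nat_lit 0) (nat_lit 4543511189) (nat_lit 836) (nat_lit 960395693) (nat_lit 76) (nat_lit 2251040469) (nat_lit 321) (nat_lit 5) (nat_lit 332) (nat_lit 5) (nat_lit 322) (nat_lit 5) (nat_lit 431) (nat_lit 361) (nat_lit 348)) (XT.lf (nat_lit 0) (nat_lit 141732134) (nat_lit 836) (nat_lit 2965687446) (nat_lit 76) (nat_lit 4704025666) (nat_lit 310) (nat_lit 5) (nat_lit 321) (nat_lit 5) (nat_lit 311) (nat_lit 5) (nat_lit 432) (nat_lit 361) (nat_lit 347))) (XT.nd (nat_lit 78) (nat_lit 760) (nat_lit 0) (XT.lf (nat_lit 0) (nat_lit 2858485501) (nat_lit 684) (nat_lit 627236372) (nat_lit 760) (nat_lit 4383608221) (nat_lit 301) (nat_lit 5) (nat_lit 310) (nat_lit 5) (nat_lit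 311) (nat_lit 5) (nat_lit 433) (nat_lit 361) (nat_lit 346)) (XT.nd (nat_lit 78) (nat_lit 76) (nat_lit 0) (XT.lf (nat_lit 0) (nat_lit 839457189) (nat_lit 684) (nat_lit 6037260093) (nat_lit 760) (nat_lit 1052069241) (nat_lit 292) (nat_lit 5) (nat_lit 301) (nat_lit 5) (nat_lit 302) (nat_lit 5) (nat_lit 434) (nat_lit 361) (nat_lit 345)) (XT.lf (nat_lit 0) (nat_lit 2295906475) (nat_lit 760) (nat_lit 1204431789) (nat_lit 76) (nat_lit 4489193422) (nat_lit 291) (nat_lit 5) (nat_lit 301) (nat_lit 5) (nat_lit 292) (nat_lit 5) (nat_lit 435) (nat_lit 361) (nat_lit 344))))) (XT.nd (nat_lit 234) (nat_lit 1292) (nat_lit 0) (XT.nd (nat_lit 78) (nat_lit 1368) (nat_lit 0) (XT.lf (nat_lit 0) (nat_lit 4784582774) (nat_lit 684) (nat_lit 886949102) (nat_lit 760) (nat_lit 2380340702) (nat_lit 282) (nat_lit 5) (nat_lit 291) (nat_lit 5) (nat_lit 292) (nat_lit 5) (nat_lit 436) (nat_lit 361) (nat_lit 343)) (XT.nd (nat_lit 78) (nat_lit 608) (nat_lit 0)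 (XT.lf (nat_lit 0) (nat_lit 967771324) (nat_lit 760) (nat_lit 5373300438) (nat_lit 76) (nat_lit 1774640299) (nat_lit 272) (nat_lit 5) (nat_lit 282) (nat_lit 5) (nat_lit 273) (nat_lit 5) (nat_lit 437) (nat_lit 361) (nat_lit 342)) (XT.lf (nat_lit 0) (nat_lit 652742857) (nat_lit 608) (nat_lit 3674974103) (nat_lit 684) (nat_lit 3853276373) (nat_lit 264) (nat_lit 5) (nat_lit 272) (nat_lit 5) (nat_lit 273) (nat_lit 5) (nat_lit 438) (nat_lit 361) (nat_lit 341)))) (XT.nd (nat_lit 78) (nat_lit 1292) (nat_lit 0) (XT.lf (nat_lit 0) (nat_lit 6802364307) (nat_lit 608) (nat_lit 933721460) (nat_lit 684) (nat_lit 511884258) (nat_lit 264) (nat_lit 5) (nat_lit 272) (nat_lit 5) (nat_lit 273) (nat_lit 5) (nat_lit 439) (nat_lit 361) (nat_lit 340)) (XT.nd (nat_lit 78) (nat_lit 608) (nat_lit 0) (XT.lf (nat_lit 0) (nat_lit 2847272421) (nat_lit 684) (nat_lit 3595899395) (nat_lit 76) (nat_lit 1872973608) (nat_lit 255) (nat_lit 5) (nat_lit 264) (nat_lit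 5) (nat_lit 256) (nat_lit 5) (nat_lit 440) (nat_lit 361) (nat_lit 339)) (XT.lf (nat_lit 0) (nat_lit 2598284916) (nat_lit 608) (nat_lit 3647686730) (nat_lit 684) (nat_lit 2140074196) (nat_lit 247) (nat_lit 5) (nat_lit 255) (nat_lit 5) (nat_lit 256) (nat_lit 5) (nat_lit 441) (nat_lit 361) (nat_lit 338)))))) (XT.nd (nat_lit 390) (nat_lit 2128) (nat_lit 0) (XT.nd (nat_lit 156) (nat_lit 1672) (nat_lit 0) (XT.nd (nat_lit 78) (nat_lit 0) (nat_lit 0) (XT.lf (nat_lit 0) (nat_lit 435700672) (nat_lit 608) (nat_lit 776881932) (nat_lit 684) (nat_lit 7245136683) (nat_lit 238) (nat_lit 5) (nat_lit 246) (nat_lit 5) (nat_lit 247) (nat_lit 5) (nat_lit 442) (nat_lit 361) (nat_lit 337)) (XT.lf (nat_lit 0) (nat_lit 4603841275) (nat_lit 684) (nat_lit 1766798984) (nat_lit 76) (nat_lit 2159911617) (nat_lit 238) (nat_lit 5) (nat_lit 247) (nat_lit 5) (nat_lit 239) (nat_lit 5) (nat_lit 443) (nat_lit 361) (nat_lit 336))) (XT.nd (nat_lit 78) (nat_lit 1140)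 (nat_lit 0) (XT.lf (nat_lit 0) (nat_lit 4599648601) (nat_lit 532) (nat_lit 3446435880) (nat_lit 608) (nat_lit 559105880) (nat_lit 231) (nat_lit 5) (nat_lit 238) (nat_lit 5) (nat_lit 239) (nat_lit 5) (nat_lit 444) (nat_lit 361) (nat_lit 335)) (XT.nd (nat_lit 78) (nat_lit 532) (nat_lit 0) (XT.lf (nat_lit 0) (nat_lit 2379445978) (nat_lit 532) (nat_lit 434441370) (nat_lit 608) (nat_lit 5867557702) (nat_lit 223) (nat_lit 5) (nat_lit 230) (nat_lit 5) (nat_lit 231) (nat_lit 5) (nat_lit 445) (nat_lit 361) (nat_lit 334)) (XT.lf (nat_lit 0) (nat_lit 98261976) (nat_lit 532) (nat_lit 6142240652) (nat_lit 608) (nat_lit 2518787032) (nat_lit 216) (nat_lit 5) (nat_lit 223) (nat_lit 5) (nat_lit 224) (nat_lit 5) (nat_lit 446) (nat_lit 361) (nat_lit 333))))) (XT.nd (nat_lit 234) (nat_lit 1064) (nat_lit 0) (XT.nd (nat_lit 78) (nat_lit 988) (nat_lit 0) (XT.lf (nat_lit 0) (nat_lit 879669152) (nat_lit 608) (nat_lit 2204864526) (nat_lit 76) (nat_lit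 5754162792) (nat_lit 215) (nat_lit 5) (nat_lit 223) (nat_lit 5) (nat_lit 216) (nat_lit 5) (nat_lit 447) (nat_lit 361) (nat_lit 332)) (XT.nd (nat_lit 78) (nat_lit 456) (nat_lit 0) (XT.lf (nat_lit 0) (nat_lit 4291082687) (nat_lit 608) (nat_lit 4568000948) (nat_lit 76) (nat_lit 60711540) (nat_lit 208) (nat_lit 5) (nat_lit 216) (nat_lit 5) (nat_lit 209) (nat_lit 5) (nat_lit 448) (nat_lit 361) (nat_lit 331)) (XT.lf (nat_lit 0) (nat_lit 2003964791) (nat_lit 456) (nat_lit 5765534055) (nat_lit 532) (nat_lit 1233052344) (nat_lit 202) (nat_lit 5) (nat_lit 208) (nat_lit 5) (nat_lit 209) (nat_lit 5) (nat_lit 449) (nat_lit 361) (nat_lit 330)))) (XT.nd (nat_lit 78) (nat_lit 988) (nat_lit 0) (XT.lf (nat_lit 0) (nat_lit 2182757336) (nat_lit 532) (nat_lit 401002126) (nat_lit 76) (nat_lit 6503293822) (nat_lit 201) (nat_lit 5) (nat_lit 208) (nat_lit 5) (nat_lit 202) (nat_lit 5) (nat_lit 450) (nat_lit 361) (nat_lit 329)) (XT.nd (nat_lit 78) (nat_lit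 456) (nat_lit 0) (XT.lf (nat_lit 0) (nat_lit 5647619777) (nat_lit 608) (nat_lit 2842173556) (nat_lit 76) (nat_lit 683354334) (nat_lit 194) (nat_lit 5) (nat_lit 202) (nat_lit 5) (nat_lit 195) (nat_lit 5) (nat_lit 451) (nat_lit 361) (nat_lit 328)) (XT.lf (nat_lit 0) (nat_lit 3907945894) (nat_lit 456) (nat_lit 5271011598) (nat_lit 532) (nat_lit 82072882) (nat_lit 188) (nat_lit 5) (nat_lit 194) (nat_lit 5) (nat_lit 195) (nat_lit 5) (nat_lit 452) (nat_lit 361) (nat_lit 327))))))) (XT.nd (nat_lit 858) (nat_lit 2964) (nat_lit 0) (XT.nd (nat_lit 390) (nat_lit 1748) (nat_lit 0) (XT.nd (nat_lit 156) (nat_lit 1368) (nat_lit 0) (XT.nd (nat_lit 78) (nat_lit 0) (nat_lit 0) (XT.lf (nat_lit 0) (nat_lit 1408894791) (nat_lit 456) (nat_lit 1956876282) (nat_lit 532) (nat_lit 5984853678) (nat_lit 181) (nat_lit 5) (nat_lit 187) (nat_lit 5) (nat_lit 188) (nat_lit 5) (nat_lit 453) (nat_lit 361) (nat_lit 326)) (XT.lf (nat_lit 0) (nat_lit 6879400265)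 (nat_lit 532) (nat_lit 1141501940) (nat_lit 76) (nat_lit 1421148835) (nat_lit 181) (nat_lit 5) (nat_lit 188) (nat_lit 5) (nat_lit 182) (nat_lit 5) (nat_lit 454) (nat_lit 361) (nat_lit 325))) (XT.nd (nat_lit 78) (nat_lit 836) (nat_lit 0) (XT.lf (nat_lit 0) (nat_lit 919850742) (nat_lit 532) (nat_lit 3751087136) (nat_lit 76) (nat_lit 4864176020) (nat_lit 174) (nat_lit 5) (nat_lit 181) (nat_lit 5) (nat_lit 175) (nat_lit 5) (nat_lit 455) (nat_lit 361) (nat_lit 324)) (XT.nd (nat_lit 78) (nat_lit 380) (nat_lit 0) (XT.lf (nat_lit 0) (nat_lit 3190788043) (nat_lit 456) (nat_lit 1228977840) (nat_lit 532) (nat_lit 5210300675) (nat_lit 168) (nat_lit 5) (nat_lit 174) (nat_lit 5) (nat_lit 175) (nat_lit 5) (nat_lit 456) (nat_lit 361) (nat_lit 323)) (XT.lf (nat_lit 0) (nat_lit 519732063) (nat_lit 380) (nat_lit 7467427472) (nat_lit 456) (nat_lit 1739817838) (nat_lit 163) (nat_lit 5) (nat_lit 168) (nat_lit 5) (nat_lit 169) (nat_lit 5) (nat_lit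 457) (nat_lit 361) (nat_lit 322))))) (XT.nd (nat_lit 234) (nat_lit 836) (nat_lit 0) (XT.nd (nat_lit 78) (nat_lit 836) (nat_lit 0) (XT.lf (nat_lit 0) (nat_lit 1782208359) (nat_lit 456) (nat_lit 2208071637) (nat_lit 76) (nat_lit 5835206186) (nat_lit 162) (nat_lit 5) (nat_lit 168) (nat_lit 5) (nat_lit 163) (nat_lit 5) (nat_lit 458) (nat_lit 361) (nat_lit 321)) (XT.nd (nat_lit 78) (nat_lit 380) (nat_lit 0) (XT.lf (nat_lit 0) (nat_lit 4917184618) (nat_lit 456) (nat_lit 421147551) (nat_lit 532) (nat_lit 4587672131) (nat_lit 156) (nat_lit 5) (nat_lit 162) (nat_lit 5) (nat_lit 163) (nat_lit 5) (nat_lit 459) (nat_lit 361) (nat_lit 320)) (XT.lf (nat_lit 0) (nat_lit 2126341953) (nat_lit 380) (nat_lit 6844174538) (nat_lit 456) (nat_lit 1057925568) (nat_lit 151) (nat_lit 5) (nat_lit 156) (nat_lit 5) (nat_lit 157) (nat_lit 5) (nat_lit 460) (nat_lit 361) (nat_lit 319)))) (XT.nd (nat_lit 78) (nat_lit 760) (nat_lit 0) (XT.lf (nat_lit 0) (nat_lit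 2501151906) (nat_lit 456) (nat_lit 747015587) (nat_lit 76) (nat_lit 6884597066) (nat_lit 150) (nat_lit 5) (nat_lit 156) (nat_lit 5) (nat_lit 151) (nat_lit 5) (nat_lit 461) (nat_lit 361) (nat_lit 318)) (XT.nd (nat_lit 78) (nat_lit 380) (nat_lit 0) (XT.lf (nat_lit 0) (nat_lit 6119116929) (nat_lit 456) (nat_lit 3677738040) (nat_lit 76) (nat_lit 442148825) (nat_lit 145) (nat_lit 5) (nat_lit 151) (nat_lit 5) (nat_lit 146) (nat_lit 5) (nat_lit 462) (nat_lit 361) (nat_lit 317)) (XT.lf (nat_lit 0) (nat_lit 3638430049) (nat_lit 380) (nat_lit 6177806890) (nat_lit 456) (nat_lit 531002389) (nat_lit 140) (nat_lit 5) (nat_lit 145) (nat_lit 5) (nat_lit 146) (nat_lit 5) (nat_lit 463) (nat_lit 361) (nat_lit 316)))))) (XT.nd (nat_lit 468) (nat_lit 1368) (nat_lit 0) (XT.nd (nat_lit 234) (nat_lit 836) (nat_lit 0) (XT.nd (nat_lit 78) (nat_lit 304) (nat_lit 0) (XT.lf (nat_lit 0) (nat_lit 614746265) (nat_lit 380) (nat_lit 2459448519) (nat_lit 456)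 (nat_lit 7383333912) (nat_lit 134) (nat_lit 5) (nat_lit 139) (nat_lit 5) (nat_lit 140) (nat_lit 5) (nat_lit 464) (nat_lit 361) (nat_lit 315)) (XT.nd (nat_lit 78) (nat_lit 304) (nat_lit 0) (XT.lf (nat_lit 0) (nat_lit 6755382317) (nat_lit 456) (nat_lit 2472619162) (nat_lit 76) (nat_lit 1341739242) (nat_lit 134) (nat_lit 5) (nat_lit 140) (nat_lit 5) (nat_lit 135) (nat_lit 5) (nat_lit 465) (nat_lit 361) (nat_lit 314)) (XT.lf (nat_lit 0) (nat_lit 5029189867) (nat_lit 304) (nat_lit 5487802727) (nat_lit 380) (nat_lit 167075275) (nat_lit 130) (nat_lit 5) (nat_lit 134) (nat_lit 5) (nat_lit 135) (nat_lit 5) (nat_lit 466) (nat_lit 361) (nat_lit 313)))) (XT.nd (nat_lit 78) (nat_lit 380) (nat_lit 0) (XT.lf (nat_lit 0) (nat_lit 1849719389) (nat_lit 380) (nat_lit 1643525612) (nat_lit 456) (nat_lit 7307247932) (nat_lit 124) (nat_lit 5) (nat_lit 129) (nat_lit 5) (nat_lit 130) (nat_lit 5) (nat_lit 467) (nat_lit 361) (nat_lit 312)) (XT.nd (nat_lit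 78) (nat_lit 380) (nat_lit 0) (XT.lf (nat_lit 0) (nat_lit 7235751143) (nat_lit 456) (nat_lit 1419389089) (nat_lit 76) (nat_lit 2263866314) (nat_lit 124) (nat_lit 5) (nat_lit 130) (nat_lit 5) (nat_lit 125) (nat_lit 5) (nat_lit 468) (nat_lit 361) (nat_lit 311)) (XT.lf (nat_lit 0) (nat_lit 23744547) (nat_lit 380) (nat_lit 4770404069) (nat_lit 76) (nat_lit 6245532297) (nat_lit 119) (nat_lit 5) (nat_lit 124) (nat_lit 5) (nat_lit 120) (nat_lit 5) (nat_lit 469) (nat_lit 361) (nat_lit 310))))) (XT.nd (nat_lit 234) (nat_lit 608) (nat_lit 0) (XT.nd (nat_lit 78) (nat_lit 380) (nat_lit 0) (XT.lf (nat_lit 0) (nat_lit 2917534809) (nat_lit 380) (nat_lit 825766632) (nat_lit 456) (nat_lit 7419231779) (nat_lit 114) (nat_lit 5) (nat_lit 119) (nat_lit 5) (nat_lit 120) (nat_lit 5) (nat_lit 470) (nat_lit 361) (nat_lit 309)) (XT.nd (nat_lit 78) (nat_lit 380) (nat_lit 0) (XT.lf (nat_lit 0) (nat_lit 7549781252) (nat_lit 456) (nat_lit 549324192) (nat_lit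 76) (nat_lit 3188492467) (nat_lit 114) (nat_lit 5) (nat_lit 120) (nat_lit 5) (nat_lit 115) (nat_lit 5) (nat_lit 471) (nat_lit 361) (nat_lit 308)) (XT.lf (nat_lit 0) (nat_lit 30309763) (nat_lit 380) (nat_lit 4087826040) (nat_lit 76) (nat_lit 7296765419) (nat_lit 109) (nat_lit 5) (nat_lit 114) (nat_lit 5) (nat_lit 110) (nat_lit 5) (nat_lit 472) (nat_lit 361) (nat_lit 307)))) (XT.nd (nat_lit 78) (nat_lit 304) (nat_lit 0) (XT.lf (nat_lit 0) (nat_lit 3784903716) (nat_lit 304) (nat_lit 27465585) (nat_lit 380) (nat_lit 7732120391) (nat_lit 105) (nat_lit 5) (nat_lit 109) (nat_lit 5) (nat_lit 110) (nat_lit 5) (nat_lit 473) (nat_lit 361) (nat_lit 306)) (XT.nd (nat_lit 78) (nat_lit 0) (nat_lit 0) (XT.lf (nat_lit 0) (nat_lit 104710514) (nat_lit 304) (nat_lit 7581065096) (nat_lit 380) (nat_lit 3990585728) (nat_lit 101) (nat_lit 5) (nat_lit 105) (nat_lit 5) (nat_lit 106) (nat_lit 5) (nat_lit 474) (nat_lit 361) (nat_lit 305)) (XT.lf (nat_lit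 0) (nat_lit 8167765330) (nat_lit 304) (nat_lit 3481998757) (nat_lit 380) (nat_lit 160849461) (nat_lit 101) (nat_lit 5) (nat_lit 105) (nat_lit 5) (nat_lit 106) (nat_lit 5) (nat_lit 475) (nat_lit 361) (nat_lit 304))))))))
noncomputable def xc46 : XT := (XT.nd (nat_lit 1716) (nat_lit 1292) (nat_lit 0) (XT.nd (nat_lit 858) (nat_lit 1672) (nat_lit 0) (XT.nd (nat_lit 390) (nat_lit 912) (nat_lit 0) (XT.nd (nat_lit 156) (nat_lit 608) (nat_lit 0) (XT.nd (nat_lit 78) (nat_lit 228) (nat_lit 0) (XT.lf (nat_lit 0) (nat_lit 3691129215) (nat_lit 380) (nat_lit 7536681011) (nat_lit 76) (nat_lit 719364007) (nat_lit 96) (nat_lit 5) (nat_lit 101) (nat_lit 5) (nat_lit 97) (nat_lit 5) (nat_lit 476) (nat_lit 361) (nat_lit 303)) (XT.lf (nat_lit 0) (nat_lit 507675143) (nat_lit 228) (nat_lit 7122849995) (nat_lit 304) (nat_lit 4455674200) (nat_lit 93) (nat_lit 5) (nat_lit 96) (nat_lit 5) (nat_lit 97) (nat_lit 5) (nat_lit 477) (nat_lit 361) (nat_lit 302)))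 (XT.nd (nat_lit 78) (nat_lit 608) (nat_lit 0) (XT.lf (nat_lit 0) (nat_lit 8752494162) (nat_lit 228) (nat_lit 2908703521) (nat_lit 304) (nat_lit 566562486) (nat_lit 93) (nat_lit 5) (nat_lit 96) (nat_lit 5) (nat_lit 97) (nat_lit 5) (nat_lit 478) (nat_lit 361) (nat_lit 301)) (XT.nd (nat_lit 78) (nat_lit 228) (nat_lit 0) (XT.lf (nat_lit 0) (nat_lit 3358321762) (nat_lit 380) (nat_lit 7612405976) (nat_lit 76) (nat_lit 1400936014) (nat_lit 88) (nat_lit 5) (nat_lit 93) (nat_lit 5) (nat_lit 89) (nat_lit 5) (nat_lit 479) (nat_lit 361) (nat_lit 300)) (XT.lf (nat_lit 0) (nat_lit 610388287) (nat_lit 228) (nat_lit 6753026739) (nat_lit 304) (nat_lit 5154774241) (nat_lit 85) (nat_lit 5) (nat_lit 88) (nat_lit 5) (nat_lit 89) (nat_lit 5) (nat_lit 480) (nat_lit 361) (nat_lit 299))))) (XT.nd (nat_lit 234) (nat_lit 304) (nat_lit 0) (XT.nd (nat_lit 78) (nat_lit 608) (nat_lit 0) (XT.lf (nat_lit 0) (nat_lit 9039186011) (nat_lit 228) (nat_lit 2423429948)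 (nat_lit 304) (nat_lit 1204753835) (nat_lit 85) (nat_lit 5) (nat_lit 88) (nat_lit 5) (nat_lit 89) (nat_lit 5) (nat_lit 481) (nat_lit 361) (nat_lit 298)) (XT.nd (nat_lit 78) (nat_lit 228) (nat_lit 0) (XT.lf (nat_lit 0) (nat_lit 2794908306) (nat_lit 380) (nat_lit 8031659945) (nat_lit 76) (nat_lit 1992449737) (nat_lit 80) (nat_lit 5) (nat_lit 85) (nat_lit 5) (nat_lit 81) (nat_lit 5) (nat_lit 482) (nat_lit 361) (nat_lit 297)) (XT.lf (nat_lit 0) (nat_lit 366705712) (nat_lit 228) (nat_lit 6498251289) (nat_lit 304) (nat_lit 6108456730) (nat_lit 77) (nat_lit 5) (nat_lit 80) (nat_lit 5) (nat_lit 81) (nat_lit 5) (nat_lit 483) (nat_lit 361) (nat_lit 296)))) (XT.nd (nat_lit 78) (nat_lit 304) (nat_lit 0) (XT.lf (nat_lit 0) (nat_lit 8981217643) (nat_lit 228) (nat_lit 2052977445) (nat_lit 304) (nat_lit 2096350799) (nat_lit 77) (nat_lit 5) (nat_lit 80) (nat_lit 5) (nat_lit 81) (nat_lit 5) (nat_lit 484) (nat_lit 361) (nat_lit 295)) (XT.nd (nat_lit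 78) (nat_lit 0) (nat_lit 0) (XT.lf (nat_lit 0) (nat_lit 1979385252) (nat_lit 304) (nat_lit 8844138050) (nat_lit 76) (nat_lit 2466850979) (nat_lit 73) (nat_lit 5) (nat_lit 77) (nat_lit 5) (nat_lit 74) (nat_lit 5) (nat_lit 485) (nat_lit 361) (nat_lit 294)) (XT.lf (nat_lit 0) (nat_lit 6114732199) (nat_lit 304) (nat_lit 270686953) (nat_lit 76) (nat_lit 7067583650) (nat_lit 73) (nat_lit 5) (nat_lit 77) (nat_lit 5) (nat_lit 74) (nat_lit 5) (nat_lit 486) (nat_lit 361) (nat_lit 293)))))) (XT.nd (nat_lit 390) (nat_lit 684) (nat_lit 0) (XT.nd (nat_lit 156) (nat_lit 456) (nat_lit 0) (XT.nd (nat_lit 78) (nat_lit 304) (nat_lit 0) (XT.lf (nat_lit 0) (nat_lit 8527108479) (nat_lit 228) (nat_lit 1826252641) (nat_lit 304) (nat_lit 3265115213) (nat_lit 70) (nat_lit 5) (nat_lit 73) (nat_lit 5) (nat_lit 74) (nat_lit 5) (nat_lit 487) (nat_lit 361) (nat_lit 292)) (XT.lf (nat_lit 0) (nat_lit 887363810) (nat_lit 304) (nat_lit 10104690562) (nat_lit 76)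 (nat_lit 2794902716) (nat_lit 66) (nat_lit 5) (nat_lit 70) (nat_lit 5) (nat_lit 67) (nat_lit 5) (nat_lit 488) (nat_lit 361) (nat_lit 291))) (XT.nd (nat_lit 78) (nat_lit 456) (nat_lit 0) (XT.lf (nat_lit 0) (nat_lit 5091123504) (nat_lit 304) (nat_lit 1350862575) (nat_lit 76) (nat_lit 7516154427) (nat_lit 66) (nat_lit 5) (nat_lit 70) (nat_lit 5) (nat_lit 67) (nat_lit 5) (nat_lit 489) (nat_lit 361) (nat_lit 290)) (XT.nd (nat_lit 78) (nat_lit 228) (nat_lit 0) (XT.lf (nat_lit 0) (nat_lit 7619956595) (nat_lit 228) (nat_lit 1774577279) (nat_lit 304) (nat_lit 4737905849) (nat_lit 63) (nat_lit 5) (nat_lit 66) (nat_lit 5) (nat_lit 67) (nat_lit 5) (nat_lit 490) (nat_lit 361) (nat_lit 289)) (XT.lf (nat_lit 0) (nat_lit 2432757134) (nat_lit 228) (nat_lit 11361799747) (nat_lit 304) (nat_lit 515460725) (nat_lit 60) (nat_lit 5) (nat_lit 63) (nat_lit 5) (nat_lit 64) (nat_lit 5) (nat_lit 491) (nat_lit 361) (nat_lit 288))))) (XT.nd (nat_lit 234)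 (nat_lit 228) (nat_lit 0) (XT.nd (nat_lit 78) (nat_lit 380) (nat_lit 0) (XT.lf (nat_lit 0) (nat_lit 3763749560) (nat_lit 304) (nat_lit 2939979586) (nat_lit 76) (nat_lit 7786488171) (nat_lit 59) (nat_lit 5) (nat_lit 63) (nat_lit 5) (nat_lit 60) (nat_lit 5) (nat_lit 492) (nat_lit 361) (nat_lit 287)) (XT.nd (nat_lit 78) (nat_lit 228) (nat_lit 0) (XT.lf (nat_lit 0) (nat_lit 6196818281) (nat_lit 152) (nat_lit 1932022699) (nat_lit 228) (nat_lit 6544971283) (nat_lit 57) (nat_lit 5) (nat_lit 59) (nat_lit 5) (nat_lit 60) (nat_lit 5) (nat_lit 493) (nat_lit 361) (nat_lit 286)) (XT.lf (nat_lit 0) (nat_lit 627345297) (nat_lit 228) (nat_lit 11963961070) (nat_lit 304) (nat_lit 2269574596) (nat_lit 54) (nat_lit 5) (nat_lit 57) (nat_lit 5) (nat_lit 58) (nat_lit 5) (nat_lit 494) (nat_lit 361) (nat_lit 285)))) (XT.nd (nat_lit 78) (nat_lit 152) (nat_lit 0) (XT.lf (nat_lit 0) (nat_lit 2101098369) (nat_lit 304) (nat_lit 5105902248) (nat_lit 76) (nat_lit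 7843678094) (nat_lit 53) (nat_lit 5) (nat_lit 57) (nat_lit 5) (nat_lit 54) (nat_lit 5) (nat_lit 495) (nat_lit 361) (nat_lit 284)) (XT.nd (nat_lit 78) (nat_lit 0) (nat_lit 0) (XT.lf (nat_lit 0) (nat_lit 4188025063) (nat_lit 152) (nat_lit 2335774134) (nat_lit 228) (nat_lit 8720276207) (nat_lit 51) (nat_lit 5) (nat_lit 53) (nat_lit 5) (nat_lit 54) (nat_lit 5) (nat_lit 496) (nat_lit 361) (nat_lit 283)) (XT.lf (nat_lit 0) (nat_lit 11054437496) (nat_lit 228) (nat_lit 1777206219) (nat_lit 76) (nat_lit 2609309695) (nat_lit 51) (nat_lit 5) (nat_lit 54) (nat_lit 5) (nat_lit 52) (nat_lit 5) (nat_lit 497) (nat_lit 361) (nat_lit 282))))))) (XT.nd (nat_lit 53118) (nat_lit 0) (nat_lit 22648) (XT.nd (nat_lit 390) (nat_lit 532) (nat_lit 0) (XT.nd (nat_lit 156) (nat_lit 304) (nat_lit 0) (XT.nd (nat_lit 78) (nat_lit 152) (nat_lit 0) (XT.lf (nat_lit 0) (nat_lit 67803703) (nat_lit 304) (nat_lit 7923739082) (nat_lit 76) (nat_lit 7649538134) (nat_lit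 47) (nat_lit 5) (nat_lit 51) (nat_lit 5) (nat_lit 48) (nat_lit 5) (nat_lit 498) (nat_lit 361) (nat_lit 281)) (XT.lf (nat_lit 0) (nat_lit 1516431399) (nat_lit 152) (nat_lit 3026528389) (nat_lit 228) (nat_lit 11301864454) (nat_lit 45) (nat_lit 5) (nat_lit 47) (nat_lit 5) (nat_lit 48) (nat_lit 5) (nat_lit 499) (nat_lit 361) (nat_lit 280))) (XT.nd (nat_lit 78) (nat_lit 304) (nat_lit 0) (XT.lf (nat_lit 0) (nat_lit 9143060193) (nat_lit 228) (nat_lit 4867683913) (nat_lit 76) (nat_lit 2041192318) (nat_lit 45) (nat_lit 5) (nat_lit 48) (nat_lit 5) (nat_lit 46) (nat_lit 5) (nat_lit 500) (nat_lit 361) (nat_lit 279)) (XT.nd (nat_lit 78) (nat_lit 76) (nat_lit 0) (XT.lf (nat_lit 0) (nat_lit 4770511297) (nat_lit 228) (nat_lit 9084967807) (nat_lit 304) (nat_lit 2407308175) (nat_lit 42) (nat_lit 5) (nat_lit 45) (nat_lit 5) (nat_lit 46) (nat_lit 5) (nat_lit 501) (nat_lit 361) (nat_lit 278)) (XT.lf (nat_lit 0) (nat_lit 2157872589) (nat_lit 304)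 (nat_lit 1878450768) (nat_lit 76) (nat_lit 12441206233) (nat_lit 41) (nat_lit 5) (nat_lit 45) (nat_lit 5) (nat_lit 42) (nat_lit 5) (nat_lit 502) (nat_lit 361) (nat_lit 277))))) (XT.nd (nat_lit 234) (nat_lit 228) (nat_lit 0) (XT.nd (nat_lit 78) (nat_lit 152) (nat_lit 0) (XT.lf (nat_lit 0) (nat_lit 6811328062) (nat_lit 228) (nat_lit 8740438834) (nat_lit 76) (nat_lit 1143900110) (nat_lit 39) (nat_lit 5) (nat_lit 42) (nat_lit 5) (nat_lit 40) (nat_lit 5) (nat_lit 503) (nat_lit 361) (nat_lit 276)) (XT.nd (nat_lit 78) (nat_lit 0) (nat_lit 0) (XT.lf (nat_lit 0) (nat_lit 1026438739) (nat_lit 152) (nat_lit 10547542398) (nat_lit 228) (nat_lit 5343866011) (nat_lit 37) (nat_lit 5) (nat_lit 39) (nat_lit 5) (nat_lit 40) (nat_lit 5) (nat_lit 504) (nat_lit 361) (nat_lit 275)) (XT.lf (nat_lit 0) (nat_lit 11054146100) (nat_lit 152) (nat_lit 5406682134) (nat_lit 228) (nat_lit 683066339) (nat_lit 37) (nat_lit 5) (nat_lit 39) (nat_lit 5) (nat_lit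 40) (nat_lit 5) (nat_lit 505) (nat_lit 361) (nat_lit 274)))) (XT.nd (nat_lit 52338) (nat_lit 0) (nat_lit 31920) (XT.lf (nat_lit 0) (nat_lit 3880061187) (nat_lit 152) (nat_lit 133364111) (nat_lit 228) (nat_lit 13360594082) (nat_lit 34) (nat_lit 5) (nat_lit 36) (nat_lit 5) (nat_lit 37) (nat_lit 5) (nat_lit 506) (nat_lit 361) (nat_lit 273)) (XT.nd (nat_lit 78) (nat_lit 1748) (nat_lit 0) (XT.lf (nat_lit 0) (nat_lit 3098949407) (nat_lit 1596) (nat_lit 219536584) (nat_lit 1596) (nat_lit 219536584) (nat_lit 477) (nat_lit 4) (nat_lit 498) (nat_lit 5) (nat_lit 498) (nat_lit 4) (nat_lit 416) (nat_lit 362) (nat_lit 362)) (XT.lf (nat_lit 0) (nat_lit 2971425866) (nat_lit 1748) (nat_lit 2899588898) (nat_lit 0) (nat_lit 1241096366) (nat_lit 454) (nat_lit 5) (nat_lit 477) (nat_lit 4) (nat_lit 454) (nat_lit 4) (nat_lit 417) (nat_lit 362) (nat_lit 361)))))) (XT.nd (nat_lit 468) (nat_lit 4256) (nat_lit 0) (XT.nd (nat_lit 234) (nat_lit 1900) (nat_lit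 0) (XT.nd (nat_lit 78) (nat_lit 1368) (nat_lit 0) (XT.lf (nat_lit 0) (nat_lit 2223424225) (nat_lit 1748) (nat_lit 4176529265) (nat_lit 1748) (nat_lit 749798295) (nat_lit 431) (nat_lit 4) (nat_lit 454) (nat_lit 5) (nat_lit 454) (nat_lit 4) (nat_lit 418) (nat_lit 362) (nat_lit 360)) (XT.nd (nat_lit 78) (nat_lit 0) (nat_lit 0) (XT.lf (nat_lit 0) (nat_lit 217098178) (nat_lit 1292) (nat_lit 2410113626) (nat_lit 1368) (nat_lit 4561529398) (nat_lit 413) (nat_lit 5) (nat_lit 430) (nat_lit 5) (nat_lit 431) (nat_lit 4) (nat_lit 419) (nat_lit 362) (nat_lit 359)) (XT.lf (nat_lit 0) (nat_lit 5457110644) (nat_lit 1292) (nat_lit 571358883) (nat_lit 1368) (nat_lit 1200630707) (nat_lit 413) (nat_lit 5) (nat_lit 430) (nat_lit 5) (nat_lit 431) (nat_lit 4) (nat_lit 420) (nat_lit 362) (nat_lit 358)))) (XT.nd (nat_lit 78) (nat_lit 912) (nat_lit 0) (XT.lf (nat_lit 0) (nat_lit 2164225064) (nat_lit 988) (nat_lit 3784103404) (nat_lit 76) (nat_lit 1322352639)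 (nat_lit 400) (nat_lit 5) (nat_lit 413) (nat_lit 5) (nat_lit 401) (nat_lit 4) (nat_lit 421) (nat_lit 362) (nat_lit 357)) (XT.nd (nat_lit 78) (nat_lit 76) (nat_lit 0) (XT.lf (nat_lit 0) (nat_lit 1500911402) (nat_lit 836) (nat_lit 4040292812) (nat_lit 912) (nat_lit 1772535122) (nat_lit 389) (nat_lit 5) (nat_lit 400) (nat_lit 5) (nat_lit 401) (nat_lit 4) (nat_lit 422) (nat_lit 362) (nat_lit 356)) (XT.lf (nat_lit 0) (nat_lit 1568043798) (nat_lit 912) (nat_lit 493833332) (nat_lit 76) (nat_lit 5296365195) (nat_lit 388) (nat_lit 5) (nat_lit 400) (nat_lit 5) (nat_lit 389) (nat_lit 5) (nat_lit 423) (nat_lit 362) (nat_lit 355))))) (XT.nd (nat_lit 234) (nat_lit 1596) (nat_lit 0) (XT.nd (nat_lit 78) (nat_lit 1748) (nat_lit 0) (XT.lf (nat_lit 0) (nat_lit 4916772313) (nat_lit 912) (nat_lit 3902717) (nat_lit 988) (nat_lit 2483367731) (nat_lit 376) (nat_lit 5) (nat_lit 388) (nat_lit 5) (nat_lit 389) (nat_lit 5) (nat_lit 424) (nat_lit 362) (nat_lit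 354)) (XT.nd (nat_lit 78) (nat_lit 836) (nat_lit 0) (XT.lf (nat_lit 0) (nat_lit 851618163) (nat_lit 912) (nat_lit 4508574474) (nat_lit 76) (nat_lit 2090997731) (nat_lit 364) (nat_lit 5) (nat_lit 376) (nat_lit 5) (nat_lit 365) (nat_lit 5) (nat_lit 425) (nat_lit 362) (nat_lit 353)) (XT.lf (nat_lit 0) (nat_lit 942957606) (nat_lit 836) (nat_lit 3238224025) (nat_lit 912) (nat_lit 3318568386) (nat_lit 353) (nat_lit 5) (nat_lit 364) (nat_lit 5) (nat_lit 365) (nat_lit 5) (nat_lit 426) (nat_lit 362) (nat_lit 352)))) (XT.nd (nat_lit 78) (nat_lit 1596) (nat_lit 0) (XT.lf (nat_lit 0) (nat_lit 6496391798) (nat_lit 836) (nat_lit 1050118638) (nat_lit 912) (nat_lit 3406543) (nat_lit 353) (nat_lit 5) (nat_lit 364) (nat_lit 5) (nat_lit 365) (nat_lit 5) (nat_lit 427) (nat_lit 362) (nat_lit 351)) (XT.nd (nat_lit 78) (nat_lit 760) (nat_lit 0) (XT.lf (nat_lit 0) (nat_lit 3310829334) (nat_lit 836) (nat_lit 3079694543) (nat_lit 76) (nat_lit 1210602099)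 (nat_lit 342) (nat_lit 5) (nat_lit 353) (nat_lit 5) (nat_lit 343) (nat_lit 5) (nat_lit 428) (nat_lit 362) (nat_lit 350)) (XT.lf (nat_lit 0) (nat_lit 2526624234) (nat_lit 760) (nat_lit 4135552215) (nat_lit 836) (nat_lit 991783284) (nat_lit 332) (nat_lit 5) (nat_lit 342) (nat_lit 5) (nat_lit 343) (nat_lit 5) (nat_lit 429) (nat_lit 362) (nat_lit 349))))))))
noncomputable def xc47 : XT := (XT.nd (nat_lit 1716) (nat_lit 6764) (nat_lit 0) (XT.nd (nat_lit 858) (nat_lit 4636) (nat_lit 0) (XT.nd (nat_lit 390) (nat_lit 2812) (nat_lit 0) (XT.nd (nat_lit 156) (nat_lit 2204) (nat_lit 0) (XT.nd (nat_lit 78) (nat_lit 0) (nat_lit 0) (XT.lf (nat_lit 0) (nat_lit 501620791) (nat_lit 760) (nat_lit 1804737347) (nat_lit 836) (nat_lit 5401906153) (nat_lit 321) (nat_lit 5) (nat_lit 331) (nat_lit 5) (nat_lit 332) (nat_lit 5) (nat_lit 430) (nat_lit 362) (nat_lit 348)) (XT.lf (nat_lit 0) (nat_lit 5636919443) (nat_lit 836) (nat_lit 1530289784) (nat_lit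 76) (nat_lit 596737264) (nat_lit 321) (nat_lit 5) (nat_lit 332) (nat_lit 5) (nat_lit 322) (nat_lit 5) (nat_lit 431) (nat_lit 362) (nat_lit 347))) (XT.nd (nat_lit 78) (nat_lit 1368) (nat_lit 0) (XT.lf (nat_lit 0) (nat_lit 1179269837) (nat_lit 836) (nat_lit 3593800653) (nat_lit 76) (nat_lit 3047894349) (nat_lit 310) (nat_lit 5) (nat_lit 321) (nat_lit 5) (nat_lit 311) (nat_lit 5) (nat_lit 432) (nat_lit 362) (nat_lit 346)) (XT.nd (nat_lit 78) (nat_lit 684) (nat_lit 0) (XT.lf (nat_lit 0) (nat_lit 2187696817) (nat_lit 684) (nat_lit 2302898674) (nat_lit 760) (nat_lit 3388915597) (nat_lit 301) (nat_lit 5) (nat_lit 310) (nat_lit 5) (nat_lit 311) (nat_lit 5) (nat_lit 433) (nat_lit 362) (nat_lit 345)) (XT.lf (nat_lit 0) (nat_lit 125821975) (nat_lit 684) (nat_lit 7712246809) (nat_lit 760) (nat_lit 101777134) (nat_lit 292) (nat_lit 5) (nat_lit 301) (nat_lit 5) (nat_lit 302) (nat_lit 5) (nat_lit 434) (nat_lit 362) (nat_lit 344))))) (XT.nd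 (nat_lit 234) (nat_lit 1292) (nat_lit 0) (XT.nd (nat_lit 78) (nat_lit 1444) (nat_lit 0) (XT.lf (nat_lit 0) (nat_lit 3205863807) (nat_lit 760) (nat_lit 1969635063) (nat_lit 76) (nat_lit 2825533896) (nat_lit 291) (nat_lit 5) (nat_lit 301) (nat_lit 5) (nat_lit 292) (nat_lit 5) (nat_lit 435) (nat_lit 362) (nat_lit 343)) (XT.nd (nat_lit 78) (nat_lit 760) (nat_lit 0) (XT.lf (nat_lit 0) (nat_lit 3975097527) (nat_lit 684) (nat_lit 2573810943) (nat_lit 760) (nat_lit 1515124304) (nat_lit 282) (nat_lit 5) (nat_lit 291) (nat_lit 5) (nat_lit 292) (nat_lit 5) (nat_lit 436) (nat_lit 362) (nat_lit 342)) (XT.lf (nat_lit 0) (nat_lit 1777787275) (nat_lit 760) (nat_lit 6247535892) (nat_lit 76) (nat_lit 103321008) (nat_lit 272) (nat_lit 5) (nat_lit 282) (nat_lit 5) (nat_lit 273) (nat_lit 5) (nat_lit 437) (nat_lit 362) (nat_lit 341)))) (XT.nd (nat_lit 78) (nat_lit 1292) (nat_lit 0) (XT.lf (nat_lit 0) (nat_lit 5106573901) (nat_lit 760) (nat_lit 264144548)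 (nat_lit 76) (nat_lit 2823837248) (nat_lit 272) (nat_lit 5) (nat_lit 282) (nat_lit 5) (nat_lit 273) (nat_lit 5) (nat_lit 438) (nat_lit 362) (nat_lit 340)) (XT.nd (nat_lit 78) (nat_lit 608) (nat_lit 0) (XT.lf (nat_lit 0) (nat_lit 221541414) (nat_lit 684) (nat_lit 2415464113) (nat_lit 76) (nat_lit 5625071658) (nat_lit 263) (nat_lit 5) (nat_lit 272) (nat_lit 5) (nat_lit 264) (nat_lit 5) (nat_lit 439) (nat_lit 362) (nat_lit 339)) (XT.lf (nat_lit 0) (nat_lit 3529962659) (nat_lit 684) (nat_lit 4619596098) (nat_lit 76) (nat_lit 181514456) (nat_lit 255) (nat_lit 5) (nat_lit 264) (nat_lit 5) (nat_lit 256) (nat_lit 5) (nat_lit 440) (nat_lit 362) (nat_lit 338)))))) (XT.nd (nat_lit 390) (nat_lit 2204) (nat_lit 0) (XT.nd (nat_lit 156) (nat_lit 1748) (nat_lit 0) (XT.nd (nat_lit 78) (nat_lit 76) (nat_lit 0) (XT.lf (nat_lit 0) (nat_lit 1526718502) (nat_lit 608) (nat_lit 5368966232) (nat_lit 684) (nat_lit 1505954971) (nat_lit 247) (nat_lit 5)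 (nat_lit 255) (nat_lit 5) (nat_lit 256) (nat_lit 5) (nat_lit 441) (nat_lit 362) (nat_lit 337)) (XT.lf (nat_lit 0) (nat_lit 1809651935) (nat_lit 684) (nat_lit 695235004) (nat_lit 76) (nat_lit 5968924813) (nat_lit 246) (nat_lit 5) (nat_lit 255) (nat_lit 5) (nat_lit 247) (nat_lit 5) (nat_lit 442) (nat_lit 362) (nat_lit 336))) (XT.nd (nat_lit 78) (nat_lit 1140) (nat_lit 0) (XT.lf (nat_lit 0) (nat_lit 5159418966) (nat_lit 684) (nat_lit 2946094772) (nat_lit 76) (nat_lit 441966589) (nat_lit 238) (nat_lit 5) (nat_lit 247) (nat_lit 5) (nat_lit 239) (nat_lit 5) (nat_lit 443) (nat_lit 362) (nat_lit 335)) (XT.nd (nat_lit 78) (nat_lit 608) (nat_lit 0) (XT.lf (nat_lit 0) (nat_lit 3370718997) (nat_lit 532) (nat_lit 5197799364) (nat_lit 608) (nat_lit 54269360) (nat_lit 231) (nat_lit 5) (nat_lit 238) (nat_lit 5) (nat_lit 239) (nat_lit 5) (nat_lit 444) (nat_lit 362) (nat_lit 334)) (XT.lf (nat_lit 0) (nat_lit 1078950557) (nat_lit 532) (nat_lit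 2199650419) (nat_lit 608) (nat_lit 5421051715) (nat_lit 223) (nat_lit 5) (nat_lit 230) (nat_lit 5) (nat_lit 231) (nat_lit 5) (nat_lit 445) (nat_lit 362) (nat_lit 333))))) (XT.nd (nat_lit 234) (nat_lit 1064) (nat_lit 0) (XT.nd (nat_lit 78) (nat_lit 1140) (nat_lit 0) (XT.lf (nat_lit 0) (nat_lit 6668277545) (nat_lit 608) (nat_lit 1244127446) (nat_lit 76) (nat_lit 865836770) (nat_lit 223) (nat_lit 5) (nat_lit 231) (nat_lit 5) (nat_lit 224) (nat_lit 5) (nat_lit 446) (nat_lit 362) (nat_lit 332)) (XT.nd (nat_lit 78) (nat_lit 532) (nat_lit 0) (XT.lf (nat_lit 0) (nat_lit 1250151552) (nat_lit 608) (nat_lit 3619473722) (nat_lit 76) (nat_lit 3988635247) (nat_lit 215) (nat_lit 5) (nat_lit 223) (nat_lit 5) (nat_lit 216) (nat_lit 5) (nat_lit 447) (nat_lit 362) (nat_lit 331)) (XT.lf (nat_lit 0) (nat_lit 2885046485) (nat_lit 532) (nat_lit 1742339149) (nat_lit 608) (nat_lit 4312662539) (nat_lit 208) (nat_lit 5) (nat_lit 215) (nat_lit 5) (nat_lit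 216) (nat_lit 5) (nat_lit 448) (nat_lit 362) (nat_lit 330)))) (XT.nd (nat_lit 78) (nat_lit 608) (nat_lit 0) (XT.lf (nat_lit 0) (nat_lit 474709068) (nat_lit 456) (nat_lit 7585798810) (nat_lit 532) (nat_lit 963207439) (nat_lit 202) (nat_lit 5) (nat_lit 208) (nat_lit 5) (nat_lit 209) (nat_lit 5) (nat_lit 449) (nat_lit 362) (nat_lit 329)) (XT.nd (nat_lit 78) (nat_lit 532) (nat_lit 0) (XT.lf (nat_lit 0) (nat_lit 2425103421) (nat_lit 532) (nat_lit 1986787925) (nat_lit 76) (nat_lit 4696775270) (nat_lit 201) (nat_lit 5) (nat_lit 208) (nat_lit 5) (nat_lit 202) (nat_lit 5) (nat_lit 450) (nat_lit 362) (nat_lit 328)) (XT.lf (nat_lit 0) (nat_lit 4695306931) (nat_lit 532) (nat_lit 1156023613) (nat_lit 608) (nat_lit 3344208109) (nat_lit 194) (nat_lit 5) (nat_lit 201) (nat_lit 5) (nat_lit 202) (nat_lit 5) (nat_lit 451) (nat_lit 362) (nat_lit 327))))))) (XT.nd (nat_lit 858) (nat_lit 3040) (nat_lit 0) (XT.nd (nat_lit 390) (nat_lit 1748) (nat_lit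 0) (XT.nd (nat_lit 156) (nat_lit 1444) (nat_lit 0) (XT.nd (nat_lit 78) (nat_lit 0) (nat_lit 0) (XT.lf (nat_lit 0) (nat_lit 55776860) (nat_lit 532) (nat_lit 7082759024) (nat_lit 76) (nat_lit 2145720713) (nat_lit 187) (nat_lit 5) (nat_lit 194) (nat_lit 5) (nat_lit 188) (nat_lit 5) (nat_lit 452) (nat_lit 362) (nat_lit 326)) (XT.lf (nat_lit 0) (nat_lit 3470179085) (nat_lit 532) (nat_lit 373031748) (nat_lit 76) (nat_lit 5531281454) (nat_lit 187) (nat_lit 5) (nat_lit 194) (nat_lit 5) (nat_lit 188) (nat_lit 5) (nat_lit 453) (nat_lit 362) (nat_lit 325))) (XT.nd (nat_lit 78) (nat_lit 988) (nat_lit 0) (XT.lf (nat_lit 0) (nat_lit 6490179297) (nat_lit 456) (nat_lit 458848157) (nat_lit 532) (nat_lit 2517591311) (nat_lit 181) (nat_lit 5) (nat_lit 187) (nat_lit 5) (nat_lit 188) (nat_lit 5) (nat_lit 454) (nat_lit 362) (nat_lit 324)) (XT.nd (nat_lit 78) (nat_lit 456) (nat_lit 0) (XT.lf (nat_lit 0) (nat_lit 926226753) (nat_lit 532) (nat_lit 5665963723)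 (nat_lit 76) (nat_lit 2968251541) (nat_lit 174) (nat_lit 5) (nat_lit 181) (nat_lit 5) (nat_lit 175) (nat_lit 5) (nat_lit 455) (nat_lit 362) (nat_lit 323)) (XT.lf (nat_lit 0) (nat_lit 1217173145) (nat_lit 456) (nat_lit 3173643516) (nat_lit 532) (nat_lit 5265288830) (nat_lit 168) (nat_lit 5) (nat_lit 174) (nat_lit 5) (nat_lit 175) (nat_lit 5) (nat_lit 456) (nat_lit 362) (nat_lit 322))))) (XT.nd (nat_lit 234) (nat_lit 836) (nat_lit 0) (XT.nd (nat_lit 78) (nat_lit 912) (nat_lit 0) (XT.lf (nat_lit 0) (nat_lit 7919860843) (nat_lit 532) (nat_lit 1507132559) (nat_lit 76) (nat_lit 326794115) (nat_lit 168) (nat_lit 5) (nat_lit 175) (nat_lit 5) (nat_lit 169) (nat_lit 5) (nat_lit 457) (nat_lit 362) (nat_lit 321)) (XT.nd (nat_lit 78) (nat_lit 456) (nat_lit 0) (XT.lf (nat_lit 0) (nat_lit 1657078433) (nat_lit 456) (nat_lit 4314400336) (nat_lit 76) (nat_lit 3881478946) (nat_lit 162) (nat_lit 5) (nat_lit 168) (nat_lit 5) (nat_lit 163) (nat_lit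 5) (nat_lit 458) (nat_lit 362) (nat_lit 320)) (XT.lf (nat_lit 0) (nat_lit 2749978398) (nat_lit 456) (nat_lit 2427315325) (nat_lit 532) (nat_lit 4776904261) (nat_lit 156) (nat_lit 5) (nat_lit 162) (nat_lit 5) (nat_lit 163) (nat_lit 5) (nat_lit 459) (nat_lit 362) (nat_lit 319)))) (XT.nd (nat_lit 78) (nat_lit 836) (nat_lit 0) (XT.lf (nat_lit 0) (nat_lit 8760959367) (nat_lit 532) (nat_lit 116527955) (nat_lit 76) (nat_lit 1180122699) (nat_lit 156) (nat_lit 5) (nat_lit 163) (nat_lit 5) (nat_lit 157) (nat_lit 5) (nat_lit 460) (nat_lit 362) (nat_lit 318)) (XT.nd (nat_lit 78) (nat_lit 380) (nat_lit 0) (XT.lf (nat_lit 0) (nat_lit 2243167298) (nat_lit 456) (nat_lit 3051746891) (nat_lit 76) (nat_lit 4867500889) (nat_lit 150) (nat_lit 5) (nat_lit 156) (nat_lit 5) (nat_lit 151) (nat_lit 5) (nat_lit 461) (nat_lit 362) (nat_lit 317)) (XT.lf (nat_lit 0) (nat_lit 4196403321) (nat_lit 380) (nat_lit 1625251767) (nat_lit 456) (nat_lit 4447792447)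 (nat_lit 145) (nat_lit 5) (nat_lit 150) (nat_lit 5) (nat_lit 151) (nat_lit 5) (nat_lit 462) (nat_lit 362) (nat_lit 316)))))) (XT.nd (nat_lit 468) (nat_lit 1444) (nat_lit 0) (XT.nd (nat_lit 234) (nat_lit 760) (nat_lit 0) (XT.nd (nat_lit 78) (nat_lit 456) (nat_lit 0) (XT.lf (nat_lit 0) (nat_lit 1189370473) (nat_lit 380) (nat_lit 8281895134) (nat_lit 456) (nat_lit 907371258) (nat_lit 140) (nat_lit 5) (nat_lit 145) (nat_lit 5) (nat_lit 146) (nat_lit 5) (nat_lit 463) (nat_lit 362) (nat_lit 315)) (XT.nd (nat_lit 78) (nat_lit 380) (nat_lit 0) (XT.lf (nat_lit 0) (nat_lit 2677778059) (nat_lit 456) (nat_lit 1903586173) (nat_lit 76) (nat_lit 5908114018) (nat_lit 139) (nat_lit 5) (nat_lit 145) (nat_lit 5) (nat_lit 140) (nat_lit 5) (nat_lit 464) (nat_lit 362) (nat_lit 314)) (XT.lf (nat_lit 0) (nat_lit 5530450998) (nat_lit 380) (nat_lit 786374676) (nat_lit 456) (nat_lit 4285710798) (nat_lit 134) (nat_lit 5) (nat_lit 139) (nat_lit 5) (nat_lit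 140) (nat_lit 5) (nat_lit 465) (nat_lit 362) (nat_lit 313)))) (XT.nd (nat_lit 78) (nat_lit 456) (nat_lit 0) (XT.lf (nat_lit 0) (nat_lit 2368174283) (nat_lit 304) (nat_lit 7667425817) (nat_lit 380) (nat_lit 682123567) (nat_lit 130) (nat_lit 5) (nat_lit 134) (nat_lit 5) (nat_lit 135) (nat_lit 5) (nat_lit 466) (nat_lit 362) (nat_lit 312)) (XT.nd (nat_lit 78) (nat_lit 380) (nat_lit 0) (XT.lf (nat_lit 0) (nat_lit 2952547797) (nat_lit 380) (nat_lit 897687913) (nat_lit 76) (nat_lit 6984631181) (nat_lit 129) (nat_lit 5) (nat_lit 134) (nat_lit 5) (nat_lit 130) (nat_lit 5) (nat_lit 467) (nat_lit 362) (nat_lit 311)) (XT.lf (nat_lit 0) (nat_lit 6654507855) (nat_lit 456) (nat_lit 4230795977) (nat_lit 76) (nat_lit 68890732) (nat_lit 124) (nat_lit 5) (nat_lit 130) (nat_lit 5) (nat_lit 125) (nat_lit 5) (nat_lit 468) (nat_lit 362) (nat_lit 310))))) (XT.nd (nat_lit 234) (nat_lit 684) (nat_lit 0) (XT.nd (nat_lit 78) (nat_lit 456) (nat_lit 0) (XT.lf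 (nat_lit 0) (nat_lit 3388933089) (nat_lit 304) (nat_lit 7054989444) (nat_lit 380) (nat_lit 631724166) (nat_lit 120) (nat_lit 5) (nat_lit 124) (nat_lit 5) (nat_lit 125) (nat_lit 5) (nat_lit 469) (nat_lit 362) (nat_lit 309)) (XT.nd (nat_lit 78) (nat_lit 380) (nat_lit 0) (XT.lf (nat_lit 0) (nat_lit 3057353517) (nat_lit 380) (nat_lit 64315383) (nat_lit 76) (nat_lit 8077690382) (nat_lit 119) (nat_lit 5) (nat_lit 124) (nat_lit 5) (nat_lit 120) (nat_lit 5) (nat_lit 470) (nat_lit 362) (nat_lit 308)) (XT.lf (nat_lit 0) (nat_lit 6828790438) (nat_lit 456) (nat_lit 3585446808) (nat_lit 76) (nat_lit 910890485) (nat_lit 114) (nat_lit 5) (nat_lit 120) (nat_lit 5) (nat_lit 115) (nat_lit 5) (nat_lit 471) (nat_lit 362) (nat_lit 307)))) (XT.nd (nat_lit 78) (nat_lit 380) (nat_lit 0) (XT.lf (nat_lit 0) (nat_lit 4219522173) (nat_lit 304) (nat_lit 6465603210) (nat_lit 380) (nat_lit 768102521) (nat_lit 110) (nat_lit 5) (nat_lit 114) (nat_lit 5) (nat_lit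 115) (nat_lit 5) (nat_lit 472) (nat_lit 362) (nat_lit 306)) (XT.nd (nat_lit 78) (nat_lit 0) (nat_lit 0) (XT.lf (nat_lit 0) (nat_lit 570928443) (nat_lit 304) (nat_lit 2412961381) (nat_lit 380) (nat_lit 8599831843) (nat_lit 105) (nat_lit 5) (nat_lit 109) (nat_lit 5) (nat_lit 110) (nat_lit 5) (nat_lit 473) (nat_lit 362) (nat_lit 305)) (XT.lf (nat_lit 0) (nat_lit 6821957220) (nat_lit 380) (nat_lit 3165418128) (nat_lit 76) (nat_lit 1728927422) (nat_lit 105) (nat_lit 5) (nat_lit 110) (nat_lit 5) (nat_lit 106) (nat_lit 5) (nat_lit 474) (nat_lit 362) (nat_lit 304))))))))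
noncomputable def xc48 : XT := (XT.nd (nat_lit 1716) (nat_lit 1292) (nat_lit 0) (XT.nd (nat_lit 858) (nat_lit 1520) (nat_lit 0) (XT.nd (nat_lit 390) (nat_lit 1140) (nat_lit 0) (XT.nd (nat_lit 156) (nat_lit 608) (nat_lit 0) (XT.nd (nat_lit 78) (nat_lit 380) (nat_lit 0) (XT.lf (nat_lit 0) (nat_lit 4824737812) (nat_lit 304) (nat_lit 5921387638) (nat_lit 380) (nat_lit 1105228561) (nat_lit 101) (nat_lit 5) (nat_lit 105) (nat_lit 5) (nat_lit 106) (nat_lit 5) (nat_lit 475) (nat_lit 362) (nat_lit 303)) (XT.lf (nat_lit 0) (nat_lit 961912760) (nat_lit 304) (nat_lit 1751320041) (nat_lit 380) (nat_lit 9275725111) (nat_lit 96) (nat_lit 5) (nat_lit 100) (nat_lit 5) (nat_lit 101) (nat_lit 5) (nat_lit 476) (nat_lit 362) (nat_lit 302))) (XT.nd (nat_lit 78) (nat_lit 608) (nat_lit 0) (XT.lf (nat_lit 0) (nat_lit 6619308343) (nat_lit 380) (nat_lit 3008553313) (nat_lit 76) (nat_lit 2500790243) (nat_lit 96) (nat_lit 5) (nat_lit 101) (nat_lit 5) (nat_lit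 97) (nat_lit 5) (nat_lit 477) (nat_lit 362) (nat_lit 301)) (XT.nd (nat_lit 78) (nat_lit 380) (nat_lit 0) (XT.lf (nat_lit 0) (nat_lit 5165907982) (nat_lit 228) (nat_lit 5445794840) (nat_lit 304) (nat_lit 1659277895) (nat_lit 93) (nat_lit 5) (nat_lit 96) (nat_lit 5) (nat_lit 97) (nat_lit 5) (nat_lit 478) (nat_lit 362) (nat_lit 300)) (XT.lf (nat_lit 0) (nat_lit 1067378921) (nat_lit 304) (nat_lit 1161065879) (nat_lit 380) (nat_lit 10187613581) (nat_lit 88) (nat_lit 5) (nat_lit 92) (nat_lit 5) (nat_lit 93) (nat_lit 5) (nat_lit 479) (nat_lit 362) (nat_lit 299))))) (XT.nd (nat_lit 234) (nat_lit 532) (nat_lit 0) (XT.nd (nat_lit 78) (nat_lit 608) (nat_lit 0) (XT.lf (nat_lit 0) (nat_lit 6203879561) (nat_lit 380) (nat_lit 3156467071) (nat_lit 76) (nat_lit 3202832719) (nat_lit 88) (nat_lit 5) (nat_lit 93) (nat_lit 5) (nat_lit 89) (nat_lit 5) (nat_lit 480) (nat_lit 362) (nat_lit 298)) (XT.nd (nat_lit 78) (nat_lit 380) (nat_lit 0) (XT.lf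 (nat_lit 0) (nat_lit 5200466058) (nat_lit 228) (nat_lit 5063852939) (nat_lit 304) (nat_lit 2448818353) (nat_lit 85) (nat_lit 5) (nat_lit 88) (nat_lit 5) (nat_lit 89) (nat_lit 5) (nat_lit 481) (nat_lit 362) (nat_lit 297)) (XT.lf (nat_lit 0) (nat_lit 842841415) (nat_lit 304) (nat_lit 667751629) (nat_lit 380) (nat_lit 11355487537) (nat_lit 80) (nat_lit 5) (nat_lit 84) (nat_lit 5) (nat_lit 85) (nat_lit 5) (nat_lit 482) (nat_lit 362) (nat_lit 296)))) (XT.nd (nat_lit 78) (nat_lit 532) (nat_lit 0) (XT.lf (nat_lit 0) (nat_lit 5556245063) (nat_lit 380) (nat_lit 3654999074) (nat_lit 76) (nat_lit 3809722232) (nat_lit 80) (nat_lit 5) (nat_lit 85) (nat_lit 5) (nat_lit 81) (nat_lit 5) (nat_lit 483) (nat_lit 362) (nat_lit 295)) (XT.nd (nat_lit 78) (nat_lit 304) (nat_lit 0) (XT.lf (nat_lit 0) (nat_lit 4881483277) (nat_lit 228) (nat_lit 4802428952) (nat_lit 304) (nat_lit 3495019785) (nat_lit 77) (nat_lit 5) (nat_lit 80) (nat_lit 5) (nat_lit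 81) (nat_lit 5) (nat_lit 484) (nat_lit 362) (nat_lit 294)) (XT.lf (nat_lit 0) (nat_lit 239247328) (nat_lit 228) (nat_lit 298864374) (nat_lit 304) (nat_lit 12802051286) (nat_lit 73) (nat_lit 5) (nat_lit 76) (nat_lit 5) (nat_lit 77) (nat_lit 5) (nat_lit 485) (nat_lit 362) (nat_lit 293)))))) (XT.nd (nat_lit 390) (nat_lit 760) (nat_lit 0) (XT.nd (nat_lit 156) (nat_lit 532) (nat_lit 0) (XT.nd (nat_lit 78) (nat_lit 228) (nat_lit 0) (XT.lf (nat_lit 0) (nat_lit 4654296141) (nat_lit 304) (nat_lit 4554711884) (nat_lit 76) (nat_lit 4294168685) (nat_lit 73) (nat_lit 5) (nat_lit 77) (nat_lit 5) (nat_lit 74) (nat_lit 5) (nat_lit 486) (nat_lit 362) (nat_lit 292)) (XT.lf (nat_lit 0) (nat_lit 4157155390) (nat_lit 228) (nat_lit 4690512642) (nat_lit 304) (nat_lit 4821889263) (nat_lit 70) (nat_lit 5) (nat_lit 73) (nat_lit 5) (nat_lit 74) (nat_lit 5) (nat_lit 487) (nat_lit 362) (nat_lit 291))) (XT.nd (nat_lit 78) (nat_lit 532) (nat_lit 0) (XT.lf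 (nat_lit 0) (nat_lit 13047577429) (nat_lit 228) (nat_lit 74083896) (nat_lit 304) (nat_lit 717672877) (nat_lit 70) (nat_lit 5) (nat_lit 73) (nat_lit 5) (nat_lit 74) (nat_lit 5) (nat_lit 488) (nat_lit 362) (nat_lit 290)) (XT.nd (nat_lit 78) (nat_lit 228) (nat_lit 0) (XT.lf (nat_lit 0) (nat_lit 3472993449) (nat_lit 304) (nat_lit 5911438090) (nat_lit 76) (nat_lit 4626631189) (nat_lit 66) (nat_lit 5) (nat_lit 70) (nat_lit 5) (nat_lit 67) (nat_lit 5) (nat_lit 489) (nat_lit 362) (nat_lit 289)) (XT.lf (nat_lit 0) (nat_lit 2970238406) (nat_lit 228) (nat_lit 4759524054) (nat_lit 304) (nat_lit 6456534081) (nat_lit 63) (nat_lit 5) (nat_lit 66) (nat_lit 5) (nat_lit 67) (nat_lit 5) (nat_lit 490) (nat_lit 362) (nat_lit 288))))) (XT.nd (nat_lit 234) (nat_lit 304) (nat_lit 0) (XT.nd (nat_lit 78) (nat_lit 456) (nat_lit 0) (XT.lf (nat_lit 0) (nat_lit 12053168993) (nat_lit 228) (nat_lit 25217799) (nat_lit 304) (nat_lit 2286517338) (nat_lit 63)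 (nat_lit 5) (nat_lit 66) (nat_lit 5) (nat_lit 67) (nat_lit 5) (nat_lit 491) (nat_lit 362) (nat_lit 287)) (XT.nd (nat_lit 78) (nat_lit 152) (nat_lit 0) (XT.lf (nat_lit 0) (nat_lit 1984090330) (nat_lit 304) (nat_lit 7786882054) (nat_lit 76) (nat_lit 4774999707) (nat_lit 59) (nat_lit 5) (nat_lit 63) (nat_lit 5) (nat_lit 60) (nat_lit 5) (nat_lit 492) (nat_lit 362) (nat_lit 286)) (XT.lf (nat_lit 0) (nat_lit 1257427882) (nat_lit 152) (nat_lit 5043647688) (nat_lit 228) (nat_lit 8429455223) (nat_lit 57) (nat_lit 5) (nat_lit 59) (nat_lit 5) (nat_lit 60) (nat_lit 5) (nat_lit 493) (nat_lit 362) (nat_lit 285)))) (XT.nd (nat_lit 78) (nat_lit 304) (nat_lit 0) (XT.lf (nat_lit 0) (nat_lit 10532577448) (nat_lit 152) (nat_lit 191957832) (nat_lit 228) (nat_lit 4193845928) (nat_lit 57) (nat_lit 5) (nat_lit 59) (nat_lit 5) (nat_lit 60) (nat_lit 5) (nat_lit 494) (nat_lit 362) (nat_lit 284)) (XT.nd (nat_lit 78) (nat_lit 0) (nat_lit 0) (XT.lf (nat_lit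 0) (nat_lit 155824392) (nat_lit 304) (nat_lit 10249282200) (nat_lit 76) (nat_lit 4704248572) (nat_lit 53) (nat_lit 5) (nat_lit 57) (nat_lit 5) (nat_lit 54) (nat_lit 5) (nat_lit 495) (nat_lit 362) (nat_lit 283)) (XT.lf (nat_lit 0) (nat_lit 4535698066) (nat_lit 304) (nat_lit 1037536093) (nat_lit 76) (nat_lit 9730375750) (nat_lit 53) (nat_lit 5) (nat_lit 57) (nat_lit 5) (nat_lit 54) (nat_lit 5) (nat_lit 496) (nat_lit 362) (nat_lit 282))))))) (XT.nd (nat_lit 52962) (nat_lit 0) (nat_lit 24928) (XT.nd (nat_lit 390) (nat_lit 684) (nat_lit 0) (XT.nd (nat_lit 156) (nat_lit 228) (nat_lit 0) (XT.nd (nat_lit 78) (nat_lit 228) (nat_lit 0) (XT.lf (nat_lit 0) (nat_lit 8414832369) (nat_lit 152) (nat_lit 612006661) (nat_lit 228) (nat_lit 6474440309) (nat_lit 51) (nat_lit 5) (nat_lit 53) (nat_lit 5) (nat_lit 54) (nat_lit 5) (nat_lit 497) (nat_lit 362) (nat_lit 281)) (XT.lf (nat_lit 0) (nat_lit 2314893457) (nat_lit 228) (nat_lit 11312975355) (nat_lit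 304) (nat_lit 2074634955) (nat_lit 48) (nat_lit 5) (nat_lit 51) (nat_lit 5) (nat_lit 52) (nat_lit 5) (nat_lit 498) (nat_lit 362) (nat_lit 280))) (XT.nd (nat_lit 78) (nat_lit 152) (nat_lit 0) (XT.lf (nat_lit 0) (nat_lit 2402635183) (nat_lit 304) (nat_lit 3980662215) (nat_lit 76) (nat_lit 9523722388) (nat_lit 47) (nat_lit 5) (nat_lit 51) (nat_lit 5) (nat_lit 48) (nat_lit 5) (nat_lit 499) (nat_lit 362) (nat_lit 279)) (XT.nd (nat_lit 78) (nat_lit 0) (nat_lit 0) (XT.lf (nat_lit 0) (nat_lit 5621327784) (nat_lit 152) (nat_lit 1326666983) (nat_lit 228) (nat_lit 9167233382) (nat_lit 45) (nat_lit 5) (nat_lit 47) (nat_lit 5) (nat_lit 48) (nat_lit 5) (nat_lit 500) (nat_lit 362) (nat_lit 278)) (XT.lf (nat_lit 0) (nat_lit 11605926705) (nat_lit 228) (nat_lit 935987883) (nat_lit 76) (nat_lit 3785255495) (nat_lit 45) (nat_lit 5) (nat_lit 48) (nat_lit 5) (nat_lit 46) (nat_lit 5) (nat_lit 501) (nat_lit 362) (nat_lit 277))))) (XT.nd (nat_lit 234)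 (nat_lit 228) (nat_lit 0) (XT.nd (nat_lit 78) (nat_lit 228) (nat_lit 0) (XT.lf (nat_lit 0) (nat_lit 8868464326) (nat_lit 228) (nat_lit 7525410845) (nat_lit 304) (nat_lit 148741179) (nat_lit 42) (nat_lit 5) (nat_lit 45) (nat_lit 5) (nat_lit 46) (nat_lit 5) (nat_lit 502) (nat_lit 362) (nat_lit 276)) (XT.nd (nat_lit 78) (nat_lit 0) (nat_lit 0) (XT.lf (nat_lit 0) (nat_lit 2064977239) (nat_lit 152) (nat_lit 2381283731) (nat_lit 228) (nat_lit 12315721453) (nat_lit 39) (nat_lit 5) (nat_lit 41) (nat_lit 5) (nat_lit 42) (nat_lit 5) (nat_lit 503) (nat_lit 362) (nat_lit 275)) (XT.lf (nat_lit 0) (nat_lit 9172250257) (nat_lit 228) (nat_lit 4954015687) (nat_lit 76) (nat_lit 2858631134) (nat_lit 39) (nat_lit 5) (nat_lit 42) (nat_lit 5) (nat_lit 40) (nat_lit 5) (nat_lit 504) (nat_lit 362) (nat_lit 274)))) (XT.nd (nat_lit 78) (nat_lit 76) (nat_lit 0) (XT.lf (nat_lit 0) (nat_lit 4982138701) (nat_lit 152) (nat_lit 9029945951) (nat_lit 228) (nat_lit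 3199801319) (nat_lit 37) (nat_lit 5) (nat_lit 39) (nat_lit 5) (nat_lit 40) (nat_lit 5) (nat_lit 505) (nat_lit 362) (nat_lit 273)) (XT.nd (nat_lit 52182) (nat_lit 0) (nat_lit 35112) (XT.lf (nat_lit 0) (nat_lit 1490273280) (nat_lit 228) (nat_lit 2319887767) (nat_lit 76) (nat_lit 13632966192) (nat_lit 36) (nat_lit 5) (nat_lit 39) (nat_lit 5) (nat_lit 37) (nat_lit 5) (nat_lit 506) (nat_lit 362) (nat_lit 272)) (XT.lf (nat_lit 0) (nat_lit 798009163) (nat_lit 1596) (nat_lit 1907365124) (nat_lit 0) (nat_lit 798009163) (nat_lit 498) (nat_lit 5) (nat_lit 519) (nat_lit 4) (nat_lit 498) (nat_lit 4) (nat_lit 414) (nat_lit 363) (nat_lit 363)))))) (XT.nd (nat_lit 390) (nat_lit 3724) (nat_lit 0) (XT.nd (nat_lit 156) (nat_lit 4788) (nat_lit 0) (XT.nd (nat_lit 78) (nat_lit 76) (nat_lit 0) (XT.lf (nat_lit 0) (nat_lit 1132948982) (nat_lit 1596) (nat_lit 3854127834) (nat_lit 1596) (nat_lit 2053893023) (nat_lit 477) (nat_lit 4) (nat_lit 498) (nat_lit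 5) (nat_lit 498) (nat_lit 4) (nat_lit 415) (nat_lit 363) (nat_lit 362)) (XT.lf (nat_lit 0) (nat_lit 1309398832) (nat_lit 1672) (nat_lit 920185259) (nat_lit 76) (nat_lit 4846975330) (nat_lit 476) (nat_lit 5) (nat_lit 498) (nat_lit 5) (nat_lit 477) (nat_lit 4) (nat_lit 416) (nat_lit 363) (nat_lit 361))) (XT.nd (nat_lit 78) (nat_lit 3116) (nat_lit 0) (XT.lf (nat_lit 0) (nat_lit 4142381476) (nat_lit 1672) (nat_lit 529837275) (nat_lit 1748) (nat_lit 2441200601) (nat_lit 454) (nat_lit 5) (nat_lit 476) (nat_lit 5) (nat_lit 477) (nat_lit 4) (nat_lit 417) (nat_lit 363) (nat_lit 360)) (XT.nd (nat_lit 78) (nat_lit 1292) (nat_lit 0) (XT.lf (nat_lit 0) (nat_lit 900068830) (nat_lit 1824) (nat_lit 5036666719) (nat_lit 76) (nat_lit 1214956448) (nat_lit 430) (nat_lit 5) (nat_lit 454) (nat_lit 5) (nat_lit 431) (nat_lit 4) (nat_lit 418) (nat_lit 363) (nat_lit 359)) (XT.lf (nat_lit 0) (nat_lit 66682602) (nat_lit 1292) (nat_lit 4166988929) (nat_lit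 1368) (nat_lit 2957595822) (nat_lit 413) (nat_lit 5) (nat_lit 430) (nat_lit 5) (nat_lit 431) (nat_lit 4) (nat_lit 419) (nat_lit 363) (nat_lit 358))))) (XT.nd (nat_lit 234) (nat_lit 1900) (nat_lit 0) (XT.nd (nat_lit 78) (nat_lit 1748) (nat_lit 0) (XT.lf (nat_lit 0) (nat_lit 365616701) (nat_lit 1368) (nat_lit 1961008580) (nat_lit 76) (nat_lit 4905608038) (nat_lit 412) (nat_lit 5) (nat_lit 430) (nat_lit 5) (nat_lit 413) (nat_lit 5) (nat_lit 420) (nat_lit 363) (nat_lit 357)) (XT.nd (nat_lit 78) (nat_lit 836) (nat_lit 0) (XT.lf (nat_lit 0) (nat_lit 3262782917) (nat_lit 912) (nat_lit 409971195) (nat_lit 988) (nat_lit 3601754758) (nat_lit 400) (nat_lit 5) (nat_lit 412) (nat_lit 5) (nat_lit 413) (nat_lit 5) (nat_lit 421) (nat_lit 363) (nat_lit 356)) (XT.lf (nat_lit 0) (nat_lit 1239302814) (nat_lit 836) (nat_lit 5774711733) (nat_lit 912) (nat_lit 304277856) (nat_lit 389) (nat_lit 5) (nat_lit 400) (nat_lit 5) (nat_lit 401) (nat_lit 4)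 (nat_lit 422) (nat_lit 363) (nat_lit 355)))) (XT.nd (nat_lit 78) (nat_lit 1824) (nat_lit 0) (XT.lf (nat_lit 0) (nat_lit 2985871262) (nat_lit 912) (nat_lit 802950935) (nat_lit 76) (nat_lit 3574416506) (nat_lit 388) (nat_lit 5) (nat_lit 400) (nat_lit 5) (nat_lit 389) (nat_lit 5) (nat_lit 423) (nat_lit 363) (nat_lit 354)) (XT.nd (nat_lit 78) (nat_lit 912) (nat_lit 0) (XT.lf (nat_lit 0) (nat_lit 4570343540) (nat_lit 912) (nat_lit 1735347608) (nat_lit 988) (nat_lit 1104014517) (nat_lit 376) (nat_lit 5) (nat_lit 388) (nat_lit 5) (nat_lit 389) (nat_lit 5) (nat_lit 424) (nat_lit 363) (nat_lit 353)) (XT.lf (nat_lit 0) (nat_lit 2168688423) (nat_lit 912) (nat_lit 4902760760) (nat_lit 76) (nat_lit 386118723) (nat_lit 364) (nat_lit 5) (nat_lit 376) (nat_lit 5) (nat_lit 365) (nat_lit 5) (nat_lit 425) (nat_lit 363) (nat_lit 352))))))))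
noncomputable def xc49 : XT := (XT.nd (nat_lit 1716) (nat_lit 7296) (nat_lit 0) (XT.nd (nat_lit 858) (nat_lit 5092) (nat_lit 0) (XT.nd (nat_lit 390) (nat_lit 3724) (nat_lit 0) (XT.nd (nat_lit 156) (nat_lit 1596) (nat_lit 0) (XT.nd (nat_lit 78) (nat_lit 76) (nat_lit 0) (XT.lf (nat_lit 0) (nat_lit 509748909) (nat_lit 836) (nat_lit 4955671611) (nat_lit 912) (nat_lit 2041373365) (nat_lit 353) (nat_lit 5) (nat_lit 364) (nat_lit 5) (nat_lit 365) (nat_lit 5) (nat_lit 426) (nat_lit 363) (nat_lit 351)) (XT.lf (nat_lit 0) (nat_lit 1227231660) (nat_lit 912) (nat_lit 1535575510) (nat_lit 76) (nat_lit 4794594617) (nat_lit 352) (nat_lit 5) (nat_lit 364) (nat_lit 5) (nat_lit 353) (nat_lit 5) (nat_lit 427) (nat_lit 363) (nat_lit 350))) (XT.nd (nat_lit 78) (nat_lit 836) (nat_lit 0) (XT.lf (nat_lit 0) (nat_lit 4007769368) (nat_lit 760) (nat_lit 493035683) (nat_lit 836) (nat_lit 3108626790) (nat_lit 342) (nat_lit 5) (nat_lit 352) (nat_lit 5) (nat_lit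 353) (nat_lit 5) (nat_lit 428) (nat_lit 363) (nat_lit 349)) (XT.nd (nat_lit 78) (nat_lit 0) (nat_lit 0) (XT.lf (nat_lit 0) (nat_lit 151389850) (nat_lit 836) (nat_lit 5696680434) (nat_lit 76) (nat_lit 1814899572) (nat_lit 331) (nat_lit 5) (nat_lit 342) (nat_lit 5) (nat_lit 332) (nat_lit 5) (nat_lit 429) (nat_lit 363) (nat_lit 348)) (XT.lf (nat_lit 0) (nat_lit 3404493996) (nat_lit 836) (nat_lit 114131293) (nat_lit 76) (nat_lit 4199169553) (nat_lit 331) (nat_lit 5) (nat_lit 342) (nat_lit 5) (nat_lit 332) (nat_lit 5) (nat_lit 430) (nat_lit 363) (nat_lit 347))))) (XT.nd (nat_lit 234) (nat_lit 1444) (nat_lit 0) (XT.nd (nat_lit 78) (nat_lit 1520) (nat_lit 0) (XT.lf (nat_lit 0) (nat_lit 5587222977) (nat_lit 760) (nat_lit 1114731369) (nat_lit 836) (nat_lit 1072193163) (nat_lit 321) (nat_lit 5) (nat_lit 331) (nat_lit 5) (nat_lit 332) (nat_lit 5) (nat_lit 431) (nat_lit 363) (nat_lit 346)) (XT.nd (nat_lit 78) (nat_lit 684) (nat_lit 0) (XT.lf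 (nat_lit 0) (nat_lit 2180374357) (nat_lit 836) (nat_lit 4302909609) (nat_lit 76) (nat_lit 1348550937) (nat_lit 310) (nat_lit 5) (nat_lit 321) (nat_lit 5) (nat_lit 311) (nat_lit 5) (nat_lit 432) (nat_lit 363) (nat_lit 345)) (XT.lf (nat_lit 0) (nat_lit 1435509093) (nat_lit 684) (nat_lit 4023553413) (nat_lit 760) (nat_lit 2431979357) (nat_lit 301) (nat_lit 5) (nat_lit 310) (nat_lit 5) (nat_lit 311) (nat_lit 5) (nat_lit 433) (nat_lit 363) (nat_lit 344)))) (XT.nd (nat_lit 78) (nat_lit 1368) (nat_lit 0) (XT.lf (nat_lit 0) (nat_lit 814006186) (nat_lit 760) (nat_lit 676961476) (nat_lit 76) (nat_lit 6460904386) (nat_lit 300) (nat_lit 5) (nat_lit 310) (nat_lit 5) (nat_lit 301) (nat_lit 5) (nat_lit 434) (nat_lit 363) (nat_lit 343)) (XT.nd (nat_lit 78) (nat_lit 684) (nat_lit 0) (XT.lf (nat_lit 0) (nat_lit 4078823741) (nat_lit 760) (nat_lit 2818146568) (nat_lit 76) (nat_lit 1116912643) (nat_lit 291) (nat_lit 5) (nat_lit 301) (nat_lit 5)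 (nat_lit 292) (nat_lit 5) (nat_lit 435) (nat_lit 363) (nat_lit 342)) (XT.lf (nat_lit 0) (nat_lit 3081865806) (nat_lit 684) (nat_lit 4307413908) (nat_lit 760) (nat_lit 688262374) (nat_lit 282) (nat_lit 5) (nat_lit 291) (nat_lit 5) (nat_lit 292) (nat_lit 5) (nat_lit 436) (nat_lit 363) (nat_lit 341)))))) (XT.nd (nat_lit 390) (nat_lit 2432) (nat_lit 0) (XT.nd (nat_lit 156) (nat_lit 1900) (nat_lit 0) (XT.nd (nat_lit 78) (nat_lit 0) (nat_lit 0) (XT.lf (nat_lit 0) (nat_lit 923980517) (nat_lit 684) (nat_lit 1636266392) (nat_lit 760) (nat_lit 5582477435) (nat_lit 272) (nat_lit 5) (nat_lit 281) (nat_lit 5) (nat_lit 282) (nat_lit 5) (nat_lit 437) (nat_lit 363) (nat_lit 340)) (XT.lf (nat_lit 0) (nat_lit 5852016698) (nat_lit 760) (nat_lit 1258151415) (nat_lit 76) (nat_lit 1099215020) (nat_lit 272) (nat_lit 5) (nat_lit 282) (nat_lit 5) (nat_lit 273) (nat_lit 5) (nat_lit 438) (nat_lit 363) (nat_lit 339))) (XT.nd (nat_lit 78) (nat_lit 1216)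 (nat_lit 0) (XT.lf (nat_lit 0) (nat_lit 909721130) (nat_lit 684) (nat_lit 3475897922) (nat_lit 76) (nat_lit 3891854426) (nat_lit 263) (nat_lit 5) (nat_lit 272) (nat_lit 5) (nat_lit 264) (nat_lit 5) (nat_lit 439) (nat_lit 363) (nat_lit 338)) (XT.nd (nat_lit 78) (nat_lit 608) (nat_lit 0) (XT.lf (nat_lit 0) (nat_lit 2604830979) (nat_lit 608) (nat_lit 1579168676) (nat_lit 684) (nat_lit 4163159236) (nat_lit 255) (nat_lit 5) (nat_lit 263) (nat_lit 5) (nat_lit 264) (nat_lit 5) (nat_lit 440) (nat_lit 363) (nat_lit 337)) (XT.lf (nat_lit 0) (nat_lit 365861989) (nat_lit 608) (nat_lit 7140560044) (nat_lit 684) (nat_lit 912175747) (nat_lit 247) (nat_lit 5) (nat_lit 255) (nat_lit 5) (nat_lit 256) (nat_lit 5) (nat_lit 441) (nat_lit 363) (nat_lit 336))))) (XT.nd (nat_lit 234) (nat_lit 1140) (nat_lit 0) (XT.nd (nat_lit 78) (nat_lit 1216) (nat_lit 0) (XT.lf (nat_lit 0) (nat_lit 2370247118) (nat_lit 684) (nat_lit 1910183216) (nat_lit 76) (nat_lit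 4210776472) (nat_lit 246) (nat_lit 5) (nat_lit 255) (nat_lit 5) (nat_lit 247) (nat_lit 5) (nat_lit 442) (nat_lit 363) (nat_lit 335)) (XT.nd (nat_lit 78) (nat_lit 608) (nat_lit 0) (XT.lf (nat_lit 0) (nat_lit 4340197671) (nat_lit 608) (nat_lit 1343802531) (nat_lit 684) (nat_lit 2881601492) (nat_lit 238) (nat_lit 5) (nat_lit 246) (nat_lit 5) (nat_lit 247) (nat_lit 5) (nat_lit 443) (nat_lit 363) (nat_lit 334)) (XT.lf (nat_lit 0) (nat_lit 404004654) (nat_lit 608) (nat_lit 6594458836) (nat_lit 76) (nat_lit 1643237783) (nat_lit 230) (nat_lit 5) (nat_lit 238) (nat_lit 5) (nat_lit 231) (nat_lit 5) (nat_lit 444) (nat_lit 363) (nat_lit 333)))) (XT.nd (nat_lit 78) (nat_lit 1140) (nat_lit 0) (XT.lf (nat_lit 0) (nat_lit 3704591124) (nat_lit 608) (nat_lit 310917528) (nat_lit 76) (nat_lit 4703687673) (nat_lit 230) (nat_lit 5) (nat_lit 238) (nat_lit 5) (nat_lit 231) (nat_lit 5) (nat_lit 445) (nat_lit 363) (nat_lit 332)) (XT.nd (nat_lit 78) (nat_lit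 608) (nat_lit 0) (XT.lf (nat_lit 0) (nat_lit 6113166469) (nat_lit 532) (nat_lit 949061581) (nat_lit 608) (nat_lit 1736203711) (nat_lit 223) (nat_lit 5) (nat_lit 230) (nat_lit 5) (nat_lit 231) (nat_lit 5) (nat_lit 446) (nat_lit 363) (nat_lit 331)) (XT.lf (nat_lit 0) (nat_lit 1579049935) (nat_lit 608) (nat_lit 5129649080) (nat_lit 76) (nat_lit 2170507533) (nat_lit 215) (nat_lit 5) (nat_lit 223) (nat_lit 5) (nat_lit 216) (nat_lit 5) (nat_lit 447) (nat_lit 363) (nat_lit 330))))))) (XT.nd (nat_lit 858) (nat_lit 3268) (nat_lit 0) (XT.nd (nat_lit 390) (nat_lit 1900) (nat_lit 0) (XT.nd (nat_lit 156) (nat_lit 1596) (nat_lit 0) (XT.nd (nat_lit 78) (nat_lit 0) (nat_lit 0) (XT.lf (nat_lit 0) (nat_lit 1321716846) (nat_lit 532) (nat_lit 3600638282) (nat_lit 608) (nat_lit 4039322902) (nat_lit 208) (nat_lit 5) (nat_lit 215) (nat_lit 5) (nat_lit 216) (nat_lit 5) (nat_lit 448) (nat_lit 363) (nat_lit 329)) (XT.lf (nat_lit 0) (nat_lit 7906122867)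 (nat_lit 532) (nat_lit 413309616) (nat_lit 608) (nat_lit 726638739) (nat_lit 208) (nat_lit 5) (nat_lit 215) (nat_lit 5) (nat_lit 216) (nat_lit 5) (nat_lit 449) (nat_lit 363) (nat_lit 328))) (XT.nd (nat_lit 78) (nat_lit 1064) (nat_lit 0) (XT.lf (nat_lit 0) (nat_lit 2624846718) (nat_lit 532) (nat_lit 3670858211) (nat_lit 76) (nat_lit 2835966276) (nat_lit 201) (nat_lit 5) (nat_lit 208) (nat_lit 5) (nat_lit 202) (nat_lit 5) (nat_lit 450) (nat_lit 363) (nat_lit 327)) (XT.nd (nat_lit 78) (nat_lit 532) (nat_lit 0) (XT.lf (nat_lit 0) (nat_lit 2956118207) (nat_lit 532) (nat_lit 3060634299) (nat_lit 608) (nat_lit 3202482016) (nat_lit 194) (nat_lit 5) (nat_lit 201) (nat_lit 5) (nat_lit 202) (nat_lit 5) (nat_lit 451) (nat_lit 363) (nat_lit 326)) (XT.lf (nat_lit 0) (nat_lit 148385612) (nat_lit 532) (nat_lit 8914717845) (nat_lit 76) (nat_lit 245780442) (nat_lit 187) (nat_lit 5) (nat_lit 194) (nat_lit 5) (nat_lit 188) (nat_lit 5) (nat_lit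 452) (nat_lit 363) (nat_lit 325))))) (XT.nd (nat_lit 234) (nat_lit 912) (nat_lit 0) (XT.nd (nat_lit 78) (nat_lit 988) (nat_lit 0) (XT.lf (nat_lit 0) (nat_lit 3540025238) (nat_lit 532) (nat_lit 2237579996) (nat_lit 76) (nat_lit 3621974177) (nat_lit 187) (nat_lit 5) (nat_lit 194) (nat_lit 5) (nat_lit 188) (nat_lit 5) (nat_lit 453) (nat_lit 363) (nat_lit 324)) (XT.nd (nat_lit 78) (nat_lit 532) (nat_lit 0) (XT.lf (nat_lit 0) (nat_lit 4568477160) (nat_lit 456) (nat_lit 2415603208) (nat_lit 532) (nat_lit 2508325868) (nat_lit 181) (nat_lit 5) (nat_lit 187) (nat_lit 5) (nat_lit 188) (nat_lit 5) (nat_lit 454) (nat_lit 363) (nat_lit 323)) (XT.lf (nat_lit 0) (nat_lit 887257628) (nat_lit 532) (nat_lit 7685502916) (nat_lit 76) (nat_lit 1014434312) (nat_lit 174) (nat_lit 5) (nat_lit 181) (nat_lit 5) (nat_lit 175) (nat_lit 5) (nat_lit 455) (nat_lit 363) (nat_lit 322)))) (XT.nd (nat_lit 78) (nat_lit 912) (nat_lit 0) (XT.lf (nat_lit 0) (nat_lit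 4321875023) (nat_lit 532) (nat_lit 850539292) (nat_lit 76) (nat_lit 4511047689) (nat_lit 174) (nat_lit 5) (nat_lit 181) (nat_lit 5) (nat_lit 175) (nat_lit 5) (nat_lit 456) (nat_lit 363) (nat_lit 321)) (XT.nd (nat_lit 78) (nat_lit 456) (nat_lit 0) (XT.lf (nat_lit 0) (nat_lit 6137834368) (nat_lit 456) (nat_lit 1683494392) (nat_lit 532) (nat_lit 1960411221) (nat_lit 168) (nat_lit 5) (nat_lit 174) (nat_lit 5) (nat_lit 175) (nat_lit 5) (nat_lit 457) (nat_lit 363) (nat_lit 320)) (XT.lf (nat_lit 0) (nat_lit 1485333997) (nat_lit 456) (nat_lit 6528413137) (nat_lit 76) (nat_lit 1868121823) (nat_lit 162) (nat_lit 5) (nat_lit 168) (nat_lit 5) (nat_lit 163) (nat_lit 5) (nat_lit 458) (nat_lit 363) (nat_lit 319)))))) (XT.nd (nat_lit 468) (nat_lit 1520) (nat_lit 0) (XT.nd (nat_lit 234) (nat_lit 836) (nat_lit 0) (XT.nd (nat_lit 78) (nat_lit 456) (nat_lit 0) (XT.lf (nat_lit 0) (nat_lit 474301825) (nat_lit 456) (nat_lit 4495062869) (nat_lit 532)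 (nat_lit 5014472128) (nat_lit 156) (nat_lit 5) (nat_lit 162) (nat_lit 5) (nat_lit 163) (nat_lit 5) (nat_lit 459) (nat_lit 363) (nat_lit 318)) (XT.nd (nat_lit 78) (nat_lit 456) (nat_lit 0) (XT.lf (nat_lit 0) (nat_lit 7641716202) (nat_lit 456) (nat_lit 882355346) (nat_lit 532) (nat_lit 1563760312) (nat_lit 156) (nat_lit 5) (nat_lit 162) (nat_lit 5) (nat_lit 163) (nat_lit 5) (nat_lit 460) (nat_lit 363) (nat_lit 317)) (XT.lf (nat_lit 0) (nat_lit 1937209423) (nat_lit 456) (nat_lit 5467301037) (nat_lit 76) (nat_lit 2789011848) (nat_lit 150) (nat_lit 5) (nat_lit 156) (nat_lit 5) (nat_lit 151) (nat_lit 5) (nat_lit 461) (nat_lit 363) (nat_lit 316)))) (XT.nd (nat_lit 78) (nat_lit 456) (nat_lit 0) (XT.lf (nat_lit 0) (nat_lit 1716914873) (nat_lit 380) (nat_lit 3761904602) (nat_lit 456) (nat_lit 4822476450) (nat_lit 145) (nat_lit 5) (nat_lit 150) (nat_lit 5) (nat_lit 151) (nat_lit 5) (nat_lit 462) (nat_lit 363) (nat_lit 315)) (XT.nd (nat_lit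 78) (nat_lit 456) (nat_lit 0) (XT.lf (nat_lit 0) (nat_lit 9055884265) (nat_lit 380) (nat_lit 30505552) (nat_lit 456) (nat_lit 1324939776) (nat_lit 145) (nat_lit 5) (nat_lit 150) (nat_lit 5) (nat_lit 151) (nat_lit 5) (nat_lit 463) (nat_lit 363) (nat_lit 314)) (XT.lf (nat_lit 0) (nat_lit 2235930465) (nat_lit 456) (nat_lit 4527941933) (nat_lit 76) (nat_lit 3758951311) (nat_lit 139) (nat_lit 5) (nat_lit 145) (nat_lit 5) (nat_lit 140) (nat_lit 5) (nat_lit 464) (nat_lit 363) (nat_lit 313))))) (XT.nd (nat_lit 234) (nat_lit 760) (nat_lit 0) (XT.nd (nat_lit 78) (nat_lit 380) (nat_lit 0) (XT.lf (nat_lit 0) (nat_lit 2839803008) (nat_lit 380) (nat_lit 2997528110) (nat_lit 456) (nat_lit 4799307082) (nat_lit 134) (nat_lit 5) (nat_lit 139) (nat_lit 5) (nat_lit 140) (nat_lit 5) (nat_lit 465) (nat_lit 363) (nat_lit 312)) (XT.nd (nat_lit 78) (nat_lit 380) (nat_lit 0) (XT.lf (nat_lit 0) (nat_lit 9506321447) (nat_lit 456) (nat_lit 404410779) (nat_lit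 76) (nat_lit 842092118) (nat_lit 134) (nat_lit 5) (nat_lit 140) (nat_lit 5) (nat_lit 135) (nat_lit 5) (nat_lit 466) (nat_lit 363) (nat_lit 311)) (XT.lf (nat_lit 0) (nat_lit 2372897814) (nat_lit 380) (nat_lit 3738315948) (nat_lit 76) (nat_lit 4759283682) (nat_lit 129) (nat_lit 5) (nat_lit 134) (nat_lit 5) (nat_lit 130) (nat_lit 5) (nat_lit 467) (nat_lit 363) (nat_lit 310)))) (XT.nd (nat_lit 78) (nat_lit 380) (nat_lit 0) (XT.lf (nat_lit 0) (nat_lit 3814491014) (nat_lit 380) (nat_lit 2221421746) (nat_lit 456) (nat_lit 4954694337) (nat_lit 124) (nat_lit 5) (nat_lit 129) (nat_lit 5) (nat_lit 130) (nat_lit 5) (nat_lit 468) (nat_lit 363) (nat_lit 309)) (XT.nd (nat_lit 78) (nat_lit 76) (nat_lit 0) (XT.lf (nat_lit 0) (nat_lit 387973994) (nat_lit 304) (nat_lit 9383959832) (nat_lit 380) (nat_lit 1341196294) (nat_lit 120) (nat_lit 5) (nat_lit 124) (nat_lit 5) (nat_lit 125) (nat_lit 5) (nat_lit 469) (nat_lit 363) (nat_lit 308)) (XT.lf (nat_lit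 0) (nat_lit 2337753091) (nat_lit 380) (nat_lit 3128914507) (nat_lit 76) (nat_lit 5770658795) (nat_lit 119) (nat_lit 5) (nat_lit 124) (nat_lit 5) (nat_lit 120) (nat_lit 5) (nat_lit 470) (nat_lit 363) (nat_lit 307))))))))
noncomputable def xc50 : XT := (XT.nd (nat_lit 1716) (nat_lit 1672) (nat_lit 0) (XT.nd (nat_lit 858) (nat_lit 1976) (nat_lit 0) (XT.nd (nat_lit 390) (nat_lit 1216) (nat_lit 0) (XT.nd (nat_lit 156) (nat_lit 684) (nat_lit 0) (XT.nd (nat_lit 78) (nat_lit 304) (nat_lit 0) (XT.lf (nat_lit 0) (nat_lit 4609906862) (nat_lit 380) (nat_lit 1453878083) (nat_lit 456) (nat_lit 5300220840) (nat_lit 114) (nat_lit 5) (nat_lit 119) (nat_lit 5) (nat_lit 120) (nat_lit 5) (nat_lit 471) (nat_lit 363) (nat_lit 306)) (XT.lf (nat_lit 0) (nat_lit 987653447) (nat_lit 304) (nat_lit 8883098409) (nat_lit 380) (nat_lit 1622344252) (nat_lit 110) (nat_lit 5) (nat_lit 114) (nat_lit 5) (nat_lit 115) (nat_lit 5) (nat_lit 472) (nat_lit 363) (nat_lit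 305))) (XT.nd (nat_lit 78) (nat_lit 608) (nat_lit 0) (XT.lf (nat_lit 0) (nat_lit 2118248961) (nat_lit 380) (nat_lit 2733074275) (nat_lit 76) (nat_lit 6772832292) (nat_lit 109) (nat_lit 5) (nat_lit 114) (nat_lit 5) (nat_lit 110) (nat_lit 5) (nat_lit 473) (nat_lit 363) (nat_lit 304)) (XT.nd (nat_lit 78) (nat_lit 304) (nat_lit 0) (XT.lf (nat_lit 0) (nat_lit 5192038057) (nat_lit 304) (nat_lit 716202123) (nat_lit 380) (nat_lit 5849460602) (nat_lit 105) (nat_lit 5) (nat_lit 109) (nat_lit 5) (nat_lit 110) (nat_lit 5) (nat_lit 474) (nat_lit 363) (nat_lit 303)) (XT.lf (nat_lit 0) (nat_lit 1353790028) (nat_lit 304) (nat_lit 8433006212) (nat_lit 380) (nat_lit 2106870601) (nat_lit 101) (nat_lit 5) (nat_lit 105) (nat_lit 5) (nat_lit 106) (nat_lit 5) (nat_lit 475) (nat_lit 363) (nat_lit 302))))) (XT.nd (nat_lit 234) (nat_lit 608) (nat_lit 0) (XT.nd (nat_lit 78) (nat_lit 532) (nat_lit 0) (XT.lf (nat_lit 0) (nat_lit 1700101177) (nat_lit 380)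 (nat_lit 2587341819) (nat_lit 76) (nat_lit 7744452812) (nat_lit 100) (nat_lit 5) (nat_lit 105) (nat_lit 5) (nat_lit 101) (nat_lit 5) (nat_lit 476) (nat_lit 363) (nat_lit 301)) (XT.nd (nat_lit 78) (nat_lit 228) (nat_lit 0) (XT.lf (nat_lit 0) (nat_lit 5523556172) (nat_lit 304) (nat_lit 30932743) (nat_lit 380) (nat_lit 6618137063) (nat_lit 96) (nat_lit 5) (nat_lit 100) (nat_lit 5) (nat_lit 101) (nat_lit 5) (nat_lit 477) (nat_lit 363) (nat_lit 300)) (XT.lf (nat_lit 0) (nat_lit 1447434414) (nat_lit 228) (nat_lit 8057176199) (nat_lit 304) (nat_lit 2811192018) (nat_lit 93) (nat_lit 5) (nat_lit 96) (nat_lit 5) (nat_lit 97) (nat_lit 5) (nat_lit 478) (nat_lit 363) (nat_lit 299)))) (XT.nd (nat_lit 78) (nat_lit 532) (nat_lit 0) (XT.lf (nat_lit 0) (nat_lit 1066820984) (nat_lit 304) (nat_lit 2731872543) (nat_lit 76) (nat_lit 8662834978) (nat_lit 92) (nat_lit 5) (nat_lit 96) (nat_lit 5) (nat_lit 93) (nat_lit 5) (nat_lit 479) (nat_lit 363)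 (nat_lit 298)) (XT.nd (nat_lit 78) (nat_lit 228) (nat_lit 0) (XT.lf (nat_lit 0) (nat_lit 4989237619) (nat_lit 380) (nat_lit 7050133455) (nat_lit 76) (nat_lit 570341005) (nat_lit 88) (nat_lit 5) (nat_lit 93) (nat_lit 5) (nat_lit 89) (nat_lit 5) (nat_lit 480) (nat_lit 363) (nat_lit 297)) (XT.lf (nat_lit 0) (nat_lit 1225724693) (nat_lit 228) (nat_lit 7780693718) (nat_lit 304) (nat_lit 3754119038) (nat_lit 85) (nat_lit 5) (nat_lit 88) (nat_lit 5) (nat_lit 89) (nat_lit 5) (nat_lit 481) (nat_lit 363) (nat_lit 296)))))) (XT.nd (nat_lit 390) (nat_lit 1064) (nat_lit 0) (XT.nd (nat_lit 156) (nat_lit 532) (nat_lit 0) (XT.nd (nat_lit 78) (nat_lit 304) (nat_lit 0) (XT.lf (nat_lit 0) (nat_lit 199526166) (nat_lit 304) (nat_lit 3210867813) (nat_lit 76) (nat_lit 9503716019) (nat_lit 84) (nat_lit 5) (nat_lit 88) (nat_lit 5) (nat_lit 85) (nat_lit 5) (nat_lit 482) (nat_lit 363) (nat_lit 295)) (XT.lf (nat_lit 0) (nat_lit 4188773485) (nat_lit 380)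 (nat_lit 7810954234) (nat_lit 76) (nat_lit 1070398233) (nat_lit 80) (nat_lit 5) (nat_lit 85) (nat_lit 5) (nat_lit 81) (nat_lit 5) (nat_lit 483) (nat_lit 363) (nat_lit 294))) (XT.nd (nat_lit 78) (nat_lit 304) (nat_lit 0) (XT.lf (nat_lit 0) (nat_lit 641418676) (nat_lit 228) (nat_lit 7630498916) (nat_lit 304) (nat_lit 4957066495) (nat_lit 77) (nat_lit 5) (nat_lit 80) (nat_lit 5) (nat_lit 81) (nat_lit 5) (nat_lit 484) (nat_lit 363) (nat_lit 293)) (XT.nd (nat_lit 78) (nat_lit 304) (nat_lit 0) (XT.lf (nat_lit 0) (nat_lit 9311526871) (nat_lit 228) (nat_lit 3143587716) (nat_lit 304) (nat_lit 935541019) (nat_lit 77) (nat_lit 5) (nat_lit 80) (nat_lit 5) (nat_lit 81) (nat_lit 5) (nat_lit 485) (nat_lit 363) (nat_lit 292)) (XT.lf (nat_lit 0) (nat_lit 3130544883) (nat_lit 304) (nat_lit 8982220498) (nat_lit 76) (nat_lit 1442274710) (nat_lit 73) (nat_lit 5) (nat_lit 77) (nat_lit 5) (nat_lit 74) (nat_lit 5) (nat_lit 486) (nat_lit 363) (nat_lit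 291))))) (XT.nd (nat_lit 234) (nat_lit 532) (nat_lit 0) (XT.nd (nat_lit 78) (nat_lit 532) (nat_lit 0) (XT.lf (nat_lit 0) (nat_lit 7280372436) (nat_lit 304) (nat_lit 352929414) (nat_lit 76) (nat_lit 6088991589) (nat_lit 73) (nat_lit 5) (nat_lit 77) (nat_lit 5) (nat_lit 74) (nat_lit 5) (nat_lit 487) (nat_lit 363) (nat_lit 290)) (XT.nd (nat_lit 78) (nat_lit 304) (nat_lit 0) (XT.lf (nat_lit 0) (nat_lit 8504932596) (nat_lit 228) (nat_lit 3030701525) (nat_lit 304) (nat_lit 2356812694) (nat_lit 70) (nat_lit 5) (nat_lit 73) (nat_lit 5) (nat_lit 74) (nat_lit 5) (nat_lit 488) (nat_lit 363) (nat_lit 289)) (XT.lf (nat_lit 0) (nat_lit 1789267138) (nat_lit 304) (nat_lit 10620109898) (nat_lit 76) (nat_lit 1656334605) (nat_lit 66) (nat_lit 5) (nat_lit 70) (nat_lit 5) (nat_lit 67) (nat_lit 5) (nat_lit 489) (nat_lit 363) (nat_lit 288)))) (XT.nd (nat_lit 78) (nat_lit 532) (nat_lit 0) (XT.lf (nat_lit 0) (nat_lit 6010621680) (nat_lit 304) (nat_lit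 1804997222) (nat_lit 76) (nat_lit 6426036572) (nat_lit 66) (nat_lit 5) (nat_lit 70) (nat_lit 5) (nat_lit 67) (nat_lit 5) (nat_lit 490) (nat_lit 363) (nat_lit 287)) (XT.nd (nat_lit 78) (nat_lit 304) (nat_lit 0) (XT.lf (nat_lit 0) (nat_lit 7226518925) (nat_lit 228) (nat_lit 3104860588) (nat_lit 304) (nat_lit 4089442578) (nat_lit 63) (nat_lit 5) (nat_lit 66) (nat_lit 5) (nat_lit 67) (nat_lit 5) (nat_lit 491) (nat_lit 363) (nat_lit 286)) (XT.lf (nat_lit 0) (nat_lit 136444426) (nat_lit 304) (nat_lit 12786690586) (nat_lit 76) (nat_lit 1680358116) (nat_lit 59) (nat_lit 5) (nat_lit 63) (nat_lit 5) (nat_lit 60) (nat_lit 5) (nat_lit 492) (nat_lit 363) (nat_lit 285))))))) (XT.nd (nat_lit 858) (nat_lit 304) (nat_lit 0) (XT.nd (nat_lit 390) (nat_lit 760) (nat_lit 0) (XT.nd (nat_lit 156) (nat_lit 456) (nat_lit 0) (XT.nd (nat_lit 78) (nat_lit 152) (nat_lit 0) (XT.lf (nat_lit 0) (nat_lit 4429543669) (nat_lit 304) (nat_lit 3786035707) (nat_lit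 76) (nat_lit 6572951775) (nat_lit 59) (nat_lit 5) (nat_lit 63) (nat_lit 5) (nat_lit 60) (nat_lit 5) (nat_lit 493) (nat_lit 363) (nat_lit 284)) (XT.lf (nat_lit 0) (nat_lit 5411814480) (nat_lit 152) (nat_lit 3400691896) (nat_lit 228) (nat_lit 6164686699) (nat_lit 57) (nat_lit 5) (nat_lit 59) (nat_lit 5) (nat_lit 60) (nat_lit 5) (nat_lit 494) (nat_lit 363) (nat_lit 283))) (XT.nd (nat_lit 78) (nat_lit 456) (nat_lit 0) (XT.lf (nat_lit 0) (nat_lit 13287491396) (nat_lit 228) (nat_lit 388067924) (nat_lit 76) (nat_lit 1493984765) (nat_lit 57) (nat_lit 5) (nat_lit 60) (nat_lit 5) (nat_lit 58) (nat_lit 5) (nat_lit 495) (nat_lit 363) (nat_lit 282)) (XT.nd (nat_lit 78) (nat_lit 152) (nat_lit 0) (XT.lf (nat_lit 0) (nat_lit 2504605320) (nat_lit 304) (nat_lit 6365557843) (nat_lit 76) (nat_lit 6494239518) (nat_lit 53) (nat_lit 5) (nat_lit 57) (nat_lit 5) (nat_lit 54) (nat_lit 5) (nat_lit 496) (nat_lit 363) (nat_lit 281)) (XT.lf (nat_lit 0) (nat_lit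 2989459702) (nat_lit 152) (nat_lit 3956032900) (nat_lit 228) (nat_lit 8617586034) (nat_lit 51) (nat_lit 5) (nat_lit 53) (nat_lit 5) (nat_lit 54) (nat_lit 5) (nat_lit 497) (nat_lit 363) (nat_lit 280))))) (XT.nd (nat_lit 234) (nat_lit 456) (nat_lit 0) (XT.nd (nat_lit 78) (nat_lit 304) (nat_lit 0) (XT.lf (nat_lit 0) (nat_lit 11494805869) (nat_lit 228) (nat_lit 3207178221) (nat_lit 76) (nat_lit 1063354725) (nat_lit 51) (nat_lit 5) (nat_lit 54) (nat_lit 5) (nat_lit 52) (nat_lit 5) (nat_lit 498) (nat_lit 363) (nat_lit 279)) (XT.nd (nat_lit 78) (nat_lit 0) (nat_lit 0) (XT.lf (nat_lit 0) (nat_lit 199346726) (nat_lit 304) (nat_lit 9620494145) (nat_lit 76) (nat_lit 6151024275) (nat_lit 47) (nat_lit 5) (nat_lit 51) (nat_lit 5) (nat_lit 48) (nat_lit 5) (nat_lit 499) (nat_lit 363) (nat_lit 278)) (XT.lf (nat_lit 0) (nat_lit 4693551598) (nat_lit 304) (nat_lit 117992060) (nat_lit 76) (nat_lit 11368554285) (nat_lit 47) (nat_lit 5) (nat_lit 51)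 (nat_lit 5) (nat_lit 48) (nat_lit 5) (nat_lit 500) (nat_lit 363) (nat_lit 277)))) (XT.nd (nat_lit 78) (nat_lit 304) (nat_lit 0) (XT.lf (nat_lit 0) (nat_lit 9313468111) (nat_lit 228) (nat_lit 6744943765) (nat_lit 76) (nat_lit 334389622) (nat_lit 45) (nat_lit 5) (nat_lit 48) (nat_lit 5) (nat_lit 46) (nat_lit 5) (nat_lit 501) (nat_lit 363) (nat_lit 276)) (XT.nd (nat_lit 78) (nat_lit 76) (nat_lit 0) (XT.lf (nat_lit 0) (nat_lit 2956666368) (nat_lit 228) (nat_lit 11092045434) (nat_lit 304) (nat_lit 2560591347) (nat_lit 42) (nat_lit 5) (nat_lit 45) (nat_lit 5) (nat_lit 46) (nat_lit 5) (nat_lit 502) (nat_lit 363) (nat_lit 275)) (XT.lf (nat_lit 0) (nat_lit 2038336256) (nat_lit 304) (nat_lit 3950263283) (nat_lit 76) (nat_lit 10840938233) (nat_lit 41) (nat_lit 5) (nat_lit 45) (nat_lit 5) (nat_lit 42) (nat_lit 5) (nat_lit 503) (nat_lit 363) (nat_lit 274)))))) (XT.nd (nat_lit 52416) (nat_lit 0) (nat_lit 28500) (XT.nd (nat_lit 52182) (nat_lit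 0) (nat_lit 35036) (XT.nd (nat_lit 78) (nat_lit 152) (nat_lit 0) (XT.lf (nat_lit 0) (nat_lit 5957160980) (nat_lit 152) (nat_lit 748186995) (nat_lit 228) (nat_lit 10348285218) (nat_lit 39) (nat_lit 5) (nat_lit 41) (nat_lit 5) (nat_lit 42) (nat_lit 5) (nat_lit 504) (nat_lit 363) (nat_lit 273)) (XT.nd (nat_lit 78) (nat_lit 152) (nat_lit 0) (XT.lf (nat_lit 0) (nat_lit 11494003253) (nat_lit 228) (nat_lit 1245683540) (nat_lit 76) (nat_lit 4541960065) (nat_lit 39) (nat_lit 5) (nat_lit 42) (nat_lit 5) (nat_lit 40) (nat_lit 5) (nat_lit 505) (nat_lit 363) (nat_lit 272)) (XT.lf (nat_lit 0) (nat_lit 8864145169) (nat_lit 152) (nat_lit 7549119173) (nat_lit 228) (nat_lit 1100262155) (nat_lit 37) (nat_lit 5) (nat_lit 39) (nat_lit 5) (nat_lit 40) (nat_lit 5) (nat_lit 506) (nat_lit 363) (nat_lit 271)))) (XT.nd (nat_lit 78) (nat_lit 1596) (nat_lit 0) (XT.lf (nat_lit 0) (nat_lit 187232809) (nat_lit 1444) (nat_lit 1641827847) (nat_lit 1444) (nat_lit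 1641827847) (nat_lit 519) (nat_lit 4) (nat_lit 538) (nat_lit 5) (nat_lit 538) (nat_lit 4) (nat_lit 412) (nat_lit 364) (nat_lit 364)) (XT.nd (nat_lit 78) (nat_lit 1520) (nat_lit 0) (XT.lf (nat_lit 0) (nat_lit 70463118) (nat_lit 1520) (nat_lit 1730628798) (nat_lit 76) (nat_lit 5172913626) (nat_lit 518) (nat_lit 5) (nat_lit 538) (nat_lit 5) (nat_lit 519) (nat_lit 4) (nat_lit 413) (nat_lit 364) (nat_lit 363)) (XT.lf (nat_lit 0) (nat_lit 3158178464) (nat_lit 1520) (nat_lit 241515728) (nat_lit 1596) (nat_lit 3607737303) (nat_lit 498) (nat_lit 5) (nat_lit 518) (nat_lit 5) (nat_lit 519) (nat_lit 4) (nat_lit 414) (nat_lit 364) (nat_lit 362))))) (XT.nd (nat_lit 234) (nat_lit 3192) (nat_lit 0) (XT.nd (nat_lit 78) (nat_lit 1748) (nat_lit 0) (XT.lf (nat_lit 0) (nat_lit 1066818430) (nat_lit 1596) (nat_lit 5688474336) (nat_lit 1596) (nat_lit 287063926) (nat_lit 477) (nat_lit 4) (nat_lit 498) (nat_lit 5) (nat_lit 498) (nat_lit 4) (nat_lit 415)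 (nat_lit 364) (nat_lit 361)) (XT.nd (nat_lit 78) (nat_lit 1672) (nat_lit 0) (XT.lf (nat_lit 0) (nat_lit 3019809637) (nat_lit 1672) (nat_lit 1031724442) (nat_lit 76) (nat_lit 3026860240) (nat_lit 476) (nat_lit 5) (nat_lit 498) (nat_lit 5) (nat_lit 477) (nat_lit 4) (nat_lit 416) (nat_lit 364) (nat_lit 360)) (XT.lf (nat_lit 0) (nat_lit 3997023791) (nat_lit 1672) (nat_lit 2352067877) (nat_lit 1748) (nat_lit 766845645) (nat_lit 454) (nat_lit 5) (nat_lit 476) (nat_lit 5) (nat_lit 477) (nat_lit 4) (nat_lit 417) (nat_lit 364) (nat_lit 359)))) (XT.nd (nat_lit 78) (nat_lit 1368) (nat_lit 0) (XT.lf (nat_lit 0) (nat_lit 1929750383) (nat_lit 1748) (nat_lit 581079186) (nat_lit 1824) (nat_lit 4644007493) (nat_lit 430) (nat_lit 5) (nat_lit 453) (nat_lit 5) (nat_lit 454) (nat_lit 5) (nat_lit 418) (nat_lit 364) (nat_lit 358)) (XT.nd (nat_lit 78) (nat_lit 1368) (nat_lit 0) (XT.lf (nat_lit 0) (nat_lit 5808268668) (nat_lit 1824) (nat_lit 151422987)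 (nat_lit 76) (nat_lit 1235455632) (nat_lit 430) (nat_lit 5) (nat_lit 454) (nat_lit 5) (nat_lit 431) (nat_lit 4) (nat_lit 419) (nat_lit 364) (nat_lit 357)) (XT.lf (nat_lit 0) (nat_lit 1882969317) (nat_lit 1368) (nat_lit 2228020600) (nat_lit 76) (nat_lit 3125585807) (nat_lit 412) (nat_lit 5) (nat_lit 430) (nat_lit 5) (nat_lit 413) (nat_lit 5) (nat_lit 420) (nat_lit 364) (nat_lit 356))))))))
noncomputable def xc51 : XT := (XT.nd (nat_lit 1716) (nat_lit 8512) (nat_lit 0) (XT.nd (nat_lit 858) (nat_lit 5700) (nat_lit 0) (XT.nd (nat_lit 390) (nat_lit 3268) (nat_lit 0) (XT.nd (nat_lit 156) (nat_lit 1824) (nat_lit 0) (XT.nd (nat_lit 78) (nat_lit 912) (nat_lit 0) (XT.lf (nat_lit 0) (nat_lit 2959635555) (nat_lit 912) (nat_lit 2197364168) (nat_lit 988) (nat_lit 2122524621) (nat_lit 400) (nat_lit 5) (nat_lit 412) (nat_lit 5) (nat_lit 413) (nat_lit 5) (nat_lit 421) (nat_lit 364) (nat_lit 355)) (XT.lf (nat_lit 0) (nat_lit 896873025) (nat_lit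 836) (nat_lit 219274119) (nat_lit 912) (nat_lit 6207886573) (nat_lit 388) (nat_lit 5) (nat_lit 399) (nat_lit 5) (nat_lit 400) (nat_lit 5) (nat_lit 422) (nat_lit 364) (nat_lit 354))) (XT.nd (nat_lit 78) (nat_lit 1824) (nat_lit 0) (XT.lf (nat_lit 0) (nat_lit 4370319831) (nat_lit 912) (nat_lit 1184441634) (nat_lit 76) (nat_lit 1814829055) (nat_lit 388) (nat_lit 5) (nat_lit 400) (nat_lit 5) (nat_lit 389) (nat_lit 5) (nat_lit 423) (nat_lit 364) (nat_lit 353)) (XT.nd (nat_lit 78) (nat_lit 836) (nat_lit 0) (XT.lf (nat_lit 0) (nat_lit 237577181) (nat_lit 988) (nat_lit 3267053353) (nat_lit 76) (nat_lit 3912059463) (nat_lit 375) (nat_lit 5) (nat_lit 388) (nat_lit 5) (nat_lit 376) (nat_lit 5) (nat_lit 424) (nat_lit 364) (nat_lit 352)) (XT.lf (nat_lit 0) (nat_lit 2084011011) (nat_lit 836) (nat_lit 1376387740) (nat_lit 912) (nat_lit 4004727872) (nat_lit 364) (nat_lit 5) (nat_lit 375) (nat_lit 5) (nat_lit 376) (nat_lit 5) (nat_lit 425) (nat_lit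 364) (nat_lit 351))))) (XT.nd (nat_lit 234) (nat_lit 1596) (nat_lit 0) (XT.nd (nat_lit 78) (nat_lit 836) (nat_lit 0) (XT.lf (nat_lit 0) (nat_lit 970701) (nat_lit 836) (nat_lit 6714490309) (nat_lit 912) (nat_lit 799734503) (nat_lit 353) (nat_lit 5) (nat_lit 364) (nat_lit 5) (nat_lit 365) (nat_lit 5) (nat_lit 426) (nat_lit 364) (nat_lit 350)) (XT.nd (nat_lit 78) (nat_lit 760) (nat_lit 0) (XT.lf (nat_lit 0) (nat_lit 2423320664) (nat_lit 912) (nat_lit 2093686970) (nat_lit 76) (nat_lit 3049229004) (nat_lit 352) (nat_lit 5) (nat_lit 364) (nat_lit 5) (nat_lit 353) (nat_lit 5) (nat_lit 427) (nat_lit 364) (nat_lit 349)) (XT.lf (nat_lit 0) (nat_lit 3409587070) (nat_lit 760) (nat_lit 2254731483) (nat_lit 836) (nat_lit 1954608615) (nat_lit 342) (nat_lit 5) (nat_lit 352) (nat_lit 5) (nat_lit 353) (nat_lit 5) (nat_lit 428) (nat_lit 364) (nat_lit 348)))) (XT.nd (nat_lit 78) (nat_lit 760) (nat_lit 0) (XT.lf (nat_lit 0) (nat_lit 1246037410)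 (nat_lit 836) (nat_lit 6351426123) (nat_lit 76) (nat_lit 75745121) (nat_lit 331) (nat_lit 5) (nat_lit 342) (nat_lit 5) (nat_lit 332) (nat_lit 5) (nat_lit 429) (nat_lit 364) (nat_lit 347)) (XT.nd (nat_lit 78) (nat_lit 760) (nat_lit 0) (XT.lf (nat_lit 0) (nat_lit 4470932727) (nat_lit 836) (nat_lit 801611283) (nat_lit 76) (nat_lit 2456062256) (nat_lit 331) (nat_lit 5) (nat_lit 342) (nat_lit 5) (nat_lit 332) (nat_lit 5) (nat_lit 430) (nat_lit 364) (nat_lit 346)) (XT.lf (nat_lit 0) (nat_lit 4858087795) (nat_lit 760) (nat_lit 2877915538) (nat_lit 836) (nat_lit 49611677) (nat_lit 321) (nat_lit 5) (nat_lit 331) (nat_lit 5) (nat_lit 332) (nat_lit 5) (nat_lit 431) (nat_lit 364) (nat_lit 345)))))) (XT.nd (nat_lit 390) (nat_lit 2660) (nat_lit 0) (XT.nd (nat_lit 156) (nat_lit 1520) (nat_lit 0) (XT.nd (nat_lit 78) (nat_lit 684) (nat_lit 0) (XT.lf (nat_lit 0) (nat_lit 2748118856) (nat_lit 760) (nat_lit 399915948) (nat_lit 836) (nat_lit 4695972969)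 (nat_lit 310) (nat_lit 5) (nat_lit 320) (nat_lit 5) (nat_lit 321) (nat_lit 5) (nat_lit 432) (nat_lit 364) (nat_lit 344)) (XT.lf (nat_lit 0) (nat_lit 601627354) (nat_lit 684) (nat_lit 5789875355) (nat_lit 760) (nat_lit 1512424233) (nat_lit 301) (nat_lit 5) (nat_lit 310) (nat_lit 5) (nat_lit 311) (nat_lit 5) (nat_lit 433) (nat_lit 364) (nat_lit 343))) (XT.nd (nat_lit 78) (nat_lit 1444) (nat_lit 0) (XT.lf (nat_lit 0) (nat_lit 1694429459) (nat_lit 760) (nat_lit 1562414141) (nat_lit 76) (nat_lit 4708343056) (nat_lit 300) (nat_lit 5) (nat_lit 310) (nat_lit 5) (nat_lit 301) (nat_lit 5) (nat_lit 434) (nat_lit 364) (nat_lit 342)) (XT.nd (nat_lit 78) (nat_lit 760) (nat_lit 0) (XT.lf (nat_lit 0) (nat_lit 4273511341) (nat_lit 684) (nat_lit 645810301) (nat_lit 760) (nat_lit 3108681779) (nat_lit 291) (nat_lit 5) (nat_lit 300) (nat_lit 5) (nat_lit 301) (nat_lit 5) (nat_lit 435) (nat_lit 364) (nat_lit 341)) (XT.lf (nat_lit 0) (nat_lit 99250361)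 (nat_lit 760) (nat_lit 5988521456) (nat_lit 76) (nat_lit 2004620941) (nat_lit 281) (nat_lit 5) (nat_lit 291) (nat_lit 5) (nat_lit 282) (nat_lit 5) (nat_lit 436) (nat_lit 364) (nat_lit 340))))) (XT.nd (nat_lit 234) (nat_lit 1292) (nat_lit 0) (XT.nd (nat_lit 78) (nat_lit 1368) (nat_lit 0) (XT.lf (nat_lit 0) (nat_lit 3306597297) (nat_lit 760) (nat_lit 117951030) (nat_lit 76) (nat_lit 4733586957) (nat_lit 281) (nat_lit 5) (nat_lit 291) (nat_lit 5) (nat_lit 282) (nat_lit 5) (nat_lit 437) (nat_lit 364) (nat_lit 339)) (XT.nd (nat_lit 78) (nat_lit 684) (nat_lit 0) (XT.lf (nat_lit 0) (nat_lit 5882823240) (nat_lit 684) (nat_lit 681702467) (nat_lit 760) (nat_lit 1660951987) (nat_lit 272) (nat_lit 5) (nat_lit 281) (nat_lit 5) (nat_lit 282) (nat_lit 5) (nat_lit 438) (nat_lit 364) (nat_lit 338)) (XT.lf (nat_lit 0) (nat_lit 1559638218) (nat_lit 684) (nat_lit 4623999511) (nat_lit 76) (nat_lit 2110593685) (nat_lit 263) (nat_lit 5) (nat_lit 272)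 (nat_lit 5) (nat_lit 264) (nat_lit 5) (nat_lit 439) (nat_lit 364) (nat_lit 337)))) (XT.nd (nat_lit 78) (nat_lit 684) (nat_lit 0) (XT.lf (nat_lit 0) (nat_lit 1408787630) (nat_lit 608) (nat_lit 3392113062) (nat_lit 684) (nat_lit 3563682858) (nat_lit 255) (nat_lit 5) (nat_lit 263) (nat_lit 5) (nat_lit 264) (nat_lit 5) (nat_lit 440) (nat_lit 364) (nat_lit 336)) (XT.nd (nat_lit 78) (nat_lit 684) (nat_lit 0) (XT.lf (nat_lit 0) (nat_lit 7560182719) (nat_lit 608) (nat_lit 527408934) (nat_lit 684) (nat_lit 349151691) (nat_lit 255) (nat_lit 5) (nat_lit 263) (nat_lit 5) (nat_lit 264) (nat_lit 5) (nat_lit 441) (nat_lit 364) (nat_lit 335)) (XT.lf (nat_lit 0) (nat_lit 2891759139) (nat_lit 684) (nat_lit 3215334706) (nat_lit 76) (nat_lit 2402874005) (nat_lit 246) (nat_lit 5) (nat_lit 255) (nat_lit 5) (nat_lit 247) (nat_lit 5) (nat_lit 442) (nat_lit 364) (nat_lit 334))))))) (XT.nd (nat_lit 858) (nat_lit 4028) (nat_lit 0) (XT.nd (nat_lit 390)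 (nat_lit 2128) (nat_lit 0) (XT.nd (nat_lit 156) (nat_lit 1140) (nat_lit 0) (XT.nd (nat_lit 78) (nat_lit 608) (nat_lit 0) (XT.lf (nat_lit 0) (nat_lit 2985290150) (nat_lit 608) (nat_lit 3187014773) (nat_lit 684) (nat_lit 2412727875) (nat_lit 238) (nat_lit 5) (nat_lit 246) (nat_lit 5) (nat_lit 247) (nat_lit 5) (nat_lit 443) (nat_lit 364) (nat_lit 333)) (XT.lf (nat_lit 0) (nat_lit 630050814) (nat_lit 532) (nat_lit 192290784) (nat_lit 608) (nat_lit 7839623327) (nat_lit 230) (nat_lit 5) (nat_lit 237) (nat_lit 5) (nat_lit 238) (nat_lit 5) (nat_lit 444) (nat_lit 364) (nat_lit 332))) (XT.nd (nat_lit 78) (nat_lit 1140) (nat_lit 0) (XT.lf (nat_lit 0) (nat_lit 4097594438) (nat_lit 608) (nat_lit 1779452747) (nat_lit 76) (nat_lit 2862925037) (nat_lit 230) (nat_lit 5) (nat_lit 238) (nat_lit 5) (nat_lit 231) (nat_lit 5) (nat_lit 445) (nat_lit 364) (nat_lit 331)) (XT.nd (nat_lit 78) (nat_lit 608) (nat_lit 0) (XT.lf (nat_lit 0) (nat_lit 4592999454)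 (nat_lit 532) (nat_lit 2828749086) (nat_lit 608) (nat_lit 1398134240) (nat_lit 223) (nat_lit 5) (nat_lit 230) (nat_lit 5) (nat_lit 231) (nat_lit 5) (nat_lit 446) (nat_lit 364) (nat_lit 330)) (XT.lf (nat_lit 0) (nat_lit 1866493279) (nat_lit 608) (nat_lit 6735982827) (nat_lit 76) (nat_lit 299066660) (nat_lit 215) (nat_lit 5) (nat_lit 223) (nat_lit 5) (nat_lit 216) (nat_lit 5) (nat_lit 447) (nat_lit 364) (nat_lit 329))))) (XT.nd (nat_lit 234) (nat_lit 1064) (nat_lit 0) (XT.nd (nat_lit 78) (nat_lit 1064) (nat_lit 0) (XT.lf (nat_lit 0) (nat_lit 5177904544) (nat_lit 608) (nat_lit 333962171) (nat_lit 76) (nat_lit 3472790561) (nat_lit 215) (nat_lit 5) (nat_lit 223) (nat_lit 5) (nat_lit 216) (nat_lit 5) (nat_lit 448) (nat_lit 364) (nat_lit 328)) (XT.nd (nat_lit 78) (nat_lit 532) (nat_lit 0) (XT.lf (nat_lit 0) (nat_lit 6214205548) (nat_lit 532) (nat_lit 2335517404) (nat_lit 608) (nat_lit 519837742) (nat_lit 208) (nat_lit 5) (nat_lit 215)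 (nat_lit 5) (nat_lit 216) (nat_lit 5) (nat_lit 449) (nat_lit 364) (nat_lit 327)) (XT.lf (nat_lit 0) (nat_lit 2782065557) (nat_lit 532) (nat_lit 5453873407) (nat_lit 76) (nat_lit 920137111) (nat_lit 201) (nat_lit 5) (nat_lit 208) (nat_lit 5) (nat_lit 202) (nat_lit 5) (nat_lit 450) (nat_lit 364) (nat_lit 326)))) (XT.nd (nat_lit 78) (nat_lit 532) (nat_lit 0) (XT.lf (nat_lit 0) (nat_lit 1117311571) (nat_lit 532) (nat_lit 5022143210) (nat_lit 608) (nat_lit 3104879699) (nat_lit 194) (nat_lit 5) (nat_lit 201) (nat_lit 5) (nat_lit 202) (nat_lit 5) (nat_lit 451) (nat_lit 364) (nat_lit 325)) (XT.nd (nat_lit 78) (nat_lit 456) (nat_lit 0) (XT.lf (nat_lit 0) (nat_lit 218029025) (nat_lit 608) (nat_lit 1505686363) (nat_lit 76) (nat_lit 7610793942) (nat_lit 193) (nat_lit 5) (nat_lit 201) (nat_lit 5) (nat_lit 194) (nat_lit 5) (nat_lit 452) (nat_lit 364) (nat_lit 324)) (XT.lf (nat_lit 0) (nat_lit 3566189442) (nat_lit 532) (nat_lit 4203959056)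 (nat_lit 76) (nat_lit 1655930413) (nat_lit 187) (nat_lit 5) (nat_lit 194) (nat_lit 5) (nat_lit 188) (nat_lit 5) (nat_lit 453) (nat_lit 364) (nat_lit 323)))))) (XT.nd (nat_lit 468) (nat_lit 2128) (nat_lit 0) (XT.nd (nat_lit 234) (nat_lit 912) (nat_lit 0) (XT.nd (nat_lit 78) (nat_lit 532) (nat_lit 0) (XT.lf (nat_lit 0) (nat_lit 2544225739) (nat_lit 456) (nat_lit 4430997351) (nat_lit 532) (nat_lit 2544387470) (nat_lit 181) (nat_lit 5) (nat_lit 187) (nat_lit 5) (nat_lit 188) (nat_lit 5) (nat_lit 454) (nat_lit 364) (nat_lit 322)) (XT.nd (nat_lit 78) (nat_lit 456) (nat_lit 0) (XT.lf (nat_lit 0) (nat_lit 810804443) (nat_lit 532) (nat_lit 199164380) (nat_lit 76) (nat_lit 8605256553) (nat_lit 180) (nat_lit 5) (nat_lit 187) (nat_lit 5) (nat_lit 181) (nat_lit 5) (nat_lit 455) (nat_lit 364) (nat_lit 321)) (XT.lf (nat_lit 0) (nat_lit 4215908403) (nat_lit 532) (nat_lit 3007111302) (nat_lit 76) (nat_lit 2489067231) (nat_lit 174) (nat_lit 5)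 (nat_lit 181) (nat_lit 5) (nat_lit 175) (nat_lit 5) (nat_lit 456) (nat_lit 364) (nat_lit 320)))) (XT.nd (nat_lit 78) (nat_lit 456) (nat_lit 0) (XT.lf (nat_lit 0) (nat_lit 3921232167) (nat_lit 456) (nat_lit 3758525500) (nat_lit 532) (nat_lit 2131323395) (nat_lit 168) (nat_lit 5) (nat_lit 174) (nat_lit 5) (nat_lit 175) (nat_lit 5) (nat_lit 457) (nat_lit 364) (nat_lit 319)) (XT.nd (nat_lit 78) (nat_lit 0) (nat_lit 0) (XT.lf (nat_lit 0) (nat_lit 1059872917) (nat_lit 380) (nat_lit 208387775) (nat_lit 456) (nat_lit 8643943497) (nat_lit 162) (nat_lit 5) (nat_lit 167) (nat_lit 5) (nat_lit 168) (nat_lit 5) (nat_lit 458) (nat_lit 364) (nat_lit 318)) (XT.lf (nat_lit 0) (nat_lit 4726869315) (nat_lit 456) (nat_lit 1885677856) (nat_lit 76) (nat_lit 3402137149) (nat_lit 162) (nat_lit 5) (nat_lit 168) (nat_lit 5) (nat_lit 163) (nat_lit 5) (nat_lit 459) (nat_lit 364) (nat_lit 317))))) (XT.nd (nat_lit 234) (nat_lit 1216) (nat_lit 0) (XT.nd (nat_lit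 78) (nat_lit 456) (nat_lit 0) (XT.lf (nat_lit 0) (nat_lit 5225688093) (nat_lit 456) (nat_lit 3022703061) (nat_lit 532) (nat_lit 1870955655) (nat_lit 156) (nat_lit 5) (nat_lit 162) (nat_lit 5) (nat_lit 163) (nat_lit 5) (nat_lit 460) (nat_lit 364) (nat_lit 316)) (XT.nd (nat_lit 78) (nat_lit 0) (nat_lit 0) (XT.lf (nat_lit 0) (nat_lit 1583158297) (nat_lit 456) (nat_lit 7994625302) (nat_lit 76) (nat_lit 648314848) (nat_lit 150) (nat_lit 5) (nat_lit 156) (nat_lit 5) (nat_lit 151) (nat_lit 5) (nat_lit 461) (nat_lit 364) (nat_lit 315)) (XT.lf (nat_lit 0) (nat_lit 5093249181) (nat_lit 456) (nat_lit 863726415) (nat_lit 76) (nat_lit 4377530385) (nat_lit 150) (nat_lit 5) (nat_lit 156) (nat_lit 5) (nat_lit 151) (nat_lit 5) (nat_lit 462) (nat_lit 364) (nat_lit 314)))) (XT.nd (nat_lit 78) (nat_lit 836) (nat_lit 0) (XT.lf (nat_lit 0) (nat_lit 6433167756) (nat_lit 380) (nat_lit 2241798331) (nat_lit 456) (nat_lit 1770094097) (nat_lit 145) (nat_lit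 5) (nat_lit 150) (nat_lit 5) (nat_lit 151) (nat_lit 5) (nat_lit 463) (nat_lit 364) (nat_lit 313)) (XT.nd (nat_lit 78) (nat_lit 380) (nat_lit 0) (XT.lf (nat_lit 0) (nat_lit 1744487389) (nat_lit 456) (nat_lit 7267412680) (nat_lit 76) (nat_lit 1545757907) (nat_lit 139) (nat_lit 5) (nat_lit 145) (nat_lit 5) (nat_lit 140) (nat_lit 5) (nat_lit 464) (nat_lit 364) (nat_lit 312)) (XT.lf (nat_lit 0) (nat_lit 33126212) (nat_lit 380) (nat_lit 5274757168) (nat_lit 456) (nat_lit 5364352445) (nat_lit 134) (nat_lit 5) (nat_lit 139) (nat_lit 5) (nat_lit 140) (nat_lit 5) (nat_lit 465) (nat_lit 364) (nat_lit 311))))))))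
noncomputable def xc52 : XT := (XT.nd (nat_lit 1716) (nat_lit 2736) (nat_lit 0) (XT.nd (nat_lit 858) (nat_lit 2052) (nat_lit 0) (XT.nd (nat_lit 390) (nat_lit 1444) (nat_lit 0) (XT.nd (nat_lit 156) (nat_lit 760) (nat_lit 0) (XT.nd (nat_lit 78) (nat_lit 380) (nat_lit 0) (XT.lf (nat_lit 0) (nat_lit 7517191646) (nat_lit 380) (nat_lit 1434551957) (nat_lit 456) (nat_lit 1837184170) (nat_lit 134) (nat_lit 5) (nat_lit 139) (nat_lit 5) (nat_lit 140) (nat_lit 5) (nat_lit 466) (nat_lit 364) (nat_lit 310)) (XT.lf (nat_lit 0) (nat_lit 1742058135) (nat_lit 380) (nat_lit 6697538089) (nat_lit 76) (nat_lit 2468042534) (nat_lit 129) (nat_lit 5) (nat_lit 134) (nat_lit 5) (nat_lit 130) (nat_lit 5) (nat_lit 467) (nat_lit 364) (nat_lit 309))) (XT.nd (nat_lit 78) (nat_lit 380) (nat_lit 0) (XT.lf (nat_lit 0) (nat_lit 785558662) (nat_lit 380) (nat_lit 4580630615) (nat_lit 456) (nat_lit 5662339827) (nat_lit 124) (nat_lit 5) (nat_lit 129) (nat_lit 5)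 (nat_lit 130) (nat_lit 5) (nat_lit 468) (nat_lit 364) (nat_lit 308)) (XT.nd (nat_lit 78) (nat_lit 380) (nat_lit 0) (XT.lf (nat_lit 0) (nat_lit 8448932585) (nat_lit 380) (nat_lit 620364678) (nat_lit 456) (nat_lit 2082416082) (nat_lit 124) (nat_lit 5) (nat_lit 129) (nat_lit 5) (nat_lit 130) (nat_lit 5) (nat_lit 469) (nat_lit 364) (nat_lit 307)) (XT.lf (nat_lit 0) (nat_lit 1565275396) (nat_lit 380) (nat_lit 6315728358) (nat_lit 76) (nat_lit 3395824540) (nat_lit 119) (nat_lit 5) (nat_lit 124) (nat_lit 5) (nat_lit 120) (nat_lit 5) (nat_lit 470) (nat_lit 364) (nat_lit 306))))) (XT.nd (nat_lit 234) (nat_lit 684) (nat_lit 0) (XT.nd (nat_lit 78) (nat_lit 380) (nat_lit 0) (XT.lf (nat_lit 0) (nat_lit 1350780576) (nat_lit 380) (nat_lit 3900687726) (nat_lit 456) (nat_lit 6152838951) (nat_lit 114) (nat_lit 5) (nat_lit 119) (nat_lit 5) (nat_lit 120) (nat_lit 5) (nat_lit 471) (nat_lit 364) (nat_lit 305)) (XT.nd (nat_lit 78) (nat_lit 380) (nat_lit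 0) (XT.lf (nat_lit 0) (nat_lit 9017562811) (nat_lit 456) (nat_lit 2338517337) (nat_lit 76) (nat_lit 178137607) (nat_lit 114) (nat_lit 5) (nat_lit 120) (nat_lit 5) (nat_lit 115) (nat_lit 5) (nat_lit 472) (nat_lit 364) (nat_lit 304)) (XT.lf (nat_lit 0) (nat_lit 1201655132) (nat_lit 380) (nat_lit 6155573395) (nat_lit 76) (nat_lit 4308847647) (nat_lit 109) (nat_lit 5) (nat_lit 114) (nat_lit 5) (nat_lit 110) (nat_lit 5) (nat_lit 473) (nat_lit 364) (nat_lit 303)))) (XT.nd (nat_lit 78) (nat_lit 380) (nat_lit 0) (XT.lf (nat_lit 0) (nat_lit 1694521644) (nat_lit 304) (nat_lit 3256254438) (nat_lit 380) (nat_lit 6849665326) (nat_lit 105) (nat_lit 5) (nat_lit 109) (nat_lit 5) (nat_lit 110) (nat_lit 5) (nat_lit 474) (nat_lit 364) (nat_lit 302)) (XT.nd (nat_lit 78) (nat_lit 380) (nat_lit 0) (XT.lf (nat_lit 0) (nat_lit 8785985622) (nat_lit 380) (nat_lit 2216976724) (nat_lit 76) (nat_lit 934314576) (nat_lit 105) (nat_lit 5) (nat_lit 110) (nat_lit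 5) (nat_lit 106) (nat_lit 5) (nat_lit 475) (nat_lit 364) (nat_lit 301)) (XT.lf (nat_lit 0) (nat_lit 636675763) (nat_lit 380) (nat_lit 6253890868) (nat_lit 76) (nat_lit 5185731356) (nat_lit 100) (nat_lit 5) (nat_lit 105) (nat_lit 5) (nat_lit 101) (nat_lit 5) (nat_lit 476) (nat_lit 364) (nat_lit 300)))))) (XT.nd (nat_lit 390) (nat_lit 1140) (nat_lit 0) (XT.nd (nat_lit 156) (nat_lit 608) (nat_lit 0) (XT.nd (nat_lit 78) (nat_lit 0) (nat_lit 0) (XT.lf (nat_lit 0) (nat_lit 1779177634) (nat_lit 304) (nat_lit 2669907707) (nat_lit 380) (nat_lit 7768784757) (nat_lit 96) (nat_lit 5) (nat_lit 100) (nat_lit 5) (nat_lit 101) (nat_lit 5) (nat_lit 477) (nat_lit 364) (nat_lit 299)) (XT.lf (nat_lit 0) (nat_lit 8355097762) (nat_lit 380) (nat_lit 2372850829) (nat_lit 76) (nat_lit 1633982678) (nat_lit 96) (nat_lit 5) (nat_lit 101) (nat_lit 5) (nat_lit 97) (nat_lit 5) (nat_lit 478) (nat_lit 364) (nat_lit 298))) (XT.nd (nat_lit 78) (nat_lit 380) (nat_lit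 0) (XT.lf (nat_lit 0) (nat_lit 5856372073) (nat_lit 228) (nat_lit 6503752782) (nat_lit 304) (nat_lit 148335537) (nat_lit 93) (nat_lit 5) (nat_lit 96) (nat_lit 5) (nat_lit 97) (nat_lit 5) (nat_lit 479) (nat_lit 364) (nat_lit 297)) (XT.nd (nat_lit 78) (nat_lit 0) (nat_lit 0) (XT.lf (nat_lit 0) (nat_lit 1563399356) (nat_lit 304) (nat_lit 2165711705) (nat_lit 380) (nat_lit 8928492675) (nat_lit 88) (nat_lit 5) (nat_lit 92) (nat_lit 5) (nat_lit 93) (nat_lit 5) (nat_lit 480) (nat_lit 364) (nat_lit 296)) (XT.lf (nat_lit 0) (nat_lit 7707162607) (nat_lit 380) (nat_lit 2848738569) (nat_lit 76) (nat_lit 2253312668) (nat_lit 88) (nat_lit 5) (nat_lit 93) (nat_lit 5) (nat_lit 89) (nat_lit 5) (nat_lit 481) (nat_lit 364) (nat_lit 295))))) (XT.nd (nat_lit 234) (nat_lit 532) (nat_lit 0) (XT.nd (nat_lit 78) (nat_lit 380) (nat_lit 0) (XT.lf (nat_lit 0) (nat_lit 5564068336) (nat_lit 228) (nat_lit 6217290835) (nat_lit 304) (nat_lit 1182169570) (nat_lit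 85) (nat_lit 5) (nat_lit 88) (nat_lit 5) (nat_lit 89) (nat_lit 5) (nat_lit 482) (nat_lit 364) (nat_lit 294)) (XT.nd (nat_lit 78) (nat_lit 0) (nat_lit 0) (XT.lf (nat_lit 0) (nat_lit 1001642054) (nat_lit 304) (nat_lit 1769471636) (nat_lit 380) (nat_lit 10349615912) (nat_lit 80) (nat_lit 5) (nat_lit 84) (nat_lit 5) (nat_lit 85) (nat_lit 5) (nat_lit 483) (nat_lit 364) (nat_lit 293)) (XT.lf (nat_lit 0) (nat_lit 6821944163) (nat_lit 380) (nat_lit 3691579778) (nat_lit 76) (nat_lit 2766712059) (nat_lit 80) (nat_lit 5) (nat_lit 85) (nat_lit 5) (nat_lit 81) (nat_lit 5) (nat_lit 484) (nat_lit 364) (nat_lit 292)))) (XT.nd (nat_lit 78) (nat_lit 304) (nat_lit 0) (XT.lf (nat_lit 0) (nat_lit 4901711685) (nat_lit 228) (nat_lit 6062628684) (nat_lit 304) (nat_lit 2478385118) (nat_lit 77) (nat_lit 5) (nat_lit 80) (nat_lit 5) (nat_lit 81) (nat_lit 5) (nat_lit 485) (nat_lit 364) (nat_lit 291)) (XT.nd (nat_lit 78) (nat_lit 0) (nat_lit 0) (XT.lf (nat_lit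 0) (nat_lit 43670783) (nat_lit 228) (nat_lit 1509007570) (nat_lit 304) (nat_lit 12055738980) (nat_lit 73) (nat_lit 5) (nat_lit 76) (nat_lit 5) (nat_lit 77) (nat_lit 5) (nat_lit 486) (nat_lit 364) (nat_lit 290)) (XT.lf (nat_lit 0) (nat_lit 5676479675) (nat_lit 304) (nat_lit 4953162253) (nat_lit 76) (nat_lit 3146551116) (nat_lit 73) (nat_lit 5) (nat_lit 77) (nat_lit 5) (nat_lit 74) (nat_lit 5) (nat_lit 487) (nat_lit 364) (nat_lit 289))))))) (XT.nd (nat_lit 858) (nat_lit 1064) (nat_lit 0) (XT.nd (nat_lit 390) (nat_lit 912) (nat_lit 0) (XT.nd (nat_lit 156) (nat_lit 456) (nat_lit 0) (XT.nd (nat_lit 78) (nat_lit 76) (nat_lit 0) (XT.lf (nat_lit 0) (nat_lit 3816241768) (nat_lit 228) (nat_lit 6069146959) (nat_lit 304) (nat_lit 4061886550) (nat_lit 70) (nat_lit 5) (nat_lit 73) (nat_lit 5) (nat_lit 74) (nat_lit 5) (nat_lit 488) (nat_lit 364) (nat_lit 288)) (XT.lf (nat_lit 0) (nat_lit 57336705) (nat_lit 304) (nat_lit 1348067975) (nat_lit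 76) (nat_lit 12716342941) (nat_lit 69) (nat_lit 5) (nat_lit 73) (nat_lit 5) (nat_lit 70) (nat_lit 5) (nat_lit 489) (nat_lit 364) (nat_lit 287))) (XT.nd (nat_lit 78) (nat_lit 228) (nat_lit 0) (XT.lf (nat_lit 0) (nat_lit 4244825384) (nat_lit 304) (nat_lit 6690679125) (nat_lit 76) (nat_lit 3362865963) (nat_lit 66) (nat_lit 5) (nat_lit 70) (nat_lit 5) (nat_lit 67) (nat_lit 5) (nat_lit 490) (nat_lit 364) (nat_lit 286)) (XT.nd (nat_lit 78) (nat_lit 0) (nat_lit 0) (XT.lf (nat_lit 0) (nat_lit 2249019690) (nat_lit 228) (nat_lit 6268742926) (nat_lit 304) (nat_lit 5960732550) (nat_lit 63) (nat_lit 5) (nat_lit 66) (nat_lit 5) (nat_lit 67) (nat_lit 5) (nat_lit 491) (nat_lit 364) (nat_lit 285)) (XT.lf (nat_lit 0) (nat_lit 11404955254) (nat_lit 228) (nat_lit 1485052815) (nat_lit 304) (nat_lit 1771940596) (nat_lit 63) (nat_lit 5) (nat_lit 66) (nat_lit 5) (nat_lit 67) (nat_lit 5) (nat_lit 492) (nat_lit 364) (nat_lit 284))))) (XT.nd (nat_lit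 234) (nat_lit 456) (nat_lit 0) (XT.nd (nat_lit 78) (nat_lit 152) (nat_lit 0) (XT.lf (nat_lit 0) (nat_lit 2497772857) (nat_lit 304) (nat_lit 8967342056) (nat_lit 76) (nat_lit 3383035938) (nat_lit 59) (nat_lit 5) (nat_lit 63) (nat_lit 5) (nat_lit 60) (nat_lit 5) (nat_lit 493) (nat_lit 364) (nat_lit 283)) (XT.nd (nat_lit 78) (nat_lit 0) (nat_lit 0) (XT.lf (nat_lit 0) (nat_lit 135195456) (nat_lit 152) (nat_lit 6696169357) (nat_lit 228) (nat_lit 8206436916) (nat_lit 57) (nat_lit 5) (nat_lit 59) (nat_lit 5) (nat_lit 60) (nat_lit 5) (nat_lit 494) (nat_lit 364) (nat_lit 282)) (XT.lf (nat_lit 0) (nat_lit 9488945464) (nat_lit 152) (nat_lit 1792591984) (nat_lit 228) (nat_lit 3949113047) (nat_lit 57) (nat_lit 5) (nat_lit 59) (nat_lit 5) (nat_lit 60) (nat_lit 5) (nat_lit 495) (nat_lit 364) (nat_lit 281)))) (XT.nd (nat_lit 78) (nat_lit 152) (nat_lit 0) (XT.lf (nat_lit 0) (nat_lit 402533019) (nat_lit 304) (nat_lit 11853056308) (nat_lit 76)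 (nat_lit 3171432065) (nat_lit 53) (nat_lit 5) (nat_lit 57) (nat_lit 5) (nat_lit 54) (nat_lit 5) (nat_lit 496) (nat_lit 364) (nat_lit 280)) (XT.nd (nat_lit 78) (nat_lit 152) (nat_lit 0) (XT.lf (nat_lit 0) (nat_lit 4809276859) (nat_lit 304) (nat_lit 2562928591) (nat_lit 76) (nat_lit 8254176187) (nat_lit 53) (nat_lit 5) (nat_lit 57) (nat_lit 5) (nat_lit 54) (nat_lit 5) (nat_lit 497) (nat_lit 364) (nat_lit 279)) (XT.lf (nat_lit 0) (nat_lit 6953334434) (nat_lit 152) (nat_lit 2366787925) (nat_lit 228) (nat_lit 6509290207) (nat_lit 51) (nat_lit 5) (nat_lit 53) (nat_lit 5) (nat_lit 54) (nat_lit 5) (nat_lit 498) (nat_lit 364) (nat_lit 278)))))) (XT.nd (nat_lit 468) (nat_lit 304) (nat_lit 0) (XT.nd (nat_lit 234) (nat_lit 304) (nat_lit 0) (XT.nd (nat_lit 78) (nat_lit 228) (nat_lit 0) (XT.lf (nat_lit 0) (nat_lit 597476026) (nat_lit 228) (nat_lit 13333607172) (nat_lit 304) (nat_lit 2105225707) (nat_lit 48) (nat_lit 5) (nat_lit 51) (nat_lit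 5) (nat_lit 52) (nat_lit 5) (nat_lit 499) (nat_lit 364) (nat_lit 277)) (XT.nd (nat_lit 78) (nat_lit 152) (nat_lit 0) (XT.lf (nat_lit 0) (nat_lit 2402219652) (nat_lit 304) (nat_lit 5947920303) (nat_lit 76) (nat_lit 7895963829) (nat_lit 47) (nat_lit 5) (nat_lit 51) (nat_lit 5) (nat_lit 48) (nat_lit 5) (nat_lit 500) (nat_lit 364) (nat_lit 276)) (XT.lf (nat_lit 0) (nat_lit 3717604885) (nat_lit 152) (nat_lit 3249725482) (nat_lit 228) (nat_lit 9492574376) (nat_lit 45) (nat_lit 5) (nat_lit 47) (nat_lit 5) (nat_lit 48) (nat_lit 5) (nat_lit 501) (nat_lit 364) (nat_lit 275)))) (XT.nd (nat_lit 78) (nat_lit 304) (nat_lit 0) (XT.lf (nat_lit 0) (nat_lit 11648237398) (nat_lit 228) (nat_lit 3083179113) (nat_lit 76) (nat_lit 1946077877) (nat_lit 45) (nat_lit 5) (nat_lit 48) (nat_lit 5) (nat_lit 46) (nat_lit 5) (nat_lit 502) (nat_lit 364) (nat_lit 274)) (XT.nd (nat_lit 78) (nat_lit 76) (nat_lit 0) (XT.lf (nat_lit 0) (nat_lit 6787485173) (nat_lit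 228) (nat_lit 9673061624) (nat_lit 304) (nat_lit 438135844) (nat_lit 42) (nat_lit 5) (nat_lit 45) (nat_lit 5) (nat_lit 46) (nat_lit 5) (nat_lit 503) (nat_lit 364) (nat_lit 273)) (XT.lf (nat_lit 0) (nat_lit 4182200326) (nat_lit 304) (nat_lit 303406630) (nat_lit 76) (nat_lit 12638277624) (nat_lit 41) (nat_lit 5) (nat_lit 45) (nat_lit 5) (nat_lit 42) (nat_lit 5) (nat_lit 504) (nat_lit 364) (nat_lit 272))))) (XT.nd (nat_lit 52026) (nat_lit 0) (nat_lit 36556) (XT.nd (nat_lit 78) (nat_lit 152) (nat_lit 0) (XT.lf (nat_lit 0) (nat_lit 8930880437) (nat_lit 228) (nat_lit 7580689463) (nat_lit 76) (nat_lit 841129014) (nat_lit 39) (nat_lit 5) (nat_lit 42) (nat_lit 5) (nat_lit 40) (nat_lit 5) (nat_lit 505) (nat_lit 364) (nat_lit 271)) (XT.nd (nat_lit 51870) (nat_lit 0) (nat_lit 39520) (XT.lf (nat_lit 0) (nat_lit 2420716920) (nat_lit 152) (nat_lit 11374158183) (nat_lit 228) (nat_lit 3790809922) (nat_lit 37) (nat_lit 5) (nat_lit 39) (nat_lit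 5) (nat_lit 40) (nat_lit 5) (nat_lit 506) (nat_lit 364) (nat_lit 270)) (XT.lf (nat_lit 0) (nat_lit 2330483516) (nat_lit 1292) (nat_lit 554972080) (nat_lit 1292) (nat_lit 554972080) (nat_lit 557) (nat_lit 4) (nat_lit 574) (nat_lit 5) (nat_lit 574) (nat_lit 4) (nat_lit 410) (nat_lit 365) (nat_lit 365)))) (XT.nd (nat_lit 78) (nat_lit 1520) (nat_lit 0) (XT.lf (nat_lit 0) (nat_lit 2208574563) (nat_lit 1444) (nat_lit 4404255120) (nat_lit 0) (nat_lit 298150979) (nat_lit 538) (nat_lit 5) (nat_lit 557) (nat_lit 4) (nat_lit 538) (nat_lit 4) (nat_lit 411) (nat_lit 365) (nat_lit 364)) (XT.nd (nat_lit 78) (nat_lit 76) (nat_lit 0) (XT.lf (nat_lit 0) (nat_lit 342479470) (nat_lit 1444) (nat_lit 5191693362) (nat_lit 1444) (nat_lit 1408305479) (nat_lit 519) (nat_lit 4) (nat_lit 538) (nat_lit 5) (nat_lit 538) (nat_lit 4) (nat_lit 412) (nat_lit 365) (nat_lit 363)) (XT.lf (nat_lit 0) (nat_lit 1887283098) (nat_lit 1520) (nat_lit 1807315531) (nat_lit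 76) (nat_lit 3280556709) (nat_lit 518) (nat_lit 5) (nat_lit 538) (nat_lit 5) (nat_lit 519) (nat_lit 4) (nat_lit 413) (nat_lit 365) (nat_lit 362))))))))
noncomputable def xc53 : XT := (XT.nd (nat_lit 1716) (nat_lit 9424) (nat_lit 0) (XT.nd (nat_lit 858) (nat_lit 6384) (nat_lit 0) (XT.nd (nat_lit 390) (nat_lit 4180) (nat_lit 0) (XT.nd (nat_lit 156) (nat_lit 3496) (nat_lit 0) (XT.nd (nat_lit 78) (nat_lit 1672) (nat_lit 0) (XT.lf (nat_lit 0) (nat_lit 3048858704) (nat_lit 1520) (nat_lit 2133676398) (nat_lit 1596) (nat_lit 1826738831) (nat_lit 498) (nat_lit 5) (nat_lit 518) (nat_lit 5) (nat_lit 519) (nat_lit 4) (nat_lit 414) (nat_lit 365) (nat_lit 361)) (XT.lf (nat_lit 0) (nat_lit 921572028) (nat_lit 1596) (nat_lit 509811987) (nat_lit 1672) (nat_lit 5613492820) (nat_lit 476) (nat_lit 5) (nat_lit 497) (nat_lit 5) (nat_lit 498) (nat_lit 5) (nat_lit 415) (nat_lit 365) (nat_lit 360))) (XT.nd (nat_lit 78) (nat_lit 3496) (nat_lit 0) (XT.lf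 (nat_lit 0) (nat_lit 4698588518) (nat_lit 1672) (nat_lit 1209956871) (nat_lit 76) (nat_lit 1173062188) (nat_lit 476) (nat_lit 5) (nat_lit 498) (nat_lit 5) (nat_lit 477) (nat_lit 4) (nat_lit 416) (nat_lit 365) (nat_lit 359)) (XT.nd (nat_lit 78) (nat_lit 1748) (nat_lit 0) (XT.lf (nat_lit 0) (nat_lit 863235852) (nat_lit 1748) (nat_lit 3340787904) (nat_lit 76) (nat_lit 2915691966) (nat_lit 453) (nat_lit 5) (nat_lit 476) (nat_lit 5) (nat_lit 454) (nat_lit 5) (nat_lit 417) (nat_lit 365) (nat_lit 358)) (XT.lf (nat_lit 0) (nat_lit 1667949467) (nat_lit 1748) (nat_lit 2429453759) (nat_lit 1824) (nat_lit 3061793275) (nat_lit 430) (nat_lit 5) (nat_lit 453) (nat_lit 5) (nat_lit 454) (nat_lit 5) (nat_lit 418) (nat_lit 365) (nat_lit 357))))) (XT.nd (nat_lit 234) (nat_lit 1900) (nat_lit 0) (XT.nd (nat_lit 78) (nat_lit 2204) (nat_lit 0) (XT.lf (nat_lit 0) (nat_lit 153041758) (nat_lit 1824) (nat_lit 442406965) (nat_lit 76) (nat_lit 6604838423)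 (nat_lit 429) (nat_lit 5) (nat_lit 453) (nat_lit 5) (nat_lit 430) (nat_lit 5) (nat_lit 419) (nat_lit 365) (nat_lit 356)) (XT.nd (nat_lit 78) (nat_lit 912) (nat_lit 0) (XT.lf (nat_lit 0) (nat_lit 3367768667) (nat_lit 1368) (nat_lit 2565335070) (nat_lit 76) (nat_lit 1309181322) (nat_lit 412) (nat_lit 5) (nat_lit 430) (nat_lit 5) (nat_lit 413) (nat_lit 5) (nat_lit 420) (nat_lit 365) (nat_lit 355)) (XT.lf (nat_lit 0) (nat_lit 2585890420) (nat_lit 912) (nat_lit 4022953845) (nat_lit 988) (nat_lit 677059224) (nat_lit 400) (nat_lit 5) (nat_lit 412) (nat_lit 5) (nat_lit 413) (nat_lit 5) (nat_lit 421) (nat_lit 365) (nat_lit 354)))) (XT.nd (nat_lit 78) (nat_lit 988) (nat_lit 0) (XT.lf (nat_lit 0) (nat_lit 470030668) (nat_lit 836) (nat_lit 2039510094) (nat_lit 912) (nat_lit 4821356985) (nat_lit 388) (nat_lit 5) (nat_lit 399) (nat_lit 5) (nat_lit 400) (nat_lit 5) (nat_lit 422) (nat_lit 365) (nat_lit 353)) (XT.nd (nat_lit 78) (nat_lit 988)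 (nat_lit 0) (XT.lf (nat_lit 0) (nat_lit 5721932424) (nat_lit 912) (nat_lit 1638455032) (nat_lit 76) (nat_lit 16912809) (nat_lit 388) (nat_lit 5) (nat_lit 400) (nat_lit 5) (nat_lit 389) (nat_lit 5) (nat_lit 423) (nat_lit 365) (nat_lit 352)) (XT.lf (nat_lit 0) (nat_lit 1531059567) (nat_lit 988) (nat_lit 3775894977) (nat_lit 76) (nat_lit 2117936291) (nat_lit 375) (nat_lit 5) (nat_lit 388) (nat_lit 5) (nat_lit 376) (nat_lit 5) (nat_lit 424) (nat_lit 365) (nat_lit 351)))))) (XT.nd (nat_lit 390) (nat_lit 3040) (nat_lit 0) (XT.nd (nat_lit 156) (nat_lit 2432) (nat_lit 0) (XT.nd (nat_lit 78) (nat_lit 76) (nat_lit 0) (XT.lf (nat_lit 0) (nat_lit 1536300363) (nat_lit 836) (nat_lit 3184820534) (nat_lit 912) (nat_lit 2752871282) (nat_lit 364) (nat_lit 5) (nat_lit 375) (nat_lit 5) (nat_lit 376) (nat_lit 5) (nat_lit 425) (nat_lit 365) (nat_lit 350)) (XT.lf (nat_lit 0) (nat_lit 411847385) (nat_lit 912) (nat_lit 585123287) (nat_lit 76) (nat_lit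 6527727733) (nat_lit 363) (nat_lit 5) (nat_lit 375) (nat_lit 5) (nat_lit 364) (nat_lit 5) (nat_lit 426) (nat_lit 365) (nat_lit 349))) (XT.nd (nat_lit 78) (nat_lit 1596) (nat_lit 0) (XT.lf (nat_lit 0) (nat_lit 3585374201) (nat_lit 912) (nat_lit 2728056310) (nat_lit 76) (nat_lit 1262994929) (nat_lit 352) (nat_lit 5) (nat_lit 364) (nat_lit 5) (nat_lit 353) (nat_lit 5) (nat_lit 427) (nat_lit 365) (nat_lit 348)) (XT.nd (nat_lit 78) (nat_lit 836) (nat_lit 0) (XT.lf (nat_lit 0) (nat_lit 2734773735) (nat_lit 760) (nat_lit 4059087895) (nat_lit 836) (nat_lit 835913339) (nat_lit 342) (nat_lit 5) (nat_lit 352) (nat_lit 5) (nat_lit 353) (nat_lit 5) (nat_lit 428) (nat_lit 365) (nat_lit 347)) (XT.lf (nat_lit 0) (nat_lit 587969571) (nat_lit 760) (nat_lit 1728851365) (nat_lit 836) (nat_lit 5367763499) (nat_lit 331) (nat_lit 5) (nat_lit 341) (nat_lit 5) (nat_lit 342) (nat_lit 5) (nat_lit 429) (nat_lit 365) (nat_lit 346))))) (XT.nd (nat_lit 234)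 (nat_lit 1444) (nat_lit 0) (XT.nd (nat_lit 78) (nat_lit 1596) (nat_lit 0) (XT.lf (nat_lit 0) (nat_lit 5502835688) (nat_lit 836) (nat_lit 1567667626) (nat_lit 76) (nat_lit 670264624) (nat_lit 331) (nat_lit 5) (nat_lit 342) (nat_lit 5) (nat_lit 332) (nat_lit 5) (nat_lit 430) (nat_lit 365) (nat_lit 345)) (XT.nd (nat_lit 78) (nat_lit 760) (nat_lit 0) (XT.lf (nat_lit 0) (nat_lit 924823581) (nat_lit 836) (nat_lit 3754546726) (nat_lit 76) (nat_lit 3118940015) (nat_lit 320) (nat_lit 5) (nat_lit 331) (nat_lit 5) (nat_lit 321) (nat_lit 5) (nat_lit 431) (nat_lit 365) (nat_lit 344)) (XT.lf (nat_lit 0) (nat_lit 1877739638) (nat_lit 760) (nat_lit 2211458695) (nat_lit 836) (nat_lit 3768158535) (nat_lit 310) (nat_lit 5) (nat_lit 320) (nat_lit 5) (nat_lit 321) (nat_lit 5) (nat_lit 432) (nat_lit 365) (nat_lit 343)))) (XT.nd (nat_lit 78) (nat_lit 1444) (nat_lit 0) (XT.lf (nat_lit 0) (nat_lit 7290322248) (nat_lit 836) (nat_lit 310153633) (nat_lit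 76) (nat_lit 317654687) (nat_lit 310) (nat_lit 5) (nat_lit 321) (nat_lit 5) (nat_lit 311) (nat_lit 5) (nat_lit 433) (nat_lit 365) (nat_lit 342)) (XT.nd (nat_lit 78) (nat_lit 684) (nat_lit 0) (XT.lf (nat_lit 0) (nat_lit 2538848575) (nat_lit 760) (nat_lit 2530365348) (nat_lit 76) (nat_lit 2910640741) (nat_lit 300) (nat_lit 5) (nat_lit 310) (nat_lit 5) (nat_lit 301) (nat_lit 5) (nat_lit 434) (nat_lit 365) (nat_lit 341)) (XT.lf (nat_lit 0) (nat_lit 3260833580) (nat_lit 684) (nat_lit 2470311710) (nat_lit 760) (nat_lit 2312185259) (nat_lit 291) (nat_lit 5) (nat_lit 300) (nat_lit 5) (nat_lit 301) (nat_lit 5) (nat_lit 435) (nat_lit 365) (nat_lit 340))))))) (XT.nd (nat_lit 858) (nat_lit 4256) (nat_lit 0) (XT.nd (nat_lit 390) (nat_lit 2432) (nat_lit 0) (XT.nd (nat_lit 156) (nat_lit 1976) (nat_lit 0) (XT.nd (nat_lit 78) (nat_lit 0) (nat_lit 0) (XT.lf (nat_lit 0) (nat_lit 840510265) (nat_lit 760) (nat_lit 7071430648) (nat_lit 76) (nat_lit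 196578283) (nat_lit 281) (nat_lit 5) (nat_lit 291) (nat_lit 5) (nat_lit 282) (nat_lit 5) (nat_lit 436) (nat_lit 365) (nat_lit 339)) (XT.lf (nat_lit 0) (nat_lit 4022233114) (nat_lit 760) (nat_lit 1232722523) (nat_lit 76) (nat_lit 2919825360) (nat_lit 281) (nat_lit 5) (nat_lit 291) (nat_lit 5) (nat_lit 282) (nat_lit 5) (nat_lit 437) (nat_lit 365) (nat_lit 338))) (XT.nd (nat_lit 78) (nat_lit 1292) (nat_lit 0) (XT.lf (nat_lit 0) (nat_lit 4721584339) (nat_lit 684) (nat_lit 2525915999) (nat_lit 760) (nat_lit 995282956) (nat_lit 272) (nat_lit 5) (nat_lit 281) (nat_lit 5) (nat_lit 282) (nat_lit 5) (nat_lit 438) (nat_lit 365) (nat_lit 337)) (XT.nd (nat_lit 78) (nat_lit 608) (nat_lit 0) (XT.lf (nat_lit 0) (nat_lit 2171547547) (nat_lit 684) (nat_lit 5860219115) (nat_lit 76) (nat_lit 280590901) (nat_lit 263) (nat_lit 5) (nat_lit 272) (nat_lit 5) (nat_lit 264) (nat_lit 5) (nat_lit 439) (nat_lit 365) (nat_lit 336)) (XT.lf (nat_lit 0) (nat_lit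 124096088) (nat_lit 608) (nat_lit 5255617428) (nat_lit 684) (nat_lit 3003664391) (nat_lit 255) (nat_lit 5) (nat_lit 263) (nat_lit 5) (nat_lit 264) (nat_lit 5) (nat_lit 440) (nat_lit 365) (nat_lit 335))))) (XT.nd (nat_lit 234) (nat_lit 1140) (nat_lit 0) (XT.nd (nat_lit 78) (nat_lit 1216) (nat_lit 0) (XT.lf (nat_lit 0) (nat_lit 183459066) (nat_lit 684) (nat_lit 2213164057) (nat_lit 76) (nat_lit 6059386073) (nat_lit 254) (nat_lit 5) (nat_lit 263) (nat_lit 5) (nat_lit 255) (nat_lit 5) (nat_lit 441) (nat_lit 365) (nat_lit 334)) (XT.nd (nat_lit 78) (nat_lit 608) (nat_lit 0) (XT.lf (nat_lit 0) (nat_lit 3374392512) (nat_lit 684) (nat_lit 4611201299) (nat_lit 76) (nat_lit 544508430) (nat_lit 246) (nat_lit 5) (nat_lit 255) (nat_lit 5) (nat_lit 247) (nat_lit 5) (nat_lit 442) (nat_lit 365) (nat_lit 333)) (XT.lf (nat_lit 0) (nat_lit 1539097486) (nat_lit 608) (nat_lit 5082519461) (nat_lit 684) (nat_lit 1984222468) (nat_lit 238) (nat_lit 5)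 (nat_lit 246) (nat_lit 5) (nat_lit 247) (nat_lit 5) (nat_lit 443) (nat_lit 365) (nat_lit 332)))) (XT.nd (nat_lit 78) (nat_lit 1064) (nat_lit 0) (XT.lf (nat_lit 0) (nat_lit 1217309320) (nat_lit 684) (nat_lit 879468744) (nat_lit 76) (nat_lit 6586501764) (nat_lit 237) (nat_lit 5) (nat_lit 246) (nat_lit 5) (nat_lit 238) (nat_lit 5) (nat_lit 444) (nat_lit 365) (nat_lit 331)) (XT.nd (nat_lit 78) (nat_lit 532) (nat_lit 0) (XT.lf (nat_lit 0) (nat_lit 4450759776) (nat_lit 608) (nat_lit 3341381625) (nat_lit 76) (nat_lit 969987235) (nat_lit 230) (nat_lit 5) (nat_lit 238) (nat_lit 5) (nat_lit 231) (nat_lit 5) (nat_lit 445) (nat_lit 365) (nat_lit 330)) (XT.lf (nat_lit 0) (nat_lit 2978827347) (nat_lit 532) (nat_lit 4762456360) (nat_lit 608) (nat_lit 1101433448) (nat_lit 223) (nat_lit 5) (nat_lit 230) (nat_lit 5) (nat_lit 231) (nat_lit 5) (nat_lit 446) (nat_lit 365) (nat_lit 329)))))) (XT.nd (nat_lit 468) (nat_lit 1976) (nat_lit 0) (XT.nd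 (nat_lit 234) (nat_lit 1140) (nat_lit 0) (XT.nd (nat_lit 78) (nat_lit 532) (nat_lit 0) (XT.lf (nat_lit 0) (nat_lit 475258894) (nat_lit 532) (nat_lit 1648035554) (nat_lit 608) (nat_lit 6801769482) (nat_lit 215) (nat_lit 5) (nat_lit 222) (nat_lit 5) (nat_lit 223) (nat_lit 5) (nat_lit 447) (nat_lit 365) (nat_lit 328)) (XT.nd (nat_lit 78) (nat_lit 532) (nat_lit 0) (XT.lf (nat_lit 0) (nat_lit 5401150213) (nat_lit 608) (nat_lit 2068467296) (nat_lit 76) (nat_lit 1539237088) (nat_lit 215) (nat_lit 5) (nat_lit 223) (nat_lit 5) (nat_lit 216) (nat_lit 5) (nat_lit 448) (nat_lit 365) (nat_lit 327)) (XT.lf (nat_lit 0) (nat_lit 4425473175) (nat_lit 532) (nat_lit 4313474595) (nat_lit 608) (nat_lit 355495612) (nat_lit 208) (nat_lit 5) (nat_lit 215) (nat_lit 5) (nat_lit 216) (nat_lit 5) (nat_lit 449) (nat_lit 365) (nat_lit 326)))) (XT.nd (nat_lit 78) (nat_lit 608) (nat_lit 0) (XT.lf (nat_lit 0) (nat_lit 1838302189) (nat_lit 456) (nat_lit 1065436926)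 (nat_lit 532) (nat_lit 6278013329) (nat_lit 201) (nat_lit 5) (nat_lit 207) (nat_lit 5) (nat_lit 208) (nat_lit 5) (nat_lit 450) (nat_lit 365) (nat_lit 325)) (XT.nd (nat_lit 78) (nat_lit 608) (nat_lit 0) (XT.lf (nat_lit 0) (nat_lit 6224821378) (nat_lit 532) (nat_lit 811055576) (nat_lit 76) (nat_lit 2234864697) (nat_lit 201) (nat_lit 5) (nat_lit 208) (nat_lit 5) (nat_lit 202) (nat_lit 5) (nat_lit 451) (nat_lit 365) (nat_lit 324)) (XT.lf (nat_lit 0) (nat_lit 248793018) (nat_lit 608) (nat_lit 3502840673) (nat_lit 76) (nat_lit 5609828081) (nat_lit 193) (nat_lit 5) (nat_lit 201) (nat_lit 5) (nat_lit 194) (nat_lit 5) (nat_lit 452) (nat_lit 365) (nat_lit 323))))) (XT.nd (nat_lit 234) (nat_lit 988) (nat_lit 0) (XT.nd (nat_lit 78) (nat_lit 532) (nat_lit 0) (XT.lf (nat_lit 0) (nat_lit 3178594192) (nat_lit 456) (nat_lit 372506323) (nat_lit 532) (nat_lit 5902852291) (nat_lit 187) (nat_lit 5) (nat_lit 193) (nat_lit 5) (nat_lit 194) (nat_lit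 5) (nat_lit 453) (nat_lit 365) (nat_lit 322)) (XT.nd (nat_lit 78) (nat_lit 76) (nat_lit 0) (XT.lf (nat_lit 0) (nat_lit 416631208) (nat_lit 456) (nat_lit 6505820938) (nat_lit 532) (nat_lit 2625790259) (nat_lit 181) (nat_lit 5) (nat_lit 187) (nat_lit 5) (nat_lit 188) (nat_lit 5) (nat_lit 454) (nat_lit 365) (nat_lit 321)) (XT.lf (nat_lit 0) (nat_lit 709097321) (nat_lit 532) (nat_lit 2385658105) (nat_lit 76) (nat_lit 6549543945) (nat_lit 180) (nat_lit 5) (nat_lit 187) (nat_lit 5) (nat_lit 181) (nat_lit 5) (nat_lit 455) (nat_lit 365) (nat_lit 320)))) (XT.nd (nat_lit 78) (nat_lit 532) (nat_lit 0) (XT.lf (nat_lit 0) (nat_lit 4064972552) (nat_lit 532) (nat_lit 5269352042) (nat_lit 76) (nat_lit 407824970) (nat_lit 174) (nat_lit 5) (nat_lit 181) (nat_lit 5) (nat_lit 175) (nat_lit 5) (nat_lit 456) (nat_lit 365) (nat_lit 319)) (XT.nd (nat_lit 78) (nat_lit 76) (nat_lit 0) (XT.lf (nat_lit 0) (nat_lit 1598172061) (nat_lit 456) (nat_lit 5894770025)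 (nat_lit 532) (nat_lit 2348923181) (nat_lit 168) (nat_lit 5) (nat_lit 174) (nat_lit 5) (nat_lit 175) (nat_lit 5) (nat_lit 457) (nat_lit 365) (nat_lit 318)) (XT.lf (nat_lit 0) (nat_lit 1025908323) (nat_lit 532) (nat_lit 1336890596) (nat_lit 76) (nat_lit 7580773685) (nat_lit 167) (nat_lit 5) (nat_lit 174) (nat_lit 5) (nat_lit 168) (nat_lit 5) (nat_lit 458) (nat_lit 365) (nat_lit 317))))))))
noncomputable def xc54 : XT := (XT.nd (nat_lit 1716) (nat_lit 3800) (nat_lit 0) (XT.nd (nat_lit 858) (nat_lit 2432) (nat_lit 0) (XT.nd (nat_lit 390) (nat_lit 1596) (nat_lit 0) (XT.nd (nat_lit 156) (nat_lit 836) (nat_lit 0) (XT.nd (nat_lit 78) (nat_lit 456) (nat_lit 0) (XT.lf (nat_lit 0) (nat_lit 4441097460) (nat_lit 456) (nat_lit 4348288489) (nat_lit 76) (nat_lit 1257538927) (nat_lit 162) (nat_lit 5) (nat_lit 168) (nat_lit 5) (nat_lit 163) (nat_lit 5) (nat_lit 459) (nat_lit 365) (nat_lit 316)) (XT.lf (nat_lit 0) (nat_lit 2699969522) (nat_lit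 456) (nat_lit 5226076588) (nat_lit 532) (nat_lit 2226276396) (nat_lit 156) (nat_lit 5) (nat_lit 162) (nat_lit 5) (nat_lit 163) (nat_lit 5) (nat_lit 460) (nat_lit 365) (nat_lit 315))) (XT.nd (nat_lit 78) (nat_lit 760) (nat_lit 0) (XT.lf (nat_lit 0) (nat_lit 1193607790) (nat_lit 532) (nat_lit 379943032) (nat_lit 76) (nat_lit 8686350793) (nat_lit 155) (nat_lit 5) (nat_lit 162) (nat_lit 5) (nat_lit 156) (nat_lit 5) (nat_lit 461) (nat_lit 365) (nat_lit 314)) (XT.nd (nat_lit 78) (nat_lit 380) (nat_lit 0) (XT.lf (nat_lit 0) (nat_lit 4670993590) (nat_lit 456) (nat_lit 3534007375) (nat_lit 76) (nat_lit 2163965753) (nat_lit 150) (nat_lit 5) (nat_lit 156) (nat_lit 5) (nat_lit 151) (nat_lit 5) (nat_lit 462) (nat_lit 365) (nat_lit 313)) (XT.lf (nat_lit 0) (nat_lit 3697403355) (nat_lit 380) (nat_lit 4517963988) (nat_lit 456) (nat_lit 2264903836) (nat_lit 145) (nat_lit 5) (nat_lit 150) (nat_lit 5) (nat_lit 151) (nat_lit 5) (nat_lit 463) (nat_lit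 365) (nat_lit 312))))) (XT.nd (nat_lit 234) (nat_lit 760) (nat_lit 0) (XT.nd (nat_lit 78) (nat_lit 380) (nat_lit 0) (XT.lf (nat_lit 0) (nat_lit 466007646) (nat_lit 380) (nat_lit 742066447) (nat_lit 456) (nat_lit 9385824258) (nat_lit 139) (nat_lit 5) (nat_lit 144) (nat_lit 5) (nat_lit 145) (nat_lit 5) (nat_lit 464) (nat_lit 365) (nat_lit 311)) (XT.nd (nat_lit 78) (nat_lit 380) (nat_lit 0) (XT.lf (nat_lit 0) (nat_lit 4747043047) (nat_lit 456) (nat_lit 2852768260) (nat_lit 76) (nat_lit 3109156637) (nat_lit 139) (nat_lit 5) (nat_lit 145) (nat_lit 5) (nat_lit 140) (nat_lit 5) (nat_lit 465) (nat_lit 365) (nat_lit 310)) (XT.lf (nat_lit 0) (nat_lit 4563781459) (nat_lit 380) (nat_lit 3789147690) (nat_lit 456) (nat_lit 2473493363) (nat_lit 134) (nat_lit 5) (nat_lit 139) (nat_lit 5) (nat_lit 140) (nat_lit 5) (nat_lit 466) (nat_lit 365) (nat_lit 309)))) (XT.nd (nat_lit 78) (nat_lit 380) (nat_lit 0) (XT.lf (nat_lit 0) (nat_lit 1059781371)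 (nat_lit 380) (nat_lit 9776514814) (nat_lit 76) (nat_lit 110009212) (nat_lit 129) (nat_lit 5) (nat_lit 134) (nat_lit 5) (nat_lit 130) (nat_lit 5) (nat_lit 467) (nat_lit 365) (nat_lit 308)) (XT.nd (nat_lit 78) (nat_lit 380) (nat_lit 0) (XT.lf (nat_lit 0) (nat_lit 4659971002) (nat_lit 380) (nat_lit 2333118079) (nat_lit 76) (nat_lit 4074588450) (nat_lit 129) (nat_lit 5) (nat_lit 134) (nat_lit 5) (nat_lit 130) (nat_lit 5) (nat_lit 468) (nat_lit 365) (nat_lit 307)) (XT.lf (nat_lit 0) (nat_lit 5270046062) (nat_lit 380) (nat_lit 3059022146) (nat_lit 456) (nat_lit 2862476680) (nat_lit 124) (nat_lit 5) (nat_lit 129) (nat_lit 5) (nat_lit 130) (nat_lit 5) (nat_lit 469) (nat_lit 365) (nat_lit 306)))))) (XT.nd (nat_lit 390) (nat_lit 1292) (nat_lit 0) (XT.nd (nat_lit 156) (nat_lit 760) (nat_lit 0) (XT.nd (nat_lit 78) (nat_lit 0) (nat_lit 0) (XT.lf (nat_lit 0) (nat_lit 739617498) (nat_lit 380) (nat_lit 9626006669) (nat_lit 76) (nat_lit 952256308)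 (nat_lit 119) (nat_lit 5) (nat_lit 124) (nat_lit 5) (nat_lit 120) (nat_lit 5) (nat_lit 470) (nat_lit 365) (nat_lit 305)) (XT.lf (nat_lit 0) (nat_lit 4398727949) (nat_lit 380) (nat_lit 2006202099) (nat_lit 76) (nat_lit 5040973769) (nat_lit 119) (nat_lit 5) (nat_lit 124) (nat_lit 5) (nat_lit 120) (nat_lit 5) (nat_lit 471) (nat_lit 365) (nat_lit 304))) (XT.nd (nat_lit 78) (nat_lit 380) (nat_lit 0) (XT.lf (nat_lit 0) (nat_lit 5784453851) (nat_lit 380) (nat_lit 2347857747) (nat_lit 456) (nat_lit 3444155617) (nat_lit 114) (nat_lit 5) (nat_lit 119) (nat_lit 5) (nat_lit 120) (nat_lit 5) (nat_lit 472) (nat_lit 365) (nat_lit 303)) (XT.nd (nat_lit 78) (nat_lit 0) (nat_lit 0) (XT.lf (nat_lit 0) (nat_lit 230042042) (nat_lit 380) (nat_lit 9705398904) (nat_lit 76) (nat_lit 1774133237) (nat_lit 109) (nat_lit 5) (nat_lit 114) (nat_lit 5) (nat_lit 110) (nat_lit 5) (nat_lit 473) (nat_lit 365) (nat_lit 302)) (XT.lf (nat_lit 0) (nat_lit 3950355081)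 (nat_lit 380) (nat_lit 1906103051) (nat_lit 76) (nat_lit 5988059967) (nat_lit 109) (nat_lit 5) (nat_lit 114) (nat_lit 5) (nat_lit 110) (nat_lit 5) (nat_lit 474) (nat_lit 365) (nat_lit 301))))) (XT.nd (nat_lit 234) (nat_lit 608) (nat_lit 0) (XT.nd (nat_lit 78) (nat_lit 380) (nat_lit 0) (XT.lf (nat_lit 0) (nat_lit 6072226903) (nat_lit 304) (nat_lit 1677009634) (nat_lit 380) (nat_lit 4232846112) (nat_lit 105) (nat_lit 5) (nat_lit 109) (nat_lit 5) (nat_lit 110) (nat_lit 5) (nat_lit 475) (nat_lit 365) (nat_lit 300)) (XT.nd (nat_lit 78) (nat_lit 76) (nat_lit 0) (XT.lf (nat_lit 0) (nat_lit 2067272941) (nat_lit 304) (nat_lit 9564836141) (nat_lit 380) (nat_lit 490134040) (nat_lit 101) (nat_lit 5) (nat_lit 105) (nat_lit 5) (nat_lit 106) (nat_lit 5) (nat_lit 476) (nat_lit 365) (nat_lit 299)) (XT.lf (nat_lit 0) (nat_lit 3299831376) (nat_lit 380) (nat_lit 2070211768) (nat_lit 76) (nat_lit 6894415514) (nat_lit 100) (nat_lit 5) (nat_lit 105)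 (nat_lit 5) (nat_lit 101) (nat_lit 5) (nat_lit 477) (nat_lit 365) (nat_lit 298)))) (XT.nd (nat_lit 78) (nat_lit 304) (nat_lit 0) (XT.lf (nat_lit 0) (nat_lit 6095171019) (nat_lit 304) (nat_lit 1069140325) (nat_lit 380) (nat_lit 5245041420) (nat_lit 96) (nat_lit 5) (nat_lit 100) (nat_lit 5) (nat_lit 101) (nat_lit 5) (nat_lit 478) (nat_lit 365) (nat_lit 297)) (XT.nd (nat_lit 78) (nat_lit 76) (nat_lit 0) (XT.lf (nat_lit 0) (nat_lit 1841634371) (nat_lit 228) (nat_lit 9277801121) (nat_lit 304) (nat_lit 1437446697) (nat_lit 93) (nat_lit 5) (nat_lit 96) (nat_lit 5) (nat_lit 97) (nat_lit 5) (nat_lit 479) (nat_lit 365) (nat_lit 296)) (XT.lf (nat_lit 0) (nat_lit 2429900766) (nat_lit 304) (nat_lit 2539632941) (nat_lit 76) (nat_lit 7737201496) (nat_lit 92) (nat_lit 5) (nat_lit 96) (nat_lit 5) (nat_lit 93) (nat_lit 5) (nat_lit 480) (nat_lit 365) (nat_lit 295))))))) (XT.nd (nat_lit 858) (nat_lit 1824) (nat_lit 0) (XT.nd (nat_lit 390) (nat_lit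 836) (nat_lit 0) (XT.nd (nat_lit 156) (nat_lit 608) (nat_lit 0) (XT.nd (nat_lit 78) (nat_lit 228) (nat_lit 0) (XT.lf (nat_lit 0) (nat_lit 5811257695) (nat_lit 304) (nat_lit 548458233) (nat_lit 380) (nat_lit 6499596223) (nat_lit 88) (nat_lit 5) (nat_lit 92) (nat_lit 5) (nat_lit 93) (nat_lit 5) (nat_lit 481) (nat_lit 365) (nat_lit 294)) (XT.lf (nat_lit 0) (nat_lit 1284915522) (nat_lit 228) (nat_lit 9101207520) (nat_lit 304) (nat_lit 2628461866) (nat_lit 85) (nat_lit 5) (nat_lit 88) (nat_lit 5) (nat_lit 89) (nat_lit 5) (nat_lit 482) (nat_lit 365) (nat_lit 293))) (XT.nd (nat_lit 78) (nat_lit 532) (nat_lit 0) (XT.lf (nat_lit 0) (nat_lit 1320877644) (nat_lit 304) (nat_lit 3359629982) (nat_lit 76) (nat_lit 8491926181) (nat_lit 84) (nat_lit 5) (nat_lit 88) (nat_lit 5) (nat_lit 85) (nat_lit 5) (nat_lit 483) (nat_lit 365) (nat_lit 292)) (XT.nd (nat_lit 78) (nat_lit 228) (nat_lit 0) (XT.lf (nat_lit 0) (nat_lit 5174165651) (nat_lit 304)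 (nat_lit 140974324) (nat_lit 380) (nat_lit 8017933545) (nat_lit 80) (nat_lit 5) (nat_lit 84) (nat_lit 5) (nat_lit 85) (nat_lit 5) (nat_lit 484) (nat_lit 365) (nat_lit 291)) (XT.lf (nat_lit 0) (nat_lit 348729305) (nat_lit 228) (nat_lit 9062317009) (nat_lit 304) (nat_lit 4085448403) (nat_lit 77) (nat_lit 5) (nat_lit 80) (nat_lit 5) (nat_lit 81) (nat_lit 5) (nat_lit 485) (nat_lit 365) (nat_lit 290))))) (XT.nd (nat_lit 234) (nat_lit 532) (nat_lit 0) (XT.nd (nat_lit 78) (nat_lit 304) (nat_lit 0) (XT.lf (nat_lit 0) (nat_lit 9082276326) (nat_lit 228) (nat_lit 4530209391) (nat_lit 304) (nat_lit 50230110) (nat_lit 77) (nat_lit 5) (nat_lit 80) (nat_lit 5) (nat_lit 81) (nat_lit 5) (nat_lit 486) (nat_lit 365) (nat_lit 289)) (XT.nd (nat_lit 78) (nat_lit 0) (nat_lit 0) (XT.lf (nat_lit 0) (nat_lit 4008369762) (nat_lit 304) (nat_lit 9699868980) (nat_lit 76) (nat_lit 123578326) (nat_lit 73) (nat_lit 5) (nat_lit 77) (nat_lit 5) (nat_lit 74) (nat_lit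 5) (nat_lit 487) (nat_lit 365) (nat_lit 288)) (XT.lf (nat_lit 0) (nat_lit 8176902669) (nat_lit 304) (nat_lit 1006951896) (nat_lit 76) (nat_lit 4819854025) (nat_lit 73) (nat_lit 5) (nat_lit 77) (nat_lit 5) (nat_lit 74) (nat_lit 5) (nat_lit 488) (nat_lit 365) (nat_lit 287)))) (XT.nd (nat_lit 78) (nat_lit 304) (nat_lit 0) (XT.lf (nat_lit 0) (nat_lit 7911226562) (nat_lit 228) (nat_lit 4538053314) (nat_lit 304) (nat_lit 1729352095) (nat_lit 70) (nat_lit 5) (nat_lit 73) (nat_lit 5) (nat_lit 74) (nat_lit 5) (nat_lit 489) (nat_lit 365) (nat_lit 286)) (XT.nd (nat_lit 78) (nat_lit 0) (nat_lit 0) (XT.lf (nat_lit 0) (nat_lit 2412396345) (nat_lit 304) (nat_lit 11727678466) (nat_lit 76) (nat_lit 216774658) (nat_lit 66) (nat_lit 5) (nat_lit 70) (nat_lit 5) (nat_lit 67) (nat_lit 5) (nat_lit 490) (nat_lit 365) (nat_lit 285)) (XT.lf (nat_lit 0) (nat_lit 6655532064) (nat_lit 304) (nat_lit 2843492159) (nat_lit 76) (nat_lit 5038547605) (nat_lit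 66) (nat_lit 5) (nat_lit 70) (nat_lit 5) (nat_lit 67) (nat_lit 5) (nat_lit 491) (nat_lit 365) (nat_lit 284)))))) (XT.nd (nat_lit 468) (nat_lit 836) (nat_lit 0) (XT.nd (nat_lit 234) (nat_lit 456) (nat_lit 0) (XT.nd (nat_lit 78) (nat_lit 304) (nat_lit 0) (XT.lf (nat_lit 0) (nat_lit 6248809839) (nat_lit 228) (nat_lit 4745191329) (nat_lit 304) (nat_lit 3727701285) (nat_lit 63) (nat_lit 5) (nat_lit 66) (nat_lit 5) (nat_lit 67) (nat_lit 5) (nat_lit 492) (nat_lit 365) (nat_lit 283)) (XT.nd (nat_lit 78) (nat_lit 0) (nat_lit 0) (XT.lf (nat_lit 0) (nat_lit 496841520) (nat_lit 304) (nat_lit 14305014443) (nat_lit 76) (nat_lit 107720593) (nat_lit 59) (nat_lit 5) (nat_lit 63) (nat_lit 5) (nat_lit 60) (nat_lit 5) (nat_lit 493) (nat_lit 365) (nat_lit 282)) (XT.lf (nat_lit 0) (nat_lit 4814740562) (nat_lit 304) (nat_lit 5229846970) (nat_lit 76) (nat_lit 5054955269) (nat_lit 59) (nat_lit 5) (nat_lit 63) (nat_lit 5) (nat_lit 60) (nat_lit 5) (nat_lit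 494) (nat_lit 365) (nat_lit 281)))) (XT.nd (nat_lit 78) (nat_lit 304) (nat_lit 0) (XT.lf (nat_lit 0) (nat_lit 4028972596) (nat_lit 152) (nat_lit 5186843969) (nat_lit 228) (nat_lit 6077558414) (nat_lit 57) (nat_lit 5) (nat_lit 59) (nat_lit 5) (nat_lit 60) (nat_lit 5) (nat_lit 495) (nat_lit 365) (nat_lit 280)) (XT.nd (nat_lit 78) (nat_lit 304) (nat_lit 0) (XT.lf (nat_lit 0) (nat_lit 13493502050) (nat_lit 152) (nat_lit 217415613) (nat_lit 228) (nat_lit 1780048994) (nat_lit 57) (nat_lit 5) (nat_lit 59) (nat_lit 5) (nat_lit 60) (nat_lit 5) (nat_lit 496) (nat_lit 365) (nat_lit 279)) (XT.lf (nat_lit 0) (nat_lit 2620955671) (nat_lit 304) (nat_lit 8237234681) (nat_lit 76) (nat_lit 4832950784) (nat_lit 53) (nat_lit 5) (nat_lit 57) (nat_lit 5) (nat_lit 54) (nat_lit 5) (nat_lit 497) (nat_lit 365) (nat_lit 278))))) (XT.nd (nat_lit 234) (nat_lit 380) (nat_lit 0) (XT.nd (nat_lit 78) (nat_lit 304) (nat_lit 0) (XT.lf (nat_lit 0) (nat_lit 1178606504)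 (nat_lit 152) (nat_lit 5901539550) (nat_lit 228) (nat_lit 8815060479) (nat_lit 51) (nat_lit 5) (nat_lit 53) (nat_lit 5) (nat_lit 54) (nat_lit 5) (nat_lit 498) (nat_lit 365) (nat_lit 277)) (XT.nd (nat_lit 78) (nat_lit 304) (nat_lit 0) (XT.lf (nat_lit 0) (nat_lit 10844886260) (nat_lit 152) (nat_lit 810542722) (nat_lit 228) (nat_lit 4447388788) (nat_lit 51) (nat_lit 5) (nat_lit 53) (nat_lit 5) (nat_lit 54) (nat_lit 5) (nat_lit 499) (nat_lit 365) (nat_lit 276)) (XT.lf (nat_lit 0) (nat_lit 36602980) (nat_lit 304) (nat_lit 11944467915) (nat_lit 76) (nat_lit 4332930610) (nat_lit 47) (nat_lit 5) (nat_lit 51) (nat_lit 5) (nat_lit 48) (nat_lit 5) (nat_lit 500) (nat_lit 365) (nat_lit 275)))) (XT.nd (nat_lit 78) (nat_lit 380) (nat_lit 0) (XT.lf (nat_lit 0) (nat_lit 4563764614) (nat_lit 304) (nat_lit 2351977013) (nat_lit 76) (nat_lit 9612821080) (nat_lit 47) (nat_lit 5) (nat_lit 51) (nat_lit 5) (nat_lit 48) (nat_lit 5) (nat_lit 501) (nat_lit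 365) (nat_lit 274)) (XT.nd (nat_lit 78) (nat_lit 228) (nat_lit 0) (XT.lf (nat_lit 0) (nat_lit 7482418536) (nat_lit 152) (nat_lit 1720278743) (nat_lit 228) (nat_lit 7544295798) (nat_lit 45) (nat_lit 5) (nat_lit 47) (nat_lit 5) (nat_lit 48) (nat_lit 5) (nat_lit 502) (nat_lit 365) (nat_lit 273)) (XT.lf (nat_lit 0) (nat_lit 511094860) (nat_lit 228) (nat_lit 13438496707) (nat_lit 304) (nat_lit 3019899279) (nat_lit 42) (nat_lit 5) (nat_lit 45) (nat_lit 5) (nat_lit 46) (nat_lit 5) (nat_lit 503) (nat_lit 365) (nat_lit 272))))))))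
noncomputable def xc55 : XT := (XT.nd (nat_lit 53352) (nat_lit 0) (nat_lit 12844) (XT.nd (nat_lit 52494) (nat_lit 0) (nat_lit 24624) (XT.nd (nat_lit 52026) (nat_lit 0) (nat_lit 33212) (XT.nd (nat_lit 156) (nat_lit 0) (nat_lit 0) (XT.nd (nat_lit 78) (nat_lit 152) (nat_lit 0) (XT.lf (nat_lit 0) (nat_lit 1620822735) (nat_lit 304) (nat_lit 6657714053) (nat_lit 76) (nat_lit 8916761901) (nat_lit 41) (nat_lit 5) (nat_lit 45) (nat_lit 5) (nat_lit 42) (nat_lit 5) (nat_lit 504) (nat_lit 365) (nat_lit 271)) (XT.lf (nat_lit 0) (nat_lit 3315186666) (nat_lit 152) (nat_lit 2993613568) (nat_lit 228) (nat_lit 11116527984) (nat_lit 39) (nat_lit 5) (nat_lit 41) (nat_lit 5) (nat_lit 42) (nat_lit 5) (nat_lit 505) (nat_lit 365) (nat_lit 270))) (XT.nd (nat_lit 51714) (nat_lit 0) (nat_lit 40660) (XT.lf (nat_lit 0) (nat_lit 11124473424) (nat_lit 228) (nat_lit 4144493454) (nat_lit 76) (nat_lit 2390315002) (nat_lit 39) (nat_lit 5) (nat_lit 42) (nat_lit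 5) (nat_lit 40) (nat_lit 5) (nat_lit 506) (nat_lit 365) (nat_lit 269)) (XT.nd (nat_lit 78) (nat_lit 0) (nat_lit 0) (XT.lf (nat_lit 0) (nat_lit 547808703) (nat_lit 1292) (nat_lit 2316356102) (nat_lit 0) (nat_lit 547808703) (nat_lit 574) (nat_lit 5) (nat_lit 591) (nat_lit 4) (nat_lit 574) (nat_lit 4) (nat_lit 408) (nat_lit 366) (nat_lit 366)) (XT.lf (nat_lit 0) (nat_lit 4396382589) (nat_lit 1292) (nat_lit 46905688) (nat_lit 0) (nat_lit 2408777892) (nat_lit 574) (nat_lit 5) (nat_lit 591) (nat_lit 4) (nat_lit 574) (nat_lit 4) (nat_lit 409) (nat_lit 366) (nat_lit 365))))) (XT.nd (nat_lit 234) (nat_lit 3192) (nat_lit 0) (XT.nd (nat_lit 78) (nat_lit 2888) (nat_lit 0) (XT.lf (nat_lit 0) (nat_lit 831484356) (nat_lit 1368) (nat_lit 2256638352) (nat_lit 76) (nat_lit 3793326127) (nat_lit 556) (nat_lit 5) (nat_lit 574) (nat_lit 5) (nat_lit 557) (nat_lit 4) (nat_lit 410) (nat_lit 366) (nat_lit 364)) (XT.nd (nat_lit 78) (nat_lit 1520) (nat_lit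 0) (XT.lf (nat_lit 0) (nat_lit 2433338224) (nat_lit 1368) (nat_lit 1665670964) (nat_lit 1444) (nat_lit 2813163419) (nat_lit 538) (nat_lit 5) (nat_lit 556) (nat_lit 5) (nat_lit 557) (nat_lit 4) (nat_lit 411) (nat_lit 366) (nat_lit 363)) (XT.lf (nat_lit 0) (nat_lit 242380527) (nat_lit 1444) (nat_lit 188227971) (nat_lit 1520) (nat_lit 6513893049) (nat_lit 518) (nat_lit 5) (nat_lit 537) (nat_lit 5) (nat_lit 538) (nat_lit 5) (nat_lit 412) (nat_lit 366) (nat_lit 362)))) (XT.nd (nat_lit 78) (nat_lit 3192) (nat_lit 0) (XT.lf (nat_lit 0) (nat_lit 3673235502) (nat_lit 1520) (nat_lit 1948558543) (nat_lit 76) (nat_lit 1355904546) (nat_lit 518) (nat_lit 5) (nat_lit 538) (nat_lit 5) (nat_lit 519) (nat_lit 4) (nat_lit 413) (nat_lit 366) (nat_lit 361)) (XT.nd (nat_lit 78) (nat_lit 1672) (nat_lit 0) (XT.lf (nat_lit 0) (nat_lit 2874744626) (nat_lit 1520) (nat_lit 4059995460) (nat_lit 1596) (nat_lit 77764852) (nat_lit 498) (nat_lit 5) (nat_lit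 518) (nat_lit 5) (nat_lit 519) (nat_lit 4) (nat_lit 414) (nat_lit 366) (nat_lit 360)) (XT.lf (nat_lit 0) (nat_lit 699124827) (nat_lit 1596) (nat_lit 2424450622) (nat_lit 1672) (nat_lit 3924994476) (nat_lit 476) (nat_lit 5) (nat_lit 497) (nat_lit 5) (nat_lit 498) (nat_lit 5) (nat_lit 415) (nat_lit 366) (nat_lit 359)))))) (XT.nd (nat_lit 390) (nat_lit 3724) (nat_lit 0) (XT.nd (nat_lit 156) (nat_lit 3116) (nat_lit 0) (XT.nd (nat_lit 78) (nat_lit 1748) (nat_lit 0) (XT.lf (nat_lit 0) (nat_lit 5626449012) (nat_lit 1596) (nat_lit 724649715) (nat_lit 1672) (nat_lit 735007631) (nat_lit 476) (nat_lit 5) (nat_lit 497) (nat_lit 5) (nat_lit 498) (nat_lit 5) (nat_lit 416) (nat_lit 366) (nat_lit 358)) (XT.lf (nat_lit 0) (nat_lit 2451524024) (nat_lit 1748) (nat_lit 3635836700) (nat_lit 76) (nat_lit 1037413562) (nat_lit 453) (nat_lit 5) (nat_lit 476) (nat_lit 5) (nat_lit 454) (nat_lit 5) (nat_lit 417) (nat_lit 366) (nat_lit 357))) (XT.nd (nat_lit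 78) (nat_lit 1368) (nat_lit 0) (XT.lf (nat_lit 0) (nat_lit 1337672859) (nat_lit 1748) (nat_lit 4314745990) (nat_lit 1824) (nat_lit 1512513037) (nat_lit 430) (nat_lit 5) (nat_lit 453) (nat_lit 5) (nat_lit 454) (nat_lit 5) (nat_lit 418) (nat_lit 366) (nat_lit 356)) (XT.nd (nat_lit 78) (nat_lit 1292) (nat_lit 0) (XT.lf (nat_lit 0) (nat_lit 1651071386) (nat_lit 1824) (nat_lit 819592815) (nat_lit 76) (nat_lit 4735786709) (nat_lit 429) (nat_lit 5) (nat_lit 453) (nat_lit 5) (nat_lit 430) (nat_lit 5) (nat_lit 419) (nat_lit 366) (nat_lit 355)) (XT.lf (nat_lit 0) (nat_lit 4272626635) (nat_lit 1292) (nat_lit 551551429) (nat_lit 1368) (nat_lit 2425113878) (nat_lit 412) (nat_lit 5) (nat_lit 429) (nat_lit 5) (nat_lit 430) (nat_lit 5) (nat_lit 420) (nat_lit 366) (nat_lit 354))))) (XT.nd (nat_lit 234) (nat_lit 1900) (nat_lit 0) (XT.nd (nat_lit 78) (nat_lit 836) (nat_lit 0) (XT.lf (nat_lit 0) (nat_lit 725565892) (nat_lit 988) (nat_lit 5157021324)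 (nat_lit 76) (nat_lit 1410966122) (nat_lit 399) (nat_lit 5) (nat_lit 412) (nat_lit 5) (nat_lit 400) (nat_lit 5) (nat_lit 421) (nat_lit 366) (nat_lit 353)) (XT.nd (nat_lit 78) (nat_lit 836) (nat_lit 0) (XT.lf (nat_lit 0) (nat_lit 3870486437) (nat_lit 988) (nat_lit 28650826) (nat_lit 76) (nat_lit 3439988504) (nat_lit 399) (nat_lit 5) (nat_lit 412) (nat_lit 5) (nat_lit 400) (nat_lit 5) (nat_lit 422) (nat_lit 366) (nat_lit 352)) (XT.lf (nat_lit 0) (nat_lit 5208988381) (nat_lit 836) (nat_lit 1844224636) (nat_lit 912) (nat_lit 332918468) (nat_lit 388) (nat_lit 5) (nat_lit 399) (nat_lit 5) (nat_lit 400) (nat_lit 5) (nat_lit 423) (nat_lit 366) (nat_lit 351)))) (XT.nd (nat_lit 78) (nat_lit 912) (nat_lit 0) (XT.lf (nat_lit 0) (nat_lit 2791419239) (nat_lit 988) (nat_lit 4358918550) (nat_lit 76) (nat_lit 284116966) (nat_lit 375) (nat_lit 5) (nat_lit 388) (nat_lit 5) (nat_lit 376) (nat_lit 5) (nat_lit 424) (nat_lit 366) (nat_lit 350)) (XT.nd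 (nat_lit 78) (nat_lit 76) (nat_lit 0) (XT.lf (nat_lit 0) (nat_lit 914051472) (nat_lit 836) (nat_lit 5034757535) (nat_lit 912) (nat_lit 1535409851) (nat_lit 364) (nat_lit 5) (nat_lit 375) (nat_lit 5) (nat_lit 376) (nat_lit 5) (nat_lit 425) (nat_lit 366) (nat_lit 349)) (XT.lf (nat_lit 0) (nat_lit 1584874874) (nat_lit 912) (nat_lit 1256750737) (nat_lit 76) (nat_lit 4693719680) (nat_lit 363) (nat_lit 5) (nat_lit 375) (nat_lit 5) (nat_lit 364) (nat_lit 5) (nat_lit 426) (nat_lit 366) (nat_lit 348))))))) (XT.nd (nat_lit 858) (nat_lit 5548) (nat_lit 0) (XT.nd (nat_lit 390) (nat_lit 2964) (nat_lit 0) (XT.nd (nat_lit 156) (nat_lit 1596) (nat_lit 0) (XT.nd (nat_lit 78) (nat_lit 836) (nat_lit 0) (XT.lf (nat_lit 0) (nat_lit 4145249727) (nat_lit 836) (nat_lit 572314094) (nat_lit 912) (nat_lit 2870334052) (nat_lit 352) (nat_lit 5) (nat_lit 363) (nat_lit 5) (nat_lit 364) (nat_lit 5) (nat_lit 427) (nat_lit 366) (nat_lit 347)) (XT.lf (nat_lit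 0) (nat_lit 244646518) (nat_lit 836) (nat_lit 5660524285) (nat_lit 76) (nat_lit 1736776505) (nat_lit 341) (nat_lit 5) (nat_lit 352) (nat_lit 5) (nat_lit 342) (nat_lit 5) (nat_lit 428) (nat_lit 366) (nat_lit 346))) (XT.nd (nat_lit 78) (nat_lit 1596) (nat_lit 0) (XT.lf (nat_lit 0) (nat_lit 3355174822) (nat_lit 836) (nat_lit 221835294) (nat_lit 76) (nat_lit 4120271250) (nat_lit 341) (nat_lit 5) (nat_lit 352) (nat_lit 5) (nat_lit 342) (nat_lit 5) (nat_lit 429) (nat_lit 366) (nat_lit 345)) (XT.nd (nat_lit 78) (nat_lit 836) (nat_lit 0) (XT.lf (nat_lit 0) (nat_lit 5333906906) (nat_lit 760) (nat_lit 1174325138) (nat_lit 836) (nat_lit 1245900096) (nat_lit 331) (nat_lit 5) (nat_lit 341) (nat_lit 5) (nat_lit 342) (nat_lit 5) (nat_lit 430) (nat_lit 366) (nat_lit 344)) (XT.lf (nat_lit 0) (nat_lit 1863604496) (nat_lit 836) (nat_lit 4662312460) (nat_lit 76) (nat_lit 1286441364) (nat_lit 320) (nat_lit 5) (nat_lit 331) (nat_lit 5) (nat_lit 321)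 (nat_lit 5) (nat_lit 431) (nat_lit 366) (nat_lit 343))))) (XT.nd (nat_lit 234) (nat_lit 1444) (nat_lit 0) (XT.nd (nat_lit 78) (nat_lit 760) (nat_lit 0) (XT.lf (nat_lit 0) (nat_lit 926495802) (nat_lit 760) (nat_lit 4068866179) (nat_lit 836) (nat_lit 2876702882) (nat_lit 310) (nat_lit 5) (nat_lit 320) (nat_lit 5) (nat_lit 321) (nat_lit 5) (nat_lit 432) (nat_lit 366) (nat_lit 342)) (XT.nd (nat_lit 78) (nat_lit 684) (nat_lit 0) (XT.lf (nat_lit 0) (nat_lit 231782804) (nat_lit 836) (nat_lit 1306868877) (nat_lit 76) (nat_lit 6394728136) (nat_lit 309) (nat_lit 5) (nat_lit 320) (nat_lit 5) (nat_lit 310) (nat_lit 5) (nat_lit 433) (nat_lit 366) (nat_lit 341)) (XT.lf (nat_lit 0) (nat_lit 3347594678) (nat_lit 760) (nat_lit 3581194686) (nat_lit 76) (nat_lit 1067092460) (nat_lit 300) (nat_lit 5) (nat_lit 310) (nat_lit 5) (nat_lit 301) (nat_lit 5) (nat_lit 434) (nat_lit 366) (nat_lit 340)))) (XT.nd (nat_lit 78) (nat_lit 760) (nat_lit 0) (XT.lf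 (nat_lit 0) (nat_lit 2164801046) (nat_lit 684) (nat_lit 4342463890) (nat_lit 760) (nat_lit 1552752371) (nat_lit 291) (nat_lit 5) (nat_lit 300) (nat_lit 5) (nat_lit 301) (nat_lit 5) (nat_lit 435) (nat_lit 366) (nat_lit 339)) (XT.nd (nat_lit 78) (nat_lit 684) (nat_lit 0) (XT.lf (nat_lit 0) (nat_lit 1556565031) (nat_lit 760) (nat_lit 123831075) (nat_lit 76) (nat_lit 6445386389) (nat_lit 290) (nat_lit 5) (nat_lit 300) (nat_lit 5) (nat_lit 291) (nat_lit 5) (nat_lit 436) (nat_lit 366) (nat_lit 338)) (XT.lf (nat_lit 0) (nat_lit 4701435908) (nat_lit 760) (nat_lit 2432889298) (nat_lit 76) (nat_lit 1058462791) (nat_lit 281) (nat_lit 5) (nat_lit 291) (nat_lit 5) (nat_lit 282) (nat_lit 5) (nat_lit 437) (nat_lit 366) (nat_lit 337)))))) (XT.nd (nat_lit 468) (nat_lit 2280) (nat_lit 0) (XT.nd (nat_lit 234) (nat_lit 1900) (nat_lit 0) (XT.nd (nat_lit 78) (nat_lit 684) (nat_lit 0) (XT.lf (nat_lit 0) (nat_lit 3474435939) (nat_lit 684) (nat_lit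 4419540805) (nat_lit 760) (nat_lit 367474607) (nat_lit 272) (nat_lit 5) (nat_lit 281) (nat_lit 5) (nat_lit 282) (nat_lit 5) (nat_lit 438) (nat_lit 366) (nat_lit 336)) (XT.nd (nat_lit 78) (nat_lit 0) (nat_lit 0) (XT.lf (nat_lit 0) (nat_lit 1136088239) (nat_lit 608) (nat_lit 1620119735) (nat_lit 684) (nat_lit 5575440682) (nat_lit 263) (nat_lit 5) (nat_lit 271) (nat_lit 5) (nat_lit 272) (nat_lit 5) (nat_lit 439) (nat_lit 366) (nat_lit 335)) (XT.lf (nat_lit 0) (nat_lit 5928779302) (nat_lit 684) (nat_lit 1233356784) (nat_lit 76) (nat_lit 1241250960) (nat_lit 263) (nat_lit 5) (nat_lit 272) (nat_lit 5) (nat_lit 264) (nat_lit 5) (nat_lit 440) (nat_lit 366) (nat_lit 334)))) (XT.nd (nat_lit 78) (nat_lit 1216) (nat_lit 0) (XT.lf (nat_lit 0) (nat_lit 673250138) (nat_lit 684) (nat_lit 3641686193) (nat_lit 76) (nat_lit 4161665757) (nat_lit 254) (nat_lit 5) (nat_lit 263) (nat_lit 5) (nat_lit 255) (nat_lit 5) (nat_lit 441) (nat_lit 366) (nat_lit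 333)) (XT.nd (nat_lit 78) (nat_lit 608) (nat_lit 0) (XT.lf (nat_lit 0) (nat_lit 2444127286) (nat_lit 608) (nat_lit 1383189804) (nat_lit 684) (nat_lit 4724121173) (nat_lit 246) (nat_lit 5) (nat_lit 254) (nat_lit 5) (nat_lit 255) (nat_lit 5) (nat_lit 442) (nat_lit 366) (nat_lit 332)) (XT.lf (nat_lit 0) (nat_lit 1052545) (nat_lit 608) (nat_lit 7031059929) (nat_lit 684) (nat_lit 1595917229) (nat_lit 238) (nat_lit 5) (nat_lit 246) (nat_lit 5) (nat_lit 247) (nat_lit 5) (nat_lit 443) (nat_lit 366) (nat_lit 331))))) (XT.nd (nat_lit 234) (nat_lit 1140) (nat_lit 0) (XT.nd (nat_lit 78) (nat_lit 1064) (nat_lit 0) (XT.lf (nat_lit 0) (nat_lit 1577162011) (nat_lit 684) (nat_lit 2473082862) (nat_lit 76) (nat_lit 4655647482) (nat_lit 237) (nat_lit 5) (nat_lit 246) (nat_lit 5) (nat_lit 238) (nat_lit 5) (nat_lit 444) (nat_lit 366) (nat_lit 330)) (XT.nd (nat_lit 78) (nat_lit 532) (nat_lit 0) (XT.lf (nat_lit 0) (nat_lit 3781808985) (nat_lit 532)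 (nat_lit 988836833) (nat_lit 608) (nat_lit 4014900035) (nat_lit 230) (nat_lit 5) (nat_lit 237) (nat_lit 5) (nat_lit 238) (nat_lit 5) (nat_lit 445) (nat_lit 366) (nat_lit 329)) (XT.lf (nat_lit 0) (nat_lit 1270017140) (nat_lit 532) (nat_lit 6750941721) (nat_lit 608) (nat_lit 845984980) (nat_lit 223) (nat_lit 5) (nat_lit 230) (nat_lit 5) (nat_lit 231) (nat_lit 5) (nat_lit 446) (nat_lit 366) (nat_lit 328)))) (XT.nd (nat_lit 78) (nat_lit 1064) (nat_lit 0) (XT.lf (nat_lit 0) (nat_lit 2349705780) (nat_lit 608) (nat_lit 1296238427) (nat_lit 76) (nat_lit 5303832024) (nat_lit 222) (nat_lit 5) (nat_lit 230) (nat_lit 5) (nat_lit 223) (nat_lit 5) (nat_lit 447) (nat_lit 366) (nat_lit 327)) (XT.nd (nat_lit 78) (nat_lit 532) (nat_lit 0) (XT.lf (nat_lit 0) (nat_lit 5131625074) (nat_lit 532) (nat_lit 454926835) (nat_lit 608) (nat_lit 3447840132) (nat_lit 215) (nat_lit 5) (nat_lit 222) (nat_lit 5) (nat_lit 223) (nat_lit 5) (nat_lit 448) (nat_lit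 366) (nat_lit 326)) (XT.lf (nat_lit 0) (nat_lit 2539224283) (nat_lit 532) (nat_lit 6347956859) (nat_lit 608) (nat_lit 233547902) (nat_lit 208) (nat_lit 5) (nat_lit 215) (nat_lit 5) (nat_lit 216) (nat_lit 5) (nat_lit 449) (nat_lit 366) (nat_lit 325))))))))
noncomputable def xc56 : XT := (XT.nd (nat_lit 1716) (nat_lit 4560) (nat_lit 0) (XT.nd (nat_lit 858) (nat_lit 2812) (nat_lit 0) (XT.nd (nat_lit 390) (nat_lit 2356) (nat_lit 0) (XT.nd (nat_lit 156) (nat_lit 1064) (nat_lit 0) (XT.nd (nat_lit 78) (nat_lit 456) (nat_lit 0) (XT.lf (nat_lit 0) (nat_lit 2990271694) (nat_lit 608) (nat_lit 129395199) (nat_lit 76) (nat_lit 6089036357) (nat_lit 207) (nat_lit 5) (nat_lit 215) (nat_lit 5) (nat_lit 208) (nat_lit 5) (nat_lit 450) (nat_lit 366) (nat_lit 324)) (XT.lf (nat_lit 0) (nat_lit 6275458524) (nat_lit 532) (nat_lit 2824542505) (nat_lit 76) (nat_lit 198413910) (nat_lit 201) (nat_lit 5) (nat_lit 208) (nat_lit 5) (nat_lit 202) (nat_lit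 5) (nat_lit 451) (nat_lit 366) (nat_lit 323))) (XT.nd (nat_lit 78) (nat_lit 456) (nat_lit 0) (XT.lf (nat_lit 0) (nat_lit 236502782) (nat_lit 608) (nat_lit 5601621947) (nat_lit 76) (nat_lit 3551710801) (nat_lit 193) (nat_lit 5) (nat_lit 201) (nat_lit 5) (nat_lit 194) (nat_lit 5) (nat_lit 452) (nat_lit 366) (nat_lit 322)) (XT.nd (nat_lit 78) (nat_lit 0) (nat_lit 0) (XT.lf (nat_lit 0) (nat_lit 1021585544) (nat_lit 456) (nat_lit 2482025329) (nat_lit 532) (nat_lit 5979423988) (nat_lit 187) (nat_lit 5) (nat_lit 193) (nat_lit 5) (nat_lit 194) (nat_lit 5) (nat_lit 453) (nat_lit 366) (nat_lit 321)) (XT.lf (nat_lit 0) (nat_lit 6837531939) (nat_lit 532) (nat_lit 1791334884) (nat_lit 76) (nat_lit 949210472) (nat_lit 187) (nat_lit 5) (nat_lit 194) (nat_lit 5) (nat_lit 188) (nat_lit 5) (nat_lit 454) (nat_lit 366) (nat_lit 320))))) (XT.nd (nat_lit 234) (nat_lit 1368) (nat_lit 0) (XT.nd (nat_lit 78) (nat_lit 456) (nat_lit 0) (XT.lf (nat_lit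 0) (nat_lit 563031225) (nat_lit 532) (nat_lit 4676869606) (nat_lit 76) (nat_lit 4434908713) (nat_lit 180) (nat_lit 5) (nat_lit 187) (nat_lit 5) (nat_lit 181) (nat_lit 5) (nat_lit 455) (nat_lit 366) (nat_lit 319)) (XT.nd (nat_lit 78) (nat_lit 0) (nat_lit 0) (XT.lf (nat_lit 0) (nat_lit 2123880349) (nat_lit 456) (nat_lit 1756532504) (nat_lit 532) (nat_lit 5893020737) (nat_lit 174) (nat_lit 5) (nat_lit 180) (nat_lit 5) (nat_lit 181) (nat_lit 5) (nat_lit 456) (nat_lit 366) (nat_lit 318)) (XT.lf (nat_lit 0) (nat_lit 7266212319) (nat_lit 532) (nat_lit 821341755) (nat_lit 76) (nat_lit 1786442522) (nat_lit 174) (nat_lit 5) (nat_lit 181) (nat_lit 5) (nat_lit 175) (nat_lit 5) (nat_lit 457) (nat_lit 366) (nat_lit 317)))) (XT.nd (nat_lit 78) (nat_lit 836) (nat_lit 0) (XT.lf (nat_lit 0) (nat_lit 744684215) (nat_lit 532) (nat_lit 3827677413) (nat_lit 76) (nat_lit 5403894830) (nat_lit 167) (nat_lit 5) (nat_lit 174) (nat_lit 5) (nat_lit 168)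 (nat_lit 5) (nat_lit 458) (nat_lit 366) (nat_lit 316)) (XT.nd (nat_lit 78) (nat_lit 456) (nat_lit 0) (XT.lf (nat_lit 0) (nat_lit 3153548471) (nat_lit 380) (nat_lit 961552142) (nat_lit 456) (nat_lit 5965407249) (nat_lit 162) (nat_lit 5) (nat_lit 167) (nat_lit 5) (nat_lit 168) (nat_lit 5) (nat_lit 459) (nat_lit 366) (nat_lit 315)) (XT.lf (nat_lit 0) (nat_lit 63570012) (nat_lit 456) (nat_lit 7493339995) (nat_lit 532) (nat_lit 2629861876) (nat_lit 156) (nat_lit 5) (nat_lit 162) (nat_lit 5) (nat_lit 163) (nat_lit 5) (nat_lit 460) (nat_lit 366) (nat_lit 314)))))) (XT.nd (nat_lit 390) (nat_lit 1520) (nat_lit 0) (XT.nd (nat_lit 156) (nat_lit 836) (nat_lit 0) (XT.nd (nat_lit 78) (nat_lit 380) (nat_lit 0) (XT.lf (nat_lit 0) (nat_lit 775601503) (nat_lit 532) (nat_lit 3077638429) (nat_lit 76) (nat_lit 6441561211) (nat_lit 155) (nat_lit 5) (nat_lit 162) (nat_lit 5) (nat_lit 156) (nat_lit 5) (nat_lit 461) (nat_lit 366) (nat_lit 313)) (XT.lf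 (nat_lit 0) (nat_lit 4086661350) (nat_lit 380) (nat_lit 114823924) (nat_lit 456) (nat_lit 6203414409) (nat_lit 150) (nat_lit 5) (nat_lit 155) (nat_lit 5) (nat_lit 156) (nat_lit 5) (nat_lit 462) (nat_lit 366) (nat_lit 312))) (XT.nd (nat_lit 78) (nat_lit 456) (nat_lit 0) (XT.lf (nat_lit 0) (nat_lit 847518213) (nat_lit 380) (nat_lit 6859895138) (nat_lit 456) (nat_lit 2809563038) (nat_lit 145) (nat_lit 5) (nat_lit 150) (nat_lit 5) (nat_lit 151) (nat_lit 5) (nat_lit 463) (nat_lit 366) (nat_lit 311)) (XT.nd (nat_lit 78) (nat_lit 380) (nat_lit 0) (XT.lf (nat_lit 0) (nat_lit 648395857) (nat_lit 456) (nat_lit 2452247708) (nat_lit 76) (nat_lit 7530477170) (nat_lit 144) (nat_lit 5) (nat_lit 150) (nat_lit 5) (nat_lit 145) (nat_lit 5) (nat_lit 464) (nat_lit 366) (nat_lit 310)) (XT.lf (nat_lit 0) (nat_lit 4136797612) (nat_lit 456) (nat_lit 5854953119) (nat_lit 76) (nat_lit 755454078) (nat_lit 139) (nat_lit 5) (nat_lit 145) (nat_lit 5) (nat_lit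 140) (nat_lit 5) (nat_lit 465) (nat_lit 366) (nat_lit 309))))) (XT.nd (nat_lit 234) (nat_lit 760) (nat_lit 0) (XT.nd (nat_lit 78) (nat_lit 380) (nat_lit 0) (XT.lf (nat_lit 0) (nat_lit 1492675686) (nat_lit 380) (nat_lit 6211427489) (nat_lit 456) (nat_lit 3161330890) (nat_lit 134) (nat_lit 5) (nat_lit 139) (nat_lit 5) (nat_lit 140) (nat_lit 5) (nat_lit 466) (nat_lit 366) (nat_lit 308)) (XT.nd (nat_lit 78) (nat_lit 304) (nat_lit 0) (XT.lf (nat_lit 0) (nat_lit 354056014) (nat_lit 456) (nat_lit 1979178636) (nat_lit 76) (nat_lit 8652712756) (nat_lit 133) (nat_lit 5) (nat_lit 139) (nat_lit 5) (nat_lit 134) (nat_lit 5) (nat_lit 467) (nat_lit 366) (nat_lit 307)) (XT.lf (nat_lit 0) (nat_lit 3907517885) (nat_lit 380) (nat_lit 5561877688) (nat_lit 76) (nat_lit 1638861421) (nat_lit 129) (nat_lit 5) (nat_lit 134) (nat_lit 5) (nat_lit 130) (nat_lit 5) (nat_lit 468) (nat_lit 366) (nat_lit 306)))) (XT.nd (nat_lit 78) (nat_lit 380) (nat_lit 0)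 (XT.lf (nat_lit 0) (nat_lit 1969746692) (nat_lit 380) (nat_lit 5567331148) (nat_lit 456) (nat_lit 3695840099) (nat_lit 124) (nat_lit 5) (nat_lit 129) (nat_lit 5) (nat_lit 130) (nat_lit 5) (nat_lit 469) (nat_lit 366) (nat_lit 305)) (XT.nd (nat_lit 78) (nat_lit 380) (nat_lit 0) (XT.lf (nat_lit 0) (nat_lit 9670695183) (nat_lit 380) (nat_lit 1569624849) (nat_lit 456) (nat_lit 119735880) (nat_lit 124) (nat_lit 5) (nat_lit 129) (nat_lit 5) (nat_lit 130) (nat_lit 5) (nat_lit 470) (nat_lit 366) (nat_lit 304)) (XT.lf (nat_lit 0) (nat_lit 3501612833) (nat_lit 380) (nat_lit 5469663247) (nat_lit 76) (nat_lit 2517608040) (nat_lit 119) (nat_lit 5) (nat_lit 124) (nat_lit 5) (nat_lit 120) (nat_lit 5) (nat_lit 471) (nat_lit 366) (nat_lit 303))))))) (XT.nd (nat_lit 858) (nat_lit 2204) (nat_lit 0) (XT.nd (nat_lit 390) (nat_lit 1292) (nat_lit 0) (XT.nd (nat_lit 156) (nat_lit 684) (nat_lit 0) (XT.nd (nat_lit 78) (nat_lit 0) (nat_lit 0) (XT.lf (nat_lit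 0) (nat_lit 2246731872) (nat_lit 380) (nat_lit 4947894169) (nat_lit 456) (nat_lit 4425635513) (nat_lit 114) (nat_lit 5) (nat_lit 119) (nat_lit 5) (nat_lit 120) (nat_lit 5) (nat_lit 472) (nat_lit 366) (nat_lit 302)) (XT.lf (nat_lit 0) (nat_lit 10135684704) (nat_lit 380) (nat_lit 827298818) (nat_lit 456) (nat_lit 791258536) (nat_lit 114) (nat_lit 5) (nat_lit 119) (nat_lit 5) (nat_lit 120) (nat_lit 5) (nat_lit 473) (nat_lit 366) (nat_lit 301))) (XT.nd (nat_lit 78) (nat_lit 304) (nat_lit 0) (XT.lf (nat_lit 0) (nat_lit 2905884889) (nat_lit 380) (nat_lit 5612661968) (nat_lit 76) (nat_lit 3371415281) (nat_lit 109) (nat_lit 5) (nat_lit 114) (nat_lit 5) (nat_lit 110) (nat_lit 5) (nat_lit 474) (nat_lit 366) (nat_lit 300)) (XT.nd (nat_lit 78) (nat_lit 0) (nat_lit 0) (XT.lf (nat_lit 0) (nat_lit 2288579146) (nat_lit 304) (nat_lit 4374506723) (nat_lit 380) (nat_lit 5365276855) (nat_lit 105) (nat_lit 5) (nat_lit 109) (nat_lit 5) (nat_lit 110)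 (nat_lit 5) (nat_lit 475) (nat_lit 366) (nat_lit 299)) (XT.lf (nat_lit 0) (nat_lit 10368810645) (nat_lit 304) (nat_lit 130032820) (nat_lit 380) (nat_lit 1670624409) (nat_lit 105) (nat_lit 5) (nat_lit 109) (nat_lit 5) (nat_lit 110) (nat_lit 5) (nat_lit 476) (nat_lit 366) (nat_lit 298))))) (XT.nd (nat_lit 234) (nat_lit 608) (nat_lit 0) (XT.nd (nat_lit 78) (nat_lit 304) (nat_lit 0) (XT.lf (nat_lit 0) (nat_lit 2105073075) (nat_lit 380) (nat_lit 6028552177) (nat_lit 76) (nat_lit 4178808740) (nat_lit 100) (nat_lit 5) (nat_lit 105) (nat_lit 5) (nat_lit 101) (nat_lit 5) (nat_lit 477) (nat_lit 366) (nat_lit 297)) (XT.nd (nat_lit 78) (nat_lit 0) (nat_lit 0) (XT.lf (nat_lit 0) (nat_lit 2056801958) (nat_lit 304) (nat_lit 3869883144) (nat_lit 380) (nat_lit 6531502596) (nat_lit 96) (nat_lit 5) (nat_lit 100) (nat_lit 5) (nat_lit 101) (nat_lit 5) (nat_lit 478) (nat_lit 366) (nat_lit 296)) (XT.lf (nat_lit 0) (nat_lit 9835104096) (nat_lit 380)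 (nat_lit 2278690029) (nat_lit 76) (nat_lit 492859298) (nat_lit 96) (nat_lit 5) (nat_lit 101) (nat_lit 5) (nat_lit 97) (nat_lit 5) (nat_lit 479) (nat_lit 366) (nat_lit 295)))) (XT.nd (nat_lit 78) (nat_lit 304) (nat_lit 0) (XT.lf (nat_lit 0) (nat_lit 1081679532) (nat_lit 304) (nat_lit 6758744249) (nat_lit 76) (nat_lit 4916890319) (nat_lit 92) (nat_lit 5) (nat_lit 96) (nat_lit 5) (nat_lit 93) (nat_lit 5) (nat_lit 480) (nat_lit 366) (nat_lit 294)) (XT.nd (nat_lit 78) (nat_lit 0) (nat_lit 0) (XT.lf (nat_lit 0) (nat_lit 1509061116) (nat_lit 304) (nat_lit 3458299946) (nat_lit 380) (nat_lit 7943414729) (nat_lit 88) (nat_lit 5) (nat_lit 92) (nat_lit 5) (nat_lit 93) (nat_lit 5) (nat_lit 481) (nat_lit 366) (nat_lit 293)) (XT.lf (nat_lit 0) (nat_lit 8950410092) (nat_lit 380) (nat_lit 3093445170) (nat_lit 76) (nat_lit 1023062478) (nat_lit 88) (nat_lit 5) (nat_lit 93) (nat_lit 5) (nat_lit 89) (nat_lit 5) (nat_lit 482) (nat_lit 366) (nat_lit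 292)))))) (XT.nd (nat_lit 468) (nat_lit 1064) (nat_lit 0) (XT.nd (nat_lit 234) (nat_lit 532) (nat_lit 0) (XT.nd (nat_lit 78) (nat_lit 380) (nat_lit 0) (XT.lf (nat_lit 0) (nat_lit 5375631388) (nat_lit 228) (nat_lit 7663363787) (nat_lit 304) (nat_lit 186673872) (nat_lit 85) (nat_lit 5) (nat_lit 88) (nat_lit 5) (nat_lit 89) (nat_lit 5) (nat_lit 483) (nat_lit 366) (nat_lit 291)) (XT.nd (nat_lit 78) (nat_lit 0) (nat_lit 0) (XT.lf (nat_lit 0) (nat_lit 598706117) (nat_lit 304) (nat_lit 3165852047) (nat_lit 380) (nat_lit 9622686320) (nat_lit 80) (nat_lit 5) (nat_lit 84) (nat_lit 5) (nat_lit 85) (nat_lit 5) (nat_lit 484) (nat_lit 366) (nat_lit 290)) (XT.lf (nat_lit 0) (nat_lit 7822861215) (nat_lit 380) (nat_lit 4292165136) (nat_lit 76) (nat_lit 1436393272) (nat_lit 80) (nat_lit 5) (nat_lit 85) (nat_lit 5) (nat_lit 81) (nat_lit 5) (nat_lit 485) (nat_lit 366) (nat_lit 289)))) (XT.nd (nat_lit 78) (nat_lit 304) (nat_lit 0) (XT.lf (nat_lit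 0) (nat_lit 4358184683) (nat_lit 228) (nat_lit 7622316421) (nat_lit 304) (nat_lit 1738017459) (nat_lit 77) (nat_lit 5) (nat_lit 80) (nat_lit 5) (nat_lit 81) (nat_lit 5) (nat_lit 486) (nat_lit 366) (nat_lit 288)) (XT.nd (nat_lit 78) (nat_lit 228) (nat_lit 0) (XT.lf (nat_lit 0) (nat_lit 2299713028) (nat_lit 304) (nat_lit 716210492) (nat_lit 76) (nat_lit 10872777315) (nat_lit 76) (nat_lit 5) (nat_lit 80) (nat_lit 5) (nat_lit 77) (nat_lit 5) (nat_lit 487) (nat_lit 366) (nat_lit 287)) (XT.lf (nat_lit 0) (nat_lit 6428628727) (nat_lit 304) (nat_lit 5927911848) (nat_lit 76) (nat_lit 1704845861) (nat_lit 73) (nat_lit 5) (nat_lit 77) (nat_lit 5) (nat_lit 74) (nat_lit 5) (nat_lit 488) (nat_lit 366) (nat_lit 286))))) (XT.nd (nat_lit 234) (nat_lit 532) (nat_lit 0) (XT.nd (nat_lit 78) (nat_lit 304) (nat_lit 0) (XT.lf (nat_lit 0) (nat_lit 2899122272) (nat_lit 228) (nat_lit 7754348896) (nat_lit 304) (nat_lit 3583791042) (nat_lit 70) (nat_lit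 5) (nat_lit 73) (nat_lit 5) (nat_lit 74) (nat_lit 5) (nat_lit 489) (nat_lit 366) (nat_lit 285)) (XT.nd (nat_lit 78) (nat_lit 228) (nat_lit 0) (XT.lf (nat_lit 0) (nat_lit 548809937) (nat_lit 304) (nat_lit 2488012736) (nat_lit 76) (nat_lit 11379568848) (nat_lit 69) (nat_lit 5) (nat_lit 73) (nat_lit 5) (nat_lit 70) (nat_lit 5) (nat_lit 490) (nat_lit 366) (nat_lit 284)) (XT.lf (nat_lit 0) (nat_lit 4740850323) (nat_lit 304) (nat_lit 8059290321) (nat_lit 76) (nat_lit 1797996742) (nat_lit 66) (nat_lit 5) (nat_lit 70) (nat_lit 5) (nat_lit 67) (nat_lit 5) (nat_lit 491) (nat_lit 366) (nat_lit 283)))) (XT.nd (nat_lit 78) (nat_lit 304) (nat_lit 0) (XT.lf (nat_lit 0) (nat_lit 938358179) (nat_lit 228) (nat_lit 8091873098) (nat_lit 304) (nat_lit 5753020068) (nat_lit 63) (nat_lit 5) (nat_lit 66) (nat_lit 5) (nat_lit 67) (nat_lit 5) (nat_lit 492) (nat_lit 366) (nat_lit 282)) (XT.nd (nat_lit 78) (nat_lit 304) (nat_lit 0) (XT.lf (nat_lit 0) (nat_lit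 10175025709) (nat_lit 228) (nat_lit 3255198523) (nat_lit 304) (nat_lit 1541349971) (nat_lit 63) (nat_lit 5) (nat_lit 66) (nat_lit 5) (nat_lit 67) (nat_lit 5) (nat_lit 493) (nat_lit 366) (nat_lit 281)) (XT.lf (nat_lit 0) (nat_lit 2729339378) (nat_lit 304) (nat_lit 10751073627) (nat_lit 76) (nat_lit 1682677566) (nat_lit 59) (nat_lit 5) (nat_lit 63) (nat_lit 5) (nat_lit 60) (nat_lit 5) (nat_lit 494) (nat_lit 366) (nat_lit 280))))))))
noncomputable def xc57 : XT := (XT.nd (nat_lit 53196) (nat_lit 0) (nat_lit 17632) (XT.nd (nat_lit 858) (nat_lit 152) (nat_lit 0) (XT.nd (nat_lit 390) (nat_lit 760) (nat_lit 0) (XT.nd (nat_lit 156) (nat_lit 456) (nat_lit 0) (XT.nd (nat_lit 78) (nat_lit 152) (nat_lit 0) (XT.lf (nat_lit 0) (nat_lit 7090016772) (nat_lit 304) (nat_lit 1569697728) (nat_lit 76) (nat_lit 6698017670) (nat_lit 59) (nat_lit 5) (nat_lit 63) (nat_lit 5) (nat_lit 60) (nat_lit 5) (nat_lit 495) (nat_lit 366) (nat_lit 279)) (XT.lf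 (nat_lit 0) (nat_lit 7849530162) (nat_lit 152) (nat_lit 3711141426) (nat_lit 228) (nat_lit 3995142607) (nat_lit 57) (nat_lit 5) (nat_lit 59) (nat_lit 5) (nat_lit 60) (nat_lit 5) (nat_lit 496) (nat_lit 366) (nat_lit 278))) (XT.nd (nat_lit 78) (nat_lit 152) (nat_lit 0) (XT.lf (nat_lit 0) (nat_lit 360261320) (nat_lit 304) (nat_lit 14074891086) (nat_lit 76) (nat_lit 1322618314) (nat_lit 53) (nat_lit 5) (nat_lit 57) (nat_lit 5) (nat_lit 54) (nat_lit 5) (nat_lit 497) (nat_lit 366) (nat_lit 277)) (XT.nd (nat_lit 78) (nat_lit 152) (nat_lit 0) (XT.lf (nat_lit 0) (nat_lit 4797915338) (nat_lit 304) (nat_lit 4698708755) (nat_lit 76) (nat_lit 6465644091) (nat_lit 53) (nat_lit 5) (nat_lit 57) (nat_lit 5) (nat_lit 54) (nat_lit 5) (nat_lit 498) (nat_lit 366) (nat_lit 276)) (XT.lf (nat_lit 0) (nat_lit 4881085632) (nat_lit 152) (nat_lit 4447432144) (nat_lit 228) (nat_lit 6842256568) (nat_lit 51) (nat_lit 5) (nat_lit 53) (nat_lit 5) (nat_lit 54)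 (nat_lit 5) (nat_lit 499) (nat_lit 366) (nat_lit 275))))) (XT.nd (nat_lit 234) (nat_lit 304) (nat_lit 0) (XT.nd (nat_lit 78) (nat_lit 456) (nat_lit 0) (XT.lf (nat_lit 0) (nat_lit 13958636557) (nat_lit 228) (nat_lit 1719451765) (nat_lit 76) (nat_lit 705186819) (nat_lit 51) (nat_lit 5) (nat_lit 54) (nat_lit 5) (nat_lit 52) (nat_lit 5) (nat_lit 500) (nat_lit 366) (nat_lit 274)) (XT.nd (nat_lit 78) (nat_lit 152) (nat_lit 0) (XT.lf (nat_lit 0) (nat_lit 2109394420) (nat_lit 304) (nat_lit 8541296786) (nat_lit 76) (nat_lit 5947959785) (nat_lit 47) (nat_lit 5) (nat_lit 51) (nat_lit 5) (nat_lit 48) (nat_lit 5) (nat_lit 501) (nat_lit 366) (nat_lit 273)) (XT.lf (nat_lit 0) (nat_lit 1187201341) (nat_lit 152) (nat_lit 5506977429) (nat_lit 228) (nat_lit 10123986772) (nat_lit 45) (nat_lit 5) (nat_lit 47) (nat_lit 5) (nat_lit 48) (nat_lit 5) (nat_lit 502) (nat_lit 366) (nat_lit 272)))) (XT.nd (nat_lit 78) (nat_lit 304) (nat_lit 0) (XT.lf (nat_lit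 0) (nat_lit 11179223340) (nat_lit 152) (nat_lit 222157167) (nat_lit 228) (nat_lit 5640077844) (nat_lit 45) (nat_lit 5) (nat_lit 47) (nat_lit 5) (nat_lit 48) (nat_lit 5) (nat_lit 503) (nat_lit 366) (nat_lit 271)) (XT.nd (nat_lit 78) (nat_lit 76) (nat_lit 0) (XT.lf (nat_lit 0) (nat_lit 4075460221) (nat_lit 228) (nat_lit 12161080862) (nat_lit 304) (nat_lit 1032001992) (nat_lit 42) (nat_lit 5) (nat_lit 45) (nat_lit 5) (nat_lit 46) (nat_lit 5) (nat_lit 504) (nat_lit 366) (nat_lit 270)) (XT.lf (nat_lit 0) (nat_lit 3635034789) (nat_lit 304) (nat_lit 3279905432) (nat_lit 76) (nat_lit 10584457025) (nat_lit 41) (nat_lit 5) (nat_lit 45) (nat_lit 5) (nat_lit 42) (nat_lit 5) (nat_lit 505) (nat_lit 366) (nat_lit 269)))))) (XT.nd (nat_lit 51870) (nat_lit 0) (nat_lit 33212) (XT.nd (nat_lit 51636) (nat_lit 0) (nat_lit 40660) (XT.nd (nat_lit 51558) (nat_lit 0) (nat_lit 43092) (XT.lf (nat_lit 0) (nat_lit 6869354861) (nat_lit 152) (nat_lit 1531203769)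 (nat_lit 228) (nat_lit 9333796363) (nat_lit 39) (nat_lit 5) (nat_lit 41) (nat_lit 5) (nat_lit 42) (nat_lit 5) (nat_lit 506) (nat_lit 366) (nat_lit 268)) (XT.lf (nat_lit 0) (nat_lit 1668480072) (nat_lit 1140) (nat_lit 48562919) (nat_lit 0) (nat_lit 1668480072) (nat_lit 606) (nat_lit 5) (nat_lit 621) (nat_lit 4) (nat_lit 606) (nat_lit 4) (nat_lit 406) (nat_lit 367) (nat_lit 367))) (XT.nd (nat_lit 78) (nat_lit 1292) (nat_lit 0) (XT.lf (nat_lit 0) (nat_lit 4421137989) (nat_lit 1140) (nat_lit 2221966863) (nat_lit 1140) (nat_lit 154062936) (nat_lit 591) (nat_lit 4) (nat_lit 606) (nat_lit 5) (nat_lit 606) (nat_lit 4) (nat_lit 407) (nat_lit 367) (nat_lit 366)) (XT.nd (nat_lit 78) (nat_lit 0) (nat_lit 0) (XT.lf (nat_lit 0) (nat_lit 2154948394) (nat_lit 1216) (nat_lit 939214532) (nat_lit 1292) (nat_lit 3730375024) (nat_lit 574) (nat_lit 5) (nat_lit 590) (nat_lit 5) (nat_lit 591) (nat_lit 4) (nat_lit 408) (nat_lit 367) (nat_lit 365)) (XT.lf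 (nat_lit 0) (nat_lit 6354605328) (nat_lit 1292) (nat_lit 107860865) (nat_lit 0) (nat_lit 391011784) (nat_lit 574) (nat_lit 5) (nat_lit 591) (nat_lit 4) (nat_lit 574) (nat_lit 4) (nat_lit 409) (nat_lit 367) (nat_lit 364))))) (XT.nd (nat_lit 234) (nat_lit 3192) (nat_lit 0) (XT.nd (nat_lit 78) (nat_lit 2888) (nat_lit 0) (XT.lf (nat_lit 0) (nat_lit 2728241896) (nat_lit 1368) (nat_lit 2362968497) (nat_lit 76) (nat_lit 1792097801) (nat_lit 556) (nat_lit 5) (nat_lit 574) (nat_lit 5) (nat_lit 557) (nat_lit 4) (nat_lit 410) (nat_lit 367) (nat_lit 363)) (XT.nd (nat_lit 78) (nat_lit 1520) (nat_lit 0) (XT.lf (nat_lit 0) (nat_lit 2295352471) (nat_lit 1368) (nat_lit 3666198963) (nat_lit 1444) (nat_lit 953178426) (nat_lit 538) (nat_lit 5) (nat_lit 556) (nat_lit 5) (nat_lit 557) (nat_lit 4) (nat_lit 411) (nat_lit 367) (nat_lit 362)) (XT.lf (nat_lit 0) (nat_lit 57230645) (nat_lit 1444) (nat_lit 2174677357) (nat_lit 1520) (nat_lit 4715608162)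 (nat_lit 518) (nat_lit 5) (nat_lit 537) (nat_lit 5) (nat_lit 538) (nat_lit 5) (nat_lit 412) (nat_lit 367) (nat_lit 361)))) (XT.nd (nat_lit 78) (nat_lit 3192) (nat_lit 0) (XT.lf (nat_lit 0) (nat_lit 4823184696) (nat_lit 1444) (nat_lit 609795202) (nat_lit 1520) (nat_lit 1548577216) (nat_lit 518) (nat_lit 5) (nat_lit 537) (nat_lit 5) (nat_lit 538) (nat_lit 5) (nat_lit 413) (nat_lit 367) (nat_lit 360)) (XT.nd (nat_lit 78) (nat_lit 1596) (nat_lit 0) (XT.lf (nat_lit 0) (nat_lit 1618363309) (nat_lit 1596) (nat_lit 4392004955) (nat_lit 76) (nat_lit 1006544571) (nat_lit 497) (nat_lit 5) (nat_lit 518) (nat_lit 5) (nat_lit 498) (nat_lit 5) (nat_lit 414) (nat_lit 367) (nat_lit 359)) (XT.lf (nat_lit 0) (nat_lit 410363437) (nat_lit 1596) (nat_lit 4374680581) (nat_lit 1672) (nat_lit 2268608568) (nat_lit 476) (nat_lit 5) (nat_lit 497) (nat_lit 5) (nat_lit 498) (nat_lit 5) (nat_lit 415) (nat_lit 367) (nat_lit 358))))))) (XT.nd (nat_lit 858)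 (nat_lit 6992) (nat_lit 0) (XT.nd (nat_lit 390) (nat_lit 3724) (nat_lit 0) (XT.nd (nat_lit 156) (nat_lit 3116) (nat_lit 0) (XT.nd (nat_lit 78) (nat_lit 1672) (nat_lit 0) (XT.lf (nat_lit 0) (nat_lit 877738060) (nat_lit 1672) (nat_lit 1789940400) (nat_lit 76) (nat_lit 4424033633) (nat_lit 475) (nat_lit 5) (nat_lit 497) (nat_lit 5) (nat_lit 476) (nat_lit 5) (nat_lit 416) (nat_lit 367) (nat_lit 357)) (XT.lf (nat_lit 0) (nat_lit 3126134829) (nat_lit 1672) (nat_lit 888331859) (nat_lit 1748) (nat_lit 3116632526) (nat_lit 453) (nat_lit 5) (nat_lit 475) (nat_lit 5) (nat_lit 476) (nat_lit 5) (nat_lit 417) (nat_lit 367) (nat_lit 356))) (XT.nd (nat_lit 78) (nat_lit 1292) (nat_lit 0) (XT.lf (nat_lit 0) (nat_lit 4382542) (nat_lit 1824) (nat_lit 6233283259) (nat_lit 76) (nat_lit 934379087) (nat_lit 429) (nat_lit 5) (nat_lit 453) (nat_lit 5) (nat_lit 430) (nat_lit 5) (nat_lit 418) (nat_lit 367) (nat_lit 355)) (XT.nd (nat_lit 78) (nat_lit 1292)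 (nat_lit 0) (XT.lf (nat_lit 0) (nat_lit 3117805065) (nat_lit 1824) (nat_lit 1265942091) (nat_lit 76) (nat_lit 2830237567) (nat_lit 429) (nat_lit 5) (nat_lit 453) (nat_lit 5) (nat_lit 430) (nat_lit 5) (nat_lit 419) (nat_lit 367) (nat_lit 354)) (XT.lf (nat_lit 0) (nat_lit 3790041495) (nat_lit 1292) (nat_lit 2468006571) (nat_lit 1368) (nat_lit 999445466) (nat_lit 412) (nat_lit 5) (nat_lit 429) (nat_lit 5) (nat_lit 430) (nat_lit 5) (nat_lit 420) (nat_lit 367) (nat_lit 353))))) (XT.nd (nat_lit 234) (nat_lit 1824) (nat_lit 0) (XT.nd (nat_lit 78) (nat_lit 912) (nat_lit 0) (XT.lf (nat_lit 0) (nat_lit 1608799085) (nat_lit 912) (nat_lit 481421953) (nat_lit 988) (nat_lit 5212205165) (nat_lit 399) (nat_lit 5) (nat_lit 411) (nat_lit 5) (nat_lit 412) (nat_lit 5) (nat_lit 421) (nat_lit 367) (nat_lit 352)) (XT.nd (nat_lit 78) (nat_lit 912) (nat_lit 0) (XT.lf (nat_lit 0) (nat_lit 5202851228) (nat_lit 988) (nat_lit 592633642) (nat_lit 76) (nat_lit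 1553169467) (nat_lit 399) (nat_lit 5) (nat_lit 412) (nat_lit 5) (nat_lit 400) (nat_lit 5) (nat_lit 422) (nat_lit 367) (nat_lit 351)) (XT.lf (nat_lit 0) (nat_lit 944210050) (nat_lit 912) (nat_lit 2795323194) (nat_lit 76) (nat_lit 3656662276) (nat_lit 387) (nat_lit 5) (nat_lit 399) (nat_lit 5) (nat_lit 388) (nat_lit 5) (nat_lit 423) (nat_lit 367) (nat_lit 350)))) (XT.nd (nat_lit 78) (nat_lit 912) (nat_lit 0) (XT.lf (nat_lit 0) (nat_lit 2418362274) (nat_lit 912) (nat_lit 1611249480) (nat_lit 988) (nat_lit 3415564526) (nat_lit 375) (nat_lit 5) (nat_lit 387) (nat_lit 5) (nat_lit 388) (nat_lit 5) (nat_lit 424) (nat_lit 367) (nat_lit 349)) (XT.nd (nat_lit 78) (nat_lit 76) (nat_lit 0) (XT.lf (nat_lit 0) (nat_lit 217020319) (nat_lit 836) (nat_lit 6926924206) (nat_lit 912) (nat_lit 351866141) (nat_lit 364) (nat_lit 5) (nat_lit 375) (nat_lit 5) (nat_lit 376) (nat_lit 5) (nat_lit 425) (nat_lit 367) (nat_lit 348)) (XT.lf (nat_lit 0) (nat_lit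 2724987648) (nat_lit 912) (nat_lit 2003692671) (nat_lit 76) (nat_lit 2818670054) (nat_lit 363) (nat_lit 5) (nat_lit 375) (nat_lit 5) (nat_lit 364) (nat_lit 5) (nat_lit 426) (nat_lit 367) (nat_lit 347)))))) (XT.nd (nat_lit 468) (nat_lit 3724) (nat_lit 0) (XT.nd (nat_lit 234) (nat_lit 1596) (nat_lit 0) (XT.nd (nat_lit 78) (nat_lit 836) (nat_lit 0) (XT.lf (nat_lit 0) (nat_lit 3357948249) (nat_lit 836) (nat_lit 2467255342) (nat_lit 912) (nat_lit 1775357441) (nat_lit 352) (nat_lit 5) (nat_lit 363) (nat_lit 5) (nat_lit 364) (nat_lit 5) (nat_lit 427) (nat_lit 367) (nat_lit 346)) (XT.nd (nat_lit 78) (nat_lit 0) (nat_lit 0) (XT.lf (nat_lit 0) (nat_lit 1144670560) (nat_lit 760) (nat_lit 136451362) (nat_lit 836) (nat_lit 6374237450) (nat_lit 341) (nat_lit 5) (nat_lit 351) (nat_lit 5) (nat_lit 352) (nat_lit 5) (nat_lit 428) (nat_lit 367) (nat_lit 345)) (XT.lf (nat_lit 0) (nat_lit 4363876715) (nat_lit 836) (nat_lit 1101646422) (nat_lit 76)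 (nat_lit 2245733883) (nat_lit 341) (nat_lit 5) (nat_lit 352) (nat_lit 5) (nat_lit 342) (nat_lit 5) (nat_lit 429) (nat_lit 367) (nat_lit 344)))) (XT.nd (nat_lit 78) (nat_lit 836) (nat_lit 0) (XT.lf (nat_lit 0) (nat_lit 4412071889) (nat_lit 760) (nat_lit 3072516513) (nat_lit 836) (nat_lit 284174263) (nat_lit 331) (nat_lit 5) (nat_lit 341) (nat_lit 5) (nat_lit 342) (nat_lit 5) (nat_lit 430) (nat_lit 367) (nat_lit 343)) (XT.nd (nat_lit 78) (nat_lit 0) (nat_lit 0) (XT.lf (nat_lit 0) (nat_lit 2172947839) (nat_lit 760) (nat_lit 598689132) (nat_lit 836) (nat_lit 5056056245) (nat_lit 320) (nat_lit 5) (nat_lit 330) (nat_lit 5) (nat_lit 331) (nat_lit 5) (nat_lit 431) (nat_lit 367) (nat_lit 342)) (XT.lf (nat_lit 0) (nat_lit 5867569238) (nat_lit 836) (nat_lit 104595665) (nat_lit 76) (nat_lit 1915958863) (nat_lit 320) (nat_lit 5) (nat_lit 331) (nat_lit 5) (nat_lit 321) (nat_lit 5) (nat_lit 432) (nat_lit 367) (nat_lit 341))))) (XT.nd (nat_lit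 234) (nat_lit 1520) (nat_lit 0) (XT.nd (nat_lit 78) (nat_lit 1368) (nat_lit 0) (XT.lf (nat_lit 0) (nat_lit 1050222607) (nat_lit 836) (nat_lit 2391521581) (nat_lit 76) (nat_lit 4508120168) (nat_lit 309) (nat_lit 5) (nat_lit 320) (nat_lit 5) (nat_lit 310) (nat_lit 5) (nat_lit 433) (nat_lit 367) (nat_lit 340)) (XT.nd (nat_lit 78) (nat_lit 684) (nat_lit 0) (XT.lf (nat_lit 0) (nat_lit 3292437248) (nat_lit 684) (nat_lit 833962312) (nat_lit 760) (nat_lit 3886766569) (nat_lit 300) (nat_lit 5) (nat_lit 309) (nat_lit 5) (nat_lit 310) (nat_lit 5) (nat_lit 434) (nat_lit 367) (nat_lit 339)) (XT.lf (nat_lit 0) (nat_lit 984983922) (nat_lit 684) (nat_lit 6263001021) (nat_lit 760) (nat_lit 830085298) (nat_lit 291) (nat_lit 5) (nat_lit 300) (nat_lit 5) (nat_lit 301) (nat_lit 5) (nat_lit 435) (nat_lit 367) (nat_lit 338)))) (XT.nd (nat_lit 78) (nat_lit 1444) (nat_lit 0) (XT.lf (nat_lit 0) (nat_lit 2244869183) (nat_lit 760) (nat_lit 1356755744)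 (nat_lit 76) (nat_lit 4542621022) (nat_lit 290) (nat_lit 5) (nat_lit 300) (nat_lit 5) (nat_lit 291) (nat_lit 5) (nat_lit 436) (nat_lit 367) (nat_lit 337)) (XT.nd (nat_lit 78) (nat_lit 760) (nat_lit 0) (XT.lf (nat_lit 0) (nat_lit 4487529128) (nat_lit 684) (nat_lit 862543105) (nat_lit 760) (nat_lit 2861979106) (nat_lit 281) (nat_lit 5) (nat_lit 290) (nat_lit 5) (nat_lit 291) (nat_lit 5) (nat_lit 437) (nat_lit 367) (nat_lit 336)) (XT.lf (nat_lit 0) (nat_lit 219798256) (nat_lit 760) (nat_lit 6142046266) (nat_lit 76) (nat_lit 1919615743) (nat_lit 271) (nat_lit 5) (nat_lit 281) (nat_lit 5) (nat_lit 272) (nat_lit 5) (nat_lit 438) (nat_lit 367) (nat_lit 335))))))))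
noncomputable def xc58 : XT := (XT.nd (nat_lit 1716) (nat_lit 5852) (nat_lit 0) (XT.nd (nat_lit 858) (nat_lit 3496) (nat_lit 0) (XT.nd (nat_lit 390) (nat_lit 2888) (nat_lit 0) (XT.nd (nat_lit 156) (nat_lit 1292) (nat_lit 0) (XT.nd (nat_lit 78) (nat_lit 608) (nat_lit 0) (XT.lf (nat_lit 0) (nat_lit 3307254502) (nat_lit 760) (nat_lit 266381040) (nat_lit 76) (nat_lit 4778608601) (nat_lit 271) (nat_lit 5) (nat_lit 281) (nat_lit 5) (nat_lit 272) (nat_lit 5) (nat_lit 439) (nat_lit 367) (nat_lit 334)) (XT.lf (nat_lit 0) (nat_lit 5742396202) (nat_lit 608) (nat_lit 703757100) (nat_lit 684) (nat_lit 1978508716) (nat_lit 263) (nat_lit 5) (nat_lit 271) (nat_lit 5) (nat_lit 272) (nat_lit 5) (nat_lit 440) (nat_lit 367) (nat_lit 333))) (XT.nd (nat_lit 78) (nat_lit 608) (nat_lit 0) (XT.lf (nat_lit 0) (nat_lit 1124992787) (nat_lit 684) (nat_lit 5160420315) (nat_lit 76) (nat_lit 2213162335) (nat_lit 254) (nat_lit 5) (nat_lit 263) (nat_lit 5) (nat_lit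 255) (nat_lit 5) (nat_lit 441) (nat_lit 367) (nat_lit 332)) (XT.nd (nat_lit 78) (nat_lit 0) (nat_lit 0) (XT.lf (nat_lit 0) (nat_lit 874895132) (nat_lit 608) (nat_lit 3370755258) (nat_lit 684) (nat_lit 4328435094) (nat_lit 246) (nat_lit 5) (nat_lit 254) (nat_lit 5) (nat_lit 255) (nat_lit 5) (nat_lit 442) (nat_lit 367) (nat_lit 331)) (XT.lf (nat_lit 0) (nat_lit 7040832444) (nat_lit 608) (nat_lit 376141655) (nat_lit 684) (nat_lit 1234377833) (nat_lit 246) (nat_lit 5) (nat_lit 254) (nat_lit 5) (nat_lit 255) (nat_lit 5) (nat_lit 443) (nat_lit 367) (nat_lit 330))))) (XT.nd (nat_lit 234) (nat_lit 1672) (nat_lit 0) (XT.nd (nat_lit 78) (nat_lit 532) (nat_lit 0) (XT.lf (nat_lit 0) (nat_lit 1897950082) (nat_lit 684) (nat_lit 4159679713) (nat_lit 76) (nat_lit 2672263392) (nat_lit 237) (nat_lit 5) (nat_lit 246) (nat_lit 5) (nat_lit 238) (nat_lit 5) (nat_lit 444) (nat_lit 367) (nat_lit 329)) (XT.nd (nat_lit 78) (nat_lit 0) (nat_lit 0) (XT.lf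 (nat_lit 0) (nat_lit 2042744481) (nat_lit 532) (nat_lit 3014945485) (nat_lit 608) (nat_lit 3752536851) (nat_lit 230) (nat_lit 5) (nat_lit 237) (nat_lit 5) (nat_lit 238) (nat_lit 5) (nat_lit 445) (nat_lit 367) (nat_lit 328)) (XT.lf (nat_lit 0) (nat_lit 8264351418) (nat_lit 608) (nat_lit 527096453) (nat_lit 76) (nat_lit 101055114) (nat_lit 230) (nat_lit 5) (nat_lit 238) (nat_lit 5) (nat_lit 231) (nat_lit 5) (nat_lit 446) (nat_lit 367) (nat_lit 327)))) (XT.nd (nat_lit 78) (nat_lit 1064) (nat_lit 0) (XT.lf (nat_lit 0) (nat_lit 2539033538) (nat_lit 608) (nat_lit 3157346102) (nat_lit 76) (nat_lit 3279445372) (nat_lit 222) (nat_lit 5) (nat_lit 230) (nat_lit 5) (nat_lit 223) (nat_lit 5) (nat_lit 447) (nat_lit 367) (nat_lit 326)) (XT.nd (nat_lit 78) (nat_lit 532) (nat_lit 0) (XT.lf (nat_lit 0) (nat_lit 3216012031) (nat_lit 532) (nat_lit 2525706650) (nat_lit 608) (nat_lit 3319410213) (nat_lit 215) (nat_lit 5) (nat_lit 222) (nat_lit 5)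 (nat_lit 223) (nat_lit 5) (nat_lit 448) (nat_lit 367) (nat_lit 325)) (XT.lf (nat_lit 0) (nat_lit 554719167) (nat_lit 532) (nat_lit 8439762033) (nat_lit 608) (nat_lit 153946789) (nat_lit 208) (nat_lit 5) (nat_lit 215) (nat_lit 5) (nat_lit 216) (nat_lit 5) (nat_lit 449) (nat_lit 367) (nat_lit 324)))))) (XT.nd (nat_lit 390) (nat_lit 1900) (nat_lit 0) (XT.nd (nat_lit 156) (nat_lit 1064) (nat_lit 0) (XT.nd (nat_lit 78) (nat_lit 456) (nat_lit 0) (XT.lf (nat_lit 0) (nat_lit 3047377562) (nat_lit 608) (nat_lit 2171784126) (nat_lit 76) (nat_lit 4017663767) (nat_lit 207) (nat_lit 5) (nat_lit 215) (nat_lit 5) (nat_lit 208) (nat_lit 5) (nat_lit 450) (nat_lit 367) (nat_lit 323)) (XT.lf (nat_lit 0) (nat_lit 4376199835) (nat_lit 456) (nat_lit 1920400425) (nat_lit 532) (nat_lit 3030660649) (nat_lit 201) (nat_lit 5) (nat_lit 207) (nat_lit 5) (nat_lit 208) (nat_lit 5) (nat_lit 451) (nat_lit 367) (nat_lit 322))) (XT.nd (nat_lit 78) (nat_lit 456)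 (nat_lit 0) (XT.lf (nat_lit 0) (nat_lit 181153498) (nat_lit 608) (nat_lit 7802853238) (nat_lit 76) (nat_lit 1435634997) (nat_lit 193) (nat_lit 5) (nat_lit 201) (nat_lit 5) (nat_lit 194) (nat_lit 5) (nat_lit 452) (nat_lit 367) (nat_lit 321)) (XT.nd (nat_lit 78) (nat_lit 456) (nat_lit 0) (XT.lf (nat_lit 0) (nat_lit 3420849686) (nat_lit 608) (nat_lit 1222394824) (nat_lit 76) (nat_lit 4870149016) (nat_lit 193) (nat_lit 5) (nat_lit 201) (nat_lit 5) (nat_lit 194) (nat_lit 5) (nat_lit 453) (nat_lit 367) (nat_lit 320)) (XT.lf (nat_lit 0) (nat_lit 5503729057) (nat_lit 456) (nat_lit 1216193846) (nat_lit 532) (nat_lit 2889214155) (nat_lit 187) (nat_lit 5) (nat_lit 193) (nat_lit 5) (nat_lit 194) (nat_lit 5) (nat_lit 454) (nat_lit 367) (nat_lit 319))))) (XT.nd (nat_lit 234) (nat_lit 912) (nat_lit 0) (XT.nd (nat_lit 78) (nat_lit 456) (nat_lit 0) (XT.lf (nat_lit 0) (nat_lit 372548873) (nat_lit 532) (nat_lit 7073697397) (nat_lit 76) (nat_lit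 2260521590) (nat_lit 180) (nat_lit 5) (nat_lit 187) (nat_lit 5) (nat_lit 181) (nat_lit 5) (nat_lit 455) (nat_lit 367) (nat_lit 318)) (XT.nd (nat_lit 78) (nat_lit 456) (nat_lit 0) (XT.lf (nat_lit 0) (nat_lit 3656001600) (nat_lit 532) (nat_lit 329822151) (nat_lit 76) (nat_lit 5820250635) (nat_lit 180) (nat_lit 5) (nat_lit 187) (nat_lit 5) (nat_lit 181) (nat_lit 5) (nat_lit 456) (nat_lit 367) (nat_lit 317)) (XT.lf (nat_lit 0) (nat_lit 6577728430) (nat_lit 456) (nat_lit 430218293) (nat_lit 532) (nat_lit 2899371582) (nat_lit 174) (nat_lit 5) (nat_lit 180) (nat_lit 5) (nat_lit 181) (nat_lit 5) (nat_lit 457) (nat_lit 367) (nat_lit 316)))) (XT.nd (nat_lit 78) (nat_lit 380) (nat_lit 0) (XT.lf (nat_lit 0) (nat_lit 417596686) (nat_lit 532) (nat_lit 6427364735) (nat_lit 76) (nat_lit 3165444775) (nat_lit 167) (nat_lit 5) (nat_lit 174) (nat_lit 5) (nat_lit 168) (nat_lit 5) (nat_lit 458) (nat_lit 367) (nat_lit 315)) (XT.nd (nat_lit 78) (nat_lit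 0) (nat_lit 0) (XT.lf (nat_lit 0) (nat_lit 490255220) (nat_lit 380) (nat_lit 3260936325) (nat_lit 456) (nat_lit 6364206091) (nat_lit 162) (nat_lit 5) (nat_lit 167) (nat_lit 5) (nat_lit 168) (nat_lit 5) (nat_lit 459) (nat_lit 367) (nat_lit 314)) (XT.lf (nat_lit 0) (nat_lit 7158267927) (nat_lit 456) (nat_lit 2649336038) (nat_lit 76) (nat_lit 414755888) (nat_lit 162) (nat_lit 5) (nat_lit 168) (nat_lit 5) (nat_lit 163) (nat_lit 5) (nat_lit 460) (nat_lit 367) (nat_lit 313))))))) (XT.nd (nat_lit 858) (nat_lit 2584) (nat_lit 0) (XT.nd (nat_lit 390) (nat_lit 1520) (nat_lit 0) (XT.nd (nat_lit 156) (nat_lit 836) (nat_lit 0) (XT.nd (nat_lit 78) (nat_lit 380) (nat_lit 0) (XT.lf (nat_lit 0) (nat_lit 310193830) (nat_lit 532) (nat_lit 5887643661) (nat_lit 76) (nat_lit 4133348856) (nat_lit 155) (nat_lit 5) (nat_lit 162) (nat_lit 5) (nat_lit 156) (nat_lit 5) (nat_lit 461) (nat_lit 367) (nat_lit 312)) (XT.lf (nat_lit 0) (nat_lit 1210613613) (nat_lit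 380) (nat_lit 2487842390) (nat_lit 456) (nat_lit 6743584647) (nat_lit 150) (nat_lit 5) (nat_lit 155) (nat_lit 5) (nat_lit 156) (nat_lit 5) (nat_lit 462) (nat_lit 367) (nat_lit 311))) (XT.nd (nat_lit 78) (nat_lit 836) (nat_lit 0) (XT.lf (nat_lit 0) (nat_lit 7164653810) (nat_lit 456) (nat_lit 2089832498) (nat_lit 76) (nat_lit 1300428920) (nat_lit 150) (nat_lit 5) (nat_lit 156) (nat_lit 5) (nat_lit 151) (nat_lit 5) (nat_lit 463) (nat_lit 367) (nat_lit 310)) (XT.nd (nat_lit 78) (nat_lit 380) (nat_lit 0) (XT.lf (nat_lit 0) (nat_lit 42712012) (nat_lit 456) (nat_lit 5480242815) (nat_lit 76) (nat_lit 5146835320) (nat_lit 144) (nat_lit 5) (nat_lit 150) (nat_lit 5) (nat_lit 145) (nat_lit 5) (nat_lit 464) (nat_lit 367) (nat_lit 309)) (XT.lf (nat_lit 0) (nat_lit 1800754107) (nat_lit 380) (nat_lit 1686890993) (nat_lit 456) (nat_lit 7299101572) (nat_lit 139) (nat_lit 5) (nat_lit 144) (nat_lit 5) (nat_lit 145) (nat_lit 5) (nat_lit 465) (nat_lit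 367) (nat_lit 308))))) (XT.nd (nat_lit 234) (nat_lit 760) (nat_lit 0) (XT.nd (nat_lit 78) (nat_lit 760) (nat_lit 0) (XT.lf (nat_lit 0) (nat_lit 7016031433) (nat_lit 456) (nat_lit 1675069239) (nat_lit 76) (nat_lit 2214656657) (nat_lit 139) (nat_lit 5) (nat_lit 145) (nat_lit 5) (nat_lit 140) (nat_lit 5) (nat_lit 466) (nat_lit 367) (nat_lit 307)) (XT.nd (nat_lit 78) (nat_lit 380) (nat_lit 0) (XT.lf (nat_lit 0) (nat_lit 5791242517) (nat_lit 380) (nat_lit 4836322616) (nat_lit 456) (nat_lit 399337446) (nat_lit 134) (nat_lit 5) (nat_lit 139) (nat_lit 5) (nat_lit 140) (nat_lit 5) (nat_lit 467) (nat_lit 367) (nat_lit 306)) (XT.lf (nat_lit 0) (nat_lit 2232289453) (nat_lit 304) (nat_lit 876838039) (nat_lit 380) (nat_lit 8041144060) (nat_lit 129) (nat_lit 5) (nat_lit 133) (nat_lit 5) (nat_lit 134) (nat_lit 5) (nat_lit 468) (nat_lit 367) (nat_lit 305)))) (XT.nd (nat_lit 78) (nat_lit 760) (nat_lit 0) (XT.lf (nat_lit 0) (nat_lit 6702451102)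 (nat_lit 380) (nat_lit 1434199994) (nat_lit 76) (nat_lit 3139008915) (nat_lit 129) (nat_lit 5) (nat_lit 134) (nat_lit 5) (nat_lit 130) (nat_lit 5) (nat_lit 469) (nat_lit 367) (nat_lit 304)) (XT.nd (nat_lit 78) (nat_lit 380) (nat_lit 0) (XT.lf (nat_lit 0) (nat_lit 6220169273) (nat_lit 380) (nat_lit 4158503516) (nat_lit 456) (nat_lit 1024668338) (nat_lit 124) (nat_lit 5) (nat_lit 129) (nat_lit 5) (nat_lit 130) (nat_lit 5) (nat_lit 470) (nat_lit 367) (nat_lit 303)) (XT.lf (nat_lit 0) (nat_lit 2474252014) (nat_lit 304) (nat_lit 77250530) (nat_lit 380) (nat_lit 8981927849) (nat_lit 119) (nat_lit 5) (nat_lit 123) (nat_lit 5) (nat_lit 124) (nat_lit 5) (nat_lit 471) (nat_lit 367) (nat_lit 302)))))) (XT.nd (nat_lit 468) (nat_lit 1140) (nat_lit 0) (XT.nd (nat_lit 234) (nat_lit 684) (nat_lit 0) (XT.nd (nat_lit 78) (nat_lit 760) (nat_lit 0) (XT.lf (nat_lit 0) (nat_lit 6212170835) (nat_lit 380) (nat_lit 1399064628) (nat_lit 76) (nat_lit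 4054221837) (nat_lit 119) (nat_lit 5) (nat_lit 124) (nat_lit 5) (nat_lit 120) (nat_lit 5) (nat_lit 472) (nat_lit 367) (nat_lit 301)) (XT.nd (nat_lit 78) (nat_lit 380) (nat_lit 0) (XT.lf (nat_lit 0) (nat_lit 6444158447) (nat_lit 380) (nat_lit 3510071578) (nat_lit 456) (nat_lit 1845736269) (nat_lit 114) (nat_lit 5) (nat_lit 119) (nat_lit 5) (nat_lit 120) (nat_lit 5) (nat_lit 473) (nat_lit 367) (nat_lit 300)) (XT.lf (nat_lit 0) (nat_lit 1805953951) (nat_lit 380) (nat_lit 9448832615) (nat_lit 76) (nat_lit 682224818) (nat_lit 109) (nat_lit 5) (nat_lit 114) (nat_lit 5) (nat_lit 110) (nat_lit 5) (nat_lit 474) (nat_lit 367) (nat_lit 299)))) (XT.nd (nat_lit 78) (nat_lit 684) (nat_lit 0) (XT.lf (nat_lit 0) (nat_lit 5531517011) (nat_lit 380) (nat_lit 1604533706) (nat_lit 76) (nat_lit 4939996392) (nat_lit 109) (nat_lit 5) (nat_lit 114) (nat_lit 5) (nat_lit 110) (nat_lit 5) (nat_lit 475) (nat_lit 367) (nat_lit 298)) (XT.nd (nat_lit 78) (nat_lit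 380) (nat_lit 0) (XT.lf (nat_lit 0) (nat_lit 6427624457) (nat_lit 304) (nat_lit 2912470380) (nat_lit 380) (nat_lit 2877603349) (nat_lit 105) (nat_lit 5) (nat_lit 109) (nat_lit 5) (nat_lit 110) (nat_lit 5) (nat_lit 476) (nat_lit 367) (nat_lit 297)) (XT.lf (nat_lit 0) (nat_lit 852790305) (nat_lit 380) (nat_lit 10120730118) (nat_lit 76) (nat_lit 1388525524) (nat_lit 100) (nat_lit 5) (nat_lit 105) (nat_lit 5) (nat_lit 101) (nat_lit 5) (nat_lit 477) (nat_lit 367) (nat_lit 296))))) (XT.nd (nat_lit 234) (nat_lit 608) (nat_lit 0) (XT.nd (nat_lit 78) (nat_lit 532) (nat_lit 0) (XT.lf (nat_lit 0) (nat_lit 4644726475) (nat_lit 380) (nat_lit 2088885344) (nat_lit 76) (nat_lit 5774783550) (nat_lit 100) (nat_lit 5) (nat_lit 105) (nat_lit 5) (nat_lit 101) (nat_lit 5) (nat_lit 478) (nat_lit 367) (nat_lit 295)) (XT.nd (nat_lit 78) (nat_lit 228) (nat_lit 0) (XT.lf (nat_lit 0) (nat_lit 6131463783) (nat_lit 304) (nat_lit 2388523678) (nat_lit 380)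 (nat_lit 4137538947) (nat_lit 96) (nat_lit 5) (nat_lit 100) (nat_lit 5) (nat_lit 101) (nat_lit 5) (nat_lit 479) (nat_lit 367) (nat_lit 294)) (XT.lf (nat_lit 0) (nat_lit 1691280703) (nat_lit 228) (nat_lit 10787672216) (nat_lit 304) (nat_lit 330567431) (nat_lit 93) (nat_lit 5) (nat_lit 96) (nat_lit 5) (nat_lit 97) (nat_lit 5) (nat_lit 480) (nat_lit 367) (nat_lit 293)))) (XT.nd (nat_lit 78) (nat_lit 532) (nat_lit 0) (XT.lf (nat_lit 0) (nat_lit 3533768471) (nat_lit 304) (nat_lit 2894218047) (nat_lit 76) (nat_lit 6535554101) (nat_lit 92) (nat_lit 5) (nat_lit 96) (nat_lit 5) (nat_lit 93) (nat_lit 5) (nat_lit 481) (nat_lit 367) (nat_lit 292)) (XT.nd (nat_lit 78) (nat_lit 228) (nat_lit 0) (XT.lf (nat_lit 0) (nat_lit 5512629603) (nat_lit 304) (nat_lit 1962675907) (nat_lit 380) (nat_lit 5645209287) (nat_lit 88) (nat_lit 5) (nat_lit 92) (nat_lit 5) (nat_lit 93) (nat_lit 5) (nat_lit 482) (nat_lit 367) (nat_lit 291)) (XT.lf (nat_lit 0) (nat_lit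 788064791) (nat_lit 228) (nat_lit 10717800418) (nat_lit 304) (nat_lit 1774563354) (nat_lit 85) (nat_lit 5) (nat_lit 88) (nat_lit 5) (nat_lit 89) (nat_lit 5) (nat_lit 483) (nat_lit 367) (nat_lit 290))))))))
noncomputable def xc59 : XT := (XT.nd (nat_lit 1716) (nat_lit 152) (nat_lit 0) (XT.nd (nat_lit 858) (nat_lit 1596) (nat_lit 0) (XT.nd (nat_lit 390) (nat_lit 836) (nat_lit 0) (XT.nd (nat_lit 156) (nat_lit 532) (nat_lit 0) (XT.nd (nat_lit 78) (nat_lit 304) (nat_lit 0) (XT.lf (nat_lit 0) (nat_lit 2178144554) (nat_lit 304) (nat_lit 4066903572) (nat_lit 76) (nat_lit 7197550935) (nat_lit 84) (nat_lit 5) (nat_lit 88) (nat_lit 5) (nat_lit 85) (nat_lit 5) (nat_lit 484) (nat_lit 367) (nat_lit 289)) (XT.lf (nat_lit 0) (nat_lit 4523665023) (nat_lit 304) (nat_lit 1661251447) (nat_lit 380) (nat_lit 7422890191) (nat_lit 80) (nat_lit 5) (nat_lit 84) (nat_lit 5) (nat_lit 85) (nat_lit 5) (nat_lit 485) (nat_lit 367) (nat_lit 288))) (XT.nd (nat_lit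 78) (nat_lit 532) (nat_lit 0) (XT.lf (nat_lit 0) (nat_lit 10288384226) (nat_lit 380) (nat_lit 505471638) (nat_lit 76) (nat_lit 2982134981) (nat_lit 80) (nat_lit 5) (nat_lit 85) (nat_lit 5) (nat_lit 81) (nat_lit 5) (nat_lit 486) (nat_lit 367) (nat_lit 287)) (XT.nd (nat_lit 78) (nat_lit 228) (nat_lit 0) (XT.lf (nat_lit 0) (nat_lit 554664440) (nat_lit 304) (nat_lit 5658084284) (nat_lit 76) (nat_lit 7734021429) (nat_lit 76) (nat_lit 5) (nat_lit 80) (nat_lit 5) (nat_lit 77) (nat_lit 5) (nat_lit 487) (nat_lit 367) (nat_lit 286)) (XT.lf (nat_lit 0) (nat_lit 3112190296) (nat_lit 228) (nat_lit 1512735112) (nat_lit 304) (nat_lit 9495705139) (nat_lit 73) (nat_lit 5) (nat_lit 76) (nat_lit 5) (nat_lit 77) (nat_lit 5) (nat_lit 488) (nat_lit 367) (nat_lit 285))))) (XT.nd (nat_lit 234) (nat_lit 304) (nat_lit 0) (XT.nd (nat_lit 78) (nat_lit 532) (nat_lit 0) (XT.lf (nat_lit 0) (nat_lit 8806424264) (nat_lit 304) (nat_lit 2234518421) (nat_lit 76)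 (nat_lit 3256432174) (nat_lit 73) (nat_lit 5) (nat_lit 77) (nat_lit 5) (nat_lit 74) (nat_lit 5) (nat_lit 489) (nat_lit 367) (nat_lit 284)) (XT.nd (nat_lit 78) (nat_lit 304) (nat_lit 0) (XT.lf (nat_lit 0) (nat_lit 6743977752) (nat_lit 228) (nat_lit 6352270282) (nat_lit 304) (nat_lit 1380915421) (nat_lit 70) (nat_lit 5) (nat_lit 73) (nat_lit 5) (nat_lit 74) (nat_lit 5) (nat_lit 490) (nat_lit 367) (nat_lit 283)) (XT.lf (nat_lit 0) (nat_lit 1220338970) (nat_lit 228) (nat_lit 1548076581) (nat_lit 304) (nat_lit 11891891063) (nat_lit 66) (nat_lit 5) (nat_lit 69) (nat_lit 5) (nat_lit 70) (nat_lit 5) (nat_lit 491) (nat_lit 367) (nat_lit 282)))) (XT.nd (nat_lit 78) (nat_lit 304) (nat_lit 0) (XT.lf (nat_lit 0) (nat_lit 7027330201) (nat_lit 304) (nat_lit 4469090397) (nat_lit 76) (nat_lit 3349610840) (nat_lit 66) (nat_lit 5) (nat_lit 70) (nat_lit 5) (nat_lit 67) (nat_lit 5) (nat_lit 492) (nat_lit 367) (nat_lit 281)) (XT.nd (nat_lit 78) (nat_lit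 76) (nat_lit 0) (XT.lf (nat_lit 0) (nat_lit 4683830904) (nat_lit 228) (nat_lit 6699890332) (nat_lit 304) (nat_lit 3651506606) (nat_lit 63) (nat_lit 5) (nat_lit 66) (nat_lit 5) (nat_lit 67) (nat_lit 5) (nat_lit 493) (nat_lit 367) (nat_lit 280)) (XT.lf (nat_lit 0) (nat_lit 593053293) (nat_lit 304) (nat_lit 1199916336) (nat_lit 76) (nat_lit 13435126133) (nat_lit 62) (nat_lit 5) (nat_lit 66) (nat_lit 5) (nat_lit 63) (nat_lit 5) (nat_lit 494) (nat_lit 367) (nat_lit 279)))))) (XT.nd (nat_lit 390) (nat_lit 912) (nat_lit 0) (XT.nd (nat_lit 156) (nat_lit 304) (nat_lit 0) (XT.nd (nat_lit 78) (nat_lit 152) (nat_lit 0) (XT.lf (nat_lit 0) (nat_lit 4920182439) (nat_lit 304) (nat_lit 7275167471) (nat_lit 76) (nat_lit 3228059838) (nat_lit 59) (nat_lit 5) (nat_lit 63) (nat_lit 5) (nat_lit 60) (nat_lit 5) (nat_lit 495) (nat_lit 367) (nat_lit 278)) (XT.lf (nat_lit 0) (nat_lit 2044275861) (nat_lit 152) (nat_lit 7295182937) (nat_lit 228) (nat_lit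 6283061938) (nat_lit 57) (nat_lit 5) (nat_lit 59) (nat_lit 5) (nat_lit 60) (nat_lit 5) (nat_lit 496) (nat_lit 367) (nat_lit 277))) (XT.nd (nat_lit 78) (nat_lit 304) (nat_lit 0) (XT.lf (nat_lit 0) (nat_lit 11601270972) (nat_lit 152) (nat_lit 2267256390) (nat_lit 228) (nat_lit 1956661207) (nat_lit 57) (nat_lit 5) (nat_lit 59) (nat_lit 5) (nat_lit 60) (nat_lit 5) (nat_lit 497) (nat_lit 367) (nat_lit 276)) (XT.nd (nat_lit 78) (nat_lit 0) (nat_lit 0) (XT.lf (nat_lit 0) (nat_lit 2450349442) (nat_lit 304) (nat_lit 10725731437) (nat_lit 76) (nat_lit 2854986653) (nat_lit 53) (nat_lit 5) (nat_lit 57) (nat_lit 5) (nat_lit 54) (nat_lit 5) (nat_lit 498) (nat_lit 367) (nat_lit 275)) (XT.lf (nat_lit 0) (nat_lit 6935915699) (nat_lit 304) (nat_lit 1233214821) (nat_lit 76) (nat_lit 8071345181) (nat_lit 53) (nat_lit 5) (nat_lit 57) (nat_lit 5) (nat_lit 54) (nat_lit 5) (nat_lit 499) (nat_lit 367) (nat_lit 274))))) (XT.nd (nat_lit 234) (nat_lit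 456) (nat_lit 0) (XT.nd (nat_lit 78) (nat_lit 304) (nat_lit 0) (XT.lf (nat_lit 0) (nat_lit 8514757900) (nat_lit 152) (nat_lit 3025290631) (nat_lit 228) (nat_lit 4913448949) (nat_lit 51) (nat_lit 5) (nat_lit 53) (nat_lit 5) (nat_lit 54) (nat_lit 5) (nat_lit 500) (nat_lit 367) (nat_lit 273)) (XT.nd (nat_lit 78) (nat_lit 76) (nat_lit 0) (XT.lf (nat_lit 0) (nat_lit 1766316826) (nat_lit 228) (nat_lit 14477834483) (nat_lit 304) (nat_lit 426473140) (nat_lit 48) (nat_lit 5) (nat_lit 51) (nat_lit 5) (nat_lit 52) (nat_lit 5) (nat_lit 501) (nat_lit 367) (nat_lit 272)) (XT.lf (nat_lit 0) (nat_lit 4143181099) (nat_lit 304) (nat_lit 5211487883) (nat_lit 76) (nat_lit 7535941052) (nat_lit 47) (nat_lit 5) (nat_lit 51) (nat_lit 5) (nat_lit 48) (nat_lit 5) (nat_lit 502) (nat_lit 367) (nat_lit 271)))) (XT.nd (nat_lit 78) (nat_lit 304) (nat_lit 0) (XT.lf (nat_lit 0) (nat_lit 4688549715) (nat_lit 152) (nat_lit 4114639378) (nat_lit 228) (nat_lit 8311658791)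 (nat_lit 45) (nat_lit 5) (nat_lit 47) (nat_lit 5) (nat_lit 48) (nat_lit 5) (nat_lit 503) (nat_lit 367) (nat_lit 270)) (XT.nd (nat_lit 78) (nat_lit 304) (nat_lit 0) (XT.lf (nat_lit 0) (nat_lit 13573899455) (nat_lit 228) (nat_lit 2539253340) (nat_lit 76) (nat_lit 1230069961) (nat_lit 45) (nat_lit 5) (nat_lit 48) (nat_lit 5) (nat_lit 46) (nat_lit 5) (nat_lit 504) (nat_lit 367) (nat_lit 269)) (XT.lf (nat_lit 0) (nat_lit 904100419) (nat_lit 304) (nat_lit 10007989569) (nat_lit 76) (nat_lit 6662933759) (nat_lit 41) (nat_lit 5) (nat_lit 45) (nat_lit 5) (nat_lit 42) (nat_lit 5) (nat_lit 505) (nat_lit 367) (nat_lit 268))))))) (XT.nd (nat_lit 52182) (nat_lit 0) (nat_lit 25460) (XT.nd (nat_lit 51714) (nat_lit 0) (nat_lit 36328) (XT.nd (nat_lit 51480) (nat_lit 0) (nat_lit 41876) (XT.nd (nat_lit 51402) (nat_lit 0) (nat_lit 44232) (XT.lf (nat_lit 0) (nat_lit 29511439) (nat_lit 152) (nat_lit 5583255714) (nat_lit 228) (nat_lit 12198352561) (nat_lit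 39) (nat_lit 5) (nat_lit 41) (nat_lit 5) (nat_lit 42) (nat_lit 5) (nat_lit 506) (nat_lit 367) (nat_lit 267)) (XT.lf (nat_lit 0) (nat_lit 2278856884) (nat_lit 988) (nat_lit 541113458) (nat_lit 988) (nat_lit 541113458) (nat_lit 621) (nat_lit 4) (nat_lit 634) (nat_lit 5) (nat_lit 634) (nat_lit 4) (nat_lit 404) (nat_lit 368) (nat_lit 368))) (XT.nd (nat_lit 78) (nat_lit 1216) (nat_lit 0) (XT.lf (nat_lit 0) (nat_lit 2163732691) (nat_lit 1140) (nat_lit 4528087009) (nat_lit 0) (nat_lit 54470686) (nat_lit 606) (nat_lit 5) (nat_lit 621) (nat_lit 4) (nat_lit 606) (nat_lit 4) (nat_lit 405) (nat_lit 368) (nat_lit 367)) (XT.nd (nat_lit 78) (nat_lit 1216) (nat_lit 0) (XT.lf (nat_lit 0) (nat_lit 5411222397) (nat_lit 1140) (nat_lit 126482564) (nat_lit 0) (nat_lit 1234056465) (nat_lit 606) (nat_lit 5) (nat_lit 621) (nat_lit 4) (nat_lit 606) (nat_lit 4) (nat_lit 406) (nat_lit 368) (nat_lit 366)) (XT.lf (nat_lit 0) (nat_lit 1859369090) (nat_lit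 1216) (nat_lit 2448597160) (nat_lit 76) (nat_lit 2490381102) (nat_lit 590) (nat_lit 5) (nat_lit 606) (nat_lit 5) (nat_lit 591) (nat_lit 4) (nat_lit 407) (nat_lit 368) (nat_lit 365))))) (XT.nd (nat_lit 234) (nat_lit 2964) (nat_lit 0) (XT.nd (nat_lit 78) (nat_lit 1368) (nat_lit 0) (XT.lf (nat_lit 0) (nat_lit 2050958025) (nat_lit 1216) (nat_lit 3019876353) (nat_lit 1292) (nat_lit 1755572351) (nat_lit 574) (nat_lit 5) (nat_lit 590) (nat_lit 5) (nat_lit 591) (nat_lit 4) (nat_lit 408) (nat_lit 368) (nat_lit 364)) (XT.nd (nat_lit 78) (nat_lit 1292) (nat_lit 0) (XT.lf (nat_lit 0) (nat_lit 1420162761) (nat_lit 1292) (nat_lit 250044268) (nat_lit 76) (nat_lit 5185690136) (nat_lit 573) (nat_lit 5) (nat_lit 590) (nat_lit 5) (nat_lit 574) (nat_lit 5) (nat_lit 409) (nat_lit 368) (nat_lit 363)) (XT.lf (nat_lit 0) (nat_lit 4353248668) (nat_lit 1292) (nat_lit 243964712) (nat_lit 1368) (nat_lit 2289333231) (nat_lit 556) (nat_lit 5) (nat_lit 573)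 (nat_lit 5) (nat_lit 574) (nat_lit 5) (nat_lit 410) (nat_lit 368) (nat_lit 362)))) (XT.nd (nat_lit 78) (nat_lit 1520) (nat_lit 0) (XT.lf (nat_lit 0) (nat_lit 864784996) (nat_lit 1444) (nat_lit 4829667109) (nat_lit 76) (nat_lit 1224126761) (nat_lit 537) (nat_lit 5) (nat_lit 556) (nat_lit 5) (nat_lit 538) (nat_lit 5) (nat_lit 411) (nat_lit 368) (nat_lit 361)) (XT.nd (nat_lit 78) (nat_lit 1520) (nat_lit 0) (XT.lf (nat_lit 0) (nat_lit 4004558217) (nat_lit 1444) (nat_lit 189510433) (nat_lit 76) (nat_lit 2757841794) (nat_lit 537) (nat_lit 5) (nat_lit 556) (nat_lit 5) (nat_lit 538) (nat_lit 5) (nat_lit 412) (nat_lit 368) (nat_lit 360)) (XT.lf (nat_lit 0) (nat_lit 183323494) (nat_lit 1520) (nat_lit 2443227675) (nat_lit 76) (nat_lit 4360053487) (nat_lit 517) (nat_lit 5) (nat_lit 537) (nat_lit 5) (nat_lit 518) (nat_lit 5) (nat_lit 413) (nat_lit 368) (nat_lit 359)))))) (XT.nd (nat_lit 468) (nat_lit 4180) (nat_lit 0) (XT.nd (nat_lit 234)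 (nat_lit 3496) (nat_lit 0) (XT.nd (nat_lit 78) (nat_lit 1672) (nat_lit 0) (XT.lf (nat_lit 0) (nat_lit 2303270836) (nat_lit 1520) (nat_lit 986341860) (nat_lit 1596) (nat_lit 3732965488) (nat_lit 497) (nat_lit 5) (nat_lit 517) (nat_lit 5) (nat_lit 518) (nat_lit 5) (nat_lit 414) (nat_lit 368) (nat_lit 358)) (XT.nd (nat_lit 78) (nat_lit 76) (nat_lit 0) (XT.lf (nat_lit 0) (nat_lit 55174616) (nat_lit 1596) (nat_lit 6361266658) (nat_lit 1672) (nat_lit 643685531) (nat_lit 476) (nat_lit 5) (nat_lit 497) (nat_lit 5) (nat_lit 498) (nat_lit 5) (nat_lit 415) (nat_lit 368) (nat_lit 357)) (XT.lf (nat_lit 0) (nat_lit 2450412512) (nat_lit 1672) (nat_lit 2192013132) (nat_lit 76) (nat_lit 2456179786) (nat_lit 475) (nat_lit 5) (nat_lit 497) (nat_lit 5) (nat_lit 476) (nat_lit 5) (nat_lit 416) (nat_lit 368) (nat_lit 356)))) (XT.nd (nat_lit 78) (nat_lit 1824) (nat_lit 0) (XT.lf (nat_lit 0) (nat_lit 2689055594) (nat_lit 1672) (nat_lit 2864916927) (nat_lit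 1748) (nat_lit 1584694548) (nat_lit 453) (nat_lit 5) (nat_lit 475) (nat_lit 5) (nat_lit 476) (nat_lit 5) (nat_lit 417) (nat_lit 368) (nat_lit 355)) (XT.nd (nat_lit 78) (nat_lit 0) (nat_lit 0) (XT.lf (nat_lit 0) (nat_lit 454512393) (nat_lit 1748) (nat_lit 1022250608) (nat_lit 1824) (nat_lit 5703450847) (nat_lit 429) (nat_lit 5) (nat_lit 452) (nat_lit 5) (nat_lit 453) (nat_lit 5) (nat_lit 418) (nat_lit 368) (nat_lit 354)) (XT.lf (nat_lit 0) (nat_lit 4553817982) (nat_lit 1824) (nat_lit 1781629832) (nat_lit 76) (nat_lit 887443724) (nat_lit 429) (nat_lit 5) (nat_lit 453) (nat_lit 5) (nat_lit 430) (nat_lit 5) (nat_lit 419) (nat_lit 368) (nat_lit 353))))) (XT.nd (nat_lit 234) (nat_lit 1900) (nat_lit 0) (XT.nd (nat_lit 78) (nat_lit 912) (nat_lit 0) (XT.lf (nat_lit 0) (nat_lit 389091809) (nat_lit 1368) (nat_lit 4031834503) (nat_lit 76) (nat_lit 2846087797) (nat_lit 411) (nat_lit 5) (nat_lit 429) (nat_lit 5) (nat_lit 412) (nat_lit 5)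 (nat_lit 420) (nat_lit 368) (nat_lit 352)) (XT.nd (nat_lit 78) (nat_lit 0) (nat_lit 0) (XT.lf (nat_lit 0) (nat_lit 1000426434) (nat_lit 912) (nat_lit 2432308494) (nat_lit 988) (nat_lit 3879750278) (nat_lit 399) (nat_lit 5) (nat_lit 411) (nat_lit 5) (nat_lit 412) (nat_lit 5) (nat_lit 421) (nat_lit 368) (nat_lit 351)) (XT.lf (nat_lit 0) (nat_lit 6128742648) (nat_lit 912) (nat_lit 377816265) (nat_lit 988) (nat_lit 852940256) (nat_lit 399) (nat_lit 5) (nat_lit 411) (nat_lit 5) (nat_lit 412) (nat_lit 5) (nat_lit 422) (nat_lit 368) (nat_lit 350)))) (XT.nd (nat_lit 78) (nat_lit 988) (nat_lit 0) (XT.lf (nat_lit 0) (nat_lit 2185016422) (nat_lit 912) (nat_lit 3488863402) (nat_lit 76) (nat_lit 1733703979) (nat_lit 387) (nat_lit 5) (nat_lit 399) (nat_lit 5) (nat_lit 388) (nat_lit 5) (nat_lit 423) (nat_lit 368) (nat_lit 349)) (XT.nd (nat_lit 78) (nat_lit 76) (nat_lit 0) (XT.lf (nat_lit 0) (nat_lit 1685708344) (nat_lit 912) (nat_lit 3552088849)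 (nat_lit 988) (nat_lit 2219428933) (nat_lit 375) (nat_lit 5) (nat_lit 387) (nat_lit 5) (nat_lit 388) (nat_lit 5) (nat_lit 424) (nat_lit 368) (nat_lit 348)) (XT.lf (nat_lit 0) (nat_lit 800321177) (nat_lit 988) (nat_lit 561931430) (nat_lit 76) (nat_lit 6146164574) (nat_lit 374) (nat_lit 5) (nat_lit 387) (nat_lit 5) (nat_lit 375) (nat_lit 5) (nat_lit 425) (nat_lit 368) (nat_lit 347))))))))
noncomputable def xc60 : XT := (XT.nd (nat_lit 1716) (nat_lit 7448) (nat_lit 0) (XT.nd (nat_lit 858) (nat_lit 5168) (nat_lit 0) (XT.nd (nat_lit 390) (nat_lit 3040) (nat_lit 0) (XT.nd (nat_lit 156) (nat_lit 1672) (nat_lit 0) (XT.nd (nat_lit 78) (nat_lit 836) (nat_lit 0) (XT.lf (nat_lit 0) (nat_lit 3832632812) (nat_lit 912) (nat_lit 2826242009) (nat_lit 76) (nat_lit 901843541) (nat_lit 363) (nat_lit 5) (nat_lit 375) (nat_lit 5) (nat_lit 364) (nat_lit 5) (nat_lit 426) (nat_lit 368) (nat_lit 346)) (XT.lf (nat_lit 0) (nat_lit 2494631313) (nat_lit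 836) (nat_lit 4405787392) (nat_lit 912) (nat_lit 714167364) (nat_lit 352) (nat_lit 5) (nat_lit 363) (nat_lit 5) (nat_lit 364) (nat_lit 5) (nat_lit 427) (nat_lit 368) (nat_lit 345))) (XT.nd (nat_lit 78) (nat_lit 836) (nat_lit 0) (XT.lf (nat_lit 0) (nat_lit 218680202) (nat_lit 760) (nat_lit 2077029594) (nat_lit 836) (nat_lit 5374198624) (nat_lit 341) (nat_lit 5) (nat_lit 351) (nat_lit 5) (nat_lit 352) (nat_lit 5) (nat_lit 428) (nat_lit 368) (nat_lit 344)) (XT.nd (nat_lit 78) (nat_lit 836) (nat_lit 0) (XT.lf (nat_lit 0) (nat_lit 5339504696) (nat_lit 836) (nat_lit 2059520164) (nat_lit 76) (nat_lit 327568366) (nat_lit 341) (nat_lit 5) (nat_lit 352) (nat_lit 5) (nat_lit 342) (nat_lit 5) (nat_lit 429) (nat_lit 368) (nat_lit 343)) (XT.lf (nat_lit 0) (nat_lit 634689871) (nat_lit 836) (nat_lit 4377197449) (nat_lit 76) (nat_lit 2772782611) (nat_lit 330) (nat_lit 5) (nat_lit 341) (nat_lit 5) (nat_lit 331) (nat_lit 5) (nat_lit 430) (nat_lit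 368) (nat_lit 342))))) (XT.nd (nat_lit 234) (nat_lit 1444) (nat_lit 0) (XT.nd (nat_lit 78) (nat_lit 836) (nat_lit 0) (XT.lf (nat_lit 0) (nat_lit 1107114601) (nat_lit 760) (nat_lit 2547036762) (nat_lit 836) (nat_lit 4190072174) (nat_lit 320) (nat_lit 5) (nat_lit 330) (nat_lit 5) (nat_lit 331) (nat_lit 5) (nat_lit 431) (nat_lit 368) (nat_lit 341)) (XT.nd (nat_lit 78) (nat_lit 836) (nat_lit 0) (XT.lf (nat_lit 0) (nat_lit 6701243132) (nat_lit 760) (nat_lit 10846537) (nat_lit 836) (nat_lit 1193331652) (nat_lit 320) (nat_lit 5) (nat_lit 330) (nat_lit 5) (nat_lit 331) (nat_lit 5) (nat_lit 432) (nat_lit 368) (nat_lit 340)) (XT.lf (nat_lit 0) (nat_lit 1833962189) (nat_lit 836) (nat_lit 3558357279) (nat_lit 76) (nat_lit 2575394777) (nat_lit 309) (nat_lit 5) (nat_lit 320) (nat_lit 5) (nat_lit 310) (nat_lit 5) (nat_lit 433) (nat_lit 368) (nat_lit 339)))) (XT.nd (nat_lit 78) (nat_lit 760) (nat_lit 0) (XT.lf (nat_lit 0) (nat_lit 2080346414)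 (nat_lit 684) (nat_lit 2797137059) (nat_lit 760) (nat_lit 3154192589) (nat_lit 300) (nat_lit 5) (nat_lit 309) (nat_lit 5) (nat_lit 310) (nat_lit 5) (nat_lit 434) (nat_lit 368) (nat_lit 338)) (XT.nd (nat_lit 78) (nat_lit 760) (nat_lit 0) (XT.lf (nat_lit 0) (nat_lit 7821144947) (nat_lit 684) (nat_lit 135140236) (nat_lit 760) (nat_lit 141157458) (nat_lit 300) (nat_lit 5) (nat_lit 309) (nat_lit 5) (nat_lit 310) (nat_lit 5) (nat_lit 435) (nat_lit 368) (nat_lit 337)) (XT.lf (nat_lit 0) (nat_lit 2897657333) (nat_lit 760) (nat_lit 2674468719) (nat_lit 76) (nat_lit 2591951453) (nat_lit 290) (nat_lit 5) (nat_lit 300) (nat_lit 5) (nat_lit 291) (nat_lit 5) (nat_lit 436) (nat_lit 368) (nat_lit 336)))))) (XT.nd (nat_lit 390) (nat_lit 2432) (nat_lit 0) (XT.nd (nat_lit 156) (nat_lit 1292) (nat_lit 0) (XT.nd (nat_lit 78) (nat_lit 760) (nat_lit 0) (XT.lf (nat_lit 0) (nat_lit 3122733045) (nat_lit 684) (nat_lit 2847347478) (nat_lit 760) (nat_lit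 2262464370) (nat_lit 281) (nat_lit 5) (nat_lit 290) (nat_lit 5) (nat_lit 291) (nat_lit 5) (nat_lit 437) (nat_lit 368) (nat_lit 335)) (XT.lf (nat_lit 0) (nat_lit 714948462) (nat_lit 684) (nat_lit 50739850) (nat_lit 760) (nat_lit 7537109053) (nat_lit 271) (nat_lit 5) (nat_lit 280) (nat_lit 5) (nat_lit 281) (nat_lit 5) (nat_lit 438) (nat_lit 368) (nat_lit 334))) (XT.nd (nat_lit 78) (nat_lit 1292) (nat_lit 0) (XT.lf (nat_lit 0) (nat_lit 3829255708) (nat_lit 760) (nat_lit 1741415551) (nat_lit 76) (nat_lit 2803393794) (nat_lit 271) (nat_lit 5) (nat_lit 281) (nat_lit 5) (nat_lit 272) (nat_lit 5) (nat_lit 439) (nat_lit 368) (nat_lit 333)) (XT.nd (nat_lit 78) (nat_lit 684) (nat_lit 0) (XT.lf (nat_lit 0) (nat_lit 4218392431) (nat_lit 608) (nat_lit 2716769768) (nat_lit 684) (nat_lit 1511986488) (nat_lit 263) (nat_lit 5) (nat_lit 271) (nat_lit 5) (nat_lit 272) (nat_lit 5) (nat_lit 440) (nat_lit 368) (nat_lit 332)) (XT.lf (nat_lit 0) (nat_lit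 1538864167) (nat_lit 684) (nat_lit 6769962005) (nat_lit 76) (nat_lit 213111687) (nat_lit 254) (nat_lit 5) (nat_lit 263) (nat_lit 5) (nat_lit 255) (nat_lit 5) (nat_lit 441) (nat_lit 368) (nat_lit 331))))) (XT.nd (nat_lit 234) (nat_lit 1140) (nat_lit 0) (XT.nd (nat_lit 78) (nat_lit 1292) (nat_lit 0) (XT.lf (nat_lit 0) (nat_lit 4631075830) (nat_lit 684) (nat_lit 775451621) (nat_lit 76) (nat_lit 3191494949) (nat_lit 254) (nat_lit 5) (nat_lit 263) (nat_lit 5) (nat_lit 255) (nat_lit 5) (nat_lit 442) (nat_lit 368) (nat_lit 330)) (XT.nd (nat_lit 78) (nat_lit 684) (nat_lit 0) (XT.lf (nat_lit 0) (nat_lit 5351042654) (nat_lit 608) (nat_lit 2423746888) (nat_lit 684) (nat_lit 901056968) (nat_lit 246) (nat_lit 5) (nat_lit 254) (nat_lit 5) (nat_lit 255) (nat_lit 5) (nat_lit 443) (nat_lit 368) (nat_lit 329)) (XT.lf (nat_lit 0) (nat_lit 2179799332) (nat_lit 684) (nat_lit 5939920710) (nat_lit 76) (nat_lit 635571695) (nat_lit 237) (nat_lit 5)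 (nat_lit 246) (nat_lit 5) (nat_lit 238) (nat_lit 5) (nat_lit 444) (nat_lit 368) (nat_lit 328)))) (XT.nd (nat_lit 78) (nat_lit 608) (nat_lit 0) (XT.lf (nat_lit 0) (nat_lit 209380638) (nat_lit 532) (nat_lit 5096242650) (nat_lit 608) (nat_lit 3530685546) (nat_lit 230) (nat_lit 5) (nat_lit 237) (nat_lit 5) (nat_lit 238) (nat_lit 5) (nat_lit 445) (nat_lit 368) (nat_lit 327)) (XT.nd (nat_lit 78) (nat_lit 608) (nat_lit 0) (XT.lf (nat_lit 0) (nat_lit 6503834175) (nat_lit 532) (nat_lit 1986017282) (nat_lit 608) (nat_lit 429187260) (nat_lit 230) (nat_lit 5) (nat_lit 237) (nat_lit 5) (nat_lit 238) (nat_lit 5) (nat_lit 446) (nat_lit 368) (nat_lit 326)) (XT.lf (nat_lit 0) (nat_lit 2688266270) (nat_lit 608) (nat_lit 5115027082) (nat_lit 76) (nat_lit 1199988850) (nat_lit 222) (nat_lit 5) (nat_lit 230) (nat_lit 5) (nat_lit 223) (nat_lit 5) (nat_lit 447) (nat_lit 368) (nat_lit 325))))))) (XT.nd (nat_lit 858) (nat_lit 3268) (nat_lit 0) (XT.nd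 (nat_lit 390) (nat_lit 2508) (nat_lit 0) (XT.nd (nat_lit 156) (nat_lit 1140) (nat_lit 0) (XT.nd (nat_lit 78) (nat_lit 0) (nat_lit 0) (XT.lf (nat_lit 0) (nat_lit 1203126044) (nat_lit 532) (nat_lit 4653458777) (nat_lit 608) (nat_lit 3232693352) (nat_lit 215) (nat_lit 5) (nat_lit 222) (nat_lit 5) (nat_lit 223) (nat_lit 5) (nat_lit 448) (nat_lit 368) (nat_lit 324)) (XT.lf (nat_lit 0) (nat_lit 7659173179) (nat_lit 532) (nat_lit 1420868176) (nat_lit 608) (nat_lit 97126696) (nat_lit 215) (nat_lit 5) (nat_lit 222) (nat_lit 5) (nat_lit 223) (nat_lit 5) (nat_lit 449) (nat_lit 368) (nat_lit 323))) (XT.nd (nat_lit 78) (nat_lit 532) (nat_lit 0) (XT.lf (nat_lit 0) (nat_lit 3063143636) (nat_lit 608) (nat_lit 4313775193) (nat_lit 76) (nat_lit 1889449970) (nat_lit 207) (nat_lit 5) (nat_lit 215) (nat_lit 5) (nat_lit 208) (nat_lit 5) (nat_lit 450) (nat_lit 368) (nat_lit 322)) (XT.nd (nat_lit 78) (nat_lit 76) (nat_lit 0) (XT.lf (nat_lit 0) (nat_lit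 2176847874) (nat_lit 456) (nat_lit 4100620525) (nat_lit 532) (nat_lit 3080038207) (nat_lit 201) (nat_lit 5) (nat_lit 207) (nat_lit 5) (nat_lit 208) (nat_lit 5) (nat_lit 451) (nat_lit 368) (nat_lit 321)) (XT.lf (nat_lit 0) (nat_lit 91881488) (nat_lit 532) (nat_lit 652791071) (nat_lit 76) (nat_lit 8706036348) (nat_lit 200) (nat_lit 5) (nat_lit 207) (nat_lit 5) (nat_lit 201) (nat_lit 5) (nat_lit 452) (nat_lit 368) (nat_lit 320))))) (XT.nd (nat_lit 234) (nat_lit 988) (nat_lit 0) (XT.nd (nat_lit 78) (nat_lit 988) (nat_lit 0) (XT.lf (nat_lit 0) (nat_lit 3302047987) (nat_lit 608) (nat_lit 3555714653) (nat_lit 76) (nat_lit 2687292793) (nat_lit 193) (nat_lit 5) (nat_lit 201) (nat_lit 5) (nat_lit 194) (nat_lit 5) (nat_lit 453) (nat_lit 368) (nat_lit 319)) (XT.nd (nat_lit 78) (nat_lit 532) (nat_lit 0) (XT.lf (nat_lit 0) (nat_lit 3110814651) (nat_lit 456) (nat_lit 3454797950) (nat_lit 532) (nat_lit 3075900598) (nat_lit 187) (nat_lit 5)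 (nat_lit 193) (nat_lit 5) (nat_lit 194) (nat_lit 5) (nat_lit 454) (nat_lit 368) (nat_lit 318)) (XT.lf (nat_lit 0) (nat_lit 137575566) (nat_lit 532) (nat_lit 9577081410) (nat_lit 76) (nat_lit 25529874) (nat_lit 180) (nat_lit 5) (nat_lit 187) (nat_lit 5) (nat_lit 181) (nat_lit 5) (nat_lit 455) (nat_lit 368) (nat_lit 317)))) (XT.nd (nat_lit 78) (nat_lit 988) (nat_lit 0) (XT.lf (nat_lit 0) (nat_lit 3401283920) (nat_lit 532) (nat_lit 2861656788) (nat_lit 76) (nat_lit 3576951382) (nat_lit 180) (nat_lit 5) (nat_lit 187) (nat_lit 5) (nat_lit 181) (nat_lit 5) (nat_lit 456) (nat_lit 368) (nat_lit 316)) (XT.nd (nat_lit 78) (nat_lit 532) (nat_lit 0) (XT.lf (nat_lit 0) (nat_lit 3983983593) (nat_lit 456) (nat_lit 2733047908) (nat_lit 532) (nat_lit 3224832210) (nat_lit 174) (nat_lit 5) (nat_lit 180) (nat_lit 5) (nat_lit 181) (nat_lit 5) (nat_lit 457) (nat_lit 368) (nat_lit 315)) (XT.lf (nat_lit 0) (nat_lit 44517467) (nat_lit 532) (nat_lit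 9136972048) (nat_lit 76) (nat_lit 864545696) (nat_lit 167) (nat_lit 5) (nat_lit 174) (nat_lit 5) (nat_lit 168) (nat_lit 5) (nat_lit 458) (nat_lit 368) (nat_lit 314)))))) (XT.nd (nat_lit 468) (nat_lit 1596) (nat_lit 0) (XT.nd (nat_lit 234) (nat_lit 836) (nat_lit 0) (XT.nd (nat_lit 78) (nat_lit 836) (nat_lit 0) (XT.lf (nat_lit 0) (nat_lit 3355782526) (nat_lit 532) (nat_lit 2253895955) (nat_lit 76) (nat_lit 4541798301) (nat_lit 167) (nat_lit 5) (nat_lit 174) (nat_lit 5) (nat_lit 168) (nat_lit 5) (nat_lit 459) (nat_lit 368) (nat_lit 313)) (XT.nd (nat_lit 78) (nat_lit 456) (nat_lit 0) (XT.lf (nat_lit 0) (nat_lit 4773773663) (nat_lit 380) (nat_lit 1952575678) (nat_lit 456) (nat_lit 3532823314) (nat_lit 162) (nat_lit 5) (nat_lit 167) (nat_lit 5) (nat_lit 168) (nat_lit 5) (nat_lit 460) (nat_lit 368) (nat_lit 312)) (XT.lf (nat_lit 0) (nat_lit 1556649930) (nat_lit 456) (nat_lit 8606902073) (nat_lit 532) (nat_lit 205492814) (nat_lit 156)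 (nat_lit 5) (nat_lit 162) (nat_lit 5) (nat_lit 163) (nat_lit 5) (nat_lit 461) (nat_lit 368) (nat_lit 311)))) (XT.nd (nat_lit 78) (nat_lit 760) (nat_lit 0) (XT.lf (nat_lit 0) (nat_lit 3159027476) (nat_lit 532) (nat_lit 1756448106) (nat_lit 76) (nat_lit 5564982225) (nat_lit 155) (nat_lit 5) (nat_lit 162) (nat_lit 5) (nat_lit 156) (nat_lit 5) (nat_lit 462) (nat_lit 368) (nat_lit 310)) (XT.nd (nat_lit 78) (nat_lit 380) (nat_lit 0) (XT.lf (nat_lit 0) (nat_lit 5455820706) (nat_lit 380) (nat_lit 1130901846) (nat_lit 456) (nat_lit 4007383089) (nat_lit 150) (nat_lit 5) (nat_lit 155) (nat_lit 5) (nat_lit 156) (nat_lit 5) (nat_lit 463) (nat_lit 368) (nat_lit 309)) (XT.lf (nat_lit 0) (nat_lit 2080596911) (nat_lit 380) (nat_lit 8008927846) (nat_lit 456) (nat_lit 620376949) (nat_lit 145) (nat_lit 5) (nat_lit 150) (nat_lit 5) (nat_lit 151) (nat_lit 5) (nat_lit 464) (nat_lit 368) (nat_lit 308))))) (XT.nd (nat_lit 234) (nat_lit 760) (nat_lit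 0) (XT.nd (nat_lit 78) (nat_lit 760) (nat_lit 0) (XT.lf (nat_lit 0) (nat_lit 2802967856) (nat_lit 456) (nat_lit 1395308891) (nat_lit 76) (nat_lit 6629259551) (nat_lit 144) (nat_lit 5) (nat_lit 150) (nat_lit 5) (nat_lit 145) (nat_lit 5) (nat_lit 465) (nat_lit 368) (nat_lit 307)) (XT.nd (nat_lit 78) (nat_lit 380) (nat_lit 0) (XT.lf (nat_lit 0) (nat_lit 6003712319) (nat_lit 380) (nat_lit 286035931) (nat_lit 456) (nat_lit 4657633781) (nat_lit 139) (nat_lit 5) (nat_lit 144) (nat_lit 5) (nat_lit 145) (nat_lit 5) (nat_lit 466) (nat_lit 368) (nat_lit 306)) (XT.lf (nat_lit 0) (nat_lit 2453736428) (nat_lit 380) (nat_lit 7406453366) (nat_lit 456) (nat_lit 1209162232) (nat_lit 134) (nat_lit 5) (nat_lit 139) (nat_lit 5) (nat_lit 140) (nat_lit 5) (nat_lit 467) (nat_lit 368) (nat_lit 305)))) (XT.nd (nat_lit 78) (nat_lit 684) (nat_lit 0) (XT.lf (nat_lit 0) (nat_lit 2277916811) (nat_lit 456) (nat_lit 1198733758) (nat_lit 76) (nat_lit 7716818512)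 (nat_lit 133) (nat_lit 5) (nat_lit 139) (nat_lit 5) (nat_lit 134) (nat_lit 5) (nat_lit 468) (nat_lit 368) (nat_lit 304)) (XT.nd (nat_lit 78) (nat_lit 380) (nat_lit 0) (XT.lf (nat_lit 0) (nat_lit 5829015775) (nat_lit 380) (nat_lit 4934735606) (nat_lit 76) (nat_lit 555953385) (nat_lit 129) (nat_lit 5) (nat_lit 134) (nat_lit 5) (nat_lit 130) (nat_lit 5) (nat_lit 469) (nat_lit 368) (nat_lit 303)) (XT.lf (nat_lit 0) (nat_lit 2646133524) (nat_lit 380) (nat_lit 6818833924) (nat_lit 456) (nat_lit 1983226513) (nat_lit 124) (nat_lit 5) (nat_lit 129) (nat_lit 5) (nat_lit 130) (nat_lit 5) (nat_lit 470) (nat_lit 368) (nat_lit 302))))))))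
noncomputable def xc61 : XT := (XT.nd (nat_lit 1716) (nat_lit 1900) (nat_lit 0) (XT.nd (nat_lit 858) (nat_lit 1976) (nat_lit 0) (XT.nd (nat_lit 390) (nat_lit 1292) (nat_lit 0) (XT.nd (nat_lit 156) (nat_lit 760) (nat_lit 0) (XT.nd (nat_lit 78) (nat_lit 304) (nat_lit 0) (XT.lf (nat_lit 0) (nat_lit 1572434890) (nat_lit 456) (nat_lit 1197542794) (nat_lit 76) (nat_lit 8809094213) (nat_lit 123) (nat_lit 5) (nat_lit 129) (nat_lit 5) (nat_lit 124) (nat_lit 5) (nat_lit 471) (nat_lit 368) (nat_lit 301)) (XT.lf (nat_lit 0) (nat_lit 5190771734) (nat_lit 380) (nat_lit 5141819097) (nat_lit 76) (nat_lit 1379357126) (nat_lit 119) (nat_lit 5) (nat_lit 124) (nat_lit 5) (nat_lit 120) (nat_lit 5) (nat_lit 472) (nat_lit 368) (nat_lit 300))) (XT.nd (nat_lit 78) (nat_lit 380) (nat_lit 0) (XT.lf (nat_lit 0) (nat_lit 2625059915) (nat_lit 380) (nat_lit 6266388879) (nat_lit 456) (nat_lit 2955838273) (nat_lit 114) (nat_lit 5) (nat_lit 119) (nat_lit 5)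 (nat_lit 120) (nat_lit 5) (nat_lit 473) (nat_lit 368) (nat_lit 299)) (XT.nd (nat_lit 78) (nat_lit 304) (nat_lit 0) (XT.lf (nat_lit 0) (nat_lit 673196839) (nat_lit 456) (nat_lit 1425453249) (nat_lit 76) (nat_lit 9886572885) (nat_lit 113) (nat_lit 5) (nat_lit 119) (nat_lit 5) (nat_lit 114) (nat_lit 5) (nat_lit 474) (nat_lit 368) (nat_lit 298)) (XT.lf (nat_lit 0) (nat_lit 4359244034) (nat_lit 380) (nat_lit 5598219560) (nat_lit 76) (nat_lit 2167587752) (nat_lit 109) (nat_lit 5) (nat_lit 114) (nat_lit 5) (nat_lit 110) (nat_lit 5) (nat_lit 475) (nat_lit 368) (nat_lit 297))))) (XT.nd (nat_lit 234) (nat_lit 608) (nat_lit 0) (XT.nd (nat_lit 78) (nat_lit 380) (nat_lit 0) (XT.lf (nat_lit 0) (nat_lit 2354639202) (nat_lit 304) (nat_lit 5770610738) (nat_lit 380) (nat_lit 4142306209) (nat_lit 105) (nat_lit 5) (nat_lit 109) (nat_lit 5) (nat_lit 110) (nat_lit 5) (nat_lit 476) (nat_lit 368) (nat_lit 296)) (XT.nd (nat_lit 78) (nat_lit 380) (nat_lit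 0) (XT.lf (nat_lit 0) (nat_lit 10490503867) (nat_lit 304) (nat_lit 1481363313) (nat_lit 380) (nat_lit 440942571) (nat_lit 105) (nat_lit 5) (nat_lit 109) (nat_lit 5) (nat_lit 110) (nat_lit 5) (nat_lit 477) (nat_lit 368) (nat_lit 295)) (XT.lf (nat_lit 0) (nat_lit 3318426442) (nat_lit 380) (nat_lit 6342519351) (nat_lit 76) (nat_lit 2899039795) (nat_lit 100) (nat_lit 5) (nat_lit 105) (nat_lit 5) (nat_lit 101) (nat_lit 5) (nat_lit 478) (nat_lit 368) (nat_lit 294)))) (XT.nd (nat_lit 78) (nat_lit 304) (nat_lit 0) (XT.lf (nat_lit 0) (nat_lit 1795458603) (nat_lit 304) (nat_lit 5354388662) (nat_lit 380) (nat_lit 5560148279) (nat_lit 96) (nat_lit 5) (nat_lit 100) (nat_lit 5) (nat_lit 101) (nat_lit 5) (nat_lit 479) (nat_lit 368) (nat_lit 293)) (XT.nd (nat_lit 78) (nat_lit 304) (nat_lit 0) (XT.lf (nat_lit 0) (nat_lit 10130992122) (nat_lit 304) (nat_lit 938065462) (nat_lit 380) (nat_lit 1793729075) (nat_lit 96) (nat_lit 5) (nat_lit 100) (nat_lit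 5) (nat_lit 101) (nat_lit 5) (nat_lit 480) (nat_lit 368) (nat_lit 292)) (XT.lf (nat_lit 0) (nat_lit 2050042741) (nat_lit 304) (nat_lit 7417139676) (nat_lit 76) (nat_lit 3550611571) (nat_lit 92) (nat_lit 5) (nat_lit 96) (nat_lit 5) (nat_lit 93) (nat_lit 5) (nat_lit 481) (nat_lit 368) (nat_lit 291)))))) (XT.nd (nat_lit 390) (nat_lit 1064) (nat_lit 0) (XT.nd (nat_lit 156) (nat_lit 608) (nat_lit 0) (XT.nd (nat_lit 78) (nat_lit 0) (nat_lit 0) (XT.lf (nat_lit 0) (nat_lit 904143414) (nat_lit 304) (nat_lit 5042248530) (nat_lit 380) (nat_lit 7229281931) (nat_lit 88) (nat_lit 5) (nat_lit 92) (nat_lit 5) (nat_lit 93) (nat_lit 5) (nat_lit 482) (nat_lit 368) (nat_lit 290)) (XT.lf (nat_lit 0) (nat_lit 9441977989) (nat_lit 304) (nat_lit 497902093) (nat_lit 380) (nat_lit 3396450904) (nat_lit 88) (nat_lit 5) (nat_lit 92) (nat_lit 5) (nat_lit 93) (nat_lit 5) (nat_lit 483) (nat_lit 368) (nat_lit 289))) (XT.nd (nat_lit 78) (nat_lit 304) (nat_lit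 0) (XT.lf (nat_lit 0) (nat_lit 533346018) (nat_lit 304) (nat_lit 8868793690) (nat_lit 76) (nat_lit 4097457868) (nat_lit 84) (nat_lit 5) (nat_lit 88) (nat_lit 5) (nat_lit 85) (nat_lit 5) (nat_lit 484) (nat_lit 368) (nat_lit 288)) (XT.nd (nat_lit 78) (nat_lit 304) (nat_lit 0) (XT.lf (nat_lit 0) (nat_lit 4495885336) (nat_lit 304) (nat_lit 362295287) (nat_lit 76) (nat_lit 8807511007) (nat_lit 84) (nat_lit 5) (nat_lit 88) (nat_lit 5) (nat_lit 85) (nat_lit 5) (nat_lit 485) (nat_lit 368) (nat_lit 287)) (XT.lf (nat_lit 0) (nat_lit 8375177138) (nat_lit 304) (nat_lit 187442987) (nat_lit 380) (nat_lit 5271992116) (nat_lit 80) (nat_lit 5) (nat_lit 84) (nat_lit 5) (nat_lit 85) (nat_lit 5) (nat_lit 486) (nat_lit 368) (nat_lit 286))))) (XT.nd (nat_lit 234) (nat_lit 532) (nat_lit 0) (XT.nd (nat_lit 78) (nat_lit 304) (nat_lit 0) (XT.lf (nat_lit 0) (nat_lit 3249194170) (nat_lit 228) (nat_lit 9485455613) (nat_lit 304) (nat_lit 1271785780) (nat_lit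 77) (nat_lit 5) (nat_lit 80) (nat_lit 5) (nat_lit 81) (nat_lit 5) (nat_lit 487) (nat_lit 368) (nat_lit 285)) (XT.nd (nat_lit 78) (nat_lit 228) (nat_lit 0) (XT.lf (nat_lit 0) (nat_lit 2780475098) (nat_lit 304) (nat_lit 2043885123) (nat_lit 76) (nat_lit 9356796142) (nat_lit 76) (nat_lit 5) (nat_lit 80) (nat_lit 5) (nat_lit 77) (nat_lit 5) (nat_lit 488) (nat_lit 368) (nat_lit 284)) (XT.lf (nat_lit 0) (nat_lit 6877272838) (nat_lit 228) (nat_lit 35483901) (nat_lit 304) (nat_lit 7446129913) (nat_lit 73) (nat_lit 5) (nat_lit 76) (nat_lit 5) (nat_lit 77) (nat_lit 5) (nat_lit 489) (nat_lit 368) (nat_lit 283)))) (XT.nd (nat_lit 78) (nat_lit 304) (nat_lit 0) (XT.lf (nat_lit 0) (nat_lit 1403122347) (nat_lit 228) (nat_lit 9750423296) (nat_lit 304) (nat_lit 3386111905) (nat_lit 70) (nat_lit 5) (nat_lit 73) (nat_lit 5) (nat_lit 74) (nat_lit 5) (nat_lit 490) (nat_lit 368) (nat_lit 282)) (XT.nd (nat_lit 78) (nat_lit 228) (nat_lit 0) (XT.lf (nat_lit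 0) (nat_lit 767494508) (nat_lit 304) (nat_lit 4209971934) (nat_lit 76) (nat_lit 9746036646) (nat_lit 69) (nat_lit 5) (nat_lit 73) (nat_lit 5) (nat_lit 70) (nat_lit 5) (nat_lit 491) (nat_lit 368) (nat_lit 281)) (XT.lf (nat_lit 0) (nat_lit 4889341702) (nat_lit 228) (nat_lit 73355359) (nat_lit 304) (nat_lit 9947806600) (nat_lit 66) (nat_lit 5) (nat_lit 69) (nat_lit 5) (nat_lit 70) (nat_lit 5) (nat_lit 492) (nat_lit 368) (nat_lit 280))))))) (XT.nd (nat_lit 858) (nat_lit 456) (nat_lit 0) (XT.nd (nat_lit 390) (nat_lit 760) (nat_lit 0) (XT.nd (nat_lit 156) (nat_lit 456) (nat_lit 0) (XT.nd (nat_lit 78) (nat_lit 228) (nat_lit 0) (XT.lf (nat_lit 0) (nat_lit 9274434736) (nat_lit 304) (nat_lit 952757354) (nat_lit 76) (nat_lit 4873402522) (nat_lit 66) (nat_lit 5) (nat_lit 70) (nat_lit 5) (nat_lit 67) (nat_lit 5) (nat_lit 493) (nat_lit 368) (nat_lit 279)) (XT.lf (nat_lit 0) (nat_lit 8359500565) (nat_lit 228) (nat_lit 5340404645) (nat_lit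 304) (nat_lit 1594035140) (nat_lit 63) (nat_lit 5) (nat_lit 66) (nat_lit 5) (nat_lit 67) (nat_lit 5) (nat_lit 494) (nat_lit 368) (nat_lit 278))) (XT.nd (nat_lit 78) (nat_lit 152) (nat_lit 0) (XT.lf (nat_lit 0) (nat_lit 2346221615) (nat_lit 228) (nat_lit 335258997) (nat_lit 304) (nat_lit 12809432496) (nat_lit 59) (nat_lit 5) (nat_lit 62) (nat_lit 5) (nat_lit 63) (nat_lit 5) (nat_lit 495) (nat_lit 368) (nat_lit 277)) (XT.nd (nat_lit 78) (nat_lit 152) (nat_lit 0) (XT.lf (nat_lit 0) (nat_lit 7071888927) (nat_lit 304) (nat_lit 3873066409) (nat_lit 76) (nat_lit 4745647487) (nat_lit 59) (nat_lit 5) (nat_lit 63) (nat_lit 5) (nat_lit 60) (nat_lit 5) (nat_lit 496) (nat_lit 368) (nat_lit 276)) (XT.lf (nat_lit 0) (nat_lit 5609426286) (nat_lit 152) (nat_lit 5952745552) (nat_lit 228) (nat_lit 4331875871) (nat_lit 57) (nat_lit 5) (nat_lit 59) (nat_lit 5) (nat_lit 60) (nat_lit 5) (nat_lit 497) (nat_lit 368) (nat_lit 275))))) (XT.nd (nat_lit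 234) (nat_lit 304) (nat_lit 0) (XT.nd (nat_lit 78) (nat_lit 380) (nat_lit 0) (XT.lf (nat_lit 0) (nat_lit 39801436) (nat_lit 228) (nat_lit 813375107) (nat_lit 76) (nat_lit 15248389540) (nat_lit 56) (nat_lit 5) (nat_lit 59) (nat_lit 5) (nat_lit 57) (nat_lit 5) (nat_lit 498) (nat_lit 368) (nat_lit 274)) (XT.nd (nat_lit 78) (nat_lit 152) (nat_lit 0) (XT.lf (nat_lit 0) (nat_lit 4501358445) (nat_lit 304) (nat_lit 7450571449) (nat_lit 76) (nat_lit 4359525806) (nat_lit 53) (nat_lit 5) (nat_lit 57) (nat_lit 5) (nat_lit 54) (nat_lit 5) (nat_lit 499) (nat_lit 368) (nat_lit 273)) (XT.lf (nat_lit 0) (nat_lit 2192120560) (nat_lit 152) (nat_lit 6859493226) (nat_lit 228) (nat_lit 7473942480) (nat_lit 51) (nat_lit 5) (nat_lit 53) (nat_lit 5) (nat_lit 54) (nat_lit 5) (nat_lit 500) (nat_lit 368) (nat_lit 272)))) (XT.nd (nat_lit 78) (nat_lit 304) (nat_lit 0) (XT.lf (nat_lit 0) (nat_lit 12083794461) (nat_lit 152) (nat_lit 1633383761) (nat_lit 228)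 (nat_lit 3026276992) (nat_lit 51) (nat_lit 5) (nat_lit 53) (nat_lit 5) (nat_lit 54) (nat_lit 5) (nat_lit 501) (nat_lit 368) (nat_lit 271)) (XT.nd (nat_lit 78) (nat_lit 0) (nat_lit 0) (XT.lf (nat_lit 0) (nat_lit 1523250367) (nat_lit 304) (nat_lit 11767574510) (nat_lit 76) (nat_lit 3674039157) (nat_lit 47) (nat_lit 5) (nat_lit 51) (nat_lit 5) (nat_lit 48) (nat_lit 5) (nat_lit 502) (nat_lit 368) (nat_lit 270)) (XT.lf (nat_lit 0) (nat_lit 6140307302) (nat_lit 304) (nat_lit 1951016719) (nat_lit 76) (nat_lit 9098638028) (nat_lit 47) (nat_lit 5) (nat_lit 51) (nat_lit 5) (nat_lit 48) (nat_lit 5) (nat_lit 503) (nat_lit 368) (nat_lit 269)))))) (XT.nd (nat_lit 51636) (nat_lit 0) (nat_lit 39140) (XT.nd (nat_lit 51402) (nat_lit 0) (nat_lit 44004) (XT.nd (nat_lit 78) (nat_lit 304) (nat_lit 0) (XT.lf (nat_lit 0) (nat_lit 8124885441) (nat_lit 152) (nat_lit 2752797602) (nat_lit 228) (nat_lit 6541321691) (nat_lit 45) (nat_lit 5) (nat_lit 47)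 (nat_lit 5) (nat_lit 48) (nat_lit 5) (nat_lit 504) (nat_lit 368) (nat_lit 268)) (XT.nd (nat_lit 78) (nat_lit 76) (nat_lit 0) (XT.lf (nat_lit 0) (nat_lit 724690112) (nat_lit 228) (nat_lit 14995790979) (nat_lit 304) (nat_lit 1931935906) (nat_lit 42) (nat_lit 5) (nat_lit 45) (nat_lit 5) (nat_lit 46) (nat_lit 5) (nat_lit 505) (nat_lit 368) (nat_lit 267)) (XT.lf (nat_lit 0) (nat_lit 2789672683) (nat_lit 304) (nat_lit 6899690602) (nat_lit 76) (nat_lit 8199649519) (nat_lit 41) (nat_lit 5) (nat_lit 45) (nat_lit 5) (nat_lit 42) (nat_lit 5) (nat_lit 506) (nat_lit 368) (nat_lit 266)))) (XT.nd (nat_lit 78) (nat_lit 1064) (nat_lit 0) (XT.lf (nat_lit 0) (nat_lit 655185008) (nat_lit 988) (nat_lit 2028244660) (nat_lit 0) (nat_lit 655185008) (nat_lit 634) (nat_lit 5) (nat_lit 647) (nat_lit 4) (nat_lit 634) (nat_lit 4) (nat_lit 402) (nat_lit 369) (nat_lit 369)) (XT.nd (nat_lit 78) (nat_lit 76) (nat_lit 0) (XT.lf (nat_lit 0) (nat_lit 195036609)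 (nat_lit 988) (nat_lit 4349410270) (nat_lit 988) (nat_lit 2154934080) (nat_lit 621) (nat_lit 4) (nat_lit 634) (nat_lit 5) (nat_lit 634) (nat_lit 4) (nat_lit 403) (nat_lit 369) (nat_lit 368)) (XT.lf (nat_lit 0) (nat_lit 1062108903) (nat_lit 1064) (nat_lit 2200463451) (nat_lit 76) (nat_lit 3460177489) (nat_lit 620) (nat_lit 5) (nat_lit 634) (nat_lit 5) (nat_lit 621) (nat_lit 4) (nat_lit 404) (nat_lit 369) (nat_lit 367))))) (XT.nd (nat_lit 234) (nat_lit 2584) (nat_lit 0) (XT.nd (nat_lit 78) (nat_lit 1216) (nat_lit 0) (XT.lf (nat_lit 0) (nat_lit 2146362064) (nat_lit 1064) (nat_lit 2111829769) (nat_lit 1140) (nat_lit 2489269225) (nat_lit 606) (nat_lit 5) (nat_lit 620) (nat_lit 5) (nat_lit 621) (nat_lit 4) (nat_lit 405) (nat_lit 369) (nat_lit 366)) (XT.nd (nat_lit 78) (nat_lit 1140) (nat_lit 0) (XT.lf (nat_lit 0) (nat_lit 680730660) (nat_lit 1140) (nat_lit 224952701) (nat_lit 76) (nat_lit 5868016468) (nat_lit 605) (nat_lit 5) (nat_lit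 620) (nat_lit 5) (nat_lit 606) (nat_lit 5) (nat_lit 406) (nat_lit 369) (nat_lit 365)) (XT.lf (nat_lit 0) (nat_lit 3842197812) (nat_lit 1216) (nat_lit 2582335085) (nat_lit 76) (nat_lit 376402553) (nat_lit 590) (nat_lit 5) (nat_lit 606) (nat_lit 5) (nat_lit 591) (nat_lit 4) (nat_lit 407) (nat_lit 369) (nat_lit 364)))) (XT.nd (nat_lit 78) (nat_lit 1292) (nat_lit 0) (XT.lf (nat_lit 0) (nat_lit 187015334) (nat_lit 1292) (nat_lit 4944353519) (nat_lit 76) (nat_lit 1698304786) (nat_lit 573) (nat_lit 5) (nat_lit 590) (nat_lit 5) (nat_lit 574) (nat_lit 5) (nat_lit 408) (nat_lit 369) (nat_lit 363)) (XT.nd (nat_lit 78) (nat_lit 1292) (nat_lit 0) (XT.lf (nat_lit 0) (nat_lit 3306568259) (nat_lit 1292) (nat_lit 459103324) (nat_lit 76) (nat_lit 3093941264) (nat_lit 573) (nat_lit 5) (nat_lit 590) (nat_lit 5) (nat_lit 574) (nat_lit 5) (nat_lit 409) (nat_lit 369) (nat_lit 362)) (XT.lf (nat_lit 0) (nat_lit 4112844609) (nat_lit 1292) (nat_lit 2336706013)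 (nat_lit 1368) (nat_lit 441406358) (nat_lit 556) (nat_lit 5) (nat_lit 573) (nat_lit 5) (nat_lit 574) (nat_lit 5) (nat_lit 410) (nat_lit 369) (nat_lit 361))))))))
noncomputable def xc62 : XT := (XT.nd (nat_lit 1716) (nat_lit 10108) (nat_lit 0) (XT.nd (nat_lit 858) (nat_lit 6004) (nat_lit 0) (XT.nd (nat_lit 390) (nat_lit 7372) (nat_lit 0) (XT.nd (nat_lit 156) (nat_lit 3116) (nat_lit 0) (XT.nd (nat_lit 78) (nat_lit 0) (nat_lit 0) (XT.lf (nat_lit 0) (nat_lit 1808074599) (nat_lit 1368) (nat_lit 838194213) (nat_lit 1444) (nat_lit 4277337410) (nat_lit 537) (nat_lit 5) (nat_lit 555) (nat_lit 5) (nat_lit 556) (nat_lit 5) (nat_lit 411) (nat_lit 369) (nat_lit 360)) (XT.lf (nat_lit 0) (nat_lit 5748795484) (nat_lit 1444) (nat_lit 498866270) (nat_lit 76) (nat_lit 710033530) (nat_lit 537) (nat_lit 5) (nat_lit 556) (nat_lit 5) (nat_lit 538) (nat_lit 5) (nat_lit 412) (nat_lit 369) (nat_lit 359))) (XT.nd (nat_lit 78) (nat_lit 1596) (nat_lit 0)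 (XT.lf (nat_lit 0) (nat_lit 1865339775) (nat_lit 1520) (nat_lit 2802968869) (nat_lit 76) (nat_lit 2324539894) (nat_lit 517) (nat_lit 5) (nat_lit 537) (nat_lit 5) (nat_lit 518) (nat_lit 5) (nat_lit 413) (nat_lit 369) (nat_lit 358)) (XT.nd (nat_lit 78) (nat_lit 76) (nat_lit 0) (XT.lf (nat_lit 0) (nat_lit 1909765884) (nat_lit 1520) (nat_lit 3028340242) (nat_lit 1596) (nat_lit 2091398227) (nat_lit 497) (nat_lit 5) (nat_lit 517) (nat_lit 5) (nat_lit 518) (nat_lit 5) (nat_lit 414) (nat_lit 369) (nat_lit 357)) (XT.lf (nat_lit 0) (nat_lit 949048927) (nat_lit 1596) (nat_lit 376665660) (nat_lit 76) (nat_lit 5741935087) (nat_lit 496) (nat_lit 5) (nat_lit 517) (nat_lit 5) (nat_lit 497) (nat_lit 5) (nat_lit 415) (nat_lit 369) (nat_lit 356))))) (XT.nd (nat_lit 234) (nat_lit 4028) (nat_lit 0) (XT.nd (nat_lit 78) (nat_lit 1748) (nat_lit 0) (XT.lf (nat_lit 0) (nat_lit 3993272217) (nat_lit 1672) (nat_lit 2661261060) (nat_lit 76) (nat_lit 452351237)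 (nat_lit 475) (nat_lit 5) (nat_lit 497) (nat_lit 5) (nat_lit 476) (nat_lit 5) (nat_lit 416) (nat_lit 369) (nat_lit 355)) (XT.nd (nat_lit 78) (nat_lit 76) (nat_lit 0) (XT.lf (nat_lit 0) (nat_lit 2184490070) (nat_lit 1672) (nat_lit 4879330093) (nat_lit 1748) (nat_lit 83797160) (nat_lit 453) (nat_lit 5) (nat_lit 475) (nat_lit 5) (nat_lit 476) (nat_lit 5) (nat_lit 417) (nat_lit 369) (nat_lit 354)) (XT.lf (nat_lit 0) (nat_lit 2925481847) (nat_lit 1748) (nat_lit 103623642) (nat_lit 76) (nat_lit 4160524101) (nat_lit 452) (nat_lit 5) (nat_lit 475) (nat_lit 5) (nat_lit 453) (nat_lit 5) (nat_lit 418) (nat_lit 369) (nat_lit 353)))) (XT.nd (nat_lit 78) (nat_lit 2280) (nat_lit 0) (XT.lf (nat_lit 0) (nat_lit 4858979582) (nat_lit 1748) (nat_lit 1107886835) (nat_lit 1824) (nat_lit 1266164568) (nat_lit 429) (nat_lit 5) (nat_lit 452) (nat_lit 5) (nat_lit 453) (nat_lit 5) (nat_lit 419) (nat_lit 369) (nat_lit 352)) (XT.nd (nat_lit 78) (nat_lit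 912) (nat_lit 0) (XT.lf (nat_lit 0) (nat_lit 1733519416) (nat_lit 1368) (nat_lit 4673758317) (nat_lit 76) (nat_lit 870505188) (nat_lit 411) (nat_lit 5) (nat_lit 429) (nat_lit 5) (nat_lit 412) (nat_lit 5) (nat_lit 420) (nat_lit 369) (nat_lit 351)) (XT.lf (nat_lit 0) (nat_lit 320643809) (nat_lit 912) (nat_lit 4423707558) (nat_lit 988) (nat_lit 2579568579) (nat_lit 399) (nat_lit 5) (nat_lit 411) (nat_lit 5) (nat_lit 412) (nat_lit 5) (nat_lit 421) (nat_lit 369) (nat_lit 350)))))) (XT.nd (nat_lit 390) (nat_lit 3268) (nat_lit 0) (XT.nd (nat_lit 156) (nat_lit 1824) (nat_lit 0) (XT.nd (nat_lit 78) (nat_lit 836) (nat_lit 0) (XT.lf (nat_lit 0) (nat_lit 413153353) (nat_lit 988) (nat_lit 1954014984) (nat_lit 76) (nat_lit 5004281271) (nat_lit 398) (nat_lit 5) (nat_lit 411) (nat_lit 5) (nat_lit 399) (nat_lit 5) (nat_lit 422) (nat_lit 369) (nat_lit 349)) (XT.lf (nat_lit 0) (nat_lit 3162927214) (nat_lit 836) (nat_lit 232938703) (nat_lit 912)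 (nat_lit 4024447867) (nat_lit 387) (nat_lit 5) (nat_lit 398) (nat_lit 5) (nat_lit 399) (nat_lit 5) (nat_lit 423) (nat_lit 369) (nat_lit 348))) (XT.nd (nat_lit 78) (nat_lit 912) (nat_lit 0) (XT.lf (nat_lit 0) (nat_lit 879193676) (nat_lit 912) (nat_lit 5535386487) (nat_lit 988) (nat_lit 1056066239) (nat_lit 375) (nat_lit 5) (nat_lit 387) (nat_lit 5) (nat_lit 388) (nat_lit 5) (nat_lit 424) (nat_lit 369) (nat_lit 347)) (XT.nd (nat_lit 78) (nat_lit 836) (nat_lit 0) (XT.lf (nat_lit 0) (nat_lit 1921270249) (nat_lit 988) (nat_lit 1418525204) (nat_lit 76) (nat_lit 4182442672) (nat_lit 374) (nat_lit 5) (nat_lit 387) (nat_lit 5) (nat_lit 375) (nat_lit 5) (nat_lit 425) (nat_lit 369) (nat_lit 346)) (XT.lf (nat_lit 0) (nat_lit 3843636720) (nat_lit 836) (nat_lit 1071565327) (nat_lit 912) (nat_lit 2660113303) (nat_lit 363) (nat_lit 5) (nat_lit 374) (nat_lit 5) (nat_lit 375) (nat_lit 5) (nat_lit 426) (nat_lit 369) (nat_lit 345))))) (XT.nd (nat_lit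 234) (nat_lit 1596) (nat_lit 0) (XT.nd (nat_lit 78) (nat_lit 760) (nat_lit 0) (XT.lf (nat_lit 0) (nat_lit 309538724) (nat_lit 912) (nat_lit 6077054559) (nat_lit 76) (nat_lit 1243344471) (nat_lit 351) (nat_lit 5) (nat_lit 363) (nat_lit 5) (nat_lit 352) (nat_lit 5) (nat_lit 427) (nat_lit 369) (nat_lit 344)) (XT.nd (nat_lit 78) (nat_lit 760) (nat_lit 0) (XT.lf (nat_lit 0) (nat_lit 3282480260) (nat_lit 912) (nat_lit 774957719) (nat_lit 76) (nat_lit 3628288731) (nat_lit 351) (nat_lit 5) (nat_lit 363) (nat_lit 5) (nat_lit 352) (nat_lit 5) (nat_lit 428) (nat_lit 369) (nat_lit 343)) (XT.lf (nat_lit 0) (nat_lit 4636492283) (nat_lit 760) (nat_lit 1656705512) (nat_lit 836) (nat_lit 1449883074) (nat_lit 341) (nat_lit 5) (nat_lit 351) (nat_lit 5) (nat_lit 352) (nat_lit 5) (nat_lit 429) (nat_lit 369) (nat_lit 342)))) (XT.nd (nat_lit 78) (nat_lit 760) (nat_lit 0) (XT.lf (nat_lit 0) (nat_lit 1516210400) (nat_lit 836) (nat_lit 5479592107) (nat_lit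 76) (nat_lit 806108736) (nat_lit 330) (nat_lit 5) (nat_lit 341) (nat_lit 5) (nat_lit 331) (nat_lit 5) (nat_lit 430) (nat_lit 369) (nat_lit 341)) (XT.nd (nat_lit 78) (nat_lit 760) (nat_lit 0) (XT.lf (nat_lit 0) (nat_lit 4503285094) (nat_lit 836) (nat_lit 38724497) (nat_lit 76) (nat_lit 3320110349) (nat_lit 330) (nat_lit 5) (nat_lit 341) (nat_lit 5) (nat_lit 331) (nat_lit 5) (nat_lit 431) (nat_lit 369) (nat_lit 340)) (XT.lf (nat_lit 0) (nat_lit 5526155262) (nat_lit 760) (nat_lit 2009922225) (nat_lit 836) (nat_lit 387750364) (nat_lit 320) (nat_lit 5) (nat_lit 330) (nat_lit 5) (nat_lit 331) (nat_lit 5) (nat_lit 432) (nat_lit 369) (nat_lit 339))))))) (XT.nd (nat_lit 858) (nat_lit 4484) (nat_lit 0) (XT.nd (nat_lit 390) (nat_lit 2660) (nat_lit 0) (XT.nd (nat_lit 156) (nat_lit 1444) (nat_lit 0) (XT.nd (nat_lit 78) (nat_lit 684) (nat_lit 0) (XT.lf (nat_lit 0) (nat_lit 2583308899) (nat_lit 836) (nat_lit 4807833552) (nat_lit 76) (nat_lit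 595794032) (nat_lit 309) (nat_lit 5) (nat_lit 320) (nat_lit 5) (nat_lit 310) (nat_lit 5) (nat_lit 433) (nat_lit 369) (nat_lit 338)) (XT.lf (nat_lit 0) (nat_lit 785100059) (nat_lit 684) (nat_lit 4809020554) (nat_lit 760) (nat_lit 2457438674) (nat_lit 300) (nat_lit 5) (nat_lit 309) (nat_lit 5) (nat_lit 310) (nat_lit 5) (nat_lit 434) (nat_lit 369) (nat_lit 337))) (XT.nd (nat_lit 78) (nat_lit 1368) (nat_lit 0) (XT.lf (nat_lit 0) (nat_lit 524134985) (nat_lit 760) (nat_lit 1623955708) (nat_lit 76) (nat_lit 5969653051) (nat_lit 299) (nat_lit 5) (nat_lit 309) (nat_lit 5) (nat_lit 300) (nat_lit 5) (nat_lit 435) (nat_lit 369) (nat_lit 336)) (XT.nd (nat_lit 78) (nat_lit 684) (nat_lit 0) (XT.lf (nat_lit 0) (nat_lit 3515185476) (nat_lit 760) (nat_lit 4077486749) (nat_lit 76) (nat_lit 592612715) (nat_lit 290) (nat_lit 5) (nat_lit 300) (nat_lit 5) (nat_lit 291) (nat_lit 5) (nat_lit 436) (nat_lit 369) (nat_lit 335)) (XT.lf (nat_lit 0) (nat_lit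 1672078079) (nat_lit 684) (nat_lit 4882662271) (nat_lit 760) (nat_lit 1699675623) (nat_lit 281) (nat_lit 5) (nat_lit 290) (nat_lit 5) (nat_lit 291) (nat_lit 5) (nat_lit 437) (nat_lit 369) (nat_lit 334))))) (XT.nd (nat_lit 234) (nat_lit 1292) (nat_lit 0) (XT.nd (nat_lit 78) (nat_lit 1292) (nat_lit 0) (XT.lf (nat_lit 0) (nat_lit 1293120071) (nat_lit 760) (nat_lit 799347491) (nat_lit 76) (nat_lit 6232693353) (nat_lit 280) (nat_lit 5) (nat_lit 290) (nat_lit 5) (nat_lit 281) (nat_lit 5) (nat_lit 438) (nat_lit 369) (nat_lit 333)) (XT.nd (nat_lit 78) (nat_lit 608) (nat_lit 0) (XT.lf (nat_lit 0) (nat_lit 4315040060) (nat_lit 760) (nat_lit 3304493738) (nat_lit 76) (nat_lit 777733669) (nat_lit 271) (nat_lit 5) (nat_lit 281) (nat_lit 5) (nat_lit 272) (nat_lit 5) (nat_lit 439) (nat_lit 369) (nat_lit 332)) (XT.lf (nat_lit 0) (nat_lit 2605750751) (nat_lit 608) (nat_lit 4782080889) (nat_lit 684) (nat_lit 1083187559) (nat_lit 263) (nat_lit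 5) (nat_lit 271) (nat_lit 5) (nat_lit 272) (nat_lit 5) (nat_lit 440) (nat_lit 369) (nat_lit 331)))) (XT.nd (nat_lit 78) (nat_lit 608) (nat_lit 0) (XT.lf (nat_lit 0) (nat_lit 63413589) (nat_lit 608) (nat_lit 1863713455) (nat_lit 684) (nat_lit 6619329464) (nat_lit 254) (nat_lit 5) (nat_lit 262) (nat_lit 5) (nat_lit 263) (nat_lit 5) (nat_lit 441) (nat_lit 369) (nat_lit 330)) (XT.nd (nat_lit 78) (nat_lit 608) (nat_lit 0) (XT.lf (nat_lit 0) (nat_lit 4984919085) (nat_lit 684) (nat_lit 2505187617) (nat_lit 76) (nat_lit 1133128203) (nat_lit 254) (nat_lit 5) (nat_lit 263) (nat_lit 5) (nat_lit 255) (nat_lit 5) (nat_lit 442) (nat_lit 369) (nat_lit 329)) (XT.lf (nat_lit 0) (nat_lit 3569753013) (nat_lit 608) (nat_lit 4525432944) (nat_lit 684) (nat_lit 606547354) (nat_lit 246) (nat_lit 5) (nat_lit 254) (nat_lit 5) (nat_lit 255) (nat_lit 5) (nat_lit 443) (nat_lit 369) (nat_lit 328)))))) (XT.nd (nat_lit 468) (nat_lit 2128) (nat_lit 0) (XT.nd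 (nat_lit 234) (nat_lit 1140) (nat_lit 0) (XT.nd (nat_lit 78) (nat_lit 532) (nat_lit 0) (XT.lf (nat_lit 0) (nat_lit 957828645) (nat_lit 608) (nat_lit 1474565502) (nat_lit 684) (nat_lit 6349512340) (nat_lit 237) (nat_lit 5) (nat_lit 245) (nat_lit 5) (nat_lit 246) (nat_lit 5) (nat_lit 444) (nat_lit 369) (nat_lit 327)) (XT.nd (nat_lit 78) (nat_lit 532) (nat_lit 0) (XT.lf (nat_lit 0) (nat_lit 5525703914) (nat_lit 684) (nat_lit 1696456495) (nat_lit 76) (nat_lit 1641418508) (nat_lit 237) (nat_lit 5) (nat_lit 246) (nat_lit 5) (nat_lit 238) (nat_lit 5) (nat_lit 445) (nat_lit 369) (nat_lit 326)) (XT.lf (nat_lit 0) (nat_lit 4547131784) (nat_lit 532) (nat_lit 4130297786) (nat_lit 608) (nat_lit 269534229) (nat_lit 230) (nat_lit 5) (nat_lit 237) (nat_lit 5) (nat_lit 238) (nat_lit 5) (nat_lit 446) (nat_lit 369) (nat_lit 325)))) (XT.nd (nat_lit 78) (nat_lit 532) (nat_lit 0) (XT.lf (nat_lit 0) (nat_lit 1855832772) (nat_lit 532) (nat_lit 947783366)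 (nat_lit 608) (nat_lit 6228419357) (nat_lit 222) (nat_lit 5) (nat_lit 229) (nat_lit 5) (nat_lit 230) (nat_lit 5) (nat_lit 447) (nat_lit 369) (nat_lit 324)) (XT.nd (nat_lit 78) (nat_lit 532) (nat_lit 0) (XT.lf (nat_lit 0) (nat_lit 5937089557) (nat_lit 608) (nat_lit 895916002) (nat_lit 76) (nat_lit 2285727474) (nat_lit 222) (nat_lit 5) (nat_lit 230) (nat_lit 5) (nat_lit 223) (nat_lit 5) (nat_lit 448) (nat_lit 369) (nat_lit 323)) (XT.lf (nat_lit 0) (nat_lit 5520169846) (nat_lit 532) (nat_lit 3613829318) (nat_lit 608) (nat_lit 73159258) (nat_lit 215) (nat_lit 5) (nat_lit 222) (nat_lit 5) (nat_lit 223) (nat_lit 5) (nat_lit 449) (nat_lit 369) (nat_lit 322))))) (XT.nd (nat_lit 234) (nat_lit 1064) (nat_lit 0) (XT.nd (nat_lit 78) (nat_lit 456) (nat_lit 0) (XT.lf (nat_lit 0) (nat_lit 2739147203) (nat_lit 532) (nat_lit 300379156) (nat_lit 608) (nat_lit 6257779501) (nat_lit 207) (nat_lit 5) (nat_lit 214) (nat_lit 5) (nat_lit 215) (nat_lit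 5) (nat_lit 450) (nat_lit 369) (nat_lit 321)) (XT.nd (nat_lit 78) (nat_lit 456) (nat_lit 0) (XT.lf (nat_lit 0) (nat_lit 6217553318) (nat_lit 608) (nat_lit 122091940) (nat_lit 76) (nat_lit 3049528673) (nat_lit 207) (nat_lit 5) (nat_lit 215) (nat_lit 5) (nat_lit 208) (nat_lit 5) (nat_lit 451) (nat_lit 369) (nat_lit 320)) (XT.lf (nat_lit 0) (nat_lit 6470199123) (nat_lit 456) (nat_lit 2992908130) (nat_lit 532) (nat_lit 19701317) (nat_lit 201) (nat_lit 5) (nat_lit 207) (nat_lit 5) (nat_lit 208) (nat_lit 5) (nat_lit 452) (nat_lit 369) (nat_lit 319)))) (XT.nd (nat_lit 78) (nat_lit 456) (nat_lit 0) (XT.lf (nat_lit 0) (nat_lit 3140526379) (nat_lit 608) (nat_lit 5992687248) (nat_lit 76) (nat_lit 444952033) (nat_lit 193) (nat_lit 5) (nat_lit 201) (nat_lit 5) (nat_lit 194) (nat_lit 5) (nat_lit 453) (nat_lit 369) (nat_lit 318)) (XT.nd (nat_lit 78) (nat_lit 0) (nat_lit 0) (XT.lf (nat_lit 0) (nat_lit 613430499) (nat_lit 456) (nat_lit 5754865216)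 (nat_lit 532) (nat_lit 3307047596) (nat_lit 187) (nat_lit 5) (nat_lit 193) (nat_lit 5) (nat_lit 194) (nat_lit 5) (nat_lit 454) (nat_lit 369) (nat_lit 317)) (XT.lf (nat_lit 0) (nat_lit 7377401625) (nat_lit 456) (nat_lit 2284295272) (nat_lit 532) (nat_lit 112753971) (nat_lit 187) (nat_lit 5) (nat_lit 193) (nat_lit 5) (nat_lit 194) (nat_lit 5) (nat_lit 455) (nat_lit 369) (nat_lit 316))))))))
noncomputable def xc63 : XT := (XT.nd (nat_lit 1716) (nat_lit 3952) (nat_lit 0) (XT.nd (nat_lit 858) (nat_lit 2584) (nat_lit 0) (XT.nd (nat_lit 390) (nat_lit 1748) (nat_lit 0) (XT.nd (nat_lit 156) (nat_lit 912) (nat_lit 0) (XT.nd (nat_lit 78) (nat_lit 456) (nat_lit 0) (XT.lf (nat_lit 0) (nat_lit 3102370283) (nat_lit 532) (nat_lit 5500471512) (nat_lit 76) (nat_lit 1272333963) (nat_lit 180) (nat_lit 5) (nat_lit 187) (nat_lit 5) (nat_lit 181) (nat_lit 5) (nat_lit 456) (nat_lit 369) (nat_lit 315)) (XT.lf (nat_lit 0) (nat_lit 1282391146) (nat_lit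 456) (nat_lit 5099208512) (nat_lit 532) (nat_lit 3596281761) (nat_lit 174) (nat_lit 5) (nat_lit 180) (nat_lit 5) (nat_lit 181) (nat_lit 5) (nat_lit 457) (nat_lit 369) (nat_lit 314))) (XT.nd (nat_lit 78) (nat_lit 912) (nat_lit 0) (XT.lf (nat_lit 0) (nat_lit 8220596188) (nat_lit 456) (nat_lit 1504788966) (nat_lit 532) (nat_lit 357283893) (nat_lit 174) (nat_lit 5) (nat_lit 180) (nat_lit 5) (nat_lit 181) (nat_lit 5) (nat_lit 458) (nat_lit 369) (nat_lit 313)) (XT.nd (nat_lit 78) (nat_lit 380) (nat_lit 0) (XT.lf (nat_lit 0) (nat_lit 2917793999) (nat_lit 532) (nat_lit 5102048670) (nat_lit 76) (nat_lit 2169135267) (nat_lit 167) (nat_lit 5) (nat_lit 174) (nat_lit 5) (nat_lit 168) (nat_lit 5) (nat_lit 459) (nat_lit 369) (nat_lit 312)) (XT.lf (nat_lit 0) (nat_lit 1860389010) (nat_lit 380) (nat_lit 4390652931) (nat_lit 456) (nat_lit 4046381643) (nat_lit 162) (nat_lit 5) (nat_lit 167) (nat_lit 5) (nat_lit 168) (nat_lit 5) (nat_lit 460) (nat_lit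 369) (nat_lit 311))))) (XT.nd (nat_lit 234) (nat_lit 836) (nat_lit 0) (XT.nd (nat_lit 78) (nat_lit 912) (nat_lit 0) (XT.lf (nat_lit 0) (nat_lit 8977008976) (nat_lit 380) (nat_lit 671385579) (nat_lit 456) (nat_lit 759701523) (nat_lit 162) (nat_lit 5) (nat_lit 167) (nat_lit 5) (nat_lit 168) (nat_lit 5) (nat_lit 461) (nat_lit 369) (nat_lit 310)) (XT.nd (nat_lit 78) (nat_lit 380) (nat_lit 0) (XT.lf (nat_lit 0) (nat_lit 2580038236) (nat_lit 532) (nat_lit 4821646192) (nat_lit 76) (nat_lit 3118540790) (nat_lit 155) (nat_lit 5) (nat_lit 162) (nat_lit 5) (nat_lit 156) (nat_lit 5) (nat_lit 462) (nat_lit 369) (nat_lit 309)) (XT.lf (nat_lit 0) (nat_lit 2322844030) (nat_lit 380) (nat_lit 3646692430) (nat_lit 456) (nat_lit 4665103666) (nat_lit 150) (nat_lit 5) (nat_lit 155) (nat_lit 5) (nat_lit 156) (nat_lit 5) (nat_lit 463) (nat_lit 369) (nat_lit 308)))) (XT.nd (nat_lit 78) (nat_lit 836) (nat_lit 0) (XT.lf (nat_lit 0) (nat_lit 9424760975)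 (nat_lit 456) (nat_lit 1130680182) (nat_lit 76) (nat_lit 195949665) (nat_lit 150) (nat_lit 5) (nat_lit 156) (nat_lit 5) (nat_lit 151) (nat_lit 5) (nat_lit 464) (nat_lit 369) (nat_lit 307)) (XT.nd (nat_lit 78) (nat_lit 380) (nat_lit 0) (XT.lf (nat_lit 0) (nat_lit 2080810283) (nat_lit 456) (nat_lit 4685489513) (nat_lit 76) (nat_lit 4103323631) (nat_lit 144) (nat_lit 5) (nat_lit 150) (nat_lit 5) (nat_lit 145) (nat_lit 5) (nat_lit 465) (nat_lit 369) (nat_lit 306)) (XT.lf (nat_lit 0) (nat_lit 2643109514) (nat_lit 380) (nat_lit 2885329195) (nat_lit 456) (nat_lit 5461816391) (nat_lit 139) (nat_lit 5) (nat_lit 144) (nat_lit 5) (nat_lit 145) (nat_lit 5) (nat_lit 466) (nat_lit 369) (nat_lit 305)))))) (XT.nd (nat_lit 390) (nat_lit 1368) (nat_lit 0) (XT.nd (nat_lit 156) (nat_lit 760) (nat_lit 0) (XT.nd (nat_lit 78) (nat_lit 456) (nat_lit 0) (XT.lf (nat_lit 0) (nat_lit 9048851339) (nat_lit 456) (nat_lit 991505831) (nat_lit 76) (nat_lit 1072871345)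 (nat_lit 139) (nat_lit 5) (nat_lit 145) (nat_lit 5) (nat_lit 140) (nat_lit 5) (nat_lit 467) (nat_lit 369) (nat_lit 304)) (XT.lf (nat_lit 0) (nat_lit 1410181911) (nat_lit 456) (nat_lit 4722082089) (nat_lit 76) (nat_lit 5105670081) (nat_lit 133) (nat_lit 5) (nat_lit 139) (nat_lit 5) (nat_lit 134) (nat_lit 5) (nat_lit 468) (nat_lit 369) (nat_lit 303))) (XT.nd (nat_lit 78) (nat_lit 456) (nat_lit 0) (XT.lf (nat_lit 0) (nat_lit 2792184236) (nat_lit 304) (nat_lit 2125254761) (nat_lit 380) (nat_lit 6447610284) (nat_lit 129) (nat_lit 5) (nat_lit 133) (nat_lit 5) (nat_lit 134) (nat_lit 5) (nat_lit 469) (nat_lit 369) (nat_lit 302)) (XT.nd (nat_lit 78) (nat_lit 456) (nat_lit 0) (XT.lf (nat_lit 0) (nat_lit 8505681257) (nat_lit 380) (nat_lit 1039005806) (nat_lit 76) (nat_lit 1949808227) (nat_lit 129) (nat_lit 5) (nat_lit 134) (nat_lit 5) (nat_lit 130) (nat_lit 5) (nat_lit 470) (nat_lit 369) (nat_lit 301)) (XT.lf (nat_lit 0) (nat_lit 556471998)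 (nat_lit 456) (nat_lit 4962510231) (nat_lit 76) (nat_lit 6106995378) (nat_lit 123) (nat_lit 5) (nat_lit 129) (nat_lit 5) (nat_lit 124) (nat_lit 5) (nat_lit 471) (nat_lit 369) (nat_lit 300))))) (XT.nd (nat_lit 234) (nat_lit 684) (nat_lit 0) (XT.nd (nat_lit 78) (nat_lit 380) (nat_lit 0) (XT.lf (nat_lit 0) (nat_lit 2738398849) (nat_lit 304) (nat_lit 1386041163) (nat_lit 380) (nat_lit 7635423505) (nat_lit 119) (nat_lit 5) (nat_lit 123) (nat_lit 5) (nat_lit 124) (nat_lit 5) (nat_lit 472) (nat_lit 369) (nat_lit 299)) (XT.nd (nat_lit 78) (nat_lit 380) (nat_lit 0) (XT.lf (nat_lit 0) (nat_lit 7782813553) (nat_lit 380) (nat_lit 1305755768) (nat_lit 76) (nat_lit 2807481803) (nat_lit 119) (nat_lit 5) (nat_lit 124) (nat_lit 5) (nat_lit 120) (nat_lit 5) (nat_lit 473) (nat_lit 369) (nat_lit 298)) (XT.lf (nat_lit 0) (nat_lit 6590547010) (nat_lit 380) (nat_lit 4943574092) (nat_lit 456) (nat_lit 500450856) (nat_lit 114) (nat_lit 5) (nat_lit 119)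 (nat_lit 5) (nat_lit 120) (nat_lit 5) (nat_lit 474) (nat_lit 369) (nat_lit 297)))) (XT.nd (nat_lit 78) (nat_lit 304) (nat_lit 0) (XT.lf (nat_lit 0) (nat_lit 2447073571) (nat_lit 304) (nat_lit 688343864) (nat_lit 380) (nat_lit 9040185015) (nat_lit 109) (nat_lit 5) (nat_lit 113) (nat_lit 5) (nat_lit 114) (nat_lit 5) (nat_lit 475) (nat_lit 369) (nat_lit 296)) (XT.nd (nat_lit 78) (nat_lit 304) (nat_lit 0) (XT.lf (nat_lit 0) (nat_lit 6865855100) (nat_lit 380) (nat_lit 1827456436) (nat_lit 76) (nat_lit 3625509323) (nat_lit 109) (nat_lit 5) (nat_lit 114) (nat_lit 5) (nat_lit 110) (nat_lit 5) (nat_lit 476) (nat_lit 369) (nat_lit 295)) (XT.lf (nat_lit 0) (nat_lit 6258915242) (nat_lit 304) (nat_lit 4425869545) (nat_lit 380) (nat_lit 1779845623) (nat_lit 105) (nat_lit 5) (nat_lit 109) (nat_lit 5) (nat_lit 110) (nat_lit 5) (nat_lit 477) (nat_lit 369) (nat_lit 294))))))) (XT.nd (nat_lit 858) (nat_lit 1748) (nat_lit 0) (XT.nd (nat_lit 390)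 (nat_lit 1216) (nat_lit 0) (XT.nd (nat_lit 156) (nat_lit 608) (nat_lit 0) (XT.nd (nat_lit 78) (nat_lit 0) (nat_lit 0) (XT.lf (nat_lit 0) (nat_lit 1880143791) (nat_lit 304) (nat_lit 54118347) (nat_lit 380) (nat_lit 10678976507) (nat_lit 100) (nat_lit 5) (nat_lit 104) (nat_lit 5) (nat_lit 105) (nat_lit 5) (nat_lit 478) (nat_lit 369) (nat_lit 293)) (XT.lf (nat_lit 0) (nat_lit 5738293945) (nat_lit 380) (nat_lit 2643316903) (nat_lit 76) (nat_lit 4382187603) (nat_lit 100) (nat_lit 5) (nat_lit 105) (nat_lit 5) (nat_lit 101) (nat_lit 5) (nat_lit 479) (nat_lit 369) (nat_lit 292))) (XT.nd (nat_lit 78) (nat_lit 304) (nat_lit 0) (XT.lf (nat_lit 0) (nat_lit 5632249210) (nat_lit 304) (nat_lit 3992624778) (nat_lit 380) (nat_lit 3292370214) (nat_lit 96) (nat_lit 5) (nat_lit 100) (nat_lit 5) (nat_lit 101) (nat_lit 5) (nat_lit 480) (nat_lit 369) (nat_lit 291)) (XT.nd (nat_lit 78) (nat_lit 0) (nat_lit 0) (XT.lf (nat_lit 0) (nat_lit 505804193)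 (nat_lit 304) (nat_lit 12081269075) (nat_lit 76) (nat_lit 486679866) (nat_lit 92) (nat_lit 5) (nat_lit 96) (nat_lit 5) (nat_lit 93) (nat_lit 5) (nat_lit 481) (nat_lit 369) (nat_lit 290)) (XT.lf (nat_lit 0) (nat_lit 4381315954) (nat_lit 304) (nat_lit 3796474804) (nat_lit 76) (nat_lit 5054260924) (nat_lit 92) (nat_lit 5) (nat_lit 96) (nat_lit 5) (nat_lit 93) (nat_lit 5) (nat_lit 482) (nat_lit 369) (nat_lit 289))))) (XT.nd (nat_lit 234) (nat_lit 608) (nat_lit 0) (XT.nd (nat_lit 78) (nat_lit 304) (nat_lit 0) (XT.lf (nat_lit 0) (nat_lit 4666437845) (nat_lit 304) (nat_lit 3668556900) (nat_lit 380) (nat_lit 5058512110) (nat_lit 88) (nat_lit 5) (nat_lit 92) (nat_lit 5) (nat_lit 93) (nat_lit 5) (nat_lit 483) (nat_lit 369) (nat_lit 288)) (XT.nd (nat_lit 78) (nat_lit 304) (nat_lit 0) (XT.lf (nat_lit 0) (nat_lit 12369937800) (nat_lit 380) (nat_lit 262748191) (nat_lit 76) (nat_lit 925465040) (nat_lit 88) (nat_lit 5) (nat_lit 93) (nat_lit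 5) (nat_lit 89) (nat_lit 5) (nat_lit 484) (nat_lit 369) (nat_lit 287)) (XT.lf (nat_lit 0) (nat_lit 2773599107) (nat_lit 304) (nat_lit 5334457449) (nat_lit 76) (nat_lit 5616670803) (nat_lit 84) (nat_lit 5) (nat_lit 88) (nat_lit 5) (nat_lit 85) (nat_lit 5) (nat_lit 485) (nat_lit 369) (nat_lit 286)))) (XT.nd (nat_lit 78) (nat_lit 304) (nat_lit 0) (XT.lf (nat_lit 0) (nat_lit 3312840754) (nat_lit 304) (nat_lit 3480340240) (nat_lit 380) (nat_lit 7101411768) (nat_lit 80) (nat_lit 5) (nat_lit 84) (nat_lit 5) (nat_lit 85) (nat_lit 5) (nat_lit 486) (nat_lit 369) (nat_lit 285)) (XT.nd (nat_lit 78) (nat_lit 304) (nat_lit 0) (XT.lf (nat_lit 0) (nat_lit 10908515448) (nat_lit 380) (nat_lit 1918204544) (nat_lit 76) (nat_lit 1240831693) (nat_lit 80) (nat_lit 5) (nat_lit 85) (nat_lit 5) (nat_lit 81) (nat_lit 5) (nat_lit 487) (nat_lit 369) (nat_lit 284)) (XT.lf (nat_lit 0) (nat_lit 891083334) (nat_lit 304) (nat_lit 7309688459) (nat_lit 76) (nat_lit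 6042285249) (nat_lit 76) (nat_lit 5) (nat_lit 80) (nat_lit 5) (nat_lit 77) (nat_lit 5) (nat_lit 488) (nat_lit 369) (nat_lit 283)))))) (XT.nd (nat_lit 468) (nat_lit 760) (nat_lit 0) (XT.nd (nat_lit 234) (nat_lit 532) (nat_lit 0) (XT.nd (nat_lit 78) (nat_lit 228) (nat_lit 0) (XT.lf (nat_lit 0) (nat_lit 1517765828) (nat_lit 228) (nat_lit 3456890307) (nat_lit 304) (nat_lit 9447106973) (nat_lit 73) (nat_lit 5) (nat_lit 76) (nat_lit 5) (nat_lit 77) (nat_lit 5) (nat_lit 489) (nat_lit 369) (nat_lit 282)) (XT.nd (nat_lit 78) (nat_lit 228) (nat_lit 0) (XT.lf (nat_lit 0) (nat_lit 9170269914) (nat_lit 304) (nat_lit 4038923907) (nat_lit 76) (nat_lit 1394245255) (nat_lit 73) (nat_lit 5) (nat_lit 77) (nat_lit 5) (nat_lit 74) (nat_lit 5) (nat_lit 490) (nat_lit 369) (nat_lit 281)) (XT.lf (nat_lit 0) (nat_lit 4999639832) (nat_lit 228) (nat_lit 8478079846) (nat_lit 304) (nat_lit 1310473519) (nat_lit 70) (nat_lit 5) (nat_lit 73) (nat_lit 5) (nat_lit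 74) (nat_lit 5) (nat_lit 491) (nat_lit 369) (nat_lit 280)))) (XT.nd (nat_lit 78) (nat_lit 456) (nat_lit 0) (XT.lf (nat_lit 0) (nat_lit 2856618970) (nat_lit 304) (nat_lit 767900371) (nat_lit 76) (nat_lit 11351752020) (nat_lit 69) (nat_lit 5) (nat_lit 73) (nat_lit 5) (nat_lit 70) (nat_lit 5) (nat_lit 492) (nat_lit 369) (nat_lit 279)) (XT.nd (nat_lit 78) (nat_lit 228) (nat_lit 0) (XT.lf (nat_lit 0) (nat_lit 7126718079) (nat_lit 304) (nat_lit 6686084842) (nat_lit 76) (nat_lit 1354393613) (nat_lit 66) (nat_lit 5) (nat_lit 70) (nat_lit 5) (nat_lit 67) (nat_lit 5) (nat_lit 493) (nat_lit 369) (nat_lit 278)) (XT.lf (nat_lit 0) (nat_lit 2527030506) (nat_lit 228) (nat_lit 8974057801) (nat_lit 304) (nat_lit 3860477390) (nat_lit 63) (nat_lit 5) (nat_lit 66) (nat_lit 5) (nat_lit 67) (nat_lit 5) (nat_lit 494) (nat_lit 369) (nat_lit 277))))) (XT.nd (nat_lit 234) (nat_lit 456) (nat_lit 0) (XT.nd (nat_lit 78) (nat_lit 228) (nat_lit 0) (XT.lf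 (nat_lit 0) (nat_lit 416323066) (nat_lit 304) (nat_lit 3592606213) (nat_lit 76) (nat_lit 11550473649) (nat_lit 62) (nat_lit 5) (nat_lit 66) (nat_lit 5) (nat_lit 63) (nat_lit 5) (nat_lit 495) (nat_lit 369) (nat_lit 276)) (XT.nd (nat_lit 78) (nat_lit 0) (nat_lit 0) (XT.lf (nat_lit 0) (nat_lit 4745931965) (nat_lit 304) (nat_lit 9927321525) (nat_lit 76) (nat_lit 1087056481) (nat_lit 59) (nat_lit 5) (nat_lit 63) (nat_lit 5) (nat_lit 60) (nat_lit 5) (nat_lit 496) (nat_lit 369) (nat_lit 275)) (XT.lf (nat_lit 0) (nat_lit 9186897292) (nat_lit 304) (nat_lit 540681130) (nat_lit 76) (nat_lit 6237164101) (nat_lit 59) (nat_lit 5) (nat_lit 63) (nat_lit 5) (nat_lit 60) (nat_lit 5) (nat_lit 497) (nat_lit 369) (nat_lit 274)))) (XT.nd (nat_lit 78) (nat_lit 304) (nat_lit 0) (XT.lf (nat_lit 0) (nat_lit 9109028218) (nat_lit 152) (nat_lit 4641253516) (nat_lit 228) (nat_lit 2422312596) (nat_lit 57) (nat_lit 5) (nat_lit 59) (nat_lit 5) (nat_lit 60)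 (nat_lit 5) (nat_lit 498) (nat_lit 369) (nat_lit 273)) (XT.nd (nat_lit 78) (nat_lit 0) (nat_lit 0) (XT.lf (nat_lit 0) (nat_lit 1992200040) (nat_lit 304) (nat_lit 13837438746) (nat_lit 76) (nat_lit 554737212) (nat_lit 53) (nat_lit 5) (nat_lit 57) (nat_lit 5) (nat_lit 54) (nat_lit 5) (nat_lit 499) (nat_lit 369) (nat_lit 272)) (XT.lf (nat_lit 0) (nat_lit 6515647450) (nat_lit 304) (nat_lit 4245416581) (nat_lit 76) (nat_lit 5837949905) (nat_lit 53) (nat_lit 5) (nat_lit 57) (nat_lit 5) (nat_lit 54) (nat_lit 5) (nat_lit 500) (nat_lit 369) (nat_lit 271))))))))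
noncomputable def xc64 : XT := (XT.nd (nat_lit 52728) (nat_lit 0) (nat_lit 18164) (XT.nd (nat_lit 51870) (nat_lit 0) (nat_lit 34504) (XT.nd (nat_lit 390) (nat_lit 228) (nat_lit 0) (XT.nd (nat_lit 156) (nat_lit 456) (nat_lit 0) (XT.nd (nat_lit 78) (nat_lit 0) (nat_lit 0) (XT.lf (nat_lit 0) (nat_lit 5568062386) (nat_lit 152) (nat_lit 5572749088) (nat_lit 228) (nat_lit 5676910608) (nat_lit 51) (nat_lit 5) (nat_lit 53) (nat_lit 5) (nat_lit 54) (nat_lit 5) (nat_lit 501) (nat_lit 369) (nat_lit 270)) (XT.lf (nat_lit 0) (nat_lit 15592234481) (nat_lit 152) (nat_lit 270037708) (nat_lit 228) (nat_lit 1178458688) (nat_lit 51) (nat_lit 5) (nat_lit 53) (nat_lit 5) (nat_lit 54) (nat_lit 5) (nat_lit 502) (nat_lit 369) (nat_lit 269))) (XT.nd (nat_lit 78) (nat_lit 152) (nat_lit 0) (XT.lf (nat_lit 0) (nat_lit 3430443396) (nat_lit 304) (nat_lit 8704199606) (nat_lit 76) (nat_lit 5131812248) (nat_lit 47) (nat_lit 5) (nat_lit 51) (nat_lit 5) (nat_lit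 48) (nat_lit 5) (nat_lit 503) (nat_lit 369) (nat_lit 268)) (XT.nd (nat_lit 78) (nat_lit 0) (nat_lit 0) (XT.lf (nat_lit 0) (nat_lit 1260540648) (nat_lit 152) (nat_lit 6850686499) (nat_lit 228) (nat_lit 9385403727) (nat_lit 45) (nat_lit 5) (nat_lit 47) (nat_lit 5) (nat_lit 48) (nat_lit 5) (nat_lit 504) (nat_lit 369) (nat_lit 267)) (XT.lf (nat_lit 0) (nat_lit 11500152019) (nat_lit 152) (nat_lit 1419796497) (nat_lit 228) (nat_lit 4810777232) (nat_lit 45) (nat_lit 5) (nat_lit 47) (nat_lit 5) (nat_lit 48) (nat_lit 5) (nat_lit 505) (nat_lit 369) (nat_lit 266))))) (XT.nd (nat_lit 51246) (nat_lit 0) (nat_lit 43928) (XT.nd (nat_lit 51090) (nat_lit 0) (nat_lit 45904) (XT.lf (nat_lit 0) (nat_lit 3958281152) (nat_lit 228) (nat_lit 13895278701) (nat_lit 304) (nat_lit 115370488) (nat_lit 42) (nat_lit 5) (nat_lit 45) (nat_lit 5) (nat_lit 46) (nat_lit 5) (nat_lit 506) (nat_lit 369) (nat_lit 265)) (XT.nd (nat_lit 78) (nat_lit 76) (nat_lit 0)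 (XT.lf (nat_lit 0) (nat_lit 432961185) (nat_lit 836) (nat_lit 1442585441) (nat_lit 836) (nat_lit 1442585441) (nat_lit 647) (nat_lit 4) (nat_lit 658) (nat_lit 5) (nat_lit 658) (nat_lit 4) (nat_lit 400) (nat_lit 370) (nat_lit 370)) (XT.lf (nat_lit 0) (nat_lit 331681750) (nat_lit 912) (nat_lit 1613135892) (nat_lit 76) (nat_lit 4711654418) (nat_lit 646) (nat_lit 5) (nat_lit 658) (nat_lit 5) (nat_lit 647) (nat_lit 4) (nat_lit 401) (nat_lit 370) (nat_lit 369)))) (XT.nd (nat_lit 78) (nat_lit 1064) (nat_lit 0) (XT.lf (nat_lit 0) (nat_lit 2586812026) (nat_lit 912) (nat_lit 932153700) (nat_lit 988) (nat_lit 3158875266) (nat_lit 634) (nat_lit 5) (nat_lit 646) (nat_lit 5) (nat_lit 647) (nat_lit 4) (nat_lit 402) (nat_lit 370) (nat_lit 368)) (XT.nd (nat_lit 78) (nat_lit 0) (nat_lit 0) (XT.lf (nat_lit 0) (nat_lit 10520311) (nat_lit 1064) (nat_lit 6563038121) (nat_lit 76) (nat_lit 127279564) (nat_lit 620) (nat_lit 5) (nat_lit 634) (nat_lit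 5) (nat_lit 621) (nat_lit 4) (nat_lit 403) (nat_lit 370) (nat_lit 367)) (XT.lf (nat_lit 0) (nat_lit 3164445044) (nat_lit 1064) (nat_lit 2301372165) (nat_lit 76) (nat_lit 1258822265) (nat_lit 620) (nat_lit 5) (nat_lit 634) (nat_lit 5) (nat_lit 621) (nat_lit 4) (nat_lit 404) (nat_lit 370) (nat_lit 366)))))) (XT.nd (nat_lit 390) (nat_lit 5852) (nat_lit 0) (XT.nd (nat_lit 156) (nat_lit 2432) (nat_lit 0) (XT.nd (nat_lit 78) (nat_lit 76) (nat_lit 0) (XT.lf (nat_lit 0) (nat_lit 2016074325) (nat_lit 1064) (nat_lit 4309435282) (nat_lit 1140) (nat_lit 424556452) (nat_lit 606) (nat_lit 5) (nat_lit 620) (nat_lit 5) (nat_lit 621) (nat_lit 4) (nat_lit 405) (nat_lit 370) (nat_lit 365)) (XT.lf (nat_lit 0) (nat_lit 2684445908) (nat_lit 1140) (nat_lit 399204340) (nat_lit 76) (nat_lit 3693079260) (nat_lit 605) (nat_lit 5) (nat_lit 620) (nat_lit 5) (nat_lit 606) (nat_lit 5) (nat_lit 406) (nat_lit 370) (nat_lit 364))) (XT.nd (nat_lit 78) (nat_lit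 1292) (nat_lit 0) (XT.lf (nat_lit 0) (nat_lit 4016789363) (nat_lit 1140) (nat_lit 1792067297) (nat_lit 1216) (nat_lit 995863734) (nat_lit 590) (nat_lit 5) (nat_lit 605) (nat_lit 5) (nat_lit 606) (nat_lit 5) (nat_lit 407) (nat_lit 370) (nat_lit 363)) (XT.nd (nat_lit 78) (nat_lit 0) (nat_lit 0) (XT.lf (nat_lit 0) (nat_lit 1644903844) (nat_lit 1216) (nat_lit 435917825) (nat_lit 1292) (nat_lit 4753262099) (nat_lit 573) (nat_lit 5) (nat_lit 589) (nat_lit 5) (nat_lit 590) (nat_lit 5) (nat_lit 408) (nat_lit 370) (nat_lit 362)) (XT.lf (nat_lit 0) (nat_lit 5165036933) (nat_lit 1292) (nat_lit 729291522) (nat_lit 76) (nat_lit 970414595) (nat_lit 573) (nat_lit 5) (nat_lit 590) (nat_lit 5) (nat_lit 574) (nat_lit 5) (nat_lit 409) (nat_lit 370) (nat_lit 361))))) (XT.nd (nat_lit 234) (nat_lit 3040) (nat_lit 0) (XT.nd (nat_lit 78) (nat_lit 1444) (nat_lit 0) (XT.lf (nat_lit 0) (nat_lit 1359348059) (nat_lit 1368) (nat_lit 3094660746) (nat_lit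 76) (nat_lit 2442589165) (nat_lit 555) (nat_lit 5) (nat_lit 573) (nat_lit 5) (nat_lit 556) (nat_lit 5) (nat_lit 410) (nat_lit 370) (nat_lit 360)) (XT.nd (nat_lit 78) (nat_lit 76) (nat_lit 0) (XT.lf (nat_lit 0) (nat_lit 1456154300) (nat_lit 1368) (nat_lit 2951150805) (nat_lit 1444) (nat_lit 2522575922) (nat_lit 537) (nat_lit 5) (nat_lit 555) (nat_lit 5) (nat_lit 556) (nat_lit 5) (nat_lit 411) (nat_lit 370) (nat_lit 359)) (XT.lf (nat_lit 0) (nat_lit 502578092) (nat_lit 1444) (nat_lit 884039946) (nat_lit 76) (nat_lit 5578015725) (nat_lit 536) (nat_lit 5) (nat_lit 555) (nat_lit 5) (nat_lit 537) (nat_lit 5) (nat_lit 412) (nat_lit 370) (nat_lit 358)))) (XT.nd (nat_lit 78) (nat_lit 1596) (nat_lit 0) (XT.lf (nat_lit 0) (nat_lit 3518441110) (nat_lit 1520) (nat_lit 3227682684) (nat_lit 76) (nat_lit 254368505) (nat_lit 517) (nat_lit 5) (nat_lit 537) (nat_lit 5) (nat_lit 518) (nat_lit 5) (nat_lit 413) (nat_lit 370) (nat_lit 357)) (XT.nd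 (nat_lit 78) (nat_lit 76) (nat_lit 0) (XT.lf (nat_lit 0) (nat_lit 1450993152) (nat_lit 1520) (nat_lit 5106874910) (nat_lit 1596) (nat_lit 479958437) (nat_lit 497) (nat_lit 5) (nat_lit 517) (nat_lit 5) (nat_lit 518) (nat_lit 5) (nat_lit 414) (nat_lit 370) (nat_lit 356)) (XT.lf (nat_lit 0) (nat_lit 2509198552) (nat_lit 1596) (nat_lit 882492518) (nat_lit 76) (nat_lit 3684685762) (nat_lit 496) (nat_lit 5) (nat_lit 517) (nat_lit 5) (nat_lit 497) (nat_lit 5) (nat_lit 415) (nat_lit 370) (nat_lit 355))))))) (XT.nd (nat_lit 858) (nat_lit 6232) (nat_lit 0) (XT.nd (nat_lit 390) (nat_lit 3648) (nat_lit 0) (XT.nd (nat_lit 156) (nat_lit 3116) (nat_lit 0) (XT.nd (nat_lit 78) (nat_lit 1748) (nat_lit 0) (XT.lf (nat_lit 0) (nat_lit 3908026477) (nat_lit 1596) (nat_lit 1609344672) (nat_lit 1672) (nat_lit 1598972465) (nat_lit 475) (nat_lit 5) (nat_lit 496) (nat_lit 5) (nat_lit 497) (nat_lit 5) (nat_lit 416) (nat_lit 370) (nat_lit 354)) (XT.lf (nat_lit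 0) (nat_lit 1368462084) (nat_lit 1748) (nat_lit 5554716137) (nat_lit 76) (nat_lit 234595204) (nat_lit 452) (nat_lit 5) (nat_lit 475) (nat_lit 5) (nat_lit 453) (nat_lit 5) (nat_lit 417) (nat_lit 370) (nat_lit 353))) (XT.nd (nat_lit 78) (nat_lit 3116) (nat_lit 0) (XT.lf (nat_lit 0) (nat_lit 4347678344) (nat_lit 1748) (nat_lit 724104069) (nat_lit 76) (nat_lit 2128581970) (nat_lit 452) (nat_lit 5) (nat_lit 475) (nat_lit 5) (nat_lit 453) (nat_lit 5) (nat_lit 418) (nat_lit 370) (nat_lit 352)) (XT.nd (nat_lit 78) (nat_lit 1292) (nat_lit 0) (XT.lf (nat_lit 0) (nat_lit 110504512) (nat_lit 1824) (nat_lit 3043063776) (nat_lit 76) (nat_lit 4090846261) (nat_lit 428) (nat_lit 5) (nat_lit 452) (nat_lit 5) (nat_lit 429) (nat_lit 5) (nat_lit 419) (nat_lit 370) (nat_lit 351)) (XT.lf (nat_lit 0) (nat_lit 1895267459) (nat_lit 1292) (nat_lit 1159734795) (nat_lit 1368) (nat_lit 4234781124) (nat_lit 411) (nat_lit 5) (nat_lit 428) (nat_lit 5) (nat_lit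 429) (nat_lit 5) (nat_lit 420) (nat_lit 370) (nat_lit 350))))) (XT.nd (nat_lit 234) (nat_lit 1824) (nat_lit 0) (XT.nd (nat_lit 78) (nat_lit 1824) (nat_lit 0) (XT.lf (nat_lit 0) (nat_lit 6028381854) (nat_lit 1368) (nat_lit 425165149) (nat_lit 76) (nat_lit 883131962) (nat_lit 411) (nat_lit 5) (nat_lit 429) (nat_lit 5) (nat_lit 412) (nat_lit 5) (nat_lit 421) (nat_lit 370) (nat_lit 349)) (XT.nd (nat_lit 78) (nat_lit 836) (nat_lit 0) (XT.lf (nat_lit 0) (nat_lit 1637267147) (nat_lit 988) (nat_lit 2755090529) (nat_lit 76) (nat_lit 2992304709) (nat_lit 398) (nat_lit 5) (nat_lit 411) (nat_lit 5) (nat_lit 399) (nat_lit 5) (nat_lit 422) (nat_lit 370) (nat_lit 348)) (XT.lf (nat_lit 0) (nat_lit 2322827740) (nat_lit 836) (nat_lit 2264570963) (nat_lit 912) (nat_lit 2846788444) (nat_lit 387) (nat_lit 5) (nat_lit 398) (nat_lit 5) (nat_lit 399) (nat_lit 5) (nat_lit 423) (nat_lit 370) (nat_lit 347)))) (XT.nd (nat_lit 78) (nat_lit 1748) (nat_lit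 0) (XT.lf (nat_lit 0) (nat_lit 74512604) (nat_lit 912) (nat_lit 2471657) (nat_lit 76) (nat_lit 7408438048) (nat_lit 386) (nat_lit 5) (nat_lit 398) (nat_lit 5) (nat_lit 387) (nat_lit 5) (nat_lit 424) (nat_lit 370) (nat_lit 346)) (XT.nd (nat_lit 78) (nat_lit 836) (nat_lit 0) (XT.lf (nat_lit 0) (nat_lit 3010858952) (nat_lit 988) (nat_lit 2349891171) (nat_lit 76) (nat_lit 2176678017) (nat_lit 374) (nat_lit 5) (nat_lit 387) (nat_lit 5) (nat_lit 375) (nat_lit 5) (nat_lit 425) (nat_lit 370) (nat_lit 345)) (XT.lf (nat_lit 0) (nat_lit 2871546307) (nat_lit 836) (nat_lit 3100831573) (nat_lit 912) (nat_lit 1618784024) (nat_lit 363) (nat_lit 5) (nat_lit 374) (nat_lit 5) (nat_lit 375) (nat_lit 5) (nat_lit 426) (nat_lit 370) (nat_lit 344)))))) (XT.nd (nat_lit 390) (nat_lit 3724) (nat_lit 0) (XT.nd (nat_lit 156) (nat_lit 1596) (nat_lit 0) (XT.nd (nat_lit 78) (nat_lit 0) (nat_lit 0) (XT.lf (nat_lit 0) (nat_lit 524791629) (nat_lit 836) (nat_lit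 771561296) (nat_lit 912) (nat_lit 6350121281) (nat_lit 351) (nat_lit 5) (nat_lit 362) (nat_lit 5) (nat_lit 363) (nat_lit 5) (nat_lit 427) (nat_lit 370) (nat_lit 343)) (XT.lf (nat_lit 0) (nat_lit 4238648333) (nat_lit 912) (nat_lit 1843040212) (nat_lit 76) (nat_lit 1621195345) (nat_lit 351) (nat_lit 5) (nat_lit 363) (nat_lit 5) (nat_lit 352) (nat_lit 5) (nat_lit 428) (nat_lit 370) (nat_lit 342))) (XT.nd (nat_lit 78) (nat_lit 836) (nat_lit 0) (XT.lf (nat_lit 0) (nat_lit 3525938837) (nat_lit 760) (nat_lit 3691082618) (nat_lit 836) (nat_lit 543871132) (nat_lit 341) (nat_lit 5) (nat_lit 351) (nat_lit 5) (nat_lit 352) (nat_lit 5) (nat_lit 429) (nat_lit 370) (nat_lit 341)) (XT.nd (nat_lit 78) (nat_lit 0) (nat_lit 0) (XT.lf (nat_lit 0) (nat_lit 1149972725) (nat_lit 760) (nat_lit 1222424076) (nat_lit 836) (nat_lit 5447974727) (nat_lit 330) (nat_lit 5) (nat_lit 340) (nat_lit 5) (nat_lit 341) (nat_lit 5) (nat_lit 430) (nat_lit 370) (nat_lit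 340)) (XT.lf (nat_lit 0) (nat_lit 5326830124) (nat_lit 836) (nat_lit 1249951694) (nat_lit 76) (nat_lit 1304458445) (nat_lit 330) (nat_lit 5) (nat_lit 341) (nat_lit 5) (nat_lit 331) (nat_lit 5) (nat_lit 431) (nat_lit 370) (nat_lit 339))))) (XT.nd (nat_lit 234) (nat_lit 2128) (nat_lit 0) (XT.nd (nat_lit 78) (nat_lit 760) (nat_lit 0) (XT.lf (nat_lit 0) (nat_lit 378616541) (nat_lit 836) (nat_lit 3675432809) (nat_lit 76) (nat_lit 3889503509) (nat_lit 319) (nat_lit 5) (nat_lit 330) (nat_lit 5) (nat_lit 320) (nat_lit 5) (nat_lit 432) (nat_lit 370) (nat_lit 338)) (XT.nd (nat_lit 78) (nat_lit 0) (nat_lit 0) (XT.lf (nat_lit 0) (nat_lit 1857492380) (nat_lit 760) (nat_lit 1450481708) (nat_lit 836) (nat_lit 4699376171) (nat_lit 309) (nat_lit 5) (nat_lit 319) (nat_lit 5) (nat_lit 320) (nat_lit 5) (nat_lit 433) (nat_lit 370) (nat_lit 337)) (XT.lf (nat_lit 0) (nat_lit 6280447420) (nat_lit 836) (nat_lit 586021835) (nat_lit 76) (nat_lit 1206277237)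 (nat_lit 309) (nat_lit 5) (nat_lit 320) (nat_lit 5) (nat_lit 310) (nat_lit 5) (nat_lit 434) (nat_lit 370) (nat_lit 336)))) (XT.nd (nat_lit 78) (nat_lit 1368) (nat_lit 0) (XT.lf (nat_lit 0) (nat_lit 1152969512) (nat_lit 760) (nat_lit 3056776885) (nat_lit 76) (nat_lit 3929656217) (nat_lit 299) (nat_lit 5) (nat_lit 309) (nat_lit 5) (nat_lit 300) (nat_lit 5) (nat_lit 435) (nat_lit 370) (nat_lit 335)) (XT.nd (nat_lit 78) (nat_lit 684) (nat_lit 0) (XT.lf (nat_lit 0) (nat_lit 2631744806) (nat_lit 684) (nat_lit 1475531102) (nat_lit 760) (nat_lit 4100409061) (nat_lit 290) (nat_lit 5) (nat_lit 299) (nat_lit 5) (nat_lit 300) (nat_lit 5) (nat_lit 436) (nat_lit 370) (nat_lit 334)) (XT.lf (nat_lit 0) (nat_lit 134995345) (nat_lit 684) (nat_lit 6969285644) (nat_lit 760) (nat_lit 1173392162) (nat_lit 281) (nat_lit 5) (nat_lit 290) (nat_lit 5) (nat_lit 291) (nat_lit 5) (nat_lit 437) (nat_lit 370) (nat_lit 333))))))))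
noncomputable def xc65 : XT := (XT.nd (nat_lit 1716) (nat_lit 5700) (nat_lit 0) (XT.nd (nat_lit 858) (nat_lit 4180) (nat_lit 0) (XT.nd (nat_lit 390) (nat_lit 2432) (nat_lit 0) (XT.nd (nat_lit 156) (nat_lit 1292) (nat_lit 0) (XT.nd (nat_lit 78) (nat_lit 684) (nat_lit 0) (XT.lf (nat_lit 0) (nat_lit 1789624766) (nat_lit 760) (nat_lit 2391280103) (nat_lit 76) (nat_lit 4167908330) (nat_lit 280) (nat_lit 5) (nat_lit 290) (nat_lit 5) (nat_lit 281) (nat_lit 5) (nat_lit 438) (nat_lit 370) (nat_lit 332)) (XT.lf (nat_lit 0) (nat_lit 3456913821) (nat_lit 684) (nat_lit 1316431386) (nat_lit 760) (nat_lit 3648344333) (nat_lit 271) (nat_lit 5) (nat_lit 280) (nat_lit 5) (nat_lit 281) (nat_lit 5) (nat_lit 439) (nat_lit 370) (nat_lit 331))) (XT.nd (nat_lit 78) (nat_lit 684) (nat_lit 0) (XT.lf (nat_lit 0) (nat_lit 903838751) (nat_lit 608) (nat_lit 6900500387) (nat_lit 684) (nat_lit 691943772) (nat_lit 263) (nat_lit 5) (nat_lit 271) (nat_lit 5)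 (nat_lit 272) (nat_lit 5) (nat_lit 440) (nat_lit 370) (nat_lit 330)) (XT.nd (nat_lit 78) (nat_lit 608) (nat_lit 0) (XT.lf (nat_lit 0) (nat_lit 2290732117) (nat_lit 684) (nat_lit 1695106138) (nat_lit 76) (nat_lit 4586286774) (nat_lit 262) (nat_lit 5) (nat_lit 271) (nat_lit 5) (nat_lit 263) (nat_lit 5) (nat_lit 441) (nat_lit 370) (nat_lit 329)) (XT.lf (nat_lit 0) (nat_lit 4316816282) (nat_lit 608) (nat_lit 991258142) (nat_lit 684) (nat_lit 3341643354) (nat_lit 254) (nat_lit 5) (nat_lit 262) (nat_lit 5) (nat_lit 263) (nat_lit 5) (nat_lit 442) (nat_lit 370) (nat_lit 328))))) (XT.nd (nat_lit 234) (nat_lit 1140) (nat_lit 0) (XT.nd (nat_lit 78) (nat_lit 684) (nat_lit 0) (XT.lf (nat_lit 0) (nat_lit 1696264974) (nat_lit 608) (nat_lit 6682024011) (nat_lit 684) (nat_lit 350733497) (nat_lit 246) (nat_lit 5) (nat_lit 254) (nat_lit 5) (nat_lit 255) (nat_lit 5) (nat_lit 443) (nat_lit 370) (nat_lit 327)) (XT.nd (nat_lit 78) (nat_lit 608) (nat_lit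 0) (XT.lf (nat_lit 0) (nat_lit 2657278444) (nat_lit 684) (nat_lit 984917524) (nat_lit 76) (nat_lit 5167523011) (nat_lit 245) (nat_lit 5) (nat_lit 254) (nat_lit 5) (nat_lit 246) (nat_lit 5) (nat_lit 444) (nat_lit 370) (nat_lit 326)) (XT.lf (nat_lit 0) (nat_lit 5194738587) (nat_lit 608) (nat_lit 517455218) (nat_lit 684) (nat_lit 3179970441) (nat_lit 237) (nat_lit 5) (nat_lit 245) (nat_lit 5) (nat_lit 246) (nat_lit 5) (nat_lit 445) (nat_lit 370) (nat_lit 325)))) (XT.nd (nat_lit 78) (nat_lit 608) (nat_lit 0) (XT.lf (nat_lit 0) (nat_lit 2495210159) (nat_lit 532) (nat_lit 6331284320) (nat_lit 608) (nat_lit 149808000) (nat_lit 230) (nat_lit 5) (nat_lit 237) (nat_lit 5) (nat_lit 238) (nat_lit 5) (nat_lit 446) (nat_lit 370) (nat_lit 324)) (XT.nd (nat_lit 78) (nat_lit 532) (nat_lit 0) (XT.lf (nat_lit 0) (nat_lit 2889069405) (nat_lit 608) (nat_lit 278044125) (nat_lit 76) (nat_lit 5894903818) (nat_lit 229) (nat_lit 5) (nat_lit 237) (nat_lit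 5) (nat_lit 230) (nat_lit 5) (nat_lit 447) (nat_lit 370) (nat_lit 323)) (XT.lf (nat_lit 0) (nat_lit 5985821517) (nat_lit 608) (nat_lit 3076772007) (nat_lit 76) (nat_lit 86860360) (nat_lit 222) (nat_lit 5) (nat_lit 230) (nat_lit 5) (nat_lit 223) (nat_lit 5) (nat_lit 448) (nat_lit 370) (nat_lit 322)))))) (XT.nd (nat_lit 390) (nat_lit 1976) (nat_lit 0) (XT.nd (nat_lit 156) (nat_lit 1064) (nat_lit 0) (XT.nd (nat_lit 78) (nat_lit 608) (nat_lit 0) (XT.lf (nat_lit 0) (nat_lit 3282826478) (nat_lit 532) (nat_lit 5865309123) (nat_lit 608) (nat_lit 90440065) (nat_lit 215) (nat_lit 5) (nat_lit 222) (nat_lit 5) (nat_lit 223) (nat_lit 5) (nat_lit 449) (nat_lit 370) (nat_lit 321)) (XT.lf (nat_lit 0) (nat_lit 412752157) (nat_lit 532) (nat_lit 2574628964) (nat_lit 608) (nat_lit 6342050355) (nat_lit 207) (nat_lit 5) (nat_lit 214) (nat_lit 5) (nat_lit 215) (nat_lit 5) (nat_lit 450) (nat_lit 370) (nat_lit 320))) (XT.nd (nat_lit 78) (nat_lit 1064)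 (nat_lit 0) (XT.lf (nat_lit 0) (nat_lit 6130824493) (nat_lit 608) (nat_lit 2493255351) (nat_lit 76) (nat_lit 797915601) (nat_lit 207) (nat_lit 5) (nat_lit 215) (nat_lit 5) (nat_lit 208) (nat_lit 5) (nat_lit 451) (nat_lit 370) (nat_lit 319)) (XT.nd (nat_lit 78) (nat_lit 608) (nat_lit 0) (XT.lf (nat_lit 0) (nat_lit 4040295832) (nat_lit 456) (nat_lit 5300876983) (nat_lit 532) (nat_lit 175165523) (nat_lit 201) (nat_lit 5) (nat_lit 207) (nat_lit 5) (nat_lit 208) (nat_lit 5) (nat_lit 452) (nat_lit 370) (nat_lit 318)) (XT.lf (nat_lit 0) (nat_lit 1066002407) (nat_lit 532) (nat_lit 1882441169) (nat_lit 608) (nat_lit 6664049170) (nat_lit 193) (nat_lit 5) (nat_lit 200) (nat_lit 5) (nat_lit 201) (nat_lit 5) (nat_lit 453) (nat_lit 370) (nat_lit 317))))) (XT.nd (nat_lit 234) (nat_lit 988) (nat_lit 0) (XT.nd (nat_lit 78) (nat_lit 988) (nat_lit 0) (XT.lf (nat_lit 0) (nat_lit 6140811388) (nat_lit 608) (nat_lit 1963311389) (nat_lit 76) (nat_lit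 1606259552) (nat_lit 193) (nat_lit 5) (nat_lit 201) (nat_lit 5) (nat_lit 194) (nat_lit 5) (nat_lit 454) (nat_lit 370) (nat_lit 316)) (XT.nd (nat_lit 78) (nat_lit 532) (nat_lit 0) (XT.lf (nat_lit 0) (nat_lit 4747631150) (nat_lit 456) (nat_lit 4654669739) (nat_lit 532) (nat_lit 407831058) (nat_lit 187) (nat_lit 5) (nat_lit 193) (nat_lit 5) (nat_lit 194) (nat_lit 5) (nat_lit 455) (nat_lit 370) (nat_lit 315)) (XT.lf (nat_lit 0) (nat_lit 1657293366) (nat_lit 456) (nat_lit 1109050795) (nat_lit 532) (nat_lit 7145451050) (nat_lit 180) (nat_lit 5) (nat_lit 186) (nat_lit 5) (nat_lit 187) (nat_lit 5) (nat_lit 456) (nat_lit 370) (nat_lit 314)))) (XT.nd (nat_lit 78) (nat_lit 988) (nat_lit 0) (XT.lf (nat_lit 0) (nat_lit 6011441146) (nat_lit 532) (nat_lit 1508066942) (nat_lit 76) (nat_lit 2495679038) (nat_lit 180) (nat_lit 5) (nat_lit 187) (nat_lit 5) (nat_lit 181) (nat_lit 5) (nat_lit 457) (nat_lit 370) (nat_lit 313)) (XT.nd (nat_lit 78)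 (nat_lit 532) (nat_lit 0) (XT.lf (nat_lit 0) (nat_lit 5383463404) (nat_lit 456) (nat_lit 3943428074) (nat_lit 532) (nat_lit 793653513) (nat_lit 174) (nat_lit 5) (nat_lit 180) (nat_lit 5) (nat_lit 181) (nat_lit 5) (nat_lit 458) (nat_lit 370) (nat_lit 312)) (XT.lf (nat_lit 0) (nat_lit 2164433820) (nat_lit 456) (nat_lit 271198120) (nat_lit 532) (nat_lit 7792312312) (nat_lit 167) (nat_lit 5) (nat_lit 173) (nat_lit 5) (nat_lit 174) (nat_lit 5) (nat_lit 459) (nat_lit 370) (nat_lit 311))))))) (XT.nd (nat_lit 858) (nat_lit 2812) (nat_lit 0) (XT.nd (nat_lit 390) (nat_lit 1596) (nat_lit 0) (XT.nd (nat_lit 156) (nat_lit 912) (nat_lit 0) (XT.nd (nat_lit 78) (nat_lit 380) (nat_lit 0) (XT.lf (nat_lit 0) (nat_lit 5736997806) (nat_lit 532) (nat_lit 1150203812) (nat_lit 76) (nat_lit 3449829254) (nat_lit 167) (nat_lit 5) (nat_lit 174) (nat_lit 5) (nat_lit 168) (nat_lit 5) (nat_lit 460) (nat_lit 370) (nat_lit 310)) (XT.lf (nat_lit 0) (nat_lit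 5924812320) (nat_lit 380) (nat_lit 3184111467) (nat_lit 456) (nat_lit 1339291377) (nat_lit 162) (nat_lit 5) (nat_lit 167) (nat_lit 5) (nat_lit 168) (nat_lit 5) (nat_lit 461) (nat_lit 370) (nat_lit 309))) (XT.nd (nat_lit 78) (nat_lit 380) (nat_lit 0) (XT.lf (nat_lit 0) (nat_lit 1953401123) (nat_lit 532) (nat_lit 8002060096) (nat_lit 76) (nat_lit 606054459) (nat_lit 155) (nat_lit 5) (nat_lit 162) (nat_lit 5) (nat_lit 156) (nat_lit 5) (nat_lit 462) (nat_lit 370) (nat_lit 308)) (XT.nd (nat_lit 78) (nat_lit 380) (nat_lit 0) (XT.lf (nat_lit 0) (nat_lit 5310312521) (nat_lit 532) (nat_lit 914200114) (nat_lit 76) (nat_lit 4452072765) (nat_lit 155) (nat_lit 5) (nat_lit 162) (nat_lit 5) (nat_lit 156) (nat_lit 5) (nat_lit 463) (nat_lit 370) (nat_lit 307)) (XT.lf (nat_lit 0) (nat_lit 6346838603) (nat_lit 380) (nat_lit 2394063909) (nat_lit 456) (nat_lit 2052929291) (nat_lit 150) (nat_lit 5) (nat_lit 155) (nat_lit 5) (nat_lit 156) (nat_lit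 5) (nat_lit 464) (nat_lit 370) (nat_lit 306))))) (XT.nd (nat_lit 234) (nat_lit 760) (nat_lit 0) (XT.nd (nat_lit 78) (nat_lit 380) (nat_lit 0) (XT.lf (nat_lit 0) (nat_lit 1309197493) (nat_lit 456) (nat_lit 8094695239) (nat_lit 76) (nat_lit 1509365666) (nat_lit 144) (nat_lit 5) (nat_lit 150) (nat_lit 5) (nat_lit 145) (nat_lit 5) (nat_lit 465) (nat_lit 370) (nat_lit 305)) (XT.nd (nat_lit 78) (nat_lit 380) (nat_lit 0) (XT.lf (nat_lit 0) (nat_lit 4722672250) (nat_lit 456) (nat_lit 826591728) (nat_lit 76) (nat_lit 5485312009) (nat_lit 144) (nat_lit 5) (nat_lit 150) (nat_lit 5) (nat_lit 145) (nat_lit 5) (nat_lit 466) (nat_lit 370) (nat_lit 304)) (XT.lf (nat_lit 0) (nat_lit 6622575283) (nat_lit 380) (nat_lit 1591186866) (nat_lit 456) (nat_lit 2944376495) (nat_lit 139) (nat_lit 5) (nat_lit 144) (nat_lit 5) (nat_lit 145) (nat_lit 5) (nat_lit 467) (nat_lit 370) (nat_lit 303)))) (XT.nd (nat_lit 78) (nat_lit 304) (nat_lit 0) (XT.lf (nat_lit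 0) (nat_lit 491088999) (nat_lit 456) (nat_lit 8368414121) (nat_lit 76) (nat_lit 2424470737) (nat_lit 133) (nat_lit 5) (nat_lit 139) (nat_lit 5) (nat_lit 134) (nat_lit 5) (nat_lit 468) (nat_lit 370) (nat_lit 302)) (XT.nd (nat_lit 78) (nat_lit 304) (nat_lit 0) (XT.lf (nat_lit 0) (nat_lit 3963714116) (nat_lit 456) (nat_lit 916256405) (nat_lit 76) (nat_lit 6531813803) (nat_lit 133) (nat_lit 5) (nat_lit 139) (nat_lit 5) (nat_lit 134) (nat_lit 5) (nat_lit 469) (nat_lit 370) (nat_lit 301)) (XT.lf (nat_lit 0) (nat_lit 6722635593) (nat_lit 304) (nat_lit 794121028) (nat_lit 380) (nat_lit 4025180281) (nat_lit 129) (nat_lit 5) (nat_lit 133) (nat_lit 5) (nat_lit 134) (nat_lit 5) (nat_lit 470) (nat_lit 370) (nat_lit 300)))))) (XT.nd (nat_lit 468) (nat_lit 1292) (nat_lit 0) (XT.nd (nat_lit 234) (nat_lit 760) (nat_lit 0) (XT.nd (nat_lit 78) (nat_lit 380) (nat_lit 0) (XT.lf (nat_lit 0) (nat_lit 2816468710) (nat_lit 380) (nat_lit 8338286494)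 (nat_lit 456) (nat_lit 519664523) (nat_lit 124) (nat_lit 5) (nat_lit 129) (nat_lit 5) (nat_lit 130) (nat_lit 5) (nat_lit 471) (nat_lit 370) (nat_lit 299)) (XT.nd (nat_lit 78) (nat_lit 304) (nat_lit 0) (XT.lf (nat_lit 0) (nat_lit 3021304305) (nat_lit 456) (nat_lit 1214723271) (nat_lit 76) (nat_lit 7573024262) (nat_lit 123) (nat_lit 5) (nat_lit 129) (nat_lit 5) (nat_lit 124) (nat_lit 5) (nat_lit 472) (nat_lit 370) (nat_lit 298)) (XT.lf (nat_lit 0) (nat_lit 6614894535) (nat_lit 304) (nat_lit 22438515) (nat_lit 380) (nat_lit 5308755669) (nat_lit 119) (nat_lit 5) (nat_lit 123) (nat_lit 5) (nat_lit 124) (nat_lit 5) (nat_lit 473) (nat_lit 370) (nat_lit 297)))) (XT.nd (nat_lit 78) (nat_lit 380) (nat_lit 0) (XT.lf (nat_lit 0) (nat_lit 2486689935) (nat_lit 380) (nat_lit 7859530651) (nat_lit 456) (nat_lit 1739239699) (nat_lit 114) (nat_lit 5) (nat_lit 119) (nat_lit 5) (nat_lit 120) (nat_lit 5) (nat_lit 474) (nat_lit 370) (nat_lit 296))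 (XT.nd (nat_lit 78) (nat_lit 304) (nat_lit 0) (XT.lf (nat_lit 0) (nat_lit 1881400228) (nat_lit 456) (nat_lit 1756510737) (nat_lit 76) (nat_lit 8589372421) (nat_lit 113) (nat_lit 5) (nat_lit 119) (nat_lit 5) (nat_lit 114) (nat_lit 5) (nat_lit 475) (nat_lit 370) (nat_lit 295)) (XT.lf (nat_lit 0) (nat_lit 5565553672) (nat_lit 380) (nat_lit 6111945285) (nat_lit 76) (nat_lit 693930719) (nat_lit 109) (nat_lit 5) (nat_lit 114) (nat_lit 5) (nat_lit 110) (nat_lit 5) (nat_lit 476) (nat_lit 370) (nat_lit 294))))) (XT.nd (nat_lit 234) (nat_lit 608) (nat_lit 0) (XT.nd (nat_lit 78) (nat_lit 380) (nat_lit 0) (XT.lf (nat_lit 0) (nat_lit 1892774993) (nat_lit 304) (nat_lit 7448163278) (nat_lit 380) (nat_lit 3177174013) (nat_lit 105) (nat_lit 5) (nat_lit 109) (nat_lit 5) (nat_lit 110) (nat_lit 5) (nat_lit 477) (nat_lit 370) (nat_lit 293)) (XT.nd (nat_lit 78) (nat_lit 304) (nat_lit 0) (XT.lf (nat_lit 0) (nat_lit 527894494) (nat_lit 380) (nat_lit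 2579496121) (nat_lit 76) (nat_lit 9560060731) (nat_lit 104) (nat_lit 5) (nat_lit 109) (nat_lit 5) (nat_lit 105) (nat_lit 5) (nat_lit 478) (nat_lit 370) (nat_lit 292)) (XT.lf (nat_lit 0) (nat_lit 4279940916) (nat_lit 380) (nat_lit 7196366161) (nat_lit 76) (nat_lit 1342745814) (nat_lit 100) (nat_lit 5) (nat_lit 105) (nat_lit 5) (nat_lit 101) (nat_lit 5) (nat_lit 479) (nat_lit 370) (nat_lit 291)))) (XT.nd (nat_lit 78) (nat_lit 304) (nat_lit 0) (XT.lf (nat_lit 0) (nat_lit 994340250) (nat_lit 304) (nat_lit 7127285229) (nat_lit 380) (nat_lit 4851773062) (nat_lit 96) (nat_lit 5) (nat_lit 100) (nat_lit 5) (nat_lit 101) (nat_lit 5) (nat_lit 480) (nat_lit 370) (nat_lit 290)) (XT.nd (nat_lit 78) (nat_lit 304) (nat_lit 0) (XT.lf (nat_lit 0) (nat_lit 9398182771) (nat_lit 304) (nat_lit 2660662917) (nat_lit 380) (nat_lit 1071615321) (nat_lit 96) (nat_lit 5) (nat_lit 100) (nat_lit 5) (nat_lit 101) (nat_lit 5) (nat_lit 481) (nat_lit 370) (nat_lit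 289)) (XT.lf (nat_lit 0) (nat_lit 2761285333) (nat_lit 304) (nat_lit 8627788902) (nat_lit 76) (nat_lit 1900959661) (nat_lit 92) (nat_lit 5) (nat_lit 96) (nat_lit 5) (nat_lit 93) (nat_lit 5) (nat_lit 482) (nat_lit 370) (nat_lit 288))))))))
noncomputable def xc66 : XT := (XT.nd (nat_lit 1716) (nat_lit 152) (nat_lit 0) (XT.nd (nat_lit 858) (nat_lit 1444) (nat_lit 0) (XT.nd (nat_lit 390) (nat_lit 1064) (nat_lit 0) (XT.nd (nat_lit 156) (nat_lit 608) (nat_lit 0) (XT.nd (nat_lit 78) (nat_lit 304) (nat_lit 0) (XT.lf (nat_lit 0) (nat_lit 6670280564) (nat_lit 304) (nat_lit 249751796) (nat_lit 76) (nat_lit 6532352220) (nat_lit 92) (nat_lit 5) (nat_lit 96) (nat_lit 5) (nat_lit 93) (nat_lit 5) (nat_lit 483) (nat_lit 370) (nat_lit 287)) (XT.lf (nat_lit 0) (nat_lit 8358585866) (nat_lit 304) (nat_lit 2324649490) (nat_lit 380) (nat_lit 2934234967) (nat_lit 88) (nat_lit 5) (nat_lit 92) (nat_lit 5) (nat_lit 93) (nat_lit 5) (nat_lit 484) (nat_lit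 370) (nat_lit 286))) (XT.nd (nat_lit 78) (nat_lit 304) (nat_lit 0) (XT.lf (nat_lit 0) (nat_lit 988011742) (nat_lit 304) (nat_lit 10454100010) (nat_lit 76) (nat_lit 2343412659) (nat_lit 84) (nat_lit 5) (nat_lit 88) (nat_lit 5) (nat_lit 85) (nat_lit 5) (nat_lit 485) (nat_lit 370) (nat_lit 285)) (XT.nd (nat_lit 78) (nat_lit 304) (nat_lit 0) (XT.lf (nat_lit 0) (nat_lit 4972079708) (nat_lit 304) (nat_lit 1873564788) (nat_lit 76) (nat_lit 7110457293) (nat_lit 84) (nat_lit 5) (nat_lit 88) (nat_lit 5) (nat_lit 85) (nat_lit 5) (nat_lit 486) (nat_lit 370) (nat_lit 284)) (XT.lf (nat_lit 0) (nat_lit 6923208446) (nat_lit 304) (nat_lit 2129835729) (nat_lit 380) (nat_lit 5076705604) (nat_lit 80) (nat_lit 5) (nat_lit 84) (nat_lit 5) (nat_lit 85) (nat_lit 5) (nat_lit 487) (nat_lit 370) (nat_lit 283))))) (XT.nd (nat_lit 234) (nat_lit 532) (nat_lit 0) (XT.nd (nat_lit 78) (nat_lit 304) (nat_lit 0) (XT.lf (nat_lit 0) (nat_lit 1571517997) (nat_lit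 228) (nat_lit 11656763121) (nat_lit 304) (nat_lit 1078339843) (nat_lit 77) (nat_lit 5) (nat_lit 80) (nat_lit 5) (nat_lit 81) (nat_lit 5) (nat_lit 488) (nat_lit 370) (nat_lit 282)) (XT.nd (nat_lit 78) (nat_lit 228) (nat_lit 0) (XT.lf (nat_lit 0) (nat_lit 2995882642) (nat_lit 304) (nat_lit 3943506853) (nat_lit 76) (nat_lit 7546548987) (nat_lit 76) (nat_lit 5) (nat_lit 80) (nat_lit 5) (nat_lit 77) (nat_lit 5) (nat_lit 489) (nat_lit 370) (nat_lit 281)) (XT.lf (nat_lit 0) (nat_lit 5037388787) (nat_lit 228) (nat_lit 2105471622) (nat_lit 304) (nat_lit 7525728300) (nat_lit 73) (nat_lit 5) (nat_lit 76) (nat_lit 5) (nat_lit 77) (nat_lit 5) (nat_lit 490) (nat_lit 370) (nat_lit 280)))) (XT.nd (nat_lit 78) (nat_lit 532) (nat_lit 0) (XT.lf (nat_lit 0) (nat_lit 11390865847) (nat_lit 304) (nat_lit 667100317) (nat_lit 76) (nat_lit 2796567060) (nat_lit 73) (nat_lit 5) (nat_lit 77) (nat_lit 5) (nat_lit 74) (nat_lit 5) (nat_lit 491) (nat_lit 370)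 (nat_lit 279)) (XT.nd (nat_lit 78) (nat_lit 228) (nat_lit 0) (XT.lf (nat_lit 0) (nat_lit 713960174) (nat_lit 304) (nat_lit 6518517367) (nat_lit 76) (nat_lit 7810768986) (nat_lit 69) (nat_lit 5) (nat_lit 73) (nat_lit 5) (nat_lit 70) (nat_lit 5) (nat_lit 492) (nat_lit 370) (nat_lit 278)) (XT.lf (nat_lit 0) (nat_lit 2640716695) (nat_lit 228) (nat_lit 2283427317) (nat_lit 304) (nat_lit 10311227414) (nat_lit 66) (nat_lit 5) (nat_lit 69) (nat_lit 5) (nat_lit 70) (nat_lit 5) (nat_lit 493) (nat_lit 370) (nat_lit 277)))))) (XT.nd (nat_lit 390) (nat_lit 760) (nat_lit 0) (XT.nd (nat_lit 156) (nat_lit 456) (nat_lit 0) (XT.nd (nat_lit 78) (nat_lit 228) (nat_lit 0) (XT.lf (nat_lit 0) (nat_lit 9254309028) (nat_lit 304) (nat_lit 3422060903) (nat_lit 76) (nat_lit 2754256157) (nat_lit 66) (nat_lit 5) (nat_lit 70) (nat_lit 5) (nat_lit 67) (nat_lit 5) (nat_lit 494) (nat_lit 370) (nat_lit 276)) (XT.lf (nat_lit 0) (nat_lit 5952963163) (nat_lit 228)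 (nat_lit 7746196104) (nat_lit 304) (nat_lit 1930067698) (nat_lit 63) (nat_lit 5) (nat_lit 66) (nat_lit 5) (nat_lit 67) (nat_lit 5) (nat_lit 495) (nat_lit 370) (nat_lit 275))) (XT.nd (nat_lit 78) (nat_lit 380) (nat_lit 0) (XT.lf (nat_lit 0) (nat_lit 2367089677) (nat_lit 304) (nat_lit 329235497) (nat_lit 76) (nat_lit 13135216065) (nat_lit 62) (nat_lit 5) (nat_lit 66) (nat_lit 5) (nat_lit 63) (nat_lit 5) (nat_lit 496) (nat_lit 370) (nat_lit 274)) (XT.nd (nat_lit 78) (nat_lit 152) (nat_lit 0) (XT.lf (nat_lit 0) (nat_lit 6775723729) (nat_lit 304) (nat_lit 6782881086) (nat_lit 76) (nat_lit 2478016889) (nat_lit 59) (nat_lit 5) (nat_lit 63) (nat_lit 5) (nat_lit 60) (nat_lit 5) (nat_lit 497) (nat_lit 370) (nat_lit 273)) (XT.lf (nat_lit 0) (nat_lit 2762169707) (nat_lit 152) (nat_lit 8523333804) (nat_lit 228) (nat_lit 4960043354) (nat_lit 57) (nat_lit 5) (nat_lit 59) (nat_lit 5) (nat_lit 60) (nat_lit 5) (nat_lit 498) (nat_lit 370) (nat_lit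 272))))) (XT.nd (nat_lit 234) (nat_lit 456) (nat_lit 0) (XT.nd (nat_lit 78) (nat_lit 304) (nat_lit 0) (XT.lf (nat_lit 0) (nat_lit 12547084798) (nat_lit 152) (nat_lit 3359081521) (nat_lit 228) (nat_lit 552072964) (nat_lit 57) (nat_lit 5) (nat_lit 59) (nat_lit 5) (nat_lit 60) (nat_lit 5) (nat_lit 499) (nat_lit 370) (nat_lit 271)) (XT.nd (nat_lit 78) (nat_lit 0) (nat_lit 0) (XT.lf (nat_lit 0) (nat_lit 3918575253) (nat_lit 304) (nat_lit 10825789189) (nat_lit 76) (nat_lit 1929786450) (nat_lit 53) (nat_lit 5) (nat_lit 57) (nat_lit 5) (nat_lit 54) (nat_lit 5) (nat_lit 500) (nat_lit 370) (nat_lit 270)) (XT.lf (nat_lit 0) (nat_lit 8495500803) (nat_lit 304) (nat_lit 1106404980) (nat_lit 76) (nat_lit 7291919191) (nat_lit 53) (nat_lit 5) (nat_lit 57) (nat_lit 5) (nat_lit 54) (nat_lit 5) (nat_lit 501) (nat_lit 370) (nat_lit 269)))) (XT.nd (nat_lit 78) (nat_lit 304) (nat_lit 0) (XT.lf (nat_lit 0) (nat_lit 8882133566) (nat_lit 152) (nat_lit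 4315563159) (nat_lit 228) (nat_lit 3919523482) (nat_lit 51) (nat_lit 5) (nat_lit 53) (nat_lit 5) (nat_lit 54) (nat_lit 5) (nat_lit 502) (nat_lit 370) (nat_lit 268)) (XT.nd (nat_lit 78) (nat_lit 0) (nat_lit 0) (XT.lf (nat_lit 0) (nat_lit 642093507) (nat_lit 304) (nat_lit 15635138426) (nat_lit 76) (nat_lit 1067734376) (nat_lit 47) (nat_lit 5) (nat_lit 51) (nat_lit 5) (nat_lit 48) (nat_lit 5) (nat_lit 503) (nat_lit 370) (nat_lit 267)) (XT.lf (nat_lit 0) (nat_lit 5302904649) (nat_lit 304) (nat_lit 5707650770) (nat_lit 76) (nat_lit 6564987044) (nat_lit 47) (nat_lit 5) (nat_lit 51) (nat_lit 5) (nat_lit 48) (nat_lit 5) (nat_lit 504) (nat_lit 370) (nat_lit 266))))))) (XT.nd (nat_lit 51714) (nat_lit 0) (nat_lit 30932) (XT.nd (nat_lit 51246) (nat_lit 0) (nat_lit 42560) (XT.nd (nat_lit 51012) (nat_lit 0) (nat_lit 45752) (XT.nd (nat_lit 78) (nat_lit 0) (nat_lit 0) (XT.lf (nat_lit 0) (nat_lit 4435524862) (nat_lit 152) (nat_lit 5626859976)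 (nat_lit 228) (nat_lit 7748238378) (nat_lit 45) (nat_lit 5) (nat_lit 47) (nat_lit 5) (nat_lit 48) (nat_lit 5) (nat_lit 505) (nat_lit 370) (nat_lit 265)) (XT.lf (nat_lit 0) (nat_lit 14818168198) (nat_lit 152) (nat_lit 114035316) (nat_lit 228) (nat_lit 3117901185) (nat_lit 45) (nat_lit 5) (nat_lit 47) (nat_lit 5) (nat_lit 48) (nat_lit 5) (nat_lit 506) (nat_lit 370) (nat_lit 264))) (XT.nd (nat_lit 78) (nat_lit 1672) (nat_lit 0) (XT.lf (nat_lit 0) (nat_lit 2958277969) (nat_lit 684) (nat_lit 170723159) (nat_lit 684) (nat_lit 170723159) (nat_lit 669) (nat_lit 4) (nat_lit 678) (nat_lit 5) (nat_lit 678) (nat_lit 4) (nat_lit 398) (nat_lit 371) (nat_lit 371)) (XT.nd (nat_lit 78) (nat_lit 836) (nat_lit 0) (XT.lf (nat_lit 0) (nat_lit 2851673270) (nat_lit 836) (nat_lit 3242897516) (nat_lit 0) (nat_lit 522877581) (nat_lit 658) (nat_lit 5) (nat_lit 669) (nat_lit 4) (nat_lit 658) (nat_lit 4) (nat_lit 399) (nat_lit 371) (nat_lit 370)) (XT.lf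 (nat_lit 0) (nat_lit 838538679) (nat_lit 836) (nat_lit 5205197066) (nat_lit 836) (nat_lit 593268349) (nat_lit 647) (nat_lit 4) (nat_lit 658) (nat_lit 5) (nat_lit 658) (nat_lit 4) (nat_lit 400) (nat_lit 371) (nat_lit 369))))) (XT.nd (nat_lit 234) (nat_lit 2128) (nat_lit 0) (XT.nd (nat_lit 78) (nat_lit 988) (nat_lit 0) (XT.lf (nat_lit 0) (nat_lit 2557830182) (nat_lit 912) (nat_lit 1683477462) (nat_lit 76) (nat_lit 2416336910) (nat_lit 646) (nat_lit 5) (nat_lit 658) (nat_lit 5) (nat_lit 647) (nat_lit 4) (nat_lit 401) (nat_lit 371) (nat_lit 368)) (XT.nd (nat_lit 78) (nat_lit 76) (nat_lit 0) (XT.lf (nat_lit 0) (nat_lit 2488378137) (nat_lit 912) (nat_lit 3221101446) (nat_lit 988) (nat_lit 970262515) (nat_lit 634) (nat_lit 5) (nat_lit 646) (nat_lit 5) (nat_lit 647) (nat_lit 4) (nat_lit 402) (nat_lit 371) (nat_lit 367)) (XT.lf (nat_lit 0) (nat_lit 2133965491) (nat_lit 988) (nat_lit 4811211) (nat_lit 76) (nat_lit 4564422773) (nat_lit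 633) (nat_lit 5) (nat_lit 646) (nat_lit 5) (nat_lit 634) (nat_lit 5) (nat_lit 403) (nat_lit 371) (nat_lit 366)))) (XT.nd (nat_lit 78) (nat_lit 1140) (nat_lit 0) (XT.lf (nat_lit 0) (nat_lit 4261262024) (nat_lit 988) (nat_lit 984932361) (nat_lit 1064) (nat_lit 1481655487) (nat_lit 620) (nat_lit 5) (nat_lit 633) (nat_lit 5) (nat_lit 634) (nat_lit 5) (nat_lit 404) (nat_lit 371) (nat_lit 365)) (XT.nd (nat_lit 78) (nat_lit 0) (nat_lit 0) (XT.lf (nat_lit 0) (nat_lit 1590882790) (nat_lit 1140) (nat_lit 4936925318) (nat_lit 76) (nat_lit 226096142) (nat_lit 605) (nat_lit 5) (nat_lit 620) (nat_lit 5) (nat_lit 606) (nat_lit 5) (nat_lit 405) (nat_lit 371) (nat_lit 364)) (XT.lf (nat_lit 0) (nat_lit 4661063641) (nat_lit 1140) (nat_lit 632299733) (nat_lit 76) (nat_lit 1487828400) (nat_lit 605) (nat_lit 5) (nat_lit 620) (nat_lit 5) (nat_lit 606) (nat_lit 5) (nat_lit 406) (nat_lit 371) (nat_lit 363)))))) (XT.nd (nat_lit 468) (nat_lit 6384) (nat_lit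 0) (XT.nd (nat_lit 234) (nat_lit 2736) (nat_lit 0) (XT.nd (nat_lit 78) (nat_lit 1292) (nat_lit 0) (XT.lf (nat_lit 0) (nat_lit 928934948) (nat_lit 1216) (nat_lit 3062622921) (nat_lit 76) (nat_lit 2818202654) (nat_lit 589) (nat_lit 5) (nat_lit 605) (nat_lit 5) (nat_lit 590) (nat_lit 5) (nat_lit 407) (nat_lit 371) (nat_lit 362)) (XT.nd (nat_lit 78) (nat_lit 76) (nat_lit 0) (XT.lf (nat_lit 0) (nat_lit 1332514527) (nat_lit 1216) (nat_lit 2625655022) (nat_lit 1292) (nat_lit 2881526151) (nat_lit 573) (nat_lit 5) (nat_lit 589) (nat_lit 5) (nat_lit 590) (nat_lit 5) (nat_lit 408) (nat_lit 371) (nat_lit 361)) (XT.lf (nat_lit 0) (nat_lit 131220773) (nat_lit 1292) (nat_lit 1069378921) (nat_lit 76) (nat_lit 5670516811) (nat_lit 572) (nat_lit 5) (nat_lit 589) (nat_lit 5) (nat_lit 573) (nat_lit 5) (nat_lit 409) (nat_lit 371) (nat_lit 360)))) (XT.nd (nat_lit 78) (nat_lit 1444) (nat_lit 0) (XT.lf (nat_lit 0) (nat_lit 3126291575) (nat_lit 1368)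 (nat_lit 3476802167) (nat_lit 76) (nat_lit 300503352) (nat_lit 555) (nat_lit 5) (nat_lit 573) (nat_lit 5) (nat_lit 556) (nat_lit 5) (nat_lit 410) (nat_lit 371) (nat_lit 359)) (XT.nd (nat_lit 78) (nat_lit 76) (nat_lit 0) (XT.lf (nat_lit 0) (nat_lit 1041227387) (nat_lit 1368) (nat_lit 5099303625) (nat_lit 1444) (nat_lit 797035799) (nat_lit 537) (nat_lit 5) (nat_lit 555) (nat_lit 5) (nat_lit 556) (nat_lit 5) (nat_lit 411) (nat_lit 371) (nat_lit 358)) (XT.lf (nat_lit 0) (nat_lit 2174681257) (nat_lit 1444) (nat_lit 1345440979) (nat_lit 76) (nat_lit 3452601195) (nat_lit 536) (nat_lit 5) (nat_lit 555) (nat_lit 5) (nat_lit 537) (nat_lit 5) (nat_lit 412) (nat_lit 371) (nat_lit 357))))) (XT.nd (nat_lit 234) (nat_lit 3344) (nat_lit 0) (XT.nd (nat_lit 78) (nat_lit 1596) (nat_lit 0) (XT.lf (nat_lit 0) (nat_lit 3279580247) (nat_lit 1444) (nat_lit 1875874951) (nat_lit 1520) (nat_lit 1853840149) (nat_lit 517) (nat_lit 5) (nat_lit 536) (nat_lit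 5) (nat_lit 537) (nat_lit 5) (nat_lit 413) (nat_lit 371) (nat_lit 356)) (XT.nd (nat_lit 78) (nat_lit 0) (nat_lit 0) (XT.lf (nat_lit 0) (nat_lit 918347051) (nat_lit 1520) (nat_lit 170291673) (nat_lit 1596) (nat_lit 5958743951) (nat_lit 496) (nat_lit 5) (nat_lit 516) (nat_lit 5) (nat_lit 517) (nat_lit 5) (nat_lit 414) (nat_lit 371) (nat_lit 355)) (XT.lf (nat_lit 0) (nat_lit 4040830774) (nat_lit 1596) (nat_lit 1454420499) (nat_lit 76) (nat_lit 1591243743) (nat_lit 496) (nat_lit 5) (nat_lit 517) (nat_lit 5) (nat_lit 497) (nat_lit 5) (nat_lit 415) (nat_lit 371) (nat_lit 354)))) (XT.nd (nat_lit 78) (nat_lit 1748) (nat_lit 0) (XT.lf (nat_lit 0) (nat_lit 3300965069) (nat_lit 1596) (nat_lit 3715112003) (nat_lit 1672) (nat_lit 111053967) (nat_lit 475) (nat_lit 5) (nat_lit 496) (nat_lit 5) (nat_lit 497) (nat_lit 5) (nat_lit 416) (nat_lit 371) (nat_lit 353)) (XT.nd (nat_lit 78) (nat_lit 0) (nat_lit 0) (XT.lf (nat_lit 0) (nat_lit 941033077)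 (nat_lit 1672) (nat_lit 1861189778) (nat_lit 1748) (nat_lit 4366847948) (nat_lit 452) (nat_lit 5) (nat_lit 474) (nat_lit 5) (nat_lit 475) (nat_lit 5) (nat_lit 417) (nat_lit 371) (nat_lit 352)) (XT.lf (nat_lit 0) (nat_lit 5740959221) (nat_lit 1748) (nat_lit 1413133223) (nat_lit 76) (nat_lit 58389012) (nat_lit 452) (nat_lit 5) (nat_lit 475) (nat_lit 5) (nat_lit 453) (nat_lit 5) (nat_lit 418) (nat_lit 371) (nat_lit 351))))))))
noncomputable def xc67 : XT := (XT.nd (nat_lit 1716) (nat_lit 8816) (nat_lit 0) (XT.nd (nat_lit 858) (nat_lit 5244) (nat_lit 0) (XT.nd (nat_lit 390) (nat_lit 3572) (nat_lit 0) (XT.nd (nat_lit 156) (nat_lit 1824) (nat_lit 0) (XT.nd (nat_lit 78) (nat_lit 1292) (nat_lit 0) (XT.lf (nat_lit 0) (nat_lit 1440777387) (nat_lit 1824) (nat_lit 3790388362) (nat_lit 76) (nat_lit 2025851763) (nat_lit 428) (nat_lit 5) (nat_lit 452) (nat_lit 5) (nat_lit 429) (nat_lit 5) (nat_lit 419) (nat_lit 371) (nat_lit 350)) (XT.lf (nat_lit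 0) (nat_lit 1110202038) (nat_lit 1292) (nat_lit 3242315523) (nat_lit 1368) (nat_lit 2950533446) (nat_lit 411) (nat_lit 5) (nat_lit 428) (nat_lit 5) (nat_lit 429) (nat_lit 5) (nat_lit 420) (nat_lit 371) (nat_lit 349))) (XT.nd (nat_lit 78) (nat_lit 1824) (nat_lit 0) (XT.lf (nat_lit 0) (nat_lit 6105110672) (nat_lit 1292) (nat_lit 1187681351) (nat_lit 1368) (nat_lit 57825999) (nat_lit 411) (nat_lit 5) (nat_lit 428) (nat_lit 5) (nat_lit 429) (nat_lit 5) (nat_lit 421) (nat_lit 371) (nat_lit 348)) (XT.nd (nat_lit 78) (nat_lit 836) (nat_lit 0) (XT.lf (nat_lit 0) (nat_lit 2831067636) (nat_lit 988) (nat_lit 3628759449) (nat_lit 76) (nat_lit 939426355) (nat_lit 398) (nat_lit 5) (nat_lit 411) (nat_lit 5) (nat_lit 399) (nat_lit 5) (nat_lit 422) (nat_lit 371) (nat_lit 347)) (XT.lf (nat_lit 0) (nat_lit 1409726596) (nat_lit 836) (nat_lit 4338949504) (nat_lit 912) (nat_lit 1700761351) (nat_lit 387) (nat_lit 5) (nat_lit 398) (nat_lit 5) (nat_lit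 399) (nat_lit 5) (nat_lit 423) (nat_lit 371) (nat_lit 346))))) (XT.nd (nat_lit 234) (nat_lit 1748) (nat_lit 0) (XT.nd (nat_lit 78) (nat_lit 1748) (nat_lit 0) (XT.lf (nat_lit 0) (nat_lit 1179076734) (nat_lit 912) (nat_lit 965899700) (nat_lit 76) (nat_lit 5356084465) (nat_lit 386) (nat_lit 5) (nat_lit 398) (nat_lit 5) (nat_lit 387) (nat_lit 5) (nat_lit 424) (nat_lit 371) (nat_lit 345)) (XT.nd (nat_lit 78) (nat_lit 836) (nat_lit 0) (XT.lf (nat_lit 0) (nat_lit 4069514574) (nat_lit 988) (nat_lit 3356394574) (nat_lit 76) (nat_lit 128084034) (nat_lit 374) (nat_lit 5) (nat_lit 387) (nat_lit 5) (nat_lit 375) (nat_lit 5) (nat_lit 425) (nat_lit 371) (nat_lit 344)) (XT.lf (nat_lit 0) (nat_lit 1823875747) (nat_lit 836) (nat_lit 5174765963) (nat_lit 912) (nat_lit 609741192) (nat_lit 363) (nat_lit 5) (nat_lit 374) (nat_lit 5) (nat_lit 375) (nat_lit 5) (nat_lit 426) (nat_lit 371) (nat_lit 343)))) (XT.nd (nat_lit 78) (nat_lit 1672) (nat_lit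 0) (XT.lf (nat_lit 0) (nat_lit 2263314746) (nat_lit 912) (nat_lit 581126258) (nat_lit 76) (nat_lit 4819707921) (nat_lit 362) (nat_lit 5) (nat_lit 374) (nat_lit 5) (nat_lit 363) (nat_lit 5) (nat_lit 427) (nat_lit 371) (nat_lit 342)) (XT.nd (nat_lit 78) (nat_lit 836) (nat_lit 0) (XT.lf (nat_lit 0) (nat_lit 4729671312) (nat_lit 836) (nat_lit 436330800) (nat_lit 912) (nat_lit 2555356310) (nat_lit 351) (nat_lit 5) (nat_lit 362) (nat_lit 5) (nat_lit 363) (nat_lit 5) (nat_lit 428) (nat_lit 371) (nat_lit 341)) (XT.lf (nat_lit 0) (nat_lit 324788174) (nat_lit 836) (nat_lit 5445039862) (nat_lit 76) (nat_lit 2010207696) (nat_lit 340) (nat_lit 5) (nat_lit 351) (nat_lit 5) (nat_lit 341) (nat_lit 5) (nat_lit 429) (nat_lit 371) (nat_lit 340)))))) (XT.nd (nat_lit 390) (nat_lit 2888) (nat_lit 0) (XT.nd (nat_lit 156) (nat_lit 1596) (nat_lit 0) (XT.nd (nat_lit 78) (nat_lit 760) (nat_lit 0) (XT.lf (nat_lit 0) (nat_lit 3201953900) (nat_lit 836) (nat_lit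 106238177) (nat_lit 76) (nat_lit 4531898567) (nat_lit 340) (nat_lit 5) (nat_lit 351) (nat_lit 5) (nat_lit 341) (nat_lit 5) (nat_lit 430) (nat_lit 371) (nat_lit 339)) (XT.lf (nat_lit 0) (nat_lit 5355088896) (nat_lit 760) (nat_lit 767817572) (nat_lit 836) (nat_lit 1778729594) (nat_lit 330) (nat_lit 5) (nat_lit 340) (nat_lit 5) (nat_lit 341) (nat_lit 5) (nat_lit 431) (nat_lit 371) (nat_lit 338))) (XT.nd (nat_lit 78) (nat_lit 760) (nat_lit 0) (XT.lf (nat_lit 0) (nat_lit 1106462118) (nat_lit 836) (nat_lit 5037765613) (nat_lit 76) (nat_lit 1820380232) (nat_lit 319) (nat_lit 5) (nat_lit 330) (nat_lit 5) (nat_lit 320) (nat_lit 5) (nat_lit 432) (nat_lit 371) (nat_lit 337)) (XT.nd (nat_lit 78) (nat_lit 0) (nat_lit 0) (XT.lf (nat_lit 0) (nat_lit 449293444) (nat_lit 760) (nat_lit 3553765739) (nat_lit 836) (nat_lit 4026008053) (nat_lit 309) (nat_lit 5) (nat_lit 319) (nat_lit 5) (nat_lit 320) (nat_lit 5) (nat_lit 433) (nat_lit 371) (nat_lit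 336)) (XT.lf (nat_lit 0) (nat_lit 6059403373) (nat_lit 760) (nat_lit 884861962) (nat_lit 836) (nat_lit 1150830006) (nat_lit 309) (nat_lit 5) (nat_lit 319) (nat_lit 5) (nat_lit 320) (nat_lit 5) (nat_lit 434) (nat_lit 371) (nat_lit 335))))) (XT.nd (nat_lit 234) (nat_lit 1444) (nat_lit 0) (XT.nd (nat_lit 78) (nat_lit 684) (nat_lit 0) (XT.lf (nat_lit 0) (nat_lit 1747444030) (nat_lit 760) (nat_lit 4574406629) (nat_lit 76) (nat_lit 1840595416) (nat_lit 299) (nat_lit 5) (nat_lit 309) (nat_lit 5) (nat_lit 300) (nat_lit 5) (nat_lit 435) (nat_lit 371) (nat_lit 334)) (XT.nd (nat_lit 78) (nat_lit 0) (nat_lit 0) (XT.lf (nat_lit 0) (nat_lit 1066331353) (nat_lit 684) (nat_lit 3602474988) (nat_lit 760) (nat_lit 3562587124) (nat_lit 290) (nat_lit 5) (nat_lit 299) (nat_lit 5) (nat_lit 300) (nat_lit 5) (nat_lit 436) (nat_lit 371) (nat_lit 333)) (XT.lf (nat_lit 0) (nat_lit 6827202439) (nat_lit 684) (nat_lit 806620968) (nat_lit 760) (nat_lit 668204033)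 (nat_lit 290) (nat_lit 5) (nat_lit 299) (nat_lit 5) (nat_lit 300) (nat_lit 5) (nat_lit 437) (nat_lit 371) (nat_lit 332)))) (XT.nd (nat_lit 78) (nat_lit 684) (nat_lit 0) (XT.lf (nat_lit 0) (nat_lit 2250755185) (nat_lit 760) (nat_lit 4070850339) (nat_lit 76) (nat_lit 2052250805) (nat_lit 280) (nat_lit 5) (nat_lit 290) (nat_lit 5) (nat_lit 281) (nat_lit 5) (nat_lit 438) (nat_lit 371) (nat_lit 331)) (XT.nd (nat_lit 78) (nat_lit 0) (nat_lit 0) (XT.lf (nat_lit 0) (nat_lit 1727581459) (nat_lit 684) (nat_lit 3473678050) (nat_lit 760) (nat_lit 3246143167) (nat_lit 271) (nat_lit 5) (nat_lit 280) (nat_lit 5) (nat_lit 281) (nat_lit 5) (nat_lit 439) (nat_lit 371) (nat_lit 330)) (XT.lf (nat_lit 0) (nat_lit 7642818367) (nat_lit 684) (nat_lit 551375113) (nat_lit 760) (nat_lit 328569340) (nat_lit 271) (nat_lit 5) (nat_lit 280) (nat_lit 5) (nat_lit 281) (nat_lit 5) (nat_lit 440) (nat_lit 371) (nat_lit 329))))))) (XT.nd (nat_lit 858) (nat_lit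 3952) (nat_lit 0) (XT.nd (nat_lit 390) (nat_lit 2280) (nat_lit 0) (XT.nd (nat_lit 156) (nat_lit 1292) (nat_lit 0) (XT.nd (nat_lit 78) (nat_lit 608) (nat_lit 0) (XT.lf (nat_lit 0) (nat_lit 2618270979) (nat_lit 684) (nat_lit 3543343720) (nat_lit 76) (nat_lit 2437569809) (nat_lit 262) (nat_lit 5) (nat_lit 271) (nat_lit 5) (nat_lit 263) (nat_lit 5) (nat_lit 441) (nat_lit 371) (nat_lit 328)) (XT.lf (nat_lit 0) (nat_lit 2416773364) (nat_lit 608) (nat_lit 3185265829) (nat_lit 684) (nat_lit 3075414798) (nat_lit 254) (nat_lit 5) (nat_lit 262) (nat_lit 5) (nat_lit 263) (nat_lit 5) (nat_lit 442) (nat_lit 371) (nat_lit 327))) (XT.nd (nat_lit 78) (nat_lit 1292) (nat_lit 0) (XT.lf (nat_lit 0) (nat_lit 8490171466) (nat_lit 608) (nat_lit 136679630) (nat_lit 684) (nat_lit 130820800) (nat_lit 254) (nat_lit 5) (nat_lit 262) (nat_lit 5) (nat_lit 263) (nat_lit 5) (nat_lit 443) (nat_lit 371) (nat_lit 326)) (XT.nd (nat_lit 78) (nat_lit 608) (nat_lit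 0) (XT.lf (nat_lit 0) (nat_lit 2850711086) (nat_lit 684) (nat_lit 3008653145) (nat_lit 76) (nat_lit 2979452472) (nat_lit 245) (nat_lit 5) (nat_lit 254) (nat_lit 5) (nat_lit 246) (nat_lit 5) (nat_lit 444) (nat_lit 371) (nat_lit 325)) (XT.lf (nat_lit 0) (nat_lit 3117085631) (nat_lit 608) (nat_lit 2754524924) (nat_lit 684) (nat_lit 3050336586) (nat_lit 237) (nat_lit 5) (nat_lit 245) (nat_lit 5) (nat_lit 246) (nat_lit 5) (nat_lit 445) (nat_lit 371) (nat_lit 324))))) (XT.nd (nat_lit 234) (nat_lit 1140) (nat_lit 0) (XT.nd (nat_lit 78) (nat_lit 608) (nat_lit 0) (XT.lf (nat_lit 0) (nat_lit 347264625) (nat_lit 532) (nat_lit 8589840017) (nat_lit 608) (nat_lit 69961621) (nat_lit 230) (nat_lit 5) (nat_lit 237) (nat_lit 5) (nat_lit 238) (nat_lit 5) (nat_lit 446) (nat_lit 371) (nat_lit 323)) (XT.nd (nat_lit 78) (nat_lit 532) (nat_lit 0) (XT.lf (nat_lit 0) (nat_lit 2947620118) (nat_lit 608) (nat_lit 2484232320) (nat_lit 76) (nat_lit 3661327867)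 (nat_lit 229) (nat_lit 5) (nat_lit 237) (nat_lit 5) (nat_lit 230) (nat_lit 5) (nat_lit 447) (nat_lit 371) (nat_lit 322)) (XT.lf (nat_lit 0) (nat_lit 3810974391) (nat_lit 532) (nat_lit 2198286662) (nat_lit 608) (nat_lit 3172062494) (nat_lit 222) (nat_lit 5) (nat_lit 229) (nat_lit 5) (nat_lit 230) (nat_lit 5) (nat_lit 448) (nat_lit 371) (nat_lit 321)))) (XT.nd (nat_lit 78) (nat_lit 608) (nat_lit 0) (XT.lf (nat_lit 0) (nat_lit 946265685) (nat_lit 532) (nat_lit 8176190523) (nat_lit 608) (nat_lit 148975896) (nat_lit 215) (nat_lit 5) (nat_lit 222) (nat_lit 5) (nat_lit 223) (nat_lit 5) (nat_lit 449) (nat_lit 371) (nat_lit 320)) (XT.nd (nat_lit 78) (nat_lit 532) (nat_lit 0) (XT.lf (nat_lit 0) (nat_lit 2907338462) (nat_lit 608) (nat_lit 1988399850) (nat_lit 76) (nat_lit 4467006918) (nat_lit 214) (nat_lit 5) (nat_lit 222) (nat_lit 5) (nat_lit 215) (nat_lit 5) (nat_lit 450) (nat_lit 371) (nat_lit 319)) (XT.lf (nat_lit 0) (nat_lit 4479991888)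 (nat_lit 532) (nat_lit 1533076230) (nat_lit 608) (nat_lit 3442999496) (nat_lit 207) (nat_lit 5) (nat_lit 214) (nat_lit 5) (nat_lit 215) (nat_lit 5) (nat_lit 451) (nat_lit 371) (nat_lit 318)))))) (XT.nd (nat_lit 468) (nat_lit 1900) (nat_lit 0) (XT.nd (nat_lit 234) (nat_lit 988) (nat_lit 0) (XT.nd (nat_lit 78) (nat_lit 608) (nat_lit 0) (XT.lf (nat_lit 0) (nat_lit 1507871631) (nat_lit 456) (nat_lit 7670100777) (nat_lit 532) (nat_lit 373351039) (nat_lit 201) (nat_lit 5) (nat_lit 207) (nat_lit 5) (nat_lit 208) (nat_lit 5) (nat_lit 452) (nat_lit 371) (nat_lit 317)) (XT.nd (nat_lit 78) (nat_lit 532) (nat_lit 0) (XT.lf (nat_lit 0) (nat_lit 2726962844) (nat_lit 532) (nat_lit 1540528066) (nat_lit 76) (nat_lit 5380534473) (nat_lit 200) (nat_lit 5) (nat_lit 207) (nat_lit 5) (nat_lit 201) (nat_lit 5) (nat_lit 453) (nat_lit 371) (nat_lit 316)) (XT.lf (nat_lit 0) (nat_lit 5104593266) (nat_lit 532) (nat_lit 775263148) (nat_lit 608) (nat_lit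 3866851862) (nat_lit 193) (nat_lit 5) (nat_lit 200) (nat_lit 5) (nat_lit 201) (nat_lit 5) (nat_lit 454) (nat_lit 371) (nat_lit 315)))) (XT.nd (nat_lit 78) (nat_lit 532) (nat_lit 0) (XT.lf (nat_lit 0) (nat_lit 2011919023) (nat_lit 456) (nat_lit 7088180072) (nat_lit 532) (nat_lit 747187486) (nat_lit 187) (nat_lit 5) (nat_lit 193) (nat_lit 5) (nat_lit 194) (nat_lit 5) (nat_lit 455) (nat_lit 371) (nat_lit 314)) (XT.nd (nat_lit 78) (nat_lit 456) (nat_lit 0) (XT.lf (nat_lit 0) (nat_lit 2402296113) (nat_lit 532) (nat_lit 1161244868) (nat_lit 76) (nat_lit 6386039384) (nat_lit 186) (nat_lit 5) (nat_lit 193) (nat_lit 5) (nat_lit 187) (nat_lit 5) (nat_lit 456) (nat_lit 371) (nat_lit 313)) (XT.lf (nat_lit 0) (nat_lit 5605525806) (nat_lit 532) (nat_lit 4390272665) (nat_lit 76) (nat_lit 58014689) (nat_lit 180) (nat_lit 5) (nat_lit 187) (nat_lit 5) (nat_lit 181) (nat_lit 5) (nat_lit 457) (nat_lit 371) (nat_lit 312))))) (XT.nd (nat_lit 234)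 (nat_lit 912) (nat_lit 0) (XT.nd (nat_lit 78) (nat_lit 532) (nat_lit 0) (XT.lf (nat_lit 0) (nat_lit 2436843625) (nat_lit 456) (nat_lit 6447118015) (nat_lit 532) (nat_lit 1275953139) (nat_lit 174) (nat_lit 5) (nat_lit 180) (nat_lit 5) (nat_lit 181) (nat_lit 5) (nat_lit 458) (nat_lit 371) (nat_lit 311)) (XT.nd (nat_lit 78) (nat_lit 456) (nat_lit 0) (XT.lf (nat_lit 0) (nat_lit 1927785613) (nat_lit 532) (nat_lit 872650491) (nat_lit 76) (nat_lit 7467581339) (nat_lit 173) (nat_lit 5) (nat_lit 180) (nat_lit 5) (nat_lit 174) (nat_lit 5) (nat_lit 459) (nat_lit 371) (nat_lit 310)) (XT.lf (nat_lit 0) (nat_lit 5189262218) (nat_lit 532) (nat_lit 4248586753) (nat_lit 76) (nat_lit 940056141) (nat_lit 167) (nat_lit 5) (nat_lit 174) (nat_lit 5) (nat_lit 168) (nat_lit 5) (nat_lit 460) (nat_lit 371) (nat_lit 309)))) (XT.nd (nat_lit 78) (nat_lit 532) (nat_lit 0) (XT.lf (nat_lit 0) (nat_lit 2759451314) (nat_lit 380) (nat_lit 5763843471) (nat_lit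 456) (nat_lit 1966555688) (nat_lit 162) (nat_lit 5) (nat_lit 167) (nat_lit 5) (nat_lit 168) (nat_lit 5) (nat_lit 461) (nat_lit 371) (nat_lit 308)) (XT.nd (nat_lit 78) (nat_lit 456) (nat_lit 0) (XT.lf (nat_lit 0) (nat_lit 1296449431) (nat_lit 456) (nat_lit 698551248) (nat_lit 76) (nat_lit 8608993120) (nat_lit 161) (nat_lit 5) (nat_lit 167) (nat_lit 5) (nat_lit 162) (nat_lit 5) (nat_lit 462) (nat_lit 371) (nat_lit 307)) (XT.lf (nat_lit 0) (nat_lit 4618619655) (nat_lit 532) (nat_lit 4236729727) (nat_lit 76) (nat_lit 1864411979) (nat_lit 155) (nat_lit 5) (nat_lit 162) (nat_lit 5) (nat_lit 156) (nat_lit 5) (nat_lit 463) (nat_lit 371) (nat_lit 306))))))))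
noncomputable def xc68 : XT := (XT.nd (nat_lit 1716) (nat_lit 3268) (nat_lit 0) (XT.nd (nat_lit 858) (nat_lit 2356) (nat_lit 0) (XT.nd (nat_lit 390) (nat_lit 1520) (nat_lit 0) (XT.nd (nat_lit 156) (nat_lit 760) (nat_lit 0) (XT.nd (nat_lit 78) (nat_lit 76) (nat_lit 0) (XT.lf (nat_lit 0) (nat_lit 2954670417) (nat_lit 380) (nat_lit 5055689397) (nat_lit 456) (nat_lit 2827427905) (nat_lit 150) (nat_lit 5) (nat_lit 155) (nat_lit 5) (nat_lit 156) (nat_lit 5) (nat_lit 464) (nat_lit 371) (nat_lit 305)) (XT.lf (nat_lit 0) (nat_lit 499789682) (nat_lit 456) (nat_lit 664712486) (nat_lit 76) (nat_lit 9793716898) (nat_lit 149) (nat_lit 5) (nat_lit 155) (nat_lit 5) (nat_lit 150) (nat_lit 5) (nat_lit 465) (nat_lit 371) (nat_lit 304))) (XT.nd (nat_lit 78) (nat_lit 380) (nat_lit 0) (XT.lf (nat_lit 0) (nat_lit 3884641993) (nat_lit 456) (nat_lit 4381483677) (nat_lit 76) (nat_lit 2813986219) (nat_lit 144) (nat_lit 5) (nat_lit 150) (nat_lit 5) (nat_lit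 145) (nat_lit 5) (nat_lit 466) (nat_lit 371) (nat_lit 303)) (XT.nd (nat_lit 78) (nat_lit 0) (nat_lit 0) (XT.lf (nat_lit 0) (nat_lit 2995283120) (nat_lit 380) (nat_lit 4340564989) (nat_lit 456) (nat_lit 3868626846) (nat_lit 139) (nat_lit 5) (nat_lit 144) (nat_lit 5) (nat_lit 145) (nat_lit 5) (nat_lit 467) (nat_lit 371) (nat_lit 302)) (XT.lf (nat_lit 0) (nat_lit 10529155565) (nat_lit 380) (nat_lit 323655631) (nat_lit 456) (nat_lit 478584840) (nat_lit 139) (nat_lit 5) (nat_lit 144) (nat_lit 5) (nat_lit 145) (nat_lit 5) (nat_lit 468) (nat_lit 371) (nat_lit 301))))) (XT.nd (nat_lit 234) (nat_lit 760) (nat_lit 0) (XT.nd (nat_lit 78) (nat_lit 304) (nat_lit 0) (XT.lf (nat_lit 0) (nat_lit 2976723099) (nat_lit 456) (nat_lit 4711990908) (nat_lit 76) (nat_lit 3771029093) (nat_lit 133) (nat_lit 5) (nat_lit 139) (nat_lit 5) (nat_lit 134) (nat_lit 5) (nat_lit 469) (nat_lit 371) (nat_lit 300)) (XT.nd (nat_lit 78) (nat_lit 0) (nat_lit 0) (XT.lf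 (nat_lit 0) (nat_lit 2851633342) (nat_lit 304) (nat_lit 3637136732) (nat_lit 380) (nat_lit 5101948040) (nat_lit 129) (nat_lit 5) (nat_lit 133) (nat_lit 5) (nat_lit 134) (nat_lit 5) (nat_lit 470) (nat_lit 371) (nat_lit 299)) (XT.lf (nat_lit 0) (nat_lit 10074258105) (nat_lit 380) (nat_lit 1146392826) (nat_lit 76) (nat_lit 503602694) (nat_lit 129) (nat_lit 5) (nat_lit 134) (nat_lit 5) (nat_lit 130) (nat_lit 5) (nat_lit 471) (nat_lit 371) (nat_lit 298)))) (XT.nd (nat_lit 78) (nat_lit 304) (nat_lit 0) (XT.lf (nat_lit 0) (nat_lit 1882485035) (nat_lit 456) (nat_lit 5260063489) (nat_lit 76) (nat_lit 4716952623) (nat_lit 123) (nat_lit 5) (nat_lit 129) (nat_lit 5) (nat_lit 124) (nat_lit 5) (nat_lit 472) (nat_lit 371) (nat_lit 297)) (XT.nd (nat_lit 78) (nat_lit 0) (nat_lit 0) (XT.lf (nat_lit 0) (nat_lit 2491308240) (nat_lit 304) (nat_lit 2965019971) (nat_lit 380) (nat_lit 6541055861) (nat_lit 119) (nat_lit 5) (nat_lit 123) (nat_lit 5)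 (nat_lit 124) (nat_lit 5) (nat_lit 473) (nat_lit 371) (nat_lit 296)) (XT.lf (nat_lit 0) (nat_lit 9114642408) (nat_lit 380) (nat_lit 1725956299) (nat_lit 76) (nat_lit 1297170683) (nat_lit 119) (nat_lit 5) (nat_lit 124) (nat_lit 5) (nat_lit 120) (nat_lit 5) (nat_lit 474) (nat_lit 371) (nat_lit 295)))))) (XT.nd (nat_lit 390) (nat_lit 912) (nat_lit 0) (XT.nd (nat_lit 156) (nat_lit 684) (nat_lit 0) (XT.nd (nat_lit 78) (nat_lit 304) (nat_lit 0) (XT.lf (nat_lit 0) (nat_lit 587639537) (nat_lit 456) (nat_lit 6060521274) (nat_lit 76) (nat_lit 5632134830) (nat_lit 113) (nat_lit 5) (nat_lit 119) (nat_lit 5) (nat_lit 114) (nat_lit 5) (nat_lit 475) (nat_lit 371) (nat_lit 294)) (XT.lf (nat_lit 0) (nat_lit 1878790249) (nat_lit 304) (nat_lit 2344982787) (nat_lit 380) (nat_lit 8201631450) (nat_lit 109) (nat_lit 5) (nat_lit 113) (nat_lit 5) (nat_lit 114) (nat_lit 5) (nat_lit 476) (nat_lit 371) (nat_lit 293))) (XT.nd (nat_lit 78) (nat_lit 684)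 (nat_lit 0) (XT.lf (nat_lit 0) (nat_lit 7956744077) (nat_lit 380) (nat_lit 2575403334) (nat_lit 76) (nat_lit 2040790065) (nat_lit 109) (nat_lit 5) (nat_lit 114) (nat_lit 5) (nat_lit 110) (nat_lit 5) (nat_lit 477) (nat_lit 371) (nat_lit 292)) (XT.nd (nat_lit 78) (nat_lit 380) (nat_lit 0) (XT.lf (nat_lit 0) (nat_lit 5565340423) (nat_lit 304) (nat_lit 6221191376) (nat_lit 380) (nat_lit 936450365) (nat_lit 105) (nat_lit 5) (nat_lit 109) (nat_lit 5) (nat_lit 110) (nat_lit 5) (nat_lit 478) (nat_lit 371) (nat_lit 291)) (XT.lf (nat_lit 0) (nat_lit 975076241) (nat_lit 304) (nat_lit 1799164092) (nat_lit 380) (nat_lit 10101539715) (nat_lit 100) (nat_lit 5) (nat_lit 104) (nat_lit 5) (nat_lit 105) (nat_lit 5) (nat_lit 479) (nat_lit 371) (nat_lit 290))))) (XT.nd (nat_lit 234) (nat_lit 532) (nat_lit 0) (XT.nd (nat_lit 78) (nat_lit 380) (nat_lit 0) (XT.lf (nat_lit 0) (nat_lit 6583294381) (nat_lit 380) (nat_lit 3734918444) (nat_lit 76) (nat_lit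 2712567437) (nat_lit 100) (nat_lit 5) (nat_lit 105) (nat_lit 5) (nat_lit 101) (nat_lit 5) (nat_lit 480) (nat_lit 371) (nat_lit 289)) (XT.nd (nat_lit 78) (nat_lit 76) (nat_lit 0) (XT.lf (nat_lit 0) (nat_lit 4595882522) (nat_lit 304) (nat_lit 5885699211) (nat_lit 380) (nat_lit 2707041565) (nat_lit 96) (nat_lit 5) (nat_lit 100) (nat_lit 5) (nat_lit 101) (nat_lit 5) (nat_lit 481) (nat_lit 371) (nat_lit 288)) (XT.lf (nat_lit 0) (nat_lit 1090273948) (nat_lit 380) (nat_lit 259294030) (nat_lit 76) (nat_lit 11999983094) (nat_lit 95) (nat_lit 5) (nat_lit 100) (nat_lit 5) (nat_lit 96) (nat_lit 5) (nat_lit 482) (nat_lit 371) (nat_lit 287)))) (XT.nd (nat_lit 78) (nat_lit 304) (nat_lit 0) (XT.lf (nat_lit 0) (nat_lit 4974685835) (nat_lit 304) (nat_lit 5248724577) (nat_lit 76) (nat_lit 3288984812) (nat_lit 92) (nat_lit 5) (nat_lit 96) (nat_lit 5) (nat_lit 93) (nat_lit 5) (nat_lit 483) (nat_lit 371) (nat_lit 286)) (XT.nd (nat_lit 78) (nat_lit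 0) (nat_lit 0) (XT.lf (nat_lit 0) (nat_lit 3270121897) (nat_lit 304) (nat_lit 5670653720) (nat_lit 380) (nat_lit 4737644419) (nat_lit 88) (nat_lit 5) (nat_lit 92) (nat_lit 5) (nat_lit 93) (nat_lit 5) (nat_lit 484) (nat_lit 371) (nat_lit 285)) (XT.lf (nat_lit 0) (nat_lit 11984830310) (nat_lit 304) (nat_lit 1008898585) (nat_lit 380) (nat_lit 853889116) (nat_lit 88) (nat_lit 5) (nat_lit 92) (nat_lit 5) (nat_lit 93) (nat_lit 5) (nat_lit 485) (nat_lit 371) (nat_lit 284))))))) (XT.nd (nat_lit 858) (nat_lit 1368) (nat_lit 0) (XT.nd (nat_lit 390) (nat_lit 988) (nat_lit 0) (XT.nd (nat_lit 156) (nat_lit 304) (nat_lit 0) (XT.nd (nat_lit 78) (nat_lit 304) (nat_lit 0) (XT.lf (nat_lit 0) (nat_lit 3108760819) (nat_lit 304) (nat_lit 7165552785) (nat_lit 76) (nat_lit 3744646671) (nat_lit 84) (nat_lit 5) (nat_lit 88) (nat_lit 5) (nat_lit 85) (nat_lit 5) (nat_lit 486) (nat_lit 371) (nat_lit 283)) (XT.lf (nat_lit 0) (nat_lit 1538185757) (nat_lit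 304) (nat_lit 5603115450) (nat_lit 380) (nat_lit 7052277171) (nat_lit 80) (nat_lit 5) (nat_lit 84) (nat_lit 5) (nat_lit 85) (nat_lit 5) (nat_lit 487) (nat_lit 371) (nat_lit 282))) (XT.nd (nat_lit 78) (nat_lit 304) (nat_lit 0) (XT.lf (nat_lit 0) (nat_lit 10468161346) (nat_lit 304) (nat_lit 807465782) (nat_lit 380) (nat_lit 3095642254) (nat_lit 80) (nat_lit 5) (nat_lit 84) (nat_lit 5) (nat_lit 85) (nat_lit 5) (nat_lit 488) (nat_lit 371) (nat_lit 281)) (XT.nd (nat_lit 78) (nat_lit 0) (nat_lit 0) (XT.lf (nat_lit 0) (nat_lit 960575343) (nat_lit 304) (nat_lit 9539158431) (nat_lit 76) (nat_lit 4052005864) (nat_lit 76) (nat_lit 5) (nat_lit 80) (nat_lit 5) (nat_lit 77) (nat_lit 5) (nat_lit 489) (nat_lit 371) (nat_lit 280)) (XT.lf (nat_lit 0) (nat_lit 5061738050) (nat_lit 304) (nat_lit 646391432) (nat_lit 76) (nat_lit 9027178192) (nat_lit 76) (nat_lit 5) (nat_lit 80) (nat_lit 5) (nat_lit 77) (nat_lit 5) (nat_lit 490) (nat_lit 371) (nat_lit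 279))))) (XT.nd (nat_lit 234) (nat_lit 456) (nat_lit 0) (XT.nd (nat_lit 78) (nat_lit 304) (nat_lit 0) (XT.lf (nat_lit 0) (nat_lit 8491911689) (nat_lit 228) (nat_lit 782186503) (nat_lit 304) (nat_lit 5647868382) (nat_lit 73) (nat_lit 5) (nat_lit 76) (nat_lit 5) (nat_lit 77) (nat_lit 5) (nat_lit 491) (nat_lit 371) (nat_lit 278)) (XT.nd (nat_lit 78) (nat_lit 76) (nat_lit 0) (XT.lf (nat_lit 0) (nat_lit 2673149838) (nat_lit 228) (nat_lit 10920973131) (nat_lit 304) (nat_lit 1517770264) (nat_lit 70) (nat_lit 5) (nat_lit 73) (nat_lit 5) (nat_lit 74) (nat_lit 5) (nat_lit 492) (nat_lit 371) (nat_lit 277)) (XT.lf (nat_lit 0) (nat_lit 2682403474) (nat_lit 304) (nat_lit 3326003792) (nat_lit 76) (nat_lit 9296407665) (nat_lit 69) (nat_lit 5) (nat_lit 73) (nat_lit 5) (nat_lit 70) (nat_lit 5) (nat_lit 493) (nat_lit 371) (nat_lit 276)))) (XT.nd (nat_lit 78) (nat_lit 228) (nat_lit 0) (XT.lf (nat_lit 0) (nat_lit 5994553873) (nat_lit 228) (nat_lit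 965352603) (nat_lit 304) (nat_lit 8541217724) (nat_lit 66) (nat_lit 5) (nat_lit 69) (nat_lit 5) (nat_lit 70) (nat_lit 5) (nat_lit 494) (nat_lit 371) (nat_lit 275)) (XT.nd (nat_lit 78) (nat_lit 228) (nat_lit 0) (XT.lf (nat_lit 0) (nat_lit 11347369629) (nat_lit 304) (nat_lit 224695089) (nat_lit 76) (nat_lit 4128809440) (nat_lit 66) (nat_lit 5) (nat_lit 70) (nat_lit 5) (nat_lit 67) (nat_lit 5) (nat_lit 495) (nat_lit 371) (nat_lit 274)) (XT.lf (nat_lit 0) (nat_lit 9316343885) (nat_lit 228) (nat_lit 6548426011) (nat_lit 304) (nat_lit 39008114) (nat_lit 63) (nat_lit 5) (nat_lit 66) (nat_lit 5) (nat_lit 67) (nat_lit 5) (nat_lit 496) (nat_lit 371) (nat_lit 273)))))) (XT.nd (nat_lit 468) (nat_lit 456) (nat_lit 0) (XT.nd (nat_lit 234) (nat_lit 456) (nat_lit 0) (XT.nd (nat_lit 78) (nat_lit 152) (nat_lit 0) (XT.lf (nat_lit 0) (nat_lit 2908031217) (nat_lit 228) (nat_lit 1392293952) (nat_lit 304) (nat_lit 11809935880) (nat_lit 59) (nat_lit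 5) (nat_lit 62) (nat_lit 5) (nat_lit 63) (nat_lit 5) (nat_lit 497) (nat_lit 371) (nat_lit 272)) (XT.nd (nat_lit 78) (nat_lit 152) (nat_lit 0) (XT.lf (nat_lit 0) (nat_lit 8770977847) (nat_lit 304) (nat_lit 3705364091) (nat_lit 76) (nat_lit 3843628052) (nat_lit 59) (nat_lit 5) (nat_lit 63) (nat_lit 5) (nat_lit 60) (nat_lit 5) (nat_lit 498) (nat_lit 371) (nat_lit 271)) (XT.lf (nat_lit 0) (nat_lit 6009448410) (nat_lit 152) (nat_lit 7345764142) (nat_lit 228) (nat_lit 3178179630) (nat_lit 57) (nat_lit 5) (nat_lit 59) (nat_lit 5) (nat_lit 60) (nat_lit 5) (nat_lit 499) (nat_lit 371) (nat_lit 270)))) (XT.nd (nat_lit 78) (nat_lit 380) (nat_lit 0) (XT.lf (nat_lit 0) (nat_lit 1264265130) (nat_lit 228) (nat_lit 831909882) (nat_lit 76) (nat_lit 14654723860) (nat_lit 56) (nat_lit 5) (nat_lit 59) (nat_lit 5) (nat_lit 57) (nat_lit 5) (nat_lit 500) (nat_lit 371) (nat_lit 269)) (XT.nd (nat_lit 78) (nat_lit 152) (nat_lit 0) (XT.lf (nat_lit 0) (nat_lit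 5810221663) (nat_lit 304) (nat_lit 7881599157) (nat_lit 76) (nat_lit 3279372657) (nat_lit 53) (nat_lit 5) (nat_lit 57) (nat_lit 5) (nat_lit 54) (nat_lit 5) (nat_lit 501) (nat_lit 371) (nat_lit 268)) (XT.lf (nat_lit 0) (nat_lit 1996381008) (nat_lit 152) (nat_lit 8459712136) (nat_lit 228) (nat_lit 6739623178) (nat_lit 51) (nat_lit 5) (nat_lit 53) (nat_lit 5) (nat_lit 54) (nat_lit 5) (nat_lit 502) (nat_lit 371) (nat_lit 267))))) (XT.nd (nat_lit 234) (nat_lit 152) (nat_lit 0) (XT.nd (nat_lit 78) (nat_lit 304) (nat_lit 0) (XT.lf (nat_lit 0) (nat_lit 12138121041) (nat_lit 152) (nat_lit 3086379507) (nat_lit 228) (nat_lit 2199638925) (nat_lit 51) (nat_lit 5) (nat_lit 53) (nat_lit 5) (nat_lit 54) (nat_lit 5) (nat_lit 503) (nat_lit 371) (nat_lit 266)) (XT.nd (nat_lit 78) (nat_lit 0) (nat_lit 0) (XT.lf (nat_lit 0) (nat_lit 2423418108) (nat_lit 304) (nat_lit 12839377637) (nat_lit 76) (nat_lit 2393538623) (nat_lit 47) (nat_lit 5) (nat_lit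 51) (nat_lit 5) (nat_lit 48) (nat_lit 5) (nat_lit 504) (nat_lit 371) (nat_lit 265)) (XT.lf (nat_lit 0) (nat_lit 7142769340) (nat_lit 304) (nat_lit 2774290495) (nat_lit 76) (nat_lit 7975158901) (nat_lit 47) (nat_lit 5) (nat_lit 51) (nat_lit 5) (nat_lit 48) (nat_lit 5) (nat_lit 505) (nat_lit 371) (nat_lit 264)))) (XT.nd (nat_lit 50778) (nat_lit 0) (nat_lit 47424) (XT.lf (nat_lit 0) (nat_lit 7551699220) (nat_lit 152) (nat_lit 4431400008) (nat_lit 228) (nat_lit 6149191781) (nat_lit 45) (nat_lit 5) (nat_lit 47) (nat_lit 5) (nat_lit 48) (nat_lit 5) (nat_lit 506) (nat_lit 371) (nat_lit 263)) (XT.nd (nat_lit 78) (nat_lit 684) (nat_lit 0) (XT.lf (nat_lit 0) (nat_lit 1127820084) (nat_lit 684) (nat_lit 1027452764) (nat_lit 0) (nat_lit 1127820084) (nat_lit 678) (nat_lit 5) (nat_lit 687) (nat_lit 4) (nat_lit 678) (nat_lit 4) (nat_lit 396) (nat_lit 372) (nat_lit 372)) (XT.lf (nat_lit 0) (nat_lit 1890647890) (nat_lit 684) (nat_lit 3557322236)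 (nat_lit 684) (nat_lit 1134443201) (nat_lit 669) (nat_lit 4) (nat_lit 678) (nat_lit 5) (nat_lit 678) (nat_lit 4) (nat_lit 397) (nat_lit 372) (nat_lit 371))))))))
noncomputable def xc69 : XT := (XT.nd (nat_lit 1716) (nat_lit 13224) (nat_lit 0) (XT.nd (nat_lit 858) (nat_lit 11020) (nat_lit 0) (XT.nd (nat_lit 390) (nat_lit 4560) (nat_lit 0) (XT.nd (nat_lit 156) (nat_lit 1900) (nat_lit 0) (XT.nd (nat_lit 78) (nat_lit 760) (nat_lit 0) (XT.lf (nat_lit 0) (nat_lit 2017548095) (nat_lit 760) (nat_lit 722803484) (nat_lit 76) (nat_lit 3859575674) (nat_lit 668) (nat_lit 5) (nat_lit 678) (nat_lit 5) (nat_lit 669) (nat_lit 4) (nat_lit 398) (nat_lit 372) (nat_lit 370)) (XT.lf (nat_lit 0) (nat_lit 3309148899) (nat_lit 760) (nat_lit 1857284380) (nat_lit 836) (nat_lit 1452261447) (nat_lit 658) (nat_lit 5) (nat_lit 668) (nat_lit 5) (nat_lit 669) (nat_lit 4) (nat_lit 399) (nat_lit 372) (nat_lit 369))) (XT.nd (nat_lit 78) (nat_lit 988) (nat_lit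 0) (XT.lf (nat_lit 0) (nat_lit 739240402) (nat_lit 836) (nat_lit 916196639) (nat_lit 912) (nat_lit 4983451209) (nat_lit 646) (nat_lit 5) (nat_lit 657) (nat_lit 5) (nat_lit 658) (nat_lit 5) (nat_lit 400) (nat_lit 372) (nat_lit 368)) (XT.nd (nat_lit 78) (nat_lit 988) (nat_lit 0) (XT.lf (nat_lit 0) (nat_lit 4757810718) (nat_lit 912) (nat_lit 1809364572) (nat_lit 76) (nat_lit 93111184) (nat_lit 646) (nat_lit 5) (nat_lit 658) (nat_lit 5) (nat_lit 647) (nat_lit 4) (nat_lit 401) (nat_lit 372) (nat_lit 367)) (XT.lf (nat_lit 0) (nat_lit 1175423165) (nat_lit 988) (nat_lit 4356645844) (nat_lit 76) (nat_lit 1150882163) (nat_lit 633) (nat_lit 5) (nat_lit 646) (nat_lit 5) (nat_lit 634) (nat_lit 5) (nat_lit 402) (nat_lit 372) (nat_lit 366))))) (XT.nd (nat_lit 234) (nat_lit 2432) (nat_lit 0) (XT.nd (nat_lit 78) (nat_lit 2128) (nat_lit 0) (XT.lf (nat_lit 0) (nat_lit 4232880985) (nat_lit 988) (nat_lit 202963082) (nat_lit 76) (nat_lit 2271134394)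 (nat_lit 633) (nat_lit 5) (nat_lit 646) (nat_lit 5) (nat_lit 634) (nat_lit 5) (nat_lit 403) (nat_lit 372) (nat_lit 365)) (XT.nd (nat_lit 78) (nat_lit 1064) (nat_lit 0) (XT.lf (nat_lit 0) (nat_lit 570337300) (nat_lit 1064) (nat_lit 2702011610) (nat_lit 76) (nat_lit 3459916661) (nat_lit 619) (nat_lit 5) (nat_lit 633) (nat_lit 5) (nat_lit 620) (nat_lit 5) (nat_lit 404) (nat_lit 372) (nat_lit 364)) (XT.lf (nat_lit 0) (nat_lit 1543513703) (nat_lit 1064) (nat_lit 2043533774) (nat_lit 1140) (nat_lit 3171822130) (nat_lit 605) (nat_lit 5) (nat_lit 619) (nat_lit 5) (nat_lit 620) (nat_lit 5) (nat_lit 405) (nat_lit 372) (nat_lit 363)))) (XT.nd (nat_lit 78) (nat_lit 2432) (nat_lit 0) (XT.lf (nat_lit 0) (nat_lit 5857734579) (nat_lit 1064) (nat_lit 758549427) (nat_lit 1140) (nat_lit 170705869) (nat_lit 605) (nat_lit 5) (nat_lit 619) (nat_lit 5) (nat_lit 620) (nat_lit 5) (nat_lit 406) (nat_lit 372) (nat_lit 362)) (XT.nd (nat_lit 78) (nat_lit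 1216) (nat_lit 0) (XT.lf (nat_lit 0) (nat_lit 2813536958) (nat_lit 1216) (nat_lit 3404215618) (nat_lit 76) (nat_lit 598351296) (nat_lit 589) (nat_lit 5) (nat_lit 605) (nat_lit 5) (nat_lit 590) (nat_lit 5) (nat_lit 407) (nat_lit 372) (nat_lit 361)) (XT.lf (nat_lit 0) (nat_lit 959426184) (nat_lit 1216) (nat_lit 4849195949) (nat_lit 1292) (nat_lit 1038112965) (nat_lit 573) (nat_lit 5) (nat_lit 589) (nat_lit 5) (nat_lit 590) (nat_lit 5) (nat_lit 408) (nat_lit 372) (nat_lit 360)))))) (XT.nd (nat_lit 390) (nat_lit 6764) (nat_lit 0) (XT.nd (nat_lit 156) (nat_lit 2888) (nat_lit 0) (XT.nd (nat_lit 78) (nat_lit 1292) (nat_lit 0) (XT.lf (nat_lit 0) (nat_lit 1918960924) (nat_lit 1292) (nat_lit 1488333955) (nat_lit 76) (nat_lit 3471264130) (nat_lit 572) (nat_lit 5) (nat_lit 589) (nat_lit 5) (nat_lit 573) (nat_lit 5) (nat_lit 409) (nat_lit 372) (nat_lit 359)) (XT.lf (nat_lit 0) (nat_lit 2977606806) (nat_lit 1292) (nat_lit 1900639637) (nat_lit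 1368) (nat_lit 2033521167) (nat_lit 555) (nat_lit 5) (nat_lit 572) (nat_lit 5) (nat_lit 573) (nat_lit 5) (nat_lit 410) (nat_lit 372) (nat_lit 358))) (XT.nd (nat_lit 78) (nat_lit 1444) (nat_lit 0) (XT.lf (nat_lit 0) (nat_lit 554950060) (nat_lit 1368) (nat_lit 335383984) (nat_lit 1444) (nat_lit 6056172129) (nat_lit 536) (nat_lit 5) (nat_lit 554) (nat_lit 5) (nat_lit 555) (nat_lit 5) (nat_lit 411) (nat_lit 372) (nat_lit 357)) (XT.nd (nat_lit 78) (nat_lit 1444) (nat_lit 0) (XT.lf (nat_lit 0) (nat_lit 3819218152) (nat_lit 1444) (nat_lit 1870699121) (nat_lit 76) (nat_lit 1292301213) (nat_lit 536) (nat_lit 5) (nat_lit 555) (nat_lit 5) (nat_lit 537) (nat_lit 5) (nat_lit 412) (nat_lit 372) (nat_lit 356)) (XT.lf (nat_lit 0) (nat_lit 2720475519) (nat_lit 1444) (nat_lit 4046276548) (nat_lit 1520) (nat_lit 252714505) (nat_lit 517) (nat_lit 5) (nat_lit 536) (nat_lit 5) (nat_lit 537) (nat_lit 5) (nat_lit 413) (nat_lit 372) (nat_lit 355)))))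 (XT.nd (nat_lit 234) (nat_lit 3496) (nat_lit 0) (XT.nd (nat_lit 78) (nat_lit 1672) (nat_lit 0) (XT.lf (nat_lit 0) (nat_lit 303875527) (nat_lit 1520) (nat_lit 2331495480) (nat_lit 1596) (nat_lit 4422653795) (nat_lit 496) (nat_lit 5) (nat_lit 516) (nat_lit 5) (nat_lit 517) (nat_lit 5) (nat_lit 414) (nat_lit 372) (nat_lit 354)) (XT.nd (nat_lit 78) (nat_lit 1672) (nat_lit 0) (XT.lf (nat_lit 0) (nat_lit 5001715910) (nat_lit 1520) (nat_lit 546377771) (nat_lit 1596) (nat_lit 1549843565) (nat_lit 496) (nat_lit 5) (nat_lit 516) (nat_lit 5) (nat_lit 517) (nat_lit 5) (nat_lit 415) (nat_lit 372) (nat_lit 353)) (XT.lf (nat_lit 0) (nat_lit 1330015965) (nat_lit 1672) (nat_lit 4520823963) (nat_lit 76) (nat_lit 1288295608) (nat_lit 474) (nat_lit 5) (nat_lit 496) (nat_lit 5) (nat_lit 475) (nat_lit 5) (nat_lit 416) (nat_lit 372) (nat_lit 352)))) (XT.nd (nat_lit 78) (nat_lit 1824) (nat_lit 0) (XT.lf (nat_lit 0) (nat_lit 209207130) (nat_lit 1672)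 (nat_lit 3999650709) (nat_lit 1748) (nat_lit 2972872705) (nat_lit 452) (nat_lit 5) (nat_lit 474) (nat_lit 5) (nat_lit 475) (nat_lit 5) (nat_lit 417) (nat_lit 372) (nat_lit 351)) (XT.nd (nat_lit 78) (nat_lit 1824) (nat_lit 0) (XT.lf (nat_lit 0) (nat_lit 5041241854) (nat_lit 1672) (nat_lit 2078121551) (nat_lit 1748) (nat_lit 106352305) (nat_lit 452) (nat_lit 5) (nat_lit 474) (nat_lit 5) (nat_lit 475) (nat_lit 5) (nat_lit 418) (nat_lit 372) (nat_lit 350)) (XT.lf (nat_lit 0) (nat_lit 2662382521) (nat_lit 1748) (nat_lit 79918065) (nat_lit 1824) (nat_lit 4528698268) (nat_lit 428) (nat_lit 5) (nat_lit 451) (nat_lit 5) (nat_lit 452) (nat_lit 5) (nat_lit 419) (nat_lit 372) (nat_lit 349))))))) (XT.nd (nat_lit 858) (nat_lit 6536) (nat_lit 0) (XT.nd (nat_lit 390) (nat_lit 3496) (nat_lit 0) (XT.nd (nat_lit 156) (nat_lit 1824) (nat_lit 0) (XT.nd (nat_lit 78) (nat_lit 76) (nat_lit 0) (XT.lf (nat_lit 0) (nat_lit 254362021) (nat_lit 1292) (nat_lit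 5366485136) (nat_lit 1368) (nat_lit 1696858391) (nat_lit 411) (nat_lit 5) (nat_lit 428) (nat_lit 5) (nat_lit 429) (nat_lit 5) (nat_lit 420) (nat_lit 372) (nat_lit 348)) (XT.lf (nat_lit 0) (nat_lit 1153219177) (nat_lit 1368) (nat_lit 2150862634) (nat_lit 76) (nat_lit 4061583354) (nat_lit 410) (nat_lit 5) (nat_lit 428) (nat_lit 5) (nat_lit 411) (nat_lit 5) (nat_lit 421) (nat_lit 372) (nat_lit 347))) (XT.nd (nat_lit 78) (nat_lit 912) (nat_lit 0) (XT.lf (nat_lit 0) (nat_lit 2832112411) (nat_lit 912) (nat_lit 1170510294) (nat_lit 988) (nat_lit 3412453793) (nat_lit 398) (nat_lit 5) (nat_lit 410) (nat_lit 5) (nat_lit 411) (nat_lit 5) (nat_lit 422) (nat_lit 372) (nat_lit 346)) (XT.nd (nat_lit 78) (nat_lit 76) (nat_lit 0) (XT.lf (nat_lit 0) (nat_lit 423265703) (nat_lit 836) (nat_lit 6456887809) (nat_lit 912) (nat_lit 585917167) (nat_lit 387) (nat_lit 5) (nat_lit 398) (nat_lit 5) (nat_lit 399) (nat_lit 5) (nat_lit 423) (nat_lit 372) (nat_lit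 345)) (XT.lf (nat_lit 0) (nat_lit 2253385213) (nat_lit 912) (nat_lit 2003326074) (nat_lit 76) (nat_lit 3261364643) (nat_lit 386) (nat_lit 5) (nat_lit 398) (nat_lit 5) (nat_lit 387) (nat_lit 5) (nat_lit 424) (nat_lit 372) (nat_lit 344))))) (XT.nd (nat_lit 234) (nat_lit 1672) (nat_lit 0) (XT.nd (nat_lit 78) (nat_lit 912) (nat_lit 0) (XT.lf (nat_lit 0) (nat_lit 3120329198) (nat_lit 912) (nat_lit 1990245067) (nat_lit 988) (nat_lit 2461107043) (nat_lit 374) (nat_lit 5) (nat_lit 386) (nat_lit 5) (nat_lit 387) (nat_lit 5) (nat_lit 425) (nat_lit 372) (nat_lit 343)) (XT.nd (nat_lit 78) (nat_lit 0) (nat_lit 0) (XT.lf (nat_lit 0) (nat_lit 362592233) (nat_lit 912) (nat_lit 6929156384) (nat_lit 76) (nat_lit 335188770) (nat_lit 362) (nat_lit 5) (nat_lit 374) (nat_lit 5) (nat_lit 363) (nat_lit 5) (nat_lit 426) (nat_lit 372) (nat_lit 342)) (XT.lf (nat_lit 0) (nat_lit 3202710192) (nat_lit 912) (nat_lit 1756785525) (nat_lit 76) (nat_lit 2723634990)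 (nat_lit 362) (nat_lit 5) (nat_lit 374) (nat_lit 5) (nat_lit 363) (nat_lit 5) (nat_lit 427) (nat_lit 372) (nat_lit 341)))) (XT.nd (nat_lit 78) (nat_lit 836) (nat_lit 0) (XT.lf (nat_lit 0) (nat_lit 3511514926) (nat_lit 836) (nat_lit 2561521479) (nat_lit 912) (nat_lit 1667958523) (nat_lit 351) (nat_lit 5) (nat_lit 362) (nat_lit 5) (nat_lit 363) (nat_lit 5) (nat_lit 428) (nat_lit 372) (nat_lit 340)) (XT.nd (nat_lit 78) (nat_lit 0) (nat_lit 0) (XT.lf (nat_lit 0) (nat_lit 1061373665) (nat_lit 760) (nat_lit 93281252) (nat_lit 836) (nat_lit 6645827154) (nat_lit 340) (nat_lit 5) (nat_lit 350) (nat_lit 5) (nat_lit 351) (nat_lit 5) (nat_lit 429) (nat_lit 372) (nat_lit 339)) (XT.lf (nat_lit 0) (nat_lit 4007192593) (nat_lit 836) (nat_lit 1426673156) (nat_lit 76) (nat_lit 2427170863) (nat_lit 340) (nat_lit 5) (nat_lit 351) (nat_lit 5) (nat_lit 341) (nat_lit 5) (nat_lit 430) (nat_lit 372) (nat_lit 338)))))) (XT.nd (nat_lit 468) (nat_lit 3420)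 (nat_lit 0) (XT.nd (nat_lit 234) (nat_lit 1520) (nat_lit 0) (XT.nd (nat_lit 78) (nat_lit 836) (nat_lit 0) (XT.lf (nat_lit 0) (nat_lit 3990311400) (nat_lit 760) (nat_lit 2905421341) (nat_lit 836) (nat_lit 1027504467) (nat_lit 330) (nat_lit 5) (nat_lit 340) (nat_lit 5) (nat_lit 341) (nat_lit 5) (nat_lit 431) (nat_lit 372) (nat_lit 337)) (XT.nd (nat_lit 78) (nat_lit 0) (nat_lit 0) (XT.lf (nat_lit 0) (nat_lit 1502372417) (nat_lit 760) (nat_lit 300737383) (nat_lit 836) (nat_lit 6183902922) (nat_lit 319) (nat_lit 5) (nat_lit 329) (nat_lit 5) (nat_lit 330) (nat_lit 5) (nat_lit 432) (nat_lit 372) (nat_lit 336)) (XT.lf (nat_lit 0) (nat_lit 4671682734) (nat_lit 836) (nat_lit 1028381371) (nat_lit 76) (nat_lit 2351974902) (nat_lit 319) (nat_lit 5) (nat_lit 330) (nat_lit 5) (nat_lit 320) (nat_lit 5) (nat_lit 433) (nat_lit 372) (nat_lit 335)))) (XT.nd (nat_lit 78) (nat_lit 760) (nat_lit 0) (XT.lf (nat_lit 0) (nat_lit 4541378476) (nat_lit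 760) (nat_lit 3041871072) (nat_lit 836) (nat_lit 535416754) (nat_lit 309) (nat_lit 5) (nat_lit 319) (nat_lit 5) (nat_lit 320) (nat_lit 5) (nat_lit 434) (nat_lit 372) (nat_lit 334)) (XT.nd (nat_lit 78) (nat_lit 0) (nat_lit 0) (XT.lf (nat_lit 0) (nat_lit 2007440999) (nat_lit 684) (nat_lit 302313486) (nat_lit 760) (nat_lit 5877089421) (nat_lit 299) (nat_lit 5) (nat_lit 308) (nat_lit 5) (nat_lit 309) (nat_lit 5) (nat_lit 435) (nat_lit 372) (nat_lit 333)) (XT.lf (nat_lit 0) (nat_lit 5199896939) (nat_lit 760) (nat_lit 577405889) (nat_lit 76) (nat_lit 2479118899) (nat_lit 299) (nat_lit 5) (nat_lit 309) (nat_lit 5) (nat_lit 300) (nat_lit 5) (nat_lit 436) (nat_lit 372) (nat_lit 332))))) (XT.nd (nat_lit 234) (nat_lit 1976) (nat_lit 0) (XT.nd (nat_lit 78) (nat_lit 760) (nat_lit 0) (XT.lf (nat_lit 0) (nat_lit 5149248899) (nat_lit 684) (nat_lit 2989798257) (nat_lit 760) (nat_lit 188531799) (nat_lit 290) (nat_lit 5) (nat_lit 299) (nat_lit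 5) (nat_lit 300) (nat_lit 5) (nat_lit 437) (nat_lit 372) (nat_lit 331)) (XT.nd (nat_lit 78) (nat_lit 0) (nat_lit 0) (XT.lf (nat_lit 0) (nat_lit 2560810831) (nat_lit 684) (nat_lit 116638626) (nat_lit 760) (nat_lit 5722835522) (nat_lit 280) (nat_lit 5) (nat_lit 289) (nat_lit 5) (nat_lit 290) (nat_lit 5) (nat_lit 438) (nat_lit 372) (nat_lit 330)) (XT.lf (nat_lit 0) (nat_lit 5594422880) (nat_lit 760) (nat_lit 89493205) (nat_lit 76) (nat_lit 2790591434) (nat_lit 280) (nat_lit 5) (nat_lit 290) (nat_lit 5) (nat_lit 281) (nat_lit 5) (nat_lit 439) (nat_lit 372) (nat_lit 329)))) (XT.nd (nat_lit 78) (nat_lit 1216) (nat_lit 0) (XT.lf (nat_lit 0) (nat_lit 14952783) (nat_lit 760) (nat_lit 2752230937) (nat_lit 76) (nat_lit 5783125326) (nat_lit 270) (nat_lit 5) (nat_lit 280) (nat_lit 5) (nat_lit 271) (nat_lit 5) (nat_lit 440) (nat_lit 372) (nat_lit 328)) (XT.nd (nat_lit 78) (nat_lit 608) (nat_lit 0) (XT.lf (nat_lit 0) (nat_lit 2909460355) (nat_lit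 684) (nat_lit 5482855635) (nat_lit 76) (nat_lit 235337801) (nat_lit 262) (nat_lit 5) (nat_lit 271) (nat_lit 5) (nat_lit 263) (nat_lit 5) (nat_lit 441) (nat_lit 372) (nat_lit 327)) (XT.lf (nat_lit 0) (nat_lit 424777307) (nat_lit 608) (nat_lit 5434696575) (nat_lit 684) (nat_lit 2847129635) (nat_lit 254) (nat_lit 5) (nat_lit 262) (nat_lit 5) (nat_lit 263) (nat_lit 5) (nat_lit 442) (nat_lit 372) (nat_lit 326))))))))
noncomputable def xc70 : XT := (XT.nd (nat_lit 1716) (nat_lit 5396) (nat_lit 0) (XT.nd (nat_lit 858) (nat_lit 3420) (nat_lit 0) (XT.nd (nat_lit 390) (nat_lit 2204) (nat_lit 0) (XT.nd (nat_lit 156) (nat_lit 1216) (nat_lit 0) (XT.nd (nat_lit 78) (nat_lit 608) (nat_lit 0) (XT.lf (nat_lit 0) (nat_lit 75461726) (nat_lit 684) (nat_lit 2315744527) (nat_lit 76) (nat_lit 6396021951) (nat_lit 253) (nat_lit 5) (nat_lit 262) (nat_lit 5) (nat_lit 254) (nat_lit 5) (nat_lit 443) (nat_lit 372) (nat_lit 325)) (XT.lf (nat_lit 0) (nat_lit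 3006549071) (nat_lit 684) (nat_lit 5126733935) (nat_lit 76) (nat_lit 736052445) (nat_lit 245) (nat_lit 5) (nat_lit 254) (nat_lit 5) (nat_lit 246) (nat_lit 5) (nat_lit 444) (nat_lit 372) (nat_lit 324))) (XT.nd (nat_lit 78) (nat_lit 608) (nat_lit 0) (XT.lf (nat_lit 0) (nat_lit 944363571) (nat_lit 608) (nat_lit 5048854304) (nat_lit 684) (nat_lit 2959937385) (nat_lit 237) (nat_lit 5) (nat_lit 245) (nat_lit 5) (nat_lit 246) (nat_lit 5) (nat_lit 445) (nat_lit 372) (nat_lit 323)) (XT.nd (nat_lit 78) (nat_lit 608) (nat_lit 0) (XT.lf (nat_lit 0) (nat_lit 7153910545) (nat_lit 608) (nat_lit 1879918705) (nat_lit 684) (nat_lit 4947450) (nat_lit 237) (nat_lit 5) (nat_lit 245) (nat_lit 5) (nat_lit 246) (nat_lit 5) (nat_lit 446) (nat_lit 372) (nat_lit 322)) (XT.lf (nat_lit 0) (nat_lit 2967241943) (nat_lit 608) (nat_lit 4787936565) (nat_lit 76) (nat_lit 1370599068) (nat_lit 229) (nat_lit 5) (nat_lit 237) (nat_lit 5) (nat_lit 230) (nat_lit 5)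 (nat_lit 447) (nat_lit 372) (nat_lit 321))))) (XT.nd (nat_lit 234) (nat_lit 1064) (nat_lit 0) (XT.nd (nat_lit 78) (nat_lit 608) (nat_lit 0) (XT.lf (nat_lit 0) (nat_lit 1450397199) (nat_lit 532) (nat_lit 4543697053) (nat_lit 608) (nat_lit 3220526733) (nat_lit 222) (nat_lit 5) (nat_lit 229) (nat_lit 5) (nat_lit 230) (nat_lit 5) (nat_lit 448) (nat_lit 372) (nat_lit 320)) (XT.nd (nat_lit 78) (nat_lit 608) (nat_lit 0) (XT.lf (nat_lit 0) (nat_lit 7826398378) (nat_lit 532) (nat_lit 1248334404) (nat_lit 608) (nat_lit 230652199) (nat_lit 222) (nat_lit 5) (nat_lit 229) (nat_lit 5) (nat_lit 230) (nat_lit 5) (nat_lit 449) (nat_lit 372) (nat_lit 319)) (XT.lf (nat_lit 0) (nat_lit 2789623261) (nat_lit 608) (nat_lit 4484932779) (nat_lit 76) (nat_lit 2122899018) (nat_lit 214) (nat_lit 5) (nat_lit 222) (nat_lit 5) (nat_lit 215) (nat_lit 5) (nat_lit 450) (nat_lit 372) (nat_lit 318)))) (XT.nd (nat_lit 78) (nat_lit 532) (nat_lit 0) (XT.lf (nat_lit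 0) (nat_lit 1924275621) (nat_lit 532) (nat_lit 3935650100) (nat_lit 608) (nat_lit 3631564325) (nat_lit 207) (nat_lit 5) (nat_lit 214) (nat_lit 5) (nat_lit 215) (nat_lit 5) (nat_lit 451) (nat_lit 372) (nat_lit 317)) (XT.nd (nat_lit 78) (nat_lit 532) (nat_lit 0) (XT.lf (nat_lit 0) (nat_lit 8470961091) (nat_lit 532) (nat_lit 513136723) (nat_lit 608) (nat_lit 603466688) (nat_lit 207) (nat_lit 5) (nat_lit 214) (nat_lit 5) (nat_lit 215) (nat_lit 5) (nat_lit 452) (nat_lit 372) (nat_lit 316)) (XT.lf (nat_lit 0) (nat_lit 2470537617) (nat_lit 532) (nat_lit 4237264747) (nat_lit 76) (nat_lit 2977084333) (nat_lit 200) (nat_lit 5) (nat_lit 207) (nat_lit 5) (nat_lit 201) (nat_lit 5) (nat_lit 453) (nat_lit 372) (nat_lit 315)))))) (XT.nd (nat_lit 390) (nat_lit 1900) (nat_lit 0) (XT.nd (nat_lit 156) (nat_lit 988) (nat_lit 0) (XT.nd (nat_lit 78) (nat_lit 0) (nat_lit 0) (XT.lf (nat_lit 0) (nat_lit 2346279904) (nat_lit 532) (nat_lit 3241005979)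 (nat_lit 608) (nat_lit 4197010367) (nat_lit 193) (nat_lit 5) (nat_lit 200) (nat_lit 5) (nat_lit 201) (nat_lit 5) (nat_lit 454) (nat_lit 372) (nat_lit 314)) (XT.lf (nat_lit 0) (nat_lit 8760367161) (nat_lit 608) (nat_lit 819911391) (nat_lit 76) (nat_lit 305542906) (nat_lit 193) (nat_lit 5) (nat_lit 201) (nat_lit 5) (nat_lit 194) (nat_lit 5) (nat_lit 455) (nat_lit 372) (nat_lit 313))) (XT.nd (nat_lit 78) (nat_lit 456) (nat_lit 0) (XT.lf (nat_lit 0) (nat_lit 2005538800) (nat_lit 532) (nat_lit 4065749121) (nat_lit 76) (nat_lit 3917349005) (nat_lit 186) (nat_lit 5) (nat_lit 193) (nat_lit 5) (nat_lit 187) (nat_lit 5) (nat_lit 456) (nat_lit 372) (nat_lit 312)) (XT.nd (nat_lit 78) (nat_lit 0) (nat_lit 0) (XT.lf (nat_lit 0) (nat_lit 2695368245) (nat_lit 456) (nat_lit 2476076407) (nat_lit 532) (nat_lit 4922175011) (nat_lit 180) (nat_lit 5) (nat_lit 186) (nat_lit 5) (nat_lit 187) (nat_lit 5) (nat_lit 457) (nat_lit 372) (nat_lit 311)) (XT.lf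 (nat_lit 0) (nat_lit 8400450113) (nat_lit 532) (nat_lit 612281780) (nat_lit 76) (nat_lit 1187981396) (nat_lit 180) (nat_lit 5) (nat_lit 187) (nat_lit 5) (nat_lit 181) (nat_lit 5) (nat_lit 458) (nat_lit 372) (nat_lit 310))))) (XT.nd (nat_lit 234) (nat_lit 912) (nat_lit 0) (XT.nd (nat_lit 78) (nat_lit 456) (nat_lit 0) (XT.lf (nat_lit 0) (nat_lit 1388827339) (nat_lit 532) (nat_lit 3992693591) (nat_lit 76) (nat_lit 4927796863) (nat_lit 173) (nat_lit 5) (nat_lit 180) (nat_lit 5) (nat_lit 174) (nat_lit 5) (nat_lit 459) (nat_lit 372) (nat_lit 309)) (XT.nd (nat_lit 78) (nat_lit 0) (nat_lit 0) (XT.lf (nat_lit 0) (nat_lit 2948953898) (nat_lit 456) (nat_lit 1657348207) (nat_lit 532) (nat_lit 5813786596) (nat_lit 167) (nat_lit 5) (nat_lit 173) (nat_lit 5) (nat_lit 174) (nat_lit 5) (nat_lit 460) (nat_lit 372) (nat_lit 308)) (XT.lf (nat_lit 0) (nat_lit 7894656126) (nat_lit 532) (nat_lit 513491328) (nat_lit 76) (nat_lit 2124803319) (nat_lit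 167) (nat_lit 5) (nat_lit 174) (nat_lit 5) (nat_lit 168) (nat_lit 5) (nat_lit 461) (nat_lit 372) (nat_lit 307)))) (XT.nd (nat_lit 78) (nat_lit 456) (nat_lit 0) (XT.lf (nat_lit 0) (nat_lit 613175947) (nat_lit 456) (nat_lit 4042130485) (nat_lit 76) (nat_lit 5992284800) (nat_lit 161) (nat_lit 5) (nat_lit 167) (nat_lit 5) (nat_lit 162) (nat_lit 5) (nat_lit 462) (nat_lit 372) (nat_lit 306)) (XT.nd (nat_lit 78) (nat_lit 0) (nat_lit 0) (XT.lf (nat_lit 0) (nat_lit 3082665389) (nat_lit 456) (nat_lit 801644586) (nat_lit 532) (nat_lit 6880072501) (nat_lit 155) (nat_lit 5) (nat_lit 161) (nat_lit 5) (nat_lit 162) (nat_lit 5) (nat_lit 463) (nat_lit 372) (nat_lit 305)) (XT.lf (nat_lit 0) (nat_lit 7235165933) (nat_lit 532) (nat_lit 548519713) (nat_lit 76) (nat_lit 3099543770) (nat_lit 155) (nat_lit 5) (nat_lit 162) (nat_lit 5) (nat_lit 156) (nat_lit 5) (nat_lit 464) (nat_lit 372) (nat_lit 304))))))) (XT.nd (nat_lit 858) (nat_lit 2280) (nat_lit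 0) (XT.nd (nat_lit 390) (nat_lit 1444) (nat_lit 0) (XT.nd (nat_lit 156) (nat_lit 836) (nat_lit 0) (XT.nd (nat_lit 78) (nat_lit 456) (nat_lit 0) (XT.lf (nat_lit 0) (nat_lit 6761886430) (nat_lit 380) (nat_lit 3907696158) (nat_lit 456) (nat_lit 334545580) (nat_lit 150) (nat_lit 5) (nat_lit 155) (nat_lit 5) (nat_lit 156) (nat_lit 5) (nat_lit 465) (nat_lit 372) (nat_lit 303)) (XT.lf (nat_lit 0) (nat_lit 2996858479) (nat_lit 456) (nat_lit 8057625267) (nat_lit 76) (nat_lit 72740138) (nat_lit 144) (nat_lit 5) (nat_lit 150) (nat_lit 5) (nat_lit 145) (nat_lit 5) (nat_lit 466) (nat_lit 372) (nat_lit 302))) (XT.nd (nat_lit 78) (nat_lit 836) (nat_lit 0) (XT.lf (nat_lit 0) (nat_lit 6412604489) (nat_lit 456) (nat_lit 744482953) (nat_lit 76) (nat_lit 4095211388) (nat_lit 144) (nat_lit 5) (nat_lit 150) (nat_lit 5) (nat_lit 145) (nat_lit 5) (nat_lit 467) (nat_lit 372) (nat_lit 301)) (XT.nd (nat_lit 78) (nat_lit 456) (nat_lit 0) (XT.lf (nat_lit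 0) (nat_lit 6755315034) (nat_lit 380) (nat_lit 3153498865) (nat_lit 456) (nat_lit 1470823712) (nat_lit 139) (nat_lit 5) (nat_lit 144) (nat_lit 5) (nat_lit 145) (nat_lit 5) (nat_lit 468) (nat_lit 372) (nat_lit 300)) (XT.lf (nat_lit 0) (nat_lit 1937950181) (nat_lit 456) (nat_lit 8633127794) (nat_lit 76) (nat_lit 938229018) (nat_lit 133) (nat_lit 5) (nat_lit 139) (nat_lit 5) (nat_lit 134) (nat_lit 5) (nat_lit 469) (nat_lit 372) (nat_lit 299))))) (XT.nd (nat_lit 234) (nat_lit 684) (nat_lit 0) (XT.nd (nat_lit 78) (nat_lit 760) (nat_lit 0) (XT.lf (nat_lit 0) (nat_lit 5415931072) (nat_lit 456) (nat_lit 1130921715) (nat_lit 76) (nat_lit 5094113016) (nat_lit 133) (nat_lit 5) (nat_lit 139) (nat_lit 5) (nat_lit 134) (nat_lit 5) (nat_lit 470) (nat_lit 372) (nat_lit 298)) (XT.nd (nat_lit 78) (nat_lit 456) (nat_lit 0) (XT.lf (nat_lit 0) (nat_lit 6559795355) (nat_lit 304) (nat_lit 2415468919) (nat_lit 380) (nat_lit 2799762562) (nat_lit 129)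 (nat_lit 5) (nat_lit 133) (nat_lit 5) (nat_lit 134) (nat_lit 5) (nat_lit 471) (nat_lit 372) (nat_lit 297)) (XT.lf (nat_lit 0) (nat_lit 689756104) (nat_lit 456) (nat_lit 9435122804) (nat_lit 76) (nat_lit 1786707909) (nat_lit 123) (nat_lit 5) (nat_lit 129) (nat_lit 5) (nat_lit 124) (nat_lit 5) (nat_lit 472) (nat_lit 372) (nat_lit 296)))) (XT.nd (nat_lit 78) (nat_lit 684) (nat_lit 0) (XT.lf (nat_lit 0) (nat_lit 4232313749) (nat_lit 456) (nat_lit 1740115718) (nat_lit 76) (nat_lit 6077668273) (nat_lit 123) (nat_lit 5) (nat_lit 129) (nat_lit 5) (nat_lit 124) (nat_lit 5) (nat_lit 473) (nat_lit 372) (nat_lit 295)) (XT.nd (nat_lit 78) (nat_lit 380) (nat_lit 0) (XT.lf (nat_lit 0) (nat_lit 6142433781) (nat_lit 304) (nat_lit 1713245188) (nat_lit 380) (nat_lit 4335505310) (nat_lit 119) (nat_lit 5) (nat_lit 123) (nat_lit 5) (nat_lit 124) (nat_lit 5) (nat_lit 474) (nat_lit 372) (nat_lit 294)) (XT.lf (nat_lit 0) (nat_lit 1831122905) (nat_lit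 380) (nat_lit 9731364514) (nat_lit 456) (nat_lit 772390051) (nat_lit 114) (nat_lit 5) (nat_lit 119) (nat_lit 5) (nat_lit 120) (nat_lit 5) (nat_lit 475) (nat_lit 372) (nat_lit 293)))))) (XT.nd (nat_lit 468) (nat_lit 1216) (nat_lit 0) (XT.nd (nat_lit 234) (nat_lit 380) (nat_lit 0) (XT.nd (nat_lit 78) (nat_lit 608) (nat_lit 0) (XT.lf (nat_lit 0) (nat_lit 2846986889) (nat_lit 456) (nat_lit 2607427259) (nat_lit 76) (nat_lit 7026212308) (nat_lit 113) (nat_lit 5) (nat_lit 119) (nat_lit 5) (nat_lit 114) (nat_lit 5) (nat_lit 476) (nat_lit 372) (nat_lit 292)) (XT.nd (nat_lit 78) (nat_lit 304) (nat_lit 0) (XT.lf (nat_lit 0) (nat_lit 5467155334) (nat_lit 304) (nat_lit 1067671321) (nat_lit 380) (nat_lit 6094237488) (nat_lit 109) (nat_lit 5) (nat_lit 113) (nat_lit 5) (nat_lit 114) (nat_lit 5) (nat_lit 477) (nat_lit 372) (nat_lit 291)) (XT.lf (nat_lit 0) (nat_lit 901619437) (nat_lit 304) (nat_lit 9411462271) (nat_lit 380) (nat_lit 2467059806)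 (nat_lit 105) (nat_lit 5) (nat_lit 109) (nat_lit 5) (nat_lit 110) (nat_lit 5) (nat_lit 478) (nat_lit 372) (nat_lit 290)))) (XT.nd (nat_lit 78) (nat_lit 304) (nat_lit 0) (XT.lf (nat_lit 0) (nat_lit 1243090239) (nat_lit 380) (nat_lit 3771677246) (nat_lit 76) (nat_lit 7918784917) (nat_lit 104) (nat_lit 5) (nat_lit 109) (nat_lit 5) (nat_lit 105) (nat_lit 5) (nat_lit 479) (nat_lit 372) (nat_lit 289)) (XT.nd (nat_lit 78) (nat_lit 0) (nat_lit 0) (XT.lf (nat_lit 0) (nat_lit 4494316361) (nat_lit 304) (nat_lit 501015975) (nat_lit 380) (nat_lit 8094358431) (nat_lit 100) (nat_lit 5) (nat_lit 104) (nat_lit 5) (nat_lit 105) (nat_lit 5) (nat_lit 480) (nat_lit 372) (nat_lit 288)) (XT.lf (nat_lit 0) (nat_lit 8846596800) (nat_lit 380) (nat_lit 344242880) (nat_lit 76) (nat_lit 4057636458) (nat_lit 100) (nat_lit 5) (nat_lit 105) (nat_lit 5) (nat_lit 101) (nat_lit 5) (nat_lit 481) (nat_lit 372) (nat_lit 287))))) (XT.nd (nat_lit 234) (nat_lit 608)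 (nat_lit 0) (XT.nd (nat_lit 78) (nat_lit 304) (nat_lit 0) (XT.lf (nat_lit 0) (nat_lit 8130375593) (nat_lit 304) (nat_lit 4673028995) (nat_lit 380) (nat_lit 606465981) (nat_lit 96) (nat_lit 5) (nat_lit 100) (nat_lit 5) (nat_lit 101) (nat_lit 5) (nat_lit 482) (nat_lit 372) (nat_lit 286)) (XT.nd (nat_lit 78) (nat_lit 0) (nat_lit 0) (XT.lf (nat_lit 0) (nat_lit 3180279803) (nat_lit 228) (nat_lit 37209798) (nat_lit 304) (nat_lit 10356673844) (nat_lit 92) (nat_lit 5) (nat_lit 95) (nat_lit 5) (nat_lit 96) (nat_lit 5) (nat_lit 483) (nat_lit 372) (nat_lit 285)) (XT.lf (nat_lit 0) (nat_lit 7148549789) (nat_lit 304) (nat_lit 1939992703) (nat_lit 76) (nat_lit 4652348089) (nat_lit 92) (nat_lit 5) (nat_lit 96) (nat_lit 5) (nat_lit 93) (nat_lit 5) (nat_lit 484) (nat_lit 372) (nat_lit 284)))) (XT.nd (nat_lit 78) (nat_lit 304) (nat_lit 0) (XT.lf (nat_lit 0) (nat_lit 6726772106) (nat_lit 304) (nat_lit 4448533565) (nat_lit 380) (nat_lit 2735308532)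 (nat_lit 88) (nat_lit 5) (nat_lit 92) (nat_lit 5) (nat_lit 93) (nat_lit 5) (nat_lit 485) (nat_lit 372) (nat_lit 283)) (XT.nd (nat_lit 78) (nat_lit 0) (nat_lit 0) (XT.lf (nat_lit 0) (nat_lit 1180984455) (nat_lit 304) (nat_lit 12608647026) (nat_lit 76) (nat_lit 293991569) (nat_lit 84) (nat_lit 5) (nat_lit 88) (nat_lit 5) (nat_lit 85) (nat_lit 5) (nat_lit 486) (nat_lit 372) (nat_lit 282)) (XT.lf (nat_lit 0) (nat_lit 5190340921) (nat_lit 304) (nat_lit 3947051821) (nat_lit 76) (nat_lit 5121313690) (nat_lit 84) (nat_lit 5) (nat_lit 88) (nat_lit 5) (nat_lit 85) (nat_lit 5) (nat_lit 487) (nat_lit 372) (nat_lit 281))))))))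
noncomputable def xc71 : XT := (XT.nd (nat_lit 52260) (nat_lit 0) (nat_lit 29108) (XT.nd (nat_lit 858) (nat_lit 1064) (nat_lit 0) (XT.nd (nat_lit 390) (nat_lit 1064) (nat_lit 0) (XT.nd (nat_lit 156) (nat_lit 532) (nat_lit 0) (XT.nd (nat_lit 78) (nat_lit 0) (nat_lit 0) (XT.lf (nat_lit 0) (nat_lit 4908644308) (nat_lit 304) (nat_lit 4376975149) (nat_lit 380) (nat_lit 5151560497) (nat_lit 80) (nat_lit 5) (nat_lit 84) (nat_lit 5) (nat_lit 85) (nat_lit 5) (nat_lit 488) (nat_lit 372) (nat_lit 280)) (XT.lf (nat_lit 0) (nat_lit 13466557632) (nat_lit 380) (nat_lit 670649871) (nat_lit 76) (nat_lit 481943469) (nat_lit 80) (nat_lit 5) (nat_lit 85) (nat_lit 5) (nat_lit 81) (nat_lit 5) (nat_lit 489) (nat_lit 372) (nat_lit 279))) (XT.nd (nat_lit 78) (nat_lit 228) (nat_lit 0) (XT.lf (nat_lit 0) (nat_lit 2946392493) (nat_lit 304) (nat_lit 6420151837) (nat_lit 76) (nat_lit 5436671692) (nat_lit 76) (nat_lit 5) (nat_lit 80) (nat_lit 5) (nat_lit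 77) (nat_lit 5) (nat_lit 490) (nat_lit 372) (nat_lit 278)) (XT.nd (nat_lit 78) (nat_lit 0) (nat_lit 0) (XT.lf (nat_lit 0) (nat_lit 2619933563) (nat_lit 228) (nat_lit 4488094342) (nat_lit 304) (nat_lit 7882862961) (nat_lit 73) (nat_lit 5) (nat_lit 76) (nat_lit 5) (nat_lit 77) (nat_lit 5) (nat_lit 491) (nat_lit 372) (nat_lit 277)) (XT.lf (nat_lit 0) (nat_lit 11374090254) (nat_lit 304) (nat_lit 3300011900) (nat_lit 76) (nat_lit 507796041) (nat_lit 73) (nat_lit 5) (nat_lit 77) (nat_lit 5) (nat_lit 74) (nat_lit 5) (nat_lit 492) (nat_lit 372) (nat_lit 276))))) (XT.nd (nat_lit 234) (nat_lit 532) (nat_lit 0) (XT.nd (nat_lit 78) (nat_lit 228) (nat_lit 0) (XT.lf (nat_lit 0) (nat_lit 388025429) (nat_lit 304) (nat_lit 9419737470) (nat_lit 76) (nat_lit 5568043222) (nat_lit 69) (nat_lit 5) (nat_lit 73) (nat_lit 5) (nat_lit 70) (nat_lit 5) (nat_lit 493) (nat_lit 372) (nat_lit 275)) (XT.nd (nat_lit 78) (nat_lit 228) (nat_lit 0) (XT.lf (nat_lit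 0) (nat_lit 4614333066) (nat_lit 304) (nat_lit 198671579) (nat_lit 76) (nat_lit 10760135991) (nat_lit 69) (nat_lit 5) (nat_lit 73) (nat_lit 5) (nat_lit 70) (nat_lit 5) (nat_lit 494) (nat_lit 372) (nat_lit 274)) (XT.lf (nat_lit 0) (nat_lit 8963274699) (nat_lit 304) (nat_lit 6488537071) (nat_lit 76) (nat_lit 321850567) (nat_lit 66) (nat_lit 5) (nat_lit 70) (nat_lit 5) (nat_lit 67) (nat_lit 5) (nat_lit 495) (nat_lit 372) (nat_lit 273)))) (XT.nd (nat_lit 78) (nat_lit 304) (nat_lit 0) (XT.lf (nat_lit 0) (nat_lit 2948472520) (nat_lit 228) (nat_lit 10478873389) (nat_lit 304) (nat_lit 2550288149) (nat_lit 63) (nat_lit 5) (nat_lit 66) (nat_lit 5) (nat_lit 67) (nat_lit 5) (nat_lit 496) (nat_lit 372) (nat_lit 272)) (XT.nd (nat_lit 78) (nat_lit 228) (nat_lit 0) (XT.lf (nat_lit 0) (nat_lit 1791138290) (nat_lit 304) (nat_lit 3576069502) (nat_lit 76) (nat_lit 10817853495) (nat_lit 62) (nat_lit 5) (nat_lit 66) (nat_lit 5) (nat_lit 63) (nat_lit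 5) (nat_lit 497) (nat_lit 372) (nat_lit 271)) (XT.lf (nat_lit 0) (nat_lit 6088370137) (nat_lit 228) (nat_lit 112747235) (nat_lit 304) (nat_lit 10194867541) (nat_lit 59) (nat_lit 5) (nat_lit 62) (nat_lit 5) (nat_lit 63) (nat_lit 5) (nat_lit 498) (nat_lit 372) (nat_lit 270)))))) (XT.nd (nat_lit 390) (nat_lit 456) (nat_lit 0) (XT.nd (nat_lit 156) (nat_lit 456) (nat_lit 0) (XT.nd (nat_lit 78) (nat_lit 152) (nat_lit 0) (XT.lf (nat_lit 0) (nat_lit 10733921090) (nat_lit 304) (nat_lit 691068244) (nat_lit 76) (nat_lit 5185447581) (nat_lit 59) (nat_lit 5) (nat_lit 63) (nat_lit 5) (nat_lit 60) (nat_lit 5) (nat_lit 499) (nat_lit 372) (nat_lit 269)) (XT.lf (nat_lit 0) (nat_lit 9197722066) (nat_lit 152) (nat_lit 6196988980) (nat_lit 228) (nat_lit 1433722661) (nat_lit 57) (nat_lit 5) (nat_lit 59) (nat_lit 5) (nat_lit 60) (nat_lit 5) (nat_lit 500) (nat_lit 372) (nat_lit 268))) (XT.nd (nat_lit 78) (nat_lit 152) (nat_lit 0) (XT.lf (nat_lit 0)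 (nat_lit 2211805377) (nat_lit 228) (nat_lit 841427177) (nat_lit 304) (nat_lit 13997239150) (nat_lit 53) (nat_lit 5) (nat_lit 56) (nat_lit 5) (nat_lit 57) (nat_lit 5) (nat_lit 501) (nat_lit 372) (nat_lit 267)) (XT.nd (nat_lit 78) (nat_lit 152) (nat_lit 0) (XT.lf (nat_lit 0) (nat_lit 7669289328) (nat_lit 304) (nat_lit 5001259383) (nat_lit 76) (nat_lit 4605043230) (nat_lit 53) (nat_lit 5) (nat_lit 57) (nat_lit 5) (nat_lit 54) (nat_lit 5) (nat_lit 502) (nat_lit 372) (nat_lit 266)) (XT.lf (nat_lit 0) (nat_lit 5054293729) (nat_lit 152) (nat_lit 7339205481) (nat_lit 228) (nat_lit 5111400909) (nat_lit 51) (nat_lit 5) (nat_lit 53) (nat_lit 5) (nat_lit 54) (nat_lit 5) (nat_lit 503) (nat_lit 372) (nat_lit 265))))) (XT.nd (nat_lit 50778) (nat_lit 0) (nat_lit 48108) (XT.nd (nat_lit 78) (nat_lit 456) (nat_lit 0) (XT.lf (nat_lit 0) (nat_lit 15339692384) (nat_lit 152) (nat_lit 1883694452) (nat_lit 228) (nat_lit 515185888) (nat_lit 51) (nat_lit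 5) (nat_lit 53) (nat_lit 5) (nat_lit 54) (nat_lit 5) (nat_lit 504) (nat_lit 372) (nat_lit 264)) (XT.nd (nat_lit 78) (nat_lit 152) (nat_lit 0) (XT.lf (nat_lit 0) (nat_lit 4171696860) (nat_lit 304) (nat_lit 10108407062) (nat_lit 76) (nat_lit 3695205588) (nat_lit 47) (nat_lit 5) (nat_lit 51) (nat_lit 5) (nat_lit 48) (nat_lit 5) (nat_lit 505) (nat_lit 372) (nat_lit 263)) (XT.lf (nat_lit 0) (nat_lit 100719281) (nat_lit 152) (nat_lit 8852040156) (nat_lit 228) (nat_lit 9263808688) (nat_lit 45) (nat_lit 5) (nat_lit 47) (nat_lit 5) (nat_lit 48) (nat_lit 5) (nat_lit 506) (nat_lit 372) (nat_lit 262)))) (XT.nd (nat_lit 78) (nat_lit 684) (nat_lit 0) (XT.lf (nat_lit 0) (nat_lit 1650420897) (nat_lit 532) (nat_lit 809057733) (nat_lit 532) (nat_lit 809057733) (nat_lit 687) (nat_lit 4) (nat_lit 694) (nat_lit 5) (nat_lit 694) (nat_lit 4) (nat_lit 394) (nat_lit 373) (nat_lit 373)) (XT.nd (nat_lit 78) (nat_lit 0) (nat_lit 0) (XT.lf (nat_lit 0) (nat_lit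 594853463) (nat_lit 608) (nat_lit 947531096) (nat_lit 684) (nat_lit 5009024672) (nat_lit 678) (nat_lit 5) (nat_lit 686) (nat_lit 5) (nat_lit 687) (nat_lit 4) (nat_lit 395) (nat_lit 373) (nat_lit 372)) (XT.lf (nat_lit 0) (nat_lit 4484601327) (nat_lit 608) (nat_lit 206834955) (nat_lit 684) (nat_lit 1875478321) (nat_lit 678) (nat_lit 5) (nat_lit 686) (nat_lit 5) (nat_lit 687) (nat_lit 4) (nat_lit 396) (nat_lit 373) (nat_lit 371))))))) (XT.nd (nat_lit 858) (nat_lit 12236) (nat_lit 0) (XT.nd (nat_lit 390) (nat_lit 4256) (nat_lit 0) (XT.nd (nat_lit 156) (nat_lit 1748) (nat_lit 0) (XT.nd (nat_lit 78) (nat_lit 0) (nat_lit 0) (XT.lf (nat_lit 0) (nat_lit 1245455581) (nat_lit 760) (nat_lit 4753766979) (nat_lit 76) (nat_lit 584530062) (nat_lit 668) (nat_lit 5) (nat_lit 678) (nat_lit 5) (nat_lit 669) (nat_lit 4) (nat_lit 397) (nat_lit 373) (nat_lit 370)) (XT.lf (nat_lit 0) (nat_lit 4346699573) (nat_lit 760) (nat_lit 818049802) (nat_lit 76)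 (nat_lit 1437104133) (nat_lit 668) (nat_lit 5) (nat_lit 678) (nat_lit 5) (nat_lit 669) (nat_lit 4) (nat_lit 398) (nat_lit 373) (nat_lit 369))) (XT.nd (nat_lit 78) (nat_lit 912) (nat_lit 0) (XT.lf (nat_lit 0) (nat_lit 827274875) (nat_lit 836) (nat_lit 3439871479) (nat_lit 76) (nat_lit 2354101521) (nat_lit 657) (nat_lit 5) (nat_lit 668) (nat_lit 5) (nat_lit 658) (nat_lit 5) (nat_lit 399) (nat_lit 373) (nat_lit 368)) (XT.nd (nat_lit 78) (nat_lit 76) (nat_lit 0) (XT.lf (nat_lit 0) (nat_lit 571602719) (nat_lit 836) (nat_lit 3308350441) (nat_lit 912) (nat_lit 2762035050) (nat_lit 646) (nat_lit 5) (nat_lit 657) (nat_lit 5) (nat_lit 658) (nat_lit 5) (nat_lit 400) (nat_lit 373) (nat_lit 367)) (XT.lf (nat_lit 0) (nat_lit 279531052) (nat_lit 912) (nat_lit 2007547017) (nat_lit 76) (nat_lit 4376986779) (nat_lit 645) (nat_lit 5) (nat_lit 657) (nat_lit 5) (nat_lit 646) (nat_lit 5) (nat_lit 401) (nat_lit 373) (nat_lit 366))))) (XT.nd (nat_lit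 234) (nat_lit 2280) (nat_lit 0) (XT.nd (nat_lit 78) (nat_lit 1064) (nat_lit 0) (XT.lf (nat_lit 0) (nat_lit 2094251387) (nat_lit 912) (nat_lit 1195784386) (nat_lit 988) (nat_lit 3397310591) (nat_lit 633) (nat_lit 5) (nat_lit 645) (nat_lit 5) (nat_lit 646) (nat_lit 5) (nat_lit 402) (nat_lit 373) (nat_lit 365)) (XT.nd (nat_lit 78) (nat_lit 1064) (nat_lit 0) (XT.lf (nat_lit 0) (nat_lit 6254165519) (nat_lit 912) (nat_lit 52527822) (nat_lit 988) (nat_lit 405511023) (nat_lit 633) (nat_lit 5) (nat_lit 645) (nat_lit 5) (nat_lit 646) (nat_lit 5) (nat_lit 403) (nat_lit 373) (nat_lit 364)) (XT.lf (nat_lit 0) (nat_lit 2576640500) (nat_lit 1064) (nat_lit 3005147499) (nat_lit 76) (nat_lit 1156152066) (nat_lit 619) (nat_lit 5) (nat_lit 633) (nat_lit 5) (nat_lit 620) (nat_lit 5) (nat_lit 404) (nat_lit 373) (nat_lit 363)))) (XT.nd (nat_lit 78) (nat_lit 1216) (nat_lit 0) (XT.lf (nat_lit 0) (nat_lit 1210190177) (nat_lit 1064) (nat_lit 4348522734)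 (nat_lit 1140) (nat_lit 1206537805) (nat_lit 605) (nat_lit 5) (nat_lit 619) (nat_lit 5) (nat_lit 620) (nat_lit 5) (nat_lit 405) (nat_lit 373) (nat_lit 362)) (XT.nd (nat_lit 78) (nat_lit 1140) (nat_lit 0) (XT.lf (nat_lit 0) (nat_lit 1738813500) (nat_lit 1140) (nat_lit 1306699346) (nat_lit 76) (nat_lit 3748283004) (nat_lit 604) (nat_lit 5) (nat_lit 619) (nat_lit 5) (nat_lit 605) (nat_lit 5) (nat_lit 406) (nat_lit 373) (nat_lit 361)) (XT.lf (nat_lit 0) (nat_lit 3006404170) (nat_lit 1140) (nat_lit 1676221257) (nat_lit 1216) (nat_lit 2141039154) (nat_lit 589) (nat_lit 5) (nat_lit 604) (nat_lit 5) (nat_lit 605) (nat_lit 5) (nat_lit 407) (nat_lit 373) (nat_lit 360)))))) (XT.nd (nat_lit 468) (nat_lit 6688) (nat_lit 0) (XT.nd (nat_lit 234) (nat_lit 2964) (nat_lit 0) (XT.nd (nat_lit 78) (nat_lit 1292) (nat_lit 0) (XT.lf (nat_lit 0) (nat_lit 518683607) (nat_lit 1216) (nat_lit 250443120) (nat_lit 1292) (nat_lit 6085944486) (nat_lit 572)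 (nat_lit 5) (nat_lit 588) (nat_lit 5) (nat_lit 589) (nat_lit 5) (nat_lit 408) (nat_lit 373) (nat_lit 359)) (XT.nd (nat_lit 78) (nat_lit 1292) (nat_lit 0) (XT.lf (nat_lit 0) (nat_lit 3680080771) (nat_lit 1292) (nat_lit 1968858714) (nat_lit 76) (nat_lit 1238483240) (nat_lit 572) (nat_lit 5) (nat_lit 589) (nat_lit 5) (nat_lit 573) (nat_lit 5) (nat_lit 409) (nat_lit 373) (nat_lit 358)) (XT.lf (nat_lit 0) (nat_lit 2464537370) (nat_lit 1292) (nat_lit 4141224434) (nat_lit 1368) (nat_lit 315553677) (nat_lit 555) (nat_lit 5) (nat_lit 572) (nat_lit 5) (nat_lit 573) (nat_lit 5) (nat_lit 410) (nat_lit 373) (nat_lit 357)))) (XT.nd (nat_lit 78) (nat_lit 2888) (nat_lit 0) (XT.lf (nat_lit 0) (nat_lit 2552111431) (nat_lit 1368) (nat_lit 12156559) (nat_lit 76) (nat_lit 4392247740) (nat_lit 554) (nat_lit 5) (nat_lit 572) (nat_lit 5) (nat_lit 555) (nat_lit 5) (nat_lit 411) (nat_lit 373) (nat_lit 356)) (XT.nd (nat_lit 78) (nat_lit 1520) (nat_lit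 0) (XT.lf (nat_lit 0) (nat_lit 4527037781) (nat_lit 1368) (nat_lit 915741511) (nat_lit 1444) (nat_lit 1550224446) (nat_lit 536) (nat_lit 5) (nat_lit 554) (nat_lit 5) (nat_lit 555) (nat_lit 5) (nat_lit 412) (nat_lit 373) (nat_lit 355)) (XT.lf (nat_lit 0) (nat_lit 1302931415) (nat_lit 1520) (nat_lit 4942632230) (nat_lit 76) (nat_lit 785308349) (nat_lit 516) (nat_lit 5) (nat_lit 536) (nat_lit 5) (nat_lit 517) (nat_lit 5) (nat_lit 413) (nat_lit 373) (nat_lit 354))))) (XT.nd (nat_lit 234) (nat_lit 3496) (nat_lit 0) (XT.nd (nat_lit 78) (nat_lit 3192) (nat_lit 0) (XT.lf (nat_lit 0) (nat_lit 4156901382) (nat_lit 1520) (nat_lit 371608581) (nat_lit 76) (nat_lit 2541514183) (nat_lit 516) (nat_lit 5) (nat_lit 536) (nat_lit 5) (nat_lit 517) (nat_lit 5) (nat_lit 414) (nat_lit 373) (nat_lit 353)) (XT.nd (nat_lit 78) (nat_lit 1672) (nat_lit 0) (XT.lf (nat_lit 0) (nat_lit 4295249036) (nat_lit 1520) (nat_lit 2743498198) (nat_lit 1596) (nat_lit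 71817396) (nat_lit 496) (nat_lit 5) (nat_lit 516) (nat_lit 5) (nat_lit 517) (nat_lit 5) (nat_lit 415) (nat_lit 373) (nat_lit 352)) (XT.lf (nat_lit 0) (nat_lit 1862321066) (nat_lit 1596) (nat_lit 884827039) (nat_lit 1672) (nat_lit 4405263173) (nat_lit 474) (nat_lit 5) (nat_lit 495) (nat_lit 5) (nat_lit 496) (nat_lit 5) (nat_lit 416) (nat_lit 373) (nat_lit 351)))) (XT.nd (nat_lit 78) (nat_lit 3496) (nat_lit 0) (XT.lf (nat_lit 0) (nat_lit 5591213298) (nat_lit 1672) (nat_lit 583380465) (nat_lit 76) (nat_lit 1021117955) (nat_lit 474) (nat_lit 5) (nat_lit 496) (nat_lit 5) (nat_lit 475) (nat_lit 5) (nat_lit 417) (nat_lit 373) (nat_lit 350)) (XT.nd (nat_lit 78) (nat_lit 1748) (nat_lit 0) (XT.lf (nat_lit 0) (nat_lit 1214115862) (nat_lit 1748) (nat_lit 3033564796) (nat_lit 76) (nat_lit 2992488952) (nat_lit 451) (nat_lit 5) (nat_lit 474) (nat_lit 5) (nat_lit 452) (nat_lit 5) (nat_lit 418) (nat_lit 373) (nat_lit 349)) (XT.lf (nat_lit 0)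 (nat_lit 1774958302) (nat_lit 1748) (nat_lit 2253701892) (nat_lit 1824) (nat_lit 3257442351) (nat_lit 428) (nat_lit 5) (nat_lit 451) (nat_lit 5) (nat_lit 452) (nat_lit 5) (nat_lit 419) (nat_lit 373) (nat_lit 348))))))))
noncomputable def xc72 : XT := (XT.nd (nat_lit 1716) (nat_lit 7676) (nat_lit 0) (XT.nd (nat_lit 858) (nat_lit 5928) (nat_lit 0) (XT.nd (nat_lit 390) (nat_lit 3496) (nat_lit 0) (XT.nd (nat_lit 156) (nat_lit 1824) (nat_lit 0) (XT.nd (nat_lit 78) (nat_lit 1368) (nat_lit 0) (XT.lf (nat_lit 0) (nat_lit 6668590049) (nat_lit 1748) (nat_lit 197547878) (nat_lit 1824) (nat_lit 467501832) (nat_lit 428) (nat_lit 5) (nat_lit 451) (nat_lit 5) (nat_lit 452) (nat_lit 5) (nat_lit 420) (nat_lit 373) (nat_lit 347)) (XT.lf (nat_lit 0) (nat_lit 2334347842) (nat_lit 1368) (nat_lit 3128369633) (nat_lit 76) (nat_lit 1919373149) (nat_lit 410) (nat_lit 5) (nat_lit 428) (nat_lit 5) (nat_lit 411) (nat_lit 5) (nat_lit 421) (nat_lit 373)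 (nat_lit 346))) (XT.nd (nat_lit 78) (nat_lit 912) (nat_lit 0) (XT.lf (nat_lit 0) (nat_lit 1815224452) (nat_lit 912) (nat_lit 3336024853) (nat_lit 988) (nat_lit 2280911308) (nat_lit 398) (nat_lit 5) (nat_lit 410) (nat_lit 5) (nat_lit 411) (nat_lit 5) (nat_lit 422) (nat_lit 373) (nat_lit 345)) (XT.nd (nat_lit 78) (nat_lit 836) (nat_lit 0) (XT.lf (nat_lit 0) (nat_lit 503300385) (nat_lit 988) (nat_lit 639340074) (nat_lit 76) (nat_lit 6341155147) (nat_lit 397) (nat_lit 5) (nat_lit 410) (nat_lit 5) (nat_lit 398) (nat_lit 5) (nat_lit 423) (nat_lit 373) (nat_lit 344)) (XT.lf (nat_lit 0) (nat_lit 3297859336) (nat_lit 912) (nat_lit 3115157616) (nat_lit 76) (nat_lit 1123457121) (nat_lit 386) (nat_lit 5) (nat_lit 398) (nat_lit 5) (nat_lit 387) (nat_lit 5) (nat_lit 424) (nat_lit 373) (nat_lit 343))))) (XT.nd (nat_lit 234) (nat_lit 1672) (nat_lit 0) (XT.nd (nat_lit 78) (nat_lit 912) (nat_lit 0) (XT.lf (nat_lit 0) (nat_lit 1967334063) (nat_lit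 912) (nat_lit 4155320277) (nat_lit 988) (nat_lit 1468080953) (nat_lit 374) (nat_lit 5) (nat_lit 386) (nat_lit 5) (nat_lit 387) (nat_lit 5) (nat_lit 425) (nat_lit 373) (nat_lit 342)) (XT.nd (nat_lit 78) (nat_lit 836) (nat_lit 0) (XT.lf (nat_lit 0) (nat_lit 1311086208) (nat_lit 988) (nat_lit 513854431) (nat_lit 76) (nat_lit 5821559604) (nat_lit 373) (nat_lit 5) (nat_lit 386) (nat_lit 5) (nat_lit 374) (nat_lit 5) (nat_lit 426) (nat_lit 373) (nat_lit 341)) (XT.lf (nat_lit 0) (nat_lit 4111500359) (nat_lit 912) (nat_lit 3009529950) (nat_lit 76) (nat_lit 582464832) (nat_lit 362) (nat_lit 5) (nat_lit 374) (nat_lit 5) (nat_lit 363) (nat_lit 5) (nat_lit 427) (nat_lit 373) (nat_lit 340)))) (XT.nd (nat_lit 78) (nat_lit 836) (nat_lit 0) (XT.lf (nat_lit 0) (nat_lit 2215775887) (nat_lit 836) (nat_lit 4733665266) (nat_lit 912) (nat_lit 812573271) (nat_lit 351) (nat_lit 5) (nat_lit 362) (nat_lit 5) (nat_lit 363) (nat_lit 5) (nat_lit 428) (nat_lit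 373) (nat_lit 339)) (XT.nd (nat_lit 78) (nat_lit 760) (nat_lit 0) (XT.lf (nat_lit 0) (nat_lit 1968096350) (nat_lit 912) (nat_lit 301012223) (nat_lit 76) (nat_lit 5552903494) (nat_lit 350) (nat_lit 5) (nat_lit 362) (nat_lit 5) (nat_lit 351) (nat_lit 5) (nat_lit 429) (nat_lit 373) (nat_lit 338)) (XT.lf (nat_lit 0) (nat_lit 4780962274) (nat_lit 836) (nat_lit 2826932128) (nat_lit 76) (nat_lit 275472572) (nat_lit 340) (nat_lit 5) (nat_lit 351) (nat_lit 5) (nat_lit 341) (nat_lit 5) (nat_lit 430) (nat_lit 373) (nat_lit 337)))))) (XT.nd (nat_lit 390) (nat_lit 2812) (nat_lit 0) (XT.nd (nat_lit 156) (nat_lit 2280) (nat_lit 0) (XT.nd (nat_lit 78) (nat_lit 76) (nat_lit 0) (XT.lf (nat_lit 0) (nat_lit 2545174478) (nat_lit 760) (nat_lit 5091855571) (nat_lit 836) (nat_lit 309193764) (nat_lit 330) (nat_lit 5) (nat_lit 340) (nat_lit 5) (nat_lit 341) (nat_lit 5) (nat_lit 431) (nat_lit 373) (nat_lit 336)) (XT.lf (nat_lit 0) (nat_lit 2479283673)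 (nat_lit 836) (nat_lit 16184585) (nat_lit 76) (nat_lit 5515098644) (nat_lit 329) (nat_lit 5) (nat_lit 340) (nat_lit 5) (nat_lit 330) (nat_lit 5) (nat_lit 432) (nat_lit 373) (nat_lit 335))) (XT.nd (nat_lit 78) (nat_lit 1520) (nat_lit 0) (XT.lf (nat_lit 0) (nat_lit 5310799351) (nat_lit 836) (nat_lit 2582792890) (nat_lit 76) (nat_lit 182748493) (nat_lit 319) (nat_lit 5) (nat_lit 330) (nat_lit 5) (nat_lit 320) (nat_lit 5) (nat_lit 433) (nat_lit 373) (nat_lit 334)) (XT.nd (nat_lit 78) (nat_lit 684) (nat_lit 0) (XT.lf (nat_lit 0) (nat_lit 45482824) (nat_lit 836) (nat_lit 5203777152) (nat_lit 76) (nat_lit 2894361377) (nat_lit 308) (nat_lit 5) (nat_lit 319) (nat_lit 5) (nat_lit 309) (nat_lit 5) (nat_lit 434) (nat_lit 373) (nat_lit 333)) (XT.lf (nat_lit 0) (nat_lit 329521671) (nat_lit 684) (nat_lit 2521079010) (nat_lit 760) (nat_lit 5361795410) (nat_lit 299) (nat_lit 5) (nat_lit 308) (nat_lit 5) (nat_lit 309) (nat_lit 5) (nat_lit 435)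 (nat_lit 373) (nat_lit 332))))) (XT.nd (nat_lit 234) (nat_lit 1368) (nat_lit 0) (XT.nd (nat_lit 78) (nat_lit 1444) (nat_lit 0) (XT.lf (nat_lit 0) (nat_lit 5704441645) (nat_lit 760) (nat_lit 2292666466) (nat_lit 76) (nat_lit 285597745) (nat_lit 299) (nat_lit 5) (nat_lit 309) (nat_lit 5) (nat_lit 300) (nat_lit 5) (nat_lit 436) (nat_lit 373) (nat_lit 331)) (XT.nd (nat_lit 78) (nat_lit 684) (nat_lit 0) (XT.lf (nat_lit 0) (nat_lit 252785168) (nat_lit 760) (nat_lit 4971019360) (nat_lit 76) (nat_lit 3130689494) (nat_lit 289) (nat_lit 5) (nat_lit 299) (nat_lit 5) (nat_lit 290) (nat_lit 5) (nat_lit 437) (nat_lit 373) (nat_lit 330)) (XT.lf (nat_lit 0) (nat_lit 716912815) (nat_lit 684) (nat_lit 2366051897) (nat_lit 760) (nat_lit 5344883008) (nat_lit 280) (nat_lit 5) (nat_lit 289) (nat_lit 5) (nat_lit 290) (nat_lit 5) (nat_lit 438) (nat_lit 373) (nat_lit 329)))) (XT.nd (nat_lit 78) (nat_lit 1368) (nat_lit 0) (XT.lf (nat_lit 0) (nat_lit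 5964199135) (nat_lit 760) (nat_lit 1972379288) (nat_lit 76) (nat_lit 566212082) (nat_lit 280) (nat_lit 5) (nat_lit 290) (nat_lit 5) (nat_lit 281) (nat_lit 5) (nat_lit 439) (nat_lit 373) (nat_lit 328)) (XT.nd (nat_lit 78) (nat_lit 608) (nat_lit 0) (XT.lf (nat_lit 0) (nat_lit 318466435) (nat_lit 760) (nat_lit 4716948991) (nat_lit 76) (nat_lit 3543807531) (nat_lit 270) (nat_lit 5) (nat_lit 280) (nat_lit 5) (nat_lit 271) (nat_lit 5) (nat_lit 440) (nat_lit 373) (nat_lit 327)) (XT.lf (nat_lit 0) (nat_lit 1129577764) (nat_lit 608) (nat_lit 2048134521) (nat_lit 684) (nat_lit 5479565802) (nat_lit 262) (nat_lit 5) (nat_lit 270) (nat_lit 5) (nat_lit 271) (nat_lit 5) (nat_lit 441) (nat_lit 373) (nat_lit 326))))))) (XT.nd (nat_lit 858) (nat_lit 3496) (nat_lit 0) (XT.nd (nat_lit 390) (nat_lit 2204) (nat_lit 0) (XT.nd (nat_lit 156) (nat_lit 1292) (nat_lit 0) (XT.nd (nat_lit 78) (nat_lit 684) (nat_lit 0) (XT.lf (nat_lit 0) (nat_lit 6091256962)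 (nat_lit 684) (nat_lit 1638182482) (nat_lit 76) (nat_lit 1007522793) (nat_lit 262) (nat_lit 5) (nat_lit 271) (nat_lit 5) (nat_lit 263) (nat_lit 5) (nat_lit 442) (nat_lit 373) (nat_lit 325)) (XT.lf (nat_lit 0) (nat_lit 243077466) (nat_lit 684) (nat_lit 4458232349) (nat_lit 76) (nat_lit 4116879144) (nat_lit 253) (nat_lit 5) (nat_lit 262) (nat_lit 5) (nat_lit 254) (nat_lit 5) (nat_lit 443) (nat_lit 373) (nat_lit 324))) (XT.nd (nat_lit 78) (nat_lit 684) (nat_lit 0) (XT.lf (nat_lit 0) (nat_lit 1550804388) (nat_lit 608) (nat_lit 1584335682) (nat_lit 684) (nat_lit 5765941388) (nat_lit 245) (nat_lit 5) (nat_lit 253) (nat_lit 5) (nat_lit 254) (nat_lit 5) (nat_lit 444) (nat_lit 373) (nat_lit 323)) (XT.nd (nat_lit 78) (nat_lit 684) (nat_lit 0) (XT.lf (nat_lit 0) (nat_lit 6085661555) (nat_lit 684) (nat_lit 1306911474) (nat_lit 76) (nat_lit 1593055846) (nat_lit 245) (nat_lit 5) (nat_lit 254) (nat_lit 5) (nat_lit 246) (nat_lit 5) (nat_lit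 445) (nat_lit 373) (nat_lit 322)) (XT.lf (nat_lit 0) (nat_lit 26004426) (nat_lit 684) (nat_lit 4212185090) (nat_lit 76) (nat_lit 4833624070) (nat_lit 236) (nat_lit 5) (nat_lit 245) (nat_lit 5) (nat_lit 237) (nat_lit 5) (nat_lit 446) (nat_lit 373) (nat_lit 321))))) (XT.nd (nat_lit 234) (nat_lit 1140) (nat_lit 0) (XT.nd (nat_lit 78) (nat_lit 532) (nat_lit 0) (XT.lf (nat_lit 0) (nat_lit 1963197561) (nat_lit 532) (nat_lit 991180414) (nat_lit 608) (nat_lit 6205315258) (nat_lit 229) (nat_lit 5) (nat_lit 236) (nat_lit 5) (nat_lit 237) (nat_lit 5) (nat_lit 447) (nat_lit 373) (nat_lit 320)) (XT.nd (nat_lit 78) (nat_lit 532) (nat_lit 0) (XT.lf (nat_lit 0) (nat_lit 5946297362) (nat_lit 608) (nat_lit 996154172) (nat_lit 76) (nat_lit 2306788075) (nat_lit 229) (nat_lit 5) (nat_lit 237) (nat_lit 5) (nat_lit 230) (nat_lit 5) (nat_lit 448) (nat_lit 373) (nat_lit 319)) (XT.lf (nat_lit 0) (nat_lit 5341370338) (nat_lit 532) (nat_lit 3660141592)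 (nat_lit 608) (nat_lit 339004380) (nat_lit 222) (nat_lit 5) (nat_lit 229) (nat_lit 5) (nat_lit 230) (nat_lit 5) (nat_lit 449) (nat_lit 373) (nat_lit 318)))) (XT.nd (nat_lit 78) (nat_lit 532) (nat_lit 0) (XT.lf (nat_lit 0) (nat_lit 2348502725) (nat_lit 532) (nat_lit 284856248) (nat_lit 608) (nat_lit 6800232206) (nat_lit 214) (nat_lit 5) (nat_lit 221) (nat_lit 5) (nat_lit 222) (nat_lit 5) (nat_lit 450) (nat_lit 373) (nat_lit 317)) (XT.nd (nat_lit 78) (nat_lit 532) (nat_lit 0) (XT.lf (nat_lit 0) (nat_lit 5670853783) (nat_lit 608) (nat_lit 724429230) (nat_lit 76) (nat_lit 3133003288) (nat_lit 214) (nat_lit 5) (nat_lit 222) (nat_lit 5) (nat_lit 215) (nat_lit 5) (nat_lit 451) (nat_lit 373) (nat_lit 316)) (XT.lf (nat_lit 0) (nat_lit 5787633061) (nat_lit 532) (nat_lit 2984362090) (nat_lit 608) (nat_lit 852830123) (nat_lit 207) (nat_lit 5) (nat_lit 214) (nat_lit 5) (nat_lit 215) (nat_lit 5) (nat_lit 452) (nat_lit 373) (nat_lit 315))))))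 (XT.nd (nat_lit 390) (nat_lit 1900) (nat_lit 0) (XT.nd (nat_lit 156) (nat_lit 1064) (nat_lit 0) (XT.nd (nat_lit 78) (nat_lit 0) (nat_lit 0) (XT.lf (nat_lit 0) (nat_lit 2172146144) (nat_lit 532) (nat_lit 7039245992) (nat_lit 76) (nat_lit 511837435) (nat_lit 200) (nat_lit 5) (nat_lit 207) (nat_lit 5) (nat_lit 201) (nat_lit 5) (nat_lit 453) (nat_lit 373) (nat_lit 314)) (XT.lf (nat_lit 0) (nat_lit 5255781876) (nat_lit 532) (nat_lit 511376072) (nat_lit 76) (nat_lit 4056147101) (nat_lit 200) (nat_lit 5) (nat_lit 207) (nat_lit 5) (nat_lit 201) (nat_lit 5) (nat_lit 454) (nat_lit 373) (nat_lit 313))) (XT.nd (nat_lit 78) (nat_lit 532) (nat_lit 0) (XT.lf (nat_lit 0) (nat_lit 6178769511) (nat_lit 532) (nat_lit 2227030194) (nat_lit 608) (nat_lit 1519495429) (nat_lit 193) (nat_lit 5) (nat_lit 200) (nat_lit 5) (nat_lit 201) (nat_lit 5) (nat_lit 455) (nat_lit 373) (nat_lit 312)) (XT.nd (nat_lit 78) (nat_lit 0) (nat_lit 0) (XT.lf (nat_lit 0)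 (nat_lit 1565156386) (nat_lit 532) (nat_lit 7079094115) (nat_lit 76) (nat_lit 1384944917) (nat_lit 186) (nat_lit 5) (nat_lit 193) (nat_lit 5) (nat_lit 187) (nat_lit 5) (nat_lit 456) (nat_lit 373) (nat_lit 311)) (XT.lf (nat_lit 0) (nat_lit 4696240262) (nat_lit 532) (nat_lit 377958445) (nat_lit 76) (nat_lit 5060679286) (nat_lit 186) (nat_lit 5) (nat_lit 193) (nat_lit 5) (nat_lit 187) (nat_lit 5) (nat_lit 457) (nat_lit 373) (nat_lit 310))))) (XT.nd (nat_lit 234) (nat_lit 912) (nat_lit 0) (XT.nd (nat_lit 78) (nat_lit 532) (nat_lit 0) (XT.lf (nat_lit 0) (nat_lit 6493584521) (nat_lit 456) (nat_lit 1404217880) (nat_lit 532) (nat_lit 2344721414) (nat_lit 180) (nat_lit 5) (nat_lit 186) (nat_lit 5) (nat_lit 187) (nat_lit 5) (nat_lit 458) (nat_lit 373) (nat_lit 309)) (XT.nd (nat_lit 78) (nat_lit 0) (nat_lit 0) (XT.lf (nat_lit 0) (nat_lit 804492823) (nat_lit 532) (nat_lit 7225305964) (nat_lit 76) (nat_lit 2322343772) (nat_lit 173) (nat_lit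 5) (nat_lit 180) (nat_lit 5) (nat_lit 174) (nat_lit 5) (nat_lit 459) (nat_lit 373) (nat_lit 308)) (XT.lf (nat_lit 0) (nat_lit 3986029588) (nat_lit 532) (nat_lit 346683405) (nat_lit 76) (nat_lit 6130922373) (nat_lit 173) (nat_lit 5) (nat_lit 180) (nat_lit 5) (nat_lit 174) (nat_lit 5) (nat_lit 460) (nat_lit 373) (nat_lit 307)))) (XT.nd (nat_lit 78) (nat_lit 456) (nat_lit 0) (XT.lf (nat_lit 0) (nat_lit 6709284770) (nat_lit 456) (nat_lit 532219814) (nat_lit 532) (nat_lit 3335653511) (nat_lit 167) (nat_lit 5) (nat_lit 173) (nat_lit 5) (nat_lit 174) (nat_lit 5) (nat_lit 461) (nat_lit 373) (nat_lit 306)) (XT.nd (nat_lit 78) (nat_lit 76) (nat_lit 0) (XT.lf (nat_lit 0) (nat_lit 3189802982) (nat_lit 380) (nat_lit 7384041611) (nat_lit 456) (nat_lit 118877669) (nat_lit 162) (nat_lit 5) (nat_lit 167) (nat_lit 5) (nat_lit 168) (nat_lit 5) (nat_lit 462) (nat_lit 373) (nat_lit 305)) (XT.lf (nat_lit 0) (nat_lit 3117514806) (nat_lit 456) (nat_lit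 441837847) (nat_lit 76) (nat_lit 7250905201) (nat_lit 161) (nat_lit 5) (nat_lit 167) (nat_lit 5) (nat_lit 162) (nat_lit 5) (nat_lit 463) (nat_lit 373) (nat_lit 304))))))))
noncomputable def xc73 : XT := (XT.nd (nat_lit 1716) (nat_lit 3116) (nat_lit 0) (XT.nd (nat_lit 858) (nat_lit 2356) (nat_lit 0) (XT.nd (nat_lit 390) (nat_lit 1520) (nat_lit 0) (XT.nd (nat_lit 156) (nat_lit 836) (nat_lit 0) (XT.nd (nat_lit 78) (nat_lit 380) (nat_lit 0) (XT.lf (nat_lit 0) (nat_lit 6431367549) (nat_lit 532) (nat_lit 4131077222) (nat_lit 76) (nat_lit 367402931) (nat_lit 155) (nat_lit 5) (nat_lit 162) (nat_lit 5) (nat_lit 156) (nat_lit 5) (nat_lit 464) (nat_lit 373) (nat_lit 303)) (XT.lf (nat_lit 0) (nat_lit 3107704567) (nat_lit 380) (nat_lit 6718499101) (nat_lit 456) (nat_lit 1225337184) (nat_lit 150) (nat_lit 5) (nat_lit 155) (nat_lit 5) (nat_lit 156) (nat_lit 5) (nat_lit 465) (nat_lit 373) (nat_lit 302))) (XT.nd (nat_lit 78) (nat_lit 760) (nat_lit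 0) (XT.lf (nat_lit 0) (nat_lit 2081534386) (nat_lit 456) (nat_lit 689744824) (nat_lit 76) (nat_lit 8404200016) (nat_lit 149) (nat_lit 5) (nat_lit 155) (nat_lit 5) (nat_lit 150) (nat_lit 5) (nat_lit 466) (nat_lit 373) (nat_lit 301)) (XT.nd (nat_lit 78) (nat_lit 380) (nat_lit 0) (XT.lf (nat_lit 0) (nat_lit 5459020802) (nat_lit 456) (nat_lit 4567179342) (nat_lit 76) (nat_lit 1275121847) (nat_lit 144) (nat_lit 5) (nat_lit 150) (nat_lit 5) (nat_lit 145) (nat_lit 5) (nat_lit 467) (nat_lit 373) (nat_lit 300)) (XT.lf (nat_lit 0) (nat_lit 2858110481) (nat_lit 380) (nat_lit 6056425546) (nat_lit 456) (nat_lit 2514941203) (nat_lit 139) (nat_lit 5) (nat_lit 144) (nat_lit 5) (nat_lit 145) (nat_lit 5) (nat_lit 468) (nat_lit 373) (nat_lit 299))))) (XT.nd (nat_lit 234) (nat_lit 760) (nat_lit 0) (XT.nd (nat_lit 78) (nat_lit 684) (nat_lit 0) (XT.lf (nat_lit 0) (nat_lit 867295496) (nat_lit 456) (nat_lit 1119042126) (nat_lit 76) (nat_lit 9573751668)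 (nat_lit 138) (nat_lit 5) (nat_lit 144) (nat_lit 5) (nat_lit 139) (nat_lit 5) (nat_lit 469) (nat_lit 373) (nat_lit 298)) (XT.nd (nat_lit 78) (nat_lit 304) (nat_lit 0) (XT.lf (nat_lit 0) (nat_lit 4309722431) (nat_lit 456) (nat_lit 5202546221) (nat_lit 76) (nat_lit 2180192953) (nat_lit 133) (nat_lit 5) (nat_lit 139) (nat_lit 5) (nat_lit 134) (nat_lit 5) (nat_lit 470) (nat_lit 373) (nat_lit 297)) (XT.lf (nat_lit 0) (nat_lit 2410668484) (nat_lit 304) (nat_lit 5416500756) (nat_lit 380) (nat_lit 4000193505) (nat_lit 129) (nat_lit 5) (nat_lit 133) (nat_lit 5) (nat_lit 134) (nat_lit 5) (nat_lit 471) (nat_lit 373) (nat_lit 296)))) (XT.nd (nat_lit 78) (nat_lit 760) (nat_lit 0) (XT.lf (nat_lit 0) (nat_lit 10200342807) (nat_lit 304) (nat_lit 1219631289) (nat_lit 380) (nat_lit 544892340) (nat_lit 129) (nat_lit 5) (nat_lit 133) (nat_lit 5) (nat_lit 134) (nat_lit 5) (nat_lit 472) (nat_lit 373) (nat_lit 295)) (XT.nd (nat_lit 78) (nat_lit 304)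 (nat_lit 0) (XT.lf (nat_lit 0) (nat_lit 2970393397) (nat_lit 456) (nat_lit 6069757573) (nat_lit 76) (nat_lit 3063987751) (nat_lit 123) (nat_lit 5) (nat_lit 129) (nat_lit 5) (nat_lit 124) (nat_lit 5) (nat_lit 473) (nat_lit 373) (nat_lit 294)) (XT.lf (nat_lit 0) (nat_lit 1732179904) (nat_lit 304) (nat_lit 4818420866) (nat_lit 380) (nat_lit 5695489845) (nat_lit 119) (nat_lit 5) (nat_lit 123) (nat_lit 5) (nat_lit 124) (nat_lit 5) (nat_lit 474) (nat_lit 373) (nat_lit 293)))))) (XT.nd (nat_lit 390) (nat_lit 1292) (nat_lit 0) (XT.nd (nat_lit 156) (nat_lit 608) (nat_lit 0) (XT.nd (nat_lit 78) (nat_lit 456) (nat_lit 0) (XT.lf (nat_lit 0) (nat_lit 9726738990) (nat_lit 304) (nat_lit 487345557) (nat_lit 380) (nat_lit 2176567907) (nat_lit 119) (nat_lit 5) (nat_lit 123) (nat_lit 5) (nat_lit 124) (nat_lit 5) (nat_lit 475) (nat_lit 373) (nat_lit 292)) (XT.lf (nat_lit 0) (nat_lit 1426018861) (nat_lit 456) (nat_lit 7204494452) (nat_lit 76) (nat_lit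 3906776659) (nat_lit 113) (nat_lit 5) (nat_lit 119) (nat_lit 5) (nat_lit 114) (nat_lit 5) (nat_lit 476) (nat_lit 373) (nat_lit 291))) (XT.nd (nat_lit 78) (nat_lit 304) (nat_lit 0) (XT.lf (nat_lit 0) (nat_lit 786245793) (nat_lit 304) (nat_lit 4283103387) (nat_lit 380) (nat_lit 7617270698) (nat_lit 109) (nat_lit 5) (nat_lit 113) (nat_lit 5) (nat_lit 114) (nat_lit 5) (nat_lit 477) (nat_lit 373) (nat_lit 290)) (XT.nd (nat_lit 78) (nat_lit 304) (nat_lit 0) (XT.lf (nat_lit 0) (nat_lit 8806833732) (nat_lit 380) (nat_lit 3850325396) (nat_lit 76) (nat_lit 181355522) (nat_lit 109) (nat_lit 5) (nat_lit 114) (nat_lit 5) (nat_lit 110) (nat_lit 5) (nat_lit 478) (nat_lit 373) (nat_lit 289)) (XT.lf (nat_lit 0) (nat_lit 4344720172) (nat_lit 304) (nat_lit 8303117078) (nat_lit 380) (nat_lit 345038623) (nat_lit 105) (nat_lit 5) (nat_lit 109) (nat_lit 5) (nat_lit 110) (nat_lit 5) (nat_lit 479) (nat_lit 373) (nat_lit 288))))) (XT.nd (nat_lit 234)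 (nat_lit 608) (nat_lit 0) (XT.nd (nat_lit 78) (nat_lit 608) (nat_lit 0) (XT.lf (nat_lit 0) (nat_lit 3368819271) (nat_lit 380) (nat_lit 460994229) (nat_lit 76) (nat_lit 9320105607) (nat_lit 104) (nat_lit 5) (nat_lit 109) (nat_lit 5) (nat_lit 105) (nat_lit 5) (nat_lit 480) (nat_lit 373) (nat_lit 287)) (XT.nd (nat_lit 78) (nat_lit 304) (nat_lit 0) (XT.lf (nat_lit 0) (nat_lit 7181760733) (nat_lit 380) (nat_lit 5366538484) (nat_lit 76) (nat_lit 761173559) (nat_lit 100) (nat_lit 5) (nat_lit 105) (nat_lit 5) (nat_lit 101) (nat_lit 5) (nat_lit 481) (nat_lit 373) (nat_lit 286)) (XT.lf (nat_lit 0) (nat_lit 3019279900) (nat_lit 304) (nat_lit 8072714490) (nat_lit 380) (nat_lit 2379806103) (nat_lit 96) (nat_lit 5) (nat_lit 100) (nat_lit 5) (nat_lit 101) (nat_lit 5) (nat_lit 482) (nat_lit 373) (nat_lit 285)))) (XT.nd (nat_lit 78) (nat_lit 532) (nat_lit 0) (XT.lf (nat_lit 0) (nat_lit 1433401695) (nat_lit 380) (nat_lit 2044745239) (nat_lit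 76) (nat_lit 10158858551) (nat_lit 95) (nat_lit 5) (nat_lit 100) (nat_lit 5) (nat_lit 96) (nat_lit 5) (nat_lit 483) (nat_lit 373) (nat_lit 284)) (XT.nd (nat_lit 78) (nat_lit 304) (nat_lit 0) (XT.lf (nat_lit 0) (nat_lit 5315289282) (nat_lit 304) (nat_lit 7254743946) (nat_lit 76) (nat_lit 1234684544) (nat_lit 92) (nat_lit 5) (nat_lit 96) (nat_lit 5) (nat_lit 93) (nat_lit 5) (nat_lit 484) (nat_lit 373) (nat_lit 283)) (XT.lf (nat_lit 0) (nat_lit 1319663047) (nat_lit 304) (nat_lit 7974245779) (nat_lit 380) (nat_lit 4681496960) (nat_lit 88) (nat_lit 5) (nat_lit 92) (nat_lit 5) (nat_lit 93) (nat_lit 5) (nat_lit 485) (nat_lit 373) (nat_lit 282))))))) (XT.nd (nat_lit 858) (nat_lit 1444) (nat_lit 0) (XT.nd (nat_lit 390) (nat_lit 760) (nat_lit 0) (XT.nd (nat_lit 156) (nat_lit 608) (nat_lit 0) (XT.nd (nat_lit 78) (nat_lit 304) (nat_lit 0) (XT.lf (nat_lit 0) (nat_lit 10120869035) (nat_lit 304) (nat_lit 3253831389) (nat_lit 380) (nat_lit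 774358440) (nat_lit 88) (nat_lit 5) (nat_lit 92) (nat_lit 5) (nat_lit 93) (nat_lit 5) (nat_lit 486) (nat_lit 373) (nat_lit 281)) (XT.lf (nat_lit 0) (nat_lit 3184412855) (nat_lit 304) (nat_lit 9564925830) (nat_lit 76) (nat_lit 1576120504) (nat_lit 84) (nat_lit 5) (nat_lit 88) (nat_lit 5) (nat_lit 85) (nat_lit 5) (nat_lit 487) (nat_lit 373) (nat_lit 280))) (XT.nd (nat_lit 78) (nat_lit 608) (nat_lit 0) (XT.lf (nat_lit 0) (nat_lit 7235136672) (nat_lit 304) (nat_lit 794724096) (nat_lit 76) (nat_lit 6474964575) (nat_lit 84) (nat_lit 5) (nat_lit 88) (nat_lit 5) (nat_lit 85) (nat_lit 5) (nat_lit 488) (nat_lit 373) (nat_lit 279)) (XT.nd (nat_lit 78) (nat_lit 304) (nat_lit 0) (XT.lf (nat_lit 0) (nat_lit 8216827608) (nat_lit 304) (nat_lit 3178276081) (nat_lit 380) (nat_lit 3292113605) (nat_lit 80) (nat_lit 5) (nat_lit 84) (nat_lit 5) (nat_lit 85) (nat_lit 5) (nat_lit 489) (nat_lit 373) (nat_lit 278)) (XT.lf (nat_lit 0) (nat_lit 763288120)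 (nat_lit 304) (nat_lit 12352222908) (nat_lit 76) (nat_lit 1757483475) (nat_lit 76) (nat_lit 5) (nat_lit 80) (nat_lit 5) (nat_lit 77) (nat_lit 5) (nat_lit 490) (nat_lit 373) (nat_lit 277))))) (XT.nd (nat_lit 234) (nat_lit 532) (nat_lit 0) (XT.nd (nat_lit 78) (nat_lit 228) (nat_lit 0) (XT.lf (nat_lit 0) (nat_lit 4895560292) (nat_lit 304) (nat_lit 3367288281) (nat_lit 76) (nat_lit 6798409461) (nat_lit 76) (nat_lit 5) (nat_lit 80) (nat_lit 5) (nat_lit 77) (nat_lit 5) (nat_lit 491) (nat_lit 373) (nat_lit 276)) (XT.nd (nat_lit 78) (nat_lit 0) (nat_lit 0) (XT.lf (nat_lit 0) (nat_lit 5832669441) (nat_lit 228) (nat_lit 3291214448) (nat_lit 304) (nat_lit 6129137642) (nat_lit 73) (nat_lit 5) (nat_lit 76) (nat_lit 5) (nat_lit 77) (nat_lit 5) (nat_lit 492) (nat_lit 373) (nat_lit 275)) (XT.lf (nat_lit 0) (nat_lit 13446718292) (nat_lit 304) (nat_lit 238884071) (nat_lit 76) (nat_lit 1762821808) (nat_lit 73) (nat_lit 5) (nat_lit 77) (nat_lit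 5) (nat_lit 74) (nat_lit 5) (nat_lit 493) (nat_lit 373) (nat_lit 274)))) (XT.nd (nat_lit 78) (nat_lit 228) (nat_lit 0) (XT.lf (nat_lit 0) (nat_lit 2237238411) (nat_lit 304) (nat_lit 6476904484) (nat_lit 76) (nat_lit 6932149353) (nat_lit 69) (nat_lit 5) (nat_lit 73) (nat_lit 5) (nat_lit 70) (nat_lit 5) (nat_lit 494) (nat_lit 373) (nat_lit 273)) (XT.nd (nat_lit 78) (nat_lit 0) (nat_lit 0) (XT.lf (nat_lit 0) (nat_lit 2905289496) (nat_lit 228) (nat_lit 3625538860) (nat_lit 304) (nat_lit 9317093916) (nat_lit 66) (nat_lit 5) (nat_lit 69) (nat_lit 5) (nat_lit 70) (nat_lit 5) (nat_lit 495) (nat_lit 373) (nat_lit 272)) (XT.lf (nat_lit 0) (nat_lit 10940467104) (nat_lit 304) (nat_lit 3540864906) (nat_lit 76) (nat_lit 1571651894) (nat_lit 66) (nat_lit 5) (nat_lit 70) (nat_lit 5) (nat_lit 67) (nat_lit 5) (nat_lit 496) (nat_lit 373) (nat_lit 271)))))) (XT.nd (nat_lit 468) (nat_lit 456) (nat_lit 0) (XT.nd (nat_lit 234) (nat_lit 456) (nat_lit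 0) (XT.nd (nat_lit 78) (nat_lit 304) (nat_lit 0) (XT.lf (nat_lit 0) (nat_lit 6064638542) (nat_lit 228) (nat_lit 9413777074) (nat_lit 304) (nat_lit 782931312) (nat_lit 63) (nat_lit 5) (nat_lit 66) (nat_lit 5) (nat_lit 67) (nat_lit 5) (nat_lit 497) (nat_lit 373) (nat_lit 270)) (XT.nd (nat_lit 78) (nat_lit 228) (nat_lit 0) (XT.lf (nat_lit 0) (nat_lit 3586288946) (nat_lit 304) (nat_lit 626776808) (nat_lit 76) (nat_lit 12260328199) (nat_lit 62) (nat_lit 5) (nat_lit 66) (nat_lit 5) (nat_lit 63) (nat_lit 5) (nat_lit 498) (nat_lit 373) (nat_lit 269)) (XT.lf (nat_lit 0) (nat_lit 8076867252) (nat_lit 304) (nat_lit 7485174197) (nat_lit 76) (nat_lit 1126650179) (nat_lit 59) (nat_lit 5) (nat_lit 63) (nat_lit 5) (nat_lit 60) (nat_lit 5) (nat_lit 499) (nat_lit 373) (nat_lit 268)))) (XT.nd (nat_lit 78) (nat_lit 304) (nat_lit 0) (XT.lf (nat_lit 0) (nat_lit 2293668943) (nat_lit 152) (nat_lit 10387934551) (nat_lit 228) (nat_lit 4226207145) (nat_lit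 57) (nat_lit 5) (nat_lit 59) (nat_lit 5) (nat_lit 60) (nat_lit 5) (nat_lit 500) (nat_lit 373) (nat_lit 267)) (XT.nd (nat_lit 78) (nat_lit 228) (nat_lit 0) (XT.lf (nat_lit 0) (nat_lit 271803676) (nat_lit 228) (nat_lit 4801923931) (nat_lit 76) (nat_lit 12056996106) (nat_lit 56) (nat_lit 5) (nat_lit 59) (nat_lit 5) (nat_lit 57) (nat_lit 5) (nat_lit 501) (nat_lit 373) (nat_lit 266)) (XT.lf (nat_lit 0) (nat_lit 4817414282) (nat_lit 304) (nat_lit 12151463605) (nat_lit 76) (nat_lit 388376064) (nat_lit 53) (nat_lit 5) (nat_lit 57) (nat_lit 5) (nat_lit 54) (nat_lit 5) (nat_lit 502) (nat_lit 373) (nat_lit 265))))) (XT.nd (nat_lit 234) (nat_lit 0) (nat_lit 0) (XT.nd (nat_lit 78) (nat_lit 456) (nat_lit 0) (XT.lf (nat_lit 0) (nat_lit 9497860842) (nat_lit 304) (nat_lit 2181280959) (nat_lit 76) (nat_lit 5908296651) (nat_lit 53) (nat_lit 5) (nat_lit 57) (nat_lit 5) (nat_lit 54) (nat_lit 5) (nat_lit 503) (nat_lit 373) (nat_lit 264)) (XT.nd (nat_lit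 78) (nat_lit 304) (nat_lit 0) (XT.lf (nat_lit 0) (nat_lit 8056172665) (nat_lit 152) (nat_lit 6246369351) (nat_lit 228) (nat_lit 3519074206) (nat_lit 51) (nat_lit 5) (nat_lit 53) (nat_lit 5) (nat_lit 54) (nat_lit 5) (nat_lit 504) (nat_lit 373) (nat_lit 263)) (XT.lf (nat_lit 0) (nat_lit 428023154) (nat_lit 228) (nat_lit 695697681) (nat_lit 304) (nat_lit 16936692919) (nat_lit 47) (nat_lit 5) (nat_lit 50) (nat_lit 5) (nat_lit 51) (nat_lit 5) (nat_lit 505) (nat_lit 373) (nat_lit 262)))) (XT.nd (nat_lit 50466) (nat_lit 0) (nat_lit 49172) (XT.lf (nat_lit 0) (nat_lit 5888935479) (nat_lit 304) (nat_lit 7438835364) (nat_lit 76) (nat_lit 4974219459) (nat_lit 47) (nat_lit 5) (nat_lit 51) (nat_lit 5) (nat_lit 48) (nat_lit 5) (nat_lit 506) (nat_lit 373) (nat_lit 261)) (XT.nd (nat_lit 78) (nat_lit 0) (nat_lit 0) (XT.lf (nat_lit 0) (nat_lit 568851715) (nat_lit 532) (nat_lit 2118245249) (nat_lit 0) (nat_lit 568851715) (nat_lit 694) (nat_lit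 5) (nat_lit 701) (nat_lit 4) (nat_lit 694) (nat_lit 4) (nat_lit 392) (nat_lit 374) (nat_lit 374)) (XT.lf (nat_lit 0) (nat_lit 4290598573) (nat_lit 532) (nat_lit 514169932) (nat_lit 0) (nat_lit 1719419958) (nat_lit 694) (nat_lit 5) (nat_lit 701) (nat_lit 4) (nat_lit 694) (nat_lit 4) (nat_lit 393) (nat_lit 374) (nat_lit 373))))))))
noncomputable def xc74 : XT := (XT.nd (nat_lit 1716) (nat_lit 15656) (nat_lit 0) (XT.nd (nat_lit 858) (nat_lit 9424) (nat_lit 0) (XT.nd (nat_lit 390) (nat_lit 3648) (nat_lit 0) (XT.nd (nat_lit 156) (nat_lit 836) (nat_lit 0) (XT.nd (nat_lit 78) (nat_lit 608) (nat_lit 0) (XT.lf (nat_lit 0) (nat_lit 903031902) (nat_lit 608) (nat_lit 3267817518) (nat_lit 76) (nat_lit 2366868468) (nat_lit 686) (nat_lit 5) (nat_lit 694) (nat_lit 5) (nat_lit 687) (nat_lit 4) (nat_lit 394) (nat_lit 374) (nat_lit 372)) (XT.lf (nat_lit 0) (nat_lit 526970039) (nat_lit 608) (nat_lit 3478103533) (nat_lit 684) (nat_lit 2547533362)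 (nat_lit 678) (nat_lit 5) (nat_lit 686) (nat_lit 5) (nat_lit 687) (nat_lit 4) (nat_lit 395) (nat_lit 374) (nat_lit 371))) (XT.nd (nat_lit 78) (nat_lit 760) (nat_lit 0) (XT.lf (nat_lit 0) (nat_lit 541835150) (nat_lit 684) (nat_lit 2180438218) (nat_lit 76) (nat_lit 3846509918) (nat_lit 677) (nat_lit 5) (nat_lit 686) (nat_lit 5) (nat_lit 678) (nat_lit 5) (nat_lit 396) (nat_lit 374) (nat_lit 370)) (XT.nd (nat_lit 78) (nat_lit 76) (nat_lit 0) (XT.lf (nat_lit 0) (nat_lit 1697067521) (nat_lit 684) (nat_lit 1900593604) (nat_lit 760) (nat_lit 2988543752) (nat_lit 668) (nat_lit 5) (nat_lit 677) (nat_lit 5) (nat_lit 678) (nat_lit 5) (nat_lit 397) (nat_lit 374) (nat_lit 369)) (XT.lf (nat_lit 0) (nat_lit 52228056) (nat_lit 760) (nat_lit 973457360) (nat_lit 76) (nat_lit 5579446915) (nat_lit 667) (nat_lit 5) (nat_lit 677) (nat_lit 5) (nat_lit 668) (nat_lit 5) (nat_lit 398) (nat_lit 374) (nat_lit 368))))) (XT.nd (nat_lit 234) (nat_lit 1976)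 (nat_lit 0) (XT.nd (nat_lit 78) (nat_lit 912) (nat_lit 0) (XT.lf (nat_lit 0) (nat_lit 2990316315) (nat_lit 760) (nat_lit 72661833) (nat_lit 836) (nat_lit 3562113670) (nat_lit 657) (nat_lit 5) (nat_lit 667) (nat_lit 5) (nat_lit 668) (nat_lit 5) (nat_lit 399) (nat_lit 374) (nat_lit 367)) (XT.nd (nat_lit 78) (nat_lit 76) (nat_lit 0) (XT.lf (nat_lit 0) (nat_lit 349071149) (nat_lit 836) (nat_lit 5730467595) (nat_lit 912) (nat_lit 567031370) (nat_lit 646) (nat_lit 5) (nat_lit 657) (nat_lit 5) (nat_lit 658) (nat_lit 5) (nat_lit 400) (nat_lit 374) (nat_lit 366)) (XT.lf (nat_lit 0) (nat_lit 2411815728) (nat_lit 912) (nat_lit 2274392950) (nat_lit 76) (nat_lit 1982846670) (nat_lit 645) (nat_lit 5) (nat_lit 657) (nat_lit 5) (nat_lit 646) (nat_lit 5) (nat_lit 401) (nat_lit 374) (nat_lit 365)))) (XT.nd (nat_lit 78) (nat_lit 1064) (nat_lit 0) (XT.lf (nat_lit 0) (nat_lit 1798545811) (nat_lit 912) (nat_lit 3588588902) (nat_lit 988) (nat_lit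 1305920574) (nat_lit 633) (nat_lit 5) (nat_lit 645) (nat_lit 5) (nat_lit 646) (nat_lit 5) (nat_lit 402) (nat_lit 374) (nat_lit 364)) (XT.nd (nat_lit 78) (nat_lit 988) (nat_lit 0) (XT.lf (nat_lit 0) (nat_lit 1630762428) (nat_lit 988) (nat_lit 795669018) (nat_lit 76) (nat_lit 4291937180) (nat_lit 632) (nat_lit 5) (nat_lit 645) (nat_lit 5) (nat_lit 633) (nat_lit 5) (nat_lit 403) (nat_lit 374) (nat_lit 363)) (XT.lf (nat_lit 0) (nat_lit 3370662442) (nat_lit 988) (nat_lit 1194566552) (nat_lit 1064) (nat_lit 2179683868) (nat_lit 619) (nat_lit 5) (nat_lit 632) (nat_lit 5) (nat_lit 633) (nat_lit 5) (nat_lit 404) (nat_lit 374) (nat_lit 362)))))) (XT.nd (nat_lit 390) (nat_lit 5852) (nat_lit 0) (XT.nd (nat_lit 156) (nat_lit 2432) (nat_lit 0) (XT.nd (nat_lit 78) (nat_lit 0) (nat_lit 0) (XT.lf (nat_lit 0) (nat_lit 722483561) (nat_lit 1140) (nat_lit 5959438148) (nat_lit 76) (nat_lit 91063059) (nat_lit 604) (nat_lit 5) (nat_lit 619) (nat_lit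 5) (nat_lit 605) (nat_lit 5) (nat_lit 405) (nat_lit 374) (nat_lit 361)) (XT.lf (nat_lit 0) (nat_lit 3620414108) (nat_lit 1140) (nat_lit 1744486893) (nat_lit 76) (nat_lit 1437117225) (nat_lit 604) (nat_lit 5) (nat_lit 619) (nat_lit 5) (nat_lit 605) (nat_lit 5) (nat_lit 406) (nat_lit 374) (nat_lit 360))) (XT.nd (nat_lit 78) (nat_lit 1292) (nat_lit 0) (XT.lf (nat_lit 0) (nat_lit 2537390628) (nat_lit 1140) (nat_lit 3992813006) (nat_lit 1216) (nat_lit 302376575) (nat_lit 589) (nat_lit 5) (nat_lit 604) (nat_lit 5) (nat_lit 605) (nat_lit 5) (nat_lit 407) (nat_lit 374) (nat_lit 359)) (XT.nd (nat_lit 78) (nat_lit 1216) (nat_lit 0) (XT.lf (nat_lit 0) (nat_lit 2549561106) (nat_lit 1216) (nat_lit 3316747) (nat_lit 76) (nat_lit 4311564815) (nat_lit 588) (nat_lit 5) (nat_lit 604) (nat_lit 5) (nat_lit 589) (nat_lit 5) (nat_lit 408) (nat_lit 374) (nat_lit 358)) (XT.lf (nat_lit 0) (nat_lit 4379666362) (nat_lit 1216) (nat_lit 1042372361) (nat_lit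 1292) (nat_lit 1475537051) (nat_lit 572) (nat_lit 5) (nat_lit 588) (nat_lit 5) (nat_lit 589) (nat_lit 5) (nat_lit 409) (nat_lit 374) (nat_lit 357))))) (XT.nd (nat_lit 234) (nat_lit 3040) (nat_lit 0) (XT.nd (nat_lit 78) (nat_lit 1444) (nat_lit 0) (XT.lf (nat_lit 0) (nat_lit 1357217420) (nat_lit 1368) (nat_lit 5051811104) (nat_lit 76) (nat_lit 523076888) (nat_lit 554) (nat_lit 5) (nat_lit 572) (nat_lit 5) (nat_lit 555) (nat_lit 5) (nat_lit 410) (nat_lit 374) (nat_lit 356)) (XT.nd (nat_lit 78) (nat_lit 1444) (nat_lit 0) (XT.lf (nat_lit 0) (nat_lit 4191277764) (nat_lit 1368) (nat_lit 634784274) (nat_lit 76) (nat_lit 2141803339) (nat_lit 554) (nat_lit 5) (nat_lit 572) (nat_lit 5) (nat_lit 555) (nat_lit 5) (nat_lit 411) (nat_lit 374) (nat_lit 355)) (XT.lf (nat_lit 0) (nat_lit 43194611) (nat_lit 1444) (nat_lit 3134553900) (nat_lit 76) (nat_lit 3827273328) (nat_lit 535) (nat_lit 5) (nat_lit 554) (nat_lit 5) (nat_lit 536) (nat_lit 5)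 (nat_lit 412) (nat_lit 374) (nat_lit 354)))) (XT.nd (nat_lit 78) (nat_lit 1596) (nat_lit 0) (XT.lf (nat_lit 0) (nat_lit 1380229610) (nat_lit 1444) (nat_lit 1457308832) (nat_lit 1520) (nat_lit 4205930675) (nat_lit 516) (nat_lit 5) (nat_lit 535) (nat_lit 5) (nat_lit 536) (nat_lit 5) (nat_lit 413) (nat_lit 374) (nat_lit 353)) (XT.nd (nat_lit 78) (nat_lit 1596) (nat_lit 0) (XT.lf (nat_lit 0) (nat_lit 5653783664) (nat_lit 1520) (nat_lit 1108456750) (nat_lit 76) (nat_lit 321145855) (nat_lit 516) (nat_lit 5) (nat_lit 536) (nat_lit 5) (nat_lit 517) (nat_lit 5) (nat_lit 414) (nat_lit 374) (nat_lit 352)) (XT.lf (nat_lit 0) (nat_lit 1360238939) (nat_lit 1596) (nat_lit 3610465502) (nat_lit 76) (nat_lit 2153708075) (nat_lit 495) (nat_lit 5) (nat_lit 516) (nat_lit 5) (nat_lit 496) (nat_lit 5) (nat_lit 415) (nat_lit 374) (nat_lit 351))))))) (XT.nd (nat_lit 858) (nat_lit 6384) (nat_lit 0) (XT.nd (nat_lit 390) (nat_lit 4104) (nat_lit 0) (XT.nd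 (nat_lit 156) (nat_lit 3572) (nat_lit 0) (XT.nd (nat_lit 78) (nat_lit 0) (nat_lit 0) (XT.lf (nat_lit 0) (nat_lit 1030385325) (nat_lit 1596) (nat_lit 3114956820) (nat_lit 1672) (nat_lit 3021576000) (nat_lit 474) (nat_lit 5) (nat_lit 495) (nat_lit 5) (nat_lit 496) (nat_lit 5) (nat_lit 416) (nat_lit 374) (nat_lit 350)) (XT.lf (nat_lit 0) (nat_lit 5762006353) (nat_lit 1596) (nat_lit 1193539885) (nat_lit 1672) (nat_lit 255359273) (nat_lit 474) (nat_lit 5) (nat_lit 495) (nat_lit 5) (nat_lit 496) (nat_lit 5) (nat_lit 417) (nat_lit 374) (nat_lit 349))) (XT.nd (nat_lit 78) (nat_lit 1824) (nat_lit 0) (XT.lf (nat_lit 0) (nat_lit 2505127659) (nat_lit 1748) (nat_lit 3952870038) (nat_lit 76) (nat_lit 798008505) (nat_lit 451) (nat_lit 5) (nat_lit 474) (nat_lit 5) (nat_lit 452) (nat_lit 5) (nat_lit 418) (nat_lit 374) (nat_lit 348)) (XT.nd (nat_lit 78) (nat_lit 76) (nat_lit 0) (XT.lf (nat_lit 0) (nat_lit 817603016) (nat_lit 1748) (nat_lit 4469429676)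 (nat_lit 1824) (nat_lit 2015568375) (nat_lit 428) (nat_lit 5) (nat_lit 451) (nat_lit 5) (nat_lit 452) (nat_lit 5) (nat_lit 419) (nat_lit 374) (nat_lit 347)) (XT.lf (nat_lit 0) (nat_lit 737964776) (nat_lit 1824) (nat_lit 1669615346) (nat_lit 76) (nat_lit 4942991420) (nat_lit 427) (nat_lit 5) (nat_lit 451) (nat_lit 5) (nat_lit 428) (nat_lit 5) (nat_lit 420) (nat_lit 374) (nat_lit 346))))) (XT.nd (nat_lit 234) (nat_lit 1824) (nat_lit 0) (XT.nd (nat_lit 78) (nat_lit 988) (nat_lit 0) (XT.lf (nat_lit 0) (nat_lit 3220094426) (nat_lit 1292) (nat_lit 268429979) (nat_lit 1368) (nat_lit 3911349085) (nat_lit 410) (nat_lit 5) (nat_lit 427) (nat_lit 5) (nat_lit 428) (nat_lit 5) (nat_lit 421) (nat_lit 374) (nat_lit 345)) (XT.nd (nat_lit 78) (nat_lit 76) (nat_lit 0) (XT.lf (nat_lit 0) (nat_lit 725735383) (nat_lit 912) (nat_lit 5545482061) (nat_lit 988) (nat_lit 1179418653) (nat_lit 398) (nat_lit 5) (nat_lit 410) (nat_lit 5) (nat_lit 411) (nat_lit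 5) (nat_lit 422) (nat_lit 374) (nat_lit 344)) (XT.lf (nat_lit 0) (nat_lit 1565113916) (nat_lit 988) (nat_lit 1780165332) (nat_lit 76) (nat_lit 4157361584) (nat_lit 397) (nat_lit 5) (nat_lit 410) (nat_lit 5) (nat_lit 398) (nat_lit 5) (nat_lit 423) (nat_lit 374) (nat_lit 343)))) (XT.nd (nat_lit 78) (nat_lit 988) (nat_lit 0) (XT.lf (nat_lit 0) (nat_lit 3247329275) (nat_lit 836) (nat_lit 1072543088) (nat_lit 912) (nat_lit 3236250908) (nat_lit 386) (nat_lit 5) (nat_lit 397) (nat_lit 5) (nat_lit 398) (nat_lit 5) (nat_lit 424) (nat_lit 374) (nat_lit 342)) (XT.nd (nat_lit 78) (nat_lit 76) (nat_lit 0) (XT.lf (nat_lit 0) (nat_lit 739020559) (nat_lit 912) (nat_lit 6366288475) (nat_lit 988) (nat_lit 505870428) (nat_lit 374) (nat_lit 5) (nat_lit 386) (nat_lit 5) (nat_lit 387) (nat_lit 5) (nat_lit 425) (nat_lit 374) (nat_lit 341)) (XT.lf (nat_lit 0) (nat_lit 2236404474) (nat_lit 988) (nat_lit 1794552748) (nat_lit 76) (nat_lit 3636355201)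 (nat_lit 373) (nat_lit 5) (nat_lit 386) (nat_lit 5) (nat_lit 374) (nat_lit 5) (nat_lit 426) (nat_lit 374) (nat_lit 340)))))) (XT.nd (nat_lit 468) (nat_lit 3040) (nat_lit 0) (XT.nd (nat_lit 234) (nat_lit 1596) (nat_lit 0) (XT.nd (nat_lit 78) (nat_lit 912) (nat_lit 0) (XT.lf (nat_lit 0) (nat_lit 3374631414) (nat_lit 836) (nat_lit 1625967077) (nat_lit 912) (nat_lit 2724440586) (nat_lit 362) (nat_lit 5) (nat_lit 373) (nat_lit 5) (nat_lit 374) (nat_lit 5) (nat_lit 427) (nat_lit 374) (nat_lit 339)) (XT.nd (nat_lit 78) (nat_lit 0) (nat_lit 0) (XT.lf (nat_lit 0) (nat_lit 10988853) (nat_lit 912) (nat_lit 6942551389) (nat_lit 76) (nat_lit 830883467) (nat_lit 350) (nat_lit 5) (nat_lit 362) (nat_lit 5) (nat_lit 351) (nat_lit 5) (nat_lit 428) (nat_lit 374) (nat_lit 338)) (XT.lf (nat_lit 0) (nat_lit 2757634621) (nat_lit 912) (nat_lit 1728241543) (nat_lit 76) (nat_lit 3358913939) (nat_lit 350) (nat_lit 5) (nat_lit 362) (nat_lit 5) (nat_lit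 351) (nat_lit 5) (nat_lit 429) (nat_lit 374) (nat_lit 337)))) (XT.nd (nat_lit 78) (nat_lit 836) (nat_lit 0) (XT.lf (nat_lit 0) (nat_lit 3586614952) (nat_lit 760) (nat_lit 1949609589) (nat_lit 836) (nat_lit 2370612783) (nat_lit 340) (nat_lit 5) (nat_lit 350) (nat_lit 5) (nat_lit 351) (nat_lit 5) (nat_lit 430) (nat_lit 374) (nat_lit 336)) (XT.nd (nat_lit 78) (nat_lit 0) (nat_lit 0) (XT.lf (nat_lit 0) (nat_lit 371546546) (nat_lit 836) (nat_lit 6953937866) (nat_lit 76) (nat_lit 645071588) (nat_lit 329) (nat_lit 5) (nat_lit 340) (nat_lit 5) (nat_lit 330) (nat_lit 5) (nat_lit 431) (nat_lit 374) (nat_lit 335)) (XT.lf (nat_lit 0) (nat_lit 3133457424) (nat_lit 836) (nat_lit 1596635353) (nat_lit 76) (nat_lit 3305222794) (nat_lit 329) (nat_lit 5) (nat_lit 340) (nat_lit 5) (nat_lit 330) (nat_lit 5) (nat_lit 432) (nat_lit 374) (nat_lit 334))))) (XT.nd (nat_lit 234) (nat_lit 1444) (nat_lit 0) (XT.nd (nat_lit 78) (nat_lit 836) (nat_lit 0)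 (XT.lf (nat_lit 0) (nat_lit 3867933433) (nat_lit 760) (nat_lit 2063204818) (nat_lit 836) (nat_lit 2170634126) (nat_lit 319) (nat_lit 5) (nat_lit 329) (nat_lit 5) (nat_lit 330) (nat_lit 5) (nat_lit 433) (nat_lit 374) (nat_lit 333)) (XT.nd (nat_lit 78) (nat_lit 0) (nat_lit 0) (XT.lf (nat_lit 0) (nat_lit 586120861) (nat_lit 836) (nat_lit 6918756037) (nat_lit 76) (nat_lit 665034218) (nat_lit 308) (nat_lit 5) (nat_lit 319) (nat_lit 5) (nat_lit 309) (nat_lit 5) (nat_lit 434) (nat_lit 374) (nat_lit 332)) (XT.lf (nat_lit 0) (nat_lit 3367396176) (nat_lit 836) (nat_lit 1415217683) (nat_lit 76) (nat_lit 3456554761) (nat_lit 308) (nat_lit 5) (nat_lit 319) (nat_lit 5) (nat_lit 309) (nat_lit 5) (nat_lit 435) (nat_lit 374) (nat_lit 331)))) (XT.nd (nat_lit 78) (nat_lit 760) (nat_lit 0) (XT.lf (nat_lit 0) (nat_lit 4203137676) (nat_lit 684) (nat_lit 1985468290) (nat_lit 760) (nat_lit 2121530842) (nat_lit 299) (nat_lit 5) (nat_lit 308) (nat_lit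 5) (nat_lit 309) (nat_lit 5) (nat_lit 436) (nat_lit 374) (nat_lit 330)) (XT.nd (nat_lit 78) (nat_lit 0) (nat_lit 0) (XT.lf (nat_lit 0) (nat_lit 657264697) (nat_lit 760) (nat_lit 6852930206) (nat_lit 76) (nat_lit 872601609) (nat_lit 289) (nat_lit 5) (nat_lit 299) (nat_lit 5) (nat_lit 290) (nat_lit 5) (nat_lit 437) (nat_lit 374) (nat_lit 329)) (XT.lf (nat_lit 0) (nat_lit 3461851062) (nat_lit 760) (nat_lit 1199696142) (nat_lit 76) (nat_lit 3795120335) (nat_lit 289) (nat_lit 5) (nat_lit 299) (nat_lit 5) (nat_lit 290) (nat_lit 5) (nat_lit 438) (nat_lit 374) (nat_lit 328))))))))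
noncomputable def xc75 : XT := (XT.nd (nat_lit 1716) (nat_lit 5852) (nat_lit 0) (XT.nd (nat_lit 858) (nat_lit 3724) (nat_lit 0) (XT.nd (nat_lit 390) (nat_lit 2356) (nat_lit 0) (XT.nd (nat_lit 156) (nat_lit 1292) (nat_lit 0) (XT.nd (nat_lit 78) (nat_lit 760) (nat_lit 0) (XT.lf (nat_lit 0) (nat_lit 4576529258) (nat_lit 684) (nat_lit 1734247306) (nat_lit 760) (nat_lit 2221485295) (nat_lit 280) (nat_lit 5) (nat_lit 289) (nat_lit 5) (nat_lit 290) (nat_lit 5) (nat_lit 439) (nat_lit 374) (nat_lit 327)) (XT.lf (nat_lit 0) (nat_lit 586399887) (nat_lit 760) (nat_lit 6772735804) (nat_lit 76) (nat_lit 1250422868) (nat_lit 270) (nat_lit 5) (nat_lit 280) (nat_lit 5) (nat_lit 271) (nat_lit 5) (nat_lit 440) (nat_lit 374) (nat_lit 326))) (XT.nd (nat_lit 78) (nat_lit 1292) (nat_lit 0) (XT.lf (nat_lit 0) (nat_lit 3418097017) (nat_lit 760) (nat_lit 966151986) (nat_lit 76) (nat_lit 4303920706) (nat_lit 270) (nat_lit 5) (nat_lit 280) (nat_lit 5)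 (nat_lit 271) (nat_lit 5) (nat_lit 441) (nat_lit 374) (nat_lit 325)) (XT.nd (nat_lit 78) (nat_lit 684) (nat_lit 0) (XT.lf (nat_lit 0) (nat_lit 4972008357) (nat_lit 608) (nat_lit 1326668174) (nat_lit 684) (nat_lit 2469841582) (nat_lit 262) (nat_lit 5) (nat_lit 270) (nat_lit 5) (nat_lit 271) (nat_lit 5) (nat_lit 442) (nat_lit 374) (nat_lit 324)) (XT.lf (nat_lit 0) (nat_lit 373807888) (nat_lit 684) (nat_lit 6694954713) (nat_lit 76) (nat_lit 1781820690) (nat_lit 253) (nat_lit 5) (nat_lit 262) (nat_lit 5) (nat_lit 254) (nat_lit 5) (nat_lit 443) (nat_lit 374) (nat_lit 323))))) (XT.nd (nat_lit 234) (nat_lit 1064) (nat_lit 0) (XT.nd (nat_lit 78) (nat_lit 1292) (nat_lit 0) (XT.lf (nat_lit 0) (nat_lit 3236272603) (nat_lit 684) (nat_lit 731196282) (nat_lit 76) (nat_lit 4966603527) (nat_lit 253) (nat_lit 5) (nat_lit 262) (nat_lit 5) (nat_lit 254) (nat_lit 5) (nat_lit 444) (nat_lit 374) (nat_lit 322)) (XT.nd (nat_lit 78) (nat_lit 684) (nat_lit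 0) (XT.lf (nat_lit 0) (nat_lit 5372914606) (nat_lit 608) (nat_lit 779281375) (nat_lit 684) (nat_lit 2867120384) (nat_lit 245) (nat_lit 5) (nat_lit 253) (nat_lit 5) (nat_lit 254) (nat_lit 5) (nat_lit 445) (nat_lit 374) (nat_lit 321)) (XT.lf (nat_lit 0) (nat_lit 18611262) (nat_lit 684) (nat_lit 6637038341) (nat_lit 76) (nat_lit 2450647786) (nat_lit 236) (nat_lit 5) (nat_lit 245) (nat_lit 5) (nat_lit 237) (nat_lit 5) (nat_lit 446) (nat_lit 374) (nat_lit 320)))) (XT.nd (nat_lit 78) (nat_lit 1064) (nat_lit 0) (XT.lf (nat_lit 0) (nat_lit 2915359623) (nat_lit 684) (nat_lit 512134098) (nat_lit 76) (nat_lit 5767320128) (nat_lit 236) (nat_lit 5) (nat_lit 245) (nat_lit 5) (nat_lit 237) (nat_lit 5) (nat_lit 447) (nat_lit 374) (nat_lit 319)) (XT.nd (nat_lit 78) (nat_lit 532) (nat_lit 0) (XT.lf (nat_lit 0) (nat_lit 5761859529) (nat_lit 532) (nat_lit 108205793) (nat_lit 608) (nat_lit 3415043401) (nat_lit 229) (nat_lit 5) (nat_lit 236) (nat_lit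 5) (nat_lit 237) (nat_lit 5) (nat_lit 448) (nat_lit 374) (nat_lit 318)) (XT.lf (nat_lit 0) (nat_lit 2756659999) (nat_lit 532) (nat_lit 6132796035) (nat_lit 608) (nat_lit 487650009) (nat_lit 222) (nat_lit 5) (nat_lit 229) (nat_lit 5) (nat_lit 230) (nat_lit 5) (nat_lit 449) (nat_lit 374) (nat_lit 317)))))) (XT.nd (nat_lit 390) (nat_lit 2052) (nat_lit 0) (XT.nd (nat_lit 156) (nat_lit 1064) (nat_lit 0) (XT.nd (nat_lit 78) (nat_lit 532) (nat_lit 0) (XT.lf (nat_lit 0) (nat_lit 2453153140) (nat_lit 608) (nat_lit 327138213) (nat_lit 76) (nat_lit 6690583036) (nat_lit 221) (nat_lit 5) (nat_lit 229) (nat_lit 5) (nat_lit 222) (nat_lit 5) (nat_lit 450) (nat_lit 374) (nat_lit 316)) (XT.lf (nat_lit 0) (nat_lit 5454176998) (nat_lit 608) (nat_lit 3450195715) (nat_lit 76) (nat_lit 661930119) (nat_lit 214) (nat_lit 5) (nat_lit 222) (nat_lit 5) (nat_lit 215) (nat_lit 5) (nat_lit 451) (nat_lit 374) (nat_lit 315))) (XT.nd (nat_lit 78) (nat_lit 532)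 (nat_lit 0) (XT.lf (nat_lit 0) (nat_lit 3001136794) (nat_lit 532) (nat_lit 5518342288) (nat_lit 608) (nat_lit 1144083336) (nat_lit 207) (nat_lit 5) (nat_lit 214) (nat_lit 5) (nat_lit 215) (nat_lit 5) (nat_lit 452) (nat_lit 374) (nat_lit 314)) (XT.nd (nat_lit 78) (nat_lit 456) (nat_lit 0) (XT.lf (nat_lit 0) (nat_lit 1846221452) (nat_lit 608) (nat_lit 195433945) (nat_lit 76) (nat_lit 7721122640) (nat_lit 206) (nat_lit 5) (nat_lit 214) (nat_lit 5) (nat_lit 207) (nat_lit 5) (nat_lit 453) (nat_lit 374) (nat_lit 313)) (XT.lf (nat_lit 0) (nat_lit 4897778779) (nat_lit 532) (nat_lit 3444115255) (nat_lit 76) (nat_lit 1521604656) (nat_lit 200) (nat_lit 5) (nat_lit 207) (nat_lit 5) (nat_lit 201) (nat_lit 5) (nat_lit 454) (nat_lit 374) (nat_lit 312))))) (XT.nd (nat_lit 234) (nat_lit 988) (nat_lit 0) (XT.nd (nat_lit 78) (nat_lit 532) (nat_lit 0) (XT.lf (nat_lit 0) (nat_lit 3182801832) (nat_lit 532) (nat_lit 4828358299) (nat_lit 608) (nat_lit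 1955064907) (nat_lit 193) (nat_lit 5) (nat_lit 200) (nat_lit 5) (nat_lit 201) (nat_lit 5) (nat_lit 455) (nat_lit 374) (nat_lit 311)) (XT.nd (nat_lit 78) (nat_lit 456) (nat_lit 0) (XT.lf (nat_lit 0) (nat_lit 1089855531) (nat_lit 608) (nat_lit 137496817) (nat_lit 76) (nat_lit 8843741810) (nat_lit 192) (nat_lit 5) (nat_lit 200) (nat_lit 5) (nat_lit 193) (nat_lit 5) (nat_lit 456) (nat_lit 374) (nat_lit 310)) (XT.lf (nat_lit 0) (nat_lit 4195077833) (nat_lit 532) (nat_lit 3525474371) (nat_lit 76) (nat_lit 2456745091) (nat_lit 186) (nat_lit 5) (nat_lit 193) (nat_lit 5) (nat_lit 187) (nat_lit 5) (nat_lit 457) (nat_lit 374) (nat_lit 309)))) (XT.nd (nat_lit 78) (nat_lit 532) (nat_lit 0) (XT.lf (nat_lit 0) (nat_lit 3280250148) (nat_lit 456) (nat_lit 4078877496) (nat_lit 532) (nat_lit 2926568984) (nat_lit 180) (nat_lit 5) (nat_lit 186) (nat_lit 5) (nat_lit 187) (nat_lit 5) (nat_lit 458) (nat_lit 374) (nat_lit 308)) (XT.nd (nat_lit 78) (nat_lit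 456) (nat_lit 0) (XT.lf (nat_lit 0) (nat_lit 178007286) (nat_lit 532) (nat_lit 175264927) (nat_lit 76) (nat_lit 10043167234) (nat_lit 179) (nat_lit 5) (nat_lit 186) (nat_lit 5) (nat_lit 180) (nat_lit 5) (nat_lit 459) (nat_lit 374) (nat_lit 307)) (XT.lf (nat_lit 0) (nat_lit 3339627486) (nat_lit 532) (nat_lit 3717004184) (nat_lit 76) (nat_lit 3451701993) (nat_lit 173) (nat_lit 5) (nat_lit 180) (nat_lit 5) (nat_lit 174) (nat_lit 5) (nat_lit 460) (nat_lit 374) (nat_lit 306))))))) (XT.nd (nat_lit 858) (nat_lit 2812) (nat_lit 0) (XT.nd (nat_lit 390) (nat_lit 1672) (nat_lit 0) (XT.nd (nat_lit 156) (nat_lit 912) (nat_lit 0) (XT.nd (nat_lit 78) (nat_lit 0) (nat_lit 0) (XT.lf (nat_lit 0) (nat_lit 3270459810) (nat_lit 456) (nat_lit 3286176134) (nat_lit 532) (nat_lit 4065992795) (nat_lit 167) (nat_lit 5) (nat_lit 173) (nat_lit 5) (nat_lit 174) (nat_lit 5) (nat_lit 461) (nat_lit 374) (nat_lit 305)) (XT.lf (nat_lit 0) (nat_lit 9834363991)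 (nat_lit 532) (nat_lit 341971552) (nat_lit 76) (nat_lit 562952559) (nat_lit 167) (nat_lit 5) (nat_lit 174) (nat_lit 5) (nat_lit 168) (nat_lit 5) (nat_lit 462) (nat_lit 374) (nat_lit 304))) (XT.nd (nat_lit 78) (nat_lit 456) (nat_lit 0) (XT.lf (nat_lit 0) (nat_lit 2323546179) (nat_lit 456) (nat_lit 4043234272) (nat_lit 76) (nat_lit 4490512785) (nat_lit 161) (nat_lit 5) (nat_lit 167) (nat_lit 5) (nat_lit 162) (nat_lit 5) (nat_lit 463) (nat_lit 374) (nat_lit 303)) (XT.nd (nat_lit 78) (nat_lit 0) (nat_lit 0) (XT.lf (nat_lit 0) (nat_lit 3128549159) (nat_lit 456) (nat_lit 2466933577) (nat_lit 532) (nat_lit 5382241459) (nat_lit 155) (nat_lit 5) (nat_lit 161) (nat_lit 5) (nat_lit 162) (nat_lit 5) (nat_lit 464) (nat_lit 374) (nat_lit 302)) (XT.lf (nat_lit 0) (nat_lit 8938580329) (nat_lit 532) (nat_lit 658368795) (nat_lit 76) (nat_lit 1503505722) (nat_lit 155) (nat_lit 5) (nat_lit 162) (nat_lit 5) (nat_lit 156) (nat_lit 5) (nat_lit 465)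 (nat_lit 374) (nat_lit 301))))) (XT.nd (nat_lit 234) (nat_lit 836) (nat_lit 0) (XT.nd (nat_lit 78) (nat_lit 380) (nat_lit 0) (XT.lf (nat_lit 0) (nat_lit 1137425941) (nat_lit 456) (nat_lit 4530748965) (nat_lit 76) (nat_lit 5556739633) (nat_lit 149) (nat_lit 5) (nat_lit 155) (nat_lit 5) (nat_lit 150) (nat_lit 5) (nat_lit 466) (nat_lit 374) (nat_lit 300)) (XT.nd (nat_lit 78) (nat_lit 0) (nat_lit 0) (XT.lf (nat_lit 0) (nat_lit 2827513460) (nat_lit 380) (nat_lit 1638399846) (nat_lit 456) (nat_lit 6885826553) (nat_lit 144) (nat_lit 5) (nat_lit 149) (nat_lit 5) (nat_lit 150) (nat_lit 5) (nat_lit 467) (nat_lit 374) (nat_lit 299)) (XT.lf (nat_lit 0) (nat_lit 7877145040) (nat_lit 456) (nat_lit 1148720517) (nat_lit 76) (nat_lit 2454917734) (nat_lit 144) (nat_lit 5) (nat_lit 150) (nat_lit 5) (nat_lit 145) (nat_lit 5) (nat_lit 468) (nat_lit 374) (nat_lit 298)))) (XT.nd (nat_lit 78) (nat_lit 456) (nat_lit 0) (XT.lf (nat_lit 0) (nat_lit 6401984298)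 (nat_lit 380) (nat_lit 4977150909) (nat_lit 456) (nat_lit 232826710) (nat_lit 139) (nat_lit 5) (nat_lit 144) (nat_lit 5) (nat_lit 145) (nat_lit 5) (nat_lit 469) (nat_lit 374) (nat_lit 297)) (XT.nd (nat_lit 78) (nat_lit 0) (nat_lit 0) (XT.lf (nat_lit 0) (nat_lit 2337938426) (nat_lit 380) (nat_lit 818571932) (nat_lit 456) (nat_lit 8588979354) (nat_lit 133) (nat_lit 5) (nat_lit 138) (nat_lit 5) (nat_lit 139) (nat_lit 5) (nat_lit 470) (nat_lit 374) (nat_lit 296)) (XT.lf (nat_lit 0) (nat_lit 6638336377) (nat_lit 456) (nat_lit 1843271377) (nat_lit 76) (nat_lit 3399497845) (nat_lit 133) (nat_lit 5) (nat_lit 139) (nat_lit 5) (nat_lit 134) (nat_lit 5) (nat_lit 471) (nat_lit 374) (nat_lit 295)))))) (XT.nd (nat_lit 468) (nat_lit 1292) (nat_lit 0) (XT.nd (nat_lit 234) (nat_lit 760) (nat_lit 0) (XT.nd (nat_lit 78) (nat_lit 456) (nat_lit 0) (XT.lf (nat_lit 0) (nat_lit 5899422583) (nat_lit 304) (nat_lit 4305078802) (nat_lit 380) (nat_lit 1814642989)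 (nat_lit 129) (nat_lit 5) (nat_lit 133) (nat_lit 5) (nat_lit 134) (nat_lit 5) (nat_lit 472) (nat_lit 374) (nat_lit 294)) (XT.nd (nat_lit 78) (nat_lit 0) (nat_lit 0) (XT.lf (nat_lit 0) (nat_lit 1627687828) (nat_lit 380) (nat_lit 26380509) (nat_lit 456) (nat_lit 10505779949) (nat_lit 123) (nat_lit 5) (nat_lit 128) (nat_lit 5) (nat_lit 129) (nat_lit 5) (nat_lit 473) (nat_lit 374) (nat_lit 293)) (XT.lf (nat_lit 0) (nat_lit 5208619191) (nat_lit 456) (nat_lit 2775093817) (nat_lit 76) (nat_lit 4318602457) (nat_lit 123) (nat_lit 5) (nat_lit 129) (nat_lit 5) (nat_lit 124) (nat_lit 5) (nat_lit 474) (nat_lit 374) (nat_lit 292)))) (XT.nd (nat_lit 78) (nat_lit 456) (nat_lit 0) (XT.lf (nat_lit 0) (nat_lit 5160408338) (nat_lit 304) (nat_lit 3679333857) (nat_lit 380) (nat_lit 3607784437) (nat_lit 119) (nat_lit 5) (nat_lit 123) (nat_lit 5) (nat_lit 124) (nat_lit 5) (nat_lit 475) (nat_lit 374) (nat_lit 291)) (XT.nd (nat_lit 78) (nat_lit 76) (nat_lit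 0) (XT.lf (nat_lit 0) (nat_lit 656458263) (nat_lit 380) (nat_lit 11886619944) (nat_lit 456) (nat_lit 52576187) (nat_lit 114) (nat_lit 5) (nat_lit 119) (nat_lit 5) (nat_lit 120) (nat_lit 5) (nat_lit 476) (nat_lit 374) (nat_lit 290)) (XT.lf (nat_lit 0) (nat_lit 3572497792) (nat_lit 456) (nat_lit 3980437436) (nat_lit 76) (nat_lit 5192436807) (nat_lit 113) (nat_lit 5) (nat_lit 119) (nat_lit 5) (nat_lit 114) (nat_lit 5) (nat_lit 477) (nat_lit 374) (nat_lit 289))))) (XT.nd (nat_lit 234) (nat_lit 608) (nat_lit 0) (XT.nd (nat_lit 78) (nat_lit 380) (nat_lit 0) (XT.lf (nat_lit 0) (nat_lit 4147958752) (nat_lit 304) (nat_lit 3120931739) (nat_lit 380) (nat_lit 5629200103) (nat_lit 109) (nat_lit 5) (nat_lit 113) (nat_lit 5) (nat_lit 114) (nat_lit 5) (nat_lit 478) (nat_lit 374) (nat_lit 288)) (XT.nd (nat_lit 78) (nat_lit 380) (nat_lit 0) (XT.lf (nat_lit 0) (nat_lit 11047927360) (nat_lit 380) (nat_lit 613461355) (nat_lit 76) (nat_lit 1392304350)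 (nat_lit 109) (nat_lit 5) (nat_lit 114) (nat_lit 5) (nat_lit 110) (nat_lit 5) (nat_lit 479) (nat_lit 374) (nat_lit 287)) (XT.lf (nat_lit 0) (nat_lit 1712350104) (nat_lit 380) (nat_lit 5499111671) (nat_lit 76) (nat_lit 5999842470) (nat_lit 104) (nat_lit 5) (nat_lit 109) (nat_lit 5) (nat_lit 105) (nat_lit 5) (nat_lit 480) (nat_lit 374) (nat_lit 286)))) (XT.nd (nat_lit 78) (nat_lit 304) (nat_lit 0) (XT.lf (nat_lit 0) (nat_lit 2821418831) (nat_lit 304) (nat_lit 2652383339) (nat_lit 380) (nat_lit 7898087334) (nat_lit 100) (nat_lit 5) (nat_lit 104) (nat_lit 5) (nat_lit 105) (nat_lit 5) (nat_lit 481) (nat_lit 374) (nat_lit 285)) (XT.nd (nat_lit 78) (nat_lit 304) (nat_lit 0) (XT.lf (nat_lit 0) (nat_lit 9334084660) (nat_lit 380) (nat_lit 2208369999) (nat_lit 76) (nat_lit 1992763353) (nat_lit 100) (nat_lit 5) (nat_lit 105) (nat_lit 5) (nat_lit 101) (nat_lit 5) (nat_lit 482) (nat_lit 374) (nat_lit 284)) (XT.lf (nat_lit 0) (nat_lit 6323681205)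 (nat_lit 304) (nat_lit 6980518033) (nat_lit 380) (nat_lit 396964823) (nat_lit 96) (nat_lit 5) (nat_lit 100) (nat_lit 5) (nat_lit 101) (nat_lit 5) (nat_lit 483) (nat_lit 374) (nat_lit 283))))))))
noncomputable def xc76 : XT := (XT.nd (nat_lit 1716) (nat_lit 304) (nat_lit 0) (XT.nd (nat_lit 858) (nat_lit 1444) (nat_lit 0) (XT.nd (nat_lit 390) (nat_lit 1064) (nat_lit 0) (XT.nd (nat_lit 156) (nat_lit 608) (nat_lit 0) (XT.nd (nat_lit 78) (nat_lit 0) (nat_lit 0) (XT.lf (nat_lit 0) (nat_lit 1136028884) (nat_lit 228) (nat_lit 2297934198) (nat_lit 304) (nat_lit 10436089798) (nat_lit 92) (nat_lit 5) (nat_lit 95) (nat_lit 5) (nat_lit 96) (nat_lit 5) (nat_lit 484) (nat_lit 374) (nat_lit 282)) (XT.lf (nat_lit 0) (nat_lit 7376320472) (nat_lit 304) (nat_lit 4183027073) (nat_lit 76) (nat_lit 2482120224) (nat_lit 92) (nat_lit 5) (nat_lit 96) (nat_lit 5) (nat_lit 93) (nat_lit 5) (nat_lit 485) (nat_lit 374) (nat_lit 281))) (XT.nd (nat_lit 78)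 (nat_lit 304) (nat_lit 0) (XT.lf (nat_lit 0) (nat_lit 4541704824) (nat_lit 304) (nat_lit 6875227903) (nat_lit 380) (nat_lit 2798993309) (nat_lit 88) (nat_lit 5) (nat_lit 92) (nat_lit 5) (nat_lit 93) (nat_lit 5) (nat_lit 486) (nat_lit 374) (nat_lit 280)) (XT.nd (nat_lit 78) (nat_lit 228) (nat_lit 0) (XT.lf (nat_lit 0) (nat_lit 1132490066) (nat_lit 380) (nat_lit 944992080) (nat_lit 76) (nat_lit 12316185486) (nat_lit 87) (nat_lit 5) (nat_lit 92) (nat_lit 5) (nat_lit 88) (nat_lit 5) (nat_lit 487) (nat_lit 374) (nat_lit 279)) (XT.lf (nat_lit 0) (nat_lit 5151031438) (nat_lit 304) (nat_lit 6588313796) (nat_lit 76) (nat_lit 2834333710) (nat_lit 84) (nat_lit 5) (nat_lit 88) (nat_lit 5) (nat_lit 85) (nat_lit 5) (nat_lit 488) (nat_lit 374) (nat_lit 278))))) (XT.nd (nat_lit 234) (nat_lit 456) (nat_lit 0) (XT.nd (nat_lit 78) (nat_lit 304) (nat_lit 0) (XT.lf (nat_lit 0) (nat_lit 2325677760) (nat_lit 304) (nat_lit 6934879454) (nat_lit 380)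 (nat_lit 5496523983) (nat_lit 80) (nat_lit 5) (nat_lit 84) (nat_lit 5) (nat_lit 85) (nat_lit 5) (nat_lit 489) (nat_lit 374) (nat_lit 277)) (XT.nd (nat_lit 78) (nat_lit 304) (nat_lit 0) (XT.lf (nat_lit 0) (nat_lit 11466525958) (nat_lit 304) (nat_lit 2005549242) (nat_lit 380) (nat_lit 1471683191) (nat_lit 80) (nat_lit 5) (nat_lit 84) (nat_lit 5) (nat_lit 85) (nat_lit 5) (nat_lit 490) (nat_lit 374) (nat_lit 276)) (XT.lf (nat_lit 0) (nat_lit 2631730303) (nat_lit 304) (nat_lit 9480378550) (nat_lit 76) (nat_lit 3021068768) (nat_lit 76) (nat_lit 5) (nat_lit 80) (nat_lit 5) (nat_lit 77) (nat_lit 5) (nat_lit 491) (nat_lit 374) (nat_lit 275)))) (XT.nd (nat_lit 78) (nat_lit 456) (nat_lit 0) (XT.lf (nat_lit 0) (nat_lit 6810311125) (nat_lit 304) (nat_lit 376899913) (nat_lit 76) (nat_lit 8138726301) (nat_lit 76) (nat_lit 5) (nat_lit 80) (nat_lit 5) (nat_lit 77) (nat_lit 5) (nat_lit 492) (nat_lit 374) (nat_lit 274)) (XT.nd (nat_lit 78) (nat_lit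 228) (nat_lit 0) (XT.lf (nat_lit 0) (nat_lit 8986940292) (nat_lit 228) (nat_lit 2120358824) (nat_lit 304) (nat_lit 4414559131) (nat_lit 73) (nat_lit 5) (nat_lit 76) (nat_lit 5) (nat_lit 77) (nat_lit 5) (nat_lit 493) (nat_lit 374) (nat_lit 273)) (XT.lf (nat_lit 0) (nat_lit 2798742126) (nat_lit 228) (nat_lit 12708578778) (nat_lit 304) (nat_lit 214037441) (nat_lit 70) (nat_lit 5) (nat_lit 73) (nat_lit 5) (nat_lit 74) (nat_lit 5) (nat_lit 494) (nat_lit 374) (nat_lit 272)))))) (XT.nd (nat_lit 390) (nat_lit 608) (nat_lit 0) (XT.nd (nat_lit 156) (nat_lit 532) (nat_lit 0) (XT.nd (nat_lit 78) (nat_lit 228) (nat_lit 0) (XT.lf (nat_lit 0) (nat_lit 4051929809) (nat_lit 304) (nat_lit 3596804228) (nat_lit 76) (nat_lit 8274891982) (nat_lit 69) (nat_lit 5) (nat_lit 73) (nat_lit 5) (nat_lit 70) (nat_lit 5) (nat_lit 495) (nat_lit 374) (nat_lit 271)) (XT.lf (nat_lit 0) (nat_lit 5953233379) (nat_lit 228) (nat_lit 2462865350) (nat_lit 304) (nat_lit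 7713499557) (nat_lit 66) (nat_lit 5) (nat_lit 69) (nat_lit 5) (nat_lit 70) (nat_lit 5) (nat_lit 496) (nat_lit 374) (nat_lit 270))) (XT.nd (nat_lit 78) (nat_lit 532) (nat_lit 0) (XT.lf (nat_lit 0) (nat_lit 12887387663) (nat_lit 304) (nat_lit 653740156) (nat_lit 76) (nat_lit 2798167897) (nat_lit 66) (nat_lit 5) (nat_lit 70) (nat_lit 5) (nat_lit 67) (nat_lit 5) (nat_lit 497) (nat_lit 374) (nat_lit 269)) (XT.nd (nat_lit 78) (nat_lit 228) (nat_lit 0) (XT.lf (nat_lit 0) (nat_lit 936714976) (nat_lit 304) (nat_lit 7433875143) (nat_lit 76) (nat_lit 8181412389) (nat_lit 62) (nat_lit 5) (nat_lit 66) (nat_lit 5) (nat_lit 63) (nat_lit 5) (nat_lit 498) (nat_lit 374) (nat_lit 268)) (XT.lf (nat_lit 0) (nat_lit 2294289871) (nat_lit 228) (nat_lit 3069631948) (nat_lit 304) (nat_lit 11404646936) (nat_lit 59) (nat_lit 5) (nat_lit 62) (nat_lit 5) (nat_lit 63) (nat_lit 5) (nat_lit 499) (nat_lit 374) (nat_lit 267))))) (XT.nd (nat_lit 234) (nat_lit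 380) (nat_lit 0) (XT.nd (nat_lit 78) (nat_lit 228) (nat_lit 0) (XT.lf (nat_lit 0) (nat_lit 9922828090) (nat_lit 304) (nat_lit 4724606434) (nat_lit 76) (nat_lit 2341170963) (nat_lit 59) (nat_lit 5) (nat_lit 63) (nat_lit 5) (nat_lit 60) (nat_lit 5) (nat_lit 500) (nat_lit 374) (nat_lit 266)) (XT.nd (nat_lit 78) (nat_lit 76) (nat_lit 0) (XT.lf (nat_lit 0) (nat_lit 5230667047) (nat_lit 152) (nat_lit 9374735197) (nat_lit 228) (nat_lit 2606993131) (nat_lit 57) (nat_lit 5) (nat_lit 59) (nat_lit 5) (nat_lit 60) (nat_lit 5) (nat_lit 501) (nat_lit 374) (nat_lit 265)) (XT.lf (nat_lit 0) (nat_lit 1925664576) (nat_lit 228) (nat_lit 2041458094) (nat_lit 76) (nat_lit 13473085408) (nat_lit 56) (nat_lit 5) (nat_lit 59) (nat_lit 5) (nat_lit 57) (nat_lit 5) (nat_lit 502) (nat_lit 374) (nat_lit 264)))) (XT.nd (nat_lit 78) (nat_lit 152) (nat_lit 0) (XT.lf (nat_lit 0) (nat_lit 6556101516) (nat_lit 304) (nat_lit 9531744238) (nat_lit 76) (nat_lit 1583548053)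 (nat_lit 53) (nat_lit 5) (nat_lit 57) (nat_lit 5) (nat_lit 54) (nat_lit 5) (nat_lit 503) (nat_lit 374) (nat_lit 263)) (XT.nd (nat_lit 78) (nat_lit 0) (nat_lit 0) (XT.lf (nat_lit 0) (nat_lit 589440349) (nat_lit 152) (nat_lit 10712340971) (nat_lit 228) (nat_lit 6604971299) (nat_lit 51) (nat_lit 5) (nat_lit 53) (nat_lit 5) (nat_lit 54) (nat_lit 5) (nat_lit 504) (nat_lit 374) (nat_lit 262)) (XT.lf (nat_lit 0) (nat_lit 11005447849) (nat_lit 152) (nat_lit 5179812463) (nat_lit 228) (nat_lit 1960702594) (nat_lit 51) (nat_lit 5) (nat_lit 53) (nat_lit 5) (nat_lit 54) (nat_lit 5) (nat_lit 505) (nat_lit 374) (nat_lit 261))))))) (XT.nd (nat_lit 51090) (nat_lit 0) (nat_lit 38532) (XT.nd (nat_lit 50622) (nat_lit 0) (nat_lit 46360) (XT.nd (nat_lit 50388) (nat_lit 0) (nat_lit 49096) (XT.nd (nat_lit 50310) (nat_lit 0) (nat_lit 49704) (XT.lf (nat_lit 0) (nat_lit 2743357278) (nat_lit 304) (nat_lit 15164999928) (nat_lit 76) (nat_lit 481175205) (nat_lit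 47) (nat_lit 5) (nat_lit 51) (nat_lit 5) (nat_lit 48) (nat_lit 5) (nat_lit 506) (nat_lit 374) (nat_lit 260)) (XT.lf (nat_lit 0) (nat_lit 714508923) (nat_lit 380) (nat_lit 1265376803) (nat_lit 380) (nat_lit 1265376803) (nat_lit 701) (nat_lit 4) (nat_lit 706) (nat_lit 5) (nat_lit 706) (nat_lit 4) (nat_lit 390) (nat_lit 375) (nat_lit 375))) (XT.nd (nat_lit 78) (nat_lit 532) (nat_lit 0) (XT.lf (nat_lit 0) (nat_lit 617023407) (nat_lit 456) (nat_lit 1428666946) (nat_lit 76) (nat_lit 4455238760) (nat_lit 700) (nat_lit 5) (nat_lit 706) (nat_lit 5) (nat_lit 701) (nat_lit 4) (nat_lit 391) (nat_lit 375) (nat_lit 374)) (XT.nd (nat_lit 78) (nat_lit 76) (nat_lit 0) (XT.lf (nat_lit 0) (nat_lit 2241263099) (nat_lit 456) (nat_lit 1490875275) (nat_lit 532) (nat_lit 2780341359) (nat_lit 694) (nat_lit 5) (nat_lit 700) (nat_lit 5) (nat_lit 701) (nat_lit 4) (nat_lit 392) (nat_lit 375) (nat_lit 373)) (XT.lf (nat_lit 0) (nat_lit 314228162) (nat_lit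 532) (nat_lit 571603986) (nat_lit 76) (nat_lit 5639736385) (nat_lit 693) (nat_lit 5) (nat_lit 700) (nat_lit 5) (nat_lit 694) (nat_lit 5) (nat_lit 393) (nat_lit 375) (nat_lit 372))))) (XT.nd (nat_lit 234) (nat_lit 1520) (nat_lit 0) (XT.nd (nat_lit 78) (nat_lit 684) (nat_lit 0) (XT.lf (nat_lit 0) (nat_lit 3177291168) (nat_lit 532) (nat_lit 202653108) (nat_lit 608) (nat_lit 3159713807) (nat_lit 686) (nat_lit 5) (nat_lit 693) (nat_lit 5) (nat_lit 694) (nat_lit 5) (nat_lit 394) (nat_lit 375) (nat_lit 371)) (XT.nd (nat_lit 78) (nat_lit 76) (nat_lit 0) (XT.lf (nat_lit 0) (nat_lit 407760539) (nat_lit 608) (nat_lit 6036061410) (nat_lit 684) (nat_lit 111506037) (nat_lit 678) (nat_lit 5) (nat_lit 686) (nat_lit 5) (nat_lit 687) (nat_lit 4) (nat_lit 395) (nat_lit 375) (nat_lit 370)) (XT.lf (nat_lit 0) (nat_lit 2910136900) (nat_lit 684) (nat_lit 2342929221) (nat_lit 76) (nat_lit 1318854317) (nat_lit 677) (nat_lit 5) (nat_lit 686) (nat_lit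 5) (nat_lit 678) (nat_lit 5) (nat_lit 396) (nat_lit 375) (nat_lit 369)))) (XT.nd (nat_lit 78) (nat_lit 836) (nat_lit 0) (XT.lf (nat_lit 0) (nat_lit 1507835741) (nat_lit 684) (nat_lit 4421823379) (nat_lit 760) (nat_lit 660425548) (nat_lit 668) (nat_lit 5) (nat_lit 677) (nat_lit 5) (nat_lit 678) (nat_lit 5) (nat_lit 397) (nat_lit 375) (nat_lit 368)) (XT.nd (nat_lit 78) (nat_lit 760) (nat_lit 0) (XT.lf (nat_lit 0) (nat_lit 2315023920) (nat_lit 760) (nat_lit 1206262230) (nat_lit 76) (nat_lit 3088135351) (nat_lit 667) (nat_lit 5) (nat_lit 677) (nat_lit 5) (nat_lit 668) (nat_lit 5) (nat_lit 398) (nat_lit 375) (nat_lit 367)) (XT.lf (nat_lit 0) (nat_lit 2730001673) (nat_lit 760) (nat_lit 2559975683) (nat_lit 836) (nat_lit 1340135174) (nat_lit 657) (nat_lit 5) (nat_lit 667) (nat_lit 5) (nat_lit 668) (nat_lit 5) (nat_lit 399) (nat_lit 375) (nat_lit 366)))))) (XT.nd (nat_lit 468) (nat_lit 3800) (nat_lit 0) (XT.nd (nat_lit 234) (nat_lit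 2128) (nat_lit 0) (XT.nd (nat_lit 78) (nat_lit 988) (nat_lit 0) (XT.lf (nat_lit 0) (nat_lit 50743293) (nat_lit 836) (nat_lit 1540664303) (nat_lit 912) (nat_lit 5060820024) (nat_lit 645) (nat_lit 5) (nat_lit 656) (nat_lit 5) (nat_lit 657) (nat_lit 5) (nat_lit 400) (nat_lit 375) (nat_lit 365)) (XT.nd (nat_lit 78) (nat_lit 988) (nat_lit 0) (XT.lf (nat_lit 0) (nat_lit 4075521257) (nat_lit 836) (nat_lit 446929649) (nat_lit 912) (nat_lit 2153010367) (nat_lit 645) (nat_lit 5) (nat_lit 656) (nat_lit 5) (nat_lit 657) (nat_lit 5) (nat_lit 401) (nat_lit 375) (nat_lit 364)) (XT.lf (nat_lit 0) (nat_lit 749775054) (nat_lit 988) (nat_lit 5258368681) (nat_lit 76) (nat_lit 691989223) (nat_lit 632) (nat_lit 5) (nat_lit 645) (nat_lit 5) (nat_lit 633) (nat_lit 5) (nat_lit 402) (nat_lit 375) (nat_lit 363)))) (XT.nd (nat_lit 78) (nat_lit 2128) (nat_lit 0) (XT.lf (nat_lit 0) (nat_lit 3636971891) (nat_lit 988) (nat_lit 1192781467) (nat_lit 76) (nat_lit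 1896184397) (nat_lit 632) (nat_lit 5) (nat_lit 645) (nat_lit 5) (nat_lit 633) (nat_lit 5) (nat_lit 403) (nat_lit 375) (nat_lit 362)) (XT.nd (nat_lit 78) (nat_lit 1140) (nat_lit 0) (XT.lf (nat_lit 0) (nat_lit 2943661226) (nat_lit 988) (nat_lit 3593280560) (nat_lit 1064) (nat_lit 216243727) (nat_lit 619) (nat_lit 5) (nat_lit 632) (nat_lit 5) (nat_lit 633) (nat_lit 5) (nat_lit 404) (nat_lit 375) (nat_lit 361)) (XT.lf (nat_lit 0) (nat_lit 335295338) (nat_lit 1064) (nat_lit 2289690232) (nat_lit 1140) (nat_lit 4156733695) (nat_lit 604) (nat_lit 5) (nat_lit 618) (nat_lit 5) (nat_lit 619) (nat_lit 5) (nat_lit 405) (nat_lit 375) (nat_lit 360))))) (XT.nd (nat_lit 234) (nat_lit 2584) (nat_lit 0) (XT.nd (nat_lit 78) (nat_lit 1216) (nat_lit 0) (XT.lf (nat_lit 0) (nat_lit 4563914185) (nat_lit 1064) (nat_lit 919126066) (nat_lit 1140) (nat_lit 1328522793) (nat_lit 604) (nat_lit 5) (nat_lit 618) (nat_lit 5) (nat_lit 619) (nat_lit 5) (nat_lit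 406) (nat_lit 375) (nat_lit 359)) (XT.nd (nat_lit 78) (nat_lit 0) (nat_lit 0) (XT.lf (nat_lit 0) (nat_lit 1490321031) (nat_lit 1216) (nat_lit 4844058773) (nat_lit 76) (nat_lit 508357084) (nat_lit 588) (nat_lit 5) (nat_lit 604) (nat_lit 5) (nat_lit 589) (nat_lit 5) (nat_lit 407) (nat_lit 375) (nat_lit 358)) (XT.lf (nat_lit 0) (nat_lit 4308149683) (nat_lit 1216) (nat_lit 578983227) (nat_lit 76) (nat_lit 1988042104) (nat_lit 588) (nat_lit 5) (nat_lit 604) (nat_lit 5) (nat_lit 589) (nat_lit 5) (nat_lit 408) (nat_lit 375) (nat_lit 357)))) (XT.nd (nat_lit 78) (nat_lit 1292) (nat_lit 0) (XT.lf (nat_lit 0) (nat_lit 235014418) (nat_lit 1292) (nat_lit 3138857191) (nat_lit 76) (nat_lit 3535087412) (nat_lit 571) (nat_lit 5) (nat_lit 588) (nat_lit 5) (nat_lit 572) (nat_lit 5) (nat_lit 409) (nat_lit 375) (nat_lit 356)) (XT.nd (nat_lit 78) (nat_lit 0) (nat_lit 0) (XT.lf (nat_lit 0) (nat_lit 1219982195) (nat_lit 1292) (nat_lit 1791349291) (nat_lit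 1368) (nat_lit 3932718648) (nat_lit 554) (nat_lit 5) (nat_lit 571) (nat_lit 5) (nat_lit 572) (nat_lit 5) (nat_lit 410) (nat_lit 375) (nat_lit 355)) (XT.lf (nat_lit 0) (nat_lit 5659205118) (nat_lit 1292) (nat_lit 146619584) (nat_lit 1368) (nat_lit 1174787887) (nat_lit 554) (nat_lit 5) (nat_lit 571) (nat_lit 5) (nat_lit 572) (nat_lit 5) (nat_lit 411) (nat_lit 375) (nat_lit 354))))))))
noncomputable def xc77 : XT := (XT.nd (nat_lit 1716) (nat_lit 9652) (nat_lit 0) (XT.nd (nat_lit 858) (nat_lit 6916) (nat_lit 0) (XT.nd (nat_lit 390) (nat_lit 4864) (nat_lit 0) (XT.nd (nat_lit 156) (nat_lit 3192) (nat_lit 0) (XT.nd (nat_lit 78) (nat_lit 1444) (nat_lit 0) (XT.lf (nat_lit 0) (nat_lit 1589804352) (nat_lit 1444) (nat_lit 3877829759) (nat_lit 76) (nat_lit 1550621296) (nat_lit 535) (nat_lit 5) (nat_lit 554) (nat_lit 5) (nat_lit 536) (nat_lit 5) (nat_lit 412) (nat_lit 375) (nat_lit 353)) (XT.lf (nat_lit 0) (nat_lit 601970106) (nat_lit 1444)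 (nat_lit 3749004542) (nat_lit 1520) (nat_lit 2706402012) (nat_lit 516) (nat_lit 5) (nat_lit 535) (nat_lit 5) (nat_lit 536) (nat_lit 5) (nat_lit 413) (nat_lit 375) (nat_lit 352))) (XT.nd (nat_lit 78) (nat_lit 3116) (nat_lit 0) (XT.lf (nat_lit 0) (nat_lit 38959390) (nat_lit 1520) (nat_lit 1923945811) (nat_lit 76) (nat_lit 5134990618) (nat_lit 515) (nat_lit 5) (nat_lit 535) (nat_lit 5) (nat_lit 516) (nat_lit 5) (nat_lit 414) (nat_lit 375) (nat_lit 351)) (XT.nd (nat_lit 78) (nat_lit 1596) (nat_lit 0) (XT.lf (nat_lit 0) (nat_lit 2665682346) (nat_lit 1520) (nat_lit 99350147) (nat_lit 1596) (nat_lit 4374614211) (nat_lit 495) (nat_lit 5) (nat_lit 515) (nat_lit 5) (nat_lit 516) (nat_lit 5) (nat_lit 415) (nat_lit 375) (nat_lit 350)) (XT.lf (nat_lit 0) (nat_lit 130823243) (nat_lit 1596) (nat_lit 5385847522) (nat_lit 1672) (nat_lit 1666160571) (nat_lit 474) (nat_lit 5) (nat_lit 495) (nat_lit 5) (nat_lit 496) (nat_lit 5) (nat_lit 416) (nat_lit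 375) (nat_lit 349))))) (XT.nd (nat_lit 234) (nat_lit 3116) (nat_lit 0) (XT.nd (nat_lit 78) (nat_lit 1672) (nat_lit 0) (XT.lf (nat_lit 0) (nat_lit 1058832103) (nat_lit 1672) (nat_lit 2396628635) (nat_lit 76) (nat_lit 3771760377) (nat_lit 473) (nat_lit 5) (nat_lit 495) (nat_lit 5) (nat_lit 474) (nat_lit 5) (nat_lit 417) (nat_lit 375) (nat_lit 348)) (XT.nd (nat_lit 78) (nat_lit 0) (nat_lit 0) (XT.lf (nat_lit 0) (nat_lit 2321540224) (nat_lit 1672) (nat_lit 1456500537) (nat_lit 1748) (nat_lit 3495015614) (nat_lit 451) (nat_lit 5) (nat_lit 473) (nat_lit 5) (nat_lit 474) (nat_lit 5) (nat_lit 418) (nat_lit 375) (nat_lit 347)) (XT.lf (nat_lit 0) (nat_lit 6519275401) (nat_lit 1748) (nat_lit 207303813) (nat_lit 76) (nat_lit 593894399) (nat_lit 451) (nat_lit 5) (nat_lit 474) (nat_lit 5) (nat_lit 452) (nat_lit 5) (nat_lit 419) (nat_lit 375) (nat_lit 346)))) (XT.nd (nat_lit 78) (nat_lit 1292) (nat_lit 0) (XT.lf (nat_lit 0) (nat_lit 1909298777)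 (nat_lit 1824) (nat_lit 2748232902) (nat_lit 76) (nat_lit 2711305527) (nat_lit 427) (nat_lit 5) (nat_lit 451) (nat_lit 5) (nat_lit 428) (nat_lit 5) (nat_lit 420) (nat_lit 375) (nat_lit 345)) (XT.nd (nat_lit 78) (nat_lit 0) (nat_lit 0) (XT.lf (nat_lit 0) (nat_lit 2102127793) (nat_lit 1292) (nat_lit 2525240067) (nat_lit 1368) (nat_lit 2791429552) (nat_lit 410) (nat_lit 5) (nat_lit 427) (nat_lit 5) (nat_lit 428) (nat_lit 5) (nat_lit 421) (nat_lit 375) (nat_lit 344)) (XT.lf (nat_lit 0) (nat_lit 7037209572) (nat_lit 1292) (nat_lit 330740013) (nat_lit 1368) (nat_lit 102460942) (nat_lit 410) (nat_lit 5) (nat_lit 427) (nat_lit 5) (nat_lit 428) (nat_lit 5) (nat_lit 422) (nat_lit 375) (nat_lit 343)))))) (XT.nd (nat_lit 390) (nat_lit 3268) (nat_lit 0) (XT.nd (nat_lit 156) (nat_lit 1824) (nat_lit 0) (XT.nd (nat_lit 78) (nat_lit 836) (nat_lit 0) (XT.lf (nat_lit 0) (nat_lit 2598192782) (nat_lit 988) (nat_lit 2994721166) (nat_lit 76) (nat_lit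 1929964516) (nat_lit 397) (nat_lit 5) (nat_lit 410) (nat_lit 5) (nat_lit 398) (nat_lit 5) (nat_lit 423) (nat_lit 375) (nat_lit 342)) (XT.lf (nat_lit 0) (nat_lit 1991593470) (nat_lit 836) (nat_lit 3328951661) (nat_lit 912) (nat_lit 2256471697) (nat_lit 386) (nat_lit 5) (nat_lit 397) (nat_lit 5) (nat_lit 398) (nat_lit 5) (nat_lit 424) (nat_lit 375) (nat_lit 341))) (XT.nd (nat_lit 78) (nat_lit 1748) (nat_lit 0) (XT.lf (nat_lit 0) (nat_lit 430547927) (nat_lit 912) (nat_lit 567009824) (nat_lit 76) (nat_lit 6635204141) (nat_lit 385) (nat_lit 5) (nat_lit 397) (nat_lit 5) (nat_lit 386) (nat_lit 5) (nat_lit 425) (nat_lit 375) (nat_lit 340)) (XT.nd (nat_lit 78) (nat_lit 836) (nat_lit 0) (XT.lf (nat_lit 0) (nat_lit 3132159649) (nat_lit 988) (nat_lit 3151747909) (nat_lit 76) (nat_lit 1405609530) (nat_lit 373) (nat_lit 5) (nat_lit 386) (nat_lit 5) (nat_lit 374) (nat_lit 5) (nat_lit 426) (nat_lit 375) (nat_lit 339)) (XT.lf (nat_lit 0) (nat_lit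 1974376019) (nat_lit 836) (nat_lit 3889556104) (nat_lit 912) (nat_lit 1883967262) (nat_lit 362) (nat_lit 5) (nat_lit 373) (nat_lit 5) (nat_lit 374) (nat_lit 5) (nat_lit 427) (nat_lit 375) (nat_lit 338))))) (XT.nd (nat_lit 234) (nat_lit 1596) (nat_lit 0) (XT.nd (nat_lit 78) (nat_lit 1596) (nat_lit 0) (XT.lf (nat_lit 0) (nat_lit 806279191) (nat_lit 912) (nat_lit 617087352) (nat_lit 76) (nat_lit 6384498467) (nat_lit 361) (nat_lit 5) (nat_lit 373) (nat_lit 5) (nat_lit 362) (nat_lit 5) (nat_lit 428) (nat_lit 375) (nat_lit 337)) (XT.nd (nat_lit 78) (nat_lit 760) (nat_lit 0) (XT.lf (nat_lit 0) (nat_lit 3516688211) (nat_lit 912) (nat_lit 3234794097) (nat_lit 76) (nat_lit 1117480624) (nat_lit 350) (nat_lit 5) (nat_lit 362) (nat_lit 5) (nat_lit 351) (nat_lit 5) (nat_lit 429) (nat_lit 375) (nat_lit 336)) (XT.lf (nat_lit 0) (nat_lit 2035068543) (nat_lit 760) (nat_lit 4227676472) (nat_lit 836) (nat_lit 1668922461) (nat_lit 340) (nat_lit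 5) (nat_lit 350) (nat_lit 5) (nat_lit 351) (nat_lit 5) (nat_lit 430) (nat_lit 375) (nat_lit 335)))) (XT.nd (nat_lit 78) (nat_lit 1520) (nat_lit 0) (XT.lf (nat_lit 0) (nat_lit 1030830171) (nat_lit 836) (nat_lit 598161477) (nat_lit 76) (nat_lit 6366973868) (nat_lit 339) (nat_lit 5) (nat_lit 350) (nat_lit 5) (nat_lit 340) (nat_lit 5) (nat_lit 431) (nat_lit 375) (nat_lit 334)) (XT.nd (nat_lit 78) (nat_lit 760) (nat_lit 0) (XT.lf (nat_lit 0) (nat_lit 3756133192) (nat_lit 836) (nat_lit 3259303556) (nat_lit 76) (nat_lit 1046026773) (nat_lit 329) (nat_lit 5) (nat_lit 340) (nat_lit 5) (nat_lit 330) (nat_lit 5) (nat_lit 432) (nat_lit 375) (nat_lit 333)) (XT.lf (nat_lit 0) (nat_lit 2158280398) (nat_lit 760) (nat_lit 4362796138) (nat_lit 836) (nat_lit 1607504696) (nat_lit 319) (nat_lit 5) (nat_lit 329) (nat_lit 5) (nat_lit 330) (nat_lit 5) (nat_lit 433) (nat_lit 375) (nat_lit 332))))))) (XT.nd (nat_lit 858) (nat_lit 4636) (nat_lit 0) (XT.nd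 (nat_lit 390) (nat_lit 2736) (nat_lit 0) (XT.nd (nat_lit 156) (nat_lit 1444) (nat_lit 0) (XT.nd (nat_lit 78) (nat_lit 760) (nat_lit 0) (XT.lf (nat_lit 0) (nat_lit 1107818284) (nat_lit 836) (nat_lit 525660662) (nat_lit 76) (nat_lit 6563854745) (nat_lit 318) (nat_lit 5) (nat_lit 329) (nat_lit 5) (nat_lit 319) (nat_lit 5) (nat_lit 434) (nat_lit 375) (nat_lit 331)) (XT.lf (nat_lit 0) (nat_lit 3853729255) (nat_lit 836) (nat_lit 3240822322) (nat_lit 76) (nat_lit 1172752703) (nat_lit 308) (nat_lit 5) (nat_lit 319) (nat_lit 5) (nat_lit 309) (nat_lit 5) (nat_lit 435) (nat_lit 375) (nat_lit 330))) (XT.nd (nat_lit 78) (nat_lit 760) (nat_lit 0) (XT.lf (nat_lit 0) (nat_lit 2328495856) (nat_lit 684) (nat_lit 4313411458) (nat_lit 760) (nat_lit 1697031474) (nat_lit 299) (nat_lit 5) (nat_lit 308) (nat_lit 5) (nat_lit 309) (nat_lit 5) (nat_lit 436) (nat_lit 375) (nat_lit 329)) (XT.nd (nat_lit 78) (nat_lit 684) (nat_lit 0) (XT.lf (nat_lit 0) (nat_lit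 1039733976) (nat_lit 760) (nat_lit 415190565) (nat_lit 76) (nat_lit 6957353547) (nat_lit 298) (nat_lit 5) (nat_lit 308) (nat_lit 5) (nat_lit 299) (nat_lit 5) (nat_lit 437) (nat_lit 375) (nat_lit 328)) (XT.lf (nat_lit 0) (nat_lit 3811596452) (nat_lit 760) (nat_lit 3195142138) (nat_lit 76) (nat_lit 1480070359) (nat_lit 289) (nat_lit 5) (nat_lit 299) (nat_lit 5) (nat_lit 290) (nat_lit 5) (nat_lit 438) (nat_lit 375) (nat_lit 327))))) (XT.nd (nat_lit 234) (nat_lit 1292) (nat_lit 0) (XT.nd (nat_lit 78) (nat_lit 760) (nat_lit 0) (XT.lf (nat_lit 0) (nat_lit 2529928313) (nat_lit 684) (nat_lit 4097180312) (nat_lit 760) (nat_lit 1935968163) (nat_lit 280) (nat_lit 5) (nat_lit 289) (nat_lit 5) (nat_lit 290) (nat_lit 5) (nat_lit 439) (nat_lit 375) (nat_lit 326)) (XT.nd (nat_lit 78) (nat_lit 684) (nat_lit 0) (XT.lf (nat_lit 0) (nat_lit 827941162) (nat_lit 760) (nat_lit 282680814) (nat_lit 76) (nat_lit 7530524108) (nat_lit 279) (nat_lit 5)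 (nat_lit 289) (nat_lit 5) (nat_lit 280) (nat_lit 5) (nat_lit 440) (nat_lit 375) (nat_lit 325)) (XT.lf (nat_lit 0) (nat_lit 3630736956) (nat_lit 760) (nat_lit 3138449358) (nat_lit 76) (nat_lit 1951153898) (nat_lit 270) (nat_lit 5) (nat_lit 280) (nat_lit 5) (nat_lit 271) (nat_lit 5) (nat_lit 441) (nat_lit 375) (nat_lit 324)))) (XT.nd (nat_lit 78) (nat_lit 684) (nat_lit 0) (XT.lf (nat_lit 0) (nat_lit 2746368762) (nat_lit 608) (nat_lit 3731067591) (nat_lit 684) (nat_lit 2323934716) (nat_lit 262) (nat_lit 5) (nat_lit 270) (nat_lit 5) (nat_lit 271) (nat_lit 5) (nat_lit 442) (nat_lit 375) (nat_lit 323)) (XT.nd (nat_lit 78) (nat_lit 608) (nat_lit 0) (XT.lf (nat_lit 0) (nat_lit 472668779) (nat_lit 684) (nat_lit 144537913) (nat_lit 76) (nat_lit 8267117921) (nat_lit 261) (nat_lit 5) (nat_lit 270) (nat_lit 5) (nat_lit 262) (nat_lit 5) (nat_lit 443) (nat_lit 375) (nat_lit 322)) (XT.lf (nat_lit 0) (nat_lit 3311022857) (nat_lit 684) (nat_lit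 3087480559) (nat_lit 76) (nat_lit 2569797104) (nat_lit 253) (nat_lit 5) (nat_lit 262) (nat_lit 5) (nat_lit 254) (nat_lit 5) (nat_lit 444) (nat_lit 375) (nat_lit 321)))))) (XT.nd (nat_lit 468) (nat_lit 2204) (nat_lit 0) (XT.nd (nat_lit 234) (nat_lit 1140) (nat_lit 0) (XT.nd (nat_lit 78) (nat_lit 684) (nat_lit 0) (XT.lf (nat_lit 0) (nat_lit 2961027184) (nat_lit 608) (nat_lit 3231488775) (nat_lit 684) (nat_lit 2861721601) (nat_lit 245) (nat_lit 5) (nat_lit 253) (nat_lit 5) (nat_lit 254) (nat_lit 5) (nat_lit 445) (nat_lit 375) (nat_lit 320)) (XT.nd (nat_lit 78) (nat_lit 684) (nat_lit 0) (XT.lf (nat_lit 0) (nat_lit 9114932794) (nat_lit 684) (nat_lit 18044254) (nat_lit 76) (nat_lit 9259293) (nat_lit 245) (nat_lit 5) (nat_lit 254) (nat_lit 5) (nat_lit 246) (nat_lit 5) (nat_lit 446) (nat_lit 375) (nat_lit 319)) (XT.lf (nat_lit 0) (nat_lit 2851174770) (nat_lit 684) (nat_lit 3059686271) (nat_lit 76) (nat_lit 3320272092) (nat_lit 236)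 (nat_lit 5) (nat_lit 245) (nat_lit 5) (nat_lit 237) (nat_lit 5) (nat_lit 447) (nat_lit 375) (nat_lit 318)))) (XT.nd (nat_lit 78) (nat_lit 608) (nat_lit 0) (XT.lf (nat_lit 0) (nat_lit 3156365437) (nat_lit 532) (nat_lit 2614452716) (nat_lit 608) (nat_lit 3551315242) (nat_lit 229) (nat_lit 5) (nat_lit 236) (nat_lit 5) (nat_lit 237) (nat_lit 5) (nat_lit 448) (nat_lit 375) (nat_lit 317)) (XT.nd (nat_lit 78) (nat_lit 76) (nat_lit 0) (XT.lf (nat_lit 0) (nat_lit 71253748) (nat_lit 532) (nat_lit 8667267402) (nat_lit 608) (nat_lit 676647378) (nat_lit 222) (nat_lit 5) (nat_lit 229) (nat_lit 5) (nat_lit 230) (nat_lit 5) (nat_lit 449) (nat_lit 375) (nat_lit 316)) (XT.lf (nat_lit 0) (nat_lit 2248730895) (nat_lit 608) (nat_lit 3073404302) (nat_lit 76) (nat_lit 4187188194) (nat_lit 221) (nat_lit 5) (nat_lit 229) (nat_lit 5) (nat_lit 222) (nat_lit 5) (nat_lit 450) (nat_lit 375) (nat_lit 315))))) (XT.nd (nat_lit 234) (nat_lit 1064) (nat_lit 0)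 (XT.nd (nat_lit 78) (nat_lit 608) (nat_lit 0) (XT.lf (nat_lit 0) (nat_lit 3313920104) (nat_lit 532) (nat_lit 1895704791) (nat_lit 608) (nat_lit 4395933363) (nat_lit 214) (nat_lit 5) (nat_lit 221) (nat_lit 5) (nat_lit 222) (nat_lit 5) (nat_lit 451) (nat_lit 375) (nat_lit 314)) (XT.nd (nat_lit 78) (nat_lit 76) (nat_lit 0) (XT.lf (nat_lit 0) (nat_lit 110379548) (nat_lit 532) (nat_lit 8116071032) (nat_lit 608) (nat_lit 1477340542) (nat_lit 207) (nat_lit 5) (nat_lit 214) (nat_lit 5) (nat_lit 215) (nat_lit 5) (nat_lit 452) (nat_lit 375) (nat_lit 313)) (XT.lf (nat_lit 0) (nat_lit 1500006088) (nat_lit 608) (nat_lit 3148044257) (nat_lit 76) (nat_lit 5155349854) (nat_lit 206) (nat_lit 5) (nat_lit 214) (nat_lit 5) (nat_lit 207) (nat_lit 5) (nat_lit 453) (nat_lit 375) (nat_lit 312)))) (XT.nd (nat_lit 78) (nat_lit 608) (nat_lit 0) (XT.lf (nat_lit 0) (nat_lit 3414113667) (nat_lit 456) (nat_lit 1090871586) (nat_lit 532) (nat_lit 5400070696)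 (nat_lit 200) (nat_lit 5) (nat_lit 206) (nat_lit 5) (nat_lit 207) (nat_lit 5) (nat_lit 454) (nat_lit 375) (nat_lit 311)) (XT.nd (nat_lit 78) (nat_lit 76) (nat_lit 0) (XT.lf (nat_lit 0) (nat_lit 78882495) (nat_lit 532) (nat_lit 7495401033) (nat_lit 608) (nat_lit 2434383896) (nat_lit 193) (nat_lit 5) (nat_lit 200) (nat_lit 5) (nat_lit 201) (nat_lit 5) (nat_lit 455) (nat_lit 375) (nat_lit 310)) (XT.lf (nat_lit 0) (nat_lit 600040432) (nat_lit 608) (nat_lit 3304284971) (nat_lit 76) (nat_lit 6209612364) (nat_lit 192) (nat_lit 5) (nat_lit 200) (nat_lit 5) (nat_lit 193) (nat_lit 5) (nat_lit 456) (nat_lit 375) (nat_lit 309))))))))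
noncomputable def xc78 : XT := (XT.nd (nat_lit 1716) (nat_lit 4104) (nat_lit 0) (XT.nd (nat_lit 858) (nat_lit 2736) (nat_lit 0) (XT.nd (nat_lit 390) (nat_lit 1824) (nat_lit 0) (XT.nd (nat_lit 156) (nat_lit 988) (nat_lit 0) (XT.nd (nat_lit 78) (nat_lit 0) (nat_lit 0) (XT.lf (nat_lit 0) (nat_lit 3436052247) (nat_lit 456) (nat_lit 215608337) (nat_lit 532) (nat_lit 6569555627) (nat_lit 186) (nat_lit 5) (nat_lit 192) (nat_lit 5) (nat_lit 193) (nat_lit 5) (nat_lit 457) (nat_lit 375) (nat_lit 308)) (XT.lf (nat_lit 0) (nat_lit 6776690191) (nat_lit 532) (nat_lit 44271415) (nat_lit 76) (nat_lit 3509437544) (nat_lit 186) (nat_lit 5) (nat_lit 193) (nat_lit 5) (nat_lit 187) (nat_lit 5) (nat_lit 458) (nat_lit 375) (nat_lit 307))) (XT.nd (nat_lit 78) (nat_lit 532) (nat_lit 0) (XT.lf (nat_lit 0) (nat_lit 6874201065) (nat_lit 456) (nat_lit 3103753575) (nat_lit 532) (nat_lit 463542764) (nat_lit 180) (nat_lit 5) (nat_lit 186) (nat_lit 5) (nat_lit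 187) (nat_lit 5) (nat_lit 459) (nat_lit 375) (nat_lit 306)) (XT.nd (nat_lit 78) (nat_lit 0) (nat_lit 0) (XT.lf (nat_lit 0) (nat_lit 2647695743) (nat_lit 532) (nat_lit 7202006193) (nat_lit 76) (nat_lit 704882115) (nat_lit 173) (nat_lit 5) (nat_lit 180) (nat_lit 5) (nat_lit 174) (nat_lit 5) (nat_lit 460) (nat_lit 375) (nat_lit 305)) (XT.lf (nat_lit 0) (nat_lit 5827647261) (nat_lit 532) (nat_lit 280379350) (nat_lit 76) (nat_lit 4561596612) (nat_lit 173) (nat_lit 5) (nat_lit 180) (nat_lit 5) (nat_lit 174) (nat_lit 5) (nat_lit 461) (nat_lit 375) (nat_lit 304))))) (XT.nd (nat_lit 234) (nat_lit 912) (nat_lit 0) (XT.nd (nat_lit 78) (nat_lit 456) (nat_lit 0) (XT.lf (nat_lit 0) (nat_lit 6823735470) (nat_lit 456) (nat_lit 2260430918) (nat_lit 532) (nat_lit 1702543277) (nat_lit 167) (nat_lit 5) (nat_lit 173) (nat_lit 5) (nat_lit 174) (nat_lit 5) (nat_lit 462) (nat_lit 375) (nat_lit 303)) (XT.nd (nat_lit 78) (nat_lit 0) (nat_lit 0) (XT.lf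 (nat_lit 0) (nat_lit 1482078023) (nat_lit 456) (nat_lit 7763365909) (nat_lit 76) (nat_lit 1660463425) (nat_lit 161) (nat_lit 5) (nat_lit 167) (nat_lit 5) (nat_lit 162) (nat_lit 5) (nat_lit 463) (nat_lit 375) (nat_lit 302)) (XT.lf (nat_lit 0) (nat_lit 4718355355) (nat_lit 456) (nat_lit 655282998) (nat_lit 76) (nat_lit 5653415880) (nat_lit 161) (nat_lit 5) (nat_lit 167) (nat_lit 5) (nat_lit 162) (nat_lit 5) (nat_lit 464) (nat_lit 375) (nat_lit 301)))) (XT.nd (nat_lit 78) (nat_lit 456) (nat_lit 0) (XT.lf (nat_lit 0) (nat_lit 6637114944) (nat_lit 456) (nat_lit 1394943535) (nat_lit 532) (nat_lit 3118316973) (nat_lit 155) (nat_lit 5) (nat_lit 161) (nat_lit 5) (nat_lit 162) (nat_lit 5) (nat_lit 465) (nat_lit 375) (nat_lit 300)) (XT.nd (nat_lit 78) (nat_lit 0) (nat_lit 0) (XT.lf (nat_lit 0) (nat_lit 143751311) (nat_lit 456) (nat_lit 8494696696) (nat_lit 76) (nat_lit 2637509431) (nat_lit 149) (nat_lit 5) (nat_lit 155) (nat_lit 5) (nat_lit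 150) (nat_lit 5) (nat_lit 466) (nat_lit 375) (nat_lit 299)) (XT.lf (nat_lit 0) (nat_lit 3438988322) (nat_lit 456) (nat_lit 1195903323) (nat_lit 76) (nat_lit 6768558645) (nat_lit 149) (nat_lit 5) (nat_lit 155) (nat_lit 5) (nat_lit 150) (nat_lit 5) (nat_lit 467) (nat_lit 375) (nat_lit 298)))))) (XT.nd (nat_lit 390) (nat_lit 1216) (nat_lit 0) (XT.nd (nat_lit 156) (nat_lit 760) (nat_lit 0) (XT.nd (nat_lit 78) (nat_lit 380) (nat_lit 0) (XT.lf (nat_lit 0) (nat_lit 6286988425) (nat_lit 380) (nat_lit 524468428) (nat_lit 456) (nat_lit 4721814608) (nat_lit 144) (nat_lit 5) (nat_lit 149) (nat_lit 5) (nat_lit 150) (nat_lit 5) (nat_lit 468) (nat_lit 375) (nat_lit 297)) (XT.lf (nat_lit 0) (nat_lit 2231078576) (nat_lit 380) (nat_lit 8037379727) (nat_lit 456) (nat_lit 1396893984) (nat_lit 139) (nat_lit 5) (nat_lit 144) (nat_lit 5) (nat_lit 145) (nat_lit 5) (nat_lit 469) (nat_lit 375) (nat_lit 296))) (XT.nd (nat_lit 78) (nat_lit 684) (nat_lit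 0) (XT.lf (nat_lit 0) (nat_lit 1978072083) (nat_lit 456) (nat_lit 1931557908) (nat_lit 76) (nat_lit 7889996341) (nat_lit 138) (nat_lit 5) (nat_lit 144) (nat_lit 5) (nat_lit 139) (nat_lit 5) (nat_lit 470) (nat_lit 375) (nat_lit 295)) (XT.nd (nat_lit 78) (nat_lit 304) (nat_lit 0) (XT.lf (nat_lit 0) (nat_lit 5412670048) (nat_lit 456) (nat_lit 6194863887) (nat_lit 76) (nat_lit 328655132) (nat_lit 133) (nat_lit 5) (nat_lit 139) (nat_lit 5) (nat_lit 134) (nat_lit 5) (nat_lit 471) (nat_lit 375) (nat_lit 294)) (XT.lf (nat_lit 0) (nat_lit 1467956312) (nat_lit 304) (nat_lit 7468021354) (nat_lit 380) (nat_lit 3139109565) (nat_lit 129) (nat_lit 5) (nat_lit 133) (nat_lit 5) (nat_lit 134) (nat_lit 5) (nat_lit 472) (nat_lit 375) (nat_lit 293))))) (XT.nd (nat_lit 234) (nat_lit 456) (nat_lit 0) (XT.nd (nat_lit 78) (nat_lit 684) (nat_lit 0) (XT.lf (nat_lit 0) (nat_lit 322360299) (nat_lit 380) (nat_lit 2894269358) (nat_lit 76) (nat_lit 8999827868)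 (nat_lit 128) (nat_lit 5) (nat_lit 133) (nat_lit 5) (nat_lit 129) (nat_lit 5) (nat_lit 473) (nat_lit 375) (nat_lit 292)) (XT.nd (nat_lit 78) (nat_lit 304) (nat_lit 0) (XT.lf (nat_lit 0) (nat_lit 3823071005) (nat_lit 456) (nat_lit 7393551602) (nat_lit 76) (nat_lit 1143381011) (nat_lit 123) (nat_lit 5) (nat_lit 129) (nat_lit 5) (nat_lit 124) (nat_lit 5) (nat_lit 474) (nat_lit 375) (nat_lit 291)) (XT.lf (nat_lit 0) (nat_lit 458831136) (nat_lit 304) (nat_lit 6951151246) (nat_lit 380) (nat_lit 5096118707) (nat_lit 119) (nat_lit 5) (nat_lit 123) (nat_lit 5) (nat_lit 124) (nat_lit 5) (nat_lit 475) (nat_lit 375) (nat_lit 290)))) (XT.nd (nat_lit 78) (nat_lit 456) (nat_lit 0) (XT.lf (nat_lit 0) (nat_lit 8525424305) (nat_lit 304) (nat_lit 2565439348) (nat_lit 380) (nat_lit 1563816322) (nat_lit 119) (nat_lit 5) (nat_lit 123) (nat_lit 5) (nat_lit 124) (nat_lit 5) (nat_lit 476) (nat_lit 375) (nat_lit 289)) (XT.nd (nat_lit 78) (nat_lit 0)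 (nat_lit 0) (XT.lf (nat_lit 0) (nat_lit 2023505580) (nat_lit 456) (nat_lit 8875527058) (nat_lit 76) (nat_lit 1906714614) (nat_lit 113) (nat_lit 5) (nat_lit 119) (nat_lit 5) (nat_lit 114) (nat_lit 5) (nat_lit 477) (nat_lit 375) (nat_lit 288)) (XT.lf (nat_lit 0) (nat_lit 5679663389) (nat_lit 456) (nat_lit 822688529) (nat_lit 76) (nat_lit 6456920506) (nat_lit 113) (nat_lit 5) (nat_lit 119) (nat_lit 5) (nat_lit 114) (nat_lit 5) (nat_lit 478) (nat_lit 375) (nat_lit 287))))))) (XT.nd (nat_lit 858) (nat_lit 1900) (nat_lit 0) (XT.nd (nat_lit 390) (nat_lit 912) (nat_lit 0) (XT.nd (nat_lit 156) (nat_lit 684) (nat_lit 0) (XT.nd (nat_lit 78) (nat_lit 304) (nat_lit 0) (XT.lf (nat_lit 0) (nat_lit 7446977177) (nat_lit 304) (nat_lit 1983971562) (nat_lit 380) (nat_lit 3684483059) (nat_lit 109) (nat_lit 5) (nat_lit 113) (nat_lit 5) (nat_lit 114) (nat_lit 5) (nat_lit 479) (nat_lit 375) (nat_lit 286)) (XT.lf (nat_lit 0) (nat_lit 2593472187) (nat_lit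 304) (nat_lit 10677024419) (nat_lit 380) (nat_lit 3956734) (nat_lit 105) (nat_lit 5) (nat_lit 109) (nat_lit 5) (nat_lit 110) (nat_lit 5) (nat_lit 480) (nat_lit 375) (nat_lit 285))) (XT.nd (nat_lit 78) (nat_lit 608) (nat_lit 0) (XT.lf (nat_lit 0) (nat_lit 3726291216) (nat_lit 380) (nat_lit 2418280640) (nat_lit 76) (nat_lit 7291094146) (nat_lit 104) (nat_lit 5) (nat_lit 109) (nat_lit 5) (nat_lit 105) (nat_lit 5) (nat_lit 481) (nat_lit 375) (nat_lit 284)) (XT.nd (nat_lit 78) (nat_lit 304) (nat_lit 0) (XT.lf (nat_lit 0) (nat_lit 6047668279) (nat_lit 304) (nat_lit 1497067094) (nat_lit 380) (nat_lit 6055097636) (nat_lit 100) (nat_lit 5) (nat_lit 104) (nat_lit 5) (nat_lit 105) (nat_lit 5) (nat_lit 482) (nat_lit 375) (nat_lit 283)) (XT.lf (nat_lit 0) (nat_lit 897935119) (nat_lit 304) (nat_lit 10559350105) (nat_lit 380) (nat_lit 2309646827) (nat_lit 96) (nat_lit 5) (nat_lit 100) (nat_lit 5) (nat_lit 101) (nat_lit 5) (nat_lit 483) (nat_lit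 375) (nat_lit 282))))) (XT.nd (nat_lit 234) (nat_lit 608) (nat_lit 0) (XT.nd (nat_lit 78) (nat_lit 228) (nat_lit 0) (XT.lf (nat_lit 0) (nat_lit 1526403820) (nat_lit 380) (nat_lit 4378511641) (nat_lit 76) (nat_lit 8031554659) (nat_lit 95) (nat_lit 5) (nat_lit 100) (nat_lit 5) (nat_lit 96) (nat_lit 5) (nat_lit 484) (nat_lit 375) (nat_lit 281)) (XT.nd (nat_lit 78) (nat_lit 0) (nat_lit 0) (XT.lf (nat_lit 0) (nat_lit 4281957929) (nat_lit 228) (nat_lit 1129195248) (nat_lit 304) (nat_lit 8697885594) (nat_lit 92) (nat_lit 5) (nat_lit 95) (nat_lit 5) (nat_lit 96) (nat_lit 5) (nat_lit 485) (nat_lit 375) (nat_lit 280)) (XT.lf (nat_lit 0) (nat_lit 9402667917) (nat_lit 304) (nat_lit 1174788584) (nat_lit 76) (nat_lit 3707024056) (nat_lit 92) (nat_lit 5) (nat_lit 96) (nat_lit 5) (nat_lit 93) (nat_lit 5) (nat_lit 486) (nat_lit 375) (nat_lit 279)))) (XT.nd (nat_lit 78) (nat_lit 304) (nat_lit 0) (XT.lf (nat_lit 0) (nat_lit 7704096510) (nat_lit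 304) (nat_lit 5803098868) (nat_lit 380) (nat_lit 955575260) (nat_lit 88) (nat_lit 5) (nat_lit 92) (nat_lit 5) (nat_lit 93) (nat_lit 5) (nat_lit 487) (nat_lit 375) (nat_lit 278)) (XT.nd (nat_lit 78) (nat_lit 0) (nat_lit 0) (XT.lf (nat_lit 0) (nat_lit 2099624796) (nat_lit 228) (nat_lit 906879551) (nat_lit 304) (nat_lit 11637783052) (nat_lit 84) (nat_lit 5) (nat_lit 87) (nat_lit 5) (nat_lit 88) (nat_lit 5) (nat_lit 488) (nat_lit 375) (nat_lit 277)) (XT.lf (nat_lit 0) (nat_lit 7083089289) (nat_lit 304) (nat_lit 3675183349) (nat_lit 76) (nat_lit 4070077281) (nat_lit 84) (nat_lit 5) (nat_lit 88) (nat_lit 5) (nat_lit 85) (nat_lit 5) (nat_lit 489) (nat_lit 375) (nat_lit 276)))))) (XT.nd (nat_lit 468) (nat_lit 760) (nat_lit 0) (XT.nd (nat_lit 234) (nat_lit 532) (nat_lit 0) (XT.nd (nat_lit 78) (nat_lit 304) (nat_lit 0) (XT.lf (nat_lit 0) (nat_lit 5397055823) (nat_lit 304) (nat_lit 5861525710) (nat_lit 380) (nat_lit 3757167516) (nat_lit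 80) (nat_lit 5) (nat_lit 84) (nat_lit 5) (nat_lit 85) (nat_lit 5) (nat_lit 490) (nat_lit 375) (nat_lit 275)) (XT.nd (nat_lit 78) (nat_lit 228) (nat_lit 0) (XT.lf (nat_lit 0) (nat_lit 307818812) (nat_lit 380) (nat_lit 547490167) (nat_lit 76) (nat_lit 14351525477) (nat_lit 79) (nat_lit 5) (nat_lit 84) (nat_lit 5) (nat_lit 80) (nat_lit 5) (nat_lit 491) (nat_lit 375) (nat_lit 274)) (XT.lf (nat_lit 0) (nat_lit 4465580230) (nat_lit 304) (nat_lit 6672207558) (nat_lit 76) (nat_lit 4262224114) (nat_lit 76) (nat_lit 5) (nat_lit 80) (nat_lit 5) (nat_lit 77) (nat_lit 5) (nat_lit 492) (nat_lit 375) (nat_lit 273)))) (XT.nd (nat_lit 78) (nat_lit 304) (nat_lit 0) (XT.lf (nat_lit 0) (nat_lit 2588509445) (nat_lit 228) (nat_lit 6121103753) (nat_lit 304) (nat_lit 6887380026) (nat_lit 73) (nat_lit 5) (nat_lit 76) (nat_lit 5) (nat_lit 77) (nat_lit 5) (nat_lit 493) (nat_lit 375) (nat_lit 272)) (XT.nd (nat_lit 78) (nat_lit 304) (nat_lit 0) (XT.lf (nat_lit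 0) (nat_lit 12086342171) (nat_lit 228) (nat_lit 974107876) (nat_lit 304) (nat_lit 2737028261) (nat_lit 73) (nat_lit 5) (nat_lit 76) (nat_lit 5) (nat_lit 77) (nat_lit 5) (nat_lit 494) (nat_lit 375) (nat_lit 271)) (XT.lf (nat_lit 0) (nat_lit 1519786885) (nat_lit 304) (nat_lit 10229025249) (nat_lit 76) (nat_lit 4252107536) (nat_lit 69) (nat_lit 5) (nat_lit 73) (nat_lit 5) (nat_lit 70) (nat_lit 5) (nat_lit 495) (nat_lit 375) (nat_lit 270))))) (XT.nd (nat_lit 234) (nat_lit 304) (nat_lit 0) (XT.nd (nat_lit 78) (nat_lit 456) (nat_lit 0) (XT.lf (nat_lit 0) (nat_lit 5834185850) (nat_lit 304) (nat_lit 775969892) (nat_lit 76) (nat_lit 9597732807) (nat_lit 69) (nat_lit 5) (nat_lit 73) (nat_lit 5) (nat_lit 70) (nat_lit 5) (nat_lit 496) (nat_lit 375) (nat_lit 269)) (XT.nd (nat_lit 78) (nat_lit 228) (nat_lit 0) (XT.lf (nat_lit 0) (nat_lit 8946037083) (nat_lit 228) (nat_lit 1324902081) (nat_lit 304) (nat_lit 6147338717) (nat_lit 66) (nat_lit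 5) (nat_lit 69) (nat_lit 5) (nat_lit 70) (nat_lit 5) (nat_lit 497) (nat_lit 375) (nat_lit 268)) (XT.lf (nat_lit 0) (nat_lit 2205188030) (nat_lit 228) (nat_lit 12615271481) (nat_lit 304) (nat_lit 1811937203) (nat_lit 63) (nat_lit 5) (nat_lit 66) (nat_lit 5) (nat_lit 67) (nat_lit 5) (nat_lit 498) (nat_lit 375) (nat_lit 267)))) (XT.nd (nat_lit 78) (nat_lit 228) (nat_lit 0) (XT.lf (nat_lit 0) (nat_lit 2613303240) (nat_lit 304) (nat_lit 4735972066) (nat_lit 76) (nat_lit 9500438669) (nat_lit 62) (nat_lit 5) (nat_lit 66) (nat_lit 5) (nat_lit 63) (nat_lit 5) (nat_lit 499) (nat_lit 375) (nat_lit 266)) (XT.nd (nat_lit 78) (nat_lit 0) (nat_lit 0) (XT.lf (nat_lit 0) (nat_lit 5168028745) (nat_lit 228) (nat_lit 1946878833) (nat_lit 304) (nat_lit 9955990265) (nat_lit 59) (nat_lit 5) (nat_lit 62) (nat_lit 5) (nat_lit 63) (nat_lit 5) (nat_lit 500) (nat_lit 375) (nat_lit 265)) (XT.lf (nat_lit 0) (nat_lit 11740299928) (nat_lit 304) (nat_lit 2021836695)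 (nat_lit 76) (nat_lit 3533695823) (nat_lit 59) (nat_lit 5) (nat_lit 63) (nat_lit 5) (nat_lit 60) (nat_lit 5) (nat_lit 501) (nat_lit 375) (nat_lit 264))))))))
noncomputable def xc79 : XT := (XT.nd (nat_lit 51792) (nat_lit 0) (nat_lit 23636) (XT.nd (nat_lit 50934) (nat_lit 0) (nat_lit 43092) (XT.nd (nat_lit 50466) (nat_lit 0) (nat_lit 48792) (XT.nd (nat_lit 156) (nat_lit 152) (nat_lit 0) (XT.nd (nat_lit 78) (nat_lit 304) (nat_lit 0) (XT.lf (nat_lit 0) (nat_lit 8114139217) (nat_lit 152) (nat_lit 8388683145) (nat_lit 228) (nat_lit 1021553067) (nat_lit 57) (nat_lit 5) (nat_lit 59) (nat_lit 5) (nat_lit 60) (nat_lit 5) (nat_lit 502) (nat_lit 375) (nat_lit 263)) (XT.lf (nat_lit 0) (nat_lit 672110364) (nat_lit 228) (nat_lit 2880845772) (nat_lit 304) (nat_lit 14204125202) (nat_lit 53) (nat_lit 5) (nat_lit 56) (nat_lit 5) (nat_lit 57) (nat_lit 5) (nat_lit 503) (nat_lit 375) (nat_lit 262))) (XT.nd (nat_lit 78) (nat_lit 152) (nat_lit 0)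 (XT.lf (nat_lit 0) (nat_lit 8265788472) (nat_lit 304) (nat_lit 6970794503) (nat_lit 76) (nat_lit 2756515119) (nat_lit 53) (nat_lit 5) (nat_lit 57) (nat_lit 5) (nat_lit 54) (nat_lit 5) (nat_lit 504) (nat_lit 375) (nat_lit 261)) (XT.nd (nat_lit 78) (nat_lit 0) (nat_lit 0) (XT.lf (nat_lit 0) (nat_lit 3334711245) (nat_lit 152) (nat_lit 9758465952) (nat_lit 228) (nat_lit 5140253964) (nat_lit 51) (nat_lit 5) (nat_lit 53) (nat_lit 5) (nat_lit 54) (nat_lit 5) (nat_lit 505) (nat_lit 375) (nat_lit 260)) (XT.lf (nat_lit 0) (nat_lit 13905441208) (nat_lit 152) (nat_lit 4138191223) (nat_lit 228) (nat_lit 434410017) (nat_lit 51) (nat_lit 5) (nat_lit 53) (nat_lit 5) (nat_lit 54) (nat_lit 5) (nat_lit 506) (nat_lit 375) (nat_lit 259))))) (XT.nd (nat_lit 234) (nat_lit 532) (nat_lit 0) (XT.nd (nat_lit 78) (nat_lit 456) (nat_lit 0) (XT.lf (nat_lit 0) (nat_lit 194792528) (nat_lit 380) (nat_lit 2847055943) (nat_lit 0) (nat_lit 194792528) (nat_lit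 706) (nat_lit 5) (nat_lit 711) (nat_lit 4) (nat_lit 706) (nat_lit 4) (nat_lit 388) (nat_lit 376) (nat_lit 376)) (XT.nd (nat_lit 78) (nat_lit 456) (nat_lit 0) (XT.lf (nat_lit 0) (nat_lit 3522423244) (nat_lit 380) (nat_lit 2165224015) (nat_lit 0) (nat_lit 793867928) (nat_lit 706) (nat_lit 5) (nat_lit 711) (nat_lit 4) (nat_lit 706) (nat_lit 4) (nat_lit 389) (nat_lit 376) (nat_lit 375)) (XT.lf (nat_lit 0) (nat_lit 156672590) (nat_lit 456) (nat_lit 5087130913) (nat_lit 76) (nat_lit 1247485975) (nat_lit 700) (nat_lit 5) (nat_lit 706) (nat_lit 5) (nat_lit 701) (nat_lit 4) (nat_lit 390) (nat_lit 376) (nat_lit 374)))) (XT.nd (nat_lit 78) (nat_lit 532) (nat_lit 0) (XT.lf (nat_lit 0) (nat_lit 3233478989) (nat_lit 456) (nat_lit 1494584173) (nat_lit 76) (nat_lit 1774076357) (nat_lit 700) (nat_lit 5) (nat_lit 706) (nat_lit 5) (nat_lit 701) (nat_lit 4) (nat_lit 391) (nat_lit 376) (nat_lit 373)) (XT.nd (nat_lit 78) (nat_lit 76) (nat_lit 0)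 (XT.lf (nat_lit 0) (nat_lit 2150764659) (nat_lit 456) (nat_lit 4160203165) (nat_lit 532) (nat_lit 203493490) (nat_lit 694) (nat_lit 5) (nat_lit 700) (nat_lit 5) (nat_lit 701) (nat_lit 4) (nat_lit 392) (nat_lit 376) (nat_lit 372)) (XT.lf (nat_lit 0) (nat_lit 2820557480) (nat_lit 532) (nat_lit 704560967) (nat_lit 76) (nat_lit 3002849438) (nat_lit 693) (nat_lit 5) (nat_lit 700) (nat_lit 5) (nat_lit 694) (nat_lit 5) (nat_lit 393) (nat_lit 376) (nat_lit 371)))))) (XT.nd (nat_lit 390) (nat_lit 3724) (nat_lit 0) (XT.nd (nat_lit 156) (nat_lit 760) (nat_lit 0) (XT.nd (nat_lit 78) (nat_lit 684) (nat_lit 0) (XT.lf (nat_lit 0) (nat_lit 3018977130) (nat_lit 532) (nat_lit 2830265912) (nat_lit 608) (nat_lit 693572583) (nat_lit 686) (nat_lit 5) (nat_lit 693) (nat_lit 5) (nat_lit 694) (nat_lit 5) (nat_lit 394) (nat_lit 376) (nat_lit 370)) (XT.lf (nat_lit 0) (nat_lit 208203848) (nat_lit 608) (nat_lit 2075116716) (nat_lit 684) (nat_lit 4275684764)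 (nat_lit 677) (nat_lit 5) (nat_lit 685) (nat_lit 5) (nat_lit 686) (nat_lit 5) (nat_lit 395) (nat_lit 376) (nat_lit 369))) (XT.nd (nat_lit 78) (nat_lit 760) (nat_lit 0) (XT.lf (nat_lit 0) (nat_lit 4010603089) (nat_lit 608) (nat_lit 1252481762) (nat_lit 684) (nat_lit 1313323338) (nat_lit 677) (nat_lit 5) (nat_lit 685) (nat_lit 5) (nat_lit 686) (nat_lit 5) (nat_lit 396) (nat_lit 376) (nat_lit 368)) (XT.nd (nat_lit 78) (nat_lit 0) (nat_lit 0) (XT.lf (nat_lit 0) (nat_lit 1252799813) (nat_lit 684) (nat_lit 371108853) (nat_lit 760) (nat_lit 4971300218) (nat_lit 667) (nat_lit 5) (nat_lit 676) (nat_lit 5) (nat_lit 677) (nat_lit 5) (nat_lit 397) (nat_lit 376) (nat_lit 367)) (XT.lf (nat_lit 0) (nat_lit 4554180530) (nat_lit 760) (nat_lit 1492396508) (nat_lit 76) (nat_lit 568628849) (nat_lit 667) (nat_lit 5) (nat_lit 677) (nat_lit 5) (nat_lit 668) (nat_lit 5) (nat_lit 398) (nat_lit 376) (nat_lit 366))))) (XT.nd (nat_lit 234) (nat_lit 2052)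 (nat_lit 0) (XT.nd (nat_lit 78) (nat_lit 836) (nat_lit 0) (XT.lf (nat_lit 0) (nat_lit 845796402) (nat_lit 836) (nat_lit 4226058534) (nat_lit 76) (nat_lit 1564655507) (nat_lit 656) (nat_lit 5) (nat_lit 667) (nat_lit 5) (nat_lit 657) (nat_lit 5) (nat_lit 399) (nat_lit 376) (nat_lit 365)) (XT.nd (nat_lit 78) (nat_lit 836) (nat_lit 0) (XT.lf (nat_lit 0) (nat_lit 3726266194) (nat_lit 836) (nat_lit 308494239) (nat_lit 76) (nat_lit 2624375722) (nat_lit 656) (nat_lit 5) (nat_lit 667) (nat_lit 5) (nat_lit 657) (nat_lit 5) (nat_lit 400) (nat_lit 376) (nat_lit 364)) (XT.lf (nat_lit 0) (nat_lit 3688418085) (nat_lit 836) (nat_lit 2934190482) (nat_lit 912) (nat_lit 60469679) (nat_lit 645) (nat_lit 5) (nat_lit 656) (nat_lit 5) (nat_lit 657) (nat_lit 5) (nat_lit 401) (nat_lit 376) (nat_lit 363)))) (XT.nd (nat_lit 78) (nat_lit 1064) (nat_lit 0) (XT.lf (nat_lit 0) (nat_lit 1008617431) (nat_lit 912) (nat_lit 1766602448) (nat_lit 988) (nat_lit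 3933065227) (nat_lit 632) (nat_lit 5) (nat_lit 644) (nat_lit 5) (nat_lit 645) (nat_lit 5) (nat_lit 402) (nat_lit 376) (nat_lit 362)) (XT.nd (nat_lit 78) (nat_lit 1064) (nat_lit 0) (XT.lf (nat_lit 0) (nat_lit 5084503975) (nat_lit 912) (nat_lit 538212923) (nat_lit 988) (nat_lit 1112180587) (nat_lit 632) (nat_lit 5) (nat_lit 644) (nat_lit 5) (nat_lit 645) (nat_lit 5) (nat_lit 403) (nat_lit 376) (nat_lit 361)) (XT.lf (nat_lit 0) (nat_lit 1699447680) (nat_lit 1064) (nat_lit 4314714105) (nat_lit 76) (nat_lit 748527987) (nat_lit 618) (nat_lit 5) (nat_lit 632) (nat_lit 5) (nat_lit 619) (nat_lit 5) (nat_lit 404) (nat_lit 376) (nat_lit 360))))))) (XT.nd (nat_lit 858) (nat_lit 10108) (nat_lit 0) (XT.nd (nat_lit 390) (nat_lit 5776) (nat_lit 0) (XT.nd (nat_lit 156) (nat_lit 2432) (nat_lit 0) (XT.nd (nat_lit 78) (nat_lit 1140) (nat_lit 0) (XT.lf (nat_lit 0) (nat_lit 4504802108) (nat_lit 1064) (nat_lit 199774541) (nat_lit 76) (nat_lit 2087292376)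 (nat_lit 618) (nat_lit 5) (nat_lit 632) (nat_lit 5) (nat_lit 619) (nat_lit 5) (nat_lit 405) (nat_lit 376) (nat_lit 359)) (XT.lf (nat_lit 0) (nat_lit 502097974) (nat_lit 1140) (nat_lit 2823393946) (nat_lit 76) (nat_lit 3496801897) (nat_lit 603) (nat_lit 5) (nat_lit 618) (nat_lit 5) (nat_lit 604) (nat_lit 5) (nat_lit 406) (nat_lit 376) (nat_lit 358))) (XT.nd (nat_lit 78) (nat_lit 1292) (nat_lit 0) (XT.lf (nat_lit 0) (nat_lit 1385773368) (nat_lit 1140) (nat_lit 1880373335) (nat_lit 1216) (nat_lit 3587907937) (nat_lit 588) (nat_lit 5) (nat_lit 603) (nat_lit 5) (nat_lit 604) (nat_lit 5) (nat_lit 407) (nat_lit 376) (nat_lit 357)) (XT.nd (nat_lit 78) (nat_lit 1292) (nat_lit 0) (XT.lf (nat_lit 0) (nat_lit 5669511239) (nat_lit 1140) (nat_lit 375138875) (nat_lit 1216) (nat_lit 842640986) (nat_lit 588) (nat_lit 5) (nat_lit 603) (nat_lit 5) (nat_lit 604) (nat_lit 5) (nat_lit 408) (nat_lit 376) (nat_lit 356)) (XT.lf (nat_lit 0) (nat_lit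 1900782860) (nat_lit 1292) (nat_lit 3831663743) (nat_lit 76) (nat_lit 1189135962) (nat_lit 571) (nat_lit 5) (nat_lit 588) (nat_lit 5) (nat_lit 572) (nat_lit 5) (nat_lit 409) (nat_lit 376) (nat_lit 355))))) (XT.nd (nat_lit 234) (nat_lit 3040) (nat_lit 0) (XT.nd (nat_lit 78) (nat_lit 1444) (nat_lit 0) (XT.lf (nat_lit 0) (nat_lit 493542228) (nat_lit 1292) (nat_lit 4150082149) (nat_lit 1368) (nat_lit 2313729958) (nat_lit 554) (nat_lit 5) (nat_lit 571) (nat_lit 5) (nat_lit 572) (nat_lit 5) (nat_lit 410) (nat_lit 376) (nat_lit 354)) (XT.nd (nat_lit 78) (nat_lit 1368) (nat_lit 0) (XT.lf (nat_lit 0) (nat_lit 409825890) (nat_lit 1368) (nat_lit 2088373235) (nat_lit 76) (nat_lit 4496241682) (nat_lit 553) (nat_lit 5) (nat_lit 571) (nat_lit 5) (nat_lit 554) (nat_lit 5) (nat_lit 411) (nat_lit 376) (nat_lit 353)) (XT.lf (nat_lit 0) (nat_lit 2341766500) (nat_lit 1368) (nat_lit 773800286) (nat_lit 1444) (nat_lit 3917243670) (nat_lit 535) (nat_lit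 5) (nat_lit 553) (nat_lit 5) (nat_lit 554) (nat_lit 5) (nat_lit 412) (nat_lit 376) (nat_lit 352)))) (XT.nd (nat_lit 78) (nat_lit 3040) (nat_lit 0) (XT.lf (nat_lit 0) (nat_lit 5840235495) (nat_lit 1444) (nat_lit 238405826) (nat_lit 76) (nat_lit 994030717) (nat_lit 535) (nat_lit 5) (nat_lit 554) (nat_lit 5) (nat_lit 536) (nat_lit 5) (nat_lit 413) (nat_lit 376) (nat_lit 351)) (XT.nd (nat_lit 78) (nat_lit 1520) (nat_lit 0) (XT.lf (nat_lit 0) (nat_lit 1464639414) (nat_lit 1520) (nat_lit 2816881061) (nat_lit 76) (nat_lit 2832068302) (nat_lit 515) (nat_lit 5) (nat_lit 535) (nat_lit 5) (nat_lit 516) (nat_lit 5) (nat_lit 414) (nat_lit 376) (nat_lit 350)) (XT.lf (nat_lit 0) (nat_lit 1736536964) (nat_lit 1520) (nat_lit 2421304421) (nat_lit 1596) (nat_lit 2998165405) (nat_lit 495) (nat_lit 5) (nat_lit 515) (nat_lit 5) (nat_lit 516) (nat_lit 5) (nat_lit 415) (nat_lit 376) (nat_lit 349)))))) (XT.nd (nat_lit 468) (nat_lit 3648) (nat_lit 0)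 (XT.nd (nat_lit 234) (nat_lit 3116) (nat_lit 0) (XT.nd (nat_lit 78) (nat_lit 3344) (nat_lit 0) (XT.lf (nat_lit 0) (nat_lit 6370997253) (nat_lit 1520) (nat_lit 499349123) (nat_lit 1596) (nat_lit 329637224) (nat_lit 495) (nat_lit 5) (nat_lit 515) (nat_lit 5) (nat_lit 516) (nat_lit 5) (nat_lit 416) (nat_lit 376) (nat_lit 348)) (XT.nd (nat_lit 78) (nat_lit 1672) (nat_lit 0) (XT.lf (nat_lit 0) (nat_lit 2342823430) (nat_lit 1672) (nat_lit 3414735251) (nat_lit 76) (nat_lit 1487350357) (nat_lit 473) (nat_lit 5) (nat_lit 495) (nat_lit 5) (nat_lit 474) (nat_lit 5) (nat_lit 417) (nat_lit 376) (nat_lit 347)) (XT.lf (nat_lit 0) (nat_lit 1265445958) (nat_lit 1672) (nat_lit 3763973192) (nat_lit 1748) (nat_lit 2261986370) (nat_lit 451) (nat_lit 5) (nat_lit 473) (nat_lit 5) (nat_lit 474) (nat_lit 5) (nat_lit 418) (nat_lit 376) (nat_lit 346)))) (XT.nd (nat_lit 78) (nat_lit 3040) (nat_lit 0) (XT.lf (nat_lit 0) (nat_lit 396650749) (nat_lit 1748)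 (nat_lit 1304944482) (nat_lit 76) (nat_lit 5637770405) (nat_lit 450) (nat_lit 5) (nat_lit 473) (nat_lit 5) (nat_lit 451) (nat_lit 5) (nat_lit 419) (nat_lit 376) (nat_lit 345)) (XT.nd (nat_lit 78) (nat_lit 1292) (nat_lit 0) (XT.lf (nat_lit 0) (nat_lit 3053090888) (nat_lit 1824) (nat_lit 3898290032) (nat_lit 76) (nat_lit 437123697) (nat_lit 427) (nat_lit 5) (nat_lit 451) (nat_lit 5) (nat_lit 428) (nat_lit 5) (nat_lit 420) (nat_lit 376) (nat_lit 344)) (XT.lf (nat_lit 0) (nat_lit 912262676) (nat_lit 1292) (nat_lit 4826434679) (nat_lit 1368) (nat_lit 1700425003) (nat_lit 410) (nat_lit 5) (nat_lit 427) (nat_lit 5) (nat_lit 428) (nat_lit 5) (nat_lit 421) (nat_lit 376) (nat_lit 343))))) (XT.nd (nat_lit 234) (nat_lit 1824) (nat_lit 0) (XT.nd (nat_lit 78) (nat_lit 1748) (nat_lit 0) (XT.lf (nat_lit 0) (nat_lit 951000738) (nat_lit 1368) (nat_lit 1674187350) (nat_lit 76) (nat_lit 4865918539) (nat_lit 409) (nat_lit 5) (nat_lit 427) (nat_lit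 5) (nat_lit 410) (nat_lit 5) (nat_lit 422) (nat_lit 376) (nat_lit 342)) (XT.nd (nat_lit 78) (nat_lit 836) (nat_lit 0) (XT.lf (nat_lit 0) (nat_lit 3258738171) (nat_lit 912) (nat_lit 346453344) (nat_lit 988) (nat_lit 3939279932) (nat_lit 397) (nat_lit 5) (nat_lit 409) (nat_lit 5) (nat_lit 410) (nat_lit 5) (nat_lit 423) (nat_lit 376) (nat_lit 341)) (XT.lf (nat_lit 0) (nat_lit 661155588) (nat_lit 836) (nat_lit 5631723310) (nat_lit 912) (nat_lit 1306431865) (nat_lit 386) (nat_lit 5) (nat_lit 397) (nat_lit 5) (nat_lit 398) (nat_lit 5) (nat_lit 424) (nat_lit 376) (nat_lit 340)))) (XT.nd (nat_lit 78) (nat_lit 1748) (nat_lit 0) (XT.lf (nat_lit 0) (nat_lit 1344497488) (nat_lit 912) (nat_lit 1950298179) (nat_lit 76) (nat_lit 4360616753) (nat_lit 385) (nat_lit 5) (nat_lit 397) (nat_lit 5) (nat_lit 386) (nat_lit 5) (nat_lit 425) (nat_lit 376) (nat_lit 339)) (XT.nd (nat_lit 78) (nat_lit 836) (nat_lit 0) (XT.lf (nat_lit 0) (nat_lit 3121302228)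 (nat_lit 912) (nat_lit 883134679) (nat_lit 988) (nat_lit 3708571367) (nat_lit 373) (nat_lit 5) (nat_lit 385) (nat_lit 5) (nat_lit 386) (nat_lit 5) (nat_lit 426) (nat_lit 376) (nat_lit 338)) (XT.lf (nat_lit 0) (nat_lit 496558533) (nat_lit 836) (nat_lit 6201449278) (nat_lit 912) (nat_lit 1074153859) (nat_lit 362) (nat_lit 5) (nat_lit 373) (nat_lit 5) (nat_lit 374) (nat_lit 5) (nat_lit 427) (nat_lit 376) (nat_lit 337))))))))
noncomputable def xc80 : XT := (XT.nd (nat_lit 1716) (nat_lit 7296) (nat_lit 0) (XT.nd (nat_lit 858) (nat_lit 4560) (nat_lit 0) (XT.nd (nat_lit 390) (nat_lit 3040) (nat_lit 0) (XT.nd (nat_lit 156) (nat_lit 1596) (nat_lit 0) (XT.nd (nat_lit 78) (nat_lit 836) (nat_lit 0) (XT.lf (nat_lit 0) (nat_lit 1582734986) (nat_lit 912) (nat_lit 2148786041) (nat_lit 76) (nat_lit 4100962640) (nat_lit 361) (nat_lit 5) (nat_lit 373) (nat_lit 5) (nat_lit 362) (nat_lit 5) (nat_lit 428) (nat_lit 376) (nat_lit 336)) (XT.lf (nat_lit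 0) (nat_lit 3065412759) (nat_lit 836) (nat_lit 1187854368) (nat_lit 912) (nat_lit 3641118661) (nat_lit 350) (nat_lit 5) (nat_lit 361) (nat_lit 5) (nat_lit 362) (nat_lit 5) (nat_lit 429) (nat_lit 376) (nat_lit 335))) (XT.nd (nat_lit 78) (nat_lit 836) (nat_lit 0) (XT.lf (nat_lit 0) (nat_lit 403035737) (nat_lit 760) (nat_lit 6555960550) (nat_lit 836) (nat_lit 998907129) (nat_lit 340) (nat_lit 5) (nat_lit 350) (nat_lit 5) (nat_lit 351) (nat_lit 5) (nat_lit 430) (nat_lit 376) (nat_lit 334)) (XT.nd (nat_lit 78) (nat_lit 760) (nat_lit 0) (XT.lf (nat_lit 0) (nat_lit 1670164657) (nat_lit 836) (nat_lit 2285080485) (nat_lit 76) (nat_lit 4067313457) (nat_lit 339) (nat_lit 5) (nat_lit 350) (nat_lit 5) (nat_lit 340) (nat_lit 5) (nat_lit 431) (nat_lit 376) (nat_lit 333)) (XT.lf (nat_lit 0) (nat_lit 3075701873) (nat_lit 760) (nat_lit 1280164972) (nat_lit 836) (nat_lit 3732987929) (nat_lit 329) (nat_lit 5) (nat_lit 339) (nat_lit 5) (nat_lit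 340) (nat_lit 5) (nat_lit 432) (nat_lit 376) (nat_lit 332))))) (XT.nd (nat_lit 234) (nat_lit 1444) (nat_lit 0) (XT.nd (nat_lit 78) (nat_lit 836) (nat_lit 0) (XT.lf (nat_lit 0) (nat_lit 365144626) (nat_lit 760) (nat_lit 6714498634) (nat_lit 836) (nat_lit 1077158596) (nat_lit 319) (nat_lit 5) (nat_lit 329) (nat_lit 5) (nat_lit 330) (nat_lit 5) (nat_lit 433) (nat_lit 376) (nat_lit 331)) (XT.nd (nat_lit 78) (nat_lit 760) (nat_lit 0) (XT.lf (nat_lit 0) (nat_lit 1610111804) (nat_lit 836) (nat_lit 2374668966) (nat_lit 76) (nat_lit 4241132417) (nat_lit 318) (nat_lit 5) (nat_lit 329) (nat_lit 5) (nat_lit 319) (nat_lit 5) (nat_lit 434) (nat_lit 376) (nat_lit 330)) (XT.lf (nat_lit 0) (nat_lit 3136721813) (nat_lit 760) (nat_lit 1178581482) (nat_lit 836) (nat_lit 3981400555) (nat_lit 308) (nat_lit 5) (nat_lit 318) (nat_lit 5) (nat_lit 319) (nat_lit 5) (nat_lit 435) (nat_lit 376) (nat_lit 329)))) (XT.nd (nat_lit 78) (nat_lit 760) (nat_lit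 0) (XT.lf (nat_lit 0) (nat_lit 367295287) (nat_lit 684) (nat_lit 6695349233) (nat_lit 760) (nat_lit 1306516149) (nat_lit 299) (nat_lit 5) (nat_lit 308) (nat_lit 5) (nat_lit 309) (nat_lit 5) (nat_lit 436) (nat_lit 376) (nat_lit 328)) (XT.nd (nat_lit 78) (nat_lit 684) (nat_lit 0) (XT.lf (nat_lit 0) (nat_lit 1404783526) (nat_lit 760) (nat_lit 2433237999) (nat_lit 76) (nat_lit 4604839974) (nat_lit 298) (nat_lit 5) (nat_lit 308) (nat_lit 5) (nat_lit 299) (nat_lit 5) (nat_lit 437) (nat_lit 376) (nat_lit 327)) (XT.lf (nat_lit 0) (nat_lit 3232801626) (nat_lit 684) (nat_lit 900729875) (nat_lit 760) (nat_lit 4384728402) (nat_lit 289) (nat_lit 5) (nat_lit 298) (nat_lit 5) (nat_lit 299) (nat_lit 5) (nat_lit 438) (nat_lit 376) (nat_lit 326)))))) (XT.nd (nat_lit 390) (nat_lit 2432) (nat_lit 0) (XT.nd (nat_lit 156) (nat_lit 1368) (nat_lit 0) (XT.nd (nat_lit 78) (nat_lit 76) (nat_lit 0) (XT.lf (nat_lit 0) (nat_lit 393605374) (nat_lit 684) (nat_lit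 6515988916) (nat_lit 760) (nat_lit 1685727588) (nat_lit 280) (nat_lit 5) (nat_lit 289) (nat_lit 5) (nat_lit 290) (nat_lit 5) (nat_lit 439) (nat_lit 376) (nat_lit 325)) (XT.lf (nat_lit 0) (nat_lit 1055267994) (nat_lit 760) (nat_lit 2476819272) (nat_lit 76) (nat_lit 5141669000) (nat_lit 279) (nat_lit 5) (nat_lit 289) (nat_lit 5) (nat_lit 280) (nat_lit 5) (nat_lit 440) (nat_lit 376) (nat_lit 324))) (XT.nd (nat_lit 78) (nat_lit 684) (nat_lit 0) (XT.lf (nat_lit 0) (nat_lit 3347898558) (nat_lit 684) (nat_lit 463492263) (nat_lit 760) (nat_lit 4942497883) (nat_lit 270) (nat_lit 5) (nat_lit 279) (nat_lit 5) (nat_lit 280) (nat_lit 5) (nat_lit 441) (nat_lit 376) (nat_lit 323)) (XT.nd (nat_lit 78) (nat_lit 76) (nat_lit 0) (XT.lf (nat_lit 0) (nat_lit 427749180) (nat_lit 608) (nat_lit 6193228912) (nat_lit 684) (nat_lit 2214688470) (nat_lit 262) (nat_lit 5) (nat_lit 270) (nat_lit 5) (nat_lit 271) (nat_lit 5) (nat_lit 442) (nat_lit 376) (nat_lit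 322)) (XT.lf (nat_lit 0) (nat_lit 561524916) (nat_lit 684) (nat_lit 2521941989) (nat_lit 76) (nat_lit 5835522733) (nat_lit 261) (nat_lit 5) (nat_lit 270) (nat_lit 5) (nat_lit 262) (nat_lit 5) (nat_lit 443) (nat_lit 376) (nat_lit 321))))) (XT.nd (nat_lit 234) (nat_lit 1216) (nat_lit 0) (XT.nd (nat_lit 78) (nat_lit 608) (nat_lit 0) (XT.lf (nat_lit 0) (nat_lit 3349351296) (nat_lit 684) (nat_lit 5539311553) (nat_lit 76) (nat_lit 115317731) (nat_lit 253) (nat_lit 5) (nat_lit 262) (nat_lit 5) (nat_lit 254) (nat_lit 5) (nat_lit 444) (nat_lit 376) (nat_lit 320)) (XT.nd (nat_lit 78) (nat_lit 0) (nat_lit 0) (XT.lf (nat_lit 0) (nat_lit 452799542) (nat_lit 608) (nat_lit 5743357129) (nat_lit 684) (nat_lit 2894459099) (nat_lit 245) (nat_lit 5) (nat_lit 253) (nat_lit 5) (nat_lit 254) (nat_lit 5) (nat_lit 445) (nat_lit 376) (nat_lit 319)) (XT.lf (nat_lit 0) (nat_lit 6592680399) (nat_lit 608) (nat_lit 2507638798) (nat_lit 684) (nat_lit 78664749)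 (nat_lit 245) (nat_lit 5) (nat_lit 253) (nat_lit 5) (nat_lit 254) (nat_lit 5) (nat_lit 446) (nat_lit 376) (nat_lit 318)))) (XT.nd (nat_lit 78) (nat_lit 532) (nat_lit 0) (XT.lf (nat_lit 0) (nat_lit 2749051865) (nat_lit 684) (nat_lit 5706205687) (nat_lit 76) (nat_lit 813662703) (nat_lit 236) (nat_lit 5) (nat_lit 245) (nat_lit 5) (nat_lit 237) (nat_lit 5) (nat_lit 447) (nat_lit 376) (nat_lit 317)) (XT.nd (nat_lit 78) (nat_lit 0) (nat_lit 0) (XT.lf (nat_lit 0) (nat_lit 451061160) (nat_lit 532) (nat_lit 5182279536) (nat_lit 608) (nat_lit 3727290972) (nat_lit 229) (nat_lit 5) (nat_lit 236) (nat_lit 5) (nat_lit 237) (nat_lit 5) (nat_lit 448) (nat_lit 376) (nat_lit 316)) (XT.lf (nat_lit 0) (nat_lit 6762057462) (nat_lit 532) (nat_lit 1816014835) (nat_lit 608) (nat_lit 876057913) (nat_lit 229) (nat_lit 5) (nat_lit 236) (nat_lit 5) (nat_lit 237) (nat_lit 5) (nat_lit 449) (nat_lit 376) (nat_lit 315))))))) (XT.nd (nat_lit 858) (nat_lit 3496)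 (nat_lit 0) (XT.nd (nat_lit 390) (nat_lit 1596) (nat_lit 0) (XT.nd (nat_lit 156) (nat_lit 1064) (nat_lit 0) (XT.nd (nat_lit 78) (nat_lit 532) (nat_lit 0) (XT.lf (nat_lit 0) (nat_lit 2004764037) (nat_lit 608) (nat_lit 5922173543) (nat_lit 76) (nat_lit 1622320645) (nat_lit 221) (nat_lit 5) (nat_lit 229) (nat_lit 5) (nat_lit 222) (nat_lit 5) (nat_lit 450) (nat_lit 376) (nat_lit 314)) (XT.lf (nat_lit 0) (nat_lit 403893794) (nat_lit 532) (nat_lit 4525662031) (nat_lit 608) (nat_lit 4716663062) (nat_lit 214) (nat_lit 5) (nat_lit 221) (nat_lit 5) (nat_lit 222) (nat_lit 5) (nat_lit 451) (nat_lit 376) (nat_lit 313))) (XT.nd (nat_lit 78) (nat_lit 1064) (nat_lit 0) (XT.lf (nat_lit 0) (nat_lit 6890421042) (nat_lit 532) (nat_lit 1027783088) (nat_lit 608) (nat_lit 1826814846) (nat_lit 214) (nat_lit 5) (nat_lit 221) (nat_lit 5) (nat_lit 222) (nat_lit 5) (nat_lit 452) (nat_lit 376) (nat_lit 312)) (XT.nd (nat_lit 78) (nat_lit 456) (nat_lit 0)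 (XT.lf (nat_lit 0) (nat_lit 1112548427) (nat_lit 608) (nat_lit 6206816517) (nat_lit 76) (nat_lit 2526163360) (nat_lit 206) (nat_lit 5) (nat_lit 214) (nat_lit 5) (nat_lit 207) (nat_lit 5) (nat_lit 453) (nat_lit 376) (nat_lit 311)) (XT.lf (nat_lit 0) (nat_lit 291523711) (nat_lit 456) (nat_lit 3789073972) (nat_lit 532) (nat_lit 5867328435) (nat_lit 200) (nat_lit 5) (nat_lit 206) (nat_lit 5) (nat_lit 207) (nat_lit 5) (nat_lit 454) (nat_lit 376) (nat_lit 310))))) (XT.nd (nat_lit 234) (nat_lit 532) (nat_lit 0) (XT.nd (nat_lit 78) (nat_lit 1064) (nat_lit 0) (XT.lf (nat_lit 0) (nat_lit 6958083609) (nat_lit 456) (nat_lit 158292042) (nat_lit 532) (nat_lit 2935835744) (nat_lit 200) (nat_lit 5) (nat_lit 206) (nat_lit 5) (nat_lit 207) (nat_lit 5) (nat_lit 455) (nat_lit 376) (nat_lit 309)) (XT.nd (nat_lit 78) (nat_lit 456) (nat_lit 0) (XT.lf (nat_lit 0) (nat_lit 67193168) (nat_lit 608) (nat_lit 6581024322) (nat_lit 76) (nat_lit 3510092070)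 (nat_lit 192) (nat_lit 5) (nat_lit 200) (nat_lit 5) (nat_lit 193) (nat_lit 5) (nat_lit 456) (nat_lit 376) (nat_lit 308)) (XT.lf (nat_lit 0) (nat_lit 92841629) (nat_lit 456) (nat_lit 2988134570) (nat_lit 532) (nat_lit 7185371750) (nat_lit 186) (nat_lit 5) (nat_lit 192) (nat_lit 5) (nat_lit 193) (nat_lit 5) (nat_lit 457) (nat_lit 376) (nat_lit 307)))) (XT.nd (nat_lit 78) (nat_lit 532) (nat_lit 0) (XT.lf (nat_lit 0) (nat_lit 6172002007) (nat_lit 532) (nat_lit 3437368351) (nat_lit 76) (nat_lit 766843744) (nat_lit 186) (nat_lit 5) (nat_lit 193) (nat_lit 5) (nat_lit 187) (nat_lit 5) (nat_lit 458) (nat_lit 376) (nat_lit 306)) (XT.nd (nat_lit 78) (nat_lit 76) (nat_lit 0) (XT.lf (nat_lit 0) (nat_lit 3413405706) (nat_lit 456) (nat_lit 5921702031) (nat_lit 532) (nat_lit 1152970870) (nat_lit 180) (nat_lit 5) (nat_lit 186) (nat_lit 5) (nat_lit 187) (nat_lit 5) (nat_lit 459) (nat_lit 376) (nat_lit 305)) (XT.lf (nat_lit 0) (nat_lit 1925243355)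 (nat_lit 532) (nat_lit 211997429) (nat_lit 76) (nat_lit 8464858277) (nat_lit 179) (nat_lit 5) (nat_lit 186) (nat_lit 5) (nat_lit 180) (nat_lit 5) (nat_lit 460) (nat_lit 376) (nat_lit 304)))))) (XT.nd (nat_lit 390) (nat_lit 1672) (nat_lit 0) (XT.nd (nat_lit 156) (nat_lit 912) (nat_lit 0) (XT.nd (nat_lit 78) (nat_lit 456) (nat_lit 0) (XT.lf (nat_lit 0) (nat_lit 5074401840) (nat_lit 532) (nat_lit 3903923849) (nat_lit 76) (nat_lit 1739431305) (nat_lit 173) (nat_lit 5) (nat_lit 180) (nat_lit 5) (nat_lit 174) (nat_lit 5) (nat_lit 461) (nat_lit 376) (nat_lit 303)) (XT.lf (nat_lit 0) (nat_lit 3129689371) (nat_lit 456) (nat_lit 5162038876) (nat_lit 532) (nat_lit 2543901886) (nat_lit 167) (nat_lit 5) (nat_lit 173) (nat_lit 5) (nat_lit 174) (nat_lit 5) (nat_lit 462) (nat_lit 376) (nat_lit 302))) (XT.nd (nat_lit 78) (nat_lit 836) (nat_lit 0) (XT.lf (nat_lit 0) (nat_lit 605199078) (nat_lit 532) (nat_lit 647293575) (nat_lit 76) (nat_lit 9703378255)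 (nat_lit 166) (nat_lit 5) (nat_lit 173) (nat_lit 5) (nat_lit 167) (nat_lit 5) (nat_lit 463) (nat_lit 376) (nat_lit 301)) (XT.nd (nat_lit 78) (nat_lit 456) (nat_lit 0) (XT.lf (nat_lit 0) (nat_lit 3814011988) (nat_lit 456) (nat_lit 4517833266) (nat_lit 76) (nat_lit 2745724497) (nat_lit 161) (nat_lit 5) (nat_lit 167) (nat_lit 5) (nat_lit 162) (nat_lit 5) (nat_lit 464) (nat_lit 376) (nat_lit 300)) (XT.lf (nat_lit 0) (nat_lit 2701155084) (nat_lit 456) (nat_lit 4386254484) (nat_lit 532) (nat_lit 4114290140) (nat_lit 155) (nat_lit 5) (nat_lit 161) (nat_lit 5) (nat_lit 162) (nat_lit 5) (nat_lit 465) (nat_lit 376) (nat_lit 299))))) (XT.nd (nat_lit 234) (nat_lit 836) (nat_lit 0) (XT.nd (nat_lit 78) (nat_lit 836) (nat_lit 0) (XT.lf (nat_lit 0) (nat_lit 10082039867) (nat_lit 456) (nat_lit 345056253) (nat_lit 532) (nat_lit 901204924) (nat_lit 155) (nat_lit 5) (nat_lit 161) (nat_lit 5) (nat_lit 162) (nat_lit 5) (nat_lit 466) (nat_lit 376)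 (nat_lit 298)) (XT.nd (nat_lit 78) (nat_lit 380) (nat_lit 0) (XT.lf (nat_lit 0) (nat_lit 2380757574) (nat_lit 456) (nat_lit 5306295904) (nat_lit 76) (nat_lit 3769361796) (nat_lit 149) (nat_lit 5) (nat_lit 155) (nat_lit 5) (nat_lit 150) (nat_lit 5) (nat_lit 467) (nat_lit 376) (nat_lit 297)) (XT.lf (nat_lit 0) (nat_lit 2100168507) (nat_lit 380) (nat_lit 3611560009) (nat_lit 456) (nat_lit 5875340307) (nat_lit 144) (nat_lit 5) (nat_lit 149) (nat_lit 5) (nat_lit 150) (nat_lit 5) (nat_lit 468) (nat_lit 376) (nat_lit 296)))) (XT.nd (nat_lit 78) (nat_lit 836) (nat_lit 0) (XT.lf (nat_lit 0) (nat_lit 9119982023) (nat_lit 456) (nat_lit 2040370194) (nat_lit 76) (nat_lit 559774769) (nat_lit 144) (nat_lit 5) (nat_lit 150) (nat_lit 5) (nat_lit 145) (nat_lit 5) (nat_lit 469) (nat_lit 376) (nat_lit 295)) (XT.nd (nat_lit 78) (nat_lit 380) (nat_lit 0) (XT.lf (nat_lit 0) (nat_lit 762914564) (nat_lit 456) (nat_lit 6298926502) (nat_lit 76) (nat_lit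 4793272246) (nat_lit 138) (nat_lit 5) (nat_lit 144) (nat_lit 5) (nat_lit 139) (nat_lit 5) (nat_lit 470) (nat_lit 376) (nat_lit 294)) (XT.lf (nat_lit 0) (nat_lit 1296602113) (nat_lit 380) (nat_lit 2855978736) (nat_lit 456) (nat_lit 7839996072) (nat_lit 133) (nat_lit 5) (nat_lit 138) (nat_lit 5) (nat_lit 139) (nat_lit 5) (nat_lit 471) (nat_lit 376) (nat_lit 293))))))))
noncomputable def xc81 : XT := (XT.nd (nat_lit 1716) (nat_lit 1900) (nat_lit 0) (XT.nd (nat_lit 858) (nat_lit 1824) (nat_lit 0) (XT.nd (nat_lit 390) (nat_lit 1444) (nat_lit 0) (XT.nd (nat_lit 156) (nat_lit 760) (nat_lit 0) (XT.nd (nat_lit 78) (nat_lit 304) (nat_lit 0) (XT.lf (nat_lit 0) (nat_lit 7634005426) (nat_lit 456) (nat_lit 3055191942) (nat_lit 76) (nat_lit 1443117577) (nat_lit 133) (nat_lit 5) (nat_lit 139) (nat_lit 5) (nat_lit 134) (nat_lit 5) (nat_lit 472) (nat_lit 376) (nat_lit 292)) (XT.lf (nat_lit 0) (nat_lit 4739413811) (nat_lit 304) (nat_lit 6467982258)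 (nat_lit 380) (nat_lit 1067009258) (nat_lit 129) (nat_lit 5) (nat_lit 133) (nat_lit 5) (nat_lit 134) (nat_lit 5) (nat_lit 473) (nat_lit 376) (nat_lit 291))) (XT.nd (nat_lit 78) (nat_lit 304) (nat_lit 0) (XT.lf (nat_lit 0) (nat_lit 257517692) (nat_lit 380) (nat_lit 2138533484) (nat_lit 456) (nat_lit 10023073756) (nat_lit 123) (nat_lit 5) (nat_lit 128) (nat_lit 5) (nat_lit 129) (nat_lit 5) (nat_lit 474) (nat_lit 376) (nat_lit 290)) (XT.nd (nat_lit 78) (nat_lit 304) (nat_lit 0) (XT.lf (nat_lit 0) (nat_lit 5952681220) (nat_lit 456) (nat_lit 4322394030) (nat_lit 76) (nat_lit 2290754809) (nat_lit 123) (nat_lit 5) (nat_lit 129) (nat_lit 5) (nat_lit 124) (nat_lit 5) (nat_lit 475) (nat_lit 376) (nat_lit 289)) (XT.lf (nat_lit 0) (nat_lit 3665858543) (nat_lit 304) (nat_lit 5925977029) (nat_lit 380) (nat_lit 3123409902) (nat_lit 119) (nat_lit 5) (nat_lit 123) (nat_lit 5) (nat_lit 124) (nat_lit 5) (nat_lit 476) (nat_lit 376) (nat_lit 288)))))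 (XT.nd (nat_lit 234) (nat_lit 684) (nat_lit 0) (XT.nd (nat_lit 78) (nat_lit 684) (nat_lit 0) (XT.lf (nat_lit 0) (nat_lit 433103766) (nat_lit 380) (nat_lit 1039368169) (nat_lit 76) (nat_lit 11395070499) (nat_lit 118) (nat_lit 5) (nat_lit 123) (nat_lit 5) (nat_lit 119) (nat_lit 5) (nat_lit 477) (nat_lit 376) (nat_lit 287)) (XT.nd (nat_lit 78) (nat_lit 304) (nat_lit 0) (XT.lf (nat_lit 0) (nat_lit 4059775341) (nat_lit 456) (nat_lit 5879157545) (nat_lit 76) (nat_lit 3082726320) (nat_lit 113) (nat_lit 5) (nat_lit 119) (nat_lit 5) (nat_lit 114) (nat_lit 5) (nat_lit 478) (nat_lit 376) (nat_lit 286)) (XT.lf (nat_lit 0) (nat_lit 2302705205) (nat_lit 304) (nat_lit 5462168464) (nat_lit 380) (nat_lit 5413870493) (nat_lit 109) (nat_lit 5) (nat_lit 113) (nat_lit 5) (nat_lit 114) (nat_lit 5) (nat_lit 479) (nat_lit 376) (nat_lit 285)))) (XT.nd (nat_lit 78) (nat_lit 684) (nat_lit 0) (XT.lf (nat_lit 0) (nat_lit 10687092471) (nat_lit 304) (nat_lit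 870845523) (nat_lit 380) (nat_lit 1780759182) (nat_lit 109) (nat_lit 5) (nat_lit 113) (nat_lit 5) (nat_lit 114) (nat_lit 5) (nat_lit 480) (nat_lit 376) (nat_lit 284)) (XT.nd (nat_lit 78) (nat_lit 304) (nat_lit 0) (XT.lf (nat_lit 0) (nat_lit 1936893640) (nat_lit 380) (nat_lit 7766326275) (nat_lit 76) (nat_lit 3797640343) (nat_lit 104) (nat_lit 5) (nat_lit 109) (nat_lit 5) (nat_lit 105) (nat_lit 5) (nat_lit 481) (nat_lit 376) (nat_lit 283)) (XT.lf (nat_lit 0) (nat_lit 608241033) (nat_lit 304) (nat_lit 5099345286) (nat_lit 380) (nat_lit 7958397674) (nat_lit 100) (nat_lit 5) (nat_lit 104) (nat_lit 5) (nat_lit 105) (nat_lit 5) (nat_lit 482) (nat_lit 376) (nat_lit 282)))))) (XT.nd (nat_lit 390) (nat_lit 912) (nat_lit 0) (XT.nd (nat_lit 156) (nat_lit 608) (nat_lit 0) (XT.nd (nat_lit 78) (nat_lit 304) (nat_lit 0) (XT.lf (nat_lit 0) (nat_lit 9215354701) (nat_lit 304) (nat_lit 365566766) (nat_lit 380) (nat_lit 4252947527) (nat_lit 100)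 (nat_lit 5) (nat_lit 104) (nat_lit 5) (nat_lit 105) (nat_lit 5) (nat_lit 483) (nat_lit 376) (nat_lit 281)) (XT.lf (nat_lit 0) (nat_lit 3972802276) (nat_lit 304) (nat_lit 9589194010) (nat_lit 380) (nat_lit 442513250) (nat_lit 96) (nat_lit 5) (nat_lit 100) (nat_lit 5) (nat_lit 101) (nat_lit 5) (nat_lit 484) (nat_lit 376) (nat_lit 280))) (XT.nd (nat_lit 78) (nat_lit 532) (nat_lit 0) (XT.lf (nat_lit 0) (nat_lit 3408140614) (nat_lit 380) (nat_lit 1444271064) (nat_lit 76) (nat_lit 9325523522) (nat_lit 95) (nat_lit 5) (nat_lit 100) (nat_lit 5) (nat_lit 96) (nat_lit 5) (nat_lit 485) (nat_lit 376) (nat_lit 279)) (XT.nd (nat_lit 78) (nat_lit 304) (nat_lit 0) (XT.lf (nat_lit 0) (nat_lit 7353879533) (nat_lit 304) (nat_lit 6984870785) (nat_lit 76) (nat_lit 15543723) (nat_lit 92) (nat_lit 5) (nat_lit 96) (nat_lit 5) (nat_lit 93) (nat_lit 5) (nat_lit 486) (nat_lit 376) (nat_lit 278)) (XT.lf (nat_lit 0) (nat_lit 1797122045) (nat_lit 304) (nat_lit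 9611131462) (nat_lit 380) (nat_lit 3125335193) (nat_lit 88) (nat_lit 5) (nat_lit 92) (nat_lit 5) (nat_lit 93) (nat_lit 5) (nat_lit 487) (nat_lit 376) (nat_lit 277))))) (XT.nd (nat_lit 234) (nat_lit 608) (nat_lit 0) (XT.nd (nat_lit 78) (nat_lit 228) (nat_lit 0) (XT.lf (nat_lit 0) (nat_lit 839794782) (nat_lit 380) (nat_lit 3911068550) (nat_lit 76) (nat_lit 9965033458) (nat_lit 87) (nat_lit 5) (nat_lit 92) (nat_lit 5) (nat_lit 88) (nat_lit 5) (nat_lit 488) (nat_lit 376) (nat_lit 276)) (XT.nd (nat_lit 78) (nat_lit 0) (nat_lit 0) (XT.lf (nat_lit 0) (nat_lit 4853802357) (nat_lit 304) (nat_lit 9804357165) (nat_lit 76) (nat_lit 243052757) (nat_lit 84) (nat_lit 5) (nat_lit 88) (nat_lit 5) (nat_lit 85) (nat_lit 5) (nat_lit 489) (nat_lit 376) (nat_lit 275)) (XT.lf (nat_lit 0) (nat_lit 8982764552) (nat_lit 304) (nat_lit 822027344) (nat_lit 76) (nat_lit 5284751507) (nat_lit 84) (nat_lit 5) (nat_lit 88) (nat_lit 5) (nat_lit 85) (nat_lit 5)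 (nat_lit 490) (nat_lit 376) (nat_lit 274)))) (XT.nd (nat_lit 78) (nat_lit 304) (nat_lit 0) (XT.lf (nat_lit 0) (nat_lit 8412402271) (nat_lit 304) (nat_lit 4813770321) (nat_lit 380) (nat_lit 2054833986) (nat_lit 80) (nat_lit 5) (nat_lit 84) (nat_lit 5) (nat_lit 85) (nat_lit 5) (nat_lit 491) (nat_lit 376) (nat_lit 273)) (XT.nd (nat_lit 78) (nat_lit 0) (nat_lit 0) (XT.lf (nat_lit 0) (nat_lit 2050902143) (nat_lit 304) (nat_lit 13132218750) (nat_lit 76) (nat_lit 292910768) (nat_lit 76) (nat_lit 5) (nat_lit 80) (nat_lit 5) (nat_lit 77) (nat_lit 5) (nat_lit 492) (nat_lit 376) (nat_lit 272)) (XT.lf (nat_lit 0) (nat_lit 6266940394) (nat_lit 304) (nat_lit 3924280542) (nat_lit 76) (nat_lit 5482353228) (nat_lit 76) (nat_lit 5) (nat_lit 80) (nat_lit 5) (nat_lit 77) (nat_lit 5) (nat_lit 493) (nat_lit 376) (nat_lit 271))))))) (XT.nd (nat_lit 858) (nat_lit 152) (nat_lit 0) (XT.nd (nat_lit 390) (nat_lit 988) (nat_lit 0) (XT.nd (nat_lit 156) (nat_lit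 532) (nat_lit 0) (XT.nd (nat_lit 78) (nat_lit 0) (nat_lit 0) (XT.lf (nat_lit 0) (nat_lit 5502694412) (nat_lit 228) (nat_lit 5078174726) (nat_lit 304) (nat_lit 5293929535) (nat_lit 73) (nat_lit 5) (nat_lit 76) (nat_lit 5) (nat_lit 77) (nat_lit 5) (nat_lit 494) (nat_lit 376) (nat_lit 270)) (XT.lf (nat_lit 0) (nat_lit 14986413795) (nat_lit 304) (nat_lit 946571578) (nat_lit 76) (nat_lit 146958052) (nat_lit 73) (nat_lit 5) (nat_lit 77) (nat_lit 5) (nat_lit 74) (nat_lit 5) (nat_lit 495) (nat_lit 376) (nat_lit 269))) (XT.nd (nat_lit 78) (nat_lit 228) (nat_lit 0) (XT.lf (nat_lit 0) (nat_lit 3218042863) (nat_lit 304) (nat_lit 7597556322) (nat_lit 76) (nat_lit 5471799672) (nat_lit 69) (nat_lit 5) (nat_lit 73) (nat_lit 5) (nat_lit 70) (nat_lit 5) (nat_lit 496) (nat_lit 376) (nat_lit 268)) (XT.nd (nat_lit 78) (nat_lit 0) (nat_lit 0) (XT.lf (nat_lit 0) (nat_lit 2015383445) (nat_lit 228) (nat_lit 5583728426) (nat_lit 304) (nat_lit 8899791170)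 (nat_lit 66) (nat_lit 5) (nat_lit 69) (nat_lit 5) (nat_lit 70) (nat_lit 5) (nat_lit 497) (nat_lit 376) (nat_lit 267)) (XT.lf (nat_lit 0) (nat_lit 11887106072) (nat_lit 228) (nat_lit 210280768) (nat_lit 304) (nat_lit 4616661086) (nat_lit 66) (nat_lit 5) (nat_lit 69) (nat_lit 5) (nat_lit 70) (nat_lit 5) (nat_lit 498) (nat_lit 376) (nat_lit 266))))) (XT.nd (nat_lit 234) (nat_lit 456) (nat_lit 0) (XT.nd (nat_lit 78) (nat_lit 304) (nat_lit 0) (XT.lf (nat_lit 0) (nat_lit 5018288918) (nat_lit 228) (nat_lit 11713065594) (nat_lit 304) (nat_lit 201228917) (nat_lit 63) (nat_lit 5) (nat_lit 66) (nat_lit 5) (nat_lit 67) (nat_lit 5) (nat_lit 499) (nat_lit 376) (nat_lit 265)) (XT.nd (nat_lit 78) (nat_lit 228) (nat_lit 0) (XT.lf (nat_lit 0) (nat_lit 4259046779) (nat_lit 304) (nat_lit 2094647120) (nat_lit 76) (nat_lit 10800979961) (nat_lit 62) (nat_lit 5) (nat_lit 66) (nat_lit 5) (nat_lit 63) (nat_lit 5) (nat_lit 500) (nat_lit 376) (nat_lit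 264)) (XT.lf (nat_lit 0) (nat_lit 7989433415) (nat_lit 228) (nat_lit 847652477) (nat_lit 304) (nat_lit 8543470692) (nat_lit 59) (nat_lit 5) (nat_lit 62) (nat_lit 5) (nat_lit 63) (nat_lit 5) (nat_lit 501) (nat_lit 376) (nat_lit 263)))) (XT.nd (nat_lit 78) (nat_lit 304) (nat_lit 0) (XT.lf (nat_lit 0) (nat_lit 634691443) (nat_lit 152) (nat_lit 12900682261) (nat_lit 228) (nat_lit 4075011592) (nat_lit 57) (nat_lit 5) (nat_lit 59) (nat_lit 5) (nat_lit 60) (nat_lit 5) (nat_lit 502) (nat_lit 376) (nat_lit 262)) (XT.nd (nat_lit 78) (nat_lit 228) (nat_lit 0) (XT.lf (nat_lit 0) (nat_lit 525029211) (nat_lit 228) (nat_lit 6899927869) (nat_lit 76) (nat_lit 10418821921) (nat_lit 56) (nat_lit 5) (nat_lit 59) (nat_lit 5) (nat_lit 57) (nat_lit 5) (nat_lit 503) (nat_lit 376) (nat_lit 261)) (XT.lf (nat_lit 0) (nat_lit 3359591520) (nat_lit 228) (nat_lit 1804675110) (nat_lit 304) (nat_lit 12917002002) (nat_lit 53) (nat_lit 5) (nat_lit 56) (nat_lit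 5) (nat_lit 57) (nat_lit 5) (nat_lit 504) (nat_lit 376) (nat_lit 260)))))) (XT.nd (nat_lit 50388) (nat_lit 0) (nat_lit 48184) (XT.nd (nat_lit 50154) (nat_lit 0) (nat_lit 49780) (XT.nd (nat_lit 78) (nat_lit 152) (nat_lit 0) (XT.lf (nat_lit 0) (nat_lit 9948371567) (nat_lit 304) (nat_lit 4465473158) (nat_lit 76) (nat_lit 3908623607) (nat_lit 53) (nat_lit 5) (nat_lit 57) (nat_lit 5) (nat_lit 54) (nat_lit 5) (nat_lit 505) (nat_lit 376) (nat_lit 259)) (XT.nd (nat_lit 49998) (nat_lit 0) (nat_lit 50160) (XT.lf (nat_lit 0) (nat_lit 6028743119) (nat_lit 152) (nat_lit 8830873028) (nat_lit 228) (nat_lit 3708248623) (nat_lit 51) (nat_lit 5) (nat_lit 53) (nat_lit 5) (nat_lit 54) (nat_lit 5) (nat_lit 506) (nat_lit 376) (nat_lit 258)) (XT.lf (nat_lit 0) (nat_lit 149006817) (nat_lit 228) (nat_lit 1540398145) (nat_lit 228) (nat_lit 1540398145) (nat_lit 711) (nat_lit 4) (nat_lit 714) (nat_lit 5) (nat_lit 714) (nat_lit 4) (nat_lit 386) (nat_lit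 377) (nat_lit 377)))) (XT.nd (nat_lit 78) (nat_lit 304) (nat_lit 0) (XT.lf (nat_lit 0) (nat_lit 60348773) (nat_lit 304) (nat_lit 2716884426) (nat_lit 76) (nat_lit 3688836086) (nat_lit 710) (nat_lit 5) (nat_lit 714) (nat_lit 5) (nat_lit 711) (nat_lit 4) (nat_lit 387) (nat_lit 377) (nat_lit 376)) (XT.nd (nat_lit 78) (nat_lit 0) (nat_lit 0) (XT.lf (nat_lit 0) (nat_lit 740045546) (nat_lit 304) (nat_lit 2409440056) (nat_lit 380) (nat_lit 3324281106) (nat_lit 706) (nat_lit 5) (nat_lit 710) (nat_lit 5) (nat_lit 711) (nat_lit 4) (nat_lit 388) (nat_lit 377) (nat_lit 375)) (XT.lf (nat_lit 0) (nat_lit 4257269120) (nat_lit 304) (nat_lit 1984186230) (nat_lit 380) (nat_lit 241381710) (nat_lit 706) (nat_lit 5) (nat_lit 710) (nat_lit 5) (nat_lit 711) (nat_lit 4) (nat_lit 389) (nat_lit 377) (nat_lit 374))))) (XT.nd (nat_lit 234) (nat_lit 608) (nat_lit 0) (XT.nd (nat_lit 78) (nat_lit 532) (nat_lit 0) (XT.lf (nat_lit 0) (nat_lit 1305188051) (nat_lit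 380) (nat_lit 1492178116) (nat_lit 456) (nat_lit 3695738774) (nat_lit 700) (nat_lit 5) (nat_lit 705) (nat_lit 5) (nat_lit 706) (nat_lit 5) (nat_lit 390) (nat_lit 377) (nat_lit 373)) (XT.nd (nat_lit 78) (nat_lit 532) (nat_lit 0) (XT.lf (nat_lit 0) (nat_lit 4889580301) (nat_lit 380) (nat_lit 943994538) (nat_lit 456) (nat_lit 671210751) (nat_lit 700) (nat_lit 5) (nat_lit 705) (nat_lit 5) (nat_lit 706) (nat_lit 5) (nat_lit 391) (nat_lit 377) (nat_lit 372)) (XT.lf (nat_lit 0) (nat_lit 1993782321) (nat_lit 456) (nat_lit 327250949) (nat_lit 532) (nat_lit 4196611698) (nat_lit 693) (nat_lit 5) (nat_lit 699) (nat_lit 5) (nat_lit 700) (nat_lit 5) (nat_lit 392) (nat_lit 377) (nat_lit 371)))) (XT.nd (nat_lit 78) (nat_lit 608) (nat_lit 0) (XT.lf (nat_lit 0) (nat_lit 5304287985) (nat_lit 532) (nat_lit 887204182) (nat_lit 76) (nat_lit 340413072) (nat_lit 693) (nat_lit 5) (nat_lit 700) (nat_lit 5) (nat_lit 694) (nat_lit 5) (nat_lit 393) (nat_lit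 377) (nat_lit 370)) (XT.nd (nat_lit 78) (nat_lit 0) (nat_lit 0) (XT.lf (nat_lit 0) (nat_lit 1725885752) (nat_lit 608) (nat_lit 3748078587) (nat_lit 76) (nat_lit 1073311751) (nat_lit 685) (nat_lit 5) (nat_lit 693) (nat_lit 5) (nat_lit 686) (nat_lit 5) (nat_lit 394) (nat_lit 377) (nat_lit 369)) (XT.lf (nat_lit 0) (nat_lit 4657332094) (nat_lit 608) (nat_lit 46425780) (nat_lit 76) (nat_lit 1860361431) (nat_lit 685) (nat_lit 5) (nat_lit 693) (nat_lit 5) (nat_lit 686) (nat_lit 5) (nat_lit 395) (nat_lit 377) (nat_lit 368))))))))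
noncomputable def xc82 : XT := (XT.nd (nat_lit 1716) (nat_lit 14744) (nat_lit 0) (XT.nd (nat_lit 858) (nat_lit 9880) (nat_lit 0) (XT.nd (nat_lit 390) (nat_lit 4028) (nat_lit 0) (XT.nd (nat_lit 156) (nat_lit 836) (nat_lit 0) (XT.nd (nat_lit 78) (nat_lit 684) (nat_lit 0) (XT.lf (nat_lit 0) (nat_lit 1006716680) (nat_lit 684) (nat_lit 2856503831) (nat_lit 76) (nat_lit 2718880775) (nat_lit 676) (nat_lit 5) (nat_lit 685) (nat_lit 5) (nat_lit 677) (nat_lit 5) (nat_lit 396) (nat_lit 377) (nat_lit 367)) (XT.lf (nat_lit 0) (nat_lit 926271465) (nat_lit 684) (nat_lit 2964307186) (nat_lit 760) (nat_lit 2710891309) (nat_lit 667) (nat_lit 5) (nat_lit 676) (nat_lit 5) (nat_lit 677) (nat_lit 5) (nat_lit 397) (nat_lit 377) (nat_lit 366))) (XT.nd (nat_lit 78) (nat_lit 760) (nat_lit 0) (XT.lf (nat_lit 0) (nat_lit 159259009) (nat_lit 760) (nat_lit 1846046874) (nat_lit 76) (nat_lit 4616900384) (nat_lit 666) (nat_lit 5) (nat_lit 676) (nat_lit 5) (nat_lit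 667) (nat_lit 5) (nat_lit 398) (nat_lit 377) (nat_lit 365)) (XT.nd (nat_lit 78) (nat_lit 0) (nat_lit 0) (XT.lf (nat_lit 0) (nat_lit 2022047537) (nat_lit 760) (nat_lit 974802340) (nat_lit 836) (nat_lit 3647252026) (nat_lit 656) (nat_lit 5) (nat_lit 666) (nat_lit 5) (nat_lit 667) (nat_lit 5) (nat_lit 399) (nat_lit 377) (nat_lit 364)) (XT.lf (nat_lit 0) (nat_lit 5838473542) (nat_lit 836) (nat_lit 721615226) (nat_lit 76) (nat_lit 107430190) (nat_lit 656) (nat_lit 5) (nat_lit 667) (nat_lit 5) (nat_lit 657) (nat_lit 5) (nat_lit 400) (nat_lit 377) (nat_lit 363))))) (XT.nd (nat_lit 234) (nat_lit 2128) (nat_lit 0) (XT.nd (nat_lit 78) (nat_lit 988) (nat_lit 0) (XT.lf (nat_lit 0) (nat_lit 1981563169) (nat_lit 912) (nat_lit 3458699736) (nat_lit 76) (nat_lit 1251646523) (nat_lit 644) (nat_lit 5) (nat_lit 656) (nat_lit 5) (nat_lit 645) (nat_lit 5) (nat_lit 401) (nat_lit 377) (nat_lit 362)) (XT.nd (nat_lit 78) (nat_lit 76) (nat_lit 0) (XT.lf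 (nat_lit 0) (nat_lit 514426939) (nat_lit 912) (nat_lit 4267199763) (nat_lit 988) (nat_lit 1936191978) (nat_lit 632) (nat_lit 5) (nat_lit 644) (nat_lit 5) (nat_lit 645) (nat_lit 5) (nat_lit 402) (nat_lit 377) (nat_lit 361)) (XT.lf (nat_lit 0) (nat_lit 841715898) (nat_lit 988) (nat_lit 2183415366) (nat_lit 76) (nat_lit 3719825454) (nat_lit 631) (nat_lit 5) (nat_lit 644) (nat_lit 5) (nat_lit 632) (nat_lit 5) (nat_lit 403) (nat_lit 377) (nat_lit 360)))) (XT.nd (nat_lit 78) (nat_lit 1140) (nat_lit 0) (XT.lf (nat_lit 0) (nat_lit 1882177454) (nat_lit 988) (nat_lit 1717190901) (nat_lit 1064) (nat_lit 3174036820) (nat_lit 618) (nat_lit 5) (nat_lit 631) (nat_lit 5) (nat_lit 632) (nat_lit 5) (nat_lit 404) (nat_lit 377) (nat_lit 359)) (XT.nd (nat_lit 78) (nat_lit 1140) (nat_lit 0) (XT.lf (nat_lit 0) (nat_lit 6012340067) (nat_lit 988) (nat_lit 353270540) (nat_lit 1064) (nat_lit 437768617) (nat_lit 618) (nat_lit 5) (nat_lit 631) (nat_lit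 5) (nat_lit 632) (nat_lit 5) (nat_lit 405) (nat_lit 377) (nat_lit 358)) (XT.lf (nat_lit 0) (nat_lit 2290907775) (nat_lit 1140) (nat_lit 3467653856) (nat_lit 76) (nat_lit 1075739006) (nat_lit 603) (nat_lit 5) (nat_lit 618) (nat_lit 5) (nat_lit 604) (nat_lit 5) (nat_lit 406) (nat_lit 377) (nat_lit 357)))))) (XT.nd (nat_lit 390) (nat_lit 6080) (nat_lit 0) (XT.nd (nat_lit 156) (nat_lit 2584) (nat_lit 0) (XT.nd (nat_lit 78) (nat_lit 76) (nat_lit 0) (XT.lf (nat_lit 0) (nat_lit 709246316) (nat_lit 1140) (nat_lit 4311881164) (nat_lit 1216) (nat_lit 1845622390) (nat_lit 588) (nat_lit 5) (nat_lit 603) (nat_lit 5) (nat_lit 604) (nat_lit 5) (nat_lit 407) (nat_lit 377) (nat_lit 356)) (XT.lf (nat_lit 0) (nat_lit 858631727) (nat_lit 1216) (nat_lit 1936483297) (nat_lit 76) (nat_lit 4105350130) (nat_lit 587) (nat_lit 5) (nat_lit 603) (nat_lit 5) (nat_lit 588) (nat_lit 5) (nat_lit 408) (nat_lit 377) (nat_lit 355))) (XT.nd (nat_lit 78) (nat_lit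 1368) (nat_lit 0) (XT.lf (nat_lit 0) (nat_lit 2340615697) (nat_lit 1216) (nat_lit 1209007431) (nat_lit 1292) (nat_lit 3385862840) (nat_lit 571) (nat_lit 5) (nat_lit 587) (nat_lit 5) (nat_lit 588) (nat_lit 5) (nat_lit 409) (nat_lit 377) (nat_lit 354)) (XT.nd (nat_lit 78) (nat_lit 1368) (nat_lit 0) (XT.lf (nat_lit 0) (nat_lit 6253215447) (nat_lit 1292) (nat_lit 291920872) (nat_lit 76) (nat_lit 426917332) (nat_lit 571) (nat_lit 5) (nat_lit 588) (nat_lit 5) (nat_lit 572) (nat_lit 5) (nat_lit 410) (nat_lit 377) (nat_lit 353)) (XT.lf (nat_lit 0) (nat_lit 1953877751) (nat_lit 1368) (nat_lit 2926656254) (nat_lit 76) (nat_lit 2129007971) (nat_lit 553) (nat_lit 5) (nat_lit 571) (nat_lit 5) (nat_lit 554) (nat_lit 5) (nat_lit 411) (nat_lit 377) (nat_lit 352))))) (XT.nd (nat_lit 234) (nat_lit 3192) (nat_lit 0) (XT.nd (nat_lit 78) (nat_lit 1520) (nat_lit 0) (XT.lf (nat_lit 0) (nat_lit 1468639776) (nat_lit 1368) (nat_lit 3157869413) (nat_lit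 1444) (nat_lit 2422074922) (nat_lit 535) (nat_lit 5) (nat_lit 553) (nat_lit 5) (nat_lit 554) (nat_lit 5) (nat_lit 412) (nat_lit 377) (nat_lit 351)) (XT.nd (nat_lit 78) (nat_lit 1444) (nat_lit 0) (XT.lf (nat_lit 0) (nat_lit 225460943) (nat_lit 1444) (nat_lit 1146039582) (nat_lit 76) (nat_lit 5717597459) (nat_lit 534) (nat_lit 5) (nat_lit 553) (nat_lit 5) (nat_lit 535) (nat_lit 5) (nat_lit 413) (nat_lit 377) (nat_lit 350)) (XT.lf (nat_lit 0) (nat_lit 2864619258) (nat_lit 1520) (nat_lit 3776203948) (nat_lit 76) (nat_lit 489876266) (nat_lit 515) (nat_lit 5) (nat_lit 535) (nat_lit 5) (nat_lit 516) (nat_lit 5) (nat_lit 414) (nat_lit 377) (nat_lit 349)))) (XT.nd (nat_lit 78) (nat_lit 1672) (nat_lit 0) (XT.lf (nat_lit 0) (nat_lit 740599012) (nat_lit 1520) (nat_lit 4784443668) (nat_lit 1596) (nat_lit 1648739890) (nat_lit 495) (nat_lit 5) (nat_lit 515) (nat_lit 5) (nat_lit 516) (nat_lit 5) (nat_lit 415) (nat_lit 377) (nat_lit 348)) (XT.nd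 (nat_lit 78) (nat_lit 1596) (nat_lit 0) (XT.lf (nat_lit 0) (nat_lit 980284286) (nat_lit 1596) (nat_lit 1873075816) (nat_lit 76) (nat_lit 4364798585) (nat_lit 494) (nat_lit 5) (nat_lit 515) (nat_lit 5) (nat_lit 495) (nat_lit 5) (nat_lit 416) (nat_lit 377) (nat_lit 347)) (XT.lf (nat_lit 0) (nat_lit 2756422843) (nat_lit 1596) (nat_lit 849560382) (nat_lit 1672) (nat_lit 3657915829) (nat_lit 473) (nat_lit 5) (nat_lit 494) (nat_lit 5) (nat_lit 495) (nat_lit 5) (nat_lit 417) (nat_lit 377) (nat_lit 346))))))) (XT.nd (nat_lit 858) (nat_lit 6232) (nat_lit 0) (XT.nd (nat_lit 390) (nat_lit 3648) (nat_lit 0) (XT.nd (nat_lit 156) (nat_lit 3116) (nat_lit 0) (XT.nd (nat_lit 78) (nat_lit 76) (nat_lit 0) (XT.lf (nat_lit 0) (nat_lit 139794269) (nat_lit 1672) (nat_lit 6114709237) (nat_lit 1748) (nat_lit 1056662328) (nat_lit 451) (nat_lit 5) (nat_lit 473) (nat_lit 5) (nat_lit 474) (nat_lit 5) (nat_lit 418) (nat_lit 377) (nat_lit 345)) (XT.lf (nat_lit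 0) (nat_lit 1561084727) (nat_lit 1748) (nat_lit 2482031855) (nat_lit 76) (nat_lit 3316362942) (nat_lit 450) (nat_lit 5) (nat_lit 473) (nat_lit 5) (nat_lit 451) (nat_lit 5) (nat_lit 419) (nat_lit 377) (nat_lit 344))) (XT.nd (nat_lit 78) (nat_lit 1368) (nat_lit 0) (XT.lf (nat_lit 0) (nat_lit 2276724969) (nat_lit 1748) (nat_lit 1905436039) (nat_lit 1824) (nat_lit 3227173057) (nat_lit 427) (nat_lit 5) (nat_lit 450) (nat_lit 5) (nat_lit 451) (nat_lit 5) (nat_lit 420) (nat_lit 377) (nat_lit 343)) (XT.nd (nat_lit 78) (nat_lit 1368) (nat_lit 0) (XT.lf (nat_lit 0) (nat_lit 6825220929) (nat_lit 1824) (nat_lit 345377649) (nat_lit 76) (nat_lit 290212277) (nat_lit 427) (nat_lit 5) (nat_lit 451) (nat_lit 5) (nat_lit 428) (nat_lit 5) (nat_lit 421) (nat_lit 377) (nat_lit 342)) (XT.lf (nat_lit 0) (nat_lit 1975487021) (nat_lit 1368) (nat_lit 2988950123) (nat_lit 76) (nat_lit 2548755179) (nat_lit 409) (nat_lit 5) (nat_lit 427) (nat_lit 5) (nat_lit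 410) (nat_lit 5) (nat_lit 422) (nat_lit 377) (nat_lit 341))))) (XT.nd (nat_lit 234) (nat_lit 1824) (nat_lit 0) (XT.nd (nat_lit 78) (nat_lit 912) (nat_lit 0) (XT.lf (nat_lit 0) (nat_lit 1902760079) (nat_lit 912) (nat_lit 2694490259) (nat_lit 988) (nat_lit 2969963004) (nat_lit 397) (nat_lit 5) (nat_lit 409) (nat_lit 5) (nat_lit 410) (nat_lit 5) (nat_lit 423) (nat_lit 377) (nat_lit 340)) (XT.nd (nat_lit 78) (nat_lit 912) (nat_lit 0) (XT.lf (nat_lit 0) (nat_lit 6885800412) (nat_lit 912) (nat_lit 358616760) (nat_lit 988) (nat_lit 378453398) (nat_lit 397) (nat_lit 5) (nat_lit 409) (nat_lit 5) (nat_lit 410) (nat_lit 5) (nat_lit 424) (nat_lit 377) (nat_lit 339)) (XT.lf (nat_lit 0) (nat_lit 2229928725) (nat_lit 912) (nat_lit 3409550603) (nat_lit 76) (nat_lit 2039987142) (nat_lit 385) (nat_lit 5) (nat_lit 397) (nat_lit 5) (nat_lit 386) (nat_lit 5) (nat_lit 425) (nat_lit 377) (nat_lit 338)))) (XT.nd (nat_lit 78) (nat_lit 912) (nat_lit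 0) (XT.lf (nat_lit 0) (nat_lit 1618904361) (nat_lit 912) (nat_lit 3238496486) (nat_lit 988) (nat_lit 2880317891) (nat_lit 373) (nat_lit 5) (nat_lit 385) (nat_lit 5) (nat_lit 386) (nat_lit 5) (nat_lit 426) (nat_lit 377) (nat_lit 337)) (XT.nd (nat_lit 78) (nat_lit 912) (nat_lit 0) (XT.lf (nat_lit 0) (nat_lit 6747106028) (nat_lit 912) (nat_lit 767910733) (nat_lit 988) (nat_lit 282581404) (nat_lit 373) (nat_lit 5) (nat_lit 385) (nat_lit 5) (nat_lit 386) (nat_lit 5) (nat_lit 427) (nat_lit 377) (nat_lit 336)) (XT.lf (nat_lit 0) (nat_lit 2329692199) (nat_lit 912) (nat_lit 3759363179) (nat_lit 76) (nat_lit 1769453330) (nat_lit 361) (nat_lit 5) (nat_lit 373) (nat_lit 5) (nat_lit 362) (nat_lit 5) (nat_lit 428) (nat_lit 377) (nat_lit 335)))))) (XT.nd (nat_lit 468) (nat_lit 2964) (nat_lit 0) (XT.nd (nat_lit 234) (nat_lit 1596) (nat_lit 0) (XT.nd (nat_lit 78) (nat_lit 836) (nat_lit 0) (XT.lf (nat_lit 0) (nat_lit 1409705623) (nat_lit 836)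 (nat_lit 3557914905) (nat_lit 912) (nat_lit 2953448908) (nat_lit 350) (nat_lit 5) (nat_lit 361) (nat_lit 5) (nat_lit 362) (nat_lit 5) (nat_lit 429) (nat_lit 377) (nat_lit 334)) (XT.nd (nat_lit 78) (nat_lit 836) (nat_lit 0) (XT.lf (nat_lit 0) (nat_lit 6686127628) (nat_lit 836) (nat_lit 953822810) (nat_lit 912) (nat_lit 345311013) (nat_lit 350) (nat_lit 5) (nat_lit 361) (nat_lit 5) (nat_lit 362) (nat_lit 5) (nat_lit 430) (nat_lit 377) (nat_lit 333)) (XT.lf (nat_lit 0) (nat_lit 2278928165) (nat_lit 836) (nat_lit 4053861557) (nat_lit 76) (nat_lit 1717773405) (nat_lit 339) (nat_lit 5) (nat_lit 350) (nat_lit 5) (nat_lit 340) (nat_lit 5) (nat_lit 431) (nat_lit 377) (nat_lit 332)))) (XT.nd (nat_lit 78) (nat_lit 836) (nat_lit 0) (XT.lf (nat_lit 0) (nat_lit 1259747759) (nat_lit 760) (nat_lit 3672048891) (nat_lit 836) (nat_lit 3185725359) (nat_lit 329) (nat_lit 5) (nat_lit 339) (nat_lit 5) (nat_lit 340) (nat_lit 5) (nat_lit 432) (nat_lit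 377) (nat_lit 331)) (XT.nd (nat_lit 78) (nat_lit 836) (nat_lit 0) (XT.lf (nat_lit 0) (nat_lit 6687710736) (nat_lit 760) (nat_lit 935236969) (nat_lit 836) (nat_lit 563179808) (nat_lit 329) (nat_lit 5) (nat_lit 339) (nat_lit 5) (nat_lit 340) (nat_lit 5) (nat_lit 433) (nat_lit 377) (nat_lit 330)) (XT.lf (nat_lit 0) (nat_lit 2080670870) (nat_lit 836) (nat_lit 4308599856) (nat_lit 76) (nat_lit 1866640636) (nat_lit 318) (nat_lit 5) (nat_lit 329) (nat_lit 5) (nat_lit 319) (nat_lit 5) (nat_lit 434) (nat_lit 377) (nat_lit 329))))) (XT.nd (nat_lit 234) (nat_lit 1444) (nat_lit 0) (XT.nd (nat_lit 78) (nat_lit 760) (nat_lit 0) (XT.lf (nat_lit 0) (nat_lit 1153512271) (nat_lit 760) (nat_lit 3599196005) (nat_lit 836) (nat_lit 3574662406) (nat_lit 308) (nat_lit 5) (nat_lit 318) (nat_lit 5) (nat_lit 319) (nat_lit 5) (nat_lit 435) (nat_lit 377) (nat_lit 328)) (XT.nd (nat_lit 78) (nat_lit 760) (nat_lit 0) (XT.lf (nat_lit 0) (nat_lit 6736577700)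 (nat_lit 760) (nat_lit 730060598) (nat_lit 836) (nat_lit 933862891) (nat_lit 308) (nat_lit 5) (nat_lit 318) (nat_lit 5) (nat_lit 319) (nat_lit 5) (nat_lit 436) (nat_lit 377) (nat_lit 327)) (XT.lf (nat_lit 0) (nat_lit 1736844778) (nat_lit 760) (nat_lit 4539353036) (nat_lit 76) (nat_lit 2198675159) (nat_lit 298) (nat_lit 5) (nat_lit 308) (nat_lit 5) (nat_lit 299) (nat_lit 5) (nat_lit 437) (nat_lit 377) (nat_lit 326)))) (XT.nd (nat_lit 78) (nat_lit 760) (nat_lit 0) (XT.lf (nat_lit 0) (nat_lit 1075235648) (nat_lit 684) (nat_lit 3356794645) (nat_lit 760) (nat_lit 4118917482) (nat_lit 289) (nat_lit 5) (nat_lit 298) (nat_lit 5) (nat_lit 299) (nat_lit 5) (nat_lit 438) (nat_lit 377) (nat_lit 325)) (XT.nd (nat_lit 78) (nat_lit 760) (nat_lit 0) (XT.lf (nat_lit 0) (nat_lit 6817184706) (nat_lit 684) (nat_lit 355369781) (nat_lit 760) (nat_lit 1456171083) (nat_lit 289) (nat_lit 5) (nat_lit 298) (nat_lit 5) (nat_lit 299) (nat_lit 5) (nat_lit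 439) (nat_lit 377) (nat_lit 324)) (XT.lf (nat_lit 0) (nat_lit 1248262710) (nat_lit 760) (nat_lit 4762262377) (nat_lit 76) (nat_lit 2697280936) (nat_lit 279) (nat_lit 5) (nat_lit 289) (nat_lit 5) (nat_lit 280) (nat_lit 5) (nat_lit 440) (nat_lit 377) (nat_lit 323))))))))
noncomputable def xc83 : XT := (XT.nd (nat_lit 1716) (nat_lit 5928) (nat_lit 0) (XT.nd (nat_lit 858) (nat_lit 3648) (nat_lit 0) (XT.nd (nat_lit 390) (nat_lit 2432) (nat_lit 0) (XT.nd (nat_lit 156) (nat_lit 1292) (nat_lit 0) (XT.nd (nat_lit 78) (nat_lit 0) (nat_lit 0) (XT.lf (nat_lit 0) (nat_lit 1008761388) (nat_lit 684) (nat_lit 2961567452) (nat_lit 760) (nat_lit 4818295513) (nat_lit 270) (nat_lit 5) (nat_lit 279) (nat_lit 5) (nat_lit 280) (nat_lit 5) (nat_lit 441) (nat_lit 377) (nat_lit 322)) (XT.lf (nat_lit 0) (nat_lit 6742244413) (nat_lit 760) (nat_lit 1958729172) (nat_lit 76) (nat_lit 170186723) (nat_lit 270) (nat_lit 5) (nat_lit 280) (nat_lit 5) (nat_lit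 271) (nat_lit 5) (nat_lit 442) (nat_lit 377) (nat_lit 321))) (XT.nd (nat_lit 78) (nat_lit 608) (nat_lit 0) (XT.lf (nat_lit 0) (nat_lit 614615237) (nat_lit 684) (nat_lit 4993987282) (nat_lit 76) (nat_lit 3346505357) (nat_lit 261) (nat_lit 5) (nat_lit 270) (nat_lit 5) (nat_lit 262) (nat_lit 5) (nat_lit 443) (nat_lit 377) (nat_lit 320)) (XT.nd (nat_lit 78) (nat_lit 0) (nat_lit 0) (XT.lf (nat_lit 0) (nat_lit 937385341) (nat_lit 608) (nat_lit 2429662591) (nat_lit 684) (nat_lit 5673763155) (nat_lit 253) (nat_lit 5) (nat_lit 261) (nat_lit 5) (nat_lit 262) (nat_lit 5) (nat_lit 444) (nat_lit 377) (nat_lit 319)) (XT.lf (nat_lit 0) (nat_lit 6177096639) (nat_lit 684) (nat_lit 2124518210) (nat_lit 76) (nat_lit 826570871) (nat_lit 253) (nat_lit 5) (nat_lit 262) (nat_lit 5) (nat_lit 254) (nat_lit 5) (nat_lit 445) (nat_lit 377) (nat_lit 318))))) (XT.nd (nat_lit 234) (nat_lit 1140) (nat_lit 0) (XT.nd (nat_lit 78) (nat_lit 684) (nat_lit 0) (XT.lf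 (nat_lit 0) (nat_lit 3964240504) (nat_lit 608) (nat_lit 5085204907) (nat_lit 684) (nat_lit 167748983) (nat_lit 245) (nat_lit 5) (nat_lit 253) (nat_lit 5) (nat_lit 254) (nat_lit 5) (nat_lit 446) (nat_lit 377) (nat_lit 317)) (XT.nd (nat_lit 78) (nat_lit 0) (nat_lit 0) (XT.lf (nat_lit 0) (nat_lit 843692992) (nat_lit 608) (nat_lit 1776793993) (nat_lit 684) (nat_lit 6687472327) (nat_lit 236) (nat_lit 5) (nat_lit 244) (nat_lit 5) (nat_lit 245) (nat_lit 5) (nat_lit 447) (nat_lit 377) (nat_lit 316)) (XT.lf (nat_lit 0) (nat_lit 5472870004) (nat_lit 684) (nat_lit 2324226458) (nat_lit 76) (nat_lit 1603216360) (nat_lit 236) (nat_lit 5) (nat_lit 245) (nat_lit 5) (nat_lit 237) (nat_lit 5) (nat_lit 448) (nat_lit 377) (nat_lit 315)))) (XT.nd (nat_lit 78) (nat_lit 608) (nat_lit 0) (XT.lf (nat_lit 0) (nat_lit 3933185047) (nat_lit 532) (nat_lit 4451879112) (nat_lit 608) (nat_lit 1109401856) (nat_lit 229) (nat_lit 5) (nat_lit 236) (nat_lit 5) (nat_lit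 237) (nat_lit 5) (nat_lit 449) (nat_lit 377) (nat_lit 314)) (XT.nd (nat_lit 78) (nat_lit 0) (nat_lit 0) (XT.lf (nat_lit 0) (nat_lit 709387202) (nat_lit 532) (nat_lit 1018381700) (nat_lit 608) (nat_lit 7862793410) (nat_lit 221) (nat_lit 5) (nat_lit 228) (nat_lit 5) (nat_lit 229) (nat_lit 5) (nat_lit 450) (nat_lit 377) (nat_lit 313)) (XT.lf (nat_lit 0) (nat_lit 4626455363) (nat_lit 608) (nat_lit 2576431677) (nat_lit 76) (nat_lit 2485161717) (nat_lit 221) (nat_lit 5) (nat_lit 229) (nat_lit 5) (nat_lit 222) (nat_lit 5) (nat_lit 451) (nat_lit 377) (nat_lit 312)))))) (XT.nd (nat_lit 390) (nat_lit 1520) (nat_lit 0) (XT.nd (nat_lit 156) (nat_lit 988) (nat_lit 0) (XT.nd (nat_lit 78) (nat_lit 608) (nat_lit 0) (XT.lf (nat_lit 0) (nat_lit 3853366313) (nat_lit 532) (nat_lit 3728100959) (nat_lit 608) (nat_lit 2206057907) (nat_lit 214) (nat_lit 5) (nat_lit 221) (nat_lit 5) (nat_lit 222) (nat_lit 5) (nat_lit 452) (nat_lit 377) (nat_lit 311))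 (XT.lf (nat_lit 0) (nat_lit 515104832) (nat_lit 532) (nat_lit 169693454) (nat_lit 608) (nat_lit 9204358551) (nat_lit 206) (nat_lit 5) (nat_lit 213) (nat_lit 5) (nat_lit 214) (nat_lit 5) (nat_lit 453) (nat_lit 377) (nat_lit 310))) (XT.nd (nat_lit 78) (nat_lit 988) (nat_lit 0) (XT.lf (nat_lit 0) (nat_lit 3633523619) (nat_lit 608) (nat_lit 2900849447) (nat_lit 76) (nat_lit 3457571461) (nat_lit 206) (nat_lit 5) (nat_lit 214) (nat_lit 5) (nat_lit 207) (nat_lit 5) (nat_lit 454) (nat_lit 377) (nat_lit 309)) (XT.nd (nat_lit 78) (nat_lit 532) (nat_lit 0) (XT.lf (nat_lit 0) (nat_lit 3704891116) (nat_lit 456) (nat_lit 2929172142) (nat_lit 532) (nat_lit 3462874645) (nat_lit 200) (nat_lit 5) (nat_lit 206) (nat_lit 5) (nat_lit 207) (nat_lit 5) (nat_lit 455) (nat_lit 377) (nat_lit 308)) (XT.lf (nat_lit 0) (nat_lit 231812118) (nat_lit 532) (nat_lit 9456689693) (nat_lit 608) (nat_lit 515658168) (nat_lit 193) (nat_lit 5) (nat_lit 200) (nat_lit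 5) (nat_lit 201) (nat_lit 5) (nat_lit 456) (nat_lit 377) (nat_lit 307))))) (XT.nd (nat_lit 234) (nat_lit 988) (nat_lit 0) (XT.nd (nat_lit 78) (nat_lit 456) (nat_lit 0) (XT.lf (nat_lit 0) (nat_lit 2488470531) (nat_lit 608) (nat_lit 3318532391) (nat_lit 76) (nat_lit 4505593890) (nat_lit 192) (nat_lit 5) (nat_lit 200) (nat_lit 5) (nat_lit 193) (nat_lit 5) (nat_lit 457) (nat_lit 377) (nat_lit 306)) (XT.nd (nat_lit 78) (nat_lit 0) (nat_lit 0) (XT.lf (nat_lit 0) (nat_lit 3466481191) (nat_lit 456) (nat_lit 2070490204) (nat_lit 532) (nat_lit 4886345147) (nat_lit 186) (nat_lit 5) (nat_lit 192) (nat_lit 5) (nat_lit 193) (nat_lit 5) (nat_lit 458) (nat_lit 377) (nat_lit 305)) (XT.lf (nat_lit 0) (nat_lit 8649090722) (nat_lit 532) (nat_lit 159257757) (nat_lit 76) (nat_lit 1727855313) (nat_lit 186) (nat_lit 5) (nat_lit 193) (nat_lit 5) (nat_lit 187) (nat_lit 5) (nat_lit 459) (nat_lit 377) (nat_lit 304)))) (XT.nd (nat_lit 78) (nat_lit 456)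 (nat_lit 0) (XT.lf (nat_lit 0) (nat_lit 1184350363) (nat_lit 532) (nat_lit 3852084696) (nat_lit 76) (nat_lit 5614215001) (nat_lit 179) (nat_lit 5) (nat_lit 186) (nat_lit 5) (nat_lit 180) (nat_lit 5) (nat_lit 460) (nat_lit 377) (nat_lit 303)) (XT.nd (nat_lit 78) (nat_lit 0) (nat_lit 0) (XT.lf (nat_lit 0) (nat_lit 3115253153) (nat_lit 456) (nat_lit 1167698616) (nat_lit 532) (nat_lit 6484370208) (nat_lit 173) (nat_lit 5) (nat_lit 179) (nat_lit 5) (nat_lit 180) (nat_lit 5) (nat_lit 461) (nat_lit 377) (nat_lit 302)) (XT.lf (nat_lit 0) (nat_lit 7457466369) (nat_lit 532) (nat_lit 673541669) (nat_lit 76) (nat_lit 2755046102) (nat_lit 173) (nat_lit 5) (nat_lit 180) (nat_lit 5) (nat_lit 174) (nat_lit 5) (nat_lit 462) (nat_lit 377) (nat_lit 301))))))) (XT.nd (nat_lit 858) (nat_lit 2584) (nat_lit 0) (XT.nd (nat_lit 390) (nat_lit 1520) (nat_lit 0) (XT.nd (nat_lit 156) (nat_lit 912) (nat_lit 0) (XT.nd (nat_lit 78) (nat_lit 456) (nat_lit 0)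 (XT.lf (nat_lit 0) (nat_lit 6478977627) (nat_lit 456) (nat_lit 4236764283) (nat_lit 532) (nat_lit 291019140) (nat_lit 167) (nat_lit 5) (nat_lit 173) (nat_lit 5) (nat_lit 174) (nat_lit 5) (nat_lit 463) (nat_lit 377) (nat_lit 300)) (XT.lf (nat_lit 0) (nat_lit 2626480463) (nat_lit 380) (nat_lit 236842652) (nat_lit 456) (nat_lit 8266342943) (nat_lit 161) (nat_lit 5) (nat_lit 166) (nat_lit 5) (nat_lit 167) (nat_lit 5) (nat_lit 464) (nat_lit 377) (nat_lit 299))) (XT.nd (nat_lit 78) (nat_lit 912) (nat_lit 0) (XT.lf (nat_lit 0) (nat_lit 6103183812) (nat_lit 456) (nat_lit 1339447178) (nat_lit 76) (nat_lit 3811838336) (nat_lit 161) (nat_lit 5) (nat_lit 167) (nat_lit 5) (nat_lit 162) (nat_lit 5) (nat_lit 465) (nat_lit 377) (nat_lit 298)) (XT.nd (nat_lit 78) (nat_lit 456) (nat_lit 0) (XT.lf (nat_lit 0) (nat_lit 6002416053) (nat_lit 456) (nat_lit 3417326482) (nat_lit 532) (nat_lit 1961793209) (nat_lit 155) (nat_lit 5) (nat_lit 161) (nat_lit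 5) (nat_lit 162) (nat_lit 5) (nat_lit 466) (nat_lit 377) (nat_lit 297)) (XT.lf (nat_lit 0) (nat_lit 1272447979) (nat_lit 456) (nat_lit 9542359546) (nat_lit 76) (nat_lit 696215218) (nat_lit 149) (nat_lit 5) (nat_lit 155) (nat_lit 5) (nat_lit 150) (nat_lit 5) (nat_lit 467) (nat_lit 377) (nat_lit 296))))) (XT.nd (nat_lit 234) (nat_lit 760) (nat_lit 0) (XT.nd (nat_lit 78) (nat_lit 760) (nat_lit 0) (XT.lf (nat_lit 0) (nat_lit 4575749924) (nat_lit 456) (nat_lit 2184533772) (nat_lit 76) (nat_lit 4881948355) (nat_lit 149) (nat_lit 5) (nat_lit 155) (nat_lit 5) (nat_lit 150) (nat_lit 5) (nat_lit 468) (nat_lit 377) (nat_lit 295)) (XT.nd (nat_lit 78) (nat_lit 380) (nat_lit 0) (XT.lf (nat_lit 0) (nat_lit 5348823821) (nat_lit 380) (nat_lit 2603230740) (nat_lit 456) (nat_lit 3823876962) (nat_lit 144) (nat_lit 5) (nat_lit 149) (nat_lit 5) (nat_lit 150) (nat_lit 5) (nat_lit 469) (nat_lit 377) (nat_lit 294)) (XT.lf (nat_lit 0) (nat_lit 1112347216)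 (nat_lit 380) (nat_lit 10288538101) (nat_lit 456) (nat_lit 511324286) (nat_lit 139) (nat_lit 5) (nat_lit 144) (nat_lit 5) (nat_lit 145) (nat_lit 5) (nat_lit 470) (nat_lit 377) (nat_lit 293)))) (XT.nd (nat_lit 78) (nat_lit 684) (nat_lit 0) (XT.lf (nat_lit 0) (nat_lit 2863005134) (nat_lit 456) (nat_lit 3238840316) (nat_lit 76) (nat_lit 5948337218) (nat_lit 138) (nat_lit 5) (nat_lit 144) (nat_lit 5) (nat_lit 139) (nat_lit 5) (nat_lit 471) (nat_lit 377) (nat_lit 292)) (XT.nd (nat_lit 78) (nat_lit 304) (nat_lit 0) (XT.lf (nat_lit 0) (nat_lit 4487637920) (nat_lit 380) (nat_lit 1812497714) (nat_lit 456) (nat_lit 5890673092) (nat_lit 133) (nat_lit 5) (nat_lit 138) (nat_lit 5) (nat_lit 139) (nat_lit 5) (nat_lit 472) (nat_lit 377) (nat_lit 291)) (XT.lf (nat_lit 0) (nat_lit 20818104) (nat_lit 304) (nat_lit 9797031022) (nat_lit 380) (nat_lit 2516165637) (nat_lit 129) (nat_lit 5) (nat_lit 133) (nat_lit 5) (nat_lit 134) (nat_lit 5) (nat_lit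 473) (nat_lit 377) (nat_lit 290)))))) (XT.nd (nat_lit 468) (nat_lit 1368) (nat_lit 0) (XT.nd (nat_lit 234) (nat_lit 760) (nat_lit 0) (XT.nd (nat_lit 78) (nat_lit 380) (nat_lit 0) (XT.lf (nat_lit 0) (nat_lit 950994745) (nat_lit 380) (nat_lit 4535198544) (nat_lit 76) (nat_lit 6993029409) (nat_lit 128) (nat_lit 5) (nat_lit 133) (nat_lit 5) (nat_lit 129) (nat_lit 5) (nat_lit 474) (nat_lit 377) (nat_lit 289)) (XT.nd (nat_lit 78) (nat_lit 0) (nat_lit 0) (XT.lf (nat_lit 0) (nat_lit 3385414125) (nat_lit 380) (nat_lit 1064196044) (nat_lit 456) (nat_lit 8177479938) (nat_lit 123) (nat_lit 5) (nat_lit 128) (nat_lit 5) (nat_lit 129) (nat_lit 5) (nat_lit 475) (nat_lit 377) (nat_lit 288)) (XT.lf (nat_lit 0) (nat_lit 8045157369) (nat_lit 456) (nat_lit 1314812109) (nat_lit 76) (nat_lit 3417410137) (nat_lit 123) (nat_lit 5) (nat_lit 129) (nat_lit 5) (nat_lit 124) (nat_lit 5) (nat_lit 476) (nat_lit 377) (nat_lit 287)))) (XT.nd (nat_lit 78) (nat_lit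 456) (nat_lit 0) (XT.lf (nat_lit 0) (nat_lit 6812850056) (nat_lit 304) (nat_lit 4925506526) (nat_lit 380) (nat_lit 1191807377) (nat_lit 119) (nat_lit 5) (nat_lit 123) (nat_lit 5) (nat_lit 124) (nat_lit 5) (nat_lit 477) (nat_lit 377) (nat_lit 286)) (XT.nd (nat_lit 78) (nat_lit 0) (nat_lit 0) (XT.lf (nat_lit 0) (nat_lit 2005474007) (nat_lit 380) (nat_lit 378644198) (nat_lit 456) (nat_lit 10701646659) (nat_lit 113) (nat_lit 5) (nat_lit 118) (nat_lit 5) (nat_lit 119) (nat_lit 5) (nat_lit 478) (nat_lit 377) (nat_lit 285)) (XT.lf (nat_lit 0) (nat_lit 6059271163) (nat_lit 456) (nat_lit 2946106272) (nat_lit 76) (nat_lit 4238073094) (nat_lit 113) (nat_lit 5) (nat_lit 119) (nat_lit 5) (nat_lit 114) (nat_lit 5) (nat_lit 479) (nat_lit 377) (nat_lit 284))))) (XT.nd (nat_lit 234) (nat_lit 684) (nat_lit 0) (XT.nd (nat_lit 78) (nat_lit 380) (nat_lit 0) (XT.lf (nat_lit 0) (nat_lit 5379323769) (nat_lit 304) (nat_lit 4441210391) (nat_lit 380)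 (nat_lit 3583507178) (nat_lit 109) (nat_lit 5) (nat_lit 113) (nat_lit 5) (nat_lit 114) (nat_lit 5) (nat_lit 480) (nat_lit 377) (nat_lit 283)) (XT.nd (nat_lit 78) (nat_lit 0) (nat_lit 0) (XT.lf (nat_lit 0) (nat_lit 86589194) (nat_lit 380) (nat_lit 13261818762) (nat_lit 76) (nat_lit 219456252) (nat_lit 104) (nat_lit 5) (nat_lit 109) (nat_lit 5) (nat_lit 105) (nat_lit 5) (nat_lit 481) (nat_lit 377) (nat_lit 282)) (XT.lf (nat_lit 0) (nat_lit 3841141488) (nat_lit 380) (nat_lit 4914878196) (nat_lit 76) (nat_lit 4977292733) (nat_lit 104) (nat_lit 5) (nat_lit 109) (nat_lit 5) (nat_lit 105) (nat_lit 5) (nat_lit 482) (nat_lit 377) (nat_lit 281)))) (XT.nd (nat_lit 78) (nat_lit 380) (nat_lit 0) (XT.lf (nat_lit 0) (nat_lit 3607399046) (nat_lit 304) (nat_lit 4062663888) (nat_lit 380) (nat_lit 6232024390) (nat_lit 100) (nat_lit 5) (nat_lit 104) (nat_lit 5) (nat_lit 105) (nat_lit 5) (nat_lit 483) (nat_lit 377) (nat_lit 280)) (XT.nd (nat_lit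 78) (nat_lit 380) (nat_lit 0) (XT.lf (nat_lit 0) (nat_lit 11589450179) (nat_lit 380) (nat_lit 1750800324) (nat_lit 76) (nat_lit 733712715) (nat_lit 100) (nat_lit 5) (nat_lit 105) (nat_lit 5) (nat_lit 101) (nat_lit 5) (nat_lit 484) (nat_lit 377) (nat_lit 279)) (XT.lf (nat_lit 0) (nat_lit 1369466705) (nat_lit 380) (nat_lit 7266851236) (nat_lit 76) (nat_lit 5611806746) (nat_lit 95) (nat_lit 5) (nat_lit 100) (nat_lit 5) (nat_lit 96) (nat_lit 5) (nat_lit 485) (nat_lit 377) (nat_lit 278))))))))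
noncomputable def xc84 : XT := (XT.nd (nat_lit 51558) (nat_lit 0) (nat_lit 40584) (XT.nd (nat_lit 858) (nat_lit 1216) (nat_lit 0) (XT.nd (nat_lit 390) (nat_lit 1140) (nat_lit 0) (XT.nd (nat_lit 156) (nat_lit 608) (nat_lit 0) (XT.nd (nat_lit 78) (nat_lit 0) (nat_lit 0) (XT.lf (nat_lit 0) (nat_lit 1450335133) (nat_lit 228) (nat_lit 3814708857) (nat_lit 304) (nat_lit 9160444280) (nat_lit 92) (nat_lit 5) (nat_lit 95) (nat_lit 5) (nat_lit 96) (nat_lit 5) (nat_lit 486) (nat_lit 377) (nat_lit 277)) (XT.lf (nat_lit 0) (nat_lit 9271412148) (nat_lit 304) (nat_lit 4211002688) (nat_lit 76) (nat_lit 1123329689) (nat_lit 92) (nat_lit 5) (nat_lit 96) (nat_lit 5) (nat_lit 93) (nat_lit 5) (nat_lit 487) (nat_lit 377) (nat_lit 276))) (XT.nd (nat_lit 78) (nat_lit 304) (nat_lit 0) (XT.lf (nat_lit 0) (nat_lit 4727461805) (nat_lit 304) (nat_lit 8663489339) (nat_lit 380) (nat_lit 1397996820) (nat_lit 88) (nat_lit 5) (nat_lit 92) (nat_lit 5) (nat_lit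 93) (nat_lit 5) (nat_lit 488) (nat_lit 377) (nat_lit 275)) (XT.nd (nat_lit 78) (nat_lit 228) (nat_lit 0) (XT.lf (nat_lit 0) (nat_lit 2588326891) (nat_lit 380) (nat_lit 1128418384) (nat_lit 76) (nat_lit 11258621483) (nat_lit 87) (nat_lit 5) (nat_lit 92) (nat_lit 5) (nat_lit 88) (nat_lit 5) (nat_lit 489) (nat_lit 377) (nat_lit 274)) (XT.lf (nat_lit 0) (nat_lit 6674421029) (nat_lit 304) (nat_lit 7131170120) (nat_lit 76) (nat_lit 1358965460) (nat_lit 84) (nat_lit 5) (nat_lit 88) (nat_lit 5) (nat_lit 85) (nat_lit 5) (nat_lit 490) (nat_lit 377) (nat_lit 273))))) (XT.nd (nat_lit 234) (nat_lit 532) (nat_lit 0) (XT.nd (nat_lit 78) (nat_lit 304) (nat_lit 0) (XT.lf (nat_lit 0) (nat_lit 2000786695) (nat_lit 304) (nat_lit 8864371254) (nat_lit 380) (nat_lit 4491916597) (nat_lit 80) (nat_lit 5) (nat_lit 84) (nat_lit 5) (nat_lit 85) (nat_lit 5) (nat_lit 491) (nat_lit 377) (nat_lit 272)) (XT.nd (nat_lit 78) (nat_lit 304) (nat_lit 0) (XT.lf (nat_lit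 0) (nat_lit 11375157556) (nat_lit 304) (nat_lit 3790297647) (nat_lit 380) (nat_lit 387475379) (nat_lit 80) (nat_lit 5) (nat_lit 84) (nat_lit 5) (nat_lit 85) (nat_lit 5) (nat_lit 492) (nat_lit 377) (nat_lit 271)) (XT.lf (nat_lit 0) (nat_lit 3770399166) (nat_lit 304) (nat_lit 10569989431) (nat_lit 76) (nat_lit 1411400975) (nat_lit 76) (nat_lit 5) (nat_lit 80) (nat_lit 5) (nat_lit 77) (nat_lit 5) (nat_lit 493) (nat_lit 377) (nat_lit 270)))) (XT.nd (nat_lit 78) (nat_lit 532) (nat_lit 0) (XT.lf (nat_lit 0) (nat_lit 8037846830) (nat_lit 304) (nat_lit 1233282140) (nat_lit 76) (nat_lit 6682815971) (nat_lit 76) (nat_lit 5) (nat_lit 80) (nat_lit 5) (nat_lit 77) (nat_lit 5) (nat_lit 494) (nat_lit 377) (nat_lit 269)) (XT.nd (nat_lit 78) (nat_lit 304) (nat_lit 0) (XT.lf (nat_lit 0) (nat_lit 8364012024) (nat_lit 228) (nat_lit 4059639121) (nat_lit 304) (nat_lit 3735834567) (nat_lit 73) (nat_lit 5) (nat_lit 76) (nat_lit 5) (nat_lit 77) (nat_lit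 5) (nat_lit 495) (nat_lit 377) (nat_lit 268)) (XT.lf (nat_lit 0) (nat_lit 527991489) (nat_lit 304) (nat_lit 14592278767) (nat_lit 76) (nat_lit 1248663181) (nat_lit 69) (nat_lit 5) (nat_lit 73) (nat_lit 5) (nat_lit 70) (nat_lit 5) (nat_lit 496) (nat_lit 377) (nat_lit 267)))))) (XT.nd (nat_lit 390) (nat_lit 456) (nat_lit 0) (XT.nd (nat_lit 156) (nat_lit 532) (nat_lit 0) (XT.nd (nat_lit 78) (nat_lit 228) (nat_lit 0) (XT.lf (nat_lit 0) (nat_lit 4885498915) (nat_lit 304) (nat_lit 5023585272) (nat_lit 76) (nat_lit 6671825809) (nat_lit 69) (nat_lit 5) (nat_lit 73) (nat_lit 5) (nat_lit 70) (nat_lit 5) (nat_lit 497) (nat_lit 377) (nat_lit 266)) (XT.lf (nat_lit 0) (nat_lit 4763679592) (nat_lit 228) (nat_lit 4576658530) (nat_lit 304) (nat_lit 7456586596) (nat_lit 66) (nat_lit 5) (nat_lit 69) (nat_lit 5) (nat_lit 70) (nat_lit 5) (nat_lit 498) (nat_lit 377) (nat_lit 265))) (XT.nd (nat_lit 78) (nat_lit 532) (nat_lit 0) (XT.lf (nat_lit 0)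 (nat_lit 13903145561) (nat_lit 304) (nat_lit 2242988858) (nat_lit 76) (nat_lit 870750104) (nat_lit 66) (nat_lit 5) (nat_lit 70) (nat_lit 5) (nat_lit 67) (nat_lit 5) (nat_lit 499) (nat_lit 377) (nat_lit 264)) (XT.nd (nat_lit 78) (nat_lit 228) (nat_lit 0) (XT.lf (nat_lit 0) (nat_lit 1359671258) (nat_lit 304) (nat_lit 9468851302) (nat_lit 76) (nat_lit 6411332921) (nat_lit 62) (nat_lit 5) (nat_lit 66) (nat_lit 5) (nat_lit 63) (nat_lit 5) (nat_lit 500) (nat_lit 377) (nat_lit 263)) (XT.lf (nat_lit 0) (nat_lit 499815556) (nat_lit 228) (nat_lit 5379258094) (nat_lit 304) (nat_lit 11587838325) (nat_lit 59) (nat_lit 5) (nat_lit 62) (nat_lit 5) (nat_lit 63) (nat_lit 5) (nat_lit 501) (nat_lit 377) (nat_lit 262))))) (XT.nd (nat_lit 234) (nat_lit 228) (nat_lit 0) (XT.nd (nat_lit 78) (nat_lit 228) (nat_lit 0) (XT.lf (nat_lit 0) (nat_lit 10533848272) (nat_lit 304) (nat_lit 6937409707) (nat_lit 76) (nat_lit 226353986) (nat_lit 59) (nat_lit 5)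 (nat_lit 63) (nat_lit 5) (nat_lit 60) (nat_lit 5) (nat_lit 502) (nat_lit 377) (nat_lit 261)) (XT.nd (nat_lit 78) (nat_lit 76) (nat_lit 0) (XT.lf (nat_lit 0) (nat_lit 3265966011) (nat_lit 152) (nat_lit 12052836587) (nat_lit 228) (nat_lit 2613383684) (nat_lit 57) (nat_lit 5) (nat_lit 59) (nat_lit 5) (nat_lit 60) (nat_lit 5) (nat_lit 503) (nat_lit 377) (nat_lit 260)) (XT.lf (nat_lit 0) (nat_lit 2028558949) (nat_lit 228) (nat_lit 4450702459) (nat_lit 76) (nat_lit 11691386213) (nat_lit 56) (nat_lit 5) (nat_lit 59) (nat_lit 5) (nat_lit 57) (nat_lit 5) (nat_lit 504) (nat_lit 377) (nat_lit 259)))) (XT.nd (nat_lit 49920) (nat_lit 0) (nat_lit 50236) (XT.lf (nat_lit 0) (nat_lit 5996986108) (nat_lit 228) (nat_lit 751007388) (nat_lit 304) (nat_lit 11665148171) (nat_lit 53) (nat_lit 5) (nat_lit 56) (nat_lit 5) (nat_lit 57) (nat_lit 5) (nat_lit 505) (nat_lit 377) (nat_lit 258)) (XT.nd (nat_lit 78) (nat_lit 0) (nat_lit 0) (XT.lf (nat_lit 0)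 (nat_lit 5152595) (nat_lit 228) (nat_lit 3214779921) (nat_lit 0) (nat_lit 5152595) (nat_lit 714) (nat_lit 5) (nat_lit 717) (nat_lit 4) (nat_lit 714) (nat_lit 4) (nat_lit 384) (nat_lit 378) (nat_lit 378)) (XT.lf (nat_lit 0) (nat_lit 3130151365) (nat_lit 228) (nat_lit 3089716465) (nat_lit 0) (nat_lit 234586636) (nat_lit 714) (nat_lit 5) (nat_lit 717) (nat_lit 4) (nat_lit 714) (nat_lit 4) (nat_lit 385) (nat_lit 378) (nat_lit 377))))))) (XT.nd (nat_lit 858) (nat_lit 6764) (nat_lit 0) (XT.nd (nat_lit 390) (nat_lit 1824) (nat_lit 0) (XT.nd (nat_lit 156) (nat_lit 760) (nat_lit 0) (XT.nd (nat_lit 78) (nat_lit 76) (nat_lit 0) (XT.lf (nat_lit 0) (nat_lit 275345108) (nat_lit 228) (nat_lit 5959711082) (nat_lit 228) (nat_lit 225357402) (nat_lit 711) (nat_lit 4) (nat_lit 714) (nat_lit 5) (nat_lit 714) (nat_lit 4) (nat_lit 386) (nat_lit 378) (nat_lit 376)) (XT.lf (nat_lit 0) (nat_lit 2839514947) (nat_lit 304) (nat_lit 2781659906) (nat_lit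 76) (nat_lit 846127674) (nat_lit 710) (nat_lit 5) (nat_lit 714) (nat_lit 5) (nat_lit 711) (nat_lit 4) (nat_lit 387) (nat_lit 378) (nat_lit 375))) (XT.nd (nat_lit 78) (nat_lit 456) (nat_lit 0) (XT.lf (nat_lit 0) (nat_lit 651798798) (nat_lit 304) (nat_lit 5238218139) (nat_lit 380) (nat_lit 585775503) (nat_lit 706) (nat_lit 5) (nat_lit 710) (nat_lit 5) (nat_lit 711) (nat_lit 4) (nat_lit 388) (nat_lit 378) (nat_lit 374)) (XT.nd (nat_lit 78) (nat_lit 380) (nat_lit 0) (XT.lf (nat_lit 0) (nat_lit 2426646940) (nat_lit 380) (nat_lit 2354740894) (nat_lit 76) (nat_lit 1703924259) (nat_lit 705) (nat_lit 5) (nat_lit 710) (nat_lit 5) (nat_lit 706) (nat_lit 5) (nat_lit 389) (nat_lit 378) (nat_lit 373)) (XT.lf (nat_lit 0) (nat_lit 1150172190) (nat_lit 380) (nat_lit 4274063414) (nat_lit 456) (nat_lit 1072091548) (nat_lit 700) (nat_lit 5) (nat_lit 705) (nat_lit 5) (nat_lit 706) (nat_lit 5) (nat_lit 390) (nat_lit 378) (nat_lit 372))))) (XT.nd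 (nat_lit 234) (nat_lit 1216) (nat_lit 0) (XT.nd (nat_lit 78) (nat_lit 532) (nat_lit 0) (XT.lf (nat_lit 0) (nat_lit 1890165565) (nat_lit 456) (nat_lit 1808721357) (nat_lit 76) (nat_lit 2809618566) (nat_lit 699) (nat_lit 5) (nat_lit 705) (nat_lit 5) (nat_lit 700) (nat_lit 5) (nat_lit 391) (nat_lit 378) (nat_lit 371)) (XT.nd (nat_lit 78) (nat_lit 76) (nat_lit 0) (XT.lf (nat_lit 0) (nat_lit 1770825879) (nat_lit 456) (nat_lit 3065387632) (nat_lit 532) (nat_lit 1685829633) (nat_lit 693) (nat_lit 5) (nat_lit 699) (nat_lit 5) (nat_lit 700) (nat_lit 5) (nat_lit 392) (nat_lit 378) (nat_lit 370)) (XT.lf (nat_lit 0) (nat_lit 1228446593) (nat_lit 532) (nat_lit 1143138567) (nat_lit 76) (nat_lit 4165326312) (nat_lit 692) (nat_lit 5) (nat_lit 699) (nat_lit 5) (nat_lit 693) (nat_lit 5) (nat_lit 393) (nat_lit 378) (nat_lit 369)))) (XT.nd (nat_lit 78) (nat_lit 684) (nat_lit 0) (XT.lf (nat_lit 0) (nat_lit 2514348637) (nat_lit 532) (nat_lit 1609861317)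 (nat_lit 608) (nat_lit 2428762307) (nat_lit 685) (nat_lit 5) (nat_lit 692) (nat_lit 5) (nat_lit 693) (nat_lit 5) (nat_lit 394) (nat_lit 378) (nat_lit 368)) (XT.nd (nat_lit 78) (nat_lit 608) (nat_lit 0) (XT.lf (nat_lit 0) (nat_lit 439619446) (nat_lit 608) (nat_lit 357305822) (nat_lit 76) (nat_lit 5773640030) (nat_lit 684) (nat_lit 5) (nat_lit 692) (nat_lit 5) (nat_lit 685) (nat_lit 5) (nat_lit 395) (nat_lit 378) (nat_lit 367)) (XT.lf (nat_lit 0) (nat_lit 3286856982) (nat_lit 684) (nat_lit 3208214792) (nat_lit 76) (nat_lit 94068681) (nat_lit 676) (nat_lit 5) (nat_lit 685) (nat_lit 5) (nat_lit 677) (nat_lit 5) (nat_lit 396) (nat_lit 378) (nat_lit 366)))))) (XT.nd (nat_lit 468) (nat_lit 4256) (nat_lit 0) (XT.nd (nat_lit 234) (nat_lit 988) (nat_lit 0) (XT.nd (nat_lit 78) (nat_lit 836) (nat_lit 0) (XT.lf (nat_lit 0) (nat_lit 547017726) (nat_lit 684) (nat_lit 5587880505) (nat_lit 760) (nat_lit 474342615) (nat_lit 667) (nat_lit 5) (nat_lit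 676) (nat_lit 5) (nat_lit 677) (nat_lit 5) (nat_lit 397) (nat_lit 378) (nat_lit 365)) (XT.nd (nat_lit 78) (nat_lit 760) (nat_lit 0) (XT.lf (nat_lit 0) (nat_lit 2333392773) (nat_lit 760) (nat_lit 2270467328) (nat_lit 76) (nat_lit 2026502980) (nat_lit 666) (nat_lit 5) (nat_lit 676) (nat_lit 5) (nat_lit 667) (nat_lit 5) (nat_lit 398) (nat_lit 378) (nat_lit 364)) (XT.lf (nat_lit 0) (nat_lit 1569262580) (nat_lit 760) (nat_lit 3566347760) (nat_lit 836) (nat_lit 1517370262) (nat_lit 656) (nat_lit 5) (nat_lit 666) (nat_lit 5) (nat_lit 667) (nat_lit 5) (nat_lit 399) (nat_lit 378) (nat_lit 363)))) (XT.nd (nat_lit 78) (nat_lit 912) (nat_lit 0) (XT.lf (nat_lit 0) (nat_lit 1250896478) (nat_lit 836) (nat_lit 1213733277) (nat_lit 76) (nat_lit 4212270428) (nat_lit 655) (nat_lit 5) (nat_lit 666) (nat_lit 5) (nat_lit 656) (nat_lit 5) (nat_lit 400) (nat_lit 378) (nat_lit 362)) (XT.nd (nat_lit 78) (nat_lit 76) (nat_lit 0) (XT.lf (nat_lit 0) (nat_lit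 2714205213) (nat_lit 836) (nat_lit 1293942490) (nat_lit 912) (nat_lit 2693898567) (nat_lit 644) (nat_lit 5) (nat_lit 655) (nat_lit 5) (nat_lit 656) (nat_lit 5) (nat_lit 401) (nat_lit 378) (nat_lit 361)) (XT.lf (nat_lit 0) (nat_lit 36641808) (nat_lit 912) (nat_lit 36598740) (nat_lit 76) (nat_lit 6655568841) (nat_lit 643) (nat_lit 5) (nat_lit 655) (nat_lit 5) (nat_lit 644) (nat_lit 5) (nat_lit 402) (nat_lit 378) (nat_lit 360))))) (XT.nd (nat_lit 234) (nat_lit 2280) (nat_lit 0) (XT.nd (nat_lit 78) (nat_lit 1064) (nat_lit 0) (XT.lf (nat_lit 0) (nat_lit 2757679592) (nat_lit 988) (nat_lit 2781108807) (nat_lit 76) (nat_lit 1217549943) (nat_lit 631) (nat_lit 5) (nat_lit 644) (nat_lit 5) (nat_lit 632) (nat_lit 5) (nat_lit 403) (nat_lit 378) (nat_lit 359)) (XT.nd (nat_lit 78) (nat_lit 76) (nat_lit 0) (XT.lf (nat_lit 0) (nat_lit 1253600965) (nat_lit 988) (nat_lit 4227494375) (nat_lit 1064) (nat_lit 1304388747) (nat_lit 618) (nat_lit 5)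 (nat_lit 631) (nat_lit 5) (nat_lit 632) (nat_lit 5) (nat_lit 404) (nat_lit 378) (nat_lit 358)) (XT.lf (nat_lit 0) (nat_lit 1383180887) (nat_lit 1064) (nat_lit 1463891158) (nat_lit 76) (nat_lit 3968810606) (nat_lit 617) (nat_lit 5) (nat_lit 631) (nat_lit 5) (nat_lit 618) (nat_lit 5) (nat_lit 405) (nat_lit 378) (nat_lit 357)))) (XT.nd (nat_lit 78) (nat_lit 1216) (nat_lit 0) (XT.lf (nat_lit 0) (nat_lit 2666442419) (nat_lit 1064) (nat_lit 1398670595) (nat_lit 1140) (nat_lit 2782466090) (nat_lit 603) (nat_lit 5) (nat_lit 617) (nat_lit 5) (nat_lit 618) (nat_lit 5) (nat_lit 406) (nat_lit 378) (nat_lit 356)) (XT.nd (nat_lit 78) (nat_lit 1216) (nat_lit 0) (XT.lf (nat_lit 0) (nat_lit 6752787352) (nat_lit 1140) (nat_lit 27392963) (nat_lit 76) (nat_lit 100710527) (nat_lit 603) (nat_lit 5) (nat_lit 618) (nat_lit 5) (nat_lit 604) (nat_lit 5) (nat_lit 407) (nat_lit 378) (nat_lit 355)) (XT.lf (nat_lit 0) (nat_lit 2524802635) (nat_lit 1216)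 (nat_lit 2721957803) (nat_lit 76) (nat_lit 1668210257) (nat_lit 587) (nat_lit 5) (nat_lit 603) (nat_lit 5) (nat_lit 588) (nat_lit 5) (nat_lit 408) (nat_lit 378) (nat_lit 354))))))))
noncomputable def xc85 : XT := (XT.nd (nat_lit 1716) (nat_lit 10336) (nat_lit 0) (XT.nd (nat_lit 858) (nat_lit 7676) (nat_lit 0) (XT.nd (nat_lit 390) (nat_lit 6384) (nat_lit 0) (XT.nd (nat_lit 156) (nat_lit 2736) (nat_lit 0) (XT.nd (nat_lit 78) (nat_lit 76) (nat_lit 0) (XT.lf (nat_lit 0) (nat_lit 1521678592) (nat_lit 1216) (nat_lit 3660718937) (nat_lit 1292) (nat_lit 1768272837) (nat_lit 571) (nat_lit 5) (nat_lit 587) (nat_lit 5) (nat_lit 588) (nat_lit 5) (nat_lit 409) (nat_lit 378) (nat_lit 353)) (XT.lf (nat_lit 0) (nat_lit 856267981) (nat_lit 1292) (nat_lit 1152003877) (nat_lit 76) (nat_lit 4979473920) (nat_lit 570) (nat_lit 5) (nat_lit 587) (nat_lit 5) (nat_lit 571) (nat_lit 5) (nat_lit 410) (nat_lit 378) (nat_lit 352))) (XT.nd (nat_lit 78) (nat_lit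 1444) (nat_lit 0) (XT.lf (nat_lit 0) (nat_lit 3195262926) (nat_lit 1292) (nat_lit 279935358) (nat_lit 1368) (nat_lit 3550839933) (nat_lit 553) (nat_lit 5) (nat_lit 570) (nat_lit 5) (nat_lit 571) (nat_lit 5) (nat_lit 411) (nat_lit 378) (nat_lit 351)) (XT.nd (nat_lit 78) (nat_lit 76) (nat_lit 0) (XT.lf (nat_lit 0) (nat_lit 531108559) (nat_lit 1368) (nat_lit 5581914073) (nat_lit 1444) (nat_lit 952763958) (nat_lit 535) (nat_lit 5) (nat_lit 553) (nat_lit 5) (nat_lit 554) (nat_lit 5) (nat_lit 412) (nat_lit 378) (nat_lit 350)) (XT.lf (nat_lit 0) (nat_lit 1648793301) (nat_lit 1444) (nat_lit 2133460597) (nat_lit 76) (nat_lit 3324399641) (nat_lit 534) (nat_lit 5) (nat_lit 553) (nat_lit 5) (nat_lit 535) (nat_lit 5) (nat_lit 413) (nat_lit 378) (nat_lit 349))))) (XT.nd (nat_lit 234) (nat_lit 3344) (nat_lit 0) (XT.nd (nat_lit 78) (nat_lit 1596) (nat_lit 0) (XT.lf (nat_lit 0) (nat_lit 2334244240) (nat_lit 1444) (nat_lit 1917654378) (nat_lit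 1520) (nat_lit 2897086982) (nat_lit 515) (nat_lit 5) (nat_lit 534) (nat_lit 5) (nat_lit 535) (nat_lit 5) (nat_lit 414) (nat_lit 378) (nat_lit 348)) (XT.nd (nat_lit 78) (nat_lit 1596) (nat_lit 0) (XT.lf (nat_lit 0) (nat_lit 6869266562) (nat_lit 1520) (nat_lit 318292139) (nat_lit 76) (nat_lit 5380432) (nat_lit 515) (nat_lit 5) (nat_lit 535) (nat_lit 5) (nat_lit 516) (nat_lit 5) (nat_lit 415) (nat_lit 378) (nat_lit 347)) (XT.lf (nat_lit 0) (nat_lit 2260248254) (nat_lit 1596) (nat_lit 2987273513) (nat_lit 76) (nat_lit 1990184881) (nat_lit 494) (nat_lit 5) (nat_lit 515) (nat_lit 5) (nat_lit 495) (nat_lit 5) (nat_lit 416) (nat_lit 378) (nat_lit 346)))) (XT.nd (nat_lit 78) (nat_lit 1748) (nat_lit 0) (XT.lf (nat_lit 0) (nat_lit 1604282442) (nat_lit 1596) (nat_lit 3249069626) (nat_lit 1672) (nat_lit 2430755639) (nat_lit 473) (nat_lit 5) (nat_lit 494) (nat_lit 5) (nat_lit 495) (nat_lit 5) (nat_lit 417) (nat_lit 378) (nat_lit 345)) (XT.nd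 (nat_lit 78) (nat_lit 1672) (nat_lit 0) (XT.lf (nat_lit 0) (nat_lit 134488533) (nat_lit 1672) (nat_lit 1050593520) (nat_lit 76) (nat_lit 6146954209) (nat_lit 472) (nat_lit 5) (nat_lit 494) (nat_lit 5) (nat_lit 473) (nat_lit 5) (nat_lit 418) (nat_lit 378) (nat_lit 344)) (XT.lf (nat_lit 0) (nat_lit 2699135142) (nat_lit 1748) (nat_lit 3729892550) (nat_lit 76) (nat_lit 951978171) (nat_lit 450) (nat_lit 5) (nat_lit 473) (nat_lit 5) (nat_lit 451) (nat_lit 5) (nat_lit 419) (nat_lit 378) (nat_lit 343)))))) (XT.nd (nat_lit 390) (nat_lit 3572) (nat_lit 0) (XT.nd (nat_lit 156) (nat_lit 2280) (nat_lit 0) (XT.nd (nat_lit 78) (nat_lit 76) (nat_lit 0) (XT.lf (nat_lit 0) (nat_lit 989052723) (nat_lit 1748) (nat_lit 4298690221) (nat_lit 1824) (nat_lit 2143774950) (nat_lit 427) (nat_lit 5) (nat_lit 450) (nat_lit 5) (nat_lit 451) (nat_lit 5) (nat_lit 420) (nat_lit 378) (nat_lit 342)) (XT.lf (nat_lit 0) (nat_lit 416064592) (nat_lit 1824) (nat_lit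 1679318010) (nat_lit 76) (nat_lit 5388079149) (nat_lit 426) (nat_lit 5) (nat_lit 450) (nat_lit 5) (nat_lit 427) (nat_lit 5) (nat_lit 421) (nat_lit 378) (nat_lit 341))) (XT.nd (nat_lit 78) (nat_lit 988) (nat_lit 0) (XT.lf (nat_lit 0) (nat_lit 2972743458) (nat_lit 1368) (nat_lit 4377339624) (nat_lit 76) (nat_lit 186606498) (nat_lit 409) (nat_lit 5) (nat_lit 427) (nat_lit 5) (nat_lit 410) (nat_lit 5) (nat_lit 422) (nat_lit 378) (nat_lit 340)) (XT.nd (nat_lit 78) (nat_lit 76) (nat_lit 0) (XT.lf (nat_lit 0) (nat_lit 472642346) (nat_lit 912) (nat_lit 5089418814) (nat_lit 988) (nat_lit 2029305853) (nat_lit 397) (nat_lit 5) (nat_lit 409) (nat_lit 5) (nat_lit 410) (nat_lit 5) (nat_lit 423) (nat_lit 378) (nat_lit 339)) (XT.lf (nat_lit 0) (nat_lit 531817351) (nat_lit 988) (nat_lit 2218125654) (nat_lit 76) (nat_lit 4897475703) (nat_lit 396) (nat_lit 5) (nat_lit 409) (nat_lit 5) (nat_lit 397) (nat_lit 5) (nat_lit 424) (nat_lit 378) (nat_lit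 338))))) (XT.nd (nat_lit 234) (nat_lit 1748) (nat_lit 0) (XT.nd (nat_lit 78) (nat_lit 988) (nat_lit 0) (XT.lf (nat_lit 0) (nat_lit 2757395793) (nat_lit 836) (nat_lit 331948302) (nat_lit 912) (nat_lit 4615546275) (nat_lit 385) (nat_lit 5) (nat_lit 396) (nat_lit 5) (nat_lit 397) (nat_lit 5) (nat_lit 425) (nat_lit 378) (nat_lit 337)) (XT.nd (nat_lit 78) (nat_lit 76) (nat_lit 0) (XT.lf (nat_lit 0) (nat_lit 39418784) (nat_lit 912) (nat_lit 5642719752) (nat_lit 988) (nat_lit 2081704587) (nat_lit 373) (nat_lit 5) (nat_lit 385) (nat_lit 5) (nat_lit 386) (nat_lit 5) (nat_lit 426) (nat_lit 378) (nat_lit 336)) (XT.lf (nat_lit 0) (nat_lit 487132787) (nat_lit 988) (nat_lit 2682583692) (nat_lit 76) (nat_lit 4654388347) (nat_lit 372) (nat_lit 5) (nat_lit 385) (nat_lit 5) (nat_lit 373) (nat_lit 5) (nat_lit 427) (nat_lit 378) (nat_lit 335)))) (XT.nd (nat_lit 78) (nat_lit 912) (nat_lit 0) (XT.lf (nat_lit 0) (nat_lit 2432400218) (nat_lit 836)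 (nat_lit 619062901) (nat_lit 912) (nat_lit 4834406830) (nat_lit 361) (nat_lit 5) (nat_lit 372) (nat_lit 5) (nat_lit 373) (nat_lit 5) (nat_lit 428) (nat_lit 378) (nat_lit 334)) (XT.nd (nat_lit 78) (nat_lit 912) (nat_lit 0) (XT.lf (nat_lit 0) (nat_lit 5654793982) (nat_lit 912) (nat_lit 321826087) (nat_lit 76) (nat_lit 1972508960) (nat_lit 361) (nat_lit 5) (nat_lit 373) (nat_lit 5) (nat_lit 362) (nat_lit 5) (nat_lit 429) (nat_lit 378) (nat_lit 333)) (XT.lf (nat_lit 0) (nat_lit 286256369) (nat_lit 912) (nat_lit 3088161936) (nat_lit 76) (nat_lit 4639336761) (nat_lit 349) (nat_lit 5) (nat_lit 361) (nat_lit 5) (nat_lit 350) (nat_lit 5) (nat_lit 430) (nat_lit 378) (nat_lit 332))))))) (XT.nd (nat_lit 858) (nat_lit 5016) (nat_lit 0) (XT.nd (nat_lit 390) (nat_lit 2964) (nat_lit 0) (XT.nd (nat_lit 156) (nat_lit 1596) (nat_lit 0) (XT.nd (nat_lit 78) (nat_lit 0) (nat_lit 0) (XT.lf (nat_lit 0) (nat_lit 2170211362) (nat_lit 760) (nat_lit 691638642)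 (nat_lit 836) (nat_lit 5218050267) (nat_lit 339) (nat_lit 5) (nat_lit 349) (nat_lit 5) (nat_lit 350) (nat_lit 5) (nat_lit 431) (nat_lit 378) (nat_lit 331)) (XT.lf (nat_lit 0) (nat_lit 5481418084) (nat_lit 836) (nat_lit 631009341) (nat_lit 76) (nat_lit 2035103651) (nat_lit 339) (nat_lit 5) (nat_lit 350) (nat_lit 5) (nat_lit 340) (nat_lit 5) (nat_lit 432) (nat_lit 378) (nat_lit 330))) (XT.nd (nat_lit 78) (nat_lit 836) (nat_lit 0) (XT.lf (nat_lit 0) (nat_lit 4765819995) (nat_lit 760) (nat_lit 3382223885) (nat_lit 836) (nat_lit 68589004) (nat_lit 329) (nat_lit 5) (nat_lit 339) (nat_lit 5) (nat_lit 340) (nat_lit 5) (nat_lit 433) (nat_lit 378) (nat_lit 329)) (XT.nd (nat_lit 78) (nat_lit 0) (nat_lit 0) (XT.lf (nat_lit 0) (nat_lit 1955366649) (nat_lit 760) (nat_lit 568001207) (nat_lit 836) (nat_lit 5763898371) (nat_lit 318) (nat_lit 5) (nat_lit 328) (nat_lit 5) (nat_lit 329) (nat_lit 5) (nat_lit 434) (nat_lit 378) (nat_lit 328)) (XT.lf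 (nat_lit 0) (nat_lit 5164347886) (nat_lit 836) (nat_lit 904040386) (nat_lit 76) (nat_lit 2290963886) (nat_lit 318) (nat_lit 5) (nat_lit 329) (nat_lit 5) (nat_lit 319) (nat_lit 5) (nat_lit 435) (nat_lit 378) (nat_lit 327))))) (XT.nd (nat_lit 234) (nat_lit 1444) (nat_lit 0) (XT.nd (nat_lit 78) (nat_lit 760) (nat_lit 0) (XT.lf (nat_lit 0) (nat_lit 4644348645) (nat_lit 760) (nat_lit 3208344127) (nat_lit 836) (nat_lit 580306953) (nat_lit 308) (nat_lit 5) (nat_lit 318) (nat_lit 5) (nat_lit 319) (nat_lit 5) (nat_lit 436) (nat_lit 378) (nat_lit 326)) (XT.nd (nat_lit 78) (nat_lit 0) (nat_lit 0) (XT.lf (nat_lit 0) (nat_lit 1772204734) (nat_lit 684) (nat_lit 265567458) (nat_lit 760) (nat_lit 6470518387) (nat_lit 298) (nat_lit 5) (nat_lit 307) (nat_lit 5) (nat_lit 308) (nat_lit 5) (nat_lit 437) (nat_lit 378) (nat_lit 325)) (XT.lf (nat_lit 0) (nat_lit 4705081628) (nat_lit 760) (nat_lit 1156574902) (nat_lit 76) (nat_lit 2723271421) (nat_lit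 298) (nat_lit 5) (nat_lit 308) (nat_lit 5) (nat_lit 299) (nat_lit 5) (nat_lit 438) (nat_lit 378) (nat_lit 324)))) (XT.nd (nat_lit 78) (nat_lit 760) (nat_lit 0) (XT.lf (nat_lit 0) (nat_lit 4547453153) (nat_lit 684) (nat_lit 2871602409) (nat_lit 760) (nat_lit 1244186139) (nat_lit 289) (nat_lit 5) (nat_lit 298) (nat_lit 5) (nat_lit 299) (nat_lit 5) (nat_lit 439) (nat_lit 378) (nat_lit 323)) (XT.nd (nat_lit 78) (nat_lit 0) (nat_lit 0) (XT.lf (nat_lit 0) (nat_lit 1407000997) (nat_lit 760) (nat_lit 7139906383) (nat_lit 76) (nat_lit 196401334) (nat_lit 279) (nat_lit 5) (nat_lit 289) (nat_lit 5) (nat_lit 280) (nat_lit 5) (nat_lit 440) (nat_lit 378) (nat_lit 322)) (XT.lf (nat_lit 0) (nat_lit 4104018101) (nat_lit 760) (nat_lit 1404677273) (nat_lit 76) (nat_lit 3315937313) (nat_lit 279) (nat_lit 5) (nat_lit 289) (nat_lit 5) (nat_lit 280) (nat_lit 5) (nat_lit 441) (nat_lit 378) (nat_lit 321)))))) (XT.nd (nat_lit 468) (nat_lit 2356) (nat_lit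 0) (XT.nd (nat_lit 234) (nat_lit 1292) (nat_lit 0) (XT.nd (nat_lit 78) (nat_lit 684) (nat_lit 0) (XT.lf (nat_lit 0) (nat_lit 4459050978) (nat_lit 684) (nat_lit 2388239464) (nat_lit 760) (nat_lit 2060455637) (nat_lit 270) (nat_lit 5) (nat_lit 279) (nat_lit 5) (nat_lit 280) (nat_lit 5) (nat_lit 442) (nat_lit 378) (nat_lit 320)) (XT.nd (nat_lit 78) (nat_lit 0) (nat_lit 0) (XT.lf (nat_lit 0) (nat_lit 631960563) (nat_lit 684) (nat_lit 7561643222) (nat_lit 76) (nat_lit 799089708) (nat_lit 261) (nat_lit 5) (nat_lit 270) (nat_lit 5) (nat_lit 262) (nat_lit 5) (nat_lit 443) (nat_lit 378) (nat_lit 319)) (XT.lf (nat_lit 0) (nat_lit 3360443220) (nat_lit 684) (nat_lit 1664972720) (nat_lit 76) (nat_lit 4053464073) (nat_lit 261) (nat_lit 5) (nat_lit 270) (nat_lit 5) (nat_lit 262) (nat_lit 5) (nat_lit 444) (nat_lit 378) (nat_lit 318)))) (XT.nd (nat_lit 78) (nat_lit 684) (nat_lit 0) (XT.lf (nat_lit 0) (nat_lit 4362468839) (nat_lit 608) (nat_lit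 1773973182) (nat_lit 684) (nat_lit 3030497847) (nat_lit 253) (nat_lit 5) (nat_lit 261) (nat_lit 5) (nat_lit 262) (nat_lit 5) (nat_lit 445) (nat_lit 378) (nat_lit 317)) (XT.nd (nat_lit 78) (nat_lit 76) (nat_lit 0) (XT.lf (nat_lit 0) (nat_lit 1237903778) (nat_lit 608) (nat_lit 7724326791) (nat_lit 684) (nat_lit 294653320) (nat_lit 245) (nat_lit 5) (nat_lit 253) (nat_lit 5) (nat_lit 254) (nat_lit 5) (nat_lit 446) (nat_lit 378) (nat_lit 316)) (XT.lf (nat_lit 0) (nat_lit 2472507624) (nat_lit 684) (nat_lit 1954807472) (nat_lit 76) (nat_lit 4920808957) (nat_lit 244) (nat_lit 5) (nat_lit 253) (nat_lit 5) (nat_lit 245) (nat_lit 5) (nat_lit 447) (nat_lit 378) (nat_lit 315))))) (XT.nd (nat_lit 234) (nat_lit 1140) (nat_lit 0) (XT.nd (nat_lit 78) (nat_lit 608) (nat_lit 0) (XT.lf (nat_lit 0) (nat_lit 4240279226) (nat_lit 608) (nat_lit 1044136841) (nat_lit 684) (nat_lit 4156874890) (nat_lit 236) (nat_lit 5) (nat_lit 244) (nat_lit 5) (nat_lit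 245) (nat_lit 5) (nat_lit 448) (nat_lit 378) (nat_lit 314)) (XT.nd (nat_lit 78) (nat_lit 76) (nat_lit 0) (XT.lf (nat_lit 0) (nat_lit 1002786122) (nat_lit 532) (nat_lit 7151254938) (nat_lit 608) (nat_lit 1382258300) (nat_lit 229) (nat_lit 5) (nat_lit 236) (nat_lit 5) (nat_lit 237) (nat_lit 5) (nat_lit 449) (nat_lit 378) (nat_lit 313)) (XT.lf (nat_lit 0) (nat_lit 1437194946) (nat_lit 608) (nat_lit 2292418421) (nat_lit 76) (nat_lit 5903247320) (nat_lit 228) (nat_lit 5) (nat_lit 236) (nat_lit 5) (nat_lit 229) (nat_lit 5) (nat_lit 450) (nat_lit 378) (nat_lit 312)))) (XT.nd (nat_lit 78) (nat_lit 608) (nat_lit 0) (XT.lf (nat_lit 0) (nat_lit 4074126995) (nat_lit 532) (nat_lit 213817797) (nat_lit 608) (nat_lit 5443364678) (nat_lit 221) (nat_lit 5) (nat_lit 228) (nat_lit 5) (nat_lit 229) (nat_lit 5) (nat_lit 451) (nat_lit 378) (nat_lit 311)) (XT.nd (nat_lit 78) (nat_lit 76) (nat_lit 0) (XT.lf (nat_lit 0) (nat_lit 711031796) (nat_lit 532)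 (nat_lit 6493918688) (nat_lit 608) (nat_lit 2626599068) (nat_lit 214) (nat_lit 5) (nat_lit 221) (nat_lit 5) (nat_lit 222) (nat_lit 5) (nat_lit 452) (nat_lit 378) (nat_lit 310)) (XT.lf (nat_lit 0) (nat_lit 250280322) (nat_lit 608) (nat_lit 2697113839) (nat_lit 76) (nat_lit 6986234900) (nat_lit 213) (nat_lit 5) (nat_lit 221) (nat_lit 5) (nat_lit 214) (nat_lit 5) (nat_lit 453) (nat_lit 378) (nat_lit 309))))))))
noncomputable def xc86 : XT := (XT.nd (nat_lit 1716) (nat_lit 4484) (nat_lit 0) (XT.nd (nat_lit 858) (nat_lit 2888) (nat_lit 0) (XT.nd (nat_lit 390) (nat_lit 1976) (nat_lit 0) (XT.nd (nat_lit 156) (nat_lit 608) (nat_lit 0) (XT.nd (nat_lit 78) (nat_lit 456) (nat_lit 0) (XT.lf (nat_lit 0) (nat_lit 3147100086) (nat_lit 608) (nat_lit 6197562778) (nat_lit 76) (nat_lit 692795329) (nat_lit 206) (nat_lit 5) (nat_lit 214) (nat_lit 5) (nat_lit 207) (nat_lit 5) (nat_lit 454) (nat_lit 378) (nat_lit 308)) (XT.lf (nat_lit 0) (nat_lit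 342534266) (nat_lit 456) (nat_lit 5767579501) (nat_lit 532) (nat_lit 4033091585) (nat_lit 200) (nat_lit 5) (nat_lit 206) (nat_lit 5) (nat_lit 207) (nat_lit 5) (nat_lit 455) (nat_lit 378) (nat_lit 307))) (XT.nd (nat_lit 78) (nat_lit 608) (nat_lit 0) (XT.lf (nat_lit 0) (nat_lit 7054207056) (nat_lit 456) (nat_lit 2088405998) (nat_lit 532) (nat_lit 1108256361) (nat_lit 200) (nat_lit 5) (nat_lit 206) (nat_lit 5) (nat_lit 207) (nat_lit 5) (nat_lit 456) (nat_lit 378) (nat_lit 306)) (XT.nd (nat_lit 78) (nat_lit 0) (nat_lit 0) (XT.lf (nat_lit 0) (nat_lit 1853410699) (nat_lit 608) (nat_lit 6840818671) (nat_lit 76) (nat_lit 1666161579) (nat_lit 192) (nat_lit 5) (nat_lit 200) (nat_lit 5) (nat_lit 193) (nat_lit 5) (nat_lit 457) (nat_lit 378) (nat_lit 305)) (XT.lf (nat_lit 0) (nat_lit 4864204474) (nat_lit 608) (nat_lit 122588144) (nat_lit 76) (nat_lit 5485075221) (nat_lit 192) (nat_lit 5) (nat_lit 200) (nat_lit 5) (nat_lit 193) (nat_lit 5)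 (nat_lit 458) (nat_lit 378) (nat_lit 304))))) (XT.nd (nat_lit 234) (nat_lit 988) (nat_lit 0) (XT.nd (nat_lit 78) (nat_lit 532) (nat_lit 0) (XT.lf (nat_lit 0) (nat_lit 6776663113) (nat_lit 456) (nat_lit 1172446858) (nat_lit 532) (nat_lit 2636192351) (nat_lit 186) (nat_lit 5) (nat_lit 192) (nat_lit 5) (nat_lit 193) (nat_lit 5) (nat_lit 459) (nat_lit 378) (nat_lit 303)) (XT.nd (nat_lit 78) (nat_lit 0) (nat_lit 0) (XT.lf (nat_lit 0) (nat_lit 398290968) (nat_lit 532) (nat_lit 7608412994) (nat_lit 76) (nat_lit 2694080830) (nat_lit 179) (nat_lit 5) (nat_lit 186) (nat_lit 5) (nat_lit 180) (nat_lit 5) (nat_lit 460) (nat_lit 378) (nat_lit 302)) (XT.lf (nat_lit 0) (nat_lit 3461936643) (nat_lit 532) (nat_lit 703015188) (nat_lit 76) (nat_lit 6653206780) (nat_lit 179) (nat_lit 5) (nat_lit 186) (nat_lit 5) (nat_lit 180) (nat_lit 5) (nat_lit 461) (nat_lit 378) (nat_lit 301)))) (XT.nd (nat_lit 78) (nat_lit 532) (nat_lit 0) (XT.lf (nat_lit 0)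 (nat_lit 6382445002) (nat_lit 456) (nat_lit 216679222) (nat_lit 532) (nat_lit 4338515821) (nat_lit 173) (nat_lit 5) (nat_lit 179) (nat_lit 5) (nat_lit 180) (nat_lit 5) (nat_lit 462) (nat_lit 378) (nat_lit 300)) (XT.nd (nat_lit 78) (nat_lit 76) (nat_lit 0) (XT.lf (nat_lit 0) (nat_lit 2526106942) (nat_lit 456) (nat_lit 7289890012) (nat_lit 532) (nat_lit 1243180739) (nat_lit 167) (nat_lit 5) (nat_lit 173) (nat_lit 5) (nat_lit 174) (nat_lit 5) (nat_lit 463) (nat_lit 378) (nat_lit 299)) (XT.lf (nat_lit 0) (nat_lit 1892315543) (nat_lit 532) (nat_lit 1427908727) (nat_lit 76) (nat_lit 7862611320) (nat_lit 166) (nat_lit 5) (nat_lit 173) (nat_lit 5) (nat_lit 167) (nat_lit 5) (nat_lit 464) (nat_lit 378) (nat_lit 298)))))) (XT.nd (nat_lit 390) (nat_lit 1216) (nat_lit 0) (XT.nd (nat_lit 156) (nat_lit 836) (nat_lit 0) (XT.nd (nat_lit 78) (nat_lit 456) (nat_lit 0) (XT.lf (nat_lit 0) (nat_lit 5088522637) (nat_lit 456) (nat_lit 5467031054) (nat_lit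 76) (nat_lit 752960764) (nat_lit 161) (nat_lit 5) (nat_lit 167) (nat_lit 5) (nat_lit 162) (nat_lit 5) (nat_lit 465) (nat_lit 378) (nat_lit 297)) (XT.lf (nat_lit 0) (nat_lit 1799173854) (nat_lit 456) (nat_lit 6564717371) (nat_lit 532) (nat_lit 3072515924) (nat_lit 155) (nat_lit 5) (nat_lit 161) (nat_lit 5) (nat_lit 162) (nat_lit 5) (nat_lit 466) (nat_lit 378) (nat_lit 296))) (XT.nd (nat_lit 78) (nat_lit 760) (nat_lit 0) (XT.lf (nat_lit 0) (nat_lit 145046728) (nat_lit 532) (nat_lit 2324030980) (nat_lit 76) (nat_lit 9097587969) (nat_lit 154) (nat_lit 5) (nat_lit 161) (nat_lit 5) (nat_lit 155) (nat_lit 5) (nat_lit 467) (nat_lit 378) (nat_lit 295)) (XT.nd (nat_lit 78) (nat_lit 380) (nat_lit 0) (XT.lf (nat_lit 0) (nat_lit 3403168701) (nat_lit 456) (nat_lit 6568610610) (nat_lit 76) (nat_lit 1727001604) (nat_lit 149) (nat_lit 5) (nat_lit 155) (nat_lit 5) (nat_lit 150) (nat_lit 5) (nat_lit 468) (nat_lit 378) (nat_lit 294)) (XT.lf (nat_lit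 0) (nat_lit 885940037) (nat_lit 380) (nat_lit 5851068920) (nat_lit 456) (nat_lit 5096323005) (nat_lit 144) (nat_lit 5) (nat_lit 149) (nat_lit 5) (nat_lit 150) (nat_lit 5) (nat_lit 469) (nat_lit 378) (nat_lit 293))))) (XT.nd (nat_lit 234) (nat_lit 760) (nat_lit 0) (XT.nd (nat_lit 78) (nat_lit 456) (nat_lit 0) (XT.lf (nat_lit 0) (nat_lit 8537934039) (nat_lit 380) (nat_lit 1616694365) (nat_lit 456) (nat_lit 1815608105) (nat_lit 144) (nat_lit 5) (nat_lit 149) (nat_lit 5) (nat_lit 150) (nat_lit 5) (nat_lit 470) (nat_lit 378) (nat_lit 292)) (XT.nd (nat_lit 78) (nat_lit 0) (nat_lit 0) (XT.lf (nat_lit 0) (nat_lit 1529242674) (nat_lit 456) (nat_lit 7888880523) (nat_lit 76) (nat_lit 2691189588) (nat_lit 138) (nat_lit 5) (nat_lit 144) (nat_lit 5) (nat_lit 139) (nat_lit 5) (nat_lit 471) (nat_lit 378) (nat_lit 291)) (XT.lf (nat_lit 0) (nat_lit 4924140937) (nat_lit 456) (nat_lit 241271182) (nat_lit 76) (nat_lit 7085373480) (nat_lit 138) (nat_lit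 5) (nat_lit 144) (nat_lit 5) (nat_lit 139) (nat_lit 5) (nat_lit 472) (nat_lit 378) (nat_lit 290)))) (XT.nd (nat_lit 78) (nat_lit 380) (nat_lit 0) (XT.lf (nat_lit 0) (nat_lit 7619589605) (nat_lit 380) (nat_lit 790884735) (nat_lit 456) (nat_lit 3984146971) (nat_lit 133) (nat_lit 5) (nat_lit 138) (nat_lit 5) (nat_lit 139) (nat_lit 5) (nat_lit 473) (nat_lit 378) (nat_lit 289)) (XT.nd (nat_lit 78) (nat_lit 76) (nat_lit 0) (XT.lf (nat_lit 0) (nat_lit 3076336174) (nat_lit 304) (nat_lit 8909866801) (nat_lit 380) (nat_lit 554741491) (nat_lit 129) (nat_lit 5) (nat_lit 133) (nat_lit 5) (nat_lit 134) (nat_lit 5) (nat_lit 474) (nat_lit 378) (nat_lit 288)) (XT.lf (nat_lit 0) (nat_lit 2916448983) (nat_lit 380) (nat_lit 1604539081) (nat_lit 76) (nat_lit 8168591807) (nat_lit 128) (nat_lit 5) (nat_lit 133) (nat_lit 5) (nat_lit 129) (nat_lit 5) (nat_lit 475) (nat_lit 378) (nat_lit 287))))))) (XT.nd (nat_lit 858) (nat_lit 1976) (nat_lit 0) (XT.nd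 (nat_lit 390) (nat_lit 1368) (nat_lit 0) (XT.nd (nat_lit 156) (nat_lit 456) (nat_lit 0) (XT.nd (nat_lit 78) (nat_lit 304) (nat_lit 0) (XT.lf (nat_lit 0) (nat_lit 6454608450) (nat_lit 380) (nat_lit 11750524) (nat_lit 456) (nat_lit 6374425064) (nat_lit 123) (nat_lit 5) (nat_lit 128) (nat_lit 5) (nat_lit 129) (nat_lit 5) (nat_lit 476) (nat_lit 378) (nat_lit 286)) (XT.lf (nat_lit 0) (nat_lit 1654475241) (nat_lit 304) (nat_lit 8459119350) (nat_lit 380) (nat_lit 2880894938) (nat_lit 119) (nat_lit 5) (nat_lit 123) (nat_lit 5) (nat_lit 124) (nat_lit 5) (nat_lit 477) (nat_lit 378) (nat_lit 285))) (XT.nd (nat_lit 78) (nat_lit 380) (nat_lit 0) (XT.lf (nat_lit 0) (nat_lit 691801325) (nat_lit 380) (nat_lit 3252034684) (nat_lit 76) (nat_lit 9206983201) (nat_lit 118) (nat_lit 5) (nat_lit 123) (nat_lit 5) (nat_lit 119) (nat_lit 5) (nat_lit 478) (nat_lit 378) (nat_lit 284)) (XT.nd (nat_lit 78) (nat_lit 0) (nat_lit 0) (XT.lf (nat_lit 0) (nat_lit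 4309979577) (nat_lit 456) (nat_lit 8308571035) (nat_lit 76) (nat_lit 691095525) (nat_lit 113) (nat_lit 5) (nat_lit 119) (nat_lit 5) (nat_lit 114) (nat_lit 5) (nat_lit 479) (nat_lit 378) (nat_lit 283)) (XT.lf (nat_lit 0) (nat_lit 8024266963) (nat_lit 456) (nat_lit 72853826) (nat_lit 76) (nat_lit 5374057401) (nat_lit 113) (nat_lit 5) (nat_lit 119) (nat_lit 5) (nat_lit 114) (nat_lit 5) (nat_lit 480) (nat_lit 378) (nat_lit 282))))) (XT.nd (nat_lit 234) (nat_lit 684) (nat_lit 0) (XT.nd (nat_lit 78) (nat_lit 380) (nat_lit 0) (XT.lf (nat_lit 0) (nat_lit 8399794194) (nat_lit 304) (nat_lit 3443720257) (nat_lit 380) (nat_lit 1791816379) (nat_lit 109) (nat_lit 5) (nat_lit 113) (nat_lit 5) (nat_lit 114) (nat_lit 5) (nat_lit 481) (nat_lit 378) (nat_lit 281)) (XT.nd (nat_lit 78) (nat_lit 0) (nat_lit 0) (XT.lf (nat_lit 0) (nat_lit 1917252326) (nat_lit 380) (nat_lit 10579236897) (nat_lit 76) (nat_lit 1305903792) (nat_lit 104) (nat_lit 5) (nat_lit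 109) (nat_lit 5) (nat_lit 105) (nat_lit 5) (nat_lit 482) (nat_lit 378) (nat_lit 280)) (XT.lf (nat_lit 0) (nat_lit 5711034267) (nat_lit 380) (nat_lit 2123157878) (nat_lit 76) (nat_lit 6137680170) (nat_lit 104) (nat_lit 5) (nat_lit 109) (nat_lit 5) (nat_lit 105) (nat_lit 5) (nat_lit 483) (nat_lit 378) (nat_lit 279)))) (XT.nd (nat_lit 78) (nat_lit 380) (nat_lit 0) (XT.lf (nat_lit 0) (nat_lit 6550551634) (nat_lit 304) (nat_lit 3049464741) (nat_lit 380) (nat_lit 4544341506) (nat_lit 100) (nat_lit 5) (nat_lit 104) (nat_lit 5) (nat_lit 105) (nat_lit 5) (nat_lit 484) (nat_lit 378) (nat_lit 278)) (XT.nd (nat_lit 78) (nat_lit 76) (nat_lit 0) (XT.lf (nat_lit 0) (nat_lit 1071044221) (nat_lit 304) (nat_lit 12505833296) (nat_lit 380) (nat_lit 743216761) (nat_lit 96) (nat_lit 5) (nat_lit 100) (nat_lit 5) (nat_lit 101) (nat_lit 5) (nat_lit 485) (nat_lit 378) (nat_lit 277)) (XT.lf (nat_lit 0) (nat_lit 3141291360) (nat_lit 380) (nat_lit 4564668444)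 (nat_lit 76) (nat_lit 6792012375) (nat_lit 95) (nat_lit 5) (nat_lit 100) (nat_lit 5) (nat_lit 96) (nat_lit 5) (nat_lit 486) (nat_lit 378) (nat_lit 276)))))) (XT.nd (nat_lit 468) (nat_lit 836) (nat_lit 0) (XT.nd (nat_lit 234) (nat_lit 532) (nat_lit 0) (XT.nd (nat_lit 78) (nat_lit 380) (nat_lit 0) (XT.lf (nat_lit 0) (nat_lit 4308127970) (nat_lit 228) (nat_lit 2790813963) (nat_lit 304) (nat_lit 7580262302) (nat_lit 92) (nat_lit 5) (nat_lit 95) (nat_lit 5) (nat_lit 96) (nat_lit 5) (nat_lit 487) (nat_lit 378) (nat_lit 275)) (XT.nd (nat_lit 78) (nat_lit 380) (nat_lit 0) (XT.lf (nat_lit 0) (nat_lit 11158546489) (nat_lit 304) (nat_lit 1494794528) (nat_lit 76) (nat_lit 2210266767) (nat_lit 92) (nat_lit 5) (nat_lit 96) (nat_lit 5) (nat_lit 93) (nat_lit 5) (nat_lit 488) (nat_lit 378) (nat_lit 274)) (XT.lf (nat_lit 0) (nat_lit 290525523) (nat_lit 380) (nat_lit 7448681609) (nat_lit 76) (nat_lit 7311540282) (nat_lit 87) (nat_lit 5) (nat_lit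 92) (nat_lit 5) (nat_lit 88) (nat_lit 5) (nat_lit 489) (nat_lit 378) (nat_lit 273)))) (XT.nd (nat_lit 78) (nat_lit 304) (nat_lit 0) (XT.lf (nat_lit 0) (nat_lit 1620040782) (nat_lit 228) (nat_lit 2695061811) (nat_lit 304) (nat_lit 10926066353) (nat_lit 84) (nat_lit 5) (nat_lit 87) (nat_lit 5) (nat_lit 88) (nat_lit 5) (nat_lit 490) (nat_lit 378) (nat_lit 272)) (XT.nd (nat_lit 78) (nat_lit 304) (nat_lit 0) (XT.lf (nat_lit 0) (nat_lit 8464524814) (nat_lit 304) (nat_lit 4515936748) (nat_lit 76) (nat_lit 2454052927) (nat_lit 84) (nat_lit 5) (nat_lit 88) (nat_lit 5) (nat_lit 85) (nat_lit 5) (nat_lit 491) (nat_lit 378) (nat_lit 271)) (XT.lf (nat_lit 0) (nat_lit 4780515409) (nat_lit 304) (nat_lit 7943866443) (nat_lit 380) (nat_lit 2906798765) (nat_lit 80) (nat_lit 5) (nat_lit 84) (nat_lit 5) (nat_lit 85) (nat_lit 5) (nat_lit 492) (nat_lit 378) (nat_lit 270))))) (XT.nd (nat_lit 234) (nat_lit 304) (nat_lit 0) (XT.nd (nat_lit 78) (nat_lit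 456) (nat_lit 0) (XT.lf (nat_lit 0) (nat_lit 1230535825) (nat_lit 380) (nat_lit 1551043333) (nat_lit 76) (nat_lit 13049860456) (nat_lit 79) (nat_lit 5) (nat_lit 84) (nat_lit 5) (nat_lit 80) (nat_lit 5) (nat_lit 493) (nat_lit 378) (nat_lit 269)) (XT.nd (nat_lit 78) (nat_lit 228) (nat_lit 0) (XT.lf (nat_lit 0) (nat_lit 5459108745) (nat_lit 304) (nat_lit 8066208815) (nat_lit 76) (nat_lit 2509056130) (nat_lit 76) (nat_lit 5) (nat_lit 80) (nat_lit 5) (nat_lit 77) (nat_lit 5) (nat_lit 494) (nat_lit 378) (nat_lit 268)) (XT.lf (nat_lit 0) (nat_lit 1422652128) (nat_lit 228) (nat_lit 8366856670) (nat_lit 304) (nat_lit 6451514938) (nat_lit 73) (nat_lit 5) (nat_lit 76) (nat_lit 5) (nat_lit 77) (nat_lit 5) (nat_lit 495) (nat_lit 378) (nat_lit 267)))) (XT.nd (nat_lit 78) (nat_lit 304) (nat_lit 0) (XT.lf (nat_lit 0) (nat_lit 11175721064) (nat_lit 228) (nat_lit 3064227618) (nat_lit 304) (nat_lit 2211191821) (nat_lit 73) (nat_lit 5) (nat_lit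 76) (nat_lit 5) (nat_lit 77) (nat_lit 5) (nat_lit 496) (nat_lit 378) (nat_lit 266)) (XT.nd (nat_lit 78) (nat_lit 0) (nat_lit 0) (XT.lf (nat_lit 0) (nat_lit 2110213274) (nat_lit 304) (nat_lit 12211651621) (nat_lit 76) (nat_lit 2342842468) (nat_lit 69) (nat_lit 5) (nat_lit 73) (nat_lit 5) (nat_lit 70) (nat_lit 5) (nat_lit 497) (nat_lit 378) (nat_lit 265)) (XT.lf (nat_lit 0) (nat_lit 6524053947) (nat_lit 304) (nat_lit 2503985682) (nat_lit 76) (nat_lit 7853503524) (nat_lit 69) (nat_lit 5) (nat_lit 73) (nat_lit 5) (nat_lit 70) (nat_lit 5) (nat_lit 498) (nat_lit 378) (nat_lit 264))))))))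
noncomputable def xc87 : XT := (XT.nd (nat_lit 51402) (nat_lit 0) (nat_lit 29944) (XT.nd (nat_lit 50544) (nat_lit 0) (nat_lit 47120) (XT.nd (nat_lit 390) (nat_lit 228) (nat_lit 0) (XT.nd (nat_lit 156) (nat_lit 304) (nat_lit 0) (XT.nd (nat_lit 78) (nat_lit 228) (nat_lit 0) (XT.lf (nat_lit 0) (nat_lit 7461787168) (nat_lit 228) (nat_lit 3592889446) (nat_lit 304) (nat_lit 6047471118) (nat_lit 66) (nat_lit 5) (nat_lit 69) (nat_lit 5) (nat_lit 70) (nat_lit 5) (nat_lit 499) (nat_lit 378) (nat_lit 263)) (XT.lf (nat_lit 0) (nat_lit 291034897) (nat_lit 228) (nat_lit 15396487977) (nat_lit 304) (nat_lit 1639411439) (nat_lit 63) (nat_lit 5) (nat_lit 66) (nat_lit 5) (nat_lit 67) (nat_lit 5) (nat_lit 500) (nat_lit 378) (nat_lit 262))) (XT.nd (nat_lit 78) (nat_lit 228) (nat_lit 0) (XT.lf (nat_lit 0) (nat_lit 2888434097) (nat_lit 304) (nat_lit 7079992594) (nat_lit 76) (nat_lit 7586039175) (nat_lit 62) (nat_lit 5) (nat_lit 66) (nat_lit 5) (nat_lit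 63) (nat_lit 5) (nat_lit 501) (nat_lit 378) (nat_lit 261)) (XT.nd (nat_lit 78) (nat_lit 0) (nat_lit 0) (XT.lf (nat_lit 0) (nat_lit 3071085524) (nat_lit 228) (nat_lit 4414325962) (nat_lit 304) (nat_lit 10300911309) (nat_lit 59) (nat_lit 5) (nat_lit 62) (nat_lit 5) (nat_lit 63) (nat_lit 5) (nat_lit 502) (nat_lit 378) (nat_lit 260)) (XT.lf (nat_lit 0) (nat_lit 12210917255) (nat_lit 304) (nat_lit 4542591645) (nat_lit 76) (nat_lit 1268578160) (nat_lit 59) (nat_lit 5) (nat_lit 63) (nat_lit 5) (nat_lit 60) (nat_lit 5) (nat_lit 503) (nat_lit 378) (nat_lit 259))))) (XT.nd (nat_lit 49920) (nat_lit 0) (nat_lit 50008) (XT.nd (nat_lit 78) (nat_lit 76) (nat_lit 0) (XT.lf (nat_lit 0) (nat_lit 5848183388) (nat_lit 152) (nat_lit 11230975865) (nat_lit 228) (nat_lit 1182444765) (nat_lit 57) (nat_lit 5) (nat_lit 59) (nat_lit 5) (nat_lit 60) (nat_lit 5) (nat_lit 504) (nat_lit 378) (nat_lit 258)) (XT.nd (nat_lit 49764) (nat_lit 0) (nat_lit 50312)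 (XT.lf (nat_lit 0) (nat_lit 3504183140) (nat_lit 228) (nat_lit 2052957600) (nat_lit 76) (nat_lit 12948078080) (nat_lit 56) (nat_lit 5) (nat_lit 59) (nat_lit 5) (nat_lit 57) (nat_lit 5) (nat_lit 505) (nat_lit 378) (nat_lit 257)) (XT.lf (nat_lit 0) (nat_lit 1588090396) (nat_lit 76) (nat_lit 45901138) (nat_lit 0) (nat_lit 1588090396) (nat_lit 718) (nat_lit 5) (nat_lit 719) (nat_lit 0) (nat_lit 718) (nat_lit 4) (nat_lit 382) (nat_lit 379) (nat_lit 379)))) (XT.nd (nat_lit 78) (nat_lit 228) (nat_lit 0) (XT.lf (nat_lit 0) (nat_lit 3166944081) (nat_lit 76) (nat_lit 3146168051) (nat_lit 76) (nat_lit 133622507) (nat_lit 717) (nat_lit 4) (nat_lit 718) (nat_lit 5) (nat_lit 718) (nat_lit 4) (nat_lit 383) (nat_lit 379) (nat_lit 378)) (XT.nd (nat_lit 78) (nat_lit 152) (nat_lit 0) (XT.lf (nat_lit 0) (nat_lit 2943207794) (nat_lit 152) (nat_lit 20741823) (nat_lit 76) (nat_lit 3486653502) (nat_lit 716) (nat_lit 5) (nat_lit 718) (nat_lit 5) (nat_lit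 717) (nat_lit 4) (nat_lit 384) (nat_lit 379) (nat_lit 377)) (XT.lf (nat_lit 0) (nat_lit 3303166537) (nat_lit 152) (nat_lit 2718988330) (nat_lit 228) (nat_lit 433571482) (nat_lit 714) (nat_lit 5) (nat_lit 716) (nat_lit 5) (nat_lit 717) (nat_lit 4) (nat_lit 385) (nat_lit 379) (nat_lit 376)))))) (XT.nd (nat_lit 390) (nat_lit 1748) (nat_lit 0) (XT.nd (nat_lit 156) (nat_lit 836) (nat_lit 0) (XT.nd (nat_lit 78) (nat_lit 0) (nat_lit 0) (XT.lf (nat_lit 0) (nat_lit 174066641) (nat_lit 228) (nat_lit 2415138618) (nat_lit 304) (nat_lit 3872978542) (nat_lit 710) (nat_lit 5) (nat_lit 713) (nat_lit 5) (nat_lit 714) (nat_lit 5) (nat_lit 386) (nat_lit 379) (nat_lit 375)) (XT.lf (nat_lit 0) (nat_lit 3563777579) (nat_lit 228) (nat_lit 2046891641) (nat_lit 304) (nat_lit 859203103) (nat_lit 710) (nat_lit 5) (nat_lit 713) (nat_lit 5) (nat_lit 714) (nat_lit 5) (nat_lit 387) (nat_lit 379) (nat_lit 374))) (XT.nd (nat_lit 78) (nat_lit 456) (nat_lit 0)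 (XT.lf (nat_lit 0) (nat_lit 492168697) (nat_lit 304) (nat_lit 1620694393) (nat_lit 380) (nat_lit 4366061086) (nat_lit 705) (nat_lit 5) (nat_lit 709) (nat_lit 5) (nat_lit 710) (nat_lit 5) (nat_lit 388) (nat_lit 379) (nat_lit 373)) (XT.nd (nat_lit 78) (nat_lit 456) (nat_lit 0) (XT.lf (nat_lit 0) (nat_lit 3948836554) (nat_lit 304) (nat_lit 1128584341) (nat_lit 380) (nat_lit 1411769164) (nat_lit 705) (nat_lit 5) (nat_lit 709) (nat_lit 5) (nat_lit 710) (nat_lit 5) (nat_lit 389) (nat_lit 379) (nat_lit 372)) (XT.lf (nat_lit 0) (nat_lit 933459804) (nat_lit 380) (nat_lit 579230446) (nat_lit 456) (nat_lit 4988157511) (nat_lit 699) (nat_lit 5) (nat_lit 704) (nat_lit 5) (nat_lit 705) (nat_lit 5) (nat_lit 390) (nat_lit 379) (nat_lit 371))))) (XT.nd (nat_lit 234) (nat_lit 1216) (nat_lit 0) (XT.nd (nat_lit 78) (nat_lit 532) (nat_lit 0) (XT.lf (nat_lit 0) (nat_lit 4421180498) (nat_lit 456) (nat_lit 2055312648) (nat_lit 76) (nat_lit 37205437)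 (nat_lit 699) (nat_lit 5) (nat_lit 705) (nat_lit 5) (nat_lit 700) (nat_lit 5) (nat_lit 391) (nat_lit 379) (nat_lit 370)) (XT.nd (nat_lit 78) (nat_lit 0) (nat_lit 0) (XT.lf (nat_lit 0) (nat_lit 791707613) (nat_lit 532) (nat_lit 5034257210) (nat_lit 76) (nat_lit 701924594) (nat_lit 692) (nat_lit 5) (nat_lit 699) (nat_lit 5) (nat_lit 693) (nat_lit 5) (nat_lit 392) (nat_lit 379) (nat_lit 369)) (XT.lf (nat_lit 0) (nat_lit 3648937718) (nat_lit 532) (nat_lit 1459185801) (nat_lit 76) (nat_lit 1435130602) (nat_lit 692) (nat_lit 5) (nat_lit 699) (nat_lit 5) (nat_lit 693) (nat_lit 5) (nat_lit 393) (nat_lit 379) (nat_lit 368)))) (XT.nd (nat_lit 78) (nat_lit 684) (nat_lit 0) (XT.lf (nat_lit 0) (nat_lit 2172184680) (nat_lit 532) (nat_lit 4336043703) (nat_lit 608) (nat_lit 51832220) (nat_lit 685) (nat_lit 5) (nat_lit 692) (nat_lit 5) (nat_lit 693) (nat_lit 5) (nat_lit 394) (nat_lit 379) (nat_lit 367)) (XT.nd (nat_lit 78) (nat_lit 608) (nat_lit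 0) (XT.lf (nat_lit 0) (nat_lit 2751417593) (nat_lit 608) (nat_lit 743944506) (nat_lit 76) (nat_lit 3082677657) (nat_lit 684) (nat_lit 5) (nat_lit 692) (nat_lit 5) (nat_lit 685) (nat_lit 5) (nat_lit 395) (nat_lit 379) (nat_lit 366)) (XT.lf (nat_lit 0) (nat_lit 2967970660) (nat_lit 608) (nat_lit 2594088091) (nat_lit 684) (nat_lit 1035303392) (nat_lit 676) (nat_lit 5) (nat_lit 684) (nat_lit 5) (nat_lit 685) (nat_lit 5) (nat_lit 396) (nat_lit 379) (nat_lit 365))))))) (XT.nd (nat_lit 858) (nat_lit 11552) (nat_lit 0) (XT.nd (nat_lit 390) (nat_lit 3192) (nat_lit 0) (XT.nd (nat_lit 156) (nat_lit 1672) (nat_lit 0) (XT.nd (nat_lit 78) (nat_lit 0) (nat_lit 0) (XT.lf (nat_lit 0) (nat_lit 92547482) (nat_lit 684) (nat_lit 1634477349) (nat_lit 760) (nat_lit 4891061669) (nat_lit 666) (nat_lit 5) (nat_lit 675) (nat_lit 5) (nat_lit 676) (nat_lit 5) (nat_lit 397) (nat_lit 379) (nat_lit 364)) (XT.lf (nat_lit 0) (nat_lit 3887358417) (nat_lit 684)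 (nat_lit 602043950) (nat_lit 760) (nat_lit 2150541928) (nat_lit 666) (nat_lit 5) (nat_lit 675) (nat_lit 5) (nat_lit 676) (nat_lit 5) (nat_lit 398) (nat_lit 379) (nat_lit 363))) (XT.nd (nat_lit 78) (nat_lit 836) (nat_lit 0) (XT.lf (nat_lit 0) (nat_lit 581538493) (nat_lit 836) (nat_lit 5604762673) (nat_lit 76) (nat_lit 476978211) (nat_lit 655) (nat_lit 5) (nat_lit 666) (nat_lit 5) (nat_lit 656) (nat_lit 5) (nat_lit 399) (nat_lit 379) (nat_lit 362)) (XT.nd (nat_lit 78) (nat_lit 836) (nat_lit 0) (XT.lf (nat_lit 0) (nat_lit 3298367683) (nat_lit 836) (nat_lit 1766904172) (nat_lit 76) (nat_lit 1622374395) (nat_lit 655) (nat_lit 5) (nat_lit 666) (nat_lit 5) (nat_lit 656) (nat_lit 5) (nat_lit 400) (nat_lit 379) (nat_lit 361)) (XT.lf (nat_lit 0) (nat_lit 2131555041) (nat_lit 836) (nat_lit 3889362321) (nat_lit 912) (nat_lit 692582329) (nat_lit 644) (nat_lit 5) (nat_lit 655) (nat_lit 5) (nat_lit 656) (nat_lit 5) (nat_lit 401) (nat_lit 379)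 (nat_lit 360))))) (XT.nd (nat_lit 234) (nat_lit 1140) (nat_lit 0) (XT.nd (nat_lit 78) (nat_lit 1976) (nat_lit 0) (XT.lf (nat_lit 0) (nat_lit 1981042657) (nat_lit 912) (nat_lit 665810615) (nat_lit 76) (nat_lit 4093775819) (nat_lit 643) (nat_lit 5) (nat_lit 655) (nat_lit 5) (nat_lit 644) (nat_lit 5) (nat_lit 402) (nat_lit 379) (nat_lit 359)) (XT.nd (nat_lit 78) (nat_lit 1064) (nat_lit 0) (XT.lf (nat_lit 0) (nat_lit 3323857247) (nat_lit 912) (nat_lit 1335864370) (nat_lit 988) (nat_lit 2109296156) (nat_lit 631) (nat_lit 5) (nat_lit 643) (nat_lit 5) (nat_lit 644) (nat_lit 5) (nat_lit 403) (nat_lit 379) (nat_lit 358)) (XT.lf (nat_lit 0) (nat_lit 534311586) (nat_lit 1064) (nat_lit 6235522224) (nat_lit 76) (nat_lit 29125617) (nat_lit 617) (nat_lit 5) (nat_lit 631) (nat_lit 5) (nat_lit 618) (nat_lit 5) (nat_lit 404) (nat_lit 379) (nat_lit 357)))) (XT.nd (nat_lit 78) (nat_lit 1140) (nat_lit 0) (XT.lf (nat_lit 0) (nat_lit 3175441367) (nat_lit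 1064) (nat_lit 2198450089) (nat_lit 76) (nat_lit 1455895638) (nat_lit 617) (nat_lit 5) (nat_lit 631) (nat_lit 5) (nat_lit 618) (nat_lit 5) (nat_lit 405) (nat_lit 379) (nat_lit 356)) (XT.nd (nat_lit 78) (nat_lit 76) (nat_lit 0) (XT.lf (nat_lit 0) (nat_lit 1899818419) (nat_lit 1064) (nat_lit 3923820232) (nat_lit 1140) (nat_lit 1038531190) (nat_lit 603) (nat_lit 5) (nat_lit 617) (nat_lit 5) (nat_lit 618) (nat_lit 5) (nat_lit 406) (nat_lit 379) (nat_lit 355)) (XT.lf (nat_lit 0) (nat_lit 1565438150) (nat_lit 1140) (nat_lit 840687997) (nat_lit 76) (nat_lit 4489740783) (nat_lit 602) (nat_lit 5) (nat_lit 617) (nat_lit 5) (nat_lit 603) (nat_lit 5) (nat_lit 407) (nat_lit 379) (nat_lit 354)))))) (XT.nd (nat_lit 468) (nat_lit 6384) (nat_lit 0) (XT.nd (nat_lit 234) (nat_lit 2736) (nat_lit 0) (XT.nd (nat_lit 78) (nat_lit 1292) (nat_lit 0) (XT.lf (nat_lit 0) (nat_lit 3356475776) (nat_lit 1140) (nat_lit 816401368) (nat_lit 1216) (nat_lit 2757939674)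 (nat_lit 587) (nat_lit 5) (nat_lit 602) (nat_lit 5) (nat_lit 603) (nat_lit 5) (nat_lit 408) (nat_lit 379) (nat_lit 353)) (XT.nd (nat_lit 78) (nat_lit 76) (nat_lit 0) (XT.lf (nat_lit 0) (nat_lit 640766085) (nat_lit 1216) (nat_lit 6151157020) (nat_lit 1292) (nat_lit 175375077) (nat_lit 571) (nat_lit 5) (nat_lit 587) (nat_lit 5) (nat_lit 588) (nat_lit 5) (nat_lit 409) (nat_lit 379) (nat_lit 352)) (XT.lf (nat_lit 0) (nat_lit 2400951799) (nat_lit 1292) (nat_lit 2082389756) (nat_lit 76) (nat_lit 2521381949) (nat_lit 570) (nat_lit 5) (nat_lit 587) (nat_lit 5) (nat_lit 571) (nat_lit 5) (nat_lit 410) (nat_lit 379) (nat_lit 351)))) (XT.nd (nat_lit 78) (nat_lit 1444) (nat_lit 0) (XT.lf (nat_lit 0) (nat_lit 2230157349) (nat_lit 1292) (nat_lit 2756671587) (nat_lit 1368) (nat_lit 2056858166) (nat_lit 553) (nat_lit 5) (nat_lit 570) (nat_lit 5) (nat_lit 571) (nat_lit 5) (nat_lit 411) (nat_lit 379) (nat_lit 350)) (XT.nd (nat_lit 78) (nat_lit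 1368) (nat_lit 0) (XT.lf (nat_lit 0) (nat_lit 494255606) (nat_lit 1368) (nat_lit 474578535) (nat_lit 76) (nat_lit 6115338040) (nat_lit 552) (nat_lit 5) (nat_lit 570) (nat_lit 5) (nat_lit 553) (nat_lit 5) (nat_lit 412) (nat_lit 379) (nat_lit 349)) (XT.lf (nat_lit 0) (nat_lit 3047699341) (nat_lit 1444) (nat_lit 3186471315) (nat_lit 76) (nat_lit 891466625) (nat_lit 534) (nat_lit 5) (nat_lit 553) (nat_lit 5) (nat_lit 535) (nat_lit 5) (nat_lit 413) (nat_lit 379) (nat_lit 348))))) (XT.nd (nat_lit 234) (nat_lit 3344) (nat_lit 0) (XT.nd (nat_lit 78) (nat_lit 1596) (nat_lit 0) (XT.lf (nat_lit 0) (nat_lit 1244695161) (nat_lit 1444) (nat_lit 4373364210) (nat_lit 1520) (nat_lit 1550574204) (nat_lit 515) (nat_lit 5) (nat_lit 534) (nat_lit 5) (nat_lit 535) (nat_lit 5) (nat_lit 414) (nat_lit 379) (nat_lit 347)) (XT.nd (nat_lit 78) (nat_lit 1520) (nat_lit 0) (XT.lf (nat_lit 0) (nat_lit 983901833) (nat_lit 1520) (nat_lit 1456544561) (nat_lit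 76) (nat_lit 4772527333) (nat_lit 514) (nat_lit 5) (nat_lit 534) (nat_lit 5) (nat_lit 515) (nat_lit 5) (nat_lit 415) (nat_lit 379) (nat_lit 346)) (XT.lf (nat_lit 0) (nat_lit 3085941250) (nat_lit 1520) (nat_lit 431943090) (nat_lit 1596) (nat_lit 3740737528) (nat_lit 494) (nat_lit 5) (nat_lit 514) (nat_lit 5) (nat_lit 515) (nat_lit 5) (nat_lit 416) (nat_lit 379) (nat_lit 345)))) (XT.nd (nat_lit 78) (nat_lit 1748) (nat_lit 0) (XT.lf (nat_lit 0) (nat_lit 383281669) (nat_lit 1596) (nat_lit 5692352257) (nat_lit 1672) (nat_lit 1230104702) (nat_lit 473) (nat_lit 5) (nat_lit 494) (nat_lit 5) (nat_lit 495) (nat_lit 5) (nat_lit 417) (nat_lit 379) (nat_lit 344)) (XT.nd (nat_lit 78) (nat_lit 1672) (nat_lit 0) (XT.lf (nat_lit 0) (nat_lit 1294939750) (nat_lit 1672) (nat_lit 2323591103) (nat_lit 76) (nat_lit 3735477762) (nat_lit 472) (nat_lit 5) (nat_lit 494) (nat_lit 5) (nat_lit 473) (nat_lit 5) (nat_lit 418) (nat_lit 379) (nat_lit 343)) (XT.lf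 (nat_lit 0) (nat_lit 2345164559) (nat_lit 1672) (nat_lit 1475664725) (nat_lit 1748) (nat_lit 3582932194) (nat_lit 450) (nat_lit 5) (nat_lit 472) (nat_lit 5) (nat_lit 473) (nat_lit 5) (nat_lit 419) (nat_lit 379) (nat_lit 342))))))))
noncomputable def xc88 : XT := (XT.nd (nat_lit 1716) (nat_lit 8588) (nat_lit 0) (XT.nd (nat_lit 858) (nat_lit 5320) (nat_lit 0) (XT.nd (nat_lit 390) (nat_lit 3572) (nat_lit 0) (XT.nd (nat_lit 156) (nat_lit 2280) (nat_lit 0) (XT.nd (nat_lit 78) (nat_lit 1824) (nat_lit 0) (XT.lf (nat_lit 0) (nat_lit 6369799155) (nat_lit 1748) (nat_lit 365516272) (nat_lit 76) (nat_lit 719758800) (nat_lit 450) (nat_lit 5) (nat_lit 473) (nat_lit 5) (nat_lit 451) (nat_lit 5) (nat_lit 420) (nat_lit 379) (nat_lit 341)) (XT.lf (nat_lit 0) (nat_lit 1434782429) (nat_lit 1824) (nat_lit 3091851348) (nat_lit 76) (nat_lit 2980772502) (nat_lit 426) (nat_lit 5) (nat_lit 450) (nat_lit 5) (nat_lit 427) (nat_lit 5) (nat_lit 421) (nat_lit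 379) (nat_lit 340))) (XT.nd (nat_lit 78) (nat_lit 988) (nat_lit 0) (XT.lf (nat_lit 0) (nat_lit 1706800171) (nat_lit 1292) (nat_lit 2250975788) (nat_lit 1368) (nat_lit 3603539357) (nat_lit 409) (nat_lit 5) (nat_lit 426) (nat_lit 5) (nat_lit 427) (nat_lit 5) (nat_lit 422) (nat_lit 379) (nat_lit 339)) (XT.nd (nat_lit 78) (nat_lit 988) (nat_lit 0) (XT.lf (nat_lit 0) (nat_lit 6506703907) (nat_lit 1368) (nat_lit 1018638687) (nat_lit 76) (nat_lit 91465304) (nat_lit 409) (nat_lit 5) (nat_lit 427) (nat_lit 5) (nat_lit 410) (nat_lit 5) (nat_lit 423) (nat_lit 379) (nat_lit 338)) (XT.lf (nat_lit 0) (nat_lit 1409656000) (nat_lit 988) (nat_lit 3777122749) (nat_lit 76) (nat_lit 2486554705) (nat_lit 396) (nat_lit 5) (nat_lit 409) (nat_lit 5) (nat_lit 397) (nat_lit 5) (nat_lit 424) (nat_lit 379) (nat_lit 337))))) (XT.nd (nat_lit 234) (nat_lit 1748) (nat_lit 0) (XT.nd (nat_lit 78) (nat_lit 988) (nat_lit 0) (XT.lf (nat_lit 0) (nat_lit 1155149373)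 (nat_lit 836) (nat_lit 2779511149) (nat_lit 912) (nat_lit 3796801970) (nat_lit 385) (nat_lit 5) (nat_lit 396) (nat_lit 5) (nat_lit 397) (nat_lit 5) (nat_lit 425) (nat_lit 379) (nat_lit 336)) (XT.nd (nat_lit 78) (nat_lit 988) (nat_lit 0) (XT.lf (nat_lit 0) (nat_lit 6192646471) (nat_lit 836) (nat_lit 298770403) (nat_lit 912) (nat_lit 1299725926) (nat_lit 385) (nat_lit 5) (nat_lit 396) (nat_lit 5) (nat_lit 397) (nat_lit 5) (nat_lit 426) (nat_lit 379) (nat_lit 335)) (XT.lf (nat_lit 0) (nat_lit 1224632458) (nat_lit 988) (nat_lit 4394997271) (nat_lit 76) (nat_lit 2232364227) (nat_lit 372) (nat_lit 5) (nat_lit 385) (nat_lit 5) (nat_lit 373) (nat_lit 5) (nat_lit 427) (nat_lit 379) (nat_lit 334)))) (XT.nd (nat_lit 78) (nat_lit 912) (nat_lit 0) (XT.lf (nat_lit 0) (nat_lit 674701138) (nat_lit 836) (nat_lit 3081577625) (nat_lit 912) (nat_lit 4158140398) (nat_lit 361) (nat_lit 5) (nat_lit 372) (nat_lit 5) (nat_lit 373) (nat_lit 5) (nat_lit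 428) (nat_lit 379) (nat_lit 333)) (XT.nd (nat_lit 78) (nat_lit 912) (nat_lit 0) (XT.lf (nat_lit 0) (nat_lit 5860753745) (nat_lit 836) (nat_lit 464880666) (nat_lit 912) (nat_lit 1652729612) (nat_lit 361) (nat_lit 5) (nat_lit 372) (nat_lit 5) (nat_lit 373) (nat_lit 5) (nat_lit 429) (nat_lit 379) (nat_lit 332)) (XT.lf (nat_lit 0) (nat_lit 883654150) (nat_lit 912) (nat_lit 4960992952) (nat_lit 76) (nat_lit 2198981534) (nat_lit 349) (nat_lit 5) (nat_lit 361) (nat_lit 5) (nat_lit 350) (nat_lit 5) (nat_lit 430) (nat_lit 379) (nat_lit 331)))))) (XT.nd (nat_lit 390) (nat_lit 2964) (nat_lit 0) (XT.nd (nat_lit 156) (nat_lit 1596) (nat_lit 0) (XT.nd (nat_lit 78) (nat_lit 0) (nat_lit 0) (XT.lf (nat_lit 0) (nat_lit 249999020) (nat_lit 760) (nat_lit 3176308963) (nat_lit 836) (nat_lit 4684130569) (nat_lit 339) (nat_lit 5) (nat_lit 349) (nat_lit 5) (nat_lit 350) (nat_lit 5) (nat_lit 431) (nat_lit 379) (nat_lit 330)) (XT.lf (nat_lit 0) (nat_lit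 5587914652) (nat_lit 760) (nat_lit 424358313) (nat_lit 836) (nat_lit 2166474254) (nat_lit 339) (nat_lit 5) (nat_lit 349) (nat_lit 5) (nat_lit 350) (nat_lit 5) (nat_lit 432) (nat_lit 379) (nat_lit 329))) (XT.nd (nat_lit 78) (nat_lit 760) (nat_lit 0) (XT.lf (nat_lit 0) (nat_lit 389549977) (nat_lit 836) (nat_lit 5490687883) (nat_lit 76) (nat_lit 2368277695) (nat_lit 328) (nat_lit 5) (nat_lit 339) (nat_lit 5) (nat_lit 329) (nat_lit 5) (nat_lit 433) (nat_lit 379) (nat_lit 328)) (XT.nd (nat_lit 78) (nat_lit 760) (nat_lit 0) (XT.lf (nat_lit 0) (nat_lit 2948193818) (nat_lit 836) (nat_lit 132730690) (nat_lit 76) (nat_lit 5238869217) (nat_lit 328) (nat_lit 5) (nat_lit 339) (nat_lit 5) (nat_lit 329) (nat_lit 5) (nat_lit 434) (nat_lit 379) (nat_lit 327)) (XT.lf (nat_lit 0) (nat_lit 5358837653) (nat_lit 760) (nat_lit 194916784) (nat_lit 836) (nat_lit 2838838965) (nat_lit 318) (nat_lit 5) (nat_lit 328) (nat_lit 5) (nat_lit 329) (nat_lit 5)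 (nat_lit 435) (nat_lit 379) (nat_lit 326))))) (XT.nd (nat_lit 234) (nat_lit 1444) (nat_lit 0) (XT.nd (nat_lit 78) (nat_lit 760) (nat_lit 0) (XT.lf (nat_lit 0) (nat_lit 2465395013) (nat_lit 760) (nat_lit 5742183370) (nat_lit 836) (nat_lit 259358256) (nat_lit 308) (nat_lit 5) (nat_lit 318) (nat_lit 5) (nat_lit 319) (nat_lit 5) (nat_lit 436) (nat_lit 379) (nat_lit 325)) (XT.nd (nat_lit 78) (nat_lit 684) (nat_lit 0) (XT.lf (nat_lit 0) (nat_lit 2324000227) (nat_lit 836) (nat_lit 488052198) (nat_lit 76) (nat_lit 5730748669) (nat_lit 307) (nat_lit 5) (nat_lit 318) (nat_lit 5) (nat_lit 308) (nat_lit 5) (nat_lit 437) (nat_lit 379) (nat_lit 324)) (XT.lf (nat_lit 0) (nat_lit 4952749259) (nat_lit 760) (nat_lit 3463592764) (nat_lit 76) (nat_lit 203872600) (nat_lit 298) (nat_lit 5) (nat_lit 308) (nat_lit 5) (nat_lit 299) (nat_lit 5) (nat_lit 438) (nat_lit 379) (nat_lit 323)))) (XT.nd (nat_lit 78) (nat_lit 760) (nat_lit 0) (XT.lf (nat_lit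 0) (nat_lit 2187667679) (nat_lit 684) (nat_lit 5445307947) (nat_lit 760) (nat_lit 1066232551) (nat_lit 289) (nat_lit 5) (nat_lit 298) (nat_lit 5) (nat_lit 299) (nat_lit 5) (nat_lit 439) (nat_lit 379) (nat_lit 322)) (XT.nd (nat_lit 78) (nat_lit 684) (nat_lit 0) (XT.lf (nat_lit 0) (nat_lit 1552578703) (nat_lit 760) (nat_lit 835156580) (nat_lit 76) (nat_lit 6392122301) (nat_lit 288) (nat_lit 5) (nat_lit 298) (nat_lit 5) (nat_lit 289) (nat_lit 5) (nat_lit 440) (nat_lit 379) (nat_lit 321)) (XT.lf (nat_lit 0) (nat_lit 4210425464) (nat_lit 760) (nat_lit 3897576714) (nat_lit 76) (nat_lit 753967359) (nat_lit 279) (nat_lit 5) (nat_lit 289) (nat_lit 5) (nat_lit 280) (nat_lit 5) (nat_lit 441) (nat_lit 379) (nat_lit 320))))))) (XT.nd (nat_lit 858) (nat_lit 4180) (nat_lit 0) (XT.nd (nat_lit 390) (nat_lit 2432) (nat_lit 0) (XT.nd (nat_lit 156) (nat_lit 1216) (nat_lit 0) (XT.nd (nat_lit 78) (nat_lit 76) (nat_lit 0) (XT.lf (nat_lit 0) (nat_lit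 1911045629) (nat_lit 684) (nat_lit 5008327715) (nat_lit 760) (nat_lit 2026400557) (nat_lit 270) (nat_lit 5) (nat_lit 279) (nat_lit 5) (nat_lit 280) (nat_lit 5) (nat_lit 442) (nat_lit 379) (nat_lit 319)) (XT.lf (nat_lit 0) (nat_lit 633292621) (nat_lit 760) (nat_lit 1190465617) (nat_lit 76) (nat_lit 7207608491) (nat_lit 269) (nat_lit 5) (nat_lit 279) (nat_lit 5) (nat_lit 270) (nat_lit 5) (nat_lit 443) (nat_lit 379) (nat_lit 318))) (XT.nd (nat_lit 78) (nat_lit 608) (nat_lit 0) (XT.lf (nat_lit 0) (nat_lit 3324536713) (nat_lit 684) (nat_lit 4351215001) (nat_lit 76) (nat_lit 1442550531) (nat_lit 261) (nat_lit 5) (nat_lit 270) (nat_lit 5) (nat_lit 262) (nat_lit 5) (nat_lit 444) (nat_lit 379) (nat_lit 317)) (XT.nd (nat_lit 78) (nat_lit 0) (nat_lit 0) (XT.lf (nat_lit 0) (nat_lit 1618703575) (nat_lit 608) (nat_lit 4446847362) (nat_lit 684) (nat_lit 3141514996) (nat_lit 253) (nat_lit 5) (nat_lit 261) (nat_lit 5) (nat_lit 262) (nat_lit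 5) (nat_lit 445) (nat_lit 379) (nat_lit 316)) (XT.lf (nat_lit 0) (nat_lit 7723781838) (nat_lit 608) (nat_lit 1132518138) (nat_lit 684) (nat_lit 441414828) (nat_lit 253) (nat_lit 5) (nat_lit 261) (nat_lit 5) (nat_lit 262) (nat_lit 5) (nat_lit 446) (nat_lit 379) (nat_lit 315))))) (XT.nd (nat_lit 234) (nat_lit 1140) (nat_lit 0) (XT.nd (nat_lit 78) (nat_lit 608) (nat_lit 0) (XT.lf (nat_lit 0) (nat_lit 2292971342) (nat_lit 684) (nat_lit 4842021528) (nat_lit 76) (nat_lit 2254679050) (nat_lit 244) (nat_lit 5) (nat_lit 253) (nat_lit 5) (nat_lit 245) (nat_lit 5) (nat_lit 447) (nat_lit 379) (nat_lit 314)) (XT.nd (nat_lit 78) (nat_lit 0) (nat_lit 0) (XT.lf (nat_lit 0) (nat_lit 1293041952) (nat_lit 608) (nat_lit 3776111118) (nat_lit 684) (nat_lit 4414404113) (nat_lit 236) (nat_lit 5) (nat_lit 244) (nat_lit 5) (nat_lit 245) (nat_lit 5) (nat_lit 448) (nat_lit 379) (nat_lit 313)) (XT.lf (nat_lit 0) (nat_lit 7573558835) (nat_lit 608) (nat_lit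 326656418) (nat_lit 684) (nat_lit 1679125340) (nat_lit 236) (nat_lit 5) (nat_lit 244) (nat_lit 5) (nat_lit 245) (nat_lit 5) (nat_lit 449) (nat_lit 379) (nat_lit 312)))) (XT.nd (nat_lit 78) (nat_lit 532) (nat_lit 0) (XT.lf (nat_lit 0) (nat_lit 1112454176) (nat_lit 608) (nat_lit 5388420519) (nat_lit 76) (nat_lit 3175704724) (nat_lit 228) (nat_lit 5) (nat_lit 236) (nat_lit 5) (nat_lit 229) (nat_lit 5) (nat_lit 450) (nat_lit 379) (nat_lit 311)) (XT.nd (nat_lit 78) (nat_lit 0) (nat_lit 0) (XT.lf (nat_lit 0) (nat_lit 915513824) (nat_lit 532) (nat_lit 3011140227) (nat_lit 608) (nat_lit 5849108685) (nat_lit 221) (nat_lit 5) (nat_lit 228) (nat_lit 5) (nat_lit 229) (nat_lit 5) (nat_lit 451) (nat_lit 379) (nat_lit 310)) (XT.lf (nat_lit 0) (nat_lit 6804983288) (nat_lit 608) (nat_lit 2504530900) (nat_lit 76) (nat_lit 567265624) (nat_lit 221) (nat_lit 5) (nat_lit 229) (nat_lit 5) (nat_lit 222) (nat_lit 5) (nat_lit 452) (nat_lit 379) (nat_lit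 309)))))) (XT.nd (nat_lit 468) (nat_lit 1976) (nat_lit 0) (XT.nd (nat_lit 234) (nat_lit 1064) (nat_lit 0) (XT.nd (nat_lit 78) (nat_lit 608) (nat_lit 0) (XT.lf (nat_lit 0) (nat_lit 3968155466) (nat_lit 532) (nat_lit 5786944803) (nat_lit 608) (nat_lit 224439400) (nat_lit 214) (nat_lit 5) (nat_lit 221) (nat_lit 5) (nat_lit 222) (nat_lit 5) (nat_lit 453) (nat_lit 379) (nat_lit 308)) (XT.nd (nat_lit 78) (nat_lit 0) (nat_lit 0) (XT.lf (nat_lit 0) (nat_lit 466440176) (nat_lit 532) (nat_lit 2166872159) (nat_lit 608) (nat_lit 7450929107) (nat_lit 206) (nat_lit 5) (nat_lit 213) (nat_lit 5) (nat_lit 214) (nat_lit 5) (nat_lit 454) (nat_lit 379) (nat_lit 307)) (XT.lf (nat_lit 0) (nat_lit 5564645731) (nat_lit 608) (nat_lit 3089250990) (nat_lit 76) (nat_lit 1536728688) (nat_lit 206) (nat_lit 5) (nat_lit 214) (nat_lit 5) (nat_lit 207) (nat_lit 5) (nat_lit 455) (nat_lit 379) (nat_lit 306)))) (XT.nd (nat_lit 78) (nat_lit 608) (nat_lit 0) (XT.lf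 (nat_lit 0) (nat_lit 3560383106) (nat_lit 456) (nat_lit 5001215811) (nat_lit 532) (nat_lit 1737404616) (nat_lit 200) (nat_lit 5) (nat_lit 206) (nat_lit 5) (nat_lit 207) (nat_lit 5) (nat_lit 456) (nat_lit 379) (nat_lit 305)) (XT.nd (nat_lit 78) (nat_lit 532) (nat_lit 0) (XT.lf (nat_lit 0) (nat_lit 1183602779) (nat_lit 532) (nat_lit 74201996) (nat_lit 76) (nat_lit 9151783227) (nat_lit 199) (nat_lit 5) (nat_lit 206) (nat_lit 5) (nat_lit 200) (nat_lit 5) (nat_lit 457) (nat_lit 379) (nat_lit 304)) (XT.lf (nat_lit 0) (nat_lit 4170836298) (nat_lit 608) (nat_lit 3779287108) (nat_lit 76) (nat_lit 2571415647) (nat_lit 192) (nat_lit 5) (nat_lit 200) (nat_lit 5) (nat_lit 193) (nat_lit 5) (nat_lit 458) (nat_lit 379) (nat_lit 303))))) (XT.nd (nat_lit 234) (nat_lit 988) (nat_lit 0) (XT.nd (nat_lit 78) (nat_lit 532) (nat_lit 0) (XT.lf (nat_lit 0) (nat_lit 3050604551) (nat_lit 456) (nat_lit 4166335054) (nat_lit 532) (nat_lit 3418812874) (nat_lit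 186) (nat_lit 5) (nat_lit 192) (nat_lit 5) (nat_lit 193) (nat_lit 5) (nat_lit 459) (nat_lit 379) (nat_lit 302)) (XT.nd (nat_lit 78) (nat_lit 532) (nat_lit 0) (XT.lf (nat_lit 0) (nat_lit 10027202428) (nat_lit 456) (nat_lit 292922756) (nat_lit 532) (nat_lit 432207530) (nat_lit 186) (nat_lit 5) (nat_lit 192) (nat_lit 5) (nat_lit 193) (nat_lit 5) (nat_lit 460) (nat_lit 379) (nat_lit 301)) (XT.lf (nat_lit 0) (nat_lit 2615961957) (nat_lit 532) (nat_lit 4597727134) (nat_lit 76) (nat_lit 3656499191) (nat_lit 179) (nat_lit 5) (nat_lit 186) (nat_lit 5) (nat_lit 180) (nat_lit 5) (nat_lit 461) (nat_lit 379) (nat_lit 300)))) (XT.nd (nat_lit 78) (nat_lit 532) (nat_lit 0) (XT.lf (nat_lit 0) (nat_lit 2415440821) (nat_lit 456) (nat_lit 3297794815) (nat_lit 532) (nat_lit 5277235037) (nat_lit 173) (nat_lit 5) (nat_lit 179) (nat_lit 5) (nat_lit 180) (nat_lit 5) (nat_lit 462) (nat_lit 379) (nat_lit 299)) (XT.nd (nat_lit 78) (nat_lit 532) (nat_lit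 0) (XT.lf (nat_lit 0) (nat_lit 8879652234) (nat_lit 532) (nat_lit 1527227612) (nat_lit 76) (nat_lit 706140222) (nat_lit 173) (nat_lit 5) (nat_lit 180) (nat_lit 5) (nat_lit 174) (nat_lit 5) (nat_lit 463) (nat_lit 379) (nat_lit 298)) (XT.lf (nat_lit 0) (nat_lit 890999965) (nat_lit 532) (nat_lit 5569515763) (nat_lit 76) (nat_lit 4776775641) (nat_lit 166) (nat_lit 5) (nat_lit 173) (nat_lit 5) (nat_lit 167) (nat_lit 5) (nat_lit 464) (nat_lit 379) (nat_lit 297))))))))
noncomputable def xc89 : XT := (XT.nd (nat_lit 1716) (nat_lit 2964) (nat_lit 0) (XT.nd (nat_lit 858) (nat_lit 2508) (nat_lit 0) (XT.nd (nat_lit 390) (nat_lit 1596) (nat_lit 0) (XT.nd (nat_lit 156) (nat_lit 912) (nat_lit 0) (XT.nd (nat_lit 78) (nat_lit 0) (nat_lit 0) (XT.lf (nat_lit 0) (nat_lit 1629595156) (nat_lit 380) (nat_lit 2411552688) (nat_lit 456) (nat_lit 7322746049) (nat_lit 161) (nat_lit 5) (nat_lit 166) (nat_lit 5) (nat_lit 167) (nat_lit 5) (nat_lit 465) (nat_lit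 379) (nat_lit 296)) (XT.lf (nat_lit 0) (nat_lit 7275550254) (nat_lit 456) (nat_lit 2496162373) (nat_lit 76) (nat_lit 1720895711) (nat_lit 161) (nat_lit 5) (nat_lit 167) (nat_lit 5) (nat_lit 162) (nat_lit 5) (nat_lit 466) (nat_lit 379) (nat_lit 295))) (XT.nd (nat_lit 78) (nat_lit 456) (nat_lit 0) (XT.lf (nat_lit 0) (nat_lit 4895102099) (nat_lit 456) (nat_lit 5700303911) (nat_lit 532) (nat_lit 1028080560) (nat_lit 155) (nat_lit 5) (nat_lit 161) (nat_lit 5) (nat_lit 162) (nat_lit 5) (nat_lit 467) (nat_lit 379) (nat_lit 294)) (XT.nd (nat_lit 78) (nat_lit 0) (nat_lit 0) (XT.lf (nat_lit 0) (nat_lit 665590964) (nat_lit 380) (nat_lit 1524194443) (nat_lit 456) (nat_lit 9567026978) (nat_lit 149) (nat_lit 5) (nat_lit 154) (nat_lit 5) (nat_lit 155) (nat_lit 5) (nat_lit 468) (nat_lit 379) (nat_lit 293)) (XT.lf (nat_lit 0) (nat_lit 5494753570) (nat_lit 456) (nat_lit 3658271820) (nat_lit 76) (nat_lit 2738917724) (nat_lit 149) (nat_lit 5) (nat_lit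 155) (nat_lit 5) (nat_lit 150) (nat_lit 5) (nat_lit 469) (nat_lit 379) (nat_lit 292))))) (XT.nd (nat_lit 234) (nat_lit 760) (nat_lit 0) (XT.nd (nat_lit 78) (nat_lit 456) (nat_lit 0) (XT.lf (nat_lit 0) (nat_lit 3925358583) (nat_lit 380) (nat_lit 4949854034) (nat_lit 456) (nat_lit 3154380449) (nat_lit 144) (nat_lit 5) (nat_lit 149) (nat_lit 5) (nat_lit 150) (nat_lit 5) (nat_lit 470) (nat_lit 379) (nat_lit 291)) (XT.nd (nat_lit 78) (nat_lit 380) (nat_lit 0) (XT.lf (nat_lit 0) (nat_lit 149881044) (nat_lit 456) (nat_lit 499870580) (nat_lit 76) (nat_lit 11520256625) (nat_lit 143) (nat_lit 5) (nat_lit 149) (nat_lit 5) (nat_lit 144) (nat_lit 5) (nat_lit 471) (nat_lit 379) (nat_lit 290)) (XT.lf (nat_lit 0) (nat_lit 3524411548) (nat_lit 456) (nat_lit 5044358192) (nat_lit 76) (nat_lit 3743120750) (nat_lit 138) (nat_lit 5) (nat_lit 144) (nat_lit 5) (nat_lit 139) (nat_lit 5) (nat_lit 472) (nat_lit 379) (nat_lit 289)))) (XT.nd (nat_lit 78)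 (nat_lit 380) (nat_lit 0) (XT.lf (nat_lit 0) (nat_lit 2733180867) (nat_lit 380) (nat_lit 4233251277) (nat_lit 456) (nat_lit 5490182344) (nat_lit 133) (nat_lit 5) (nat_lit 138) (nat_lit 5) (nat_lit 139) (nat_lit 5) (nat_lit 473) (nat_lit 379) (nat_lit 288)) (XT.nd (nat_lit 78) (nat_lit 380) (nat_lit 0) (XT.lf (nat_lit 0) (nat_lit 10487329630) (nat_lit 456) (nat_lit 1909379498) (nat_lit 76) (nat_lit 207327128) (nat_lit 133) (nat_lit 5) (nat_lit 139) (nat_lit 5) (nat_lit 134) (nat_lit 5) (nat_lit 474) (nat_lit 379) (nat_lit 287)) (XT.lf (nat_lit 0) (nat_lit 1349853687) (nat_lit 380) (nat_lit 6688105660) (nat_lit 76) (nat_lit 4715419365) (nat_lit 128) (nat_lit 5) (nat_lit 133) (nat_lit 5) (nat_lit 129) (nat_lit 5) (nat_lit 475) (nat_lit 379) (nat_lit 286)))))) (XT.nd (nat_lit 390) (nat_lit 1368) (nat_lit 0) (XT.nd (nat_lit 156) (nat_lit 760) (nat_lit 0) (XT.nd (nat_lit 78) (nat_lit 0) (nat_lit 0) (XT.lf (nat_lit 0) (nat_lit 1284253563)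 (nat_lit 380) (nat_lit 3569714550) (nat_lit 456) (nat_lit 8051532554) (nat_lit 123) (nat_lit 5) (nat_lit 128) (nat_lit 5) (nat_lit 129) (nat_lit 5) (nat_lit 476) (nat_lit 379) (nat_lit 285)) (XT.lf (nat_lit 0) (nat_lit 8455208456) (nat_lit 456) (nat_lit 3598247897) (nat_lit 76) (nat_lit 1006671548) (nat_lit 123) (nat_lit 5) (nat_lit 129) (nat_lit 5) (nat_lit 124) (nat_lit 5) (nat_lit 477) (nat_lit 379) (nat_lit 284))) (XT.nd (nat_lit 78) (nat_lit 456) (nat_lit 0) (XT.lf (nat_lit 0) (nat_lit 4583956727) (nat_lit 304) (nat_lit 7573852426) (nat_lit 380) (nat_lit 1059455458) (nat_lit 119) (nat_lit 5) (nat_lit 123) (nat_lit 5) (nat_lit 124) (nat_lit 5) (nat_lit 478) (nat_lit 379) (nat_lit 283)) (XT.nd (nat_lit 78) (nat_lit 380) (nat_lit 0) (XT.lf (nat_lit 0) (nat_lit 2523689512) (nat_lit 380) (nat_lit 453049297) (nat_lit 76) (nat_lit 10400470600) (nat_lit 118) (nat_lit 5) (nat_lit 123) (nat_lit 5) (nat_lit 119) (nat_lit 5) (nat_lit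 479) (nat_lit 379) (nat_lit 282)) (XT.lf (nat_lit 0) (nat_lit 6203836400) (nat_lit 456) (nat_lit 5600061504) (nat_lit 76) (nat_lit 1735528067) (nat_lit 113) (nat_lit 5) (nat_lit 119) (nat_lit 5) (nat_lit 114) (nat_lit 5) (nat_lit 480) (nat_lit 379) (nat_lit 281))))) (XT.nd (nat_lit 234) (nat_lit 684) (nat_lit 0) (XT.nd (nat_lit 78) (nat_lit 380) (nat_lit 0) (XT.lf (nat_lit 0) (nat_lit 2780470121) (nat_lit 304) (nat_lit 7194547810) (nat_lit 380) (nat_lit 3729523664) (nat_lit 109) (nat_lit 5) (nat_lit 113) (nat_lit 5) (nat_lit 114) (nat_lit 5) (nat_lit 481) (nat_lit 379) (nat_lit 280)) (XT.nd (nat_lit 78) (nat_lit 380) (nat_lit 0) (XT.lf (nat_lit 0) (nat_lit 11367563192) (nat_lit 304) (nat_lit 2468463230) (nat_lit 380) (nat_lit 36648340) (nat_lit 109) (nat_lit 5) (nat_lit 113) (nat_lit 5) (nat_lit 114) (nat_lit 5) (nat_lit 482) (nat_lit 379) (nat_lit 279)) (XT.lf (nat_lit 0) (nat_lit 3713509088) (nat_lit 380) (nat_lit 7957470771)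 (nat_lit 76) (nat_lit 2372062635) (nat_lit 104) (nat_lit 5) (nat_lit 109) (nat_lit 5) (nat_lit 105) (nat_lit 5) (nat_lit 483) (nat_lit 379) (nat_lit 278)))) (XT.nd (nat_lit 78) (nat_lit 380) (nat_lit 0) (XT.lf (nat_lit 0) (nat_lit 620309398) (nat_lit 304) (nat_lit 6932415872) (nat_lit 380) (nat_lit 6663799647) (nat_lit 100) (nat_lit 5) (nat_lit 104) (nat_lit 5) (nat_lit 105) (nat_lit 5) (nat_lit 484) (nat_lit 379) (nat_lit 277)) (XT.nd (nat_lit 78) (nat_lit 380) (nat_lit 0) (XT.lf (nat_lit 0) (nat_lit 9441082665) (nat_lit 304) (nat_lit 2058500532) (nat_lit 380) (nat_lit 2893279689) (nat_lit 100) (nat_lit 5) (nat_lit 104) (nat_lit 5) (nat_lit 105) (nat_lit 5) (nat_lit 485) (nat_lit 379) (nat_lit 276)) (XT.lf (nat_lit 0) (nat_lit 962091979) (nat_lit 380) (nat_lit 10717422998) (nat_lit 76) (nat_lit 2892653151) (nat_lit 95) (nat_lit 5) (nat_lit 100) (nat_lit 5) (nat_lit 96) (nat_lit 5) (nat_lit 486) (nat_lit 379) (nat_lit 275)))))))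 (XT.nd (nat_lit 858) (nat_lit 1292) (nat_lit 0) (XT.nd (nat_lit 390) (nat_lit 836) (nat_lit 0) (XT.nd (nat_lit 156) (nat_lit 608) (nat_lit 0) (XT.nd (nat_lit 78) (nat_lit 228) (nat_lit 0) (XT.lf (nat_lit 0) (nat_lit 4880813958) (nat_lit 380) (nat_lit 1919014661) (nat_lit 76) (nat_lit 7954351559) (nat_lit 95) (nat_lit 5) (nat_lit 100) (nat_lit 5) (nat_lit 96) (nat_lit 5) (nat_lit 487) (nat_lit 379) (nat_lit 274)) (XT.lf (nat_lit 0) (nat_lit 7113231450) (nat_lit 228) (nat_lit 1789162853) (nat_lit 304) (nat_lit 6036951302) (nat_lit 92) (nat_lit 5) (nat_lit 95) (nat_lit 5) (nat_lit 96) (nat_lit 5) (nat_lit 488) (nat_lit 379) (nat_lit 273))) (XT.nd (nat_lit 78) (nat_lit 304) (nat_lit 0) (XT.lf (nat_lit 0) (nat_lit 1182502485) (nat_lit 304) (nat_lit 11842519299) (nat_lit 380) (nat_lit 2102783006) (nat_lit 88) (nat_lit 5) (nat_lit 92) (nat_lit 5) (nat_lit 93) (nat_lit 5) (nat_lit 489) (nat_lit 379) (nat_lit 272)) (XT.nd (nat_lit 78)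 (nat_lit 228) (nat_lit 0) (XT.lf (nat_lit 0) (nat_lit 1928189745) (nat_lit 380) (nat_lit 4901792095) (nat_lit 76) (nat_lit 8488942503) (nat_lit 87) (nat_lit 5) (nat_lit 92) (nat_lit 5) (nat_lit 88) (nat_lit 5) (nat_lit 490) (nat_lit 379) (nat_lit 271)) (XT.lf (nat_lit 0) (nat_lit 4330568802) (nat_lit 228) (nat_lit 1688080600) (nat_lit 304) (nat_lit 9494801022) (nat_lit 84) (nat_lit 5) (nat_lit 87) (nat_lit 5) (nat_lit 88) (nat_lit 5) (nat_lit 491) (nat_lit 379) (nat_lit 270))))) (XT.nd (nat_lit 234) (nat_lit 228) (nat_lit 0) (XT.nd (nat_lit 78) (nat_lit 608) (nat_lit 0) (XT.lf (nat_lit 0) (nat_lit 10226102281) (nat_lit 304) (nat_lit 1955489648) (nat_lit 76) (nat_lit 3529573969) (nat_lit 84) (nat_lit 5) (nat_lit 88) (nat_lit 5) (nat_lit 85) (nat_lit 5) (nat_lit 492) (nat_lit 379) (nat_lit 269)) (XT.nd (nat_lit 78) (nat_lit 304) (nat_lit 0) (XT.lf (nat_lit 0) (nat_lit 7509452303) (nat_lit 304) (nat_lit 7047580147) (nat_lit 380)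 (nat_lit 1355019166) (nat_lit 80) (nat_lit 5) (nat_lit 84) (nat_lit 5) (nat_lit 85) (nat_lit 5) (nat_lit 493) (nat_lit 379) (nat_lit 268)) (XT.lf (nat_lit 0) (nat_lit 1034072911) (nat_lit 228) (nat_lit 1785435795) (nat_lit 304) (nat_lit 13297090456) (nat_lit 76) (nat_lit 5) (nat_lit 79) (nat_lit 5) (nat_lit 80) (nat_lit 5) (nat_lit 494) (nat_lit 379) (nat_lit 267)))) (XT.nd (nat_lit 78) (nat_lit 228) (nat_lit 0) (XT.lf (nat_lit 0) (nat_lit 7118946048) (nat_lit 304) (nat_lit 5617786350) (nat_lit 76) (nat_lit 3587137229) (nat_lit 76) (nat_lit 5) (nat_lit 80) (nat_lit 5) (nat_lit 77) (nat_lit 5) (nat_lit 495) (nat_lit 379) (nat_lit 266)) (XT.nd (nat_lit 78) (nat_lit 0) (nat_lit 0) (XT.lf (nat_lit 0) (nat_lit 4043682426) (nat_lit 228) (nat_lit 7478699405) (nat_lit 304) (nat_lit 5012545788) (nat_lit 73) (nat_lit 5) (nat_lit 76) (nat_lit 5) (nat_lit 77) (nat_lit 5) (nat_lit 496) (nat_lit 379) (nat_lit 265)) (XT.lf (nat_lit 0) (nat_lit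 13940977892) (nat_lit 228) (nat_lit 2090713741) (nat_lit 304) (nat_lit 718161295) (nat_lit 73) (nat_lit 5) (nat_lit 76) (nat_lit 5) (nat_lit 77) (nat_lit 5) (nat_lit 497) (nat_lit 379) (nat_lit 264)))))) (XT.nd (nat_lit 468) (nat_lit 228) (nat_lit 0) (XT.nd (nat_lit 234) (nat_lit 532) (nat_lit 0) (XT.nd (nat_lit 78) (nat_lit 228) (nat_lit 0) (XT.lf (nat_lit 0) (nat_lit 3663049945) (nat_lit 304) (nat_lit 9887187304) (nat_lit 76) (nat_lit 3417386767) (nat_lit 69) (nat_lit 5) (nat_lit 73) (nat_lit 5) (nat_lit 70) (nat_lit 5) (nat_lit 498) (nat_lit 379) (nat_lit 263)) (XT.nd (nat_lit 78) (nat_lit 228) (nat_lit 0) (XT.lf (nat_lit 0) (nat_lit 8135547189) (nat_lit 304) (nat_lit 35734661) (nat_lit 76) (nat_lit 9018110311) (nat_lit 69) (nat_lit 5) (nat_lit 73) (nat_lit 5) (nat_lit 70) (nat_lit 5) (nat_lit 499) (nat_lit 379) (nat_lit 262)) (XT.lf (nat_lit 0) (nat_lit 10112785680) (nat_lit 228) (nat_lit 2631200278) (nat_lit 304) (nat_lit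 4670681968) (nat_lit 66) (nat_lit 5) (nat_lit 69) (nat_lit 5) (nat_lit 70) (nat_lit 5) (nat_lit 500) (nat_lit 379) (nat_lit 261)))) (XT.nd (nat_lit 78) (nat_lit 304) (nat_lit 0) (XT.lf (nat_lit 0) (nat_lit 2804821605) (nat_lit 228) (nat_lit 14658741266) (nat_lit 304) (nat_lit 180509001) (nat_lit 63) (nat_lit 5) (nat_lit 66) (nat_lit 5) (nat_lit 67) (nat_lit 5) (nat_lit 501) (nat_lit 379) (nat_lit 260)) (XT.nd (nat_lit 78) (nat_lit 228) (nat_lit 0) (XT.lf (nat_lit 0) (nat_lit 4389464422) (nat_lit 304) (nat_lit 4743472747) (nat_lit 76) (nat_lit 8743603475) (nat_lit 62) (nat_lit 5) (nat_lit 66) (nat_lit 5) (nat_lit 63) (nat_lit 5) (nat_lit 502) (nat_lit 379) (nat_lit 259)) (XT.lf (nat_lit 0) (nat_lit 5594323514) (nat_lit 228) (nat_lit 3471742342) (nat_lit 304) (nat_lit 9047218096) (nat_lit 59) (nat_lit 5) (nat_lit 62) (nat_lit 5) (nat_lit 63) (nat_lit 5) (nat_lit 503) (nat_lit 379) (nat_lit 258))))) (XT.nd (nat_lit 49764) (nat_lit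 0) (nat_lit 50160) (XT.nd (nat_lit 78) (nat_lit 228) (nat_lit 0) (XT.lf (nat_lit 0) (nat_lit 13864585827) (nat_lit 304) (nat_lit 2198258687) (nat_lit 76) (nat_lit 2291351774) (nat_lit 59) (nat_lit 5) (nat_lit 63) (nat_lit 5) (nat_lit 60) (nat_lit 5) (nat_lit 504) (nat_lit 379) (nat_lit 257)) (XT.nd (nat_lit 49608) (nat_lit 0) (nat_lit 50388) (XT.lf (nat_lit 0) (nat_lit 216639192) (nat_lit 228) (nat_lit 10215859354) (nat_lit 76) (nat_lit 8166217939) (nat_lit 56) (nat_lit 5) (nat_lit 59) (nat_lit 5) (nat_lit 57) (nat_lit 5) (nat_lit 505) (nat_lit 379) (nat_lit 256)) (XT.lf (nat_lit 0) (nat_lit 1073741823) (nat_lit 0) (nat_lit 0) (nat_lit 0) (nat_lit 0) (nat_lit 719) (nat_lit 0) (nat_lit 1) (nat_lit 0) (nat_lit 1) (nat_lit 0) (nat_lit 380) (nat_lit 380) (nat_lit 380)))) (XT.nd (nat_lit 78) (nat_lit 152) (nat_lit 0) (XT.lf (nat_lit 0) (nat_lit 3113902738) (nat_lit 76) (nat_lit 3287871652) (nat_lit 0) (nat_lit 41106283) (nat_lit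 718) (nat_lit 5) (nat_lit 719) (nat_lit 0) (nat_lit 718) (nat_lit 4) (nat_lit 381) (nat_lit 380) (nat_lit 379)) (XT.nd (nat_lit 78) (nat_lit 152) (nat_lit 0) (XT.lf (nat_lit 0) (nat_lit 6208676970) (nat_lit 76) (nat_lit 112980220) (nat_lit 0) (nat_lit 123334971) (nat_lit 718) (nat_lit 5) (nat_lit 719) (nat_lit 0) (nat_lit 718) (nat_lit 4) (nat_lit 382) (nat_lit 380) (nat_lit 378)) (XT.lf (nat_lit 0) (nat_lit 2819965931) (nat_lit 152) (nat_lit 3342486840) (nat_lit 76) (nat_lit 285556692) (nat_lit 716) (nat_lit 5) (nat_lit 718) (nat_lit 5) (nat_lit 717) (nat_lit 4) (nat_lit 383) (nat_lit 380) (nat_lit 377))))))))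
noncomputable def xc90 : XT := (XT.nd (nat_lit 1716) (nat_lit 18620) (nat_lit 0) (XT.nd (nat_lit 858) (nat_lit 5092) (nat_lit 0) (XT.nd (nat_lit 390) (nat_lit 1596) (nat_lit 0) (XT.nd (nat_lit 156) (nat_lit 608) (nat_lit 0) (XT.nd (nat_lit 78) (nat_lit 228) (nat_lit 0) (XT.lf (nat_lit 0) (nat_lit 5855895904) (nat_lit 152) (nat_lit 105473025) (nat_lit 76) (nat_lit 491295628) (nat_lit 716) (nat_lit 5) (nat_lit 718) (nat_lit 5) (nat_lit 717) (nat_lit 4) (nat_lit 384) (nat_lit 380) (nat_lit 376)) (XT.lf (nat_lit 0) (nat_lit 2405214861) (nat_lit 228) (nat_lit 3278132439) (nat_lit 76) (nat_lit 774926089) (nat_lit 713) (nat_lit 5) (nat_lit 716) (nat_lit 5) (nat_lit 714) (nat_lit 5) (nat_lit 385) (nat_lit 380) (nat_lit 375))) (XT.nd (nat_lit 78) (nat_lit 380) (nat_lit 0) (XT.lf (nat_lit 0) (nat_lit 22550830) (nat_lit 228) (nat_lit 5360739122) (nat_lit 304) (nat_lit 1082184687) (nat_lit 710) (nat_lit 5) (nat_lit 713) (nat_lit 5) (nat_lit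 714) (nat_lit 5) (nat_lit 386) (nat_lit 380) (nat_lit 374)) (XT.nd (nat_lit 78) (nat_lit 304) (nat_lit 0) (XT.lf (nat_lit 0) (nat_lit 1868568427) (nat_lit 304) (nat_lit 3094964365) (nat_lit 76) (nat_lit 1510152357) (nat_lit 709) (nat_lit 5) (nat_lit 713) (nat_lit 5) (nat_lit 710) (nat_lit 5) (nat_lit 387) (nat_lit 380) (nat_lit 373)) (XT.lf (nat_lit 0) (nat_lit 273756234) (nat_lit 304) (nat_lit 4517241545) (nat_lit 380) (nat_lit 1692413671) (nat_lit 705) (nat_lit 5) (nat_lit 709) (nat_lit 5) (nat_lit 710) (nat_lit 5) (nat_lit 388) (nat_lit 380) (nat_lit 372))))) (XT.nd (nat_lit 234) (nat_lit 1064) (nat_lit 0) (XT.nd (nat_lit 78) (nat_lit 456) (nat_lit 0) (XT.lf (nat_lit 0) (nat_lit 1208707895) (nat_lit 380) (nat_lit 2792911782) (nat_lit 76) (nat_lit 2492644136) (nat_lit 704) (nat_lit 5) (nat_lit 709) (nat_lit 5) (nat_lit 705) (nat_lit 5) (nat_lit 389) (nat_lit 380) (nat_lit 371)) (XT.nd (nat_lit 78) (nat_lit 76) (nat_lit 0)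 (XT.lf (nat_lit 0) (nat_lit 646932837) (nat_lit 380) (nat_lit 3429956000) (nat_lit 456) (nat_lit 2429622190) (nat_lit 699) (nat_lit 5) (nat_lit 704) (nat_lit 5) (nat_lit 705) (nat_lit 5) (nat_lit 390) (nat_lit 380) (nat_lit 370)) (XT.lf (nat_lit 0) (nat_lit 424073624) (nat_lit 456) (nat_lit 2371678229) (nat_lit 76) (nat_lit 3724283010) (nat_lit 698) (nat_lit 5) (nat_lit 704) (nat_lit 5) (nat_lit 699) (nat_lit 5) (nat_lit 391) (nat_lit 380) (nat_lit 369)))) (XT.nd (nat_lit 78) (nat_lit 608) (nat_lit 0) (XT.lf (nat_lit 0) (nat_lit 1142501058) (nat_lit 456) (nat_lit 2096785057) (nat_lit 532) (nat_lit 3295515815) (nat_lit 692) (nat_lit 5) (nat_lit 698) (nat_lit 5) (nat_lit 699) (nat_lit 5) (nat_lit 392) (nat_lit 380) (nat_lit 368)) (XT.nd (nat_lit 78) (nat_lit 608) (nat_lit 0) (XT.lf (nat_lit 0) (nat_lit 4717018855) (nat_lit 456) (nat_lit 1340334848) (nat_lit 532) (nat_lit 493612422) (nat_lit 692) (nat_lit 5) (nat_lit 698) (nat_lit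 5) (nat_lit 699) (nat_lit 5) (nat_lit 393) (nat_lit 380) (nat_lit 367)) (XT.lf (nat_lit 0) (nat_lit 1761109776) (nat_lit 532) (nat_lit 515158580) (nat_lit 608) (nat_lit 4292050801) (nat_lit 684) (nat_lit 5) (nat_lit 691) (nat_lit 5) (nat_lit 692) (nat_lit 5) (nat_lit 394) (nat_lit 380) (nat_lit 366)))))) (XT.nd (nat_lit 390) (nat_lit 2888) (nat_lit 0) (XT.nd (nat_lit 156) (nat_lit 1520) (nat_lit 0) (XT.nd (nat_lit 78) (nat_lit 684) (nat_lit 0) (XT.lf (nat_lit 0) (nat_lit 5042201401) (nat_lit 608) (nat_lit 1181793052) (nat_lit 76) (nat_lit 363045167) (nat_lit 684) (nat_lit 5) (nat_lit 692) (nat_lit 5) (nat_lit 685) (nat_lit 5) (nat_lit 395) (nat_lit 380) (nat_lit 365)) (XT.lf (nat_lit 0) (nat_lit 1194222930) (nat_lit 684) (nat_lit 4112025291) (nat_lit 76) (nat_lit 1300684831) (nat_lit 675) (nat_lit 5) (nat_lit 684) (nat_lit 5) (nat_lit 676) (nat_lit 5) (nat_lit 396) (nat_lit 380) (nat_lit 364))) (XT.nd (nat_lit 78) (nat_lit 1520)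 (nat_lit 0) (XT.lf (nat_lit 0) (nat_lit 3910009198) (nat_lit 684) (nat_lit 419428944) (nat_lit 76) (nat_lit 2298758523) (nat_lit 675) (nat_lit 5) (nat_lit 684) (nat_lit 5) (nat_lit 676) (nat_lit 5) (nat_lit 397) (nat_lit 380) (nat_lit 363)) (XT.nd (nat_lit 78) (nat_lit 836) (nat_lit 0) (XT.lf (nat_lit 0) (nat_lit 3348541868) (nat_lit 684) (nat_lit 3289219071) (nat_lit 760) (nat_lit 13000174) (nat_lit 666) (nat_lit 5) (nat_lit 675) (nat_lit 5) (nat_lit 676) (nat_lit 5) (nat_lit 398) (nat_lit 380) (nat_lit 362)) (XT.lf (nat_lit 0) (nat_lit 469153337) (nat_lit 760) (nat_lit 2183445193) (nat_lit 836) (nat_lit 4022002638) (nat_lit 655) (nat_lit 5) (nat_lit 665) (nat_lit 5) (nat_lit 666) (nat_lit 5) (nat_lit 399) (nat_lit 380) (nat_lit 361))))) (XT.nd (nat_lit 234) (nat_lit 1976) (nat_lit 0) (XT.nd (nat_lit 78) (nat_lit 912) (nat_lit 0) (XT.lf (nat_lit 0) (nat_lit 4317924076) (nat_lit 760) (nat_lit 1012985648) (nat_lit 836) (nat_lit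 1368841997) (nat_lit 655) (nat_lit 5) (nat_lit 665) (nat_lit 5) (nat_lit 666) (nat_lit 5) (nat_lit 400) (nat_lit 380) (nat_lit 360)) (XT.nd (nat_lit 78) (nat_lit 0) (nat_lit 0) (XT.lf (nat_lit 0) (nat_lit 1269122112) (nat_lit 912) (nat_lit 5241358468) (nat_lit 76) (nat_lit 215791301) (nat_lit 643) (nat_lit 5) (nat_lit 655) (nat_lit 5) (nat_lit 644) (nat_lit 5) (nat_lit 401) (nat_lit 380) (nat_lit 359)) (XT.lf (nat_lit 0) (nat_lit 3903597320) (nat_lit 912) (nat_lit 1351401929) (nat_lit 76) (nat_lit 1498925980) (nat_lit 643) (nat_lit 5) (nat_lit 655) (nat_lit 5) (nat_lit 644) (nat_lit 5) (nat_lit 402) (nat_lit 380) (nat_lit 358)))) (XT.nd (nat_lit 78) (nat_lit 1064) (nat_lit 0) (XT.lf (nat_lit 0) (nat_lit 2607616628) (nat_lit 912) (nat_lit 3940532442) (nat_lit 988) (nat_lit 234859691) (nat_lit 631) (nat_lit 5) (nat_lit 643) (nat_lit 5) (nat_lit 644) (nat_lit 5) (nat_lit 403) (nat_lit 380) (nat_lit 357)) (XT.nd (nat_lit 78) (nat_lit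 988) (nat_lit 0) (XT.lf (nat_lit 0) (nat_lit 2351073169) (nat_lit 988) (nat_lit 207677438) (nat_lit 76) (nat_lit 4254630063) (nat_lit 630) (nat_lit 5) (nat_lit 643) (nat_lit 5) (nat_lit 631) (nat_lit 5) (nat_lit 404) (nat_lit 380) (nat_lit 356)) (XT.lf (nat_lit 0) (nat_lit 3845662115) (nat_lit 988) (nat_lit 1106982231) (nat_lit 1064) (nat_lit 1892366759) (nat_lit 617) (nat_lit 5) (nat_lit 630) (nat_lit 5) (nat_lit 631) (nat_lit 5) (nat_lit 405) (nat_lit 380) (nat_lit 355))))))) (XT.nd (nat_lit 858) (nat_lit 9272) (nat_lit 0) (XT.nd (nat_lit 390) (nat_lit 5776) (nat_lit 0) (XT.nd (nat_lit 156) (nat_lit 2432) (nat_lit 0) (XT.nd (nat_lit 78) (nat_lit 0) (nat_lit 0) (XT.lf (nat_lit 0) (nat_lit 672934018) (nat_lit 1140) (nat_lit 5808954392) (nat_lit 76) (nat_lit 396243159) (nat_lit 602) (nat_lit 5) (nat_lit 617) (nat_lit 5) (nat_lit 603) (nat_lit 5) (nat_lit 406) (nat_lit 380) (nat_lit 354)) (XT.lf (nat_lit 0) (nat_lit 3235307951)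 (nat_lit 1140) (nat_lit 1715853609) (nat_lit 76) (nat_lit 1961102667) (nat_lit 602) (nat_lit 5) (nat_lit 617) (nat_lit 5) (nat_lit 603) (nat_lit 5) (nat_lit 407) (nat_lit 380) (nat_lit 353))) (XT.nd (nat_lit 78) (nat_lit 1292) (nat_lit 0) (XT.lf (nat_lit 0) (nat_lit 2448003416) (nat_lit 1140) (nat_lit 3361418767) (nat_lit 1216) (nat_lit 1138469142) (nat_lit 587) (nat_lit 5) (nat_lit 602) (nat_lit 5) (nat_lit 603) (nat_lit 5) (nat_lit 408) (nat_lit 380) (nat_lit 352)) (XT.nd (nat_lit 78) (nat_lit 1216) (nat_lit 0) (XT.lf (nat_lit 0) (nat_lit 1388374783) (nat_lit 1216) (nat_lit 318778876) (nat_lit 76) (nat_lit 5277777430) (nat_lit 586) (nat_lit 5) (nat_lit 602) (nat_lit 5) (nat_lit 587) (nat_lit 5) (nat_lit 409) (nat_lit 380) (nat_lit 351)) (XT.lf (nat_lit 0) (nat_lit 3922419432) (nat_lit 1292) (nat_lit 3075948925) (nat_lit 76) (nat_lit 24775019) (nat_lit 570) (nat_lit 5) (nat_lit 587) (nat_lit 5) (nat_lit 571) (nat_lit 5) (nat_lit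 410) (nat_lit 380) (nat_lit 350))))) (XT.nd (nat_lit 234) (nat_lit 3040) (nat_lit 0) (XT.nd (nat_lit 78) (nat_lit 1444) (nat_lit 0) (XT.lf (nat_lit 0) (nat_lit 1201477284) (nat_lit 1292) (nat_lit 5273878589) (nat_lit 1368) (nat_lit 587419814) (nat_lit 553) (nat_lit 5) (nat_lit 570) (nat_lit 5) (nat_lit 571) (nat_lit 5) (nat_lit 411) (nat_lit 380) (nat_lit 349)) (XT.nd (nat_lit 78) (nat_lit 1368) (nat_lit 0) (XT.lf (nat_lit 0) (nat_lit 1918354605) (nat_lit 1368) (nat_lit 1553730961) (nat_lit 76) (nat_lit 3631515249) (nat_lit 552) (nat_lit 5) (nat_lit 570) (nat_lit 5) (nat_lit 553) (nat_lit 5) (nat_lit 412) (nat_lit 380) (nat_lit 348)) (XT.lf (nat_lit 0) (nat_lit 2829954879) (nat_lit 1368) (nat_lit 1603181694) (nat_lit 1444) (nat_lit 2712711904) (nat_lit 534) (nat_lit 5) (nat_lit 552) (nat_lit 5) (nat_lit 553) (nat_lit 5) (nat_lit 413) (nat_lit 380) (nat_lit 347)))) (XT.nd (nat_lit 78) (nat_lit 1596) (nat_lit 0) (XT.lf (nat_lit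 0) (nat_lit 88708341) (nat_lit 1444) (nat_lit 6871706056) (nat_lit 1520) (nat_lit 229301163) (nat_lit 515) (nat_lit 5) (nat_lit 534) (nat_lit 5) (nat_lit 535) (nat_lit 5) (nat_lit 414) (nat_lit 380) (nat_lit 346)) (XT.nd (nat_lit 78) (nat_lit 1520) (nat_lit 0) (XT.lf (nat_lit 0) (nat_lit 2262857899) (nat_lit 1520) (nat_lit 2664201793) (nat_lit 76) (nat_lit 2307333002) (nat_lit 514) (nat_lit 5) (nat_lit 534) (nat_lit 5) (nat_lit 515) (nat_lit 5) (nat_lit 415) (nat_lit 380) (nat_lit 345)) (XT.lf (nat_lit 0) (nat_lit 1840369844) (nat_lit 1520) (nat_lit 2923885209) (nat_lit 1596) (nat_lit 2516446106) (nat_lit 494) (nat_lit 5) (nat_lit 514) (nat_lit 5) (nat_lit 515) (nat_lit 5) (nat_lit 416) (nat_lit 380) (nat_lit 344)))))) (XT.nd (nat_lit 468) (nat_lit 2812) (nat_lit 0) (XT.nd (nat_lit 234) (nat_lit 3116) (nat_lit 0) (XT.nd (nat_lit 78) (nat_lit 3344) (nat_lit 0) (XT.lf (nat_lit 0) (nat_lit 6427845509) (nat_lit 1520) (nat_lit 856915502)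 (nat_lit 1596) (nat_lit 43810228) (nat_lit 494) (nat_lit 5) (nat_lit 514) (nat_lit 5) (nat_lit 515) (nat_lit 5) (nat_lit 417) (nat_lit 380) (nat_lit 343)) (XT.nd (nat_lit 78) (nat_lit 1672) (nat_lit 0) (XT.lf (nat_lit 0) (nat_lit 2430173525) (nat_lit 1672) (nat_lit 3666747015) (nat_lit 76) (nat_lit 1280484807) (nat_lit 472) (nat_lit 5) (nat_lit 494) (nat_lit 5) (nat_lit 473) (nat_lit 5) (nat_lit 418) (nat_lit 380) (nat_lit 342)) (XT.lf (nat_lit 0) (nat_lit 962176481) (nat_lit 1672) (nat_lit 3961403873) (nat_lit 1748) (nat_lit 2504235469) (nat_lit 450) (nat_lit 5) (nat_lit 472) (nat_lit 5) (nat_lit 473) (nat_lit 5) (nat_lit 419) (nat_lit 380) (nat_lit 341)))) (XT.nd (nat_lit 78) (nat_lit 3116) (nat_lit 0) (XT.lf (nat_lit 0) (nat_lit 5689848533) (nat_lit 1672) (nat_lit 1754783934) (nat_lit 1748) (nat_lit 35062266) (nat_lit 450) (nat_lit 5) (nat_lit 472) (nat_lit 5) (nat_lit 473) (nat_lit 5) (nat_lit 420) (nat_lit 380) (nat_lit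 340)) (XT.nd (nat_lit 78) (nat_lit 1292) (nat_lit 0) (XT.lf (nat_lit 0) (nat_lit 2427377021) (nat_lit 1824) (nat_lit 4577482990) (nat_lit 76) (nat_lit 527914791) (nat_lit 426) (nat_lit 5) (nat_lit 450) (nat_lit 5) (nat_lit 427) (nat_lit 5) (nat_lit 421) (nat_lit 380) (nat_lit 339)) (XT.lf (nat_lit 0) (nat_lit 179369530) (nat_lit 1292) (nat_lit 4738516659) (nat_lit 1368) (nat_lit 2669454691) (nat_lit 409) (nat_lit 5) (nat_lit 426) (nat_lit 5) (nat_lit 427) (nat_lit 5) (nat_lit 422) (nat_lit 380) (nat_lit 338))))) (XT.nd (nat_lit 234) (nat_lit 1824) (nat_lit 0) (XT.nd (nat_lit 78) (nat_lit 988) (nat_lit 0) (XT.lf (nat_lit 0) (nat_lit 5049729080) (nat_lit 1292) (nat_lit 2394218145) (nat_lit 1368) (nat_lit 199350787) (nat_lit 409) (nat_lit 5) (nat_lit 426) (nat_lit 5) (nat_lit 427) (nat_lit 5) (nat_lit 423) (nat_lit 380) (nat_lit 337)) (XT.nd (nat_lit 78) (nat_lit 0) (nat_lit 0) (XT.lf (nat_lit 0) (nat_lit 2260370284) (nat_lit 988)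 (nat_lit 5412215647) (nat_lit 76) (nat_lit 28088188) (nat_lit 396) (nat_lit 5) (nat_lit 409) (nat_lit 5) (nat_lit 397) (nat_lit 5) (nat_lit 424) (nat_lit 380) (nat_lit 336)) (XT.lf (nat_lit 0) (nat_lit 4756189148) (nat_lit 988) (nat_lit 516893097) (nat_lit 76) (nat_lit 2486311418) (nat_lit 396) (nat_lit 5) (nat_lit 409) (nat_lit 5) (nat_lit 397) (nat_lit 5) (nat_lit 425) (nat_lit 380) (nat_lit 335)))) (XT.nd (nat_lit 78) (nat_lit 988) (nat_lit 0) (XT.lf (nat_lit 0) (nat_lit 4492078599) (nat_lit 836) (nat_lit 2796065230) (nat_lit 912) (nat_lit 531432838) (nat_lit 385) (nat_lit 5) (nat_lit 396) (nat_lit 5) (nat_lit 397) (nat_lit 5) (nat_lit 426) (nat_lit 380) (nat_lit 334)) (XT.nd (nat_lit 78) (nat_lit 0) (nat_lit 0) (XT.lf (nat_lit 0) (nat_lit 1693138530) (nat_lit 912) (nat_lit 242347882) (nat_lit 988) (nat_lit 5945795303) (nat_lit 372) (nat_lit 5) (nat_lit 384) (nat_lit 5) (nat_lit 385) (nat_lit 5) (nat_lit 427) (nat_lit 380)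 (nat_lit 333)) (XT.lf (nat_lit 0) (nat_lit 4440323846) (nat_lit 988) (nat_lit 1147517139) (nat_lit 76) (nat_lit 2356408390) (nat_lit 372) (nat_lit 5) (nat_lit 385) (nat_lit 5) (nat_lit 373) (nat_lit 5) (nat_lit 428) (nat_lit 380) (nat_lit 332))))))))
noncomputable def xc91 : XT := (XT.nd (nat_lit 1716) (nat_lit 6840) (nat_lit 0) (XT.nd (nat_lit 858) (nat_lit 5320) (nat_lit 0) (XT.nd (nat_lit 390) (nat_lit 2280) (nat_lit 0) (XT.nd (nat_lit 156) (nat_lit 1596) (nat_lit 0) (XT.nd (nat_lit 78) (nat_lit 912) (nat_lit 0) (XT.lf (nat_lit 0) (nat_lit 4001631948) (nat_lit 836) (nat_lit 2979911635) (nat_lit 912) (nat_lit 1027219525) (nat_lit 361) (nat_lit 5) (nat_lit 372) (nat_lit 5) (nat_lit 373) (nat_lit 5) (nat_lit 429) (nat_lit 380) (nat_lit 331)) (XT.lf (nat_lit 0) (nat_lit 1156854373) (nat_lit 836) (nat_lit 296717532) (nat_lit 912) (nat_lit 6621328281) (nat_lit 349) (nat_lit 5) (nat_lit 360) (nat_lit 5) (nat_lit 361) (nat_lit 5)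 (nat_lit 430) (nat_lit 380) (nat_lit 330))) (XT.nd (nat_lit 78) (nat_lit 1596) (nat_lit 0) (XT.lf (nat_lit 0) (nat_lit 3972605006) (nat_lit 912) (nat_lit 1730168288) (nat_lit 76) (nat_lit 2439415021) (nat_lit 349) (nat_lit 5) (nat_lit 361) (nat_lit 5) (nat_lit 350) (nat_lit 5) (nat_lit 431) (nat_lit 380) (nat_lit 329)) (XT.nd (nat_lit 78) (nat_lit 836) (nat_lit 0) (XT.lf (nat_lit 0) (nat_lit 3563135337) (nat_lit 760) (nat_lit 2964234062) (nat_lit 836) (nat_lit 1683757279) (nat_lit 339) (nat_lit 5) (nat_lit 349) (nat_lit 5) (nat_lit 350) (nat_lit 5) (nat_lit 432) (nat_lit 380) (nat_lit 328)) (XT.lf (nat_lit 0) (nat_lit 664301231) (nat_lit 760) (nat_lit 152794793) (nat_lit 836) (nat_lit 7464718573) (nat_lit 328) (nat_lit 5) (nat_lit 338) (nat_lit 5) (nat_lit 339) (nat_lit 5) (nat_lit 433) (nat_lit 380) (nat_lit 327))))) (XT.nd (nat_lit 234) (nat_lit 684) (nat_lit 0) (XT.nd (nat_lit 78) (nat_lit 1596) (nat_lit 0) (XT.lf (nat_lit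 0) (nat_lit 3355416520) (nat_lit 836) (nat_lit 2280262204) (nat_lit 76) (nat_lit 2717825867) (nat_lit 328) (nat_lit 5) (nat_lit 339) (nat_lit 5) (nat_lit 329) (nat_lit 5) (nat_lit 434) (nat_lit 380) (nat_lit 326)) (XT.nd (nat_lit 78) (nat_lit 836) (nat_lit 0) (XT.lf (nat_lit 0) (nat_lit 3161211252) (nat_lit 760) (nat_lit 2766545184) (nat_lit 836) (nat_lit 2499217498) (nat_lit 318) (nat_lit 5) (nat_lit 328) (nat_lit 5) (nat_lit 329) (nat_lit 5) (nat_lit 435) (nat_lit 380) (nat_lit 325)) (XT.lf (nat_lit 0) (nat_lit 28727289) (nat_lit 836) (nat_lit 8303651924) (nat_lit 76) (nat_lit 169942249) (nat_lit 307) (nat_lit 5) (nat_lit 318) (nat_lit 5) (nat_lit 308) (nat_lit 5) (nat_lit 436) (nat_lit 380) (nat_lit 324)))) (XT.nd (nat_lit 78) (nat_lit 684) (nat_lit 0) (XT.lf (nat_lit 0) (nat_lit 2590051857) (nat_lit 836) (nat_lit 2813454059) (nat_lit 76) (nat_lit 3175023919) (nat_lit 307) (nat_lit 5) (nat_lit 318) (nat_lit 5) (nat_lit 308)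 (nat_lit 5) (nat_lit 437) (nat_lit 380) (nat_lit 323)) (XT.nd (nat_lit 78) (nat_lit 0) (nat_lit 0) (XT.lf (nat_lit 0) (nat_lit 2780219241) (nat_lit 684) (nat_lit 2403535271) (nat_lit 760) (nat_lit 3472894632) (nat_lit 298) (nat_lit 5) (nat_lit 307) (nat_lit 5) (nat_lit 308) (nat_lit 5) (nat_lit 438) (nat_lit 380) (nat_lit 322)) (XT.lf (nat_lit 0) (nat_lit 7816106770) (nat_lit 760) (nat_lit 259646556) (nat_lit 76) (nat_lit 660851612) (nat_lit 298) (nat_lit 5) (nat_lit 308) (nat_lit 5) (nat_lit 299) (nat_lit 5) (nat_lit 439) (nat_lit 380) (nat_lit 321)))))) (XT.nd (nat_lit 390) (nat_lit 2508) (nat_lit 0) (XT.nd (nat_lit 156) (nat_lit 1368) (nat_lit 0) (XT.nd (nat_lit 78) (nat_lit 684) (nat_lit 0) (XT.lf (nat_lit 0) (nat_lit 1676710704) (nat_lit 760) (nat_lit 3345780659) (nat_lit 76) (nat_lit 3795142451) (nat_lit 288) (nat_lit 5) (nat_lit 298) (nat_lit 5) (nat_lit 289) (nat_lit 5) (nat_lit 440) (nat_lit 380) (nat_lit 320)) (XT.lf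 (nat_lit 0) (nat_lit 2404111332) (nat_lit 684) (nat_lit 1891210773) (nat_lit 760) (nat_lit 4605212852) (nat_lit 279) (nat_lit 5) (nat_lit 288) (nat_lit 5) (nat_lit 289) (nat_lit 5) (nat_lit 441) (nat_lit 380) (nat_lit 319))) (XT.nd (nat_lit 78) (nat_lit 1368) (nat_lit 0) (XT.lf (nat_lit 0) (nat_lit 6962150743) (nat_lit 760) (nat_lit 721849091) (nat_lit 76) (nat_lit 1301186266) (nat_lit 279) (nat_lit 5) (nat_lit 289) (nat_lit 5) (nat_lit 280) (nat_lit 5) (nat_lit 442) (nat_lit 380) (nat_lit 318)) (XT.nd (nat_lit 78) (nat_lit 608) (nat_lit 0) (XT.lf (nat_lit 0) (nat_lit 614487081) (nat_lit 760) (nat_lit 3893808864) (nat_lit 76) (nat_lit 4562929303) (nat_lit 269) (nat_lit 5) (nat_lit 279) (nat_lit 5) (nat_lit 270) (nat_lit 5) (nat_lit 443) (nat_lit 380) (nat_lit 317)) (XT.lf (nat_lit 0) (nat_lit 2016280821) (nat_lit 608) (nat_lit 1245030950) (nat_lit 684) (nat_lit 5897741523) (nat_lit 261) (nat_lit 5) (nat_lit 269) (nat_lit 5)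 (nat_lit 270) (nat_lit 5) (nat_lit 444) (nat_lit 380) (nat_lit 316))))) (XT.nd (nat_lit 234) (nat_lit 1216) (nat_lit 0) (XT.nd (nat_lit 78) (nat_lit 1292) (nat_lit 0) (XT.lf (nat_lit 0) (nat_lit 5966899169) (nat_lit 684) (nat_lit 1207115613) (nat_lit 76) (nat_lit 2074514795) (nat_lit 261) (nat_lit 5) (nat_lit 270) (nat_lit 5) (nat_lit 262) (nat_lit 5) (nat_lit 445) (nat_lit 380) (nat_lit 315)) (XT.nd (nat_lit 78) (nat_lit 684) (nat_lit 0) (XT.lf (nat_lit 0) (nat_lit 4860943942) (nat_lit 608) (nat_lit 3872123028) (nat_lit 684) (nat_lit 606607084) (nat_lit 253) (nat_lit 5) (nat_lit 261) (nat_lit 5) (nat_lit 262) (nat_lit 5) (nat_lit 446) (nat_lit 380) (nat_lit 314)) (XT.lf (nat_lit 0) (nat_lit 1599403063) (nat_lit 608) (nat_lit 480043615) (nat_lit 684) (nat_lit 7353219747) (nat_lit 244) (nat_lit 5) (nat_lit 252) (nat_lit 5) (nat_lit 253) (nat_lit 5) (nat_lit 447) (nat_lit 380) (nat_lit 313)))) (XT.nd (nat_lit 78) (nat_lit 1216)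 (nat_lit 0) (XT.lf (nat_lit 0) (nat_lit 4827850385) (nat_lit 684) (nat_lit 1732992255) (nat_lit 76) (nat_lit 2966268360) (nat_lit 244) (nat_lit 5) (nat_lit 253) (nat_lit 5) (nat_lit 245) (nat_lit 5) (nat_lit 448) (nat_lit 380) (nat_lit 312)) (XT.nd (nat_lit 78) (nat_lit 608) (nat_lit 0) (XT.lf (nat_lit 0) (nat_lit 4503681247) (nat_lit 608) (nat_lit 3127747889) (nat_lit 684) (nat_lit 1992018620) (nat_lit 236) (nat_lit 5) (nat_lit 244) (nat_lit 5) (nat_lit 245) (nat_lit 5) (nat_lit 449) (nat_lit 380) (nat_lit 311)) (XT.lf (nat_lit 0) (nat_lit 748813430) (nat_lit 608) (nat_lit 8589136950) (nat_lit 76) (nat_lit 383877388) (nat_lit 228) (nat_lit 5) (nat_lit 236) (nat_lit 5) (nat_lit 229) (nat_lit 5) (nat_lit 450) (nat_lit 380) (nat_lit 310))))))) (XT.nd (nat_lit 858) (nat_lit 3116) (nat_lit 0) (XT.nd (nat_lit 390) (nat_lit 2052) (nat_lit 0) (XT.nd (nat_lit 156) (nat_lit 1140) (nat_lit 0) (XT.nd (nat_lit 78) (nat_lit 532) (nat_lit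 0) (XT.lf (nat_lit 0) (nat_lit 3541341577) (nat_lit 608) (nat_lit 2317979629) (nat_lit 76) (nat_lit 3962126779) (nat_lit 228) (nat_lit 5) (nat_lit 236) (nat_lit 5) (nat_lit 229) (nat_lit 5) (nat_lit 451) (nat_lit 380) (nat_lit 309)) (XT.lf (nat_lit 0) (nat_lit 4091124129) (nat_lit 532) (nat_lit 2294011621) (nat_lit 608) (nat_lit 3538023410) (nat_lit 221) (nat_lit 5) (nat_lit 228) (nat_lit 5) (nat_lit 229) (nat_lit 5) (nat_lit 452) (nat_lit 380) (nat_lit 308))) (XT.nd (nat_lit 78) (nat_lit 608) (nat_lit 0) (XT.lf (nat_lit 0) (nat_lit 590745606) (nat_lit 532) (nat_lit 8692403936) (nat_lit 608) (nat_lit 743814869) (nat_lit 214) (nat_lit 5) (nat_lit 221) (nat_lit 5) (nat_lit 222) (nat_lit 5) (nat_lit 453) (nat_lit 380) (nat_lit 307)) (XT.nd (nat_lit 78) (nat_lit 532) (nat_lit 0) (XT.lf (nat_lit 0) (nat_lit 2102503626) (nat_lit 608) (nat_lit 2981714900) (nat_lit 76) (nat_lit 5047883201) (nat_lit 213) (nat_lit 5) (nat_lit 221) (nat_lit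 5) (nat_lit 214) (nat_lit 5) (nat_lit 454) (nat_lit 380) (nat_lit 306)) (XT.lf (nat_lit 0) (nat_lit 3603466384) (nat_lit 532) (nat_lit 1385593185) (nat_lit 608) (nat_lit 5250324813) (nat_lit 206) (nat_lit 5) (nat_lit 213) (nat_lit 5) (nat_lit 214) (nat_lit 5) (nat_lit 455) (nat_lit 380) (nat_lit 305))))) (XT.nd (nat_lit 234) (nat_lit 988) (nat_lit 0) (XT.nd (nat_lit 78) (nat_lit 1064) (nat_lit 0) (XT.lf (nat_lit 0) (nat_lit 7939110160) (nat_lit 608) (nat_lit 44285680) (nat_lit 76) (nat_lit 2365307795) (nat_lit 206) (nat_lit 5) (nat_lit 214) (nat_lit 5) (nat_lit 207) (nat_lit 5) (nat_lit 456) (nat_lit 380) (nat_lit 304)) (XT.nd (nat_lit 78) (nat_lit 532) (nat_lit 0) (XT.lf (nat_lit 0) (nat_lit 505205654) (nat_lit 532) (nat_lit 3745167075) (nat_lit 76) (nat_lit 6209306101) (nat_lit 199) (nat_lit 5) (nat_lit 206) (nat_lit 5) (nat_lit 200) (nat_lit 5) (nat_lit 457) (nat_lit 380) (nat_lit 303)) (XT.lf (nat_lit 0) (nat_lit 3019523171)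 (nat_lit 532) (nat_lit 417274315) (nat_lit 608) (nat_lit 7135948129) (nat_lit 192) (nat_lit 5) (nat_lit 199) (nat_lit 5) (nat_lit 200) (nat_lit 5) (nat_lit 458) (nat_lit 380) (nat_lit 302)))) (XT.nd (nat_lit 78) (nat_lit 988) (nat_lit 0) (XT.lf (nat_lit 0) (nat_lit 6446061352) (nat_lit 608) (nat_lit 780720662) (nat_lit 76) (nat_lit 3460916659) (nat_lit 192) (nat_lit 5) (nat_lit 200) (nat_lit 5) (nat_lit 193) (nat_lit 5) (nat_lit 459) (nat_lit 380) (nat_lit 301)) (XT.nd (nat_lit 78) (nat_lit 532) (nat_lit 0) (XT.lf (nat_lit 0) (nat_lit 6165544145) (nat_lit 456) (nat_lit 3364394070) (nat_lit 532) (nat_lit 1274729653) (nat_lit 186) (nat_lit 5) (nat_lit 192) (nat_lit 5) (nat_lit 193) (nat_lit 5) (nat_lit 460) (nat_lit 380) (nat_lit 300)) (XT.lf (nat_lit 0) (nat_lit 1724469667) (nat_lit 532) (nat_lit 8611267129) (nat_lit 76) (nat_lit 588099123) (nat_lit 179) (nat_lit 5) (nat_lit 186) (nat_lit 5) (nat_lit 180) (nat_lit 5) (nat_lit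 461) (nat_lit 380) (nat_lit 299)))))) (XT.nd (nat_lit 468) (nat_lit 1292) (nat_lit 0) (XT.nd (nat_lit 234) (nat_lit 912) (nat_lit 0) (XT.nd (nat_lit 78) (nat_lit 912) (nat_lit 0) (XT.lf (nat_lit 0) (nat_lit 4792180820) (nat_lit 532) (nat_lit 1649645037) (nat_lit 76) (nat_lit 4602886330) (nat_lit 179) (nat_lit 5) (nat_lit 186) (nat_lit 5) (nat_lit 180) (nat_lit 5) (nat_lit 462) (nat_lit 380) (nat_lit 298)) (XT.nd (nat_lit 78) (nat_lit 456) (nat_lit 0) (XT.lf (nat_lit 0) (nat_lit 5483786036) (nat_lit 456) (nat_lit 2445576926) (nat_lit 532) (nat_lit 3238485885) (nat_lit 173) (nat_lit 5) (nat_lit 179) (nat_lit 5) (nat_lit 180) (nat_lit 5) (nat_lit 463) (nat_lit 380) (nat_lit 297)) (XT.lf (nat_lit 0) (nat_lit 1457923514) (nat_lit 456) (nat_lit 9675281695) (nat_lit 532) (nat_lit 160169800) (nat_lit 167) (nat_lit 5) (nat_lit 173) (nat_lit 5) (nat_lit 174) (nat_lit 5) (nat_lit 464) (nat_lit 380) (nat_lit 296)))) (XT.nd (nat_lit 78)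 (nat_lit 836) (nat_lit 0) (XT.lf (nat_lit 0) (nat_lit 2968041119) (nat_lit 532) (nat_lit 2676308407) (nat_lit 76) (nat_lit 5776131984) (nat_lit 166) (nat_lit 5) (nat_lit 173) (nat_lit 5) (nat_lit 167) (nat_lit 5) (nat_lit 465) (nat_lit 380) (nat_lit 295)) (XT.nd (nat_lit 78) (nat_lit 456) (nat_lit 0) (XT.lf (nat_lit 0) (nat_lit 4647017641) (nat_lit 380) (nat_lit 1513176930) (nat_lit 456) (nat_lit 5389848742) (nat_lit 161) (nat_lit 5) (nat_lit 166) (nat_lit 5) (nat_lit 167) (nat_lit 5) (nat_lit 466) (nat_lit 380) (nat_lit 294)) (XT.lf (nat_lit 0) (nat_lit 420024091) (nat_lit 456) (nat_lit 9008048329) (nat_lit 532) (nat_lit 2253891014) (nat_lit 155) (nat_lit 5) (nat_lit 161) (nat_lit 5) (nat_lit 162) (nat_lit 5) (nat_lit 467) (nat_lit 380) (nat_lit 293))))) (XT.nd (nat_lit 234) (nat_lit 836) (nat_lit 0) (XT.nd (nat_lit 78) (nat_lit 380) (nat_lit 0) (XT.lf (nat_lit 0) (nat_lit 962675946) (nat_lit 532) (nat_lit 3888130720) (nat_lit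 76) (nat_lit 6964991515) (nat_lit 154) (nat_lit 5) (nat_lit 161) (nat_lit 5) (nat_lit 155) (nat_lit 5) (nat_lit 468) (nat_lit 380) (nat_lit 292)) (XT.nd (nat_lit 78) (nat_lit 0) (nat_lit 0) (XT.lf (nat_lit 0) (nat_lit 3627389343) (nat_lit 380) (nat_lit 583732350) (nat_lit 456) (nat_lit 7740939864) (nat_lit 149) (nat_lit 5) (nat_lit 154) (nat_lit 5) (nat_lit 155) (nat_lit 5) (nat_lit 469) (nat_lit 380) (nat_lit 291)) (XT.lf (nat_lit 0) (nat_lit 7549594330) (nat_lit 456) (nat_lit 807839600) (nat_lit 76) (nat_lit 3733119462) (nat_lit 149) (nat_lit 5) (nat_lit 155) (nat_lit 5) (nat_lit 150) (nat_lit 5) (nat_lit 470) (nat_lit 380) (nat_lit 290)))) (XT.nd (nat_lit 78) (nat_lit 456) (nat_lit 0) (XT.lf (nat_lit 0) (nat_lit 6908229217) (nat_lit 380) (nat_lit 4070154206) (nat_lit 456) (nat_lit 1252964967) (nat_lit 144) (nat_lit 5) (nat_lit 149) (nat_lit 5) (nat_lit 150) (nat_lit 5) (nat_lit 471) (nat_lit 380) (nat_lit 289)) (XT.nd (nat_lit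 78) (nat_lit 0) (nat_lit 0) (XT.lf (nat_lit 0) (nat_lit 2071261830) (nat_lit 456) (nat_lit 9982362852) (nat_lit 76) (nat_lit 321105412) (nat_lit 138) (nat_lit 5) (nat_lit 144) (nat_lit 5) (nat_lit 139) (nat_lit 5) (nat_lit 472) (nat_lit 380) (nat_lit 288)) (XT.lf (nat_lit 0) (nat_lit 5483196607) (nat_lit 456) (nat_lit 2259528381) (nat_lit 76) (nat_lit 4777332811) (nat_lit 138) (nat_lit 5) (nat_lit 144) (nat_lit 5) (nat_lit 139) (nat_lit 5) (nat_lit 473) (nat_lit 380) (nat_lit 287))))))))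
noncomputable def xc92 : XT := (XT.nd (nat_lit 1716) (nat_lit 1444) (nat_lit 0) (XT.nd (nat_lit 858) (nat_lit 2128) (nat_lit 0) (XT.nd (nat_lit 390) (nat_lit 1444) (nat_lit 0) (XT.nd (nat_lit 156) (nat_lit 456) (nat_lit 0) (XT.nd (nat_lit 78) (nat_lit 304) (nat_lit 0) (XT.lf (nat_lit 0) (nat_lit 5654576479) (nat_lit 380) (nat_lit 3321068433) (nat_lit 456) (nat_lit 3692405589) (nat_lit 133) (nat_lit 5) (nat_lit 138) (nat_lit 5) (nat_lit 139) (nat_lit 5) (nat_lit 474) (nat_lit 380) (nat_lit 286)) (XT.lf (nat_lit 0) (nat_lit 905441343) (nat_lit 304) (nat_lit 11637078627) (nat_lit 380) (nat_lit 276395396) (nat_lit 129) (nat_lit 5) (nat_lit 133) (nat_lit 5) (nat_lit 134) (nat_lit 5) (nat_lit 475) (nat_lit 380) (nat_lit 285))) (XT.nd (nat_lit 78) (nat_lit 380) (nat_lit 0) (XT.lf (nat_lit 0) (nat_lit 3211019315) (nat_lit 380) (nat_lit 3974769528) (nat_lit 76) (nat_lit 5785692701) (nat_lit 128) (nat_lit 5) (nat_lit 133) (nat_lit 5)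 (nat_lit 129) (nat_lit 5) (nat_lit 476) (nat_lit 380) (nat_lit 284)) (XT.nd (nat_lit 78) (nat_lit 0) (nat_lit 0) (XT.lf (nat_lit 0) (nat_lit 4138305969) (nat_lit 380) (nat_lit 2629309608) (nat_lit 456) (nat_lit 6359387887) (nat_lit 123) (nat_lit 5) (nat_lit 128) (nat_lit 5) (nat_lit 129) (nat_lit 5) (nat_lit 477) (nat_lit 380) (nat_lit 283)) (XT.lf (nat_lit 0) (nat_lit 10411702207) (nat_lit 456) (nat_lit 867854738) (nat_lit 76) (nat_lit 2005755278) (nat_lit 123) (nat_lit 5) (nat_lit 129) (nat_lit 5) (nat_lit 124) (nat_lit 5) (nat_lit 478) (nat_lit 380) (nat_lit 282))))) (XT.nd (nat_lit 234) (nat_lit 684) (nat_lit 0) (XT.nd (nat_lit 78) (nat_lit 380) (nat_lit 0) (XT.lf (nat_lit 0) (nat_lit 715932358) (nat_lit 380) (nat_lit 5991089075) (nat_lit 76) (nat_lit 6738820770) (nat_lit 118) (nat_lit 5) (nat_lit 123) (nat_lit 5) (nat_lit 119) (nat_lit 5) (nat_lit 479) (nat_lit 380) (nat_lit 281)) (XT.nd (nat_lit 78) (nat_lit 0) (nat_lit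 0) (XT.lf (nat_lit 0) (nat_lit 2321144400) (nat_lit 380) (nat_lit 2015544290) (nat_lit 456) (nat_lit 9272559553) (nat_lit 113) (nat_lit 5) (nat_lit 118) (nat_lit 5) (nat_lit 119) (nat_lit 5) (nat_lit 480) (nat_lit 380) (nat_lit 280)) (XT.lf (nat_lit 0) (nat_lit 8065376827) (nat_lit 456) (nat_lit 2949009147) (nat_lit 76) (nat_lit 2760829393) (nat_lit 113) (nat_lit 5) (nat_lit 119) (nat_lit 5) (nat_lit 114) (nat_lit 5) (nat_lit 481) (nat_lit 380) (nat_lit 279)))) (XT.nd (nat_lit 78) (nat_lit 380) (nat_lit 0) (XT.lf (nat_lit 0) (nat_lit 5580955126) (nat_lit 304) (nat_lit 6314780499) (nat_lit 380) (nat_lit 2048227504) (nat_lit 109) (nat_lit 5) (nat_lit 113) (nat_lit 5) (nat_lit 114) (nat_lit 5) (nat_lit 482) (nat_lit 380) (nat_lit 278)) (XT.nd (nat_lit 78) (nat_lit 0) (nat_lit 0) (XT.lf (nat_lit 0) (nat_lit 161007723) (nat_lit 304) (nat_lit 1502026859) (nat_lit 380) (nat_lit 12452864578) (nat_lit 104) (nat_lit 5) (nat_lit 108) (nat_lit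 5) (nat_lit 109) (nat_lit 5) (nat_lit 483) (nat_lit 380) (nat_lit 277)) (XT.lf (nat_lit 0) (nat_lit 5477429130) (nat_lit 380) (nat_lit 5393291789) (nat_lit 76) (nat_lit 3419158605) (nat_lit 104) (nat_lit 5) (nat_lit 109) (nat_lit 5) (nat_lit 105) (nat_lit 5) (nat_lit 484) (nat_lit 380) (nat_lit 276)))))) (XT.nd (nat_lit 390) (nat_lit 1216) (nat_lit 0) (XT.nd (nat_lit 156) (nat_lit 608) (nat_lit 0) (XT.nd (nat_lit 78) (nat_lit 0) (nat_lit 0) (XT.lf (nat_lit 0) (nat_lit 3338127349) (nat_lit 304) (nat_lit 6039737225) (nat_lit 380) (nat_lit 5089282848) (nat_lit 100) (nat_lit 5) (nat_lit 104) (nat_lit 5) (nat_lit 105) (nat_lit 5) (nat_lit 485) (nat_lit 380) (nat_lit 275)) (XT.lf (nat_lit 0) (nat_lit 12282268792) (nat_lit 304) (nat_lit 1088565676) (nat_lit 380) (nat_lit 1276838624) (nat_lit 100) (nat_lit 5) (nat_lit 104) (nat_lit 5) (nat_lit 105) (nat_lit 5) (nat_lit 486) (nat_lit 380) (nat_lit 274))) (XT.nd (nat_lit 78) (nat_lit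 228) (nat_lit 0) (XT.lf (nat_lit 0) (nat_lit 2625154183) (nat_lit 380) (nat_lit 8248489936) (nat_lit 76) (nat_lit 3956877721) (nat_lit 95) (nat_lit 5) (nat_lit 100) (nat_lit 5) (nat_lit 96) (nat_lit 5) (nat_lit 487) (nat_lit 380) (nat_lit 273)) (XT.nd (nat_lit 78) (nat_lit 0) (nat_lit 0) (XT.lf (nat_lit 0) (nat_lit 682220650) (nat_lit 228) (nat_lit 5912227608) (nat_lit 304) (nat_lit 8422286100) (nat_lit 92) (nat_lit 5) (nat_lit 95) (nat_lit 5) (nat_lit 96) (nat_lit 5) (nat_lit 488) (nat_lit 380) (nat_lit 272)) (XT.lf (nat_lit 0) (nat_lit 9868857210) (nat_lit 228) (nat_lit 808541468) (nat_lit 304) (nat_lit 4528589745) (nat_lit 92) (nat_lit 5) (nat_lit 95) (nat_lit 5) (nat_lit 96) (nat_lit 5) (nat_lit 489) (nat_lit 380) (nat_lit 271))))) (XT.nd (nat_lit 234) (nat_lit 608) (nat_lit 0) (XT.nd (nat_lit 78) (nat_lit 304) (nat_lit 0) (XT.lf (nat_lit 0) (nat_lit 3827697363) (nat_lit 304) (nat_lit 11046959060) (nat_lit 380) (nat_lit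 523720834) (nat_lit 88) (nat_lit 5) (nat_lit 92) (nat_lit 5) (nat_lit 93) (nat_lit 5) (nat_lit 490) (nat_lit 380) (nat_lit 270)) (XT.nd (nat_lit 78) (nat_lit 228) (nat_lit 0) (XT.lf (nat_lit 0) (nat_lit 3535240383) (nat_lit 380) (nat_lit 2408648442) (nat_lit 76) (nat_lit 9649851126) (nat_lit 87) (nat_lit 5) (nat_lit 92) (nat_lit 5) (nat_lit 88) (nat_lit 5) (nat_lit 491) (nat_lit 380) (nat_lit 269)) (XT.lf (nat_lit 0) (nat_lit 6991312439) (nat_lit 228) (nat_lit 702155124) (nat_lit 304) (nat_lit 8098973612) (nat_lit 84) (nat_lit 5) (nat_lit 87) (nat_lit 5) (nat_lit 88) (nat_lit 5) (nat_lit 492) (nat_lit 380) (nat_lit 268)))) (XT.nd (nat_lit 78) (nat_lit 304) (nat_lit 0) (XT.lf (nat_lit 0) (nat_lit 560586112) (nat_lit 304) (nat_lit 11404134438) (nat_lit 380) (nat_lit 4029801099) (nat_lit 80) (nat_lit 5) (nat_lit 84) (nat_lit 5) (nat_lit 85) (nat_lit 5) (nat_lit 493) (nat_lit 380) (nat_lit 267)) (XT.nd (nat_lit 78) (nat_lit 228)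 (nat_lit 0) (XT.lf (nat_lit 0) (nat_lit 163113350) (nat_lit 380) (nat_lit 6010133487) (nat_lit 76) (nat_lit 10026504728) (nat_lit 79) (nat_lit 5) (nat_lit 84) (nat_lit 5) (nat_lit 80) (nat_lit 5) (nat_lit 494) (nat_lit 380) (nat_lit 266)) (XT.lf (nat_lit 0) (nat_lit 3589512070) (nat_lit 228) (nat_lit 800007034) (nat_lit 304) (nat_lit 12018964702) (nat_lit 76) (nat_lit 5) (nat_lit 79) (nat_lit 5) (nat_lit 80) (nat_lit 5) (nat_lit 495) (nat_lit 380) (nat_lit 265))))))) (XT.nd (nat_lit 50466) (nat_lit 0) (nat_lit 48184) (XT.nd (nat_lit 390) (nat_lit 684) (nat_lit 0) (XT.nd (nat_lit 156) (nat_lit 532) (nat_lit 0) (XT.nd (nat_lit 78) (nat_lit 228) (nat_lit 0) (XT.lf (nat_lit 0) (nat_lit 8751766269) (nat_lit 304) (nat_lit 3221735079) (nat_lit 76) (nat_lit 4646865341) (nat_lit 76) (nat_lit 5) (nat_lit 80) (nat_lit 5) (nat_lit 77) (nat_lit 5) (nat_lit 496) (nat_lit 380) (nat_lit 264)) (XT.lf (nat_lit 0) (nat_lit 6616460395) (nat_lit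 228) (nat_lit 6613765129) (nat_lit 304) (nat_lit 3605684585) (nat_lit 73) (nat_lit 5) (nat_lit 76) (nat_lit 5) (nat_lit 77) (nat_lit 5) (nat_lit 497) (nat_lit 380) (nat_lit 263))) (XT.nd (nat_lit 78) (nat_lit 456) (nat_lit 0) (XT.lf (nat_lit 0) (nat_lit 735265093) (nat_lit 304) (nat_lit 397712962) (nat_lit 76) (nat_lit 15922641793) (nat_lit 72) (nat_lit 5) (nat_lit 76) (nat_lit 5) (nat_lit 73) (nat_lit 5) (nat_lit 498) (nat_lit 380) (nat_lit 262)) (XT.nd (nat_lit 78) (nat_lit 228) (nat_lit 0) (XT.lf (nat_lit 0) (nat_lit 5188283653) (nat_lit 304) (nat_lit 7615979350) (nat_lit 76) (nat_lit 4473515596) (nat_lit 69) (nat_lit 5) (nat_lit 73) (nat_lit 5) (nat_lit 70) (nat_lit 5) (nat_lit 499) (nat_lit 380) (nat_lit 261)) (XT.lf (nat_lit 0) (nat_lit 2415774849) (nat_lit 228) (nat_lit 7321670751) (nat_lit 304) (nat_lit 7766795317) (nat_lit 66) (nat_lit 5) (nat_lit 69) (nat_lit 5) (nat_lit 70) (nat_lit 5) (nat_lit 500) (nat_lit 380)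 (nat_lit 260))))) (XT.nd (nat_lit 234) (nat_lit 380) (nat_lit 0) (XT.nd (nat_lit 78) (nat_lit 304) (nat_lit 0) (XT.lf (nat_lit 0) (nat_lit 12719657665) (nat_lit 228) (nat_lit 1690411215) (nat_lit 304) (nat_lit 3324516050) (nat_lit 66) (nat_lit 5) (nat_lit 69) (nat_lit 5) (nat_lit 70) (nat_lit 5) (nat_lit 501) (nat_lit 380) (nat_lit 259)) (XT.nd (nat_lit 78) (nat_lit 0) (nat_lit 0) (XT.lf (nat_lit 0) (nat_lit 1233257970) (nat_lit 304) (nat_lit 12705310733) (nat_lit 76) (nat_lit 4029962889) (nat_lit 62) (nat_lit 5) (nat_lit 66) (nat_lit 5) (nat_lit 63) (nat_lit 5) (nat_lit 502) (nat_lit 380) (nat_lit 258)) (XT.lf (nat_lit 0) (nat_lit 5864471746) (nat_lit 304) (nat_lit 2456450912) (nat_lit 76) (nat_lit 9885260932) (nat_lit 62) (nat_lit 5) (nat_lit 66) (nat_lit 5) (nat_lit 63) (nat_lit 5) (nat_lit 503) (nat_lit 380) (nat_lit 257)))) (XT.nd (nat_lit 78) (nat_lit 152) (nat_lit 0) (XT.lf (nat_lit 0) (nat_lit 8072430937) (nat_lit 228)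 (nat_lit 2550336993) (nat_lit 304) (nat_lit 7825133392) (nat_lit 59) (nat_lit 5) (nat_lit 62) (nat_lit 5) (nat_lit 63) (nat_lit 5) (nat_lit 504) (nat_lit 380) (nat_lit 256)) (XT.nd (nat_lit 49686) (nat_lit 0) (nat_lit 50236) (XT.lf (nat_lit 0) (nat_lit 99707417) (nat_lit 152) (nat_lit 15397537051) (nat_lit 228) (nat_lit 3196790474) (nat_lit 57) (nat_lit 5) (nat_lit 59) (nat_lit 5) (nat_lit 60) (nat_lit 5) (nat_lit 505) (nat_lit 380) (nat_lit 255)) (XT.lf (nat_lit 0) (nat_lit 1546708268) (nat_lit 0) (nat_lit 1546708268) (nat_lit 76) (nat_lit 128659536) (nat_lit 718) (nat_lit 5) (nat_lit 718) (nat_lit 3) (nat_lit 719) (nat_lit 0) (nat_lit 381) (nat_lit 381) (nat_lit 378)))))) (XT.nd (nat_lit 468) (nat_lit 1292) (nat_lit 0) (XT.nd (nat_lit 234) (nat_lit 304) (nat_lit 0) (XT.nd (nat_lit 78) (nat_lit 228) (nat_lit 0) (XT.lf (nat_lit 0) (nat_lit 2757690234) (nat_lit 228) (nat_lit 214079906) (nat_lit 228) (nat_lit 3474956087) (nat_lit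 715) (nat_lit 3) (nat_lit 718) (nat_lit 3) (nat_lit 718) (nat_lit 5) (nat_lit 382) (nat_lit 381) (nat_lit 377)) (XT.nd (nat_lit 78) (nat_lit 228) (nat_lit 0) (XT.lf (nat_lit 76) (nat_lit 2982375927) (nat_lit 0) (nat_lit 2787482214) (nat_lit 228) (nat_lit 680695988) (nat_lit 716) (nat_lit 5) (nat_lit 715) (nat_lit 3) (nat_lit 718) (nat_lit 5) (nat_lit 383) (nat_lit 381) (nat_lit 376)) (XT.lf (nat_lit 0) (nat_lit 2279611417) (nat_lit 228) (nat_lit 265439433) (nat_lit 304) (nat_lit 3910676116) (nat_lit 712) (nat_lit 5) (nat_lit 715) (nat_lit 3) (nat_lit 716) (nat_lit 5) (nat_lit 384) (nat_lit 381) (nat_lit 375)))) (XT.nd (nat_lit 78) (nat_lit 304) (nat_lit 0) (XT.lf (nat_lit 76) (nat_lit 2995783887) (nat_lit 0) (nat_lit 2236892628) (nat_lit 304) (nat_lit 1229423421) (nat_lit 713) (nat_lit 5) (nat_lit 712) (nat_lit 5) (nat_lit 716) (nat_lit 5) (nat_lit 385) (nat_lit 381) (nat_lit 374)) (XT.nd (nat_lit 78) (nat_lit 0) (nat_lit 0)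 (XT.lf (nat_lit 0) (nat_lit 1678613767) (nat_lit 304) (nat_lit 195415699) (nat_lit 380) (nat_lit 4595864557) (nat_lit 708) (nat_lit 5) (nat_lit 712) (nat_lit 5) (nat_lit 713) (nat_lit 5) (nat_lit 386) (nat_lit 381) (nat_lit 373)) (XT.lf (nat_lit 76) (nat_lit 3133527504) (nat_lit 0) (nat_lit 1440587836) (nat_lit 380) (nat_lit 1904688490) (nat_lit 709) (nat_lit 5) (nat_lit 708) (nat_lit 5) (nat_lit 713) (nat_lit 5) (nat_lit 387) (nat_lit 381) (nat_lit 372))))) (XT.nd (nat_lit 234) (nat_lit 532) (nat_lit 0) (XT.nd (nat_lit 78) (nat_lit 380) (nat_lit 0) (XT.lf (nat_lit 0) (nat_lit 953405447) (nat_lit 380) (nat_lit 4009036) (nat_lit 456) (nat_lit 5531830460) (nat_lit 703) (nat_lit 5) (nat_lit 708) (nat_lit 5) (nat_lit 709) (nat_lit 5) (nat_lit 388) (nat_lit 381) (nat_lit 371)) (XT.nd (nat_lit 78) (nat_lit 380) (nat_lit 0) (XT.lf (nat_lit 76) (nat_lit 3395727675) (nat_lit 0) (nat_lit 397035584) (nat_lit 456) (nat_lit 2707923208) (nat_lit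 704) (nat_lit 5) (nat_lit 703) (nat_lit 5) (nat_lit 709) (nat_lit 5) (nat_lit 389) (nat_lit 381) (nat_lit 370)) (XT.lf (nat_lit 0) (nat_lit 105839663) (nat_lit 456) (nat_lit 6202001470) (nat_lit 76) (nat_lit 205894815) (nat_lit 698) (nat_lit 5) (nat_lit 704) (nat_lit 5) (nat_lit 699) (nat_lit 5) (nat_lit 390) (nat_lit 381) (nat_lit 369)))) (XT.nd (nat_lit 78) (nat_lit 532) (nat_lit 0) (XT.lf (nat_lit 0) (nat_lit 2892782980) (nat_lit 456) (nat_lit 2750852746) (nat_lit 76) (nat_lit 884022880) (nat_lit 698) (nat_lit 5) (nat_lit 704) (nat_lit 5) (nat_lit 699) (nat_lit 5) (nat_lit 391) (nat_lit 381) (nat_lit 368)) (XT.nd (nat_lit 78) (nat_lit 76) (nat_lit 0) (XT.lf (nat_lit 0) (nat_lit 737448997) (nat_lit 456) (nat_lit 4933713111) (nat_lit 532) (nat_lit 872016471) (nat_lit 692) (nat_lit 5) (nat_lit 698) (nat_lit 5) (nat_lit 699) (nat_lit 5) (nat_lit 392) (nat_lit 381) (nat_lit 367)) (XT.lf (nat_lit 0) (nat_lit 1870671962) (nat_lit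 532) (nat_lit 2280802178) (nat_lit 76) (nat_lit 2408311721) (nat_lit 691) (nat_lit 5) (nat_lit 698) (nat_lit 5) (nat_lit 692) (nat_lit 5) (nat_lit 393) (nat_lit 381) (nat_lit 366))))))))
noncomputable def xc93 : XT := (XT.nd (nat_lit 1716) (nat_lit 16416) (nat_lit 0) (XT.nd (nat_lit 858) (nat_lit 8816) (nat_lit 0) (XT.nd (nat_lit 390) (nat_lit 2660) (nat_lit 0) (XT.nd (nat_lit 156) (nat_lit 1368) (nat_lit 0) (XT.nd (nat_lit 78) (nat_lit 76) (nat_lit 0) (XT.lf (nat_lit 0) (nat_lit 1284310332) (nat_lit 532) (nat_lit 3313433535) (nat_lit 608) (nat_lit 1980072932) (nat_lit 684) (nat_lit 5) (nat_lit 691) (nat_lit 5) (nat_lit 692) (nat_lit 5) (nat_lit 394) (nat_lit 381) (nat_lit 365)) (XT.lf (nat_lit 0) (nat_lit 721722966) (nat_lit 608) (nat_lit 1691470845) (nat_lit 76) (nat_lit 4183965655) (nat_lit 683) (nat_lit 5) (nat_lit 691) (nat_lit 5) (nat_lit 684) (nat_lit 5) (nat_lit 395) (nat_lit 381) (nat_lit 364))) (XT.nd (nat_lit 78)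 (nat_lit 760) (nat_lit 0) (XT.lf (nat_lit 0) (nat_lit 1953917936) (nat_lit 608) (nat_lit 1444578218) (nat_lit 684) (nat_lit 3219211103) (nat_lit 675) (nat_lit 5) (nat_lit 683) (nat_lit 5) (nat_lit 684) (nat_lit 5) (nat_lit 396) (nat_lit 381) (nat_lit 363)) (XT.nd (nat_lit 78) (nat_lit 760) (nat_lit 0) (XT.lf (nat_lit 0) (nat_lit 5654213409) (nat_lit 608) (nat_lit 421699486) (nat_lit 684) (nat_lit 563839503) (nat_lit 675) (nat_lit 5) (nat_lit 683) (nat_lit 5) (nat_lit 684) (nat_lit 5) (nat_lit 397) (nat_lit 381) (nat_lit 362)) (XT.lf (nat_lit 0) (nat_lit 2075314464) (nat_lit 760) (nat_lit 3919904101) (nat_lit 76) (nat_lit 667592791) (nat_lit 665) (nat_lit 5) (nat_lit 675) (nat_lit 5) (nat_lit 666) (nat_lit 5) (nat_lit 398) (nat_lit 381) (nat_lit 361))))) (XT.nd (nat_lit 234) (nat_lit 988) (nat_lit 0) (XT.nd (nat_lit 78) (nat_lit 1672) (nat_lit 0) (XT.lf (nat_lit 0) (nat_lit 4706851381) (nat_lit 760) (nat_lit 175632533) (nat_lit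 76) (nat_lit 1804856954) (nat_lit 665) (nat_lit 5) (nat_lit 675) (nat_lit 5) (nat_lit 666) (nat_lit 5) (nat_lit 399) (nat_lit 381) (nat_lit 360)) (XT.nd (nat_lit 78) (nat_lit 836) (nat_lit 0) (XT.lf (nat_lit 0) (nat_lit 632096777) (nat_lit 836) (nat_lit 3067215803) (nat_lit 76) (nat_lit 3013739342) (nat_lit 654) (nat_lit 5) (nat_lit 665) (nat_lit 5) (nat_lit 655) (nat_lit 5) (nat_lit 400) (nat_lit 381) (nat_lit 359)) (XT.lf (nat_lit 0) (nat_lit 761852822) (nat_lit 836) (nat_lit 2454142528) (nat_lit 912) (nat_lit 3524133794) (nat_lit 643) (nat_lit 5) (nat_lit 654) (nat_lit 5) (nat_lit 655) (nat_lit 5) (nat_lit 401) (nat_lit 381) (nat_lit 358)))) (XT.nd (nat_lit 78) (nat_lit 988) (nat_lit 0) (XT.lf (nat_lit 0) (nat_lit 4667478590) (nat_lit 836) (nat_lit 1145015346) (nat_lit 912) (nat_lit 956060395) (nat_lit 643) (nat_lit 5) (nat_lit 654) (nat_lit 5) (nat_lit 655) (nat_lit 5) (nat_lit 402) (nat_lit 381) (nat_lit 357)) (XT.nd (nat_lit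 78) (nat_lit 0) (nat_lit 0) (XT.lf (nat_lit 0) (nat_lit 1596005245) (nat_lit 988) (nat_lit 4974579832) (nat_lit 76) (nat_lit 227681920) (nat_lit 630) (nat_lit 5) (nat_lit 643) (nat_lit 5) (nat_lit 631) (nat_lit 5) (nat_lit 403) (nat_lit 381) (nat_lit 356)) (XT.lf (nat_lit 0) (nat_lit 4150190999) (nat_lit 988) (nat_lit 1029484369) (nat_lit 76) (nat_lit 1649517975) (nat_lit 630) (nat_lit 5) (nat_lit 643) (nat_lit 5) (nat_lit 631) (nat_lit 5) (nat_lit 404) (nat_lit 381) (nat_lit 355)))))) (XT.nd (nat_lit 390) (nat_lit 5472) (nat_lit 0) (XT.nd (nat_lit 156) (nat_lit 1216) (nat_lit 0) (XT.nd (nat_lit 78) (nat_lit 1140) (nat_lit 0) (XT.lf (nat_lit 0) (nat_lit 2991978213) (nat_lit 988) (nat_lit 3726136496) (nat_lit 1064) (nat_lit 143393387) (nat_lit 617) (nat_lit 5) (nat_lit 630) (nat_lit 5) (nat_lit 631) (nat_lit 5) (nat_lit 405) (nat_lit 381) (nat_lit 354)) (XT.lf (nat_lit 0) (nat_lit 157380382) (nat_lit 1064) (nat_lit 2205163331)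 (nat_lit 1140) (nat_lit 4532597177) (nat_lit 602) (nat_lit 5) (nat_lit 616) (nat_lit 5) (nat_lit 617) (nat_lit 5) (nat_lit 406) (nat_lit 381) (nat_lit 353))) (XT.nd (nat_lit 78) (nat_lit 1216) (nat_lit 0) (XT.lf (nat_lit 0) (nat_lit 4274326373) (nat_lit 1064) (nat_lit 612826408) (nat_lit 1140) (nat_lit 2042886779) (nat_lit 602) (nat_lit 5) (nat_lit 616) (nat_lit 5) (nat_lit 617) (nat_lit 5) (nat_lit 407) (nat_lit 381) (nat_lit 352)) (XT.nd (nat_lit 78) (nat_lit 0) (nat_lit 0) (XT.lf (nat_lit 0) (nat_lit 451681443) (nat_lit 1216) (nat_lit 5490957883) (nat_lit 76) (nat_lit 1023721654) (nat_lit 586) (nat_lit 5) (nat_lit 602) (nat_lit 5) (nat_lit 587) (nat_lit 5) (nat_lit 408) (nat_lit 381) (nat_lit 351)) (XT.lf (nat_lit 0) (nat_lit 2936911874) (nat_lit 1216) (nat_lit 1338439777) (nat_lit 76) (nat_lit 2728445000) (nat_lit 586) (nat_lit 5) (nat_lit 602) (nat_lit 5) (nat_lit 587) (nat_lit 5) (nat_lit 409) (nat_lit 381) (nat_lit 350)))))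 (XT.nd (nat_lit 234) (nat_lit 2888) (nat_lit 0) (XT.nd (nat_lit 78) (nat_lit 1368) (nat_lit 0) (XT.lf (nat_lit 0) (nat_lit 2893089284) (nat_lit 1216) (nat_lit 2544700130) (nat_lit 1292) (nat_lit 1604892765) (nat_lit 570) (nat_lit 5) (nat_lit 586) (nat_lit 5) (nat_lit 587) (nat_lit 5) (nat_lit 410) (nat_lit 381) (nat_lit 349)) (XT.nd (nat_lit 78) (nat_lit 0) (nat_lit 0) (XT.lf (nat_lit 0) (nat_lit 98146509) (nat_lit 1292) (nat_lit 753543872) (nat_lit 1368) (nat_lit 6231411802) (nat_lit 552) (nat_lit 5) (nat_lit 569) (nat_lit 5) (nat_lit 570) (nat_lit 5) (nat_lit 411) (nat_lit 381) (nat_lit 348)) (XT.lf (nat_lit 0) (nat_lit 3319311899) (nat_lit 1368) (nat_lit 2697724556) (nat_lit 76) (nat_lit 1107432881) (nat_lit 552) (nat_lit 5) (nat_lit 570) (nat_lit 5) (nat_lit 553) (nat_lit 5) (nat_lit 412) (nat_lit 381) (nat_lit 347)))) (XT.nd (nat_lit 78) (nat_lit 1520) (nat_lit 0) (XT.lf (nat_lit 0) (nat_lit 1649484188) (nat_lit 1368) (nat_lit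 4151890104) (nat_lit 1444) (nat_lit 1366006242) (nat_lit 534) (nat_lit 5) (nat_lit 552) (nat_lit 5) (nat_lit 553) (nat_lit 5) (nat_lit 413) (nat_lit 381) (nat_lit 346)) (XT.nd (nat_lit 78) (nat_lit 1444) (nat_lit 0) (XT.lf (nat_lit 0) (nat_lit 1075195827) (nat_lit 1444) (nat_lit 1140802946) (nat_lit 76) (nat_lit 4995663609) (nat_lit 533) (nat_lit 5) (nat_lit 552) (nat_lit 5) (nat_lit 534) (nat_lit 5) (nat_lit 414) (nat_lit 381) (nat_lit 345)) (XT.lf (nat_lit 0) (nat_lit 3316303032) (nat_lit 1444) (nat_lit 202921032) (nat_lit 1520) (nat_lit 3737996763) (nat_lit 514) (nat_lit 5) (nat_lit 533) (nat_lit 5) (nat_lit 534) (nat_lit 5) (nat_lit 415) (nat_lit 381) (nat_lit 344))))))) (XT.nd (nat_lit 858) (nat_lit 6536) (nat_lit 0) (XT.nd (nat_lit 390) (nat_lit 4940) (nat_lit 0) (XT.nd (nat_lit 156) (nat_lit 3344) (nat_lit 0) (XT.nd (nat_lit 78) (nat_lit 76) (nat_lit 0) (XT.lf (nat_lit 0) (nat_lit 526585647) (nat_lit 1520) (nat_lit 5460170197)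 (nat_lit 1596) (nat_lit 1317459202) (nat_lit 494) (nat_lit 5) (nat_lit 514) (nat_lit 5) (nat_lit 515) (nat_lit 5) (nat_lit 416) (nat_lit 381) (nat_lit 343)) (XT.lf (nat_lit 0) (nat_lit 1116177878) (nat_lit 1596) (nat_lit 2266865041) (nat_lit 76) (nat_lit 3969377294) (nat_lit 493) (nat_lit 5) (nat_lit 514) (nat_lit 5) (nat_lit 494) (nat_lit 5) (nat_lit 417) (nat_lit 381) (nat_lit 342))) (XT.nd (nat_lit 78) (nat_lit 1748) (nat_lit 0) (XT.lf (nat_lit 0) (nat_lit 2313467602) (nat_lit 1596) (nat_lit 1235187101) (nat_lit 1672) (nat_lit 3853420535) (nat_lit 472) (nat_lit 5) (nat_lit 493) (nat_lit 5) (nat_lit 494) (nat_lit 5) (nat_lit 418) (nat_lit 381) (nat_lit 341)) (XT.nd (nat_lit 78) (nat_lit 1748) (nat_lit 0) (XT.lf (nat_lit 0) (nat_lit 6004752214) (nat_lit 1672) (nat_lit 485552259) (nat_lit 76) (nat_lit 962935234) (nat_lit 472) (nat_lit 5) (nat_lit 494) (nat_lit 5) (nat_lit 473) (nat_lit 5) (nat_lit 419) (nat_lit 381) (nat_lit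 340)) (XT.lf (nat_lit 0) (nat_lit 981197643) (nat_lit 1748) (nat_lit 3297561636) (nat_lit 76) (nat_lit 3226756331) (nat_lit 449) (nat_lit 5) (nat_lit 472) (nat_lit 5) (nat_lit 450) (nat_lit 5) (nat_lit 420) (nat_lit 381) (nat_lit 339))))) (XT.nd (nat_lit 234) (nat_lit 1824) (nat_lit 0) (XT.nd (nat_lit 78) (nat_lit 1368) (nat_lit 0) (XT.lf (nat_lit 0) (nat_lit 1409552226) (nat_lit 1748) (nat_lit 1997655500) (nat_lit 1824) (nat_lit 4152110141) (nat_lit 426) (nat_lit 5) (nat_lit 449) (nat_lit 5) (nat_lit 450) (nat_lit 5) (nat_lit 421) (nat_lit 381) (nat_lit 338)) (XT.nd (nat_lit 78) (nat_lit 1368) (nat_lit 0) (XT.lf (nat_lit 0) (nat_lit 5861457431) (nat_lit 1824) (nat_lit 1403635158) (nat_lit 76) (nat_lit 349523757) (nat_lit 426) (nat_lit 5) (nat_lit 450) (nat_lit 5) (nat_lit 427) (nat_lit 5) (nat_lit 422) (nat_lit 381) (nat_lit 337)) (XT.lf (nat_lit 0) (nat_lit 676266398) (nat_lit 1368) (nat_lit 4248779393) (nat_lit 76) (nat_lit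 2746067032) (nat_lit 408) (nat_lit 5) (nat_lit 426) (nat_lit 5) (nat_lit 409) (nat_lit 5) (nat_lit 423) (nat_lit 381) (nat_lit 336)))) (XT.nd (nat_lit 78) (nat_lit 912) (nat_lit 0) (XT.lf (nat_lit 0) (nat_lit 588771220) (nat_lit 912) (nat_lit 2511831069) (nat_lit 988) (nat_lit 4628522963) (nat_lit 396) (nat_lit 5) (nat_lit 408) (nat_lit 5) (nat_lit 409) (nat_lit 5) (nat_lit 424) (nat_lit 381) (nat_lit 335)) (XT.nd (nat_lit 78) (nat_lit 912) (nat_lit 0) (XT.lf (nat_lit 0) (nat_lit 5538371165) (nat_lit 912) (nat_lit 20614907) (nat_lit 988) (nat_lit 2229614087) (nat_lit 396) (nat_lit 5) (nat_lit 408) (nat_lit 5) (nat_lit 409) (nat_lit 5) (nat_lit 425) (nat_lit 381) (nat_lit 334)) (XT.lf (nat_lit 0) (nat_lit 206241933) (nat_lit 912) (nat_lit 5136185235) (nat_lit 76) (nat_lit 2506985745) (nat_lit 384) (nat_lit 5) (nat_lit 396) (nat_lit 5) (nat_lit 385) (nat_lit 5) (nat_lit 426) (nat_lit 381) (nat_lit 333)))))) (XT.nd (nat_lit 468)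 (nat_lit 3116) (nat_lit 0) (XT.nd (nat_lit 234) (nat_lit 1672) (nat_lit 0) (XT.nd (nat_lit 78) (nat_lit 1748) (nat_lit 0) (XT.lf (nat_lit 0) (nat_lit 2634485795) (nat_lit 912) (nat_lit 162301632) (nat_lit 76) (nat_lit 5114901915) (nat_lit 384) (nat_lit 5) (nat_lit 396) (nat_lit 5) (nat_lit 385) (nat_lit 5) (nat_lit 427) (nat_lit 381) (nat_lit 332)) (XT.nd (nat_lit 78) (nat_lit 836) (nat_lit 0) (XT.lf (nat_lit 0) (nat_lit 4933989940) (nat_lit 912) (nat_lit 168320309) (nat_lit 988) (nat_lit 2873093166) (nat_lit 372) (nat_lit 5) (nat_lit 384) (nat_lit 5) (nat_lit 385) (nat_lit 5) (nat_lit 428) (nat_lit 381) (nat_lit 331)) (XT.lf (nat_lit 0) (nat_lit 2062445058) (nat_lit 836) (nat_lit 5547356628) (nat_lit 912) (nat_lit 430796061) (nat_lit 361) (nat_lit 5) (nat_lit 372) (nat_lit 5) (nat_lit 373) (nat_lit 5) (nat_lit 429) (nat_lit 381) (nat_lit 330)))) (XT.nd (nat_lit 78) (nat_lit 1596) (nat_lit 0) (XT.lf (nat_lit 0) (nat_lit 2014738168)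 (nat_lit 912) (nat_lit 854295246) (nat_lit 76) (nat_lit 5238178463) (nat_lit 360) (nat_lit 5) (nat_lit 372) (nat_lit 5) (nat_lit 361) (nat_lit 5) (nat_lit 430) (nat_lit 381) (nat_lit 329)) (XT.nd (nat_lit 78) (nat_lit 760) (nat_lit 0) (XT.lf (nat_lit 0) (nat_lit 4384942379) (nat_lit 836) (nat_lit 107490486) (nat_lit 912) (nat_lit 3682899593) (nat_lit 349) (nat_lit 5) (nat_lit 360) (nat_lit 5) (nat_lit 361) (nat_lit 5) (nat_lit 431) (nat_lit 381) (nat_lit 328)) (XT.lf (nat_lit 0) (nat_lit 1455046377) (nat_lit 760) (nat_lit 5558474168) (nat_lit 836) (nat_lit 1231429384) (nat_lit 339) (nat_lit 5) (nat_lit 349) (nat_lit 5) (nat_lit 350) (nat_lit 5) (nat_lit 432) (nat_lit 381) (nat_lit 327))))) (XT.nd (nat_lit 234) (nat_lit 1520) (nat_lit 0) (XT.nd (nat_lit 78) (nat_lit 1520) (nat_lit 0) (XT.lf (nat_lit 0) (nat_lit 1239998585) (nat_lit 836) (nat_lit 1510299959) (nat_lit 76) (nat_lit 5565755785) (nat_lit 338) (nat_lit 5) (nat_lit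 349) (nat_lit 5) (nat_lit 339) (nat_lit 5) (nat_lit 433) (nat_lit 381) (nat_lit 326)) (XT.nd (nat_lit 78) (nat_lit 760) (nat_lit 0) (XT.lf (nat_lit 0) (nat_lit 3732500121) (nat_lit 836) (nat_lit 4513715045) (nat_lit 76) (nat_lit 142450788) (nat_lit 328) (nat_lit 5) (nat_lit 339) (nat_lit 5) (nat_lit 329) (nat_lit 5) (nat_lit 434) (nat_lit 381) (nat_lit 325)) (XT.lf (nat_lit 0) (nat_lit 876944326) (nat_lit 760) (nat_lit 5394484093) (nat_lit 836) (nat_lit 2191380260) (nat_lit 318) (nat_lit 5) (nat_lit 328) (nat_lit 5) (nat_lit 329) (nat_lit 5) (nat_lit 435) (nat_lit 381) (nat_lit 324)))) (XT.nd (nat_lit 78) (nat_lit 1444) (nat_lit 0) (XT.lf (nat_lit 0) (nat_lit 311634503) (nat_lit 836) (nat_lit 2145879764) (nat_lit 76) (nat_lit 6081024770) (nat_lit 317) (nat_lit 5) (nat_lit 328) (nat_lit 5) (nat_lit 318) (nat_lit 5) (nat_lit 436) (nat_lit 381) (nat_lit 323)) (XT.nd (nat_lit 78) (nat_lit 684) (nat_lit 0) (XT.lf (nat_lit 0) (nat_lit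 2824525089) (nat_lit 836) (nat_lit 5228155555) (nat_lit 76) (nat_lit 563040297) (nat_lit 307) (nat_lit 5) (nat_lit 318) (nat_lit 5) (nat_lit 308) (nat_lit 5) (nat_lit 437) (nat_lit 381) (nat_lit 322)) (XT.lf (nat_lit 0) (nat_lit 312383042) (nat_lit 684) (nat_lit 5071913004) (nat_lit 760) (nat_lit 3310227595) (nat_lit 298) (nat_lit 5) (nat_lit 307) (nat_lit 5) (nat_lit 308) (nat_lit 5) (nat_lit 438) (nat_lit 381) (nat_lit 321))))))))
noncomputable def xc94 : XT := (XT.nd (nat_lit 1716) (nat_lit 5852) (nat_lit 0) (XT.nd (nat_lit 858) (nat_lit 3800) (nat_lit 0) (XT.nd (nat_lit 390) (nat_lit 2508) (nat_lit 0) (XT.nd (nat_lit 156) (nat_lit 1444) (nat_lit 0) (XT.nd (nat_lit 78) (nat_lit 760) (nat_lit 0) (XT.lf (nat_lit 0) (nat_lit 5992924893) (nat_lit 684) (nat_lit 2001684032) (nat_lit 760) (nat_lit 780315960) (nat_lit 298) (nat_lit 5) (nat_lit 307) (nat_lit 5) (nat_lit 308) (nat_lit 5) (nat_lit 439) (nat_lit 381) (nat_lit 320)) (XT.lf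 (nat_lit 0) (nat_lit 1767734656) (nat_lit 760) (nat_lit 5949182703) (nat_lit 76) (nat_lit 1139969078) (nat_lit 288) (nat_lit 5) (nat_lit 298) (nat_lit 5) (nat_lit 289) (nat_lit 5) (nat_lit 440) (nat_lit 381) (nat_lit 319))) (XT.nd (nat_lit 78) (nat_lit 1444) (nat_lit 0) (XT.lf (nat_lit 0) (nat_lit 4353463293) (nat_lit 760) (nat_lit 251479907) (nat_lit 76) (nat_lit 4335506429) (nat_lit 288) (nat_lit 5) (nat_lit 298) (nat_lit 5) (nat_lit 289) (nat_lit 5) (nat_lit 441) (nat_lit 381) (nat_lit 318)) (XT.nd (nat_lit 78) (nat_lit 760) (nat_lit 0) (XT.lf (nat_lit 0) (nat_lit 5592612448) (nat_lit 684) (nat_lit 1400396346) (nat_lit 760) (nat_lit 2032641951) (nat_lit 279) (nat_lit 5) (nat_lit 288) (nat_lit 5) (nat_lit 289) (nat_lit 5) (nat_lit 442) (nat_lit 381) (nat_lit 317)) (XT.lf (nat_lit 0) (nat_lit 560953255) (nat_lit 760) (nat_lit 6693516100) (nat_lit 76) (nat_lit 1858106990) (nat_lit 269) (nat_lit 5) (nat_lit 279) (nat_lit 5) (nat_lit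 270) (nat_lit 5) (nat_lit 443) (nat_lit 381) (nat_lit 316))))) (XT.nd (nat_lit 234) (nat_lit 1292) (nat_lit 0) (XT.nd (nat_lit 78) (nat_lit 1216) (nat_lit 0) (XT.lf (nat_lit 0) (nat_lit 3178014337) (nat_lit 760) (nat_lit 830398899) (nat_lit 76) (nat_lit 5192590488) (nat_lit 269) (nat_lit 5) (nat_lit 279) (nat_lit 5) (nat_lit 270) (nat_lit 5) (nat_lit 444) (nat_lit 381) (nat_lit 315)) (XT.nd (nat_lit 78) (nat_lit 608) (nat_lit 0) (XT.lf (nat_lit 0) (nat_lit 5177226224) (nat_lit 608) (nat_lit 670786166) (nat_lit 684) (nat_lit 3443183385) (nat_lit 261) (nat_lit 5) (nat_lit 269) (nat_lit 5) (nat_lit 270) (nat_lit 5) (nat_lit 445) (nat_lit 381) (nat_lit 314)) (XT.lf (nat_lit 0) (nat_lit 1899307045) (nat_lit 608) (nat_lit 6675109151) (nat_lit 684) (nat_lit 808723238) (nat_lit 253) (nat_lit 5) (nat_lit 261) (nat_lit 5) (nat_lit 262) (nat_lit 5) (nat_lit 446) (nat_lit 381) (nat_lit 313)))) (XT.nd (nat_lit 78) (nat_lit 1216) (nat_lit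 0) (XT.lf (nat_lit 0) (nat_lit 1853493688) (nat_lit 684) (nat_lit 1445743377) (nat_lit 76) (nat_lit 6177454489) (nat_lit 252) (nat_lit 5) (nat_lit 261) (nat_lit 5) (nat_lit 253) (nat_lit 5) (nat_lit 447) (nat_lit 381) (nat_lit 312)) (XT.nd (nat_lit 78) (nat_lit 608) (nat_lit 0) (XT.lf (nat_lit 0) (nat_lit 4558071825) (nat_lit 684) (nat_lit 4843740020) (nat_lit 76) (nat_lit 170204472) (nat_lit 244) (nat_lit 5) (nat_lit 253) (nat_lit 5) (nat_lit 245) (nat_lit 5) (nat_lit 448) (nat_lit 381) (nat_lit 311)) (XT.lf (nat_lit 0) (nat_lit 1331188551) (nat_lit 608) (nat_lit 5994229750) (nat_lit 684) (nat_lit 2343663022) (nat_lit 236) (nat_lit 5) (nat_lit 244) (nat_lit 5) (nat_lit 245) (nat_lit 5) (nat_lit 449) (nat_lit 381) (nat_lit 310)))))) (XT.nd (nat_lit 390) (nat_lit 2052) (nat_lit 0) (XT.nd (nat_lit 156) (nat_lit 1140) (nat_lit 0) (XT.nd (nat_lit 78) (nat_lit 532) (nat_lit 0) (XT.lf (nat_lit 0) (nat_lit 376320960) (nat_lit 684)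 (nat_lit 2115680478) (nat_lit 76) (nat_lit 7276018225) (nat_lit 235) (nat_lit 5) (nat_lit 244) (nat_lit 5) (nat_lit 236) (nat_lit 5) (nat_lit 450) (nat_lit 381) (nat_lit 309)) (XT.lf (nat_lit 0) (nat_lit 3123239030) (nat_lit 608) (nat_lit 5645028218) (nat_lit 76) (nat_lit 1100288231) (nat_lit 228) (nat_lit 5) (nat_lit 236) (nat_lit 5) (nat_lit 229) (nat_lit 5) (nat_lit 451) (nat_lit 381) (nat_lit 308))) (XT.nd (nat_lit 78) (nat_lit 608) (nat_lit 0) (XT.lf (nat_lit 0) (nat_lit 699632138) (nat_lit 532) (nat_lit 5230264365) (nat_lit 608) (nat_lit 4041116216) (nat_lit 221) (nat_lit 5) (nat_lit 228) (nat_lit 5) (nat_lit 229) (nat_lit 5) (nat_lit 452) (nat_lit 381) (nat_lit 307)) (XT.nd (nat_lit 78) (nat_lit 608) (nat_lit 0) (XT.lf (nat_lit 0) (nat_lit 7207644832) (nat_lit 532) (nat_lit 1592725944) (nat_lit 608) (nat_lit 1275001249) (nat_lit 221) (nat_lit 5) (nat_lit 228) (nat_lit 5) (nat_lit 229) (nat_lit 5) (nat_lit 453) (nat_lit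 381) (nat_lit 306)) (XT.lf (nat_lit 0) (nat_lit 1534033106) (nat_lit 608) (nat_lit 6533340164) (nat_lit 76) (nat_lit 2114093201) (nat_lit 213) (nat_lit 5) (nat_lit 221) (nat_lit 5) (nat_lit 214) (nat_lit 5) (nat_lit 454) (nat_lit 381) (nat_lit 305))))) (XT.nd (nat_lit 234) (nat_lit 1064) (nat_lit 0) (XT.nd (nat_lit 78) (nat_lit 988) (nat_lit 0) (XT.lf (nat_lit 0) (nat_lit 4382567327) (nat_lit 608) (nat_lit 15195188) (nat_lit 76) (nat_lit 5891750122) (nat_lit 213) (nat_lit 5) (nat_lit 221) (nat_lit 5) (nat_lit 214) (nat_lit 5) (nat_lit 455) (nat_lit 381) (nat_lit 304)) (XT.nd (nat_lit 78) (nat_lit 456) (nat_lit 0) (XT.lf (nat_lit 0) (nat_lit 6681780815) (nat_lit 532) (nat_lit 620709492) (nat_lit 608) (nat_lit 3096947152) (nat_lit 206) (nat_lit 5) (nat_lit 213) (nat_lit 5) (nat_lit 214) (nat_lit 5) (nat_lit 456) (nat_lit 381) (nat_lit 303)) (XT.lf (nat_lit 0) (nat_lit 2980023580) (nat_lit 456) (nat_lit 7312506879) (nat_lit 532)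 (nat_lit 218801919) (nat_lit 200) (nat_lit 5) (nat_lit 206) (nat_lit 5) (nat_lit 207) (nat_lit 5) (nat_lit 457) (nat_lit 381) (nat_lit 302)))) (XT.nd (nat_lit 78) (nat_lit 988) (nat_lit 0) (XT.lf (nat_lit 0) (nat_lit 2681895948) (nat_lit 532) (nat_lit 824376673) (nat_lit 76) (nat_lit 7118833068) (nat_lit 199) (nat_lit 5) (nat_lit 206) (nat_lit 5) (nat_lit 200) (nat_lit 5) (nat_lit 458) (nat_lit 381) (nat_lit 301)) (XT.nd (nat_lit 78) (nat_lit 456) (nat_lit 0) (XT.lf (nat_lit 0) (nat_lit 5651601724) (nat_lit 608) (nat_lit 4687648793) (nat_lit 76) (nat_lit 401602179) (nat_lit 192) (nat_lit 5) (nat_lit 200) (nat_lit 5) (nat_lit 193) (nat_lit 5) (nat_lit 459) (nat_lit 381) (nat_lit 300)) (XT.lf (nat_lit 0) (nat_lit 2187128621) (nat_lit 456) (nat_lit 6508751986) (nat_lit 532) (nat_lit 2162735975) (nat_lit 186) (nat_lit 5) (nat_lit 192) (nat_lit 5) (nat_lit 193) (nat_lit 5) (nat_lit 460) (nat_lit 381) (nat_lit 299))))))) (XT.nd (nat_lit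 858) (nat_lit 2660) (nat_lit 0) (XT.nd (nat_lit 390) (nat_lit 1672) (nat_lit 0) (XT.nd (nat_lit 156) (nat_lit 988) (nat_lit 0) (XT.nd (nat_lit 78) (nat_lit 456) (nat_lit 0) (XT.lf (nat_lit 0) (nat_lit 815485362) (nat_lit 532) (nat_lit 1759832590) (nat_lit 76) (nat_lit 8403237105) (nat_lit 185) (nat_lit 5) (nat_lit 192) (nat_lit 5) (nat_lit 186) (nat_lit 5) (nat_lit 461) (nat_lit 381) (nat_lit 298)) (XT.lf (nat_lit 0) (nat_lit 3841213594) (nat_lit 532) (nat_lit 5803064393) (nat_lit 76) (nat_lit 1455995572) (nat_lit 179) (nat_lit 5) (nat_lit 186) (nat_lit 5) (nat_lit 180) (nat_lit 5) (nat_lit 462) (nat_lit 381) (nat_lit 297))) (XT.nd (nat_lit 78) (nat_lit 532) (nat_lit 0) (XT.lf (nat_lit 0) (nat_lit 1255820687) (nat_lit 456) (nat_lit 5681783383) (nat_lit 532) (nat_lit 4286624505) (nat_lit 173) (nat_lit 5) (nat_lit 179) (nat_lit 5) (nat_lit 180) (nat_lit 5) (nat_lit 463) (nat_lit 381) (nat_lit 296)) (XT.nd (nat_lit 78) (nat_lit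 532) (nat_lit 0) (XT.lf (nat_lit 0) (nat_lit 8496226461) (nat_lit 456) (nat_lit 1611968486) (nat_lit 532) (nat_lit 1242227293) (nat_lit 173) (nat_lit 5) (nat_lit 179) (nat_lit 5) (nat_lit 180) (nat_lit 5) (nat_lit 464) (nat_lit 381) (nat_lit 295)) (XT.lf (nat_lit 0) (nat_lit 1857613741) (nat_lit 532) (nat_lit 7085415806) (nat_lit 76) (nat_lit 2535493307) (nat_lit 166) (nat_lit 5) (nat_lit 173) (nat_lit 5) (nat_lit 167) (nat_lit 5) (nat_lit 465) (nat_lit 381) (nat_lit 294))))) (XT.nd (nat_lit 234) (nat_lit 836) (nat_lit 0) (XT.nd (nat_lit 78) (nat_lit 456) (nat_lit 0) (XT.lf (nat_lit 0) (nat_lit 160191851) (nat_lit 380) (nat_lit 4847509249) (nat_lit 456) (nat_lit 6601227210) (nat_lit 161) (nat_lit 5) (nat_lit 166) (nat_lit 5) (nat_lit 167) (nat_lit 5) (nat_lit 466) (nat_lit 381) (nat_lit 293)) (XT.nd (nat_lit 78) (nat_lit 456) (nat_lit 0) (XT.lf (nat_lit 0) (nat_lit 7608883966) (nat_lit 380) (nat_lit 633591552) (nat_lit 456)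 (nat_lit 3499037269) (nat_lit 161) (nat_lit 5) (nat_lit 166) (nat_lit 5) (nat_lit 167) (nat_lit 5) (nat_lit 467) (nat_lit 381) (nat_lit 292)) (XT.lf (nat_lit 0) (nat_lit 3311878870) (nat_lit 456) (nat_lit 8249931589) (nat_lit 532) (nat_lit 314545722) (nat_lit 155) (nat_lit 5) (nat_lit 161) (nat_lit 5) (nat_lit 162) (nat_lit 5) (nat_lit 468) (nat_lit 381) (nat_lit 291)))) (XT.nd (nat_lit 78) (nat_lit 760) (nat_lit 0) (XT.lf (nat_lit 0) (nat_lit 2901926570) (nat_lit 532) (nat_lit 1113131935) (nat_lit 76) (nat_lit 7998326027) (nat_lit 154) (nat_lit 5) (nat_lit 161) (nat_lit 5) (nat_lit 155) (nat_lit 5) (nat_lit 469) (nat_lit 381) (nat_lit 290)) (XT.nd (nat_lit 78) (nat_lit 380) (nat_lit 0) (XT.lf (nat_lit 0) (nat_lit 6198287849) (nat_lit 456) (nat_lit 5621027668) (nat_lit 76) (nat_lit 333405189) (nat_lit 149) (nat_lit 5) (nat_lit 155) (nat_lit 5) (nat_lit 150) (nat_lit 5) (nat_lit 470) (nat_lit 381) (nat_lit 289)) (XT.lf (nat_lit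 0) (nat_lit 2012468288) (nat_lit 380) (nat_lit 7570605285) (nat_lit 456) (nat_lit 2711324270) (nat_lit 144) (nat_lit 5) (nat_lit 149) (nat_lit 5) (nat_lit 150) (nat_lit 5) (nat_lit 471) (nat_lit 381) (nat_lit 288)))))) (XT.nd (nat_lit 468) (nat_lit 1444) (nat_lit 0) (XT.nd (nat_lit 234) (nat_lit 380) (nat_lit 0) (XT.nd (nat_lit 78) (nat_lit 760) (nat_lit 0) (XT.lf (nat_lit 0) (nat_lit 602191960) (nat_lit 456) (nat_lit 2604631389) (nat_lit 76) (nat_lit 9231744305) (nat_lit 143) (nat_lit 5) (nat_lit 149) (nat_lit 5) (nat_lit 144) (nat_lit 5) (nat_lit 472) (nat_lit 381) (nat_lit 287)) (XT.nd (nat_lit 78) (nat_lit 380) (nat_lit 0) (XT.lf (nat_lit 0) (nat_lit 3963958467) (nat_lit 456) (nat_lit 7352875819) (nat_lit 76) (nat_lit 1268066389) (nat_lit 138) (nat_lit 5) (nat_lit 144) (nat_lit 5) (nat_lit 139) (nat_lit 5) (nat_lit 473) (nat_lit 381) (nat_lit 286)) (XT.lf (nat_lit 0) (nat_lit 475174113) (nat_lit 380) (nat_lit 6935743532)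 (nat_lit 456) (nat_lit 5322887428) (nat_lit 133) (nat_lit 5) (nat_lit 138) (nat_lit 5) (nat_lit 139) (nat_lit 5) (nat_lit 474) (nat_lit 381) (nat_lit 285)))) (XT.nd (nat_lit 78) (nat_lit 380) (nat_lit 0) (XT.lf (nat_lit 0) (nat_lit 8523081307) (nat_lit 380) (nat_lit 2429350749) (nat_lit 456) (nat_lit 1932746971) (nat_lit 133) (nat_lit 5) (nat_lit 138) (nat_lit 5) (nat_lit 139) (nat_lit 5) (nat_lit 475) (nat_lit 381) (nat_lit 284)) (XT.nd (nat_lit 78) (nat_lit 0) (nat_lit 0) (XT.lf (nat_lit 0) (nat_lit 1519978634) (nat_lit 380) (nat_lit 9358640283) (nat_lit 76) (nat_lit 2160471422) (nat_lit 128) (nat_lit 5) (nat_lit 133) (nat_lit 5) (nat_lit 129) (nat_lit 5) (nat_lit 476) (nat_lit 381) (nat_lit 283)) (XT.lf (nat_lit 0) (nat_lit 5038185255) (nat_lit 380) (nat_lit 1317722969) (nat_lit 76) (nat_lit 6839473595) (nat_lit 128) (nat_lit 5) (nat_lit 133) (nat_lit 5) (nat_lit 129) (nat_lit 5) (nat_lit 477) (nat_lit 381) (nat_lit 282)))))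 (XT.nd (nat_lit 234) (nat_lit 684) (nat_lit 0) (XT.nd (nat_lit 78) (nat_lit 380) (nat_lit 0) (XT.lf (nat_lit 0) (nat_lit 6939610472) (nat_lit 380) (nat_lit 1709385964) (nat_lit 456) (nat_lit 4705361383) (nat_lit 123) (nat_lit 5) (nat_lit 128) (nat_lit 5) (nat_lit 129) (nat_lit 5) (nat_lit 478) (nat_lit 381) (nat_lit 281)) (XT.nd (nat_lit 78) (nat_lit 76) (nat_lit 0) (XT.lf (nat_lit 0) (nat_lit 1832359021) (nat_lit 304) (nat_lit 10517457186) (nat_lit 380) (nat_lit 1166344718) (nat_lit 119) (nat_lit 5) (nat_lit 123) (nat_lit 5) (nat_lit 124) (nat_lit 5) (nat_lit 479) (nat_lit 381) (nat_lit 280)) (XT.lf (nat_lit 0) (nat_lit 2443442161) (nat_lit 380) (nat_lit 3412075114) (nat_lit 76) (nat_lit 7824728099) (nat_lit 118) (nat_lit 5) (nat_lit 123) (nat_lit 5) (nat_lit 119) (nat_lit 5) (nat_lit 480) (nat_lit 381) (nat_lit 279)))) (XT.nd (nat_lit 78) (nat_lit 304) (nat_lit 0) (XT.lf (nat_lit 0) (nat_lit 5048647532) (nat_lit 380) (nat_lit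 1071781455) (nat_lit 456) (nat_lit 7726819139) (nat_lit 113) (nat_lit 5) (nat_lit 118) (nat_lit 5) (nat_lit 119) (nat_lit 5) (nat_lit 481) (nat_lit 381) (nat_lit 278)) (XT.nd (nat_lit 78) (nat_lit 304) (nat_lit 0) (XT.lf (nat_lit 0) (nat_lit 9896680229) (nat_lit 456) (nat_lit 352228481) (nat_lit 76) (nat_lit 3768170899) (nat_lit 113) (nat_lit 5) (nat_lit 119) (nat_lit 5) (nat_lit 114) (nat_lit 5) (nat_lit 482) (nat_lit 381) (nat_lit 277)) (XT.lf (nat_lit 0) (nat_lit 8330862967) (nat_lit 304) (nat_lit 5457167740) (nat_lit 380) (nat_lit 401488638) (nat_lit 109) (nat_lit 5) (nat_lit 113) (nat_lit 5) (nat_lit 114) (nat_lit 5) (nat_lit 483) (nat_lit 381) (nat_lit 276))))))))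
noncomputable def xc95 : XT := (XT.nd (nat_lit 51402) (nat_lit 0) (nat_lit 43396) (XT.nd (nat_lit 858) (nat_lit 1596) (nat_lit 0) (XT.nd (nat_lit 390) (nat_lit 1140) (nat_lit 0) (XT.nd (nat_lit 156) (nat_lit 684) (nat_lit 0) (XT.nd (nat_lit 78) (nat_lit 0) (nat_lit 0) (XT.lf (nat_lit 0) (nat_lit 2807377668) (nat_lit 304) (nat_lit 538989355) (nat_lit 380) (nat_lit 11018622389) (nat_lit 104) (nat_lit 5) (nat_lit 108) (nat_lit 5) (nat_lit 109) (nat_lit 5) (nat_lit 484) (nat_lit 381) (nat_lit 275)) (XT.lf (nat_lit 0) (nat_lit 7211016410) (nat_lit 380) (nat_lit 2883579388) (nat_lit 76) (nat_lit 4448378683) (nat_lit 104) (nat_lit 5) (nat_lit 109) (nat_lit 5) (nat_lit 105) (nat_lit 5) (nat_lit 485) (nat_lit 381) (nat_lit 274))) (XT.nd (nat_lit 78) (nat_lit 380) (nat_lit 0) (XT.lf (nat_lit 0) (nat_lit 6005247223) (nat_lit 304) (nat_lit 5169252688) (nat_lit 380) (nat_lit 3549591389) (nat_lit 100) (nat_lit 5) (nat_lit 104) (nat_lit 5)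 (nat_lit 105) (nat_lit 5) (nat_lit 486) (nat_lit 381) (nat_lit 273)) (XT.nd (nat_lit 78) (nat_lit 0) (nat_lit 0) (XT.lf (nat_lit 0) (nat_lit 168640383) (nat_lit 304) (nat_lit 135345177) (nat_lit 380) (nat_lit 14604815447) (nat_lit 95) (nat_lit 5) (nat_lit 99) (nat_lit 5) (nat_lit 100) (nat_lit 5) (nat_lit 487) (nat_lit 381) (nat_lit 272)) (XT.lf (nat_lit 0) (nat_lit 4257646082) (nat_lit 380) (nat_lit 5834373305) (nat_lit 76) (nat_lit 5003308149) (nat_lit 95) (nat_lit 5) (nat_lit 100) (nat_lit 5) (nat_lit 96) (nat_lit 5) (nat_lit 488) (nat_lit 381) (nat_lit 271))))) (XT.nd (nat_lit 234) (nat_lit 532) (nat_lit 0) (XT.nd (nat_lit 78) (nat_lit 380) (nat_lit 0) (XT.lf (nat_lit 0) (nat_lit 3257983819) (nat_lit 228) (nat_lit 5033997021) (nat_lit 304) (nat_lit 6993574388) (nat_lit 92) (nat_lit 5) (nat_lit 95) (nat_lit 5) (nat_lit 96) (nat_lit 5) (nat_lit 489) (nat_lit 381) (nat_lit 270)) (XT.nd (nat_lit 78) (nat_lit 380) (nat_lit 0)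 (XT.lf (nat_lit 0) (nat_lit 12426879715) (nat_lit 304) (nat_lit 2902085146) (nat_lit 76) (nat_lit 150227665) (nat_lit 92) (nat_lit 5) (nat_lit 96) (nat_lit 5) (nat_lit 93) (nat_lit 5) (nat_lit 490) (nat_lit 381) (nat_lit 269)) (XT.lf (nat_lit 0) (nat_lit 1010543014) (nat_lit 380) (nat_lit 9258253089) (nat_lit 76) (nat_lit 5406674067) (nat_lit 87) (nat_lit 5) (nat_lit 92) (nat_lit 5) (nat_lit 88) (nat_lit 5) (nat_lit 491) (nat_lit 381) (nat_lit 268)))) (XT.nd (nat_lit 78) (nat_lit 304) (nat_lit 0) (XT.lf (nat_lit 0) (nat_lit 34187803) (nat_lit 228) (nat_lit 5079559943) (nat_lit 304) (nat_lit 10761525310) (nat_lit 84) (nat_lit 5) (nat_lit 87) (nat_lit 5) (nat_lit 88) (nat_lit 5) (nat_lit 492) (nat_lit 381) (nat_lit 267)) (XT.nd (nat_lit 78) (nat_lit 304) (nat_lit 0) (XT.lf (nat_lit 0) (nat_lit 9343134457) (nat_lit 304) (nat_lit 6474625428) (nat_lit 76) (nat_lit 260432161) (nat_lit 84) (nat_lit 5) (nat_lit 88) (nat_lit 5) (nat_lit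 85) (nat_lit 5) (nat_lit 493) (nat_lit 381) (nat_lit 266)) (XT.lf (nat_lit 0) (nat_lit 3053240291) (nat_lit 304) (nat_lit 10637912876) (nat_lit 380) (nat_lit 2593337718) (nat_lit 80) (nat_lit 5) (nat_lit 84) (nat_lit 5) (nat_lit 85) (nat_lit 5) (nat_lit 494) (nat_lit 381) (nat_lit 265)))))) (XT.nd (nat_lit 390) (nat_lit 760) (nat_lit 0) (XT.nd (nat_lit 156) (nat_lit 532) (nat_lit 0) (XT.nd (nat_lit 78) (nat_lit 228) (nat_lit 0) (XT.lf (nat_lit 0) (nat_lit 1634182378) (nat_lit 380) (nat_lit 3677871551) (nat_lit 76) (nat_lit 11182165027) (nat_lit 79) (nat_lit 5) (nat_lit 84) (nat_lit 5) (nat_lit 80) (nat_lit 5) (nat_lit 495) (nat_lit 381) (nat_lit 264)) (XT.lf (nat_lit 0) (nat_lit 5933228387) (nat_lit 304) (nat_lit 10610830565) (nat_lit 76) (nat_lit 163308011) (nat_lit 76) (nat_lit 5) (nat_lit 80) (nat_lit 5) (nat_lit 77) (nat_lit 5) (nat_lit 496) (nat_lit 381) (nat_lit 263))) (XT.nd (nat_lit 78) (nat_lit 532) (nat_lit 0) (XT.lf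 (nat_lit 0) (nat_lit 10359367242) (nat_lit 304) (nat_lit 875167284) (nat_lit 76) (nat_lit 5689423340) (nat_lit 76) (nat_lit 5) (nat_lit 80) (nat_lit 5) (nat_lit 77) (nat_lit 5) (nat_lit 497) (nat_lit 381) (nat_lit 262)) (XT.nd (nat_lit 78) (nat_lit 304) (nat_lit 0) (XT.lf (nat_lit 0) (nat_lit 9143930241) (nat_lit 228) (nat_lit 5770926760) (nat_lit 304) (nat_lit 2229209158) (nat_lit 73) (nat_lit 5) (nat_lit 76) (nat_lit 5) (nat_lit 77) (nat_lit 5) (nat_lit 498) (nat_lit 381) (nat_lit 261)) (XT.lf (nat_lit 0) (nat_lit 1987355727) (nat_lit 228) (nat_lit 177077322) (nat_lit 304) (nat_lit 15203854605) (nat_lit 69) (nat_lit 5) (nat_lit 72) (nat_lit 5) (nat_lit 73) (nat_lit 5) (nat_lit 499) (nat_lit 381) (nat_lit 260))))) (XT.nd (nat_lit 234) (nat_lit 532) (nat_lit 0) (XT.nd (nat_lit 78) (nat_lit 228) (nat_lit 0) (XT.lf (nat_lit 0) (nat_lit 6687640165) (nat_lit 304) (nat_lit 5395219641) (nat_lit 76) (nat_lit 5512410258) (nat_lit 69)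 (nat_lit 5) (nat_lit 73) (nat_lit 5) (nat_lit 70) (nat_lit 5) (nat_lit 500) (nat_lit 381) (nat_lit 259)) (XT.nd (nat_lit 78) (nat_lit 0) (nat_lit 0) (XT.lf (nat_lit 0) (nat_lit 4821557278) (nat_lit 228) (nat_lit 6494169785) (nat_lit 304) (nat_lit 6510778716) (nat_lit 66) (nat_lit 5) (nat_lit 69) (nat_lit 5) (nat_lit 70) (nat_lit 5) (nat_lit 501) (nat_lit 381) (nat_lit 258)) (XT.lf (nat_lit 0) (nat_lit 15285292909) (nat_lit 228) (nat_lit 769381810) (nat_lit 304) (nat_lit 2007327442) (nat_lit 66) (nat_lit 5) (nat_lit 69) (nat_lit 5) (nat_lit 70) (nat_lit 5) (nat_lit 502) (nat_lit 381) (nat_lit 257)))) (XT.nd (nat_lit 78) (nat_lit 228) (nat_lit 0) (XT.lf (nat_lit 0) (nat_lit 2617940810) (nat_lit 304) (nat_lit 10624229408) (nat_lit 76) (nat_lit 5058390958) (nat_lit 62) (nat_lit 5) (nat_lit 66) (nat_lit 5) (nat_lit 63) (nat_lit 5) (nat_lit 503) (nat_lit 381) (nat_lit 256)) (XT.nd (nat_lit 78) (nat_lit 228) (nat_lit 0) (XT.lf (nat_lit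 0) (nat_lit 7315111848) (nat_lit 304) (nat_lit 216180382) (nat_lit 76) (nat_lit 11012210084) (nat_lit 62) (nat_lit 5) (nat_lit 66) (nat_lit 5) (nat_lit 63) (nat_lit 5) (nat_lit 504) (nat_lit 381) (nat_lit 255)) (XT.lf (nat_lit 0) (nat_lit 10508217265) (nat_lit 228) (nat_lit 1648979070) (nat_lit 304) (nat_lit 6633088323) (nat_lit 59) (nat_lit 5) (nat_lit 62) (nat_lit 5) (nat_lit 63) (nat_lit 5) (nat_lit 505) (nat_lit 381) (nat_lit 254))))))) (XT.nd (nat_lit 858) (nat_lit 4560) (nat_lit 0) (XT.nd (nat_lit 390) (nat_lit 1368) (nat_lit 0) (XT.nd (nat_lit 156) (nat_lit 304) (nat_lit 0) (XT.nd (nat_lit 78) (nat_lit 228) (nat_lit 0) (XT.lf (nat_lit 0) (nat_lit 2865092361) (nat_lit 228) (nat_lit 179971495) (nat_lit 228) (nat_lit 179971495) (nat_lit 715) (nat_lit 3) (nat_lit 718) (nat_lit 3) (nat_lit 718) (nat_lit 5) (nat_lit 382) (nat_lit 382) (nat_lit 376)) (XT.lf (nat_lit 0) (nat_lit 2218697856) (nat_lit 228) (nat_lit 3654571244)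 (nat_lit 304) (nat_lit 581147386) (nat_lit 712) (nat_lit 5) (nat_lit 715) (nat_lit 3) (nat_lit 716) (nat_lit 5) (nat_lit 383) (nat_lit 382) (nat_lit 375))) (XT.nd (nat_lit 78) (nat_lit 304) (nat_lit 0) (XT.lf (nat_lit 0) (nat_lit 5132061439) (nat_lit 228) (nat_lit 476228513) (nat_lit 304) (nat_lit 851991103) (nat_lit 712) (nat_lit 5) (nat_lit 715) (nat_lit 3) (nat_lit 716) (nat_lit 5) (nat_lit 384) (nat_lit 382) (nat_lit 374)) (XT.nd (nat_lit 78) (nat_lit 0) (nat_lit 0) (XT.lf (nat_lit 0) (nat_lit 1558183364) (nat_lit 304) (nat_lit 3715351923) (nat_lit 380) (nat_lit 1193708852) (nat_lit 708) (nat_lit 5) (nat_lit 712) (nat_lit 5) (nat_lit 713) (nat_lit 5) (nat_lit 385) (nat_lit 382) (nat_lit 373)) (XT.lf (nat_lit 0) (nat_lit 4413168371) (nat_lit 304) (nat_lit 472399178) (nat_lit 380) (nat_lit 1590068247) (nat_lit 708) (nat_lit 5) (nat_lit 712) (nat_lit 5) (nat_lit 713) (nat_lit 5) (nat_lit 386) (nat_lit 382) (nat_lit 372)))))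 (XT.nd (nat_lit 234) (nat_lit 988) (nat_lit 0) (XT.nd (nat_lit 78) (nat_lit 0) (nat_lit 0) (XT.lf (nat_lit 0) (nat_lit 774890043) (nat_lit 380) (nat_lit 3657395914) (nat_lit 456) (nat_lit 2052939075) (nat_lit 703) (nat_lit 5) (nat_lit 708) (nat_lit 5) (nat_lit 709) (nat_lit 5) (nat_lit 387) (nat_lit 382) (nat_lit 371)) (XT.nd (nat_lit 78) (nat_lit 0) (nat_lit 0) (XT.lf (nat_lit 0) (nat_lit 3572129698) (nat_lit 380) (nat_lit 348434566) (nat_lit 456) (nat_lit 2575589607) (nat_lit 703) (nat_lit 5) (nat_lit 708) (nat_lit 5) (nat_lit 709) (nat_lit 5) (nat_lit 388) (nat_lit 382) (nat_lit 370)) (XT.lf (nat_lit 76) (nat_lit 3026916650) (nat_lit 0) (nat_lit 3347005755) (nat_lit 456) (nat_lit 134441526) (nat_lit 704) (nat_lit 5) (nat_lit 703) (nat_lit 5) (nat_lit 709) (nat_lit 5) (nat_lit 389) (nat_lit 382) (nat_lit 369)))) (XT.nd (nat_lit 78) (nat_lit 532) (nat_lit 0) (XT.lf (nat_lit 0) (nat_lit 2607329274) (nat_lit 456) (nat_lit 104087274)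 (nat_lit 532) (nat_lit 3810444060) (nat_lit 697) (nat_lit 5) (nat_lit 703) (nat_lit 5) (nat_lit 704) (nat_lit 5) (nat_lit 390) (nat_lit 382) (nat_lit 368)) (XT.nd (nat_lit 78) (nat_lit 532) (nat_lit 0) (XT.lf (nat_lit 76) (nat_lit 3344382751) (nat_lit 0) (nat_lit 2010445857) (nat_lit 532) (nat_lit 1181759776) (nat_lit 698) (nat_lit 5) (nat_lit 697) (nat_lit 5) (nat_lit 704) (nat_lit 5) (nat_lit 391) (nat_lit 382) (nat_lit 367)) (XT.lf (nat_lit 76) (nat_lit 264586438) (nat_lit 0) (nat_lit 1254038426) (nat_lit 608) (nat_lit 5034128552) (nat_lit 691) (nat_lit 5) (nat_lit 690) (nat_lit 5) (nat_lit 698) (nat_lit 5) (nat_lit 392) (nat_lit 382) (nat_lit 366)))))) (XT.nd (nat_lit 468) (nat_lit 2660) (nat_lit 0) (XT.nd (nat_lit 234) (nat_lit 1368) (nat_lit 0) (XT.nd (nat_lit 78) (nat_lit 532) (nat_lit 0) (XT.lf (nat_lit 76) (nat_lit 3786028721) (nat_lit 0) (nat_lit 425227375) (nat_lit 608) (nat_lit 2358779082) (nat_lit 691) (nat_lit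 5) (nat_lit 690) (nat_lit 5) (nat_lit 698) (nat_lit 5) (nat_lit 393) (nat_lit 382) (nat_lit 365)) (XT.nd (nat_lit 78) (nat_lit 0) (nat_lit 0) (XT.lf (nat_lit 0) (nat_lit 306623567) (nat_lit 608) (nat_lit 5834009143) (nat_lit 76) (nat_lit 448183523) (nat_lit 683) (nat_lit 5) (nat_lit 691) (nat_lit 5) (nat_lit 684) (nat_lit 5) (nat_lit 394) (nat_lit 382) (nat_lit 364)) (XT.lf (nat_lit 0) (nat_lit 2950145321) (nat_lit 608) (nat_lit 2265225740) (nat_lit 76) (nat_lit 1393191241) (nat_lit 683) (nat_lit 5) (nat_lit 691) (nat_lit 5) (nat_lit 684) (nat_lit 5) (nat_lit 395) (nat_lit 382) (nat_lit 363)))) (XT.nd (nat_lit 78) (nat_lit 760) (nat_lit 0) (XT.lf (nat_lit 0) (nat_lit 1352276052) (nat_lit 608) (nat_lit 4239064500) (nat_lit 684) (nat_lit 1038495236) (nat_lit 675) (nat_lit 5) (nat_lit 683) (nat_lit 5) (nat_lit 684) (nat_lit 5) (nat_lit 396) (nat_lit 382) (nat_lit 362)) (XT.nd (nat_lit 78) (nat_lit 684) (nat_lit 0) (XT.lf (nat_lit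 0) (nat_lit 1564270912) (nat_lit 684) (nat_lit 1630102906) (nat_lit 76) (nat_lit 3457938740) (nat_lit 674) (nat_lit 5) (nat_lit 683) (nat_lit 5) (nat_lit 675) (nat_lit 5) (nat_lit 397) (nat_lit 382) (nat_lit 361)) (XT.lf (nat_lit 0) (nat_lit 2070385711) (nat_lit 684) (nat_lit 2086072570) (nat_lit 760) (nat_lit 2519644774) (nat_lit 665) (nat_lit 5) (nat_lit 674) (nat_lit 5) (nat_lit 675) (nat_lit 5) (nat_lit 398) (nat_lit 382) (nat_lit 360))))) (XT.nd (nat_lit 234) (nat_lit 1824) (nat_lit 0) (XT.nd (nat_lit 78) (nat_lit 760) (nat_lit 0) (XT.lf (nat_lit 0) (nat_lit 48162821) (nat_lit 760) (nat_lit 874666681) (nat_lit 76) (nat_lit 5778565606) (nat_lit 664) (nat_lit 5) (nat_lit 674) (nat_lit 5) (nat_lit 665) (nat_lit 5) (nat_lit 399) (nat_lit 382) (nat_lit 359)) (XT.nd (nat_lit 78) (nat_lit 0) (nat_lit 0) (XT.lf (nat_lit 0) (nat_lit 2594164368) (nat_lit 836) (nat_lit 3817253553) (nat_lit 76) (nat_lit 316255824) (nat_lit 654) (nat_lit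 5) (nat_lit 665) (nat_lit 5) (nat_lit 655) (nat_lit 5) (nat_lit 400) (nat_lit 382) (nat_lit 358)) (XT.lf (nat_lit 0) (nat_lit 5143715256) (nat_lit 836) (nat_lit 18501290) (nat_lit 76) (nat_lit 1593233685) (nat_lit 654) (nat_lit 5) (nat_lit 665) (nat_lit 5) (nat_lit 655) (nat_lit 5) (nat_lit 401) (nat_lit 382) (nat_lit 357)))) (XT.nd (nat_lit 78) (nat_lit 912) (nat_lit 0) (XT.lf (nat_lit 0) (nat_lit 914513851) (nat_lit 912) (nat_lit 2923797778) (nat_lit 76) (nat_lit 2946037074) (nat_lit 642) (nat_lit 5) (nat_lit 654) (nat_lit 5) (nat_lit 643) (nat_lit 5) (nat_lit 402) (nat_lit 382) (nat_lit 356)) (XT.nd (nat_lit 78) (nat_lit 0) (nat_lit 0) (XT.lf (nat_lit 0) (nat_lit 964814889) (nat_lit 912) (nat_lit 2453553761) (nat_lit 988) (nat_lit 3396293607) (nat_lit 630) (nat_lit 5) (nat_lit 642) (nat_lit 5) (nat_lit 643) (nat_lit 5) (nat_lit 403) (nat_lit 382) (nat_lit 355)) (XT.lf (nat_lit 0) (nat_lit 4930324344) (nat_lit 912) (nat_lit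 1004718474) (nat_lit 988) (nat_lit 911307384) (nat_lit 630) (nat_lit 5) (nat_lit 642) (nat_lit 5) (nat_lit 643) (nat_lit 5) (nat_lit 404) (nat_lit 382) (nat_lit 354))))))))
noncomputable def xc96 : XT := (XT.nd (nat_lit 1716) (nat_lit 10640) (nat_lit 0) (XT.nd (nat_lit 858) (nat_lit 9880) (nat_lit 0) (XT.nd (nat_lit 390) (nat_lit 5472) (nat_lit 0) (XT.nd (nat_lit 156) (nat_lit 2280) (nat_lit 0) (XT.nd (nat_lit 78) (nat_lit 0) (nat_lit 0) (XT.lf (nat_lit 0) (nat_lit 1562722671) (nat_lit 1064) (nat_lit 4810036827) (nat_lit 76) (nat_lit 506510985) (nat_lit 616) (nat_lit 5) (nat_lit 630) (nat_lit 5) (nat_lit 617) (nat_lit 5) (nat_lit 405) (nat_lit 382) (nat_lit 353)) (XT.lf (nat_lit 0) (nat_lit 4038422561) (nat_lit 1064) (nat_lit 806637473) (nat_lit 76) (nat_lit 2068402467) (nat_lit 616) (nat_lit 5) (nat_lit 630) (nat_lit 5) (nat_lit 617) (nat_lit 5) (nat_lit 406) (nat_lit 382) (nat_lit 352))) (XT.nd (nat_lit 78) (nat_lit 1216)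 (nat_lit 0) (XT.lf (nat_lit 0) (nat_lit 3279207865) (nat_lit 1064) (nat_lit 3251585824) (nat_lit 1140) (nat_lit 418222744) (nat_lit 602) (nat_lit 5) (nat_lit 616) (nat_lit 5) (nat_lit 617) (nat_lit 5) (nat_lit 407) (nat_lit 382) (nat_lit 351)) (XT.nd (nat_lit 78) (nat_lit 0) (nat_lit 0) (XT.lf (nat_lit 0) (nat_lit 423397007) (nat_lit 1140) (nat_lit 1591442703) (nat_lit 1216) (nat_lit 4971101232) (nat_lit 586) (nat_lit 5) (nat_lit 601) (nat_lit 5) (nat_lit 602) (nat_lit 5) (nat_lit 408) (nat_lit 382) (nat_lit 350)) (XT.lf (nat_lit 0) (nat_lit 4463578354) (nat_lit 1216) (nat_lit 2420476688) (nat_lit 76) (nat_lit 140061304) (nat_lit 586) (nat_lit 5) (nat_lit 602) (nat_lit 5) (nat_lit 587) (nat_lit 5) (nat_lit 409) (nat_lit 382) (nat_lit 349))))) (XT.nd (nat_lit 234) (nat_lit 2888) (nat_lit 0) (XT.nd (nat_lit 78) (nat_lit 1368) (nat_lit 0) (XT.lf (nat_lit 0) (nat_lit 1776025847) (nat_lit 1216) (nat_lit 5155531169) (nat_lit 1292)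 (nat_lit 132112541) (nat_lit 570) (nat_lit 5) (nat_lit 586) (nat_lit 5) (nat_lit 587) (nat_lit 5) (nat_lit 410) (nat_lit 382) (nat_lit 348)) (XT.nd (nat_lit 78) (nat_lit 1292) (nat_lit 0) (XT.lf (nat_lit 0) (nat_lit 2279066104) (nat_lit 1292) (nat_lit 1071343330) (nat_lit 76) (nat_lit 3754019981) (nat_lit 569) (nat_lit 5) (nat_lit 586) (nat_lit 5) (nat_lit 570) (nat_lit 5) (nat_lit 411) (nat_lit 382) (nat_lit 347)) (XT.lf (nat_lit 0) (nat_lit 3229994716) (nat_lit 1292) (nat_lit 1477273606) (nat_lit 1368) (nat_lit 2439325777) (nat_lit 552) (nat_lit 5) (nat_lit 569) (nat_lit 5) (nat_lit 570) (nat_lit 5) (nat_lit 412) (nat_lit 382) (nat_lit 346)))) (XT.nd (nat_lit 78) (nat_lit 1520) (nat_lit 0) (XT.lf (nat_lit 0) (nat_lit 403273176) (nat_lit 1368) (nat_lit 6743810973) (nat_lit 1444) (nat_lit 43275044) (nat_lit 534) (nat_lit 5) (nat_lit 552) (nat_lit 5) (nat_lit 553) (nat_lit 5) (nat_lit 413) (nat_lit 382) (nat_lit 345)) (XT.nd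 (nat_lit 78) (nat_lit 1444) (nat_lit 0) (XT.lf (nat_lit 0) (nat_lit 2356195114) (nat_lit 1444) (nat_lit 2439361261) (nat_lit 76) (nat_lit 2439409203) (nat_lit 533) (nat_lit 5) (nat_lit 552) (nat_lit 5) (nat_lit 534) (nat_lit 5) (nat_lit 414) (nat_lit 382) (nat_lit 344)) (XT.lf (nat_lit 0) (nat_lit 1979843681) (nat_lit 1444) (nat_lit 2787796556) (nat_lit 1520) (nat_lit 2513543897) (nat_lit 514) (nat_lit 5) (nat_lit 533) (nat_lit 5) (nat_lit 534) (nat_lit 5) (nat_lit 415) (nat_lit 382) (nat_lit 343)))))) (XT.nd (nat_lit 390) (nat_lit 4940) (nat_lit 0) (XT.nd (nat_lit 156) (nat_lit 3344) (nat_lit 0) (XT.nd (nat_lit 78) (nat_lit 1596) (nat_lit 0) (XT.lf (nat_lit 0) (nat_lit 6479615927) (nat_lit 1444) (nat_lit 716459170) (nat_lit 1520) (nat_lit 132893477) (nat_lit 514) (nat_lit 5) (nat_lit 533) (nat_lit 5) (nat_lit 534) (nat_lit 5) (nat_lit 416) (nat_lit 382) (nat_lit 342)) (XT.lf (nat_lit 0) (nat_lit 2251550402) (nat_lit 1596) (nat_lit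 3702880922) (nat_lit 76) (nat_lit 1423269705) (nat_lit 493) (nat_lit 5) (nat_lit 514) (nat_lit 5) (nat_lit 494) (nat_lit 5) (nat_lit 417) (nat_lit 382) (nat_lit 341))) (XT.nd (nat_lit 78) (nat_lit 1748) (nat_lit 0) (XT.lf (nat_lit 0) (nat_lit 837582875) (nat_lit 1596) (nat_lit 3813939547) (nat_lit 1672) (nat_lit 2776491532) (nat_lit 472) (nat_lit 5) (nat_lit 493) (nat_lit 5) (nat_lit 494) (nat_lit 5) (nat_lit 418) (nat_lit 382) (nat_lit 340)) (XT.nd (nat_lit 78) (nat_lit 1748) (nat_lit 0) (XT.lf (nat_lit 0) (nat_lit 5477887121) (nat_lit 1596) (nat_lit 1600792485) (nat_lit 1672) (nat_lit 401085276) (nat_lit 472) (nat_lit 5) (nat_lit 493) (nat_lit 5) (nat_lit 494) (nat_lit 5) (nat_lit 419) (nat_lit 382) (nat_lit 339)) (XT.lf (nat_lit 0) (nat_lit 1971990429) (nat_lit 1748) (nat_lit 4878123931) (nat_lit 76) (nat_lit 682655222) (nat_lit 449) (nat_lit 5) (nat_lit 472) (nat_lit 5) (nat_lit 450) (nat_lit 5) (nat_lit 420) (nat_lit 382)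 (nat_lit 338))))) (XT.nd (nat_lit 234) (nat_lit 1824) (nat_lit 0) (XT.nd (nat_lit 78) (nat_lit 3116) (nat_lit 0) (XT.lf (nat_lit 0) (nat_lit 4366851445) (nat_lit 1748) (nat_lit 210104417) (nat_lit 76) (nat_lit 3010246168) (nat_lit 449) (nat_lit 5) (nat_lit 472) (nat_lit 5) (nat_lit 450) (nat_lit 5) (nat_lit 421) (nat_lit 382) (nat_lit 337)) (XT.nd (nat_lit 78) (nat_lit 1368) (nat_lit 0) (XT.lf (nat_lit 0) (nat_lit 4570405614) (nat_lit 1748) (nat_lit 2225314851) (nat_lit 1824) (nat_lit 847294726) (nat_lit 426) (nat_lit 5) (nat_lit 449) (nat_lit 5) (nat_lit 450) (nat_lit 5) (nat_lit 422) (nat_lit 382) (nat_lit 336)) (XT.lf (nat_lit 0) (nat_lit 1523199838) (nat_lit 1368) (nat_lit 5980989372) (nat_lit 76) (nat_lit 196152628) (nat_lit 408) (nat_lit 5) (nat_lit 426) (nat_lit 5) (nat_lit 409) (nat_lit 5) (nat_lit 423) (nat_lit 382) (nat_lit 335)))) (XT.nd (nat_lit 78) (nat_lit 1824) (nat_lit 0) (XT.lf (nat_lit 0) (nat_lit 3922586420)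 (nat_lit 1368) (nat_lit 1171824111) (nat_lit 76) (nat_lit 2664449381) (nat_lit 408) (nat_lit 5) (nat_lit 426) (nat_lit 5) (nat_lit 409) (nat_lit 5) (nat_lit 424) (nat_lit 382) (nat_lit 334)) (XT.nd (nat_lit 78) (nat_lit 912) (nat_lit 0) (XT.lf (nat_lit 0) (nat_lit 3741675337) (nat_lit 912) (nat_lit 2610739850) (nat_lit 988) (nat_lit 1466497264) (nat_lit 396) (nat_lit 5) (nat_lit 408) (nat_lit 5) (nat_lit 409) (nat_lit 5) (nat_lit 425) (nat_lit 382) (nat_lit 333)) (XT.lf (nat_lit 0) (nat_lit 853066279) (nat_lit 836) (nat_lit 57025536) (nat_lit 912) (nat_lit 6970525745) (nat_lit 384) (nat_lit 5) (nat_lit 395) (nat_lit 5) (nat_lit 396) (nat_lit 5) (nat_lit 426) (nat_lit 382) (nat_lit 332))))))) (XT.nd (nat_lit 858) (nat_lit 4788) (nat_lit 0) (XT.nd (nat_lit 390) (nat_lit 3192) (nat_lit 0) (XT.nd (nat_lit 156) (nat_lit 1748) (nat_lit 0) (XT.nd (nat_lit 78) (nat_lit 912) (nat_lit 0) (XT.lf (nat_lit 0) (nat_lit 3317658984) (nat_lit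 912) (nat_lit 2073980533) (nat_lit 76) (nat_lit 2551674159) (nat_lit 384) (nat_lit 5) (nat_lit 396) (nat_lit 5) (nat_lit 385) (nat_lit 5) (nat_lit 427) (nat_lit 382) (nat_lit 331)) (XT.lf (nat_lit 0) (nat_lit 2976358802) (nat_lit 912) (nat_lit 2776506117) (nat_lit 988) (nat_lit 2254821233) (nat_lit 372) (nat_lit 5) (nat_lit 384) (nat_lit 5) (nat_lit 385) (nat_lit 5) (nat_lit 428) (nat_lit 382) (nat_lit 330))) (XT.nd (nat_lit 78) (nat_lit 836) (nat_lit 0) (XT.lf (nat_lit 0) (nat_lit 40899692) (nat_lit 836) (nat_lit 94695984) (nat_lit 912) (nat_lit 7938254692) (nat_lit 360) (nat_lit 5) (nat_lit 371) (nat_lit 5) (nat_lit 372) (nat_lit 5) (nat_lit 429) (nat_lit 382) (nat_lit 329)) (XT.nd (nat_lit 78) (nat_lit 836) (nat_lit 0) (XT.lf (nat_lit 0) (nat_lit 2555331840) (nat_lit 912) (nat_lit 2931945378) (nat_lit 76) (nat_lit 2653539986) (nat_lit 360) (nat_lit 5) (nat_lit 372) (nat_lit 5) (nat_lit 361) (nat_lit 5) (nat_lit 430) (nat_lit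 382) (nat_lit 328)) (XT.lf (nat_lit 0) (nat_lit 2259147396) (nat_lit 836) (nat_lit 2740926806) (nat_lit 912) (nat_lit 3209528204) (nat_lit 349) (nat_lit 5) (nat_lit 360) (nat_lit 5) (nat_lit 361) (nat_lit 5) (nat_lit 431) (nat_lit 382) (nat_lit 327))))) (XT.nd (nat_lit 234) (nat_lit 1596) (nat_lit 0) (XT.nd (nat_lit 78) (nat_lit 1596) (nat_lit 0) (XT.lf (nat_lit 0) (nat_lit 7475703307) (nat_lit 912) (nat_lit 727510694) (nat_lit 76) (nat_lit 76920511) (nat_lit 349) (nat_lit 5) (nat_lit 361) (nat_lit 5) (nat_lit 350) (nat_lit 5) (nat_lit 432) (nat_lit 382) (nat_lit 326)) (XT.nd (nat_lit 78) (nat_lit 760) (nat_lit 0) (XT.lf (nat_lit 0) (nat_lit 1637774841) (nat_lit 836) (nat_lit 3761173425) (nat_lit 76) (nat_lit 2952712887) (nat_lit 338) (nat_lit 5) (nat_lit 349) (nat_lit 5) (nat_lit 339) (nat_lit 5) (nat_lit 433) (nat_lit 382) (nat_lit 325)) (XT.lf (nat_lit 0) (nat_lit 1574628953) (nat_lit 760) (nat_lit 2521333715) (nat_lit 836)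 (nat_lit 4329001534) (nat_lit 328) (nat_lit 5) (nat_lit 338) (nat_lit 5) (nat_lit 339) (nat_lit 5) (nat_lit 434) (nat_lit 382) (nat_lit 324)))) (XT.nd (nat_lit 78) (nat_lit 1596) (nat_lit 0) (XT.lf (nat_lit 0) (nat_lit 6594610776) (nat_lit 836) (nat_lit 1475253569) (nat_lit 76) (nat_lit 430053233) (nat_lit 328) (nat_lit 5) (nat_lit 339) (nat_lit 5) (nat_lit 329) (nat_lit 5) (nat_lit 435) (nat_lit 382) (nat_lit 323)) (XT.nd (nat_lit 78) (nat_lit 760) (nat_lit 0) (XT.lf (nat_lit 0) (nat_lit 566071122) (nat_lit 836) (nat_lit 4577336773) (nat_lit 76) (nat_lit 3432765445) (nat_lit 317) (nat_lit 5) (nat_lit 328) (nat_lit 5) (nat_lit 318) (nat_lit 5) (nat_lit 436) (nat_lit 382) (nat_lit 322)) (XT.lf (nat_lit 0) (nat_lit 907151482) (nat_lit 760) (nat_lit 2134217143) (nat_lit 836) (nat_lit 5612743237) (nat_lit 307) (nat_lit 5) (nat_lit 317) (nat_lit 5) (nat_lit 318) (nat_lit 5) (nat_lit 437) (nat_lit 382) (nat_lit 321)))))) (XT.nd (nat_lit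 390) (nat_lit 2660) (nat_lit 0) (XT.nd (nat_lit 156) (nat_lit 1444) (nat_lit 0) (XT.nd (nat_lit 78) (nat_lit 684) (nat_lit 0) (XT.lf (nat_lit 0) (nat_lit 5567696919) (nat_lit 836) (nat_lit 2217023349) (nat_lit 76) (nat_lit 948867812) (nat_lit 307) (nat_lit 5) (nat_lit 318) (nat_lit 5) (nat_lit 308) (nat_lit 5) (nat_lit 438) (nat_lit 382) (nat_lit 320)) (XT.lf (nat_lit 0) (nat_lit 3413828024) (nat_lit 684) (nat_lit 4732251319) (nat_lit 760) (nat_lit 668553162) (nat_lit 298) (nat_lit 5) (nat_lit 307) (nat_lit 5) (nat_lit 308) (nat_lit 5) (nat_lit 439) (nat_lit 382) (nat_lit 319))) (XT.nd (nat_lit 78) (nat_lit 684) (nat_lit 0) (XT.lf (nat_lit 0) (nat_lit 240681879) (nat_lit 684) (nat_lit 1595362528) (nat_lit 760) (nat_lit 7061379277) (nat_lit 288) (nat_lit 5) (nat_lit 297) (nat_lit 5) (nat_lit 298) (nat_lit 5) (nat_lit 440) (nat_lit 382) (nat_lit 318)) (XT.nd (nat_lit 78) (nat_lit 684) (nat_lit 0) (XT.lf (nat_lit 0) (nat_lit 4394479914)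 (nat_lit 760) (nat_lit 2968934627) (nat_lit 76) (nat_lit 1618122508) (nat_lit 288) (nat_lit 5) (nat_lit 298) (nat_lit 5) (nat_lit 289) (nat_lit 5) (nat_lit 441) (nat_lit 382) (nat_lit 317)) (XT.lf (nat_lit 0) (nat_lit 2818923665) (nat_lit 684) (nat_lit 4180490200) (nat_lit 760) (nat_lit 2068020752) (nat_lit 279) (nat_lit 5) (nat_lit 288) (nat_lit 5) (nat_lit 289) (nat_lit 5) (nat_lit 442) (nat_lit 382) (nat_lit 316))))) (XT.nd (nat_lit 234) (nat_lit 1292) (nat_lit 0) (XT.nd (nat_lit 78) (nat_lit 1292) (nat_lit 0) (XT.lf (nat_lit 0) (nat_lit 481508785) (nat_lit 760) (nat_lit 435553351) (nat_lit 76) (nat_lit 8238197331) (nat_lit 278) (nat_lit 5) (nat_lit 288) (nat_lit 5) (nat_lit 279) (nat_lit 5) (nat_lit 443) (nat_lit 382) (nat_lit 315)) (XT.nd (nat_lit 78) (nat_lit 608) (nat_lit 0) (XT.lf (nat_lit 0) (nat_lit 3073385570) (nat_lit 760) (nat_lit 3747694126) (nat_lit 76) (nat_lit 2423114815) (nat_lit 269) (nat_lit 5) (nat_lit 279)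 (nat_lit 5) (nat_lit 270) (nat_lit 5) (nat_lit 444) (nat_lit 382) (nat_lit 314)) (XT.lf (nat_lit 0) (nat_lit 2201168010) (nat_lit 608) (nat_lit 3506867909) (nat_lit 684) (nat_lit 3627061499) (nat_lit 261) (nat_lit 5) (nat_lit 269) (nat_lit 5) (nat_lit 270) (nat_lit 5) (nat_lit 445) (nat_lit 382) (nat_lit 313)))) (XT.nd (nat_lit 78) (nat_lit 1292) (nat_lit 0) (XT.lf (nat_lit 0) (nat_lit 8280213065) (nat_lit 608) (nat_lit 108322032) (nat_lit 684) (nat_lit 1039427899) (nat_lit 261) (nat_lit 5) (nat_lit 269) (nat_lit 5) (nat_lit 270) (nat_lit 5) (nat_lit 446) (nat_lit 382) (nat_lit 312)) (XT.nd (nat_lit 78) (nat_lit 608) (nat_lit 0) (XT.lf (nat_lit 0) (nat_lit 1601722977) (nat_lit 684) (nat_lit 4570757104) (nat_lit 76) (nat_lit 3349550505) (nat_lit 252) (nat_lit 5) (nat_lit 261) (nat_lit 5) (nat_lit 253) (nat_lit 5) (nat_lit 447) (nat_lit 382) (nat_lit 311)) (XT.lf (nat_lit 0) (nat_lit 1543026024) (nat_lit 608) (nat_lit 2725989217)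 (nat_lit 684) (nat_lit 5349089432) (nat_lit 244) (nat_lit 5) (nat_lit 252) (nat_lit 5) (nat_lit 253) (nat_lit 5) (nat_lit 448) (nat_lit 382) (nat_lit 310))))))))
noncomputable def xc97 : XT := (XT.nd (nat_lit 1716) (nat_lit 4940) (nat_lit 0) (XT.nd (nat_lit 858) (nat_lit 3268) (nat_lit 0) (XT.nd (nat_lit 390) (nat_lit 2204) (nat_lit 0) (XT.nd (nat_lit 156) (nat_lit 1140) (nat_lit 0) (XT.nd (nat_lit 78) (nat_lit 608) (nat_lit 0) (XT.lf (nat_lit 0) (nat_lit 6994692037) (nat_lit 684) (nat_lit 1919652197) (nat_lit 76) (nat_lit 801662373) (nat_lit 244) (nat_lit 5) (nat_lit 253) (nat_lit 5) (nat_lit 245) (nat_lit 5) (nat_lit 449) (nat_lit 382) (nat_lit 309)) (XT.lf (nat_lit 0) (nat_lit 4358900191) (nat_lit 608) (nat_lit 5431980917) (nat_lit 684) (nat_lit 24672497) (nat_lit 236) (nat_lit 5) (nat_lit 244) (nat_lit 5) (nat_lit 245) (nat_lit 5) (nat_lit 450) (nat_lit 382) (nat_lit 308))) (XT.nd (nat_lit 78) (nat_lit 532) (nat_lit 0) (XT.lf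 (nat_lit 0) (nat_lit 826012207) (nat_lit 532) (nat_lit 1852252168) (nat_lit 608) (nat_lit 7238717677) (nat_lit 228) (nat_lit 5) (nat_lit 235) (nat_lit 5) (nat_lit 236) (nat_lit 5) (nat_lit 451) (nat_lit 382) (nat_lit 307)) (XT.nd (nat_lit 78) (nat_lit 532) (nat_lit 0) (XT.lf (nat_lit 0) (nat_lit 5453532848) (nat_lit 608) (nat_lit 2763031175) (nat_lit 76) (nat_lit 1803506312) (nat_lit 228) (nat_lit 5) (nat_lit 236) (nat_lit 5) (nat_lit 229) (nat_lit 5) (nat_lit 452) (nat_lit 382) (nat_lit 306)) (XT.lf (nat_lit 0) (nat_lit 3688819114) (nat_lit 532) (nat_lit 4602354055) (nat_lit 608) (nat_lit 1833916354) (nat_lit 221) (nat_lit 5) (nat_lit 228) (nat_lit 5) (nat_lit 229) (nat_lit 5) (nat_lit 453) (nat_lit 382) (nat_lit 305))))) (XT.nd (nat_lit 234) (nat_lit 1064) (nat_lit 0) (XT.nd (nat_lit 78) (nat_lit 532) (nat_lit 0) (XT.lf (nat_lit 0) (nat_lit 30509592) (nat_lit 532) (nat_lit 899983101) (nat_lit 608) (nat_lit 9301806042) (nat_lit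 213) (nat_lit 5) (nat_lit 220) (nat_lit 5) (nat_lit 221) (nat_lit 5) (nat_lit 454) (nat_lit 382) (nat_lit 304)) (XT.nd (nat_lit 78) (nat_lit 532) (nat_lit 0) (XT.lf (nat_lit 0) (nat_lit 3758844777) (nat_lit 608) (nat_lit 3697189310) (nat_lit 76) (nat_lit 2884717474) (nat_lit 213) (nat_lit 5) (nat_lit 221) (nat_lit 5) (nat_lit 214) (nat_lit 5) (nat_lit 455) (nat_lit 382) (nat_lit 303)) (XT.lf (nat_lit 0) (nat_lit 2931594053) (nat_lit 532) (nat_lit 3708767306) (nat_lit 608) (nat_lit 3811086109) (nat_lit 206) (nat_lit 5) (nat_lit 213) (nat_lit 5) (nat_lit 214) (nat_lit 5) (nat_lit 456) (nat_lit 382) (nat_lit 302)))) (XT.nd (nat_lit 78) (nat_lit 1064) (nat_lit 0) (XT.lf (nat_lit 0) (nat_lit 9577066520) (nat_lit 608) (nat_lit 860338895) (nat_lit 76) (nat_lit 127006571) (nat_lit 206) (nat_lit 5) (nat_lit 214) (nat_lit 5) (nat_lit 207) (nat_lit 5) (nat_lit 457) (nat_lit 382) (nat_lit 301)) (XT.nd (nat_lit 78) (nat_lit 532) (nat_lit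 0) (XT.lf (nat_lit 0) (nat_lit 1903853159) (nat_lit 532) (nat_lit 4743531305) (nat_lit 76) (nat_lit 4031294994) (nat_lit 199) (nat_lit 5) (nat_lit 206) (nat_lit 5) (nat_lit 200) (nat_lit 5) (nat_lit 458) (nat_lit 382) (nat_lit 300)) (XT.lf (nat_lit 0) (nat_lit 2065593729) (nat_lit 532) (nat_lit 2765806340) (nat_lit 608) (nat_lit 5963872306) (nat_lit 192) (nat_lit 5) (nat_lit 199) (nat_lit 5) (nat_lit 200) (nat_lit 5) (nat_lit 459) (nat_lit 382) (nat_lit 299)))))) (XT.nd (nat_lit 390) (nat_lit 1824) (nat_lit 0) (XT.nd (nat_lit 156) (nat_lit 988) (nat_lit 0) (XT.nd (nat_lit 78) (nat_lit 456) (nat_lit 0) (XT.lf (nat_lit 0) (nat_lit 7830023699) (nat_lit 608) (nat_lit 1884559502) (nat_lit 76) (nat_lit 1199368845) (nat_lit 192) (nat_lit 5) (nat_lit 200) (nat_lit 5) (nat_lit 193) (nat_lit 5) (nat_lit 460) (nat_lit 382) (nat_lit 298)) (XT.lf (nat_lit 0) (nat_lit 5108655287) (nat_lit 456) (nat_lit 5804719514) (nat_lit 532) (nat_lit 121140714)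 (nat_lit 186) (nat_lit 5) (nat_lit 192) (nat_lit 5) (nat_lit 193) (nat_lit 5) (nat_lit 461) (nat_lit 382) (nat_lit 297))) (XT.nd (nat_lit 78) (nat_lit 456) (nat_lit 0) (XT.lf (nat_lit 0) (nat_lit 1067521755) (nat_lit 456) (nat_lit 1788367900) (nat_lit 532) (nat_lit 8301368349) (nat_lit 179) (nat_lit 5) (nat_lit 185) (nat_lit 5) (nat_lit 186) (nat_lit 5) (nat_lit 462) (nat_lit 382) (nat_lit 296)) (XT.nd (nat_lit 78) (nat_lit 456) (nat_lit 0) (XT.lf (nat_lit 0) (nat_lit 5919435918) (nat_lit 532) (nat_lit 3054431258) (nat_lit 76) (nat_lit 2308005205) (nat_lit 179) (nat_lit 5) (nat_lit 186) (nat_lit 5) (nat_lit 180) (nat_lit 5) (nat_lit 463) (nat_lit 382) (nat_lit 295)) (XT.lf (nat_lit 0) (nat_lit 4126784850) (nat_lit 456) (nat_lit 4930203386) (nat_lit 532) (nat_lit 2351741006) (nat_lit 173) (nat_lit 5) (nat_lit 179) (nat_lit 5) (nat_lit 180) (nat_lit 5) (nat_lit 464) (nat_lit 382) (nat_lit 294))))) (XT.nd (nat_lit 234) (nat_lit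 912) (nat_lit 0) (XT.nd (nat_lit 78) (nat_lit 836) (nat_lit 0) (XT.lf (nat_lit 0) (nat_lit 704560983) (nat_lit 532) (nat_lit 86668245) (nat_lit 76) (nat_lit 10746908844) (nat_lit 172) (nat_lit 5) (nat_lit 179) (nat_lit 5) (nat_lit 173) (nat_lit 5) (nat_lit 465) (nat_lit 382) (nat_lit 293)) (XT.nd (nat_lit 78) (nat_lit 380) (nat_lit 0) (XT.lf (nat_lit 0) (nat_lit 3835216102) (nat_lit 532) (nat_lit 4395824630) (nat_lit 76) (nat_lit 3437893728) (nat_lit 166) (nat_lit 5) (nat_lit 173) (nat_lit 5) (nat_lit 167) (nat_lit 5) (nat_lit 466) (nat_lit 382) (nat_lit 292)) (XT.lf (nat_lit 0) (nat_lit 2976068210) (nat_lit 380) (nat_lit 4052450693) (nat_lit 456) (nat_lit 4773831708) (nat_lit 161) (nat_lit 5) (nat_lit 166) (nat_lit 5) (nat_lit 167) (nat_lit 5) (nat_lit 467) (nat_lit 382) (nat_lit 291)))) (XT.nd (nat_lit 78) (nat_lit 912) (nat_lit 0) (XT.lf (nat_lit 0) (nat_lit 10291810718) (nat_lit 456) (nat_lit 1421244962) (nat_lit 76) (nat_lit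 225261385) (nat_lit 161) (nat_lit 5) (nat_lit 167) (nat_lit 5) (nat_lit 162) (nat_lit 5) (nat_lit 468) (nat_lit 382) (nat_lit 290)) (XT.nd (nat_lit 78) (nat_lit 380) (nat_lit 0) (XT.lf (nat_lit 0) (nat_lit 1565721296) (nat_lit 532) (nat_lit 5936858872) (nat_lit 76) (nat_lit 4573374590) (nat_lit 154) (nat_lit 5) (nat_lit 161) (nat_lit 5) (nat_lit 155) (nat_lit 5) (nat_lit 469) (nat_lit 382) (nat_lit 289)) (XT.lf (nat_lit 0) (nat_lit 1627941367) (nat_lit 380) (nat_lit 3188034686) (nat_lit 456) (nat_lit 7400239080) (nat_lit 149) (nat_lit 5) (nat_lit 154) (nat_lit 5) (nat_lit 155) (nat_lit 5) (nat_lit 470) (nat_lit 382) (nat_lit 288))))))) (XT.nd (nat_lit 858) (nat_lit 2584) (nat_lit 0) (XT.nd (nat_lit 390) (nat_lit 1140) (nat_lit 0) (XT.nd (nat_lit 156) (nat_lit 836) (nat_lit 0) (XT.nd (nat_lit 78) (nat_lit 380) (nat_lit 0) (XT.lf (nat_lit 0) (nat_lit 8155019368) (nat_lit 456) (nat_lit 2978476852) (nat_lit 76) (nat_lit 1225312928)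 (nat_lit 149) (nat_lit 5) (nat_lit 155) (nat_lit 5) (nat_lit 150) (nat_lit 5) (nat_lit 471) (nat_lit 382) (nat_lit 287)) (XT.lf (nat_lit 0) (nat_lit 4789564211) (nat_lit 380) (nat_lit 6799769434) (nat_lit 456) (nat_lit 914355616) (nat_lit 144) (nat_lit 5) (nat_lit 149) (nat_lit 5) (nat_lit 150) (nat_lit 5) (nat_lit 472) (nat_lit 382) (nat_lit 286))) (XT.nd (nat_lit 78) (nat_lit 380) (nat_lit 0) (XT.lf (nat_lit 0) (nat_lit 51226164) (nat_lit 380) (nat_lit 2354436721) (nat_lit 456) (nat_lit 10245554841) (nat_lit 138) (nat_lit 5) (nat_lit 143) (nat_lit 5) (nat_lit 144) (nat_lit 5) (nat_lit 473) (nat_lit 382) (nat_lit 285)) (XT.nd (nat_lit 78) (nat_lit 380) (nat_lit 0) (XT.lf (nat_lit 0) (nat_lit 5822621911) (nat_lit 456) (nat_lit 4780657779) (nat_lit 76) (nat_lit 2197444314) (nat_lit 138) (nat_lit 5) (nat_lit 144) (nat_lit 5) (nat_lit 139) (nat_lit 5) (nat_lit 474) (nat_lit 382) (nat_lit 284)) (XT.lf (nat_lit 0) (nat_lit 3186063182)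 (nat_lit 380) (nat_lit 6135106391) (nat_lit 456) (nat_lit 3631789559) (nat_lit 133) (nat_lit 5) (nat_lit 138) (nat_lit 5) (nat_lit 139) (nat_lit 5) (nat_lit 475) (nat_lit 382) (nat_lit 283))))) (XT.nd (nat_lit 234) (nat_lit 380) (nat_lit 0) (XT.nd (nat_lit 78) (nat_lit 760) (nat_lit 0) (XT.lf (nat_lit 0) (nat_lit 11341960175) (nat_lit 380) (nat_lit 1557004420) (nat_lit 456) (nat_lit 209092482) (nat_lit 133) (nat_lit 5) (nat_lit 138) (nat_lit 5) (nat_lit 139) (nat_lit 5) (nat_lit 476) (nat_lit 382) (nat_lit 282)) (XT.nd (nat_lit 78) (nat_lit 380) (nat_lit 0) (XT.lf (nat_lit 0) (nat_lit 3278756201) (nat_lit 380) (nat_lit 6862928824) (nat_lit 76) (nat_lit 3123354419) (nat_lit 128) (nat_lit 5) (nat_lit 133) (nat_lit 5) (nat_lit 129) (nat_lit 5) (nat_lit 477) (nat_lit 382) (nat_lit 281)) (XT.lf (nat_lit 0) (nat_lit 1303294199) (nat_lit 380) (nat_lit 5538604840) (nat_lit 456) (nat_lit 6583071471) (nat_lit 123) (nat_lit 5) (nat_lit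 128) (nat_lit 5) (nat_lit 129) (nat_lit 5) (nat_lit 478) (nat_lit 382) (nat_lit 280)))) (XT.nd (nat_lit 78) (nat_lit 380) (nat_lit 0) (XT.lf (nat_lit 0) (nat_lit 9691376908) (nat_lit 380) (nat_lit 808827589) (nat_lit 456) (nat_lit 3087421070) (nat_lit 123) (nat_lit 5) (nat_lit 128) (nat_lit 5) (nat_lit 129) (nat_lit 5) (nat_lit 479) (nat_lit 382) (nat_lit 279)) (XT.nd (nat_lit 78) (nat_lit 0) (nat_lit 0) (XT.lf (nat_lit 0) (nat_lit 505530317) (nat_lit 380) (nat_lit 9263836410) (nat_lit 76) (nat_lit 3983434964) (nat_lit 118) (nat_lit 5) (nat_lit 123) (nat_lit 5) (nat_lit 119) (nat_lit 5) (nat_lit 480) (nat_lit 382) (nat_lit 278)) (XT.lf (nat_lit 0) (nat_lit 4138976859) (nat_lit 380) (nat_lit 886279955) (nat_lit 76) (nat_lit 8895420003) (nat_lit 118) (nat_lit 5) (nat_lit 123) (nat_lit 5) (nat_lit 119) (nat_lit 5) (nat_lit 481) (nat_lit 382) (nat_lit 277)))))) (XT.nd (nat_lit 468) (nat_lit 1216) (nat_lit 0) (XT.nd (nat_lit 234)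 (nat_lit 608) (nat_lit 0) (XT.nd (nat_lit 78) (nat_lit 380) (nat_lit 0) (XT.lf (nat_lit 0) (nat_lit 7726591113) (nat_lit 380) (nat_lit 147356146) (nat_lit 456) (nat_lit 6217388197) (nat_lit 113) (nat_lit 5) (nat_lit 118) (nat_lit 5) (nat_lit 119) (nat_lit 5) (nat_lit 482) (nat_lit 382) (nat_lit 276)) (XT.nd (nat_lit 78) (nat_lit 76) (nat_lit 0) (XT.lf (nat_lit 0) (nat_lit 2222509985) (nat_lit 304) (nat_lit 9491681748) (nat_lit 380) (nat_lit 2550607088) (nat_lit 109) (nat_lit 5) (nat_lit 113) (nat_lit 5) (nat_lit 114) (nat_lit 5) (nat_lit 483) (nat_lit 382) (nat_lit 275)) (XT.lf (nat_lit 0) (nat_lit 1196745307) (nat_lit 380) (nat_lit 3415832989) (nat_lit 76) (nat_lit 9828544898) (nat_lit 108) (nat_lit 5) (nat_lit 113) (nat_lit 5) (nat_lit 109) (nat_lit 5) (nat_lit 484) (nat_lit 382) (nat_lit 274)))) (XT.nd (nat_lit 78) (nat_lit 304) (nat_lit 0) (XT.lf (nat_lit 0) (nat_lit 5001919700) (nat_lit 380) (nat_lit 9218941340) (nat_lit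 76) (nat_lit 399438144) (nat_lit 104) (nat_lit 5) (nat_lit 109) (nat_lit 5) (nat_lit 105) (nat_lit 5) (nat_lit 485) (nat_lit 382) (nat_lit 273)) (XT.nd (nat_lit 78) (nat_lit 304) (nat_lit 0) (XT.lf (nat_lit 0) (nat_lit 8916212034) (nat_lit 380) (nat_lit 425316492) (nat_lit 76) (nat_lit 5460872695) (nat_lit 104) (nat_lit 5) (nat_lit 109) (nat_lit 5) (nat_lit 105) (nat_lit 5) (nat_lit 486) (nat_lit 382) (nat_lit 272)) (XT.lf (nat_lit 0) (nat_lit 8624734450) (nat_lit 304) (nat_lit 4319851043) (nat_lit 380) (nat_lit 2042846658) (nat_lit 100) (nat_lit 5) (nat_lit 104) (nat_lit 5) (nat_lit 105) (nat_lit 5) (nat_lit 487) (nat_lit 382) (nat_lit 271))))) (XT.nd (nat_lit 234) (nat_lit 608) (nat_lit 0) (XT.nd (nat_lit 78) (nat_lit 228) (nat_lit 0) (XT.lf (nat_lit 0) (nat_lit 1858177589) (nat_lit 380) (nat_lit 12505551404) (nat_lit 76) (nat_lit 812084843) (nat_lit 95) (nat_lit 5) (nat_lit 100) (nat_lit 5) (nat_lit 96) (nat_lit 5) (nat_lit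 488) (nat_lit 382) (nat_lit 270)) (XT.nd (nat_lit 78) (nat_lit 228) (nat_lit 0) (XT.lf (nat_lit 0) (nat_lit 5861434928) (nat_lit 380) (nat_lit 3472123410) (nat_lit 76) (nat_lit 6033106025) (nat_lit 95) (nat_lit 5) (nat_lit 100) (nat_lit 5) (nat_lit 96) (nat_lit 5) (nat_lit 489) (nat_lit 382) (nat_lit 269)) (XT.lf (nat_lit 0) (nat_lit 5785772057) (nat_lit 228) (nat_lit 4176896167) (nat_lit 304) (nat_lit 5598308011) (nat_lit 92) (nat_lit 5) (nat_lit 95) (nat_lit 5) (nat_lit 96) (nat_lit 5) (nat_lit 490) (nat_lit 382) (nat_lit 268)))) (XT.nd (nat_lit 78) (nat_lit 608) (nat_lit 0) (XT.lf (nat_lit 0) (nat_lit 14156854874) (nat_lit 304) (nat_lit 522185563) (nat_lit 76) (nat_lit 1079917834) (nat_lit 92) (nat_lit 5) (nat_lit 96) (nat_lit 5) (nat_lit 93) (nat_lit 5) (nat_lit 491) (nat_lit 382) (nat_lit 267)) (XT.nd (nat_lit 78) (nat_lit 228) (nat_lit 0) (XT.lf (nat_lit 0) (nat_lit 2508774057) (nat_lit 380) (nat_lit 7001691841) (nat_lit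 76) (nat_lit 6448771270) (nat_lit 87) (nat_lit 5) (nat_lit 92) (nat_lit 5) (nat_lit 88) (nat_lit 5) (nat_lit 492) (nat_lit 382) (nat_lit 266)) (XT.lf (nat_lit 0) (nat_lit 2460533881) (nat_lit 228) (nat_lit 4220277225) (nat_lit 304) (nat_lit 9482493211) (nat_lit 84) (nat_lit 5) (nat_lit 87) (nat_lit 5) (nat_lit 88) (nat_lit 5) (nat_lit 493) (nat_lit 382) (nat_lit 265))))))))
noncomputable def xc98 : XT := (XT.nd (nat_lit 51480) (nat_lit 0) (nat_lit 34580) (XT.nd (nat_lit 858) (nat_lit 228) (nat_lit 0) (XT.nd (nat_lit 390) (nat_lit 836) (nat_lit 0) (XT.nd (nat_lit 156) (nat_lit 532) (nat_lit 0) (XT.nd (nat_lit 78) (nat_lit 304) (nat_lit 0) (XT.lf (nat_lit 0) (nat_lit 10972180513) (nat_lit 304) (nat_lit 4203237650) (nat_lit 76) (nat_lit 1195319121) (nat_lit 84) (nat_lit 5) (nat_lit 88) (nat_lit 5) (nat_lit 85) (nat_lit 5) (nat_lit 494) (nat_lit 382) (nat_lit 264)) (XT.lf (nat_lit 0) (nat_lit 5499390118) (nat_lit 304) (nat_lit 9894976929)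 (nat_lit 380) (nat_lit 1187054336) (nat_lit 80) (nat_lit 5) (nat_lit 84) (nat_lit 5) (nat_lit 85) (nat_lit 5) (nat_lit 495) (nat_lit 382) (nat_lit 263))) (XT.nd (nat_lit 78) (nat_lit 456) (nat_lit 0) (XT.lf (nat_lit 0) (nat_lit 3077676060) (nat_lit 380) (nat_lit 1394196566) (nat_lit 76) (nat_lit 12323849663) (nat_lit 79) (nat_lit 5) (nat_lit 84) (nat_lit 5) (nat_lit 80) (nat_lit 5) (nat_lit 496) (nat_lit 382) (nat_lit 262)) (XT.nd (nat_lit 78) (nat_lit 228) (nat_lit 0) (XT.lf (nat_lit 0) (nat_lit 7456369080) (nat_lit 304) (nat_lit 8459319238) (nat_lit 76) (nat_lit 1097574849) (nat_lit 76) (nat_lit 5) (nat_lit 80) (nat_lit 5) (nat_lit 77) (nat_lit 5) (nat_lit 497) (nat_lit 382) (nat_lit 261)) (XT.lf (nat_lit 0) (nat_lit 1443643343) (nat_lit 228) (nat_lit 10509221711) (nat_lit 304) (nat_lit 5281687316) (nat_lit 73) (nat_lit 5) (nat_lit 76) (nat_lit 5) (nat_lit 77) (nat_lit 5) (nat_lit 498) (nat_lit 382) (nat_lit 260))))) (XT.nd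 (nat_lit 234) (nat_lit 532) (nat_lit 0) (XT.nd (nat_lit 78) (nat_lit 304) (nat_lit 0) (XT.lf (nat_lit 0) (nat_lit 11628943255) (nat_lit 228) (nat_lit 4949096476) (nat_lit 304) (nat_lit 881454703) (nat_lit 73) (nat_lit 5) (nat_lit 76) (nat_lit 5) (nat_lit 77) (nat_lit 5) (nat_lit 499) (nat_lit 382) (nat_lit 259)) (XT.nd (nat_lit 78) (nat_lit 0) (nat_lit 0) (XT.lf (nat_lit 0) (nat_lit 3574775325) (nat_lit 304) (nat_lit 13360829539) (nat_lit 76) (nat_lit 752558165) (nat_lit 69) (nat_lit 5) (nat_lit 73) (nat_lit 5) (nat_lit 70) (nat_lit 5) (nat_lit 500) (nat_lit 382) (nat_lit 258)) (XT.lf (nat_lit 0) (nat_lit 8162791313) (nat_lit 304) (nat_lit 3222194298) (nat_lit 76) (nat_lit 6535215509) (nat_lit 69) (nat_lit 5) (nat_lit 73) (nat_lit 5) (nat_lit 70) (nat_lit 5) (nat_lit 501) (nat_lit 382) (nat_lit 257)))) (XT.nd (nat_lit 78) (nat_lit 304) (nat_lit 0) (XT.lf (nat_lit 0) (nat_lit 7183912043) (nat_lit 228) (nat_lit 5687937858) (nat_lit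 304) (nat_lit 5284446321) (nat_lit 66) (nat_lit 5) (nat_lit 69) (nat_lit 5) (nat_lit 70) (nat_lit 5) (nat_lit 502) (nat_lit 382) (nat_lit 256)) (XT.nd (nat_lit 78) (nat_lit 304) (nat_lit 0) (XT.lf (nat_lit 0) (nat_lit 17680365302) (nat_lit 304) (nat_lit 585397792) (nat_lit 76) (nat_lit 131246476) (nat_lit 66) (nat_lit 5) (nat_lit 70) (nat_lit 5) (nat_lit 67) (nat_lit 5) (nat_lit 503) (nat_lit 382) (nat_lit 255)) (XT.lf (nat_lit 0) (nat_lit 3977506163) (nat_lit 304) (nat_lit 8592204635) (nat_lit 76) (nat_lit 6070582241) (nat_lit 62) (nat_lit 5) (nat_lit 66) (nat_lit 5) (nat_lit 63) (nat_lit 5) (nat_lit 504) (nat_lit 382) (nat_lit 254)))))) (XT.nd (nat_lit 50154) (nat_lit 0) (nat_lit 47956) (XT.nd (nat_lit 49920) (nat_lit 0) (nat_lit 48868) (XT.nd (nat_lit 49842) (nat_lit 0) (nat_lit 49628) (XT.lf (nat_lit 0) (nat_lit 2006308480) (nat_lit 228) (nat_lit 6749706926) (nat_lit 304) (nat_lit 10132332349) (nat_lit 59) (nat_lit 5) (nat_lit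 62) (nat_lit 5) (nat_lit 63) (nat_lit 5) (nat_lit 505) (nat_lit 382) (nat_lit 253)) (XT.lf (nat_lit 0) (nat_lit 1276689684) (nat_lit 0) (nat_lit 1276689684) (nat_lit 228) (nat_lit 676375739) (nat_lit 712) (nat_lit 5) (nat_lit 712) (nat_lit 3) (nat_lit 715) (nat_lit 3) (nat_lit 383) (nat_lit 383) (nat_lit 374))) (XT.nd (nat_lit 78) (nat_lit 380) (nat_lit 0) (XT.lf (nat_lit 0) (nat_lit 1494903950) (nat_lit 380) (nat_lit 755304568) (nat_lit 380) (nat_lit 4215772458) (nat_lit 707) (nat_lit 3) (nat_lit 712) (nat_lit 3) (nat_lit 712) (nat_lit 5) (nat_lit 384) (nat_lit 383) (nat_lit 373)) (XT.nd (nat_lit 78) (nat_lit 380) (nat_lit 0) (XT.lf (nat_lit 76) (nat_lit 2443572959) (nat_lit 0) (nat_lit 1879128579) (nat_lit 380) (nat_lit 2150912414) (nat_lit 708) (nat_lit 5) (nat_lit 707) (nat_lit 3) (nat_lit 712) (nat_lit 5) (nat_lit 385) (nat_lit 383) (nat_lit 372)) (XT.lf (nat_lit 0) (nat_lit 647355206) (nat_lit 380) (nat_lit 808199139)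 (nat_lit 456) (nat_lit 5027162892) (nat_lit 702) (nat_lit 5) (nat_lit 707) (nat_lit 3) (nat_lit 708) (nat_lit 5) (nat_lit 386) (nat_lit 383) (nat_lit 371))))) (XT.nd (nat_lit 234) (nat_lit 532) (nat_lit 0) (XT.nd (nat_lit 78) (nat_lit 380) (nat_lit 0) (XT.lf (nat_lit 76) (nat_lit 2458011271) (nat_lit 0) (nat_lit 958325642) (nat_lit 456) (nat_lit 3076545840) (nat_lit 703) (nat_lit 5) (nat_lit 702) (nat_lit 5) (nat_lit 708) (nat_lit 5) (nat_lit 387) (nat_lit 383) (nat_lit 370)) (XT.nd (nat_lit 78) (nat_lit 380) (nat_lit 0) (XT.lf (nat_lit 76) (nat_lit 5762690557) (nat_lit 0) (nat_lit 412169463) (nat_lit 456) (nat_lit 329743135) (nat_lit 703) (nat_lit 5) (nat_lit 702) (nat_lit 5) (nat_lit 708) (nat_lit 5) (nat_lit 388) (nat_lit 383) (nat_lit 369)) (XT.lf (nat_lit 0) (nat_lit 2387443513) (nat_lit 456) (nat_lit 3921832781) (nat_lit 532) (nat_lit 208036761) (nat_lit 697) (nat_lit 5) (nat_lit 703) (nat_lit 5) (nat_lit 704) (nat_lit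 5) (nat_lit 389) (nat_lit 383) (nat_lit 368)))) (XT.nd (nat_lit 78) (nat_lit 532) (nat_lit 0) (XT.lf (nat_lit 0) (nat_lit 5093281612) (nat_lit 456) (nat_lit 564855074) (nat_lit 532) (nat_lit 873355218) (nat_lit 697) (nat_lit 5) (nat_lit 703) (nat_lit 5) (nat_lit 704) (nat_lit 5) (nat_lit 390) (nat_lit 383) (nat_lit 367)) (XT.nd (nat_lit 78) (nat_lit 0) (nat_lit 0) (XT.lf (nat_lit 0) (nat_lit 1240667701) (nat_lit 532) (nat_lit 3697020496) (nat_lit 608) (nat_lit 1609117291) (nat_lit 690) (nat_lit 5) (nat_lit 697) (nat_lit 5) (nat_lit 698) (nat_lit 5) (nat_lit 391) (nat_lit 383) (nat_lit 366)) (XT.lf (nat_lit 0) (nat_lit 3890635755) (nat_lit 532) (nat_lit 270828843) (nat_lit 608) (nat_lit 2402066120) (nat_lit 690) (nat_lit 5) (nat_lit 697) (nat_lit 5) (nat_lit 698) (nat_lit 5) (nat_lit 392) (nat_lit 383) (nat_lit 365))))))) (XT.nd (nat_lit 858) (nat_lit 8816) (nat_lit 0) (XT.nd (nat_lit 390) (nat_lit 3268) (nat_lit 0) (XT.nd (nat_lit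 156) (nat_lit 684) (nat_lit 0) (XT.nd (nat_lit 78) (nat_lit 608) (nat_lit 0) (XT.lf (nat_lit 76) (nat_lit 3227684723) (nat_lit 0) (nat_lit 3321126245) (nat_lit 608) (nat_lit 32705634) (nat_lit 691) (nat_lit 5) (nat_lit 690) (nat_lit 5) (nat_lit 698) (nat_lit 5) (nat_lit 393) (nat_lit 383) (nat_lit 364)) (XT.lf (nat_lit 76) (nat_lit 145462015) (nat_lit 0) (nat_lit 2417543516) (nat_lit 684) (nat_lit 4037788189) (nat_lit 683) (nat_lit 5) (nat_lit 682) (nat_lit 5) (nat_lit 691) (nat_lit 5) (nat_lit 394) (nat_lit 383) (nat_lit 363))) (XT.nd (nat_lit 78) (nat_lit 684) (nat_lit 0) (XT.lf (nat_lit 76) (nat_lit 3721066904) (nat_lit 0) (nat_lit 1447490456) (nat_lit 684) (nat_lit 1452755966) (nat_lit 683) (nat_lit 5) (nat_lit 682) (nat_lit 5) (nat_lit 691) (nat_lit 5) (nat_lit 395) (nat_lit 383) (nat_lit 362)) (XT.nd (nat_lit 78) (nat_lit 0) (nat_lit 76) (XT.lf (nat_lit 76) (nat_lit 688256582) (nat_lit 0) (nat_lit 421333856) (nat_lit 760)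 (nat_lit 5533703756) (nat_lit 674) (nat_lit 5) (nat_lit 673) (nat_lit 5) (nat_lit 683) (nat_lit 5) (nat_lit 396) (nat_lit 383) (nat_lit 361)) (XT.lf (nat_lit 0) (nat_lit 3665216816) (nat_lit 684) (nat_lit 2331485516) (nat_lit 76) (nat_lit 669617497) (nat_lit 674) (nat_lit 5) (nat_lit 683) (nat_lit 5) (nat_lit 675) (nat_lit 5) (nat_lit 397) (nat_lit 383) (nat_lit 360))))) (XT.nd (nat_lit 234) (nat_lit 1824) (nat_lit 0) (XT.nd (nat_lit 78) (nat_lit 836) (nat_lit 0) (XT.lf (nat_lit 0) (nat_lit 1339915289) (nat_lit 684) (nat_lit 4882565665) (nat_lit 760) (nat_lit 468340897) (nat_lit 665) (nat_lit 5) (nat_lit 674) (nat_lit 5) (nat_lit 675) (nat_lit 5) (nat_lit 398) (nat_lit 383) (nat_lit 359)) (XT.nd (nat_lit 78) (nat_lit 760) (nat_lit 0) (XT.lf (nat_lit 0) (nat_lit 2042639478) (nat_lit 760) (nat_lit 1652963773) (nat_lit 76) (nat_lit 3020855317) (nat_lit 664) (nat_lit 5) (nat_lit 674) (nat_lit 5) (nat_lit 665) (nat_lit 5) (nat_lit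 399) (nat_lit 383) (nat_lit 358)) (XT.lf (nat_lit 0) (nat_lit 2104242930) (nat_lit 760) (nat_lit 2447732192) (nat_lit 836) (nat_lit 2191507708) (nat_lit 654) (nat_lit 5) (nat_lit 664) (nat_lit 5) (nat_lit 665) (nat_lit 5) (nat_lit 400) (nat_lit 383) (nat_lit 357)))) (XT.nd (nat_lit 78) (nat_lit 1748) (nat_lit 0) (XT.lf (nat_lit 0) (nat_lit 288388014) (nat_lit 836) (nat_lit 853847345) (nat_lit 76) (nat_lit 5629743842) (nat_lit 653) (nat_lit 5) (nat_lit 664) (nat_lit 5) (nat_lit 654) (nat_lit 5) (nat_lit 401) (nat_lit 383) (nat_lit 356)) (XT.nd (nat_lit 78) (nat_lit 912) (nat_lit 0) (XT.lf (nat_lit 0) (nat_lit 2751962661) (nat_lit 912) (nat_lit 3810082360) (nat_lit 76) (nat_lit 239465679) (nat_lit 642) (nat_lit 5) (nat_lit 654) (nat_lit 5) (nat_lit 643) (nat_lit 5) (nat_lit 402) (nat_lit 383) (nat_lit 355)) (XT.lf (nat_lit 0) (nat_lit 46698430) (nat_lit 912) (nat_lit 5175130810) (nat_lit 988) (nat_lit 1610686149) (nat_lit 630)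 (nat_lit 5) (nat_lit 642) (nat_lit 5) (nat_lit 643) (nat_lit 5) (nat_lit 403) (nat_lit 383) (nat_lit 354)))))) (XT.nd (nat_lit 468) (nat_lit 5472) (nat_lit 0) (XT.nd (nat_lit 234) (nat_lit 2280) (nat_lit 0) (XT.nd (nat_lit 78) (nat_lit 988) (nat_lit 0) (XT.lf (nat_lit 0) (nat_lit 835034359) (nat_lit 988) (nat_lit 2877712762) (nat_lit 76) (nat_lit 3151909593) (nat_lit 629) (nat_lit 5) (nat_lit 642) (nat_lit 5) (nat_lit 630) (nat_lit 5) (nat_lit 404) (nat_lit 383) (nat_lit 353)) (XT.nd (nat_lit 78) (nat_lit 0) (nat_lit 0) (XT.lf (nat_lit 0) (nat_lit 1072261023) (nat_lit 988) (nat_lit 2187770016) (nat_lit 1064) (nat_lit 3638179961) (nat_lit 616) (nat_lit 5) (nat_lit 629) (nat_lit 5) (nat_lit 630) (nat_lit 5) (nat_lit 405) (nat_lit 383) (nat_lit 352)) (XT.lf (nat_lit 0) (nat_lit 5100814952) (nat_lit 988) (nat_lit 597794010) (nat_lit 1064) (nat_lit 1234547000) (nat_lit 616) (nat_lit 5) (nat_lit 629) (nat_lit 5) (nat_lit 630) (nat_lit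 5) (nat_lit 406) (nat_lit 383) (nat_lit 351)))) (XT.nd (nat_lit 78) (nat_lit 1140) (nat_lit 0) (XT.lf (nat_lit 0) (nat_lit 1168977817) (nat_lit 1140) (nat_lit 4753326091) (nat_lit 76) (nat_lit 1047002608) (nat_lit 601) (nat_lit 5) (nat_lit 616) (nat_lit 5) (nat_lit 602) (nat_lit 5) (nat_lit 407) (nat_lit 383) (nat_lit 350)) (XT.nd (nat_lit 78) (nat_lit 1140) (nat_lit 0) (XT.lf (nat_lit 0) (nat_lit 3567739497) (nat_lit 1140) (nat_lit 688334583) (nat_lit 76) (nat_lit 2750688850) (nat_lit 601) (nat_lit 5) (nat_lit 616) (nat_lit 5) (nat_lit 602) (nat_lit 5) (nat_lit 408) (nat_lit 383) (nat_lit 349)) (XT.lf (nat_lit 0) (nat_lit 3463885809) (nat_lit 1140) (nat_lit 2521458085) (nat_lit 1216) (nat_lit 1060226829) (nat_lit 586) (nat_lit 5) (nat_lit 601) (nat_lit 5) (nat_lit 602) (nat_lit 5) (nat_lit 409) (nat_lit 383) (nat_lit 348))))) (XT.nd (nat_lit 234) (nat_lit 2888) (nat_lit 0) (XT.nd (nat_lit 78) (nat_lit 1292) (nat_lit 0) (XT.lf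 (nat_lit 0) (nat_lit 582214106) (nat_lit 1216) (nat_lit 723223400) (nat_lit 1292) (nat_lit 5780414428) (nat_lit 569) (nat_lit 5) (nat_lit 585) (nat_lit 5) (nat_lit 586) (nat_lit 5) (nat_lit 410) (nat_lit 383) (nat_lit 347)) (XT.nd (nat_lit 78) (nat_lit 1292) (nat_lit 0) (XT.lf (nat_lit 0) (nat_lit 3685235383) (nat_lit 1292) (nat_lit 2303685398) (nat_lit 76) (nat_lit 1138275963) (nat_lit 569) (nat_lit 5) (nat_lit 586) (nat_lit 5) (nat_lit 570) (nat_lit 5) (nat_lit 411) (nat_lit 383) (nat_lit 346)) (XT.lf (nat_lit 0) (nat_lit 1961222439) (nat_lit 1292) (nat_lit 4119514272) (nat_lit 1368) (nat_lit 1089287699) (nat_lit 552) (nat_lit 5) (nat_lit 569) (nat_lit 5) (nat_lit 570) (nat_lit 5) (nat_lit 412) (nat_lit 383) (nat_lit 345)))) (XT.nd (nat_lit 78) (nat_lit 2812) (nat_lit 0) (XT.lf (nat_lit 0) (nat_lit 1259769506) (nat_lit 1368) (nat_lit 919736625) (nat_lit 76) (nat_lit 5034719405) (nat_lit 551) (nat_lit 5) (nat_lit 569) (nat_lit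 5) (nat_lit 552) (nat_lit 5) (nat_lit 413) (nat_lit 383) (nat_lit 344)) (XT.nd (nat_lit 78) (nat_lit 1444) (nat_lit 0) (XT.lf (nat_lit 0) (nat_lit 3453600549) (nat_lit 1368) (nat_lit 161975504) (nat_lit 1444) (nat_lit 3644120617) (nat_lit 533) (nat_lit 5) (nat_lit 551) (nat_lit 5) (nat_lit 552) (nat_lit 5) (nat_lit 414) (nat_lit 383) (nat_lit 343)) (XT.lf (nat_lit 0) (nat_lit 575772163) (nat_lit 1444) (nat_lit 5417644007) (nat_lit 1520) (nat_lit 1313179438) (nat_lit 514) (nat_lit 5) (nat_lit 533) (nat_lit 5) (nat_lit 534) (nat_lit 5) (nat_lit 415) (nat_lit 383) (nat_lit 342))))))))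
noncomputable def xc99 : XT := (XT.nd (nat_lit 1716) (nat_lit 9500) (nat_lit 0) (XT.nd (nat_lit 858) (nat_lit 5928) (nat_lit 0) (XT.nd (nat_lit 390) (nat_lit 4104) (nat_lit 0) (XT.nd (nat_lit 156) (nat_lit 3344) (nat_lit 0) (XT.nd (nat_lit 78) (nat_lit 1520) (nat_lit 0) (XT.lf (nat_lit 0) (nat_lit 1030203404) (nat_lit 1520) (nat_lit 2305925795) (nat_lit 76) (nat_lit 4018585544) (nat_lit 513) (nat_lit 5) (nat_lit 533) (nat_lit 5) (nat_lit 514) (nat_lit 5) (nat_lit 416) (nat_lit 383) (nat_lit 341)) (XT.lf (nat_lit 0) (nat_lit 2187539660) (nat_lit 1520) (nat_lit 1183471386) (nat_lit 1596) (nat_lit 4033264567) (nat_lit 493) (nat_lit 5) (nat_lit 513) (nat_lit 5) (nat_lit 514) (nat_lit 5) (nat_lit 417) (nat_lit 383) (nat_lit 340))) (XT.nd (nat_lit 78) (nat_lit 3344) (nat_lit 0) (XT.lf (nat_lit 0) (nat_lit 5735388119) (nat_lit 1596) (nat_lit 699683474) (nat_lit 76) (nat_lit 1020236496) (nat_lit 493) (nat_lit 5) (nat_lit 514) (nat_lit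 5) (nat_lit 494) (nat_lit 5) (nat_lit 418) (nat_lit 383) (nat_lit 339)) (XT.nd (nat_lit 78) (nat_lit 1672) (nat_lit 0) (XT.lf (nat_lit 0) (nat_lit 619939641) (nat_lit 1672) (nat_lit 3600335872) (nat_lit 76) (nat_lit 3287244737) (nat_lit 471) (nat_lit 5) (nat_lit 493) (nat_lit 5) (nat_lit 472) (nat_lit 5) (nat_lit 419) (nat_lit 383) (nat_lit 338)) (XT.lf (nat_lit 0) (nat_lit 1016738794) (nat_lit 1672) (nat_lit 1933982388) (nat_lit 1748) (nat_lit 4610499573) (nat_lit 449) (nat_lit 5) (nat_lit 471) (nat_lit 5) (nat_lit 472) (nat_lit 5) (nat_lit 420) (nat_lit 383) (nat_lit 337))))) (XT.nd (nat_lit 234) (nat_lit 2280) (nat_lit 0) (XT.nd (nat_lit 78) (nat_lit 1824) (nat_lit 0) (XT.lf (nat_lit 0) (nat_lit 5311459501) (nat_lit 1748) (nat_lit 1884109496) (nat_lit 76) (nat_lit 420773729) (nat_lit 449) (nat_lit 5) (nat_lit 472) (nat_lit 5) (nat_lit 450) (nat_lit 5) (nat_lit 421) (nat_lit 383) (nat_lit 336)) (XT.nd (nat_lit 78) (nat_lit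 0) (nat_lit 0) (XT.lf (nat_lit 0) (nat_lit 34771238) (nat_lit 1824) (nat_lit 4818954244) (nat_lit 76) (nat_lit 2819078492) (nat_lit 425) (nat_lit 5) (nat_lit 449) (nat_lit 5) (nat_lit 426) (nat_lit 5) (nat_lit 422) (nat_lit 383) (nat_lit 335)) (XT.lf (nat_lit 0) (nat_lit 2360690029) (nat_lit 1824) (nat_lit 73707026) (nat_lit 76) (nat_lit 5296299470) (nat_lit 425) (nat_lit 5) (nat_lit 449) (nat_lit 5) (nat_lit 426) (nat_lit 5) (nat_lit 423) (nat_lit 383) (nat_lit 334)))) (XT.nd (nat_lit 78) (nat_lit 988) (nat_lit 0) (XT.lf (nat_lit 0) (nat_lit 4723070396) (nat_lit 1368) (nat_lit 3000676933) (nat_lit 76) (nat_lit 66213925) (nat_lit 408) (nat_lit 5) (nat_lit 426) (nat_lit 5) (nat_lit 409) (nat_lit 5) (nat_lit 424) (nat_lit 383) (nat_lit 333)) (XT.nd (nat_lit 78) (nat_lit 76) (nat_lit 0) (XT.lf (nat_lit 0) (nat_lit 1868392956) (nat_lit 912) (nat_lit 5252037373) (nat_lit 988) (nat_lit 730239243) (nat_lit 396) (nat_lit 5) (nat_lit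 408) (nat_lit 5) (nat_lit 409) (nat_lit 5) (nat_lit 425) (nat_lit 383) (nat_lit 332)) (XT.lf (nat_lit 0) (nat_lit 1610979937) (nat_lit 988) (nat_lit 1087946346) (nat_lit 76) (nat_lit 5213873221) (nat_lit 395) (nat_lit 5) (nat_lit 408) (nat_lit 5) (nat_lit 396) (nat_lit 5) (nat_lit 426) (nat_lit 383) (nat_lit 331)))))) (XT.nd (nat_lit 390) (nat_lit 2432) (nat_lit 0) (XT.nd (nat_lit 156) (nat_lit 1748) (nat_lit 0) (XT.nd (nat_lit 78) (nat_lit 912) (nat_lit 0) (XT.lf (nat_lit 0) (nat_lit 3911112241) (nat_lit 836) (nat_lit 63581484) (nat_lit 912) (nat_lit 4001684996) (nat_lit 384) (nat_lit 5) (nat_lit 395) (nat_lit 5) (nat_lit 396) (nat_lit 5) (nat_lit 427) (nat_lit 383) (nat_lit 330)) (XT.lf (nat_lit 0) (nat_lit 938883865) (nat_lit 912) (nat_lit 5437856423) (nat_lit 988) (nat_lit 1664680013) (nat_lit 372) (nat_lit 5) (nat_lit 384) (nat_lit 5) (nat_lit 385) (nat_lit 5) (nat_lit 428) (nat_lit 383) (nat_lit 329))) (XT.nd (nat_lit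 78) (nat_lit 1672) (nat_lit 0) (XT.lf (nat_lit 0) (nat_lit 698334804) (nat_lit 988) (nat_lit 2054690009) (nat_lit 76) (nat_lit 5354882001) (nat_lit 371) (nat_lit 5) (nat_lit 384) (nat_lit 5) (nat_lit 372) (nat_lit 5) (nat_lit 429) (nat_lit 383) (nat_lit 328)) (XT.nd (nat_lit 78) (nat_lit 836) (nat_lit 0) (XT.lf (nat_lit 0) (nat_lit 3068053851) (nat_lit 912) (nat_lit 5092083141) (nat_lit 76) (nat_lit 15742574) (nat_lit 360) (nat_lit 5) (nat_lit 372) (nat_lit 5) (nat_lit 361) (nat_lit 5) (nat_lit 430) (nat_lit 383) (nat_lit 327)) (XT.lf (nat_lit 0) (nat_lit 50171191) (nat_lit 836) (nat_lit 5429508115) (nat_lit 912) (nat_lit 2765653265) (nat_lit 349) (nat_lit 5) (nat_lit 360) (nat_lit 5) (nat_lit 361) (nat_lit 5) (nat_lit 431) (nat_lit 383) (nat_lit 326))))) (XT.nd (nat_lit 234) (nat_lit 1596) (nat_lit 0) (XT.nd (nat_lit 78) (nat_lit 836) (nat_lit 0) (XT.lf (nat_lit 0) (nat_lit 5324427176) (nat_lit 836) (nat_lit 2611840399) (nat_lit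 912) (nat_lit 379983276) (nat_lit 349) (nat_lit 5) (nat_lit 360) (nat_lit 5) (nat_lit 361) (nat_lit 5) (nat_lit 432) (nat_lit 383) (nat_lit 325)) (XT.nd (nat_lit 78) (nat_lit 0) (nat_lit 0) (XT.lf (nat_lit 0) (nat_lit 2006267699) (nat_lit 836) (nat_lit 6097914291) (nat_lit 76) (nat_lit 284553303) (nat_lit 338) (nat_lit 5) (nat_lit 349) (nat_lit 5) (nat_lit 339) (nat_lit 5) (nat_lit 433) (nat_lit 383) (nat_lit 324)) (XT.lf (nat_lit 0) (nat_lit 4436158354) (nat_lit 836) (nat_lit 802589668) (nat_lit 76) (nat_lit 3223861312) (nat_lit 338) (nat_lit 5) (nat_lit 349) (nat_lit 5) (nat_lit 339) (nat_lit 5) (nat_lit 434) (nat_lit 383) (nat_lit 323)))) (XT.nd (nat_lit 78) (nat_lit 836) (nat_lit 0) (XT.lf (nat_lit 0) (nat_lit 4619969499) (nat_lit 760) (nat_lit 2288880338) (nat_lit 836) (nat_lit 1629236955) (nat_lit 328) (nat_lit 5) (nat_lit 338) (nat_lit 5) (nat_lit 339) (nat_lit 5) (nat_lit 435) (nat_lit 383) (nat_lit 322)) (XT.nd (nat_lit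 78) (nat_lit 0) (nat_lit 0) (XT.lf (nat_lit 0) (nat_lit 789721584) (nat_lit 836) (nat_lit 7098135142) (nat_lit 76) (nat_lit 727430709) (nat_lit 317) (nat_lit 5) (nat_lit 328) (nat_lit 5) (nat_lit 318) (nat_lit 5) (nat_lit 436) (nat_lit 383) (nat_lit 321)) (XT.lf (nat_lit 0) (nat_lit 3241717645) (nat_lit 836) (nat_lit 1645303717) (nat_lit 76) (nat_lit 3806675288) (nat_lit 317) (nat_lit 5) (nat_lit 328) (nat_lit 5) (nat_lit 318) (nat_lit 5) (nat_lit 437) (nat_lit 383) (nat_lit 320))))))) (XT.nd (nat_lit 858) (nat_lit 4560) (nat_lit 0) (XT.nd (nat_lit 390) (nat_lit 2736) (nat_lit 0) (XT.nd (nat_lit 156) (nat_lit 760) (nat_lit 0) (XT.nd (nat_lit 78) (nat_lit 684) (nat_lit 0) (XT.lf (nat_lit 0) (nat_lit 3928982332) (nat_lit 760) (nat_lit 1804799032) (nat_lit 836) (nat_lit 3040081367) (nat_lit 307) (nat_lit 5) (nat_lit 317) (nat_lit 5) (nat_lit 318) (nat_lit 5) (nat_lit 438) (nat_lit 383) (nat_lit 319)) (XT.lf (nat_lit 0) (nat_lit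 743091026) (nat_lit 684) (nat_lit 7523138688) (nat_lit 760) (nat_lit 589600607) (nat_lit 298) (nat_lit 5) (nat_lit 307) (nat_lit 5) (nat_lit 308) (nat_lit 5) (nat_lit 439) (nat_lit 383) (nat_lit 318))) (XT.nd (nat_lit 78) (nat_lit 684) (nat_lit 0) (XT.lf (nat_lit 0) (nat_lit 1895612820) (nat_lit 760) (nat_lit 2494591467) (nat_lit 76) (nat_lit 4548778242) (nat_lit 297) (nat_lit 5) (nat_lit 307) (nat_lit 5) (nat_lit 298) (nat_lit 5) (nat_lit 440) (nat_lit 383) (nat_lit 317)) (XT.nd (nat_lit 78) (nat_lit 0) (nat_lit 0) (XT.lf (nat_lit 0) (nat_lit 3235495789) (nat_lit 684) (nat_lit 1174911480) (nat_lit 760) (nat_lit 4613565669) (nat_lit 288) (nat_lit 5) (nat_lit 297) (nat_lit 5) (nat_lit 298) (nat_lit 5) (nat_lit 441) (nat_lit 383) (nat_lit 316)) (XT.lf (nat_lit 0) (nat_lit 6973133222) (nat_lit 760) (nat_lit 49428534) (nat_lit 76) (nat_lit 2088157054) (nat_lit 288) (nat_lit 5) (nat_lit 298) (nat_lit 5) (nat_lit 289) (nat_lit 5)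 (nat_lit 442) (nat_lit 383) (nat_lit 315))))) (XT.nd (nat_lit 234) (nat_lit 1292) (nat_lit 0) (XT.nd (nat_lit 78) (nat_lit 684) (nat_lit 0) (XT.lf (nat_lit 0) (nat_lit 396334668) (nat_lit 760) (nat_lit 3366957722) (nat_lit 76) (nat_lit 5435594715) (nat_lit 278) (nat_lit 5) (nat_lit 288) (nat_lit 5) (nat_lit 279) (nat_lit 5) (nat_lit 443) (nat_lit 383) (nat_lit 314)) (XT.nd (nat_lit 78) (nat_lit 0) (nat_lit 0) (XT.lf (nat_lit 0) (nat_lit 2522969832) (nat_lit 684) (nat_lit 414011611) (nat_lit 760) (nat_lit 6351869209) (nat_lit 269) (nat_lit 5) (nat_lit 278) (nat_lit 5) (nat_lit 279) (nat_lit 5) (nat_lit 444) (nat_lit 383) (nat_lit 313)) (XT.lf (nat_lit 0) (nat_lit 5538941372) (nat_lit 760) (nat_lit 862543917) (nat_lit 76) (nat_lit 2978925905) (nat_lit 269) (nat_lit 5) (nat_lit 279) (nat_lit 5) (nat_lit 270) (nat_lit 5) (nat_lit 445) (nat_lit 383) (nat_lit 312)))) (XT.nd (nat_lit 78) (nat_lit 684) (nat_lit 0) (XT.lf (nat_lit 0)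 (nat_lit 5185821092) (nat_lit 608) (nat_lit 3012417172) (nat_lit 684) (nat_lit 1275466303) (nat_lit 261) (nat_lit 5) (nat_lit 269) (nat_lit 5) (nat_lit 270) (nat_lit 5) (nat_lit 446) (nat_lit 383) (nat_lit 311)) (XT.nd (nat_lit 78) (nat_lit 0) (nat_lit 0) (XT.lf (nat_lit 0) (nat_lit 1313651427) (nat_lit 684) (nat_lit 7797840074) (nat_lit 76) (nat_lit 457417490) (nat_lit 252) (nat_lit 5) (nat_lit 261) (nat_lit 5) (nat_lit 253) (nat_lit 5) (nat_lit 447) (nat_lit 383) (nat_lit 310)) (XT.lf (nat_lit 0) (nat_lit 3955750899) (nat_lit 684) (nat_lit 1723498515) (nat_lit 76) (nat_lit 3986241054) (nat_lit 252) (nat_lit 5) (nat_lit 261) (nat_lit 5) (nat_lit 253) (nat_lit 5) (nat_lit 448) (nat_lit 383) (nat_lit 309)))))) (XT.nd (nat_lit 468) (nat_lit 2128) (nat_lit 0) (XT.nd (nat_lit 234) (nat_lit 1140) (nat_lit 0) (XT.nd (nat_lit 78) (nat_lit 684) (nat_lit 0) (XT.lf (nat_lit 0) (nat_lit 4493226896) (nat_lit 608) (nat_lit 2156587123) (nat_lit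 684) (nat_lit 3114214122) (nat_lit 244) (nat_lit 5) (nat_lit 252) (nat_lit 5) (nat_lit 253) (nat_lit 5) (nat_lit 449) (nat_lit 383) (nat_lit 308)) (XT.nd (nat_lit 78) (nat_lit 76) (nat_lit 0) (XT.lf (nat_lit 0) (nat_lit 958176376) (nat_lit 608) (nat_lit 8437012371) (nat_lit 684) (nat_lit 469406077) (nat_lit 236) (nat_lit 5) (nat_lit 244) (nat_lit 5) (nat_lit 245) (nat_lit 5) (nat_lit 450) (nat_lit 383) (nat_lit 307)) (XT.lf (nat_lit 0) (nat_lit 2219334673) (nat_lit 684) (nat_lit 2650747603) (nat_lit 76) (nat_lit 5096402587) (nat_lit 235) (nat_lit 5) (nat_lit 244) (nat_lit 5) (nat_lit 236) (nat_lit 5) (nat_lit 451) (nat_lit 383) (nat_lit 306)))) (XT.nd (nat_lit 78) (nat_lit 608) (nat_lit 0) (XT.lf (nat_lit 0) (nat_lit 3738231125) (nat_lit 532) (nat_lit 1212566555) (nat_lit 608) (nat_lit 5119654778) (nat_lit 228) (nat_lit 5) (nat_lit 235) (nat_lit 5) (nat_lit 236) (nat_lit 5) (nat_lit 452) (nat_lit 383) (nat_lit 305)) (XT.nd (nat_lit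 78) (nat_lit 76) (nat_lit 0) (XT.lf (nat_lit 0) (nat_lit 61111775) (nat_lit 532) (nat_lit 7681654980) (nat_lit 608) (nat_lit 2433621454) (nat_lit 221) (nat_lit 5) (nat_lit 228) (nat_lit 5) (nat_lit 229) (nat_lit 5) (nat_lit 453) (nat_lit 383) (nat_lit 304)) (XT.lf (nat_lit 0) (nat_lit 324271417) (nat_lit 608) (nat_lit 3663882564) (nat_lit 76) (nat_lit 6295811959) (nat_lit 220) (nat_lit 5) (nat_lit 228) (nat_lit 5) (nat_lit 221) (nat_lit 5) (nat_lit 454) (nat_lit 383) (nat_lit 303))))) (XT.nd (nat_lit 234) (nat_lit 1064) (nat_lit 0) (XT.nd (nat_lit 78) (nat_lit 532) (nat_lit 0) (XT.lf (nat_lit 0) (nat_lit 2901081528) (nat_lit 532) (nat_lit 194432080) (nat_lit 608) (nat_lit 7298050312) (nat_lit 213) (nat_lit 5) (nat_lit 220) (nat_lit 5) (nat_lit 221) (nat_lit 5) (nat_lit 455) (nat_lit 383) (nat_lit 302)) (XT.nd (nat_lit 78) (nat_lit 532) (nat_lit 0) (XT.lf (nat_lit 0) (nat_lit 5942951900) (nat_lit 608) (nat_lit 919520584) (nat_lit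 76) (nat_lit 3642471809) (nat_lit 213) (nat_lit 5) (nat_lit 221) (nat_lit 5) (nat_lit 214) (nat_lit 5) (nat_lit 456) (nat_lit 383) (nat_lit 301)) (XT.lf (nat_lit 0) (nat_lit 5823077838) (nat_lit 532) (nat_lit 3036062157) (nat_lit 608) (nat_lit 1759182000) (nat_lit 206) (nat_lit 5) (nat_lit 213) (nat_lit 5) (nat_lit 214) (nat_lit 5) (nat_lit 457) (nat_lit 383) (nat_lit 300)))) (XT.nd (nat_lit 78) (nat_lit 532) (nat_lit 0) (XT.lf (nat_lit 0) (nat_lit 1082759258) (nat_lit 532) (nat_lit 8779079238) (nat_lit 76) (nat_lit 872041533) (nat_lit 199) (nat_lit 5) (nat_lit 206) (nat_lit 5) (nat_lit 200) (nat_lit 5) (nat_lit 458) (nat_lit 383) (nat_lit 299)) (XT.nd (nat_lit 78) (nat_lit 532) (nat_lit 0) (XT.lf (nat_lit 0) (nat_lit 3983552770) (nat_lit 532) (nat_lit 2015492810) (nat_lit 76) (nat_lit 4851965112) (nat_lit 199) (nat_lit 5) (nat_lit 206) (nat_lit 5) (nat_lit 200) (nat_lit 5) (nat_lit 459) (nat_lit 383) (nat_lit 298)) (XT.lf (nat_lit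 0) (nat_lit 4911242955) (nat_lit 532) (nat_lit 2036583467) (nat_lit 608) (nat_lit 4022553567) (nat_lit 192) (nat_lit 5) (nat_lit 199) (nat_lit 5) (nat_lit 200) (nat_lit 5) (nat_lit 460) (nat_lit 383) (nat_lit 297))))))))
noncomputable def xc100 : XT := (XT.nd (nat_lit 1716) (nat_lit 3876) (nat_lit 0) (XT.nd (nat_lit 858) (nat_lit 2736) (nat_lit 0) (XT.nd (nat_lit 390) (nat_lit 1824) (nat_lit 0) (XT.nd (nat_lit 156) (nat_lit 912) (nat_lit 0) (XT.nd (nat_lit 78) (nat_lit 76) (nat_lit 0) (XT.lf (nat_lit 0) (nat_lit 873560561) (nat_lit 456) (nat_lit 9103923678) (nat_lit 532) (nat_lit 1114535659) (nat_lit 186) (nat_lit 5) (nat_lit 192) (nat_lit 5) (nat_lit 193) (nat_lit 5) (nat_lit 461) (nat_lit 383) (nat_lit 296)) (XT.lf (nat_lit 0) (nat_lit 1855668330) (nat_lit 532) (nat_lit 3250878845) (nat_lit 76) (nat_lit 6108743781) (nat_lit 185) (nat_lit 5) (nat_lit 192) (nat_lit 5) (nat_lit 186) (nat_lit 5) (nat_lit 462) (nat_lit 383) (nat_lit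 295))) (XT.nd (nat_lit 78) (nat_lit 456) (nat_lit 0) (XT.lf (nat_lit 0) (nat_lit 3863195521) (nat_lit 456) (nat_lit 1006659285) (nat_lit 532) (nat_lit 6471040148) (nat_lit 179) (nat_lit 5) (nat_lit 185) (nat_lit 5) (nat_lit 186) (nat_lit 5) (nat_lit 463) (nat_lit 383) (nat_lit 294)) (XT.nd (nat_lit 78) (nat_lit 456) (nat_lit 0) (XT.lf (nat_lit 0) (nat_lit 7961505963) (nat_lit 532) (nat_lit 362065035) (nat_lit 76) (nat_lit 3145101219) (nat_lit 179) (nat_lit 5) (nat_lit 186) (nat_lit 5) (nat_lit 180) (nat_lit 5) (nat_lit 464) (nat_lit 383) (nat_lit 293)) (XT.lf (nat_lit 0) (nat_lit 6944660560) (nat_lit 456) (nat_lit 4197189167) (nat_lit 532) (nat_lit 456622818) (nat_lit 173) (nat_lit 5) (nat_lit 179) (nat_lit 5) (nat_lit 180) (nat_lit 5) (nat_lit 465) (nat_lit 383) (nat_lit 292))))) (XT.nd (nat_lit 234) (nat_lit 912) (nat_lit 0) (XT.nd (nat_lit 78) (nat_lit 380) (nat_lit 0) (XT.lf (nat_lit 0) (nat_lit 2615228878) (nat_lit 532)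 (nat_lit 9077461291) (nat_lit 76) (nat_lit 37936141) (nat_lit 166) (nat_lit 5) (nat_lit 173) (nat_lit 5) (nat_lit 167) (nat_lit 5) (nat_lit 466) (nat_lit 383) (nat_lit 291)) (XT.nd (nat_lit 78) (nat_lit 380) (nat_lit 0) (XT.lf (nat_lit 0) (nat_lit 5777020468) (nat_lit 532) (nat_lit 1762384440) (nat_lit 76) (nat_lit 4325269975) (nat_lit 166) (nat_lit 5) (nat_lit 173) (nat_lit 5) (nat_lit 167) (nat_lit 5) (nat_lit 467) (nat_lit 383) (nat_lit 290)) (XT.lf (nat_lit 0) (nat_lit 5739042594) (nat_lit 380) (nat_lit 3276128752) (nat_lit 456) (nat_lit 2985974964) (nat_lit 161) (nat_lit 5) (nat_lit 166) (nat_lit 5) (nat_lit 167) (nat_lit 5) (nat_lit 468) (nat_lit 383) (nat_lit 289)))) (XT.nd (nat_lit 78) (nat_lit 380) (nat_lit 0) (XT.lf (nat_lit 0) (nat_lit 178430451) (nat_lit 532) (nat_lit 10893256990) (nat_lit 76) (nat_lit 1068580359) (nat_lit 154) (nat_lit 5) (nat_lit 161) (nat_lit 5) (nat_lit 155) (nat_lit 5) (nat_lit 469) (nat_lit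 383) (nat_lit 288)) (XT.nd (nat_lit 78) (nat_lit 380) (nat_lit 0) (XT.lf (nat_lit 0) (nat_lit 3406291875) (nat_lit 532) (nat_lit 3367375267) (nat_lit 76) (nat_lit 5507310930) (nat_lit 154) (nat_lit 5) (nat_lit 161) (nat_lit 5) (nat_lit 155) (nat_lit 5) (nat_lit 470) (nat_lit 383) (nat_lit 287)) (XT.lf (nat_lit 0) (nat_lit 4331035314) (nat_lit 380) (nat_lit 2372379689) (nat_lit 456) (nat_lit 5720997479) (nat_lit 149) (nat_lit 5) (nat_lit 154) (nat_lit 5) (nat_lit 155) (nat_lit 5) (nat_lit 471) (nat_lit 383) (nat_lit 286)))))) (XT.nd (nat_lit 390) (nat_lit 1520) (nat_lit 0) (XT.nd (nat_lit 156) (nat_lit 760) (nat_lit 0) (XT.nd (nat_lit 78) (nat_lit 456) (nat_lit 0) (XT.lf (nat_lit 0) (nat_lit 10079716989) (nat_lit 456) (nat_lit 390053916) (nat_lit 76) (nat_lit 2100683888) (nat_lit 149) (nat_lit 5) (nat_lit 155) (nat_lit 5) (nat_lit 150) (nat_lit 5) (nat_lit 472) (nat_lit 383) (nat_lit 285)) (XT.lf (nat_lit 0) (nat_lit 835564040)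 (nat_lit 456) (nat_lit 5208157764) (nat_lit 76) (nat_lit 6674755851) (nat_lit 143) (nat_lit 5) (nat_lit 149) (nat_lit 5) (nat_lit 144) (nat_lit 5) (nat_lit 473) (nat_lit 383) (nat_lit 284))) (XT.nd (nat_lit 78) (nat_lit 380) (nat_lit 0) (XT.lf (nat_lit 0) (nat_lit 2688983334) (nat_lit 380) (nat_lit 1503456336) (nat_lit 456) (nat_lit 8676747769) (nat_lit 138) (nat_lit 5) (nat_lit 143) (nat_lit 5) (nat_lit 144) (nat_lit 5) (nat_lit 474) (nat_lit 383) (nat_lit 283)) (XT.nd (nat_lit 78) (nat_lit 380) (nat_lit 0) (XT.lf (nat_lit 0) (nat_lit 7649362965) (nat_lit 456) (nat_lit 2262588161) (nat_lit 76) (nat_lit 3110305731) (nat_lit 138) (nat_lit 5) (nat_lit 144) (nat_lit 5) (nat_lit 139) (nat_lit 5) (nat_lit 475) (nat_lit 383) (nat_lit 282)) (XT.lf (nat_lit 0) (nat_lit 5846271937) (nat_lit 380) (nat_lit 5354932691) (nat_lit 456) (nat_lit 1976671009) (nat_lit 133) (nat_lit 5) (nat_lit 138) (nat_lit 5) (nat_lit 139) (nat_lit 5) (nat_lit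 476) (nat_lit 383) (nat_lit 281))))) (XT.nd (nat_lit 234) (nat_lit 760) (nat_lit 0) (XT.nd (nat_lit 78) (nat_lit 380) (nat_lit 0) (XT.lf (nat_lit 0) (nat_lit 778223838) (nat_lit 304) (nat_lit 688013013) (nat_lit 380) (nat_lit 11870214836) (nat_lit 128) (nat_lit 5) (nat_lit 132) (nat_lit 5) (nat_lit 133) (nat_lit 5) (nat_lit 477) (nat_lit 383) (nat_lit 280)) (XT.nd (nat_lit 78) (nat_lit 380) (nat_lit 0) (XT.lf (nat_lit 0) (nat_lit 5005594294) (nat_lit 380) (nat_lit 4421482802) (nat_lit 76) (nat_lit 4069783030) (nat_lit 128) (nat_lit 5) (nat_lit 133) (nat_lit 5) (nat_lit 129) (nat_lit 5) (nat_lit 478) (nat_lit 383) (nat_lit 279)) (XT.lf (nat_lit 0) (nat_lit 3891099520) (nat_lit 380) (nat_lit 4732959198) (nat_lit 456) (nat_lit 5036254919) (nat_lit 123) (nat_lit 5) (nat_lit 128) (nat_lit 5) (nat_lit 129) (nat_lit 5) (nat_lit 479) (nat_lit 383) (nat_lit 278)))) (XT.nd (nat_lit 78) (nat_lit 760) (nat_lit 0) (XT.lf (nat_lit 0) (nat_lit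 12323745926) (nat_lit 456) (nat_lit 1430635071) (nat_lit 76) (nat_lit 72481383) (nat_lit 123) (nat_lit 5) (nat_lit 129) (nat_lit 5) (nat_lit 124) (nat_lit 5) (nat_lit 480) (nat_lit 383) (nat_lit 277)) (XT.nd (nat_lit 78) (nat_lit 380) (nat_lit 0) (XT.lf (nat_lit 0) (nat_lit 2130019212) (nat_lit 380) (nat_lit 6905939941) (nat_lit 76) (nat_lit 4959375567) (nat_lit 118) (nat_lit 5) (nat_lit 123) (nat_lit 5) (nat_lit 119) (nat_lit 5) (nat_lit 481) (nat_lit 383) (nat_lit 276)) (XT.lf (nat_lit 0) (nat_lit 1610422481) (nat_lit 380) (nat_lit 4204513659) (nat_lit 456) (nat_lit 8352059796) (nat_lit 113) (nat_lit 5) (nat_lit 118) (nat_lit 5) (nat_lit 119) (nat_lit 5) (nat_lit 482) (nat_lit 383) (nat_lit 275))))))) (XT.nd (nat_lit 858) (nat_lit 1900) (nat_lit 0) (XT.nd (nat_lit 390) (nat_lit 988) (nat_lit 0) (XT.nd (nat_lit 156) (nat_lit 684) (nat_lit 0) (XT.nd (nat_lit 78) (nat_lit 304) (nat_lit 0) (XT.lf (nat_lit 0) (nat_lit 9604124739)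 (nat_lit 456) (nat_lit 3988480599) (nat_lit 76) (nat_lit 748876560) (nat_lit 113) (nat_lit 5) (nat_lit 119) (nat_lit 5) (nat_lit 114) (nat_lit 5) (nat_lit 483) (nat_lit 383) (nat_lit 274)) (XT.lf (nat_lit 0) (nat_lit 4753078588) (nat_lit 304) (nat_lit 8754356552) (nat_lit 380) (nat_lit 1011258607) (nat_lit 109) (nat_lit 5) (nat_lit 113) (nat_lit 5) (nat_lit 114) (nat_lit 5) (nat_lit 484) (nat_lit 383) (nat_lit 273))) (XT.nd (nat_lit 78) (nat_lit 608) (nat_lit 0) (XT.lf (nat_lit 0) (nat_lit 2759408407) (nat_lit 380) (nat_lit 1026116533) (nat_lit 76) (nat_lit 10913432910) (nat_lit 108) (nat_lit 5) (nat_lit 113) (nat_lit 5) (nat_lit 109) (nat_lit 5) (nat_lit 485) (nat_lit 383) (nat_lit 272)) (XT.nd (nat_lit 78) (nat_lit 304) (nat_lit 0) (XT.lf (nat_lit 0) (nat_lit 6632326030) (nat_lit 380) (nat_lit 6936717732) (nat_lit 76) (nat_lit 1312844984) (nat_lit 104) (nat_lit 5) (nat_lit 109) (nat_lit 5) (nat_lit 105) (nat_lit 5) (nat_lit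 486) (nat_lit 383) (nat_lit 271)) (XT.lf (nat_lit 0) (nat_lit 2010786687) (nat_lit 304) (nat_lit 8597165670) (nat_lit 380) (nat_lit 4460023603) (nat_lit 100) (nat_lit 5) (nat_lit 104) (nat_lit 5) (nat_lit 105) (nat_lit 5) (nat_lit 487) (nat_lit 383) (nat_lit 270))))) (XT.nd (nat_lit 234) (nat_lit 608) (nat_lit 0) (XT.nd (nat_lit 78) (nat_lit 380) (nat_lit 0) (XT.lf (nat_lit 0) (nat_lit 11199557362) (nat_lit 304) (nat_lit 3490459234) (nat_lit 380) (nat_lit 567232466) (nat_lit 100) (nat_lit 5) (nat_lit 104) (nat_lit 5) (nat_lit 105) (nat_lit 5) (nat_lit 488) (nat_lit 383) (nat_lit 269)) (XT.nd (nat_lit 78) (nat_lit 0) (nat_lit 0) (XT.lf (nat_lit 0) (nat_lit 3384199890) (nat_lit 380) (nat_lit 10325331686) (nat_lit 76) (nat_lit 1739828219) (nat_lit 95) (nat_lit 5) (nat_lit 100) (nat_lit 5) (nat_lit 96) (nat_lit 5) (nat_lit 489) (nat_lit 383) (nat_lit 268)) (XT.lf (nat_lit 0) (nat_lit 7438329067) (nat_lit 380) (nat_lit 1158888677)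 (nat_lit 76) (nat_lit 7047397243) (nat_lit 95) (nat_lit 5) (nat_lit 100) (nat_lit 5) (nat_lit 96) (nat_lit 5) (nat_lit 490) (nat_lit 383) (nat_lit 267)))) (XT.nd (nat_lit 78) (nat_lit 380) (nat_lit 0) (XT.lf (nat_lit 0) (nat_lit 8268489192) (nat_lit 228) (nat_lit 3339845091) (nat_lit 304) (nat_lit 4234747581) (nat_lit 92) (nat_lit 5) (nat_lit 95) (nat_lit 5) (nat_lit 96) (nat_lit 5) (nat_lit 491) (nat_lit 383) (nat_lit 266)) (XT.nd (nat_lit 78) (nat_lit 76) (nat_lit 0) (XT.lf (nat_lit 0) (nat_lit 1834706282) (nat_lit 304) (nat_lit 14041109357) (nat_lit 380) (nat_lit 169423322) (nat_lit 88) (nat_lit 5) (nat_lit 92) (nat_lit 5) (nat_lit 93) (nat_lit 5) (nat_lit 492) (nat_lit 383) (nat_lit 265)) (XT.lf (nat_lit 0) (nat_lit 3979576397) (nat_lit 380) (nat_lit 4794814576) (nat_lit 76) (nat_lit 7475443467) (nat_lit 87) (nat_lit 5) (nat_lit 92) (nat_lit 5) (nat_lit 88) (nat_lit 5) (nat_lit 493) (nat_lit 383) (nat_lit 264)))))) (XT.nd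 (nat_lit 468) (nat_lit 836) (nat_lit 0) (XT.nd (nat_lit 234) (nat_lit 456) (nat_lit 0) (XT.nd (nat_lit 78) (nat_lit 380) (nat_lit 0) (XT.lf (nat_lit 0) (nat_lit 4841215456) (nat_lit 228) (nat_lit 3381120757) (nat_lit 304) (nat_lit 8235904508) (nat_lit 84) (nat_lit 5) (nat_lit 87) (nat_lit 5) (nat_lit 88) (nat_lit 5) (nat_lit 494) (nat_lit 383) (nat_lit 263)) (XT.nd (nat_lit 78) (nat_lit 380) (nat_lit 0) (XT.lf (nat_lit 0) (nat_lit 12577805753) (nat_lit 304) (nat_lit 1979651224) (nat_lit 76) (nat_lit 2112803278) (nat_lit 84) (nat_lit 5) (nat_lit 88) (nat_lit 5) (nat_lit 85) (nat_lit 5) (nat_lit 495) (nat_lit 383) (nat_lit 262)) (XT.lf (nat_lit 0) (nat_lit 188231470) (nat_lit 380) (nat_lit 8984798431) (nat_lit 76) (nat_lit 7712352581) (nat_lit 79) (nat_lit 5) (nat_lit 84) (nat_lit 5) (nat_lit 80) (nat_lit 5) (nat_lit 496) (nat_lit 383) (nat_lit 261)))) (XT.nd (nat_lit 78) (nat_lit 228) (nat_lit 0) (XT.lf (nat_lit 0) (nat_lit 854828945)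 (nat_lit 228) (nat_lit 3645977314) (nat_lit 304) (nat_lit 12603440498) (nat_lit 76) (nat_lit 5) (nat_lit 79) (nat_lit 5) (nat_lit 80) (nat_lit 5) (nat_lit 497) (nat_lit 383) (nat_lit 260)) (XT.nd (nat_lit 78) (nat_lit 228) (nat_lit 0) (XT.lf (nat_lit 0) (nat_lit 8955435067) (nat_lit 304) (nat_lit 6356564121) (nat_lit 76) (nat_lit 2014375133) (nat_lit 76) (nat_lit 5) (nat_lit 80) (nat_lit 5) (nat_lit 77) (nat_lit 5) (nat_lit 498) (nat_lit 383) (nat_lit 259)) (XT.lf (nat_lit 0) (nat_lit 3729510728) (nat_lit 228) (nat_lit 9800534754) (nat_lit 304) (nat_lit 4022283182) (nat_lit 73) (nat_lit 5) (nat_lit 76) (nat_lit 5) (nat_lit 77) (nat_lit 5) (nat_lit 499) (nat_lit 383) (nat_lit 258))))) (XT.nd (nat_lit 234) (nat_lit 532) (nat_lit 0) (XT.nd (nat_lit 78) (nat_lit 228) (nat_lit 0) (XT.lf (nat_lit 0) (nat_lit 433428595) (nat_lit 304) (nat_lit 3710886970) (nat_lit 76) (nat_lit 13637924714) (nat_lit 72) (nat_lit 5) (nat_lit 76) (nat_lit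 5) (nat_lit 73) (nat_lit 5) (nat_lit 500) (nat_lit 383) (nat_lit 257)) (XT.nd (nat_lit 78) (nat_lit 0) (nat_lit 0) (XT.lf (nat_lit 0) (nat_lit 4961367249) (nat_lit 304) (nat_lit 11391840507) (nat_lit 76) (nat_lit 1662273099) (nat_lit 69) (nat_lit 5) (nat_lit 73) (nat_lit 5) (nat_lit 70) (nat_lit 5) (nat_lit 501) (nat_lit 383) (nat_lit 256)) (XT.lf (nat_lit 0) (nat_lit 9615357352) (nat_lit 304) (nat_lit 1094279731) (nat_lit 76) (nat_lit 7543041162) (nat_lit 69) (nat_lit 5) (nat_lit 73) (nat_lit 5) (nat_lit 70) (nat_lit 5) (nat_lit 502) (nat_lit 383) (nat_lit 255)))) (XT.nd (nat_lit 78) (nat_lit 304) (nat_lit 0) (XT.lf (nat_lit 0) (nat_lit 9505525326) (nat_lit 228) (nat_lit 4901931792) (nat_lit 304) (nat_lit 4086263689) (nat_lit 66) (nat_lit 5) (nat_lit 69) (nat_lit 5) (nat_lit 70) (nat_lit 5) (nat_lit 503) (nat_lit 383) (nat_lit 254)) (XT.nd (nat_lit 78) (nat_lit 0) (nat_lit 0) (XT.lf (nat_lit 0) (nat_lit 556230436) (nat_lit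 304) (nat_lit 17164797921) (nat_lit 76) (nat_lit 1018331332) (nat_lit 62) (nat_lit 5) (nat_lit 66) (nat_lit 5) (nat_lit 63) (nat_lit 5) (nat_lit 504) (nat_lit 383) (nat_lit 253)) (XT.lf (nat_lit 0) (nat_lit 5313502401) (nat_lit 304) (nat_lit 6606696401) (nat_lit 76) (nat_lit 7067641198) (nat_lit 62) (nat_lit 5) (nat_lit 66) (nat_lit 5) (nat_lit 63) (nat_lit 5) (nat_lit 505) (nat_lit 383) (nat_lit 252))))))))
noncomputable def xc101 : XT := (XT.nd (nat_lit 1716) (nat_lit 17632) (nat_lit 0) (XT.nd (nat_lit 858) (nat_lit 5016) (nat_lit 0) (XT.nd (nat_lit 390) (nat_lit 1064) (nat_lit 0) (XT.nd (nat_lit 156) (nat_lit 456) (nat_lit 0) (XT.nd (nat_lit 78) (nat_lit 380) (nat_lit 0) (XT.lf (nat_lit 0) (nat_lit 2143948545) (nat_lit 380) (nat_lit 546284014) (nat_lit 380) (nat_lit 546284014) (nat_lit 707) (nat_lit 3) (nat_lit 712) (nat_lit 3) (nat_lit 712) (nat_lit 5) (nat_lit 384) (nat_lit 384) (nat_lit 372)) (XT.lf (nat_lit 0) (nat_lit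 587889657) (nat_lit 380) (nat_lit 4402210351) (nat_lit 456) (nat_lit 1491277789) (nat_lit 702) (nat_lit 5) (nat_lit 707) (nat_lit 3) (nat_lit 708) (nat_lit 5) (nat_lit 385) (nat_lit 384) (nat_lit 371))) (XT.nd (nat_lit 78) (nat_lit 456) (nat_lit 0) (XT.lf (nat_lit 0) (nat_lit 3322088016) (nat_lit 380) (nat_lit 1213175769) (nat_lit 456) (nat_lit 1955672764) (nat_lit 702) (nat_lit 5) (nat_lit 707) (nat_lit 3) (nat_lit 708) (nat_lit 5) (nat_lit 386) (nat_lit 384) (nat_lit 370)) (XT.nd (nat_lit 78) (nat_lit 456) (nat_lit 0) (XT.lf (nat_lit 76) (nat_lit 2028934554) (nat_lit 0) (nat_lit 4024192792) (nat_lit 456) (nat_lit 448750800) (nat_lit 703) (nat_lit 5) (nat_lit 702) (nat_lit 5) (nat_lit 708) (nat_lit 5) (nat_lit 387) (nat_lit 384) (nat_lit 369)) (XT.lf (nat_lit 0) (nat_lit 2233080485) (nat_lit 456) (nat_lit 1213735789) (nat_lit 532) (nat_lit 3067197069) (nat_lit 696) (nat_lit 5) (nat_lit 702) (nat_lit 5) (nat_lit 703) (nat_lit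 5) (nat_lit 388) (nat_lit 384) (nat_lit 368))))) (XT.nd (nat_lit 234) (nat_lit 532) (nat_lit 0) (XT.nd (nat_lit 78) (nat_lit 532) (nat_lit 0) (XT.lf (nat_lit 76) (nat_lit 2097906761) (nat_lit 0) (nat_lit 2809278358) (nat_lit 532) (nat_lit 1620286693) (nat_lit 697) (nat_lit 5) (nat_lit 696) (nat_lit 5) (nat_lit 703) (nat_lit 5) (nat_lit 389) (nat_lit 384) (nat_lit 367)) (XT.nd (nat_lit 78) (nat_lit 0) (nat_lit 0) (XT.lf (nat_lit 0) (nat_lit 1019078454) (nat_lit 532) (nat_lit 1093942522) (nat_lit 608) (nat_lit 4429271029) (nat_lit 689) (nat_lit 5) (nat_lit 696) (nat_lit 5) (nat_lit 697) (nat_lit 5) (nat_lit 390) (nat_lit 384) (nat_lit 366)) (XT.lf (nat_lit 76) (nat_lit 2290460212) (nat_lit 0) (nat_lit 1346956435) (nat_lit 608) (nat_lit 2920851034) (nat_lit 690) (nat_lit 5) (nat_lit 689) (nat_lit 5) (nat_lit 697) (nat_lit 5) (nat_lit 391) (nat_lit 384) (nat_lit 365)))) (XT.nd (nat_lit 78) (nat_lit 532) (nat_lit 0) (XT.lf (nat_lit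 76) (nat_lit 5720383023) (nat_lit 0) (nat_lit 529143144) (nat_lit 608) (nat_lit 326238919) (nat_lit 690) (nat_lit 5) (nat_lit 689) (nat_lit 5) (nat_lit 697) (nat_lit 5) (nat_lit 392) (nat_lit 384) (nat_lit 364)) (XT.nd (nat_lit 78) (nat_lit 0) (nat_lit 0) (XT.lf (nat_lit 0) (nat_lit 2244035537) (nat_lit 608) (nat_lit 3989421143) (nat_lit 684) (nat_lit 360799575) (nat_lit 682) (nat_lit 5) (nat_lit 690) (nat_lit 5) (nat_lit 691) (nat_lit 5) (nat_lit 393) (nat_lit 384) (nat_lit 363)) (XT.lf (nat_lit 0) (nat_lit 4806745646) (nat_lit 608) (nat_lit 511260759) (nat_lit 684) (nat_lit 1296188300) (nat_lit 682) (nat_lit 5) (nat_lit 690) (nat_lit 5) (nat_lit 691) (nat_lit 5) (nat_lit 394) (nat_lit 384) (nat_lit 362)))))) (XT.nd (nat_lit 390) (nat_lit 3572) (nat_lit 0) (XT.nd (nat_lit 156) (nat_lit 760) (nat_lit 0) (XT.nd (nat_lit 78) (nat_lit 0) (nat_lit 0) (XT.lf (nat_lit 0) (nat_lit 732649182) (nat_lit 684) (nat_lit 3601576679) (nat_lit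 760) (nat_lit 2301095782) (nat_lit 673) (nat_lit 5) (nat_lit 682) (nat_lit 5) (nat_lit 683) (nat_lit 5) (nat_lit 395) (nat_lit 384) (nat_lit 361)) (XT.lf (nat_lit 0) (nat_lit 3240738516) (nat_lit 684) (nat_lit 50472272) (nat_lit 760) (nat_lit 3366620479) (nat_lit 673) (nat_lit 5) (nat_lit 682) (nat_lit 5) (nat_lit 683) (nat_lit 5) (nat_lit 396) (nat_lit 384) (nat_lit 360))) (XT.nd (nat_lit 78) (nat_lit 760) (nat_lit 0) (XT.lf (nat_lit 76) (nat_lit 3581113062) (nat_lit 0) (nat_lit 2180259591) (nat_lit 760) (nat_lit 920197151) (nat_lit 674) (nat_lit 5) (nat_lit 673) (nat_lit 5) (nat_lit 683) (nat_lit 5) (nat_lit 397) (nat_lit 384) (nat_lit 359)) (XT.nd (nat_lit 78) (nat_lit 0) (nat_lit 76) (XT.lf (nat_lit 76) (nat_lit 538650416) (nat_lit 0) (nat_lit 1010151827) (nat_lit 836) (nat_lit 5157925014) (nat_lit 664) (nat_lit 5) (nat_lit 663) (nat_lit 5) (nat_lit 674) (nat_lit 5) (nat_lit 398) (nat_lit 384) (nat_lit 358)) (XT.lf (nat_lit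 0) (nat_lit 4017744412) (nat_lit 760) (nat_lit 2486017677) (nat_lit 76) (nat_lit 229271293) (nat_lit 664) (nat_lit 5) (nat_lit 674) (nat_lit 5) (nat_lit 665) (nat_lit 5) (nat_lit 399) (nat_lit 384) (nat_lit 357))))) (XT.nd (nat_lit 234) (nat_lit 1976) (nat_lit 0) (XT.nd (nat_lit 78) (nat_lit 912) (nat_lit 0) (XT.lf (nat_lit 0) (nat_lit 1240844398) (nat_lit 760) (nat_lit 5251867886) (nat_lit 836) (nat_lit 268044781) (nat_lit 654) (nat_lit 5) (nat_lit 664) (nat_lit 5) (nat_lit 665) (nat_lit 5) (nat_lit 400) (nat_lit 384) (nat_lit 356)) (XT.nd (nat_lit 78) (nat_lit 836) (nat_lit 0) (XT.lf (nat_lit 0) (nat_lit 2158104411) (nat_lit 836) (nat_lit 1766294983) (nat_lit 76) (nat_lit 2865186268) (nat_lit 653) (nat_lit 5) (nat_lit 664) (nat_lit 5) (nat_lit 654) (nat_lit 5) (nat_lit 401) (nat_lit 384) (nat_lit 355)) (XT.lf (nat_lit 0) (nat_lit 2049302103) (nat_lit 836) (nat_lit 2536713429) (nat_lit 912) (nat_lit 2233826272) (nat_lit 642)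 (nat_lit 5) (nat_lit 653) (nat_lit 5) (nat_lit 654) (nat_lit 5) (nat_lit 402) (nat_lit 384) (nat_lit 354)))) (XT.nd (nat_lit 78) (nat_lit 1900) (nat_lit 0) (XT.lf (nat_lit 0) (nat_lit 164925343) (nat_lit 912) (nat_lit 925475732) (nat_lit 76) (nat_lit 5761178145) (nat_lit 641) (nat_lit 5) (nat_lit 653) (nat_lit 5) (nat_lit 642) (nat_lit 5) (nat_lit 403) (nat_lit 384) (nat_lit 353)) (XT.nd (nat_lit 78) (nat_lit 988) (nat_lit 0) (XT.lf (nat_lit 0) (nat_lit 2549058797) (nat_lit 988) (nat_lit 3904357148) (nat_lit 76) (nat_lit 430915414) (nat_lit 629) (nat_lit 5) (nat_lit 642) (nat_lit 5) (nat_lit 630) (nat_lit 5) (nat_lit 404) (nat_lit 384) (nat_lit 352)) (XT.lf (nat_lit 0) (nat_lit 12454516) (nat_lit 988) (nat_lit 4928000357) (nat_lit 1064) (nat_lit 1978113288) (nat_lit 616) (nat_lit 5) (nat_lit 629) (nat_lit 5) (nat_lit 630) (nat_lit 5) (nat_lit 405) (nat_lit 384) (nat_lit 351))))))) (XT.nd (nat_lit 858) (nat_lit 9804) (nat_lit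 0) (XT.nd (nat_lit 390) (nat_lit 5472) (nat_lit 0) (XT.nd (nat_lit 156) (nat_lit 1216) (nat_lit 0) (XT.nd (nat_lit 78) (nat_lit 1064) (nat_lit 0) (XT.lf (nat_lit 0) (nat_lit 393434472) (nat_lit 1064) (nat_lit 2934765600) (nat_lit 76) (nat_lit 3625797979) (nat_lit 615) (nat_lit 5) (nat_lit 629) (nat_lit 5) (nat_lit 616) (nat_lit 5) (nat_lit 406) (nat_lit 384) (nat_lit 350)) (XT.lf (nat_lit 0) (nat_lit 1078439223) (nat_lit 1064) (nat_lit 1662024558) (nat_lit 1140) (nat_lit 4250340496) (nat_lit 601) (nat_lit 5) (nat_lit 615) (nat_lit 5) (nat_lit 616) (nat_lit 5) (nat_lit 407) (nat_lit 384) (nat_lit 349))) (XT.nd (nat_lit 78) (nat_lit 1216) (nat_lit 0) (XT.lf (nat_lit 0) (nat_lit 5102878873) (nat_lit 1140) (nat_lit 1856137250) (nat_lit 76) (nat_lit 69981204) (nat_lit 601) (nat_lit 5) (nat_lit 616) (nat_lit 5) (nat_lit 602) (nat_lit 5) (nat_lit 408) (nat_lit 384) (nat_lit 348)) (XT.nd (nat_lit 78) (nat_lit 0) (nat_lit 0) (XT.lf (nat_lit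 0) (nat_lit 413650593) (nat_lit 1216) (nat_lit 4810055651) (nat_lit 76) (nat_lit 1844711233) (nat_lit 585) (nat_lit 5) (nat_lit 601) (nat_lit 5) (nat_lit 586) (nat_lit 5) (nat_lit 409) (nat_lit 384) (nat_lit 347)) (XT.lf (nat_lit 0) (nat_lit 2736770129) (nat_lit 1216) (nat_lit 680060800) (nat_lit 76) (nat_lit 3692312024) (nat_lit 585) (nat_lit 5) (nat_lit 601) (nat_lit 5) (nat_lit 586) (nat_lit 5) (nat_lit 410) (nat_lit 384) (nat_lit 346))))) (XT.nd (nat_lit 234) (nat_lit 2888) (nat_lit 0) (XT.nd (nat_lit 78) (nat_lit 1368) (nat_lit 0) (XT.lf (nat_lit 0) (nat_lit 3540580118) (nat_lit 1216) (nat_lit 1539527944) (nat_lit 1292) (nat_lit 2071117866) (nat_lit 569) (nat_lit 5) (nat_lit 585) (nat_lit 5) (nat_lit 586) (nat_lit 5) (nat_lit 411) (nat_lit 384) (nat_lit 345)) (XT.nd (nat_lit 78) (nat_lit 0) (nat_lit 0) (XT.lf (nat_lit 0) (nat_lit 234932632) (nat_lit 1368) (nat_lit 6569098933) (nat_lit 76) (nat_lit 390852694) (nat_lit 551)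 (nat_lit 5) (nat_lit 569) (nat_lit 5) (nat_lit 552) (nat_lit 5) (nat_lit 412) (nat_lit 384) (nat_lit 344)) (XT.lf (nat_lit 0) (nat_lit 2545900198) (nat_lit 1368) (nat_lit 2306705096) (nat_lit 76) (nat_lit 2386823160) (nat_lit 551) (nat_lit 5) (nat_lit 569) (nat_lit 5) (nat_lit 552) (nat_lit 5) (nat_lit 413) (nat_lit 384) (nat_lit 343)))) (XT.nd (nat_lit 78) (nat_lit 1520) (nat_lit 0) (XT.lf (nat_lit 0) (nat_lit 2028729807) (nat_lit 1368) (nat_lit 2840389031) (nat_lit 1444) (nat_lit 2416440791) (nat_lit 533) (nat_lit 5) (nat_lit 551) (nat_lit 5) (nat_lit 552) (nat_lit 5) (nat_lit 414) (nat_lit 384) (nat_lit 342)) (XT.nd (nat_lit 78) (nat_lit 1520) (nat_lit 0) (XT.lf (nat_lit 0) (nat_lit 6443582792) (nat_lit 1368) (nat_lit 764232094) (nat_lit 1444) (nat_lit 125434681) (nat_lit 533) (nat_lit 5) (nat_lit 551) (nat_lit 5) (nat_lit 552) (nat_lit 5) (nat_lit 415) (nat_lit 384) (nat_lit 341)) (XT.lf (nat_lit 0) (nat_lit 2168705664)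 (nat_lit 1520) (nat_lit 3832434066) (nat_lit 76) (nat_lit 1380755846) (nat_lit 513) (nat_lit 5) (nat_lit 533) (nat_lit 5) (nat_lit 514) (nat_lit 5) (nat_lit 416) (nat_lit 384) (nat_lit 340)))))) (XT.nd (nat_lit 468) (nat_lit 3116) (nat_lit 0) (XT.nd (nat_lit 234) (nat_lit 3496) (nat_lit 0) (XT.nd (nat_lit 78) (nat_lit 1672) (nat_lit 0) (XT.lf (nat_lit 0) (nat_lit 621110781) (nat_lit 1520) (nat_lit 3855868232) (nat_lit 1596) (nat_lit 2955135769) (nat_lit 493) (nat_lit 5) (nat_lit 513) (nat_lit 5) (nat_lit 514) (nat_lit 5) (nat_lit 417) (nat_lit 384) (nat_lit 339)) (XT.nd (nat_lit 78) (nat_lit 1672) (nat_lit 0) (XT.lf (nat_lit 0) (nat_lit 5176792927) (nat_lit 1520) (nat_lit 1635800611) (nat_lit 1596) (nat_lit 671136473) (nat_lit 493) (nat_lit 5) (nat_lit 513) (nat_lit 5) (nat_lit 514) (nat_lit 5) (nat_lit 418) (nat_lit 384) (nat_lit 338)) (XT.lf (nat_lit 0) (nat_lit 1611824801) (nat_lit 1672) (nat_lit 5273585197) (nat_lit 76)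 (nat_lit 651266063) (nat_lit 471) (nat_lit 5) (nat_lit 493) (nat_lit 5) (nat_lit 472) (nat_lit 5) (nat_lit 419) (nat_lit 384) (nat_lit 337)))) (XT.nd (nat_lit 78) (nat_lit 3496) (nat_lit 0) (XT.lf (nat_lit 0) (nat_lit 3914555404) (nat_lit 1672) (nat_lit 689339447) (nat_lit 76) (nat_lit 2987049802) (nat_lit 471) (nat_lit 5) (nat_lit 493) (nat_lit 5) (nat_lit 472) (nat_lit 5) (nat_lit 420) (nat_lit 384) (nat_lit 336)) (XT.nd (nat_lit 78) (nat_lit 1824) (nat_lit 0) (XT.lf (nat_lit 0) (nat_lit 4000451691) (nat_lit 1672) (nat_lit 2246383905) (nat_lit 1748) (nat_lit 1399807121) (nat_lit 449) (nat_lit 5) (nat_lit 471) (nat_lit 5) (nat_lit 472) (nat_lit 5) (nat_lit 421) (nat_lit 384) (nat_lit 335)) (XT.lf (nat_lit 0) (nat_lit 880721528) (nat_lit 1824) (nat_lit 6646162357) (nat_lit 76) (nat_lit 177054326) (nat_lit 425) (nat_lit 5) (nat_lit 449) (nat_lit 5) (nat_lit 426) (nat_lit 5) (nat_lit 422) (nat_lit 384) (nat_lit 334))))) (XT.nd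 (nat_lit 234) (nat_lit 1824) (nat_lit 0) (XT.nd (nat_lit 78) (nat_lit 1292) (nat_lit 0) (XT.lf (nat_lit 0) (nat_lit 3186050956) (nat_lit 1824) (nat_lit 1920486741) (nat_lit 76) (nat_lit 2655711383) (nat_lit 425) (nat_lit 5) (nat_lit 449) (nat_lit 5) (nat_lit 426) (nat_lit 5) (nat_lit 423) (nat_lit 384) (nat_lit 333)) (XT.nd (nat_lit 78) (nat_lit 0) (nat_lit 0) (XT.lf (nat_lit 0) (nat_lit 2898963365) (nat_lit 1292) (nat_lit 2616570588) (nat_lit 1368) (nat_lit 2306644206) (nat_lit 408) (nat_lit 5) (nat_lit 425) (nat_lit 5) (nat_lit 426) (nat_lit 5) (nat_lit 424) (nat_lit 384) (nat_lit 332)) (XT.lf (nat_lit 0) (nat_lit 7802330725) (nat_lit 1292) (nat_lit 61937863) (nat_lit 1368) (nat_lit 19596672) (nat_lit 408) (nat_lit 5) (nat_lit 425) (nat_lit 5) (nat_lit 426) (nat_lit 5) (nat_lit 425) (nat_lit 384) (nat_lit 331)))) (XT.nd (nat_lit 78) (nat_lit 836) (nat_lit 0) (XT.lf (nat_lit 0) (nat_lit 2291580719) (nat_lit 988) (nat_lit 3095984552)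 (nat_lit 76) (nat_lit 2558758106) (nat_lit 395) (nat_lit 5) (nat_lit 408) (nat_lit 5) (nat_lit 396) (nat_lit 5) (nat_lit 426) (nat_lit 384) (nat_lit 330)) (XT.nd (nat_lit 78) (nat_lit 0) (nat_lit 0) (XT.lf (nat_lit 0) (nat_lit 1856904814) (nat_lit 836) (nat_lit 2765660768) (nat_lit 912) (nat_lit 3387997505) (nat_lit 384) (nat_lit 5) (nat_lit 395) (nat_lit 5) (nat_lit 396) (nat_lit 5) (nat_lit 427) (nat_lit 384) (nat_lit 329)) (XT.lf (nat_lit 0) (nat_lit 6912233983) (nat_lit 836) (nat_lit 70058263) (nat_lit 912) (nat_lit 1094164617) (nat_lit 384) (nat_lit 5) (nat_lit 395) (nat_lit 5) (nat_lit 396) (nat_lit 5) (nat_lit 428) (nat_lit 384) (nat_lit 328))))))))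
noncomputable def xc102 : XT := (XT.nd (nat_lit 1716) (nat_lit 7600) (nat_lit 0) (XT.nd (nat_lit 858) (nat_lit 4788) (nat_lit 0) (XT.nd (nat_lit 390) (nat_lit 3116) (nat_lit 0) (XT.nd (nat_lit 156) (nat_lit 912) (nat_lit 0) (XT.nd (nat_lit 78) (nat_lit 836) (nat_lit 0) (XT.lf (nat_lit 0) (nat_lit 1234186429) (nat_lit 988) (nat_lit 4231277207) (nat_lit 76) (nat_lit 2677954858) (nat_lit 371) (nat_lit 5) (nat_lit 384) (nat_lit 5) (nat_lit 372) (nat_lit 5) (nat_lit 429) (nat_lit 384) (nat_lit 327)) (XT.lf (nat_lit 0) (nat_lit 858898034) (nat_lit 836) (nat_lit 2711814133) (nat_lit 912) (nat_lit 4641348411) (nat_lit 360) (nat_lit 5) (nat_lit 371) (nat_lit 5) (nat_lit 372) (nat_lit 5) (nat_lit 430) (nat_lit 384) (nat_lit 326))) (XT.nd (nat_lit 78) (nat_lit 912) (nat_lit 0) (XT.lf (nat_lit 0) (nat_lit 5945998346) (nat_lit 912) (nat_lit 2213437085) (nat_lit 76) (nat_lit 122810294) (nat_lit 360) (nat_lit 5) (nat_lit 372) (nat_lit 5) (nat_lit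 361) (nat_lit 5) (nat_lit 431) (nat_lit 384) (nat_lit 325)) (XT.nd (nat_lit 78) (nat_lit 0) (nat_lit 0) (XT.lf (nat_lit 0) (nat_lit 15819022) (nat_lit 912) (nat_lit 5341874137) (nat_lit 76) (nat_lit 2996128686) (nat_lit 348) (nat_lit 5) (nat_lit 360) (nat_lit 5) (nat_lit 349) (nat_lit 5) (nat_lit 432) (nat_lit 384) (nat_lit 324)) (XT.lf (nat_lit 0) (nat_lit 2362390348) (nat_lit 912) (nat_lit 109070286) (nat_lit 76) (nat_lit 5955495280) (nat_lit 348) (nat_lit 5) (nat_lit 360) (nat_lit 5) (nat_lit 349) (nat_lit 5) (nat_lit 433) (nat_lit 384) (nat_lit 323))))) (XT.nd (nat_lit 234) (nat_lit 1520) (nat_lit 0) (XT.nd (nat_lit 78) (nat_lit 836) (nat_lit 0) (XT.lf (nat_lit 0) (nat_lit 4757793069) (nat_lit 836) (nat_lit 3245551767) (nat_lit 76) (nat_lit 498179827) (nat_lit 338) (nat_lit 5) (nat_lit 349) (nat_lit 5) (nat_lit 339) (nat_lit 5) (nat_lit 434) (nat_lit 384) (nat_lit 322)) (XT.nd (nat_lit 78) (nat_lit 76) (nat_lit 0) (XT.lf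 (nat_lit 0) (nat_lit 2125232133) (nat_lit 760) (nat_lit 5071683113) (nat_lit 836) (nat_lit 1380763113) (nat_lit 328) (nat_lit 5) (nat_lit 338) (nat_lit 5) (nat_lit 339) (nat_lit 5) (nat_lit 435) (nat_lit 384) (nat_lit 321)) (XT.lf (nat_lit 0) (nat_lit 1002996463) (nat_lit 836) (nat_lit 1053035372) (nat_lit 76) (nat_lit 6599458370) (nat_lit 327) (nat_lit 5) (nat_lit 338) (nat_lit 5) (nat_lit 328) (nat_lit 5) (nat_lit 436) (nat_lit 384) (nat_lit 320)))) (XT.nd (nat_lit 78) (nat_lit 760) (nat_lit 0) (XT.lf (nat_lit 0) (nat_lit 3417599448) (nat_lit 836) (nat_lit 4275803932) (nat_lit 76) (nat_lit 1041248474) (nat_lit 317) (nat_lit 5) (nat_lit 328) (nat_lit 5) (nat_lit 318) (nat_lit 5) (nat_lit 437) (nat_lit 384) (nat_lit 319)) (XT.nd (nat_lit 78) (nat_lit 0) (nat_lit 0) (XT.lf (nat_lit 0) (nat_lit 1244279663) (nat_lit 760) (nat_lit 4631217134) (nat_lit 836) (nat_lit 2940008948) (nat_lit 307) (nat_lit 5) (nat_lit 317) (nat_lit 5)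 (nat_lit 318) (nat_lit 5) (nat_lit 438) (nat_lit 384) (nat_lit 318)) (XT.lf (nat_lit 0) (nat_lit 6894612939) (nat_lit 760) (nat_lit 1483241751) (nat_lit 836) (nat_lit 520224849) (nat_lit 307) (nat_lit 5) (nat_lit 317) (nat_lit 5) (nat_lit 318) (nat_lit 5) (nat_lit 439) (nat_lit 384) (nat_lit 317)))))) (XT.nd (nat_lit 390) (nat_lit 2584) (nat_lit 0) (XT.nd (nat_lit 156) (nat_lit 760) (nat_lit 0) (XT.nd (nat_lit 78) (nat_lit 684) (nat_lit 0) (XT.lf (nat_lit 0) (nat_lit 1924723662) (nat_lit 760) (nat_lit 5320303560) (nat_lit 76) (nat_lit 1736986842) (nat_lit 297) (nat_lit 5) (nat_lit 307) (nat_lit 5) (nat_lit 298) (nat_lit 5) (nat_lit 440) (nat_lit 384) (nat_lit 316)) (XT.lf (nat_lit 0) (nat_lit 353074675) (nat_lit 684) (nat_lit 4051594668) (nat_lit 760) (nat_lit 4663036247) (nat_lit 288) (nat_lit 5) (nat_lit 297) (nat_lit 5) (nat_lit 298) (nat_lit 5) (nat_lit 441) (nat_lit 384) (nat_lit 315))) (XT.nd (nat_lit 78) (nat_lit 760)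 (nat_lit 0) (XT.lf (nat_lit 0) (nat_lit 6174100623) (nat_lit 684) (nat_lit 763617036) (nat_lit 760) (nat_lit 2217331415) (nat_lit 288) (nat_lit 5) (nat_lit 297) (nat_lit 5) (nat_lit 298) (nat_lit 5) (nat_lit 442) (nat_lit 384) (nat_lit 314)) (XT.nd (nat_lit 78) (nat_lit 0) (nat_lit 0) (XT.lf (nat_lit 0) (nat_lit 277386016) (nat_lit 760) (nat_lit 6395723503) (nat_lit 76) (nat_lit 2570927081) (nat_lit 278) (nat_lit 5) (nat_lit 288) (nat_lit 5) (nat_lit 279) (nat_lit 5) (nat_lit 443) (nat_lit 384) (nat_lit 313)) (XT.lf (nat_lit 0) (nat_lit 2786086547) (nat_lit 760) (nat_lit 557684085) (nat_lit 76) (nat_lit 5990872266) (nat_lit 278) (nat_lit 5) (nat_lit 288) (nat_lit 5) (nat_lit 279) (nat_lit 5) (nat_lit 444) (nat_lit 384) (nat_lit 312))))) (XT.nd (nat_lit 234) (nat_lit 1216) (nat_lit 0) (XT.nd (nat_lit 78) (nat_lit 684) (nat_lit 0) (XT.lf (nat_lit 0) (nat_lit 5349928382) (nat_lit 760) (nat_lit 3996393803) (nat_lit 76) (nat_lit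 80647367) (nat_lit 269) (nat_lit 5) (nat_lit 279) (nat_lit 5) (nat_lit 270) (nat_lit 5) (nat_lit 445) (nat_lit 384) (nat_lit 311)) (XT.nd (nat_lit 78) (nat_lit 76) (nat_lit 0) (XT.lf (nat_lit 0) (nat_lit 1991483510) (nat_lit 608) (nat_lit 5981901141) (nat_lit 684) (nat_lit 1547598766) (nat_lit 261) (nat_lit 5) (nat_lit 269) (nat_lit 5) (nat_lit 270) (nat_lit 5) (nat_lit 446) (nat_lit 384) (nat_lit 310)) (XT.lf (nat_lit 0) (nat_lit 1015532728) (nat_lit 684) (nat_lit 1507653577) (nat_lit 76) (nat_lit 7093631513) (nat_lit 260) (nat_lit 5) (nat_lit 269) (nat_lit 5) (nat_lit 261) (nat_lit 5) (nat_lit 447) (nat_lit 384) (nat_lit 309)))) (XT.nd (nat_lit 78) (nat_lit 608) (nat_lit 0) (XT.lf (nat_lit 0) (nat_lit 3616388634) (nat_lit 684) (nat_lit 5072744198) (nat_lit 76) (nat_lit 1025094799) (nat_lit 252) (nat_lit 5) (nat_lit 261) (nat_lit 5) (nat_lit 253) (nat_lit 5) (nat_lit 448) (nat_lit 384) (nat_lit 308)) (XT.nd (nat_lit 78) (nat_lit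 0) (nat_lit 0) (XT.lf (nat_lit 0) (nat_lit 1080767421) (nat_lit 608) (nat_lit 5192943181) (nat_lit 684) (nat_lit 3539792923) (nat_lit 244) (nat_lit 5) (nat_lit 252) (nat_lit 5) (nat_lit 253) (nat_lit 5) (nat_lit 449) (nat_lit 384) (nat_lit 307)) (XT.lf (nat_lit 0) (nat_lit 7389070242) (nat_lit 608) (nat_lit 1600024634) (nat_lit 684) (nat_lit 925578472) (nat_lit 244) (nat_lit 5) (nat_lit 252) (nat_lit 5) (nat_lit 253) (nat_lit 5) (nat_lit 450) (nat_lit 384) (nat_lit 306))))))) (XT.nd (nat_lit 858) (nat_lit 3648) (nat_lit 0) (XT.nd (nat_lit 390) (nat_lit 2128) (nat_lit 0) (XT.nd (nat_lit 156) (nat_lit 608) (nat_lit 0) (XT.nd (nat_lit 78) (nat_lit 532) (nat_lit 0) (XT.lf (nat_lit 0) (nat_lit 1727652493) (nat_lit 684) (nat_lit 6223717102) (nat_lit 76) (nat_lit 2066086079) (nat_lit 235) (nat_lit 5) (nat_lit 244) (nat_lit 5) (nat_lit 236) (nat_lit 5) (nat_lit 451) (nat_lit 384) (nat_lit 305)) (XT.lf (nat_lit 0) (nat_lit 99226132)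 (nat_lit 532) (nat_lit 4322166163) (nat_lit 608) (nat_lit 5700788578) (nat_lit 228) (nat_lit 5) (nat_lit 235) (nat_lit 5) (nat_lit 236) (nat_lit 5) (nat_lit 452) (nat_lit 384) (nat_lit 304))) (XT.nd (nat_lit 78) (nat_lit 608) (nat_lit 0) (XT.lf (nat_lit 0) (nat_lit 6596250914) (nat_lit 532) (nat_lit 586365505) (nat_lit 608) (nat_lit 3046118181) (nat_lit 228) (nat_lit 5) (nat_lit 235) (nat_lit 5) (nat_lit 236) (nat_lit 5) (nat_lit 453) (nat_lit 384) (nat_lit 303)) (XT.nd (nat_lit 78) (nat_lit 76) (nat_lit 0) (XT.lf (nat_lit 0) (nat_lit 2865926081) (nat_lit 532) (nat_lit 7145022273) (nat_lit 608) (nat_lit 326239475) (nat_lit 221) (nat_lit 5) (nat_lit 228) (nat_lit 5) (nat_lit 229) (nat_lit 5) (nat_lit 454) (nat_lit 384) (nat_lit 302)) (XT.lf (nat_lit 0) (nat_lit 2416813087) (nat_lit 608) (nat_lit 960374255) (nat_lit 76) (nat_lit 7070293097) (nat_lit 220) (nat_lit 5) (nat_lit 228) (nat_lit 5) (nat_lit 221) (nat_lit 5) (nat_lit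 455) (nat_lit 384) (nat_lit 301))))) (XT.nd (nat_lit 234) (nat_lit 988) (nat_lit 0) (XT.nd (nat_lit 78) (nat_lit 608) (nat_lit 0) (XT.lf (nat_lit 0) (nat_lit 5223714906) (nat_lit 608) (nat_lit 4845345870) (nat_lit 76) (nat_lit 490613608) (nat_lit 213) (nat_lit 5) (nat_lit 221) (nat_lit 5) (nat_lit 214) (nat_lit 5) (nat_lit 456) (nat_lit 384) (nat_lit 300)) (XT.nd (nat_lit 78) (nat_lit 76) (nat_lit 0) (XT.lf (nat_lit 0) (nat_lit 1826930447) (nat_lit 532) (nat_lit 6273780032) (nat_lit 608) (nat_lit 2573128244) (nat_lit 206) (nat_lit 5) (nat_lit 213) (nat_lit 5) (nat_lit 214) (nat_lit 5) (nat_lit 457) (nat_lit 384) (nat_lit 299)) (XT.lf (nat_lit 0) (nat_lit 247828953) (nat_lit 608) (nat_lit 2129413169) (nat_lit 76) (nat_lit 8412896189) (nat_lit 205) (nat_lit 5) (nat_lit 213) (nat_lit 5) (nat_lit 206) (nat_lit 5) (nat_lit 458) (nat_lit 384) (nat_lit 298)))) (XT.nd (nat_lit 78) (nat_lit 532) (nat_lit 0) (XT.lf (nat_lit 0) (nat_lit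 3106005176) (nat_lit 532) (nat_lit 6187102860) (nat_lit 76) (nat_lit 1615015910) (nat_lit 199) (nat_lit 5) (nat_lit 206) (nat_lit 5) (nat_lit 200) (nat_lit 5) (nat_lit 459) (nat_lit 384) (nat_lit 297)) (XT.nd (nat_lit 78) (nat_lit 0) (nat_lit 0) (XT.lf (nat_lit 0) (nat_lit 666227141) (nat_lit 532) (nat_lit 5363666128) (nat_lit 608) (nat_lit 4998410260) (nat_lit 192) (nat_lit 5) (nat_lit 199) (nat_lit 5) (nat_lit 200) (nat_lit 5) (nat_lit 460) (nat_lit 384) (nat_lit 296)) (XT.lf (nat_lit 0) (nat_lit 7704909328) (nat_lit 532) (nat_lit 1323240742) (nat_lit 608) (nat_lit 2122423914) (nat_lit 192) (nat_lit 5) (nat_lit 199) (nat_lit 5) (nat_lit 200) (nat_lit 5) (nat_lit 461) (nat_lit 384) (nat_lit 295)))))) (XT.nd (nat_lit 468) (nat_lit 1672) (nat_lit 0) (XT.nd (nat_lit 234) (nat_lit 988) (nat_lit 0) (XT.nd (nat_lit 78) (nat_lit 456) (nat_lit 0) (XT.lf (nat_lit 0) (nat_lit 816917919) (nat_lit 532) (nat_lit 7677509913) (nat_lit 76)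 (nat_lit 2780432130) (nat_lit 185) (nat_lit 5) (nat_lit 192) (nat_lit 5) (nat_lit 186) (nat_lit 5) (nat_lit 462) (nat_lit 384) (nat_lit 294)) (XT.nd (nat_lit 78) (nat_lit 456) (nat_lit 0) (XT.lf (nat_lit 0) (nat_lit 3793599942) (nat_lit 532) (nat_lit 631643891) (nat_lit 76) (nat_lit 6975972593) (nat_lit 185) (nat_lit 5) (nat_lit 192) (nat_lit 5) (nat_lit 186) (nat_lit 5) (nat_lit 463) (nat_lit 384) (nat_lit 293)) (XT.lf (nat_lit 0) (nat_lit 6607052405) (nat_lit 456) (nat_lit 241060086) (nat_lit 532) (nat_lit 4681626303) (nat_lit 179) (nat_lit 5) (nat_lit 185) (nat_lit 5) (nat_lit 186) (nat_lit 5) (nat_lit 464) (nat_lit 384) (nat_lit 292)))) (XT.nd (nat_lit 78) (nat_lit 532) (nat_lit 0) (XT.lf (nat_lit 0) (nat_lit 2307491671) (nat_lit 456) (nat_lit 7677208613) (nat_lit 532) (nat_lit 1675716243) (nat_lit 173) (nat_lit 5) (nat_lit 179) (nat_lit 5) (nat_lit 180) (nat_lit 5) (nat_lit 465) (nat_lit 384) (nat_lit 291)) (XT.nd (nat_lit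 78) (nat_lit 456) (nat_lit 0) (XT.lf (nat_lit 0) (nat_lit 1382607439) (nat_lit 532) (nat_lit 2089921953) (nat_lit 76) (nat_lit 8320791735) (nat_lit 172) (nat_lit 5) (nat_lit 179) (nat_lit 5) (nat_lit 173) (nat_lit 5) (nat_lit 466) (nat_lit 384) (nat_lit 290)) (XT.lf (nat_lit 0) (nat_lit 4496062911) (nat_lit 532) (nat_lit 6591013770) (nat_lit 76) (nat_lit 841261895) (nat_lit 166) (nat_lit 5) (nat_lit 173) (nat_lit 5) (nat_lit 167) (nat_lit 5) (nat_lit 467) (nat_lit 384) (nat_lit 289))))) (XT.nd (nat_lit 234) (nat_lit 760) (nat_lit 0) (XT.nd (nat_lit 78) (nat_lit 532) (nat_lit 0) (XT.lf (nat_lit 0) (nat_lit 828922422) (nat_lit 380) (nat_lit 6861696305) (nat_lit 456) (nat_lit 4375065289) (nat_lit 161) (nat_lit 5) (nat_lit 166) (nat_lit 5) (nat_lit 167) (nat_lit 5) (nat_lit 468) (nat_lit 384) (nat_lit 288)) (XT.nd (nat_lit 78) (nat_lit 532) (nat_lit 0) (XT.lf (nat_lit 0) (nat_lit 8452298091) (nat_lit 380) (nat_lit 2517573131) (nat_lit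 456) (nat_lit 1235493216) (nat_lit 161) (nat_lit 5) (nat_lit 166) (nat_lit 5) (nat_lit 167) (nat_lit 5) (nat_lit 469) (nat_lit 384) (nat_lit 287)) (XT.lf (nat_lit 0) (nat_lit 1955779603) (nat_lit 532) (nat_lit 8475611559) (nat_lit 76) (nat_lit 1915901818) (nat_lit 154) (nat_lit 5) (nat_lit 161) (nat_lit 5) (nat_lit 155) (nat_lit 5) (nat_lit 470) (nat_lit 384) (nat_lit 286)))) (XT.nd (nat_lit 78) (nat_lit 760) (nat_lit 0) (XT.lf (nat_lit 0) (nat_lit 5213418245) (nat_lit 532) (nat_lit 850888880) (nat_lit 76) (nat_lit 6427211905) (nat_lit 154) (nat_lit 5) (nat_lit 161) (nat_lit 5) (nat_lit 155) (nat_lit 5) (nat_lit 471) (nat_lit 384) (nat_lit 285)) (XT.nd (nat_lit 78) (nat_lit 380) (nat_lit 0) (XT.lf (nat_lit 0) (nat_lit 6984491006) (nat_lit 380) (nat_lit 1574560375) (nat_lit 456) (nat_lit 4079125251) (nat_lit 149) (nat_lit 5) (nat_lit 154) (nat_lit 5) (nat_lit 155) (nat_lit 5) (nat_lit 472) (nat_lit 384) (nat_lit 284)) (XT.lf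 (nat_lit 0) (nat_lit 2175849359) (nat_lit 380) (nat_lit 9812781292) (nat_lit 456) (nat_lit 798799852) (nat_lit 144) (nat_lit 5) (nat_lit 149) (nat_lit 5) (nat_lit 150) (nat_lit 5) (nat_lit 473) (nat_lit 384) (nat_lit 283))))))))
noncomputable def xc103 : XT := (XT.nd (nat_lit 1716) (nat_lit 1672) (nat_lit 0) (XT.nd (nat_lit 858) (nat_lit 2204) (nat_lit 0) (XT.nd (nat_lit 390) (nat_lit 1140) (nat_lit 0) (XT.nd (nat_lit 156) (nat_lit 760) (nat_lit 0) (XT.nd (nat_lit 78) (nat_lit 380) (nat_lit 0) (XT.lf (nat_lit 0) (nat_lit 2540063664) (nat_lit 456) (nat_lit 2761192072) (nat_lit 76) (nat_lit 7637559852) (nat_lit 143) (nat_lit 5) (nat_lit 149) (nat_lit 5) (nat_lit 144) (nat_lit 5) (nat_lit 474) (nat_lit 384) (nat_lit 282)) (XT.lf (nat_lit 0) (nat_lit 5277108106) (nat_lit 380) (nat_lit 670329461) (nat_lit 456) (nat_lit 7145440194) (nat_lit 138) (nat_lit 5) (nat_lit 143) (nat_lit 5) (nat_lit 144) (nat_lit 5) (nat_lit 475) (nat_lit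 384) (nat_lit 281))) (XT.nd (nat_lit 78) (nat_lit 380) (nat_lit 0) (XT.lf (nat_lit 0) (nat_lit 207066069) (nat_lit 380) (nat_lit 9240504589) (nat_lit 456) (nat_lit 3801961785) (nat_lit 133) (nat_lit 5) (nat_lit 138) (nat_lit 5) (nat_lit 139) (nat_lit 5) (nat_lit 476) (nat_lit 384) (nat_lit 280)) (XT.nd (nat_lit 78) (nat_lit 380) (nat_lit 0) (XT.lf (nat_lit 0) (nat_lit 8458860093) (nat_lit 380) (nat_lit 4594215285) (nat_lit 456) (nat_lit 355540893) (nat_lit 133) (nat_lit 5) (nat_lit 138) (nat_lit 5) (nat_lit 139) (nat_lit 5) (nat_lit 477) (nat_lit 384) (nat_lit 279)) (XT.lf (nat_lit 0) (nat_lit 3119694397) (nat_lit 380) (nat_lit 10276694265) (nat_lit 76) (nat_lit 174059553) (nat_lit 128) (nat_lit 5) (nat_lit 133) (nat_lit 5) (nat_lit 129) (nat_lit 5) (nat_lit 478) (nat_lit 384) (nat_lit 278))))) (XT.nd (nat_lit 234) (nat_lit 380) (nat_lit 0) (XT.nd (nat_lit 78) (nat_lit 760) (nat_lit 0) (XT.lf (nat_lit 0) (nat_lit 6702460284)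 (nat_lit 380) (nat_lit 2031342102) (nat_lit 76) (nat_lit 5000814910) (nat_lit 128) (nat_lit 5) (nat_lit 133) (nat_lit 5) (nat_lit 129) (nat_lit 5) (nat_lit 479) (nat_lit 384) (nat_lit 277)) (XT.nd (nat_lit 78) (nat_lit 380) (nat_lit 0) (XT.lf (nat_lit 0) (nat_lit 6431185482) (nat_lit 380) (nat_lit 3946786260) (nat_lit 456) (nat_lit 3523679382) (nat_lit 123) (nat_lit 5) (nat_lit 128) (nat_lit 5) (nat_lit 129) (nat_lit 5) (nat_lit 480) (nat_lit 384) (nat_lit 276)) (XT.lf (nat_lit 0) (nat_lit 59989051) (nat_lit 380) (nat_lit 13078906995) (nat_lit 76) (nat_lit 933010648) (nat_lit 118) (nat_lit 5) (nat_lit 123) (nat_lit 5) (nat_lit 119) (nat_lit 5) (nat_lit 481) (nat_lit 384) (nat_lit 275)))) (XT.nd (nat_lit 78) (nat_lit 380) (nat_lit 0) (XT.lf (nat_lit 0) (nat_lit 3724309610) (nat_lit 380) (nat_lit 4599640057) (nat_lit 76) (nat_lit 5920031651) (nat_lit 118) (nat_lit 5) (nat_lit 123) (nat_lit 5) (nat_lit 119) (nat_lit 5) (nat_lit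 482) (nat_lit 384) (nat_lit 274)) (XT.nd (nat_lit 78) (nat_lit 0) (nat_lit 0) (XT.lf (nat_lit 0) (nat_lit 4070967911) (nat_lit 380) (nat_lit 3397298045) (nat_lit 456) (nat_lit 6951107418) (nat_lit 113) (nat_lit 5) (nat_lit 118) (nat_lit 5) (nat_lit 119) (nat_lit 5) (nat_lit 483) (nat_lit 384) (nat_lit 273)) (XT.lf (nat_lit 0) (nat_lit 11308773942) (nat_lit 456) (nat_lit 1662845786) (nat_lit 76) (nat_lit 1626222964) (nat_lit 113) (nat_lit 5) (nat_lit 119) (nat_lit 5) (nat_lit 114) (nat_lit 5) (nat_lit 484) (nat_lit 384) (nat_lit 272)))))) (XT.nd (nat_lit 390) (nat_lit 1140) (nat_lit 0) (XT.nd (nat_lit 156) (nat_lit 380) (nat_lit 0) (XT.nd (nat_lit 78) (nat_lit 304) (nat_lit 0) (XT.lf (nat_lit 0) (nat_lit 490601367) (nat_lit 380) (nat_lit 7544393998) (nat_lit 76) (nat_lit 6743825994) (nat_lit 108) (nat_lit 5) (nat_lit 113) (nat_lit 5) (nat_lit 109) (nat_lit 5) (nat_lit 485) (nat_lit 384) (nat_lit 271)) (XT.lf (nat_lit 0) (nat_lit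 1333434056) (nat_lit 304) (nat_lit 2968797558) (nat_lit 380) (nat_lit 10660747728) (nat_lit 104) (nat_lit 5) (nat_lit 108) (nat_lit 5) (nat_lit 109) (nat_lit 5) (nat_lit 486) (nat_lit 384) (nat_lit 270))) (XT.nd (nat_lit 78) (nat_lit 380) (nat_lit 0) (XT.lf (nat_lit 0) (nat_lit 8235914435) (nat_lit 380) (nat_lit 4704630831) (nat_lit 76) (nat_lit 2209361472) (nat_lit 104) (nat_lit 5) (nat_lit 109) (nat_lit 5) (nat_lit 105) (nat_lit 5) (nat_lit 487) (nat_lit 384) (nat_lit 269)) (XT.nd (nat_lit 78) (nat_lit 76) (nat_lit 0) (XT.lf (nat_lit 0) (nat_lit 4406226168) (nat_lit 304) (nat_lit 7871276797) (nat_lit 380) (nat_lit 3062487677) (nat_lit 100) (nat_lit 5) (nat_lit 104) (nat_lit 5) (nat_lit 105) (nat_lit 5) (nat_lit 488) (nat_lit 384) (nat_lit 268)) (XT.lf (nat_lit 0) (nat_lit 867479245) (nat_lit 380) (nat_lit 1806740298) (nat_lit 76) (nat_lit 12859290912) (nat_lit 99) (nat_lit 5) (nat_lit 104) (nat_lit 5) (nat_lit 100) (nat_lit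 5) (nat_lit 489) (nat_lit 384) (nat_lit 267))))) (XT.nd (nat_lit 234) (nat_lit 608) (nat_lit 0) (XT.nd (nat_lit 78) (nat_lit 228) (nat_lit 0) (XT.lf (nat_lit 0) (nat_lit 4882928437) (nat_lit 380) (nat_lit 8195880279) (nat_lit 76) (nat_lit 2650731742) (nat_lit 95) (nat_lit 5) (nat_lit 100) (nat_lit 5) (nat_lit 96) (nat_lit 5) (nat_lit 490) (nat_lit 384) (nat_lit 266)) (XT.nd (nat_lit 78) (nat_lit 0) (nat_lit 0) (XT.lf (nat_lit 0) (nat_lit 1122814403) (nat_lit 228) (nat_lit 7874556153) (nat_lit 304) (nat_lit 6931749231) (nat_lit 92) (nat_lit 5) (nat_lit 95) (nat_lit 5) (nat_lit 96) (nat_lit 5) (nat_lit 491) (nat_lit 384) (nat_lit 265)) (XT.lf (nat_lit 0) (nat_lit 10708947109) (nat_lit 228) (nat_lit 2521800587) (nat_lit 304) (nat_lit 2901212438) (nat_lit 92) (nat_lit 5) (nat_lit 95) (nat_lit 5) (nat_lit 96) (nat_lit 5) (nat_lit 492) (nat_lit 384) (nat_lit 264)))) (XT.nd (nat_lit 78) (nat_lit 228) (nat_lit 0) (XT.lf (nat_lit 0)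 (nat_lit 1222226098) (nat_lit 380) (nat_lit 12192728087) (nat_lit 76) (nat_lit 2923185061) (nat_lit 87) (nat_lit 5) (nat_lit 92) (nat_lit 5) (nat_lit 88) (nat_lit 5) (nat_lit 493) (nat_lit 384) (nat_lit 263)) (XT.nd (nat_lit 78) (nat_lit 228) (nat_lit 0) (XT.lf (nat_lit 0) (nat_lit 5424630110) (nat_lit 380) (nat_lit 2634933184) (nat_lit 76) (nat_lit 8487790448) (nat_lit 87) (nat_lit 5) (nat_lit 92) (nat_lit 5) (nat_lit 88) (nat_lit 5) (nat_lit 494) (nat_lit 384) (nat_lit 262)) (XT.lf (nat_lit 0) (nat_lit 7178976806) (nat_lit 228) (nat_lit 2561044199) (nat_lit 304) (nat_lit 7020154924) (nat_lit 84) (nat_lit 5) (nat_lit 87) (nat_lit 5) (nat_lit 88) (nat_lit 5) (nat_lit 495) (nat_lit 384) (nat_lit 261))))))) (XT.nd (nat_lit 50778) (nat_lit 0) (nat_lit 45676) (XT.nd (nat_lit 390) (nat_lit 836) (nat_lit 0) (XT.nd (nat_lit 156) (nat_lit 456) (nat_lit 0) (XT.nd (nat_lit 78) (nat_lit 76) (nat_lit 0) (XT.lf (nat_lit 0) (nat_lit 201439942)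 (nat_lit 304) (nat_lit 13961584315) (nat_lit 380) (nat_lit 2813806344) (nat_lit 80) (nat_lit 5) (nat_lit 84) (nat_lit 5) (nat_lit 85) (nat_lit 5) (nat_lit 496) (nat_lit 384) (nat_lit 260)) (XT.lf (nat_lit 0) (nat_lit 1521433905) (nat_lit 380) (nat_lit 6943221646) (nat_lit 76) (nat_lit 8731690487) (nat_lit 79) (nat_lit 5) (nat_lit 84) (nat_lit 5) (nat_lit 80) (nat_lit 5) (nat_lit 497) (nat_lit 384) (nat_lit 259))) (XT.nd (nat_lit 78) (nat_lit 228) (nat_lit 0) (XT.lf (nat_lit 0) (nat_lit 3078584641) (nat_lit 228) (nat_lit 2829935237) (nat_lit 304) (nat_lit 11511305575) (nat_lit 76) (nat_lit 5) (nat_lit 79) (nat_lit 5) (nat_lit 80) (nat_lit 5) (nat_lit 498) (nat_lit 384) (nat_lit 258)) (XT.nd (nat_lit 78) (nat_lit 228) (nat_lit 0) (XT.lf (nat_lit 0) (nat_lit 10432062613) (nat_lit 304) (nat_lit 4299976159) (nat_lit 76) (nat_lit 2914763354) (nat_lit 76) (nat_lit 5) (nat_lit 80) (nat_lit 5) (nat_lit 77) (nat_lit 5) (nat_lit 499) (nat_lit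 384) (nat_lit 257)) (XT.lf (nat_lit 0) (nat_lit 5973453613) (nat_lit 228) (nat_lit 9113354954) (nat_lit 304) (nat_lit 2790697050) (nat_lit 73) (nat_lit 5) (nat_lit 76) (nat_lit 5) (nat_lit 77) (nat_lit 5) (nat_lit 500) (nat_lit 384) (nat_lit 256))))) (XT.nd (nat_lit 234) (nat_lit 304) (nat_lit 0) (XT.nd (nat_lit 78) (nat_lit 456) (nat_lit 0) (XT.lf (nat_lit 0) (nat_lit 1711532719) (nat_lit 304) (nat_lit 1641277543) (nat_lit 76) (nat_lit 14759545419) (nat_lit 72) (nat_lit 5) (nat_lit 76) (nat_lit 5) (nat_lit 73) (nat_lit 5) (nat_lit 501) (nat_lit 384) (nat_lit 255)) (XT.nd (nat_lit 78) (nat_lit 228) (nat_lit 0) (XT.lf (nat_lit 0) (nat_lit 6324624215) (nat_lit 304) (nat_lit 9470306284) (nat_lit 76) (nat_lit 2555441446) (nat_lit 69) (nat_lit 5) (nat_lit 73) (nat_lit 5) (nat_lit 70) (nat_lit 5) (nat_lit 502) (nat_lit 384) (nat_lit 254)) (XT.lf (nat_lit 0) (nat_lit 1004231858) (nat_lit 228) (nat_lit 10049197506) (nat_lit 304) (nat_lit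 7539251919) (nat_lit 66) (nat_lit 5) (nat_lit 69) (nat_lit 5) (nat_lit 70) (nat_lit 5) (nat_lit 503) (nat_lit 384) (nat_lit 253)))) (XT.nd (nat_lit 78) (nat_lit 304) (nat_lit 0) (XT.lf (nat_lit 0) (nat_lit 11788999004) (nat_lit 228) (nat_lit 4135144569) (nat_lit 304) (nat_lit 2914748326) (nat_lit 66) (nat_lit 5) (nat_lit 69) (nat_lit 5) (nat_lit 70) (nat_lit 5) (nat_lit 504) (nat_lit 384) (nat_lit 252)) (XT.nd (nat_lit 49998) (nat_lit 0) (nat_lit 48640) (XT.lf (nat_lit 0) (nat_lit 1799164960) (nat_lit 304) (nat_lit 15393042578) (nat_lit 76) (nat_lit 1897175716) (nat_lit 62) (nat_lit 5) (nat_lit 66) (nat_lit 5) (nat_lit 63) (nat_lit 5) (nat_lit 505) (nat_lit 384) (nat_lit 251)) (XT.lf (nat_lit 0) (nat_lit 822735237) (nat_lit 0) (nat_lit 822735237) (nat_lit 380) (nat_lit 1599670823) (nat_lit 702) (nat_lit 5) (nat_lit 702) (nat_lit 3) (nat_lit 707) (nat_lit 3) (nat_lit 385) (nat_lit 385) (nat_lit 370)))))) (XT.nd (nat_lit 468)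 (nat_lit 1976) (nat_lit 0) (XT.nd (nat_lit 234) (nat_lit 456) (nat_lit 0) (XT.nd (nat_lit 78) (nat_lit 532) (nat_lit 0) (XT.lf (nat_lit 0) (nat_lit 4829544630) (nat_lit 0) (nat_lit 1157268421) (nat_lit 380) (nat_lit 513812056) (nat_lit 702) (nat_lit 5) (nat_lit 702) (nat_lit 3) (nat_lit 707) (nat_lit 3) (nat_lit 386) (nat_lit 385) (nat_lit 369)) (XT.nd (nat_lit 78) (nat_lit 0) (nat_lit 76) (XT.lf (nat_lit 76) (nat_lit 1535927241) (nat_lit 0) (nat_lit 599939517) (nat_lit 532) (nat_lit 4376259677) (nat_lit 696) (nat_lit 5) (nat_lit 695) (nat_lit 3) (nat_lit 702) (nat_lit 5) (nat_lit 387) (nat_lit 385) (nat_lit 368)) (XT.lf (nat_lit 0) (nat_lit 4773768321) (nat_lit 456) (nat_lit 1734471147) (nat_lit 532) (nat_lit 16741017) (nat_lit 696) (nat_lit 5) (nat_lit 702) (nat_lit 5) (nat_lit 703) (nat_lit 5) (nat_lit 388) (nat_lit 385) (nat_lit 367)))) (XT.nd (nat_lit 78) (nat_lit 0) (nat_lit 0) (XT.lf (nat_lit 0) (nat_lit 860221255) (nat_lit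 532) (nat_lit 4992943528) (nat_lit 608) (nat_lit 685917393) (nat_lit 689) (nat_lit 5) (nat_lit 696) (nat_lit 5) (nat_lit 697) (nat_lit 5) (nat_lit 389) (nat_lit 385) (nat_lit 366)) (XT.nd (nat_lit 78) (nat_lit 0) (nat_lit 0) (XT.lf (nat_lit 0) (nat_lit 3445162742) (nat_lit 532) (nat_lit 1686277443) (nat_lit 608) (nat_lit 1422930552) (nat_lit 689) (nat_lit 5) (nat_lit 696) (nat_lit 5) (nat_lit 697) (nat_lit 5) (nat_lit 390) (nat_lit 385) (nat_lit 365)) (XT.lf (nat_lit 76) (nat_lit 1671938294) (nat_lit 0) (nat_lit 4355023934) (nat_lit 608) (nat_lit 544129962) (nat_lit 690) (nat_lit 5) (nat_lit 689) (nat_lit 5) (nat_lit 697) (nat_lit 5) (nat_lit 391) (nat_lit 385) (nat_lit 364))))) (XT.nd (nat_lit 234) (nat_lit 684) (nat_lit 0) (XT.nd (nat_lit 78) (nat_lit 684) (nat_lit 0) (XT.lf (nat_lit 0) (nat_lit 1991361531) (nat_lit 608) (nat_lit 1518440351) (nat_lit 684) (nat_lit 3079180434) (nat_lit 681) (nat_lit 5) (nat_lit 689) (nat_lit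 5) (nat_lit 690) (nat_lit 5) (nat_lit 392) (nat_lit 385) (nat_lit 363)) (XT.nd (nat_lit 78) (nat_lit 684) (nat_lit 0) (XT.lf (nat_lit 76) (nat_lit 1914962249) (nat_lit 0) (nat_lit 2603930289) (nat_lit 684) (nat_lit 2089322016) (nat_lit 682) (nat_lit 5) (nat_lit 681) (nat_lit 5) (nat_lit 690) (nat_lit 5) (nat_lit 393) (nat_lit 385) (nat_lit 362)) (XT.lf (nat_lit 0) (nat_lit 409995286) (nat_lit 684) (nat_lit 1230190445) (nat_lit 760) (nat_lit 4988672125) (nat_lit 672) (nat_lit 5) (nat_lit 681) (nat_lit 5) (nat_lit 682) (nat_lit 5) (nat_lit 394) (nat_lit 385) (nat_lit 361)))) (XT.nd (nat_lit 78) (nat_lit 684) (nat_lit 0) (XT.lf (nat_lit 76) (nat_lit 2281885089) (nat_lit 0) (nat_lit 602268148) (nat_lit 760) (nat_lit 3766454881) (nat_lit 673) (nat_lit 5) (nat_lit 672) (nat_lit 5) (nat_lit 682) (nat_lit 5) (nat_lit 395) (nat_lit 385) (nat_lit 360)) (XT.nd (nat_lit 78) (nat_lit 760) (nat_lit 0) (XT.lf (nat_lit 0) (nat_lit 5358199601)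 (nat_lit 684) (nat_lit 832276665) (nat_lit 760) (nat_lit 483335395) (nat_lit 673) (nat_lit 5) (nat_lit 682) (nat_lit 5) (nat_lit 683) (nat_lit 5) (nat_lit 396) (nat_lit 385) (nat_lit 359)) (XT.lf (nat_lit 0) (nat_lit 1130742635) (nat_lit 760) (nat_lit 3935225507) (nat_lit 836) (nat_lit 1632142180) (nat_lit 663) (nat_lit 5) (nat_lit 673) (nat_lit 5) (nat_lit 674) (nat_lit 5) (nat_lit 397) (nat_lit 385) (nat_lit 358))))))))
noncomputable def xc104 : XT := (XT.nd (nat_lit 1716) (nat_lit 13908) (nat_lit 0) (XT.nd (nat_lit 858) (nat_lit 9880) (nat_lit 0) (XT.nd (nat_lit 390) (nat_lit 3116) (nat_lit 0) (XT.nd (nat_lit 156) (nat_lit 1596) (nat_lit 0) (XT.nd (nat_lit 78) (nat_lit 0) (nat_lit 0) (XT.lf (nat_lit 0) (nat_lit 3554891257) (nat_lit 760) (nat_lit 327643379) (nat_lit 836) (nat_lit 2841281596) (nat_lit 663) (nat_lit 5) (nat_lit 673) (nat_lit 5) (nat_lit 674) (nat_lit 5) (nat_lit 398) (nat_lit 385) (nat_lit 357)) (XT.lf (nat_lit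 76) (nat_lit 3359541846) (nat_lit 0) (nat_lit 2631797703) (nat_lit 836) (nat_lit 759444753) (nat_lit 664) (nat_lit 5) (nat_lit 663) (nat_lit 5) (nat_lit 674) (nat_lit 5) (nat_lit 399) (nat_lit 385) (nat_lit 356))) (XT.nd (nat_lit 78) (nat_lit 760) (nat_lit 0) (XT.lf (nat_lit 76) (nat_lit 302434012) (nat_lit 0) (nat_lit 1320199028) (nat_lit 912) (nat_lit 5156527989) (nat_lit 653) (nat_lit 5) (nat_lit 652) (nat_lit 5) (nat_lit 664) (nat_lit 5) (nat_lit 400) (nat_lit 385) (nat_lit 355)) (XT.nd (nat_lit 78) (nat_lit 836) (nat_lit 0) (XT.lf (nat_lit 0) (nat_lit 4008734417) (nat_lit 836) (nat_lit 2735186359) (nat_lit 76) (nat_lit 64776061) (nat_lit 653) (nat_lit 5) (nat_lit 664) (nat_lit 5) (nat_lit 654) (nat_lit 5) (nat_lit 401) (nat_lit 385) (nat_lit 354)) (XT.lf (nat_lit 0) (nat_lit 1048750760) (nat_lit 836) (nat_lit 5353986033) (nat_lit 912) (nat_lit 436905507) (nat_lit 642) (nat_lit 5) (nat_lit 653) (nat_lit 5) (nat_lit 654)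 (nat_lit 5) (nat_lit 402) (nat_lit 385) (nat_lit 353))))) (XT.nd (nat_lit 234) (nat_lit 2128) (nat_lit 0) (XT.nd (nat_lit 78) (nat_lit 912) (nat_lit 0) (XT.lf (nat_lit 0) (nat_lit 1911095044) (nat_lit 912) (nat_lit 1976281949) (nat_lit 76) (nat_lit 2984323782) (nat_lit 641) (nat_lit 5) (nat_lit 653) (nat_lit 5) (nat_lit 642) (nat_lit 5) (nat_lit 403) (nat_lit 385) (nat_lit 352)) (XT.nd (nat_lit 78) (nat_lit 0) (nat_lit 0) (XT.lf (nat_lit 0) (nat_lit 1899431028) (nat_lit 912) (nat_lit 2359277019) (nat_lit 988) (nat_lit 2646485780) (nat_lit 629) (nat_lit 5) (nat_lit 641) (nat_lit 5) (nat_lit 642) (nat_lit 5) (nat_lit 404) (nat_lit 385) (nat_lit 351)) (XT.lf (nat_lit 0) (nat_lit 5842485299) (nat_lit 912) (nat_lit 771030286) (nat_lit 988) (nat_lit 326657112) (nat_lit 629) (nat_lit 5) (nat_lit 641) (nat_lit 5) (nat_lit 642) (nat_lit 5) (nat_lit 405) (nat_lit 385) (nat_lit 350)))) (XT.nd (nat_lit 78) (nat_lit 1064) (nat_lit 0) (XT.lf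 (nat_lit 0) (nat_lit 1984971272) (nat_lit 1064) (nat_lit 4106028506) (nat_lit 76) (nat_lit 885163466) (nat_lit 615) (nat_lit 5) (nat_lit 629) (nat_lit 5) (nat_lit 616) (nat_lit 5) (nat_lit 406) (nat_lit 385) (nat_lit 349)) (XT.nd (nat_lit 78) (nat_lit 1064) (nat_lit 0) (XT.lf (nat_lit 0) (nat_lit 4299523406) (nat_lit 1064) (nat_lit 125708635) (nat_lit 76) (nat_lit 2588396678) (nat_lit 615) (nat_lit 5) (nat_lit 629) (nat_lit 5) (nat_lit 616) (nat_lit 5) (nat_lit 407) (nat_lit 385) (nat_lit 348)) (XT.lf (nat_lit 0) (nat_lit 3948893495) (nat_lit 1064) (nat_lit 2686660970) (nat_lit 1140) (nat_lit 416804497) (nat_lit 601) (nat_lit 5) (nat_lit 615) (nat_lit 5) (nat_lit 616) (nat_lit 5) (nat_lit 408) (nat_lit 385) (nat_lit 347)))))) (XT.nd (nat_lit 390) (nat_lit 6080) (nat_lit 0) (XT.nd (nat_lit 156) (nat_lit 2584) (nat_lit 0) (XT.nd (nat_lit 78) (nat_lit 0) (nat_lit 0) (XT.lf (nat_lit 0) (nat_lit 977598792) (nat_lit 1140) (nat_lit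 880725437) (nat_lit 1216) (nat_lit 5234164946) (nat_lit 585) (nat_lit 5) (nat_lit 600) (nat_lit 5) (nat_lit 601) (nat_lit 5) (nat_lit 409) (nat_lit 385) (nat_lit 346)) (XT.lf (nat_lit 0) (nat_lit 4151353339) (nat_lit 1216) (nat_lit 1998181820) (nat_lit 76) (nat_lit 984290265) (nat_lit 585) (nat_lit 5) (nat_lit 601) (nat_lit 5) (nat_lit 586) (nat_lit 5) (nat_lit 410) (nat_lit 385) (nat_lit 345))) (XT.nd (nat_lit 78) (nat_lit 1368) (nat_lit 0) (XT.lf (nat_lit 0) (nat_lit 2186062451) (nat_lit 1216) (nat_lit 4275940107) (nat_lit 1292) (nat_lit 714568403) (nat_lit 569) (nat_lit 5) (nat_lit 585) (nat_lit 5) (nat_lit 586) (nat_lit 5) (nat_lit 411) (nat_lit 385) (nat_lit 344)) (XT.nd (nat_lit 78) (nat_lit 1292) (nat_lit 0) (XT.lf (nat_lit 0) (nat_lit 1543328880) (nat_lit 1292) (nat_lit 787336721) (nat_lit 76) (nat_lit 4890003224) (nat_lit 568) (nat_lit 5) (nat_lit 585) (nat_lit 5) (nat_lit 569) (nat_lit 5) (nat_lit 412) (nat_lit 385)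 (nat_lit 343)) (XT.lf (nat_lit 0) (nat_lit 3503823060) (nat_lit 1292) (nat_lit 308795210) (nat_lit 1368) (nat_lit 3453436595) (nat_lit 551) (nat_lit 5) (nat_lit 568) (nat_lit 5) (nat_lit 569) (nat_lit 5) (nat_lit 413) (nat_lit 385) (nat_lit 342))))) (XT.nd (nat_lit 234) (nat_lit 3192) (nat_lit 0) (XT.nd (nat_lit 78) (nat_lit 1520) (nat_lit 0) (XT.lf (nat_lit 0) (nat_lit 536803039) (nat_lit 1368) (nat_lit 5564463270) (nat_lit 1444) (nat_lit 1211619262) (nat_lit 533) (nat_lit 5) (nat_lit 551) (nat_lit 5) (nat_lit 552) (nat_lit 5) (nat_lit 414) (nat_lit 385) (nat_lit 341)) (XT.nd (nat_lit 78) (nat_lit 1444) (nat_lit 0) (XT.lf (nat_lit 0) (nat_lit 1042521273) (nat_lit 1444) (nat_lit 2434951318) (nat_lit 76) (nat_lit 3883424746) (nat_lit 532) (nat_lit 5) (nat_lit 551) (nat_lit 5) (nat_lit 533) (nat_lit 5) (nat_lit 415) (nat_lit 385) (nat_lit 340)) (XT.lf (nat_lit 0) (nat_lit 1973182739) (nat_lit 1444) (nat_lit 1320191513) (nat_lit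 1520) (nat_lit 4116993303) (nat_lit 513) (nat_lit 5) (nat_lit 532) (nat_lit 5) (nat_lit 533) (nat_lit 5) (nat_lit 416) (nat_lit 385) (nat_lit 339)))) (XT.nd (nat_lit 78) (nat_lit 3192) (nat_lit 0) (XT.lf (nat_lit 0) (nat_lit 5567117892) (nat_lit 1520) (nat_lit 1002211068) (nat_lit 76) (nat_lit 891955897) (nat_lit 513) (nat_lit 5) (nat_lit 533) (nat_lit 5) (nat_lit 514) (nat_lit 5) (nat_lit 417) (nat_lit 385) (nat_lit 338)) (XT.nd (nat_lit 78) (nat_lit 1596) (nat_lit 0) (XT.lf (nat_lit 0) (nat_lit 356313921) (nat_lit 1596) (nat_lit 3994535323) (nat_lit 76) (nat_lit 3162575544) (nat_lit 492) (nat_lit 5) (nat_lit 513) (nat_lit 5) (nat_lit 493) (nat_lit 5) (nat_lit 418) (nat_lit 385) (nat_lit 337)) (XT.lf (nat_lit 0) (nat_lit 533978205) (nat_lit 1596) (nat_lit 2059613656) (nat_lit 1672) (nat_lit 4973436522) (nat_lit 471) (nat_lit 5) (nat_lit 492) (nat_lit 5) (nat_lit 493) (nat_lit 5) (nat_lit 419) (nat_lit 385) (nat_lit 336)))))))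 (XT.nd (nat_lit 858) (nat_lit 6308) (nat_lit 0) (XT.nd (nat_lit 390) (nat_lit 2812) (nat_lit 0) (XT.nd (nat_lit 156) (nat_lit 3116) (nat_lit 0) (XT.nd (nat_lit 78) (nat_lit 1672) (nat_lit 0) (XT.lf (nat_lit 0) (nat_lit 4861921072) (nat_lit 1672) (nat_lit 2454544016) (nat_lit 76) (nat_lit 305526846) (nat_lit 471) (nat_lit 5) (nat_lit 493) (nat_lit 5) (nat_lit 472) (nat_lit 5) (nat_lit 420) (nat_lit 385) (nat_lit 335)) (XT.lf (nat_lit 0) (nat_lit 2192802254) (nat_lit 1672) (nat_lit 4969045870) (nat_lit 1748) (nat_lit 516495731) (nat_lit 449) (nat_lit 5) (nat_lit 471) (nat_lit 5) (nat_lit 472) (nat_lit 5) (nat_lit 421) (nat_lit 385) (nat_lit 334))) (XT.nd (nat_lit 78) (nat_lit 3040) (nat_lit 0) (XT.lf (nat_lit 0) (nat_lit 1723933286) (nat_lit 1748) (nat_lit 818902713) (nat_lit 76) (nat_lit 5193265476) (nat_lit 448) (nat_lit 5) (nat_lit 471) (nat_lit 5) (nat_lit 449) (nat_lit 5) (nat_lit 422) (nat_lit 385) (nat_lit 333)) (XT.nd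 (nat_lit 78) (nat_lit 1292) (nat_lit 0) (XT.lf (nat_lit 0) (nat_lit 3952065796) (nat_lit 1748) (nat_lit 35307533) (nat_lit 1824) (nat_lit 3807883205) (nat_lit 425) (nat_lit 5) (nat_lit 448) (nat_lit 5) (nat_lit 449) (nat_lit 5) (nat_lit 423) (nat_lit 385) (nat_lit 332)) (XT.lf (nat_lit 0) (nat_lit 931878320) (nat_lit 1292) (nat_lit 5352187293) (nat_lit 1368) (nat_lit 1571782092) (nat_lit 408) (nat_lit 5) (nat_lit 425) (nat_lit 5) (nat_lit 426) (nat_lit 5) (nat_lit 424) (nat_lit 385) (nat_lit 331))))) (XT.nd (nat_lit 234) (nat_lit 1824) (nat_lit 0) (XT.nd (nat_lit 78) (nat_lit 912) (nat_lit 0) (XT.lf (nat_lit 0) (nat_lit 686226091) (nat_lit 1368) (nat_lit 2105888239) (nat_lit 76) (nat_lit 5125726798) (nat_lit 407) (nat_lit 5) (nat_lit 425) (nat_lit 5) (nat_lit 408) (nat_lit 5) (nat_lit 425) (nat_lit 385) (nat_lit 330)) (XT.nd (nat_lit 78) (nat_lit 0) (nat_lit 0) (XT.lf (nat_lit 0) (nat_lit 2797293782) (nat_lit 912) (nat_lit 150304484)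 (nat_lit 988) (nat_lit 5033695314) (nat_lit 395) (nat_lit 5) (nat_lit 407) (nat_lit 5) (nat_lit 408) (nat_lit 5) (nat_lit 426) (nat_lit 385) (nat_lit 329)) (XT.lf (nat_lit 0) (nat_lit 5246539577) (nat_lit 988) (nat_lit 273339098) (nat_lit 76) (nat_lit 2526301284) (nat_lit 395) (nat_lit 5) (nat_lit 408) (nat_lit 5) (nat_lit 396) (nat_lit 5) (nat_lit 427) (nat_lit 385) (nat_lit 328)))) (XT.nd (nat_lit 78) (nat_lit 988) (nat_lit 0) (XT.lf (nat_lit 0) (nat_lit 4759630653) (nat_lit 836) (nat_lit 2826077071) (nat_lit 912) (nat_lit 526782868) (nat_lit 384) (nat_lit 5) (nat_lit 395) (nat_lit 5) (nat_lit 396) (nat_lit 5) (nat_lit 428) (nat_lit 385) (nat_lit 327)) (XT.nd (nat_lit 78) (nat_lit 0) (nat_lit 0) (XT.lf (nat_lit 0) (nat_lit 1689797501) (nat_lit 912) (nat_lit 53645943) (nat_lit 988) (nat_lit 6436954235) (nat_lit 371) (nat_lit 5) (nat_lit 383) (nat_lit 5) (nat_lit 384) (nat_lit 5) (nat_lit 429) (nat_lit 385) (nat_lit 326)) (XT.lf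 (nat_lit 0) (nat_lit 4055766364) (nat_lit 988) (nat_lit 1430199574) (nat_lit 76) (nat_lit 2763563238) (nat_lit 371) (nat_lit 5) (nat_lit 384) (nat_lit 5) (nat_lit 372) (nat_lit 5) (nat_lit 430) (nat_lit 385) (nat_lit 325)))))) (XT.nd (nat_lit 468) (nat_lit 2964) (nat_lit 0) (XT.nd (nat_lit 234) (nat_lit 1596) (nat_lit 0) (XT.nd (nat_lit 78) (nat_lit 912) (nat_lit 0) (XT.lf (nat_lit 0) (nat_lit 3742794283) (nat_lit 836) (nat_lit 2659999868) (nat_lit 912) (nat_lit 1917490593) (nat_lit 360) (nat_lit 5) (nat_lit 371) (nat_lit 5) (nat_lit 372) (nat_lit 5) (nat_lit 431) (nat_lit 385) (nat_lit 324)) (XT.nd (nat_lit 78) (nat_lit 0) (nat_lit 0) (XT.lf (nat_lit 0) (nat_lit 378219159) (nat_lit 912) (nat_lit 7780253635) (nat_lit 76) (nat_lit 234356032) (nat_lit 348) (nat_lit 5) (nat_lit 360) (nat_lit 5) (nat_lit 349) (nat_lit 5) (nat_lit 432) (nat_lit 385) (nat_lit 323)) (XT.lf (nat_lit 0) (nat_lit 2707204100) (nat_lit 912) (nat_lit 2566286700)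 (nat_lit 76) (nat_lit 3192828772) (nat_lit 348) (nat_lit 5) (nat_lit 360) (nat_lit 5) (nat_lit 349) (nat_lit 5) (nat_lit 433) (nat_lit 385) (nat_lit 322)))) (XT.nd (nat_lit 78) (nat_lit 836) (nat_lit 0) (XT.lf (nat_lit 0) (nat_lit 2750731429) (nat_lit 760) (nat_lit 2315068944) (nat_lit 836) (nat_lit 3475828930) (nat_lit 338) (nat_lit 5) (nat_lit 348) (nat_lit 5) (nat_lit 349) (nat_lit 5) (nat_lit 434) (nat_lit 385) (nat_lit 321)) (XT.nd (nat_lit 78) (nat_lit 836) (nat_lit 0) (XT.lf (nat_lit 0) (nat_lit 7459061979) (nat_lit 836) (nat_lit 451638495) (nat_lit 76) (nat_lit 708004494) (nat_lit 338) (nat_lit 5) (nat_lit 349) (nat_lit 5) (nat_lit 339) (nat_lit 5) (nat_lit 435) (nat_lit 385) (nat_lit 320)) (XT.lf (nat_lit 0) (nat_lit 1201291845) (nat_lit 836) (nat_lit 3697199439) (nat_lit 76) (nat_lit 3798399883) (nat_lit 327) (nat_lit 5) (nat_lit 338) (nat_lit 5) (nat_lit 328) (nat_lit 5) (nat_lit 436) (nat_lit 385) (nat_lit 319)))))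 (XT.nd (nat_lit 234) (nat_lit 1444) (nat_lit 0) (XT.nd (nat_lit 78) (nat_lit 760) (nat_lit 0) (XT.lf (nat_lit 0) (nat_lit 1767865863) (nat_lit 760) (nat_lit 1807059947) (nat_lit 836) (nat_lit 5201950869) (nat_lit 317) (nat_lit 5) (nat_lit 327) (nat_lit 5) (nat_lit 328) (nat_lit 5) (nat_lit 437) (nat_lit 385) (nat_lit 318)) (XT.nd (nat_lit 78) (nat_lit 760) (nat_lit 0) (XT.lf (nat_lit 0) (nat_lit 5996604486) (nat_lit 836) (nat_lit 1512133242) (nat_lit 76) (nat_lit 1349721609) (nat_lit 317) (nat_lit 5) (nat_lit 328) (nat_lit 5) (nat_lit 318) (nat_lit 5) (nat_lit 438) (nat_lit 385) (nat_lit 317)) (XT.lf (nat_lit 0) (nat_lit 4099607375) (nat_lit 760) (nat_lit 4373201024) (nat_lit 836) (nat_lit 468752122) (nat_lit 307) (nat_lit 5) (nat_lit 317) (nat_lit 5) (nat_lit 318) (nat_lit 5) (nat_lit 439) (nat_lit 385) (nat_lit 316)))) (XT.nd (nat_lit 78) (nat_lit 684) (nat_lit 0) (XT.lf (nat_lit 0) (nat_lit 778224296) (nat_lit 684) (nat_lit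 1151074926) (nat_lit 760) (nat_lit 7097117722) (nat_lit 297) (nat_lit 5) (nat_lit 306) (nat_lit 5) (nat_lit 307) (nat_lit 5) (nat_lit 440) (nat_lit 385) (nat_lit 315)) (XT.nd (nat_lit 78) (nat_lit 684) (nat_lit 0) (XT.lf (nat_lit 0) (nat_lit 4383661147) (nat_lit 760) (nat_lit 2590506362) (nat_lit 76) (nat_lit 2138456697) (nat_lit 297) (nat_lit 5) (nat_lit 307) (nat_lit 5) (nat_lit 298) (nat_lit 5) (nat_lit 441) (nat_lit 385) (nat_lit 314)) (XT.lf (nat_lit 0) (nat_lit 3177680206) (nat_lit 684) (nat_lit 3706359234) (nat_lit 760) (nat_lit 2316585630) (nat_lit 288) (nat_lit 5) (nat_lit 297) (nat_lit 5) (nat_lit 298) (nat_lit 5) (nat_lit 442) (nat_lit 385) (nat_lit 313))))))))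
noncomputable def xc105 : XT := (XT.nd (nat_lit 1716) (nat_lit 5700) (nat_lit 0) (XT.nd (nat_lit 858) (nat_lit 3724) (nat_lit 0) (XT.nd (nat_lit 390) (nat_lit 2432) (nat_lit 0) (XT.nd (nat_lit 156) (nat_lit 1368) (nat_lit 0) (XT.nd (nat_lit 78) (nat_lit 684) (nat_lit 0) (XT.lf (nat_lit 0) (nat_lit 128488278) (nat_lit 760) (nat_lit 231629729) (nat_lit 76) (nat_lit 8930530209) (nat_lit 287) (nat_lit 5) (nat_lit 297) (nat_lit 5) (nat_lit 288) (nat_lit 5) (nat_lit 443) (nat_lit 385) (nat_lit 312)) (XT.lf (nat_lit 0) (nat_lit 2618056467) (nat_lit 760) (nat_lit 3703429354) (nat_lit 76) (nat_lit 3060155091) (nat_lit 278) (nat_lit 5) (nat_lit 288) (nat_lit 5) (nat_lit 279) (nat_lit 5) (nat_lit 444) (nat_lit 385) (nat_lit 311))) (XT.nd (nat_lit 78) (nat_lit 684) (nat_lit 0) (XT.lf (nat_lit 0) (nat_lit 2225257294) (nat_lit 684) (nat_lit 2920334842) (nat_lit 760) (nat_lit 4329105232) (nat_lit 269) (nat_lit 5) (nat_lit 278) (nat_lit 5)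 (nat_lit 279) (nat_lit 5) (nat_lit 445) (nat_lit 385) (nat_lit 310)) (XT.nd (nat_lit 78) (nat_lit 684) (nat_lit 0) (XT.lf (nat_lit 0) (nat_lit 7722352852) (nat_lit 760) (nat_lit 1286949482) (nat_lit 76) (nat_lit 560346414) (nat_lit 269) (nat_lit 5) (nat_lit 279) (nat_lit 5) (nat_lit 270) (nat_lit 5) (nat_lit 446) (nat_lit 385) (nat_lit 309)) (XT.lf (nat_lit 0) (nat_lit 696510891) (nat_lit 684) (nat_lit 4868330347) (nat_lit 76) (nat_lit 4101149399) (nat_lit 260) (nat_lit 5) (nat_lit 269) (nat_lit 5) (nat_lit 261) (nat_lit 5) (nat_lit 447) (nat_lit 385) (nat_lit 308))))) (XT.nd (nat_lit 234) (nat_lit 1216) (nat_lit 0) (XT.nd (nat_lit 78) (nat_lit 608) (nat_lit 0) (XT.lf (nat_lit 0) (nat_lit 1224836280) (nat_lit 608) (nat_lit 2029115097) (nat_lit 684) (nat_lit 6510320779) (nat_lit 252) (nat_lit 5) (nat_lit 260) (nat_lit 5) (nat_lit 261) (nat_lit 5) (nat_lit 448) (nat_lit 385) (nat_lit 307)) (XT.nd (nat_lit 78) (nat_lit 608) (nat_lit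 0) (XT.lf (nat_lit 0) (nat_lit 5876782707) (nat_lit 684) (nat_lit 2405021191) (nat_lit 76) (nat_lit 1582437294) (nat_lit 252) (nat_lit 5) (nat_lit 261) (nat_lit 5) (nat_lit 253) (nat_lit 5) (nat_lit 449) (nat_lit 385) (nat_lit 306)) (XT.lf (nat_lit 0) (nat_lit 3853342385) (nat_lit 608) (nat_lit 4708866524) (nat_lit 684) (nat_lit 1403804534) (nat_lit 244) (nat_lit 5) (nat_lit 252) (nat_lit 5) (nat_lit 253) (nat_lit 5) (nat_lit 450) (nat_lit 385) (nat_lit 305)))) (XT.nd (nat_lit 78) (nat_lit 532) (nat_lit 0) (XT.lf (nat_lit 0) (nat_lit 157960544) (nat_lit 608) (nat_lit 1046496002) (nat_lit 684) (nat_lit 8865429299) (nat_lit 235) (nat_lit 5) (nat_lit 243) (nat_lit 5) (nat_lit 244) (nat_lit 5) (nat_lit 451) (nat_lit 385) (nat_lit 304)) (XT.nd (nat_lit 78) (nat_lit 532) (nat_lit 0) (XT.lf (nat_lit 0) (nat_lit 3876937589) (nat_lit 684) (nat_lit 3601439171) (nat_lit 76) (nat_lit 2696662535) (nat_lit 235) (nat_lit 5) (nat_lit 244) (nat_lit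 5) (nat_lit 236) (nat_lit 5) (nat_lit 452) (nat_lit 385) (nat_lit 303)) (XT.lf (nat_lit 0) (nat_lit 2829892190) (nat_lit 532) (nat_lit 3770911074) (nat_lit 608) (nat_lit 3681539945) (nat_lit 228) (nat_lit 5) (nat_lit 235) (nat_lit 5) (nat_lit 236) (nat_lit 5) (nat_lit 453) (nat_lit 385) (nat_lit 302)))))) (XT.nd (nat_lit 390) (nat_lit 2052) (nat_lit 0) (XT.nd (nat_lit 156) (nat_lit 1064) (nat_lit 0) (XT.nd (nat_lit 78) (nat_lit 608) (nat_lit 0) (XT.lf (nat_lit 0) (nat_lit 9376428163) (nat_lit 608) (nat_lit 988679110) (nat_lit 76) (nat_lit 26746262) (nat_lit 228) (nat_lit 5) (nat_lit 236) (nat_lit 5) (nat_lit 229) (nat_lit 5) (nat_lit 454) (nat_lit 385) (nat_lit 301)) (XT.lf (nat_lit 0) (nat_lit 1716753175) (nat_lit 608) (nat_lit 4896187280) (nat_lit 76) (nat_lit 3889696282) (nat_lit 220) (nat_lit 5) (nat_lit 228) (nat_lit 5) (nat_lit 221) (nat_lit 5) (nat_lit 455) (nat_lit 385) (nat_lit 300))) (XT.nd (nat_lit 78) (nat_lit 532)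 (nat_lit 0) (XT.lf (nat_lit 0) (nat_lit 1711829184) (nat_lit 532) (nat_lit 2769486630) (nat_lit 608) (nat_lit 6134364440) (nat_lit 213) (nat_lit 5) (nat_lit 220) (nat_lit 5) (nat_lit 221) (nat_lit 5) (nat_lit 456) (nat_lit 385) (nat_lit 299)) (XT.nd (nat_lit 78) (nat_lit 532) (nat_lit 0) (XT.lf (nat_lit 0) (nat_lit 7315481260) (nat_lit 608) (nat_lit 2255114628) (nat_lit 76) (nat_lit 1160108040) (nat_lit 213) (nat_lit 5) (nat_lit 221) (nat_lit 5) (nat_lit 214) (nat_lit 5) (nat_lit 457) (nat_lit 385) (nat_lit 298)) (XT.lf (nat_lit 0) (nat_lit 4532928675) (nat_lit 532) (nat_lit 5695453461) (nat_lit 608) (nat_lit 619210308) (nat_lit 206) (nat_lit 5) (nat_lit 213) (nat_lit 5) (nat_lit 214) (nat_lit 5) (nat_lit 458) (nat_lit 385) (nat_lit 297))))) (XT.nd (nat_lit 234) (nat_lit 988) (nat_lit 0) (XT.nd (nat_lit 78) (nat_lit 532) (nat_lit 0) (XT.lf (nat_lit 0) (nat_lit 477558313) (nat_lit 456) (nat_lit 1718601938) (nat_lit 532) (nat_lit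 8770519345) (nat_lit 199) (nat_lit 5) (nat_lit 205) (nat_lit 5) (nat_lit 206) (nat_lit 5) (nat_lit 459) (nat_lit 385) (nat_lit 296)) (XT.nd (nat_lit 78) (nat_lit 532) (nat_lit 0) (XT.lf (nat_lit 0) (nat_lit 5091991805) (nat_lit 532) (nat_lit 3650754604) (nat_lit 76) (nat_lit 2344676424) (nat_lit 199) (nat_lit 5) (nat_lit 206) (nat_lit 5) (nat_lit 200) (nat_lit 5) (nat_lit 460) (nat_lit 385) (nat_lit 295)) (XT.lf (nat_lit 0) (nat_lit 3322141404) (nat_lit 532) (nat_lit 4731650828) (nat_lit 608) (nat_lit 3156632657) (nat_lit 192) (nat_lit 5) (nat_lit 199) (nat_lit 5) (nat_lit 200) (nat_lit 5) (nat_lit 461) (nat_lit 385) (nat_lit 294)))) (XT.nd (nat_lit 78) (nat_lit 988) (nat_lit 0) (XT.lf (nat_lit 0) (nat_lit 10449781749) (nat_lit 532) (nat_lit 624912790) (nat_lit 608) (nat_lit 261200031) (nat_lit 192) (nat_lit 5) (nat_lit 199) (nat_lit 5) (nat_lit 200) (nat_lit 5) (nat_lit 462) (nat_lit 385) (nat_lit 293)) (XT.nd (nat_lit 78)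 (nat_lit 456) (nat_lit 0) (XT.lf (nat_lit 0) (nat_lit 2696803576) (nat_lit 532) (nat_lit 5199439983) (nat_lit 76) (nat_lit 3566485808) (nat_lit 185) (nat_lit 5) (nat_lit 192) (nat_lit 5) (nat_lit 186) (nat_lit 5) (nat_lit 463) (nat_lit 385) (nat_lit 292)) (XT.lf (nat_lit 0) (nat_lit 1961467968) (nat_lit 456) (nat_lit 3747746279) (nat_lit 532) (nat_lit 5882881812) (nat_lit 179) (nat_lit 5) (nat_lit 185) (nat_lit 5) (nat_lit 186) (nat_lit 5) (nat_lit 464) (nat_lit 385) (nat_lit 291))))))) (XT.nd (nat_lit 858) (nat_lit 2964) (nat_lit 0) (XT.nd (nat_lit 390) (nat_lit 1368) (nat_lit 0) (XT.nd (nat_lit 156) (nat_lit 836) (nat_lit 0) (XT.nd (nat_lit 78) (nat_lit 532) (nat_lit 0) (XT.lf (nat_lit 0) (nat_lit 8796206196) (nat_lit 532) (nat_lit 2424901693) (nat_lit 76) (nat_lit 502660062) (nat_lit 179) (nat_lit 5) (nat_lit 186) (nat_lit 5) (nat_lit 180) (nat_lit 5) (nat_lit 465) (nat_lit 385) (nat_lit 290)) (XT.lf (nat_lit 0) (nat_lit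 119317915) (nat_lit 532) (nat_lit 6926981699) (nat_lit 76) (nat_lit 4811094890) (nat_lit 172) (nat_lit 5) (nat_lit 179) (nat_lit 5) (nat_lit 173) (nat_lit 5) (nat_lit 466) (nat_lit 385) (nat_lit 289))) (XT.nd (nat_lit 78) (nat_lit 380) (nat_lit 0) (XT.lf (nat_lit 0) (nat_lit 424736571) (nat_lit 456) (nat_lit 2758997960) (nat_lit 532) (nat_lit 8809660312) (nat_lit 166) (nat_lit 5) (nat_lit 172) (nat_lit 5) (nat_lit 173) (nat_lit 5) (nat_lit 467) (nat_lit 385) (nat_lit 288)) (XT.nd (nat_lit 78) (nat_lit 380) (nat_lit 0) (XT.lf (nat_lit 0) (nat_lit 6343509597) (nat_lit 532) (nat_lit 4158438863) (nat_lit 76) (nat_lit 1629489509) (nat_lit 166) (nat_lit 5) (nat_lit 173) (nat_lit 5) (nat_lit 167) (nat_lit 5) (nat_lit 468) (nat_lit 385) (nat_lit 287)) (XT.lf (nat_lit 0) (nat_lit 3393025032) (nat_lit 380) (nat_lit 6191010431) (nat_lit 456) (nat_lit 2687859490) (nat_lit 161) (nat_lit 5) (nat_lit 166) (nat_lit 5) (nat_lit 167) (nat_lit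 5) (nat_lit 469) (nat_lit 385) (nat_lit 286))))) (XT.nd (nat_lit 234) (nat_lit 456) (nat_lit 0) (XT.nd (nat_lit 78) (nat_lit 836) (nat_lit 0) (XT.lf (nat_lit 0) (nat_lit 473414417) (nat_lit 456) (nat_lit 1299255081) (nat_lit 76) (nat_lit 10642325482) (nat_lit 160) (nat_lit 5) (nat_lit 166) (nat_lit 5) (nat_lit 161) (nat_lit 5) (nat_lit 470) (nat_lit 385) (nat_lit 285)) (XT.nd (nat_lit 78) (nat_lit 380) (nat_lit 0) (XT.lf (nat_lit 0) (nat_lit 3699797678) (nat_lit 532) (nat_lit 6111953307) (nat_lit 76) (nat_lit 2748097066) (nat_lit 154) (nat_lit 5) (nat_lit 161) (nat_lit 5) (nat_lit 155) (nat_lit 5) (nat_lit 471) (nat_lit 385) (nat_lit 284)) (XT.lf (nat_lit 0) (nat_lit 1637064207) (nat_lit 380) (nat_lit 5362724332) (nat_lit 456) (nat_lit 5707631834) (nat_lit 149) (nat_lit 5) (nat_lit 154) (nat_lit 5) (nat_lit 155) (nat_lit 5) (nat_lit 472) (nat_lit 385) (nat_lit 283)))) (XT.nd (nat_lit 78) (nat_lit 456) (nat_lit 0) (XT.lf (nat_lit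 0) (nat_lit 9591342481) (nat_lit 380) (nat_lit 793607419) (nat_lit 456) (nat_lit 2472614543) (nat_lit 149) (nat_lit 5) (nat_lit 154) (nat_lit 5) (nat_lit 155) (nat_lit 5) (nat_lit 473) (nat_lit 385) (nat_lit 282)) (XT.nd (nat_lit 78) (nat_lit 0) (nat_lit 0) (XT.lf (nat_lit 0) (nat_lit 850604536) (nat_lit 456) (nat_lit 8317415990) (nat_lit 76) (nat_lit 3841900055) (nat_lit 143) (nat_lit 5) (nat_lit 149) (nat_lit 5) (nat_lit 144) (nat_lit 5) (nat_lit 474) (nat_lit 385) (nat_lit 281)) (XT.lf (nat_lit 0) (nat_lit 4213114402) (nat_lit 456) (nat_lit 364350509) (nat_lit 76) (nat_lit 8587416857) (nat_lit 143) (nat_lit 5) (nat_lit 149) (nat_lit 5) (nat_lit 144) (nat_lit 5) (nat_lit 475) (nat_lit 385) (nat_lit 280)))))) (XT.nd (nat_lit 468) (nat_lit 1444) (nat_lit 0) (XT.nd (nat_lit 234) (nat_lit 684) (nat_lit 0) (XT.nd (nat_lit 78) (nat_lit 456) (nat_lit 0) (XT.lf (nat_lit 0) (nat_lit 7673590212) (nat_lit 456) (nat_lit 5504714128) (nat_lit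 76) (nat_lit 144026955) (nat_lit 138) (nat_lit 5) (nat_lit 144) (nat_lit 5) (nat_lit 139) (nat_lit 5) (nat_lit 476) (nat_lit 385) (nat_lit 279)) (XT.nd (nat_lit 78) (nat_lit 76) (nat_lit 0) (XT.lf (nat_lit 0) (nat_lit 2657935545) (nat_lit 380) (nat_lit 8574514623) (nat_lit 456) (nat_lit 2249899516) (nat_lit 133) (nat_lit 5) (nat_lit 138) (nat_lit 5) (nat_lit 139) (nat_lit 5) (nat_lit 477) (nat_lit 385) (nat_lit 278)) (XT.lf (nat_lit 0) (nat_lit 1217348315) (nat_lit 456) (nat_lit 2626464523) (nat_lit 76) (nat_lit 9801273024) (nat_lit 132) (nat_lit 5) (nat_lit 138) (nat_lit 5) (nat_lit 133) (nat_lit 5) (nat_lit 478) (nat_lit 385) (nat_lit 277)))) (XT.nd (nat_lit 78) (nat_lit 380) (nat_lit 0) (XT.lf (nat_lit 0) (nat_lit 4747533485) (nat_lit 380) (nat_lit 8052257213) (nat_lit 76) (nat_lit 1010517430) (nat_lit 128) (nat_lit 5) (nat_lit 133) (nat_lit 5) (nat_lit 129) (nat_lit 5) (nat_lit 479) (nat_lit 385) (nat_lit 276)) (XT.nd (nat_lit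 78) (nat_lit 0) (nat_lit 0) (XT.lf (nat_lit 0) (nat_lit 314479965) (nat_lit 380) (nat_lit 8058821533) (nat_lit 456) (nat_lit 5605036865) (nat_lit 123) (nat_lit 5) (nat_lit 128) (nat_lit 5) (nat_lit 129) (nat_lit 5) (nat_lit 480) (nat_lit 385) (nat_lit 275)) (XT.lf (nat_lit 0) (nat_lit 8926460453) (nat_lit 380) (nat_lit 3179093649) (nat_lit 456) (nat_lit 2043498764) (nat_lit 123) (nat_lit 5) (nat_lit 128) (nat_lit 5) (nat_lit 129) (nat_lit 5) (nat_lit 481) (nat_lit 385) (nat_lit 274))))) (XT.nd (nat_lit 234) (nat_lit 684) (nat_lit 0) (XT.nd (nat_lit 78) (nat_lit 380) (nat_lit 0) (XT.lf (nat_lit 0) (nat_lit 1582453551) (nat_lit 380) (nat_lit 10943996231) (nat_lit 76) (nat_lit 1796247894) (nat_lit 118) (nat_lit 5) (nat_lit 123) (nat_lit 5) (nat_lit 119) (nat_lit 5) (nat_lit 482) (nat_lit 385) (nat_lit 273)) (XT.nd (nat_lit 78) (nat_lit 380) (nat_lit 0) (XT.lf (nat_lit 0) (nat_lit 5290231800) (nat_lit 380) (nat_lit 2342133933) (nat_lit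 76) (nat_lit 6866448982) (nat_lit 118) (nat_lit 5) (nat_lit 123) (nat_lit 5) (nat_lit 119) (nat_lit 5) (nat_lit 483) (nat_lit 385) (nat_lit 272)) (XT.lf (nat_lit 0) (nat_lit 6486428966) (nat_lit 380) (nat_lit 2608548612) (nat_lit 456) (nat_lit 5583023094) (nat_lit 113) (nat_lit 5) (nat_lit 118) (nat_lit 5) (nat_lit 119) (nat_lit 5) (nat_lit 484) (nat_lit 385) (nat_lit 271)))) (XT.nd (nat_lit 78) (nat_lit 380) (nat_lit 0) (XT.lf (nat_lit 0) (nat_lit 624081882) (nat_lit 304) (nat_lit 12368751391) (nat_lit 380) (nat_lit 1867599534) (nat_lit 109) (nat_lit 5) (nat_lit 113) (nat_lit 5) (nat_lit 114) (nat_lit 5) (nat_lit 485) (nat_lit 385) (nat_lit 270)) (XT.nd (nat_lit 78) (nat_lit 304) (nat_lit 0) (XT.lf (nat_lit 0) (nat_lit 1950391337) (nat_lit 380) (nat_lit 5379022374) (nat_lit 76) (nat_lit 7715783571) (nat_lit 108) (nat_lit 5) (nat_lit 113) (nat_lit 5) (nat_lit 109) (nat_lit 5) (nat_lit 486) (nat_lit 385) (nat_lit 269)) (XT.lf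 (nat_lit 0) (nat_lit 3661123692) (nat_lit 304) (nat_lit 2163639312) (nat_lit 380) (nat_lit 9408549185) (nat_lit 104) (nat_lit 5) (nat_lit 108) (nat_lit 5) (nat_lit 109) (nat_lit 5) (nat_lit 487) (nat_lit 385) (nat_lit 268))))))))
noncomputable def xc106 : XT := (XT.nd (nat_lit 51714) (nat_lit 0) (nat_lit 38152) (XT.nd (nat_lit 858) (nat_lit 988) (nat_lit 0) (XT.nd (nat_lit 390) (nat_lit 988) (nat_lit 0) (XT.nd (nat_lit 156) (nat_lit 608) (nat_lit 0) (XT.nd (nat_lit 78) (nat_lit 304) (nat_lit 0) (XT.lf (nat_lit 0) (nat_lit 9814456143) (nat_lit 380) (nat_lit 2519964070) (nat_lit 76) (nat_lit 3090015050) (nat_lit 104) (nat_lit 5) (nat_lit 109) (nat_lit 5) (nat_lit 105) (nat_lit 5) (nat_lit 488) (nat_lit 385) (nat_lit 267)) (XT.lf (nat_lit 0) (nat_lit 6758118231) (nat_lit 304) (nat_lit 7165734065) (nat_lit 380) (nat_lit 1694732820) (nat_lit 100) (nat_lit 5) (nat_lit 104) (nat_lit 5) (nat_lit 105) (nat_lit 5) (nat_lit 489) (nat_lit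 385) (nat_lit 266))) (XT.nd (nat_lit 78) (nat_lit 228) (nat_lit 0) (XT.lf (nat_lit 0) (nat_lit 400311160) (nat_lit 304) (nat_lit 1869727499) (nat_lit 380) (nat_lit 13546255806) (nat_lit 95) (nat_lit 5) (nat_lit 99) (nat_lit 5) (nat_lit 100) (nat_lit 5) (nat_lit 490) (nat_lit 385) (nat_lit 265)) (XT.nd (nat_lit 78) (nat_lit 228) (nat_lit 0) (XT.lf (nat_lit 0) (nat_lit 6356062351) (nat_lit 380) (nat_lit 6114547942) (nat_lit 76) (nat_lit 3545833034) (nat_lit 95) (nat_lit 5) (nat_lit 100) (nat_lit 5) (nat_lit 96) (nat_lit 5) (nat_lit 491) (nat_lit 385) (nat_lit 264)) (XT.lf (nat_lit 0) (nat_lit 3375749253) (nat_lit 228) (nat_lit 7164555701) (nat_lit 304) (nat_lit 5679962554) (nat_lit 92) (nat_lit 5) (nat_lit 95) (nat_lit 5) (nat_lit 96) (nat_lit 5) (nat_lit 492) (nat_lit 385) (nat_lit 263))))) (XT.nd (nat_lit 234) (nat_lit 608) (nat_lit 0) (XT.nd (nat_lit 78) (nat_lit 380) (nat_lit 0) (XT.lf (nat_lit 0) (nat_lit 13109869739) (nat_lit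 228) (nat_lit 1721754662) (nat_lit 304) (nat_lit 1596078195) (nat_lit 92) (nat_lit 5) (nat_lit 95) (nat_lit 5) (nat_lit 96) (nat_lit 5) (nat_lit 493) (nat_lit 385) (nat_lit 262)) (XT.nd (nat_lit 78) (nat_lit 0) (nat_lit 0) (XT.lf (nat_lit 0) (nat_lit 2585359038) (nat_lit 380) (nat_lit 10225035901) (nat_lit 76) (nat_lit 3827568480) (nat_lit 87) (nat_lit 5) (nat_lit 92) (nat_lit 5) (nat_lit 88) (nat_lit 5) (nat_lit 494) (nat_lit 385) (nat_lit 261)) (XT.lf (nat_lit 0) (nat_lit 6845562338) (nat_lit 380) (nat_lit 519448761) (nat_lit 76) (nat_lit 9486879314) (nat_lit 87) (nat_lit 5) (nat_lit 92) (nat_lit 5) (nat_lit 88) (nat_lit 5) (nat_lit 495) (nat_lit 385) (nat_lit 260)))) (XT.nd (nat_lit 78) (nat_lit 380) (nat_lit 0) (XT.lf (nat_lit 0) (nat_lit 9476475066) (nat_lit 228) (nat_lit 1759036542) (nat_lit 304) (nat_lit 5833695592) (nat_lit 84) (nat_lit 5) (nat_lit 87) (nat_lit 5) (nat_lit 88) (nat_lit 5) (nat_lit 496) (nat_lit 385)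 (nat_lit 259)) (XT.nd (nat_lit 78) (nat_lit 76) (nat_lit 0) (XT.lf (nat_lit 0) (nat_lit 2365713729) (nat_lit 304) (nat_lit 13375214315) (nat_lit 380) (nat_lit 1549390966) (nat_lit 80) (nat_lit 5) (nat_lit 84) (nat_lit 5) (nat_lit 85) (nat_lit 5) (nat_lit 497) (nat_lit 385) (nat_lit 258)) (XT.lf (nat_lit 0) (nat_lit 2829676699) (nat_lit 380) (nat_lit 4947068054) (nat_lit 76) (nat_lit 9737822618) (nat_lit 79) (nat_lit 5) (nat_lit 84) (nat_lit 5) (nat_lit 80) (nat_lit 5) (nat_lit 498) (nat_lit 385) (nat_lit 257)))))) (XT.nd (nat_lit 390) (nat_lit 228) (nat_lit 0) (XT.nd (nat_lit 156) (nat_lit 532) (nat_lit 0) (XT.nd (nat_lit 78) (nat_lit 0) (nat_lit 0) (XT.lf (nat_lit 0) (nat_lit 5261128187) (nat_lit 228) (nat_lit 2032091781) (nat_lit 304) (nat_lit 10449525022) (nat_lit 76) (nat_lit 5) (nat_lit 79) (nat_lit 5) (nat_lit 80) (nat_lit 5) (nat_lit 499) (nat_lit 385) (nat_lit 256)) (XT.lf (nat_lit 0) (nat_lit 11887838471) (nat_lit 304)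 (nat_lit 2287052918) (nat_lit 76) (nat_lit 3799760580) (nat_lit 76) (nat_lit 5) (nat_lit 80) (nat_lit 5) (nat_lit 77) (nat_lit 5) (nat_lit 500) (nat_lit 385) (nat_lit 255))) (XT.nd (nat_lit 78) (nat_lit 304) (nat_lit 0) (XT.lf (nat_lit 0) (nat_lit 8178036747) (nat_lit 228) (nat_lit 8446726920) (nat_lit 304) (nat_lit 1585426990) (nat_lit 73) (nat_lit 5) (nat_lit 76) (nat_lit 5) (nat_lit 77) (nat_lit 5) (nat_lit 501) (nat_lit 385) (nat_lit 254)) (XT.nd (nat_lit 78) (nat_lit 0) (nat_lit 0) (XT.lf (nat_lit 0) (nat_lit 391612722) (nat_lit 228) (nat_lit 2576835082) (nat_lit 304) (nat_lit 15481566071) (nat_lit 69) (nat_lit 5) (nat_lit 72) (nat_lit 5) (nat_lit 73) (nat_lit 5) (nat_lit 502) (nat_lit 385) (nat_lit 253)) (XT.lf (nat_lit 0) (nat_lit 7666062509) (nat_lit 304) (nat_lit 7593804073) (nat_lit 76) (nat_lit 3433081307) (nat_lit 69) (nat_lit 5) (nat_lit 73) (nat_lit 5) (nat_lit 70) (nat_lit 5) (nat_lit 503) (nat_lit 385) (nat_lit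 252))))) (XT.nd (nat_lit 50232) (nat_lit 0) (nat_lit 47272) (XT.nd (nat_lit 78) (nat_lit 0) (nat_lit 0) (XT.lf (nat_lit 0) (nat_lit 3076633329) (nat_lit 228) (nat_lit 9402312967) (nat_lit 304) (nat_lit 6461369666) (nat_lit 66) (nat_lit 5) (nat_lit 69) (nat_lit 5) (nat_lit 70) (nat_lit 5) (nat_lit 504) (nat_lit 385) (nat_lit 251)) (XT.nd (nat_lit 50076) (nat_lit 0) (nat_lit 47804) (XT.lf (nat_lit 0) (nat_lit 14036854311) (nat_lit 228) (nat_lit 3386603844) (nat_lit 304) (nat_lit 1768467517) (nat_lit 66) (nat_lit 5) (nat_lit 69) (nat_lit 5) (nat_lit 70) (nat_lit 5) (nat_lit 505) (nat_lit 385) (nat_lit 250)) (XT.lf (nat_lit 0) (nat_lit 1054204975) (nat_lit 532) (nat_lit 1100747181) (nat_lit 532) (nat_lit 1100747181) (nat_lit 695) (nat_lit 3) (nat_lit 702) (nat_lit 3) (nat_lit 702) (nat_lit 5) (nat_lit 386) (nat_lit 386) (nat_lit 368)))) (XT.nd (nat_lit 78) (nat_lit 532) (nat_lit 0) (XT.lf (nat_lit 76) (nat_lit 977431902) (nat_lit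 0) (nat_lit 3736149733) (nat_lit 532) (nat_lit 1810023258) (nat_lit 696) (nat_lit 5) (nat_lit 695) (nat_lit 3) (nat_lit 702) (nat_lit 5) (nat_lit 387) (nat_lit 386) (nat_lit 367)) (XT.nd (nat_lit 78) (nat_lit 0) (nat_lit 0) (XT.lf (nat_lit 0) (nat_lit 770400890) (nat_lit 532) (nat_lit 2327396924) (nat_lit 608) (nat_lit 3439249587) (nat_lit 688) (nat_lit 5) (nat_lit 695) (nat_lit 3) (nat_lit 696) (nat_lit 5) (nat_lit 388) (nat_lit 386) (nat_lit 366)) (XT.lf (nat_lit 76) (nat_lit 920648339) (nat_lit 0) (nat_lit 2396565674) (nat_lit 608) (nat_lit 3234556036) (nat_lit 689) (nat_lit 5) (nat_lit 688) (nat_lit 5) (nat_lit 696) (nat_lit 5) (nat_lit 389) (nat_lit 386) (nat_lit 365))))))) (XT.nd (nat_lit 858) (nat_lit 6384) (nat_lit 0) (XT.nd (nat_lit 390) (nat_lit 1520) (nat_lit 0) (XT.nd (nat_lit 156) (nat_lit 608) (nat_lit 0) (XT.nd (nat_lit 78) (nat_lit 608) (nat_lit 0) (XT.lf (nat_lit 76) (nat_lit 4230240639) (nat_lit 0) (nat_lit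 1634443808) (nat_lit 608) (nat_lit 703138587) (nat_lit 689) (nat_lit 5) (nat_lit 688) (nat_lit 5) (nat_lit 696) (nat_lit 5) (nat_lit 390) (nat_lit 386) (nat_lit 364)) (XT.lf (nat_lit 76) (nat_lit 987408049) (nat_lit 0) (nat_lit 808205784) (nat_lit 684) (nat_lit 4789541415) (nat_lit 681) (nat_lit 5) (nat_lit 680) (nat_lit 5) (nat_lit 689) (nat_lit 5) (nat_lit 391) (nat_lit 386) (nat_lit 363))) (XT.nd (nat_lit 78) (nat_lit 684) (nat_lit 0) (XT.lf (nat_lit 0) (nat_lit 4287125303) (nat_lit 608) (nat_lit 2233357108) (nat_lit 684) (nat_lit 83243314) (nat_lit 681) (nat_lit 5) (nat_lit 689) (nat_lit 5) (nat_lit 690) (nat_lit 5) (nat_lit 392) (nat_lit 386) (nat_lit 362)) (XT.nd (nat_lit 78) (nat_lit 0) (nat_lit 0) (XT.lf (nat_lit 0) (nat_lit 153136983) (nat_lit 684) (nat_lit 5452069947) (nat_lit 760) (nat_lit 1018460672) (nat_lit 672) (nat_lit 5) (nat_lit 681) (nat_lit 5) (nat_lit 682) (nat_lit 5) (nat_lit 393) (nat_lit 386) (nat_lit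 361)) (XT.lf (nat_lit 0) (nat_lit 2594353769) (nat_lit 684) (nat_lit 2020562622) (nat_lit 760) (nat_lit 2029750502) (nat_lit 672) (nat_lit 5) (nat_lit 681) (nat_lit 5) (nat_lit 682) (nat_lit 5) (nat_lit 394) (nat_lit 386) (nat_lit 360))))) (XT.nd (nat_lit 234) (nat_lit 760) (nat_lit 0) (XT.nd (nat_lit 78) (nat_lit 760) (nat_lit 0) (XT.lf (nat_lit 76) (nat_lit 1463138362) (nat_lit 0) (nat_lit 3569960764) (nat_lit 760) (nat_lit 1634039341) (nat_lit 673) (nat_lit 5) (nat_lit 672) (nat_lit 5) (nat_lit 682) (nat_lit 5) (nat_lit 395) (nat_lit 386) (nat_lit 359)) (XT.nd (nat_lit 78) (nat_lit 0) (nat_lit 0) (XT.lf (nat_lit 0) (nat_lit 773060889) (nat_lit 760) (nat_lit 1687585552) (nat_lit 836) (nat_lit 4230262659) (nat_lit 662) (nat_lit 5) (nat_lit 672) (nat_lit 5) (nat_lit 673) (nat_lit 5) (nat_lit 396) (nat_lit 386) (nat_lit 358)) (XT.lf (nat_lit 76) (nat_lit 1877451559) (nat_lit 0) (nat_lit 1282108444) (nat_lit 836) (nat_lit 3556341250)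 (nat_lit 663) (nat_lit 5) (nat_lit 662) (nat_lit 5) (nat_lit 673) (nat_lit 5) (nat_lit 397) (nat_lit 386) (nat_lit 357)))) (XT.nd (nat_lit 78) (nat_lit 760) (nat_lit 0) (XT.lf (nat_lit 76) (nat_lit 5501391286) (nat_lit 0) (nat_lit 45578234) (nat_lit 836) (nat_lit 1195384493) (nat_lit 663) (nat_lit 5) (nat_lit 662) (nat_lit 5) (nat_lit 673) (nat_lit 5) (nat_lit 398) (nat_lit 386) (nat_lit 356)) (XT.nd (nat_lit 78) (nat_lit 0) (nat_lit 0) (XT.lf (nat_lit 0) (nat_lit 1163364719) (nat_lit 836) (nat_lit 4361298452) (nat_lit 912) (nat_lit 1245209011) (nat_lit 652) (nat_lit 5) (nat_lit 663) (nat_lit 5) (nat_lit 664) (nat_lit 5) (nat_lit 399) (nat_lit 386) (nat_lit 355)) (XT.lf (nat_lit 0) (nat_lit 3505613237) (nat_lit 836) (nat_lit 694552772) (nat_lit 912) (nat_lit 2598593034) (nat_lit 652) (nat_lit 5) (nat_lit 663) (nat_lit 5) (nat_lit 664) (nat_lit 5) (nat_lit 400) (nat_lit 386) (nat_lit 354)))))) (XT.nd (nat_lit 468) (nat_lit 3572)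 (nat_lit 0) (XT.nd (nat_lit 234) (nat_lit 1900) (nat_lit 0) (XT.nd (nat_lit 78) (nat_lit 912) (nat_lit 0) (XT.lf (nat_lit 76) (nat_lit 3049813283) (nat_lit 0) (nat_lit 2809431176) (nat_lit 912) (nat_lit 969710943) (nat_lit 653) (nat_lit 5) (nat_lit 652) (nat_lit 5) (nat_lit 664) (nat_lit 5) (nat_lit 401) (nat_lit 386) (nat_lit 353)) (XT.nd (nat_lit 78) (nat_lit 0) (nat_lit 76) (XT.lf (nat_lit 0) (nat_lit 1331727977) (nat_lit 912) (nat_lit 26531049) (nat_lit 988) (nat_lit 5502338501) (nat_lit 640) (nat_lit 5) (nat_lit 652) (nat_lit 5) (nat_lit 653) (nat_lit 5) (nat_lit 402) (nat_lit 386) (nat_lit 352)) (XT.lf (nat_lit 0) (nat_lit 3638352910) (nat_lit 912) (nat_lit 3085311061) (nat_lit 76) (nat_lit 169658713) (nat_lit 641) (nat_lit 5) (nat_lit 653) (nat_lit 5) (nat_lit 642) (nat_lit 5) (nat_lit 403) (nat_lit 386) (nat_lit 351)))) (XT.nd (nat_lit 78) (nat_lit 1064) (nat_lit 0) (XT.lf (nat_lit 0) (nat_lit 757365489) (nat_lit 912)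 (nat_lit 5195056844) (nat_lit 988) (nat_lit 975074572) (nat_lit 629) (nat_lit 5) (nat_lit 641) (nat_lit 5) (nat_lit 642) (nat_lit 5) (nat_lit 404) (nat_lit 386) (nat_lit 350)) (XT.nd (nat_lit 78) (nat_lit 988) (nat_lit 0) (XT.lf (nat_lit 0) (nat_lit 1301204343) (nat_lit 988) (nat_lit 2289080549) (nat_lit 76) (nat_lit 3372544422) (nat_lit 628) (nat_lit 5) (nat_lit 641) (nat_lit 5) (nat_lit 629) (nat_lit 5) (nat_lit 405) (nat_lit 386) (nat_lit 349)) (XT.lf (nat_lit 0) (nat_lit 1648526307) (nat_lit 988) (nat_lit 1920823791) (nat_lit 1064) (nat_lit 3430221020) (nat_lit 615) (nat_lit 5) (nat_lit 628) (nat_lit 5) (nat_lit 629) (nat_lit 5) (nat_lit 406) (nat_lit 386) (nat_lit 348))))) (XT.nd (nat_lit 234) (nat_lit 2432) (nat_lit 0) (XT.nd (nat_lit 78) (nat_lit 1140) (nat_lit 0) (XT.lf (nat_lit 0) (nat_lit 5659924433) (nat_lit 988) (nat_lit 187749813) (nat_lit 1064) (nat_lit 1190096418) (nat_lit 615) (nat_lit 5) (nat_lit 628) (nat_lit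 5) (nat_lit 629) (nat_lit 5) (nat_lit 407) (nat_lit 386) (nat_lit 347)) (XT.nd (nat_lit 78) (nat_lit 0) (nat_lit 0) (XT.lf (nat_lit 0) (nat_lit 1058395258) (nat_lit 1140) (nat_lit 4421056261) (nat_lit 76) (nat_lit 1597600517) (nat_lit 600) (nat_lit 5) (nat_lit 615) (nat_lit 5) (nat_lit 601) (nat_lit 5) (nat_lit 408) (nat_lit 386) (nat_lit 346)) (XT.lf (nat_lit 0) (nat_lit 3297419459) (nat_lit 1140) (nat_lit 373746117) (nat_lit 76) (nat_lit 3446584275) (nat_lit 600) (nat_lit 5) (nat_lit 615) (nat_lit 5) (nat_lit 601) (nat_lit 5) (nat_lit 409) (nat_lit 386) (nat_lit 345)))) (XT.nd (nat_lit 78) (nat_lit 1292) (nat_lit 0) (XT.lf (nat_lit 0) (nat_lit 3767830261) (nat_lit 1140) (nat_lit 1789751749) (nat_lit 1216) (nat_lit 1602170212) (nat_lit 585) (nat_lit 5) (nat_lit 600) (nat_lit 5) (nat_lit 601) (nat_lit 5) (nat_lit 410) (nat_lit 386) (nat_lit 344)) (XT.nd (nat_lit 78) (nat_lit 0) (nat_lit 0) (XT.lf (nat_lit 0) (nat_lit 612441550)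 (nat_lit 1292) (nat_lit 6440355184) (nat_lit 76) (nat_lit 150514239) (nat_lit 568) (nat_lit 5) (nat_lit 585) (nat_lit 5) (nat_lit 569) (nat_lit 5) (nat_lit 411) (nat_lit 386) (nat_lit 343)) (XT.lf (nat_lit 0) (nat_lit 2837721668) (nat_lit 1292) (nat_lit 2260286447) (nat_lit 76) (nat_lit 2149781125) (nat_lit 568) (nat_lit 5) (nat_lit 585) (nat_lit 5) (nat_lit 569) (nat_lit 5) (nat_lit 412) (nat_lit 386) (nat_lit 342))))))))
noncomputable def xc107 : XT := (XT.nd (nat_lit 1716) (nat_lit 9500) (nat_lit 0) (XT.nd (nat_lit 858) (nat_lit 6612) (nat_lit 0) (XT.nd (nat_lit 390) (nat_lit 6688) (nat_lit 0) (XT.nd (nat_lit 156) (nat_lit 2888) (nat_lit 0) (XT.nd (nat_lit 78) (nat_lit 0) (nat_lit 0) (XT.lf (nat_lit 0) (nat_lit 1992956480) (nat_lit 1292) (nat_lit 3081455351) (nat_lit 1368) (nat_lit 2219423554) (nat_lit 551) (nat_lit 5) (nat_lit 568) (nat_lit 5) (nat_lit 569) (nat_lit 5) (nat_lit 413) (nat_lit 386) (nat_lit 341)) (XT.lf (nat_lit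 0) (nat_lit 6325578436) (nat_lit 1292) (nat_lit 1000056726) (nat_lit 1368) (nat_lit 15787383) (nat_lit 551) (nat_lit 5) (nat_lit 568) (nat_lit 5) (nat_lit 569) (nat_lit 5) (nat_lit 414) (nat_lit 386) (nat_lit 340))) (XT.nd (nat_lit 78) (nat_lit 1444) (nat_lit 0) (XT.lf (nat_lit 0) (nat_lit 2187185184) (nat_lit 1444) (nat_lit 4049646704) (nat_lit 76) (nat_lit 1153164480) (nat_lit 532) (nat_lit 5) (nat_lit 551) (nat_lit 5) (nat_lit 533) (nat_lit 5) (nat_lit 415) (nat_lit 386) (nat_lit 339)) (XT.nd (nat_lit 78) (nat_lit 0) (nat_lit 0) (XT.lf (nat_lit 0) (nat_lit 318500881) (nat_lit 1444) (nat_lit 4086966595) (nat_lit 1520) (nat_lit 3034658025) (nat_lit 513) (nat_lit 5) (nat_lit 532) (nat_lit 5) (nat_lit 533) (nat_lit 5) (nat_lit 416) (nat_lit 386) (nat_lit 338)) (XT.lf (nat_lit 0) (nat_lit 4792212699) (nat_lit 1444) (nat_lit 1859612942) (nat_lit 1520) (nat_lit 839772225) (nat_lit 513) (nat_lit 5) (nat_lit 532) (nat_lit 5) (nat_lit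 533) (nat_lit 5) (nat_lit 417) (nat_lit 386) (nat_lit 337))))) (XT.nd (nat_lit 234) (nat_lit 3496) (nat_lit 0) (XT.nd (nat_lit 78) (nat_lit 1596) (nat_lit 0) (XT.lf (nat_lit 0) (nat_lit 1352224987) (nat_lit 1596) (nat_lit 5758290696) (nat_lit 76) (nat_lit 433985370) (nat_lit 492) (nat_lit 5) (nat_lit 513) (nat_lit 5) (nat_lit 493) (nat_lit 5) (nat_lit 418) (nat_lit 386) (nat_lit 336)) (XT.nd (nat_lit 78) (nat_lit 1596) (nat_lit 0) (XT.lf (nat_lit 0) (nat_lit 3565112756) (nat_lit 1596) (nat_lit 1255204265) (nat_lit 76) (nat_lit 2778282359) (nat_lit 492) (nat_lit 5) (nat_lit 513) (nat_lit 5) (nat_lit 493) (nat_lit 5) (nat_lit 419) (nat_lit 386) (nat_lit 335)) (XT.lf (nat_lit 0) (nat_lit 3345332021) (nat_lit 1596) (nat_lit 2457210175) (nat_lit 1672) (nat_lit 1851645525) (nat_lit 471) (nat_lit 5) (nat_lit 492) (nat_lit 5) (nat_lit 493) (nat_lit 5) (nat_lit 420) (nat_lit 386) (nat_lit 334)))) (XT.nd (nat_lit 78) (nat_lit 1748) (nat_lit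 0) (XT.lf (nat_lit 0) (nat_lit 308936681) (nat_lit 1672) (nat_lit 29334590) (nat_lit 1748) (nat_lit 7373194370) (nat_lit 448) (nat_lit 5) (nat_lit 470) (nat_lit 5) (nat_lit 471) (nat_lit 5) (nat_lit 421) (nat_lit 386) (nat_lit 333)) (XT.nd (nat_lit 78) (nat_lit 1748) (nat_lit 0) (XT.lf (nat_lit 0) (nat_lit 2551662839) (nat_lit 1748) (nat_lit 2757575178) (nat_lit 76) (nat_lit 2460329848) (nat_lit 448) (nat_lit 5) (nat_lit 471) (nat_lit 5) (nat_lit 449) (nat_lit 5) (nat_lit 422) (nat_lit 386) (nat_lit 332)) (XT.lf (nat_lit 0) (nat_lit 1969229117) (nat_lit 1748) (nat_lit 2813320407) (nat_lit 1824) (nat_lit 3046830744) (nat_lit 425) (nat_lit 5) (nat_lit 448) (nat_lit 5) (nat_lit 449) (nat_lit 5) (nat_lit 423) (nat_lit 386) (nat_lit 331)))))) (XT.nd (nat_lit 390) (nat_lit 3420) (nat_lit 0) (XT.nd (nat_lit 156) (nat_lit 1824) (nat_lit 0) (XT.nd (nat_lit 78) (nat_lit 1368) (nat_lit 0) (XT.lf (nat_lit 0) (nat_lit 6791509394) (nat_lit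 1748) (nat_lit 245839678) (nat_lit 1824) (nat_lit 853466376) (nat_lit 425) (nat_lit 5) (nat_lit 448) (nat_lit 5) (nat_lit 449) (nat_lit 5) (nat_lit 424) (nat_lit 386) (nat_lit 330)) (XT.lf (nat_lit 0) (nat_lit 1366971586) (nat_lit 1368) (nat_lit 4208397401) (nat_lit 76) (nat_lit 2377915511) (nat_lit 407) (nat_lit 5) (nat_lit 425) (nat_lit 5) (nat_lit 408) (nat_lit 5) (nat_lit 425) (nat_lit 386) (nat_lit 329))) (XT.nd (nat_lit 78) (nat_lit 912) (nat_lit 0) (XT.lf (nat_lit 0) (nat_lit 648382171) (nat_lit 912) (nat_lit 2947114277) (nat_lit 988) (nat_lit 4421903246) (nat_lit 395) (nat_lit 5) (nat_lit 407) (nat_lit 5) (nat_lit 408) (nat_lit 5) (nat_lit 426) (nat_lit 386) (nat_lit 328)) (XT.nd (nat_lit 78) (nat_lit 912) (nat_lit 0) (XT.lf (nat_lit 0) (nat_lit 5622782839) (nat_lit 912) (nat_lit 236392347) (nat_lit 988) (nat_lit 2223821825) (nat_lit 395) (nat_lit 5) (nat_lit 407) (nat_lit 5) (nat_lit 408) (nat_lit 5) (nat_lit 427) (nat_lit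 386) (nat_lit 327)) (XT.lf (nat_lit 0) (nat_lit 13855455) (nat_lit 912) (nat_lit 5623201778) (nat_lit 76) (nat_lit 2512940249) (nat_lit 383) (nat_lit 5) (nat_lit 395) (nat_lit 5) (nat_lit 384) (nat_lit 5) (nat_lit 428) (nat_lit 386) (nat_lit 326))))) (XT.nd (nat_lit 234) (nat_lit 1672) (nat_lit 0) (XT.nd (nat_lit 78) (nat_lit 1748) (nat_lit 0) (XT.lf (nat_lit 0) (nat_lit 2248045072) (nat_lit 912) (nat_lit 624372903) (nat_lit 76) (nat_lit 5346006105) (nat_lit 383) (nat_lit 5) (nat_lit 395) (nat_lit 5) (nat_lit 384) (nat_lit 5) (nat_lit 429) (nat_lit 386) (nat_lit 325)) (XT.nd (nat_lit 78) (nat_lit 836) (nat_lit 0) (XT.lf (nat_lit 0) (nat_lit 4497280272) (nat_lit 912) (nat_lit 22880430) (nat_lit 988) (nat_lit 3768204273) (nat_lit 371) (nat_lit 5) (nat_lit 383) (nat_lit 5) (nat_lit 384) (nat_lit 5) (nat_lit 430) (nat_lit 386) (nat_lit 324)) (XT.lf (nat_lit 0) (nat_lit 1332317828) (nat_lit 836) (nat_lit 5501503472) (nat_lit 912)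 (nat_lit 1525971735) (nat_lit 360) (nat_lit 5) (nat_lit 371) (nat_lit 5) (nat_lit 372) (nat_lit 5) (nat_lit 431) (nat_lit 386) (nat_lit 323)))) (XT.nd (nat_lit 78) (nat_lit 1596) (nat_lit 0) (XT.lf (nat_lit 0) (nat_lit 741613426) (nat_lit 912) (nat_lit 1864677347) (nat_lit 76) (nat_lit 5826460249) (nat_lit 359) (nat_lit 5) (nat_lit 371) (nat_lit 5) (nat_lit 360) (nat_lit 5) (nat_lit 432) (nat_lit 386) (nat_lit 322)) (XT.nd (nat_lit 78) (nat_lit 760) (nat_lit 0) (XT.lf (nat_lit 0) (nat_lit 3024086187) (nat_lit 912) (nat_lit 5109951923) (nat_lit 76) (nat_lit 373138754) (nat_lit 348) (nat_lit 5) (nat_lit 360) (nat_lit 5) (nat_lit 349) (nat_lit 5) (nat_lit 433) (nat_lit 386) (nat_lit 321)) (XT.lf (nat_lit 0) (nat_lit 154916166) (nat_lit 760) (nat_lit 5194009055) (nat_lit 836) (nat_lit 3234241275) (nat_lit 338) (nat_lit 5) (nat_lit 348) (nat_lit 5) (nat_lit 349) (nat_lit 5) (nat_lit 434) (nat_lit 386) (nat_lit 320))))))) (XT.nd (nat_lit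 858) (nat_lit 4940) (nat_lit 0) (XT.nd (nat_lit 390) (nat_lit 2204) (nat_lit 0) (XT.nd (nat_lit 156) (nat_lit 1520) (nat_lit 0) (XT.nd (nat_lit 78) (nat_lit 836) (nat_lit 0) (XT.lf (nat_lit 0) (nat_lit 5558015952) (nat_lit 760) (nat_lit 2162824127) (nat_lit 836) (nat_lit 939833681) (nat_lit 338) (nat_lit 5) (nat_lit 348) (nat_lit 5) (nat_lit 349) (nat_lit 5) (nat_lit 435) (nat_lit 386) (nat_lit 319)) (XT.lf (nat_lit 0) (nat_lit 1370017712) (nat_lit 836) (nat_lit 6431457136) (nat_lit 76) (nat_lit 938325063) (nat_lit 327) (nat_lit 5) (nat_lit 338) (nat_lit 5) (nat_lit 328) (nat_lit 5) (nat_lit 436) (nat_lit 386) (nat_lit 318))) (XT.nd (nat_lit 78) (nat_lit 1520) (nat_lit 0) (XT.lf (nat_lit 0) (nat_lit 3715897349) (nat_lit 836) (nat_lit 1007637481) (nat_lit 76) (nat_lit 4096810074) (nat_lit 327) (nat_lit 5) (nat_lit 338) (nat_lit 5) (nat_lit 328) (nat_lit 5) (nat_lit 437) (nat_lit 386) (nat_lit 317)) (XT.nd (nat_lit 78) (nat_lit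 760) (nat_lit 0) (XT.lf (nat_lit 0) (nat_lit 4548548166) (nat_lit 760) (nat_lit 1557445402) (nat_lit 836) (nat_lit 2796569953) (nat_lit 317) (nat_lit 5) (nat_lit 327) (nat_lit 5) (nat_lit 328) (nat_lit 5) (nat_lit 438) (nat_lit 386) (nat_lit 316)) (XT.lf (nat_lit 0) (nat_lit 1212069981) (nat_lit 760) (nat_lit 7325497488) (nat_lit 836) (nat_lit 448994059) (nat_lit 307) (nat_lit 5) (nat_lit 317) (nat_lit 5) (nat_lit 318) (nat_lit 5) (nat_lit 439) (nat_lit 386) (nat_lit 315))))) (XT.nd (nat_lit 234) (nat_lit 760) (nat_lit 0) (XT.nd (nat_lit 78) (nat_lit 1368) (nat_lit 0) (XT.lf (nat_lit 0) (nat_lit 1928061717) (nat_lit 836) (nat_lit 2182640361) (nat_lit 76) (nat_lit 4961132097) (nat_lit 306) (nat_lit 5) (nat_lit 317) (nat_lit 5) (nat_lit 307) (nat_lit 5) (nat_lit 440) (nat_lit 386) (nat_lit 314)) (XT.nd (nat_lit 78) (nat_lit 684) (nat_lit 0) (XT.lf (nat_lit 0) (nat_lit 3528724157) (nat_lit 684) (nat_lit 809779004) (nat_lit 760)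 (nat_lit 4820420665) (nat_lit 297) (nat_lit 5) (nat_lit 306) (nat_lit 5) (nat_lit 307) (nat_lit 5) (nat_lit 441) (nat_lit 386) (nat_lit 313)) (XT.lf (nat_lit 0) (nat_lit 84866591) (nat_lit 684) (nat_lit 6713473049) (nat_lit 760) (nat_lit 2449399791) (nat_lit 288) (nat_lit 5) (nat_lit 297) (nat_lit 5) (nat_lit 298) (nat_lit 5) (nat_lit 442) (nat_lit 386) (nat_lit 312)))) (XT.nd (nat_lit 78) (nat_lit 760) (nat_lit 0) (XT.lf (nat_lit 0) (nat_lit 5949369179) (nat_lit 684) (nat_lit 3370771571) (nat_lit 760) (nat_lit 17942967) (nat_lit 288) (nat_lit 5) (nat_lit 297) (nat_lit 5) (nat_lit 298) (nat_lit 5) (nat_lit 443) (nat_lit 386) (nat_lit 311)) (XT.nd (nat_lit 78) (nat_lit 0) (nat_lit 0) (XT.lf (nat_lit 0) (nat_lit 2416444516) (nat_lit 760) (nat_lit 6948588803) (nat_lit 76) (nat_lit 65157421) (nat_lit 278) (nat_lit 5) (nat_lit 288) (nat_lit 5) (nat_lit 279) (nat_lit 5) (nat_lit 444) (nat_lit 386) (nat_lit 310)) (XT.lf (nat_lit 0)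 (nat_lit 4914864666) (nat_lit 760) (nat_lit 1066801459) (nat_lit 76) (nat_lit 3542166986) (nat_lit 278) (nat_lit 5) (nat_lit 288) (nat_lit 5) (nat_lit 279) (nat_lit 5) (nat_lit 445) (nat_lit 386) (nat_lit 309)))))) (XT.nd (nat_lit 468) (nat_lit 2280) (nat_lit 0) (XT.nd (nat_lit 234) (nat_lit 1292) (nat_lit 0) (XT.nd (nat_lit 78) (nat_lit 684) (nat_lit 0) (XT.lf (nat_lit 0) (nat_lit 4962625392) (nat_lit 684) (nat_lit 2503800742) (nat_lit 760) (nat_lit 2152865877) (nat_lit 269) (nat_lit 5) (nat_lit 278) (nat_lit 5) (nat_lit 279) (nat_lit 5) (nat_lit 446) (nat_lit 386) (nat_lit 308)) (XT.nd (nat_lit 78) (nat_lit 0) (nat_lit 0) (XT.lf (nat_lit 0) (nat_lit 341932599) (nat_lit 684) (nat_lit 8332477935) (nat_lit 76) (nat_lit 1042326760) (nat_lit 260) (nat_lit 5) (nat_lit 269) (nat_lit 5) (nat_lit 261) (nat_lit 5) (nat_lit 447) (nat_lit 386) (nat_lit 307)) (XT.lf (nat_lit 0) (nat_lit 2877260270) (nat_lit 684) (nat_lit 2272972462) (nat_lit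 76) (nat_lit 4665231668) (nat_lit 260) (nat_lit 5) (nat_lit 269) (nat_lit 5) (nat_lit 261) (nat_lit 5) (nat_lit 448) (nat_lit 386) (nat_lit 306)))) (XT.nd (nat_lit 78) (nat_lit 684) (nat_lit 0) (XT.lf (nat_lit 0) (nat_lit 3924342204) (nat_lit 608) (nat_lit 1536388646) (nat_lit 684) (nat_lit 4455493069) (nat_lit 252) (nat_lit 5) (nat_lit 260) (nat_lit 5) (nat_lit 261) (nat_lit 5) (nat_lit 449) (nat_lit 386) (nat_lit 305)) (XT.nd (nat_lit 78) (nat_lit 76) (nat_lit 0) (XT.lf (nat_lit 0) (nat_lit 211296919) (nat_lit 608) (nat_lit 7887494341) (nat_lit 684) (nat_lit 1920155424) (nat_lit 244) (nat_lit 5) (nat_lit 252) (nat_lit 5) (nat_lit 253) (nat_lit 5) (nat_lit 450) (nat_lit 386) (nat_lit 304)) (XT.lf (nat_lit 0) (nat_lit 680172368) (nat_lit 684) (nat_lit 3553201903) (nat_lit 76) (nat_lit 5889809050) (nat_lit 243) (nat_lit 5) (nat_lit 252) (nat_lit 5) (nat_lit 244) (nat_lit 5) (nat_lit 451) (nat_lit 386) (nat_lit 303))))) (XT.nd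 (nat_lit 234) (nat_lit 1140) (nat_lit 0) (XT.nd (nat_lit 78) (nat_lit 532) (nat_lit 0) (XT.lf (nat_lit 0) (nat_lit 2815963863) (nat_lit 608) (nat_lit 482047863) (nat_lit 684) (nat_lit 6931420895) (nat_lit 235) (nat_lit 5) (nat_lit 243) (nat_lit 5) (nat_lit 244) (nat_lit 5) (nat_lit 452) (nat_lit 386) (nat_lit 302)) (XT.nd (nat_lit 78) (nat_lit 532) (nat_lit 0) (XT.lf (nat_lit 0) (nat_lit 5987090765) (nat_lit 684) (nat_lit 1033375419) (nat_lit 76) (nat_lit 3316969041) (nat_lit 235) (nat_lit 5) (nat_lit 244) (nat_lit 5) (nat_lit 236) (nat_lit 5) (nat_lit 453) (nat_lit 386) (nat_lit 301)) (XT.lf (nat_lit 0) (nat_lit 5509213539) (nat_lit 532) (nat_lit 3233393489) (nat_lit 608) (nat_lit 1704743596) (nat_lit 228) (nat_lit 5) (nat_lit 235) (nat_lit 5) (nat_lit 236) (nat_lit 5) (nat_lit 454) (nat_lit 386) (nat_lit 300)))) (XT.nd (nat_lit 78) (nat_lit 532) (nat_lit 0) (XT.lf (nat_lit 0) (nat_lit 976223595) (nat_lit 608) (nat_lit 8945949210)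 (nat_lit 76) (nat_lit 637258356) (nat_lit 220) (nat_lit 5) (nat_lit 228) (nat_lit 5) (nat_lit 221) (nat_lit 5) (nat_lit 455) (nat_lit 386) (nat_lit 299)) (XT.nd (nat_lit 78) (nat_lit 532) (nat_lit 0) (XT.lf (nat_lit 0) (nat_lit 3716825626) (nat_lit 608) (nat_lit 2377483597) (nat_lit 76) (nat_lit 4578647398) (nat_lit 220) (nat_lit 5) (nat_lit 228) (nat_lit 5) (nat_lit 221) (nat_lit 5) (nat_lit 456) (nat_lit 386) (nat_lit 298)) (XT.lf (nat_lit 0) (nat_lit 4345478542) (nat_lit 532) (nat_lit 2169534217) (nat_lit 608) (nat_lit 4273689782) (nat_lit 213) (nat_lit 5) (nat_lit 220) (nat_lit 5) (nat_lit 221) (nat_lit 5) (nat_lit 457) (nat_lit 386) (nat_lit 297))))))))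
noncomputable def xc108 : XT := (XT.nd (nat_lit 1716) (nat_lit 4484) (nat_lit 0) (XT.nd (nat_lit 858) (nat_lit 2584) (nat_lit 0) (XT.nd (nat_lit 390) (nat_lit 1976) (nat_lit 0) (XT.nd (nat_lit 156) (nat_lit 988) (nat_lit 0) (XT.nd (nat_lit 78) (nat_lit 76) (nat_lit 0) (XT.lf (nat_lit 0) (nat_lit 286331680) (nat_lit 532) (nat_lit 9087441343) (nat_lit 608) (nat_lit 1532903473) (nat_lit 206) (nat_lit 5) (nat_lit 213) (nat_lit 5) (nat_lit 214) (nat_lit 5) (nat_lit 458) (nat_lit 386) (nat_lit 296)) (XT.lf (nat_lit 0) (nat_lit 1278918464) (nat_lit 608) (nat_lit 3845389174) (nat_lit 76) (nat_lit 5901887817) (nat_lit 205) (nat_lit 5) (nat_lit 213) (nat_lit 5) (nat_lit 206) (nat_lit 5) (nat_lit 459) (nat_lit 386) (nat_lit 295))) (XT.nd (nat_lit 78) (nat_lit 532) (nat_lit 0) (XT.lf (nat_lit 0) (nat_lit 3061527494) (nat_lit 456) (nat_lit 1060201677) (nat_lit 532) (nat_lit 7026272413) (nat_lit 199) (nat_lit 5) (nat_lit 205) (nat_lit 5)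 (nat_lit 206) (nat_lit 5) (nat_lit 460) (nat_lit 386) (nat_lit 294)) (XT.nd (nat_lit 78) (nat_lit 532) (nat_lit 0) (XT.lf (nat_lit 0) (nat_lit 7042992084) (nat_lit 532) (nat_lit 1166973931) (nat_lit 76) (nat_lit 3061850801) (nat_lit 199) (nat_lit 5) (nat_lit 206) (nat_lit 5) (nat_lit 200) (nat_lit 5) (nat_lit 461) (nat_lit 386) (nat_lit 293)) (XT.lf (nat_lit 0) (nat_lit 5928558972) (nat_lit 532) (nat_lit 4115702701) (nat_lit 608) (nat_lit 1353419858) (nat_lit 192) (nat_lit 5) (nat_lit 199) (nat_lit 5) (nat_lit 200) (nat_lit 5) (nat_lit 462) (nat_lit 386) (nat_lit 292))))) (XT.nd (nat_lit 234) (nat_lit 988) (nat_lit 0) (XT.nd (nat_lit 78) (nat_lit 456) (nat_lit 0) (XT.lf (nat_lit 0) (nat_lit 1553953164) (nat_lit 532) (nat_lit 9892650551) (nat_lit 76) (nat_lit 79355833) (nat_lit 185) (nat_lit 5) (nat_lit 192) (nat_lit 5) (nat_lit 186) (nat_lit 5) (nat_lit 463) (nat_lit 386) (nat_lit 291)) (XT.nd (nat_lit 78) (nat_lit 456) (nat_lit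 0) (XT.lf (nat_lit 0) (nat_lit 4541923133) (nat_lit 532) (nat_lit 2773997672) (nat_lit 76) (nat_lit 4339896490) (nat_lit 185) (nat_lit 5) (nat_lit 192) (nat_lit 5) (nat_lit 186) (nat_lit 5) (nat_lit 464) (nat_lit 386) (nat_lit 290)) (XT.lf (nat_lit 0) (nat_lit 4513487444) (nat_lit 456) (nat_lit 3082288030) (nat_lit 532) (nat_lit 4192378704) (nat_lit 179) (nat_lit 5) (nat_lit 185) (nat_lit 5) (nat_lit 186) (nat_lit 5) (nat_lit 465) (nat_lit 386) (nat_lit 289)))) (XT.nd (nat_lit 78) (nat_lit 532) (nat_lit 0) (XT.lf (nat_lit 0) (nat_lit 20761451) (nat_lit 456) (nat_lit 10693841111) (nat_lit 532) (nat_lit 1208461632) (nat_lit 173) (nat_lit 5) (nat_lit 179) (nat_lit 5) (nat_lit 180) (nat_lit 5) (nat_lit 466) (nat_lit 386) (nat_lit 288)) (XT.nd (nat_lit 78) (nat_lit 456) (nat_lit 0) (XT.lf (nat_lit 0) (nat_lit 1857701599) (nat_lit 532) (nat_lit 4564652247) (nat_lit 76) (nat_lit 5637151731) (nat_lit 172) (nat_lit 5) (nat_lit 179) (nat_lit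 5) (nat_lit 173) (nat_lit 5) (nat_lit 467) (nat_lit 386) (nat_lit 287)) (XT.lf (nat_lit 0) (nat_lit 2917647302) (nat_lit 456) (nat_lit 2047850559) (nat_lit 532) (nat_lit 7233092449) (nat_lit 166) (nat_lit 5) (nat_lit 172) (nat_lit 5) (nat_lit 173) (nat_lit 5) (nat_lit 468) (nat_lit 386) (nat_lit 286)))))) (XT.nd (nat_lit 390) (nat_lit 1292) (nat_lit 0) (XT.nd (nat_lit 156) (nat_lit 912) (nat_lit 0) (XT.nd (nat_lit 78) (nat_lit 380) (nat_lit 0) (XT.lf (nat_lit 0) (nat_lit 8159658362) (nat_lit 532) (nat_lit 1776791049) (nat_lit 76) (nat_lit 2403527181) (nat_lit 166) (nat_lit 5) (nat_lit 173) (nat_lit 5) (nat_lit 167) (nat_lit 5) (nat_lit 469) (nat_lit 386) (nat_lit 285)) (XT.lf (nat_lit 0) (nat_lit 5909486226) (nat_lit 380) (nat_lit 5538283351) (nat_lit 456) (nat_lit 1035823614) (nat_lit 161) (nat_lit 5) (nat_lit 166) (nat_lit 5) (nat_lit 167) (nat_lit 5) (nat_lit 470) (nat_lit 386) (nat_lit 284))) (XT.nd (nat_lit 78) (nat_lit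 380) (nat_lit 0) (XT.lf (nat_lit 0) (nat_lit 1112154962) (nat_lit 456) (nat_lit 1028361612) (nat_lit 532) (nat_lit 10489338629) (nat_lit 154) (nat_lit 5) (nat_lit 160) (nat_lit 5) (nat_lit 161) (nat_lit 5) (nat_lit 471) (nat_lit 386) (nat_lit 283)) (XT.nd (nat_lit 78) (nat_lit 380) (nat_lit 0) (XT.lf (nat_lit 0) (nat_lit 5412492673) (nat_lit 532) (nat_lit 3799387987) (nat_lit 76) (nat_lit 3566109000) (nat_lit 154) (nat_lit 5) (nat_lit 161) (nat_lit 5) (nat_lit 155) (nat_lit 5) (nat_lit 472) (nat_lit 386) (nat_lit 282)) (XT.lf (nat_lit 0) (nat_lit 4088591427) (nat_lit 380) (nat_lit 4673464933) (nat_lit 456) (nat_lit 4166791125) (nat_lit 149) (nat_lit 5) (nat_lit 154) (nat_lit 5) (nat_lit 155) (nat_lit 5) (nat_lit 473) (nat_lit 386) (nat_lit 281))))) (XT.nd (nat_lit 234) (nat_lit 456) (nat_lit 0) (XT.nd (nat_lit 78) (nat_lit 836) (nat_lit 0) (XT.lf (nat_lit 0) (nat_lit 12154528091) (nat_lit 380) (nat_lit 28583601) (nat_lit 456)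 (nat_lit 899524338) (nat_lit 149) (nat_lit 5) (nat_lit 154) (nat_lit 5) (nat_lit 155) (nat_lit 5) (nat_lit 474) (nat_lit 386) (nat_lit 280)) (XT.nd (nat_lit 78) (nat_lit 380) (nat_lit 0) (XT.lf (nat_lit 0) (nat_lit 2458057278) (nat_lit 456) (nat_lit 6079778618) (nat_lit 76) (nat_lit 4700214339) (nat_lit 143) (nat_lit 5) (nat_lit 149) (nat_lit 5) (nat_lit 144) (nat_lit 5) (nat_lit 475) (nat_lit 386) (nat_lit 279)) (XT.lf (nat_lit 0) (nat_lit 2011593609) (nat_lit 380) (nat_lit 3858099221) (nat_lit 456) (nat_lit 7526785403) (nat_lit 138) (nat_lit 5) (nat_lit 143) (nat_lit 5) (nat_lit 144) (nat_lit 5) (nat_lit 476) (nat_lit 386) (nat_lit 278)))) (XT.nd (nat_lit 78) (nat_lit 456) (nat_lit 0) (XT.lf (nat_lit 0) (nat_lit 9376123108) (nat_lit 456) (nat_lit 3247515396) (nat_lit 76) (nat_lit 933908345) (nat_lit 138) (nat_lit 5) (nat_lit 144) (nat_lit 5) (nat_lit 139) (nat_lit 5) (nat_lit 477) (nat_lit 386) (nat_lit 277)) (XT.nd (nat_lit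 78) (nat_lit 76) (nat_lit 0) (XT.lf (nat_lit 0) (nat_lit 5062812974) (nat_lit 380) (nat_lit 7928242460) (nat_lit 456) (nat_lit 730017167) (nat_lit 133) (nat_lit 5) (nat_lit 138) (nat_lit 5) (nat_lit 139) (nat_lit 5) (nat_lit 478) (nat_lit 386) (nat_lit 276)) (XT.lf (nat_lit 0) (nat_lit 2755770431) (nat_lit 456) (nat_lit 353030526) (nat_lit 76) (nat_lit 10778669681) (nat_lit 132) (nat_lit 5) (nat_lit 138) (nat_lit 5) (nat_lit 133) (nat_lit 5) (nat_lit 479) (nat_lit 386) (nat_lit 275))))))) (XT.nd (nat_lit 858) (nat_lit 2052) (nat_lit 0) (XT.nd (nat_lit 390) (nat_lit 1368) (nat_lit 0) (XT.nd (nat_lit 156) (nat_lit 380) (nat_lit 0) (XT.nd (nat_lit 78) (nat_lit 380) (nat_lit 0) (XT.lf (nat_lit 0) (nat_lit 6347141209) (nat_lit 380) (nat_lit 5877690153) (nat_lit 76) (nat_lit 1831358964) (nat_lit 128) (nat_lit 5) (nat_lit 133) (nat_lit 5) (nat_lit 129) (nat_lit 5) (nat_lit 480) (nat_lit 386) (nat_lit 274)) (XT.lf (nat_lit 0) (nat_lit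 2641015899) (nat_lit 380) (nat_lit 7389970183) (nat_lit 456) (nat_lit 4196888381) (nat_lit 123) (nat_lit 5) (nat_lit 128) (nat_lit 5) (nat_lit 129) (nat_lit 5) (nat_lit 481) (nat_lit 386) (nat_lit 273))) (XT.nd (nat_lit 78) (nat_lit 380) (nat_lit 0) (XT.lf (nat_lit 0) (nat_lit 11379740971) (nat_lit 380) (nat_lit 2428922795) (nat_lit 456) (nat_lit 593928326) (nat_lit 123) (nat_lit 5) (nat_lit 128) (nat_lit 5) (nat_lit 129) (nat_lit 5) (nat_lit 482) (nat_lit 386) (nat_lit 272)) (XT.nd (nat_lit 78) (nat_lit 0) (nat_lit 0) (XT.lf (nat_lit 0) (nat_lit 3076294777) (nat_lit 380) (nat_lit 8859445836) (nat_lit 76) (nat_lit 2643953928) (nat_lit 118) (nat_lit 5) (nat_lit 123) (nat_lit 5) (nat_lit 119) (nat_lit 5) (nat_lit 483) (nat_lit 386) (nat_lit 271)) (XT.lf (nat_lit 0) (nat_lit 6829558157) (nat_lit 380) (nat_lit 130711592) (nat_lit 76) (nat_lit 7799641762) (nat_lit 118) (nat_lit 5) (nat_lit 123) (nat_lit 5) (nat_lit 119) (nat_lit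 5) (nat_lit 484) (nat_lit 386) (nat_lit 270))))) (XT.nd (nat_lit 234) (nat_lit 608) (nat_lit 0) (XT.nd (nat_lit 78) (nat_lit 380) (nat_lit 0) (XT.lf (nat_lit 0) (nat_lit 8859565557) (nat_lit 380) (nat_lit 1837290717) (nat_lit 456) (nat_lit 4246099864) (nat_lit 113) (nat_lit 5) (nat_lit 118) (nat_lit 5) (nat_lit 119) (nat_lit 5) (nat_lit 485) (nat_lit 386) (nat_lit 269)) (XT.nd (nat_lit 78) (nat_lit 76) (nat_lit 0) (XT.lf (nat_lit 0) (nat_lit 2888317554) (nat_lit 304) (nat_lit 11776370099) (nat_lit 380) (nat_lit 464512910) (nat_lit 109) (nat_lit 5) (nat_lit 113) (nat_lit 5) (nat_lit 114) (nat_lit 5) (nat_lit 486) (nat_lit 386) (nat_lit 268)) (XT.lf (nat_lit 0) (nat_lit 3383072697) (nat_lit 380) (nat_lit 3260286498) (nat_lit 76) (nat_lit 8674675421) (nat_lit 108) (nat_lit 5) (nat_lit 113) (nat_lit 5) (nat_lit 109) (nat_lit 5) (nat_lit 487) (nat_lit 386) (nat_lit 267)))) (XT.nd (nat_lit 78) (nat_lit 304) (nat_lit 0) (XT.lf (nat_lit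 0) (nat_lit 5946015672) (nat_lit 304) (nat_lit 1375948818) (nat_lit 380) (nat_lit 8188210464) (nat_lit 104) (nat_lit 5) (nat_lit 108) (nat_lit 5) (nat_lit 109) (nat_lit 5) (nat_lit 488) (nat_lit 386) (nat_lit 266)) (XT.nd (nat_lit 78) (nat_lit 304) (nat_lit 0) (XT.lf (nat_lit 0) (nat_lit 11369668197) (nat_lit 380) (nat_lit 380090979) (nat_lit 76) (nat_lit 3955800692) (nat_lit 104) (nat_lit 5) (nat_lit 109) (nat_lit 5) (nat_lit 105) (nat_lit 5) (nat_lit 489) (nat_lit 386) (nat_lit 265)) (XT.lf (nat_lit 0) (nat_lit 9069143282) (nat_lit 304) (nat_lit 6479590588) (nat_lit 380) (nat_lit 355112855) (nat_lit 100) (nat_lit 5) (nat_lit 104) (nat_lit 5) (nat_lit 105) (nat_lit 5) (nat_lit 490) (nat_lit 386) (nat_lit 264)))))) (XT.nd (nat_lit 468) (nat_lit 836) (nat_lit 0) (XT.nd (nat_lit 234) (nat_lit 608) (nat_lit 0) (XT.nd (nat_lit 78) (nat_lit 228) (nat_lit 0) (XT.lf (nat_lit 0) (nat_lit 2587937822) (nat_lit 304) (nat_lit 1070575435)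 (nat_lit 380) (nat_lit 12447070686) (nat_lit 95) (nat_lit 5) (nat_lit 99) (nat_lit 5) (nat_lit 100) (nat_lit 5) (nat_lit 491) (nat_lit 386) (nat_lit 263)) (XT.nd (nat_lit 78) (nat_lit 228) (nat_lit 0) (XT.lf (nat_lit 0) (nat_lit 7805247560) (nat_lit 380) (nat_lit 4078774750) (nat_lit 76) (nat_lit 4426137101) (nat_lit 95) (nat_lit 5) (nat_lit 100) (nat_lit 5) (nat_lit 96) (nat_lit 5) (nat_lit 492) (nat_lit 386) (nat_lit 262)) (XT.lf (nat_lit 0) (nat_lit 5587130599) (nat_lit 228) (nat_lit 6474040995) (nat_lit 304) (nat_lit 4457131912) (nat_lit 92) (nat_lit 5) (nat_lit 95) (nat_lit 5) (nat_lit 96) (nat_lit 5) (nat_lit 493) (nat_lit 386) (nat_lit 261)))) (XT.nd (nat_lit 78) (nat_lit 608) (nat_lit 0) (XT.lf (nat_lit 0) (nat_lit 15473896899) (nat_lit 228) (nat_lit 938733070) (nat_lit 304) (nat_lit 317774373) (nat_lit 92) (nat_lit 5) (nat_lit 95) (nat_lit 5) (nat_lit 96) (nat_lit 5) (nat_lit 494) (nat_lit 386) (nat_lit 260)) (XT.nd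 (nat_lit 78) (nat_lit 228) (nat_lit 0) (XT.lf (nat_lit 0) (nat_lit 3923771733) (nat_lit 380) (nat_lit 8303866926) (nat_lit 76) (nat_lit 4717191474) (nat_lit 87) (nat_lit 5) (nat_lit 92) (nat_lit 5) (nat_lit 88) (nat_lit 5) (nat_lit 495) (nat_lit 386) (nat_lit 259)) (XT.lf (nat_lit 0) (nat_lit 1574806022) (nat_lit 228) (nat_lit 6679368242) (nat_lit 304) (nat_lit 8909164606) (nat_lit 84) (nat_lit 5) (nat_lit 87) (nat_lit 5) (nat_lit 88) (nat_lit 5) (nat_lit 496) (nat_lit 386) (nat_lit 258))))) (XT.nd (nat_lit 234) (nat_lit 456) (nat_lit 0) (XT.nd (nat_lit 78) (nat_lit 380) (nat_lit 0) (XT.lf (nat_lit 0) (nat_lit 11736284002) (nat_lit 228) (nat_lit 974120637) (nat_lit 304) (nat_lit 4675030758) (nat_lit 84) (nat_lit 5) (nat_lit 87) (nat_lit 5) (nat_lit 88) (nat_lit 5) (nat_lit 497) (nat_lit 386) (nat_lit 257)) (XT.nd (nat_lit 78) (nat_lit 76) (nat_lit 0) (XT.lf (nat_lit 0) (nat_lit 4489388045) (nat_lit 304) (nat_lit 12810729284)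 (nat_lit 380) (nat_lit 310971342) (nat_lit 80) (nat_lit 5) (nat_lit 84) (nat_lit 5) (nat_lit 85) (nat_lit 5) (nat_lit 498) (nat_lit 386) (nat_lit 256)) (XT.lf (nat_lit 0) (nat_lit 4114465269) (nat_lit 380) (nat_lit 2993896742) (nat_lit 76) (nat_lit 10731789300) (nat_lit 79) (nat_lit 5) (nat_lit 84) (nat_lit 5) (nat_lit 80) (nat_lit 5) (nat_lit 499) (nat_lit 386) (nat_lit 255)))) (XT.nd (nat_lit 78) (nat_lit 228) (nat_lit 0) (XT.lf (nat_lit 0) (nat_lit 7404962683) (nat_lit 228) (nat_lit 1251470486) (nat_lit 304) (nat_lit 9416679052) (nat_lit 76) (nat_lit 5) (nat_lit 79) (nat_lit 5) (nat_lit 80) (nat_lit 5) (nat_lit 500) (nat_lit 386) (nat_lit 254)) (XT.nd (nat_lit 78) (nat_lit 228) (nat_lit 0) (XT.lf (nat_lit 0) (nat_lit 13324302090) (nat_lit 304) (nat_lit 315374940) (nat_lit 76) (nat_lit 4670355906) (nat_lit 76) (nat_lit 5) (nat_lit 80) (nat_lit 5) (nat_lit 77) (nat_lit 5) (nat_lit 501) (nat_lit 386) (nat_lit 253)) (XT.lf (nat_lit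 0) (nat_lit 10345744024) (nat_lit 228) (nat_lit 7799729959) (nat_lit 304) (nat_lit 405020956) (nat_lit 73) (nat_lit 5) (nat_lit 76) (nat_lit 5) (nat_lit 77) (nat_lit 5) (nat_lit 502) (nat_lit 386) (nat_lit 252))))))))
noncomputable def xc109 : XT := (XT.nd (nat_lit 51792) (nat_lit 0) (nat_lit 24092) (XT.nd (nat_lit 50934) (nat_lit 0) (nat_lit 42636) (XT.nd (nat_lit 50466) (nat_lit 0) (nat_lit 45980) (XT.nd (nat_lit 156) (nat_lit 228) (nat_lit 0) (XT.nd (nat_lit 78) (nat_lit 0) (nat_lit 0) (XT.lf (nat_lit 0) (nat_lit 2406330565) (nat_lit 228) (nat_lit 1807278456) (nat_lit 304) (nat_lit 14581559308) (nat_lit 69) (nat_lit 5) (nat_lit 72) (nat_lit 5) (nat_lit 73) (nat_lit 5) (nat_lit 503) (nat_lit 386) (nat_lit 251)) (XT.lf (nat_lit 0) (nat_lit 8987151742) (nat_lit 304) (nat_lit 5759993557) (nat_lit 76) (nat_lit 4296178757) (nat_lit 69) (nat_lit 5) (nat_lit 73) (nat_lit 5) (nat_lit 70) (nat_lit 5) (nat_lit 504) (nat_lit 386) (nat_lit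 250))) (XT.nd (nat_lit 50154) (nat_lit 0) (nat_lit 47272) (XT.lf (nat_lit 0) (nat_lit 5110788866) (nat_lit 228) (nat_lit 8775414505) (nat_lit 304) (nat_lit 5409640417) (nat_lit 66) (nat_lit 5) (nat_lit 69) (nat_lit 5) (nat_lit 70) (nat_lit 5) (nat_lit 505) (nat_lit 386) (nat_lit 249)) (XT.nd (nat_lit 78) (nat_lit 0) (nat_lit 0) (XT.lf (nat_lit 0) (nat_lit 182749215) (nat_lit 0) (nat_lit 182749215) (nat_lit 532) (nat_lit 2902780862) (nat_lit 688) (nat_lit 5) (nat_lit 688) (nat_lit 3) (nat_lit 695) (nat_lit 3) (nat_lit 387) (nat_lit 387) (nat_lit 366)) (XT.lf (nat_lit 0) (nat_lit 3252149068) (nat_lit 532) (nat_lit 2979085618) (nat_lit 608) (nat_lit 319257337) (nat_lit 688) (nat_lit 5) (nat_lit 695) (nat_lit 3) (nat_lit 696) (nat_lit 5) (nat_lit 388) (nat_lit 387) (nat_lit 365))))) (XT.nd (nat_lit 234) (nat_lit 684) (nat_lit 0) (XT.nd (nat_lit 78) (nat_lit 608) (nat_lit 0) (XT.lf (nat_lit 76) (nat_lit 242990953) (nat_lit 0) (nat_lit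 5519061530) (nat_lit 608) (nat_lit 803915384) (nat_lit 689) (nat_lit 5) (nat_lit 688) (nat_lit 5) (nat_lit 696) (nat_lit 5) (nat_lit 389) (nat_lit 387) (nat_lit 364)) (XT.nd (nat_lit 78) (nat_lit 0) (nat_lit 0) (XT.lf (nat_lit 0) (nat_lit 1672636613) (nat_lit 608) (nat_lit 3058064867) (nat_lit 684) (nat_lit 1851753649) (nat_lit 680) (nat_lit 5) (nat_lit 688) (nat_lit 5) (nat_lit 689) (nat_lit 5) (nat_lit 390) (nat_lit 387) (nat_lit 363)) (XT.lf (nat_lit 76) (nat_lit 235428203) (nat_lit 0) (nat_lit 3890279288) (nat_lit 684) (nat_lit 2474731878) (nat_lit 681) (nat_lit 5) (nat_lit 680) (nat_lit 5) (nat_lit 689) (nat_lit 5) (nat_lit 391) (nat_lit 387) (nat_lit 362)))) (XT.nd (nat_lit 78) (nat_lit 684) (nat_lit 0) (XT.lf (nat_lit 76) (nat_lit 3601989898) (nat_lit 0) (nat_lit 2983613074) (nat_lit 684) (nat_lit 34053055) (nat_lit 681) (nat_lit 5) (nat_lit 680) (nat_lit 5) (nat_lit 689) (nat_lit 5) (nat_lit 392) (nat_lit 387) (nat_lit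 361)) (XT.nd (nat_lit 78) (nat_lit 0) (nat_lit 0) (XT.lf (nat_lit 76) (nat_lit 350852143) (nat_lit 0) (nat_lit 2012699592) (nat_lit 760) (nat_lit 4276607026) (nat_lit 672) (nat_lit 5) (nat_lit 671) (nat_lit 5) (nat_lit 681) (nat_lit 5) (nat_lit 393) (nat_lit 387) (nat_lit 360)) (XT.lf (nat_lit 76) (nat_lit 3793211243) (nat_lit 0) (nat_lit 974721287) (nat_lit 760) (nat_lit 1893975302) (nat_lit 672) (nat_lit 5) (nat_lit 671) (nat_lit 5) (nat_lit 681) (nat_lit 5) (nat_lit 394) (nat_lit 387) (nat_lit 359)))))) (XT.nd (nat_lit 390) (nat_lit 1824) (nat_lit 0) (XT.nd (nat_lit 156) (nat_lit 836) (nat_lit 0) (XT.nd (nat_lit 78) (nat_lit 0) (nat_lit 0) (XT.lf (nat_lit 0) (nat_lit 473673956) (nat_lit 760) (nat_lit 6095712958) (nat_lit 836) (nat_lit 115772712) (nat_lit 662) (nat_lit 5) (nat_lit 672) (nat_lit 5) (nat_lit 673) (nat_lit 5) (nat_lit 395) (nat_lit 387) (nat_lit 358)) (XT.lf (nat_lit 0) (nat_lit 2830099187) (nat_lit 760) (nat_lit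 2607485589) (nat_lit 836) (nat_lit 1271730491) (nat_lit 662) (nat_lit 5) (nat_lit 672) (nat_lit 5) (nat_lit 673) (nat_lit 5) (nat_lit 396) (nat_lit 387) (nat_lit 357))) (XT.nd (nat_lit 78) (nat_lit 836) (nat_lit 0) (XT.lf (nat_lit 76) (nat_lit 927864260) (nat_lit 0) (nat_lit 4253897825) (nat_lit 836) (nat_lit 1553254124) (nat_lit 663) (nat_lit 5) (nat_lit 662) (nat_lit 5) (nat_lit 673) (nat_lit 5) (nat_lit 397) (nat_lit 387) (nat_lit 356)) (XT.nd (nat_lit 78) (nat_lit 0) (nat_lit 0) (XT.lf (nat_lit 0) (nat_lit 768691062) (nat_lit 836) (nat_lit 2232418263) (nat_lit 912) (nat_lit 3760834726) (nat_lit 651) (nat_lit 5) (nat_lit 662) (nat_lit 5) (nat_lit 663) (nat_lit 5) (nat_lit 398) (nat_lit 387) (nat_lit 355)) (XT.lf (nat_lit 76) (nat_lit 1387039962) (nat_lit 0) (nat_lit 1681982558) (nat_lit 912) (nat_lit 3721150648) (nat_lit 652) (nat_lit 5) (nat_lit 651) (nat_lit 5) (nat_lit 663) (nat_lit 5) (nat_lit 399) (nat_lit 387) (nat_lit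 354))))) (XT.nd (nat_lit 234) (nat_lit 988) (nat_lit 0) (XT.nd (nat_lit 78) (nat_lit 836) (nat_lit 0) (XT.lf (nat_lit 76) (nat_lit 5074701532) (nat_lit 0) (nat_lit 300240061) (nat_lit 912) (nat_lit 1444856170) (nat_lit 652) (nat_lit 5) (nat_lit 651) (nat_lit 5) (nat_lit 663) (nat_lit 5) (nat_lit 400) (nat_lit 387) (nat_lit 353)) (XT.nd (nat_lit 78) (nat_lit 0) (nat_lit 0) (XT.lf (nat_lit 0) (nat_lit 831024355) (nat_lit 912) (nat_lit 4886467656) (nat_lit 988) (nat_lit 1133119371) (nat_lit 640) (nat_lit 5) (nat_lit 652) (nat_lit 5) (nat_lit 653) (nat_lit 5) (nat_lit 401) (nat_lit 387) (nat_lit 352)) (XT.lf (nat_lit 0) (nat_lit 3093152184) (nat_lit 912) (nat_lit 1157735702) (nat_lit 988) (nat_lit 2631782068) (nat_lit 640) (nat_lit 5) (nat_lit 652) (nat_lit 5) (nat_lit 653) (nat_lit 5) (nat_lit 402) (nat_lit 387) (nat_lit 351)))) (XT.nd (nat_lit 78) (nat_lit 988) (nat_lit 0) (XT.lf (nat_lit 76) (nat_lit 2645444925) (nat_lit 0) (nat_lit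 2719588746) (nat_lit 988) (nat_lit 1551066607) (nat_lit 641) (nat_lit 5) (nat_lit 640) (nat_lit 5) (nat_lit 653) (nat_lit 5) (nat_lit 403) (nat_lit 387) (nat_lit 350)) (XT.nd (nat_lit 78) (nat_lit 0) (nat_lit 76) (XT.lf (nat_lit 0) (nat_lit 678151337) (nat_lit 988) (nat_lit 449772665) (nat_lit 1064) (nat_lit 5823088125) (nat_lit 627) (nat_lit 5) (nat_lit 640) (nat_lit 5) (nat_lit 641) (nat_lit 5) (nat_lit 404) (nat_lit 387) (nat_lit 349)) (XT.lf (nat_lit 0) (nat_lit 2905935156) (nat_lit 988) (nat_lit 3542693155) (nat_lit 76) (nat_lit 538313448) (nat_lit 628) (nat_lit 5) (nat_lit 641) (nat_lit 5) (nat_lit 629) (nat_lit 5) (nat_lit 405) (nat_lit 387) (nat_lit 348))))))) (XT.nd (nat_lit 858) (nat_lit 11324) (nat_lit 0) (XT.nd (nat_lit 390) (nat_lit 4028) (nat_lit 0) (XT.nd (nat_lit 156) (nat_lit 2204) (nat_lit 0) (XT.nd (nat_lit 78) (nat_lit 76) (nat_lit 0) (XT.lf (nat_lit 0) (nat_lit 360437038) (nat_lit 988) (nat_lit 4780373917)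 (nat_lit 1064) (nat_lit 1883547519) (nat_lit 615) (nat_lit 5) (nat_lit 628) (nat_lit 5) (nat_lit 629) (nat_lit 5) (nat_lit 406) (nat_lit 387) (nat_lit 347)) (XT.lf (nat_lit 0) (nat_lit 327196975) (nat_lit 1064) (nat_lit 2710842895) (nat_lit 76) (nat_lit 4024975064) (nat_lit 614) (nat_lit 5) (nat_lit 628) (nat_lit 5) (nat_lit 615) (nat_lit 5) (nat_lit 407) (nat_lit 387) (nat_lit 346))) (XT.nd (nat_lit 78) (nat_lit 1140) (nat_lit 0) (XT.lf (nat_lit 0) (nat_lit 1290487682) (nat_lit 1064) (nat_lit 1225927570) (nat_lit 1140) (nat_lit 4586608783) (nat_lit 600) (nat_lit 5) (nat_lit 614) (nat_lit 5) (nat_lit 615) (nat_lit 5) (nat_lit 408) (nat_lit 387) (nat_lit 345)) (XT.nd (nat_lit 78) (nat_lit 1140) (nat_lit 0) (XT.lf (nat_lit 0) (nat_lit 4723665371) (nat_lit 1140) (nat_lit 1775135853) (nat_lit 76) (nat_lit 645564899) (nat_lit 600) (nat_lit 5) (nat_lit 615) (nat_lit 5) (nat_lit 601) (nat_lit 5) (nat_lit 409) (nat_lit 387) (nat_lit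 344)) (XT.lf (nat_lit 0) (nat_lit 2330065177) (nat_lit 1140) (nat_lit 4621080224) (nat_lit 1216) (nat_lit 235885359) (nat_lit 585) (nat_lit 5) (nat_lit 600) (nat_lit 5) (nat_lit 601) (nat_lit 5) (nat_lit 410) (nat_lit 387) (nat_lit 343))))) (XT.nd (nat_lit 234) (nat_lit 1444) (nat_lit 0) (XT.nd (nat_lit 78) (nat_lit 2508) (nat_lit 0) (XT.lf (nat_lit 0) (nat_lit 1931693465) (nat_lit 1216) (nat_lit 737687836) (nat_lit 76) (nat_lit 4561621353) (nat_lit 584) (nat_lit 5) (nat_lit 600) (nat_lit 5) (nat_lit 585) (nat_lit 5) (nat_lit 411) (nat_lit 387) (nat_lit 342)) (XT.nd (nat_lit 78) (nat_lit 1292) (nat_lit 0) (XT.lf (nat_lit 0) (nat_lit 3472868735) (nat_lit 1216) (nat_lit 643274991) (nat_lit 1292) (nat_lit 3160161910) (nat_lit 568) (nat_lit 5) (nat_lit 584) (nat_lit 5) (nat_lit 585) (nat_lit 5) (nat_lit 412) (nat_lit 387) (nat_lit 341)) (XT.lf (nat_lit 0) (nat_lit 415547960) (nat_lit 1292) (nat_lit 5900524956) (nat_lit 1368) (nat_lit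 1007022046) (nat_lit 551) (nat_lit 5) (nat_lit 568) (nat_lit 5) (nat_lit 569) (nat_lit 5) (nat_lit 413) (nat_lit 387) (nat_lit 340)))) (XT.nd (nat_lit 78) (nat_lit 1368) (nat_lit 0) (XT.lf (nat_lit 0) (nat_lit 1158747597) (nat_lit 1368) (nat_lit 2648213615) (nat_lit 76) (nat_lit 3564016632) (nat_lit 550) (nat_lit 5) (nat_lit 568) (nat_lit 5) (nat_lit 551) (nat_lit 5) (nat_lit 414) (nat_lit 387) (nat_lit 339)) (XT.nd (nat_lit 78) (nat_lit 0) (nat_lit 0) (XT.lf (nat_lit 0) (nat_lit 1676107083) (nat_lit 1368) (nat_lit 1645225851) (nat_lit 1444) (nat_lit 4099027788) (nat_lit 532) (nat_lit 5) (nat_lit 550) (nat_lit 5) (nat_lit 551) (nat_lit 5) (nat_lit 415) (nat_lit 387) (nat_lit 338)) (XT.lf (nat_lit 0) (nat_lit 5505466004) (nat_lit 1444) (nat_lit 1387527844) (nat_lit 76) (nat_lit 578186344) (nat_lit 532) (nat_lit 5) (nat_lit 551) (nat_lit 5) (nat_lit 533) (nat_lit 5) (nat_lit 416) (nat_lit 387) (nat_lit 337)))))) (XT.nd (nat_lit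 468) (nat_lit 4940) (nat_lit 0) (XT.nd (nat_lit 234) (nat_lit 3344) (nat_lit 0) (XT.nd (nat_lit 78) (nat_lit 1520) (nat_lit 0) (XT.lf (nat_lit 0) (nat_lit 195734801) (nat_lit 1520) (nat_lit 4474616072) (nat_lit 76) (nat_lit 2852887619) (nat_lit 512) (nat_lit 5) (nat_lit 532) (nat_lit 5) (nat_lit 513) (nat_lit 5) (nat_lit 417) (nat_lit 387) (nat_lit 336)) (XT.nd (nat_lit 78) (nat_lit 1520) (nat_lit 0) (XT.lf (nat_lit 0) (nat_lit 2341421172) (nat_lit 1520) (nat_lit 32768360) (nat_lit 76) (nat_lit 5202555971) (nat_lit 512) (nat_lit 5) (nat_lit 532) (nat_lit 5) (nat_lit 513) (nat_lit 5) (nat_lit 418) (nat_lit 387) (nat_lit 335)) (XT.lf (nat_lit 0) (nat_lit 4518164149) (nat_lit 1596) (nat_lit 3109513604) (nat_lit 76) (nat_lit 3895768) (nat_lit 492) (nat_lit 5) (nat_lit 513) (nat_lit 5) (nat_lit 493) (nat_lit 5) (nat_lit 419) (nat_lit 387) (nat_lit 334)))) (XT.nd (nat_lit 78) (nat_lit 1748) (nat_lit 0) (XT.lf (nat_lit 0) (nat_lit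 1448436095) (nat_lit 1596) (nat_lit 5274730832) (nat_lit 1672) (nat_lit 964650128) (nat_lit 471) (nat_lit 5) (nat_lit 492) (nat_lit 5) (nat_lit 493) (nat_lit 5) (nat_lit 420) (nat_lit 387) (nat_lit 333)) (XT.nd (nat_lit 78) (nat_lit 1672) (nat_lit 0) (XT.lf (nat_lit 0) (nat_lit 1191659324) (nat_lit 1672) (nat_lit 1649263026) (nat_lit 76) (nat_lit 4904503333) (nat_lit 470) (nat_lit 5) (nat_lit 492) (nat_lit 5) (nat_lit 471) (nat_lit 5) (nat_lit 421) (nat_lit 387) (nat_lit 332)) (XT.lf (nat_lit 0) (nat_lit 3030639049) (nat_lit 1672) (nat_lit 327682945) (nat_lit 1748) (nat_lit 4446146769) (nat_lit 448) (nat_lit 5) (nat_lit 470) (nat_lit 5) (nat_lit 471) (nat_lit 5) (nat_lit 422) (nat_lit 387) (nat_lit 331))))) (XT.nd (nat_lit 234) (nat_lit 1824) (nat_lit 0) (XT.nd (nat_lit 78) (nat_lit 3116) (nat_lit 0) (XT.lf (nat_lit 0) (nat_lit 5555002009) (nat_lit 1748) (nat_lit 88527573) (nat_lit 76) (nat_lit 2221441871) (nat_lit 448) (nat_lit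 5) (nat_lit 471) (nat_lit 5) (nat_lit 449) (nat_lit 5) (nat_lit 423) (nat_lit 387) (nat_lit 330)) (XT.nd (nat_lit 78) (nat_lit 1368) (nat_lit 0) (XT.lf (nat_lit 0) (nat_lit 4714890446) (nat_lit 1748) (nat_lit 3075298574) (nat_lit 1824) (nat_lit 136615895) (nat_lit 425) (nat_lit 5) (nat_lit 448) (nat_lit 5) (nat_lit 449) (nat_lit 5) (nat_lit 424) (nat_lit 387) (nat_lit 329)) (XT.lf (nat_lit 0) (nat_lit 1597615899) (nat_lit 1292) (nat_lit 428328880) (nat_lit 1368) (nat_lit 5964211415) (nat_lit 407) (nat_lit 5) (nat_lit 424) (nat_lit 5) (nat_lit 425) (nat_lit 5) (nat_lit 425) (nat_lit 387) (nat_lit 328)))) (XT.nd (nat_lit 78) (nat_lit 1824) (nat_lit 0) (XT.lf (nat_lit 0) (nat_lit 4228954262) (nat_lit 1368) (nat_lit 1559345224) (nat_lit 76) (nat_lit 2266487897) (nat_lit 407) (nat_lit 5) (nat_lit 425) (nat_lit 5) (nat_lit 408) (nat_lit 5) (nat_lit 426) (nat_lit 387) (nat_lit 327)) (XT.nd (nat_lit 78) (nat_lit 912) (nat_lit 0) (XT.lf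 (nat_lit 0) (nat_lit 3376588228) (nat_lit 912) (nat_lit 3087509282) (nat_lit 988) (nat_lit 1656863472) (nat_lit 395) (nat_lit 5) (nat_lit 407) (nat_lit 5) (nat_lit 408) (nat_lit 5) (nat_lit 427) (nat_lit 387) (nat_lit 326)) (XT.lf (nat_lit 0) (nat_lit 207539034) (nat_lit 836) (nat_lit 316096542) (nat_lit 912) (nat_lit 7665252463) (nat_lit 383) (nat_lit 5) (nat_lit 394) (nat_lit 5) (nat_lit 395) (nat_lit 5) (nat_lit 428) (nat_lit 387) (nat_lit 325))))))))
noncomputable def xc110 : XT := (XT.nd (nat_lit 1716) (nat_lit 7448) (nat_lit 0) (XT.nd (nat_lit 858) (nat_lit 4940) (nat_lit 0) (XT.nd (nat_lit 390) (nat_lit 2356) (nat_lit 0) (XT.nd (nat_lit 156) (nat_lit 1748) (nat_lit 0) (XT.nd (nat_lit 78) (nat_lit 912) (nat_lit 0) (XT.lf (nat_lit 0) (nat_lit 2737972338) (nat_lit 912) (nat_lit 2998356395) (nat_lit 76) (nat_lit 2521388213) (nat_lit 383) (nat_lit 5) (nat_lit 395) (nat_lit 5) (nat_lit 384) (nat_lit 5) (nat_lit 429) (nat_lit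 387) (nat_lit 324)) (XT.lf (nat_lit 0) (nat_lit 2073976904) (nat_lit 912) (nat_lit 2902925854) (nat_lit 988) (nat_lit 3351423936) (nat_lit 371) (nat_lit 5) (nat_lit 383) (nat_lit 5) (nat_lit 384) (nat_lit 5) (nat_lit 430) (nat_lit 387) (nat_lit 323))) (XT.nd (nat_lit 78) (nat_lit 1748) (nat_lit 0) (XT.lf (nat_lit 0) (nat_lit 7245990153) (nat_lit 988) (nat_lit 1147492316) (nat_lit 76) (nat_lit 7168797) (nat_lit 371) (nat_lit 5) (nat_lit 384) (nat_lit 5) (nat_lit 372) (nat_lit 5) (nat_lit 431) (nat_lit 387) (nat_lit 322)) (XT.nd (nat_lit 78) (nat_lit 836) (nat_lit 0) (XT.lf (nat_lit 0) (nat_lit 1083336837) (nat_lit 912) (nat_lit 4420993145) (nat_lit 76) (nat_lit 2969730257) (nat_lit 359) (nat_lit 5) (nat_lit 371) (nat_lit 5) (nat_lit 360) (nat_lit 5) (nat_lit 432) (nat_lit 387) (nat_lit 321)) (XT.lf (nat_lit 0) (nat_lit 791672616) (nat_lit 836) (nat_lit 2537966422) (nat_lit 912) (nat_lit 5219575211) (nat_lit 348) (nat_lit 5) (nat_lit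 359) (nat_lit 5) (nat_lit 360) (nat_lit 5) (nat_lit 433) (nat_lit 387) (nat_lit 320))))) (XT.nd (nat_lit 234) (nat_lit 1520) (nat_lit 0) (XT.nd (nat_lit 78) (nat_lit 836) (nat_lit 0) (XT.lf (nat_lit 0) (nat_lit 5620422048) (nat_lit 912) (nat_lit 2495977582) (nat_lit 76) (nat_lit 509490034) (nat_lit 348) (nat_lit 5) (nat_lit 360) (nat_lit 5) (nat_lit 349) (nat_lit 5) (nat_lit 434) (nat_lit 387) (nat_lit 319)) (XT.nd (nat_lit 78) (nat_lit 76) (nat_lit 0) (XT.lf (nat_lit 0) (nat_lit 2856318307) (nat_lit 760) (nat_lit 5103236103) (nat_lit 836) (nat_lit 744502741) (nat_lit 338) (nat_lit 5) (nat_lit 348) (nat_lit 5) (nat_lit 349) (nat_lit 5) (nat_lit 435) (nat_lit 387) (nat_lit 318)) (XT.lf (nat_lit 0) (nat_lit 1525434056) (nat_lit 836) (nat_lit 479573683) (nat_lit 76) (nat_lit 6778901648) (nat_lit 337) (nat_lit 5) (nat_lit 348) (nat_lit 5) (nat_lit 338) (nat_lit 5) (nat_lit 436) (nat_lit 387) (nat_lit 317)))) (XT.nd (nat_lit 78)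 (nat_lit 760) (nat_lit 0) (XT.lf (nat_lit 0) (nat_lit 3839162838) (nat_lit 836) (nat_lit 3850766724) (nat_lit 76) (nat_lit 1175172146) (nat_lit 327) (nat_lit 5) (nat_lit 338) (nat_lit 5) (nat_lit 328) (nat_lit 5) (nat_lit 437) (nat_lit 387) (nat_lit 316)) (XT.nd (nat_lit 78) (nat_lit 0) (nat_lit 0) (XT.lf (nat_lit 0) (nat_lit 1650046061) (nat_lit 760) (nat_lit 4544749851) (nat_lit 836) (nat_lit 2753217899) (nat_lit 317) (nat_lit 5) (nat_lit 327) (nat_lit 5) (nat_lit 328) (nat_lit 5) (nat_lit 438) (nat_lit 387) (nat_lit 315)) (XT.lf (nat_lit 0) (nat_lit 7278239800) (nat_lit 760) (nat_lit 1313934810) (nat_lit 836) (nat_lit 440525253) (nat_lit 317) (nat_lit 5) (nat_lit 327) (nat_lit 5) (nat_lit 328) (nat_lit 5) (nat_lit 439) (nat_lit 387) (nat_lit 314)))))) (XT.nd (nat_lit 390) (nat_lit 2660) (nat_lit 0) (XT.nd (nat_lit 156) (nat_lit 760) (nat_lit 0) (XT.nd (nat_lit 78) (nat_lit 684) (nat_lit 0) (XT.lf (nat_lit 0) (nat_lit 1900893410)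 (nat_lit 836) (nat_lit 5227941702) (nat_lit 76) (nat_lit 1989850800) (nat_lit 306) (nat_lit 5) (nat_lit 317) (nat_lit 5) (nat_lit 307) (nat_lit 5) (nat_lit 440) (nat_lit 387) (nat_lit 313)) (XT.lf (nat_lit 0) (nat_lit 425429758) (nat_lit 684) (nat_lit 3850681778) (nat_lit 760) (nat_lit 4930372397) (nat_lit 297) (nat_lit 5) (nat_lit 306) (nat_lit 5) (nat_lit 307) (nat_lit 5) (nat_lit 441) (nat_lit 387) (nat_lit 312))) (XT.nd (nat_lit 78) (nat_lit 760) (nat_lit 0) (XT.lf (nat_lit 0) (nat_lit 6228033141) (nat_lit 684) (nat_lit 475804054) (nat_lit 760) (nat_lit 2592108384) (nat_lit 297) (nat_lit 5) (nat_lit 306) (nat_lit 5) (nat_lit 307) (nat_lit 5) (nat_lit 442) (nat_lit 387) (nat_lit 311)) (XT.nd (nat_lit 78) (nat_lit 76) (nat_lit 0) (XT.lf (nat_lit 0) (nat_lit 2741598597) (nat_lit 684) (nat_lit 6446061286) (nat_lit 760) (nat_lit 199393300) (nat_lit 288) (nat_lit 5) (nat_lit 297) (nat_lit 5) (nat_lit 298) (nat_lit 5) (nat_lit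 443) (nat_lit 387) (nat_lit 310)) (XT.lf (nat_lit 0) (nat_lit 2206293852) (nat_lit 760) (nat_lit 823282636) (nat_lit 76) (nat_lit 6450232488) (nat_lit 287) (nat_lit 5) (nat_lit 297) (nat_lit 5) (nat_lit 288) (nat_lit 5) (nat_lit 444) (nat_lit 387) (nat_lit 309))))) (XT.nd (nat_lit 234) (nat_lit 1292) (nat_lit 0) (XT.nd (nat_lit 78) (nat_lit 684) (nat_lit 0) (XT.lf (nat_lit 0) (nat_lit 4665211710) (nat_lit 760) (nat_lit 4430015009) (nat_lit 76) (nat_lit 479018210) (nat_lit 278) (nat_lit 5) (nat_lit 288) (nat_lit 5) (nat_lit 279) (nat_lit 5) (nat_lit 445) (nat_lit 387) (nat_lit 308)) (XT.nd (nat_lit 78) (nat_lit 0) (nat_lit 0) (XT.lf (nat_lit 0) (nat_lit 1537463454) (nat_lit 684) (nat_lit 5642973192) (nat_lit 760) (nat_lit 2489997378) (nat_lit 269) (nat_lit 5) (nat_lit 278) (nat_lit 5) (nat_lit 279) (nat_lit 5) (nat_lit 446) (nat_lit 387) (nat_lit 307)) (XT.lf (nat_lit 0) (nat_lit 7650173701) (nat_lit 684) (nat_lit 2097378491)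 (nat_lit 760) (nat_lit 20969850) (nat_lit 269) (nat_lit 5) (nat_lit 278) (nat_lit 5) (nat_lit 279) (nat_lit 5) (nat_lit 447) (nat_lit 387) (nat_lit 306)))) (XT.nd (nat_lit 78) (nat_lit 608) (nat_lit 0) (XT.lf (nat_lit 0) (nat_lit 2473103763) (nat_lit 684) (nat_lit 5859201522) (nat_lit 76) (nat_lit 1535780434) (nat_lit 260) (nat_lit 5) (nat_lit 269) (nat_lit 5) (nat_lit 261) (nat_lit 5) (nat_lit 448) (nat_lit 387) (nat_lit 305)) (XT.nd (nat_lit 78) (nat_lit 0) (nat_lit 0) (XT.lf (nat_lit 0) (nat_lit 273315385) (nat_lit 608) (nat_lit 4745943568) (nat_lit 684) (nat_lit 4950335792) (nat_lit 252) (nat_lit 5) (nat_lit 260) (nat_lit 5) (nat_lit 261) (nat_lit 5) (nat_lit 449) (nat_lit 387) (nat_lit 304)) (XT.lf (nat_lit 0) (nat_lit 6573964379) (nat_lit 608) (nat_lit 1054516695) (nat_lit 684) (nat_lit 2444416342) (nat_lit 252) (nat_lit 5) (nat_lit 260) (nat_lit 5) (nat_lit 261) (nat_lit 5) (nat_lit 450) (nat_lit 387) (nat_lit 303)))))))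 (XT.nd (nat_lit 858) (nat_lit 3420) (nat_lit 0) (XT.nd (nat_lit 390) (nat_lit 2128) (nat_lit 0) (XT.nd (nat_lit 156) (nat_lit 1216) (nat_lit 0) (XT.nd (nat_lit 78) (nat_lit 0) (nat_lit 0) (XT.lf (nat_lit 0) (nat_lit 119357354) (nat_lit 684) (nat_lit 7371061150) (nat_lit 76) (nat_lit 2687655239) (nat_lit 243) (nat_lit 5) (nat_lit 252) (nat_lit 5) (nat_lit 244) (nat_lit 5) (nat_lit 451) (nat_lit 387) (nat_lit 302)) (XT.lf (nat_lit 0) (nat_lit 2705765070) (nat_lit 684) (nat_lit 1055613637) (nat_lit 76) (nat_lit 6523575927) (nat_lit 243) (nat_lit 5) (nat_lit 252) (nat_lit 5) (nat_lit 244) (nat_lit 5) (nat_lit 452) (nat_lit 387) (nat_lit 301))) (XT.nd (nat_lit 78) (nat_lit 608) (nat_lit 0) (XT.lf (nat_lit 0) (nat_lit 5353538830) (nat_lit 684) (nat_lit 4970219749) (nat_lit 76) (nat_lit 70027663) (nat_lit 235) (nat_lit 5) (nat_lit 244) (nat_lit 5) (nat_lit 236) (nat_lit 5) (nat_lit 453) (nat_lit 387) (nat_lit 300)) (XT.nd (nat_lit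 78) (nat_lit 76) (nat_lit 0) (XT.lf (nat_lit 0) (nat_lit 1503246950) (nat_lit 532) (nat_lit 6567031234) (nat_lit 608) (nat_lit 2434201839) (nat_lit 228) (nat_lit 5) (nat_lit 235) (nat_lit 5) (nat_lit 236) (nat_lit 5) (nat_lit 454) (nat_lit 387) (nat_lit 299)) (XT.lf (nat_lit 0) (nat_lit 228925790) (nat_lit 608) (nat_lit 2478464594) (nat_lit 76) (nat_lit 7909815761) (nat_lit 227) (nat_lit 5) (nat_lit 235) (nat_lit 5) (nat_lit 228) (nat_lit 5) (nat_lit 455) (nat_lit 387) (nat_lit 298))))) (XT.nd (nat_lit 234) (nat_lit 1064) (nat_lit 0) (XT.nd (nat_lit 78) (nat_lit 532) (nat_lit 0) (XT.lf (nat_lit 0) (nat_lit 2922941584) (nat_lit 608) (nat_lit 6559547186) (nat_lit 76) (nat_lit 1249177239) (nat_lit 220) (nat_lit 5) (nat_lit 228) (nat_lit 5) (nat_lit 221) (nat_lit 5) (nat_lit 456) (nat_lit 387) (nat_lit 297)) (XT.nd (nat_lit 78) (nat_lit 0) (nat_lit 0) (XT.lf (nat_lit 0) (nat_lit 91183211) (nat_lit 532) (nat_lit 5589976359) (nat_lit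 608) (nat_lit 5167054369) (nat_lit 213) (nat_lit 5) (nat_lit 220) (nat_lit 5) (nat_lit 221) (nat_lit 5) (nat_lit 457) (nat_lit 387) (nat_lit 296)) (XT.lf (nat_lit 0) (nat_lit 6930862522) (nat_lit 532) (nat_lit 1583030490) (nat_lit 608) (nat_lit 2452817993) (nat_lit 213) (nat_lit 5) (nat_lit 220) (nat_lit 5) (nat_lit 221) (nat_lit 5) (nat_lit 458) (nat_lit 387) (nat_lit 295)))) (XT.nd (nat_lit 78) (nat_lit 456) (nat_lit 0) (XT.lf (nat_lit 0) (nat_lit 321875733) (nat_lit 608) (nat_lit 8281945975) (nat_lit 76) (nat_lit 2483514045) (nat_lit 205) (nat_lit 5) (nat_lit 213) (nat_lit 5) (nat_lit 206) (nat_lit 5) (nat_lit 459) (nat_lit 387) (nat_lit 294)) (XT.nd (nat_lit 78) (nat_lit 456) (nat_lit 0) (XT.lf (nat_lit 0) (nat_lit 3132860446) (nat_lit 608) (nat_lit 1431459645) (nat_lit 76) (nat_lit 6645460737) (nat_lit 205) (nat_lit 5) (nat_lit 213) (nat_lit 5) (nat_lit 206) (nat_lit 5) (nat_lit 460) (nat_lit 387) (nat_lit 293)) (XT.lf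 (nat_lit 0) (nat_lit 5597208268) (nat_lit 456) (nat_lit 415534604) (nat_lit 532) (nat_lit 5321683177) (nat_lit 199) (nat_lit 5) (nat_lit 205) (nat_lit 5) (nat_lit 206) (nat_lit 5) (nat_lit 461) (nat_lit 387) (nat_lit 292)))))) (XT.nd (nat_lit 468) (nat_lit 1368) (nat_lit 0) (XT.nd (nat_lit 234) (nat_lit 988) (nat_lit 0) (XT.nd (nat_lit 78) (nat_lit 532) (nat_lit 0) (XT.lf (nat_lit 0) (nat_lit 1284039264) (nat_lit 532) (nat_lit 7685504786) (nat_lit 608) (nat_lit 2491638414) (nat_lit 192) (nat_lit 5) (nat_lit 199) (nat_lit 5) (nat_lit 200) (nat_lit 5) (nat_lit 462) (nat_lit 387) (nat_lit 291)) (XT.nd (nat_lit 78) (nat_lit 456) (nat_lit 0) (XT.lf (nat_lit 0) (nat_lit 407963112) (nat_lit 608) (nat_lit 3104327584) (nat_lit 76) (nat_lit 8077773817) (nat_lit 191) (nat_lit 5) (nat_lit 199) (nat_lit 5) (nat_lit 192) (nat_lit 5) (nat_lit 463) (nat_lit 387) (nat_lit 290)) (XT.lf (nat_lit 0) (nat_lit 3341094469) (nat_lit 532) (nat_lit 7610669139)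 (nat_lit 76) (nat_lit 769257621) (nat_lit 185) (nat_lit 5) (nat_lit 192) (nat_lit 5) (nat_lit 186) (nat_lit 5) (nat_lit 464) (nat_lit 387) (nat_lit 289)))) (XT.nd (nat_lit 78) (nat_lit 988) (nat_lit 0) (XT.lf (nat_lit 0) (nat_lit 6354391244) (nat_lit 532) (nat_lit 398267408) (nat_lit 76) (nat_lit 5101512725) (nat_lit 185) (nat_lit 5) (nat_lit 192) (nat_lit 5) (nat_lit 186) (nat_lit 5) (nat_lit 465) (nat_lit 387) (nat_lit 288)) (XT.nd (nat_lit 78) (nat_lit 532) (nat_lit 0) (XT.lf (nat_lit 0) (nat_lit 7018972606) (nat_lit 456) (nat_lit 2432271761) (nat_lit 532) (nat_lit 2538278618) (nat_lit 179) (nat_lit 5) (nat_lit 185) (nat_lit 5) (nat_lit 186) (nat_lit 5) (nat_lit 466) (nat_lit 387) (nat_lit 287)) (XT.lf (nat_lit 0) (nat_lit 485493473) (nat_lit 532) (nat_lit 9680513304) (nat_lit 76) (nat_lit 1961328942) (nat_lit 172) (nat_lit 5) (nat_lit 179) (nat_lit 5) (nat_lit 173) (nat_lit 5) (nat_lit 467) (nat_lit 387) (nat_lit 286)))))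 (XT.nd (nat_lit 234) (nat_lit 532) (nat_lit 0) (XT.nd (nat_lit 78) (nat_lit 836) (nat_lit 0) (XT.lf (nat_lit 0) (nat_lit 3563442065) (nat_lit 532) (nat_lit 2252188001) (nat_lit 76) (nat_lit 6451389329) (nat_lit 172) (nat_lit 5) (nat_lit 179) (nat_lit 5) (nat_lit 173) (nat_lit 5) (nat_lit 468) (nat_lit 387) (nat_lit 285)) (XT.nd (nat_lit 78) (nat_lit 380) (nat_lit 0) (XT.lf (nat_lit 0) (nat_lit 5363943347) (nat_lit 456) (nat_lit 1352237635) (nat_lit 532) (nat_lit 5693055078) (nat_lit 166) (nat_lit 5) (nat_lit 172) (nat_lit 5) (nat_lit 173) (nat_lit 5) (nat_lit 469) (nat_lit 387) (nat_lit 284)) (XT.lf (nat_lit 0) (nat_lit 564177174) (nat_lit 380) (nat_lit 9386019195) (nat_lit 456) (nat_lit 2603740119) (nat_lit 161) (nat_lit 5) (nat_lit 166) (nat_lit 5) (nat_lit 167) (nat_lit 5) (nat_lit 470) (nat_lit 387) (nat_lit 283)))) (XT.nd (nat_lit 78) (nat_lit 456) (nat_lit 0) (XT.lf (nat_lit 0) (nat_lit 575368608) (nat_lit 456) (nat_lit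 4323426371) (nat_lit 76) (nat_lit 7801964859) (nat_lit 160) (nat_lit 5) (nat_lit 166) (nat_lit 5) (nat_lit 161) (nat_lit 5) (nat_lit 471) (nat_lit 387) (nat_lit 282)) (XT.nd (nat_lit 78) (nat_lit 0) (nat_lit 0) (XT.lf (nat_lit 0) (nat_lit 3494074043) (nat_lit 456) (nat_lit 290898918) (nat_lit 532) (nat_lit 9065170571) (nat_lit 154) (nat_lit 5) (nat_lit 160) (nat_lit 5) (nat_lit 161) (nat_lit 5) (nat_lit 472) (nat_lit 387) (nat_lit 281)) (XT.lf (nat_lit 0) (nat_lit 7095808887) (nat_lit 532) (nat_lit 1535117783) (nat_lit 76) (nat_lit 4370851011) (nat_lit 154) (nat_lit 5) (nat_lit 161) (nat_lit 5) (nat_lit 155) (nat_lit 5) (nat_lit 473) (nat_lit 387) (nat_lit 280))))))))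
noncomputable def xc111 : XT := (XT.nd (nat_lit 1716) (nat_lit 1368) (nat_lit 0) (XT.nd (nat_lit 858) (nat_lit 2356) (nat_lit 0) (XT.nd (nat_lit 390) (nat_lit 1520) (nat_lit 0) (XT.nd (nat_lit 156) (nat_lit 380) (nat_lit 0) (XT.nd (nat_lit 78) (nat_lit 456) (nat_lit 0) (XT.lf (nat_lit 0) (nat_lit 6495224786) (nat_lit 380) (nat_lit 4001349951) (nat_lit 456) (nat_lit 2659399011) (nat_lit 149) (nat_lit 5) (nat_lit 154) (nat_lit 5) (nat_lit 155) (nat_lit 5) (nat_lit 474) (nat_lit 387) (nat_lit 279)) (XT.lf (nat_lit 0) (nat_lit 647315453) (nat_lit 456) (nat_lit 11940627788) (nat_lit 76) (nat_lit 725153867) (nat_lit 143) (nat_lit 5) (nat_lit 149) (nat_lit 5) (nat_lit 144) (nat_lit 5) (nat_lit 475) (nat_lit 387) (nat_lit 278))) (XT.nd (nat_lit 78) (nat_lit 380) (nat_lit 0) (XT.lf (nat_lit 0) (nat_lit 4035900326) (nat_lit 456) (nat_lit 3890738194) (nat_lit 76) (nat_lit 5545349232) (nat_lit 143) (nat_lit 5) (nat_lit 149) (nat_lit 5)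 (nat_lit 144) (nat_lit 5) (nat_lit 476) (nat_lit 387) (nat_lit 277)) (XT.nd (nat_lit 78) (nat_lit 0) (nat_lit 0) (XT.lf (nat_lit 0) (nat_lit 4347259925) (nat_lit 380) (nat_lit 3153437992) (nat_lit 456) (nat_lit 6133192705) (nat_lit 138) (nat_lit 5) (nat_lit 143) (nat_lit 5) (nat_lit 144) (nat_lit 5) (nat_lit 477) (nat_lit 387) (nat_lit 276)) (XT.lf (nat_lit 0) (nat_lit 11052554733) (nat_lit 456) (nat_lit 1037097562) (nat_lit 76) (nat_lit 1709027160) (nat_lit 138) (nat_lit 5) (nat_lit 144) (nat_lit 5) (nat_lit 139) (nat_lit 5) (nat_lit 478) (nat_lit 387) (nat_lit 275))))) (XT.nd (nat_lit 234) (nat_lit 760) (nat_lit 0) (XT.nd (nat_lit 78) (nat_lit 304) (nat_lit 0) (XT.lf (nat_lit 0) (nat_lit 749535683) (nat_lit 456) (nat_lit 6546234105) (nat_lit 76) (nat_lit 6669902386) (nat_lit 132) (nat_lit 5) (nat_lit 138) (nat_lit 5) (nat_lit 133) (nat_lit 5) (nat_lit 479) (nat_lit 387) (nat_lit 274)) (XT.nd (nat_lit 78) (nat_lit 0) (nat_lit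 0) (XT.lf (nat_lit 0) (nat_lit 1900477262) (nat_lit 304) (nat_lit 2378029502) (nat_lit 380) (nat_lit 9857134571) (nat_lit 128) (nat_lit 5) (nat_lit 132) (nat_lit 5) (nat_lit 133) (nat_lit 5) (nat_lit 480) (nat_lit 387) (nat_lit 273)) (XT.lf (nat_lit 0) (nat_lit 7920313421) (nat_lit 380) (nat_lit 3750326420) (nat_lit 76) (nat_lit 2637527845) (nat_lit 128) (nat_lit 5) (nat_lit 133) (nat_lit 5) (nat_lit 129) (nat_lit 5) (nat_lit 481) (nat_lit 387) (nat_lit 272)))) (XT.nd (nat_lit 78) (nat_lit 380) (nat_lit 0) (XT.lf (nat_lit 0) (nat_lit 4923984559) (nat_lit 380) (nat_lit 6739972795) (nat_lit 456) (nat_lit 2819610058) (nat_lit 123) (nat_lit 5) (nat_lit 128) (nat_lit 5) (nat_lit 129) (nat_lit 5) (nat_lit 482) (nat_lit 387) (nat_lit 271)) (XT.nd (nat_lit 78) (nat_lit 304) (nat_lit 0) (XT.lf (nat_lit 0) (nat_lit 815914823) (nat_lit 456) (nat_lit 873957493) (nat_lit 76) (nat_lit 12972365692) (nat_lit 122) (nat_lit 5) (nat_lit 128) (nat_lit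 5) (nat_lit 123) (nat_lit 5) (nat_lit 483) (nat_lit 387) (nat_lit 270)) (XT.lf (nat_lit 0) (nat_lit 4543234125) (nat_lit 380) (nat_lit 6822649440) (nat_lit 76) (nat_lit 3477091635) (nat_lit 118) (nat_lit 5) (nat_lit 123) (nat_lit 5) (nat_lit 119) (nat_lit 5) (nat_lit 484) (nat_lit 387) (nat_lit 269)))))) (XT.nd (nat_lit 390) (nat_lit 1292) (nat_lit 0) (XT.nd (nat_lit 156) (nat_lit 684) (nat_lit 0) (XT.nd (nat_lit 78) (nat_lit 0) (nat_lit 0) (XT.lf (nat_lit 0) (nat_lit 2064321965) (nat_lit 380) (nat_lit 6293086628) (nat_lit 456) (nat_lit 6669675019) (nat_lit 113) (nat_lit 5) (nat_lit 118) (nat_lit 5) (nat_lit 119) (nat_lit 5) (nat_lit 485) (nat_lit 387) (nat_lit 268)) (XT.lf (nat_lit 0) (nat_lit 11193050614) (nat_lit 380) (nat_lit 1082582410) (nat_lit 456) (nat_lit 2938688440) (nat_lit 113) (nat_lit 5) (nat_lit 118) (nat_lit 5) (nat_lit 119) (nat_lit 5) (nat_lit 486) (nat_lit 387) (nat_lit 267))) (XT.nd (nat_lit 78) (nat_lit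 304) (nat_lit 0) (XT.lf (nat_lit 0) (nat_lit 898757445) (nat_lit 380) (nat_lit 10299961363) (nat_lit 76) (nat_lit 4205611005) (nat_lit 108) (nat_lit 5) (nat_lit 113) (nat_lit 5) (nat_lit 109) (nat_lit 5) (nat_lit 487) (nat_lit 387) (nat_lit 266)) (XT.nd (nat_lit 78) (nat_lit 304) (nat_lit 0) (XT.lf (nat_lit 0) (nat_lit 4790289641) (nat_lit 380) (nat_lit 1185626480) (nat_lit 76) (nat_lit 9621502435) (nat_lit 108) (nat_lit 5) (nat_lit 113) (nat_lit 5) (nat_lit 109) (nat_lit 5) (nat_lit 488) (nat_lit 387) (nat_lit 265)) (XT.lf (nat_lit 0) (nat_lit 8190723669) (nat_lit 304) (nat_lit 604771831) (nat_lit 380) (nat_lit 6998159116) (nat_lit 104) (nat_lit 5) (nat_lit 108) (nat_lit 5) (nat_lit 109) (nat_lit 5) (nat_lit 489) (nat_lit 387) (nat_lit 264))))) (XT.nd (nat_lit 234) (nat_lit 608) (nat_lit 0) (XT.nd (nat_lit 78) (nat_lit 380) (nat_lit 0) (XT.lf (nat_lit 0) (nat_lit 1740353680) (nat_lit 304) (nat_lit 11174161710) (nat_lit 380)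 (nat_lit 3078628166) (nat_lit 100) (nat_lit 5) (nat_lit 104) (nat_lit 5) (nat_lit 105) (nat_lit 5) (nat_lit 490) (nat_lit 387) (nat_lit 263)) (XT.nd (nat_lit 78) (nat_lit 304) (nat_lit 0) (XT.lf (nat_lit 0) (nat_lit 945400387) (nat_lit 380) (nat_lit 4860188591) (nat_lit 76) (nat_lit 10390152913) (nat_lit 99) (nat_lit 5) (nat_lit 104) (nat_lit 5) (nat_lit 100) (nat_lit 5) (nat_lit 491) (nat_lit 387) (nat_lit 262)) (XT.lf (nat_lit 0) (nat_lit 4734679699) (nat_lit 304) (nat_lit 287924455) (nat_lit 380) (nat_lit 11379104914) (nat_lit 95) (nat_lit 5) (nat_lit 99) (nat_lit 5) (nat_lit 100) (nat_lit 5) (nat_lit 492) (nat_lit 387) (nat_lit 261)))) (XT.nd (nat_lit 78) (nat_lit 608) (nat_lit 0) (XT.lf (nat_lit 0) (nat_lit 9232079118) (nat_lit 380) (nat_lit 2086086354) (nat_lit 76) (nat_lit 5292617750) (nat_lit 95) (nat_lit 5) (nat_lit 100) (nat_lit 5) (nat_lit 96) (nat_lit 5) (nat_lit 493) (nat_lit 387) (nat_lit 260)) (XT.nd (nat_lit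 78) (nat_lit 380) (nat_lit 0) (XT.lf (nat_lit 0) (nat_lit 7759490628) (nat_lit 228) (nat_lit 5802093692) (nat_lit 304) (nat_lit 3261739858) (nat_lit 92) (nat_lit 5) (nat_lit 95) (nat_lit 5) (nat_lit 96) (nat_lit 5) (nat_lit 494) (nat_lit 387) (nat_lit 259)) (XT.lf (nat_lit 0) (nat_lit 767416744) (nat_lit 304) (nat_lit 160518158) (nat_lit 380) (nat_lit 16112008004) (nat_lit 87) (nat_lit 5) (nat_lit 91) (nat_lit 5) (nat_lit 92) (nat_lit 5) (nat_lit 495) (nat_lit 387) (nat_lit 258))))))) (XT.nd (nat_lit 51012) (nat_lit 0) (nat_lit 43320) (XT.nd (nat_lit 390) (nat_lit 760) (nat_lit 0) (XT.nd (nat_lit 156) (nat_lit 380) (nat_lit 0) (XT.nd (nat_lit 78) (nat_lit 228) (nat_lit 0) (XT.lf (nat_lit 0) (nat_lit 5238988340) (nat_lit 380) (nat_lit 6426816916) (nat_lit 76) (nat_lit 5593034365) (nat_lit 87) (nat_lit 5) (nat_lit 92) (nat_lit 5) (nat_lit 88) (nat_lit 5) (nat_lit 496) (nat_lit 387) (nat_lit 257)) (XT.lf (nat_lit 0) (nat_lit 3635987863)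 (nat_lit 228) (nat_lit 6008939297) (nat_lit 304) (nat_lit 7837015795) (nat_lit 84) (nat_lit 5) (nat_lit 87) (nat_lit 5) (nat_lit 88) (nat_lit 5) (nat_lit 497) (nat_lit 387) (nat_lit 256))) (XT.nd (nat_lit 78) (nat_lit 380) (nat_lit 0) (XT.lf (nat_lit 0) (nat_lit 13960897644) (nat_lit 228) (nat_lit 205351765) (nat_lit 304) (nat_lit 3542715585) (nat_lit 84) (nat_lit 5) (nat_lit 87) (nat_lit 5) (nat_lit 88) (nat_lit 5) (nat_lit 498) (nat_lit 387) (nat_lit 255)) (XT.nd (nat_lit 78) (nat_lit 0) (nat_lit 0) (XT.lf (nat_lit 0) (nat_lit 891082025) (nat_lit 380) (nat_lit 11370200056) (nat_lit 76) (nat_lit 5677846602) (nat_lit 79) (nat_lit 5) (nat_lit 84) (nat_lit 5) (nat_lit 80) (nat_lit 5) (nat_lit 499) (nat_lit 387) (nat_lit 254)) (XT.lf (nat_lit 0) (nat_lit 5377257300) (nat_lit 380) (nat_lit 1081348040) (nat_lit 76) (nat_lit 11714601007) (nat_lit 79) (nat_lit 5) (nat_lit 84) (nat_lit 5) (nat_lit 80) (nat_lit 5) (nat_lit 500) (nat_lit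 387) (nat_lit 253))))) (XT.nd (nat_lit 234) (nat_lit 228) (nat_lit 0) (XT.nd (nat_lit 78) (nat_lit 304) (nat_lit 0) (XT.lf (nat_lit 0) (nat_lit 9512512082) (nat_lit 228) (nat_lit 487127414) (nat_lit 304) (nat_lit 8411398186) (nat_lit 76) (nat_lit 5) (nat_lit 79) (nat_lit 5) (nat_lit 80) (nat_lit 5) (nat_lit 501) (nat_lit 387) (nat_lit 252)) (XT.nd (nat_lit 78) (nat_lit 76) (nat_lit 0) (XT.lf (nat_lit 0) (nat_lit 1638892120) (nat_lit 228) (nat_lit 13114696387) (nat_lit 304) (nat_lit 3899256502) (nat_lit 73) (nat_lit 5) (nat_lit 76) (nat_lit 5) (nat_lit 77) (nat_lit 5) (nat_lit 502) (nat_lit 387) (nat_lit 251)) (XT.lf (nat_lit 0) (nat_lit 742063675) (nat_lit 304) (nat_lit 6424433360) (nat_lit 76) (nat_lit 11731938680) (nat_lit 72) (nat_lit 5) (nat_lit 76) (nat_lit 5) (nat_lit 73) (nat_lit 5) (nat_lit 503) (nat_lit 387) (nat_lit 250)))) (XT.nd (nat_lit 78) (nat_lit 0) (nat_lit 0) (XT.lf (nat_lit 0) (nat_lit 4383412951) (nat_lit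 228) (nat_lit 1054214752) (nat_lit 304) (nat_lit 13710524131) (nat_lit 69) (nat_lit 5) (nat_lit 72) (nat_lit 5) (nat_lit 73) (nat_lit 5) (nat_lit 504) (nat_lit 387) (nat_lit 249)) (XT.nd (nat_lit 50232) (nat_lit 0) (nat_lit 47044) (XT.lf (nat_lit 0) (nat_lit 10289316906) (nat_lit 304) (nat_lit 3966613461) (nat_lit 76) (nat_lit 5145689246) (nat_lit 69) (nat_lit 5) (nat_lit 73) (nat_lit 5) (nat_lit 70) (nat_lit 5) (nat_lit 505) (nat_lit 387) (nat_lit 248)) (XT.lf (nat_lit 0) (nat_lit 1434121182) (nat_lit 0) (nat_lit 1434121182) (nat_lit 532) (nat_lit 414346030) (nat_lit 688) (nat_lit 5) (nat_lit 688) (nat_lit 3) (nat_lit 695) (nat_lit 3) (nat_lit 388) (nat_lit 388) (nat_lit 364)))))) (XT.nd (nat_lit 468) (nat_lit 1672) (nat_lit 0) (XT.nd (nat_lit 234) (nat_lit 1368) (nat_lit 0) (XT.nd (nat_lit 78) (nat_lit 0) (nat_lit 0) (XT.lf (nat_lit 0) (nat_lit 1605290020) (nat_lit 684) (nat_lit 500471423) (nat_lit 684) (nat_lit 4475461292)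 (nat_lit 679) (nat_lit 3) (nat_lit 688) (nat_lit 3) (nat_lit 688) (nat_lit 5) (nat_lit 389) (nat_lit 388) (nat_lit 363)) (XT.nd (nat_lit 78) (nat_lit 0) (nat_lit 0) (XT.lf (nat_lit 76) (nat_lit 2758066505) (nat_lit 0) (nat_lit 1272932961) (nat_lit 684) (nat_lit 2567426257) (nat_lit 680) (nat_lit 5) (nat_lit 679) (nat_lit 3) (nat_lit 688) (nat_lit 5) (nat_lit 390) (nat_lit 388) (nat_lit 362)) (XT.lf (nat_lit 76) (nat_lit 6056234442) (nat_lit 0) (nat_lit 389614016) (nat_lit 684) (nat_lit 171339802) (nat_lit 680) (nat_lit 5) (nat_lit 679) (nat_lit 3) (nat_lit 688) (nat_lit 5) (nat_lit 391) (nat_lit 388) (nat_lit 361)))) (XT.nd (nat_lit 78) (nat_lit 760) (nat_lit 0) (XT.lf (nat_lit 0) (nat_lit 2202657392) (nat_lit 684) (nat_lit 3867551564) (nat_lit 760) (nat_lit 566652980) (nat_lit 671) (nat_lit 5) (nat_lit 680) (nat_lit 5) (nat_lit 681) (nat_lit 5) (nat_lit 392) (nat_lit 388) (nat_lit 360)) (XT.nd (nat_lit 78) (nat_lit 760) (nat_lit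 0) (XT.lf (nat_lit 0) (nat_lit 4567464784) (nat_lit 684) (nat_lit 520567588) (nat_lit 760) (nat_lit 1569987952) (nat_lit 671) (nat_lit 5) (nat_lit 680) (nat_lit 5) (nat_lit 681) (nat_lit 5) (nat_lit 393) (nat_lit 388) (nat_lit 359)) (XT.lf (nat_lit 0) (nat_lit 254998532) (nat_lit 760) (nat_lit 3783848461) (nat_lit 836) (nat_lit 2641561968) (nat_lit 661) (nat_lit 5) (nat_lit 671) (nat_lit 5) (nat_lit 672) (nat_lit 5) (nat_lit 394) (nat_lit 388) (nat_lit 358))))) (XT.nd (nat_lit 234) (nat_lit 836) (nat_lit 0) (XT.nd (nat_lit 78) (nat_lit 836) (nat_lit 0) (XT.lf (nat_lit 0) (nat_lit 2563998931) (nat_lit 760) (nat_lit 361642943) (nat_lit 836) (nat_lit 3778461430) (nat_lit 661) (nat_lit 5) (nat_lit 671) (nat_lit 5) (nat_lit 672) (nat_lit 5) (nat_lit 395) (nat_lit 388) (nat_lit 357)) (XT.nd (nat_lit 78) (nat_lit 836) (nat_lit 0) (XT.lf (nat_lit 76) (nat_lit 3137124016) (nat_lit 0) (nat_lit 1744565966) (nat_lit 836) (nat_lit 1847355712)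 (nat_lit 662) (nat_lit 5) (nat_lit 661) (nat_lit 5) (nat_lit 672) (nat_lit 5) (nat_lit 396) (nat_lit 388) (nat_lit 356)) (XT.lf (nat_lit 0) (nat_lit 429911159) (nat_lit 836) (nat_lit 80470230) (nat_lit 912) (nat_lit 6245163058) (nat_lit 650) (nat_lit 5) (nat_lit 661) (nat_lit 5) (nat_lit 662) (nat_lit 5) (nat_lit 397) (nat_lit 388) (nat_lit 355)))) (XT.nd (nat_lit 78) (nat_lit 912) (nat_lit 0) (XT.lf (nat_lit 0) (nat_lit 2699777308) (nat_lit 836) (nat_lit 3286294324) (nat_lit 912) (nat_lit 796844487) (nat_lit 651) (nat_lit 5) (nat_lit 662) (nat_lit 5) (nat_lit 663) (nat_lit 5) (nat_lit 398) (nat_lit 388) (nat_lit 354)) (XT.nd (nat_lit 78) (nat_lit 912) (nat_lit 0) (XT.lf (nat_lit 76) (nat_lit 302105552) (nat_lit 0) (nat_lit 4663644217) (nat_lit 912) (nat_lit 1846093794) (nat_lit 652) (nat_lit 5) (nat_lit 651) (nat_lit 5) (nat_lit 663) (nat_lit 5) (nat_lit 399) (nat_lit 388) (nat_lit 353)) (XT.lf (nat_lit 0) (nat_lit 397481829)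 (nat_lit 912) (nat_lit 2871583253) (nat_lit 988) (nat_lit 3572899462) (nat_lit 639) (nat_lit 5) (nat_lit 651) (nat_lit 5) (nat_lit 652) (nat_lit 5) (nat_lit 400) (nat_lit 388) (nat_lit 352))))))))
noncomputable def xc112 : XT := (XT.nd (nat_lit 1716) (nat_lit 12236) (nat_lit 0) (XT.nd (nat_lit 858) (nat_lit 10336) (nat_lit 0) (XT.nd (nat_lit 390) (nat_lit 3268) (nat_lit 0) (XT.nd (nat_lit 156) (nat_lit 912) (nat_lit 0) (XT.nd (nat_lit 78) (nat_lit 0) (nat_lit 0) (XT.lf (nat_lit 76) (nat_lit 803807840) (nat_lit 0) (nat_lit 1809021414) (nat_lit 988) (nat_lit 4260603463) (nat_lit 640) (nat_lit 5) (nat_lit 639) (nat_lit 5) (nat_lit 652) (nat_lit 5) (nat_lit 401) (nat_lit 388) (nat_lit 351)) (XT.lf (nat_lit 76) (nat_lit 4558011417) (nat_lit 0) (nat_lit 280952707) (nat_lit 988) (nat_lit 2067257323) (nat_lit 640) (nat_lit 5) (nat_lit 639) (nat_lit 5) (nat_lit 652) (nat_lit 5) (nat_lit 402) (nat_lit 388) (nat_lit 350))) (XT.nd (nat_lit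 78) (nat_lit 0) (nat_lit 0) (XT.lf (nat_lit 0) (nat_lit 133388861) (nat_lit 988) (nat_lit 5517372482) (nat_lit 1064) (nat_lit 1289589290) (nat_lit 627) (nat_lit 5) (nat_lit 640) (nat_lit 5) (nat_lit 641) (nat_lit 5) (nat_lit 403) (nat_lit 388) (nat_lit 349)) (XT.nd (nat_lit 78) (nat_lit 0) (nat_lit 0) (XT.lf (nat_lit 0) (nat_lit 2316919509) (nat_lit 988) (nat_lit 1723696019) (nat_lit 1064) (nat_lit 2934962143) (nat_lit 627) (nat_lit 5) (nat_lit 640) (nat_lit 5) (nat_lit 641) (nat_lit 5) (nat_lit 404) (nat_lit 388) (nat_lit 348)) (XT.lf (nat_lit 76) (nat_lit 2139984910) (nat_lit 0) (nat_lit 2367837461) (nat_lit 1064) (nat_lit 2504432066) (nat_lit 628) (nat_lit 5) (nat_lit 627) (nat_lit 5) (nat_lit 641) (nat_lit 5) (nat_lit 405) (nat_lit 388) (nat_lit 347))))) (XT.nd (nat_lit 234) (nat_lit 2280) (nat_lit 0) (XT.nd (nat_lit 78) (nat_lit 988) (nat_lit 0) (XT.lf (nat_lit 76) (nat_lit 6070592520) (nat_lit 0) (nat_lit 634090362) (nat_lit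 1064) (nat_lit 345757902) (nat_lit 628) (nat_lit 5) (nat_lit 627) (nat_lit 5) (nat_lit 641) (nat_lit 5) (nat_lit 406) (nat_lit 388) (nat_lit 346)) (XT.nd (nat_lit 78) (nat_lit 0) (nat_lit 0) (XT.lf (nat_lit 0) (nat_lit 1809993058) (nat_lit 1064) (nat_lit 4113641614) (nat_lit 76) (nat_lit 1165968353) (nat_lit 614) (nat_lit 5) (nat_lit 628) (nat_lit 5) (nat_lit 615) (nat_lit 5) (nat_lit 407) (nat_lit 388) (nat_lit 345)) (XT.lf (nat_lit 0) (nat_lit 3967088368) (nat_lit 1064) (nat_lit 146349530) (nat_lit 76) (nat_lit 3016825475) (nat_lit 614) (nat_lit 5) (nat_lit 628) (nat_lit 5) (nat_lit 615) (nat_lit 5) (nat_lit 408) (nat_lit 388) (nat_lit 344)))) (XT.nd (nat_lit 78) (nat_lit 1216) (nat_lit 0) (XT.lf (nat_lit 0) (nat_lit 3917779302) (nat_lit 1064) (nat_lit 2227960148) (nat_lit 1140) (nat_lit 1026446608) (nat_lit 600) (nat_lit 5) (nat_lit 614) (nat_lit 5) (nat_lit 615) (nat_lit 5) (nat_lit 409) (nat_lit 388) (nat_lit 343)) (XT.nd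 (nat_lit 78) (nat_lit 0) (nat_lit 0) (XT.lf (nat_lit 0) (nat_lit 819193080) (nat_lit 1140) (nat_lit 278365461) (nat_lit 1216) (nat_lit 6118062378) (nat_lit 584) (nat_lit 5) (nat_lit 599) (nat_lit 5) (nat_lit 600) (nat_lit 5) (nat_lit 410) (nat_lit 388) (nat_lit 342)) (XT.lf (nat_lit 0) (nat_lit 3237527070) (nat_lit 1216) (nat_lit 2294246498) (nat_lit 76) (nat_lit 1728287067) (nat_lit 584) (nat_lit 5) (nat_lit 600) (nat_lit 5) (nat_lit 585) (nat_lit 5) (nat_lit 411) (nat_lit 388) (nat_lit 341)))))) (XT.nd (nat_lit 390) (nat_lit 6384) (nat_lit 0) (XT.nd (nat_lit 156) (nat_lit 2660) (nat_lit 0) (XT.nd (nat_lit 78) (nat_lit 76) (nat_lit 0) (XT.lf (nat_lit 0) (nat_lit 1878366304) (nat_lit 1216) (nat_lit 3510994457) (nat_lit 1292) (nat_lit 1916663150) (nat_lit 568) (nat_lit 5) (nat_lit 584) (nat_lit 5) (nat_lit 585) (nat_lit 5) (nat_lit 412) (nat_lit 388) (nat_lit 340)) (XT.lf (nat_lit 0) (nat_lit 199165983) (nat_lit 1292) (nat_lit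 1223457853) (nat_lit 76) (nat_lit 5930850530) (nat_lit 567) (nat_lit 5) (nat_lit 584) (nat_lit 5) (nat_lit 568) (nat_lit 5) (nat_lit 413) (nat_lit 388) (nat_lit 339))) (XT.nd (nat_lit 78) (nat_lit 1368) (nat_lit 0) (XT.lf (nat_lit 0) (nat_lit 2312651405) (nat_lit 1368) (nat_lit 4348847844) (nat_lit 76) (nat_lit 740516275) (nat_lit 550) (nat_lit 5) (nat_lit 568) (nat_lit 5) (nat_lit 551) (nat_lit 5) (nat_lit 414) (nat_lit 388) (nat_lit 338)) (XT.nd (nat_lit 78) (nat_lit 1368) (nat_lit 0) (XT.lf (nat_lit 0) (nat_lit 4443042619) (nat_lit 1368) (nat_lit 63745458) (nat_lit 76) (nat_lit 2945261561) (nat_lit 550) (nat_lit 5) (nat_lit 568) (nat_lit 5) (nat_lit 551) (nat_lit 5) (nat_lit 415) (nat_lit 388) (nat_lit 337)) (XT.lf (nat_lit 0) (nat_lit 4329710124) (nat_lit 1368) (nat_lit 2272237311) (nat_lit 1444) (nat_lit 901433449) (nat_lit 532) (nat_lit 5) (nat_lit 550) (nat_lit 5) (nat_lit 551) (nat_lit 5) (nat_lit 416) (nat_lit 388)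 (nat_lit 336))))) (XT.nd (nat_lit 234) (nat_lit 3344) (nat_lit 0) (XT.nd (nat_lit 78) (nat_lit 1520) (nat_lit 0) (XT.lf (nat_lit 0) (nat_lit 1198649934) (nat_lit 1520) (nat_lit 6326753982) (nat_lit 76) (nat_lit 30852145) (nat_lit 512) (nat_lit 5) (nat_lit 532) (nat_lit 5) (nat_lit 513) (nat_lit 5) (nat_lit 417) (nat_lit 388) (nat_lit 335)) (XT.nd (nat_lit 78) (nat_lit 1520) (nat_lit 0) (XT.lf (nat_lit 0) (nat_lit 3323918912) (nat_lit 1520) (nat_lit 1902301427) (nat_lit 76) (nat_lit 2383957875) (nat_lit 512) (nat_lit 5) (nat_lit 532) (nat_lit 5) (nat_lit 513) (nat_lit 5) (nat_lit 418) (nat_lit 388) (nat_lit 334)) (XT.lf (nat_lit 0) (nat_lit 2610427167) (nat_lit 1520) (nat_lit 2857780283) (nat_lit 1596) (nat_lit 2197454532) (nat_lit 492) (nat_lit 5) (nat_lit 512) (nat_lit 5) (nat_lit 513) (nat_lit 5) (nat_lit 419) (nat_lit 388) (nat_lit 333)))) (XT.nd (nat_lit 78) (nat_lit 3344) (nat_lit 0) (XT.lf (nat_lit 0) (nat_lit 7204973937)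 (nat_lit 1520) (nat_lit 423309458) (nat_lit 1596) (nat_lit 94527189) (nat_lit 492) (nat_lit 5) (nat_lit 512) (nat_lit 5) (nat_lit 513) (nat_lit 5) (nat_lit 420) (nat_lit 388) (nat_lit 332)) (XT.nd (nat_lit 78) (nat_lit 1672) (nat_lit 0) (XT.lf (nat_lit 0) (nat_lit 2024615777) (nat_lit 1672) (nat_lit 3677871115) (nat_lit 76) (nat_lit 2078340702) (nat_lit 470) (nat_lit 5) (nat_lit 492) (nat_lit 5) (nat_lit 471) (nat_lit 5) (nat_lit 421) (nat_lit 388) (nat_lit 331)) (XT.lf (nat_lit 0) (nat_lit 957673591) (nat_lit 1672) (nat_lit 3200952769) (nat_lit 1748) (nat_lit 3681903509) (nat_lit 448) (nat_lit 5) (nat_lit 470) (nat_lit 5) (nat_lit 471) (nat_lit 5) (nat_lit 422) (nat_lit 388) (nat_lit 330))))))) (XT.nd (nat_lit 858) (nat_lit 5472) (nat_lit 0) (XT.nd (nat_lit 390) (nat_lit 2736) (nat_lit 0) (XT.nd (nat_lit 156) (nat_lit 2204) (nat_lit 0) (XT.nd (nat_lit 78) (nat_lit 1824) (nat_lit 0) (XT.lf (nat_lit 0) (nat_lit 5701328373) (nat_lit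 1672) (nat_lit 620435819) (nat_lit 1748) (nat_lit 1579945244) (nat_lit 448) (nat_lit 5) (nat_lit 470) (nat_lit 5) (nat_lit 471) (nat_lit 5) (nat_lit 423) (nat_lit 388) (nat_lit 329)) (XT.lf (nat_lit 0) (nat_lit 548825212) (nat_lit 1824) (nat_lit 5406176199) (nat_lit 76) (nat_lit 2009206239) (nat_lit 424) (nat_lit 5) (nat_lit 448) (nat_lit 5) (nat_lit 425) (nat_lit 5) (nat_lit 424) (nat_lit 388) (nat_lit 328))) (XT.nd (nat_lit 78) (nat_lit 2204) (nat_lit 0) (XT.lf (nat_lit 0) (nat_lit 2680803352) (nat_lit 1824) (nat_lit 635735313) (nat_lit 76) (nat_lit 4711584024) (nat_lit 424) (nat_lit 5) (nat_lit 448) (nat_lit 5) (nat_lit 425) (nat_lit 5) (nat_lit 425) (nat_lit 388) (nat_lit 327)) (XT.nd (nat_lit 78) (nat_lit 912) (nat_lit 0) (XT.lf (nat_lit 0) (nat_lit 4251715707) (nat_lit 1292) (nat_lit 594835422) (nat_lit 1368) (nat_lit 3246953556) (nat_lit 407) (nat_lit 5) (nat_lit 424) (nat_lit 5) (nat_lit 425) (nat_lit 5) (nat_lit 426)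 (nat_lit 388) (nat_lit 326)) (XT.lf (nat_lit 0) (nat_lit 1050328980) (nat_lit 912) (nat_lit 5994594391) (nat_lit 988) (nat_lit 1115495799) (nat_lit 395) (nat_lit 5) (nat_lit 407) (nat_lit 5) (nat_lit 408) (nat_lit 5) (nat_lit 427) (nat_lit 388) (nat_lit 325))))) (XT.nd (nat_lit 234) (nat_lit 1824) (nat_lit 0) (XT.nd (nat_lit 78) (nat_lit 836) (nat_lit 0) (XT.lf (nat_lit 0) (nat_lit 1038867077) (nat_lit 988) (nat_lit 2181710857) (nat_lit 76) (nat_lit 5008083968) (nat_lit 394) (nat_lit 5) (nat_lit 407) (nat_lit 5) (nat_lit 395) (nat_lit 5) (nat_lit 428) (nat_lit 388) (nat_lit 324)) (XT.nd (nat_lit 78) (nat_lit 0) (nat_lit 0) (XT.lf (nat_lit 0) (nat_lit 2840854874) (nat_lit 836) (nat_lit 363954243) (nat_lit 912) (nat_lit 5093654735) (nat_lit 383) (nat_lit 5) (nat_lit 394) (nat_lit 5) (nat_lit 395) (nat_lit 5) (nat_lit 429) (nat_lit 388) (nat_lit 323)) (XT.lf (nat_lit 0) (nat_lit 5410801541) (nat_lit 912) (nat_lit 427307165) (nat_lit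 76) (nat_lit 2531628702) (nat_lit 383) (nat_lit 5) (nat_lit 395) (nat_lit 5) (nat_lit 384) (nat_lit 5) (nat_lit 430) (nat_lit 388) (nat_lit 322)))) (XT.nd (nat_lit 78) (nat_lit 912) (nat_lit 0) (XT.lf (nat_lit 0) (nat_lit 4729163481) (nat_lit 912) (nat_lit 2930982306) (nat_lit 988) (nat_lit 782316006) (nat_lit 371) (nat_lit 5) (nat_lit 383) (nat_lit 5) (nat_lit 384) (nat_lit 5) (nat_lit 431) (nat_lit 388) (nat_lit 321)) (XT.nd (nat_lit 78) (nat_lit 0) (nat_lit 0) (XT.lf (nat_lit 0) (nat_lit 1397994130) (nat_lit 912) (nat_lit 7063856682) (nat_lit 76) (nat_lit 55032448) (nat_lit 359) (nat_lit 5) (nat_lit 371) (nat_lit 5) (nat_lit 360) (nat_lit 5) (nat_lit 432) (nat_lit 388) (nat_lit 320)) (XT.lf (nat_lit 0) (nat_lit 3622702868) (nat_lit 912) (nat_lit 1878765378) (nat_lit 76) (nat_lit 3091005557) (nat_lit 359) (nat_lit 5) (nat_lit 371) (nat_lit 5) (nat_lit 360) (nat_lit 5) (nat_lit 433) (nat_lit 388) (nat_lit 319)))))) (XT.nd (nat_lit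 390) (nat_lit 3040) (nat_lit 0) (XT.nd (nat_lit 156) (nat_lit 836) (nat_lit 0) (XT.nd (nat_lit 78) (nat_lit 760) (nat_lit 0) (XT.lf (nat_lit 0) (nat_lit 3420846806) (nat_lit 836) (nat_lit 2460685196) (nat_lit 912) (nat_lit 2788260867) (nat_lit 348) (nat_lit 5) (nat_lit 359) (nat_lit 5) (nat_lit 360) (nat_lit 5) (nat_lit 434) (nat_lit 388) (nat_lit 318)) (XT.lf (nat_lit 0) (nat_lit 65665132) (nat_lit 760) (nat_lit 8104975529) (nat_lit 836) (nat_lit 578324651) (nat_lit 338) (nat_lit 5) (nat_lit 348) (nat_lit 5) (nat_lit 349) (nat_lit 5) (nat_lit 435) (nat_lit 388) (nat_lit 317))) (XT.nd (nat_lit 78) (nat_lit 760) (nat_lit 0) (XT.lf (nat_lit 0) (nat_lit 1673597955) (nat_lit 836) (nat_lit 3333377632) (nat_lit 76) (nat_lit 3822141386) (nat_lit 337) (nat_lit 5) (nat_lit 348) (nat_lit 5) (nat_lit 338) (nat_lit 5) (nat_lit 436) (nat_lit 388) (nat_lit 316)) (XT.nd (nat_lit 78) (nat_lit 0) (nat_lit 0) (XT.lf (nat_lit 0) (nat_lit 2113440750)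 (nat_lit 760) (nat_lit 1831744609) (nat_lit 836) (nat_lit 4965970985) (nat_lit 327) (nat_lit 5) (nat_lit 337) (nat_lit 5) (nat_lit 338) (nat_lit 5) (nat_lit 437) (nat_lit 388) (nat_lit 315)) (XT.lf (nat_lit 0) (nat_lit 6262874941) (nat_lit 836) (nat_lit 1323668684) (nat_lit 76) (nat_lit 1408287835) (nat_lit 327) (nat_lit 5) (nat_lit 338) (nat_lit 5) (nat_lit 328) (nat_lit 5) (nat_lit 438) (nat_lit 388) (nat_lit 314))))) (XT.nd (nat_lit 234) (nat_lit 1444) (nat_lit 0) (XT.nd (nat_lit 78) (nat_lit 836) (nat_lit 0) (XT.lf (nat_lit 0) (nat_lit 4270028031) (nat_lit 760) (nat_lit 4366370829) (nat_lit 836) (nat_lit 443599807) (nat_lit 317) (nat_lit 5) (nat_lit 327) (nat_lit 5) (nat_lit 328) (nat_lit 5) (nat_lit 439) (nat_lit 388) (nat_lit 313)) (XT.nd (nat_lit 78) (nat_lit 0) (nat_lit 0) (XT.lf (nat_lit 0) (nat_lit 791000451) (nat_lit 760) (nat_lit 1058603603) (nat_lit 836) (nat_lit 7317350067) (nat_lit 306) (nat_lit 5) (nat_lit 316)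 (nat_lit 5) (nat_lit 317) (nat_lit 5) (nat_lit 440) (nat_lit 388) (nat_lit 312)) (XT.lf (nat_lit 0) (nat_lit 4200407760) (nat_lit 836) (nat_lit 2738242361) (nat_lit 76) (nat_lit 2316594134) (nat_lit 306) (nat_lit 5) (nat_lit 317) (nat_lit 5) (nat_lit 307) (nat_lit 5) (nat_lit 441) (nat_lit 388) (nat_lit 311)))) (XT.nd (nat_lit 78) (nat_lit 760) (nat_lit 0) (XT.lf (nat_lit 0) (nat_lit 3011129040) (nat_lit 684) (nat_lit 3584390972) (nat_lit 760) (nat_lit 2749841909) (nat_lit 297) (nat_lit 5) (nat_lit 306) (nat_lit 5) (nat_lit 307) (nat_lit 5) (nat_lit 442) (nat_lit 388) (nat_lit 310)) (XT.nd (nat_lit 78) (nat_lit 760) (nat_lit 0) (XT.lf (nat_lit 0) (nat_lit 8879251340) (nat_lit 684) (nat_lit 148747153) (nat_lit 760) (nat_lit 409501595) (nat_lit 297) (nat_lit 5) (nat_lit 306) (nat_lit 5) (nat_lit 307) (nat_lit 5) (nat_lit 443) (nat_lit 388) (nat_lit 309)) (XT.lf (nat_lit 0) (nat_lit 1980027044) (nat_lit 760) (nat_lit 4195584992)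 (nat_lit 76) (nat_lit 3355052944) (nat_lit 287) (nat_lit 5) (nat_lit 297) (nat_lit 5) (nat_lit 288) (nat_lit 5) (nat_lit 444) (nat_lit 388) (nat_lit 308))))))))
noncomputable def xc113 : XT := (XT.nd (nat_lit 1716) (nat_lit 5700) (nat_lit 0) (XT.nd (nat_lit 858) (nat_lit 3724) (nat_lit 0) (XT.nd (nat_lit 390) (nat_lit 2432) (nat_lit 0) (XT.nd (nat_lit 156) (nat_lit 1368) (nat_lit 0) (XT.nd (nat_lit 78) (nat_lit 0) (nat_lit 0) (XT.lf (nat_lit 0) (nat_lit 1713566821) (nat_lit 684) (nat_lit 2685959726) (nat_lit 760) (nat_lit 5226366216) (nat_lit 278) (nat_lit 5) (nat_lit 287) (nat_lit 5) (nat_lit 288) (nat_lit 5) (nat_lit 445) (nat_lit 388) (nat_lit 307)) (XT.lf (nat_lit 0) (nat_lit 6873508546) (nat_lit 760) (nat_lit 1964265472) (nat_lit 76) (nat_lit 885136098) (nat_lit 278) (nat_lit 5) (nat_lit 288) (nat_lit 5) (nat_lit 279) (nat_lit 5) (nat_lit 446) (nat_lit 388) (nat_lit 306))) (XT.nd (nat_lit 78) (nat_lit 684) (nat_lit 0) (XT.lf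 (nat_lit 0) (nat_lit 4105757627) (nat_lit 684) (nat_lit 5308285336) (nat_lit 760) (nat_lit 407490125) (nat_lit 269) (nat_lit 5) (nat_lit 278) (nat_lit 5) (nat_lit 279) (nat_lit 5) (nat_lit 447) (nat_lit 388) (nat_lit 305)) (XT.nd (nat_lit 78) (nat_lit 0) (nat_lit 0) (XT.lf (nat_lit 0) (nat_lit 359839162) (nat_lit 608) (nat_lit 1684468435) (nat_lit 684) (nat_lit 7877789462) (nat_lit 260) (nat_lit 5) (nat_lit 268) (nat_lit 5) (nat_lit 269) (nat_lit 5) (nat_lit 448) (nat_lit 388) (nat_lit 304)) (XT.lf (nat_lit 0) (nat_lit 4564407929) (nat_lit 684) (nat_lit 3438971124) (nat_lit 76) (nat_lit 2020751269) (nat_lit 260) (nat_lit 5) (nat_lit 269) (nat_lit 5) (nat_lit 261) (nat_lit 5) (nat_lit 449) (nat_lit 388) (nat_lit 303))))) (XT.nd (nat_lit 234) (nat_lit 1140) (nat_lit 0) (XT.nd (nat_lit 78) (nat_lit 684) (nat_lit 0) (XT.lf (nat_lit 0) (nat_lit 2799502606) (nat_lit 608) (nat_lit 4338313690) (nat_lit 684) (nat_lit 2990336049) (nat_lit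 252) (nat_lit 5) (nat_lit 260) (nat_lit 5) (nat_lit 261) (nat_lit 5) (nat_lit 450) (nat_lit 388) (nat_lit 302)) (XT.nd (nat_lit 78) (nat_lit 684) (nat_lit 0) (XT.lf (nat_lit 0) (nat_lit 9176738679) (nat_lit 608) (nat_lit 582912177) (nat_lit 684) (nat_lit 474670886) (nat_lit 252) (nat_lit 5) (nat_lit 260) (nat_lit 5) (nat_lit 261) (nat_lit 5) (nat_lit 451) (nat_lit 388) (nat_lit 301)) (XT.lf (nat_lit 0) (nat_lit 2094282987) (nat_lit 684) (nat_lit 5000195800) (nat_lit 76) (nat_lit 3247261967) (nat_lit 243) (nat_lit 5) (nat_lit 252) (nat_lit 5) (nat_lit 244) (nat_lit 5) (nat_lit 452) (nat_lit 388) (nat_lit 300)))) (XT.nd (nat_lit 78) (nat_lit 532) (nat_lit 0) (XT.lf (nat_lit 0) (nat_lit 1410683866) (nat_lit 608) (nat_lit 3292216861) (nat_lit 684) (nat_lit 5748457598) (nat_lit 235) (nat_lit 5) (nat_lit 243) (nat_lit 5) (nat_lit 244) (nat_lit 5) (nat_lit 453) (nat_lit 388) (nat_lit 299)) (XT.nd (nat_lit 78) (nat_lit 532) (nat_lit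 0) (XT.lf (nat_lit 0) (nat_lit 7375987576) (nat_lit 684) (nat_lit 2581805983) (nat_lit 76) (nat_lit 605134384) (nat_lit 235) (nat_lit 5) (nat_lit 244) (nat_lit 5) (nat_lit 236) (nat_lit 5) (nat_lit 454) (nat_lit 388) (nat_lit 298)) (XT.lf (nat_lit 0) (nat_lit 4004762825) (nat_lit 532) (nat_lit 6120788759) (nat_lit 608) (nat_lit 550722579) (nat_lit 228) (nat_lit 5) (nat_lit 235) (nat_lit 5) (nat_lit 236) (nat_lit 5) (nat_lit 455) (nat_lit 388) (nat_lit 297)))))) (XT.nd (nat_lit 390) (nat_lit 1976) (nat_lit 0) (XT.nd (nat_lit 156) (nat_lit 1140) (nat_lit 0) (XT.nd (nat_lit 78) (nat_lit 532) (nat_lit 0) (XT.lf (nat_lit 0) (nat_lit 2102938255) (nat_lit 608) (nat_lit 79797111) (nat_lit 76) (nat_lit 8609024357) (nat_lit 227) (nat_lit 5) (nat_lit 235) (nat_lit 5) (nat_lit 228) (nat_lit 5) (nat_lit 456) (nat_lit 388) (nat_lit 296)) (XT.lf (nat_lit 0) (nat_lit 4833758660) (nat_lit 608) (nat_lit 4225031663) (nat_lit 76) (nat_lit 1850067854)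 (nat_lit 220) (nat_lit 5) (nat_lit 228) (nat_lit 5) (nat_lit 221) (nat_lit 5) (nat_lit 457) (nat_lit 388) (nat_lit 295))) (XT.nd (nat_lit 78) (nat_lit 608) (nat_lit 0) (XT.lf (nat_lit 0) (nat_lit 2542491589) (nat_lit 532) (nat_lit 5084232345) (nat_lit 608) (nat_lit 3401429197) (nat_lit 213) (nat_lit 5) (nat_lit 220) (nat_lit 5) (nat_lit 221) (nat_lit 5) (nat_lit 458) (nat_lit 388) (nat_lit 294)) (XT.nd (nat_lit 78) (nat_lit 608) (nat_lit 0) (XT.lf (nat_lit 0) (nat_lit 9470935374) (nat_lit 532) (nat_lit 1009256256) (nat_lit 608) (nat_lit 669554490) (nat_lit 213) (nat_lit 5) (nat_lit 220) (nat_lit 5) (nat_lit 221) (nat_lit 5) (nat_lit 459) (nat_lit 388) (nat_lit 293)) (XT.lf (nat_lit 0) (nat_lit 2120826594) (nat_lit 608) (nat_lit 6005587529) (nat_lit 76) (nat_lit 3146454094) (nat_lit 205) (nat_lit 5) (nat_lit 213) (nat_lit 5) (nat_lit 206) (nat_lit 5) (nat_lit 460) (nat_lit 388) (nat_lit 292))))) (XT.nd (nat_lit 234) (nat_lit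 988) (nat_lit 0) (XT.nd (nat_lit 78) (nat_lit 532) (nat_lit 0) (XT.lf (nat_lit 0) (nat_lit 946438942) (nat_lit 456) (nat_lit 4012589648) (nat_lit 532) (nat_lit 6439320789) (nat_lit 199) (nat_lit 5) (nat_lit 205) (nat_lit 5) (nat_lit 206) (nat_lit 5) (nat_lit 461) (nat_lit 388) (nat_lit 291)) (XT.nd (nat_lit 78) (nat_lit 532) (nat_lit 0) (XT.lf (nat_lit 0) (nat_lit 7872751032) (nat_lit 532) (nat_lit 3439884499) (nat_lit 76) (nat_lit 213334124) (nat_lit 199) (nat_lit 5) (nat_lit 206) (nat_lit 5) (nat_lit 200) (nat_lit 5) (nat_lit 462) (nat_lit 388) (nat_lit 290)) (XT.lf (nat_lit 0) (nat_lit 3703194976) (nat_lit 532) (nat_lit 7169618399) (nat_lit 608) (nat_lit 782772179) (nat_lit 192) (nat_lit 5) (nat_lit 199) (nat_lit 5) (nat_lit 200) (nat_lit 5) (nat_lit 463) (nat_lit 388) (nat_lit 289)))) (XT.nd (nat_lit 78) (nat_lit 912) (nat_lit 0) (XT.lf (nat_lit 0) (nat_lit 2117723697) (nat_lit 608) (nat_lit 796927033) (nat_lit 76) (nat_lit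 8872853375) (nat_lit 191) (nat_lit 5) (nat_lit 199) (nat_lit 5) (nat_lit 192) (nat_lit 5) (nat_lit 464) (nat_lit 388) (nat_lit 288)) (XT.nd (nat_lit 78) (nat_lit 456) (nat_lit 0) (XT.lf (nat_lit 0) (nat_lit 5095788562) (nat_lit 532) (nat_lit 5379343093) (nat_lit 76) (nat_lit 1446229348) (nat_lit 185) (nat_lit 5) (nat_lit 192) (nat_lit 5) (nat_lit 186) (nat_lit 5) (nat_lit 465) (nat_lit 388) (nat_lit 287)) (XT.lf (nat_lit 0) (nat_lit 1956226872) (nat_lit 456) (nat_lit 6192729990) (nat_lit 532) (nat_lit 3908631517) (nat_lit 179) (nat_lit 5) (nat_lit 185) (nat_lit 5) (nat_lit 186) (nat_lit 5) (nat_lit 466) (nat_lit 388) (nat_lit 286))))))) (XT.nd (nat_lit 858) (nat_lit 2964) (nat_lit 0) (XT.nd (nat_lit 390) (nat_lit 1368) (nat_lit 0) (XT.nd (nat_lit 156) (nat_lit 836) (nat_lit 0) (XT.nd (nat_lit 78) (nat_lit 532) (nat_lit 0) (XT.lf (nat_lit 0) (nat_lit 9480781714) (nat_lit 456) (nat_lit 1796889871) (nat_lit 532) (nat_lit 918583157)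 (nat_lit 179) (nat_lit 5) (nat_lit 185) (nat_lit 5) (nat_lit 186) (nat_lit 5) (nat_lit 467) (nat_lit 388) (nat_lit 285)) (XT.lf (nat_lit 0) (nat_lit 2131072395) (nat_lit 532) (nat_lit 7517498775) (nat_lit 76) (nat_lit 2688295289) (nat_lit 172) (nat_lit 5) (nat_lit 179) (nat_lit 5) (nat_lit 173) (nat_lit 5) (nat_lit 468) (nat_lit 388) (nat_lit 284))) (XT.nd (nat_lit 78) (nat_lit 380) (nat_lit 0) (XT.lf (nat_lit 0) (nat_lit 13359921) (nat_lit 456) (nat_lit 5225230915) (nat_lit 532) (nat_lit 7241398609) (nat_lit 166) (nat_lit 5) (nat_lit 172) (nat_lit 5) (nat_lit 173) (nat_lit 5) (nat_lit 469) (nat_lit 388) (nat_lit 283)) (XT.nd (nat_lit 78) (nat_lit 380) (nat_lit 0) (XT.lf (nat_lit 0) (nat_lit 7766438571) (nat_lit 456) (nat_lit 671314361) (nat_lit 532) (nat_lit 4187635883) (nat_lit 166) (nat_lit 5) (nat_lit 172) (nat_lit 5) (nat_lit 173) (nat_lit 5) (nat_lit 470) (nat_lit 388) (nat_lit 282)) (XT.lf (nat_lit 0) (nat_lit 2882831839)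 (nat_lit 380) (nat_lit 8841981724) (nat_lit 456) (nat_lit 1048408018) (nat_lit 161) (nat_lit 5) (nat_lit 166) (nat_lit 5) (nat_lit 167) (nat_lit 5) (nat_lit 471) (nat_lit 388) (nat_lit 281))))) (XT.nd (nat_lit 234) (nat_lit 456) (nat_lit 0) (XT.nd (nat_lit 78) (nat_lit 836) (nat_lit 0) (XT.lf (nat_lit 0) (nat_lit 2142097033) (nat_lit 456) (nat_lit 2126827834) (nat_lit 76) (nat_lit 8654475303) (nat_lit 160) (nat_lit 5) (nat_lit 166) (nat_lit 5) (nat_lit 161) (nat_lit 5) (nat_lit 472) (nat_lit 388) (nat_lit 280)) (XT.nd (nat_lit 78) (nat_lit 380) (nat_lit 0) (XT.lf (nat_lit 0) (nat_lit 5402928644) (nat_lit 532) (nat_lit 7246893844) (nat_lit 76) (nat_lit 426213648) (nat_lit 154) (nat_lit 5) (nat_lit 161) (nat_lit 5) (nat_lit 155) (nat_lit 5) (nat_lit 473) (nat_lit 388) (nat_lit 279)) (XT.lf (nat_lit 0) (nat_lit 692646945) (nat_lit 380) (nat_lit 8063479857) (nat_lit 456) (nat_lit 4475058454) (nat_lit 149) (nat_lit 5) (nat_lit 154)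 (nat_lit 5) (nat_lit 155) (nat_lit 5) (nat_lit 474) (nat_lit 388) (nat_lit 278)))) (XT.nd (nat_lit 78) (nat_lit 456) (nat_lit 0) (XT.lf (nat_lit 0) (nat_lit 8859713605) (nat_lit 380) (nat_lit 3345521240) (nat_lit 456) (nat_lit 1183628959) (nat_lit 149) (nat_lit 5) (nat_lit 154) (nat_lit 5) (nat_lit 155) (nat_lit 5) (nat_lit 475) (nat_lit 388) (nat_lit 277)) (XT.nd (nat_lit 78) (nat_lit 0) (nat_lit 0) (XT.lf (nat_lit 0) (nat_lit 2158969510) (nat_lit 456) (nat_lit 9914110935) (nat_lit 76) (nat_lit 1476059500) (nat_lit 143) (nat_lit 5) (nat_lit 149) (nat_lit 5) (nat_lit 144) (nat_lit 5) (nat_lit 476) (nat_lit 388) (nat_lit 276)) (XT.lf (nat_lit 0) (nat_lit 5585939654) (nat_lit 456) (nat_lit 1747641773) (nat_lit 76) (nat_lit 6378219506) (nat_lit 143) (nat_lit 5) (nat_lit 149) (nat_lit 5) (nat_lit 144) (nat_lit 5) (nat_lit 477) (nat_lit 388) (nat_lit 275)))))) (XT.nd (nat_lit 468) (nat_lit 1444) (nat_lit 0) (XT.nd (nat_lit 234) (nat_lit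 684) (nat_lit 0) (XT.nd (nat_lit 78) (nat_lit 456) (nat_lit 0) (XT.lf (nat_lit 0) (nat_lit 6640505051) (nat_lit 380) (nat_lit 2465042687) (nat_lit 456) (nat_lit 4771688541) (nat_lit 138) (nat_lit 5) (nat_lit 143) (nat_lit 5) (nat_lit 144) (nat_lit 5) (nat_lit 478) (nat_lit 388) (nat_lit 274)) (XT.nd (nat_lit 78) (nat_lit 76) (nat_lit 0) (XT.lf (nat_lit 0) (nat_lit 1144179428) (nat_lit 380) (nat_lit 11567948176) (nat_lit 456) (nat_lit 1333524182) (nat_lit 133) (nat_lit 5) (nat_lit 138) (nat_lit 5) (nat_lit 139) (nat_lit 5) (nat_lit 479) (nat_lit 388) (nat_lit 273)) (XT.lf (nat_lit 0) (nat_lit 2191273226) (nat_lit 456) (nat_lit 4485351632) (nat_lit 76) (nat_lit 7539603964) (nat_lit 132) (nat_lit 5) (nat_lit 138) (nat_lit 5) (nat_lit 133) (nat_lit 5) (nat_lit 480) (nat_lit 388) (nat_lit 272)))) (XT.nd (nat_lit 78) (nat_lit 380) (nat_lit 0) (XT.lf (nat_lit 0) (nat_lit 4115874179) (nat_lit 304) (nat_lit 1661111165) (nat_lit 380)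 (nat_lit 8612893140) (nat_lit 128) (nat_lit 5) (nat_lit 132) (nat_lit 5) (nat_lit 133) (nat_lit 5) (nat_lit 481) (nat_lit 388) (nat_lit 271)) (XT.nd (nat_lit 78) (nat_lit 380) (nat_lit 0) (XT.lf (nat_lit 0) (nat_lit 9468790228) (nat_lit 380) (nat_lit 1667588297) (nat_lit 76) (nat_lit 3429937860) (nat_lit 128) (nat_lit 5) (nat_lit 133) (nat_lit 5) (nat_lit 129) (nat_lit 5) (nat_lit 482) (nat_lit 388) (nat_lit 270)) (XT.lf (nat_lit 0) (nat_lit 7166013213) (nat_lit 380) (nat_lit 6107954882) (nat_lit 456) (nat_lit 1471526969) (nat_lit 123) (nat_lit 5) (nat_lit 128) (nat_lit 5) (nat_lit 129) (nat_lit 5) (nat_lit 483) (nat_lit 388) (nat_lit 269))))) (XT.nd (nat_lit 234) (nat_lit 684) (nat_lit 0) (XT.nd (nat_lit 78) (nat_lit 380) (nat_lit 0) (XT.lf (nat_lit 0) (nat_lit 1244665677) (nat_lit 304) (nat_lit 954526425) (nat_lit 380) (nat_lit 12728750542) (nat_lit 118) (nat_lit 5) (nat_lit 122) (nat_lit 5) (nat_lit 123) (nat_lit 5) (nat_lit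 484) (nat_lit 388) (nat_lit 268)) (XT.nd (nat_lit 78) (nat_lit 380) (nat_lit 0) (XT.lf (nat_lit 0) (nat_lit 5984938342) (nat_lit 380) (nat_lit 4831088864) (nat_lit 76) (nat_lit 4296593702) (nat_lit 118) (nat_lit 5) (nat_lit 123) (nat_lit 5) (nat_lit 119) (nat_lit 5) (nat_lit 485) (nat_lit 388) (nat_lit 267)) (XT.lf (nat_lit 0) (nat_lit 4219621880) (nat_lit 380) (nat_lit 5643012948) (nat_lit 456) (nat_lit 5438035753) (nat_lit 113) (nat_lit 5) (nat_lit 118) (nat_lit 5) (nat_lit 119) (nat_lit 5) (nat_lit 486) (nat_lit 388) (nat_lit 266)))) (XT.nd (nat_lit 78) (nat_lit 684) (nat_lit 0) (XT.lf (nat_lit 0) (nat_lit 13489473857) (nat_lit 380) (nat_lit 343513065) (nat_lit 456) (nat_lit 1659194791) (nat_lit 113) (nat_lit 5) (nat_lit 118) (nat_lit 5) (nat_lit 119) (nat_lit 5) (nat_lit 487) (nat_lit 388) (nat_lit 265)) (XT.nd (nat_lit 78) (nat_lit 304) (nat_lit 0) (XT.lf (nat_lit 0) (nat_lit 2230022290) (nat_lit 380) (nat_lit 8408052994)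 (nat_lit 76) (nat_lit 5047893328) (nat_lit 108) (nat_lit 5) (nat_lit 113) (nat_lit 5) (nat_lit 109) (nat_lit 5) (nat_lit 488) (nat_lit 388) (nat_lit 264)) (XT.lf (nat_lit 0) (nat_lit 858695083) (nat_lit 304) (nat_lit 5320514487) (nat_lit 380) (nat_lit 9704116642) (nat_lit 104) (nat_lit 5) (nat_lit 108) (nat_lit 5) (nat_lit 109) (nat_lit 5) (nat_lit 489) (nat_lit 388) (nat_lit 263))))))))
noncomputable def xc114 : XT := (XT.nd (nat_lit 51948) (nat_lit 0) (nat_lit 35112) (XT.nd (nat_lit 858) (nat_lit 760) (nat_lit 0) (XT.nd (nat_lit 390) (nat_lit 1216) (nat_lit 0) (XT.nd (nat_lit 156) (nat_lit 380) (nat_lit 0) (XT.nd (nat_lit 78) (nat_lit 304) (nat_lit 0) (XT.lf (nat_lit 0) (nat_lit 10247943729) (nat_lit 380) (nat_lit 5687041880) (nat_lit 76) (nat_lit 148836400) (nat_lit 104) (nat_lit 5) (nat_lit 109) (nat_lit 5) (nat_lit 105) (nat_lit 5) (nat_lit 490) (nat_lit 388) (nat_lit 262)) (XT.lf (nat_lit 0) (nat_lit 3825524760) (nat_lit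 304) (nat_lit 10616027995) (nat_lit 380) (nat_lit 1845907226) (nat_lit 100) (nat_lit 5) (nat_lit 104) (nat_lit 5) (nat_lit 105) (nat_lit 5) (nat_lit 491) (nat_lit 388) (nat_lit 261))) (XT.nd (nat_lit 78) (nat_lit 304) (nat_lit 0) (XT.lf (nat_lit 0) (nat_lit 2216581543) (nat_lit 380) (nat_lit 2930424676) (nat_lit 76) (nat_lit 11347440201) (nat_lit 99) (nat_lit 5) (nat_lit 104) (nat_lit 5) (nat_lit 100) (nat_lit 5) (nat_lit 492) (nat_lit 388) (nat_lit 260)) (XT.nd (nat_lit 78) (nat_lit 0) (nat_lit 0) (XT.lf (nat_lit 0) (nat_lit 6366959851) (nat_lit 380) (nat_lit 9864871123) (nat_lit 76) (nat_lit 472872590) (nat_lit 95) (nat_lit 5) (nat_lit 100) (nat_lit 5) (nat_lit 96) (nat_lit 5) (nat_lit 493) (nat_lit 388) (nat_lit 259)) (XT.lf (nat_lit 0) (nat_lit 10638103444) (nat_lit 380) (nat_lit 134090386) (nat_lit 76) (nat_lit 6146218958) (nat_lit 95) (nat_lit 5) (nat_lit 100) (nat_lit 5) (nat_lit 96) (nat_lit 5) (nat_lit 494) (nat_lit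 388) (nat_lit 258))))) (XT.nd (nat_lit 234) (nat_lit 608) (nat_lit 0) (XT.nd (nat_lit 78) (nat_lit 380) (nat_lit 0) (XT.lf (nat_lit 0) (nat_lit 9895281572) (nat_lit 228) (nat_lit 5147827873) (nat_lit 304) (nat_lit 2092320011) (nat_lit 92) (nat_lit 5) (nat_lit 95) (nat_lit 5) (nat_lit 96) (nat_lit 5) (nat_lit 495) (nat_lit 388) (nat_lit 257)) (XT.nd (nat_lit 78) (nat_lit 0) (nat_lit 0) (XT.lf (nat_lit 0) (nat_lit 2157921912) (nat_lit 380) (nat_lit 14593847625) (nat_lit 76) (nat_lit 604594357) (nat_lit 87) (nat_lit 5) (nat_lit 92) (nat_lit 5) (nat_lit 88) (nat_lit 5) (nat_lit 496) (nat_lit 388) (nat_lit 256)) (XT.lf (nat_lit 0) (nat_lit 6532485111) (nat_lit 380) (nat_lit 4591563032) (nat_lit 76) (nat_lit 6456047554) (nat_lit 87) (nat_lit 5) (nat_lit 92) (nat_lit 5) (nat_lit 88) (nat_lit 5) (nat_lit 497) (nat_lit 388) (nat_lit 255)))) (XT.nd (nat_lit 78) (nat_lit 380) (nat_lit 0) (XT.lf (nat_lit 0) (nat_lit 5659578171) (nat_lit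 228) (nat_lit 5356322706) (nat_lit 304) (nat_lit 6791975926) (nat_lit 84) (nat_lit 5) (nat_lit 87) (nat_lit 5) (nat_lit 88) (nat_lit 5) (nat_lit 498) (nat_lit 388) (nat_lit 254)) (XT.nd (nat_lit 78) (nat_lit 380) (nat_lit 0) (XT.lf (nat_lit 0) (nat_lit 15608109230) (nat_lit 304) (nat_lit 1890729477) (nat_lit 76) (nat_lit 540994197) (nat_lit 84) (nat_lit 5) (nat_lit 88) (nat_lit 5) (nat_lit 85) (nat_lit 5) (nat_lit 499) (nat_lit 388) (nat_lit 253)) (XT.lf (nat_lit 0) (nat_lit 2066259279) (nat_lit 380) (nat_lit 9663852453) (nat_lit 76) (nat_lit 6544517183) (nat_lit 79) (nat_lit 5) (nat_lit 84) (nat_lit 5) (nat_lit 80) (nat_lit 5) (nat_lit 500) (nat_lit 388) (nat_lit 252)))))) (XT.nd (nat_lit 50622) (nat_lit 0) (nat_lit 44916) (XT.nd (nat_lit 156) (nat_lit 532) (nat_lit 0) (XT.nd (nat_lit 78) (nat_lit 0) (nat_lit 0) (XT.lf (nat_lit 0) (nat_lit 803396596) (nat_lit 228) (nat_lit 5821284400) (nat_lit 304) (nat_lit 11889059329) (nat_lit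 76) (nat_lit 5) (nat_lit 79) (nat_lit 5) (nat_lit 80) (nat_lit 5) (nat_lit 501) (nat_lit 388) (nat_lit 251)) (XT.lf (nat_lit 0) (nat_lit 11325974514) (nat_lit 304) (nat_lit 7172211087) (nat_lit 76) (nat_lit 258416011) (nat_lit 76) (nat_lit 5) (nat_lit 80) (nat_lit 5) (nat_lit 77) (nat_lit 5) (nat_lit 502) (nat_lit 388) (nat_lit 250))) (XT.nd (nat_lit 78) (nat_lit 304) (nat_lit 0) (XT.lf (nat_lit 0) (nat_lit 3560222011) (nat_lit 228) (nat_lit 12608119839) (nat_lit 304) (nat_lit 2835038997) (nat_lit 73) (nat_lit 5) (nat_lit 76) (nat_lit 5) (nat_lit 77) (nat_lit 5) (nat_lit 503) (nat_lit 388) (nat_lit 249)) (XT.nd (nat_lit 78) (nat_lit 228) (nat_lit 0) (XT.lf (nat_lit 0) (nat_lit 1862024989) (nat_lit 304) (nat_lit 4686591466) (nat_lit 76) (nat_lit 12705563092) (nat_lit 72) (nat_lit 5) (nat_lit 76) (nat_lit 5) (nat_lit 73) (nat_lit 5) (nat_lit 504) (nat_lit 388) (nat_lit 248)) (XT.lf (nat_lit 0) (nat_lit 6325133281) (nat_lit 228)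 (nat_lit 316735732) (nat_lit 304) (nat_lit 12867216002) (nat_lit 69) (nat_lit 5) (nat_lit 72) (nat_lit 5) (nat_lit 73) (nat_lit 5) (nat_lit 505) (nat_lit 388) (nat_lit 247))))) (XT.nd (nat_lit 234) (nat_lit 760) (nat_lit 0) (XT.nd (nat_lit 78) (nat_lit 684) (nat_lit 0) (XT.lf (nat_lit 0) (nat_lit 1998416269) (nat_lit 684) (nat_lit 650243523) (nat_lit 684) (nat_lit 650243523) (nat_lit 679) (nat_lit 3) (nat_lit 688) (nat_lit 3) (nat_lit 688) (nat_lit 5) (nat_lit 389) (nat_lit 389) (nat_lit 362)) (XT.nd (nat_lit 78) (nat_lit 684) (nat_lit 0) (XT.lf (nat_lit 76) (nat_lit 1931416733) (nat_lit 0) (nat_lit 4454806016) (nat_lit 684) (nat_lit 229527115) (nat_lit 680) (nat_lit 5) (nat_lit 679) (nat_lit 3) (nat_lit 688) (nat_lit 5) (nat_lit 390) (nat_lit 389) (nat_lit 361)) (XT.lf (nat_lit 0) (nat_lit 2107482444) (nat_lit 684) (nat_lit 1435103867) (nat_lit 760) (nat_lit 3092271318) (nat_lit 670) (nat_lit 5) (nat_lit 679) (nat_lit 3) (nat_lit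 680) (nat_lit 5) (nat_lit 391) (nat_lit 389) (nat_lit 360)))) (XT.nd (nat_lit 78) (nat_lit 760) (nat_lit 0) (XT.lf (nat_lit 76) (nat_lit 1870215222) (nat_lit 0) (nat_lit 2569366211) (nat_lit 760) (nat_lit 2215733703) (nat_lit 671) (nat_lit 5) (nat_lit 670) (nat_lit 5) (nat_lit 680) (nat_lit 5) (nat_lit 392) (nat_lit 389) (nat_lit 359)) (XT.nd (nat_lit 78) (nat_lit 0) (nat_lit 0) (XT.lf (nat_lit 0) (nat_lit 89811278) (nat_lit 760) (nat_lit 1448399804) (nat_lit 836) (nat_lit 5138986912) (nat_lit 660) (nat_lit 5) (nat_lit 670) (nat_lit 5) (nat_lit 671) (nat_lit 5) (nat_lit 393) (nat_lit 389) (nat_lit 358)) (XT.lf (nat_lit 76) (nat_lit 1933843003) (nat_lit 0) (nat_lit 431559387) (nat_lit 836) (nat_lit 4334775982) (nat_lit 661) (nat_lit 5) (nat_lit 660) (nat_lit 5) (nat_lit 671) (nat_lit 5) (nat_lit 394) (nat_lit 389) (nat_lit 357))))))) (XT.nd (nat_lit 858) (nat_lit 7220) (nat_lit 0) (XT.nd (nat_lit 390) (nat_lit 912) (nat_lit 0)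 (XT.nd (nat_lit 156) (nat_lit 912) (nat_lit 0) (XT.nd (nat_lit 78) (nat_lit 836) (nat_lit 0) (XT.lf (nat_lit 0) (nat_lit 4642958421) (nat_lit 760) (nat_lit 1357677690) (nat_lit 836) (nat_lit 723877557) (nat_lit 661) (nat_lit 5) (nat_lit 671) (nat_lit 5) (nat_lit 672) (nat_lit 5) (nat_lit 395) (nat_lit 389) (nat_lit 356)) (XT.lf (nat_lit 0) (nat_lit 173442740) (nat_lit 836) (nat_lit 4639693493) (nat_lit 912) (nat_lit 1937003614) (nat_lit 650) (nat_lit 5) (nat_lit 661) (nat_lit 5) (nat_lit 662) (nat_lit 5) (nat_lit 396) (nat_lit 389) (nat_lit 355))) (XT.nd (nat_lit 78) (nat_lit 912) (nat_lit 0) (XT.lf (nat_lit 0) (nat_lit 2398653193) (nat_lit 836) (nat_lit 1156541261) (nat_lit 912) (nat_lit 3221772190) (nat_lit 650) (nat_lit 5) (nat_lit 661) (nat_lit 5) (nat_lit 662) (nat_lit 5) (nat_lit 397) (nat_lit 389) (nat_lit 354)) (XT.nd (nat_lit 78) (nat_lit 912) (nat_lit 0) (XT.lf (nat_lit 76) (nat_lit 2395399904) (nat_lit 0) (nat_lit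 2233410091) (nat_lit 912) (nat_lit 2176333657) (nat_lit 651) (nat_lit 5) (nat_lit 650) (nat_lit 5) (nat_lit 662) (nat_lit 5) (nat_lit 398) (nat_lit 389) (nat_lit 353)) (XT.lf (nat_lit 0) (nat_lit 21965153) (nat_lit 912) (nat_lit 833000984) (nat_lit 988) (nat_lit 5979866788) (nat_lit 638) (nat_lit 5) (nat_lit 650) (nat_lit 5) (nat_lit 651) (nat_lit 5) (nat_lit 399) (nat_lit 389) (nat_lit 352))))) (XT.nd (nat_lit 234) (nat_lit 988) (nat_lit 0) (XT.nd (nat_lit 78) (nat_lit 0) (nat_lit 0) (XT.lf (nat_lit 0) (nat_lit 2203715575) (nat_lit 912) (nat_lit 4064011655) (nat_lit 988) (nat_lit 597749724) (nat_lit 639) (nat_lit 5) (nat_lit 651) (nat_lit 5) (nat_lit 652) (nat_lit 5) (nat_lit 400) (nat_lit 389) (nat_lit 351)) (XT.nd (nat_lit 78) (nat_lit 0) (nat_lit 0) (XT.lf (nat_lit 0) (nat_lit 4387818873) (nat_lit 912) (nat_lit 415588125) (nat_lit 988) (nat_lit 2094173311) (nat_lit 639) (nat_lit 5) (nat_lit 651) (nat_lit 5) (nat_lit 652)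 (nat_lit 5) (nat_lit 401) (nat_lit 389) (nat_lit 350)) (XT.lf (nat_lit 76) (nat_lit 3316775087) (nat_lit 0) (nat_lit 3268823605) (nat_lit 988) (nat_lit 345347543) (nat_lit 640) (nat_lit 5) (nat_lit 639) (nat_lit 5) (nat_lit 652) (nat_lit 5) (nat_lit 402) (nat_lit 389) (nat_lit 349)))) (XT.nd (nat_lit 78) (nat_lit 0) (nat_lit 76) (XT.lf (nat_lit 76) (nat_lit 120958027) (nat_lit 0) (nat_lit 1669468889) (nat_lit 1064) (nat_lit 5175280385) (nat_lit 627) (nat_lit 5) (nat_lit 626) (nat_lit 5) (nat_lit 640) (nat_lit 5) (nat_lit 403) (nat_lit 389) (nat_lit 348)) (XT.nd (nat_lit 78) (nat_lit 0) (nat_lit 0) (XT.lf (nat_lit 0) (nat_lit 3938270443) (nat_lit 988) (nat_lit 3057033190) (nat_lit 1064) (nat_lit 6353962) (nat_lit 627) (nat_lit 5) (nat_lit 640) (nat_lit 5) (nat_lit 641) (nat_lit 5) (nat_lit 404) (nat_lit 389) (nat_lit 347)) (XT.lf (nat_lit 76) (nat_lit 772239236) (nat_lit 0) (nat_lit 5323693146) (nat_lit 1064) (nat_lit 943076124)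 (nat_lit 628) (nat_lit 5) (nat_lit 627) (nat_lit 5) (nat_lit 641) (nat_lit 5) (nat_lit 405) (nat_lit 389) (nat_lit 346)))))) (XT.nd (nat_lit 468) (nat_lit 4028) (nat_lit 0) (XT.nd (nat_lit 234) (nat_lit 2204) (nat_lit 0) (XT.nd (nat_lit 78) (nat_lit 0) (nat_lit 0) (XT.lf (nat_lit 0) (nat_lit 1175498175) (nat_lit 1064) (nat_lit 2398932392) (nat_lit 1140) (nat_lit 3503098544) (nat_lit 613) (nat_lit 5) (nat_lit 627) (nat_lit 5) (nat_lit 628) (nat_lit 5) (nat_lit 406) (nat_lit 389) (nat_lit 345)) (XT.nd (nat_lit 78) (nat_lit 0) (nat_lit 76) (XT.lf (nat_lit 76) (nat_lit 1526985841) (nat_lit 0) (nat_lit 1758915854) (nat_lit 1140) (nat_lit 3831569803) (nat_lit 614) (nat_lit 5) (nat_lit 613) (nat_lit 5) (nat_lit 628) (nat_lit 5) (nat_lit 407) (nat_lit 389) (nat_lit 344)) (XT.lf (nat_lit 0) (nat_lit 5408298266) (nat_lit 1064) (nat_lit 1628551482) (nat_lit 76) (nat_lit 121984690) (nat_lit 614) (nat_lit 5) (nat_lit 628) (nat_lit 5) (nat_lit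 615) (nat_lit 5) (nat_lit 408) (nat_lit 389) (nat_lit 343)))) (XT.nd (nat_lit 78) (nat_lit 1140) (nat_lit 0) (XT.lf (nat_lit 0) (nat_lit 348220679) (nat_lit 1140) (nat_lit 4804498042) (nat_lit 76) (nat_lit 2048654667) (nat_lit 599) (nat_lit 5) (nat_lit 614) (nat_lit 5) (nat_lit 600) (nat_lit 5) (nat_lit 409) (nat_lit 389) (nat_lit 342)) (XT.nd (nat_lit 78) (nat_lit 1140) (nat_lit 0) (XT.lf (nat_lit 0) (nat_lit 2430807153) (nat_lit 1140) (nat_lit 764956167) (nat_lit 76) (nat_lit 4049478894) (nat_lit 599) (nat_lit 5) (nat_lit 614) (nat_lit 5) (nat_lit 600) (nat_lit 5) (nat_lit 410) (nat_lit 389) (nat_lit 341)) (XT.lf (nat_lit 0) (nat_lit 3366556552) (nat_lit 1140) (nat_lit 1165514803) (nat_lit 1216) (nat_lit 2758392622) (nat_lit 584) (nat_lit 5) (nat_lit 599) (nat_lit 5) (nat_lit 600) (nat_lit 5) (nat_lit 411) (nat_lit 389) (nat_lit 340))))) (XT.nd (nat_lit 234) (nat_lit 1444) (nat_lit 0) (XT.nd (nat_lit 78) (nat_lit 1368) (nat_lit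 0) (XT.lf (nat_lit 0) (nat_lit 217796368) (nat_lit 1216) (nat_lit 6425932408) (nat_lit 1292) (nat_lit 693509807) (nat_lit 568) (nat_lit 5) (nat_lit 584) (nat_lit 5) (nat_lit 585) (nat_lit 5) (nat_lit 412) (nat_lit 389) (nat_lit 339)) (XT.nd (nat_lit 78) (nat_lit 1292) (nat_lit 0) (XT.lf (nat_lit 0) (nat_lit 1384620303) (nat_lit 1292) (nat_lit 2940067075) (nat_lit 76) (nat_lit 3060283474) (nat_lit 567) (nat_lit 5) (nat_lit 584) (nat_lit 5) (nat_lit 568) (nat_lit 5) (nat_lit 413) (nat_lit 389) (nat_lit 338)) (XT.lf (nat_lit 0) (nat_lit 1301942861) (nat_lit 1292) (nat_lit 2158656172) (nat_lit 1368) (nat_lit 3973670465) (nat_lit 550) (nat_lit 5) (nat_lit 567) (nat_lit 5) (nat_lit 568) (nat_lit 5) (nat_lit 414) (nat_lit 389) (nat_lit 337)))) (XT.nd (nat_lit 78) (nat_lit 1444) (nat_lit 0) (XT.lf (nat_lit 0) (nat_lit 5556080972) (nat_lit 1368) (nat_lit 1850106733) (nat_lit 76) (nat_lit 78821303) (nat_lit 550) (nat_lit 5) (nat_lit 568)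 (nat_lit 5) (nat_lit 551) (nat_lit 5) (nat_lit 415) (nat_lit 389) (nat_lit 336)) (XT.nd (nat_lit 78) (nat_lit 0) (nat_lit 0) (XT.lf (nat_lit 0) (nat_lit 143735848) (nat_lit 1444) (nat_lit 5035117555) (nat_lit 76) (nat_lit 2358121918) (nat_lit 531) (nat_lit 5) (nat_lit 550) (nat_lit 5) (nat_lit 532) (nat_lit 5) (nat_lit 416) (nat_lit 389) (nat_lit 335)) (XT.lf (nat_lit 0) (nat_lit 2203479798) (nat_lit 1444) (nat_lit 670452795) (nat_lit 76) (nat_lit 4716377985) (nat_lit 531) (nat_lit 5) (nat_lit 550) (nat_lit 5) (nat_lit 532) (nat_lit 5) (nat_lit 417) (nat_lit 389) (nat_lit 334))))))))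
noncomputable def xc115 : XT := (XT.nd (nat_lit 1716) (nat_lit 8968) (nat_lit 0) (XT.nd (nat_lit 858) (nat_lit 5852) (nat_lit 0) (XT.nd (nat_lit 390) (nat_lit 5776) (nat_lit 0) (XT.nd (nat_lit 156) (nat_lit 1672) (nat_lit 0) (XT.nd (nat_lit 78) (nat_lit 1520) (nat_lit 0) (XT.lf (nat_lit 0) (nat_lit 3798178066) (nat_lit 1444) (nat_lit 490639655) (nat_lit 1520) (nat_lit 3356220292) (nat_lit 512) (nat_lit 5) (nat_lit 531) (nat_lit 5) (nat_lit 532) (nat_lit 5) (nat_lit 418) (nat_lit 389) (nat_lit 333)) (XT.lf (nat_lit 0) (nat_lit 626312502) (nat_lit 1520) (nat_lit 5771101450) (nat_lit 1596) (nat_lit 1303828205) (nat_lit 492) (nat_lit 5) (nat_lit 512) (nat_lit 5) (nat_lit 513) (nat_lit 5) (nat_lit 419) (nat_lit 389) (nat_lit 332))) (XT.nd (nat_lit 78) (nat_lit 1596) (nat_lit 0) (XT.lf (nat_lit 0) (nat_lit 769136754) (nat_lit 1596) (nat_lit 2559594636) (nat_lit 76) (nat_lit 4429951521) (nat_lit 491) (nat_lit 5) (nat_lit 512) (nat_lit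 5) (nat_lit 492) (nat_lit 5) (nat_lit 420) (nat_lit 389) (nat_lit 331)) (XT.nd (nat_lit 78) (nat_lit 0) (nat_lit 0) (XT.lf (nat_lit 0) (nat_lit 2030625624) (nat_lit 1596) (nat_lit 810095509) (nat_lit 1672) (nat_lit 4976899044) (nat_lit 470) (nat_lit 5) (nat_lit 491) (nat_lit 5) (nat_lit 492) (nat_lit 5) (nat_lit 421) (nat_lit 389) (nat_lit 330)) (XT.lf (nat_lit 0) (nat_lit 4944437501) (nat_lit 1672) (nat_lit 1175583618) (nat_lit 76) (nat_lit 1757913250) (nat_lit 470) (nat_lit 5) (nat_lit 492) (nat_lit 5) (nat_lit 471) (nat_lit 5) (nat_lit 422) (nat_lit 389) (nat_lit 329))))) (XT.nd (nat_lit 234) (nat_lit 2280) (nat_lit 0) (XT.nd (nat_lit 78) (nat_lit 1824) (nat_lit 0) (XT.lf (nat_lit 0) (nat_lit 3535725634) (nat_lit 1672) (nat_lit 3545559290) (nat_lit 1748) (nat_lit 858360736) (nat_lit 448) (nat_lit 5) (nat_lit 470) (nat_lit 5) (nat_lit 471) (nat_lit 5) (nat_lit 423) (nat_lit 389) (nat_lit 328)) (XT.nd (nat_lit 78) (nat_lit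 0) (nat_lit 0) (XT.lf (nat_lit 0) (nat_lit 317079115) (nat_lit 1748) (nat_lit 897692483) (nat_lit 1824) (nat_lit 6788207749) (nat_lit 424) (nat_lit 5) (nat_lit 447) (nat_lit 5) (nat_lit 448) (nat_lit 5) (nat_lit 424) (nat_lit 389) (nat_lit 327)) (XT.lf (nat_lit 0) (nat_lit 3322864450) (nat_lit 1824) (nat_lit 2926542168) (nat_lit 76) (nat_lit 1817971046) (nat_lit 424) (nat_lit 5) (nat_lit 448) (nat_lit 5) (nat_lit 425) (nat_lit 5) (nat_lit 425) (nat_lit 389) (nat_lit 326)))) (XT.nd (nat_lit 78) (nat_lit 988) (nat_lit 0) (XT.lf (nat_lit 0) (nat_lit 1913665254) (nat_lit 1292) (nat_lit 3542063982) (nat_lit 1368) (nat_lit 2677693550) (nat_lit 407) (nat_lit 5) (nat_lit 424) (nat_lit 5) (nat_lit 425) (nat_lit 5) (nat_lit 426) (nat_lit 389) (nat_lit 325)) (XT.nd (nat_lit 78) (nat_lit 988) (nat_lit 0) (XT.lf (nat_lit 0) (nat_lit 6857076329) (nat_lit 1292) (nat_lit 758539094) (nat_lit 1368) (nat_lit 585496927) (nat_lit 407) (nat_lit 5)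 (nat_lit 424) (nat_lit 5) (nat_lit 425) (nat_lit 5) (nat_lit 427) (nat_lit 389) (nat_lit 324)) (XT.lf (nat_lit 0) (nat_lit 1530747355) (nat_lit 988) (nat_lit 4650221519) (nat_lit 76) (nat_lit 2088945884) (nat_lit 394) (nat_lit 5) (nat_lit 407) (nat_lit 5) (nat_lit 395) (nat_lit 5) (nat_lit 428) (nat_lit 389) (nat_lit 323)))))) (XT.nd (nat_lit 390) (nat_lit 3192) (nat_lit 0) (XT.nd (nat_lit 156) (nat_lit 1824) (nat_lit 0) (XT.nd (nat_lit 78) (nat_lit 0) (nat_lit 0) (XT.lf (nat_lit 0) (nat_lit 322694063) (nat_lit 836) (nat_lit 3340644072) (nat_lit 912) (nat_lit 4677050647) (nat_lit 383) (nat_lit 5) (nat_lit 394) (nat_lit 5) (nat_lit 395) (nat_lit 5) (nat_lit 429) (nat_lit 389) (nat_lit 322)) (XT.lf (nat_lit 0) (nat_lit 5424743346) (nat_lit 836) (nat_lit 411156213) (nat_lit 912) (nat_lit 2576436348) (nat_lit 383) (nat_lit 5) (nat_lit 394) (nat_lit 5) (nat_lit 395) (nat_lit 5) (nat_lit 430) (nat_lit 389) (nat_lit 321))) (XT.nd (nat_lit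 78) (nat_lit 912) (nat_lit 0) (XT.lf (nat_lit 0) (nat_lit 2120812312) (nat_lit 912) (nat_lit 5928381895) (nat_lit 988) (nat_lit 436591930) (nat_lit 371) (nat_lit 5) (nat_lit 383) (nat_lit 5) (nat_lit 384) (nat_lit 5) (nat_lit 431) (nat_lit 389) (nat_lit 320)) (XT.nd (nat_lit 78) (nat_lit 836) (nat_lit 0) (XT.lf (nat_lit 0) (nat_lit 1713044237) (nat_lit 988) (nat_lit 1236225237) (nat_lit 76) (nat_lit 5611420695) (nat_lit 370) (nat_lit 5) (nat_lit 383) (nat_lit 5) (nat_lit 371) (nat_lit 5) (nat_lit 432) (nat_lit 389) (nat_lit 319)) (XT.lf (nat_lit 0) (nat_lit 3894286654) (nat_lit 912) (nat_lit 4626067512) (nat_lit 76) (nat_lit 116800445) (nat_lit 359) (nat_lit 5) (nat_lit 371) (nat_lit 5) (nat_lit 360) (nat_lit 5) (nat_lit 433) (nat_lit 389) (nat_lit 318))))) (XT.nd (nat_lit 234) (nat_lit 1520) (nat_lit 0) (XT.nd (nat_lit 78) (nat_lit 836) (nat_lit 0) (XT.lf (nat_lit 0) (nat_lit 620290917) (nat_lit 836) (nat_lit 5498827310) (nat_lit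 912) (nat_lit 2596039884) (nat_lit 348) (nat_lit 5) (nat_lit 359) (nat_lit 5) (nat_lit 360) (nat_lit 5) (nat_lit 434) (nat_lit 389) (nat_lit 317)) (XT.nd (nat_lit 78) (nat_lit 836) (nat_lit 0) (XT.lf (nat_lit 0) (nat_lit 6001125273) (nat_lit 836) (nat_lit 2386830316) (nat_lit 912) (nat_lit 406784785) (nat_lit 348) (nat_lit 5) (nat_lit 359) (nat_lit 5) (nat_lit 360) (nat_lit 5) (nat_lit 435) (nat_lit 389) (nat_lit 316)) (XT.lf (nat_lit 0) (nat_lit 1793366147) (nat_lit 836) (nat_lit 6278248467) (nat_lit 76) (nat_lit 804249810) (nat_lit 337) (nat_lit 5) (nat_lit 348) (nat_lit 5) (nat_lit 338) (nat_lit 5) (nat_lit 436) (nat_lit 389) (nat_lit 315)))) (XT.nd (nat_lit 78) (nat_lit 1520) (nat_lit 0) (XT.lf (nat_lit 0) (nat_lit 4036011839) (nat_lit 836) (nat_lit 875645427) (nat_lit 76) (nat_lit 4046829503) (nat_lit 337) (nat_lit 5) (nat_lit 348) (nat_lit 5) (nat_lit 338) (nat_lit 5) (nat_lit 437) (nat_lit 389) (nat_lit 314)) (XT.nd (nat_lit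 78) (nat_lit 760) (nat_lit 0) (XT.lf (nat_lit 0) (nat_lit 4663501429) (nat_lit 760) (nat_lit 1660146283) (nat_lit 836) (nat_lit 2719119307) (nat_lit 327) (nat_lit 5) (nat_lit 337) (nat_lit 5) (nat_lit 338) (nat_lit 5) (nat_lit 438) (nat_lit 389) (nat_lit 313)) (XT.lf (nat_lit 0) (nat_lit 1168171195) (nat_lit 760) (nat_lit 7483340524) (nat_lit 836) (nat_lit 477339686) (nat_lit 317) (nat_lit 5) (nat_lit 327) (nat_lit 5) (nat_lit 328) (nat_lit 5) (nat_lit 439) (nat_lit 389) (nat_lit 312))))))) (XT.nd (nat_lit 858) (nat_lit 4636) (nat_lit 0) (XT.nd (nat_lit 390) (nat_lit 2052) (nat_lit 0) (XT.nd (nat_lit 156) (nat_lit 1444) (nat_lit 0) (XT.nd (nat_lit 78) (nat_lit 760) (nat_lit 0) (XT.lf (nat_lit 0) (nat_lit 1796512439) (nat_lit 836) (nat_lit 2386312481) (nat_lit 76) (nat_lit 5033386031) (nat_lit 316) (nat_lit 5) (nat_lit 327) (nat_lit 5) (nat_lit 317) (nat_lit 5) (nat_lit 440) (nat_lit 389) (nat_lit 311)) (XT.lf (nat_lit 0) (nat_lit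 3307181598) (nat_lit 760) (nat_lit 794717162) (nat_lit 836) (nat_lit 5203514425) (nat_lit 306) (nat_lit 5) (nat_lit 316) (nat_lit 5) (nat_lit 317) (nat_lit 5) (nat_lit 441) (nat_lit 389) (nat_lit 310))) (XT.nd (nat_lit 78) (nat_lit 1444) (nat_lit 0) (XT.lf (nat_lit 0) (nat_lit 6458095733) (nat_lit 836) (nat_lit 299487239) (nat_lit 76) (nat_lit 2638729860) (nat_lit 306) (nat_lit 5) (nat_lit 317) (nat_lit 5) (nat_lit 307) (nat_lit 5) (nat_lit 442) (nat_lit 389) (nat_lit 309)) (XT.nd (nat_lit 78) (nat_lit 760) (nat_lit 0) (XT.lf (nat_lit 0) (nat_lit 5548466853) (nat_lit 684) (nat_lit 3326105279) (nat_lit 760) (nat_lit 614202515) (nat_lit 297) (nat_lit 5) (nat_lit 306) (nat_lit 5) (nat_lit 307) (nat_lit 5) (nat_lit 443) (nat_lit 389) (nat_lit 308)) (XT.lf (nat_lit 0) (nat_lit 1721011648) (nat_lit 760) (nat_lit 7668742751) (nat_lit 76) (nat_lit 193355170) (nat_lit 287) (nat_lit 5) (nat_lit 297) (nat_lit 5) (nat_lit 288) (nat_lit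 5) (nat_lit 444) (nat_lit 389) (nat_lit 307))))) (XT.nd (nat_lit 234) (nat_lit 684) (nat_lit 0) (XT.nd (nat_lit 78) (nat_lit 1368) (nat_lit 0) (XT.lf (nat_lit 0) (nat_lit 4115687591) (nat_lit 760) (nat_lit 1798279659) (nat_lit 76) (nat_lit 3764869971) (nat_lit 287) (nat_lit 5) (nat_lit 297) (nat_lit 5) (nat_lit 288) (nat_lit 5) (nat_lit 445) (nat_lit 389) (nat_lit 306)) (XT.nd (nat_lit 78) (nat_lit 684) (nat_lit 0) (XT.lf (nat_lit 0) (nat_lit 4212731395) (nat_lit 684) (nat_lit 2345750197) (nat_lit 760) (nat_lit 3218000073) (nat_lit 278) (nat_lit 5) (nat_lit 287) (nat_lit 5) (nat_lit 288) (nat_lit 5) (nat_lit 446) (nat_lit 389) (nat_lit 305)) (XT.lf (nat_lit 0) (nat_lit 457612203) (nat_lit 684) (nat_lit 8589202497) (nat_lit 760) (nat_lit 829337226) (nat_lit 269) (nat_lit 5) (nat_lit 278) (nat_lit 5) (nat_lit 279) (nat_lit 5) (nat_lit 447) (nat_lit 389) (nat_lit 304)))) (XT.nd (nat_lit 78) (nat_lit 608) (nat_lit 0) (XT.lf (nat_lit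 0) (nat_lit 1612438723) (nat_lit 760) (nat_lit 3361023495) (nat_lit 76) (nat_lit 5003622685) (nat_lit 268) (nat_lit 5) (nat_lit 278) (nat_lit 5) (nat_lit 269) (nat_lit 5) (nat_lit 448) (nat_lit 389) (nat_lit 303)) (XT.nd (nat_lit 78) (nat_lit 0) (nat_lit 0) (XT.lf (nat_lit 0) (nat_lit 2817178700) (nat_lit 608) (nat_lit 1266891098) (nat_lit 684) (nat_lit 5996020829) (nat_lit 260) (nat_lit 5) (nat_lit 268) (nat_lit 5) (nat_lit 269) (nat_lit 5) (nat_lit 449) (nat_lit 389) (nat_lit 302)) (XT.lf (nat_lit 0) (nat_lit 6618250962) (nat_lit 684) (nat_lit 1068867012) (nat_lit 76) (nat_lit 2497782238) (nat_lit 260) (nat_lit 5) (nat_lit 269) (nat_lit 5) (nat_lit 261) (nat_lit 5) (nat_lit 450) (nat_lit 389) (nat_lit 301)))))) (XT.nd (nat_lit 468) (nat_lit 2128) (nat_lit 0) (XT.nd (nat_lit 234) (nat_lit 1216) (nat_lit 0) (XT.nd (nat_lit 78) (nat_lit 684) (nat_lit 0) (XT.lf (nat_lit 0) (nat_lit 5278330906) (nat_lit 608) (nat_lit 3942045795)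 (nat_lit 684) (nat_lit 1071090041) (nat_lit 252) (nat_lit 5) (nat_lit 260) (nat_lit 5) (nat_lit 261) (nat_lit 5) (nat_lit 451) (nat_lit 389) (nat_lit 300)) (XT.nd (nat_lit 78) (nat_lit 0) (nat_lit 0) (XT.lf (nat_lit 0) (nat_lit 1343238919) (nat_lit 608) (nat_lit 102468951) (nat_lit 684) (nat_lit 8954457737) (nat_lit 243) (nat_lit 5) (nat_lit 251) (nat_lit 5) (nat_lit 252) (nat_lit 5) (nat_lit 452) (nat_lit 389) (nat_lit 299)) (XT.lf (nat_lit 0) (nat_lit 4032111059) (nat_lit 684) (nat_lit 2679701281) (nat_lit 76) (nat_lit 3798417917) (nat_lit 243) (nat_lit 5) (nat_lit 252) (nat_lit 5) (nat_lit 244) (nat_lit 5) (nat_lit 453) (nat_lit 389) (nat_lit 298)))) (XT.nd (nat_lit 78) (nat_lit 608) (nat_lit 0) (XT.lf (nat_lit 0) (nat_lit 3843471647) (nat_lit 608) (nat_lit 2827866255) (nat_lit 684) (nat_lit 3951141903) (nat_lit 235) (nat_lit 5) (nat_lit 243) (nat_lit 5) (nat_lit 244) (nat_lit 5) (nat_lit 454) (nat_lit 389) (nat_lit 297))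 (XT.nd (nat_lit 78) (nat_lit 608) (nat_lit 0) (XT.lf (nat_lit 0) (nat_lit 9364508835) (nat_lit 684) (nat_lit 242228953) (nat_lit 76) (nat_lit 1130218779) (nat_lit 235) (nat_lit 5) (nat_lit 244) (nat_lit 5) (nat_lit 236) (nat_lit 5) (nat_lit 455) (nat_lit 389) (nat_lit 296)) (XT.lf (nat_lit 0) (nat_lit 1278408631) (nat_lit 608) (nat_lit 4401062264) (nat_lit 76) (nat_lit 5173352140) (nat_lit 227) (nat_lit 5) (nat_lit 235) (nat_lit 5) (nat_lit 228) (nat_lit 5) (nat_lit 456) (nat_lit 389) (nat_lit 295))))) (XT.nd (nat_lit 234) (nat_lit 1064) (nat_lit 0) (XT.nd (nat_lit 78) (nat_lit 532) (nat_lit 0) (XT.lf (nat_lit 0) (nat_lit 2301966406) (nat_lit 532) (nat_lit 1654818056) (nat_lit 608) (nat_lit 7014188444) (nat_lit 220) (nat_lit 5) (nat_lit 227) (nat_lit 5) (nat_lit 228) (nat_lit 5) (nat_lit 457) (nat_lit 389) (nat_lit 294)) (XT.nd (nat_lit 78) (nat_lit 532) (nat_lit 0) (XT.lf (nat_lit 0) (nat_lit 6710862749) (nat_lit 608) (nat_lit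 1939572216) (nat_lit 76) (nat_lit 2440613109) (nat_lit 220) (nat_lit 5) (nat_lit 228) (nat_lit 5) (nat_lit 221) (nat_lit 5) (nat_lit 458) (nat_lit 389) (nat_lit 293)) (XT.lf (nat_lit 0) (nat_lit 4947709658) (nat_lit 532) (nat_lit 4592353420) (nat_lit 608) (nat_lit 1673065759) (nat_lit 213) (nat_lit 5) (nat_lit 220) (nat_lit 5) (nat_lit 221) (nat_lit 5) (nat_lit 459) (nat_lit 389) (nat_lit 292)))) (XT.nd (nat_lit 78) (nat_lit 456) (nat_lit 0) (XT.lf (nat_lit 0) (nat_lit 631994945) (nat_lit 532) (nat_lit 436190363) (nat_lit 608) (nat_lit 10269444091) (nat_lit 205) (nat_lit 5) (nat_lit 212) (nat_lit 5) (nat_lit 213) (nat_lit 5) (nat_lit 460) (nat_lit 389) (nat_lit 291)) (XT.nd (nat_lit 78) (nat_lit 456) (nat_lit 0) (XT.lf (nat_lit 0) (nat_lit 3886150995) (nat_lit 608) (nat_lit 3778527648) (nat_lit 76) (nat_lit 3798838931) (nat_lit 205) (nat_lit 5) (nat_lit 213) (nat_lit 5) (nat_lit 206) (nat_lit 5) (nat_lit 461) (nat_lit 389) (nat_lit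 290)) (XT.lf (nat_lit 0) (nat_lit 3297097434) (nat_lit 456) (nat_lit 3465376225) (nat_lit 532) (nat_lit 4829414428) (nat_lit 199) (nat_lit 5) (nat_lit 205) (nat_lit 5) (nat_lit 206) (nat_lit 5) (nat_lit 462) (nat_lit 389) (nat_lit 289))))))))
noncomputable def xc116 : XT := (XT.nd (nat_lit 1716) (nat_lit 3876) (nat_lit 0) (XT.nd (nat_lit 858) (nat_lit 2356) (nat_lit 0) (XT.nd (nat_lit 390) (nat_lit 1900) (nat_lit 0) (XT.nd (nat_lit 156) (nat_lit 912) (nat_lit 0) (XT.nd (nat_lit 78) (nat_lit 608) (nat_lit 0) (XT.lf (nat_lit 0) (nat_lit 9705047638) (nat_lit 532) (nat_lit 1192913490) (nat_lit 76) (nat_lit 824694823) (nat_lit 199) (nat_lit 5) (nat_lit 206) (nat_lit 5) (nat_lit 200) (nat_lit 5) (nat_lit 463) (nat_lit 389) (nat_lit 288)) (XT.lf (nat_lit 0) (nat_lit 880280489) (nat_lit 608) (nat_lit 5783227897) (nat_lit 76) (nat_lit 5191604618) (nat_lit 191) (nat_lit 5) (nat_lit 199) (nat_lit 5) (nat_lit 192) (nat_lit 5) (nat_lit 464)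 (nat_lit 389) (nat_lit 287))) (XT.nd (nat_lit 78) (nat_lit 456) (nat_lit 0) (XT.lf (nat_lit 0) (nat_lit 1484075372) (nat_lit 456) (nat_lit 2321164470) (nat_lit 532) (nat_lit 8184794241) (nat_lit 185) (nat_lit 5) (nat_lit 191) (nat_lit 5) (nat_lit 192) (nat_lit 5) (nat_lit 465) (nat_lit 389) (nat_lit 286)) (XT.nd (nat_lit 78) (nat_lit 456) (nat_lit 0) (XT.lf (nat_lit 0) (nat_lit 6820034403) (nat_lit 532) (nat_lit 3195946267) (nat_lit 76) (nat_lit 2111050296) (nat_lit 185) (nat_lit 5) (nat_lit 192) (nat_lit 5) (nat_lit 186) (nat_lit 5) (nat_lit 466) (nat_lit 389) (nat_lit 285)) (XT.lf (nat_lit 0) (nat_lit 4271262837) (nat_lit 456) (nat_lit 5645969565) (nat_lit 532) (nat_lit 2349097252) (nat_lit 179) (nat_lit 5) (nat_lit 185) (nat_lit 5) (nat_lit 186) (nat_lit 5) (nat_lit 467) (nat_lit 389) (nat_lit 284))))) (XT.nd (nat_lit 234) (nat_lit 912) (nat_lit 0) (XT.nd (nat_lit 78) (nat_lit 912) (nat_lit 0) (XT.lf (nat_lit 0) (nat_lit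 659870839) (nat_lit 532) (nat_lit 511063038) (nat_lit 76) (nat_lit 11237384141) (nat_lit 178) (nat_lit 5) (nat_lit 185) (nat_lit 5) (nat_lit 179) (nat_lit 5) (nat_lit 468) (nat_lit 389) (nat_lit 283)) (XT.nd (nat_lit 78) (nat_lit 456) (nat_lit 0) (XT.lf (nat_lit 0) (nat_lit 3746040107) (nat_lit 532) (nat_lit 5402734569) (nat_lit 76) (nat_lit 3403095189) (nat_lit 172) (nat_lit 5) (nat_lit 179) (nat_lit 5) (nat_lit 173) (nat_lit 5) (nat_lit 469) (nat_lit 389) (nat_lit 282)) (XT.lf (nat_lit 0) (nat_lit 2263839235) (nat_lit 456) (nat_lit 4635649233) (nat_lit 532) (nat_lit 5798696879) (nat_lit 166) (nat_lit 5) (nat_lit 172) (nat_lit 5) (nat_lit 173) (nat_lit 5) (nat_lit 470) (nat_lit 389) (nat_lit 281)))) (XT.nd (nat_lit 78) (nat_lit 912) (nat_lit 0) (XT.lf (nat_lit 0) (nat_lit 10127857652) (nat_lit 456) (nat_lit 4263883) (nat_lit 532) (nat_lit 2714986932) (nat_lit 166) (nat_lit 5) (nat_lit 172) (nat_lit 5) (nat_lit 173) (nat_lit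 5) (nat_lit 471) (nat_lit 389) (nat_lit 280)) (XT.nd (nat_lit 78) (nat_lit 456) (nat_lit 0) (XT.lf (nat_lit 0) (nat_lit 469375403) (nat_lit 456) (nat_lit 7842953394) (nat_lit 76) (nat_lit 4685736405) (nat_lit 160) (nat_lit 5) (nat_lit 166) (nat_lit 5) (nat_lit 161) (nat_lit 5) (nat_lit 472) (nat_lit 389) (nat_lit 279)) (XT.lf (nat_lit 0) (nat_lit 25381277) (nat_lit 456) (nat_lit 3654552411) (nat_lit 532) (nat_lit 9471774647) (nat_lit 154) (nat_lit 5) (nat_lit 160) (nat_lit 5) (nat_lit 161) (nat_lit 5) (nat_lit 473) (nat_lit 389) (nat_lit 278)))))) (XT.nd (nat_lit 390) (nat_lit 1140) (nat_lit 0) (XT.nd (nat_lit 156) (nat_lit 836) (nat_lit 0) (XT.nd (nat_lit 78) (nat_lit 380) (nat_lit 0) (XT.lf (nat_lit 0) (nat_lit 6995207427) (nat_lit 532) (nat_lit 5186554373) (nat_lit 76) (nat_lit 1125855808) (nat_lit 154) (nat_lit 5) (nat_lit 161) (nat_lit 5) (nat_lit 155) (nat_lit 5) (nat_lit 474) (nat_lit 389) (nat_lit 277)) (XT.lf (nat_lit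 0) (nat_lit 2897268829) (nat_lit 380) (nat_lit 7503322287) (nat_lit 456) (nat_lit 3065581160) (nat_lit 149) (nat_lit 5) (nat_lit 154) (nat_lit 5) (nat_lit 155) (nat_lit 5) (nat_lit 475) (nat_lit 389) (nat_lit 276))) (XT.nd (nat_lit 78) (nat_lit 760) (nat_lit 0) (XT.lf (nat_lit 0) (nat_lit 258845273) (nat_lit 456) (nat_lit 2444567868) (nat_lit 76) (nat_lit 10924138307) (nat_lit 148) (nat_lit 5) (nat_lit 154) (nat_lit 5) (nat_lit 149) (nat_lit 5) (nat_lit 476) (nat_lit 389) (nat_lit 275)) (XT.nd (nat_lit 78) (nat_lit 380) (nat_lit 0) (XT.lf (nat_lit 0) (nat_lit 3642660000) (nat_lit 456) (nat_lit 7935029247) (nat_lit 76) (nat_lit 2213387836) (nat_lit 143) (nat_lit 5) (nat_lit 149) (nat_lit 5) (nat_lit 144) (nat_lit 5) (nat_lit 477) (nat_lit 389) (nat_lit 274)) (XT.lf (nat_lit 0) (nat_lit 356754791) (nat_lit 380) (nat_lit 6755485729) (nat_lit 456) (nat_lit 6845273969) (nat_lit 138) (nat_lit 5) (nat_lit 143) (nat_lit 5) (nat_lit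 144) (nat_lit 5) (nat_lit 478) (nat_lit 389) (nat_lit 273))))) (XT.nd (nat_lit 234) (nat_lit 684) (nat_lit 0) (XT.nd (nat_lit 78) (nat_lit 456) (nat_lit 0) (XT.lf (nat_lit 0) (nat_lit 8893941764) (nat_lit 380) (nat_lit 1792059741) (nat_lit 456) (nat_lit 3440586347) (nat_lit 138) (nat_lit 5) (nat_lit 143) (nat_lit 5) (nat_lit 144) (nat_lit 5) (nat_lit 479) (nat_lit 389) (nat_lit 272)) (XT.nd (nat_lit 78) (nat_lit 0) (nat_lit 0) (XT.lf (nat_lit 0) (nat_lit 56415932) (nat_lit 456) (nat_lit 11001839975) (nat_lit 76) (nat_lit 3240292603) (nat_lit 132) (nat_lit 5) (nat_lit 138) (nat_lit 5) (nat_lit 133) (nat_lit 5) (nat_lit 480) (nat_lit 389) (nat_lit 271)) (XT.lf (nat_lit 0) (nat_lit 3606443201) (nat_lit 456) (nat_lit 2468362053) (nat_lit 76) (nat_lit 8398108009) (nat_lit 132) (nat_lit 5) (nat_lit 138) (nat_lit 5) (nat_lit 133) (nat_lit 5) (nat_lit 481) (nat_lit 389) (nat_lit 270)))) (XT.nd (nat_lit 78) (nat_lit 380) (nat_lit 0)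 (XT.lf (nat_lit 0) (nat_lit 6291028428) (nat_lit 304) (nat_lit 959540110) (nat_lit 380) (nat_lit 7399737583) (nat_lit 128) (nat_lit 5) (nat_lit 132) (nat_lit 5) (nat_lit 133) (nat_lit 5) (nat_lit 482) (nat_lit 389) (nat_lit 269)) (XT.nd (nat_lit 78) (nat_lit 0) (nat_lit 0) (XT.lf (nat_lit 0) (nat_lit 377973930) (nat_lit 380) (nat_lit 10618738564) (nat_lit 456) (nat_lit 3833954325) (nat_lit 123) (nat_lit 5) (nat_lit 128) (nat_lit 5) (nat_lit 129) (nat_lit 5) (nat_lit 483) (nat_lit 389) (nat_lit 268)) (XT.lf (nat_lit 0) (nat_lit 9369645823) (nat_lit 380) (nat_lit 5493073064) (nat_lit 456) (nat_lit 151019707) (nat_lit 123) (nat_lit 5) (nat_lit 128) (nat_lit 5) (nat_lit 129) (nat_lit 5) (nat_lit 484) (nat_lit 389) (nat_lit 267))))))) (XT.nd (nat_lit 858) (nat_lit 1520) (nat_lit 0) (XT.nd (nat_lit 390) (nat_lit 1216) (nat_lit 0) (XT.nd (nat_lit 156) (nat_lit 760) (nat_lit 0) (XT.nd (nat_lit 78) (nat_lit 0) (nat_lit 0) (XT.lf (nat_lit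 0) (nat_lit 3334100557) (nat_lit 304) (nat_lit 228590668) (nat_lit 380) (nat_lit 11637226825) (nat_lit 118) (nat_lit 5) (nat_lit 122) (nat_lit 5) (nat_lit 123) (nat_lit 5) (nat_lit 485) (nat_lit 389) (nat_lit 266)) (XT.lf (nat_lit 0) (nat_lit 7403021899) (nat_lit 380) (nat_lit 2882330437) (nat_lit 76) (nat_lit 5103363941) (nat_lit 118) (nat_lit 5) (nat_lit 123) (nat_lit 5) (nat_lit 119) (nat_lit 5) (nat_lit 486) (nat_lit 389) (nat_lit 265))) (XT.nd (nat_lit 78) (nat_lit 380) (nat_lit 0) (XT.lf (nat_lit 0) (nat_lit 6335938073) (nat_lit 380) (nat_lit 5010068312) (nat_lit 456) (nat_lit 4234769588) (nat_lit 113) (nat_lit 5) (nat_lit 118) (nat_lit 5) (nat_lit 119) (nat_lit 5) (nat_lit 487) (nat_lit 389) (nat_lit 264)) (XT.nd (nat_lit 78) (nat_lit 380) (nat_lit 0) (XT.lf (nat_lit 0) (nat_lit 15373019898) (nat_lit 456) (nat_lit 27752274) (nat_lit 76) (nat_lit 375803709) (nat_lit 113) (nat_lit 5) (nat_lit 119) (nat_lit 5) (nat_lit 114)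 (nat_lit 5) (nat_lit 488) (nat_lit 389) (nat_lit 263)) (XT.lf (nat_lit 0) (nat_lit 3536915793) (nat_lit 380) (nat_lit 6559770767) (nat_lit 76) (nat_lit 5877580629) (nat_lit 108) (nat_lit 5) (nat_lit 113) (nat_lit 5) (nat_lit 109) (nat_lit 5) (nat_lit 489) (nat_lit 389) (nat_lit 262))))) (XT.nd (nat_lit 234) (nat_lit 608) (nat_lit 0) (XT.nd (nat_lit 78) (nat_lit 304) (nat_lit 0) (XT.lf (nat_lit 0) (nat_lit 2879046197) (nat_lit 304) (nat_lit 4674295732) (nat_lit 380) (nat_lit 8622468339) (nat_lit 104) (nat_lit 5) (nat_lit 108) (nat_lit 5) (nat_lit 109) (nat_lit 5) (nat_lit 490) (nat_lit 389) (nat_lit 261)) (XT.nd (nat_lit 78) (nat_lit 304) (nat_lit 0) (XT.lf (nat_lit 0) (nat_lit 11683720971) (nat_lit 380) (nat_lit 3816985547) (nat_lit 76) (nat_lit 880007421) (nat_lit 104) (nat_lit 5) (nat_lit 109) (nat_lit 5) (nat_lit 105) (nat_lit 5) (nat_lit 491) (nat_lit 389) (nat_lit 260)) (XT.lf (nat_lit 0) (nat_lit 5872781128) (nat_lit 304)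 (nat_lit 10077082746) (nat_lit 380) (nat_lit 638790861) (nat_lit 100) (nat_lit 5) (nat_lit 104) (nat_lit 5) (nat_lit 105) (nat_lit 5) (nat_lit 492) (nat_lit 389) (nat_lit 259)))) (XT.nd (nat_lit 78) (nat_lit 532) (nat_lit 0) (XT.lf (nat_lit 0) (nat_lit 3464559030) (nat_lit 380) (nat_lit 1040775109) (nat_lit 76) (nat_lit 12294769849) (nat_lit 99) (nat_lit 5) (nat_lit 104) (nat_lit 5) (nat_lit 100) (nat_lit 5) (nat_lit 493) (nat_lit 389) (nat_lit 258)) (XT.nd (nat_lit 78) (nat_lit 228) (nat_lit 0) (XT.lf (nat_lit 0) (nat_lit 7691733111) (nat_lit 380) (nat_lit 8107543354) (nat_lit 76) (nat_lit 1215417152) (nat_lit 95) (nat_lit 5) (nat_lit 100) (nat_lit 5) (nat_lit 96) (nat_lit 5) (nat_lit 494) (nat_lit 389) (nat_lit 257)) (XT.lf (nat_lit 0) (nat_lit 1803175990) (nat_lit 228) (nat_lit 10233351900) (nat_lit 304) (nat_lit 5196387615) (nat_lit 92) (nat_lit 5) (nat_lit 95) (nat_lit 5) (nat_lit 96) (nat_lit 5) (nat_lit 495) (nat_lit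 389) (nat_lit 256)))))) (XT.nd (nat_lit 468) (nat_lit 532) (nat_lit 0) (XT.nd (nat_lit 234) (nat_lit 608) (nat_lit 0) (XT.nd (nat_lit 78) (nat_lit 380) (nat_lit 0) (XT.lf (nat_lit 0) (nat_lit 11996879179) (nat_lit 228) (nat_lit 4510388724) (nat_lit 304) (nat_lit 947454911) (nat_lit 92) (nat_lit 5) (nat_lit 95) (nat_lit 5) (nat_lit 96) (nat_lit 5) (nat_lit 496) (nat_lit 389) (nat_lit 255)) (XT.nd (nat_lit 78) (nat_lit 0) (nat_lit 0) (XT.lf (nat_lit 0) (nat_lit 3366489178) (nat_lit 380) (nat_lit 12960440045) (nat_lit 76) (nat_lit 1353110265) (nat_lit 87) (nat_lit 5) (nat_lit 92) (nat_lit 5) (nat_lit 88) (nat_lit 5) (nat_lit 497) (nat_lit 389) (nat_lit 254)) (XT.lf (nat_lit 0) (nat_lit 7805692488) (nat_lit 380) (nat_lit 2795860437) (nat_lit 76) (nat_lit 7307152839) (nat_lit 87) (nat_lit 5) (nat_lit 92) (nat_lit 5) (nat_lit 88) (nat_lit 5) (nat_lit 498) (nat_lit 389) (nat_lit 253)))) (XT.nd (nat_lit 78) (nat_lit 380) (nat_lit 0)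 (XT.lf (nat_lit 0) (nat_lit 7647885603) (nat_lit 228) (nat_lit 4720662370) (nat_lit 304) (nat_lit 5772701850) (nat_lit 84) (nat_lit 5) (nat_lit 87) (nat_lit 5) (nat_lit 88) (nat_lit 5) (nat_lit 499) (nat_lit 389) (nat_lit 252)) (XT.nd (nat_lit 78) (nat_lit 380) (nat_lit 0) (XT.lf (nat_lit 0) (nat_lit 17035126065) (nat_lit 304) (nat_lit 72585516) (nat_lit 76) (nat_lit 1270485657) (nat_lit 84) (nat_lit 5) (nat_lit 88) (nat_lit 5) (nat_lit 85) (nat_lit 5) (nat_lit 500) (nat_lit 389) (nat_lit 251)) (XT.lf (nat_lit 0) (nat_lit 3219998550) (nat_lit 380) (nat_lit 7998467829) (nat_lit 76) (nat_lit 7399276854) (nat_lit 79) (nat_lit 5) (nat_lit 84) (nat_lit 5) (nat_lit 80) (nat_lit 5) (nat_lit 501) (nat_lit 389) (nat_lit 250))))) (XT.nd (nat_lit 234) (nat_lit 76) (nat_lit 0) (XT.nd (nat_lit 78) (nat_lit 228) (nat_lit 0) (XT.lf (nat_lit 0) (nat_lit 2665898163) (nat_lit 228) (nat_lit 5193866768) (nat_lit 304) (nat_lit 11002070963) (nat_lit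 76) (nat_lit 5) (nat_lit 79) (nat_lit 5) (nat_lit 80) (nat_lit 5) (nat_lit 502) (nat_lit 389) (nat_lit 249)) (XT.nd (nat_lit 78) (nat_lit 228) (nat_lit 0) (XT.lf (nat_lit 0) (nat_lit 12638199730) (nat_lit 304) (nat_lit 5488416732) (nat_lit 76) (nat_lit 983278136) (nat_lit 76) (nat_lit 5) (nat_lit 80) (nat_lit 5) (nat_lit 77) (nat_lit 5) (nat_lit 503) (nat_lit 389) (nat_lit 248)) (XT.lf (nat_lit 0) (nat_lit 5446643721) (nat_lit 228) (nat_lit 12121267938) (nat_lit 304) (nat_lit 1793890263) (nat_lit 73) (nat_lit 5) (nat_lit 76) (nat_lit 5) (nat_lit 77) (nat_lit 5) (nat_lit 504) (nat_lit 389) (nat_lit 247)))) (XT.nd (nat_lit 50388) (nat_lit 0) (nat_lit 45448) (XT.lf (nat_lit 0) (nat_lit 2961472371) (nat_lit 304) (nat_lit 2986464624) (nat_lit 76) (nat_lit 13669964279) (nat_lit 72) (nat_lit 5) (nat_lit 76) (nat_lit 5) (nat_lit 73) (nat_lit 5) (nat_lit 505) (nat_lit 389) (nat_lit 246)) (XT.nd (nat_lit 78) (nat_lit 0) (nat_lit 0) (XT.lf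 (nat_lit 0) (nat_lit 517913240) (nat_lit 0) (nat_lit 517913240) (nat_lit 684) (nat_lit 2281309412) (nat_lit 670) (nat_lit 5) (nat_lit 670) (nat_lit 3) (nat_lit 679) (nat_lit 3) (nat_lit 390) (nat_lit 390) (nat_lit 360)) (XT.lf (nat_lit 0) (nat_lit 4293823777) (nat_lit 0) (nat_lit 75532728) (nat_lit 684) (nat_lit 2284732217) (nat_lit 670) (nat_lit 5) (nat_lit 670) (nat_lit 3) (nat_lit 679) (nat_lit 3) (nat_lit 391) (nat_lit 390) (nat_lit 359))))))))
noncomputable def xc117 : XT := (XT.nd (nat_lit 1716) (nat_lit 16720) (nat_lit 0) (XT.nd (nat_lit 858) (nat_lit 4484) (nat_lit 0) (XT.nd (nat_lit 390) (nat_lit 1748) (nat_lit 0) (XT.nd (nat_lit 156) (nat_lit 836) (nat_lit 0) (XT.nd (nat_lit 78) (nat_lit 760) (nat_lit 0) (XT.lf (nat_lit 76) (nat_lit 917566545) (nat_lit 0) (nat_lit 5747741879) (nat_lit 760) (nat_lit 9973549) (nat_lit 671) (nat_lit 5) (nat_lit 670) (nat_lit 5) (nat_lit 680) (nat_lit 5) (nat_lit 392) (nat_lit 390) (nat_lit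 358)) (XT.lf (nat_lit 0) (nat_lit 2237444659) (nat_lit 760) (nat_lit 2451118889) (nat_lit 836) (nat_lit 2008911123) (nat_lit 660) (nat_lit 5) (nat_lit 670) (nat_lit 5) (nat_lit 671) (nat_lit 5) (nat_lit 393) (nat_lit 390) (nat_lit 357))) (XT.nd (nat_lit 78) (nat_lit 836) (nat_lit 0) (XT.lf (nat_lit 76) (nat_lit 902119829) (nat_lit 0) (nat_lit 3575591986) (nat_lit 836) (nat_lit 2243461779) (nat_lit 661) (nat_lit 5) (nat_lit 660) (nat_lit 5) (nat_lit 671) (nat_lit 5) (nat_lit 394) (nat_lit 390) (nat_lit 356)) (XT.nd (nat_lit 78) (nat_lit 836) (nat_lit 0) (XT.lf (nat_lit 76) (nat_lit 4324599344) (nat_lit 0) (nat_lit 2397742307) (nat_lit 836) (nat_lit 23837592) (nat_lit 661) (nat_lit 5) (nat_lit 660) (nat_lit 5) (nat_lit 671) (nat_lit 5) (nat_lit 395) (nat_lit 390) (nat_lit 355)) (XT.lf (nat_lit 76) (nat_lit 1011352653) (nat_lit 0) (nat_lit 1149844499) (nat_lit 912) (nat_lit 4611211956) (nat_lit 650) (nat_lit 5) (nat_lit 649) (nat_lit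 5) (nat_lit 661) (nat_lit 5) (nat_lit 396) (nat_lit 390) (nat_lit 354))))) (XT.nd (nat_lit 234) (nat_lit 912) (nat_lit 0) (XT.nd (nat_lit 78) (nat_lit 912) (nat_lit 0) (XT.lf (nat_lit 0) (nat_lit 4351659683) (nat_lit 836) (nat_lit 2286423924) (nat_lit 912) (nat_lit 161858403) (nat_lit 650) (nat_lit 5) (nat_lit 661) (nat_lit 5) (nat_lit 662) (nat_lit 5) (nat_lit 397) (nat_lit 390) (nat_lit 353)) (XT.nd (nat_lit 78) (nat_lit 912) (nat_lit 0) (XT.lf (nat_lit 76) (nat_lit 1234621608) (nat_lit 0) (nat_lit 5312910914) (nat_lit 912) (nat_lit 281283103) (nat_lit 651) (nat_lit 5) (nat_lit 650) (nat_lit 5) (nat_lit 662) (nat_lit 5) (nat_lit 398) (nat_lit 390) (nat_lit 352)) (XT.lf (nat_lit 0) (nat_lit 1865652829) (nat_lit 912) (nat_lit 2045686685) (nat_lit 988) (nat_lit 2947459988) (nat_lit 638) (nat_lit 5) (nat_lit 650) (nat_lit 5) (nat_lit 651) (nat_lit 5) (nat_lit 399) (nat_lit 390) (nat_lit 351)))) (XT.nd (nat_lit 78) (nat_lit 912)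 (nat_lit 0) (XT.lf (nat_lit 76) (nat_lit 1560848164) (nat_lit 0) (nat_lit 2448552404) (nat_lit 988) (nat_lit 2880813315) (nat_lit 639) (nat_lit 5) (nat_lit 638) (nat_lit 5) (nat_lit 651) (nat_lit 5) (nat_lit 400) (nat_lit 390) (nat_lit 350)) (XT.nd (nat_lit 78) (nat_lit 912) (nat_lit 0) (XT.lf (nat_lit 76) (nat_lit 5235900473) (nat_lit 0) (nat_lit 922178186) (nat_lit 988) (nat_lit 764957180) (nat_lit 639) (nat_lit 5) (nat_lit 638) (nat_lit 5) (nat_lit 651) (nat_lit 5) (nat_lit 401) (nat_lit 390) (nat_lit 349)) (XT.lf (nat_lit 0) (nat_lit 1341399688) (nat_lit 988) (nat_lit 4947626154) (nat_lit 1064) (nat_lit 667997960) (nat_lit 626) (nat_lit 5) (nat_lit 639) (nat_lit 5) (nat_lit 640) (nat_lit 5) (nat_lit 402) (nat_lit 390) (nat_lit 348)))))) (XT.nd (nat_lit 390) (nat_lit 3420) (nat_lit 0) (XT.nd (nat_lit 156) (nat_lit 1064) (nat_lit 0) (XT.nd (nat_lit 78) (nat_lit 0) (nat_lit 0) (XT.lf (nat_lit 0) (nat_lit 3447060824) (nat_lit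 988) (nat_lit 1232348456) (nat_lit 1064) (nat_lit 2312851939) (nat_lit 626) (nat_lit 5) (nat_lit 639) (nat_lit 5) (nat_lit 640) (nat_lit 5) (nat_lit 403) (nat_lit 390) (nat_lit 347)) (XT.lf (nat_lit 76) (nat_lit 2559065845) (nat_lit 0) (nat_lit 3003273360) (nat_lit 1064) (nat_lit 1466532938) (nat_lit 627) (nat_lit 5) (nat_lit 626) (nat_lit 5) (nat_lit 640) (nat_lit 5) (nat_lit 404) (nat_lit 390) (nat_lit 346))) (XT.nd (nat_lit 78) (nat_lit 0) (nat_lit 76) (XT.lf (nat_lit 0) (nat_lit 604767565) (nat_lit 1064) (nat_lit 659523712) (nat_lit 1140) (nat_lit 5802664568) (nat_lit 612) (nat_lit 5) (nat_lit 626) (nat_lit 5) (nat_lit 627) (nat_lit 5) (nat_lit 405) (nat_lit 390) (nat_lit 345)) (XT.nd (nat_lit 78) (nat_lit 0) (nat_lit 0) (XT.lf (nat_lit 0) (nat_lit 2674713519) (nat_lit 1064) (nat_lit 3881744528) (nat_lit 1140) (nat_lit 549629925) (nat_lit 613) (nat_lit 5) (nat_lit 627) (nat_lit 5) (nat_lit 628) (nat_lit 5) (nat_lit 406)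 (nat_lit 390) (nat_lit 344)) (XT.lf (nat_lit 76) (nat_lit 8210951) (nat_lit 0) (nat_lit 4743826165) (nat_lit 1140) (nat_lit 2394663457) (nat_lit 614) (nat_lit 5) (nat_lit 613) (nat_lit 5) (nat_lit 628) (nat_lit 5) (nat_lit 407) (nat_lit 390) (nat_lit 343))))) (XT.nd (nat_lit 234) (nat_lit 2356) (nat_lit 0) (XT.nd (nat_lit 78) (nat_lit 1140) (nat_lit 0) (XT.lf (nat_lit 76) (nat_lit 3996388452) (nat_lit 0) (nat_lit 2854375470) (nat_lit 1140) (nat_lit 337781436) (nat_lit 614) (nat_lit 5) (nat_lit 613) (nat_lit 5) (nat_lit 628) (nat_lit 5) (nat_lit 408) (nat_lit 390) (nat_lit 342)) (XT.nd (nat_lit 78) (nat_lit 0) (nat_lit 76) (XT.lf (nat_lit 76) (nat_lit 799979388) (nat_lit 0) (nat_lit 896764483) (nat_lit 1216) (nat_lit 5535079165) (nat_lit 599) (nat_lit 5) (nat_lit 598) (nat_lit 5) (nat_lit 614) (nat_lit 5) (nat_lit 409) (nat_lit 390) (nat_lit 341)) (XT.lf (nat_lit 0) (nat_lit 3751313937) (nat_lit 1140) (nat_lit 2402802645) (nat_lit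 76) (nat_lit 1122143570) (nat_lit 599) (nat_lit 5) (nat_lit 614) (nat_lit 5) (nat_lit 600) (nat_lit 5) (nat_lit 410) (nat_lit 390) (nat_lit 340)))) (XT.nd (nat_lit 78) (nat_lit 1292) (nat_lit 0) (XT.lf (nat_lit 0) (nat_lit 1690728086) (nat_lit 1140) (nat_lit 4129210621) (nat_lit 1216) (nat_lit 1502203801) (nat_lit 584) (nat_lit 5) (nat_lit 599) (nat_lit 5) (nat_lit 600) (nat_lit 5) (nat_lit 411) (nat_lit 390) (nat_lit 339)) (XT.nd (nat_lit 78) (nat_lit 1216) (nat_lit 0) (XT.lf (nat_lit 0) (nat_lit 526265232) (nat_lit 1216) (nat_lit 1506377479) (nat_lit 76) (nat_lit 5336789522) (nat_lit 583) (nat_lit 5) (nat_lit 599) (nat_lit 5) (nat_lit 584) (nat_lit 5) (nat_lit 412) (nat_lit 390) (nat_lit 338)) (XT.lf (nat_lit 0) (nat_lit 2550894066) (nat_lit 1292) (nat_lit 4724443622) (nat_lit 76) (nat_lit 142632229) (nat_lit 567) (nat_lit 5) (nat_lit 584) (nat_lit 5) (nat_lit 568) (nat_lit 5) (nat_lit 413) (nat_lit 390) (nat_lit 337)))))))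 (XT.nd (nat_lit 858) (nat_lit 7600) (nat_lit 0) (XT.nd (nat_lit 390) (nat_lit 4940) (nat_lit 0) (XT.nd (nat_lit 156) (nat_lit 2888) (nat_lit 0) (XT.nd (nat_lit 78) (nat_lit 1292) (nat_lit 0) (XT.lf (nat_lit 0) (nat_lit 4597603546) (nat_lit 1292) (nat_lit 515736399) (nat_lit 76) (nat_lit 2354521212) (nat_lit 567) (nat_lit 5) (nat_lit 584) (nat_lit 5) (nat_lit 568) (nat_lit 5) (nat_lit 414) (nat_lit 390) (nat_lit 336)) (XT.lf (nat_lit 0) (nat_lit 3794777342) (nat_lit 1292) (nat_lit 2873883900) (nat_lit 1368) (nat_lit 850434980) (nat_lit 550) (nat_lit 5) (nat_lit 567) (nat_lit 5) (nat_lit 568) (nat_lit 5) (nat_lit 415) (nat_lit 390) (nat_lit 335))) (XT.nd (nat_lit 78) (nat_lit 1444) (nat_lit 0) (XT.lf (nat_lit 0) (nat_lit 594644022) (nat_lit 1368) (nat_lit 565712158) (nat_lit 1444) (nat_lit 6411527665) (nat_lit 531) (nat_lit 5) (nat_lit 549) (nat_lit 5) (nat_lit 550) (nat_lit 5) (nat_lit 416) (nat_lit 390) (nat_lit 334)) (XT.nd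 (nat_lit 78) (nat_lit 1444) (nat_lit 0) (XT.lf (nat_lit 0) (nat_lit 3196495866) (nat_lit 1444) (nat_lit 2625308511) (nat_lit 76) (nat_lit 1803893471) (nat_lit 531) (nat_lit 5) (nat_lit 550) (nat_lit 5) (nat_lit 532) (nat_lit 5) (nat_lit 417) (nat_lit 390) (nat_lit 333)) (XT.lf (nat_lit 0) (nat_lit 1801044857) (nat_lit 1444) (nat_lit 3448281743) (nat_lit 1520) (nat_lit 2431755357) (nat_lit 512) (nat_lit 5) (nat_lit 531) (nat_lit 5) (nat_lit 532) (nat_lit 5) (nat_lit 418) (nat_lit 390) (nat_lit 332))))) (XT.nd (nat_lit 234) (nat_lit 3344) (nat_lit 0) (XT.nd (nat_lit 78) (nat_lit 1596) (nat_lit 0) (XT.lf (nat_lit 0) (nat_lit 6319234640) (nat_lit 1444) (nat_lit 1002689138) (nat_lit 1520) (nat_lit 416088706) (nat_lit 512) (nat_lit 5) (nat_lit 531) (nat_lit 5) (nat_lit 532) (nat_lit 5) (nat_lit 419) (nat_lit 390) (nat_lit 331)) (XT.nd (nat_lit 78) (nat_lit 0) (nat_lit 0) (XT.lf (nat_lit 0) (nat_lit 1610227333) (nat_lit 1596) (nat_lit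 4676232647) (nat_lit 76) (nat_lit 1509584257) (nat_lit 491) (nat_lit 5) (nat_lit 512) (nat_lit 5) (nat_lit 492) (nat_lit 5) (nat_lit 420) (nat_lit 390) (nat_lit 330)) (XT.lf (nat_lit 0) (nat_lit 3649902002) (nat_lit 1596) (nat_lit 128864002) (nat_lit 76) (nat_lit 4076859727) (nat_lit 491) (nat_lit 5) (nat_lit 512) (nat_lit 5) (nat_lit 492) (nat_lit 5) (nat_lit 421) (nat_lit 390) (nat_lit 329)))) (XT.nd (nat_lit 78) (nat_lit 1748) (nat_lit 0) (XT.lf (nat_lit 0) (nat_lit 4536832225) (nat_lit 1596) (nat_lit 1185910145) (nat_lit 1672) (nat_lit 2193820988) (nat_lit 470) (nat_lit 5) (nat_lit 491) (nat_lit 5) (nat_lit 492) (nat_lit 5) (nat_lit 422) (nat_lit 390) (nat_lit 328)) (XT.nd (nat_lit 78) (nat_lit 76) (nat_lit 0) (XT.lf (nat_lit 0) (nat_lit 1293693452) (nat_lit 1672) (nat_lit 6525553854) (nat_lit 1748) (nat_lit 159839991) (nat_lit 448) (nat_lit 5) (nat_lit 470) (nat_lit 5) (nat_lit 471) (nat_lit 5) (nat_lit 423) (nat_lit 390)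 (nat_lit 327)) (XT.lf (nat_lit 0) (nat_lit 1884112959) (nat_lit 1748) (nat_lit 1989406039) (nat_lit 76) (nat_lit 4169217218) (nat_lit 447) (nat_lit 5) (nat_lit 470) (nat_lit 5) (nat_lit 448) (nat_lit 5) (nat_lit 424) (nat_lit 390) (nat_lit 326)))))) (XT.nd (nat_lit 468) (nat_lit 2736) (nat_lit 0) (XT.nd (nat_lit 234) (nat_lit 1824) (nat_lit 0) (XT.nd (nat_lit 78) (nat_lit 1292) (nat_lit 0) (XT.lf (nat_lit 0) (nat_lit 2803901552) (nat_lit 1748) (nat_lit 1145543154) (nat_lit 1824) (nat_lit 4158550514) (nat_lit 424) (nat_lit 5) (nat_lit 447) (nat_lit 5) (nat_lit 448) (nat_lit 5) (nat_lit 425) (nat_lit 390) (nat_lit 325)) (XT.nd (nat_lit 78) (nat_lit 1292) (nat_lit 0) (XT.lf (nat_lit 0) (nat_lit 6045091380) (nat_lit 1824) (nat_lit 497801237) (nat_lit 76) (nat_lit 1631897444) (nat_lit 424) (nat_lit 5) (nat_lit 448) (nat_lit 5) (nat_lit 425) (nat_lit 5) (nat_lit 426) (nat_lit 390) (nat_lit 324)) (XT.lf (nat_lit 0) (nat_lit 4422846704)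 (nat_lit 1292) (nat_lit 3761735618) (nat_lit 1368) (nat_lit 58310459) (nat_lit 407) (nat_lit 5) (nat_lit 424) (nat_lit 5) (nat_lit 425) (nat_lit 5) (nat_lit 427) (nat_lit 390) (nat_lit 323)))) (XT.nd (nat_lit 78) (nat_lit 836) (nat_lit 0) (XT.lf (nat_lit 0) (nat_lit 1105053823) (nat_lit 912) (nat_lit 898904285) (nat_lit 988) (nat_lit 6308614905) (nat_lit 394) (nat_lit 5) (nat_lit 406) (nat_lit 5) (nat_lit 407) (nat_lit 5) (nat_lit 428) (nat_lit 390) (nat_lit 322)) (XT.nd (nat_lit 78) (nat_lit 836) (nat_lit 0) (XT.lf (nat_lit 0) (nat_lit 4111949139) (nat_lit 988) (nat_lit 2249297570) (nat_lit 76) (nat_lit 2022297272) (nat_lit 394) (nat_lit 5) (nat_lit 407) (nat_lit 5) (nat_lit 395) (nat_lit 5) (nat_lit 429) (nat_lit 390) (nat_lit 321)) (XT.lf (nat_lit 0) (nat_lit 2806668900) (nat_lit 836) (nat_lit 3446597037) (nat_lit 912) (nat_lit 2202854914) (nat_lit 383) (nat_lit 5) (nat_lit 394) (nat_lit 5) (nat_lit 395) (nat_lit 5) (nat_lit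 430) (nat_lit 390) (nat_lit 320))))) (XT.nd (nat_lit 234) (nat_lit 912) (nat_lit 0) (XT.nd (nat_lit 78) (nat_lit 1824) (nat_lit 0) (XT.lf (nat_lit 0) (nat_lit 7962180327) (nat_lit 836) (nat_lit 457751968) (nat_lit 912) (nat_lit 110576108) (nat_lit 383) (nat_lit 5) (nat_lit 394) (nat_lit 5) (nat_lit 395) (nat_lit 5) (nat_lit 431) (nat_lit 390) (nat_lit 319)) (XT.nd (nat_lit 78) (nat_lit 836) (nat_lit 0) (XT.lf (nat_lit 0) (nat_lit 2012027658) (nat_lit 988) (nat_lit 3993148494) (nat_lit 76) (nat_lit 2600653655) (nat_lit 370) (nat_lit 5) (nat_lit 383) (nat_lit 5) (nat_lit 371) (nat_lit 5) (nat_lit 432) (nat_lit 390) (nat_lit 318)) (XT.lf (nat_lit 0) (nat_lit 1202103780) (nat_lit 836) (nat_lit 2956448280) (nat_lit 912) (nat_lit 4524441032) (nat_lit 359) (nat_lit 5) (nat_lit 370) (nat_lit 5) (nat_lit 371) (nat_lit 5) (nat_lit 433) (nat_lit 390) (nat_lit 317)))) (XT.nd (nat_lit 78) (nat_lit 912) (nat_lit 0) (XT.lf (nat_lit 0) (nat_lit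 6344656664) (nat_lit 912) (nat_lit 2239670846) (nat_lit 76) (nat_lit 177448015) (nat_lit 359) (nat_lit 5) (nat_lit 371) (nat_lit 5) (nat_lit 360) (nat_lit 5) (nat_lit 434) (nat_lit 390) (nat_lit 316)) (XT.nd (nat_lit 78) (nat_lit 76) (nat_lit 0) (XT.lf (nat_lit 0) (nat_lit 3095306080) (nat_lit 836) (nat_lit 5488148382) (nat_lit 912) (nat_lit 258508427) (nat_lit 348) (nat_lit 5) (nat_lit 359) (nat_lit 5) (nat_lit 360) (nat_lit 5) (nat_lit 435) (nat_lit 390) (nat_lit 315)) (XT.lf (nat_lit 0) (nat_lit 1902397900) (nat_lit 912) (nat_lit 401113250) (nat_lit 76) (nat_lit 6620306674) (nat_lit 347) (nat_lit 5) (nat_lit 359) (nat_lit 5) (nat_lit 348) (nat_lit 5) (nat_lit 436) (nat_lit 390) (nat_lit 314))))))))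
noncomputable def xc118 : XT := (XT.nd (nat_lit 1716) (nat_lit 6688) (nat_lit 0) (XT.nd (nat_lit 858) (nat_lit 4408) (nat_lit 0) (XT.nd (nat_lit 390) (nat_lit 2888) (nat_lit 0) (XT.nd (nat_lit 156) (nat_lit 836) (nat_lit 0) (XT.nd (nat_lit 78) (nat_lit 760) (nat_lit 0) (XT.lf (nat_lit 0) (nat_lit 4112509867) (nat_lit 836) (nat_lit 3928911713) (nat_lit 76) (nat_lit 965673325) (nat_lit 337) (nat_lit 5) (nat_lit 348) (nat_lit 5) (nat_lit 338) (nat_lit 5) (nat_lit 437) (nat_lit 390) (nat_lit 313)) (XT.lf (nat_lit 0) (nat_lit 1553591533) (nat_lit 760) (nat_lit 4811733761) (nat_lit 836) (nat_lit 2726750250) (nat_lit 327) (nat_lit 5) (nat_lit 337) (nat_lit 5) (nat_lit 338) (nat_lit 5) (nat_lit 438) (nat_lit 390) (nat_lit 312))) (XT.nd (nat_lit 78) (nat_lit 836) (nat_lit 0) (XT.lf (nat_lit 0) (nat_lit 7167182708) (nat_lit 760) (nat_lit 1493201939) (nat_lit 836) (nat_lit 518435279) (nat_lit 327) (nat_lit 5) (nat_lit 337) (nat_lit 5)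 (nat_lit 338) (nat_lit 5) (nat_lit 439) (nat_lit 390) (nat_lit 311)) (XT.nd (nat_lit 78) (nat_lit 0) (nat_lit 0) (XT.lf (nat_lit 0) (nat_lit 1718567745) (nat_lit 836) (nat_lit 5649164173) (nat_lit 76) (nat_lit 1899204402) (nat_lit 316) (nat_lit 5) (nat_lit 327) (nat_lit 5) (nat_lit 317) (nat_lit 5) (nat_lit 440) (nat_lit 390) (nat_lit 310)) (XT.lf (nat_lit 0) (nat_lit 3988392317) (nat_lit 836) (nat_lit 14853973) (nat_lit 76) (nat_lit 5353607175) (nat_lit 316) (nat_lit 5) (nat_lit 327) (nat_lit 5) (nat_lit 317) (nat_lit 5) (nat_lit 441) (nat_lit 390) (nat_lit 309))))) (XT.nd (nat_lit 234) (nat_lit 1368) (nat_lit 0) (XT.nd (nat_lit 78) (nat_lit 760) (nat_lit 0) (XT.lf (nat_lit 0) (nat_lit 5776594298) (nat_lit 760) (nat_lit 536622161) (nat_lit 836) (nat_lit 3135167716) (nat_lit 306) (nat_lit 5) (nat_lit 316) (nat_lit 5) (nat_lit 317) (nat_lit 5) (nat_lit 442) (nat_lit 390) (nat_lit 308)) (XT.nd (nat_lit 78) (nat_lit 76) (nat_lit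 0) (XT.lf (nat_lit 0) (nat_lit 2119007731) (nat_lit 684) (nat_lit 6571281101) (nat_lit 760) (nat_lit 851348772) (nat_lit 297) (nat_lit 5) (nat_lit 306) (nat_lit 5) (nat_lit 307) (nat_lit 5) (nat_lit 443) (nat_lit 390) (nat_lit 307)) (XT.lf (nat_lit 0) (nat_lit 1459686131) (nat_lit 760) (nat_lit 1605985753) (nat_lit 76) (nat_lit 6570880624) (nat_lit 296) (nat_lit 5) (nat_lit 306) (nat_lit 5) (nat_lit 297) (nat_lit 5) (nat_lit 444) (nat_lit 390) (nat_lit 306)))) (XT.nd (nat_lit 78) (nat_lit 684) (nat_lit 0) (XT.lf (nat_lit 0) (nat_lit 3810392671) (nat_lit 760) (nat_lit 5389551887) (nat_lit 76) (nat_lit 533218321) (nat_lit 287) (nat_lit 5) (nat_lit 297) (nat_lit 5) (nat_lit 288) (nat_lit 5) (nat_lit 445) (nat_lit 390) (nat_lit 305)) (XT.nd (nat_lit 78) (nat_lit 0) (nat_lit 0) (XT.lf (nat_lit 0) (nat_lit 557940590) (nat_lit 684) (nat_lit 5658350715) (nat_lit 760) (nat_lit 3615257189) (nat_lit 278) (nat_lit 5) (nat_lit 287) (nat_lit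 5) (nat_lit 288) (nat_lit 5) (nat_lit 446) (nat_lit 390) (nat_lit 304)) (XT.lf (nat_lit 0) (nat_lit 6666164451) (nat_lit 684) (nat_lit 2014033209) (nat_lit 760) (nat_lit 1251512834) (nat_lit 278) (nat_lit 5) (nat_lit 287) (nat_lit 5) (nat_lit 288) (nat_lit 5) (nat_lit 447) (nat_lit 390) (nat_lit 303)))))) (XT.nd (nat_lit 390) (nat_lit 2356) (nat_lit 0) (XT.nd (nat_lit 156) (nat_lit 1292) (nat_lit 0) (XT.nd (nat_lit 78) (nat_lit 0) (nat_lit 0) (XT.lf (nat_lit 0) (nat_lit 1148138570) (nat_lit 760) (nat_lit 7183409527) (nat_lit 76) (nat_lit 1702106500) (nat_lit 268) (nat_lit 5) (nat_lit 278) (nat_lit 5) (nat_lit 269) (nat_lit 5) (nat_lit 448) (nat_lit 390) (nat_lit 302)) (XT.lf (nat_lit 0) (nat_lit 3588773867) (nat_lit 760) (nat_lit 1057647208) (nat_lit 76) (nat_lit 5490862179) (nat_lit 268) (nat_lit 5) (nat_lit 278) (nat_lit 5) (nat_lit 269) (nat_lit 5) (nat_lit 449) (nat_lit 390) (nat_lit 301))) (XT.nd (nat_lit 78) (nat_lit 684)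 (nat_lit 0) (XT.lf (nat_lit 0) (nat_lit 5228523000) (nat_lit 608) (nat_lit 858485451) (nat_lit 684) (nat_lit 4155806277) (nat_lit 260) (nat_lit 5) (nat_lit 268) (nat_lit 5) (nat_lit 269) (nat_lit 5) (nat_lit 450) (nat_lit 390) (nat_lit 300)) (XT.nd (nat_lit 78) (nat_lit 76) (nat_lit 0) (XT.lf (nat_lit 0) (nat_lit 1270598488) (nat_lit 608) (nat_lit 7374613537) (nat_lit 684) (nat_lit 1705050576) (nat_lit 252) (nat_lit 5) (nat_lit 260) (nat_lit 5) (nat_lit 261) (nat_lit 5) (nat_lit 451) (nat_lit 390) (nat_lit 299)) (XT.lf (nat_lit 0) (nat_lit 799072602) (nat_lit 684) (nat_lit 2752174548) (nat_lit 76) (nat_lit 6908219210) (nat_lit 251) (nat_lit 5) (nat_lit 260) (nat_lit 5) (nat_lit 252) (nat_lit 5) (nat_lit 452) (nat_lit 390) (nat_lit 298))))) (XT.nd (nat_lit 234) (nat_lit 1140) (nat_lit 0) (XT.nd (nat_lit 78) (nat_lit 608) (nat_lit 0) (XT.lf (nat_lit 0) (nat_lit 3332710496) (nat_lit 684) (nat_lit 6864348938) (nat_lit 76) (nat_lit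 373529613) (nat_lit 243) (nat_lit 5) (nat_lit 252) (nat_lit 5) (nat_lit 244) (nat_lit 5) (nat_lit 453) (nat_lit 390) (nat_lit 297)) (XT.nd (nat_lit 78) (nat_lit 608) (nat_lit 0) (XT.lf (nat_lit 0) (nat_lit 5935073938) (nat_lit 684) (nat_lit 406787775) (nat_lit 76) (nat_lit 4341716831) (nat_lit 243) (nat_lit 5) (nat_lit 252) (nat_lit 5) (nat_lit 244) (nat_lit 5) (nat_lit 454) (nat_lit 390) (nat_lit 296)) (XT.lf (nat_lit 0) (nat_lit 6231542641) (nat_lit 608) (nat_lit 2374816753) (nat_lit 684) (nat_lit 2192136246) (nat_lit 235) (nat_lit 5) (nat_lit 243) (nat_lit 5) (nat_lit 244) (nat_lit 5) (nat_lit 455) (nat_lit 390) (nat_lit 295)))) (XT.nd (nat_lit 78) (nat_lit 532) (nat_lit 0) (XT.lf (nat_lit 0) (nat_lit 413668510) (nat_lit 608) (nat_lit 8839816638) (nat_lit 76) (nat_lit 1662101962) (nat_lit 227) (nat_lit 5) (nat_lit 235) (nat_lit 5) (nat_lit 228) (nat_lit 5) (nat_lit 456) (nat_lit 390) (nat_lit 294)) (XT.nd (nat_lit 78) (nat_lit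 532) (nat_lit 0) (XT.lf (nat_lit 0) (nat_lit 3065586167) (nat_lit 608) (nat_lit 2182055316) (nat_lit 76) (nat_lit 5786627137) (nat_lit 227) (nat_lit 5) (nat_lit 235) (nat_lit 5) (nat_lit 228) (nat_lit 5) (nat_lit 457) (nat_lit 390) (nat_lit 293)) (XT.lf (nat_lit 0) (nat_lit 4639856111) (nat_lit 532) (nat_lit 1138012256) (nat_lit 608) (nat_lit 5377313769) (nat_lit 220) (nat_lit 5) (nat_lit 227) (nat_lit 5) (nat_lit 228) (nat_lit 5) (nat_lit 458) (nat_lit 390) (nat_lit 292))))))) (XT.nd (nat_lit 858) (nat_lit 3040) (nat_lit 0) (XT.nd (nat_lit 390) (nat_lit 2052) (nat_lit 0) (XT.nd (nat_lit 156) (nat_lit 988) (nat_lit 0) (XT.nd (nat_lit 78) (nat_lit 76) (nat_lit 0) (XT.lf (nat_lit 0) (nat_lit 303549081) (nat_lit 532) (nat_lit 8254794456) (nat_lit 608) (nat_lit 2719896244) (nat_lit 213) (nat_lit 5) (nat_lit 220) (nat_lit 5) (nat_lit 221) (nat_lit 5) (nat_lit 459) (nat_lit 390) (nat_lit 291)) (XT.lf (nat_lit 0) (nat_lit 19845124)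 (nat_lit 608) (nat_lit 4093707417) (nat_lit 76) (nat_lit 7289630804) (nat_lit 212) (nat_lit 5) (nat_lit 220) (nat_lit 5) (nat_lit 213) (nat_lit 5) (nat_lit 460) (nat_lit 390) (nat_lit 290))) (XT.nd (nat_lit 78) (nat_lit 456) (nat_lit 0) (XT.lf (nat_lit 0) (nat_lit 2775785698) (nat_lit 608) (nat_lit 8615709808) (nat_lit 76) (nat_lit 138818758) (nat_lit 205) (nat_lit 5) (nat_lit 213) (nat_lit 5) (nat_lit 206) (nat_lit 5) (nat_lit 461) (nat_lit 390) (nat_lit 289)) (XT.nd (nat_lit 78) (nat_lit 456) (nat_lit 0) (XT.lf (nat_lit 0) (nat_lit 5619879271) (nat_lit 608) (nat_lit 1598070105) (nat_lit 76) (nat_lit 4441382180) (nat_lit 205) (nat_lit 5) (nat_lit 213) (nat_lit 5) (nat_lit 206) (nat_lit 5) (nat_lit 462) (nat_lit 390) (nat_lit 288)) (XT.lf (nat_lit 0) (nat_lit 5604225189) (nat_lit 456) (nat_lit 2931583773) (nat_lit 532) (nat_lit 3254825499) (nat_lit 199) (nat_lit 5) (nat_lit 205) (nat_lit 5) (nat_lit 206) (nat_lit 5) (nat_lit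 463) (nat_lit 390) (nat_lit 287))))) (XT.nd (nat_lit 234) (nat_lit 988) (nat_lit 0) (XT.nd (nat_lit 78) (nat_lit 532) (nat_lit 0) (XT.lf (nat_lit 0) (nat_lit 1022482863) (nat_lit 532) (nat_lit 10493109810) (nat_lit 608) (nat_lit 408864308) (nat_lit 192) (nat_lit 5) (nat_lit 199) (nat_lit 5) (nat_lit 200) (nat_lit 5) (nat_lit 464) (nat_lit 390) (nat_lit 286)) (XT.nd (nat_lit 78) (nat_lit 456) (nat_lit 0) (XT.lf (nat_lit 0) (nat_lit 2501343031) (nat_lit 608) (nat_lit 3666071837) (nat_lit 76) (nat_lit 5892420602) (nat_lit 191) (nat_lit 5) (nat_lit 199) (nat_lit 5) (nat_lit 192) (nat_lit 5) (nat_lit 465) (nat_lit 390) (nat_lit 285)) (XT.lf (nat_lit 0) (nat_lit 3731887889) (nat_lit 456) (nat_lit 1735874928) (nat_lit 532) (nat_lit 6730039020) (nat_lit 185) (nat_lit 5) (nat_lit 191) (nat_lit 5) (nat_lit 192) (nat_lit 5) (nat_lit 466) (nat_lit 390) (nat_lit 284)))) (XT.nd (nat_lit 78) (nat_lit 988) (nat_lit 0) (XT.lf (nat_lit 0) (nat_lit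 8515768106) (nat_lit 532) (nat_lit 1057843192) (nat_lit 76) (nat_lit 2764475032) (nat_lit 185) (nat_lit 5) (nat_lit 192) (nat_lit 5) (nat_lit 186) (nat_lit 5) (nat_lit 467) (nat_lit 390) (nat_lit 283)) (XT.nd (nat_lit 78) (nat_lit 532) (nat_lit 0) (XT.lf (nat_lit 0) (nat_lit 6544223106) (nat_lit 456) (nat_lit 5114314730) (nat_lit 532) (nat_lit 821966456) (nat_lit 179) (nat_lit 5) (nat_lit 185) (nat_lit 5) (nat_lit 186) (nat_lit 5) (nat_lit 468) (nat_lit 390) (nat_lit 282)) (XT.lf (nat_lit 0) (nat_lit 1665725502) (nat_lit 456) (nat_lit 541165560) (nat_lit 532) (nat_lit 10418635488) (nat_lit 172) (nat_lit 5) (nat_lit 178) (nat_lit 5) (nat_lit 179) (nat_lit 5) (nat_lit 469) (nat_lit 390) (nat_lit 281)))))) (XT.nd (nat_lit 468) (nat_lit 1672) (nat_lit 0) (XT.nd (nat_lit 234) (nat_lit 912) (nat_lit 0) (XT.nd (nat_lit 78) (nat_lit 456) (nat_lit 0) (XT.lf (nat_lit 0) (nat_lit 5332251051) (nat_lit 532) (nat_lit 3333632222) (nat_lit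 76) (nat_lit 4106522331) (nat_lit 172) (nat_lit 5) (nat_lit 179) (nat_lit 5) (nat_lit 173) (nat_lit 5) (nat_lit 470) (nat_lit 390) (nat_lit 280)) (XT.nd (nat_lit 78) (nat_lit 0) (nat_lit 0) (XT.lf (nat_lit 0) (nat_lit 4471949656) (nat_lit 456) (nat_lit 4061228134) (nat_lit 532) (nat_lit 4388786828) (nat_lit 166) (nat_lit 5) (nat_lit 172) (nat_lit 5) (nat_lit 173) (nat_lit 5) (nat_lit 471) (nat_lit 390) (nat_lit 279)) (XT.lf (nat_lit 0) (nat_lit 11805354385) (nat_lit 532) (nat_lit 627836422) (nat_lit 76) (nat_lit 641182878) (nat_lit 166) (nat_lit 5) (nat_lit 173) (nat_lit 5) (nat_lit 167) (nat_lit 5) (nat_lit 472) (nat_lit 390) (nat_lit 278)))) (XT.nd (nat_lit 78) (nat_lit 456) (nat_lit 0) (XT.lf (nat_lit 0) (nat_lit 1944282444) (nat_lit 456) (nat_lit 5848427375) (nat_lit 76) (nat_lit 5435751450) (nat_lit 160) (nat_lit 5) (nat_lit 166) (nat_lit 5) (nat_lit 161) (nat_lit 5) (nat_lit 473) (nat_lit 390) (nat_lit 277)) (XT.nd (nat_lit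 78) (nat_lit 0) (nat_lit 0) (XT.lf (nat_lit 0) (nat_lit 2163120140) (nat_lit 456) (nat_lit 3041072400) (nat_lit 532) (nat_lit 8181286908) (nat_lit 154) (nat_lit 5) (nat_lit 160) (nat_lit 5) (nat_lit 161) (nat_lit 5) (nat_lit 474) (nat_lit 390) (nat_lit 276)) (XT.lf (nat_lit 0) (nat_lit 8561697706) (nat_lit 532) (nat_lit 3170641719) (nat_lit 76) (nat_lit 1812653862) (nat_lit 154) (nat_lit 5) (nat_lit 161) (nat_lit 5) (nat_lit 155) (nat_lit 5) (nat_lit 475) (nat_lit 390) (nat_lit 275))))) (XT.nd (nat_lit 234) (nat_lit 836) (nat_lit 0) (XT.nd (nat_lit 78) (nat_lit 456) (nat_lit 0) (XT.lf (nat_lit 0) (nat_lit 5060912922) (nat_lit 380) (nat_lit 6959975463) (nat_lit 456) (nat_lit 1686121480) (nat_lit 149) (nat_lit 5) (nat_lit 154) (nat_lit 5) (nat_lit 155) (nat_lit 5) (nat_lit 476) (nat_lit 390) (nat_lit 274)) (XT.nd (nat_lit 78) (nat_lit 380) (nat_lit 0) (XT.lf (nat_lit 0) (nat_lit 1658017598) (nat_lit 456) (nat_lit 410292431) (nat_lit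 76) (nat_lit 11803681717) (nat_lit 148) (nat_lit 5) (nat_lit 154) (nat_lit 5) (nat_lit 149) (nat_lit 5) (nat_lit 477) (nat_lit 390) (nat_lit 273)) (XT.lf (nat_lit 0) (nat_lit 5100087498) (nat_lit 456) (nat_lit 6000915619) (nat_lit 76) (nat_lit 2937977725) (nat_lit 143) (nat_lit 5) (nat_lit 149) (nat_lit 5) (nat_lit 144) (nat_lit 5) (nat_lit 478) (nat_lit 390) (nat_lit 272)))) (XT.nd (nat_lit 78) (nat_lit 456) (nat_lit 0) (XT.lf (nat_lit 0) (nat_lit 2442935585) (nat_lit 380) (nat_lit 6182474071) (nat_lit 456) (nat_lit 5583614776) (nat_lit 138) (nat_lit 5) (nat_lit 143) (nat_lit 5) (nat_lit 144) (nat_lit 5) (nat_lit 479) (nat_lit 390) (nat_lit 271)) (XT.nd (nat_lit 78) (nat_lit 456) (nat_lit 0) (XT.lf (nat_lit 0) (nat_lit 11110100695) (nat_lit 380) (nat_lit 1133664297) (nat_lit 456) (nat_lit 2138256239) (nat_lit 138) (nat_lit 5) (nat_lit 143) (nat_lit 5) (nat_lit 144) (nat_lit 5) (nat_lit 480) (nat_lit 390) (nat_lit 270)) (XT.lf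 (nat_lit 0) (nat_lit 1401999654) (nat_lit 456) (nat_lit 9156487939) (nat_lit 76) (nat_lit 3998933716) (nat_lit 132) (nat_lit 5) (nat_lit 138) (nat_lit 5) (nat_lit 133) (nat_lit 5) (nat_lit 481) (nat_lit 390) (nat_lit 269))))))))
noncomputable def xc119 : XT := (XT.nd (nat_lit 1716) (nat_lit 228) (nat_lit 0) (XT.nd (nat_lit 858) (nat_lit 2128) (nat_lit 0) (XT.nd (nat_lit 390) (nat_lit 1064) (nat_lit 0) (XT.nd (nat_lit 156) (nat_lit 760) (nat_lit 0) (XT.nd (nat_lit 78) (nat_lit 304) (nat_lit 0) (XT.lf (nat_lit 0) (nat_lit 4996665598) (nat_lit 456) (nat_lit 492838279) (nat_lit 76) (nat_lit 9246300818) (nat_lit 132) (nat_lit 5) (nat_lit 138) (nat_lit 5) (nat_lit 133) (nat_lit 5) (nat_lit 482) (nat_lit 390) (nat_lit 268)) (XT.lf (nat_lit 0) (nat_lit 8428418361) (nat_lit 304) (nat_lit 272470552) (nat_lit 380) (nat_lit 6216116206) (nat_lit 128) (nat_lit 5) (nat_lit 132) (nat_lit 5) (nat_lit 133) (nat_lit 5) (nat_lit 483) (nat_lit 390)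 (nat_lit 267))) (XT.nd (nat_lit 78) (nat_lit 380) (nat_lit 0) (XT.lf (nat_lit 0) (nat_lit 2405447472) (nat_lit 380) (nat_lit 10108524202) (nat_lit 456) (nat_lit 2587164978) (nat_lit 123) (nat_lit 5) (nat_lit 128) (nat_lit 5) (nat_lit 129) (nat_lit 5) (nat_lit 484) (nat_lit 390) (nat_lit 266)) (XT.nd (nat_lit 78) (nat_lit 304) (nat_lit 0) (XT.lf (nat_lit 0) (nat_lit 1128481051) (nat_lit 456) (nat_lit 3758460053) (nat_lit 76) (nat_lit 10401292891) (nat_lit 122) (nat_lit 5) (nat_lit 128) (nat_lit 5) (nat_lit 123) (nat_lit 5) (nat_lit 485) (nat_lit 390) (nat_lit 265)) (XT.lf (nat_lit 0) (nat_lit 4905357468) (nat_lit 380) (nat_lit 10096345287) (nat_lit 76) (nat_lit 476599765) (nat_lit 118) (nat_lit 5) (nat_lit 123) (nat_lit 5) (nat_lit 119) (nat_lit 5) (nat_lit 486) (nat_lit 390) (nat_lit 264))))) (XT.nd (nat_lit 234) (nat_lit 304) (nat_lit 0) (XT.nd (nat_lit 78) (nat_lit 760) (nat_lit 0) (XT.lf (nat_lit 0) (nat_lit 8799049262) (nat_lit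 380) (nat_lit 974021447) (nat_lit 76) (nat_lit 5898278552) (nat_lit 118) (nat_lit 5) (nat_lit 123) (nat_lit 5) (nat_lit 119) (nat_lit 5) (nat_lit 487) (nat_lit 390) (nat_lit 263)) (XT.nd (nat_lit 78) (nat_lit 380) (nat_lit 0) (XT.lf (nat_lit 0) (nat_lit 8415678515) (nat_lit 380) (nat_lit 4393425296) (nat_lit 456) (nat_lit 3058385703) (nat_lit 113) (nat_lit 5) (nat_lit 118) (nat_lit 5) (nat_lit 119) (nat_lit 5) (nat_lit 488) (nat_lit 390) (nat_lit 262)) (XT.lf (nat_lit 0) (nat_lit 831126206) (nat_lit 380) (nat_lit 14141215661) (nat_lit 76) (nat_lit 1094900383) (nat_lit 108) (nat_lit 5) (nat_lit 113) (nat_lit 5) (nat_lit 109) (nat_lit 5) (nat_lit 489) (nat_lit 390) (nat_lit 261)))) (XT.nd (nat_lit 78) (nat_lit 304) (nat_lit 0) (XT.lf (nat_lit 0) (nat_lit 4820930789) (nat_lit 380) (nat_lit 4752823845) (nat_lit 76) (nat_lit 6695564224) (nat_lit 108) (nat_lit 5) (nat_lit 113) (nat_lit 5) (nat_lit 109) (nat_lit 5) (nat_lit 490) (nat_lit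 390) (nat_lit 260)) (XT.nd (nat_lit 78) (nat_lit 0) (nat_lit 0) (XT.lf (nat_lit 0) (nat_lit 4862018522) (nat_lit 304) (nat_lit 4044378104) (nat_lit 380) (nat_lit 7568725245) (nat_lit 104) (nat_lit 5) (nat_lit 108) (nat_lit 5) (nat_lit 109) (nat_lit 5) (nat_lit 491) (nat_lit 390) (nat_lit 259)) (XT.lf (nat_lit 0) (nat_lit 13100419581) (nat_lit 380) (nat_lit 1986561349) (nat_lit 76) (nat_lit 1597525192) (nat_lit 104) (nat_lit 5) (nat_lit 109) (nat_lit 5) (nat_lit 105) (nat_lit 5) (nat_lit 492) (nat_lit 390) (nat_lit 258)))))) (XT.nd (nat_lit 390) (nat_lit 1140) (nat_lit 0) (XT.nd (nat_lit 156) (nat_lit 304) (nat_lit 0) (XT.nd (nat_lit 78) (nat_lit 304) (nat_lit 0) (XT.lf (nat_lit 0) (nat_lit 537023692) (nat_lit 380) (nat_lit 9015903753) (nat_lit 76) (nat_lit 7343828756) (nat_lit 99) (nat_lit 5) (nat_lit 104) (nat_lit 5) (nat_lit 100) (nat_lit 5) (nat_lit 493) (nat_lit 390) (nat_lit 257)) (XT.lf (nat_lit 0) (nat_lit 821792166)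 (nat_lit 304) (nat_lit 3874300485) (nat_lit 380) (nat_lit 12416616277) (nat_lit 95) (nat_lit 5) (nat_lit 99) (nat_lit 5) (nat_lit 100) (nat_lit 5) (nat_lit 494) (nat_lit 390) (nat_lit 256))) (XT.nd (nat_lit 78) (nat_lit 304) (nat_lit 0) (XT.lf (nat_lit 0) (nat_lit 8996504012) (nat_lit 380) (nat_lit 6390969508) (nat_lit 76) (nat_lit 1944345940) (nat_lit 95) (nat_lit 5) (nat_lit 100) (nat_lit 5) (nat_lit 96) (nat_lit 5) (nat_lit 495) (nat_lit 390) (nat_lit 255)) (XT.nd (nat_lit 78) (nat_lit 76) (nat_lit 0) (XT.lf (nat_lit 0) (nat_lit 3705604192) (nat_lit 228) (nat_lit 9712140795) (nat_lit 304) (nat_lit 4136872720) (nat_lit 92) (nat_lit 5) (nat_lit 95) (nat_lit 5) (nat_lit 96) (nat_lit 5) (nat_lit 496) (nat_lit 390) (nat_lit 254)) (XT.lf (nat_lit 0) (nat_lit 171941030) (nat_lit 304) (nat_lit 3715856415) (nat_lit 76) (nat_lit 13893491214) (nat_lit 91) (nat_lit 5) (nat_lit 95) (nat_lit 5) (nat_lit 92) (nat_lit 5) (nat_lit 497) (nat_lit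 390) (nat_lit 253))))) (XT.nd (nat_lit 234) (nat_lit 608) (nat_lit 0) (XT.nd (nat_lit 78) (nat_lit 228) (nat_lit 0) (XT.lf (nat_lit 0) (nat_lit 4553973544) (nat_lit 380) (nat_lit 11369125458) (nat_lit 76) (nat_lit 2088000249) (nat_lit 87) (nat_lit 5) (nat_lit 92) (nat_lit 5) (nat_lit 88) (nat_lit 5) (nat_lit 498) (nat_lit 390) (nat_lit 252)) (XT.nd (nat_lit 78) (nat_lit 228) (nat_lit 0) (XT.lf (nat_lit 0) (nat_lit 9059997105) (nat_lit 380) (nat_lit 1037539031) (nat_lit 76) (nat_lit 8147244698) (nat_lit 87) (nat_lit 5) (nat_lit 92) (nat_lit 5) (nat_lit 88) (nat_lit 5) (nat_lit 499) (nat_lit 390) (nat_lit 251)) (XT.lf (nat_lit 0) (nat_lit 9603146150) (nat_lit 228) (nat_lit 4101132143) (nat_lit 304) (nat_lit 4777896761) (nat_lit 84) (nat_lit 5) (nat_lit 87) (nat_lit 5) (nat_lit 88) (nat_lit 5) (nat_lit 500) (nat_lit 390) (nat_lit 250)))) (XT.nd (nat_lit 78) (nat_lit 304) (nat_lit 0) (XT.lf (nat_lit 0) (nat_lit 1732575226) (nat_lit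 304) (nat_lit 16726065873) (nat_lit 380) (nat_lit 265333855) (nat_lit 80) (nat_lit 5) (nat_lit 84) (nat_lit 5) (nat_lit 85) (nat_lit 5) (nat_lit 501) (nat_lit 390) (nat_lit 249)) (XT.nd (nat_lit 78) (nat_lit 228) (nat_lit 0) (XT.lf (nat_lit 0) (nat_lit 4353616211) (nat_lit 380) (nat_lit 6371949610) (nat_lit 76) (nat_lit 8243022991) (nat_lit 79) (nat_lit 5) (nat_lit 84) (nat_lit 5) (nat_lit 80) (nat_lit 5) (nat_lit 502) (nat_lit 390) (nat_lit 248)) (XT.lf (nat_lit 0) (nat_lit 4493950494) (nat_lit 228) (nat_lit 4582785126) (nat_lit 304) (nat_lit 10141019003) (nat_lit 76) (nat_lit 5) (nat_lit 79) (nat_lit 5) (nat_lit 80) (nat_lit 5) (nat_lit 503) (nat_lit 390) (nat_lit 247))))))) (XT.nd (nat_lit 51246) (nat_lit 0) (nat_lit 39900) (XT.nd (nat_lit 50778) (nat_lit 0) (nat_lit 42864) (XT.nd (nat_lit 50544) (nat_lit 0) (nat_lit 44536) (XT.nd (nat_lit 78) (nat_lit 228) (nat_lit 0) (XT.lf (nat_lit 0) (nat_lit 13934510173) (nat_lit 304)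 (nat_lit 3841900391) (nat_lit 76) (nat_lit 1694690916) (nat_lit 76) (nat_lit 5) (nat_lit 80) (nat_lit 5) (nat_lit 77) (nat_lit 5) (nat_lit 504) (nat_lit 390) (nat_lit 246)) (XT.lf (nat_lit 0) (nat_lit 7300306767) (nat_lit 228) (nat_lit 11653375825) (nat_lit 304) (nat_lit 774549389) (nat_lit 73) (nat_lit 5) (nat_lit 76) (nat_lit 5) (nat_lit 77) (nat_lit 5) (nat_lit 505) (nat_lit 390) (nat_lit 245))) (XT.nd (nat_lit 78) (nat_lit 836) (nat_lit 0) (XT.lf (nat_lit 0) (nat_lit 1659373157) (nat_lit 0) (nat_lit 1659373157) (nat_lit 684) (nat_lit 18508591) (nat_lit 670) (nat_lit 5) (nat_lit 670) (nat_lit 3) (nat_lit 679) (nat_lit 3) (nat_lit 391) (nat_lit 391) (nat_lit 358)) (XT.nd (nat_lit 78) (nat_lit 0) (nat_lit 0) (XT.lf (nat_lit 0) (nat_lit 2167100976) (nat_lit 836) (nat_lit 113246394) (nat_lit 836) (nat_lit 4415903263) (nat_lit 659) (nat_lit 3) (nat_lit 670) (nat_lit 3) (nat_lit 670) (nat_lit 5) (nat_lit 392) (nat_lit 391) (nat_lit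 357)) (XT.lf (nat_lit 76) (nat_lit 3206432711) (nat_lit 0) (nat_lit 1171380217) (nat_lit 836) (nat_lit 2341372681) (nat_lit 660) (nat_lit 5) (nat_lit 659) (nat_lit 3) (nat_lit 670) (nat_lit 5) (nat_lit 393) (nat_lit 391) (nat_lit 356))))) (XT.nd (nat_lit 234) (nat_lit 912) (nat_lit 0) (XT.nd (nat_lit 78) (nat_lit 760) (nat_lit 0) (XT.lf (nat_lit 76) (nat_lit 6564738405) (nat_lit 0) (nat_lit 11892312) (nat_lit 836) (nat_lit 167094631) (nat_lit 660) (nat_lit 5) (nat_lit 659) (nat_lit 3) (nat_lit 670) (nat_lit 5) (nat_lit 394) (nat_lit 391) (nat_lit 355)) (XT.nd (nat_lit 78) (nat_lit 0) (nat_lit 0) (XT.lf (nat_lit 0) (nat_lit 1996541789) (nat_lit 836) (nat_lit 3556332555) (nat_lit 912) (nat_lit 1216182865) (nat_lit 649) (nat_lit 5) (nat_lit 660) (nat_lit 5) (nat_lit 661) (nat_lit 5) (nat_lit 395) (nat_lit 391) (nat_lit 354)) (XT.lf (nat_lit 0) (nat_lit 4147436828) (nat_lit 836) (nat_lit 151966453) (nat_lit 912) (nat_lit 2496568386)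 (nat_lit 649) (nat_lit 5) (nat_lit 660) (nat_lit 5) (nat_lit 661) (nat_lit 5) (nat_lit 396) (nat_lit 391) (nat_lit 353)))) (XT.nd (nat_lit 78) (nat_lit 912) (nat_lit 0) (XT.lf (nat_lit 76) (nat_lit 3334217628) (nat_lit 0) (nat_lit 2974793216) (nat_lit 912) (nat_lit 515082424) (nat_lit 650) (nat_lit 5) (nat_lit 649) (nat_lit 5) (nat_lit 661) (nat_lit 5) (nat_lit 397) (nat_lit 391) (nat_lit 352)) (XT.nd (nat_lit 78) (nat_lit 0) (nat_lit 0) (XT.lf (nat_lit 0) (nat_lit 1586785786) (nat_lit 912) (nat_lit 1895879) (nat_lit 988) (nat_lit 5264950532) (nat_lit 637) (nat_lit 5) (nat_lit 649) (nat_lit 5) (nat_lit 650) (nat_lit 5) (nat_lit 398) (nat_lit 391) (nat_lit 351)) (XT.lf (nat_lit 76) (nat_lit 3569310180) (nat_lit 0) (nat_lit 125218969) (nat_lit 988) (nat_lit 3189770767) (nat_lit 638) (nat_lit 5) (nat_lit 637) (nat_lit 5) (nat_lit 650) (nat_lit 5) (nat_lit 399) (nat_lit 391) (nat_lit 350)))))) (XT.nd (nat_lit 468) (nat_lit 1064)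 (nat_lit 0) (XT.nd (nat_lit 234) (nat_lit 988) (nat_lit 0) (XT.nd (nat_lit 78) (nat_lit 988) (nat_lit 0) (XT.lf (nat_lit 76) (nat_lit 259984186) (nat_lit 0) (nat_lit 5543554052) (nat_lit 988) (nat_lit 1112880927) (nat_lit 639) (nat_lit 5) (nat_lit 638) (nat_lit 5) (nat_lit 651) (nat_lit 5) (nat_lit 400) (nat_lit 391) (nat_lit 349)) (XT.nd (nat_lit 78) (nat_lit 0) (nat_lit 0) (XT.lf (nat_lit 0) (nat_lit 964566413) (nat_lit 988) (nat_lit 3036274055) (nat_lit 1064) (nat_lit 2948785209) (nat_lit 625) (nat_lit 5) (nat_lit 638) (nat_lit 5) (nat_lit 639) (nat_lit 5) (nat_lit 401) (nat_lit 391) (nat_lit 348)) (XT.lf (nat_lit 76) (nat_lit 626324525) (nat_lit 0) (nat_lit 2396403144) (nat_lit 1064) (nat_lit 3961559414) (nat_lit 626) (nat_lit 5) (nat_lit 625) (nat_lit 5) (nat_lit 639) (nat_lit 5) (nat_lit 402) (nat_lit 391) (nat_lit 347)))) (XT.nd (nat_lit 78) (nat_lit 988) (nat_lit 0) (XT.lf (nat_lit 76) (nat_lit 4372725420) (nat_lit 0)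 (nat_lit 720469673) (nat_lit 1064) (nat_lit 1927042608) (nat_lit 626) (nat_lit 5) (nat_lit 625) (nat_lit 5) (nat_lit 639) (nat_lit 5) (nat_lit 403) (nat_lit 391) (nat_lit 346)) (XT.nd (nat_lit 78) (nat_lit 0) (nat_lit 0) (XT.lf (nat_lit 0) (nat_lit 111481954) (nat_lit 1064) (nat_lit 5944119267) (nat_lit 1140) (nat_lit 1001999766) (nat_lit 612) (nat_lit 5) (nat_lit 626) (nat_lit 5) (nat_lit 627) (nat_lit 5) (nat_lit 404) (nat_lit 391) (nat_lit 345)) (XT.lf (nat_lit 0) (nat_lit 2139916660) (nat_lit 1064) (nat_lit 2158980590) (nat_lit 1140) (nat_lit 2797078433) (nat_lit 612) (nat_lit 5) (nat_lit 626) (nat_lit 5) (nat_lit 627) (nat_lit 5) (nat_lit 405) (nat_lit 391) (nat_lit 344))))) (XT.nd (nat_lit 234) (nat_lit 0) (nat_lit 0) (XT.nd (nat_lit 78) (nat_lit 1064) (nat_lit 0) (XT.lf (nat_lit 76) (nat_lit 1693128453) (nat_lit 0) (nat_lit 2479983980) (nat_lit 1140) (nat_lit 2962738998) (nat_lit 613) (nat_lit 5) (nat_lit 612) (nat_lit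 5) (nat_lit 627) (nat_lit 5) (nat_lit 406) (nat_lit 391) (nat_lit 343)) (XT.nd (nat_lit 78) (nat_lit 1064) (nat_lit 0) (XT.lf (nat_lit 76) (nat_lit 5620810677) (nat_lit 0) (nat_lit 594566912) (nat_lit 1140) (nat_lit 961796060) (nat_lit 613) (nat_lit 5) (nat_lit 612) (nat_lit 5) (nat_lit 627) (nat_lit 5) (nat_lit 407) (nat_lit 391) (nat_lit 342)) (XT.lf (nat_lit 0) (nat_lit 1043980849) (nat_lit 1140) (nat_lit 4827207648) (nat_lit 1216) (nat_lit 1348430713) (nat_lit 598) (nat_lit 5) (nat_lit 613) (nat_lit 5) (nat_lit 614) (nat_lit 5) (nat_lit 408) (nat_lit 391) (nat_lit 341)))) (XT.nd (nat_lit 78) (nat_lit 0) (nat_lit 0) (XT.lf (nat_lit 0) (nat_lit 3046749253) (nat_lit 1140) (nat_lit 863377719) (nat_lit 1216) (nat_lit 3353280552) (nat_lit 598) (nat_lit 5) (nat_lit 613) (nat_lit 5) (nat_lit 614) (nat_lit 5) (nat_lit 409) (nat_lit 391) (nat_lit 340)) (XT.nd (nat_lit 78) (nat_lit 0) (nat_lit 76) (XT.lf (nat_lit 76) (nat_lit 3190638119)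 (nat_lit 0) (nat_lit 1875818936) (nat_lit 1216) (nat_lit 2242092634) (nat_lit 599) (nat_lit 5) (nat_lit 598) (nat_lit 5) (nat_lit 614) (nat_lit 5) (nat_lit 410) (nat_lit 391) (nat_lit 339)) (XT.lf (nat_lit 0) (nat_lit 7090593239) (nat_lit 1140) (nat_lit 50065390) (nat_lit 76) (nat_lit 214670840) (nat_lit 599) (nat_lit 5) (nat_lit 614) (nat_lit 5) (nat_lit 600) (nat_lit 5) (nat_lit 411) (nat_lit 391) (nat_lit 338))))))))
noncomputable def xc120 : XT := (XT.nd (nat_lit 1716) (nat_lit 10260) (nat_lit 0) (XT.nd (nat_lit 858) (nat_lit 7600) (nat_lit 0) (XT.nd (nat_lit 390) (nat_lit 6004) (nat_lit 0) (XT.nd (nat_lit 156) (nat_lit 1368) (nat_lit 0) (XT.nd (nat_lit 78) (nat_lit 1216) (nat_lit 0) (XT.lf (nat_lit 0) (nat_lit 1726009942) (nat_lit 1216) (nat_lit 3304936896) (nat_lit 76) (nat_lit 2371948886) (nat_lit 583) (nat_lit 5) (nat_lit 599) (nat_lit 5) (nat_lit 584) (nat_lit 5) (nat_lit 412) (nat_lit 391) (nat_lit 337)) (XT.lf (nat_lit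 0) (nat_lit 856251775) (nat_lit 1216) (nat_lit 2860766854) (nat_lit 1292) (nat_lit 3735094391) (nat_lit 567) (nat_lit 5) (nat_lit 583) (nat_lit 5) (nat_lit 584) (nat_lit 5) (nat_lit 413) (nat_lit 391) (nat_lit 336))) (XT.nd (nat_lit 78) (nat_lit 1368) (nat_lit 0) (XT.lf (nat_lit 0) (nat_lit 5114232069) (nat_lit 1216) (nat_lit 614503798) (nat_lit 1292) (nat_lit 1773975308) (nat_lit 567) (nat_lit 5) (nat_lit 583) (nat_lit 5) (nat_lit 584) (nat_lit 5) (nat_lit 414) (nat_lit 391) (nat_lit 335)) (XT.nd (nat_lit 78) (nat_lit 0) (nat_lit 0) (XT.lf (nat_lit 0) (nat_lit 205980464) (nat_lit 1368) (nat_lit 5670651186) (nat_lit 76) (nat_lit 1678022309) (nat_lit 549) (nat_lit 5) (nat_lit 567) (nat_lit 5) (nat_lit 550) (nat_lit 5) (nat_lit 415) (nat_lit 391) (nat_lit 334)) (XT.lf (nat_lit 0) (nat_lit 2181903771) (nat_lit 1368) (nat_lit 1380773989) (nat_lit 76) (nat_lit 4045134337) (nat_lit 549) (nat_lit 5) (nat_lit 567) (nat_lit 5) (nat_lit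 550) (nat_lit 5) (nat_lit 416) (nat_lit 391) (nat_lit 333))))) (XT.nd (nat_lit 234) (nat_lit 3116) (nat_lit 0) (XT.nd (nat_lit 78) (nat_lit 1520) (nat_lit 0) (XT.lf (nat_lit 0) (nat_lit 3003065104) (nat_lit 1368) (nat_lit 1174460767) (nat_lit 1444) (nat_lit 3484917110) (nat_lit 531) (nat_lit 5) (nat_lit 549) (nat_lit 5) (nat_lit 550) (nat_lit 5) (nat_lit 417) (nat_lit 391) (nat_lit 332)) (XT.nd (nat_lit 78) (nat_lit 1520) (nat_lit 0) (XT.lf (nat_lit 0) (nat_lit 6191880320) (nat_lit 1444) (nat_lit 264789503) (nat_lit 76) (nat_lit 1261933195) (nat_lit 531) (nat_lit 5) (nat_lit 550) (nat_lit 5) (nat_lit 532) (nat_lit 5) (nat_lit 418) (nat_lit 391) (nat_lit 331)) (XT.lf (nat_lit 0) (nat_lit 461763133) (nat_lit 1520) (nat_lit 3544774482) (nat_lit 76) (nat_lit 3769353959) (nat_lit 511) (nat_lit 5) (nat_lit 531) (nat_lit 5) (nat_lit 512) (nat_lit 5) (nat_lit 419) (nat_lit 391) (nat_lit 330)))) (XT.nd (nat_lit 78) (nat_lit 1596) (nat_lit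 0) (XT.lf (nat_lit 0) (nat_lit 957134575) (nat_lit 1520) (nat_lit 1482806919) (nat_lit 1596) (nat_lit 5394787448) (nat_lit 491) (nat_lit 5) (nat_lit 511) (nat_lit 5) (nat_lit 512) (nat_lit 5) (nat_lit 420) (nat_lit 391) (nat_lit 329)) (XT.nd (nat_lit 78) (nat_lit 1596) (nat_lit 0) (XT.lf (nat_lit 0) (nat_lit 4451630422) (nat_lit 1596) (nat_lit 2336499921) (nat_lit 76) (nat_lit 1106745722) (nat_lit 491) (nat_lit 5) (nat_lit 512) (nat_lit 5) (nat_lit 492) (nat_lit 5) (nat_lit 421) (nat_lit 391) (nat_lit 328)) (XT.lf (nat_lit 0) (nat_lit 2284061038) (nat_lit 1596) (nat_lit 4207784860) (nat_lit 1672) (nat_lit 1464626091) (nat_lit 470) (nat_lit 5) (nat_lit 491) (nat_lit 5) (nat_lit 492) (nat_lit 5) (nat_lit 422) (nat_lit 391) (nat_lit 327)))))) (XT.nd (nat_lit 390) (nat_lit 2736) (nat_lit 0) (XT.nd (nat_lit 156) (nat_lit 3116) (nat_lit 0) (XT.nd (nat_lit 78) (nat_lit 1672) (nat_lit 0) (XT.lf (nat_lit 0) (nat_lit 525992964) (nat_lit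 1672) (nat_lit 1025754218) (nat_lit 76) (nat_lit 6467898281) (nat_lit 469) (nat_lit 5) (nat_lit 491) (nat_lit 5) (nat_lit 470) (nat_lit 5) (nat_lit 423) (nat_lit 391) (nat_lit 326)) (XT.lf (nat_lit 0) (nat_lit 2533374215) (nat_lit 1748) (nat_lit 4370094277) (nat_lit 76) (nat_lit 1180500107) (nat_lit 447) (nat_lit 5) (nat_lit 470) (nat_lit 5) (nat_lit 448) (nat_lit 5) (nat_lit 424) (nat_lit 391) (nat_lit 325))) (XT.nd (nat_lit 78) (nat_lit 1368) (nat_lit 0) (XT.lf (nat_lit 0) (nat_lit 375682892) (nat_lit 1748) (nat_lit 4189995380) (nat_lit 1824) (nat_lit 3584215242) (nat_lit 424) (nat_lit 5) (nat_lit 447) (nat_lit 5) (nat_lit 448) (nat_lit 5) (nat_lit 425) (nat_lit 391) (nat_lit 324)) (XT.nd (nat_lit 78) (nat_lit 1368) (nat_lit 0) (XT.lf (nat_lit 0) (nat_lit 5244140342) (nat_lit 1748) (nat_lit 1389423666) (nat_lit 1824) (nat_lit 1583684818) (nat_lit 424) (nat_lit 5) (nat_lit 447) (nat_lit 5) (nat_lit 448) (nat_lit 5) (nat_lit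 426) (nat_lit 391) (nat_lit 323)) (XT.lf (nat_lit 0) (nat_lit 438992479) (nat_lit 1368) (nat_lit 6381131552) (nat_lit 76) (nat_lit 1466015525) (nat_lit 406) (nat_lit 5) (nat_lit 424) (nat_lit 5) (nat_lit 407) (nat_lit 5) (nat_lit 427) (nat_lit 391) (nat_lit 322))))) (XT.nd (nat_lit 234) (nat_lit 988) (nat_lit 0) (XT.nd (nat_lit 78) (nat_lit 1748) (nat_lit 0) (XT.lf (nat_lit 0) (nat_lit 2476752159) (nat_lit 1368) (nat_lit 1486648952) (nat_lit 76) (nat_lit 4392890938) (nat_lit 406) (nat_lit 5) (nat_lit 424) (nat_lit 5) (nat_lit 407) (nat_lit 5) (nat_lit 428) (nat_lit 391) (nat_lit 321)) (XT.nd (nat_lit 78) (nat_lit 836) (nat_lit 0) (XT.lf (nat_lit 0) (nat_lit 3520715391) (nat_lit 912) (nat_lit 1024596561) (nat_lit 988) (nat_lit 3882744541) (nat_lit 394) (nat_lit 5) (nat_lit 406) (nat_lit 5) (nat_lit 407) (nat_lit 5) (nat_lit 429) (nat_lit 391) (nat_lit 320)) (XT.lf (nat_lit 0) (nat_lit 104168771) (nat_lit 836) (nat_lit 6542240125)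 (nat_lit 912) (nat_lit 1855033622) (nat_lit 383) (nat_lit 5) (nat_lit 394) (nat_lit 5) (nat_lit 395) (nat_lit 5) (nat_lit 430) (nat_lit 391) (nat_lit 319)))) (XT.nd (nat_lit 78) (nat_lit 912) (nat_lit 0) (XT.lf (nat_lit 0) (nat_lit 218216405) (nat_lit 912) (nat_lit 3333468452) (nat_lit 76) (nat_lit 5024437324) (nat_lit 382) (nat_lit 5) (nat_lit 394) (nat_lit 5) (nat_lit 383) (nat_lit 5) (nat_lit 431) (nat_lit 391) (nat_lit 318)) (XT.nd (nat_lit 78) (nat_lit 0) (nat_lit 0) (XT.lf (nat_lit 0) (nat_lit 1811843537) (nat_lit 912) (nat_lit 476513479) (nat_lit 988) (nat_lit 6364096951) (nat_lit 370) (nat_lit 5) (nat_lit 382) (nat_lit 5) (nat_lit 383) (nat_lit 5) (nat_lit 432) (nat_lit 391) (nat_lit 317)) (XT.lf (nat_lit 0) (nat_lit 4408583979) (nat_lit 988) (nat_lit 1673709781) (nat_lit 76) (nat_lit 2647853835) (nat_lit 370) (nat_lit 5) (nat_lit 383) (nat_lit 5) (nat_lit 371) (nat_lit 5) (nat_lit 433) (nat_lit 391) (nat_lit 316)))))))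 (XT.nd (nat_lit 858) (nat_lit 4636) (nat_lit 0) (XT.nd (nat_lit 390) (nat_lit 3116) (nat_lit 0) (XT.nd (nat_lit 156) (nat_lit 836) (nat_lit 0) (XT.nd (nat_lit 78) (nat_lit 836) (nat_lit 0) (XT.lf (nat_lit 0) (nat_lit 3609662659) (nat_lit 836) (nat_lit 2957649313) (nat_lit 912) (nat_lit 2242169898) (nat_lit 359) (nat_lit 5) (nat_lit 370) (nat_lit 5) (nat_lit 371) (nat_lit 5) (nat_lit 434) (nat_lit 391) (nat_lit 315)) (XT.lf (nat_lit 0) (nat_lit 99499295) (nat_lit 836) (nat_lit 8653054338) (nat_lit 912) (nat_lit 138190947) (nat_lit 348) (nat_lit 5) (nat_lit 359) (nat_lit 5) (nat_lit 360) (nat_lit 5) (nat_lit 435) (nat_lit 391) (nat_lit 314))) (XT.nd (nat_lit 78) (nat_lit 760) (nat_lit 0) (XT.lf (nat_lit 0) (nat_lit 2006325307) (nat_lit 912) (nat_lit 3462152269) (nat_lit 76) (nat_lit 3504406618) (nat_lit 347) (nat_lit 5) (nat_lit 359) (nat_lit 5) (nat_lit 348) (nat_lit 5) (nat_lit 436) (nat_lit 391) (nat_lit 313)) (XT.nd (nat_lit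 78) (nat_lit 0) (nat_lit 0) (XT.lf (nat_lit 0) (nat_lit 1967378478) (nat_lit 760) (nat_lit 2207944544) (nat_lit 836) (nat_lit 4881664517) (nat_lit 337) (nat_lit 5) (nat_lit 347) (nat_lit 5) (nat_lit 348) (nat_lit 5) (nat_lit 437) (nat_lit 391) (nat_lit 312)) (XT.lf (nat_lit 0) (nat_lit 6389374056) (nat_lit 836) (nat_lit 1628691675) (nat_lit 76) (nat_lit 1124681638) (nat_lit 337) (nat_lit 5) (nat_lit 348) (nat_lit 5) (nat_lit 338) (nat_lit 5) (nat_lit 438) (nat_lit 391) (nat_lit 311))))) (XT.nd (nat_lit 234) (nat_lit 1520) (nat_lit 0) (XT.nd (nat_lit 78) (nat_lit 836) (nat_lit 0) (XT.lf (nat_lit 0) (nat_lit 3947811648) (nat_lit 760) (nat_lit 4711745623) (nat_lit 836) (nat_lit 570435829) (nat_lit 327) (nat_lit 5) (nat_lit 337) (nat_lit 5) (nat_lit 338) (nat_lit 5) (nat_lit 439) (nat_lit 391) (nat_lit 310)) (XT.nd (nat_lit 78) (nat_lit 0) (nat_lit 0) (XT.lf (nat_lit 0) (nat_lit 301317109) (nat_lit 760) (nat_lit 1317842906) (nat_lit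 836) (nat_lit 7699921692) (nat_lit 316) (nat_lit 5) (nat_lit 326) (nat_lit 5) (nat_lit 327) (nat_lit 5) (nat_lit 440) (nat_lit 391) (nat_lit 309)) (XT.lf (nat_lit 0) (nat_lit 3866615207) (nat_lit 836) (nat_lit 3390397694) (nat_lit 76) (nat_lit 2152436945) (nat_lit 316) (nat_lit 5) (nat_lit 327) (nat_lit 5) (nat_lit 317) (nat_lit 5) (nat_lit 441) (nat_lit 391) (nat_lit 308)))) (XT.nd (nat_lit 78) (nat_lit 760) (nat_lit 0) (XT.lf (nat_lit 0) (nat_lit 2340793742) (nat_lit 760) (nat_lit 3814795884) (nat_lit 836) (nat_lit 3346111458) (nat_lit 306) (nat_lit 5) (nat_lit 316) (nat_lit 5) (nat_lit 317) (nat_lit 5) (nat_lit 442) (nat_lit 391) (nat_lit 307)) (XT.nd (nat_lit 78) (nat_lit 760) (nat_lit 0) (XT.lf (nat_lit 0) (nat_lit 8202073385) (nat_lit 760) (nat_lit 284004601) (nat_lit 836) (nat_lit 1109811674) (nat_lit 306) (nat_lit 5) (nat_lit 316) (nat_lit 5) (nat_lit 317) (nat_lit 5) (nat_lit 443) (nat_lit 391) (nat_lit 306)) (XT.lf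 (nat_lit 0) (nat_lit 1180225129) (nat_lit 760) (nat_lit 5203620252) (nat_lit 76) (nat_lit 3307483833) (nat_lit 296) (nat_lit 5) (nat_lit 306) (nat_lit 5) (nat_lit 297) (nat_lit 5) (nat_lit 444) (nat_lit 391) (nat_lit 305)))))) (XT.nd (nat_lit 468) (nat_lit 1900) (nat_lit 0) (XT.nd (nat_lit 234) (nat_lit 1368) (nat_lit 0) (XT.nd (nat_lit 78) (nat_lit 684) (nat_lit 0) (XT.lf (nat_lit 0) (nat_lit 686410803) (nat_lit 684) (nat_lit 2804192325) (nat_lit 760) (nat_lit 6298146293) (nat_lit 287) (nat_lit 5) (nat_lit 296) (nat_lit 5) (nat_lit 297) (nat_lit 5) (nat_lit 445) (nat_lit 391) (nat_lit 304)) (XT.nd (nat_lit 78) (nat_lit 684) (nat_lit 0) (XT.lf (nat_lit 0) (nat_lit 5861764683) (nat_lit 760) (nat_lit 3159236697) (nat_lit 76) (nat_lit 866831598) (nat_lit 287) (nat_lit 5) (nat_lit 297) (nat_lit 5) (nat_lit 288) (nat_lit 5) (nat_lit 446) (nat_lit 391) (nat_lit 303)) (XT.lf (nat_lit 0) (nat_lit 2891823351) (nat_lit 684) (nat_lit 5400309894)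 (nat_lit 760) (nat_lit 1696535628) (nat_lit 278) (nat_lit 5) (nat_lit 287) (nat_lit 5) (nat_lit 288) (nat_lit 5) (nat_lit 447) (nat_lit 391) (nat_lit 302)))) (XT.nd (nat_lit 78) (nat_lit 1292) (nat_lit 0) (XT.lf (nat_lit 0) (nat_lit 666585306) (nat_lit 760) (nat_lit 1019326178) (nat_lit 76) (nat_lit 8405609638) (nat_lit 277) (nat_lit 5) (nat_lit 287) (nat_lit 5) (nat_lit 278) (nat_lit 5) (nat_lit 448) (nat_lit 391) (nat_lit 301)) (XT.nd (nat_lit 78) (nat_lit 608) (nat_lit 0) (XT.lf (nat_lit 0) (nat_lit 3077068370) (nat_lit 760) (nat_lit 5002963250) (nat_lit 76) (nat_lit 2115724160) (nat_lit 268) (nat_lit 5) (nat_lit 278) (nat_lit 5) (nat_lit 269) (nat_lit 5) (nat_lit 449) (nat_lit 391) (nat_lit 300)) (XT.lf (nat_lit 0) (nat_lit 1215687401) (nat_lit 608) (nat_lit 4321350118) (nat_lit 684) (nat_lit 4765017942) (nat_lit 260) (nat_lit 5) (nat_lit 268) (nat_lit 5) (nat_lit 269) (nat_lit 5) (nat_lit 450) (nat_lit 391) (nat_lit 299)))))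 (XT.nd (nat_lit 234) (nat_lit 1216) (nat_lit 0) (XT.nd (nat_lit 78) (nat_lit 684) (nat_lit 0) (XT.lf (nat_lit 0) (nat_lit 7596646637) (nat_lit 608) (nat_lit 458754478) (nat_lit 684) (nat_lit 2354901863) (nat_lit 260) (nat_lit 5) (nat_lit 268) (nat_lit 5) (nat_lit 269) (nat_lit 5) (nat_lit 451) (nat_lit 391) (nat_lit 298)) (XT.nd (nat_lit 78) (nat_lit 0) (nat_lit 0) (XT.lf (nat_lit 0) (nat_lit 124104713) (nat_lit 684) (nat_lit 6941994400) (nat_lit 76) (nat_lit 3454167530) (nat_lit 251) (nat_lit 5) (nat_lit 260) (nat_lit 5) (nat_lit 252) (nat_lit 5) (nat_lit 452) (nat_lit 391) (nat_lit 297)) (XT.lf (nat_lit 0) (nat_lit 2619413873) (nat_lit 684) (nat_lit 544501108) (nat_lit 76) (nat_lit 7468243604) (nat_lit 251) (nat_lit 5) (nat_lit 260) (nat_lit 5) (nat_lit 252) (nat_lit 5) (nat_lit 453) (nat_lit 391) (nat_lit 296)))) (XT.nd (nat_lit 78) (nat_lit 608) (nat_lit 0) (XT.lf (nat_lit 0) (nat_lit 5185953586) (nat_lit 684) (nat_lit 4720746179)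 (nat_lit 76) (nat_lit 839167417) (nat_lit 243) (nat_lit 5) (nat_lit 252) (nat_lit 5) (nat_lit 244) (nat_lit 5) (nat_lit 454) (nat_lit 391) (nat_lit 295)) (XT.nd (nat_lit 78) (nat_lit 0) (nat_lit 0) (XT.lf (nat_lit 0) (nat_lit 1845446237) (nat_lit 608) (nat_lit 5971868766) (nat_lit 684) (nat_lit 3044270332) (nat_lit 235) (nat_lit 5) (nat_lit 243) (nat_lit 5) (nat_lit 244) (nat_lit 5) (nat_lit 455) (nat_lit 391) (nat_lit 294)) (XT.lf (nat_lit 0) (nat_lit 8577628281) (nat_lit 608) (nat_lit 1932494915) (nat_lit 684) (nat_lit 469323361) (nat_lit 235) (nat_lit 5) (nat_lit 243) (nat_lit 5) (nat_lit 244) (nat_lit 5) (nat_lit 456) (nat_lit 391) (nat_lit 293))))))))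
noncomputable def xc121 : XT := (XT.nd (nat_lit 1716) (nat_lit 4484) (nat_lit 0) (XT.nd (nat_lit 858) (nat_lit 3192) (nat_lit 0) (XT.nd (nat_lit 390) (nat_lit 2052) (nat_lit 0) (XT.nd (nat_lit 156) (nat_lit 1140) (nat_lit 0) (XT.nd (nat_lit 78) (nat_lit 0) (nat_lit 0) (XT.lf (nat_lit 0) (nat_lit 2149009883) (nat_lit 608) (nat_lit 6754820625) (nat_lit 76) (nat_lit 2195155721) (nat_lit 227) (nat_lit 5) (nat_lit 235) (nat_lit 5) (nat_lit 228) (nat_lit 5) (nat_lit 457) (nat_lit 391) (nat_lit 292)) (XT.lf (nat_lit 0) (nat_lit 4820101814) (nat_lit 608) (nat_lit 8252945) (nat_lit 76) (nat_lit 6392371170) (nat_lit 227) (nat_lit 5) (nat_lit 235) (nat_lit 5) (nat_lit 228) (nat_lit 5) (nat_lit 458) (nat_lit 391) (nat_lit 291))) (XT.nd (nat_lit 78) (nat_lit 608) (nat_lit 0) (XT.lf (nat_lit 0) (nat_lit 6935508266) (nat_lit 532) (nat_lit 632223711) (nat_lit 608) (nat_lit 3776710830) (nat_lit 220) (nat_lit 5) (nat_lit 227) (nat_lit 5) (nat_lit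 228) (nat_lit 5) (nat_lit 459) (nat_lit 391) (nat_lit 290)) (XT.nd (nat_lit 78) (nat_lit 76) (nat_lit 0) (XT.lf (nat_lit 0) (nat_lit 2528193837) (nat_lit 532) (nat_lit 7860562134) (nat_lit 608) (nat_lit 1081513845) (nat_lit 213) (nat_lit 5) (nat_lit 220) (nat_lit 5) (nat_lit 221) (nat_lit 5) (nat_lit 460) (nat_lit 391) (nat_lit 289)) (XT.lf (nat_lit 0) (nat_lit 1658064777) (nat_lit 608) (nat_lit 1978407171) (nat_lit 76) (nat_lit 7961682345) (nat_lit 212) (nat_lit 5) (nat_lit 220) (nat_lit 5) (nat_lit 213) (nat_lit 5) (nat_lit 461) (nat_lit 391) (nat_lit 288))))) (XT.nd (nat_lit 234) (nat_lit 1064) (nat_lit 0) (XT.nd (nat_lit 78) (nat_lit 456) (nat_lit 0) (XT.lf (nat_lit 0) (nat_lit 4454835977) (nat_lit 608) (nat_lit 6576231753) (nat_lit 76) (nat_lit 697052457) (nat_lit 205) (nat_lit 5) (nat_lit 213) (nat_lit 5) (nat_lit 206) (nat_lit 5) (nat_lit 462) (nat_lit 391) (nat_lit 287)) (XT.nd (nat_lit 78) (nat_lit 0) (nat_lit 0) (XT.lf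 (nat_lit 0) (nat_lit 545547218) (nat_lit 456) (nat_lit 6781972246) (nat_lit 532) (nat_lit 4532770664) (nat_lit 199) (nat_lit 5) (nat_lit 205) (nat_lit 5) (nat_lit 206) (nat_lit 5) (nat_lit 463) (nat_lit 391) (nat_lit 286)) (XT.lf (nat_lit 0) (nat_lit 7870467523) (nat_lit 456) (nat_lit 2410534579) (nat_lit 532) (nat_lit 1713638639) (nat_lit 199) (nat_lit 5) (nat_lit 205) (nat_lit 5) (nat_lit 206) (nat_lit 5) (nat_lit 464) (nat_lit 391) (nat_lit 285)))) (XT.nd (nat_lit 78) (nat_lit 456) (nat_lit 0) (XT.lf (nat_lit 0) (nat_lit 1160444579) (nat_lit 608) (nat_lit 8928266068) (nat_lit 76) (nat_lit 2042544730) (nat_lit 191) (nat_lit 5) (nat_lit 199) (nat_lit 5) (nat_lit 192) (nat_lit 5) (nat_lit 465) (nat_lit 391) (nat_lit 284)) (XT.nd (nat_lit 78) (nat_lit 456) (nat_lit 0) (XT.lf (nat_lit 0) (nat_lit 4092562636) (nat_lit 608) (nat_lit 1593275801) (nat_lit 76) (nat_lit 6584071294) (nat_lit 191) (nat_lit 5) (nat_lit 199) (nat_lit 5)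 (nat_lit 192) (nat_lit 5) (nat_lit 466) (nat_lit 391) (nat_lit 283)) (XT.lf (nat_lit 0) (nat_lit 5938523925) (nat_lit 456) (nat_lit 1163409773) (nat_lit 532) (nat_lit 5309035124) (nat_lit 185) (nat_lit 5) (nat_lit 191) (nat_lit 5) (nat_lit 192) (nat_lit 5) (nat_lit 467) (nat_lit 391) (nat_lit 282)))))) (XT.nd (nat_lit 390) (nat_lit 1748) (nat_lit 0) (XT.nd (nat_lit 156) (nat_lit 912) (nat_lit 0) (XT.nd (nat_lit 78) (nat_lit 76) (nat_lit 0) (XT.lf (nat_lit 0) (nat_lit 1051302769) (nat_lit 456) (nat_lit 9140388668) (nat_lit 532) (nat_lit 2362757462) (nat_lit 179) (nat_lit 5) (nat_lit 185) (nat_lit 5) (nat_lit 186) (nat_lit 5) (nat_lit 468) (nat_lit 391) (nat_lit 281)) (XT.lf (nat_lit 0) (nat_lit 665734972) (nat_lit 532) (nat_lit 3926853997) (nat_lit 76) (nat_lit 8107495526) (nat_lit 178) (nat_lit 5) (nat_lit 185) (nat_lit 5) (nat_lit 179) (nat_lit 5) (nat_lit 469) (nat_lit 391) (nat_lit 280))) (XT.nd (nat_lit 78) (nat_lit 456)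 (nat_lit 0) (XT.lf (nat_lit 0) (nat_lit 3729102009) (nat_lit 532) (nat_lit 9040945508) (nat_lit 76) (nat_lit 78157657) (nat_lit 172) (nat_lit 5) (nat_lit 179) (nat_lit 5) (nat_lit 173) (nat_lit 5) (nat_lit 470) (nat_lit 391) (nat_lit 279)) (XT.nd (nat_lit 78) (nat_lit 456) (nat_lit 0) (XT.lf (nat_lit 0) (nat_lit 6891500976) (nat_lit 532) (nat_lit 1307689490) (nat_lit 76) (nat_lit 4799346010) (nat_lit 172) (nat_lit 5) (nat_lit 179) (nat_lit 5) (nat_lit 173) (nat_lit 5) (nat_lit 471) (nat_lit 391) (nat_lit 278)) (XT.lf (nat_lit 0) (nat_lit 6640236820) (nat_lit 456) (nat_lit 3501224243) (nat_lit 532) (nat_lit 3009930510) (nat_lit 166) (nat_lit 5) (nat_lit 172) (nat_lit 5) (nat_lit 173) (nat_lit 5) (nat_lit 472) (nat_lit 391) (nat_lit 277))))) (XT.nd (nat_lit 234) (nat_lit 836) (nat_lit 0) (XT.nd (nat_lit 78) (nat_lit 456) (nat_lit 0) (XT.lf (nat_lit 0) (nat_lit 155119438) (nat_lit 456) (nat_lit 11867215993) (nat_lit 76) (nat_lit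 1284793104) (nat_lit 160) (nat_lit 5) (nat_lit 166) (nat_lit 5) (nat_lit 161) (nat_lit 5) (nat_lit 473) (nat_lit 391) (nat_lit 276)) (XT.nd (nat_lit 78) (nat_lit 456) (nat_lit 0) (XT.lf (nat_lit 0) (nat_lit 3391779716) (nat_lit 456) (nat_lit 3897551741) (nat_lit 76) (nat_lit 6175281854) (nat_lit 160) (nat_lit 5) (nat_lit 166) (nat_lit 5) (nat_lit 161) (nat_lit 5) (nat_lit 474) (nat_lit 391) (nat_lit 275)) (XT.lf (nat_lit 0) (nat_lit 4260622487) (nat_lit 456) (nat_lit 2441983180) (nat_lit 532) (nat_lit 6922456637) (nat_lit 154) (nat_lit 5) (nat_lit 160) (nat_lit 5) (nat_lit 161) (nat_lit 5) (nat_lit 475) (nat_lit 391) (nat_lit 274)))) (XT.nd (nat_lit 78) (nat_lit 836) (nat_lit 0) (XT.lf (nat_lit 0) (nat_lit 10104121712) (nat_lit 532) (nat_lit 1196719162) (nat_lit 76) (nat_lit 2487393039) (nat_lit 154) (nat_lit 5) (nat_lit 161) (nat_lit 5) (nat_lit 155) (nat_lit 5) (nat_lit 476) (nat_lit 391) (nat_lit 273)) (XT.nd (nat_lit 78)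 (nat_lit 456) (nat_lit 0) (XT.lf (nat_lit 0) (nat_lit 7186063049) (nat_lit 380) (nat_lit 6432687784) (nat_lit 456) (nat_lit 335019513) (nat_lit 149) (nat_lit 5) (nat_lit 154) (nat_lit 5) (nat_lit 155) (nat_lit 5) (nat_lit 477) (nat_lit 391) (nat_lit 272)) (XT.lf (nat_lit 0) (nat_lit 1604824165) (nat_lit 380) (nat_lit 1436638245) (nat_lit 456) (nat_lit 11080741622) (nat_lit 143) (nat_lit 5) (nat_lit 148) (nat_lit 5) (nat_lit 149) (nat_lit 5) (nat_lit 478) (nat_lit 391) (nat_lit 271))))))) (XT.nd (nat_lit 858) (nat_lit 2204) (nat_lit 0) (XT.nd (nat_lit 390) (nat_lit 1140) (nat_lit 0) (XT.nd (nat_lit 156) (nat_lit 760) (nat_lit 0) (XT.nd (nat_lit 78) (nat_lit 380) (nat_lit 0) (XT.lf (nat_lit 0) (nat_lit 6532898838) (nat_lit 456) (nat_lit 4109386246) (nat_lit 76) (nat_lit 3650641675) (nat_lit 143) (nat_lit 5) (nat_lit 149) (nat_lit 5) (nat_lit 144) (nat_lit 5) (nat_lit 479) (nat_lit 391) (nat_lit 270)) (XT.lf (nat_lit 0) (nat_lit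 4490108116) (nat_lit 380) (nat_lit 5625499396) (nat_lit 456) (nat_lit 4351030371) (nat_lit 138) (nat_lit 5) (nat_lit 143) (nat_lit 5) (nat_lit 144) (nat_lit 5) (nat_lit 480) (nat_lit 391) (nat_lit 269))) (XT.nd (nat_lit 78) (nat_lit 760) (nat_lit 0) (XT.lf (nat_lit 0) (nat_lit 13291433905) (nat_lit 380) (nat_lit 489058998) (nat_lit 456) (nat_lit 863122637) (nat_lit 138) (nat_lit 5) (nat_lit 143) (nat_lit 5) (nat_lit 144) (nat_lit 5) (nat_lit 481) (nat_lit 391) (nat_lit 268)) (XT.nd (nat_lit 78) (nat_lit 304) (nat_lit 0) (XT.lf (nat_lit 0) (nat_lit 2722288209) (nat_lit 456) (nat_lit 7354430428) (nat_lit 76) (nat_lit 4745805183) (nat_lit 132) (nat_lit 5) (nat_lit 138) (nat_lit 5) (nat_lit 133) (nat_lit 5) (nat_lit 482) (nat_lit 391) (nat_lit 267)) (XT.lf (nat_lit 0) (nat_lit 1462751229) (nat_lit 304) (nat_lit 4910255185) (nat_lit 380) (nat_lit 8631789219) (nat_lit 128) (nat_lit 5) (nat_lit 132) (nat_lit 5) (nat_lit 133) (nat_lit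 5) (nat_lit 483) (nat_lit 391) (nat_lit 266))))) (XT.nd (nat_lit 234) (nat_lit 684) (nat_lit 0) (XT.nd (nat_lit 78) (nat_lit 456) (nat_lit 0) (XT.lf (nat_lit 0) (nat_lit 10132131965) (nat_lit 380) (nat_lit 4662218242) (nat_lit 76) (nat_lit 395657367) (nat_lit 128) (nat_lit 5) (nat_lit 133) (nat_lit 5) (nat_lit 129) (nat_lit 5) (nat_lit 484) (nat_lit 391) (nat_lit 265)) (XT.nd (nat_lit 78) (nat_lit 76) (nat_lit 0) (XT.lf (nat_lit 0) (nat_lit 4395034760) (nat_lit 380) (nat_lit 9616164569) (nat_lit 456) (nat_lit 1366831737) (nat_lit 123) (nat_lit 5) (nat_lit 128) (nat_lit 5) (nat_lit 129) (nat_lit 5) (nat_lit 485) (nat_lit 391) (nat_lit 264)) (XT.lf (nat_lit 0) (nat_lit 2381828151) (nat_lit 456) (nat_lit 1913680731) (nat_lit 76) (nat_lit 11273692241) (nat_lit 122) (nat_lit 5) (nat_lit 128) (nat_lit 5) (nat_lit 123) (nat_lit 5) (nat_lit 486) (nat_lit 391) (nat_lit 263)))) (XT.nd (nat_lit 78) (nat_lit 380) (nat_lit 0) (XT.lf (nat_lit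 0) (nat_lit 6226961603) (nat_lit 380) (nat_lit 8370864743) (nat_lit 76) (nat_lit 1165393851) (nat_lit 118) (nat_lit 5) (nat_lit 123) (nat_lit 5) (nat_lit 119) (nat_lit 5) (nat_lit 487) (nat_lit 391) (nat_lit 262)) (XT.nd (nat_lit 78) (nat_lit 0) (nat_lit 0) (XT.lf (nat_lit 0) (nat_lit 908022143) (nat_lit 380) (nat_lit 9272410434) (nat_lit 456) (nat_lit 5780060687) (nat_lit 113) (nat_lit 5) (nat_lit 118) (nat_lit 5) (nat_lit 119) (nat_lit 5) (nat_lit 488) (nat_lit 391) (nat_lit 261)) (XT.lf (nat_lit 0) (nat_lit 10461175553) (nat_lit 380) (nat_lit 3792285361) (nat_lit 456) (nat_lit 1907443385) (nat_lit 113) (nat_lit 5) (nat_lit 118) (nat_lit 5) (nat_lit 119) (nat_lit 5) (nat_lit 489) (nat_lit 391) (nat_lit 260)))))) (XT.nd (nat_lit 468) (nat_lit 836) (nat_lit 0) (XT.nd (nat_lit 234) (nat_lit 684) (nat_lit 0) (XT.nd (nat_lit 78) (nat_lit 304) (nat_lit 0) (XT.lf (nat_lit 0) (nat_lit 2037235671) (nat_lit 380) (nat_lit 12523900428)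 (nat_lit 76) (nat_lit 1803496412) (nat_lit 108) (nat_lit 5) (nat_lit 113) (nat_lit 5) (nat_lit 109) (nat_lit 5) (nat_lit 490) (nat_lit 391) (nat_lit 259)) (XT.nd (nat_lit 78) (nat_lit 304) (nat_lit 0) (XT.lf (nat_lit 0) (nat_lit 6083513071) (nat_lit 380) (nat_lit 2984998415) (nat_lit 76) (nat_lit 7502708863) (nat_lit 108) (nat_lit 5) (nat_lit 113) (nat_lit 5) (nat_lit 109) (nat_lit 5) (nat_lit 491) (nat_lit 391) (nat_lit 258)) (XT.lf (nat_lit 0) (nat_lit 6809884998) (nat_lit 304) (nat_lit 3429952766) (nat_lit 380) (nat_lit 6541521837) (nat_lit 104) (nat_lit 5) (nat_lit 108) (nat_lit 5) (nat_lit 109) (nat_lit 5) (nat_lit 492) (nat_lit 391) (nat_lit 257)))) (XT.nd (nat_lit 78) (nat_lit 684) (nat_lit 0) (XT.lf (nat_lit 0) (nat_lit 14499513892) (nat_lit 380) (nat_lit 193570634) (nat_lit 76) (nat_lit 2302214663) (nat_lit 104) (nat_lit 5) (nat_lit 109) (nat_lit 5) (nat_lit 105) (nat_lit 5) (nat_lit 493) (nat_lit 391) (nat_lit 256))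 (XT.nd (nat_lit 78) (nat_lit 304) (nat_lit 0) (XT.lf (nat_lit 0) (nat_lit 1681986539) (nat_lit 380) (nat_lit 7360334744) (nat_lit 76) (nat_lit 8169536289) (nat_lit 99) (nat_lit 5) (nat_lit 104) (nat_lit 5) (nat_lit 100) (nat_lit 5) (nat_lit 494) (nat_lit 391) (nat_lit 255)) (XT.lf (nat_lit 0) (nat_lit 2662036889) (nat_lit 304) (nat_lit 3251801710) (nat_lit 380) (nat_lit 11518501648) (nat_lit 95) (nat_lit 5) (nat_lit 99) (nat_lit 5) (nat_lit 100) (nat_lit 5) (nat_lit 495) (nat_lit 391) (nat_lit 254))))) (XT.nd (nat_lit 234) (nat_lit 532) (nat_lit 0) (XT.nd (nat_lit 78) (nat_lit 304) (nat_lit 0) (XT.lf (nat_lit 0) (nat_lit 10282678073) (nat_lit 380) (nat_lit 4713017356) (nat_lit 76) (nat_lit 2660492033) (nat_lit 95) (nat_lit 5) (nat_lit 100) (nat_lit 5) (nat_lit 96) (nat_lit 5) (nat_lit 496) (nat_lit 391) (nat_lit 253)) (XT.nd (nat_lit 78) (nat_lit 76) (nat_lit 0) (XT.lf (nat_lit 0) (nat_lit 5573607742) (nat_lit 228) (nat_lit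 9208692200) (nat_lit 304) (nat_lit 3101345424) (nat_lit 92) (nat_lit 5) (nat_lit 95) (nat_lit 5) (nat_lit 96) (nat_lit 5) (nat_lit 497) (nat_lit 391) (nat_lit 252)) (XT.lf (nat_lit 0) (nat_lit 1257339172) (nat_lit 304) (nat_lit 2016942519) (nat_lit 76) (nat_lit 14840858325) (nat_lit 91) (nat_lit 5) (nat_lit 95) (nat_lit 5) (nat_lit 92) (nat_lit 5) (nat_lit 498) (nat_lit 391) (nat_lit 251)))) (XT.nd (nat_lit 78) (nat_lit 228) (nat_lit 0) (XT.lf (nat_lit 0) (nat_lit 5721710630) (nat_lit 380) (nat_lit 9817842658) (nat_lit 76) (nat_lit 2810102217) (nat_lit 87) (nat_lit 5) (nat_lit 92) (nat_lit 5) (nat_lit 88) (nat_lit 5) (nat_lit 499) (nat_lit 391) (nat_lit 250)) (XT.nd (nat_lit 78) (nat_lit 0) (nat_lit 0) (XT.lf (nat_lit 0) (nat_lit 694609637) (nat_lit 228) (nat_lit 9606643958) (nat_lit 304) (nat_lit 8287091745) (nat_lit 84) (nat_lit 5) (nat_lit 87) (nat_lit 5) (nat_lit 88) (nat_lit 5) (nat_lit 500) (nat_lit 391) (nat_lit 249))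 (XT.lf (nat_lit 0) (nat_lit 11527526292) (nat_lit 228) (nat_lit 3496934607) (nat_lit 304) (nat_lit 3806308284) (nat_lit 84) (nat_lit 5) (nat_lit 87) (nat_lit 5) (nat_lit 88) (nat_lit 5) (nat_lit 501) (nat_lit 391) (nat_lit 248))))))))
noncomputable def xc122 : XT := (XT.nd (nat_lit 52182) (nat_lit 0) (nat_lit 23256) (XT.nd (nat_lit 51324) (nat_lit 0) (nat_lit 39596) (XT.nd (nat_lit 50856) (nat_lit 0) (nat_lit 42636) (XT.nd (nat_lit 156) (nat_lit 228) (nat_lit 0) (XT.nd (nat_lit 78) (nat_lit 0) (nat_lit 0) (XT.lf (nat_lit 0) (nat_lit 781161603) (nat_lit 380) (nat_lit 15578012139) (nat_lit 76) (nat_lit 2718228320) (nat_lit 79) (nat_lit 5) (nat_lit 84) (nat_lit 5) (nat_lit 80) (nat_lit 5) (nat_lit 502) (nat_lit 391) (nat_lit 247)) (XT.lf (nat_lit 0) (nat_lit 5468387199) (nat_lit 380) (nat_lit 4782272517) (nat_lit 76) (nat_lit 9076626818) (nat_lit 79) (nat_lit 5) (nat_lit 84) (nat_lit 5) (nat_lit 80) (nat_lit 5) (nat_lit 503) (nat_lit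 391) (nat_lit 246))) (XT.nd (nat_lit 78) (nat_lit 0) (nat_lit 0) (XT.lf (nat_lit 0) (nat_lit 6289648773) (nat_lit 228) (nat_lit 3987244580) (nat_lit 304) (nat_lit 9304726176) (nat_lit 76) (nat_lit 5) (nat_lit 79) (nat_lit 5) (nat_lit 80) (nat_lit 5) (nat_lit 504) (nat_lit 391) (nat_lit 245)) (XT.nd (nat_lit 50544) (nat_lit 0) (nat_lit 44308) (XT.lf (nat_lit 0) (nat_lit 15216224645) (nat_lit 304) (nat_lit 2230652397) (nat_lit 76) (nat_lit 2393470565) (nat_lit 76) (nat_lit 5) (nat_lit 80) (nat_lit 5) (nat_lit 77) (nat_lit 5) (nat_lit 505) (nat_lit 391) (nat_lit 244)) (XT.lf (nat_lit 0) (nat_lit 2171057007) (nat_lit 836) (nat_lit 594114273) (nat_lit 836) (nat_lit 594114273) (nat_lit 659) (nat_lit 3) (nat_lit 670) (nat_lit 3) (nat_lit 670) (nat_lit 5) (nat_lit 392) (nat_lit 392) (nat_lit 356))))) (XT.nd (nat_lit 234) (nat_lit 836) (nat_lit 0) (XT.nd (nat_lit 78) (nat_lit 836) (nat_lit 0) (XT.lf (nat_lit 76) (nat_lit 2102658632)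 (nat_lit 0) (nat_lit 4414942437) (nat_lit 836) (nat_lit 224621343) (nat_lit 660) (nat_lit 5) (nat_lit 659) (nat_lit 3) (nat_lit 670) (nat_lit 5) (nat_lit 393) (nat_lit 392) (nat_lit 355)) (XT.nd (nat_lit 78) (nat_lit 0) (nat_lit 0) (XT.lf (nat_lit 0) (nat_lit 1896291743) (nat_lit 836) (nat_lit 1333058588) (nat_lit 912) (nat_lit 3537725917) (nat_lit 648) (nat_lit 5) (nat_lit 659) (nat_lit 3) (nat_lit 660) (nat_lit 5) (nat_lit 394) (nat_lit 392) (nat_lit 354)) (XT.lf (nat_lit 76) (nat_lit 2035871697) (nat_lit 0) (nat_lit 1978920023) (nat_lit 912) (nat_lit 2778464737) (nat_lit 649) (nat_lit 5) (nat_lit 648) (nat_lit 5) (nat_lit 660) (nat_lit 5) (nat_lit 395) (nat_lit 392) (nat_lit 353)))) (XT.nd (nat_lit 78) (nat_lit 836) (nat_lit 0) (XT.lf (nat_lit 76) (nat_lit 5461522524) (nat_lit 0) (nat_lit 668932752) (nat_lit 912) (nat_lit 690431197) (nat_lit 649) (nat_lit 5) (nat_lit 648) (nat_lit 5) (nat_lit 660) (nat_lit 5) (nat_lit 396)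 (nat_lit 392) (nat_lit 352)) (XT.nd (nat_lit 78) (nat_lit 0) (nat_lit 0) (XT.lf (nat_lit 0) (nat_lit 1385273918) (nat_lit 912) (nat_lit 4758481120) (nat_lit 988) (nat_lit 705852595) (nat_lit 637) (nat_lit 5) (nat_lit 649) (nat_lit 5) (nat_lit 650) (nat_lit 5) (nat_lit 397) (nat_lit 392) (nat_lit 351)) (XT.lf (nat_lit 0) (nat_lit 3454423348) (nat_lit 912) (nat_lit 1288664575) (nat_lit 988) (nat_lit 2136521318) (nat_lit 637) (nat_lit 5) (nat_lit 649) (nat_lit 5) (nat_lit 650) (nat_lit 5) (nat_lit 398) (nat_lit 392) (nat_lit 350)))))) (XT.nd (nat_lit 390) (nat_lit 2052) (nat_lit 0) (XT.nd (nat_lit 156) (nat_lit 0) (nat_lit 0) (XT.nd (nat_lit 78) (nat_lit 988) (nat_lit 0) (XT.lf (nat_lit 76) (nat_lit 2250719536) (nat_lit 0) (nat_lit 3277431712) (nat_lit 988) (nat_lit 1382816118) (nat_lit 638) (nat_lit 5) (nat_lit 637) (nat_lit 5) (nat_lit 650) (nat_lit 5) (nat_lit 399) (nat_lit 392) (nat_lit 349)) (XT.lf (nat_lit 0) (nat_lit 648966452)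 (nat_lit 988) (nat_lit 1098875948) (nat_lit 1064) (nat_lit 5195883880) (nat_lit 624) (nat_lit 5) (nat_lit 637) (nat_lit 5) (nat_lit 638) (nat_lit 5) (nat_lit 400) (nat_lit 392) (nat_lit 348))) (XT.nd (nat_lit 78) (nat_lit 0) (nat_lit 76) (XT.lf (nat_lit 76) (nat_lit 2528461158) (nat_lit 0) (nat_lit 140886850) (nat_lit 1064) (nat_lit 4308299188) (nat_lit 625) (nat_lit 5) (nat_lit 624) (nat_lit 5) (nat_lit 638) (nat_lit 5) (nat_lit 401) (nat_lit 392) (nat_lit 347)) (XT.nd (nat_lit 78) (nat_lit 0) (nat_lit 0) (XT.lf (nat_lit 0) (nat_lit 4698254092) (nat_lit 988) (nat_lit 808840419) (nat_lit 1064) (nat_lit 1505808522) (nat_lit 625) (nat_lit 5) (nat_lit 638) (nat_lit 5) (nat_lit 639) (nat_lit 5) (nat_lit 402) (nat_lit 392) (nat_lit 346)) (XT.lf (nat_lit 76) (nat_lit 2911956454) (nat_lit 0) (nat_lit 3827549326) (nat_lit 1064) (nat_lit 309941329) (nat_lit 626) (nat_lit 5) (nat_lit 625) (nat_lit 5) (nat_lit 639) (nat_lit 5) (nat_lit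 403) (nat_lit 392) (nat_lit 345))))) (XT.nd (nat_lit 234) (nat_lit 1064) (nat_lit 0) (XT.nd (nat_lit 78) (nat_lit 0) (nat_lit 0) (XT.lf (nat_lit 0) (nat_lit 1669919554) (nat_lit 1064) (nat_lit 409849669) (nat_lit 1140) (nat_lit 5007589078) (nat_lit 611) (nat_lit 5) (nat_lit 625) (nat_lit 5) (nat_lit 626) (nat_lit 5) (nat_lit 404) (nat_lit 392) (nat_lit 344)) (XT.nd (nat_lit 78) (nat_lit 0) (nat_lit 76) (XT.lf (nat_lit 76) (nat_lit 3405474905) (nat_lit 0) (nat_lit 255149895) (nat_lit 1140) (nat_lit 3465871403) (nat_lit 612) (nat_lit 5) (nat_lit 611) (nat_lit 5) (nat_lit 626) (nat_lit 5) (nat_lit 405) (nat_lit 392) (nat_lit 343)) (XT.lf (nat_lit 76) (nat_lit 96792539) (nat_lit 0) (nat_lit 5562292664) (nat_lit 1140) (nat_lit 1507989903) (nat_lit 613) (nat_lit 5) (nat_lit 612) (nat_lit 5) (nat_lit 627) (nat_lit 5) (nat_lit 406) (nat_lit 392) (nat_lit 342)))) (XT.nd (nat_lit 78) (nat_lit 0) (nat_lit 0) (XT.lf (nat_lit 0) (nat_lit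 463965806) (nat_lit 1140) (nat_lit 3202347354) (nat_lit 1216) (nat_lit 3542478714) (nat_lit 597) (nat_lit 5) (nat_lit 612) (nat_lit 5) (nat_lit 613) (nat_lit 5) (nat_lit 407) (nat_lit 392) (nat_lit 341)) (XT.nd (nat_lit 78) (nat_lit 0) (nat_lit 76) (XT.lf (nat_lit 76) (nat_lit 712149934) (nat_lit 0) (nat_lit 1703058825) (nat_lit 1216) (nat_lit 4836750140) (nat_lit 598) (nat_lit 5) (nat_lit 597) (nat_lit 5) (nat_lit 613) (nat_lit 5) (nat_lit 408) (nat_lit 392) (nat_lit 340)) (XT.lf (nat_lit 0) (nat_lit 4385220910) (nat_lit 1140) (nat_lit 2580236740) (nat_lit 1216) (nat_lit 330952493) (nat_lit 598) (nat_lit 5) (nat_lit 613) (nat_lit 5) (nat_lit 614) (nat_lit 5) (nat_lit 409) (nat_lit 392) (nat_lit 339))))))) (XT.nd (nat_lit 858) (nat_lit 9804) (nat_lit 0) (XT.nd (nat_lit 390) (nat_lit 4256) (nat_lit 0) (XT.nd (nat_lit 156) (nat_lit 1140) (nat_lit 0) (XT.nd (nat_lit 78) (nat_lit 1216) (nat_lit 0) (XT.lf (nat_lit 76) (nat_lit 1435748612)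 (nat_lit 0) (nat_lit 4936512795) (nat_lit 1216) (nat_lit 969951898) (nat_lit 599) (nat_lit 5) (nat_lit 598) (nat_lit 5) (nat_lit 614) (nat_lit 5) (nat_lit 410) (nat_lit 392) (nat_lit 338)) (XT.lf (nat_lit 0) (nat_lit 971671269) (nat_lit 1216) (nat_lit 1858941355) (nat_lit 1292) (nat_lit 4558707420) (nat_lit 582) (nat_lit 5) (nat_lit 598) (nat_lit 5) (nat_lit 599) (nat_lit 5) (nat_lit 411) (nat_lit 392) (nat_lit 337))) (XT.nd (nat_lit 78) (nat_lit 1140) (nat_lit 0) (XT.lf (nat_lit 76) (nat_lit 2262674898) (nat_lit 0) (nat_lit 649382420) (nat_lit 1292) (nat_lit 4525739575) (nat_lit 583) (nat_lit 5) (nat_lit 582) (nat_lit 5) (nat_lit 599) (nat_lit 5) (nat_lit 412) (nat_lit 392) (nat_lit 336)) (XT.nd (nat_lit 78) (nat_lit 1216) (nat_lit 0) (XT.lf (nat_lit 0) (nat_lit 4872950473) (nat_lit 1216) (nat_lit 1036205332) (nat_lit 76) (nat_lit 1578467765) (nat_lit 583) (nat_lit 5) (nat_lit 599) (nat_lit 5) (nat_lit 584) (nat_lit 5) (nat_lit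 413) (nat_lit 392) (nat_lit 335)) (XT.lf (nat_lit 0) (nat_lit 3192846387) (nat_lit 1216) (nat_lit 3664964632) (nat_lit 1292) (nat_lit 680954768) (nat_lit 567) (nat_lit 5) (nat_lit 583) (nat_lit 5) (nat_lit 584) (nat_lit 5) (nat_lit 414) (nat_lit 392) (nat_lit 334))))) (XT.nd (nat_lit 234) (nat_lit 1520) (nat_lit 0) (XT.nd (nat_lit 78) (nat_lit 2660) (nat_lit 0) (XT.lf (nat_lit 0) (nat_lit 1241537483) (nat_lit 1292) (nat_lit 109260747) (nat_lit 76) (nat_lit 6240637638) (nat_lit 566) (nat_lit 5) (nat_lit 583) (nat_lit 5) (nat_lit 567) (nat_lit 5) (nat_lit 415) (nat_lit 392) (nat_lit 333)) (XT.nd (nat_lit 78) (nat_lit 1368) (nat_lit 0) (XT.lf (nat_lit 0) (nat_lit 3188502791) (nat_lit 1368) (nat_lit 3418966907) (nat_lit 76) (nat_lit 1037709998) (nat_lit 549) (nat_lit 5) (nat_lit 567) (nat_lit 5) (nat_lit 550) (nat_lit 5) (nat_lit 416) (nat_lit 392) (nat_lit 332)) (XT.lf (nat_lit 0) (nat_lit 922431228) (nat_lit 1368) (nat_lit 4229102318)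 (nat_lit 1444) (nat_lit 2548935265) (nat_lit 531) (nat_lit 5) (nat_lit 549) (nat_lit 5) (nat_lit 550) (nat_lit 5) (nat_lit 417) (nat_lit 392) (nat_lit 331)))) (XT.nd (nat_lit 78) (nat_lit 1520) (nat_lit 0) (XT.lf (nat_lit 0) (nat_lit 5366594497) (nat_lit 1368) (nat_lit 1772185245) (nat_lit 1444) (nat_lit 618397548) (nat_lit 531) (nat_lit 5) (nat_lit 549) (nat_lit 5) (nat_lit 550) (nat_lit 5) (nat_lit 418) (nat_lit 392) (nat_lit 330)) (XT.nd (nat_lit 78) (nat_lit 0) (nat_lit 0) (XT.lf (nat_lit 0) (nat_lit 1313949312) (nat_lit 1520) (nat_lit 5747583258) (nat_lit 76) (nat_lit 753705880) (nat_lit 511) (nat_lit 5) (nat_lit 531) (nat_lit 5) (nat_lit 512) (nat_lit 5) (nat_lit 419) (nat_lit 392) (nat_lit 329)) (XT.lf (nat_lit 0) (nat_lit 3267637026) (nat_lit 1520) (nat_lit 1273533275) (nat_lit 76) (nat_lit 3333401246) (nat_lit 511) (nat_lit 5) (nat_lit 531) (nat_lit 5) (nat_lit 512) (nat_lit 5) (nat_lit 420) (nat_lit 392) (nat_lit 328))))))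 (XT.nd (nat_lit 468) (nat_lit 3192) (nat_lit 0) (XT.nd (nat_lit 234) (nat_lit 3420) (nat_lit 0) (XT.nd (nat_lit 78) (nat_lit 1672) (nat_lit 0) (XT.lf (nat_lit 0) (nat_lit 3303005169) (nat_lit 1520) (nat_lit 1942644394) (nat_lit 1596) (nat_lit 2689748433) (nat_lit 491) (nat_lit 5) (nat_lit 511) (nat_lit 5) (nat_lit 512) (nat_lit 5) (nat_lit 421) (nat_lit 392) (nat_lit 327)) (XT.nd (nat_lit 78) (nat_lit 1672) (nat_lit 0) (XT.lf (nat_lit 0) (nat_lit 7240776969) (nat_lit 1596) (nat_lit 44458890) (nat_lit 76) (nat_lit 712665508) (nat_lit 491) (nat_lit 5) (nat_lit 512) (nat_lit 5) (nat_lit 492) (nat_lit 5) (nat_lit 422) (nat_lit 392) (nat_lit 326)) (XT.lf (nat_lit 0) (nat_lit 1206402407) (nat_lit 1672) (nat_lit 3416313658) (nat_lit 76) (nat_lit 3438628635) (nat_lit 469) (nat_lit 5) (nat_lit 491) (nat_lit 5) (nat_lit 470) (nat_lit 5) (nat_lit 423) (nat_lit 392) (nat_lit 325)))) (XT.nd (nat_lit 78) (nat_lit 1748) (nat_lit 0) (XT.lf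 (nat_lit 0) (nat_lit 1284147028) (nat_lit 1672) (nat_lit 1888868044) (nat_lit 1748) (nat_lit 4953473491) (nat_lit 447) (nat_lit 5) (nat_lit 469) (nat_lit 5) (nat_lit 470) (nat_lit 5) (nat_lit 424) (nat_lit 392) (nat_lit 324)) (XT.nd (nat_lit 78) (nat_lit 1748) (nat_lit 0) (XT.lf (nat_lit 0) (nat_lit 5173692554) (nat_lit 1748) (nat_lit 2104604100) (nat_lit 76) (nat_lit 914754609) (nat_lit 447) (nat_lit 5) (nat_lit 470) (nat_lit 5) (nat_lit 448) (nat_lit 5) (nat_lit 425) (nat_lit 392) (nat_lit 323)) (XT.lf (nat_lit 0) (nat_lit 2720609059) (nat_lit 1748) (nat_lit 4490432198) (nat_lit 1824) (nat_lit 1049981207) (nat_lit 424) (nat_lit 5) (nat_lit 447) (nat_lit 5) (nat_lit 448) (nat_lit 5) (nat_lit 426) (nat_lit 392) (nat_lit 322))))) (XT.nd (nat_lit 234) (nat_lit 912) (nat_lit 0) (XT.nd (nat_lit 78) (nat_lit 2204) (nat_lit 0) (XT.lf (nat_lit 0) (nat_lit 927142155) (nat_lit 1824) (nat_lit 696237499) (nat_lit 76) (nat_lit 6707240273)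 (nat_lit 423) (nat_lit 5) (nat_lit 447) (nat_lit 5) (nat_lit 424) (nat_lit 5) (nat_lit 427) (nat_lit 392) (nat_lit 321)) (XT.nd (nat_lit 78) (nat_lit 912) (nat_lit 0) (XT.lf (nat_lit 0) (nat_lit 2933506429) (nat_lit 1368) (nat_lit 4146585668) (nat_lit 76) (nat_lit 1321313083) (nat_lit 406) (nat_lit 5) (nat_lit 424) (nat_lit 5) (nat_lit 407) (nat_lit 5) (nat_lit 428) (nat_lit 392) (nat_lit 320)) (XT.lf (nat_lit 0) (nat_lit 810094083) (nat_lit 912) (nat_lit 4158447002) (nat_lit 988) (nat_lit 3505303799) (nat_lit 394) (nat_lit 5) (nat_lit 406) (nat_lit 5) (nat_lit 407) (nat_lit 5) (nat_lit 429) (nat_lit 392) (nat_lit 319)))) (XT.nd (nat_lit 78) (nat_lit 912) (nat_lit 0) (XT.lf (nat_lit 0) (nat_lit 5891745320) (nat_lit 912) (nat_lit 1148620010) (nat_lit 988) (nat_lit 1507455697) (nat_lit 394) (nat_lit 5) (nat_lit 406) (nat_lit 5) (nat_lit 407) (nat_lit 5) (nat_lit 430) (nat_lit 392) (nat_lit 318)) (XT.nd (nat_lit 78) (nat_lit 0)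 (nat_lit 0) (XT.lf (nat_lit 0) (nat_lit 520583114) (nat_lit 912) (nat_lit 6185891001) (nat_lit 76) (nat_lit 1916798976) (nat_lit 382) (nat_lit 5) (nat_lit 394) (nat_lit 5) (nat_lit 383) (nat_lit 5) (nat_lit 431) (nat_lit 392) (nat_lit 317)) (XT.lf (nat_lit 0) (nat_lit 2563660858) (nat_lit 912) (nat_lit 1079507203) (nat_lit 76) (nat_lit 5056982468) (nat_lit 382) (nat_lit 5) (nat_lit 394) (nat_lit 5) (nat_lit 383) (nat_lit 5) (nat_lit 432) (nat_lit 392) (nat_lit 316))))))))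
noncomputable def xc123 : XT := (XT.nd (nat_lit 1716) (nat_lit 7144) (nat_lit 0) (XT.nd (nat_lit 858) (nat_lit 4788) (nat_lit 0) (XT.nd (nat_lit 390) (nat_lit 3116) (nat_lit 0) (XT.nd (nat_lit 156) (nat_lit 912) (nat_lit 0) (XT.nd (nat_lit 78) (nat_lit 836) (nat_lit 0) (XT.lf (nat_lit 0) (nat_lit 4153443719) (nat_lit 912) (nat_lit 490824979) (nat_lit 988) (nat_lit 4134372151) (nat_lit 370) (nat_lit 5) (nat_lit 382) (nat_lit 5) (nat_lit 383) (nat_lit 5) (nat_lit 433) (nat_lit 392) (nat_lit 315)) (XT.lf (nat_lit 0) (nat_lit 606909625) (nat_lit 836) (nat_lit 6158603649) (nat_lit 912) (nat_lit 2093215742) (nat_lit 359) (nat_lit 5) (nat_lit 370) (nat_lit 5) (nat_lit 371) (nat_lit 5) (nat_lit 434) (nat_lit 392) (nat_lit 314))) (XT.nd (nat_lit 78) (nat_lit 912) (nat_lit 0) (XT.lf (nat_lit 0) (nat_lit 5972817853) (nat_lit 836) (nat_lit 2961123779) (nat_lit 912) (nat_lit 6390502) (nat_lit 359) (nat_lit 5) (nat_lit 370) (nat_lit 5) (nat_lit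 371) (nat_lit 5) (nat_lit 435) (nat_lit 392) (nat_lit 313)) (XT.nd (nat_lit 78) (nat_lit 0) (nat_lit 0) (XT.lf (nat_lit 0) (nat_lit 2082997518) (nat_lit 912) (nat_lit 6615443548) (nat_lit 76) (nat_lit 325085539) (nat_lit 347) (nat_lit 5) (nat_lit 359) (nat_lit 5) (nat_lit 348) (nat_lit 5) (nat_lit 436) (nat_lit 392) (nat_lit 312)) (XT.lf (nat_lit 0) (nat_lit 4224984792) (nat_lit 912) (nat_lit 1226776224) (nat_lit 76) (nat_lit 3656413048) (nat_lit 347) (nat_lit 5) (nat_lit 359) (nat_lit 5) (nat_lit 348) (nat_lit 5) (nat_lit 437) (nat_lit 392) (nat_lit 311))))) (XT.nd (nat_lit 234) (nat_lit 1520) (nat_lit 0) (XT.nd (nat_lit 78) (nat_lit 836) (nat_lit 0) (XT.lf (nat_lit 0) (nat_lit 4296183170) (nat_lit 760) (nat_lit 2113327633) (nat_lit 836) (nat_lit 2785017416) (nat_lit 337) (nat_lit 5) (nat_lit 347) (nat_lit 5) (nat_lit 348) (nat_lit 5) (nat_lit 438) (nat_lit 392) (nat_lit 310)) (XT.nd (nat_lit 78) (nat_lit 76) (nat_lit 0) (XT.lf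 (nat_lit 0) (nat_lit 633469189) (nat_lit 760) (nat_lit 7997199705) (nat_lit 836) (nat_lit 652089309) (nat_lit 327) (nat_lit 5) (nat_lit 337) (nat_lit 5) (nat_lit 338) (nat_lit 5) (nat_lit 439) (nat_lit 392) (nat_lit 309)) (XT.lf (nat_lit 0) (nat_lit 1522916147) (nat_lit 836) (nat_lit 3084241577) (nat_lit 76) (nat_lit 4765016521) (nat_lit 326) (nat_lit 5) (nat_lit 337) (nat_lit 5) (nat_lit 327) (nat_lit 5) (nat_lit 440) (nat_lit 392) (nat_lit 308)))) (XT.nd (nat_lit 78) (nat_lit 760) (nat_lit 0) (XT.lf (nat_lit 0) (nat_lit 2592018934) (nat_lit 760) (nat_lit 1130367418) (nat_lit 836) (nat_lit 5741119266) (nat_lit 316) (nat_lit 5) (nat_lit 326) (nat_lit 5) (nat_lit 327) (nat_lit 5) (nat_lit 441) (nat_lit 392) (nat_lit 307)) (XT.nd (nat_lit 78) (nat_lit 760) (nat_lit 0) (XT.lf (nat_lit 0) (nat_lit 5975546999) (nat_lit 836) (nat_lit 1178553820) (nat_lit 76) (nat_lit 2402375778) (nat_lit 316) (nat_lit 5) (nat_lit 327) (nat_lit 5)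 (nat_lit 317) (nat_lit 5) (nat_lit 442) (nat_lit 392) (nat_lit 306)) (XT.lf (nat_lit 0) (nat_lit 4652263736) (nat_lit 760) (nat_lit 3632905524) (nat_lit 836) (nat_lit 1365916632) (nat_lit 306) (nat_lit 5) (nat_lit 316) (nat_lit 5) (nat_lit 317) (nat_lit 5) (nat_lit 443) (nat_lit 392) (nat_lit 305)))))) (XT.nd (nat_lit 390) (nat_lit 2584) (nat_lit 0) (XT.nd (nat_lit 156) (nat_lit 1444) (nat_lit 0) (XT.nd (nat_lit 78) (nat_lit 0) (nat_lit 0) (XT.lf (nat_lit 0) (nat_lit 843794338) (nat_lit 684) (nat_lit 25178348) (nat_lit 760) (nat_lit 8878759408) (nat_lit 296) (nat_lit 5) (nat_lit 305) (nat_lit 5) (nat_lit 306) (nat_lit 5) (nat_lit 444) (nat_lit 392) (nat_lit 304)) (XT.lf (nat_lit 0) (nat_lit 3161934181) (nat_lit 760) (nat_lit 3037581018) (nat_lit 76) (nat_lit 3645988633) (nat_lit 296) (nat_lit 5) (nat_lit 306) (nat_lit 5) (nat_lit 297) (nat_lit 5) (nat_lit 445) (nat_lit 392) (nat_lit 303))) (XT.nd (nat_lit 78) (nat_lit 760) (nat_lit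 0) (XT.lf (nat_lit 0) (nat_lit 2955315712) (nat_lit 684) (nat_lit 2539451924) (nat_lit 760) (nat_lit 4450589455) (nat_lit 287) (nat_lit 5) (nat_lit 296) (nat_lit 5) (nat_lit 297) (nat_lit 5) (nat_lit 446) (nat_lit 392) (nat_lit 302)) (XT.nd (nat_lit 78) (nat_lit 760) (nat_lit 0) (XT.lf (nat_lit 0) (nat_lit 7877466104) (nat_lit 760) (nat_lit 975106718) (nat_lit 76) (nat_lit 1194576642) (nat_lit 287) (nat_lit 5) (nat_lit 297) (nat_lit 5) (nat_lit 288) (nat_lit 5) (nat_lit 447) (nat_lit 392) (nat_lit 301)) (XT.lf (nat_lit 0) (nat_lit 180843061) (nat_lit 760) (nat_lit 4969466095) (nat_lit 76) (nat_lit 5000132952) (nat_lit 277) (nat_lit 5) (nat_lit 287) (nat_lit 5) (nat_lit 278) (nat_lit 5) (nat_lit 448) (nat_lit 392) (nat_lit 300))))) (XT.nd (nat_lit 234) (nat_lit 1292) (nat_lit 0) (XT.nd (nat_lit 78) (nat_lit 608) (nat_lit 0) (XT.lf (nat_lit 0) (nat_lit 1189695269) (nat_lit 684) (nat_lit 1349528411) (nat_lit 760) (nat_lit 7716498036)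 (nat_lit 268) (nat_lit 5) (nat_lit 277) (nat_lit 5) (nat_lit 278) (nat_lit 5) (nat_lit 449) (nat_lit 392) (nat_lit 299)) (XT.nd (nat_lit 78) (nat_lit 608) (nat_lit 0) (XT.lf (nat_lit 0) (nat_lit 4970565744) (nat_lit 760) (nat_lit 2869156245) (nat_lit 76) (nat_lit 2522874793) (nat_lit 268) (nat_lit 5) (nat_lit 278) (nat_lit 5) (nat_lit 269) (nat_lit 5) (nat_lit 450) (nat_lit 392) (nat_lit 298)) (XT.lf (nat_lit 0) (nat_lit 3459170931) (nat_lit 608) (nat_lit 3999050962) (nat_lit 684) (nat_lit 3013239341) (nat_lit 260) (nat_lit 5) (nat_lit 268) (nat_lit 5) (nat_lit 269) (nat_lit 5) (nat_lit 451) (nat_lit 392) (nat_lit 297)))) (XT.nd (nat_lit 78) (nat_lit 1292) (nat_lit 0) (XT.lf (nat_lit 0) (nat_lit 9924236218) (nat_lit 608) (nat_lit 67217647) (nat_lit 684) (nat_lit 591138175) (nat_lit 260) (nat_lit 5) (nat_lit 268) (nat_lit 5) (nat_lit 269) (nat_lit 5) (nat_lit 452) (nat_lit 392) (nat_lit 296)) (XT.nd (nat_lit 78) (nat_lit 608)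 (nat_lit 0) (XT.lf (nat_lit 0) (nat_lit 1895567022) (nat_lit 684) (nat_lit 4862484357) (nat_lit 76) (nat_lit 3936839126) (nat_lit 251) (nat_lit 5) (nat_lit 260) (nat_lit 5) (nat_lit 252) (nat_lit 5) (nat_lit 453) (nat_lit 392) (nat_lit 295)) (XT.lf (nat_lit 0) (nat_lit 1640983537) (nat_lit 608) (nat_lit 2775767294) (nat_lit 684) (nat_lit 6392757964) (nat_lit 243) (nat_lit 5) (nat_lit 251) (nat_lit 5) (nat_lit 252) (nat_lit 5) (nat_lit 454) (nat_lit 392) (nat_lit 294))))))) (XT.nd (nat_lit 858) (nat_lit 3800) (nat_lit 0) (XT.nd (nat_lit 390) (nat_lit 1596) (nat_lit 0) (XT.nd (nat_lit 156) (nat_lit 1140) (nat_lit 0) (XT.nd (nat_lit 78) (nat_lit 608) (nat_lit 0) (XT.lf (nat_lit 0) (nat_lit 7006886114) (nat_lit 684) (nat_lit 2622841095) (nat_lit 76) (nat_lit 1296326785) (nat_lit 243) (nat_lit 5) (nat_lit 252) (nat_lit 5) (nat_lit 244) (nat_lit 5) (nat_lit 455) (nat_lit 392) (nat_lit 293)) (XT.lf (nat_lit 0) (nat_lit 4060252012)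 (nat_lit 608) (nat_lit 5611092246) (nat_lit 684) (nat_lit 1373140436) (nat_lit 235) (nat_lit 5) (nat_lit 243) (nat_lit 5) (nat_lit 244) (nat_lit 5) (nat_lit 456) (nat_lit 392) (nat_lit 292))) (XT.nd (nat_lit 78) (nat_lit 1064) (nat_lit 0) (XT.lf (nat_lit 0) (nat_lit 1203352468) (nat_lit 684) (nat_lit 288919280) (nat_lit 76) (nat_lit 9672946241) (nat_lit 234) (nat_lit 5) (nat_lit 243) (nat_lit 5) (nat_lit 235) (nat_lit 5) (nat_lit 457) (nat_lit 392) (nat_lit 291)) (XT.nd (nat_lit 78) (nat_lit 532) (nat_lit 0) (XT.lf (nat_lit 0) (nat_lit 3851993928) (nat_lit 608) (nat_lit 4715952844) (nat_lit 76) (nat_lit 2719462258) (nat_lit 227) (nat_lit 5) (nat_lit 235) (nat_lit 5) (nat_lit 228) (nat_lit 5) (nat_lit 458) (nat_lit 392) (nat_lit 290)) (XT.lf (nat_lit 0) (nat_lit 2151131921) (nat_lit 532) (nat_lit 4406793256) (nat_lit 608) (nat_lit 4854036995) (nat_lit 220) (nat_lit 5) (nat_lit 227) (nat_lit 5) (nat_lit 228) (nat_lit 5) (nat_lit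 459) (nat_lit 392) (nat_lit 289))))) (XT.nd (nat_lit 234) (nat_lit 456) (nat_lit 0) (XT.nd (nat_lit 78) (nat_lit 1140) (nat_lit 0) (XT.lf (nat_lit 0) (nat_lit 9191533918) (nat_lit 532) (nat_lit 136843589) (nat_lit 608) (nat_lit 2210425347) (nat_lit 220) (nat_lit 5) (nat_lit 227) (nat_lit 5) (nat_lit 228) (nat_lit 5) (nat_lit 460) (nat_lit 392) (nat_lit 288)) (XT.nd (nat_lit 78) (nat_lit 532) (nat_lit 0) (XT.lf (nat_lit 0) (nat_lit 517032390) (nat_lit 608) (nat_lit 6959662612) (nat_lit 76) (nat_lit 4190679614) (nat_lit 212) (nat_lit 5) (nat_lit 220) (nat_lit 5) (nat_lit 213) (nat_lit 5) (nat_lit 461) (nat_lit 392) (nat_lit 287)) (XT.lf (nat_lit 0) (nat_lit 95127737) (nat_lit 532) (nat_lit 3170940065) (nat_lit 608) (nat_lit 8532229535) (nat_lit 205) (nat_lit 5) (nat_lit 212) (nat_lit 5) (nat_lit 213) (nat_lit 5) (nat_lit 462) (nat_lit 392) (nat_lit 286)))) (XT.nd (nat_lit 78) (nat_lit 456) (nat_lit 0) (XT.lf (nat_lit 0) (nat_lit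 6104423436) (nat_lit 608) (nat_lit 4581850725) (nat_lit 76) (nat_lit 1244881745) (nat_lit 205) (nat_lit 5) (nat_lit 213) (nat_lit 5) (nat_lit 206) (nat_lit 5) (nat_lit 463) (nat_lit 392) (nat_lit 285)) (XT.nd (nat_lit 78) (nat_lit 0) (nat_lit 0) (XT.lf (nat_lit 0) (nat_lit 2668377603) (nat_lit 456) (nat_lit 6349297113) (nat_lit 532) (nat_lit 3048638460) (nat_lit 199) (nat_lit 5) (nat_lit 205) (nat_lit 5) (nat_lit 206) (nat_lit 5) (nat_lit 464) (nat_lit 392) (nat_lit 284)) (XT.lf (nat_lit 0) (nat_lit 10098386129) (nat_lit 456) (nat_lit 1901574116) (nat_lit 532) (nat_lit 204001983) (nat_lit 199) (nat_lit 5) (nat_lit 205) (nat_lit 5) (nat_lit 206) (nat_lit 5) (nat_lit 465) (nat_lit 392) (nat_lit 283)))))) (XT.nd (nat_lit 468) (nat_lit 1748) (nat_lit 0) (XT.nd (nat_lit 234) (nat_lit 988) (nat_lit 0) (XT.nd (nat_lit 78) (nat_lit 456) (nat_lit 0) (XT.lf (nat_lit 0) (nat_lit 2694626750) (nat_lit 608) (nat_lit 7002794652) (nat_lit 76)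 (nat_lit 2645946880) (nat_lit 191) (nat_lit 5) (nat_lit 199) (nat_lit 5) (nat_lit 192) (nat_lit 5) (nat_lit 466) (nat_lit 392) (nat_lit 282)) (XT.nd (nat_lit 78) (nat_lit 0) (nat_lit 0) (XT.lf (nat_lit 0) (nat_lit 443455800) (nat_lit 456) (nat_lit 5215183648) (nat_lit 532) (nat_lit 6826696967) (nat_lit 185) (nat_lit 5) (nat_lit 191) (nat_lit 5) (nat_lit 192) (nat_lit 5) (nat_lit 467) (nat_lit 392) (nat_lit 281)) (XT.lf (nat_lit 0) (nat_lit 8106504591) (nat_lit 456) (nat_lit 603072958) (nat_lit 532) (nat_lit 3920017175) (nat_lit 185) (nat_lit 5) (nat_lit 191) (nat_lit 5) (nat_lit 192) (nat_lit 5) (nat_lit 468) (nat_lit 392) (nat_lit 280)))) (XT.nd (nat_lit 78) (nat_lit 532) (nat_lit 0) (XT.lf (nat_lit 0) (nat_lit 3133691924) (nat_lit 456) (nat_lit 8715799752) (nat_lit 532) (nat_lit 926691018) (nat_lit 179) (nat_lit 5) (nat_lit 185) (nat_lit 5) (nat_lit 186) (nat_lit 5) (nat_lit 469) (nat_lit 392) (nat_lit 279)) (XT.nd (nat_lit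 78) (nat_lit 456) (nat_lit 0) (XT.lf (nat_lit 0) (nat_lit 2114213949) (nat_lit 532) (nat_lit 1965109141) (nat_lit 76) (nat_lit 8845794666) (nat_lit 178) (nat_lit 5) (nat_lit 185) (nat_lit 5) (nat_lit 179) (nat_lit 5) (nat_lit 470) (nat_lit 392) (nat_lit 278)) (XT.lf (nat_lit 0) (nat_lit 5227806504) (nat_lit 532) (nat_lit 7170180715) (nat_lit 76) (nat_lit 678439666) (nat_lit 172) (nat_lit 5) (nat_lit 179) (nat_lit 5) (nat_lit 173) (nat_lit 5) (nat_lit 471) (nat_lit 392) (nat_lit 277))))) (XT.nd (nat_lit 234) (nat_lit 836) (nat_lit 0) (XT.nd (nat_lit 78) (nat_lit 456) (nat_lit 0) (XT.lf (nat_lit 0) (nat_lit 686517086) (nat_lit 456) (nat_lit 7743469719) (nat_lit 532) (nat_lit 4800252438) (nat_lit 166) (nat_lit 5) (nat_lit 172) (nat_lit 5) (nat_lit 173) (nat_lit 5) (nat_lit 472) (nat_lit 392) (nat_lit 276)) (XT.nd (nat_lit 78) (nat_lit 456) (nat_lit 0) (XT.lf (nat_lit 0) (nat_lit 8771165518) (nat_lit 456) (nat_lit 2954919956) (nat_lit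 532) (nat_lit 1660448176) (nat_lit 166) (nat_lit 5) (nat_lit 172) (nat_lit 5) (nat_lit 173) (nat_lit 5) (nat_lit 473) (nat_lit 392) (nat_lit 275)) (XT.lf (nat_lit 0) (nat_lit 1539213614) (nat_lit 456) (nat_lit 10077262096) (nat_lit 76) (nat_lit 1928935412) (nat_lit 160) (nat_lit 5) (nat_lit 166) (nat_lit 5) (nat_lit 161) (nat_lit 5) (nat_lit 474) (nat_lit 392) (nat_lit 274)))) (XT.nd (nat_lit 78) (nat_lit 836) (nat_lit 0) (XT.lf (nat_lit 0) (nat_lit 4813528827) (nat_lit 456) (nat_lit 1987955504) (nat_lit 76) (nat_lit 6905107537) (nat_lit 160) (nat_lit 5) (nat_lit 166) (nat_lit 5) (nat_lit 161) (nat_lit 5) (nat_lit 475) (nat_lit 392) (nat_lit 273)) (XT.nd (nat_lit 78) (nat_lit 380) (nat_lit 0) (XT.lf (nat_lit 0) (nat_lit 6320306239) (nat_lit 456) (nat_lit 1856537311) (nat_lit 532) (nat_lit 5693685462) (nat_lit 154) (nat_lit 5) (nat_lit 160) (nat_lit 5) (nat_lit 161) (nat_lit 5) (nat_lit 476) (nat_lit 392) (nat_lit 272)) (XT.lf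 (nat_lit 0) (nat_lit 747371541) (nat_lit 380) (nat_lit 10881630108) (nat_lit 456) (nat_lit 2408314695) (nat_lit 149) (nat_lit 5) (nat_lit 154) (nat_lit 5) (nat_lit 155) (nat_lit 5) (nat_lit 477) (nat_lit 392) (nat_lit 271))))))))
noncomputable def xc124 : XT := (XT.nd (nat_lit 1716) (nat_lit 1140) (nat_lit 0) (XT.nd (nat_lit 858) (nat_lit 2052) (nat_lit 0) (XT.nd (nat_lit 390) (nat_lit 1064) (nat_lit 0) (XT.nd (nat_lit 156) (nat_lit 836) (nat_lit 0) (XT.nd (nat_lit 78) (nat_lit 380) (nat_lit 0) (XT.lf (nat_lit 0) (nat_lit 976354832) (nat_lit 456) (nat_lit 4937828174) (nat_lit 76) (nat_lit 8292217751) (nat_lit 148) (nat_lit 5) (nat_lit 154) (nat_lit 5) (nat_lit 149) (nat_lit 5) (nat_lit 478) (nat_lit 392) (nat_lit 270)) (XT.lf (nat_lit 0) (nat_lit 3587020676) (nat_lit 380) (nat_lit 815768618) (nat_lit 456) (nat_lit 9975635622) (nat_lit 143) (nat_lit 5) (nat_lit 148) (nat_lit 5) (nat_lit 149) (nat_lit 5) (nat_lit 479) (nat_lit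 392) (nat_lit 269))) (XT.nd (nat_lit 78) (nat_lit 836) (nat_lit 0) (XT.lf (nat_lit 0) (nat_lit 7942689447) (nat_lit 456) (nat_lit 2258137133) (nat_lit 76) (nat_lit 4352166998) (nat_lit 143) (nat_lit 5) (nat_lit 149) (nat_lit 5) (nat_lit 144) (nat_lit 5) (nat_lit 480) (nat_lit 392) (nat_lit 268)) (XT.nd (nat_lit 78) (nat_lit 456) (nat_lit 0) (XT.lf (nat_lit 0) (nat_lit 6500627137) (nat_lit 380) (nat_lit 5083814694) (nat_lit 456) (nat_lit 3145993403) (nat_lit 138) (nat_lit 5) (nat_lit 143) (nat_lit 5) (nat_lit 144) (nat_lit 5) (nat_lit 481) (nat_lit 392) (nat_lit 267)) (XT.lf (nat_lit 0) (nat_lit 385698929) (nat_lit 456) (nat_lit 14378946809) (nat_lit 76) (nat_lit 146668677) (nat_lit 132) (nat_lit 5) (nat_lit 138) (nat_lit 5) (nat_lit 133) (nat_lit 5) (nat_lit 482) (nat_lit 392) (nat_lit 266))))) (XT.nd (nat_lit 234) (nat_lit 760) (nat_lit 0) (XT.nd (nat_lit 78) (nat_lit 304) (nat_lit 0) (XT.lf (nat_lit 0) (nat_lit 4018802947)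 (nat_lit 456) (nat_lit 5593419008) (nat_lit 76) (nat_lit 5481717819) (nat_lit 132) (nat_lit 5) (nat_lit 138) (nat_lit 5) (nat_lit 133) (nat_lit 5) (nat_lit 483) (nat_lit 392) (nat_lit 265)) (XT.nd (nat_lit 78) (nat_lit 0) (nat_lit 0) (XT.lf (nat_lit 0) (nat_lit 3387552993) (nat_lit 304) (nat_lit 4342935378) (nat_lit 380) (nat_lit 7549613384) (nat_lit 128) (nat_lit 5) (nat_lit 132) (nat_lit 5) (nat_lit 133) (nat_lit 5) (nat_lit 484) (nat_lit 392) (nat_lit 264)) (XT.lf (nat_lit 0) (nat_lit 11544914660) (nat_lit 380) (nat_lit 2877016037) (nat_lit 76) (nat_lit 1047488585) (nat_lit 128) (nat_lit 5) (nat_lit 133) (nat_lit 5) (nat_lit 129) (nat_lit 5) (nat_lit 485) (nat_lit 392) (nat_lit 263)))) (XT.nd (nat_lit 78) (nat_lit 380) (nat_lit 0) (XT.lf (nat_lit 0) (nat_lit 6349023824) (nat_lit 380) (nat_lit 9140927195) (nat_lit 456) (nat_lit 171488112) (nat_lit 123) (nat_lit 5) (nat_lit 128) (nat_lit 5) (nat_lit 129) (nat_lit 5) (nat_lit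 486) (nat_lit 392) (nat_lit 262)) (XT.nd (nat_lit 78) (nat_lit 304) (nat_lit 0) (XT.lf (nat_lit 0) (nat_lit 3612449604) (nat_lit 456) (nat_lit 106559764) (nat_lit 76) (nat_lit 12137741146) (nat_lit 122) (nat_lit 5) (nat_lit 128) (nat_lit 5) (nat_lit 123) (nat_lit 5) (nat_lit 487) (nat_lit 392) (nat_lit 261)) (XT.lf (nat_lit 0) (nat_lit 7527487942) (nat_lit 380) (nat_lit 6685718169) (nat_lit 76) (nat_lit 1841587244) (nat_lit 118) (nat_lit 5) (nat_lit 123) (nat_lit 5) (nat_lit 119) (nat_lit 5) (nat_lit 488) (nat_lit 392) (nat_lit 260)))))) (XT.nd (nat_lit 390) (nat_lit 988) (nat_lit 0) (XT.nd (nat_lit 156) (nat_lit 684) (nat_lit 0) (XT.nd (nat_lit 78) (nat_lit 0) (nat_lit 0) (XT.lf (nat_lit 0) (nat_lit 2766558535) (nat_lit 380) (nat_lit 8782360172) (nat_lit 456) (nat_lit 4707318732) (nat_lit 113) (nat_lit 5) (nat_lit 118) (nat_lit 5) (nat_lit 119) (nat_lit 5) (nat_lit 489) (nat_lit 392) (nat_lit 259)) (XT.lf (nat_lit 0) (nat_lit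 12474689210) (nat_lit 380) (nat_lit 3205877665) (nat_lit 456) (nat_lit 780549930) (nat_lit 113) (nat_lit 5) (nat_lit 118) (nat_lit 5) (nat_lit 119) (nat_lit 5) (nat_lit 490) (nat_lit 392) (nat_lit 258))) (XT.nd (nat_lit 78) (nat_lit 304) (nat_lit 0) (XT.lf (nat_lit 0) (nat_lit 3221278097) (nat_lit 380) (nat_lit 10948023625) (nat_lit 76) (nat_lit 2499599041) (nat_lit 108) (nat_lit 5) (nat_lit 113) (nat_lit 5) (nat_lit 109) (nat_lit 5) (nat_lit 491) (nat_lit 392) (nat_lit 257)) (XT.nd (nat_lit 78) (nat_lit 304) (nat_lit 0) (XT.lf (nat_lit 0) (nat_lit 7326063443) (nat_lit 380) (nat_lit 1254154450) (nat_lit 76) (nat_lit 8299853924) (nat_lit 108) (nat_lit 5) (nat_lit 113) (nat_lit 5) (nat_lit 109) (nat_lit 5) (nat_lit 492) (nat_lit 392) (nat_lit 256)) (XT.lf (nat_lit 0) (nat_lit 8724846736) (nat_lit 304) (nat_lit 2830238768) (nat_lit 380) (nat_lit 5539539978) (nat_lit 104) (nat_lit 5) (nat_lit 108) (nat_lit 5) (nat_lit 109) (nat_lit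 5) (nat_lit 493) (nat_lit 392) (nat_lit 255))))) (XT.nd (nat_lit 234) (nat_lit 304) (nat_lit 0) (XT.nd (nat_lit 78) (nat_lit 380) (nat_lit 0) (XT.lf (nat_lit 0) (nat_lit 1584899307) (nat_lit 304) (nat_lit 14307826567) (nat_lit 380) (nat_lit 1420265560) (nat_lit 100) (nat_lit 5) (nat_lit 104) (nat_lit 5) (nat_lit 105) (nat_lit 5) (nat_lit 494) (nat_lit 392) (nat_lit 254)) (XT.nd (nat_lit 78) (nat_lit 304) (nat_lit 0) (XT.lf (nat_lit 0) (nat_lit 2805805406) (nat_lit 380) (nat_lit 5742944088) (nat_lit 76) (nat_lit 8985398140) (nat_lit 99) (nat_lit 5) (nat_lit 104) (nat_lit 5) (nat_lit 100) (nat_lit 5) (nat_lit 495) (nat_lit 392) (nat_lit 253)) (XT.lf (nat_lit 0) (nat_lit 4468265785) (nat_lit 304) (nat_lit 2644034223) (nat_lit 380) (nat_lit 10646942658) (nat_lit 95) (nat_lit 5) (nat_lit 99) (nat_lit 5) (nat_lit 100) (nat_lit 5) (nat_lit 496) (nat_lit 392) (nat_lit 252)))) (XT.nd (nat_lit 78) (nat_lit 304) (nat_lit 0) (XT.lf (nat_lit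 0) (nat_lit 11551618814) (nat_lit 380) (nat_lit 3071626470) (nat_lit 76) (nat_lit 3364662249) (nat_lit 95) (nat_lit 5) (nat_lit 100) (nat_lit 5) (nat_lit 96) (nat_lit 5) (nat_lit 497) (nat_lit 392) (nat_lit 251)) (XT.nd (nat_lit 78) (nat_lit 76) (nat_lit 0) (XT.lf (nat_lit 0) (nat_lit 7409312372) (nat_lit 228) (nat_lit 8722266842) (nat_lit 304) (nat_lit 2088531165) (nat_lit 92) (nat_lit 5) (nat_lit 95) (nat_lit 5) (nat_lit 96) (nat_lit 5) (nat_lit 498) (nat_lit 392) (nat_lit 250)) (XT.lf (nat_lit 0) (nat_lit 2322431477) (nat_lit 304) (nat_lit 352907067) (nat_lit 76) (nat_lit 15781175382) (nat_lit 91) (nat_lit 5) (nat_lit 95) (nat_lit 5) (nat_lit 92) (nat_lit 5) (nat_lit 499) (nat_lit 392) (nat_lit 249))))))) (XT.nd (nat_lit 51402) (nat_lit 0) (nat_lit 39596) (XT.nd (nat_lit 390) (nat_lit 228) (nat_lit 0) (XT.nd (nat_lit 156) (nat_lit 380) (nat_lit 0) (XT.nd (nat_lit 78) (nat_lit 228) (nat_lit 0) (XT.lf (nat_lit 0) (nat_lit 6870994531)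 (nat_lit 380) (nat_lit 8304601944) (nat_lit 76) (nat_lit 3520227716) (nat_lit 87) (nat_lit 5) (nat_lit 92) (nat_lit 5) (nat_lit 88) (nat_lit 5) (nat_lit 500) (nat_lit 392) (nat_lit 248)) (XT.lf (nat_lit 0) (nat_lit 2406852044) (nat_lit 228) (nat_lit 9126011956) (nat_lit 304) (nat_lit 7406611608) (nat_lit 84) (nat_lit 5) (nat_lit 87) (nat_lit 5) (nat_lit 88) (nat_lit 5) (nat_lit 501) (nat_lit 392) (nat_lit 247))) (XT.nd (nat_lit 78) (nat_lit 380) (nat_lit 0) (XT.lf (nat_lit 0) (nat_lit 13423126049) (nat_lit 228) (nat_lit 2907299886) (nat_lit 304) (nat_lit 2856726635) (nat_lit 84) (nat_lit 5) (nat_lit 87) (nat_lit 5) (nat_lit 88) (nat_lit 5) (nat_lit 502) (nat_lit 392) (nat_lit 246)) (XT.nd (nat_lit 78) (nat_lit 0) (nat_lit 0) (XT.lf (nat_lit 0) (nat_lit 1804332545) (nat_lit 380) (nat_lit 14206125239) (nat_lit 76) (nat_lit 3428223639) (nat_lit 79) (nat_lit 5) (nat_lit 84) (nat_lit 5) (nat_lit 80) (nat_lit 5) (nat_lit 503) (nat_lit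 392) (nat_lit 245)) (XT.lf (nat_lit 0) (nat_lit 6565546815) (nat_lit 380) (nat_lit 3227479592) (nat_lit 76) (nat_lit 9900934602) (nat_lit 79) (nat_lit 5) (nat_lit 84) (nat_lit 5) (nat_lit 80) (nat_lit 5) (nat_lit 504) (nat_lit 392) (nat_lit 244))))) (XT.nd (nat_lit 50778) (nat_lit 0) (nat_lit 42560) (XT.nd (nat_lit 50622) (nat_lit 0) (nat_lit 43472) (XT.lf (nat_lit 0) (nat_lit 8055021976) (nat_lit 228) (nat_lit 3406477890) (nat_lit 304) (nat_lit 8492057526) (nat_lit 76) (nat_lit 5) (nat_lit 79) (nat_lit 5) (nat_lit 80) (nat_lit 5) (nat_lit 505) (nat_lit 392) (nat_lit 243)) (XT.nd (nat_lit 78) (nat_lit 0) (nat_lit 0) (XT.lf (nat_lit 0) (nat_lit 464745853) (nat_lit 0) (nat_lit 464745853) (nat_lit 836) (nat_lit 2453755260) (nat_lit 648) (nat_lit 5) (nat_lit 648) (nat_lit 3) (nat_lit 659) (nat_lit 3) (nat_lit 393) (nat_lit 393) (nat_lit 354)) (XT.lf (nat_lit 0) (nat_lit 3943665808) (nat_lit 836) (nat_lit 2540236527) (nat_lit 912)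 (nat_lit 308093110) (nat_lit 648) (nat_lit 5) (nat_lit 659) (nat_lit 3) (nat_lit 660) (nat_lit 5) (nat_lit 394) (nat_lit 393) (nat_lit 353)))) (XT.nd (nat_lit 78) (nat_lit 912) (nat_lit 0) (XT.lf (nat_lit 76) (nat_lit 798429204) (nat_lit 0) (nat_lit 5228986727) (nat_lit 912) (nat_lit 791465648) (nat_lit 649) (nat_lit 5) (nat_lit 648) (nat_lit 5) (nat_lit 660) (nat_lit 5) (nat_lit 395) (nat_lit 393) (nat_lit 352)) (XT.nd (nat_lit 78) (nat_lit 0) (nat_lit 0) (XT.lf (nat_lit 0) (nat_lit 1253096294) (nat_lit 912) (nat_lit 2645154914) (nat_lit 988) (nat_lit 2948631866) (nat_lit 636) (nat_lit 5) (nat_lit 648) (nat_lit 5) (nat_lit 649) (nat_lit 5) (nat_lit 396) (nat_lit 393) (nat_lit 351)) (XT.lf (nat_lit 76) (nat_lit 774231339) (nat_lit 0) (nat_lit 2506342345) (nat_lit 988) (nat_lit 3595734643) (nat_lit 637) (nat_lit 5) (nat_lit 636) (nat_lit 5) (nat_lit 649) (nat_lit 5) (nat_lit 397) (nat_lit 393) (nat_lit 350)))))) (XT.nd (nat_lit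 468) (nat_lit 1064) (nat_lit 0) (XT.nd (nat_lit 234) (nat_lit 988) (nat_lit 0) (XT.nd (nat_lit 78) (nat_lit 912) (nat_lit 0) (XT.lf (nat_lit 76) (nat_lit 4269717624) (nat_lit 0) (nat_lit 1045063602) (nat_lit 988) (nat_lit 1592237644) (nat_lit 637) (nat_lit 5) (nat_lit 636) (nat_lit 5) (nat_lit 649) (nat_lit 5) (nat_lit 398) (nat_lit 393) (nat_lit 349)) (XT.nd (nat_lit 78) (nat_lit 0) (nat_lit 0) (XT.lf (nat_lit 0) (nat_lit 403287397) (nat_lit 988) (nat_lit 6065250541) (nat_lit 1064) (nat_lit 470609132) (nat_lit 624) (nat_lit 5) (nat_lit 637) (nat_lit 5) (nat_lit 638) (nat_lit 5) (nat_lit 399) (nat_lit 393) (nat_lit 348)) (XT.lf (nat_lit 0) (nat_lit 2392204129) (nat_lit 988) (nat_lit 2527344796) (nat_lit 1064) (nat_lit 2052681609) (nat_lit 624) (nat_lit 5) (nat_lit 637) (nat_lit 5) (nat_lit 638) (nat_lit 5) (nat_lit 400) (nat_lit 393) (nat_lit 347)))) (XT.nd (nat_lit 78) (nat_lit 988) (nat_lit 0) (XT.lf (nat_lit 76) (nat_lit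 1066616049) (nat_lit 0) (nat_lit 3312233312) (nat_lit 1064) (nat_lit 2627986143) (nat_lit 625) (nat_lit 5) (nat_lit 624) (nat_lit 5) (nat_lit 638) (nat_lit 5) (nat_lit 401) (nat_lit 393) (nat_lit 346)) (XT.nd (nat_lit 78) (nat_lit 988) (nat_lit 0) (XT.lf (nat_lit 76) (nat_lit 4738211821) (nat_lit 0) (nat_lit 1635775712) (nat_lit 1064) (nat_lit 668788310) (nat_lit 625) (nat_lit 5) (nat_lit 624) (nat_lit 5) (nat_lit 638) (nat_lit 5) (nat_lit 402) (nat_lit 393) (nat_lit 345)) (XT.lf (nat_lit 0) (nat_lit 1274282601) (nat_lit 1064) (nat_lit 5696035189) (nat_lit 1140) (nat_lit 109719763) (nat_lit 611) (nat_lit 5) (nat_lit 625) (nat_lit 5) (nat_lit 626) (nat_lit 5) (nat_lit 403) (nat_lit 393) (nat_lit 344))))) (XT.nd (nat_lit 234) (nat_lit 1064) (nat_lit 0) (XT.nd (nat_lit 78) (nat_lit 0) (nat_lit 0) (XT.lf (nat_lit 0) (nat_lit 3226951210) (nat_lit 1064) (nat_lit 1985000635) (nat_lit 1140) (nat_lit 1906427816) (nat_lit 611) (nat_lit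 5) (nat_lit 625) (nat_lit 5) (nat_lit 626) (nat_lit 5) (nat_lit 404) (nat_lit 393) (nat_lit 343)) (XT.nd (nat_lit 78) (nat_lit 0) (nat_lit 0) (XT.lf (nat_lit 76) (nat_lit 1794892938) (nat_lit 0) (nat_lit 3389632693) (nat_lit 1140) (nat_lit 1973662997) (nat_lit 612) (nat_lit 5) (nat_lit 611) (nat_lit 5) (nat_lit 626) (nat_lit 5) (nat_lit 405) (nat_lit 393) (nat_lit 342)) (XT.lf (nat_lit 76) (nat_lit 5648579717) (nat_lit 0) (nat_lit 1500902670) (nat_lit 1140) (nat_lit 49963498) (nat_lit 612) (nat_lit 5) (nat_lit 611) (nat_lit 5) (nat_lit 626) (nat_lit 5) (nat_lit 406) (nat_lit 393) (nat_lit 341)))) (XT.nd (nat_lit 78) (nat_lit 0) (nat_lit 0) (XT.lf (nat_lit 0) (nat_lit 1860773989) (nat_lit 1140) (nat_lit 4917770849) (nat_lit 1216) (nat_lit 463278366) (nat_lit 597) (nat_lit 5) (nat_lit 612) (nat_lit 5) (nat_lit 613) (nat_lit 5) (nat_lit 407) (nat_lit 393) (nat_lit 340)) (XT.nd (nat_lit 78) (nat_lit 0) (nat_lit 0) (XT.lf (nat_lit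 0) (nat_lit 3785745692) (nat_lit 1140) (nat_lit 1027246574) (nat_lit 1216) (nat_lit 2472531192) (nat_lit 597) (nat_lit 5) (nat_lit 612) (nat_lit 5) (nat_lit 613) (nat_lit 5) (nat_lit 408) (nat_lit 393) (nat_lit 339)) (XT.lf (nat_lit 76) (nat_lit 2950809425) (nat_lit 0) (nat_lit 2774695475) (nat_lit 1216) (nat_lit 1605082513) (nat_lit 598) (nat_lit 5) (nat_lit 597) (nat_lit 5) (nat_lit 613) (nat_lit 5) (nat_lit 409) (nat_lit 393) (nat_lit 338))))))))
noncomputable def xc125 : XT := (XT.nd (nat_lit 1716) (nat_lit 10792) (nat_lit 0) (XT.nd (nat_lit 858) (nat_lit 8968) (nat_lit 0) (XT.nd (nat_lit 390) (nat_lit 4180) (nat_lit 0) (XT.nd (nat_lit 156) (nat_lit 1140) (nat_lit 0) (XT.nd (nat_lit 78) (nat_lit 0) (nat_lit 76) (XT.lf (nat_lit 0) (nat_lit 287638962) (nat_lit 1216) (nat_lit 385603993) (nat_lit 1292) (nat_lit 6703993467) (nat_lit 581) (nat_lit 5) (nat_lit 597) (nat_lit 5) (nat_lit 598) (nat_lit 5) (nat_lit 410) (nat_lit 393)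 (nat_lit 337)) (XT.lf (nat_lit 0) (nat_lit 2188930657) (nat_lit 1216) (nat_lit 3737307571) (nat_lit 1292) (nat_lit 1498538398) (nat_lit 582) (nat_lit 5) (nat_lit 598) (nat_lit 5) (nat_lit 599) (nat_lit 5) (nat_lit 411) (nat_lit 393) (nat_lit 336))) (XT.nd (nat_lit 78) (nat_lit 1216) (nat_lit 0) (XT.lf (nat_lit 76) (nat_lit 344538595) (nat_lit 0) (nat_lit 3752044325) (nat_lit 1292) (nat_lit 3377332298) (nat_lit 583) (nat_lit 5) (nat_lit 582) (nat_lit 5) (nat_lit 599) (nat_lit 5) (nat_lit 412) (nat_lit 393) (nat_lit 335)) (XT.nd (nat_lit 78) (nat_lit 1216) (nat_lit 0) (XT.lf (nat_lit 76) (nat_lit 4529357040) (nat_lit 0) (nat_lit 1497757797) (nat_lit 1292) (nat_lit 1497241212) (nat_lit 583) (nat_lit 5) (nat_lit 582) (nat_lit 5) (nat_lit 599) (nat_lit 5) (nat_lit 413) (nat_lit 393) (nat_lit 334)) (XT.lf (nat_lit 0) (nat_lit 388272626) (nat_lit 1292) (nat_lit 6375889060) (nat_lit 76) (nat_lit 812136166) (nat_lit 566) (nat_lit 5)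 (nat_lit 583) (nat_lit 5) (nat_lit 567) (nat_lit 5) (nat_lit 414) (nat_lit 393) (nat_lit 333))))) (XT.nd (nat_lit 234) (nat_lit 2888) (nat_lit 0) (XT.nd (nat_lit 78) (nat_lit 1292) (nat_lit 0) (XT.lf (nat_lit 0) (nat_lit 2282438510) (nat_lit 1292) (nat_lit 2158485252) (nat_lit 76) (nat_lit 3188350186) (nat_lit 566) (nat_lit 5) (nat_lit 583) (nat_lit 5) (nat_lit 567) (nat_lit 5) (nat_lit 415) (nat_lit 393) (nat_lit 332)) (XT.nd (nat_lit 78) (nat_lit 0) (nat_lit 0) (XT.lf (nat_lit 0) (nat_lit 2141982703) (nat_lit 1292) (nat_lit 2048001440) (nat_lit 1368) (nat_lit 3493828429) (nat_lit 549) (nat_lit 5) (nat_lit 566) (nat_lit 5) (nat_lit 567) (nat_lit 5) (nat_lit 416) (nat_lit 393) (nat_lit 331)) (XT.lf (nat_lit 0) (nat_lit 6115020556) (nat_lit 1368) (nat_lit 1214088553) (nat_lit 76) (nat_lit 410758742) (nat_lit 549) (nat_lit 5) (nat_lit 567) (nat_lit 5) (nat_lit 550) (nat_lit 5) (nat_lit 417) (nat_lit 393) (nat_lit 330)))) (XT.nd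 (nat_lit 78) (nat_lit 1444) (nat_lit 0) (XT.lf (nat_lit 0) (nat_lit 275075426) (nat_lit 1444) (nat_lit 4599738784) (nat_lit 76) (nat_lit 2922260575) (nat_lit 530) (nat_lit 5) (nat_lit 549) (nat_lit 5) (nat_lit 531) (nat_lit 5) (nat_lit 418) (nat_lit 393) (nat_lit 329)) (XT.nd (nat_lit 78) (nat_lit 1444) (nat_lit 0) (XT.lf (nat_lit 0) (nat_lit 2162694414) (nat_lit 1444) (nat_lit 182358724) (nat_lit 76) (nat_lit 5510740771) (nat_lit 530) (nat_lit 5) (nat_lit 549) (nat_lit 5) (nat_lit 531) (nat_lit 5) (nat_lit 419) (nat_lit 393) (nat_lit 328)) (XT.lf (nat_lit 0) (nat_lit 4082030878) (nat_lit 1520) (nat_lit 3566322475) (nat_lit 76) (nat_lit 267466476) (nat_lit 511) (nat_lit 5) (nat_lit 531) (nat_lit 5) (nat_lit 512) (nat_lit 5) (nat_lit 420) (nat_lit 393) (nat_lit 327)))))) (XT.nd (nat_lit 390) (nat_lit 4104) (nat_lit 0) (XT.nd (nat_lit 156) (nat_lit 3344) (nat_lit 0) (XT.nd (nat_lit 78) (nat_lit 0) (nat_lit 0) (XT.lf (nat_lit 0)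 (nat_lit 964838768) (nat_lit 1520) (nat_lit 5062457116) (nat_lit 1596) (nat_lit 1950011031) (nat_lit 491) (nat_lit 5) (nat_lit 511) (nat_lit 5) (nat_lit 512) (nat_lit 5) (nat_lit 421) (nat_lit 393) (nat_lit 326)) (XT.lf (nat_lit 0) (nat_lit 5605443496) (nat_lit 1520) (nat_lit 2394974153) (nat_lit 1596) (nat_lit 39838322) (nat_lit 491) (nat_lit 5) (nat_lit 511) (nat_lit 5) (nat_lit 512) (nat_lit 5) (nat_lit 422) (nat_lit 393) (nat_lit 325))) (XT.nd (nat_lit 78) (nat_lit 1672) (nat_lit 0) (XT.lf (nat_lit 0) (nat_lit 1865725928) (nat_lit 1672) (nat_lit 5885225526) (nat_lit 76) (nat_lit 353631169) (nat_lit 469) (nat_lit 5) (nat_lit 491) (nat_lit 5) (nat_lit 470) (nat_lit 5) (nat_lit 423) (nat_lit 393) (nat_lit 324)) (XT.nd (nat_lit 78) (nat_lit 1672) (nat_lit 0) (XT.lf (nat_lit 0) (nat_lit 3807162528) (nat_lit 1672) (nat_lit 1216429625) (nat_lit 76) (nat_lit 3146643108) (nat_lit 469) (nat_lit 5) (nat_lit 491) (nat_lit 5) (nat_lit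 470) (nat_lit 5) (nat_lit 424) (nat_lit 393) (nat_lit 323)) (XT.lf (nat_lit 0) (nat_lit 3563117838) (nat_lit 1672) (nat_lit 2214097250) (nat_lit 1748) (nat_lit 2460200520) (nat_lit 447) (nat_lit 5) (nat_lit 469) (nat_lit 5) (nat_lit 470) (nat_lit 5) (nat_lit 425) (nat_lit 393) (nat_lit 322))))) (XT.nd (nat_lit 234) (nat_lit 988) (nat_lit 0) (XT.nd (nat_lit 78) (nat_lit 1368) (nat_lit 0) (XT.lf (nat_lit 0) (nat_lit 116356246) (nat_lit 1748) (nat_lit 7650657176) (nat_lit 1824) (nat_lit 539329443) (nat_lit 424) (nat_lit 5) (nat_lit 447) (nat_lit 5) (nat_lit 448) (nat_lit 5) (nat_lit 426) (nat_lit 393) (nat_lit 321)) (XT.nd (nat_lit 78) (nat_lit 1292) (nat_lit 0) (XT.lf (nat_lit 0) (nat_lit 1414942679) (nat_lit 1824) (nat_lit 3364027787) (nat_lit 76) (nat_lit 3597231484) (nat_lit 423) (nat_lit 5) (nat_lit 447) (nat_lit 5) (nat_lit 424) (nat_lit 5) (nat_lit 427) (nat_lit 393) (nat_lit 320)) (XT.lf (nat_lit 0) (nat_lit 1545638855)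 (nat_lit 1292) (nat_lit 1833490676) (nat_lit 1368) (nat_lit 5068705977) (nat_lit 406) (nat_lit 5) (nat_lit 423) (nat_lit 5) (nat_lit 424) (nat_lit 5) (nat_lit 428) (nat_lit 393) (nat_lit 319)))) (XT.nd (nat_lit 78) (nat_lit 988) (nat_lit 0) (XT.lf (nat_lit 0) (nat_lit 5381386573) (nat_lit 1368) (nat_lit 1959074748) (nat_lit 76) (nat_lit 1180474108) (nat_lit 406) (nat_lit 5) (nat_lit 424) (nat_lit 5) (nat_lit 407) (nat_lit 5) (nat_lit 429) (nat_lit 393) (nat_lit 318)) (XT.nd (nat_lit 78) (nat_lit 76) (nat_lit 0) (XT.lf (nat_lit 0) (nat_lit 3081801475) (nat_lit 912) (nat_lit 4343117430) (nat_lit 988) (nat_lit 1170563076) (nat_lit 394) (nat_lit 5) (nat_lit 406) (nat_lit 5) (nat_lit 407) (nat_lit 5) (nat_lit 430) (nat_lit 393) (nat_lit 317)) (XT.lf (nat_lit 0) (nat_lit 809332525) (nat_lit 988) (nat_lit 456340100) (nat_lit 76) (nat_lit 7406096565) (nat_lit 393) (nat_lit 5) (nat_lit 406) (nat_lit 5) (nat_lit 394) (nat_lit 5) (nat_lit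 431) (nat_lit 393) (nat_lit 316))))))) (XT.nd (nat_lit 858) (nat_lit 4940) (nat_lit 0) (XT.nd (nat_lit 390) (nat_lit 3192) (nat_lit 0) (XT.nd (nat_lit 156) (nat_lit 912) (nat_lit 0) (XT.nd (nat_lit 78) (nat_lit 912) (nat_lit 0) (XT.lf (nat_lit 0) (nat_lit 2826171370) (nat_lit 912) (nat_lit 4034480764) (nat_lit 76) (nat_lit 1888523581) (nat_lit 382) (nat_lit 5) (nat_lit 394) (nat_lit 5) (nat_lit 383) (nat_lit 5) (nat_lit 432) (nat_lit 393) (nat_lit 315)) (XT.lf (nat_lit 0) (nat_lit 1144429757) (nat_lit 912) (nat_lit 3728107846) (nat_lit 988) (nat_lit 3955817488) (nat_lit 370) (nat_lit 5) (nat_lit 382) (nat_lit 5) (nat_lit 383) (nat_lit 5) (nat_lit 433) (nat_lit 393) (nat_lit 314))) (XT.nd (nat_lit 78) (nat_lit 912) (nat_lit 0) (XT.lf (nat_lit 0) (nat_lit 6452355838) (nat_lit 912) (nat_lit 505237047) (nat_lit 988) (nat_lit 1951578300) (nat_lit 370) (nat_lit 5) (nat_lit 382) (nat_lit 5) (nat_lit 383) (nat_lit 5) (nat_lit 434) (nat_lit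 393) (nat_lit 313)) (XT.nd (nat_lit 78) (nat_lit 0) (nat_lit 0) (XT.lf (nat_lit 0) (nat_lit 99502308) (nat_lit 912) (nat_lit 6127018916) (nat_lit 76) (nat_lit 2764918915) (nat_lit 358) (nat_lit 5) (nat_lit 370) (nat_lit 5) (nat_lit 359) (nat_lit 5) (nat_lit 435) (nat_lit 393) (nat_lit 312)) (XT.lf (nat_lit 0) (nat_lit 2156881300) (nat_lit 912) (nat_lit 795474689) (nat_lit 76) (nat_lit 6122920197) (nat_lit 358) (nat_lit 5) (nat_lit 370) (nat_lit 5) (nat_lit 359) (nat_lit 5) (nat_lit 436) (nat_lit 393) (nat_lit 311))))) (XT.nd (nat_lit 234) (nat_lit 1596) (nat_lit 0) (XT.nd (nat_lit 78) (nat_lit 760) (nat_lit 0) (XT.lf (nat_lit 0) (nat_lit 4260474115) (nat_lit 912) (nat_lit 4488321939) (nat_lit 76) (nat_lit 411899306) (nat_lit 347) (nat_lit 5) (nat_lit 359) (nat_lit 5) (nat_lit 348) (nat_lit 5) (nat_lit 437) (nat_lit 393) (nat_lit 310)) (XT.nd (nat_lit 78) (nat_lit 0) (nat_lit 0) (XT.lf (nat_lit 0) (nat_lit 976624782) (nat_lit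 760) (nat_lit 5433138490) (nat_lit 836) (nat_lit 2837994732) (nat_lit 337) (nat_lit 5) (nat_lit 347) (nat_lit 5) (nat_lit 348) (nat_lit 5) (nat_lit 438) (nat_lit 393) (nat_lit 309)) (XT.lf (nat_lit 0) (nat_lit 6582661545) (nat_lit 760) (nat_lit 2022207217) (nat_lit 836) (nat_lit 731643954) (nat_lit 337) (nat_lit 5) (nat_lit 347) (nat_lit 5) (nat_lit 348) (nat_lit 5) (nat_lit 439) (nat_lit 393) (nat_lit 308)))) (XT.nd (nat_lit 78) (nat_lit 760) (nat_lit 0) (XT.lf (nat_lit 0) (nat_lit 1399601725) (nat_lit 836) (nat_lit 6563244770) (nat_lit 76) (nat_lit 1463992191) (nat_lit 326) (nat_lit 5) (nat_lit 337) (nat_lit 5) (nat_lit 327) (nat_lit 5) (nat_lit 440) (nat_lit 393) (nat_lit 307)) (XT.nd (nat_lit 78) (nat_lit 760) (nat_lit 0) (XT.lf (nat_lit 0) (nat_lit 3569070066) (nat_lit 836) (nat_lit 935424886) (nat_lit 76) (nat_lit 5014278610) (nat_lit 326) (nat_lit 5) (nat_lit 337) (nat_lit 5) (nat_lit 327) (nat_lit 5) (nat_lit 441) (nat_lit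 393) (nat_lit 306)) (XT.lf (nat_lit 0) (nat_lit 4839818062) (nat_lit 760) (nat_lit 947445790) (nat_lit 836) (nat_lit 3825183424) (nat_lit 316) (nat_lit 5) (nat_lit 326) (nat_lit 5) (nat_lit 327) (nat_lit 5) (nat_lit 442) (nat_lit 393) (nat_lit 305)))))) (XT.nd (nat_lit 468) (nat_lit 2052) (nat_lit 0) (XT.nd (nat_lit 234) (nat_lit 1368) (nat_lit 0) (XT.nd (nat_lit 78) (nat_lit 760) (nat_lit 0) (XT.lf (nat_lit 0) (nat_lit 1002148631) (nat_lit 760) (nat_lit 7052125925) (nat_lit 836) (nat_lit 1653637576) (nat_lit 306) (nat_lit 5) (nat_lit 316) (nat_lit 5) (nat_lit 317) (nat_lit 5) (nat_lit 443) (nat_lit 393) (nat_lit 304)) (XT.nd (nat_lit 78) (nat_lit 684) (nat_lit 0) (XT.lf (nat_lit 0) (nat_lit 566856812) (nat_lit 836) (nat_lit 2886742324) (nat_lit 76) (nat_lit 6351363130) (nat_lit 305) (nat_lit 5) (nat_lit 316) (nat_lit 5) (nat_lit 306) (nat_lit 5) (nat_lit 444) (nat_lit 393) (nat_lit 303)) (XT.lf (nat_lit 0) (nat_lit 2805895739)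 (nat_lit 760) (nat_lit 6856250122) (nat_lit 76) (nat_lit 241669734) (nat_lit 296) (nat_lit 5) (nat_lit 306) (nat_lit 5) (nat_lit 297) (nat_lit 5) (nat_lit 445) (nat_lit 393) (nat_lit 302)))) (XT.nd (nat_lit 78) (nat_lit 1368) (nat_lit 0) (XT.lf (nat_lit 0) (nat_lit 5107241829) (nat_lit 760) (nat_lit 916372202) (nat_lit 76) (nat_lit 3980687647) (nat_lit 296) (nat_lit 5) (nat_lit 306) (nat_lit 5) (nat_lit 297) (nat_lit 5) (nat_lit 446) (nat_lit 393) (nat_lit 301)) (XT.nd (nat_lit 78) (nat_lit 684) (nat_lit 0) (XT.lf (nat_lit 0) (nat_lit 5182027460) (nat_lit 684) (nat_lit 2281874712) (nat_lit 760) (nat_lit 2642715658) (nat_lit 287) (nat_lit 5) (nat_lit 296) (nat_lit 5) (nat_lit 297) (nat_lit 5) (nat_lit 447) (nat_lit 393) (nat_lit 300)) (XT.lf (nat_lit 0) (nat_lit 1180927973) (nat_lit 684) (nat_lit 8686501195) (nat_lit 760) (nat_lit 343562444) (nat_lit 278) (nat_lit 5) (nat_lit 287) (nat_lit 5) (nat_lit 288) (nat_lit 5) (nat_lit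 448) (nat_lit 393) (nat_lit 299))))) (XT.nd (nat_lit 234) (nat_lit 1292) (nat_lit 0) (XT.nd (nat_lit 78) (nat_lit 684) (nat_lit 0) (XT.lf (nat_lit 0) (nat_lit 1999736764) (nat_lit 760) (nat_lit 2898458452) (nat_lit 76) (nat_lit 5418515204) (nat_lit 277) (nat_lit 5) (nat_lit 287) (nat_lit 5) (nat_lit 278) (nat_lit 5) (nat_lit 449) (nat_lit 393) (nat_lit 298)) (XT.nd (nat_lit 78) (nat_lit 0) (nat_lit 0) (XT.lf (nat_lit 0) (nat_lit 3369607212) (nat_lit 684) (nat_lit 1014083068) (nat_lit 760) (nat_lit 6040845763) (nat_lit 268) (nat_lit 5) (nat_lit 277) (nat_lit 5) (nat_lit 278) (nat_lit 5) (nat_lit 450) (nat_lit 393) (nat_lit 297)) (XT.lf (nat_lit 0) (nat_lit 6830795981) (nat_lit 760) (nat_lit 779416850) (nat_lit 76) (nat_lit 2924001405) (nat_lit 268) (nat_lit 5) (nat_lit 278) (nat_lit 5) (nat_lit 269) (nat_lit 5) (nat_lit 451) (nat_lit 393) (nat_lit 296)))) (XT.nd (nat_lit 78) (nat_lit 684) (nat_lit 0) (XT.lf (nat_lit 0) (nat_lit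 5661351064) (nat_lit 608) (nat_lit 3686177157) (nat_lit 684) (nat_lit 1298149495) (nat_lit 260) (nat_lit 5) (nat_lit 268) (nat_lit 5) (nat_lit 269) (nat_lit 5) (nat_lit 452) (nat_lit 393) (nat_lit 295)) (XT.nd (nat_lit 78) (nat_lit 0) (nat_lit 0) (XT.lf (nat_lit 0) (nat_lit 1134349008) (nat_lit 684) (nat_lit 9295537261) (nat_lit 76) (nat_lit 329453880) (nat_lit 251) (nat_lit 5) (nat_lit 260) (nat_lit 5) (nat_lit 252) (nat_lit 5) (nat_lit 453) (nat_lit 393) (nat_lit 294)) (XT.lf (nat_lit 0) (nat_lit 3633766919) (nat_lit 684) (nat_lit 2827525344) (nat_lit 76) (nat_lit 4413104018) (nat_lit 251) (nat_lit 5) (nat_lit 260) (nat_lit 5) (nat_lit 252) (nat_lit 5) (nat_lit 454) (nat_lit 393) (nat_lit 293))))))))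
noncomputable def xc126 : XT := (XT.nd (nat_lit 1716) (nat_lit 5168) (nat_lit 0) (XT.nd (nat_lit 858) (nat_lit 2964) (nat_lit 0) (XT.nd (nat_lit 390) (nat_lit 2128) (nat_lit 0) (XT.nd (nat_lit 156) (nat_lit 1216) (nat_lit 0) (XT.nd (nat_lit 78) (nat_lit 0) (nat_lit 0) (XT.lf (nat_lit 0) (nat_lit 3791984219) (nat_lit 608) (nat_lit 2393803830) (nat_lit 684) (nat_lit 4805918189) (nat_lit 243) (nat_lit 5) (nat_lit 251) (nat_lit 5) (nat_lit 252) (nat_lit 5) (nat_lit 455) (nat_lit 393) (nat_lit 292)) (XT.lf (nat_lit 0) (nat_lit 8797555802) (nat_lit 684) (nat_lit 568108366) (nat_lit 76) (nat_lit 1745529004) (nat_lit 243) (nat_lit 5) (nat_lit 252) (nat_lit 5) (nat_lit 244) (nat_lit 5) (nat_lit 456) (nat_lit 393) (nat_lit 291))) (XT.nd (nat_lit 78) (nat_lit 532) (nat_lit 0) (XT.lf (nat_lit 0) (nat_lit 260691342) (nat_lit 684) (nat_lit 4999306768) (nat_lit 76) (nat_lit 5972342795) (nat_lit 234) (nat_lit 5) (nat_lit 243) (nat_lit 5) (nat_lit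 235) (nat_lit 5) (nat_lit 457) (nat_lit 393) (nat_lit 290)) (XT.nd (nat_lit 78) (nat_lit 0) (nat_lit 0) (XT.lf (nat_lit 0) (nat_lit 1802985005) (nat_lit 532) (nat_lit 1046851887) (nat_lit 608) (nat_lit 8505887260) (nat_lit 227) (nat_lit 5) (nat_lit 234) (nat_lit 5) (nat_lit 235) (nat_lit 5) (nat_lit 458) (nat_lit 393) (nat_lit 289)) (XT.lf (nat_lit 0) (nat_lit 5524577681) (nat_lit 608) (nat_lit 2720725387) (nat_lit 76) (nat_lit 3235600275) (nat_lit 227) (nat_lit 5) (nat_lit 235) (nat_lit 5) (nat_lit 228) (nat_lit 5) (nat_lit 459) (nat_lit 393) (nat_lit 288))))) (XT.nd (nat_lit 234) (nat_lit 988) (nat_lit 0) (XT.nd (nat_lit 78) (nat_lit 608) (nat_lit 0) (XT.lf (nat_lit 0) (nat_lit 4269954057) (nat_lit 532) (nat_lit 3996865792) (nat_lit 608) (nat_lit 3341490579) (nat_lit 220) (nat_lit 5) (nat_lit 227) (nat_lit 5) (nat_lit 228) (nat_lit 5) (nat_lit 460) (nat_lit 393) (nat_lit 287)) (XT.nd (nat_lit 78) (nat_lit 608) (nat_lit 0)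 (XT.lf (nat_lit 0) (nat_lit 11064009324) (nat_lit 608) (nat_lit 330115196) (nat_lit 76) (nat_lit 344143435) (nat_lit 220) (nat_lit 5) (nat_lit 228) (nat_lit 5) (nat_lit 221) (nat_lit 5) (nat_lit 461) (nat_lit 393) (nat_lit 286)) (XT.lf (nat_lit 0) (nat_lit 2070729995) (nat_lit 608) (nat_lit 5028409359) (nat_lit 76) (nat_lit 4770398744) (nat_lit 212) (nat_lit 5) (nat_lit 220) (nat_lit 5) (nat_lit 213) (nat_lit 5) (nat_lit 462) (nat_lit 393) (nat_lit 285)))) (XT.nd (nat_lit 78) (nat_lit 456) (nat_lit 0) (XT.lf (nat_lit 0) (nat_lit 2153855437) (nat_lit 532) (nat_lit 2703983050) (nat_lit 608) (nat_lit 7145585153) (nat_lit 205) (nat_lit 5) (nat_lit 212) (nat_lit 5) (nat_lit 213) (nat_lit 5) (nat_lit 463) (nat_lit 393) (nat_lit 284)) (XT.nd (nat_lit 78) (nat_lit 456) (nat_lit 0) (XT.lf (nat_lit 0) (nat_lit 7726406886) (nat_lit 608) (nat_lit 2630133585) (nat_lit 76) (nat_lit 1782936087) (nat_lit 205) (nat_lit 5) (nat_lit 213) (nat_lit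 5) (nat_lit 206) (nat_lit 5) (nat_lit 464) (nat_lit 393) (nat_lit 283)) (XT.lf (nat_lit 0) (nat_lit 4751656190) (nat_lit 456) (nat_lit 5930036826) (nat_lit 532) (nat_lit 1595974534) (nat_lit 199) (nat_lit 5) (nat_lit 205) (nat_lit 5) (nat_lit 206) (nat_lit 5) (nat_lit 465) (nat_lit 393) (nat_lit 282)))))) (XT.nd (nat_lit 390) (nat_lit 1368) (nat_lit 0) (XT.nd (nat_lit 156) (nat_lit 988) (nat_lit 0) (XT.nd (nat_lit 78) (nat_lit 532) (nat_lit 0) (XT.lf (nat_lit 0) (nat_lit 1259142183) (nat_lit 532) (nat_lit 136478388) (nat_lit 76) (nat_lit 11022871020) (nat_lit 198) (nat_lit 5) (nat_lit 205) (nat_lit 5) (nat_lit 199) (nat_lit 5) (nat_lit 466) (nat_lit 393) (nat_lit 281)) (XT.lf (nat_lit 0) (nat_lit 4200819630) (nat_lit 608) (nat_lit 5120516118) (nat_lit 76) (nat_lit 3239572521) (nat_lit 191) (nat_lit 5) (nat_lit 199) (nat_lit 5) (nat_lit 192) (nat_lit 5) (nat_lit 467) (nat_lit 393) (nat_lit 280))) (XT.nd (nat_lit 78) (nat_lit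 532) (nat_lit 0) (XT.lf (nat_lit 0) (nat_lit 2461354512) (nat_lit 456) (nat_lit 4747325546) (nat_lit 532) (nat_lit 5497349875) (nat_lit 185) (nat_lit 5) (nat_lit 191) (nat_lit 5) (nat_lit 192) (nat_lit 5) (nat_lit 468) (nat_lit 393) (nat_lit 279)) (XT.nd (nat_lit 78) (nat_lit 532) (nat_lit 0) (XT.lf (nat_lit 0) (nat_lit 10238271541) (nat_lit 456) (nat_lit 54191500) (nat_lit 532) (nat_lit 2561279253) (nat_lit 185) (nat_lit 5) (nat_lit 191) (nat_lit 5) (nat_lit 192) (nat_lit 5) (nat_lit 469) (nat_lit 393) (nat_lit 278)) (XT.lf (nat_lit 0) (nat_lit 474195756) (nat_lit 532) (nat_lit 7828927151) (nat_lit 76) (nat_lit 4700305762) (nat_lit 178) (nat_lit 5) (nat_lit 185) (nat_lit 5) (nat_lit 179) (nat_lit 5) (nat_lit 470) (nat_lit 393) (nat_lit 277))))) (XT.nd (nat_lit 234) (nat_lit 456) (nat_lit 0) (XT.nd (nat_lit 78) (nat_lit 912) (nat_lit 0) (XT.lf (nat_lit 0) (nat_lit 3535933328) (nat_lit 532) (nat_lit 43356022) (nat_lit 76) (nat_lit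 9576487213) (nat_lit 178) (nat_lit 5) (nat_lit 185) (nat_lit 5) (nat_lit 179) (nat_lit 5) (nat_lit 471) (nat_lit 393) (nat_lit 276)) (XT.nd (nat_lit 78) (nat_lit 456) (nat_lit 0) (XT.lf (nat_lit 0) (nat_lit 6701184679) (nat_lit 532) (nat_lit 5341666123) (nat_lit 76) (nat_lit 1267478331) (nat_lit 172) (nat_lit 5) (nat_lit 179) (nat_lit 5) (nat_lit 173) (nat_lit 5) (nat_lit 472) (nat_lit 393) (nat_lit 275)) (XT.lf (nat_lit 0) (nat_lit 2659192488) (nat_lit 456) (nat_lit 7294095220) (nat_lit 532) (nat_lit 3514217345) (nat_lit 166) (nat_lit 5) (nat_lit 172) (nat_lit 5) (nat_lit 173) (nat_lit 5) (nat_lit 473) (nat_lit 393) (nat_lit 274)))) (XT.nd (nat_lit 78) (nat_lit 456) (nat_lit 0) (XT.lf (nat_lit 0) (nat_lit 10867123202) (nat_lit 456) (nat_lit 2421622381) (nat_lit 532) (nat_lit 338715825) (nat_lit 166) (nat_lit 5) (nat_lit 172) (nat_lit 5) (nat_lit 173) (nat_lit 5) (nat_lit 474) (nat_lit 393) (nat_lit 273)) (XT.nd (nat_lit 78)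 (nat_lit 0) (nat_lit 0) (XT.lf (nat_lit 0) (nat_lit 2897364079) (nat_lit 456) (nat_lit 8330231581) (nat_lit 76) (nat_lit 2561945538) (nat_lit 160) (nat_lit 5) (nat_lit 166) (nat_lit 5) (nat_lit 161) (nat_lit 5) (nat_lit 475) (nat_lit 393) (nat_lit 272)) (XT.lf (nat_lit 0) (nat_lit 6211138808) (nat_lit 456) (nat_lit 117346225) (nat_lit 76) (nat_lit 7625985587) (nat_lit 160) (nat_lit 5) (nat_lit 166) (nat_lit 5) (nat_lit 161) (nat_lit 5) (nat_lit 476) (nat_lit 393) (nat_lit 271))))))) (XT.nd (nat_lit 858) (nat_lit 2280) (nat_lit 0) (XT.nd (nat_lit 390) (nat_lit 1596) (nat_lit 0) (XT.nd (nat_lit 156) (nat_lit 456) (nat_lit 0) (XT.nd (nat_lit 78) (nat_lit 380) (nat_lit 0) (XT.lf (nat_lit 0) (nat_lit 8344512540) (nat_lit 456) (nat_lit 1284012604) (nat_lit 532) (nat_lit 4493429694) (nat_lit 154) (nat_lit 5) (nat_lit 160) (nat_lit 5) (nat_lit 161) (nat_lit 5) (nat_lit 477) (nat_lit 393) (nat_lit 270)) (XT.lf (nat_lit 0) (nat_lit 2669515176)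 (nat_lit 380) (nat_lit 10471216947) (nat_lit 456) (nat_lit 1151530030) (nat_lit 149) (nat_lit 5) (nat_lit 154) (nat_lit 5) (nat_lit 155) (nat_lit 5) (nat_lit 478) (nat_lit 393) (nat_lit 269))) (XT.nd (nat_lit 78) (nat_lit 380) (nat_lit 0) (XT.lf (nat_lit 0) (nat_lit 2258466529) (nat_lit 456) (nat_lit 3149796390) (nat_lit 76) (nat_lit 9056805098) (nat_lit 148) (nat_lit 5) (nat_lit 154) (nat_lit 5) (nat_lit 149) (nat_lit 5) (nat_lit 479) (nat_lit 393) (nat_lit 268)) (XT.nd (nat_lit 78) (nat_lit 0) (nat_lit 0) (XT.lf (nat_lit 0) (nat_lit 5533136356) (nat_lit 380) (nat_lit 207706451) (nat_lit 456) (nat_lit 8899945689) (nat_lit 143) (nat_lit 5) (nat_lit 148) (nat_lit 5) (nat_lit 149) (nat_lit 5) (nat_lit 480) (nat_lit 393) (nat_lit 267)) (XT.lf (nat_lit 0) (nat_lit 9331005589) (nat_lit 456) (nat_lit 444940746) (nat_lit 76) (nat_lit 5043316922) (nat_lit 143) (nat_lit 5) (nat_lit 149) (nat_lit 5) (nat_lit 144) (nat_lit 5) (nat_lit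 481) (nat_lit 393) (nat_lit 266))))) (XT.nd (nat_lit 234) (nat_lit 760) (nat_lit 0) (XT.nd (nat_lit 78) (nat_lit 456) (nat_lit 0) (XT.lf (nat_lit 0) (nat_lit 8476772762) (nat_lit 380) (nat_lit 4556699474) (nat_lit 456) (nat_lit 1967027867) (nat_lit 138) (nat_lit 5) (nat_lit 143) (nat_lit 5) (nat_lit 144) (nat_lit 5) (nat_lit 482) (nat_lit 393) (nat_lit 265)) (XT.nd (nat_lit 78) (nat_lit 0) (nat_lit 0) (XT.lf (nat_lit 0) (nat_lit 1611127588) (nat_lit 456) (nat_lit 12795839443) (nat_lit 76) (nat_lit 778030023) (nat_lit 132) (nat_lit 5) (nat_lit 138) (nat_lit 5) (nat_lit 133) (nat_lit 5) (nat_lit 483) (nat_lit 393) (nat_lit 264)) (XT.lf (nat_lit 0) (nat_lit 5293016929) (nat_lit 456) (nat_lit 3871281209) (nat_lit 76) (nat_lit 6207458031) (nat_lit 132) (nat_lit 5) (nat_lit 138) (nat_lit 5) (nat_lit 133) (nat_lit 5) (nat_lit 484) (nat_lit 393) (nat_lit 263)))) (XT.nd (nat_lit 78) (nat_lit 456) (nat_lit 0) (XT.lf (nat_lit 0) (nat_lit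 5277244402) (nat_lit 304) (nat_lit 3790112318) (nat_lit 380) (nat_lit 6494519897) (nat_lit 128) (nat_lit 5) (nat_lit 132) (nat_lit 5) (nat_lit 133) (nat_lit 5) (nat_lit 485) (nat_lit 393) (nat_lit 262)) (XT.nd (nat_lit 78) (nat_lit 456) (nat_lit 0) (XT.lf (nat_lit 0) (nat_lit 12938961796) (nat_lit 380) (nat_lit 1129052158) (nat_lit 76) (nat_lit 1687352304) (nat_lit 128) (nat_lit 5) (nat_lit 133) (nat_lit 5) (nat_lit 129) (nat_lit 5) (nat_lit 486) (nat_lit 393) (nat_lit 261)) (XT.lf (nat_lit 0) (nat_lit 987165311) (nat_lit 456) (nat_lit 7688317557) (nat_lit 76) (nat_lit 7275840473) (nat_lit 122) (nat_lit 5) (nat_lit 128) (nat_lit 5) (nat_lit 123) (nat_lit 5) (nat_lit 487) (nat_lit 393) (nat_lit 260)))))) (XT.nd (nat_lit 468) (nat_lit 912) (nat_lit 0) (XT.nd (nat_lit 234) (nat_lit 684) (nat_lit 0) (XT.nd (nat_lit 78) (nat_lit 380) (nat_lit 0) (XT.lf (nat_lit 0) (nat_lit 1687172268) (nat_lit 304) (nat_lit 3145528713) (nat_lit 380)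 (nat_lit 11318056353) (nat_lit 118) (nat_lit 5) (nat_lit 122) (nat_lit 5) (nat_lit 123) (nat_lit 5) (nat_lit 488) (nat_lit 393) (nat_lit 259)) (XT.nd (nat_lit 78) (nat_lit 380) (nat_lit 0) (XT.lf (nat_lit 0) (nat_lit 8808359795) (nat_lit 380) (nat_lit 5038805976) (nat_lit 76) (nat_lit 2505952164) (nat_lit 118) (nat_lit 5) (nat_lit 123) (nat_lit 5) (nat_lit 119) (nat_lit 5) (nat_lit 489) (nat_lit 393) (nat_lit 258)) (XT.lf (nat_lit 0) (nat_lit 4590801614) (nat_lit 380) (nat_lit 8308739332) (nat_lit 456) (nat_lit 3659266752) (nat_lit 113) (nat_lit 5) (nat_lit 118) (nat_lit 5) (nat_lit 119) (nat_lit 5) (nat_lit 490) (nat_lit 393) (nat_lit 257)))) (XT.nd (nat_lit 78) (nat_lit 608) (nat_lit 0) (XT.lf (nat_lit 0) (nat_lit 319396764) (nat_lit 456) (nat_lit 2311917837) (nat_lit 76) (nat_lit 14136870270) (nat_lit 112) (nat_lit 5) (nat_lit 118) (nat_lit 5) (nat_lit 113) (nat_lit 5) (nat_lit 491) (nat_lit 393) (nat_lit 256)) (XT.nd (nat_lit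 78) (nat_lit 304) (nat_lit 0) (XT.lf (nat_lit 0) (nat_lit 4384605729) (nat_lit 380) (nat_lit 9411548870) (nat_lit 76) (nat_lit 3183993849) (nat_lit 108) (nat_lit 5) (nat_lit 113) (nat_lit 5) (nat_lit 109) (nat_lit 5) (nat_lit 492) (nat_lit 393) (nat_lit 255)) (XT.lf (nat_lit 0) (nat_lit 447648378) (nat_lit 304) (nat_lit 8105197734) (nat_lit 380) (nat_lit 8643072609) (nat_lit 104) (nat_lit 5) (nat_lit 108) (nat_lit 5) (nat_lit 109) (nat_lit 5) (nat_lit 493) (nat_lit 393) (nat_lit 254))))) (XT.nd (nat_lit 234) (nat_lit 532) (nat_lit 0) (XT.nd (nat_lit 78) (nat_lit 380) (nat_lit 0) (XT.lf (nat_lit 0) (nat_lit 10609036134) (nat_lit 304) (nat_lit 2244481900) (nat_lit 380) (nat_lit 4561506963) (nat_lit 104) (nat_lit 5) (nat_lit 108) (nat_lit 5) (nat_lit 109) (nat_lit 5) (nat_lit 494) (nat_lit 393) (nat_lit 253)) (XT.nd (nat_lit 78) (nat_lit 76) (nat_lit 0) (XT.lf (nat_lit 0) (nat_lit 3332250172) (nat_lit 304) (nat_lit 13939961001)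 (nat_lit 380) (nat_lit 365663966) (nat_lit 100) (nat_lit 5) (nat_lit 104) (nat_lit 5) (nat_lit 105) (nat_lit 5) (nat_lit 495) (nat_lit 393) (nat_lit 252)) (XT.lf (nat_lit 0) (nat_lit 3909767666) (nat_lit 380) (nat_lit 4161727084) (nat_lit 76) (nat_lit 9792240979) (nat_lit 99) (nat_lit 5) (nat_lit 104) (nat_lit 5) (nat_lit 100) (nat_lit 5) (nat_lit 496) (nat_lit 393) (nat_lit 251)))) (XT.nd (nat_lit 78) (nat_lit 228) (nat_lit 0) (XT.lf (nat_lit 0) (nat_lit 6242548592) (nat_lit 304) (nat_lit 2050237166) (nat_lit 380) (nat_lit 9800741736) (nat_lit 95) (nat_lit 5) (nat_lit 99) (nat_lit 5) (nat_lit 100) (nat_lit 5) (nat_lit 497) (nat_lit 393) (nat_lit 250)) (XT.nd (nat_lit 78) (nat_lit 228) (nat_lit 0) (XT.lf (nat_lit 0) (nat_lit 12804649633) (nat_lit 380) (nat_lit 1464805219) (nat_lit 76) (nat_lit 4057638284) (nat_lit 95) (nat_lit 5) (nat_lit 100) (nat_lit 5) (nat_lit 96) (nat_lit 5) (nat_lit 498) (nat_lit 393) (nat_lit 249)) (XT.lf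 (nat_lit 0) (nat_lit 9214777046) (nat_lit 228) (nat_lit 8252153160) (nat_lit 304) (nat_lit 1097198013) (nat_lit 92) (nat_lit 5) (nat_lit 95) (nat_lit 5) (nat_lit 96) (nat_lit 5) (nat_lit 499) (nat_lit 393) (nat_lit 248))))))))
noncomputable def xc127 : XT := (XT.nd (nat_lit 52338) (nat_lit 0) (nat_lit 23028) (XT.nd (nat_lit 51480) (nat_lit 0) (nat_lit 39292) (XT.nd (nat_lit 390) (nat_lit 0) (nat_lit 0) (XT.nd (nat_lit 156) (nat_lit 608) (nat_lit 0) (XT.nd (nat_lit 78) (nat_lit 0) (nat_lit 0) (XT.lf (nat_lit 0) (nat_lit 1295213115) (nat_lit 304) (nat_lit 2081639544) (nat_lit 380) (nat_lit 15428507163) (nat_lit 87) (nat_lit 5) (nat_lit 91) (nat_lit 5) (nat_lit 92) (nat_lit 5) (nat_lit 500) (nat_lit 393) (nat_lit 247)) (XT.lf (nat_lit 0) (nat_lit 8003079634) (nat_lit 380) (nat_lit 6827482173) (nat_lit 76) (nat_lit 4219163081) (nat_lit 87) (nat_lit 5) (nat_lit 92) (nat_lit 5) (nat_lit 88) (nat_lit 5) (nat_lit 501) (nat_lit 393)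 (nat_lit 246))) (XT.nd (nat_lit 78) (nat_lit 380) (nat_lit 0) (XT.lf (nat_lit 0) (nat_lit 4087390291) (nat_lit 228) (nat_lit 8661891594) (nat_lit 304) (nat_lit 6549147943) (nat_lit 84) (nat_lit 5) (nat_lit 87) (nat_lit 5) (nat_lit 88) (nat_lit 5) (nat_lit 502) (nat_lit 393) (nat_lit 245)) (XT.nd (nat_lit 78) (nat_lit 380) (nat_lit 0) (XT.lf (nat_lit 0) (nat_lit 15291981909) (nat_lit 228) (nat_lit 2331484510) (nat_lit 304) (nat_lit 1927982836) (nat_lit 84) (nat_lit 5) (nat_lit 87) (nat_lit 5) (nat_lit 88) (nat_lit 5) (nat_lit 503) (nat_lit 393) (nat_lit 244)) (XT.lf (nat_lit 0) (nat_lit 2808842600) (nat_lit 380) (nat_lit 12872170906) (nat_lit 76) (nat_lit 4126959923) (nat_lit 79) (nat_lit 5) (nat_lit 84) (nat_lit 5) (nat_lit 80) (nat_lit 5) (nat_lit 504) (nat_lit 393) (nat_lit 243))))) (XT.nd (nat_lit 50856) (nat_lit 0) (nat_lit 41344) (XT.nd (nat_lit 50700) (nat_lit 0) (nat_lit 42256) (XT.lf (nat_lit 0) (nat_lit 7646292462)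 (nat_lit 380) (nat_lit 1705679343) (nat_lit 76) (nat_lit 10716768796) (nat_lit 79) (nat_lit 5) (nat_lit 84) (nat_lit 5) (nat_lit 80) (nat_lit 5) (nat_lit 505) (nat_lit 393) (nat_lit 242)) (XT.nd (nat_lit 78) (nat_lit 988) (nat_lit 0) (XT.lf (nat_lit 0) (nat_lit 1499372944) (nat_lit 0) (nat_lit 1499372944) (nat_lit 836) (nat_lit 410316617) (nat_lit 648) (nat_lit 5) (nat_lit 648) (nat_lit 3) (nat_lit 659) (nat_lit 3) (nat_lit 394) (nat_lit 394) (nat_lit 352)) (XT.lf (nat_lit 0) (nat_lit 1179883061) (nat_lit 988) (nat_lit 504223289) (nat_lit 988) (nat_lit 5161557458) (nat_lit 635) (nat_lit 3) (nat_lit 648) (nat_lit 3) (nat_lit 648) (nat_lit 5) (nat_lit 395) (nat_lit 394) (nat_lit 351)))) (XT.nd (nat_lit 78) (nat_lit 912) (nat_lit 0) (XT.lf (nat_lit 76) (nat_lit 2882873776) (nat_lit 0) (nat_lit 292871045) (nat_lit 988) (nat_lit 3698594403) (nat_lit 636) (nat_lit 5) (nat_lit 635) (nat_lit 3) (nat_lit 648) (nat_lit 5) (nat_lit 396)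 (nat_lit 394) (nat_lit 350)) (XT.nd (nat_lit 78) (nat_lit 988) (nat_lit 0) (XT.lf (nat_lit 0) (nat_lit 5170854741) (nat_lit 912) (nat_lit 594081547) (nat_lit 988) (nat_lit 1139485637) (nat_lit 636) (nat_lit 5) (nat_lit 648) (nat_lit 5) (nat_lit 649) (nat_lit 5) (nat_lit 397) (nat_lit 394) (nat_lit 349)) (XT.lf (nat_lit 0) (nat_lit 237250784) (nat_lit 988) (nat_lit 4057431494) (nat_lit 1064) (nat_lit 2641007618) (nat_lit 623) (nat_lit 5) (nat_lit 636) (nat_lit 5) (nat_lit 637) (nat_lit 5) (nat_lit 398) (nat_lit 394) (nat_lit 348)))))) (XT.nd (nat_lit 390) (nat_lit 1064) (nat_lit 0) (XT.nd (nat_lit 156) (nat_lit 988) (nat_lit 0) (XT.nd (nat_lit 78) (nat_lit 0) (nat_lit 0) (XT.lf (nat_lit 0) (nat_lit 2178392480) (nat_lit 988) (nat_lit 578645570) (nat_lit 1064) (nat_lit 4211252820) (nat_lit 623) (nat_lit 5) (nat_lit 636) (nat_lit 5) (nat_lit 637) (nat_lit 5) (nat_lit 399) (nat_lit 394) (nat_lit 347)) (XT.lf (nat_lit 76) (nat_lit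 2981631309) (nat_lit 0) (nat_lit 1147148285) (nat_lit 1064) (nat_lit 2873374659) (nat_lit 624) (nat_lit 5) (nat_lit 623) (nat_lit 5) (nat_lit 637) (nat_lit 5) (nat_lit 400) (nat_lit 394) (nat_lit 346))) (XT.nd (nat_lit 78) (nat_lit 1064) (nat_lit 0) (XT.lf (nat_lit 0) (nat_lit 6077281938) (nat_lit 988) (nat_lit 447028304) (nat_lit 1064) (nat_lit 513220982) (nat_lit 624) (nat_lit 5) (nat_lit 637) (nat_lit 5) (nat_lit 638) (nat_lit 5) (nat_lit 401) (nat_lit 394) (nat_lit 345)) (XT.nd (nat_lit 78) (nat_lit 0) (nat_lit 0) (XT.lf (nat_lit 0) (nat_lit 959329523) (nat_lit 1064) (nat_lit 3875525677) (nat_lit 1140) (nat_lit 2239025790) (nat_lit 610) (nat_lit 5) (nat_lit 624) (nat_lit 5) (nat_lit 625) (nat_lit 5) (nat_lit 402) (nat_lit 394) (nat_lit 344)) (XT.lf (nat_lit 0) (nat_lit 2860821400) (nat_lit 1064) (nat_lit 222604393) (nat_lit 1140) (nat_lit 4028294834) (nat_lit 610) (nat_lit 5) (nat_lit 624) (nat_lit 5) (nat_lit 625) (nat_lit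 5) (nat_lit 403) (nat_lit 394) (nat_lit 343))))) (XT.nd (nat_lit 234) (nat_lit 0) (nat_lit 0) (XT.nd (nat_lit 78) (nat_lit 1064) (nat_lit 0) (XT.lf (nat_lit 76) (nat_lit 3522084066) (nat_lit 0) (nat_lit 1255389055) (nat_lit 1140) (nat_lit 2373318399) (nat_lit 611) (nat_lit 5) (nat_lit 610) (nat_lit 5) (nat_lit 625) (nat_lit 5) (nat_lit 404) (nat_lit 394) (nat_lit 342)) (XT.nd (nat_lit 78) (nat_lit 1140) (nat_lit 0) (XT.lf (nat_lit 76) (nat_lit 123387460) (nat_lit 0) (nat_lit 6570427466) (nat_lit 1140) (nat_lit 497618495) (nat_lit 612) (nat_lit 5) (nat_lit 611) (nat_lit 5) (nat_lit 626) (nat_lit 5) (nat_lit 405) (nat_lit 394) (nat_lit 341)) (XT.lf (nat_lit 0) (nat_lit 1385340872) (nat_lit 1140) (nat_lit 3279111418) (nat_lit 1216) (nat_lit 2568501905) (nat_lit 596) (nat_lit 5) (nat_lit 611) (nat_lit 5) (nat_lit 612) (nat_lit 5) (nat_lit 406) (nat_lit 394) (nat_lit 340)))) (XT.nd (nat_lit 78) (nat_lit 0) (nat_lit 0) (XT.lf (nat_lit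 76) (nat_lit 561477514) (nat_lit 0) (nat_lit 2697828965) (nat_lit 1216) (nat_lit 4016748683) (nat_lit 597) (nat_lit 5) (nat_lit 596) (nat_lit 5) (nat_lit 612) (nat_lit 5) (nat_lit 407) (nat_lit 394) (nat_lit 339)) (XT.nd (nat_lit 78) (nat_lit 0) (nat_lit 76) (XT.lf (nat_lit 76) (nat_lit 4495320230) (nat_lit 0) (nat_lit 654468057) (nat_lit 1216) (nat_lit 2170664579) (nat_lit 597) (nat_lit 5) (nat_lit 596) (nat_lit 5) (nat_lit 612) (nat_lit 5) (nat_lit 408) (nat_lit 394) (nat_lit 338)) (XT.lf (nat_lit 76) (nat_lit 1119084379) (nat_lit 0) (nat_lit 5933514200) (nat_lit 1216) (nat_lit 313664721) (nat_lit 598) (nat_lit 5) (nat_lit 597) (nat_lit 5) (nat_lit 613) (nat_lit 5) (nat_lit 409) (nat_lit 394) (nat_lit 337))))))) (XT.nd (nat_lit 858) (nat_lit 9804) (nat_lit 0) (XT.nd (nat_lit 390) (nat_lit 4104) (nat_lit 0) (XT.nd (nat_lit 156) (nat_lit 1216) (nat_lit 0) (XT.nd (nat_lit 78) (nat_lit 0) (nat_lit 0) (XT.lf (nat_lit 0) (nat_lit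 1541486985) (nat_lit 1216) (nat_lit 2275643363) (nat_lit 1292) (nat_lit 3596034128) (nat_lit 581) (nat_lit 5) (nat_lit 597) (nat_lit 5) (nat_lit 598) (nat_lit 5) (nat_lit 410) (nat_lit 394) (nat_lit 336)) (XT.lf (nat_lit 76) (nat_lit 1768208117) (nat_lit 0) (nat_lit 1631957321) (nat_lit 1292) (nat_lit 4061398576) (nat_lit 582) (nat_lit 5) (nat_lit 581) (nat_lit 5) (nat_lit 598) (nat_lit 5) (nat_lit 411) (nat_lit 394) (nat_lit 335))) (XT.nd (nat_lit 78) (nat_lit 1292) (nat_lit 0) (XT.lf (nat_lit 0) (nat_lit 5275102655) (nat_lit 1216) (nat_lit 1619759514) (nat_lit 1292) (nat_lit 616501668) (nat_lit 582) (nat_lit 5) (nat_lit 598) (nat_lit 5) (nat_lit 599) (nat_lit 5) (nat_lit 412) (nat_lit 394) (nat_lit 334)) (XT.nd (nat_lit 78) (nat_lit 1292) (nat_lit 0) (XT.lf (nat_lit 76) (nat_lit 2529300587) (nat_lit 0) (nat_lit 4646092790) (nat_lit 1292) (nat_lit 387022911) (nat_lit 583) (nat_lit 5) (nat_lit 582) (nat_lit 5) (nat_lit 599)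 (nat_lit 5) (nat_lit 413) (nat_lit 394) (nat_lit 333)) (XT.lf (nat_lit 0) (nat_lit 1451423382) (nat_lit 1292) (nat_lit 869498362) (nat_lit 1368) (nat_lit 5293948847) (nat_lit 565) (nat_lit 5) (nat_lit 582) (nat_lit 5) (nat_lit 583) (nat_lit 5) (nat_lit 414) (nat_lit 394) (nat_lit 332))))) (XT.nd (nat_lit 234) (nat_lit 2888) (nat_lit 0) (XT.nd (nat_lit 78) (nat_lit 1292) (nat_lit 0) (XT.lf (nat_lit 0) (nat_lit 3305746817) (nat_lit 1292) (nat_lit 4278070663) (nat_lit 76) (nat_lit 84832459) (nat_lit 566) (nat_lit 5) (nat_lit 583) (nat_lit 5) (nat_lit 567) (nat_lit 5) (nat_lit 415) (nat_lit 394) (nat_lit 331)) (XT.nd (nat_lit 78) (nat_lit 1292) (nat_lit 0) (XT.lf (nat_lit 0) (nat_lit 5180742907) (nat_lit 1292) (nat_lit 19952822) (nat_lit 76) (nat_lit 2523150102) (nat_lit 566) (nat_lit 5) (nat_lit 583) (nat_lit 5) (nat_lit 567) (nat_lit 5) (nat_lit 416) (nat_lit 394) (nat_lit 330)) (XT.lf (nat_lit 0) (nat_lit 4352171190) (nat_lit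 1292) (nat_lit 2732405705) (nat_lit 1368) (nat_lit 695754416) (nat_lit 549) (nat_lit 5) (nat_lit 566) (nat_lit 5) (nat_lit 567) (nat_lit 5) (nat_lit 417) (nat_lit 394) (nat_lit 329)))) (XT.nd (nat_lit 78) (nat_lit 1444) (nat_lit 0) (XT.lf (nat_lit 0) (nat_lit 950260803) (nat_lit 1368) (nat_lit 192366476) (nat_lit 1444) (nat_lit 6695783351) (nat_lit 530) (nat_lit 5) (nat_lit 548) (nat_lit 5) (nat_lit 549) (nat_lit 5) (nat_lit 418) (nat_lit 394) (nat_lit 328)) (XT.nd (nat_lit 78) (nat_lit 1444) (nat_lit 0) (XT.lf (nat_lit 0) (nat_lit 3011152729) (nat_lit 1444) (nat_lit 2483948876) (nat_lit 76) (nat_lit 2402415819) (nat_lit 530) (nat_lit 5) (nat_lit 549) (nat_lit 5) (nat_lit 531) (nat_lit 5) (nat_lit 419) (nat_lit 394) (nat_lit 327)) (XT.lf (nat_lit 0) (nat_lit 2004781964) (nat_lit 1444) (nat_lit 2891217806) (nat_lit 1520) (nat_lit 3062239048) (nat_lit 511) (nat_lit 5) (nat_lit 530) (nat_lit 5) (nat_lit 531) (nat_lit 5) (nat_lit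 420) (nat_lit 394) (nat_lit 326)))))) (XT.nd (nat_lit 468) (nat_lit 4940) (nat_lit 0) (XT.nd (nat_lit 234) (nat_lit 3268) (nat_lit 0) (XT.nd (nat_lit 78) (nat_lit 1596) (nat_lit 0) (XT.lf (nat_lit 0) (nat_lit 6588572730) (nat_lit 1444) (nat_lit 211809013) (nat_lit 1520) (nat_lit 1220167395) (nat_lit 511) (nat_lit 5) (nat_lit 530) (nat_lit 5) (nat_lit 531) (nat_lit 5) (nat_lit 421) (nat_lit 394) (nat_lit 325)) (XT.nd (nat_lit 78) (nat_lit 0) (nat_lit 0) (XT.lf (nat_lit 0) (nat_lit 653001950) (nat_lit 1596) (nat_lit 4911691804) (nat_lit 76) (nat_lit 2519279276) (nat_lit 490) (nat_lit 5) (nat_lit 511) (nat_lit 5) (nat_lit 491) (nat_lit 5) (nat_lit 422) (nat_lit 394) (nat_lit 324)) (XT.lf (nat_lit 0) (nat_lit 2524532123) (nat_lit 1596) (nat_lit 298821634) (nat_lit 76) (nat_lit 5325616234) (nat_lit 490) (nat_lit 5) (nat_lit 511) (nat_lit 5) (nat_lit 491) (nat_lit 5) (nat_lit 423) (nat_lit 394) (nat_lit 323)))) (XT.nd (nat_lit 78)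 (nat_lit 1672) (nat_lit 0) (XT.lf (nat_lit 0) (nat_lit 4429150322) (nat_lit 1672) (nat_lit 3779194443) (nat_lit 76) (nat_lit 7019382) (nat_lit 469) (nat_lit 5) (nat_lit 491) (nat_lit 5) (nat_lit 470) (nat_lit 5) (nat_lit 424) (nat_lit 394) (nat_lit 322)) (XT.nd (nat_lit 78) (nat_lit 0) (nat_lit 0) (XT.lf (nat_lit 0) (nat_lit 951858512) (nat_lit 1672) (nat_lit 5414205672) (nat_lit 1748) (nat_lit 1917148131) (nat_lit 447) (nat_lit 5) (nat_lit 469) (nat_lit 5) (nat_lit 470) (nat_lit 5) (nat_lit 425) (nat_lit 394) (nat_lit 321)) (XT.lf (nat_lit 0) (nat_lit 5800170150) (nat_lit 1672) (nat_lit 2534668935) (nat_lit 1748) (nat_lit 17725905) (nat_lit 447) (nat_lit 5) (nat_lit 469) (nat_lit 5) (nat_lit 470) (nat_lit 5) (nat_lit 426) (nat_lit 394) (nat_lit 320))))) (XT.nd (nat_lit 234) (nat_lit 1824) (nat_lit 0) (XT.nd (nat_lit 78) (nat_lit 1292) (nat_lit 0) (XT.lf (nat_lit 0) (nat_lit 1880508058) (nat_lit 1824) (nat_lit 6114684861) (nat_lit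 76) (nat_lit 428152126) (nat_lit 423) (nat_lit 5) (nat_lit 447) (nat_lit 5) (nat_lit 424) (nat_lit 5) (nat_lit 427) (nat_lit 394) (nat_lit 319)) (XT.nd (nat_lit 78) (nat_lit 1292) (nat_lit 0) (XT.lf (nat_lit 0) (nat_lit 3819132926) (nat_lit 1824) (nat_lit 1239612487) (nat_lit 76) (nat_lit 3436749094) (nat_lit 423) (nat_lit 5) (nat_lit 447) (nat_lit 5) (nat_lit 424) (nat_lit 5) (nat_lit 428) (nat_lit 394) (nat_lit 318)) (XT.lf (nat_lit 0) (nat_lit 3753828436) (nat_lit 1292) (nat_lit 2036325298) (nat_lit 1368) (nat_lit 2779069991) (nat_lit 406) (nat_lit 5) (nat_lit 423) (nat_lit 5) (nat_lit 424) (nat_lit 5) (nat_lit 429) (nat_lit 394) (nat_lit 317)))) (XT.nd (nat_lit 78) (nat_lit 912) (nat_lit 0) (XT.lf (nat_lit 0) (nat_lit 186467894) (nat_lit 912) (nat_lit 7600191161) (nat_lit 988) (nat_lit 858056245) (nat_lit 394) (nat_lit 5) (nat_lit 406) (nat_lit 5) (nat_lit 407) (nat_lit 5) (nat_lit 430) (nat_lit 394) (nat_lit 316)) (XT.nd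 (nat_lit 78) (nat_lit 836) (nat_lit 0) (XT.lf (nat_lit 0) (nat_lit 1102833255) (nat_lit 988) (nat_lit 3417305993) (nat_lit 76) (nat_lit 4201125140) (nat_lit 393) (nat_lit 5) (nat_lit 406) (nat_lit 5) (nat_lit 394) (nat_lit 5) (nat_lit 431) (nat_lit 394) (nat_lit 315)) (XT.lf (nat_lit 0) (nat_lit 1712776916) (nat_lit 836) (nat_lit 1360282748) (nat_lit 912) (nat_lit 5726547722) (nat_lit 382) (nat_lit 5) (nat_lit 393) (nat_lit 5) (nat_lit 394) (nat_lit 5) (nat_lit 432) (nat_lit 394) (nat_lit 314))))))))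
noncomputable def xc128 : XT := (XT.nd (nat_lit 1716) (nat_lit 6916) (nat_lit 0) (XT.nd (nat_lit 858) (nat_lit 4940) (nat_lit 0) (XT.nd (nat_lit 390) (nat_lit 2356) (nat_lit 0) (XT.nd (nat_lit 156) (nat_lit 1748) (nat_lit 0) (XT.nd (nat_lit 78) (nat_lit 912) (nat_lit 0) (XT.lf (nat_lit 0) (nat_lit 5088746887) (nat_lit 912) (nat_lit 1928388317) (nat_lit 76) (nat_lit 1862269279) (nat_lit 382) (nat_lit 5) (nat_lit 394) (nat_lit 5) (nat_lit 383) (nat_lit 5) (nat_lit 433) (nat_lit 394) (nat_lit 313)) (XT.lf (nat_lit 0) (nat_lit 3339713690) (nat_lit 912) (nat_lit 3807175463) (nat_lit 988) (nat_lit 1813873745) (nat_lit 370) (nat_lit 5) (nat_lit 382) (nat_lit 5) (nat_lit 383) (nat_lit 5) (nat_lit 434) (nat_lit 394) (nat_lit 312))) (XT.nd (nat_lit 78) (nat_lit 1672) (nat_lit 0) (XT.lf (nat_lit 0) (nat_lit 184448800) (nat_lit 988) (nat_lit 334072356) (nat_lit 76) (nat_lit 8525515756) (nat_lit 369) (nat_lit 5) (nat_lit 382) (nat_lit 5)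 (nat_lit 370) (nat_lit 5) (nat_lit 435) (nat_lit 394) (nat_lit 311)) (XT.nd (nat_lit 78) (nat_lit 836) (nat_lit 0) (XT.lf (nat_lit 0) (nat_lit 2222388555) (nat_lit 912) (nat_lit 4061963650) (nat_lit 76) (nat_lit 2843913367) (nat_lit 358) (nat_lit 5) (nat_lit 370) (nat_lit 5) (nat_lit 359) (nat_lit 5) (nat_lit 436) (nat_lit 394) (nat_lit 310)) (XT.lf (nat_lit 0) (nat_lit 1351036514) (nat_lit 836) (nat_lit 2937064237) (nat_lit 912) (nat_lit 4926345357) (nat_lit 347) (nat_lit 5) (nat_lit 358) (nat_lit 5) (nat_lit 359) (nat_lit 5) (nat_lit 437) (nat_lit 394) (nat_lit 309))))) (XT.nd (nat_lit 234) (nat_lit 1520) (nat_lit 0) (XT.nd (nat_lit 78) (nat_lit 836) (nat_lit 0) (XT.lf (nat_lit 0) (nat_lit 6398563880) (nat_lit 912) (nat_lit 2406394337) (nat_lit 76) (nat_lit 497330733) (nat_lit 347) (nat_lit 5) (nat_lit 359) (nat_lit 5) (nat_lit 348) (nat_lit 5) (nat_lit 438) (nat_lit 394) (nat_lit 308)) (XT.nd (nat_lit 78) (nat_lit 76) (nat_lit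 0) (XT.lf (nat_lit 0) (nat_lit 3153563858) (nat_lit 760) (nat_lit 5411029722) (nat_lit 836) (nat_lit 827035205) (nat_lit 337) (nat_lit 5) (nat_lit 347) (nat_lit 5) (nat_lit 348) (nat_lit 5) (nat_lit 439) (nat_lit 394) (nat_lit 307)) (XT.lf (nat_lit 0) (nat_lit 1264099847) (nat_lit 836) (nat_lit 661861349) (nat_lit 76) (nat_lit 7556836644) (nat_lit 336) (nat_lit 5) (nat_lit 347) (nat_lit 5) (nat_lit 337) (nat_lit 5) (nat_lit 440) (nat_lit 394) (nat_lit 306)))) (XT.nd (nat_lit 78) (nat_lit 760) (nat_lit 0) (XT.lf (nat_lit 0) (nat_lit 3403765913) (nat_lit 836) (nat_lit 4527351310) (nat_lit 76) (nat_lit 1644214935) (nat_lit 326) (nat_lit 5) (nat_lit 337) (nat_lit 5) (nat_lit 327) (nat_lit 5) (nat_lit 441) (nat_lit 394) (nat_lit 305)) (XT.nd (nat_lit 78) (nat_lit 0) (nat_lit 0) (XT.lf (nat_lit 0) (nat_lit 1186087419) (nat_lit 760) (nat_lit 4399488593) (nat_lit 836) (nat_lit 4084160865) (nat_lit 316) (nat_lit 5) (nat_lit 326) (nat_lit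 5) (nat_lit 327) (nat_lit 5) (nat_lit 442) (nat_lit 394) (nat_lit 304)) (XT.lf (nat_lit 0) (nat_lit 7047301418) (nat_lit 760) (nat_lit 768846671) (nat_lit 836) (nat_lit 1949785682) (nat_lit 316) (nat_lit 5) (nat_lit 326) (nat_lit 5) (nat_lit 327) (nat_lit 5) (nat_lit 443) (nat_lit 394) (nat_lit 303)))))) (XT.nd (nat_lit 390) (nat_lit 2736) (nat_lit 0) (XT.nd (nat_lit 156) (nat_lit 1368) (nat_lit 0) (XT.nd (nat_lit 78) (nat_lit 0) (nat_lit 0) (XT.lf (nat_lit 0) (nat_lit 239155544) (nat_lit 836) (nat_lit 6709113343) (nat_lit 76) (nat_lit 2915465356) (nat_lit 305) (nat_lit 5) (nat_lit 316) (nat_lit 5) (nat_lit 306) (nat_lit 5) (nat_lit 444) (nat_lit 394) (nat_lit 302)) (XT.lf (nat_lit 0) (nat_lit 2444609990) (nat_lit 836) (nat_lit 827012283) (nat_lit 76) (nat_lit 6691640066) (nat_lit 305) (nat_lit 5) (nat_lit 316) (nat_lit 5) (nat_lit 306) (nat_lit 5) (nat_lit 445) (nat_lit 394) (nat_lit 301))) (XT.nd (nat_lit 78) (nat_lit 684)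 (nat_lit 0) (XT.lf (nat_lit 0) (nat_lit 4707179305) (nat_lit 760) (nat_lit 4854198226) (nat_lit 76) (nat_lit 503149444) (nat_lit 296) (nat_lit 5) (nat_lit 306) (nat_lit 5) (nat_lit 297) (nat_lit 5) (nat_lit 446) (nat_lit 394) (nat_lit 300)) (XT.nd (nat_lit 78) (nat_lit 0) (nat_lit 0) (XT.lf (nat_lit 0) (nat_lit 1177982053) (nat_lit 684) (nat_lit 5848038785) (nat_lit 760) (nat_lit 3141581623) (nat_lit 287) (nat_lit 5) (nat_lit 296) (nat_lit 5) (nat_lit 297) (nat_lit 5) (nat_lit 447) (nat_lit 394) (nat_lit 299)) (XT.lf (nat_lit 0) (nat_lit 7369102682) (nat_lit 684) (nat_lit 2031120193) (nat_lit 760) (nat_lit 872342764) (nat_lit 287) (nat_lit 5) (nat_lit 296) (nat_lit 5) (nat_lit 297) (nat_lit 5) (nat_lit 448) (nat_lit 394) (nat_lit 298))))) (XT.nd (nat_lit 234) (nat_lit 1292) (nat_lit 0) (XT.nd (nat_lit 78) (nat_lit 684) (nat_lit 0) (XT.lf (nat_lit 0) (nat_lit 1433845485) (nat_lit 760) (nat_lit 7080549502) (nat_lit 76) (nat_lit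 1864841832) (nat_lit 277) (nat_lit 5) (nat_lit 287) (nat_lit 5) (nat_lit 278) (nat_lit 5) (nat_lit 449) (nat_lit 394) (nat_lit 297)) (XT.nd (nat_lit 78) (nat_lit 684) (nat_lit 0) (XT.lf (nat_lit 0) (nat_lit 3784518928) (nat_lit 760) (nat_lit 870309816) (nat_lit 76) (nat_lit 5832902033) (nat_lit 277) (nat_lit 5) (nat_lit 287) (nat_lit 5) (nat_lit 278) (nat_lit 5) (nat_lit 450) (nat_lit 394) (nat_lit 296)) (XT.lf (nat_lit 0) (nat_lit 5509392703) (nat_lit 684) (nat_lit 686002646) (nat_lit 760) (nat_lit 4402740885) (nat_lit 268) (nat_lit 5) (nat_lit 277) (nat_lit 5) (nat_lit 278) (nat_lit 5) (nat_lit 451) (nat_lit 394) (nat_lit 295)))) (XT.nd (nat_lit 78) (nat_lit 684) (nat_lit 0) (XT.lf (nat_lit 0) (nat_lit 1285602861) (nat_lit 608) (nat_lit 7382600203) (nat_lit 684) (nat_lit 2042277766) (nat_lit 260) (nat_lit 5) (nat_lit 268) (nat_lit 5) (nat_lit 269) (nat_lit 5) (nat_lit 452) (nat_lit 394) (nat_lit 294)) (XT.nd (nat_lit 78) (nat_lit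 608) (nat_lit 0) (XT.lf (nat_lit 0) (nat_lit 377288990) (nat_lit 684) (nat_lit 3002480109) (nat_lit 76) (nat_lit 7444927139) (nat_lit 259) (nat_lit 5) (nat_lit 268) (nat_lit 5) (nat_lit 260) (nat_lit 5) (nat_lit 453) (nat_lit 394) (nat_lit 293)) (XT.lf (nat_lit 0) (nat_lit 2823985554) (nat_lit 684) (nat_lit 7391047320) (nat_lit 76) (nat_lit 725776399) (nat_lit 251) (nat_lit 5) (nat_lit 260) (nat_lit 5) (nat_lit 252) (nat_lit 5) (nat_lit 454) (nat_lit 394) (nat_lit 292))))))) (XT.nd (nat_lit 858) (nat_lit 3420) (nat_lit 0) (XT.nd (nat_lit 390) (nat_lit 1672) (nat_lit 0) (XT.nd (nat_lit 156) (nat_lit 1216) (nat_lit 0) (XT.nd (nat_lit 78) (nat_lit 608) (nat_lit 0) (XT.lf (nat_lit 0) (nat_lit 5340706538) (nat_lit 684) (nat_lit 834663413) (nat_lit 76) (nat_lit 4883457708) (nat_lit 251) (nat_lit 5) (nat_lit 260) (nat_lit 5) (nat_lit 252) (nat_lit 5) (nat_lit 455) (nat_lit 394) (nat_lit 291)) (XT.lf (nat_lit 0) (nat_lit 5903753365)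 (nat_lit 608) (nat_lit 2021188933) (nat_lit 684) (nat_lit 3253925312) (nat_lit 243) (nat_lit 5) (nat_lit 251) (nat_lit 5) (nat_lit 252) (nat_lit 5) (nat_lit 456) (nat_lit 394) (nat_lit 290))) (XT.nd (nat_lit 78) (nat_lit 608) (nat_lit 0) (XT.lf (nat_lit 0) (nat_lit 1465109452) (nat_lit 608) (nat_lit 9104349725) (nat_lit 684) (nat_lit 731681966) (nat_lit 235) (nat_lit 5) (nat_lit 243) (nat_lit 5) (nat_lit 244) (nat_lit 5) (nat_lit 457) (nat_lit 394) (nat_lit 289)) (XT.nd (nat_lit 78) (nat_lit 532) (nat_lit 0) (XT.lf (nat_lit 0) (nat_lit 1845033796) (nat_lit 684) (nat_lit 3065924081) (nat_lit 76) (nat_lit 6514104283) (nat_lit 234) (nat_lit 5) (nat_lit 243) (nat_lit 5) (nat_lit 235) (nat_lit 5) (nat_lit 458) (nat_lit 394) (nat_lit 288)) (XT.lf (nat_lit 0) (nat_lit 3859036100) (nat_lit 532) (nat_lit 609077974) (nat_lit 608) (nat_lit 7083162686) (nat_lit 227) (nat_lit 5) (nat_lit 234) (nat_lit 5) (nat_lit 235) (nat_lit 5) (nat_lit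 459) (nat_lit 394) (nat_lit 287))))) (XT.nd (nat_lit 234) (nat_lit 532) (nat_lit 0) (XT.nd (nat_lit 78) (nat_lit 1140) (nat_lit 0) (XT.lf (nat_lit 0) (nat_lit 7168656196) (nat_lit 608) (nat_lit 766733019) (nat_lit 76) (nat_lit 3744130784) (nat_lit 227) (nat_lit 5) (nat_lit 235) (nat_lit 5) (nat_lit 228) (nat_lit 5) (nat_lit 460) (nat_lit 394) (nat_lit 286)) (XT.nd (nat_lit 78) (nat_lit 608) (nat_lit 0) (XT.lf (nat_lit 0) (nat_lit 6350546811) (nat_lit 532) (nat_lit 3598080184) (nat_lit 608) (nat_lit 1861197019) (nat_lit 220) (nat_lit 5) (nat_lit 227) (nat_lit 5) (nat_lit 228) (nat_lit 5) (nat_lit 461) (nat_lit 394) (nat_lit 285)) (XT.lf (nat_lit 0) (nat_lit 832141218) (nat_lit 608) (nat_lit 10279940446) (nat_lit 76) (nat_lit 830512997) (nat_lit 212) (nat_lit 5) (nat_lit 220) (nat_lit 5) (nat_lit 213) (nat_lit 5) (nat_lit 462) (nat_lit 394) (nat_lit 284)))) (XT.nd (nat_lit 78) (nat_lit 532) (nat_lit 0) (XT.lf (nat_lit 0) (nat_lit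 3595571121) (nat_lit 608) (nat_lit 3138929003) (nat_lit 76) (nat_lit 5342455641) (nat_lit 212) (nat_lit 5) (nat_lit 220) (nat_lit 5) (nat_lit 213) (nat_lit 5) (nat_lit 463) (nat_lit 394) (nat_lit 283)) (XT.nd (nat_lit 78) (nat_lit 0) (nat_lit 0) (XT.lf (nat_lit 0) (nat_lit 4173888665) (nat_lit 532) (nat_lit 2248282034) (nat_lit 608) (nat_lit 5791679312) (nat_lit 205) (nat_lit 5) (nat_lit 212) (nat_lit 5) (nat_lit 213) (nat_lit 5) (nat_lit 464) (nat_lit 394) (nat_lit 282)) (XT.lf (nat_lit 0) (nat_lit 9322587256) (nat_lit 608) (nat_lit 718728035) (nat_lit 76) (nat_lit 2311825017) (nat_lit 205) (nat_lit 5) (nat_lit 213) (nat_lit 5) (nat_lit 206) (nat_lit 5) (nat_lit 465) (nat_lit 394) (nat_lit 281)))))) (XT.nd (nat_lit 390) (nat_lit 1900) (nat_lit 0) (XT.nd (nat_lit 156) (nat_lit 456) (nat_lit 0) (XT.nd (nat_lit 78) (nat_lit 608) (nat_lit 0) (XT.lf (nat_lit 0) (nat_lit 6797776430) (nat_lit 456) (nat_lit 5523602739) (nat_lit 532)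 (nat_lit 173033688) (nat_lit 199) (nat_lit 5) (nat_lit 205) (nat_lit 5) (nat_lit 206) (nat_lit 5) (nat_lit 466) (nat_lit 394) (nat_lit 280)) (XT.lf (nat_lit 0) (nat_lit 1816427803) (nat_lit 532) (nat_lit 887317719) (nat_lit 608) (nat_lit 9934451637) (nat_lit 191) (nat_lit 5) (nat_lit 198) (nat_lit 5) (nat_lit 199) (nat_lit 5) (nat_lit 467) (nat_lit 394) (nat_lit 279))) (XT.nd (nat_lit 78) (nat_lit 456) (nat_lit 0) (XT.lf (nat_lit 0) (nat_lit 5680741775) (nat_lit 608) (nat_lit 3279121724) (nat_lit 76) (nat_lit 3824074375) (nat_lit 191) (nat_lit 5) (nat_lit 199) (nat_lit 5) (nat_lit 192) (nat_lit 5) (nat_lit 468) (nat_lit 394) (nat_lit 278)) (XT.nd (nat_lit 78) (nat_lit 0) (nat_lit 0) (XT.lf (nat_lit 0) (nat_lit 4441598130) (nat_lit 456) (nat_lit 4292328021) (nat_lit 532) (nat_lit 4198337789) (nat_lit 185) (nat_lit 5) (nat_lit 191) (nat_lit 5) (nat_lit 192) (nat_lit 5) (nat_lit 469) (nat_lit 394) (nat_lit 277)) (XT.lf (nat_lit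 0) (nat_lit 11855446647) (nat_lit 532) (nat_lit 750428619) (nat_lit 76) (nat_lit 477539243) (nat_lit 185) (nat_lit 5) (nat_lit 192) (nat_lit 5) (nat_lit 186) (nat_lit 5) (nat_lit 470) (nat_lit 394) (nat_lit 276))))) (XT.nd (nat_lit 234) (nat_lit 912) (nat_lit 0) (XT.nd (nat_lit 78) (nat_lit 456) (nat_lit 0) (XT.lf (nat_lit 0) (nat_lit 1836067024) (nat_lit 532) (nat_lit 6062902457) (nat_lit 76) (nat_lit 5337230165) (nat_lit 178) (nat_lit 5) (nat_lit 185) (nat_lit 5) (nat_lit 179) (nat_lit 5) (nat_lit 471) (nat_lit 394) (nat_lit 275)) (XT.nd (nat_lit 78) (nat_lit 0) (nat_lit 0) (XT.lf (nat_lit 0) (nat_lit 1865143686) (nat_lit 456) (nat_lit 3079488012) (nat_lit 532) (nat_lit 8447255852) (nat_lit 172) (nat_lit 5) (nat_lit 178) (nat_lit 5) (nat_lit 179) (nat_lit 5) (nat_lit 472) (nat_lit 394) (nat_lit 274)) (XT.lf (nat_lit 0) (nat_lit 8150877388) (nat_lit 532) (nat_lit 3553153225) (nat_lit 76) (nat_lit 1845951573) (nat_lit 172) (nat_lit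 5) (nat_lit 179) (nat_lit 5) (nat_lit 173) (nat_lit 5) (nat_lit 473) (nat_lit 394) (nat_lit 273)))) (XT.nd (nat_lit 78) (nat_lit 456) (nat_lit 0) (XT.lf (nat_lit 0) (nat_lit 4595253175) (nat_lit 456) (nat_lit 6859196757) (nat_lit 532) (nat_lit 2256127854) (nat_lit 166) (nat_lit 5) (nat_lit 172) (nat_lit 5) (nat_lit 173) (nat_lit 5) (nat_lit 474) (nat_lit 394) (nat_lit 272)) (XT.nd (nat_lit 78) (nat_lit 380) (nat_lit 0) (XT.lf (nat_lit 0) (nat_lit 944288058) (nat_lit 532) (nat_lit 950037583) (nat_lit 76) (nat_lit 11979798621) (nat_lit 165) (nat_lit 5) (nat_lit 172) (nat_lit 5) (nat_lit 166) (nat_lit 5) (nat_lit 475) (nat_lit 394) (nat_lit 271)) (XT.lf (nat_lit 0) (nat_lit 4231134307) (nat_lit 456) (nat_lit 6623926027) (nat_lit 76) (nat_lit 3184533370) (nat_lit 160) (nat_lit 5) (nat_lit 166) (nat_lit 5) (nat_lit 161) (nat_lit 5) (nat_lit 476) (nat_lit 394) (nat_lit 270))))))))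
noncomputable def xc129 : XT := (XT.nd (nat_lit 1716) (nat_lit 1216) (nat_lit 0) (XT.nd (nat_lit 858) (nat_lit 2128) (nat_lit 0) (XT.nd (nat_lit 390) (nat_lit 1520) (nat_lit 0) (XT.nd (nat_lit 156) (nat_lit 836) (nat_lit 0) (XT.nd (nat_lit 78) (nat_lit 0) (nat_lit 0) (XT.lf (nat_lit 0) (nat_lit 1739304598) (nat_lit 456) (nat_lit 5858156515) (nat_lit 532) (nat_lit 6610639421) (nat_lit 154) (nat_lit 5) (nat_lit 160) (nat_lit 5) (nat_lit 161) (nat_lit 5) (nat_lit 477) (nat_lit 394) (nat_lit 269)) (XT.lf (nat_lit 0) (nat_lit 10335509073) (nat_lit 456) (nat_lit 723711068) (nat_lit 532) (nat_lit 3320198060) (nat_lit 154) (nat_lit 5) (nat_lit 160) (nat_lit 5) (nat_lit 161) (nat_lit 5) (nat_lit 478) (nat_lit 394) (nat_lit 268))) (XT.nd (nat_lit 78) (nat_lit 380) (nat_lit 0) (XT.lf (nat_lit 0) (nat_lit 78671981) (nat_lit 456) (nat_lit 9997783393) (nat_lit 76) (nat_lit 4476843018) (nat_lit 148) (nat_lit 5) (nat_lit 154) (nat_lit 5) (nat_lit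 149) (nat_lit 5) (nat_lit 479) (nat_lit 394) (nat_lit 267)) (XT.nd (nat_lit 78) (nat_lit 380) (nat_lit 0) (XT.lf (nat_lit 0) (nat_lit 3517192761) (nat_lit 456) (nat_lit 1399270261) (nat_lit 76) (nat_lit 9813434273) (nat_lit 148) (nat_lit 5) (nat_lit 154) (nat_lit 5) (nat_lit 149) (nat_lit 5) (nat_lit 480) (nat_lit 394) (nat_lit 266)) (XT.lf (nat_lit 0) (nat_lit 7059639372) (nat_lit 456) (nat_lit 7466508929) (nat_lit 76) (nat_lit 383179366) (nat_lit 143) (nat_lit 5) (nat_lit 149) (nat_lit 5) (nat_lit 144) (nat_lit 5) (nat_lit 481) (nat_lit 394) (nat_lit 265))))) (XT.nd (nat_lit 234) (nat_lit 684) (nat_lit 0) (XT.nd (nat_lit 78) (nat_lit 456) (nat_lit 0) (XT.lf (nat_lit 0) (nat_lit 1350063543) (nat_lit 380) (nat_lit 9358048496) (nat_lit 456) (nat_lit 4383533614) (nat_lit 138) (nat_lit 5) (nat_lit 143) (nat_lit 5) (nat_lit 144) (nat_lit 5) (nat_lit 482) (nat_lit 394) (nat_lit 264)) (XT.nd (nat_lit 78) (nat_lit 456) (nat_lit 0)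 (XT.lf (nat_lit 0) (nat_lit 10420753701) (nat_lit 380) (nat_lit 4043458691) (nat_lit 456) (nat_lit 812706943) (nat_lit 138) (nat_lit 5) (nat_lit 143) (nat_lit 5) (nat_lit 144) (nat_lit 5) (nat_lit 483) (nat_lit 394) (nat_lit 263)) (XT.lf (nat_lit 0) (nat_lit 2813779476) (nat_lit 456) (nat_lit 11253710959) (nat_lit 76) (nat_lit 1397615972) (nat_lit 132) (nat_lit 5) (nat_lit 138) (nat_lit 5) (nat_lit 133) (nat_lit 5) (nat_lit 484) (nat_lit 394) (nat_lit 262)))) (XT.nd (nat_lit 78) (nat_lit 684) (nat_lit 0) (XT.lf (nat_lit 0) (nat_lit 6546357008) (nat_lit 456) (nat_lit 2185917350) (nat_lit 76) (nat_lit 6923788906) (nat_lit 132) (nat_lit 5) (nat_lit 138) (nat_lit 5) (nat_lit 133) (nat_lit 5) (nat_lit 485) (nat_lit 394) (nat_lit 261)) (XT.nd (nat_lit 78) (nat_lit 380) (nat_lit 0) (XT.lf (nat_lit 0) (nat_lit 7133981474) (nat_lit 304) (nat_lit 3251072419) (nat_lit 380) (nat_lit 5465158320) (nat_lit 128) (nat_lit 5) (nat_lit 132) (nat_lit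 5) (nat_lit 133) (nat_lit 5) (nat_lit 486) (nat_lit 394) (nat_lit 260)) (XT.lf (nat_lit 0) (nat_lit 591518947) (nat_lit 380) (nat_lit 13728044973) (nat_lit 456) (nat_lit 1728301700) (nat_lit 123) (nat_lit 5) (nat_lit 128) (nat_lit 5) (nat_lit 129) (nat_lit 5) (nat_lit 487) (nat_lit 394) (nat_lit 259)))))) (XT.nd (nat_lit 390) (nat_lit 1292) (nat_lit 0) (XT.nd (nat_lit 156) (nat_lit 456) (nat_lit 0) (XT.nd (nat_lit 78) (nat_lit 304) (nat_lit 0) (XT.lf (nat_lit 0) (nat_lit 2121661700) (nat_lit 456) (nat_lit 6103127378) (nat_lit 76) (nat_lit 8023100824) (nat_lit 122) (nat_lit 5) (nat_lit 128) (nat_lit 5) (nat_lit 123) (nat_lit 5) (nat_lit 488) (nat_lit 394) (nat_lit 258)) (XT.lf (nat_lit 0) (nat_lit 3448431741) (nat_lit 304) (nat_lit 2585034620) (nat_lit 380) (nat_lit 10418062281) (nat_lit 118) (nat_lit 5) (nat_lit 122) (nat_lit 5) (nat_lit 123) (nat_lit 5) (nat_lit 489) (nat_lit 394) (nat_lit 257))) (XT.nd (nat_lit 78) (nat_lit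 456) (nat_lit 0) (XT.lf (nat_lit 0) (nat_lit 10070957300) (nat_lit 380) (nat_lit 3428099439) (nat_lit 76) (nat_lit 3159236505) (nat_lit 118) (nat_lit 5) (nat_lit 123) (nat_lit 5) (nat_lit 119) (nat_lit 5) (nat_lit 490) (nat_lit 394) (nat_lit 256)) (XT.nd (nat_lit 78) (nat_lit 76) (nat_lit 0) (XT.lf (nat_lit 0) (nat_lit 6382840548) (nat_lit 380) (nat_lit 7850857946) (nat_lit 456) (nat_lit 2634606686) (nat_lit 113) (nat_lit 5) (nat_lit 118) (nat_lit 5) (nat_lit 119) (nat_lit 5) (nat_lit 491) (nat_lit 394) (nat_lit 255)) (XT.lf (nat_lit 0) (nat_lit 1387987602) (nat_lit 456) (nat_lit 677005572) (nat_lit 76) (nat_lit 15017162031) (nat_lit 112) (nat_lit 5) (nat_lit 118) (nat_lit 5) (nat_lit 113) (nat_lit 5) (nat_lit 492) (nat_lit 394) (nat_lit 254))))) (XT.nd (nat_lit 234) (nat_lit 684) (nat_lit 0) (XT.nd (nat_lit 78) (nat_lit 304) (nat_lit 0) (XT.lf (nat_lit 0) (nat_lit 5528528206) (nat_lit 380) (nat_lit 7912510308) (nat_lit 76)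 (nat_lit 3857441917) (nat_lit 108) (nat_lit 5) (nat_lit 113) (nat_lit 5) (nat_lit 109) (nat_lit 5) (nat_lit 493) (nat_lit 394) (nat_lit 253)) (XT.nd (nat_lit 78) (nat_lit 0) (nat_lit 0) (XT.lf (nat_lit 0) (nat_lit 2132770427) (nat_lit 304) (nat_lit 7637535372) (nat_lit 380) (nat_lit 7748459734) (nat_lit 104) (nat_lit 5) (nat_lit 108) (nat_lit 5) (nat_lit 109) (nat_lit 5) (nat_lit 494) (nat_lit 394) (nat_lit 252)) (XT.lf (nat_lit 0) (nat_lit 12464519878) (nat_lit 304) (nat_lit 1671953581) (nat_lit 380) (nat_lit 3606193644) (nat_lit 104) (nat_lit 5) (nat_lit 108) (nat_lit 5) (nat_lit 109) (nat_lit 5) (nat_lit 495) (nat_lit 394) (nat_lit 251)))) (XT.nd (nat_lit 78) (nat_lit 304) (nat_lit 0) (XT.lf (nat_lit 0) (nat_lit 659214566) (nat_lit 380) (nat_lit 12926496355) (nat_lit 76) (nat_lit 4384288920) (nat_lit 99) (nat_lit 5) (nat_lit 104) (nat_lit 5) (nat_lit 100) (nat_lit 5) (nat_lit 496) (nat_lit 394) (nat_lit 250)) (XT.nd (nat_lit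 78) (nat_lit 304) (nat_lit 0) (XT.lf (nat_lit 0) (nat_lit 4995120027) (nat_lit 380) (nat_lit 2614746434) (nat_lit 76) (nat_lit 10590868264) (nat_lit 99) (nat_lit 5) (nat_lit 104) (nat_lit 5) (nat_lit 100) (nat_lit 5) (nat_lit 497) (nat_lit 394) (nat_lit 249)) (XT.lf (nat_lit 0) (nat_lit 7986889656) (nat_lit 304) (nat_lit 1469675453) (nat_lit 380) (nat_lit 8978744483) (nat_lit 95) (nat_lit 5) (nat_lit 99) (nat_lit 5) (nat_lit 100) (nat_lit 5) (nat_lit 498) (nat_lit 394) (nat_lit 248))))))) (XT.nd (nat_lit 51558) (nat_lit 0) (nat_lit 38076) (XT.nd (nat_lit 390) (nat_lit 380) (nat_lit 0) (XT.nd (nat_lit 156) (nat_lit 608) (nat_lit 0) (XT.nd (nat_lit 78) (nat_lit 0) (nat_lit 0) (XT.lf (nat_lit 0) (nat_lit 110825626) (nat_lit 228) (nat_lit 13932949550) (nat_lit 304) (nat_lit 4630071742) (nat_lit 92) (nat_lit 5) (nat_lit 95) (nat_lit 5) (nat_lit 96) (nat_lit 5) (nat_lit 499) (nat_lit 394) (nat_lit 247)) (XT.lf (nat_lit 0) (nat_lit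 10991996872) (nat_lit 228) (nat_lit 7797666218) (nat_lit 304) (nat_lit 126154876) (nat_lit 92) (nat_lit 5) (nat_lit 95) (nat_lit 5) (nat_lit 96) (nat_lit 5) (nat_lit 500) (nat_lit 394) (nat_lit 246))) (XT.nd (nat_lit 78) (nat_lit 228) (nat_lit 0) (XT.lf (nat_lit 0) (nat_lit 2916621099) (nat_lit 304) (nat_lit 1498876595) (nat_lit 380) (nat_lit 14746427084) (nat_lit 87) (nat_lit 5) (nat_lit 91) (nat_lit 5) (nat_lit 92) (nat_lit 5) (nat_lit 501) (nat_lit 394) (nat_lit 245)) (XT.nd (nat_lit 78) (nat_lit 228) (nat_lit 0) (XT.lf (nat_lit 0) (nat_lit 9119182378) (nat_lit 380) (nat_lit 5384627924) (nat_lit 76) (nat_lit 4907670536) (nat_lit 87) (nat_lit 5) (nat_lit 92) (nat_lit 5) (nat_lit 88) (nat_lit 5) (nat_lit 502) (nat_lit 394) (nat_lit 244)) (XT.lf (nat_lit 0) (nat_lit 5738151175) (nat_lit 228) (nat_lit 8213598667) (nat_lit 304) (nat_lit 5713583519) (nat_lit 84) (nat_lit 5) (nat_lit 87) (nat_lit 5) (nat_lit 88) (nat_lit 5) (nat_lit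 503) (nat_lit 394) (nat_lit 243))))) (XT.nd (nat_lit 50934) (nat_lit 0) (nat_lit 41268) (XT.nd (nat_lit 78) (nat_lit 380) (nat_lit 0) (XT.lf (nat_lit 0) (nat_lit 17136069663) (nat_lit 228) (nat_lit 1768770319) (nat_lit 304) (nat_lit 1018947019) (nat_lit 84) (nat_lit 5) (nat_lit 87) (nat_lit 5) (nat_lit 88) (nat_lit 5) (nat_lit 504) (nat_lit 394) (nat_lit 242)) (XT.nd (nat_lit 50778) (nat_lit 0) (nat_lit 42256) (XT.lf (nat_lit 0) (nat_lit 3795837796) (nat_lit 380) (nat_lit 11574369382) (nat_lit 76) (nat_lit 4815200593) (nat_lit 79) (nat_lit 5) (nat_lit 84) (nat_lit 5) (nat_lit 80) (nat_lit 5) (nat_lit 505) (nat_lit 394) (nat_lit 241)) (XT.lf (nat_lit 0) (nat_lit 1571846920) (nat_lit 988) (nat_lit 932482838) (nat_lit 988) (nat_lit 932482838) (nat_lit 635) (nat_lit 3) (nat_lit 648) (nat_lit 3) (nat_lit 648) (nat_lit 5) (nat_lit 395) (nat_lit 395) (nat_lit 350)))) (XT.nd (nat_lit 78) (nat_lit 988) (nat_lit 0) (XT.lf (nat_lit 76)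 (nat_lit 1490898959) (nat_lit 0) (nat_lit 3614184936) (nat_lit 988) (nat_lit 1797916246) (nat_lit 636) (nat_lit 5) (nat_lit 635) (nat_lit 3) (nat_lit 648) (nat_lit 5) (nat_lit 396) (nat_lit 395) (nat_lit 349)) (XT.nd (nat_lit 78) (nat_lit 0) (nat_lit 0) (XT.lf (nat_lit 0) (nat_lit 132178490) (nat_lit 988) (nat_lit 2021491599) (nat_lit 1064) (nat_lit 4780055572) (nat_lit 622) (nat_lit 5) (nat_lit 635) (nat_lit 3) (nat_lit 636) (nat_lit 5) (nat_lit 397) (nat_lit 395) (nat_lit 348)) (XT.lf (nat_lit 76) (nat_lit 1417401270) (nat_lit 0) (nat_lit 618729916) (nat_lit 1064) (nat_lit 4929529435) (nat_lit 623) (nat_lit 5) (nat_lit 622) (nat_lit 5) (nat_lit 636) (nat_lit 5) (nat_lit 398) (nat_lit 395) (nat_lit 347)))))) (XT.nd (nat_lit 468) (nat_lit 2204) (nat_lit 0) (XT.nd (nat_lit 234) (nat_lit 0) (nat_lit 0) (XT.nd (nat_lit 78) (nat_lit 1064) (nat_lit 0) (XT.lf (nat_lit 0) (nat_lit 3949029864) (nat_lit 988) (nat_lit 2078916318) (nat_lit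 1064) (nat_lit 970889600) (nat_lit 623) (nat_lit 5) (nat_lit 636) (nat_lit 5) (nat_lit 637) (nat_lit 5) (nat_lit 399) (nat_lit 395) (nat_lit 346)) (XT.nd (nat_lit 78) (nat_lit 1064) (nat_lit 0) (XT.lf (nat_lit 76) (nat_lit 1448051210) (nat_lit 0) (nat_lit 4417657950) (nat_lit 1064) (nat_lit 1167673306) (nat_lit 624) (nat_lit 5) (nat_lit 623) (nat_lit 5) (nat_lit 637) (nat_lit 5) (nat_lit 400) (nat_lit 395) (nat_lit 345)) (XT.lf (nat_lit 0) (nat_lit 708742685) (nat_lit 1064) (nat_lit 2026708667) (nat_lit 1140) (nat_lit 4333758728) (nat_lit 609) (nat_lit 5) (nat_lit 623) (nat_lit 5) (nat_lit 624) (nat_lit 5) (nat_lit 401) (nat_lit 395) (nat_lit 344)))) (XT.nd (nat_lit 78) (nat_lit 0) (nat_lit 76) (XT.lf (nat_lit 76) (nat_lit 1589602923) (nat_lit 0) (nat_lit 981178092) (nat_lit 1140) (nat_lit 4535561688) (nat_lit 610) (nat_lit 5) (nat_lit 609) (nat_lit 5) (nat_lit 624) (nat_lit 5) (nat_lit 402) (nat_lit 395) (nat_lit 343)) (XT.nd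 (nat_lit 78) (nat_lit 0) (nat_lit 0) (XT.lf (nat_lit 0) (nat_lit 4443260008) (nat_lit 1064) (nat_lit 1871053986) (nat_lit 1140) (nat_lit 830457051) (nat_lit 610) (nat_lit 5) (nat_lit 624) (nat_lit 5) (nat_lit 625) (nat_lit 5) (nat_lit 403) (nat_lit 395) (nat_lit 342)) (XT.lf (nat_lit 76) (nat_lit 1838211010) (nat_lit 0) (nat_lit 4488569443) (nat_lit 1140) (nat_lit 857732394) (nat_lit 611) (nat_lit 5) (nat_lit 610) (nat_lit 5) (nat_lit 625) (nat_lit 5) (nat_lit 404) (nat_lit 395) (nat_lit 341))))) (XT.nd (nat_lit 234) (nat_lit 1140) (nat_lit 0) (XT.nd (nat_lit 78) (nat_lit 0) (nat_lit 0) (XT.lf (nat_lit 0) (nat_lit 977701007) (nat_lit 1140) (nat_lit 1611873631) (nat_lit 1216) (nat_lit 4635994197) (nat_lit 595) (nat_lit 5) (nat_lit 610) (nat_lit 5) (nat_lit 611) (nat_lit 5) (nat_lit 405) (nat_lit 395) (nat_lit 340)) (XT.nd (nat_lit 78) (nat_lit 0) (nat_lit 76) (XT.lf (nat_lit 76) (nat_lit 2193493045) (nat_lit 0) (nat_lit 615544876)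 (nat_lit 1216) (nat_lit 4458896798) (nat_lit 596) (nat_lit 5) (nat_lit 595) (nat_lit 5) (nat_lit 611) (nat_lit 5) (nat_lit 406) (nat_lit 395) (nat_lit 339)) (XT.lf (nat_lit 0) (nat_lit 4654180413) (nat_lit 1140) (nat_lit 1250903211) (nat_lit 1216) (nat_lit 1406536175) (nat_lit 596) (nat_lit 5) (nat_lit 611) (nat_lit 5) (nat_lit 612) (nat_lit 5) (nat_lit 407) (nat_lit 395) (nat_lit 338)))) (XT.nd (nat_lit 78) (nat_lit 1216) (nat_lit 0) (XT.lf (nat_lit 76) (nat_lit 2652722563) (nat_lit 0) (nat_lit 3862855987) (nat_lit 1216) (nat_lit 841028128) (nat_lit 597) (nat_lit 5) (nat_lit 596) (nat_lit 5) (nat_lit 612) (nat_lit 5) (nat_lit 408) (nat_lit 395) (nat_lit 337)) (XT.nd (nat_lit 78) (nat_lit 0) (nat_lit 76) (XT.lf (nat_lit 0) (nat_lit 965305036) (nat_lit 1216) (nat_lit 785059425) (nat_lit 1292) (nat_lit 5652674774) (nat_lit 580) (nat_lit 5) (nat_lit 596) (nat_lit 5) (nat_lit 597) (nat_lit 5) (nat_lit 409) (nat_lit 395) (nat_lit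 336)) (XT.lf (nat_lit 0) (nat_lit 2779551346) (nat_lit 1216) (nat_lit 4231711427) (nat_lit 1292) (nat_lit 439379809) (nat_lit 581) (nat_lit 5) (nat_lit 597) (nat_lit 5) (nat_lit 598) (nat_lit 5) (nat_lit 410) (nat_lit 395) (nat_lit 335))))))))
noncomputable def xc130 : XT := (XT.nd (nat_lit 1716) (nat_lit 10792) (nat_lit 0) (XT.nd (nat_lit 858) (nat_lit 8968) (nat_lit 0) (XT.nd (nat_lit 390) (nat_lit 4028) (nat_lit 0) (XT.nd (nat_lit 156) (nat_lit 1292) (nat_lit 0) (XT.nd (nat_lit 78) (nat_lit 0) (nat_lit 0) (XT.lf (nat_lit 0) (nat_lit 4606918017) (nat_lit 1216) (nat_lit 224750521) (nat_lit 1292) (nat_lit 2668006748) (nat_lit 581) (nat_lit 5) (nat_lit 597) (nat_lit 5) (nat_lit 598) (nat_lit 5) (nat_lit 411) (nat_lit 395) (nat_lit 334)) (XT.lf (nat_lit 76) (nat_lit 3886185845) (nat_lit 0) (nat_lit 2570603916) (nat_lit 1292) (nat_lit 1093193453) (nat_lit 582) (nat_lit 5) (nat_lit 581) (nat_lit 5) (nat_lit 598) (nat_lit 5) (nat_lit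 412) (nat_lit 395) (nat_lit 333))) (XT.nd (nat_lit 78) (nat_lit 0) (nat_lit 76) (XT.lf (nat_lit 76) (nat_lit 454770784) (nat_lit 0) (nat_lit 243377198) (nat_lit 1368) (nat_lit 6903755660) (nat_lit 565) (nat_lit 5) (nat_lit 564) (nat_lit 5) (nat_lit 582) (nat_lit 5) (nat_lit 413) (nat_lit 395) (nat_lit 332)) (XT.nd (nat_lit 78) (nat_lit 0) (nat_lit 0) (XT.lf (nat_lit 0) (nat_lit 2510982748) (nat_lit 1292) (nat_lit 2998386397) (nat_lit 1368) (nat_lit 2145355661) (nat_lit 565) (nat_lit 5) (nat_lit 582) (nat_lit 5) (nat_lit 583) (nat_lit 5) (nat_lit 414) (nat_lit 395) (nat_lit 331)) (XT.lf (nat_lit 76) (nat_lit 1220122176) (nat_lit 0) (nat_lit 3111946344) (nat_lit 1368) (nat_lit 3377106665) (nat_lit 566) (nat_lit 5) (nat_lit 565) (nat_lit 5) (nat_lit 583) (nat_lit 5) (nat_lit 415) (nat_lit 395) (nat_lit 330))))) (XT.nd (nat_lit 234) (nat_lit 2812) (nat_lit 0) (XT.nd (nat_lit 78) (nat_lit 1292) (nat_lit 0) (XT.lf (nat_lit 76) (nat_lit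 5536223269) (nat_lit 0) (nat_lit 636492216) (nat_lit 1368) (nat_lit 1592348727) (nat_lit 566) (nat_lit 5) (nat_lit 565) (nat_lit 5) (nat_lit 583) (nat_lit 5) (nat_lit 416) (nat_lit 395) (nat_lit 329)) (XT.nd (nat_lit 78) (nat_lit 0) (nat_lit 0) (XT.lf (nat_lit 0) (nat_lit 214760645) (nat_lit 1368) (nat_lit 5719472096) (nat_lit 76) (nat_lit 1888027649) (nat_lit 548) (nat_lit 5) (nat_lit 566) (nat_lit 5) (nat_lit 549) (nat_lit 5) (nat_lit 417) (nat_lit 395) (nat_lit 328)) (XT.lf (nat_lit 0) (nat_lit 2020069401) (nat_lit 1368) (nat_lit 1371887202) (nat_lit 76) (nat_lit 4488777519) (nat_lit 548) (nat_lit 5) (nat_lit 566) (nat_lit 5) (nat_lit 549) (nat_lit 5) (nat_lit 418) (nat_lit 395) (nat_lit 327)))) (XT.nd (nat_lit 78) (nat_lit 1444) (nat_lit 0) (XT.lf (nat_lit 0) (nat_lit 3075545625) (nat_lit 1368) (nat_lit 770699234) (nat_lit 1444) (nat_lit 4094448743) (nat_lit 530) (nat_lit 5) (nat_lit 548) (nat_lit 5) (nat_lit 549) (nat_lit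 5) (nat_lit 419) (nat_lit 395) (nat_lit 326)) (XT.nd (nat_lit 78) (nat_lit 1444) (nat_lit 0) (XT.lf (nat_lit 0) (nat_lit 5695919993) (nat_lit 1444) (nat_lit 411574141) (nat_lit 76) (nat_lit 1894629872) (nat_lit 530) (nat_lit 5) (nat_lit 549) (nat_lit 5) (nat_lit 531) (nat_lit 5) (nat_lit 420) (nat_lit 395) (nat_lit 325)) (XT.lf (nat_lit 0) (nat_lit 4152970437) (nat_lit 1444) (nat_lit 3427719023) (nat_lit 1520) (nat_lit 484142581) (nat_lit 511) (nat_lit 5) (nat_lit 530) (nat_lit 5) (nat_lit 531) (nat_lit 5) (nat_lit 421) (nat_lit 395) (nat_lit 324)))))) (XT.nd (nat_lit 390) (nat_lit 4028) (nat_lit 0) (XT.nd (nat_lit 156) (nat_lit 3344) (nat_lit 0) (XT.nd (nat_lit 78) (nat_lit 0) (nat_lit 0) (XT.lf (nat_lit 0) (nat_lit 657587086) (nat_lit 1520) (nat_lit 672087189) (nat_lit 1596) (nat_lit 6799485322) (nat_lit 490) (nat_lit 5) (nat_lit 510) (nat_lit 5) (nat_lit 511) (nat_lit 5) (nat_lit 422) (nat_lit 395) (nat_lit 323)) (XT.lf (nat_lit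 0) (nat_lit 3180409318) (nat_lit 1596) (nat_lit 2868334207) (nat_lit 76) (nat_lit 2145834086) (nat_lit 490) (nat_lit 5) (nat_lit 511) (nat_lit 5) (nat_lit 491) (nat_lit 5) (nat_lit 423) (nat_lit 395) (nat_lit 322))) (XT.nd (nat_lit 78) (nat_lit 1748) (nat_lit 0) (XT.lf (nat_lit 0) (nat_lit 1818653341) (nat_lit 1596) (nat_lit 3233223728) (nat_lit 1672) (nat_lit 3209762753) (nat_lit 469) (nat_lit 5) (nat_lit 490) (nat_lit 5) (nat_lit 491) (nat_lit 5) (nat_lit 424) (nat_lit 395) (nat_lit 321)) (XT.nd (nat_lit 78) (nat_lit 1748) (nat_lit 0) (XT.lf (nat_lit 0) (nat_lit 6610727434) (nat_lit 1596) (nat_lit 337213257) (nat_lit 1672) (nat_lit 1382369256) (nat_lit 469) (nat_lit 5) (nat_lit 490) (nat_lit 5) (nat_lit 491) (nat_lit 5) (nat_lit 425) (nat_lit 395) (nat_lit 320)) (XT.lf (nat_lit 0) (nat_lit 480939651) (nat_lit 1748) (nat_lit 5309195070) (nat_lit 76) (nat_lit 2610052158) (nat_lit 446) (nat_lit 5) (nat_lit 469) (nat_lit 5) (nat_lit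 447) (nat_lit 5) (nat_lit 426) (nat_lit 395) (nat_lit 319))))) (XT.nd (nat_lit 234) (nat_lit 988) (nat_lit 0) (XT.nd (nat_lit 78) (nat_lit 3040) (nat_lit 0) (XT.lf (nat_lit 0) (nat_lit 2345670556) (nat_lit 1748) (nat_lit 489512147) (nat_lit 76) (nat_lit 5636452005) (nat_lit 446) (nat_lit 5) (nat_lit 469) (nat_lit 5) (nat_lit 447) (nat_lit 5) (nat_lit 427) (nat_lit 395) (nat_lit 318)) (XT.nd (nat_lit 78) (nat_lit 1292) (nat_lit 0) (XT.lf (nat_lit 0) (nat_lit 4247423506) (nat_lit 1824) (nat_lit 4088257130) (nat_lit 76) (nat_lit 208845542) (nat_lit 423) (nat_lit 5) (nat_lit 447) (nat_lit 5) (nat_lit 424) (nat_lit 5) (nat_lit 428) (nat_lit 395) (nat_lit 317)) (XT.lf (nat_lit 0) (nat_lit 853377091) (nat_lit 1292) (nat_lit 5331311817) (nat_lit 1368) (nat_lit 2434246080) (nat_lit 406) (nat_lit 5) (nat_lit 423) (nat_lit 5) (nat_lit 424) (nat_lit 5) (nat_lit 429) (nat_lit 395) (nat_lit 316)))) (XT.nd (nat_lit 78) (nat_lit 988) (nat_lit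 0) (XT.lf (nat_lit 0) (nat_lit 5921635497) (nat_lit 1292) (nat_lit 2236764229) (nat_lit 1368) (nat_lit 536487122) (nat_lit 406) (nat_lit 5) (nat_lit 423) (nat_lit 5) (nat_lit 424) (nat_lit 5) (nat_lit 430) (nat_lit 395) (nat_lit 315)) (XT.nd (nat_lit 78) (nat_lit 0) (nat_lit 0) (XT.lf (nat_lit 0) (nat_lit 1372681267) (nat_lit 988) (nat_lit 6465949421) (nat_lit 76) (nat_lit 933717788) (nat_lit 393) (nat_lit 5) (nat_lit 406) (nat_lit 5) (nat_lit 394) (nat_lit 5) (nat_lit 431) (nat_lit 395) (nat_lit 314)) (XT.lf (nat_lit 0) (nat_lit 3317458552) (nat_lit 988) (nat_lit 1372141876) (nat_lit 76) (nat_lit 4161604170) (nat_lit 393) (nat_lit 5) (nat_lit 406) (nat_lit 5) (nat_lit 394) (nat_lit 5) (nat_lit 432) (nat_lit 395) (nat_lit 313))))))) (XT.nd (nat_lit 858) (nat_lit 4940) (nat_lit 0) (XT.nd (nat_lit 390) (nat_lit 3192) (nat_lit 0) (XT.nd (nat_lit 156) (nat_lit 912) (nat_lit 0) (XT.nd (nat_lit 78) (nat_lit 912) (nat_lit 0) (XT.lf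 (nat_lit 0) (nat_lit 3846638018) (nat_lit 836) (nat_lit 1451091961) (nat_lit 912) (nat_lit 3633984092) (nat_lit 382) (nat_lit 5) (nat_lit 393) (nat_lit 5) (nat_lit 394) (nat_lit 5) (nat_lit 433) (nat_lit 395) (nat_lit 312)) (XT.lf (nat_lit 0) (nat_lit 136703455) (nat_lit 912) (nat_lit 7175094337) (nat_lit 988) (nat_lit 1702160165) (nat_lit 370) (nat_lit 5) (nat_lit 382) (nat_lit 5) (nat_lit 383) (nat_lit 5) (nat_lit 434) (nat_lit 395) (nat_lit 311))) (XT.nd (nat_lit 78) (nat_lit 836) (nat_lit 0) (XT.lf (nat_lit 0) (nat_lit 280929003) (nat_lit 988) (nat_lit 3604835295) (nat_lit 76) (nat_lit 5211732358) (nat_lit 369) (nat_lit 5) (nat_lit 382) (nat_lit 5) (nat_lit 370) (nat_lit 5) (nat_lit 435) (nat_lit 395) (nat_lit 310)) (XT.nd (nat_lit 78) (nat_lit 0) (nat_lit 0) (XT.lf (nat_lit 0) (nat_lit 1757415098) (nat_lit 836) (nat_lit 507638039) (nat_lit 912) (nat_lit 6917752241) (nat_lit 358) (nat_lit 5) (nat_lit 369) (nat_lit 5) (nat_lit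 370) (nat_lit 5) (nat_lit 436) (nat_lit 395) (nat_lit 309)) (XT.lf (nat_lit 0) (nat_lit 4305375542) (nat_lit 912) (nat_lit 2040554285) (nat_lit 76) (nat_lit 2923567561) (nat_lit 358) (nat_lit 5) (nat_lit 370) (nat_lit 5) (nat_lit 359) (nat_lit 5) (nat_lit 437) (nat_lit 395) (nat_lit 308))))) (XT.nd (nat_lit 234) (nat_lit 1520) (nat_lit 0) (XT.nd (nat_lit 78) (nat_lit 836) (nat_lit 0) (XT.lf (nat_lit 0) (nat_lit 3466872668) (nat_lit 836) (nat_lit 2919119933) (nat_lit 912) (nat_lit 2971948155) (nat_lit 347) (nat_lit 5) (nat_lit 358) (nat_lit 5) (nat_lit 359) (nat_lit 5) (nat_lit 438) (nat_lit 395) (nat_lit 307)) (XT.nd (nat_lit 78) (nat_lit 836) (nat_lit 0) (XT.lf (nat_lit 0) (nat_lit 8499699597) (nat_lit 912) (nat_lit 367157709) (nat_lit 76) (nat_lit 581473274) (nat_lit 347) (nat_lit 5) (nat_lit 359) (nat_lit 5) (nat_lit 348) (nat_lit 5) (nat_lit 439) (nat_lit 395) (nat_lit 306)) (XT.lf (nat_lit 0) (nat_lit 1128849629) (nat_lit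 836) (nat_lit 4257131992) (nat_lit 76) (nat_lit 4153842184) (nat_lit 336) (nat_lit 5) (nat_lit 347) (nat_lit 5) (nat_lit 337) (nat_lit 5) (nat_lit 440) (nat_lit 395) (nat_lit 305)))) (XT.nd (nat_lit 78) (nat_lit 760) (nat_lit 0) (XT.lf (nat_lit 0) (nat_lit 1402329679) (nat_lit 760) (nat_lit 1819060832) (nat_lit 836) (nat_lit 6411913447) (nat_lit 326) (nat_lit 5) (nat_lit 336) (nat_lit 5) (nat_lit 337) (nat_lit 5) (nat_lit 441) (nat_lit 395) (nat_lit 304)) (XT.nd (nat_lit 78) (nat_lit 760) (nat_lit 0) (XT.lf (nat_lit 0) (nat_lit 5371276211) (nat_lit 836) (nat_lit 2534893381) (nat_lit 76) (nat_lit 1822180838) (nat_lit 326) (nat_lit 5) (nat_lit 337) (nat_lit 5) (nat_lit 327) (nat_lit 5) (nat_lit 442) (nat_lit 395) (nat_lit 303)) (XT.lf (nat_lit 0) (nat_lit 3279110142) (nat_lit 760) (nat_lit 4293803821) (nat_lit 836) (nat_lit 2252215249) (nat_lit 316) (nat_lit 5) (nat_lit 326) (nat_lit 5) (nat_lit 327) (nat_lit 5) (nat_lit 443)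 (nat_lit 395) (nat_lit 302)))))) (XT.nd (nat_lit 468) (nat_lit 2660) (nat_lit 0) (XT.nd (nat_lit 234) (nat_lit 760) (nat_lit 0) (XT.nd (nat_lit 78) (nat_lit 1520) (nat_lit 0) (XT.lf (nat_lit 0) (nat_lit 9216973893) (nat_lit 760) (nat_lit 594346600) (nat_lit 836) (nat_lit 112674695) (nat_lit 316) (nat_lit 5) (nat_lit 326) (nat_lit 5) (nat_lit 327) (nat_lit 5) (nat_lit 444) (nat_lit 395) (nat_lit 301)) (XT.nd (nat_lit 78) (nat_lit 684) (nat_lit 0) (XT.lf (nat_lit 0) (nat_lit 2073758303) (nat_lit 836) (nat_lit 4767349641) (nat_lit 76) (nat_lit 3182842971) (nat_lit 305) (nat_lit 5) (nat_lit 316) (nat_lit 5) (nat_lit 306) (nat_lit 5) (nat_lit 445) (nat_lit 395) (nat_lit 300)) (XT.lf (nat_lit 0) (nat_lit 1207525531) (nat_lit 684) (nat_lit 3087757547) (nat_lit 760) (nat_lit 5830756322) (nat_lit 296) (nat_lit 5) (nat_lit 305) (nat_lit 5) (nat_lit 306) (nat_lit 5) (nat_lit 446) (nat_lit 395) (nat_lit 299)))) (XT.nd (nat_lit 78) (nat_lit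 760) (nat_lit 0) (XT.lf (nat_lit 0) (nat_lit 6574838511) (nat_lit 760) (nat_lit 2895172138) (nat_lit 76) (nat_lit 759892859) (nat_lit 296) (nat_lit 5) (nat_lit 306) (nat_lit 5) (nat_lit 297) (nat_lit 5) (nat_lit 447) (nat_lit 395) (nat_lit 298)) (XT.nd (nat_lit 78) (nat_lit 76) (nat_lit 0) (XT.lf (nat_lit 0) (nat_lit 3244124706) (nat_lit 684) (nat_lit 5674419156) (nat_lit 760) (nat_lit 1416935601) (nat_lit 287) (nat_lit 5) (nat_lit 296) (nat_lit 5) (nat_lit 297) (nat_lit 5) (nat_lit 448) (nat_lit 395) (nat_lit 297)) (XT.lf (nat_lit 0) (nat_lit 851325780) (nat_lit 760) (nat_lit 929821222) (nat_lit 76) (nat_lit 8661978477) (nat_lit 286) (nat_lit 5) (nat_lit 296) (nat_lit 5) (nat_lit 287) (nat_lit 5) (nat_lit 449) (nat_lit 395) (nat_lit 296))))) (XT.nd (nat_lit 234) (nat_lit 1292) (nat_lit 0) (XT.nd (nat_lit 78) (nat_lit 684) (nat_lit 0) (XT.lf (nat_lit 0) (nat_lit 3173098306) (nat_lit 760) (nat_lit 5176946957) (nat_lit 76) (nat_lit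 2202154870) (nat_lit 277) (nat_lit 5) (nat_lit 287) (nat_lit 5) (nat_lit 278) (nat_lit 5) (nat_lit 450) (nat_lit 395) (nat_lit 295)) (XT.nd (nat_lit 78) (nat_lit 0) (nat_lit 0) (XT.lf (nat_lit 0) (nat_lit 1132244891) (nat_lit 684) (nat_lit 4412350907) (nat_lit 760) (nat_lit 5118799997) (nat_lit 268) (nat_lit 5) (nat_lit 277) (nat_lit 5) (nat_lit 278) (nat_lit 5) (nat_lit 451) (nat_lit 395) (nat_lit 294)) (XT.lf (nat_lit 0) (nat_lit 7611500343) (nat_lit 684) (nat_lit 364887940) (nat_lit 760) (nat_lit 2800174987) (nat_lit 268) (nat_lit 5) (nat_lit 277) (nat_lit 5) (nat_lit 278) (nat_lit 5) (nat_lit 452) (nat_lit 395) (nat_lit 293)))) (XT.nd (nat_lit 78) (nat_lit 684) (nat_lit 0) (XT.lf (nat_lit 0) (nat_lit 3321285361) (nat_lit 608) (nat_lit 7160056332) (nat_lit 684) (nat_lit 410167000) (nat_lit 260) (nat_lit 5) (nat_lit 268) (nat_lit 5) (nat_lit 269) (nat_lit 5) (nat_lit 453) (nat_lit 395) (nat_lit 292)) (XT.nd (nat_lit 78) (nat_lit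 608) (nat_lit 0) (XT.lf (nat_lit 0) (nat_lit 2003477122) (nat_lit 684) (nat_lit 1070088284) (nat_lit 76) (nat_lit 7934880645) (nat_lit 259) (nat_lit 5) (nat_lit 268) (nat_lit 5) (nat_lit 260) (nat_lit 5) (nat_lit 454) (nat_lit 395) (nat_lit 291)) (XT.lf (nat_lit 0) (nat_lit 4482685147) (nat_lit 684) (nat_lit 5529640386) (nat_lit 76) (nat_lit 1114891543) (nat_lit 251) (nat_lit 5) (nat_lit 260) (nat_lit 5) (nat_lit 252) (nat_lit 5) (nat_lit 455) (nat_lit 395) (nat_lit 290))))))))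
noncomputable def xc131 : XT := (XT.nd (nat_lit 1716) (nat_lit 5168) (nat_lit 0) (XT.nd (nat_lit 858) (nat_lit 2964) (nat_lit 0) (XT.nd (nat_lit 390) (nat_lit 2128) (nat_lit 0) (XT.nd (nat_lit 156) (nat_lit 1216) (nat_lit 0) (XT.nd (nat_lit 78) (nat_lit 0) (nat_lit 0) (XT.lf (nat_lit 0) (nat_lit 1133338511) (nat_lit 608) (nat_lit 5892344348) (nat_lit 684) (nat_lit 4222401261) (nat_lit 243) (nat_lit 5) (nat_lit 251) (nat_lit 5) (nat_lit 252) (nat_lit 5) (nat_lit 456) (nat_lit 395) (nat_lit 289)) (XT.lf (nat_lit 0) (nat_lit 7978700271) (nat_lit 608) (nat_lit 1657449914) (nat_lit 684) (nat_lit 1734890746) (nat_lit 243) (nat_lit 5) (nat_lit 251) (nat_lit 5) (nat_lit 252) (nat_lit 5) (nat_lit 457) (nat_lit 395) (nat_lit 288))) (XT.nd (nat_lit 78) (nat_lit 532) (nat_lit 0) (XT.lf (nat_lit 0) (nat_lit 811637778) (nat_lit 684) (nat_lit 8034407904) (nat_lit 76) (nat_lit 2649915624) (nat_lit 234) (nat_lit 5) (nat_lit 243) (nat_lit 5)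 (nat_lit 235) (nat_lit 5) (nat_lit 458) (nat_lit 395) (nat_lit 287)) (XT.nd (nat_lit 78) (nat_lit 532) (nat_lit 0) (XT.lf (nat_lit 0) (nat_lit 3399743610) (nat_lit 684) (nat_lit 1172831930) (nat_lit 76) (nat_lit 7050302009) (nat_lit 234) (nat_lit 5) (nat_lit 243) (nat_lit 5) (nat_lit 235) (nat_lit 5) (nat_lit 459) (nat_lit 395) (nat_lit 286)) (XT.lf (nat_lit 0) (nat_lit 5877769490) (nat_lit 532) (nat_lit 180360888) (nat_lit 608) (nat_lit 5693835630) (nat_lit 227) (nat_lit 5) (nat_lit 234) (nat_lit 5) (nat_lit 235) (nat_lit 5) (nat_lit 460) (nat_lit 395) (nat_lit 285))))) (XT.nd (nat_lit 234) (nat_lit 988) (nat_lit 0) (XT.nd (nat_lit 78) (nat_lit 608) (nat_lit 0) (XT.lf (nat_lit 0) (nat_lit 1163611280) (nat_lit 532) (nat_lit 7630008887) (nat_lit 608) (nat_lit 3089541547) (nat_lit 220) (nat_lit 5) (nat_lit 227) (nat_lit 5) (nat_lit 228) (nat_lit 5) (nat_lit 461) (nat_lit 395) (nat_lit 284)) (XT.nd (nat_lit 78) (nat_lit 608) (nat_lit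 0) (XT.lf (nat_lit 0) (nat_lit 8395275618) (nat_lit 532) (nat_lit 3209908259) (nat_lit 608) (nat_lit 411374273) (nat_lit 220) (nat_lit 5) (nat_lit 227) (nat_lit 5) (nat_lit 228) (nat_lit 5) (nat_lit 462) (nat_lit 395) (nat_lit 283)) (XT.lf (nat_lit 0) (nat_lit 2303123774) (nat_lit 608) (nat_lit 8534511271) (nat_lit 76) (nat_lit 1314426121) (nat_lit 212) (nat_lit 5) (nat_lit 220) (nat_lit 5) (nat_lit 213) (nat_lit 5) (nat_lit 463) (nat_lit 395) (nat_lit 282)))) (XT.nd (nat_lit 78) (nat_lit 988) (nat_lit 0) (XT.lf (nat_lit 0) (nat_lit 5093305810) (nat_lit 608) (nat_lit 1288935050) (nat_lit 76) (nat_lit 5907444816) (nat_lit 212) (nat_lit 5) (nat_lit 220) (nat_lit 5) (nat_lit 213) (nat_lit 5) (nat_lit 464) (nat_lit 395) (nat_lit 281)) (XT.nd (nat_lit 78) (nat_lit 456) (nat_lit 0) (XT.lf (nat_lit 0) (nat_lit 6157554942) (nat_lit 532) (nat_lit 1803262403) (nat_lit 608) (nat_lit 4468818603) (nat_lit 205) (nat_lit 5) (nat_lit 212) (nat_lit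 5) (nat_lit 213) (nat_lit 5) (nat_lit 465) (nat_lit 395) (nat_lit 280)) (XT.lf (nat_lit 0) (nat_lit 1169985362) (nat_lit 456) (nat_lit 9732321078) (nat_lit 532) (nat_lit 1669749953) (nat_lit 199) (nat_lit 5) (nat_lit 205) (nat_lit 5) (nat_lit 206) (nat_lit 5) (nat_lit 466) (nat_lit 395) (nat_lit 279)))))) (XT.nd (nat_lit 390) (nat_lit 1368) (nat_lit 0) (XT.nd (nat_lit 156) (nat_lit 988) (nat_lit 0) (XT.nd (nat_lit 78) (nat_lit 532) (nat_lit 0) (XT.lf (nat_lit 0) (nat_lit 1205846903) (nat_lit 532) (nat_lit 3915488941) (nat_lit 76) (nat_lit 7595117212) (nat_lit 198) (nat_lit 5) (nat_lit 205) (nat_lit 5) (nat_lit 199) (nat_lit 5) (nat_lit 467) (nat_lit 395) (nat_lit 278)) (XT.lf (nat_lit 0) (nat_lit 3734230561) (nat_lit 532) (nat_lit 388772817) (nat_lit 608) (nat_lit 8740388922) (nat_lit 191) (nat_lit 5) (nat_lit 198) (nat_lit 5) (nat_lit 199) (nat_lit 5) (nat_lit 468) (nat_lit 395) (nat_lit 277))) (XT.nd (nat_lit 78) (nat_lit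 988) (nat_lit 0) (XT.lf (nat_lit 0) (nat_lit 7136057641) (nat_lit 608) (nat_lit 1476379748) (nat_lit 76) (nat_lit 4400085278) (nat_lit 191) (nat_lit 5) (nat_lit 199) (nat_lit 5) (nat_lit 192) (nat_lit 5) (nat_lit 469) (nat_lit 395) (nat_lit 276)) (XT.nd (nat_lit 78) (nat_lit 532) (nat_lit 0) (XT.lf (nat_lit 0) (nat_lit 6386462895) (nat_lit 456) (nat_lit 3849585543) (nat_lit 532) (nat_lit 2928057059) (nat_lit 185) (nat_lit 5) (nat_lit 191) (nat_lit 5) (nat_lit 192) (nat_lit 5) (nat_lit 470) (nat_lit 395) (nat_lit 275)) (XT.lf (nat_lit 0) (nat_lit 84700732) (nat_lit 532) (nat_lit 12227722244) (nat_lit 76) (nat_lit 1006161501) (nat_lit 178) (nat_lit 5) (nat_lit 185) (nat_lit 5) (nat_lit 179) (nat_lit 5) (nat_lit 471) (nat_lit 395) (nat_lit 274))))) (XT.nd (nat_lit 234) (nat_lit 912) (nat_lit 0) (XT.nd (nat_lit 78) (nat_lit 456) (nat_lit 0) (XT.lf (nat_lit 0) (nat_lit 3172660868) (nat_lit 532) (nat_lit 4336214296) (nat_lit 76) (nat_lit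 5965810877) (nat_lit 178) (nat_lit 5) (nat_lit 185) (nat_lit 5) (nat_lit 179) (nat_lit 5) (nat_lit 472) (nat_lit 395) (nat_lit 273)) (XT.nd (nat_lit 78) (nat_lit 0) (nat_lit 0) (XT.lf (nat_lit 0) (nat_lit 3738235229) (nat_lit 456) (nat_lit 2591593068) (nat_lit 532) (nat_lit 7303935485) (nat_lit 172) (nat_lit 5) (nat_lit 178) (nat_lit 5) (nat_lit 179) (nat_lit 5) (nat_lit 473) (nat_lit 395) (nat_lit 272)) (XT.lf (nat_lit 0) (nat_lit 9578474921) (nat_lit 532) (nat_lit 1802468674) (nat_lit 76) (nat_lit 2414515814) (nat_lit 172) (nat_lit 5) (nat_lit 179) (nat_lit 5) (nat_lit 173) (nat_lit 5) (nat_lit 474) (nat_lit 395) (nat_lit 271)))) (XT.nd (nat_lit 78) (nat_lit 456) (nat_lit 0) (XT.lf (nat_lit 0) (nat_lit 6496920673) (nat_lit 456) (nat_lit 6438152735) (nat_lit 532) (nat_lit 1024458948) (nat_lit 166) (nat_lit 5) (nat_lit 172) (nat_lit 5) (nat_lit 173) (nat_lit 5) (nat_lit 475) (nat_lit 395) (nat_lit 270)) (XT.nd (nat_lit 78) (nat_lit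 0) (nat_lit 0) (XT.lf (nat_lit 0) (nat_lit 832795341) (nat_lit 380) (nat_lit 1371124865) (nat_lit 456) (nat_lit 11922654104) (nat_lit 160) (nat_lit 5) (nat_lit 165) (nat_lit 5) (nat_lit 166) (nat_lit 5) (nat_lit 476) (nat_lit 395) (nat_lit 269)) (XT.lf (nat_lit 0) (nat_lit 5542038179) (nat_lit 456) (nat_lit 4956221747) (nat_lit 76) (nat_lit 3797386784) (nat_lit 160) (nat_lit 5) (nat_lit 166) (nat_lit 5) (nat_lit 161) (nat_lit 5) (nat_lit 477) (nat_lit 395) (nat_lit 268))))))) (XT.nd (nat_lit 858) (nat_lit 2356) (nat_lit 0) (XT.nd (nat_lit 390) (nat_lit 1520) (nat_lit 0) (XT.nd (nat_lit 156) (nat_lit 836) (nat_lit 0) (XT.nd (nat_lit 78) (nat_lit 0) (nat_lit 0) (XT.lf (nat_lit 0) (nat_lit 3562430182) (nat_lit 456) (nat_lit 5400827696) (nat_lit 532) (nat_lit 5504518652) (nat_lit 154) (nat_lit 5) (nat_lit 160) (nat_lit 5) (nat_lit 161) (nat_lit 5) (nat_lit 478) (nat_lit 395) (nat_lit 267)) (XT.lf (nat_lit 0) (nat_lit 12295493267)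 (nat_lit 456) (nat_lit 174957889) (nat_lit 532) (nat_lit 2172549514) (nat_lit 154) (nat_lit 5) (nat_lit 160) (nat_lit 5) (nat_lit 161) (nat_lit 5) (nat_lit 479) (nat_lit 395) (nat_lit 266))) (XT.nd (nat_lit 78) (nat_lit 380) (nat_lit 0) (XT.lf (nat_lit 0) (nat_lit 1270007089) (nat_lit 456) (nat_lit 8419776261) (nat_lit 76) (nat_lit 5130588773) (nat_lit 148) (nat_lit 5) (nat_lit 154) (nat_lit 5) (nat_lit 149) (nat_lit 5) (nat_lit 480) (nat_lit 395) (nat_lit 265)) (XT.nd (nat_lit 78) (nat_lit 0) (nat_lit 0) (XT.lf (nat_lit 0) (nat_lit 320042533) (nat_lit 380) (nat_lit 4436005019) (nat_lit 456) (nat_lit 10244884328) (nat_lit 143) (nat_lit 5) (nat_lit 148) (nat_lit 5) (nat_lit 149) (nat_lit 5) (nat_lit 481) (nat_lit 395) (nat_lit 264)) (XT.lf (nat_lit 0) (nat_lit 8359381994) (nat_lit 456) (nat_lit 5864665795) (nat_lit 76) (nat_lit 960106080) (nat_lit 143) (nat_lit 5) (nat_lit 149) (nat_lit 5) (nat_lit 144) (nat_lit 5) (nat_lit 482)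 (nat_lit 395) (nat_lit 263))))) (XT.nd (nat_lit 234) (nat_lit 684) (nat_lit 0) (XT.nd (nat_lit 78) (nat_lit 456) (nat_lit 0) (XT.lf (nat_lit 0) (nat_lit 3116717250) (nat_lit 380) (nat_lit 8952685179) (nat_lit 456) (nat_lit 3300947933) (nat_lit 138) (nat_lit 5) (nat_lit 143) (nat_lit 5) (nat_lit 144) (nat_lit 5) (nat_lit 483) (nat_lit 395) (nat_lit 262)) (XT.nd (nat_lit 78) (nat_lit 380) (nat_lit 0) (XT.lf (nat_lit 0) (nat_lit 314173862) (nat_lit 456) (nat_lit 3227139566) (nat_lit 76) (nat_lit 12018428244) (nat_lit 137) (nat_lit 5) (nat_lit 143) (nat_lit 5) (nat_lit 138) (nat_lit 5) (nat_lit 484) (nat_lit 395) (nat_lit 261)) (XT.lf (nat_lit 0) (nat_lit 3995035204) (nat_lit 456) (nat_lit 9750560194) (nat_lit 76) (nat_lit 2006138600) (nat_lit 132) (nat_lit 5) (nat_lit 138) (nat_lit 5) (nat_lit 133) (nat_lit 5) (nat_lit 485) (nat_lit 395) (nat_lit 260)))) (XT.nd (nat_lit 78) (nat_lit 684) (nat_lit 0) (XT.lf (nat_lit 0) (nat_lit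 7780205853) (nat_lit 456) (nat_lit 535297477) (nat_lit 76) (nat_lit 7631451261) (nat_lit 132) (nat_lit 5) (nat_lit 138) (nat_lit 5) (nat_lit 133) (nat_lit 5) (nat_lit 486) (nat_lit 395) (nat_lit 259)) (XT.nd (nat_lit 78) (nat_lit 380) (nat_lit 0) (XT.lf (nat_lit 0) (nat_lit 8959852361) (nat_lit 304) (nat_lit 2725126792) (nat_lit 380) (nat_lit 4460224679) (nat_lit 128) (nat_lit 5) (nat_lit 132) (nat_lit 5) (nat_lit 133) (nat_lit 5) (nat_lit 487) (nat_lit 395) (nat_lit 258)) (XT.lf (nat_lit 0) (nat_lit 2293523055) (nat_lit 380) (nat_lit 13397975610) (nat_lit 456) (nat_lit 655448553) (nat_lit 123) (nat_lit 5) (nat_lit 128) (nat_lit 5) (nat_lit 129) (nat_lit 5) (nat_lit 488) (nat_lit 395) (nat_lit 257)))))) (XT.nd (nat_lit 468) (nat_lit 1216) (nat_lit 0) (XT.nd (nat_lit 234) (nat_lit 760) (nat_lit 0) (XT.nd (nat_lit 78) (nat_lit 304) (nat_lit 0) (XT.lf (nat_lit 0) (nat_lit 3235560796) (nat_lit 456) (nat_lit 4553759196) (nat_lit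 76) (nat_lit 8761939946) (nat_lit 122) (nat_lit 5) (nat_lit 128) (nat_lit 5) (nat_lit 123) (nat_lit 5) (nat_lit 489) (nat_lit 395) (nat_lit 256)) (XT.nd (nat_lit 78) (nat_lit 0) (nat_lit 0) (XT.lf (nat_lit 0) (nat_lit 5177834850) (nat_lit 304) (nat_lit 2037538207) (nat_lit 380) (nat_lit 9543806073) (nat_lit 118) (nat_lit 5) (nat_lit 122) (nat_lit 5) (nat_lit 123) (nat_lit 5) (nat_lit 490) (nat_lit 395) (nat_lit 255)) (XT.lf (nat_lit 0) (nat_lit 11316619343) (nat_lit 380) (nat_lit 1851637728) (nat_lit 76) (nat_lit 3802164889) (nat_lit 118) (nat_lit 5) (nat_lit 123) (nat_lit 5) (nat_lit 119) (nat_lit 5) (nat_lit 491) (nat_lit 395) (nat_lit 254)))) (XT.nd (nat_lit 78) (nat_lit 380) (nat_lit 0) (XT.lf (nat_lit 0) (nat_lit 8144698535) (nat_lit 380) (nat_lit 7408051793) (nat_lit 456) (nat_lit 1632084094) (nat_lit 113) (nat_lit 5) (nat_lit 118) (nat_lit 5) (nat_lit 119) (nat_lit 5) (nat_lit 492) (nat_lit 395) (nat_lit 253)) (XT.nd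 (nat_lit 78) (nat_lit 0) (nat_lit 0) (XT.lf (nat_lit 0) (nat_lit 937620875) (nat_lit 304) (nat_lit 1505170405) (nat_lit 380) (nat_lit 14960322643) (nat_lit 108) (nat_lit 5) (nat_lit 112) (nat_lit 5) (nat_lit 113) (nat_lit 5) (nat_lit 493) (nat_lit 395) (nat_lit 252)) (XT.lf (nat_lit 0) (nat_lit 6654314420) (nat_lit 380) (nat_lit 6449009708) (nat_lit 76) (nat_lit 4520680905) (nat_lit 108) (nat_lit 5) (nat_lit 113) (nat_lit 5) (nat_lit 109) (nat_lit 5) (nat_lit 494) (nat_lit 395) (nat_lit 251))))) (XT.nd (nat_lit 234) (nat_lit 532) (nat_lit 0) (XT.nd (nat_lit 78) (nat_lit 380) (nat_lit 0) (XT.lf (nat_lit 0) (nat_lit 3786507229) (nat_lit 304) (nat_lit 7184974356) (nat_lit 380) (nat_lit 6877405930) (nat_lit 104) (nat_lit 5) (nat_lit 108) (nat_lit 5) (nat_lit 109) (nat_lit 5) (nat_lit 495) (nat_lit 395) (nat_lit 250)) (XT.nd (nat_lit 78) (nat_lit 380) (nat_lit 0) (XT.lf (nat_lit 0) (nat_lit 14293301837) (nat_lit 304) (nat_lit 1111949787)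 (nat_lit 380) (nat_lit 2672412617) (nat_lit 104) (nat_lit 5) (nat_lit 108) (nat_lit 5) (nat_lit 109) (nat_lit 5) (nat_lit 496) (nat_lit 395) (nat_lit 249)) (XT.lf (nat_lit 0) (nat_lit 1659807689) (nat_lit 380) (nat_lit 11586776095) (nat_lit 76) (nat_lit 5062937899) (nat_lit 99) (nat_lit 5) (nat_lit 104) (nat_lit 5) (nat_lit 100) (nat_lit 5) (nat_lit 497) (nat_lit 395) (nat_lit 248)))) (XT.nd (nat_lit 78) (nat_lit 532) (nat_lit 0) (XT.lf (nat_lit 0) (nat_lit 6063070302) (nat_lit 380) (nat_lit 1100129414) (nat_lit 76) (nat_lit 11382061316) (nat_lit 99) (nat_lit 5) (nat_lit 104) (nat_lit 5) (nat_lit 100) (nat_lit 5) (nat_lit 498) (nat_lit 395) (nat_lit 247)) (XT.nd (nat_lit 78) (nat_lit 228) (nat_lit 0) (XT.lf (nat_lit 0) (nat_lit 9703230767) (nat_lit 304) (nat_lit 901638689) (nat_lit 380) (nat_lit 8179837936) (nat_lit 95) (nat_lit 5) (nat_lit 99) (nat_lit 5) (nat_lit 100) (nat_lit 5) (nat_lit 499) (nat_lit 395) (nat_lit 246))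 (XT.lf (nat_lit 0) (nat_lit 1674732615) (nat_lit 228) (nat_lit 13604226182) (nat_lit 304) (nat_lit 3749156415) (nat_lit 92) (nat_lit 5) (nat_lit 95) (nat_lit 5) (nat_lit 96) (nat_lit 5) (nat_lit 500) (nat_lit 395) (nat_lit 245))))))))
noncomputable def xc132 : XT := (XT.nd (nat_lit 52416) (nat_lit 0) (nat_lit 23028) (XT.nd (nat_lit 51558) (nat_lit 0) (nat_lit 38076) (XT.nd (nat_lit 390) (nat_lit 380) (nat_lit 0) (XT.nd (nat_lit 156) (nat_lit 228) (nat_lit 0) (XT.nd (nat_lit 78) (nat_lit 304) (nat_lit 0) (XT.lf (nat_lit 0) (nat_lit 814920360) (nat_lit 304) (nat_lit 6537757736) (nat_lit 76) (nat_lit 11922516998) (nat_lit 91) (nat_lit 5) (nat_lit 95) (nat_lit 5) (nat_lit 92) (nat_lit 5) (nat_lit 501) (nat_lit 395) (nat_lit 244)) (XT.lf (nat_lit 0) (nat_lit 4508501889) (nat_lit 304) (nat_lit 928704435) (nat_lit 380) (nat_lit 14089173558) (nat_lit 87) (nat_lit 5) (nat_lit 91) (nat_lit 5) (nat_lit 92) (nat_lit 5) (nat_lit 502) (nat_lit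 395) (nat_lit 243))) (XT.nd (nat_lit 78) (nat_lit 228) (nat_lit 0) (XT.lf (nat_lit 0) (nat_lit 10220482933) (nat_lit 380) (nat_lit 3974246768) (nat_lit 76) (nat_lit 5586489261) (nat_lit 87) (nat_lit 5) (nat_lit 92) (nat_lit 5) (nat_lit 88) (nat_lit 5) (nat_lit 503) (nat_lit 395) (nat_lit 242)) (XT.nd (nat_lit 78) (nat_lit 0) (nat_lit 0) (XT.lf (nat_lit 0) (nat_lit 7361000586) (nat_lit 228) (nat_lit 7780474679) (nat_lit 304) (nat_lit 4898840019) (nat_lit 84) (nat_lit 5) (nat_lit 87) (nat_lit 5) (nat_lit 88) (nat_lit 5) (nat_lit 504) (nat_lit 395) (nat_lit 241)) (XT.lf (nat_lit 0) (nat_lit 18957307122) (nat_lit 228) (nat_lit 1218463410) (nat_lit 304) (nat_lit 128526773) (nat_lit 84) (nat_lit 5) (nat_lit 87) (nat_lit 5) (nat_lit 88) (nat_lit 5) (nat_lit 505) (nat_lit 395) (nat_lit 240))))) (XT.nd (nat_lit 50934) (nat_lit 0) (nat_lit 40204) (XT.nd (nat_lit 50778) (nat_lit 0) (nat_lit 41268) (XT.lf (nat_lit 0) (nat_lit 4766428084)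 (nat_lit 380) (nat_lit 10311003883) (nat_lit 76) (nat_lit 5493685951) (nat_lit 79) (nat_lit 5) (nat_lit 84) (nat_lit 5) (nat_lit 80) (nat_lit 5) (nat_lit 506) (nat_lit 395) (nat_lit 239)) (XT.nd (nat_lit 78) (nat_lit 0) (nat_lit 0) (XT.lf (nat_lit 0) (nat_lit 22080738) (nat_lit 0) (nat_lit 22080738) (nat_lit 988) (nat_lit 3422462384) (nat_lit 622) (nat_lit 5) (nat_lit 622) (nat_lit 3) (nat_lit 635) (nat_lit 3) (nat_lit 396) (nat_lit 396) (nat_lit 348)) (XT.lf (nat_lit 0) (nat_lit 1969850451) (nat_lit 988) (nat_lit 3522839264) (nat_lit 1064) (nat_lit 1471559320) (nat_lit 622) (nat_lit 5) (nat_lit 635) (nat_lit 3) (nat_lit 636) (nat_lit 5) (nat_lit 397) (nat_lit 396) (nat_lit 347)))) (XT.nd (nat_lit 78) (nat_lit 1064) (nat_lit 0) (XT.lf (nat_lit 0) (nat_lit 3840384244) (nat_lit 988) (nat_lit 115257498) (nat_lit 1064) (nat_lit 3041219959) (nat_lit 622) (nat_lit 5) (nat_lit 635) (nat_lit 3) (nat_lit 636) (nat_lit 5) (nat_lit 398)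 (nat_lit 396) (nat_lit 346)) (XT.nd (nat_lit 78) (nat_lit 1064) (nat_lit 0) (XT.lf (nat_lit 76) (nat_lit 3379606229) (nat_lit 0) (nat_lit 2342707565) (nat_lit 1064) (nat_lit 1308351594) (nat_lit 623) (nat_lit 5) (nat_lit 622) (nat_lit 5) (nat_lit 636) (nat_lit 5) (nat_lit 399) (nat_lit 396) (nat_lit 345)) (XT.lf (nat_lit 0) (nat_lit 522441301) (nat_lit 1064) (nat_lit 148626992) (nat_lit 1140) (nat_lit 6394954351) (nat_lit 608) (nat_lit 5) (nat_lit 622) (nat_lit 5) (nat_lit 623) (nat_lit 5) (nat_lit 400) (nat_lit 396) (nat_lit 344)))))) (XT.nd (nat_lit 390) (nat_lit 1064) (nat_lit 0) (XT.nd (nat_lit 156) (nat_lit 1140) (nat_lit 0) (XT.nd (nat_lit 78) (nat_lit 0) (nat_lit 0) (XT.lf (nat_lit 0) (nat_lit 2355129362) (nat_lit 1064) (nat_lit 3674407137) (nat_lit 1140) (nat_lit 1072739023) (nat_lit 609) (nat_lit 5) (nat_lit 623) (nat_lit 5) (nat_lit 624) (nat_lit 5) (nat_lit 401) (nat_lit 396) (nat_lit 343)) (XT.lf (nat_lit 0) (nat_lit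 4184226955) (nat_lit 1064) (nat_lit 91852832) (nat_lit 1140) (nat_lit 2863995620) (nat_lit 609) (nat_lit 5) (nat_lit 623) (nat_lit 5) (nat_lit 624) (nat_lit 5) (nat_lit 402) (nat_lit 396) (nat_lit 342))) (XT.nd (nat_lit 78) (nat_lit 1140) (nat_lit 0) (XT.lf (nat_lit 76) (nat_lit 3583789003) (nat_lit 0) (nat_lit 2444589400) (nat_lit 1140) (nat_lit 1150700180) (nat_lit 610) (nat_lit 5) (nat_lit 609) (nat_lit 5) (nat_lit 624) (nat_lit 5) (nat_lit 403) (nat_lit 396) (nat_lit 341)) (XT.nd (nat_lit 78) (nat_lit 0) (nat_lit 76) (XT.lf (nat_lit 76) (nat_lit 85975850) (nat_lit 0) (nat_lit 552306087) (nat_lit 1216) (nat_lit 6581370543) (nat_lit 595) (nat_lit 5) (nat_lit 594) (nat_lit 5) (nat_lit 610) (nat_lit 5) (nat_lit 404) (nat_lit 396) (nat_lit 340)) (XT.lf (nat_lit 0) (nat_lit 2437309560) (nat_lit 1140) (nat_lit 3414517496) (nat_lit 1216) (nat_lit 1409280968) (nat_lit 595) (nat_lit 5) (nat_lit 610) (nat_lit 5) (nat_lit 611) (nat_lit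 5) (nat_lit 405) (nat_lit 396) (nat_lit 339))))) (XT.nd (nat_lit 234) (nat_lit 0) (nat_lit 0) (XT.nd (nat_lit 78) (nat_lit 1140) (nat_lit 0) (XT.lf (nat_lit 76) (nat_lit 353694358) (nat_lit 0) (nat_lit 3881859344) (nat_lit 1216) (nat_lit 3068589711) (nat_lit 596) (nat_lit 5) (nat_lit 595) (nat_lit 5) (nat_lit 611) (nat_lit 5) (nat_lit 406) (nat_lit 396) (nat_lit 338)) (XT.nd (nat_lit 78) (nat_lit 1140) (nat_lit 0) (XT.lf (nat_lit 76) (nat_lit 4217416665) (nat_lit 0) (nat_lit 1833209069) (nat_lit 1216) (nat_lit 1297811670) (nat_lit 596) (nat_lit 5) (nat_lit 595) (nat_lit 5) (nat_lit 611) (nat_lit 5) (nat_lit 407) (nat_lit 396) (nat_lit 337)) (XT.lf (nat_lit 0) (nat_lit 466856744) (nat_lit 1216) (nat_lit 6651042550) (nat_lit 1292) (nat_lit 276363684) (nat_lit 580) (nat_lit 5) (nat_lit 596) (nat_lit 5) (nat_lit 597) (nat_lit 5) (nat_lit 408) (nat_lit 396) (nat_lit 336)))) (XT.nd (nat_lit 78) (nat_lit 0) (nat_lit 0) (XT.lf (nat_lit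 0) (nat_lit 2241975557) (nat_lit 1216) (nat_lit 2751018936) (nat_lit 1292) (nat_lit 2448002582) (nat_lit 580) (nat_lit 5) (nat_lit 596) (nat_lit 5) (nat_lit 597) (nat_lit 5) (nat_lit 409) (nat_lit 396) (nat_lit 335)) (XT.nd (nat_lit 78) (nat_lit 0) (nat_lit 0) (XT.lf (nat_lit 76) (nat_lit 1216540750) (nat_lit 0) (nat_lit 2803982121) (nat_lit 1292) (nat_lit 3468798461) (nat_lit 581) (nat_lit 5) (nat_lit 580) (nat_lit 5) (nat_lit 597) (nat_lit 5) (nat_lit 410) (nat_lit 396) (nat_lit 334)) (XT.lf (nat_lit 76) (nat_lit 5274496681) (nat_lit 0) (nat_lit 539246141) (nat_lit 1292) (nat_lit 1725300943) (nat_lit 581) (nat_lit 5) (nat_lit 580) (nat_lit 5) (nat_lit 597) (nat_lit 5) (nat_lit 411) (nat_lit 396) (nat_lit 333))))))) (XT.nd (nat_lit 858) (nat_lit 9728) (nat_lit 0) (XT.nd (nat_lit 390) (nat_lit 4104) (nat_lit 0) (XT.nd (nat_lit 156) (nat_lit 0) (nat_lit 0) (XT.nd (nat_lit 78) (nat_lit 0) (nat_lit 0) (XT.lf (nat_lit 0) (nat_lit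 36997832) (nat_lit 1292) (nat_lit 5780836756) (nat_lit 1368) (nat_lit 1772239813) (nat_lit 564) (nat_lit 5) (nat_lit 581) (nat_lit 5) (nat_lit 582) (nat_lit 5) (nat_lit 412) (nat_lit 396) (nat_lit 332)) (XT.lf (nat_lit 0) (nat_lit 1792145893) (nat_lit 1292) (nat_lit 1688669935) (nat_lit 1368) (nat_lit 4161480570) (nat_lit 564) (nat_lit 5) (nat_lit 581) (nat_lit 5) (nat_lit 582) (nat_lit 5) (nat_lit 413) (nat_lit 396) (nat_lit 331))) (XT.nd (nat_lit 78) (nat_lit 0) (nat_lit 76) (XT.lf (nat_lit 76) (nat_lit 2491601182) (nat_lit 0) (nat_lit 1069536963) (nat_lit 1368) (nat_lit 4134862542) (nat_lit 565) (nat_lit 5) (nat_lit 564) (nat_lit 5) (nat_lit 582) (nat_lit 5) (nat_lit 414) (nat_lit 396) (nat_lit 330)) (XT.nd (nat_lit 78) (nat_lit 0) (nat_lit 0) (XT.lf (nat_lit 0) (nat_lit 5349138509) (nat_lit 1292) (nat_lit 1008345905) (nat_lit 1368) (nat_lit 1393634514) (nat_lit 565) (nat_lit 5) (nat_lit 582) (nat_lit 5) (nat_lit 583) (nat_lit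 5) (nat_lit 415) (nat_lit 396) (nat_lit 329)) (XT.lf (nat_lit 76) (nat_lit 3281045944) (nat_lit 0) (nat_lit 3884157086) (nat_lit 1368) (nat_lit 642302607) (nat_lit 566) (nat_lit 5) (nat_lit 565) (nat_lit 5) (nat_lit 583) (nat_lit 5) (nat_lit 416) (nat_lit 396) (nat_lit 328))))) (XT.nd (nat_lit 234) (nat_lit 1520) (nat_lit 0) (XT.nd (nat_lit 78) (nat_lit 1292) (nat_lit 0) (XT.lf (nat_lit 0) (nat_lit 1108471520) (nat_lit 1368) (nat_lit 229362912) (nat_lit 1444) (nat_lit 6527627320) (nat_lit 547) (nat_lit 5) (nat_lit 565) (nat_lit 5) (nat_lit 566) (nat_lit 5) (nat_lit 417) (nat_lit 396) (nat_lit 327)) (XT.nd (nat_lit 78) (nat_lit 1368) (nat_lit 0) (XT.lf (nat_lit 0) (nat_lit 2886145528) (nat_lit 1368) (nat_lit 3755206168) (nat_lit 76) (nat_lit 1283142168) (nat_lit 548) (nat_lit 5) (nat_lit 566) (nat_lit 5) (nat_lit 549) (nat_lit 5) (nat_lit 418) (nat_lit 396) (nat_lit 326)) (XT.lf (nat_lit 0) (nat_lit 647058767) (nat_lit 1368)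 (nat_lit 4032406950) (nat_lit 1444) (nat_lit 3305650306) (nat_lit 530) (nat_lit 5) (nat_lit 548) (nat_lit 5) (nat_lit 549) (nat_lit 5) (nat_lit 419) (nat_lit 396) (nat_lit 325)))) (XT.nd (nat_lit 78) (nat_lit 1520) (nat_lit 0) (XT.lf (nat_lit 0) (nat_lit 5161546739) (nat_lit 1368) (nat_lit 1338290677) (nat_lit 1444) (nat_lit 1547300544) (nat_lit 530) (nat_lit 5) (nat_lit 548) (nat_lit 5) (nat_lit 549) (nat_lit 5) (nat_lit 420) (nat_lit 396) (nat_lit 324)) (XT.nd (nat_lit 78) (nat_lit 0) (nat_lit 0) (XT.lf (nat_lit 0) (nat_lit 229395700) (nat_lit 1520) (nat_lit 6470817108) (nat_lit 76) (nat_lit 1410437994) (nat_lit 510) (nat_lit 5) (nat_lit 530) (nat_lit 5) (nat_lit 511) (nat_lit 5) (nat_lit 421) (nat_lit 396) (nat_lit 323)) (XT.lf (nat_lit 0) (nat_lit 2016232312) (nat_lit 1520) (nat_lit 1926600367) (nat_lit 76) (nat_lit 4232500573) (nat_lit 510) (nat_lit 5) (nat_lit 530) (nat_lit 5) (nat_lit 511) (nat_lit 5) (nat_lit 422) (nat_lit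 396) (nat_lit 322)))))) (XT.nd (nat_lit 468) (nat_lit 3116) (nat_lit 0) (XT.nd (nat_lit 234) (nat_lit 3496) (nat_lit 0) (XT.nd (nat_lit 78) (nat_lit 1596) (nat_lit 0) (XT.lf (nat_lit 0) (nat_lit 2717476500) (nat_lit 1520) (nat_lit 1106571348) (nat_lit 1596) (nat_lit 4417566856) (nat_lit 490) (nat_lit 5) (nat_lit 510) (nat_lit 5) (nat_lit 511) (nat_lit 5) (nat_lit 423) (nat_lit 396) (nat_lit 321)) (XT.nd (nat_lit 78) (nat_lit 1596) (nat_lit 0) (XT.lf (nat_lit 0) (nat_lit 5660729663) (nat_lit 1596) (nat_lit 867270064) (nat_lit 76) (nat_lit 1781377858) (nat_lit 490) (nat_lit 5) (nat_lit 511) (nat_lit 5) (nat_lit 491) (nat_lit 5) (nat_lit 424) (nat_lit 396) (nat_lit 320)) (XT.lf (nat_lit 0) (nat_lit 3899914928) (nat_lit 1596) (nat_lit 3635602102) (nat_lit 1672) (nat_lit 842961056) (nat_lit 469) (nat_lit 5) (nat_lit 490) (nat_lit 5) (nat_lit 491) (nat_lit 5) (nat_lit 425) (nat_lit 396) (nat_lit 319)))) (XT.nd (nat_lit 78) (nat_lit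 1748) (nat_lit 0) (XT.lf (nat_lit 0) (nat_lit 295824517) (nat_lit 1672) (nat_lit 666644691) (nat_lit 1748) (nat_lit 7486836514) (nat_lit 446) (nat_lit 5) (nat_lit 468) (nat_lit 5) (nat_lit 469) (nat_lit 5) (nat_lit 426) (nat_lit 396) (nat_lit 318)) (XT.nd (nat_lit 78) (nat_lit 1748) (nat_lit 0) (XT.lf (nat_lit 0) (nat_lit 2807728888) (nat_lit 1748) (nat_lit 3343013087) (nat_lit 76) (nat_lit 2370405572) (nat_lit 446) (nat_lit 5) (nat_lit 469) (nat_lit 5) (nat_lit 447) (nat_lit 5) (nat_lit 427) (nat_lit 396) (nat_lit 317)) (XT.lf (nat_lit 0) (nat_lit 1552794041) (nat_lit 1748) (nat_lit 3121607423) (nat_lit 1824) (nat_lit 3920343645) (nat_lit 423) (nat_lit 5) (nat_lit 446) (nat_lit 5) (nat_lit 447) (nat_lit 5) (nat_lit 428) (nat_lit 396) (nat_lit 316))))) (XT.nd (nat_lit 234) (nat_lit 1748) (nat_lit 0) (XT.nd (nat_lit 78) (nat_lit 1368) (nat_lit 0) (XT.lf (nat_lit 0) (nat_lit 6565188528) (nat_lit 1748) (nat_lit 6078437) (nat_lit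 1824) (nat_lit 2098699346) (nat_lit 423) (nat_lit 5) (nat_lit 446) (nat_lit 5) (nat_lit 447) (nat_lit 5) (nat_lit 429) (nat_lit 396) (nat_lit 315)) (XT.nd (nat_lit 78) (nat_lit 76) (nat_lit 0) (XT.lf (nat_lit 0) (nat_lit 2922141194) (nat_lit 1292) (nat_lit 5594518863) (nat_lit 1368) (nat_lit 229828777) (nat_lit 406) (nat_lit 5) (nat_lit 423) (nat_lit 5) (nat_lit 424) (nat_lit 5) (nat_lit 430) (nat_lit 396) (nat_lit 314)) (XT.lf (nat_lit 0) (nat_lit 1639913300) (nat_lit 1368) (nat_lit 784092130) (nat_lit 76) (nat_lit 6400617443) (nat_lit 405) (nat_lit 5) (nat_lit 423) (nat_lit 5) (nat_lit 406) (nat_lit 5) (nat_lit 431) (nat_lit 396) (nat_lit 313)))) (XT.nd (nat_lit 78) (nat_lit 836) (nat_lit 0) (XT.lf (nat_lit 0) (nat_lit 3549711983) (nat_lit 988) (nat_lit 4523199550) (nat_lit 76) (nat_lit 831271092) (nat_lit 393) (nat_lit 5) (nat_lit 406) (nat_lit 5) (nat_lit 394) (nat_lit 5) (nat_lit 432) (nat_lit 396) (nat_lit 312)) (XT.nd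 (nat_lit 78) (nat_lit 0) (nat_lit 0) (XT.lf (nat_lit 0) (nat_lit 640252369) (nat_lit 836) (nat_lit 4855140817) (nat_lit 912) (nat_lit 3489994698) (nat_lit 382) (nat_lit 5) (nat_lit 393) (nat_lit 5) (nat_lit 394) (nat_lit 5) (nat_lit 433) (nat_lit 396) (nat_lit 311)) (XT.lf (nat_lit 0) (nat_lit 5941646100) (nat_lit 836) (nat_lit 1541247555) (nat_lit 912) (nat_lit 1585273363) (nat_lit 382) (nat_lit 5) (nat_lit 393) (nat_lit 5) (nat_lit 394) (nat_lit 5) (nat_lit 434) (nat_lit 396) (nat_lit 310))))))))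
noncomputable def xc133 : XT := (XT.nd (nat_lit 1716) (nat_lit 7372) (nat_lit 0) (XT.nd (nat_lit 858) (nat_lit 4104) (nat_lit 0) (XT.nd (nat_lit 390) (nat_lit 3192) (nat_lit 0) (XT.nd (nat_lit 156) (nat_lit 1672) (nat_lit 0) (XT.nd (nat_lit 78) (nat_lit 0) (nat_lit 0) (XT.lf (nat_lit 0) (nat_lit 352072307) (nat_lit 988) (nat_lit 6968406921) (nat_lit 76) (nat_lit 1832099272) (nat_lit 369) (nat_lit 5) (nat_lit 382) (nat_lit 5) (nat_lit 370) (nat_lit 5) (nat_lit 435) (nat_lit 396) (nat_lit 309)) (XT.lf (nat_lit 0) (nat_lit 2311552540) (nat_lit 988) (nat_lit 1642500543) (nat_lit 76) (nat_lit 5284330695) (nat_lit 369) (nat_lit 5) (nat_lit 382) (nat_lit 5) (nat_lit 370) (nat_lit 5) (nat_lit 436) (nat_lit 396) (nat_lit 308))) (XT.nd (nat_lit 78) (nat_lit 836) (nat_lit 0) (XT.lf (nat_lit 0) (nat_lit 3813610440) (nat_lit 836) (nat_lit 495164715) (nat_lit 912) (nat_lit 5017166234) (nat_lit 358) (nat_lit 5) (nat_lit 369) (nat_lit 5) (nat_lit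 370) (nat_lit 5) (nat_lit 437) (nat_lit 396) (nat_lit 307)) (XT.nd (nat_lit 78) (nat_lit 836) (nat_lit 0) (XT.lf (nat_lit 0) (nat_lit 6350863307) (nat_lit 912) (nat_lit 60365141) (nat_lit 76) (nat_lit 3003930421) (nat_lit 358) (nat_lit 5) (nat_lit 370) (nat_lit 5) (nat_lit 359) (nat_lit 5) (nat_lit 438) (nat_lit 396) (nat_lit 306)) (XT.lf (nat_lit 0) (nat_lit 5543914297) (nat_lit 836) (nat_lit 2903794537) (nat_lit 912) (nat_lit 1058180554) (nat_lit 347) (nat_lit 5) (nat_lit 358) (nat_lit 5) (nat_lit 359) (nat_lit 5) (nat_lit 439) (nat_lit 396) (nat_lit 305))))) (XT.nd (nat_lit 234) (nat_lit 1596) (nat_lit 0) (XT.nd (nat_lit 78) (nat_lit 760) (nat_lit 0) (XT.lf (nat_lit 0) (nat_lit 965510366) (nat_lit 836) (nat_lit 7951489160) (nat_lit 76) (nat_lit 681505173) (nat_lit 336) (nat_lit 5) (nat_lit 347) (nat_lit 5) (nat_lit 337) (nat_lit 5) (nat_lit 440) (nat_lit 396) (nat_lit 304)) (XT.nd (nat_lit 78) (nat_lit 760) (nat_lit 0) (XT.lf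 (nat_lit 0) (nat_lit 3036626438) (nat_lit 836) (nat_lit 2323611446) (nat_lit 76) (nat_lit 4332178730) (nat_lit 336) (nat_lit 5) (nat_lit 347) (nat_lit 5) (nat_lit 337) (nat_lit 5) (nat_lit 441) (nat_lit 396) (nat_lit 303)) (XT.lf (nat_lit 0) (nat_lit 3435758780) (nat_lit 760) (nat_lit 1711314929) (nat_lit 836) (nat_lit 4641181346) (nat_lit 326) (nat_lit 5) (nat_lit 336) (nat_lit 5) (nat_lit 337) (nat_lit 5) (nat_lit 442) (nat_lit 396) (nat_lit 302)))) (XT.nd (nat_lit 78) (nat_lit 1596) (nat_lit 0) (XT.lf (nat_lit 0) (nat_lit 7304379339) (nat_lit 836) (nat_lit 583471915) (nat_lit 76) (nat_lit 1998072364) (nat_lit 326) (nat_lit 5) (nat_lit 337) (nat_lit 5) (nat_lit 327) (nat_lit 5) (nat_lit 443) (nat_lit 396) (nat_lit 301)) (XT.nd (nat_lit 78) (nat_lit 836) (nat_lit 0) (XT.lf (nat_lit 0) (nat_lit 5333639842) (nat_lit 760) (nat_lit 4193525971) (nat_lit 836) (nat_lit 457939260) (nat_lit 316) (nat_lit 5) (nat_lit 326) (nat_lit 5)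 (nat_lit 327) (nat_lit 5) (nat_lit 444) (nat_lit 396) (nat_lit 300)) (XT.lf (nat_lit 0) (nat_lit 1270295734) (nat_lit 760) (nat_lit 404136156) (nat_lit 836) (nat_lit 8411848503) (nat_lit 305) (nat_lit 5) (nat_lit 315) (nat_lit 5) (nat_lit 316) (nat_lit 5) (nat_lit 445) (nat_lit 396) (nat_lit 299)))))) (XT.nd (nat_lit 390) (nat_lit 1976) (nat_lit 0) (XT.nd (nat_lit 156) (nat_lit 1444) (nat_lit 0) (XT.nd (nat_lit 78) (nat_lit 684) (nat_lit 0) (XT.lf (nat_lit 0) (nat_lit 3873998991) (nat_lit 836) (nat_lit 2867362178) (nat_lit 76) (nat_lit 3447449760) (nat_lit 305) (nat_lit 5) (nat_lit 316) (nat_lit 5) (nat_lit 306) (nat_lit 5) (nat_lit 446) (nat_lit 396) (nat_lit 298)) (XT.lf (nat_lit 0) (nat_lit 3213883298) (nat_lit 684) (nat_lit 2904455170) (nat_lit 760) (nat_lit 4175043732) (nat_lit 296) (nat_lit 5) (nat_lit 305) (nat_lit 5) (nat_lit 306) (nat_lit 5) (nat_lit 447) (nat_lit 396) (nat_lit 297))) (XT.nd (nat_lit 78) (nat_lit 1444)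 (nat_lit 0) (XT.lf (nat_lit 0) (nat_lit 8410983127) (nat_lit 760) (nat_lit 976806787) (nat_lit 76) (nat_lit 1012192240) (nat_lit 296) (nat_lit 5) (nat_lit 306) (nat_lit 5) (nat_lit 297) (nat_lit 5) (nat_lit 448) (nat_lit 396) (nat_lit 296)) (XT.nd (nat_lit 78) (nat_lit 684) (nat_lit 0) (XT.lf (nat_lit 0) (nat_lit 269215669) (nat_lit 760) (nat_lit 5237588476) (nat_lit 76) (nat_lit 5001251977) (nat_lit 286) (nat_lit 5) (nat_lit 296) (nat_lit 5) (nat_lit 287) (nat_lit 5) (nat_lit 449) (nat_lit 396) (nat_lit 295)) (XT.lf (nat_lit 0) (nat_lit 1012120909) (nat_lit 684) (nat_lit 1525091914) (nat_lit 760) (nat_lit 8080996087) (nat_lit 277) (nat_lit 5) (nat_lit 286) (nat_lit 5) (nat_lit 287) (nat_lit 5) (nat_lit 450) (nat_lit 396) (nat_lit 294))))) (XT.nd (nat_lit 234) (nat_lit 1292) (nat_lit 0) (XT.nd (nat_lit 78) (nat_lit 684) (nat_lit 0) (XT.lf (nat_lit 0) (nat_lit 4880712435) (nat_lit 760) (nat_lit 3314690496) (nat_lit 76) (nat_lit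 2534564174) (nat_lit 277) (nat_lit 5) (nat_lit 287) (nat_lit 5) (nat_lit 278) (nat_lit 5) (nat_lit 451) (nat_lit 396) (nat_lit 293)) (XT.nd (nat_lit 78) (nat_lit 0) (nat_lit 0) (XT.lf (nat_lit 0) (nat_lit 3107752325) (nat_lit 684) (nat_lit 4172328553) (nat_lit 760) (nat_lit 3563704707) (nat_lit 268) (nat_lit 5) (nat_lit 277) (nat_lit 5) (nat_lit 278) (nat_lit 5) (nat_lit 452) (nat_lit 396) (nat_lit 292)) (XT.lf (nat_lit 0) (nat_lit 9678301464) (nat_lit 684) (nat_lit 50352982) (nat_lit 760) (nat_lit 1231206633) (nat_lit 268) (nat_lit 5) (nat_lit 277) (nat_lit 5) (nat_lit 278) (nat_lit 5) (nat_lit 453) (nat_lit 396) (nat_lit 291)))) (XT.nd (nat_lit 78) (nat_lit 608) (nat_lit 0) (XT.lf (nat_lit 0) (nat_lit 1174020929) (nat_lit 684) (nat_lit 5765537513) (nat_lit 76) (nat_lit 4137732682) (nat_lit 259) (nat_lit 5) (nat_lit 268) (nat_lit 5) (nat_lit 260) (nat_lit 5) (nat_lit 454) (nat_lit 396) (nat_lit 290)) (XT.nd (nat_lit 78) (nat_lit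 0) (nat_lit 0) (XT.lf (nat_lit 0) (nat_lit 834527424) (nat_lit 608) (nat_lit 2770226043) (nat_lit 684) (nat_lit 7592280523) (nat_lit 251) (nat_lit 5) (nat_lit 259) (nat_lit 5) (nat_lit 260) (nat_lit 5) (nat_lit 455) (nat_lit 396) (nat_lit 289)) (XT.lf (nat_lit 0) (nat_lit 6112342582) (nat_lit 684) (nat_lit 3709026081) (nat_lit 76) (nat_lit 1497242830) (nat_lit 251) (nat_lit 5) (nat_lit 260) (nat_lit 5) (nat_lit 252) (nat_lit 5) (nat_lit 456) (nat_lit 396) (nat_lit 288))))))) (XT.nd (nat_lit 858) (nat_lit 3420) (nat_lit 0) (XT.nd (nat_lit 390) (nat_lit 2128) (nat_lit 0) (XT.nd (nat_lit 156) (nat_lit 1216) (nat_lit 0) (XT.nd (nat_lit 78) (nat_lit 0) (nat_lit 0) (XT.lf (nat_lit 0) (nat_lit 3074507085) (nat_lit 608) (nat_lit 5613953199) (nat_lit 684) (nat_lit 2753797254) (nat_lit 243) (nat_lit 5) (nat_lit 251) (nat_lit 5) (nat_lit 252) (nat_lit 5) (nat_lit 457) (nat_lit 396) (nat_lit 287)) (XT.lf (nat_lit 0) (nat_lit 10019158397)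 (nat_lit 608) (nat_lit 1302130249) (nat_lit 684) (nat_lit 246988530) (nat_lit 243) (nat_lit 5) (nat_lit 251) (nat_lit 5) (nat_lit 252) (nat_lit 5) (nat_lit 458) (nat_lit 396) (nat_lit 286))) (XT.nd (nat_lit 78) (nat_lit 532) (nat_lit 0) (XT.lf (nat_lit 0) (nat_lit 2315918708) (nat_lit 684) (nat_lit 6279007207) (nat_lit 76) (nat_lit 3100870447) (nat_lit 234) (nat_lit 5) (nat_lit 243) (nat_lit 5) (nat_lit 235) (nat_lit 5) (nat_lit 459) (nat_lit 396) (nat_lit 285)) (XT.nd (nat_lit 78) (nat_lit 0) (nat_lit 0) (XT.lf (nat_lit 0) (nat_lit 691296392) (nat_lit 532) (nat_lit 4239801203) (nat_lit 608) (nat_lit 6894653453) (nat_lit 227) (nat_lit 5) (nat_lit 234) (nat_lit 5) (nat_lit 235) (nat_lit 5) (nat_lit 460) (nat_lit 396) (nat_lit 284)) (XT.lf (nat_lit 0) (nat_lit 7623231789) (nat_lit 608) (nat_lit 4097919350) (nat_lit 76) (nat_lit 236664757) (nat_lit 227) (nat_lit 5) (nat_lit 235) (nat_lit 5) (nat_lit 228) (nat_lit 5) (nat_lit 461)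 (nat_lit 396) (nat_lit 283))))) (XT.nd (nat_lit 234) (nat_lit 988) (nat_lit 0) (XT.nd (nat_lit 78) (nat_lit 608) (nat_lit 0) (XT.lf (nat_lit 0) (nat_lit 3066999065) (nat_lit 532) (nat_lit 7331497762) (nat_lit 608) (nat_lit 1693443470) (nat_lit 220) (nat_lit 5) (nat_lit 227) (nat_lit 5) (nat_lit 228) (nat_lit 5) (nat_lit 462) (nat_lit 396) (nat_lit 282)) (XT.nd (nat_lit 78) (nat_lit 532) (nat_lit 0) (XT.lf (nat_lit 0) (nat_lit 996458679) (nat_lit 608) (nat_lit 1828694999) (nat_lit 76) (nat_lit 9403286237) (nat_lit 219) (nat_lit 5) (nat_lit 227) (nat_lit 5) (nat_lit 220) (nat_lit 5) (nat_lit 463) (nat_lit 396) (nat_lit 281)) (XT.lf (nat_lit 0) (nat_lit 3747052196) (nat_lit 608) (nat_lit 6829934307) (nat_lit 76) (nat_lit 1789871568) (nat_lit 212) (nat_lit 5) (nat_lit 220) (nat_lit 5) (nat_lit 213) (nat_lit 5) (nat_lit 464) (nat_lit 396) (nat_lit 280)))) (XT.nd (nat_lit 78) (nat_lit 456) (nat_lit 0) (XT.lf (nat_lit 0) (nat_lit 530744300)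 (nat_lit 532) (nat_lit 6038330381) (nat_lit 608) (nat_lit 5938645283) (nat_lit 205) (nat_lit 5) (nat_lit 212) (nat_lit 5) (nat_lit 213) (nat_lit 5) (nat_lit 465) (nat_lit 396) (nat_lit 279)) (XT.nd (nat_lit 78) (nat_lit 456) (nat_lit 0) (XT.lf (nat_lit 0) (nat_lit 8107107909) (nat_lit 532) (nat_lit 1368369104) (nat_lit 608) (nat_lit 3175366934) (nat_lit 205) (nat_lit 5) (nat_lit 212) (nat_lit 5) (nat_lit 213) (nat_lit 5) (nat_lit 466) (nat_lit 396) (nat_lit 278)) (XT.lf (nat_lit 0) (nat_lit 3031938035) (nat_lit 456) (nat_lit 9432215459) (nat_lit 532) (nat_lit 332197563) (nat_lit 199) (nat_lit 5) (nat_lit 205) (nat_lit 5) (nat_lit 206) (nat_lit 5) (nat_lit 467) (nat_lit 396) (nat_lit 277)))))) (XT.nd (nat_lit 468) (nat_lit 1824) (nat_lit 0) (XT.nd (nat_lit 234) (nat_lit 532) (nat_lit 0) (XT.nd (nat_lit 78) (nat_lit 988) (nat_lit 0) (XT.lf (nat_lit 0) (nat_lit 2556402241) (nat_lit 532) (nat_lit 2173408200) (nat_lit 76) (nat_lit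 8214182965) (nat_lit 198) (nat_lit 5) (nat_lit 205) (nat_lit 5) (nat_lit 199) (nat_lit 5) (nat_lit 468) (nat_lit 396) (nat_lit 276)) (XT.nd (nat_lit 78) (nat_lit 456) (nat_lit 0) (XT.lf (nat_lit 0) (nat_lit 5518281959) (nat_lit 608) (nat_lit 7477479722) (nat_lit 76) (nat_lit 98387248) (nat_lit 191) (nat_lit 5) (nat_lit 199) (nat_lit 5) (nat_lit 192) (nat_lit 5) (nat_lit 469) (nat_lit 396) (nat_lit 275)) (XT.lf (nat_lit 0) (nat_lit 293719943) (nat_lit 456) (nat_lit 8276567020) (nat_lit 532) (nat_lit 4676406144) (nat_lit 185) (nat_lit 5) (nat_lit 191) (nat_lit 5) (nat_lit 192) (nat_lit 5) (nat_lit 470) (nat_lit 396) (nat_lit 274)))) (XT.nd (nat_lit 78) (nat_lit 532) (nat_lit 0) (XT.lf (nat_lit 0) (nat_lit 8298152939) (nat_lit 456) (nat_lit 3418513972) (nat_lit 532) (nat_lit 1684957795) (nat_lit 185) (nat_lit 5) (nat_lit 191) (nat_lit 5) (nat_lit 192) (nat_lit 5) (nat_lit 471) (nat_lit 396) (nat_lit 273)) (XT.nd (nat_lit 78) (nat_lit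 0) (nat_lit 0) (XT.lf (nat_lit 0) (nat_lit 1360779554) (nat_lit 532) (nat_lit 10660564718) (nat_lit 76) (nat_lit 1537888759) (nat_lit 178) (nat_lit 5) (nat_lit 185) (nat_lit 5) (nat_lit 179) (nat_lit 5) (nat_lit 472) (nat_lit 396) (nat_lit 272)) (XT.lf (nat_lit 0) (nat_lit 4485510956) (nat_lit 532) (nat_lit 2646750375) (nat_lit 76) (nat_lit 6586699671) (nat_lit 178) (nat_lit 5) (nat_lit 185) (nat_lit 5) (nat_lit 179) (nat_lit 5) (nat_lit 473) (nat_lit 396) (nat_lit 271))))) (XT.nd (nat_lit 234) (nat_lit 836) (nat_lit 0) (XT.nd (nat_lit 78) (nat_lit 532) (nat_lit 0) (XT.lf (nat_lit 0) (nat_lit 5577502692) (nat_lit 456) (nat_lit 2115277386) (nat_lit 532) (nat_lit 6188705579) (nat_lit 172) (nat_lit 5) (nat_lit 178) (nat_lit 5) (nat_lit 179) (nat_lit 5) (nat_lit 474) (nat_lit 396) (nat_lit 270)) (XT.nd (nat_lit 78) (nat_lit 532) (nat_lit 0) (XT.lf (nat_lit 0) (nat_lit 10985519222) (nat_lit 532) (nat_lit 87511111) (nat_lit 76) (nat_lit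 2973806908) (nat_lit 172) (nat_lit 5) (nat_lit 179) (nat_lit 5) (nat_lit 173) (nat_lit 5) (nat_lit 475) (nat_lit 396) (nat_lit 269)) (XT.lf (nat_lit 0) (nat_lit 179873541) (nat_lit 532) (nat_lit 5849283916) (nat_lit 76) (nat_lit 8185265652) (nat_lit 165) (nat_lit 5) (nat_lit 172) (nat_lit 5) (nat_lit 166) (nat_lit 5) (nat_lit 476) (nat_lit 396) (nat_lit 268)))) (XT.nd (nat_lit 78) (nat_lit 456) (nat_lit 0) (XT.lf (nat_lit 0) (nat_lit 2593695466) (nat_lit 380) (nat_lit 852997529) (nat_lit 456) (nat_lit 10938229850) (nat_lit 160) (nat_lit 5) (nat_lit 165) (nat_lit 5) (nat_lit 166) (nat_lit 5) (nat_lit 477) (nat_lit 396) (nat_lit 267)) (XT.nd (nat_lit 78) (nat_lit 456) (nat_lit 0) (XT.lf (nat_lit 0) (nat_lit 6831542136) (nat_lit 456) (nat_lit 3325066674) (nat_lit 76) (nat_lit 4401172607) (nat_lit 160) (nat_lit 5) (nat_lit 166) (nat_lit 5) (nat_lit 161) (nat_lit 5) (nat_lit 478) (nat_lit 396) (nat_lit 266)) (XT.lf (nat_lit 0) (nat_lit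 5352574876) (nat_lit 456) (nat_lit 4956660523) (nat_lit 532) (nat_lit 4424361470) (nat_lit 154) (nat_lit 5) (nat_lit 160) (nat_lit 5) (nat_lit 161) (nat_lit 5) (nat_lit 479) (nat_lit 396) (nat_lit 265))))))))
noncomputable def xc134 : XT := (XT.nd (nat_lit 1716) (nat_lit 988) (nat_lit 0) (XT.nd (nat_lit 858) (nat_lit 2280) (nat_lit 0) (XT.nd (nat_lit 390) (nat_lit 1216) (nat_lit 0) (XT.nd (nat_lit 156) (nat_lit 760) (nat_lit 0) (XT.nd (nat_lit 78) (nat_lit 456) (nat_lit 0) (XT.lf (nat_lit 0) (nat_lit 13866052014) (nat_lit 532) (nat_lit 688547773) (nat_lit 76) (nat_lit 358140055) (nat_lit 154) (nat_lit 5) (nat_lit 161) (nat_lit 5) (nat_lit 155) (nat_lit 5) (nat_lit 480) (nat_lit 396) (nat_lit 264)) (XT.lf (nat_lit 0) (nat_lit 2438969003) (nat_lit 456) (nat_lit 6879249448) (nat_lit 76) (nat_lit 5775500523) (nat_lit 148) (nat_lit 5) (nat_lit 154) (nat_lit 5) (nat_lit 149) (nat_lit 5) (nat_lit 481) (nat_lit 396) (nat_lit 263)))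 (XT.nd (nat_lit 78) (nat_lit 380) (nat_lit 0) (XT.lf (nat_lit 0) (nat_lit 2024122811) (nat_lit 380) (nat_lit 3959207145) (nat_lit 456) (nat_lit 9294791690) (nat_lit 143) (nat_lit 5) (nat_lit 148) (nat_lit 5) (nat_lit 149) (nat_lit 5) (nat_lit 482) (nat_lit 396) (nat_lit 262)) (XT.nd (nat_lit 78) (nat_lit 380) (nat_lit 0) (XT.lf (nat_lit 0) (nat_lit 9640131566) (nat_lit 456) (nat_lit 4298785992) (nat_lit 76) (nat_lit 1526466147) (nat_lit 143) (nat_lit 5) (nat_lit 149) (nat_lit 5) (nat_lit 144) (nat_lit 5) (nat_lit 483) (nat_lit 396) (nat_lit 261)) (XT.lf (nat_lit 0) (nat_lit 4851151206) (nat_lit 380) (nat_lit 8562223036) (nat_lit 456) (nat_lit 2242153018) (nat_lit 138) (nat_lit 5) (nat_lit 143) (nat_lit 5) (nat_lit 144) (nat_lit 5) (nat_lit 484) (nat_lit 396) (nat_lit 260))))) (XT.nd (nat_lit 234) (nat_lit 456) (nat_lit 0) (XT.nd (nat_lit 78) (nat_lit 684) (nat_lit 0) (XT.lf (nat_lit 0) (nat_lit 1408753160) (nat_lit 456) (nat_lit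 1637734629) (nat_lit 76) (nat_lit 12802511296) (nat_lit 137) (nat_lit 5) (nat_lit 143) (nat_lit 5) (nat_lit 138) (nat_lit 5) (nat_lit 485) (nat_lit 396) (nat_lit 259)) (XT.nd (nat_lit 78) (nat_lit 304) (nat_lit 0) (XT.lf (nat_lit 0) (nat_lit 5156231696) (nat_lit 456) (nat_lit 8284455496) (nat_lit 76) (nat_lit 2604287428) (nat_lit 132) (nat_lit 5) (nat_lit 138) (nat_lit 5) (nat_lit 133) (nat_lit 5) (nat_lit 486) (nat_lit 396) (nat_lit 258)) (XT.lf (nat_lit 0) (nat_lit 1096927982) (nat_lit 304) (nat_lit 7906097882) (nat_lit 380) (nat_lit 7241358657) (nat_lit 128) (nat_lit 5) (nat_lit 132) (nat_lit 5) (nat_lit 133) (nat_lit 5) (nat_lit 487) (nat_lit 396) (nat_lit 257)))) (XT.nd (nat_lit 78) (nat_lit 456) (nat_lit 0) (XT.lf (nat_lit 0) (nat_lit 10756880298) (nat_lit 304) (nat_lit 2211610225) (nat_lit 380) (nat_lit 3478459538) (nat_lit 128) (nat_lit 5) (nat_lit 132) (nat_lit 5) (nat_lit 133) (nat_lit 5) (nat_lit 488) (nat_lit 396)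 (nat_lit 256)) (XT.nd (nat_lit 78) (nat_lit 0) (nat_lit 0) (XT.lf (nat_lit 0) (nat_lit 390667454) (nat_lit 456) (nat_lit 12691494351) (nat_lit 76) (nat_lit 3570646701) (nat_lit 122) (nat_lit 5) (nat_lit 128) (nat_lit 5) (nat_lit 123) (nat_lit 5) (nat_lit 489) (nat_lit 396) (nat_lit 255)) (XT.lf (nat_lit 0) (nat_lit 4330131549) (nat_lit 456) (nat_lit 3038307344) (nat_lit 76) (nat_lit 9493096763) (nat_lit 122) (nat_lit 5) (nat_lit 128) (nat_lit 5) (nat_lit 123) (nat_lit 5) (nat_lit 490) (nat_lit 396) (nat_lit 254)))))) (XT.nd (nat_lit 390) (nat_lit 1216) (nat_lit 0) (XT.nd (nat_lit 156) (nat_lit 760) (nat_lit 0) (XT.nd (nat_lit 78) (nat_lit 0) (nat_lit 0) (XT.lf (nat_lit 0) (nat_lit 6877349327) (nat_lit 304) (nat_lit 1502359421) (nat_lit 380) (nat_lit 8694104096) (nat_lit 118) (nat_lit 5) (nat_lit 122) (nat_lit 5) (nat_lit 123) (nat_lit 5) (nat_lit 491) (nat_lit 396) (nat_lit 253)) (XT.lf (nat_lit 0) (nat_lit 12546645402) (nat_lit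 380) (nat_lit 307525059) (nat_lit 76) (nat_lit 4435439688) (nat_lit 118) (nat_lit 5) (nat_lit 123) (nat_lit 5) (nat_lit 119) (nat_lit 5) (nat_lit 492) (nat_lit 396) (nat_lit 252))) (XT.nd (nat_lit 78) (nat_lit 380) (nat_lit 0) (XT.lf (nat_lit 0) (nat_lit 9878335657) (nat_lit 380) (nat_lit 6979681388) (nat_lit 456) (nat_lit 650486324) (nat_lit 113) (nat_lit 5) (nat_lit 118) (nat_lit 5) (nat_lit 119) (nat_lit 5) (nat_lit 493) (nat_lit 396) (nat_lit 251)) (XT.nd (nat_lit 78) (nat_lit 0) (nat_lit 0) (XT.lf (nat_lit 0) (nat_lit 2530136796) (nat_lit 304) (nat_lit 953039519) (nat_lit 380) (nat_lit 14248031367) (nat_lit 108) (nat_lit 5) (nat_lit 112) (nat_lit 5) (nat_lit 113) (nat_lit 5) (nat_lit 494) (nat_lit 396) (nat_lit 250)) (XT.lf (nat_lit 0) (nat_lit 7763194298) (nat_lit 380) (nat_lit 5019213656) (nat_lit 76) (nat_lit 5174426078) (nat_lit 108) (nat_lit 5) (nat_lit 113) (nat_lit 5) (nat_lit 109) (nat_lit 5) (nat_lit 495) (nat_lit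 396) (nat_lit 249))))) (XT.nd (nat_lit 234) (nat_lit 532) (nat_lit 0) (XT.nd (nat_lit 78) (nat_lit 380) (nat_lit 0) (XT.lf (nat_lit 0) (nat_lit 5410758513) (nat_lit 304) (nat_lit 6746867112) (nat_lit 380) (nat_lit 6028772774) (nat_lit 104) (nat_lit 5) (nat_lit 108) (nat_lit 5) (nat_lit 109) (nat_lit 5) (nat_lit 496) (nat_lit 396) (nat_lit 248)) (XT.nd (nat_lit 78) (nat_lit 380) (nat_lit 0) (XT.lf (nat_lit 0) (nat_lit 16097325853) (nat_lit 304) (nat_lit 563790027) (nat_lit 380) (nat_lit 1759016482) (nat_lit 104) (nat_lit 5) (nat_lit 108) (nat_lit 5) (nat_lit 109) (nat_lit 5) (nat_lit 497) (nat_lit 396) (nat_lit 247)) (XT.lf (nat_lit 0) (nat_lit 2642070386) (nat_lit 380) (nat_lit 10282323431) (nat_lit 76) (nat_lit 5732212036) (nat_lit 99) (nat_lit 5) (nat_lit 104) (nat_lit 5) (nat_lit 100) (nat_lit 5) (nat_lit 498) (nat_lit 396) (nat_lit 246)))) (XT.nd (nat_lit 78) (nat_lit 228) (nat_lit 0) (XT.lf (nat_lit 0) (nat_lit 389037137)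 (nat_lit 304) (nat_lit 6728277853) (nat_lit 380) (nat_lit 11780069114) (nat_lit 95) (nat_lit 5) (nat_lit 99) (nat_lit 5) (nat_lit 100) (nat_lit 5) (nat_lit 499) (nat_lit 396) (nat_lit 245)) (XT.nd (nat_lit 78) (nat_lit 228) (nat_lit 0) (XT.lf (nat_lit 0) (nat_lit 11393453896) (nat_lit 304) (nat_lit 345440136) (nat_lit 380) (nat_lit 7402948884) (nat_lit 95) (nat_lit 5) (nat_lit 99) (nat_lit 5) (nat_lit 100) (nat_lit 5) (nat_lit 500) (nat_lit 396) (nat_lit 244)) (XT.lf (nat_lit 0) (nat_lit 3209275398) (nat_lit 228) (nat_lit 13292513744) (nat_lit 304) (nat_lit 2888425624) (nat_lit 92) (nat_lit 5) (nat_lit 95) (nat_lit 5) (nat_lit 96) (nat_lit 5) (nat_lit 501) (nat_lit 396) (nat_lit 243))))))) (XT.nd (nat_lit 51636) (nat_lit 0) (nat_lit 36784) (XT.nd (nat_lit 51168) (nat_lit 0) (nat_lit 40204) (XT.nd (nat_lit 156) (nat_lit 608) (nat_lit 0) (XT.nd (nat_lit 78) (nat_lit 304) (nat_lit 0) (XT.lf (nat_lit 0) (nat_lit 1736553927) (nat_lit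 304) (nat_lit 5184752494) (nat_lit 76) (nat_lit 12721172718) (nat_lit 91) (nat_lit 5) (nat_lit 95) (nat_lit 5) (nat_lit 92) (nat_lit 5) (nat_lit 502) (nat_lit 396) (nat_lit 242)) (XT.lf (nat_lit 0) (nat_lit 6072670742) (nat_lit 304) (nat_lit 370433376) (nat_lit 380) (nat_lit 13455749353) (nat_lit 87) (nat_lit 5) (nat_lit 91) (nat_lit 5) (nat_lit 92) (nat_lit 5) (nat_lit 503) (nat_lit 396) (nat_lit 241))) (XT.nd (nat_lit 78) (nat_lit 608) (nat_lit 0) (XT.lf (nat_lit 0) (nat_lit 11308126836) (nat_lit 380) (nat_lit 2594606641) (nat_lit 76) (nat_lit 6256336419) (nat_lit 87) (nat_lit 5) (nat_lit 92) (nat_lit 5) (nat_lit 88) (nat_lit 5) (nat_lit 504) (nat_lit 396) (nat_lit 240)) (XT.nd (nat_lit 78) (nat_lit 380) (nat_lit 0) (XT.lf (nat_lit 0) (nat_lit 8957746153) (nat_lit 228) (nat_lit 7361885824) (nat_lit 304) (nat_lit 4103876440) (nat_lit 84) (nat_lit 5) (nat_lit 87) (nat_lit 5) (nat_lit 88) (nat_lit 5) (nat_lit 505) (nat_lit 396)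 (nat_lit 239)) (XT.lf (nat_lit 0) (nat_lit 60400767) (nat_lit 304) (nat_lit 674563749) (nat_lit 380) (nat_lit 19958046422) (nat_lit 79) (nat_lit 5) (nat_lit 83) (nat_lit 5) (nat_lit 84) (nat_lit 5) (nat_lit 506) (nat_lit 396) (nat_lit 238))))) (XT.nd (nat_lit 234) (nat_lit 0) (nat_lit 0) (XT.nd (nat_lit 78) (nat_lit 1064) (nat_lit 0) (XT.lf (nat_lit 0) (nat_lit 951930065) (nat_lit 0) (nat_lit 951930065) (nat_lit 988) (nat_lit 1594206284) (nat_lit 622) (nat_lit 5) (nat_lit 622) (nat_lit 3) (nat_lit 635) (nat_lit 3) (nat_lit 397) (nat_lit 397) (nat_lit 346)) (XT.nd (nat_lit 78) (nat_lit 1064) (nat_lit 0) (XT.lf (nat_lit 0) (nat_lit 5342678466) (nat_lit 0) (nat_lit 301430181) (nat_lit 988) (nat_lit 1385328900) (nat_lit 622) (nat_lit 5) (nat_lit 622) (nat_lit 3) (nat_lit 635) (nat_lit 3) (nat_lit 398) (nat_lit 397) (nat_lit 345)) (XT.lf (nat_lit 0) (nat_lit 420843096) (nat_lit 1064) (nat_lit 5289918516) (nat_lit 1140) (nat_lit 1353146001)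 (nat_lit 608) (nat_lit 5) (nat_lit 622) (nat_lit 5) (nat_lit 623) (nat_lit 5) (nat_lit 399) (nat_lit 397) (nat_lit 344)))) (XT.nd (nat_lit 78) (nat_lit 0) (nat_lit 0) (XT.lf (nat_lit 0) (nat_lit 2211418078) (nat_lit 1064) (nat_lit 1808443278) (nat_lit 1140) (nat_lit 3079703408) (nat_lit 608) (nat_lit 5) (nat_lit 622) (nat_lit 5) (nat_lit 623) (nat_lit 5) (nat_lit 400) (nat_lit 397) (nat_lit 343)) (XT.nd (nat_lit 78) (nat_lit 0) (nat_lit 0) (XT.lf (nat_lit 76) (nat_lit 1740812403) (nat_lit 0) (nat_lit 2262629500) (nat_lit 1140) (nat_lit 3133197472) (nat_lit 609) (nat_lit 5) (nat_lit 608) (nat_lit 5) (nat_lit 623) (nat_lit 5) (nat_lit 401) (nat_lit 397) (nat_lit 342)) (XT.lf (nat_lit 76) (nat_lit 5361049364) (nat_lit 0) (nat_lit 437463493) (nat_lit 1140) (nat_lit 1376615219) (nat_lit 609) (nat_lit 5) (nat_lit 608) (nat_lit 5) (nat_lit 623) (nat_lit 5) (nat_lit 402) (nat_lit 397) (nat_lit 341)))))) (XT.nd (nat_lit 468) (nat_lit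 1216) (nat_lit 0) (XT.nd (nat_lit 234) (nat_lit 1140) (nat_lit 0) (XT.nd (nat_lit 78) (nat_lit 0) (nat_lit 0) (XT.lf (nat_lit 0) (nat_lit 386691203) (nat_lit 1140) (nat_lit 5388422170) (nat_lit 1216) (nat_lit 1439694623) (nat_lit 594) (nat_lit 5) (nat_lit 609) (nat_lit 5) (nat_lit 610) (nat_lit 5) (nat_lit 403) (nat_lit 397) (nat_lit 340)) (XT.nd (nat_lit 78) (nat_lit 0) (nat_lit 0) (XT.lf (nat_lit 0) (nat_lit 2138478578) (nat_lit 1140) (nat_lit 1728376001) (nat_lit 1216) (nat_lit 3388827758) (nat_lit 594) (nat_lit 5) (nat_lit 609) (nat_lit 5) (nat_lit 610) (nat_lit 5) (nat_lit 404) (nat_lit 397) (nat_lit 339)) (XT.lf (nat_lit 76) (nat_lit 2006188951) (nat_lit 0) (nat_lit 1889470924) (nat_lit 1216) (nat_lit 3402322583) (nat_lit 595) (nat_lit 5) (nat_lit 594) (nat_lit 5) (nat_lit 610) (nat_lit 5) (nat_lit 405) (nat_lit 397) (nat_lit 338)))) (XT.nd (nat_lit 78) (nat_lit 1216) (nat_lit 0) (XT.lf (nat_lit 0) (nat_lit 5658606983)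 (nat_lit 1140) (nat_lit 1528722848) (nat_lit 1216) (nat_lit 154401460) (nat_lit 595) (nat_lit 5) (nat_lit 610) (nat_lit 5) (nat_lit 611) (nat_lit 5) (nat_lit 406) (nat_lit 397) (nat_lit 337)) (XT.nd (nat_lit 78) (nat_lit 0) (nat_lit 0) (XT.lf (nat_lit 0) (nat_lit 55828972) (nat_lit 1216) (nat_lit 5085011834) (nat_lit 1292) (nat_lit 2245793807) (nat_lit 579) (nat_lit 5) (nat_lit 595) (nat_lit 5) (nat_lit 596) (nat_lit 5) (nat_lit 407) (nat_lit 397) (nat_lit 336)) (XT.lf (nat_lit 0) (nat_lit 1776672441) (nat_lit 1216) (nat_lit 1239826360) (nat_lit 1292) (nat_lit 4416336007) (nat_lit 579) (nat_lit 5) (nat_lit 595) (nat_lit 5) (nat_lit 596) (nat_lit 5) (nat_lit 408) (nat_lit 397) (nat_lit 335))))) (XT.nd (nat_lit 234) (nat_lit 1216) (nat_lit 0) (XT.nd (nat_lit 78) (nat_lit 0) (nat_lit 76) (XT.lf (nat_lit 76) (nat_lit 2692398990) (nat_lit 0) (nat_lit 817113276) (nat_lit 1292) (nat_lit 3970909151) (nat_lit 580) (nat_lit 5) (nat_lit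 579) (nat_lit 5) (nat_lit 596) (nat_lit 5) (nat_lit 409) (nat_lit 397) (nat_lit 334)) (XT.nd (nat_lit 78) (nat_lit 0) (nat_lit 0) (XT.lf (nat_lit 0) (nat_lit 5255455408) (nat_lit 1216) (nat_lit 843935183) (nat_lit 1292) (nat_lit 1430013960) (nat_lit 580) (nat_lit 5) (nat_lit 596) (nat_lit 5) (nat_lit 597) (nat_lit 5) (nat_lit 410) (nat_lit 397) (nat_lit 333)) (XT.lf (nat_lit 76) (nat_lit 3190067117) (nat_lit 0) (nat_lit 3833953388) (nat_lit 1292) (nat_lit 555606237) (nat_lit 581) (nat_lit 5) (nat_lit 580) (nat_lit 5) (nat_lit 597) (nat_lit 5) (nat_lit 411) (nat_lit 397) (nat_lit 332)))) (XT.nd (nat_lit 78) (nat_lit 0) (nat_lit 76) (XT.lf (nat_lit 0) (nat_lit 1149009766) (nat_lit 1292) (nat_lit 348106547) (nat_lit 1368) (nat_lit 6134242420) (nat_lit 563) (nat_lit 5) (nat_lit 580) (nat_lit 5) (nat_lit 581) (nat_lit 5) (nat_lit 412) (nat_lit 397) (nat_lit 331)) (XT.nd (nat_lit 78) (nat_lit 0) (nat_lit 0) (XT.lf (nat_lit 0) (nat_lit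 2873599591) (nat_lit 1292) (nat_lit 3895312618) (nat_lit 1368) (nat_lit 915285960) (nat_lit 564) (nat_lit 5) (nat_lit 581) (nat_lit 5) (nat_lit 582) (nat_lit 5) (nat_lit 413) (nat_lit 397) (nat_lit 330)) (XT.lf (nat_lit 76) (nat_lit 242641773) (nat_lit 0) (nat_lit 4367179097) (nat_lit 1368) (nat_lit 3128743162) (nat_lit 565) (nat_lit 5) (nat_lit 564) (nat_lit 5) (nat_lit 582) (nat_lit 5) (nat_lit 414) (nat_lit 397) (nat_lit 329))))))))
noncomputable def xc135 : XT := (XT.nd (nat_lit 1716) (nat_lit 10260) (nat_lit 0) (XT.nd (nat_lit 858) (nat_lit 7600) (nat_lit 0) (XT.nd (nat_lit 390) (nat_lit 5928) (nat_lit 0) (XT.nd (nat_lit 156) (nat_lit 0) (nat_lit 0) (XT.nd (nat_lit 78) (nat_lit 1292) (nat_lit 0) (XT.lf (nat_lit 76) (nat_lit 4490428767) (nat_lit 0) (nat_lit 1880328144) (nat_lit 1368) (nat_lit 1423472681) (nat_lit 565) (nat_lit 5) (nat_lit 564) (nat_lit 5) (nat_lit 582) (nat_lit 5) (nat_lit 415) (nat_lit 397) (nat_lit 328))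 (XT.lf (nat_lit 0) (nat_lit 286666686) (nat_lit 1368) (nat_lit 6898996394) (nat_lit 1444) (nat_lit 665817945) (nat_lit 547) (nat_lit 5) (nat_lit 565) (nat_lit 5) (nat_lit 566) (nat_lit 5) (nat_lit 416) (nat_lit 397) (nat_lit 327))) (XT.nd (nat_lit 78) (nat_lit 0) (nat_lit 0) (XT.lf (nat_lit 0) (nat_lit 2011645305) (nat_lit 1368) (nat_lit 2619098469) (nat_lit 1444) (nat_lit 3278963078) (nat_lit 547) (nat_lit 5) (nat_lit 565) (nat_lit 5) (nat_lit 566) (nat_lit 5) (nat_lit 417) (nat_lit 397) (nat_lit 326)) (XT.nd (nat_lit 78) (nat_lit 0) (nat_lit 76) (XT.lf (nat_lit 76) (nat_lit 1743461483) (nat_lit 0) (nat_lit 2004579149) (nat_lit 1444) (nat_lit 4221529478) (nat_lit 548) (nat_lit 5) (nat_lit 547) (nat_lit 5) (nat_lit 566) (nat_lit 5) (nat_lit 418) (nat_lit 397) (nat_lit 325)) (XT.lf (nat_lit 0) (nat_lit 5507391765) (nat_lit 1368) (nat_lit 1832371643) (nat_lit 76) (nat_lit 691113706) (nat_lit 548) (nat_lit 5) (nat_lit 566) (nat_lit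 5) (nat_lit 549) (nat_lit 5) (nat_lit 419) (nat_lit 397) (nat_lit 324))))) (XT.nd (nat_lit 234) (nat_lit 3116) (nat_lit 0) (XT.nd (nat_lit 78) (nat_lit 1520) (nat_lit 0) (XT.lf (nat_lit 0) (nat_lit 2644794257) (nat_lit 1368) (nat_lit 4654405539) (nat_lit 1444) (nat_lit 794275887) (nat_lit 530) (nat_lit 5) (nat_lit 548) (nat_lit 5) (nat_lit 549) (nat_lit 5) (nat_lit 420) (nat_lit 397) (nat_lit 323)) (XT.nd (nat_lit 78) (nat_lit 1444) (nat_lit 0) (XT.lf (nat_lit 0) (nat_lit 936259504) (nat_lit 1444) (nat_lit 953249928) (nat_lit 76) (nat_lit 6268112155) (nat_lit 529) (nat_lit 5) (nat_lit 548) (nat_lit 5) (nat_lit 530) (nat_lit 5) (nat_lit 421) (nat_lit 397) (nat_lit 322)) (XT.lf (nat_lit 0) (nat_lit 2688474923) (nat_lit 1520) (nat_lit 4580339110) (nat_lit 76) (nat_lit 954187476) (nat_lit 510) (nat_lit 5) (nat_lit 530) (nat_lit 5) (nat_lit 511) (nat_lit 5) (nat_lit 422) (nat_lit 397) (nat_lit 321)))) (XT.nd (nat_lit 78) (nat_lit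 1596) (nat_lit 0) (XT.lf (nat_lit 0) (nat_lit 15357612) (nat_lit 1520) (nat_lit 4447663087) (nat_lit 1596) (nat_lit 3826932608) (nat_lit 490) (nat_lit 5) (nat_lit 510) (nat_lit 5) (nat_lit 511) (nat_lit 5) (nat_lit 423) (nat_lit 397) (nat_lit 320)) (XT.nd (nat_lit 78) (nat_lit 1596) (nat_lit 0) (XT.lf (nat_lit 0) (nat_lit 4739086385) (nat_lit 1520) (nat_lit 1533395600) (nat_lit 1596) (nat_lit 2085783464) (nat_lit 490) (nat_lit 5) (nat_lit 510) (nat_lit 5) (nat_lit 511) (nat_lit 5) (nat_lit 424) (nat_lit 397) (nat_lit 319)) (XT.lf (nat_lit 0) (nat_lit 1108421126) (nat_lit 1596) (nat_lit 6995588014) (nat_lit 1672) (nat_lit 324226771) (nat_lit 469) (nat_lit 5) (nat_lit 490) (nat_lit 5) (nat_lit 491) (nat_lit 5) (nat_lit 425) (nat_lit 397) (nat_lit 318)))))) (XT.nd (nat_lit 390) (nat_lit 4028) (nat_lit 0) (XT.nd (nat_lit 156) (nat_lit 1824) (nat_lit 0) (XT.nd (nat_lit 78) (nat_lit 1672) (nat_lit 0) (XT.lf (nat_lit 0) (nat_lit 1457409889)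 (nat_lit 1672) (nat_lit 2565724323) (nat_lit 76) (nat_lit 4476206355) (nat_lit 468) (nat_lit 5) (nat_lit 490) (nat_lit 5) (nat_lit 469) (nat_lit 5) (nat_lit 426) (nat_lit 397) (nat_lit 317)) (XT.lf (nat_lit 0) (nat_lit 2285431559) (nat_lit 1672) (nat_lit 969905164) (nat_lit 1748) (nat_lit 5316796809) (nat_lit 446) (nat_lit 5) (nat_lit 468) (nat_lit 5) (nat_lit 469) (nat_lit 5) (nat_lit 427) (nat_lit 397) (nat_lit 316))) (XT.nd (nat_lit 78) (nat_lit 1824) (nat_lit 0) (XT.lf (nat_lit 0) (nat_lit 5091075356) (nat_lit 1748) (nat_lit 1417979958) (nat_lit 76) (nat_lit 2137298853) (nat_lit 446) (nat_lit 5) (nat_lit 469) (nat_lit 5) (nat_lit 447) (nat_lit 5) (nat_lit 428) (nat_lit 397) (nat_lit 315)) (XT.nd (nat_lit 78) (nat_lit 76) (nat_lit 0) (XT.lf (nat_lit 0) (nat_lit 3562638751) (nat_lit 1748) (nat_lit 3401619814) (nat_lit 1824) (nat_lit 1757794759) (nat_lit 423) (nat_lit 5) (nat_lit 446) (nat_lit 5) (nat_lit 447) (nat_lit 5) (nat_lit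 429) (nat_lit 397) (nat_lit 314)) (XT.lf (nat_lit 0) (nat_lit 55603179) (nat_lit 1824) (nat_lit 163537662) (nat_lit 76) (nat_lit 8580505040) (nat_lit 422) (nat_lit 5) (nat_lit 446) (nat_lit 5) (nat_lit 423) (nat_lit 5) (nat_lit 430) (nat_lit 397) (nat_lit 313))))) (XT.nd (nat_lit 234) (nat_lit 1824) (nat_lit 0) (XT.nd (nat_lit 78) (nat_lit 912) (nat_lit 0) (XT.lf (nat_lit 0) (nat_lit 1905858312) (nat_lit 1368) (nat_lit 3938262201) (nat_lit 76) (nat_lit 3033963077) (nat_lit 405) (nat_lit 5) (nat_lit 423) (nat_lit 5) (nat_lit 406) (nat_lit 5) (nat_lit 431) (nat_lit 397) (nat_lit 312)) (XT.nd (nat_lit 78) (nat_lit 0) (nat_lit 0) (XT.lf (nat_lit 0) (nat_lit 1177482993) (nat_lit 912) (nat_lit 2598176646) (nat_lit 988) (nat_lit 5182787632) (nat_lit 393) (nat_lit 5) (nat_lit 405) (nat_lit 5) (nat_lit 406) (nat_lit 5) (nat_lit 432) (nat_lit 397) (nat_lit 311)) (XT.lf (nat_lit 0) (nat_lit 5686812615) (nat_lit 988) (nat_lit 2622055641)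 (nat_lit 76) (nat_lit 731478740) (nat_lit 393) (nat_lit 5) (nat_lit 406) (nat_lit 5) (nat_lit 394) (nat_lit 5) (nat_lit 433) (nat_lit 397) (nat_lit 310)))) (XT.nd (nat_lit 78) (nat_lit 988) (nat_lit 0) (XT.lf (nat_lit 0) (nat_lit 2631562633) (nat_lit 836) (nat_lit 5012178687) (nat_lit 912) (nat_lit 1480000071) (nat_lit 382) (nat_lit 5) (nat_lit 393) (nat_lit 5) (nat_lit 394) (nat_lit 5) (nat_lit 434) (nat_lit 397) (nat_lit 309)) (XT.nd (nat_lit 78) (nat_lit 912) (nat_lit 0) (XT.lf (nat_lit 0) (nat_lit 416500335) (nat_lit 912) (nat_lit 1211537091) (nat_lit 76) (nat_lit 7580894747) (nat_lit 381) (nat_lit 5) (nat_lit 393) (nat_lit 5) (nat_lit 382) (nat_lit 5) (nat_lit 435) (nat_lit 397) (nat_lit 308)) (XT.lf (nat_lit 0) (nat_lit 2344412731) (nat_lit 988) (nat_lit 5113234414) (nat_lit 76) (nat_lit 1837725268) (nat_lit 369) (nat_lit 5) (nat_lit 382) (nat_lit 5) (nat_lit 370) (nat_lit 5) (nat_lit 436) (nat_lit 397) (nat_lit 307)))))))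 (XT.nd (nat_lit 858) (nat_lit 5396) (nat_lit 0) (XT.nd (nat_lit 390) (nat_lit 2356) (nat_lit 0) (XT.nd (nat_lit 156) (nat_lit 1672) (nat_lit 0) (XT.nd (nat_lit 78) (nat_lit 0) (nat_lit 0) (XT.lf (nat_lit 0) (nat_lit 283803586) (nat_lit 836) (nat_lit 4022194193) (nat_lit 912) (nat_lit 5077648531) (nat_lit 358) (nat_lit 5) (nat_lit 369) (nat_lit 5) (nat_lit 370) (nat_lit 5) (nat_lit 437) (nat_lit 397) (nat_lit 306)) (XT.lf (nat_lit 0) (nat_lit 5832449970) (nat_lit 836) (nat_lit 483320523) (nat_lit 912) (nat_lit 3157743072) (nat_lit 358) (nat_lit 5) (nat_lit 369) (nat_lit 5) (nat_lit 370) (nat_lit 5) (nat_lit 438) (nat_lit 397) (nat_lit 305))) (XT.nd (nat_lit 78) (nat_lit 836) (nat_lit 0) (XT.lf (nat_lit 0) (nat_lit 1905946716) (nat_lit 836) (nat_lit 6467603657) (nat_lit 912) (nat_lit 1191478419) (nat_lit 347) (nat_lit 5) (nat_lit 358) (nat_lit 5) (nat_lit 359) (nat_lit 5) (nat_lit 439) (nat_lit 397) (nat_lit 304)) (XT.nd (nat_lit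 78) (nat_lit 760) (nat_lit 0) (XT.lf (nat_lit 0) (nat_lit 806522127) (nat_lit 912) (nat_lit 2079090480) (nat_lit 76) (nat_lit 6772600842) (nat_lit 346) (nat_lit 5) (nat_lit 358) (nat_lit 5) (nat_lit 347) (nat_lit 5) (nat_lit 440) (nat_lit 397) (nat_lit 303)) (XT.lf (nat_lit 0) (nat_lit 2833055688) (nat_lit 836) (nat_lit 6131437388) (nat_lit 76) (nat_lit 788527140) (nat_lit 336) (nat_lit 5) (nat_lit 347) (nat_lit 5) (nat_lit 337) (nat_lit 5) (nat_lit 441) (nat_lit 397) (nat_lit 302))))) (XT.nd (nat_lit 234) (nat_lit 836) (nat_lit 0) (XT.nd (nat_lit 78) (nat_lit 1520) (nat_lit 0) (XT.lf (nat_lit 0) (nat_lit 4909354176) (nat_lit 836) (nat_lit 429807640) (nat_lit 76) (nat_lit 4510382956) (nat_lit 336) (nat_lit 5) (nat_lit 347) (nat_lit 5) (nat_lit 337) (nat_lit 5) (nat_lit 442) (nat_lit 397) (nat_lit 301)) (XT.nd (nat_lit 78) (nat_lit 760) (nat_lit 0) (XT.lf (nat_lit 0) (nat_lit 5431985017) (nat_lit 760) (nat_lit 1607010739) (nat_lit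 836) (nat_lit 2908773938) (nat_lit 326) (nat_lit 5) (nat_lit 336) (nat_lit 5) (nat_lit 337) (nat_lit 5) (nat_lit 443) (nat_lit 397) (nat_lit 300)) (XT.lf (nat_lit 0) (nat_lit 1346898056) (nat_lit 760) (nat_lit 7867098143) (nat_lit 836) (nat_lit 833913686) (nat_lit 316) (nat_lit 5) (nat_lit 326) (nat_lit 5) (nat_lit 327) (nat_lit 5) (nat_lit 444) (nat_lit 397) (nat_lit 299)))) (XT.nd (nat_lit 78) (nat_lit 760) (nat_lit 0) (XT.lf (nat_lit 0) (nat_lit 1283738984) (nat_lit 836) (nat_lit 2806117600) (nat_lit 76) (nat_lit 6059673331) (nat_lit 315) (nat_lit 5) (nat_lit 326) (nat_lit 5) (nat_lit 316) (nat_lit 5) (nat_lit 445) (nat_lit 397) (nat_lit 298)) (XT.nd (nat_lit 78) (nat_lit 0) (nat_lit 0) (XT.lf (nat_lit 0) (nat_lit 3218313346) (nat_lit 760) (nat_lit 212590988) (nat_lit 836) (nat_lit 6822206996) (nat_lit 305) (nat_lit 5) (nat_lit 315) (nat_lit 5) (nat_lit 316) (nat_lit 5) (nat_lit 446) (nat_lit 397) (nat_lit 297)) (XT.lf (nat_lit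 0) (nat_lit 5641949484) (nat_lit 836) (nat_lit 1006856234) (nat_lit 76) (nat_lit 3709545555) (nat_lit 305) (nat_lit 5) (nat_lit 316) (nat_lit 5) (nat_lit 306) (nat_lit 5) (nat_lit 447) (nat_lit 397) (nat_lit 296)))))) (XT.nd (nat_lit 468) (nat_lit 2584) (nat_lit 0) (XT.nd (nat_lit 234) (nat_lit 1368) (nat_lit 0) (XT.nd (nat_lit 78) (nat_lit 760) (nat_lit 0) (XT.lf (nat_lit 0) (nat_lit 5183396696) (nat_lit 684) (nat_lit 2727002627) (nat_lit 760) (nat_lit 2555038535) (nat_lit 296) (nat_lit 5) (nat_lit 305) (nat_lit 5) (nat_lit 306) (nat_lit 5) (nat_lit 448) (nat_lit 397) (nat_lit 295)) (XT.nd (nat_lit 78) (nat_lit 76) (nat_lit 0) (XT.lf (nat_lit 0) (nat_lit 915187796) (nat_lit 684) (nat_lit 9308411293) (nat_lit 760) (nat_lit 351084879) (nat_lit 287) (nat_lit 5) (nat_lit 296) (nat_lit 5) (nat_lit 297) (nat_lit 5) (nat_lit 449) (nat_lit 397) (nat_lit 294)) (XT.lf (nat_lit 0) (nat_lit 1904295245) (nat_lit 760) (nat_lit 3433257492)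 (nat_lit 76) (nat_lit 5347676614) (nat_lit 286) (nat_lit 5) (nat_lit 296) (nat_lit 5) (nat_lit 287) (nat_lit 5) (nat_lit 450) (nat_lit 397) (nat_lit 293)))) (XT.nd (nat_lit 78) (nat_lit 684) (nat_lit 0) (XT.lf (nat_lit 0) (nat_lit 2928886326) (nat_lit 684) (nat_lit 1269124692) (nat_lit 760) (nat_lit 6599974729) (nat_lit 277) (nat_lit 5) (nat_lit 286) (nat_lit 5) (nat_lit 287) (nat_lit 5) (nat_lit 451) (nat_lit 397) (nat_lit 292)) (XT.nd (nat_lit 78) (nat_lit 684) (nat_lit 0) (XT.lf (nat_lit 0) (nat_lit 6558634415) (nat_lit 760) (nat_lit 1491523136) (nat_lit 76) (nat_lit 2862424052) (nat_lit 277) (nat_lit 5) (nat_lit 287) (nat_lit 5) (nat_lit 278) (nat_lit 5) (nat_lit 452) (nat_lit 397) (nat_lit 291)) (XT.lf (nat_lit 0) (nat_lit 5046937875) (nat_lit 684) (nat_lit 3940252853) (nat_lit 760) (nat_lit 2041869141) (nat_lit 268) (nat_lit 5) (nat_lit 277) (nat_lit 5) (nat_lit 278) (nat_lit 5) (nat_lit 453) (nat_lit 397) (nat_lit 290)))))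 (XT.nd (nat_lit 234) (nat_lit 1292) (nat_lit 0) (XT.nd (nat_lit 78) (nat_lit 608) (nat_lit 0) (XT.lf (nat_lit 0) (nat_lit 307437820) (nat_lit 684) (nat_lit 10580176386) (nat_lit 76) (nat_lit 260314359) (nat_lit 259) (nat_lit 5) (nat_lit 268) (nat_lit 5) (nat_lit 260) (nat_lit 5) (nat_lit 454) (nat_lit 397) (nat_lit 289)) (XT.nd (nat_lit 78) (nat_lit 608) (nat_lit 0) (XT.lf (nat_lit 0) (nat_lit 2722784187) (nat_lit 684) (nat_lit 4003326207) (nat_lit 76) (nat_lit 4541871046) (nat_lit 259) (nat_lit 5) (nat_lit 268) (nat_lit 5) (nat_lit 260) (nat_lit 5) (nat_lit 455) (nat_lit 397) (nat_lit 288)) (XT.lf (nat_lit 0) (nat_lit 2716387910) (nat_lit 608) (nat_lit 2467945880) (nat_lit 684) (nat_lit 6206148185) (nat_lit 251) (nat_lit 5) (nat_lit 259) (nat_lit 5) (nat_lit 260) (nat_lit 5) (nat_lit 456) (nat_lit 397) (nat_lit 287)))) (XT.nd (nat_lit 78) (nat_lit 1292) (nat_lit 0) (XT.lf (nat_lit 0) (nat_lit 7714792943) (nat_lit 684) (nat_lit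 1926990616) (nat_lit 76) (nat_lit 1873259829) (nat_lit 251) (nat_lit 5) (nat_lit 260) (nat_lit 5) (nat_lit 252) (nat_lit 5) (nat_lit 457) (nat_lit 397) (nat_lit 286)) (XT.nd (nat_lit 78) (nat_lit 684) (nat_lit 0) (XT.lf (nat_lit 0) (nat_lit 4980001266) (nat_lit 608) (nat_lit 5345380632) (nat_lit 684) (nat_lit 1316128071) (nat_lit 243) (nat_lit 5) (nat_lit 251) (nat_lit 5) (nat_lit 252) (nat_lit 5) (nat_lit 458) (nat_lit 397) (nat_lit 285)) (XT.lf (nat_lit 0) (nat_lit 252199890) (nat_lit 608) (nat_lit 945095212) (nat_lit 684) (nat_lit 10573145075) (nat_lit 234) (nat_lit 5) (nat_lit 242) (nat_lit 5) (nat_lit 243) (nat_lit 5) (nat_lit 459) (nat_lit 397) (nat_lit 284))))))))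
noncomputable def xc136 : XT := (XT.nd (nat_lit 1716) (nat_lit 4332) (nat_lit 0) (XT.nd (nat_lit 858) (nat_lit 3268) (nat_lit 0) (XT.nd (nat_lit 390) (nat_lit 2128) (nat_lit 0) (XT.nd (nat_lit 156) (nat_lit 608) (nat_lit 0) (XT.nd (nat_lit 78) (nat_lit 532) (nat_lit 0) (XT.lf (nat_lit 0) (nat_lit 3792502533) (nat_lit 684) (nat_lit 4562902561) (nat_lit 76) (nat_lit 3545391229) (nat_lit 234) (nat_lit 5) (nat_lit 243) (nat_lit 5) (nat_lit 235) (nat_lit 5) (nat_lit 460) (nat_lit 397) (nat_lit 283)) (XT.lf (nat_lit 0) (nat_lit 2534690763) (nat_lit 532) (nat_lit 3909128587) (nat_lit 608) (nat_lit 5589860159) (nat_lit 227) (nat_lit 5) (nat_lit 234) (nat_lit 5) (nat_lit 235) (nat_lit 5) (nat_lit 461) (nat_lit 397) (nat_lit 282))) (XT.nd (nat_lit 78) (nat_lit 608) (nat_lit 0) (XT.lf (nat_lit 0) (nat_lit 9164713385) (nat_lit 608) (nat_lit 2360801750) (nat_lit 76) (nat_lit 643378146) (nat_lit 227) (nat_lit 5) (nat_lit 235) (nat_lit 5)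 (nat_lit 228) (nat_lit 5) (nat_lit 462) (nat_lit 397) (nat_lit 281)) (XT.nd (nat_lit 78) (nat_lit 76) (nat_lit 0) (XT.lf (nat_lit 0) (nat_lit 4935447428) (nat_lit 532) (nat_lit 7044533616) (nat_lit 608) (nat_lit 326035035) (nat_lit 220) (nat_lit 5) (nat_lit 227) (nat_lit 5) (nat_lit 228) (nat_lit 5) (nat_lit 463) (nat_lit 397) (nat_lit 280)) (XT.lf (nat_lit 0) (nat_lit 2372171481) (nat_lit 608) (nat_lit 75294994) (nat_lit 76) (nat_lit 9998145196) (nat_lit 219) (nat_lit 5) (nat_lit 227) (nat_lit 5) (nat_lit 220) (nat_lit 5) (nat_lit 464) (nat_lit 397) (nat_lit 279))))) (XT.nd (nat_lit 234) (nat_lit 1064) (nat_lit 0) (XT.nd (nat_lit 78) (nat_lit 532) (nat_lit 0) (XT.lf (nat_lit 0) (nat_lit 5165578349) (nat_lit 608) (nat_lit 5164084714) (nat_lit 76) (nat_lit 2257384613) (nat_lit 212) (nat_lit 5) (nat_lit 220) (nat_lit 5) (nat_lit 213) (nat_lit 5) (nat_lit 465) (nat_lit 397) (nat_lit 278)) (XT.nd (nat_lit 78) (nat_lit 0) (nat_lit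 0) (XT.lf (nat_lit 0) (nat_lit 2331949252) (nat_lit 532) (nat_lit 5697372923) (nat_lit 608) (nat_lit 4701704422) (nat_lit 205) (nat_lit 5) (nat_lit 212) (nat_lit 5) (nat_lit 213) (nat_lit 5) (nat_lit 466) (nat_lit 397) (nat_lit 277)) (XT.lf (nat_lit 0) (nat_lit 10024730524) (nat_lit 532) (nat_lit 943065834) (nat_lit 608) (nat_lit 1909743129) (nat_lit 205) (nat_lit 5) (nat_lit 212) (nat_lit 5) (nat_lit 213) (nat_lit 5) (nat_lit 467) (nat_lit 397) (nat_lit 276)))) (XT.nd (nat_lit 78) (nat_lit 532) (nat_lit 0) (XT.lf (nat_lit 0) (nat_lit 966032256) (nat_lit 532) (nat_lit 8172804711) (nat_lit 76) (nat_lit 3887221668) (nat_lit 198) (nat_lit 5) (nat_lit 205) (nat_lit 5) (nat_lit 199) (nat_lit 5) (nat_lit 468) (nat_lit 397) (nat_lit 275)) (XT.nd (nat_lit 78) (nat_lit 532) (nat_lit 0) (XT.lf (nat_lit 0) (nat_lit 3882461466) (nat_lit 532) (nat_lit 467173827) (nat_lit 76) (nat_lit 8827489508) (nat_lit 198) (nat_lit 5) (nat_lit 205) (nat_lit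 5) (nat_lit 199) (nat_lit 5) (nat_lit 469) (nat_lit 397) (nat_lit 274)) (XT.lf (nat_lit 0) (nat_lit 6892962446) (nat_lit 608) (nat_lit 5866465496) (nat_lit 76) (nat_lit 571072718) (nat_lit 191) (nat_lit 5) (nat_lit 199) (nat_lit 5) (nat_lit 192) (nat_lit 5) (nat_lit 470) (nat_lit 397) (nat_lit 273)))))) (XT.nd (nat_lit 390) (nat_lit 1824) (nat_lit 0) (XT.nd (nat_lit 156) (nat_lit 988) (nat_lit 0) (XT.nd (nat_lit 78) (nat_lit 0) (nat_lit 0) (XT.lf (nat_lit 0) (nat_lit 2048575505) (nat_lit 456) (nat_lit 7943997103) (nat_lit 532) (nat_lit 3493796615) (nat_lit 185) (nat_lit 5) (nat_lit 191) (nat_lit 5) (nat_lit 192) (nat_lit 5) (nat_lit 471) (nat_lit 397) (nat_lit 272)) (XT.lf (nat_lit 0) (nat_lit 10178803413) (nat_lit 456) (nat_lit 2998549685) (nat_lit 532) (nat_lit 467541606) (nat_lit 185) (nat_lit 5) (nat_lit 191) (nat_lit 5) (nat_lit 192) (nat_lit 5) (nat_lit 472) (nat_lit 397) (nat_lit 271))) (XT.nd (nat_lit 78) (nat_lit 456)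 (nat_lit 0) (XT.lf (nat_lit 0) (nat_lit 2612894038) (nat_lit 532) (nat_lit 9132415026) (nat_lit 76) (nat_lit 2060384354) (nat_lit 178) (nat_lit 5) (nat_lit 185) (nat_lit 5) (nat_lit 179) (nat_lit 5) (nat_lit 473) (nat_lit 397) (nat_lit 270)) (XT.nd (nat_lit 78) (nat_lit 456) (nat_lit 0) (XT.lf (nat_lit 0) (nat_lit 5776102442) (nat_lit 532) (nat_lit 992468729) (nat_lit 76) (nat_lit 7200529566) (nat_lit 178) (nat_lit 5) (nat_lit 185) (nat_lit 5) (nat_lit 179) (nat_lit 5) (nat_lit 474) (nat_lit 397) (nat_lit 269)) (XT.lf (nat_lit 0) (nat_lit 7385037711) (nat_lit 456) (nat_lit 1649944003) (nat_lit 532) (nat_lit 5100149226) (nat_lit 172) (nat_lit 5) (nat_lit 178) (nat_lit 5) (nat_lit 179) (nat_lit 5) (nat_lit 475) (nat_lit 397) (nat_lit 268))))) (XT.nd (nat_lit 234) (nat_lit 912) (nat_lit 0) (XT.nd (nat_lit 78) (nat_lit 456) (nat_lit 0) (XT.lf (nat_lit 0) (nat_lit 1614931992) (nat_lit 456) (nat_lit 10769059259) (nat_lit 532) (nat_lit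 1919994259) (nat_lit 166) (nat_lit 5) (nat_lit 172) (nat_lit 5) (nat_lit 173) (nat_lit 5) (nat_lit 476) (nat_lit 397) (nat_lit 267)) (XT.nd (nat_lit 78) (nat_lit 380) (nat_lit 0) (XT.lf (nat_lit 0) (nat_lit 1347558851) (nat_lit 532) (nat_lit 4278653768) (nat_lit 76) (nat_lit 8849012232) (nat_lit 165) (nat_lit 5) (nat_lit 172) (nat_lit 5) (nat_lit 166) (nat_lit 5) (nat_lit 477) (nat_lit 397) (nat_lit 266)) (XT.lf (nat_lit 0) (nat_lit 4322082466) (nat_lit 380) (nat_lit 345692011) (nat_lit 456) (nat_lit 9981602928) (nat_lit 160) (nat_lit 5) (nat_lit 165) (nat_lit 5) (nat_lit 166) (nat_lit 5) (nat_lit 478) (nat_lit 397) (nat_lit 265)))) (XT.nd (nat_lit 78) (nat_lit 912) (nat_lit 0) (XT.lf (nat_lit 0) (nat_lit 8101067243) (nat_lit 456) (nat_lit 1728477362) (nat_lit 76) (nat_lit 4996537550) (nat_lit 160) (nat_lit 5) (nat_lit 166) (nat_lit 5) (nat_lit 161) (nat_lit 5) (nat_lit 479) (nat_lit 397) (nat_lit 264)) (XT.nd (nat_lit 78) (nat_lit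 456) (nat_lit 0) (XT.lf (nat_lit 0) (nat_lit 7111775634) (nat_lit 456) (nat_lit 4525051974) (nat_lit 532) (nat_lit 3368819906) (nat_lit 154) (nat_lit 5) (nat_lit 160) (nat_lit 5) (nat_lit 161) (nat_lit 5) (nat_lit 480) (nat_lit 397) (nat_lit 263)) (XT.lf (nat_lit 0) (nat_lit 62868339) (nat_lit 456) (nat_lit 14240362860) (nat_lit 76) (nat_lit 885386673) (nat_lit 148) (nat_lit 5) (nat_lit 154) (nat_lit 5) (nat_lit 149) (nat_lit 5) (nat_lit 481) (nat_lit 397) (nat_lit 262))))))) (XT.nd (nat_lit 858) (nat_lit 2052) (nat_lit 0) (XT.nd (nat_lit 390) (nat_lit 1444) (nat_lit 0) (XT.nd (nat_lit 156) (nat_lit 456) (nat_lit 0) (XT.nd (nat_lit 78) (nat_lit 380) (nat_lit 0) (XT.lf (nat_lit 0) (nat_lit 3586904258) (nat_lit 456) (nat_lit 5374271636) (nat_lit 76) (nat_lit 6412252340) (nat_lit 148) (nat_lit 5) (nat_lit 154) (nat_lit 5) (nat_lit 149) (nat_lit 5) (nat_lit 482) (nat_lit 397) (nat_lit 261)) (XT.lf (nat_lit 0) (nat_lit 3696361734)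 (nat_lit 380) (nat_lit 3494833065) (nat_lit 456) (nat_lit 8370546881) (nat_lit 143) (nat_lit 5) (nat_lit 148) (nat_lit 5) (nat_lit 149) (nat_lit 5) (nat_lit 483) (nat_lit 397) (nat_lit 260))) (XT.nd (nat_lit 78) (nat_lit 456) (nat_lit 0) (XT.lf (nat_lit 0) (nat_lit 10903255163) (nat_lit 456) (nat_lit 2766948256) (nat_lit 76) (nat_lit 2082906606) (nat_lit 143) (nat_lit 5) (nat_lit 149) (nat_lit 5) (nat_lit 144) (nat_lit 5) (nat_lit 484) (nat_lit 397) (nat_lit 259)) (XT.nd (nat_lit 78) (nat_lit 76) (nat_lit 0) (XT.lf (nat_lit 0) (nat_lit 6555344176) (nat_lit 380) (nat_lit 8186066644) (nat_lit 456) (nat_lit 1205860099) (nat_lit 138) (nat_lit 5) (nat_lit 143) (nat_lit 5) (nat_lit 144) (nat_lit 5) (nat_lit 485) (nat_lit 397) (nat_lit 258)) (XT.lf (nat_lit 0) (nat_lit 2482964191) (nat_lit 456) (nat_lit 80766400) (nat_lit 76) (nat_lit 13581162912) (nat_lit 137) (nat_lit 5) (nat_lit 143) (nat_lit 5) (nat_lit 138) (nat_lit 5) (nat_lit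 486) (nat_lit 397) (nat_lit 257))))) (XT.nd (nat_lit 234) (nat_lit 760) (nat_lit 0) (XT.nd (nat_lit 78) (nat_lit 304) (nat_lit 0) (XT.lf (nat_lit 0) (nat_lit 6298664085) (nat_lit 456) (nat_lit 6853531859) (nat_lit 76) (nat_lit 3192730401) (nat_lit 132) (nat_lit 5) (nat_lit 138) (nat_lit 5) (nat_lit 133) (nat_lit 5) (nat_lit 487) (nat_lit 397) (nat_lit 256)) (XT.nd (nat_lit 78) (nat_lit 0) (nat_lit 0) (XT.lf (nat_lit 0) (nat_lit 2704975257) (nat_lit 304) (nat_lit 7507338366) (nat_lit 380) (nat_lit 6336215600) (nat_lit 128) (nat_lit 5) (nat_lit 132) (nat_lit 5) (nat_lit 133) (nat_lit 5) (nat_lit 488) (nat_lit 397) (nat_lit 255)) (XT.lf (nat_lit 0) (nat_lit 12527026449) (nat_lit 304) (nat_lit 1709880200) (nat_lit 380) (nat_lit 2518646150) (nat_lit 128) (nat_lit 5) (nat_lit 132) (nat_lit 5) (nat_lit 133) (nat_lit 5) (nat_lit 489) (nat_lit 397) (nat_lit 254)))) (XT.nd (nat_lit 78) (nat_lit 304) (nat_lit 0) (XT.lf (nat_lit 0) (nat_lit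 1408147016) (nat_lit 456) (nat_lit 11370297732) (nat_lit 76) (nat_lit 4187077299) (nat_lit 122) (nat_lit 5) (nat_lit 128) (nat_lit 5) (nat_lit 123) (nat_lit 5) (nat_lit 490) (nat_lit 397) (nat_lit 253)) (XT.nd (nat_lit 78) (nat_lit 304) (nat_lit 0) (XT.lf (nat_lit 0) (nat_lit 5406603016) (nat_lit 456) (nat_lit 1554929857) (nat_lit 76) (nat_lit 10217289742) (nat_lit 122) (nat_lit 5) (nat_lit 128) (nat_lit 5) (nat_lit 123) (nat_lit 5) (nat_lit 491) (nat_lit 397) (nat_lit 252)) (XT.lf (nat_lit 0) (nat_lit 8548881107) (nat_lit 304) (nat_lit 978841105) (nat_lit 380) (nat_lit 7867814995) (nat_lit 118) (nat_lit 5) (nat_lit 122) (nat_lit 5) (nat_lit 123) (nat_lit 5) (nat_lit 492) (nat_lit 397) (nat_lit 251)))))) (XT.nd (nat_lit 390) (nat_lit 988) (nat_lit 0) (XT.nd (nat_lit 156) (nat_lit 608) (nat_lit 0) (XT.nd (nat_lit 78) (nat_lit 76) (nat_lit 0) (XT.lf (nat_lit 0) (nat_lit 1222100123) (nat_lit 380) (nat_lit 12548131895) (nat_lit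 456) (nat_lit 3845576566) (nat_lit 113) (nat_lit 5) (nat_lit 118) (nat_lit 5) (nat_lit 119) (nat_lit 5) (nat_lit 493) (nat_lit 397) (nat_lit 250)) (XT.lf (nat_lit 0) (nat_lit 307275714) (nat_lit 456) (nat_lit 6255793296) (nat_lit 76) (nat_lit 11276313955) (nat_lit 112) (nat_lit 5) (nat_lit 118) (nat_lit 5) (nat_lit 113) (nat_lit 5) (nat_lit 494) (nat_lit 397) (nat_lit 249))) (XT.nd (nat_lit 78) (nat_lit 304) (nat_lit 0) (XT.lf (nat_lit 0) (nat_lit 4093391880) (nat_lit 304) (nat_lit 412474884) (nat_lit 380) (nat_lit 13560771955) (nat_lit 108) (nat_lit 5) (nat_lit 112) (nat_lit 5) (nat_lit 113) (nat_lit 5) (nat_lit 495) (nat_lit 397) (nat_lit 248)) (XT.nd (nat_lit 78) (nat_lit 304) (nat_lit 0) (XT.lf (nat_lit 0) (nat_lit 8856360519) (nat_lit 380) (nat_lit 3621350865) (nat_lit 76) (nat_lit 5819371303) (nat_lit 108) (nat_lit 5) (nat_lit 113) (nat_lit 5) (nat_lit 109) (nat_lit 5) (nat_lit 496) (nat_lit 397) (nat_lit 247)) (XT.lf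 (nat_lit 0) (nat_lit 7007363859) (nat_lit 304) (nat_lit 6322589988) (nat_lit 380) (nat_lit 5201461575) (nat_lit 104) (nat_lit 5) (nat_lit 108) (nat_lit 5) (nat_lit 109) (nat_lit 5) (nat_lit 497) (nat_lit 397) (nat_lit 246))))) (XT.nd (nat_lit 234) (nat_lit 304) (nat_lit 0) (XT.nd (nat_lit 78) (nat_lit 684) (nat_lit 0) (XT.lf (nat_lit 0) (nat_lit 17878478425) (nat_lit 304) (nat_lit 26816350) (nat_lit 380) (nat_lit 864896171) (nat_lit 104) (nat_lit 5) (nat_lit 108) (nat_lit 5) (nat_lit 109) (nat_lit 5) (nat_lit 498) (nat_lit 397) (nat_lit 245)) (XT.nd (nat_lit 78) (nat_lit 304) (nat_lit 0) (XT.lf (nat_lit 0) (nat_lit 3607124926) (nat_lit 380) (nat_lit 9011433774) (nat_lit 76) (nat_lit 6392814927) (nat_lit 99) (nat_lit 5) (nat_lit 104) (nat_lit 5) (nat_lit 100) (nat_lit 5) (nat_lit 499) (nat_lit 397) (nat_lit 244)) (XT.lf (nat_lit 0) (nat_lit 1863639952) (nat_lit 304) (nat_lit 6299871521) (nat_lit 380) (nat_lit 11093625585) (nat_lit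 95) (nat_lit 5) (nat_lit 99) (nat_lit 5) (nat_lit 100) (nat_lit 5) (nat_lit 500) (nat_lit 397) (nat_lit 243)))) (XT.nd (nat_lit 78) (nat_lit 304) (nat_lit 0) (XT.lf (nat_lit 0) (nat_lit 12861095376) (nat_lit 380) (nat_lit 6448753809) (nat_lit 76) (nat_lit 196966702) (nat_lit 95) (nat_lit 5) (nat_lit 100) (nat_lit 5) (nat_lit 96) (nat_lit 5) (nat_lit 501) (nat_lit 397) (nat_lit 242)) (XT.nd (nat_lit 78) (nat_lit 76) (nat_lit 0) (XT.lf (nat_lit 0) (nat_lit 4716221509) (nat_lit 228) (nat_lit 12997236605) (nat_lit 304) (nat_lit 2046815130) (nat_lit 92) (nat_lit 5) (nat_lit 95) (nat_lit 5) (nat_lit 96) (nat_lit 5) (nat_lit 502) (nat_lit 397) (nat_lit 241)) (XT.lf (nat_lit 0) (nat_lit 2641464897) (nat_lit 304) (nat_lit 3862303371) (nat_lit 76) (nat_lit 13514048095) (nat_lit 91) (nat_lit 5) (nat_lit 95) (nat_lit 5) (nat_lit 92) (nat_lit 5) (nat_lit 503) (nat_lit 397) (nat_lit 240))))))))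
noncomputable def xc137 : XT := (XT.nd (nat_lit 52572) (nat_lit 0) (nat_lit 20824) (XT.nd (nat_lit 51714) (nat_lit 0) (nat_lit 35112) (XT.nd (nat_lit 51246) (nat_lit 0) (nat_lit 38684) (XT.nd (nat_lit 156) (nat_lit 228) (nat_lit 0) (XT.nd (nat_lit 78) (nat_lit 0) (nat_lit 0) (XT.lf (nat_lit 0) (nat_lit 7435428926) (nat_lit 380) (nat_lit 12669738416) (nat_lit 76) (nat_lit 174287317) (nat_lit 87) (nat_lit 5) (nat_lit 92) (nat_lit 5) (nat_lit 88) (nat_lit 5) (nat_lit 504) (nat_lit 397) (nat_lit 239)) (XT.lf (nat_lit 0) (nat_lit 12383226554) (nat_lit 380) (nat_lit 1244033316) (nat_lit 76) (nat_lit 6917908143) (nat_lit 87) (nat_lit 5) (nat_lit 92) (nat_lit 5) (nat_lit 88) (nat_lit 5) (nat_lit 505) (nat_lit 397) (nat_lit 238))) (XT.nd (nat_lit 50934) (nat_lit 0) (nat_lit 39748) (XT.lf (nat_lit 0) (nat_lit 10530139787) (nat_lit 228) (nat_lit 6957222014) (nat_lit 304) (nat_lit 3327687553) (nat_lit 84) (nat_lit 5) (nat_lit 87) (nat_lit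 5) (nat_lit 88) (nat_lit 5) (nat_lit 506) (nat_lit 397) (nat_lit 237)) (XT.nd (nat_lit 78) (nat_lit 0) (nat_lit 0) (XT.lf (nat_lit 0) (nat_lit 194380343) (nat_lit 1140) (nat_lit 1668601606) (nat_lit 1140) (nat_lit 1668601606) (nat_lit 607) (nat_lit 3) (nat_lit 622) (nat_lit 3) (nat_lit 622) (nat_lit 5) (nat_lit 398) (nat_lit 398) (nat_lit 344)) (XT.lf (nat_lit 76) (nat_lit 89659556) (nat_lit 0) (nat_lit 2044153202) (nat_lit 1140) (nat_lit 4964512167) (nat_lit 608) (nat_lit 5) (nat_lit 607) (nat_lit 3) (nat_lit 622) (nat_lit 5) (nat_lit 399) (nat_lit 398) (nat_lit 343))))) (XT.nd (nat_lit 234) (nat_lit 0) (nat_lit 0) (XT.nd (nat_lit 78) (nat_lit 1064) (nat_lit 0) (XT.lf (nat_lit 76) (nat_lit 3606693550) (nat_lit 0) (nat_lit 283657366) (nat_lit 1140) (nat_lit 3244320343) (nat_lit 608) (nat_lit 5) (nat_lit 607) (nat_lit 3) (nat_lit 622) (nat_lit 5) (nat_lit 400) (nat_lit 398) (nat_lit 342)) (XT.nd (nat_lit 78) (nat_lit 1140) (nat_lit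 0) (XT.lf (nat_lit 0) (nat_lit 5647067290) (nat_lit 1064) (nat_lit 11689723) (nat_lit 1140) (nat_lit 1513703289) (nat_lit 608) (nat_lit 5) (nat_lit 622) (nat_lit 5) (nat_lit 623) (nat_lit 5) (nat_lit 401) (nat_lit 398) (nat_lit 341)) (XT.lf (nat_lit 0) (nat_lit 206121373) (nat_lit 1140) (nat_lit 3616258471) (nat_lit 1216) (nat_lit 3388987814) (nat_lit 593) (nat_lit 5) (nat_lit 608) (nat_lit 5) (nat_lit 609) (nat_lit 5) (nat_lit 402) (nat_lit 398) (nat_lit 340)))) (XT.nd (nat_lit 78) (nat_lit 0) (nat_lit 76) (XT.lf (nat_lit 0) (nat_lit 1908452925) (nat_lit 1140) (nat_lit 11110895) (nat_lit 1216) (nat_lit 5332171211) (nat_lit 593) (nat_lit 5) (nat_lit 608) (nat_lit 5) (nat_lit 609) (nat_lit 5) (nat_lit 403) (nat_lit 398) (nat_lit 339)) (XT.nd (nat_lit 78) (nat_lit 0) (nat_lit 0) (XT.lf (nat_lit 0) (nat_lit 3626581194) (nat_lit 1140) (nat_lit 3602858418) (nat_lit 1216) (nat_lit 63850596) (nat_lit 594) (nat_lit 5) (nat_lit 609)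 (nat_lit 5) (nat_lit 610) (nat_lit 5) (nat_lit 404) (nat_lit 398) (nat_lit 338)) (XT.lf (nat_lit 76) (nat_lit 94503949) (nat_lit 0) (nat_lit 5256138338) (nat_lit 1216) (nat_lit 1985617947) (nat_lit 595) (nat_lit 5) (nat_lit 594) (nat_lit 5) (nat_lit 610) (nat_lit 5) (nat_lit 405) (nat_lit 398) (nat_lit 337)))))) (XT.nd (nat_lit 390) (nat_lit 2432) (nat_lit 0) (XT.nd (nat_lit 156) (nat_lit 0) (nat_lit 76) (XT.nd (nat_lit 78) (nat_lit 1216) (nat_lit 0) (XT.lf (nat_lit 76) (nat_lit 3890308870) (nat_lit 0) (nat_lit 3201884252) (nat_lit 1216) (nat_lit 288251224) (nat_lit 595) (nat_lit 5) (nat_lit 594) (nat_lit 5) (nat_lit 610) (nat_lit 5) (nat_lit 406) (nat_lit 398) (nat_lit 336)) (XT.lf (nat_lit 76) (nat_lit 306752045) (nat_lit 0) (nat_lit 1078733399) (nat_lit 1292) (nat_lit 6040626615) (nat_lit 579) (nat_lit 5) (nat_lit 578) (nat_lit 5) (nat_lit 595) (nat_lit 5) (nat_lit 407) (nat_lit 398) (nat_lit 335))) (XT.nd (nat_lit 78) (nat_lit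 0) (nat_lit 0) (XT.lf (nat_lit 0) (nat_lit 3079571916) (nat_lit 1216) (nat_lit 3279633623) (nat_lit 1292) (nat_lit 1113648786) (nat_lit 579) (nat_lit 5) (nat_lit 595) (nat_lit 5) (nat_lit 596) (nat_lit 5) (nat_lit 408) (nat_lit 398) (nat_lit 334)) (XT.nd (nat_lit 78) (nat_lit 0) (nat_lit 0) (XT.lf (nat_lit 76) (nat_lit 613102818) (nat_lit 0) (nat_lit 4166442923) (nat_lit 1292) (nat_lit 2741559307) (nat_lit 580) (nat_lit 5) (nat_lit 579) (nat_lit 5) (nat_lit 596) (nat_lit 5) (nat_lit 409) (nat_lit 398) (nat_lit 333)) (XT.lf (nat_lit 76) (nat_lit 4603631164) (nat_lit 0) (nat_lit 1893384816) (nat_lit 1292) (nat_lit 1073648321) (nat_lit 580) (nat_lit 5) (nat_lit 579) (nat_lit 5) (nat_lit 596) (nat_lit 5) (nat_lit 410) (nat_lit 398) (nat_lit 332))))) (XT.nd (nat_lit 234) (nat_lit 1292) (nat_lit 0) (XT.nd (nat_lit 78) (nat_lit 0) (nat_lit 0) (XT.lf (nat_lit 0) (nat_lit 591027380) (nat_lit 1292) (nat_lit 6586957142) (nat_lit 1368)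 (nat_lit 443728895) (nat_lit 563) (nat_lit 5) (nat_lit 580) (nat_lit 5) (nat_lit 581) (nat_lit 5) (nat_lit 411) (nat_lit 398) (nat_lit 331)) (XT.nd (nat_lit 78) (nat_lit 0) (nat_lit 0) (XT.lf (nat_lit 0) (nat_lit 2269867725) (nat_lit 1292) (nat_lit 2561606947) (nat_lit 1368) (nat_lit 2842274640) (nat_lit 563) (nat_lit 5) (nat_lit 580) (nat_lit 5) (nat_lit 581) (nat_lit 5) (nat_lit 412) (nat_lit 398) (nat_lit 330)) (XT.lf (nat_lit 76) (nat_lit 1539697634) (nat_lit 0) (nat_lit 2415968943) (nat_lit 1368) (nat_lit 3771704146) (nat_lit 564) (nat_lit 5) (nat_lit 563) (nat_lit 5) (nat_lit 581) (nat_lit 5) (nat_lit 413) (nat_lit 398) (nat_lit 329)))) (XT.nd (nat_lit 78) (nat_lit 1368) (nat_lit 0) (XT.lf (nat_lit 0) (nat_lit 5656813414) (nat_lit 1292) (nat_lit 2049784737) (nat_lit 1368) (nat_lit 75845957) (nat_lit 564) (nat_lit 5) (nat_lit 581) (nat_lit 5) (nat_lit 582) (nat_lit 5) (nat_lit 414) (nat_lit 398) (nat_lit 328)) (XT.nd (nat_lit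 78) (nat_lit 1368) (nat_lit 0) (XT.lf (nat_lit 76) (nat_lit 2158274570) (nat_lit 0) (nat_lit 5228444681) (nat_lit 1368) (nat_lit 452016936) (nat_lit 565) (nat_lit 5) (nat_lit 564) (nat_lit 5) (nat_lit 582) (nat_lit 5) (nat_lit 415) (nat_lit 398) (nat_lit 327)) (XT.lf (nat_lit 0) (nat_lit 1217467664) (nat_lit 1368) (nat_lit 1451044255) (nat_lit 1444) (nat_lit 5227913518) (nat_lit 546) (nat_lit 5) (nat_lit 564) (nat_lit 5) (nat_lit 565) (nat_lit 5) (nat_lit 416) (nat_lit 398) (nat_lit 326))))))) (XT.nd (nat_lit 858) (nat_lit 8360) (nat_lit 0) (XT.nd (nat_lit 390) (nat_lit 4636) (nat_lit 0) (XT.nd (nat_lit 156) (nat_lit 1292) (nat_lit 0) (XT.nd (nat_lit 78) (nat_lit 0) (nat_lit 76) (XT.lf (nat_lit 76) (nat_lit 2872935409) (nat_lit 0) (nat_lit 25711519) (nat_lit 1444) (nat_lit 5056885896) (nat_lit 547) (nat_lit 5) (nat_lit 546) (nat_lit 5) (nat_lit 565) (nat_lit 5) (nat_lit 417) (nat_lit 398) (nat_lit 325)) (XT.lf (nat_lit 0) (nat_lit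 4606858577) (nat_lit 1368) (nat_lit 755259024) (nat_lit 1444) (nat_lit 2653847621) (nat_lit 547) (nat_lit 5) (nat_lit 565) (nat_lit 5) (nat_lit 566) (nat_lit 5) (nat_lit 418) (nat_lit 398) (nat_lit 324))) (XT.nd (nat_lit 78) (nat_lit 1368) (nat_lit 0) (XT.lf (nat_lit 76) (nat_lit 3681945407) (nat_lit 0) (nat_lit 2658298279) (nat_lit 1444) (nat_lit 1737553218) (nat_lit 548) (nat_lit 5) (nat_lit 547) (nat_lit 5) (nat_lit 566) (nat_lit 5) (nat_lit 419) (nat_lit 398) (nat_lit 323)) (XT.nd (nat_lit 78) (nat_lit 76) (nat_lit 0) (XT.lf (nat_lit 0) (nat_lit 52019423) (nat_lit 1368) (nat_lit 8029836514) (nat_lit 1444) (nat_lit 59548703) (nat_lit 530) (nat_lit 5) (nat_lit 548) (nat_lit 5) (nat_lit 549) (nat_lit 5) (nat_lit 420) (nat_lit 398) (nat_lit 322)) (XT.lf (nat_lit 0) (nat_lit 1645372901) (nat_lit 1444) (nat_lit 3611408582) (nat_lit 76) (nat_lit 2948998256) (nat_lit 529) (nat_lit 5) (nat_lit 548) (nat_lit 5) (nat_lit 530) (nat_lit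 5) (nat_lit 421) (nat_lit 398) (nat_lit 321))))) (XT.nd (nat_lit 234) (nat_lit 1672) (nat_lit 0) (XT.nd (nat_lit 78) (nat_lit 1520) (nat_lit 0) (XT.lf (nat_lit 0) (nat_lit 942980240) (nat_lit 1444) (nat_lit 2415096411) (nat_lit 1520) (nat_lit 4913878193) (nat_lit 510) (nat_lit 5) (nat_lit 529) (nat_lit 5) (nat_lit 530) (nat_lit 5) (nat_lit 422) (nat_lit 398) (nat_lit 320)) (XT.nd (nat_lit 78) (nat_lit 1520) (nat_lit 0) (XT.lf (nat_lit 0) (nat_lit 5101424842) (nat_lit 1520) (nat_lit 2730486510) (nat_lit 76) (nat_lit 507624092) (nat_lit 510) (nat_lit 5) (nat_lit 530) (nat_lit 5) (nat_lit 511) (nat_lit 5) (nat_lit 423) (nat_lit 398) (nat_lit 319)) (XT.lf (nat_lit 0) (nat_lit 1944351386) (nat_lit 1520) (nat_lit 4933374020) (nat_lit 1596) (nat_lit 1530790153) (nat_lit 490) (nat_lit 5) (nat_lit 510) (nat_lit 5) (nat_lit 511) (nat_lit 5) (nat_lit 424) (nat_lit 398) (nat_lit 318)))) (XT.nd (nat_lit 78) (nat_lit 1596) (nat_lit 0) (XT.lf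 (nat_lit 0) (nat_lit 196053368) (nat_lit 1596) (nat_lit 1755672631) (nat_lit 76) (nat_lit 6527368361) (nat_lit 489) (nat_lit 5) (nat_lit 510) (nat_lit 5) (nat_lit 490) (nat_lit 5) (nat_lit 425) (nat_lit 398) (nat_lit 317)) (XT.nd (nat_lit 78) (nat_lit 0) (nat_lit 0) (XT.lf (nat_lit 0) (nat_lit 1934364727) (nat_lit 1672) (nat_lit 5506389791) (nat_lit 76) (nat_lit 1110188339) (nat_lit 468) (nat_lit 5) (nat_lit 490) (nat_lit 5) (nat_lit 469) (nat_lit 5) (nat_lit 426) (nat_lit 398) (nat_lit 316)) (XT.lf (nat_lit 0) (nat_lit 3702968573) (nat_lit 1672) (nat_lit 697750483) (nat_lit 76) (nat_lit 4223607620) (nat_lit 468) (nat_lit 5) (nat_lit 490) (nat_lit 5) (nat_lit 469) (nat_lit 5) (nat_lit 427) (nat_lit 398) (nat_lit 315)))))) (XT.nd (nat_lit 468) (nat_lit 2660) (nat_lit 0) (XT.nd (nat_lit 234) (nat_lit 2204) (nat_lit 0) (XT.nd (nat_lit 78) (nat_lit 1824) (nat_lit 0) (XT.lf (nat_lit 0) (nat_lit 4237801620) (nat_lit 1672) (nat_lit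 1267972605) (nat_lit 1748) (nat_lit 3193436055) (nat_lit 446) (nat_lit 5) (nat_lit 468) (nat_lit 5) (nat_lit 469) (nat_lit 5) (nat_lit 428) (nat_lit 398) (nat_lit 314)) (XT.nd (nat_lit 78) (nat_lit 76) (nat_lit 0) (XT.lf (nat_lit 0) (nat_lit 474428398) (nat_lit 1748) (nat_lit 6862256084) (nat_lit 1824) (nat_lit 1439074638) (nat_lit 423) (nat_lit 5) (nat_lit 446) (nat_lit 5) (nat_lit 447) (nat_lit 5) (nat_lit 429) (nat_lit 398) (nat_lit 313)) (XT.lf (nat_lit 0) (nat_lit 356251663) (nat_lit 1824) (nat_lit 3320141246) (nat_lit 76) (nat_lit 5177199273) (nat_lit 422) (nat_lit 5) (nat_lit 446) (nat_lit 5) (nat_lit 423) (nat_lit 5) (nat_lit 430) (nat_lit 398) (nat_lit 312)))) (XT.nd (nat_lit 78) (nat_lit 912) (nat_lit 0) (XT.lf (nat_lit 0) (nat_lit 1749092614) (nat_lit 1292) (nat_lit 402986200) (nat_lit 1368) (nat_lit 6781043617) (nat_lit 405) (nat_lit 5) (nat_lit 422) (nat_lit 5) (nat_lit 423) (nat_lit 5) (nat_lit 431) (nat_lit 398)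 (nat_lit 311)) (XT.nd (nat_lit 78) (nat_lit 912) (nat_lit 0) (XT.lf (nat_lit 0) (nat_lit 3998194177) (nat_lit 1368) (nat_lit 2093680322) (nat_lit 76) (nat_lit 2922089234) (nat_lit 405) (nat_lit 5) (nat_lit 423) (nat_lit 5) (nat_lit 406) (nat_lit 5) (nat_lit 432) (nat_lit 398) (nat_lit 310)) (XT.lf (nat_lit 0) (nat_lit 3111726177) (nat_lit 912) (nat_lit 2765792046) (nat_lit 988) (nat_lit 3218985641) (nat_lit 393) (nat_lit 5) (nat_lit 405) (nat_lit 5) (nat_lit 406) (nat_lit 5) (nat_lit 433) (nat_lit 398) (nat_lit 309))))) (XT.nd (nat_lit 234) (nat_lit 836) (nat_lit 0) (XT.nd (nat_lit 78) (nat_lit 1824) (nat_lit 0) (XT.lf (nat_lit 0) (nat_lit 7786425831) (nat_lit 988) (nat_lit 760225415) (nat_lit 76) (nat_lit 634211186) (nat_lit 393) (nat_lit 5) (nat_lit 406) (nat_lit 5) (nat_lit 394) (nat_lit 5) (nat_lit 434) (nat_lit 398) (nat_lit 308)) (XT.nd (nat_lit 78) (nat_lit 912) (nat_lit 0) (XT.lf (nat_lit 0) (nat_lit 483014483) (nat_lit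 912) (nat_lit 4683774198) (nat_lit 76) (nat_lit 4099615569) (nat_lit 381) (nat_lit 5) (nat_lit 393) (nat_lit 5) (nat_lit 382) (nat_lit 5) (nat_lit 435) (nat_lit 398) (nat_lit 307)) (XT.lf (nat_lit 0) (nat_lit 663569123) (nat_lit 912) (nat_lit 1699702765) (nat_lit 988) (nat_lit 6990529237) (nat_lit 369) (nat_lit 5) (nat_lit 381) (nat_lit 5) (nat_lit 382) (nat_lit 5) (nat_lit 436) (nat_lit 398) (nat_lit 306)))) (XT.nd (nat_lit 78) (nat_lit 836) (nat_lit 0) (XT.lf (nat_lit 0) (nat_lit 4299508384) (nat_lit 988) (nat_lit 3298408902) (nat_lit 76) (nat_lit 1844668171) (nat_lit 369) (nat_lit 5) (nat_lit 382) (nat_lit 5) (nat_lit 370) (nat_lit 5) (nat_lit 437) (nat_lit 398) (nat_lit 305)) (XT.nd (nat_lit 78) (nat_lit 0) (nat_lit 0) (XT.lf (nat_lit 0) (nat_lit 2193957423) (nat_lit 836) (nat_lit 4081317011) (nat_lit 912) (nat_lit 3257861809) (nat_lit 358) (nat_lit 5) (nat_lit 369) (nat_lit 5) (nat_lit 370) (nat_lit 5) (nat_lit 438) (nat_lit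 398) (nat_lit 304)) (XT.lf (nat_lit 0) (nat_lit 7816234033) (nat_lit 836) (nat_lit 472083928) (nat_lit 912) (nat_lit 1337231567) (nat_lit 358) (nat_lit 5) (nat_lit 369) (nat_lit 5) (nat_lit 370) (nat_lit 5) (nat_lit 439) (nat_lit 398) (nat_lit 303))))))))
noncomputable def xc138 : XT := (XT.nd (nat_lit 1716) (nat_lit 6916) (nat_lit 0) (XT.nd (nat_lit 858) (nat_lit 3952) (nat_lit 0) (XT.nd (nat_lit 390) (nat_lit 3040) (nat_lit 0) (XT.nd (nat_lit 156) (nat_lit 1520) (nat_lit 0) (XT.nd (nat_lit 78) (nat_lit 0) (nat_lit 0) (XT.lf (nat_lit 0) (nat_lit 635641290) (nat_lit 912) (nat_lit 5887592452) (nat_lit 76) (nat_lit 3196063359) (nat_lit 346) (nat_lit 5) (nat_lit 358) (nat_lit 5) (nat_lit 347) (nat_lit 5) (nat_lit 440) (nat_lit 398) (nat_lit 302)) (XT.lf (nat_lit 0) (nat_lit 2621682271) (nat_lit 912) (nat_lit 241475544) (nat_lit 76) (nat_lit 6951759041) (nat_lit 346) (nat_lit 5) (nat_lit 358) (nat_lit 5) (nat_lit 347) (nat_lit 5)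 (nat_lit 441) (nat_lit 398) (nat_lit 301))) (XT.nd (nat_lit 78) (nat_lit 760) (nat_lit 0) (XT.lf (nat_lit 0) (nat_lit 4666182694) (nat_lit 836) (nat_lit 4351834729) (nat_lit 76) (nat_lit 894063028) (nat_lit 336) (nat_lit 5) (nat_lit 347) (nat_lit 5) (nat_lit 337) (nat_lit 5) (nat_lit 442) (nat_lit 398) (nat_lit 300)) (XT.nd (nat_lit 78) (nat_lit 0) (nat_lit 0) (XT.lf (nat_lit 0) (nat_lit 1445486776) (nat_lit 760) (nat_lit 5313072770) (nat_lit 836) (nat_lit 3252494137) (nat_lit 326) (nat_lit 5) (nat_lit 336) (nat_lit 5) (nat_lit 337) (nat_lit 5) (nat_lit 443) (nat_lit 398) (nat_lit 299)) (XT.lf (nat_lit 0) (nat_lit 7393288174) (nat_lit 760) (nat_lit 1505999773) (nat_lit 836) (nat_lit 1212594326) (nat_lit 326) (nat_lit 5) (nat_lit 336) (nat_lit 5) (nat_lit 337) (nat_lit 5) (nat_lit 444) (nat_lit 398) (nat_lit 298))))) (XT.nd (nat_lit 234) (nat_lit 1444) (nat_lit 0) (XT.nd (nat_lit 78) (nat_lit 760) (nat_lit 0) (XT.lf (nat_lit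 0) (nat_lit 871064642) (nat_lit 836) (nat_lit 6972113160) (nat_lit 76) (nat_lit 2371155721) (nat_lit 315) (nat_lit 5) (nat_lit 326) (nat_lit 5) (nat_lit 316) (nat_lit 5) (nat_lit 445) (nat_lit 398) (nat_lit 297)) (XT.nd (nat_lit 78) (nat_lit 760) (nat_lit 0) (XT.lf (nat_lit 0) (nat_lit 2986375466) (nat_lit 836) (nat_lit 1002047502) (nat_lit 76) (nat_lit 6330131847) (nat_lit 315) (nat_lit 5) (nat_lit 326) (nat_lit 5) (nat_lit 316) (nat_lit 5) (nat_lit 446) (nat_lit 398) (nat_lit 296)) (XT.lf (nat_lit 0) (nat_lit 5130633955) (nat_lit 760) (nat_lit 24966711) (nat_lit 836) (nat_lit 5269033222) (nat_lit 305) (nat_lit 5) (nat_lit 315) (nat_lit 5) (nat_lit 316) (nat_lit 5) (nat_lit 447) (nat_lit 398) (nat_lit 295)))) (XT.nd (nat_lit 78) (nat_lit 760) (nat_lit 0) (XT.lf (nat_lit 0) (nat_lit 827236609) (nat_lit 684) (nat_lit 6557750316) (nat_lit 760) (nat_lit 3147517499) (nat_lit 296) (nat_lit 5) (nat_lit 305) (nat_lit 5) (nat_lit 306)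 (nat_lit 5) (nat_lit 448) (nat_lit 398) (nat_lit 294)) (XT.nd (nat_lit 78) (nat_lit 760) (nat_lit 0) (XT.lf (nat_lit 0) (nat_lit 7118317737) (nat_lit 684) (nat_lit 2555147403) (nat_lit 760) (nat_lit 968782452) (nat_lit 296) (nat_lit 5) (nat_lit 305) (nat_lit 5) (nat_lit 306) (nat_lit 5) (nat_lit 449) (nat_lit 398) (nat_lit 293)) (XT.lf (nat_lit 0) (nat_lit 1244330508) (nat_lit 760) (nat_lit 7978711272) (nat_lit 76) (nat_lit 1530841296) (nat_lit 286) (nat_lit 5) (nat_lit 296) (nat_lit 5) (nat_lit 287) (nat_lit 5) (nat_lit 450) (nat_lit 398) (nat_lit 292)))))) (XT.nd (nat_lit 390) (nat_lit 1900) (nat_lit 0) (XT.nd (nat_lit 156) (nat_lit 1368) (nat_lit 0) (XT.nd (nat_lit 78) (nat_lit 684) (nat_lit 0) (XT.lf (nat_lit 0) (nat_lit 3508793359) (nat_lit 760) (nat_lit 1666971898) (nat_lit 76) (nat_lit 5691461748) (nat_lit 286) (nat_lit 5) (nat_lit 296) (nat_lit 5) (nat_lit 287) (nat_lit 5) (nat_lit 451) (nat_lit 398) (nat_lit 291)) (XT.lf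 (nat_lit 0) (nat_lit 4810342752) (nat_lit 684) (nat_lit 1019162069) (nat_lit 760) (nat_lit 5153118706) (nat_lit 277) (nat_lit 5) (nat_lit 286) (nat_lit 5) (nat_lit 287) (nat_lit 5) (nat_lit 452) (nat_lit 398) (nat_lit 290))) (XT.nd (nat_lit 78) (nat_lit 684) (nat_lit 0) (XT.lf (nat_lit 0) (nat_lit 298654395) (nat_lit 684) (nat_lit 7912034225) (nat_lit 760) (nat_lit 2889363000) (nat_lit 268) (nat_lit 5) (nat_lit 277) (nat_lit 5) (nat_lit 278) (nat_lit 5) (nat_lit 453) (nat_lit 398) (nat_lit 289)) (XT.nd (nat_lit 78) (nat_lit 684) (nat_lit 0) (XT.lf (nat_lit 0) (nat_lit 6952019754) (nat_lit 684) (nat_lit 3715787752) (nat_lit 760) (nat_lit 551459254) (nat_lit 268) (nat_lit 5) (nat_lit 277) (nat_lit 5) (nat_lit 278) (nat_lit 5) (nat_lit 454) (nat_lit 398) (nat_lit 288)) (XT.lf (nat_lit 0) (nat_lit 1808961910) (nat_lit 684) (nat_lit 8951072015) (nat_lit 76) (nat_lit 580602714) (nat_lit 259) (nat_lit 5) (nat_lit 268) (nat_lit 5) (nat_lit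 260) (nat_lit 5) (nat_lit 455) (nat_lit 398) (nat_lit 287))))) (XT.nd (nat_lit 234) (nat_lit 1292) (nat_lit 0) (XT.nd (nat_lit 78) (nat_lit 608) (nat_lit 0) (XT.lf (nat_lit 0) (nat_lit 4243294119) (nat_lit 684) (nat_lit 2278777145) (nat_lit 76) (nat_lit 4941612455) (nat_lit 259) (nat_lit 5) (nat_lit 268) (nat_lit 5) (nat_lit 260) (nat_lit 5) (nat_lit 456) (nat_lit 398) (nat_lit 286)) (XT.nd (nat_lit 78) (nat_lit 0) (nat_lit 0) (XT.lf (nat_lit 0) (nat_lit 4563458784) (nat_lit 608) (nat_lit 2173509446) (nat_lit 684) (nat_lit 4852014758) (nat_lit 251) (nat_lit 5) (nat_lit 259) (nat_lit 5) (nat_lit 260) (nat_lit 5) (nat_lit 457) (nat_lit 398) (nat_lit 285)) (XT.lf (nat_lit 0) (nat_lit 9291814206) (nat_lit 684) (nat_lit 181393570) (nat_lit 76) (nat_lit 2243358765) (nat_lit 251) (nat_lit 5) (nat_lit 260) (nat_lit 5) (nat_lit 252) (nat_lit 5) (nat_lit 458) (nat_lit 398) (nat_lit 284)))) (XT.nd (nat_lit 78) (nat_lit 608) (nat_lit 0)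 (XT.lf (nat_lit 0) (nat_lit 91118466) (nat_lit 684) (nat_lit 4994495628) (nat_lit 76) (nat_lit 6760270487) (nat_lit 242) (nat_lit 5) (nat_lit 251) (nat_lit 5) (nat_lit 243) (nat_lit 5) (nat_lit 459) (nat_lit 398) (nat_lit 283)) (XT.nd (nat_lit 78) (nat_lit 0) (nat_lit 0) (XT.lf (nat_lit 0) (nat_lit 2036984695) (nat_lit 608) (nat_lit 584010212) (nat_lit 684) (nat_lit 9356554430) (nat_lit 234) (nat_lit 5) (nat_lit 242) (nat_lit 5) (nat_lit 243) (nat_lit 5) (nat_lit 460) (nat_lit 398) (nat_lit 282)) (XT.lf (nat_lit 0) (nat_lit 5243079083) (nat_lit 684) (nat_lit 2883990688) (nat_lit 76) (nat_lit 3983949356) (nat_lit 234) (nat_lit 5) (nat_lit 243) (nat_lit 5) (nat_lit 235) (nat_lit 5) (nat_lit 461) (nat_lit 398) (nat_lit 281))))))) (XT.nd (nat_lit 858) (nat_lit 3192) (nat_lit 0) (XT.nd (nat_lit 390) (nat_lit 2052) (nat_lit 0) (XT.nd (nat_lit 156) (nat_lit 1140) (nat_lit 0) (XT.nd (nat_lit 78) (nat_lit 0) (nat_lit 0) (XT.lf (nat_lit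 0) (nat_lit 4343908648) (nat_lit 532) (nat_lit 3587975671) (nat_lit 608) (nat_lit 4314992269) (nat_lit 227) (nat_lit 5) (nat_lit 234) (nat_lit 5) (nat_lit 235) (nat_lit 5) (nat_lit 462) (nat_lit 398) (nat_lit 280)) (XT.lf (nat_lit 0) (nat_lit 10683087392) (nat_lit 608) (nat_lit 659578737) (nat_lit 76) (nat_lit 1042616425) (nat_lit 227) (nat_lit 5) (nat_lit 235) (nat_lit 5) (nat_lit 228) (nat_lit 5) (nat_lit 463) (nat_lit 398) (nat_lit 279))) (XT.nd (nat_lit 78) (nat_lit 532) (nat_lit 0) (XT.lf (nat_lit 0) (nat_lit 1001005427) (nat_lit 608) (nat_lit 5760944474) (nat_lit 76) (nat_lit 5763369836) (nat_lit 219) (nat_lit 5) (nat_lit 227) (nat_lit 5) (nat_lit 220) (nat_lit 5) (nat_lit 464) (nat_lit 398) (nat_lit 278)) (XT.nd (nat_lit 78) (nat_lit 0) (nat_lit 0) (XT.lf (nat_lit 0) (nat_lit 1665509601) (nat_lit 532) (nat_lit 2068055800) (nat_lit 608) (nat_lit 8934409048) (nat_lit 212) (nat_lit 5) (nat_lit 219) (nat_lit 5) (nat_lit 220)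 (nat_lit 5) (nat_lit 465) (nat_lit 398) (nat_lit 277)) (XT.lf (nat_lit 0) (nat_lit 6560301978) (nat_lit 608) (nat_lit 3534909393) (nat_lit 76) (nat_lit 2717483876) (nat_lit 212) (nat_lit 5) (nat_lit 220) (nat_lit 5) (nat_lit 213) (nat_lit 5) (nat_lit 466) (nat_lit 398) (nat_lit 276))))) (XT.nd (nat_lit 234) (nat_lit 988) (nat_lit 0) (XT.nd (nat_lit 78) (nat_lit 532) (nat_lit 0) (XT.lf (nat_lit 0) (nat_lit 4099647509) (nat_lit 532) (nat_lit 5367525625) (nat_lit 608) (nat_lit 3492668761) (nat_lit 205) (nat_lit 5) (nat_lit 212) (nat_lit 5) (nat_lit 213) (nat_lit 5) (nat_lit 467) (nat_lit 398) (nat_lit 275)) (XT.nd (nat_lit 78) (nat_lit 532) (nat_lit 0) (XT.lf (nat_lit 0) (nat_lit 11912538146) (nat_lit 532) (nat_lit 526834251) (nat_lit 608) (nat_lit 670418630) (nat_lit 205) (nat_lit 5) (nat_lit 212) (nat_lit 5) (nat_lit 213) (nat_lit 5) (nat_lit 468) (nat_lit 398) (nat_lit 274)) (XT.lf (nat_lit 0) (nat_lit 2235285430) (nat_lit 532)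 (nat_lit 6620866162) (nat_lit 76) (nat_lit 4405184615) (nat_lit 198) (nat_lit 5) (nat_lit 205) (nat_lit 5) (nat_lit 199) (nat_lit 5) (nat_lit 469) (nat_lit 398) (nat_lit 273)))) (XT.nd (nat_lit 78) (nat_lit 456) (nat_lit 0) (XT.lf (nat_lit 0) (nat_lit 1221259184) (nat_lit 532) (nat_lit 3972204784) (nat_lit 608) (nat_lit 8222296116) (nat_lit 191) (nat_lit 5) (nat_lit 198) (nat_lit 5) (nat_lit 199) (nat_lit 5) (nat_lit 470) (nat_lit 398) (nat_lit 272)) (XT.nd (nat_lit 78) (nat_lit 456) (nat_lit 0) (XT.lf (nat_lit 0) (nat_lit 8246041656) (nat_lit 608) (nat_lit 4291595825) (nat_lit 76) (nat_lit 1034933354) (nat_lit 191) (nat_lit 5) (nat_lit 199) (nat_lit 5) (nat_lit 192) (nat_lit 5) (nat_lit 471) (nat_lit 398) (nat_lit 271)) (XT.lf (nat_lit 0) (nat_lit 3770613108) (nat_lit 456) (nat_lit 7624117667) (nat_lit 532) (nat_lit 2337088876) (nat_lit 185) (nat_lit 5) (nat_lit 191) (nat_lit 5) (nat_lit 192) (nat_lit 5) (nat_lit 472) (nat_lit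 398) (nat_lit 270)))))) (XT.nd (nat_lit 468) (nat_lit 1672) (nat_lit 0) (XT.nd (nat_lit 234) (nat_lit 532) (nat_lit 0) (XT.nd (nat_lit 78) (nat_lit 912) (nat_lit 0) (XT.lf (nat_lit 0) (nat_lit 716123666) (nat_lit 532) (nat_lit 1868219506) (nat_lit 76) (nat_lit 11309554261) (nat_lit 184) (nat_lit 5) (nat_lit 191) (nat_lit 5) (nat_lit 185) (nat_lit 5) (nat_lit 473) (nat_lit 398) (nat_lit 269)) (XT.nd (nat_lit 78) (nat_lit 456) (nat_lit 0) (XT.lf (nat_lit 0) (nat_lit 3842486494) (nat_lit 532) (nat_lit 7641321509) (nat_lit 76) (nat_lit 2574235083) (nat_lit 178) (nat_lit 5) (nat_lit 185) (nat_lit 5) (nat_lit 179) (nat_lit 5) (nat_lit 474) (nat_lit 398) (nat_lit 268)) (XT.lf (nat_lit 0) (nat_lit 636959079) (nat_lit 456) (nat_lit 6413050556) (nat_lit 532) (nat_lit 7175092170) (nat_lit 172) (nat_lit 5) (nat_lit 178) (nat_lit 5) (nat_lit 179) (nat_lit 5) (nat_lit 475) (nat_lit 398) (nat_lit 267)))) (XT.nd (nat_lit 78) (nat_lit 532) (nat_lit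 0) (XT.lf (nat_lit 0) (nat_lit 9162866267) (nat_lit 456) (nat_lit 1195016191) (nat_lit 532) (nat_lit 4036898016) (nat_lit 172) (nat_lit 5) (nat_lit 178) (nat_lit 5) (nat_lit 179) (nat_lit 5) (nat_lit 476) (nat_lit 398) (nat_lit 266)) (XT.nd (nat_lit 78) (nat_lit 76) (nat_lit 0) (XT.lf (nat_lit 0) (nat_lit 3286388227) (nat_lit 456) (nat_lit 10478836184) (nat_lit 532) (nat_lit 801964778) (nat_lit 166) (nat_lit 5) (nat_lit 172) (nat_lit 5) (nat_lit 173) (nat_lit 5) (nat_lit 477) (nat_lit 398) (nat_lit 265)) (XT.lf (nat_lit 0) (nat_lit 2493394917) (nat_lit 532) (nat_lit 2742143197) (nat_lit 76) (nat_lit 9506616531) (nat_lit 165) (nat_lit 5) (nat_lit 172) (nat_lit 5) (nat_lit 166) (nat_lit 5) (nat_lit 478) (nat_lit 398) (nat_lit 264))))) (XT.nd (nat_lit 234) (nat_lit 836) (nat_lit 0) (XT.nd (nat_lit 78) (nat_lit 456) (nat_lit 0) (XT.lf (nat_lit 0) (nat_lit 5869521268) (nat_lit 456) (nat_lit 8901070462) (nat_lit 76) (nat_lit 149412255)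 (nat_lit 160) (nat_lit 5) (nat_lit 166) (nat_lit 5) (nat_lit 161) (nat_lit 5) (nat_lit 479) (nat_lit 398) (nat_lit 263)) (XT.nd (nat_lit 78) (nat_lit 456) (nat_lit 0) (XT.lf (nat_lit 0) (nat_lit 9351991188) (nat_lit 456) (nat_lit 164536100) (nat_lit 76) (nat_lit 5584109104) (nat_lit 160) (nat_lit 5) (nat_lit 166) (nat_lit 5) (nat_lit 161) (nat_lit 5) (nat_lit 480) (nat_lit 398) (nat_lit 262)) (XT.lf (nat_lit 0) (nat_lit 8842005437) (nat_lit 456) (nat_lit 4105420603) (nat_lit 532) (nat_lit 2336591544) (nat_lit 154) (nat_lit 5) (nat_lit 160) (nat_lit 5) (nat_lit 161) (nat_lit 5) (nat_lit 481) (nat_lit 398) (nat_lit 261)))) (XT.nd (nat_lit 78) (nat_lit 380) (nat_lit 0) (XT.lf (nat_lit 0) (nat_lit 1141729505) (nat_lit 456) (nat_lit 12914814430) (nat_lit 76) (nat_lit 1414115786) (nat_lit 148) (nat_lit 5) (nat_lit 154) (nat_lit 5) (nat_lit 149) (nat_lit 5) (nat_lit 482) (nat_lit 398) (nat_lit 260)) (XT.nd (nat_lit 78) (nat_lit 380)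 (nat_lit 0) (XT.lf (nat_lit 0) (nat_lit 4715116656) (nat_lit 456) (nat_lit 3902976983) (nat_lit 76) (nat_lit 7041498739) (nat_lit 148) (nat_lit 5) (nat_lit 154) (nat_lit 5) (nat_lit 149) (nat_lit 5) (nat_lit 483) (nat_lit 398) (nat_lit 259)) (XT.lf (nat_lit 0) (nat_lit 5338682343) (nat_lit 380) (nat_lit 3042278532) (nat_lit 456) (nat_lit 7470925291) (nat_lit 143) (nat_lit 5) (nat_lit 148) (nat_lit 5) (nat_lit 149) (nat_lit 5) (nat_lit 484) (nat_lit 398) (nat_lit 258))))))))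
noncomputable def xc139 : XT := (XT.nd (nat_lit 52650) (nat_lit 0) (nat_lit 33744) (XT.nd (nat_lit 858) (nat_lit 2128) (nat_lit 0) (XT.nd (nat_lit 390) (nat_lit 1216) (nat_lit 0) (XT.nd (nat_lit 156) (nat_lit 760) (nat_lit 0) (XT.nd (nat_lit 78) (nat_lit 380) (nat_lit 0) (XT.lf (nat_lit 0) (nat_lit 12150079364) (nat_lit 456) (nat_lit 1267295435) (nat_lit 76) (nat_lit 2630054104) (nat_lit 143) (nat_lit 5) (nat_lit 149) (nat_lit 5) (nat_lit 144) (nat_lit 5) (nat_lit 485) (nat_lit 398) (nat_lit 257)) (XT.lf (nat_lit 0) (nat_lit 8231212637) (nat_lit 380) (nat_lit 7823643367) (nat_lit 456) (nat_lit 190823149) (nat_lit 138) (nat_lit 5) (nat_lit 143) (nat_lit 5) (nat_lit 144) (nat_lit 5) (nat_lit 486) (nat_lit 398) (nat_lit 256))) (XT.nd (nat_lit 78) (nat_lit 304) (nat_lit 0) (XT.lf (nat_lit 0) (nat_lit 1464821714) (nat_lit 380) (nat_lit 2082729470) (nat_lit 456) (nat_lit 12899783191) (nat_lit 132) (nat_lit 5) (nat_lit 137) (nat_lit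 5) (nat_lit 138) (nat_lit 5) (nat_lit 487) (nat_lit 398) (nat_lit 255)) (XT.nd (nat_lit 78) (nat_lit 304) (nat_lit 0) (XT.lf (nat_lit 0) (nat_lit 7423587535) (nat_lit 456) (nat_lit 5455988169) (nat_lit 76) (nat_lit 3772114828) (nat_lit 132) (nat_lit 5) (nat_lit 138) (nat_lit 5) (nat_lit 133) (nat_lit 5) (nat_lit 488) (nat_lit 398) (nat_lit 254)) (XT.lf (nat_lit 0) (nat_lit 4283592943) (nat_lit 304) (nat_lit 7122228046) (nat_lit 380) (nat_lit 5453741306) (nat_lit 128) (nat_lit 5) (nat_lit 132) (nat_lit 5) (nat_lit 133) (nat_lit 5) (nat_lit 489) (nat_lit 398) (nat_lit 253))))) (XT.nd (nat_lit 234) (nat_lit 760) (nat_lit 0) (XT.nd (nat_lit 78) (nat_lit 456) (nat_lit 0) (XT.lf (nat_lit 0) (nat_lit 14272192645) (nat_lit 304) (nat_lit 1219315953) (nat_lit 380) (nat_lit 1579608675) (nat_lit 128) (nat_lit 5) (nat_lit 132) (nat_lit 5) (nat_lit 133) (nat_lit 5) (nat_lit 490) (nat_lit 398) (nat_lit 252)) (XT.nd (nat_lit 78) (nat_lit 0)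 (nat_lit 0) (XT.lf (nat_lit 0) (nat_lit 2406769599) (nat_lit 456) (nat_lit 10083837379) (nat_lit 76) (nat_lit 4794672810) (nat_lit 122) (nat_lit 5) (nat_lit 128) (nat_lit 5) (nat_lit 123) (nat_lit 5) (nat_lit 491) (nat_lit 398) (nat_lit 251)) (XT.lf (nat_lit 0) (nat_lit 6466166099) (nat_lit 456) (nat_lit 101845799) (nat_lit 76) (nat_lit 10935217855) (nat_lit 122) (nat_lit 5) (nat_lit 128) (nat_lit 5) (nat_lit 123) (nat_lit 5) (nat_lit 492) (nat_lit 398) (nat_lit 250)))) (XT.nd (nat_lit 78) (nat_lit 456) (nat_lit 0) (XT.lf (nat_lit 0) (nat_lit 10194277024) (nat_lit 304) (nat_lit 466348046) (nat_lit 380) (nat_lit 7063837978) (nat_lit 118) (nat_lit 5) (nat_lit 122) (nat_lit 5) (nat_lit 123) (nat_lit 5) (nat_lit 493) (nat_lit 398) (nat_lit 249)) (XT.nd (nat_lit 78) (nat_lit 76) (nat_lit 0) (XT.lf (nat_lit 0) (nat_lit 2726688479) (nat_lit 380) (nat_lit 12255816080) (nat_lit 456) (nat_lit 2966747609) (nat_lit 113) (nat_lit 5) (nat_lit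 118) (nat_lit 5) (nat_lit 119) (nat_lit 5) (nat_lit 494) (nat_lit 398) (nat_lit 248)) (XT.lf (nat_lit 0) (nat_lit 1238132777) (nat_lit 456) (nat_lit 4917366377) (nat_lit 76) (nat_lit 12022047260) (nat_lit 112) (nat_lit 5) (nat_lit 118) (nat_lit 5) (nat_lit 113) (nat_lit 5) (nat_lit 495) (nat_lit 398) (nat_lit 247)))))) (XT.nd (nat_lit 390) (nat_lit 1140) (nat_lit 0) (XT.nd (nat_lit 156) (nat_lit 684) (nat_lit 0) (XT.nd (nat_lit 78) (nat_lit 0) (nat_lit 0) (XT.lf (nat_lit 0) (nat_lit 5512764571) (nat_lit 380) (nat_lit 12781110484) (nat_lit 76) (nat_lit 115633399) (nat_lit 108) (nat_lit 5) (nat_lit 113) (nat_lit 5) (nat_lit 109) (nat_lit 5) (nat_lit 496) (nat_lit 398) (nat_lit 246)) (XT.lf (nat_lit 0) (nat_lit 9934970173) (nat_lit 380) (nat_lit 2253709577) (nat_lit 76) (nat_lit 6456190010) (nat_lit 108) (nat_lit 5) (nat_lit 113) (nat_lit 5) (nat_lit 109) (nat_lit 5) (nat_lit 497) (nat_lit 398) (nat_lit 245))) (XT.nd (nat_lit 78)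 (nat_lit 380) (nat_lit 0) (XT.lf (nat_lit 0) (nat_lit 8578105308) (nat_lit 304) (nat_lit 5911542300) (nat_lit 380) (nat_lit 4394411747) (nat_lit 104) (nat_lit 5) (nat_lit 108) (nat_lit 5) (nat_lit 109) (nat_lit 5) (nat_lit 498) (nat_lit 398) (nat_lit 244)) (XT.nd (nat_lit 78) (nat_lit 0) (nat_lit 0) (XT.lf (nat_lit 0) (nat_lit 17501559) (nat_lit 380) (nat_lit 18613819168) (nat_lit 76) (nat_lit 496508357) (nat_lit 99) (nat_lit 5) (nat_lit 104) (nat_lit 5) (nat_lit 100) (nat_lit 5) (nat_lit 499) (nat_lit 398) (nat_lit 243)) (XT.lf (nat_lit 0) (nat_lit 4556058210) (nat_lit 380) (nat_lit 7772462021) (nat_lit 76) (nat_lit 7045429636) (nat_lit 99) (nat_lit 5) (nat_lit 104) (nat_lit 5) (nat_lit 100) (nat_lit 5) (nat_lit 500) (nat_lit 398) (nat_lit 242))))) (XT.nd (nat_lit 234) (nat_lit 608) (nat_lit 0) (XT.nd (nat_lit 78) (nat_lit 228) (nat_lit 0) (XT.lf (nat_lit 0) (nat_lit 3310776335) (nat_lit 304) (nat_lit 5884757946) (nat_lit 380)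 (nat_lit 10429257312) (nat_lit 95) (nat_lit 5) (nat_lit 99) (nat_lit 5) (nat_lit 100) (nat_lit 5) (nat_lit 501) (nat_lit 398) (nat_lit 241)) (XT.nd (nat_lit 78) (nat_lit 228) (nat_lit 0) (XT.lf (nat_lit 0) (nat_lit 13973479862) (nat_lit 380) (nat_lit 5181808750) (nat_lit 76) (nat_lit 724449406) (nat_lit 95) (nat_lit 5) (nat_lit 100) (nat_lit 5) (nat_lit 96) (nat_lit 5) (nat_lit 502) (nat_lit 398) (nat_lit 240)) (XT.lf (nat_lit 0) (nat_lit 6197282389) (nat_lit 228) (nat_lit 12717843184) (nat_lit 304) (nat_lit 1223296408) (nat_lit 92) (nat_lit 5) (nat_lit 95) (nat_lit 5) (nat_lit 96) (nat_lit 5) (nat_lit 503) (nat_lit 398) (nat_lit 239)))) (XT.nd (nat_lit 78) (nat_lit 532) (nat_lit 0) (XT.lf (nat_lit 0) (nat_lit 3530683941) (nat_lit 304) (nat_lit 2568784182) (nat_lit 76) (nat_lit 14301872235) (nat_lit 91) (nat_lit 5) (nat_lit 95) (nat_lit 5) (nat_lit 92) (nat_lit 5) (nat_lit 504) (nat_lit 398) (nat_lit 238)) (XT.nd (nat_lit 78)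 (nat_lit 228) (nat_lit 0) (XT.lf (nat_lit 0) (nat_lit 8416428859) (nat_lit 380) (nat_lit 11548167049) (nat_lit 76) (nat_lit 703699529) (nat_lit 87) (nat_lit 5) (nat_lit 92) (nat_lit 5) (nat_lit 88) (nat_lit 5) (nat_lit 505) (nat_lit 398) (nat_lit 237)) (XT.lf (nat_lit 0) (nat_lit 80143123) (nat_lit 228) (nat_lit 13367240220) (nat_lit 304) (nat_lit 7492257706) (nat_lit 84) (nat_lit 5) (nat_lit 87) (nat_lit 5) (nat_lit 88) (nat_lit 5) (nat_lit 506) (nat_lit 398) (nat_lit 236))))))) (XT.nd (nat_lit 858) (nat_lit 3800) (nat_lit 0) (XT.nd (nat_lit 390) (nat_lit 1064) (nat_lit 0) (XT.nd (nat_lit 156) (nat_lit 1140) (nat_lit 0) (XT.nd (nat_lit 78) (nat_lit 0) (nat_lit 0) (XT.lf (nat_lit 0) (nat_lit 1927549271) (nat_lit 1140) (nat_lit 819716993) (nat_lit 1140) (nat_lit 819716993) (nat_lit 607) (nat_lit 3) (nat_lit 622) (nat_lit 3) (nat_lit 622) (nat_lit 5) (nat_lit 399) (nat_lit 399) (nat_lit 342)) (XT.lf (nat_lit 76) (nat_lit 1844357397)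 (nat_lit 0) (nat_lit 3734260324) (nat_lit 1140) (nat_lit 1592363789) (nat_lit 608) (nat_lit 5) (nat_lit 607) (nat_lit 3) (nat_lit 622) (nat_lit 5) (nat_lit 400) (nat_lit 399) (nat_lit 341))) (XT.nd (nat_lit 78) (nat_lit 0) (nat_lit 76) (XT.lf (nat_lit 0) (nat_lit 92929462) (nat_lit 1140) (nat_lit 1812663776) (nat_lit 1216) (nat_lit 5303808324) (nat_lit 592) (nat_lit 5) (nat_lit 607) (nat_lit 3) (nat_lit 608) (nat_lit 5) (nat_lit 401) (nat_lit 399) (nat_lit 340)) (XT.nd (nat_lit 78) (nat_lit 0) (nat_lit 0) (XT.lf (nat_lit 0) (nat_lit 1758610884) (nat_lit 1140) (nat_lit 5487757860) (nat_lit 1216) (nat_lit 2666444) (nat_lit 593) (nat_lit 5) (nat_lit 608) (nat_lit 5) (nat_lit 609) (nat_lit 5) (nat_lit 402) (nat_lit 399) (nat_lit 339)) (XT.lf (nat_lit 0) (nat_lit 3439836744) (nat_lit 1140) (nat_lit 1894335862) (nat_lit 1216) (nat_lit 1955659721) (nat_lit 593) (nat_lit 5) (nat_lit 608) (nat_lit 5) (nat_lit 609) (nat_lit 5) (nat_lit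 403) (nat_lit 399) (nat_lit 338))))) (XT.nd (nat_lit 234) (nat_lit 0) (nat_lit 0) (XT.nd (nat_lit 78) (nat_lit 1140) (nat_lit 0) (XT.lf (nat_lit 76) (nat_lit 1770959791) (nat_lit 0) (nat_lit 3353428030) (nat_lit 1216) (nat_lit 2207678727) (nat_lit 594) (nat_lit 5) (nat_lit 593) (nat_lit 5) (nat_lit 609) (nat_lit 5) (nat_lit 404) (nat_lit 399) (nat_lit 337)) (XT.nd (nat_lit 78) (nat_lit 1140) (nat_lit 0) (XT.lf (nat_lit 76) (nat_lit 5512171110) (nat_lit 0) (nat_lit 1302043037) (nat_lit 1216) (nat_lit 561514476) (nat_lit 594) (nat_lit 5) (nat_lit 593) (nat_lit 5) (nat_lit 609) (nat_lit 5) (nat_lit 405) (nat_lit 399) (nat_lit 336)) (XT.lf (nat_lit 0) (nat_lit 1080039876) (nat_lit 1216) (nat_lit 5523604875) (nat_lit 1292) (nat_lit 816945868) (nat_lit 578) (nat_lit 5) (nat_lit 594) (nat_lit 5) (nat_lit 595) (nat_lit 5) (nat_lit 406) (nat_lit 399) (nat_lit 335)))) (XT.nd (nat_lit 78) (nat_lit 0) (nat_lit 0) (XT.lf (nat_lit 0) (nat_lit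 2728278662) (nat_lit 1216) (nat_lit 1744463799) (nat_lit 1292) (nat_lit 2993919722) (nat_lit 578) (nat_lit 5) (nat_lit 594) (nat_lit 5) (nat_lit 595) (nat_lit 5) (nat_lit 407) (nat_lit 399) (nat_lit 334)) (XT.nd (nat_lit 78) (nat_lit 0) (nat_lit 76) (XT.lf (nat_lit 76) (nat_lit 2114521174) (nat_lit 0) (nat_lit 2269625143) (nat_lit 1292) (nat_lit 3130029301) (nat_lit 579) (nat_lit 5) (nat_lit 578) (nat_lit 5) (nat_lit 595) (nat_lit 5) (nat_lit 408) (nat_lit 399) (nat_lit 333)) (XT.lf (nat_lit 0) (nat_lit 6046417453) (nat_lit 1216) (nat_lit 1512202029) (nat_lit 1292) (nat_lit 4567573) (nat_lit 579) (nat_lit 5) (nat_lit 595) (nat_lit 5) (nat_lit 596) (nat_lit 5) (nat_lit 409) (nat_lit 399) (nat_lit 332)))))) (XT.nd (nat_lit 468) (nat_lit 1292) (nat_lit 0) (XT.nd (nat_lit 234) (nat_lit 1292) (nat_lit 0) (XT.nd (nat_lit 78) (nat_lit 0) (nat_lit 0) (XT.lf (nat_lit 0) (nat_lit 120323231) (nat_lit 1292) (nat_lit 5167787465) (nat_lit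 1368) (nat_lit 2325199107) (nat_lit 562) (nat_lit 5) (nat_lit 579) (nat_lit 5) (nat_lit 580) (nat_lit 5) (nat_lit 410) (nat_lit 399) (nat_lit 331)) (XT.nd (nat_lit 78) (nat_lit 0) (nat_lit 0) (XT.lf (nat_lit 0) (nat_lit 1742808641) (nat_lit 1292) (nat_lit 1195519637) (nat_lit 1368) (nat_lit 4726459685) (nat_lit 562) (nat_lit 5) (nat_lit 579) (nat_lit 5) (nat_lit 580) (nat_lit 5) (nat_lit 411) (nat_lit 399) (nat_lit 330)) (XT.lf (nat_lit 76) (nat_lit 2870234203) (nat_lit 0) (nat_lit 509602277) (nat_lit 1368) (nat_lit 4337829783) (nat_lit 563) (nat_lit 5) (nat_lit 562) (nat_lit 5) (nat_lit 580) (nat_lit 5) (nat_lit 412) (nat_lit 399) (nat_lit 329)))) (XT.nd (nat_lit 78) (nat_lit 1368) (nat_lit 0) (XT.lf (nat_lit 0) (nat_lit 5034559077) (nat_lit 1292) (nat_lit 775022517) (nat_lit 1368) (nat_lit 1962333637) (nat_lit 563) (nat_lit 5) (nat_lit 580) (nat_lit 5) (nat_lit 581) (nat_lit 5) (nat_lit 413) (nat_lit 399) (nat_lit 328)) (XT.nd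 (nat_lit 78) (nat_lit 1368) (nat_lit 0) (XT.lf (nat_lit 76) (nat_lit 3396217257) (nat_lit 0) (nat_lit 3316390980) (nat_lit 1368) (nat_lit 1114848247) (nat_lit 564) (nat_lit 5) (nat_lit 563) (nat_lit 5) (nat_lit 581) (nat_lit 5) (nat_lit 414) (nat_lit 399) (nat_lit 327)) (XT.lf (nat_lit 0) (nat_lit 503363775) (nat_lit 1368) (nat_lit 250262164) (nat_lit 1444) (nat_lit 7131017222) (nat_lit 545) (nat_lit 5) (nat_lit 563) (nat_lit 5) (nat_lit 564) (nat_lit 5) (nat_lit 415) (nat_lit 399) (nat_lit 326))))) (XT.nd (nat_lit 234) (nat_lit 1368) (nat_lit 0) (XT.nd (nat_lit 78) (nat_lit 0) (nat_lit 0) (XT.lf (nat_lit 0) (nat_lit 2143388904) (nat_lit 1368) (nat_lit 3919111070) (nat_lit 1444) (nat_lit 1880249937) (nat_lit 546) (nat_lit 5) (nat_lit 564) (nat_lit 5) (nat_lit 565) (nat_lit 5) (nat_lit 416) (nat_lit 399) (nat_lit 325)) (XT.nd (nat_lit 78) (nat_lit 0) (nat_lit 0) (XT.lf (nat_lit 76) (nat_lit 359916294) (nat_lit 0) (nat_lit 3431687862)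 (nat_lit 1444) (nat_lit 4210917887) (nat_lit 547) (nat_lit 5) (nat_lit 546) (nat_lit 5) (nat_lit 565) (nat_lit 5) (nat_lit 417) (nat_lit 399) (nat_lit 324)) (XT.lf (nat_lit 76) (nat_lit 4753581100) (nat_lit 0) (nat_lit 712376424) (nat_lit 1444) (nat_lit 2597679439) (nat_lit 547) (nat_lit 5) (nat_lit 546) (nat_lit 5) (nat_lit 565) (nat_lit 5) (nat_lit 418) (nat_lit 399) (nat_lit 323)))) (XT.nd (nat_lit 78) (nat_lit 1444) (nat_lit 0) (XT.lf (nat_lit 76) (nat_lit 1085686976) (nat_lit 0) (nat_lit 6076125136) (nat_lit 1444) (nat_lit 964412396) (nat_lit 548) (nat_lit 5) (nat_lit 547) (nat_lit 5) (nat_lit 566) (nat_lit 5) (nat_lit 419) (nat_lit 399) (nat_lit 322)) (XT.nd (nat_lit 78) (nat_lit 0) (nat_lit 0) (XT.lf (nat_lit 0) (nat_lit 687235205) (nat_lit 1444) (nat_lit 2609416970) (nat_lit 1520) (nat_lit 4893432416) (nat_lit 528) (nat_lit 5) (nat_lit 547) (nat_lit 5) (nat_lit 548) (nat_lit 5) (nat_lit 420) (nat_lit 399) (nat_lit 321))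 (XT.lf (nat_lit 76) (nat_lit 1904812095) (nat_lit 0) (nat_lit 435038904) (nat_lit 1520) (nat_lit 5915636404) (nat_lit 529) (nat_lit 5) (nat_lit 528) (nat_lit 5) (nat_lit 548) (nat_lit 5) (nat_lit 421) (nat_lit 399) (nat_lit 320))))))))
noncomputable def xc140 : XT := (XT.nd (nat_lit 1716) (nat_lit 9424) (nat_lit 0) (XT.nd (nat_lit 858) (nat_lit 5244) (nat_lit 0) (XT.nd (nat_lit 390) (nat_lit 4788) (nat_lit 0) (XT.nd (nat_lit 156) (nat_lit 3192) (nat_lit 0) (XT.nd (nat_lit 78) (nat_lit 1444) (nat_lit 0) (XT.lf (nat_lit 0) (nat_lit 4028250461) (nat_lit 1444) (nat_lit 1818021252) (nat_lit 76) (nat_lit 2475881733) (nat_lit 529) (nat_lit 5) (nat_lit 548) (nat_lit 5) (nat_lit 530) (nat_lit 5) (nat_lit 422) (nat_lit 399) (nat_lit 319)) (XT.lf (nat_lit 0) (nat_lit 2815181560) (nat_lit 1444) (nat_lit 2925982005) (nat_lit 1520) (nat_lit 2649183941) (nat_lit 510) (nat_lit 5) (nat_lit 529) (nat_lit 5) (nat_lit 530) (nat_lit 5) (nat_lit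 423) (nat_lit 399) (nat_lit 318))) (XT.nd (nat_lit 78) (nat_lit 3192) (nat_lit 0) (XT.lf (nat_lit 0) (nat_lit 7471023909) (nat_lit 1520) (nat_lit 919026093) (nat_lit 76) (nat_lit 70211086) (nat_lit 510) (nat_lit 5) (nat_lit 530) (nat_lit 5) (nat_lit 511) (nat_lit 5) (nat_lit 424) (nat_lit 399) (nat_lit 317)) (XT.nd (nat_lit 78) (nat_lit 1596) (nat_lit 0) (XT.lf (nat_lit 0) (nat_lit 709709386) (nat_lit 1596) (nat_lit 4698920677) (nat_lit 76) (nat_lit 3122559874) (nat_lit 489) (nat_lit 5) (nat_lit 510) (nat_lit 5) (nat_lit 490) (nat_lit 5) (nat_lit 425) (nat_lit 399) (nat_lit 316)) (XT.lf (nat_lit 0) (nat_lit 57407110) (nat_lit 1596) (nat_lit 2349447131) (nat_lit 1672) (nat_lit 6197011917) (nat_lit 468) (nat_lit 5) (nat_lit 489) (nat_lit 5) (nat_lit 490) (nat_lit 5) (nat_lit 426) (nat_lit 399) (nat_lit 315))))) (XT.nd (nat_lit 234) (nat_lit 3116) (nat_lit 0) (XT.nd (nat_lit 78) (nat_lit 1672) (nat_lit 0) (XT.lf (nat_lit 0) (nat_lit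 4146003479) (nat_lit 1672) (nat_lit 3734862364) (nat_lit 76) (nat_lit 796977536) (nat_lit 468) (nat_lit 5) (nat_lit 490) (nat_lit 5) (nat_lit 469) (nat_lit 5) (nat_lit 427) (nat_lit 399) (nat_lit 314)) (XT.nd (nat_lit 78) (nat_lit 0) (nat_lit 0) (XT.lf (nat_lit 0) (nat_lit 1148112227) (nat_lit 1672) (nat_lit 4766714590) (nat_lit 1748) (nat_lit 2838584037) (nat_lit 446) (nat_lit 5) (nat_lit 468) (nat_lit 5) (nat_lit 469) (nat_lit 5) (nat_lit 428) (nat_lit 399) (nat_lit 313)) (XT.lf (nat_lit 0) (nat_lit 6155181095) (nat_lit 1672) (nat_lit 1561180325) (nat_lit 1748) (nat_lit 1114189927) (nat_lit 446) (nat_lit 5) (nat_lit 468) (nat_lit 5) (nat_lit 469) (nat_lit 5) (nat_lit 429) (nat_lit 399) (nat_lit 312)))) (XT.nd (nat_lit 78) (nat_lit 1292) (nat_lit 0) (XT.lf (nat_lit 0) (nat_lit 635402368) (nat_lit 1824) (nat_lit 6564865675) (nat_lit 76) (nat_lit 1708907622) (nat_lit 422) (nat_lit 5) (nat_lit 446) (nat_lit 5) (nat_lit 423) (nat_lit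 5) (nat_lit 430) (nat_lit 399) (nat_lit 311)) (XT.nd (nat_lit 78) (nat_lit 1292) (nat_lit 0) (XT.lf (nat_lit 0) (nat_lit 2406521110) (nat_lit 1824) (nat_lit 1530699595) (nat_lit 76) (nat_lit 5051983279) (nat_lit 422) (nat_lit 5) (nat_lit 446) (nat_lit 5) (nat_lit 423) (nat_lit 5) (nat_lit 431) (nat_lit 399) (nat_lit 310)) (XT.lf (nat_lit 0) (nat_lit 3627709440) (nat_lit 1292) (nat_lit 582463810) (nat_lit 1368) (nat_lit 4860725127) (nat_lit 405) (nat_lit 5) (nat_lit 422) (nat_lit 5) (nat_lit 423) (nat_lit 5) (nat_lit 432) (nat_lit 399) (nat_lit 309)))))) (XT.nd (nat_lit 390) (nat_lit 2508) (nat_lit 0) (XT.nd (nat_lit 156) (nat_lit 1824) (nat_lit 0) (XT.nd (nat_lit 78) (nat_lit 912) (nat_lit 0) (XT.lf (nat_lit 0) (nat_lit 6052608944) (nat_lit 1368) (nat_lit 286892719) (nat_lit 76) (nat_lit 2814678362) (nat_lit 405) (nat_lit 5) (nat_lit 423) (nat_lit 5) (nat_lit 406) (nat_lit 5) (nat_lit 433) (nat_lit 399) (nat_lit 308)) (XT.lf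 (nat_lit 0) (nat_lit 5010459666) (nat_lit 912) (nat_lit 2932268851) (nat_lit 988) (nat_lit 1296189514) (nat_lit 393) (nat_lit 5) (nat_lit 405) (nat_lit 5) (nat_lit 406) (nat_lit 5) (nat_lit 434) (nat_lit 399) (nat_lit 307))) (XT.nd (nat_lit 78) (nat_lit 912) (nat_lit 0) (XT.lf (nat_lit 0) (nat_lit 525326637) (nat_lit 912) (nat_lit 8250414098) (nat_lit 76) (nat_lit 549802819) (nat_lit 381) (nat_lit 5) (nat_lit 393) (nat_lit 5) (nat_lit 382) (nat_lit 5) (nat_lit 435) (nat_lit 399) (nat_lit 306)) (XT.nd (nat_lit 78) (nat_lit 912) (nat_lit 0) (XT.lf (nat_lit 0) (nat_lit 2388883808) (nat_lit 912) (nat_lit 2923886811) (nat_lit 76) (nat_lit 4100507280) (nat_lit 381) (nat_lit 5) (nat_lit 393) (nat_lit 5) (nat_lit 382) (nat_lit 5) (nat_lit 436) (nat_lit 399) (nat_lit 305)) (XT.lf (nat_lit 0) (nat_lit 2518208884) (nat_lit 912) (nat_lit 1763312293) (nat_lit 988) (nat_lit 5221416435) (nat_lit 369) (nat_lit 5) (nat_lit 381) (nat_lit 5) (nat_lit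 382) (nat_lit 5) (nat_lit 437) (nat_lit 399) (nat_lit 304))))) (XT.nd (nat_lit 234) (nat_lit 1596) (nat_lit 0) (XT.nd (nat_lit 78) (nat_lit 912) (nat_lit 0) (XT.lf (nat_lit 0) (nat_lit 6219607932) (nat_lit 988) (nat_lit 1521729828) (nat_lit 76) (nat_lit 1852907554) (nat_lit 369) (nat_lit 5) (nat_lit 382) (nat_lit 5) (nat_lit 370) (nat_lit 5) (nat_lit 438) (nat_lit 399) (nat_lit 303)) (XT.nd (nat_lit 78) (nat_lit 76) (nat_lit 0) (XT.lf (nat_lit 0) (nat_lit 4068361144) (nat_lit 836) (nat_lit 4142450210) (nat_lit 912) (nat_lit 1476287314) (nat_lit 358) (nat_lit 5) (nat_lit 369) (nat_lit 5) (nat_lit 370) (nat_lit 5) (nat_lit 439) (nat_lit 399) (nat_lit 302)) (XT.lf (nat_lit 0) (nat_lit 440688586) (nat_lit 912) (nat_lit 17788453) (nat_lit 76) (nat_lit 9323544809) (nat_lit 357) (nat_lit 5) (nat_lit 369) (nat_lit 5) (nat_lit 358) (nat_lit 5) (nat_lit 440) (nat_lit 399) (nat_lit 301)))) (XT.nd (nat_lit 78) (nat_lit 760) (nat_lit 0)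 (XT.lf (nat_lit 0) (nat_lit 2412108724) (nat_lit 912) (nat_lit 4162994550) (nat_lit 76) (nat_lit 3302833824) (nat_lit 346) (nat_lit 5) (nat_lit 358) (nat_lit 5) (nat_lit 347) (nat_lit 5) (nat_lit 441) (nat_lit 399) (nat_lit 300)) (XT.nd (nat_lit 78) (nat_lit 0) (nat_lit 0) (XT.lf (nat_lit 0) (nat_lit 1580650708) (nat_lit 760) (nat_lit 2832899025) (nat_lit 836) (nat_lit 5562415164) (nat_lit 336) (nat_lit 5) (nat_lit 346) (nat_lit 5) (nat_lit 347) (nat_lit 5) (nat_lit 442) (nat_lit 399) (nat_lit 299)) (XT.lf (nat_lit 0) (nat_lit 6466989904) (nat_lit 836) (nat_lit 2610505981) (nat_lit 76) (nat_lit 998223935) (nat_lit 336) (nat_lit 5) (nat_lit 347) (nat_lit 5) (nat_lit 337) (nat_lit 5) (nat_lit 443) (nat_lit 399) (nat_lit 298))))))) (XT.nd (nat_lit 858) (nat_lit 4256) (nat_lit 0) (XT.nd (nat_lit 390) (nat_lit 2812) (nat_lit 0) (XT.nd (nat_lit 156) (nat_lit 1520) (nat_lit 0) (XT.nd (nat_lit 78) (nat_lit 76) (nat_lit 0) (XT.lf (nat_lit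 0) (nat_lit 3290733234) (nat_lit 760) (nat_lit 5288793852) (nat_lit 836) (nat_lit 1597588049) (nat_lit 326) (nat_lit 5) (nat_lit 336) (nat_lit 5) (nat_lit 337) (nat_lit 5) (nat_lit 444) (nat_lit 399) (nat_lit 297)) (XT.lf (nat_lit 0) (nat_lit 443491363) (nat_lit 836) (nat_lit 961671587) (nat_lit 76) (nat_lit 8875408790) (nat_lit 325) (nat_lit 5) (nat_lit 336) (nat_lit 5) (nat_lit 326) (nat_lit 5) (nat_lit 445) (nat_lit 399) (nat_lit 296))) (XT.nd (nat_lit 78) (nat_lit 760) (nat_lit 0) (XT.lf (nat_lit 0) (nat_lit 2532566035) (nat_lit 836) (nat_lit 5287837334) (nat_lit 76) (nat_lit 2564917119) (nat_lit 315) (nat_lit 5) (nat_lit 326) (nat_lit 5) (nat_lit 316) (nat_lit 5) (nat_lit 446) (nat_lit 399) (nat_lit 295)) (XT.nd (nat_lit 78) (nat_lit 0) (nat_lit 0) (XT.lf (nat_lit 0) (nat_lit 776048473) (nat_lit 760) (nat_lit 3886936359) (nat_lit 836) (nat_lit 5829193537) (nat_lit 305) (nat_lit 5) (nat_lit 315) (nat_lit 5) (nat_lit 316)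 (nat_lit 5) (nat_lit 447) (nat_lit 399) (nat_lit 294)) (XT.lf (nat_lit 0) (nat_lit 6851515458) (nat_lit 836) (nat_lit 3592478697) (nat_lit 76) (nat_lit 156874489) (nat_lit 305) (nat_lit 5) (nat_lit 316) (nat_lit 5) (nat_lit 306) (nat_lit 5) (nat_lit 448) (nat_lit 399) (nat_lit 293))))) (XT.nd (nat_lit 234) (nat_lit 1368) (nat_lit 0) (XT.nd (nat_lit 78) (nat_lit 760) (nat_lit 0) (XT.lf (nat_lit 0) (nat_lit 2639127524) (nat_lit 684) (nat_lit 6466949169) (nat_lit 760) (nat_lit 1605216032) (nat_lit 296) (nat_lit 5) (nat_lit 305) (nat_lit 5) (nat_lit 306) (nat_lit 5) (nat_lit 449) (nat_lit 399) (nat_lit 292)) (XT.nd (nat_lit 78) (nat_lit 684) (nat_lit 0) (XT.lf (nat_lit 0) (nat_lit 577937703) (nat_lit 760) (nat_lit 1806830309) (nat_lit 76) (nat_lit 8439011440) (nat_lit 295) (nat_lit 5) (nat_lit 305) (nat_lit 5) (nat_lit 296) (nat_lit 5) (nat_lit 450) (nat_lit 399) (nat_lit 291)) (XT.lf (nat_lit 0) (nat_lit 2804915362) (nat_lit 760)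 (nat_lit 6339314180) (nat_lit 76) (nat_lit 1793645967) (nat_lit 286) (nat_lit 5) (nat_lit 296) (nat_lit 5) (nat_lit 287) (nat_lit 5) (nat_lit 451) (nat_lit 399) (nat_lit 290)))) (XT.nd (nat_lit 78) (nat_lit 684) (nat_lit 0) (XT.lf (nat_lit 0) (nat_lit 64228399) (nat_lit 684) (nat_lit 5020744354) (nat_lit 760) (nat_lit 5969114738) (nat_lit 277) (nat_lit 5) (nat_lit 286) (nat_lit 5) (nat_lit 287) (nat_lit 5) (nat_lit 452) (nat_lit 399) (nat_lit 289)) (XT.nd (nat_lit 78) (nat_lit 684) (nat_lit 0) (XT.lf (nat_lit 0) (nat_lit 6658643704) (nat_lit 684) (nat_lit 774892179) (nat_lit 760) (nat_lit 3738634448) (nat_lit 277) (nat_lit 5) (nat_lit 286) (nat_lit 5) (nat_lit 287) (nat_lit 5) (nat_lit 453) (nat_lit 399) (nat_lit 288)) (XT.lf (nat_lit 0) (nat_lit 2073395250) (nat_lit 684) (nat_lit 7772951226) (nat_lit 760) (nat_lit 1445927446) (nat_lit 268) (nat_lit 5) (nat_lit 277) (nat_lit 5) (nat_lit 278) (nat_lit 5) (nat_lit 454) (nat_lit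 399) (nat_lit 287)))))) (XT.nd (nat_lit 468) (nat_lit 2280) (nat_lit 0) (XT.nd (nat_lit 234) (nat_lit 1292) (nat_lit 0) (XT.nd (nat_lit 78) (nat_lit 608) (nat_lit 0) (XT.lf (nat_lit 0) (nat_lit 897373018) (nat_lit 760) (nat_lit 2595214836) (nat_lit 76) (nat_lit 7921751331) (nat_lit 267) (nat_lit 5) (nat_lit 277) (nat_lit 5) (nat_lit 268) (nat_lit 5) (nat_lit 455) (nat_lit 399) (nat_lit 286)) (XT.nd (nat_lit 78) (nat_lit 0) (nat_lit 0) (XT.lf (nat_lit 0) (nat_lit 3282449235) (nat_lit 684) (nat_lit 7360862488) (nat_lit 76) (nat_lit 895061816) (nat_lit 259) (nat_lit 5) (nat_lit 268) (nat_lit 5) (nat_lit 260) (nat_lit 5) (nat_lit 456) (nat_lit 399) (nat_lit 285)) (XT.lf (nat_lit 0) (nat_lit 5737285577) (nat_lit 684) (nat_lit 589812523) (nat_lit 76) (nat_lit 5337353575) (nat_lit 259) (nat_lit 5) (nat_lit 268) (nat_lit 5) (nat_lit 260) (nat_lit 5) (nat_lit 457) (nat_lit 399) (nat_lit 284)))) (XT.nd (nat_lit 78) (nat_lit 684) (nat_lit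 0) (XT.lf (nat_lit 0) (nat_lit 6377856675) (nat_lit 608) (nat_lit 1886534276) (nat_lit 684) (nat_lit 3528201159) (nat_lit 251) (nat_lit 5) (nat_lit 259) (nat_lit 5) (nat_lit 260) (nat_lit 5) (nat_lit 458) (nat_lit 399) (nat_lit 283)) (XT.nd (nat_lit 78) (nat_lit 76) (nat_lit 0) (XT.lf (nat_lit 0) (nat_lit 1550165912) (nat_lit 608) (nat_lit 9305028525) (nat_lit 684) (nat_lit 1067841899) (nat_lit 243) (nat_lit 5) (nat_lit 251) (nat_lit 5) (nat_lit 252) (nat_lit 5) (nat_lit 459) (nat_lit 399) (nat_lit 282)) (XT.lf (nat_lit 0) (nat_lit 1453919899) (nat_lit 684) (nat_lit 3372425554) (nat_lit 76) (nat_lit 7228938645) (nat_lit 242) (nat_lit 5) (nat_lit 251) (nat_lit 5) (nat_lit 243) (nat_lit 5) (nat_lit 460) (nat_lit 399) (nat_lit 281))))) (XT.nd (nat_lit 234) (nat_lit 1140) (nat_lit 0) (XT.nd (nat_lit 78) (nat_lit 532) (nat_lit 0) (XT.lf (nat_lit 0) (nat_lit 3788355691) (nat_lit 608) (nat_lit 230458867) (nat_lit 684) (nat_lit 8171085032)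 (nat_lit 234) (nat_lit 5) (nat_lit 242) (nat_lit 5) (nat_lit 243) (nat_lit 5) (nat_lit 461) (nat_lit 399) (nat_lit 280)) (XT.nd (nat_lit 78) (nat_lit 532) (nat_lit 0) (XT.lf (nat_lit 0) (nat_lit 6669284859) (nat_lit 684) (nat_lit 1240238432) (nat_lit 76) (nat_lit 4417002335) (nat_lit 234) (nat_lit 5) (nat_lit 243) (nat_lit 5) (nat_lit 235) (nat_lit 5) (nat_lit 462) (nat_lit 399) (nat_lit 279)) (XT.lf (nat_lit 0) (nat_lit 6121025258) (nat_lit 532) (nat_lit 3275906381) (nat_lit 608) (nat_lit 3068472916) (nat_lit 227) (nat_lit 5) (nat_lit 234) (nat_lit 5) (nat_lit 235) (nat_lit 5) (nat_lit 463) (nat_lit 399) (nat_lit 278)))) (XT.nd (nat_lit 78) (nat_lit 608) (nat_lit 0) (XT.lf (nat_lit 0) (nat_lit 1021167513) (nat_lit 532) (nat_lit 11165448689) (nat_lit 608) (nat_lit 420298807) (nat_lit 220) (nat_lit 5) (nat_lit 227) (nat_lit 5) (nat_lit 228) (nat_lit 5) (nat_lit 464) (nat_lit 399) (nat_lit 277)) (XT.nd (nat_lit 78) (nat_lit 532)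 (nat_lit 0) (XT.lf (nat_lit 0) (nat_lit 2298610729) (nat_lit 608) (nat_lit 4189430974) (nat_lit 76) (nat_lit 6261967583) (nat_lit 219) (nat_lit 5) (nat_lit 227) (nat_lit 5) (nat_lit 220) (nat_lit 5) (nat_lit 465) (nat_lit 399) (nat_lit 276)) (XT.lf (nat_lit 0) (nat_lit 3374455259) (nat_lit 532) (nat_lit 1697195290) (nat_lit 608) (nat_lit 7824155169) (nat_lit 212) (nat_lit 5) (nat_lit 219) (nat_lit 5) (nat_lit 220) (nat_lit 5) (nat_lit 466) (nat_lit 399) (nat_lit 275))))))))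
noncomputable def xc141 : XT := (XT.nd (nat_lit 1716) (nat_lit 3420) (nat_lit 0) (XT.nd (nat_lit 858) (nat_lit 3040) (nat_lit 0) (XT.nd (nat_lit 390) (nat_lit 1444) (nat_lit 0) (XT.nd (nat_lit 156) (nat_lit 1064) (nat_lit 0) (XT.nd (nat_lit 78) (nat_lit 532) (nat_lit 0) (XT.lf (nat_lit 0) (nat_lit 7932772975) (nat_lit 608) (nat_lit 1940423983) (nat_lit 76) (nat_lit 3170672048) (nat_lit 212) (nat_lit 5) (nat_lit 220) (nat_lit 5) (nat_lit 213) (nat_lit 5) (nat_lit 467) (nat_lit 399) (nat_lit 274)) (XT.lf (nat_lit 0) (nat_lit 5835868902) (nat_lit 532) (nat_lit 5048314471) (nat_lit 608) (nat_lit 2310052174) (nat_lit 205) (nat_lit 5) (nat_lit 212) (nat_lit 5) (nat_lit 213) (nat_lit 5) (nat_lit 468) (nat_lit 399) (nat_lit 273))) (XT.nd (nat_lit 78) (nat_lit 532) (nat_lit 0) (XT.lf (nat_lit 0) (nat_lit 426978844) (nat_lit 456) (nat_lit 112742340) (nat_lit 532) (nat_lit 12807822719) (nat_lit 198) (nat_lit 5) (nat_lit 204) (nat_lit 5)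 (nat_lit 205) (nat_lit 5) (nat_lit 469) (nat_lit 399) (nat_lit 272)) (XT.nd (nat_lit 78) (nat_lit 532) (nat_lit 0) (XT.lf (nat_lit 0) (nat_lit 3481387265) (nat_lit 532) (nat_lit 5104499705) (nat_lit 76) (nat_lit 4916412599) (nat_lit 198) (nat_lit 5) (nat_lit 205) (nat_lit 5) (nat_lit 199) (nat_lit 5) (nat_lit 470) (nat_lit 399) (nat_lit 271)) (XT.lf (nat_lit 0) (nat_lit 2883620885) (nat_lit 532) (nat_lit 3602186272) (nat_lit 608) (nat_lit 7174267828) (nat_lit 191) (nat_lit 5) (nat_lit 198) (nat_lit 5) (nat_lit 199) (nat_lit 5) (nat_lit 471) (nat_lit 399) (nat_lit 270))))) (XT.nd (nat_lit 234) (nat_lit 912) (nat_lit 0) (XT.nd (nat_lit 78) (nat_lit 532) (nat_lit 0) (XT.lf (nat_lit 0) (nat_lit 9578993978) (nat_lit 608) (nat_lit 2750938909) (nat_lit 76) (nat_lit 1490502438) (nat_lit 191) (nat_lit 5) (nat_lit 199) (nat_lit 5) (nat_lit 192) (nat_lit 5) (nat_lit 472) (nat_lit 399) (nat_lit 269)) (XT.nd (nat_lit 78) (nat_lit 76) (nat_lit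 0) (XT.lf (nat_lit 0) (nat_lit 5461813618) (nat_lit 456) (nat_lit 7316431453) (nat_lit 532) (nat_lit 1204876721) (nat_lit 185) (nat_lit 5) (nat_lit 191) (nat_lit 5) (nat_lit 192) (nat_lit 5) (nat_lit 473) (nat_lit 399) (nat_lit 268)) (XT.lf (nat_lit 0) (nat_lit 1871124316) (nat_lit 532) (nat_lit 306105514) (nat_lit 76) (nat_lit 11971518744) (nat_lit 184) (nat_lit 5) (nat_lit 191) (nat_lit 5) (nat_lit 185) (nat_lit 5) (nat_lit 474) (nat_lit 399) (nat_lit 267)))) (XT.nd (nat_lit 78) (nat_lit 456) (nat_lit 0) (XT.lf (nat_lit 0) (nat_lit 5050953463) (nat_lit 532) (nat_lit 6185399556) (nat_lit 76) (nat_lit 3080009520) (nat_lit 178) (nat_lit 5) (nat_lit 185) (nat_lit 5) (nat_lit 179) (nat_lit 5) (nat_lit 475) (nat_lit 399) (nat_lit 266)) (XT.nd (nat_lit 78) (nat_lit 0) (nat_lit 0) (XT.lf (nat_lit 0) (nat_lit 2247862772) (nat_lit 456) (nat_lit 6062952065) (nat_lit 532) (nat_lit 6176187940) (nat_lit 172) (nat_lit 5) (nat_lit 178) (nat_lit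 5) (nat_lit 179) (nat_lit 5) (nat_lit 476) (nat_lit 399) (nat_lit 265)) (XT.lf (nat_lit 0) (nat_lit 10912951546) (nat_lit 456) (nat_lit 749936611) (nat_lit 532) (nat_lit 2997630021) (nat_lit 172) (nat_lit 5) (nat_lit 178) (nat_lit 5) (nat_lit 179) (nat_lit 5) (nat_lit 477) (nat_lit 399) (nat_lit 264)))))) (XT.nd (nat_lit 390) (nat_lit 1672) (nat_lit 0) (XT.nd (nat_lit 156) (nat_lit 836) (nat_lit 0) (XT.nd (nat_lit 78) (nat_lit 0) (nat_lit 0) (XT.lf (nat_lit 0) (nat_lit 289670165) (nat_lit 532) (nat_lit 9910827872) (nat_lit 76) (nat_lit 4636009094) (nat_lit 165) (nat_lit 5) (nat_lit 172) (nat_lit 5) (nat_lit 166) (nat_lit 5) (nat_lit 478) (nat_lit 399) (nat_lit 263)) (XT.lf (nat_lit 0) (nat_lit 3618700040) (nat_lit 532) (nat_lit 1237889900) (nat_lit 76) (nat_lit 10158709699) (nat_lit 165) (nat_lit 5) (nat_lit 172) (nat_lit 5) (nat_lit 166) (nat_lit 5) (nat_lit 479) (nat_lit 399) (nat_lit 262))) (XT.nd (nat_lit 78) (nat_lit 456)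 (nat_lit 0) (XT.lf (nat_lit 0) (nat_lit 7054463261) (nat_lit 456) (nat_lit 7511924412) (nat_lit 76) (nat_lit 630479719) (nat_lit 160) (nat_lit 5) (nat_lit 166) (nat_lit 5) (nat_lit 161) (nat_lit 5) (nat_lit 480) (nat_lit 399) (nat_lit 261)) (XT.nd (nat_lit 78) (nat_lit 0) (nat_lit 0) (XT.lf (nat_lit 0) (nat_lit 1386799995) (nat_lit 456) (nat_lit 9207854226) (nat_lit 532) (nat_lit 4786700432) (nat_lit 154) (nat_lit 5) (nat_lit 160) (nat_lit 5) (nat_lit 161) (nat_lit 5) (nat_lit 481) (nat_lit 399) (nat_lit 260)) (XT.lf (nat_lit 0) (nat_lit 10545176083) (nat_lit 456) (nat_lit 3697205668) (nat_lit 532) (nat_lit 1326417608) (nat_lit 154) (nat_lit 5) (nat_lit 160) (nat_lit 5) (nat_lit 161) (nat_lit 5) (nat_lit 482) (nat_lit 399) (nat_lit 259))))) (XT.nd (nat_lit 234) (nat_lit 836) (nat_lit 0) (XT.nd (nat_lit 78) (nat_lit 380) (nat_lit 0) (XT.lf (nat_lit 0) (nat_lit 2200323225) (nat_lit 456) (nat_lit 11625287106) (nat_lit 76) (nat_lit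 1933575897) (nat_lit 148) (nat_lit 5) (nat_lit 154) (nat_lit 5) (nat_lit 149) (nat_lit 5) (nat_lit 483) (nat_lit 399) (nat_lit 258)) (XT.nd (nat_lit 78) (nat_lit 380) (nat_lit 0) (XT.lf (nat_lit 0) (nat_lit 5824869117) (nat_lit 456) (nat_lit 2463562392) (nat_lit 76) (nat_lit 7663875572) (nat_lit 148) (nat_lit 5) (nat_lit 154) (nat_lit 5) (nat_lit 149) (nat_lit 5) (nat_lit 484) (nat_lit 399) (nat_lit 257)) (XT.lf (nat_lit 0) (nat_lit 6952946738) (nat_lit 380) (nat_lit 2600960326) (nat_lit 456) (nat_lit 6594745442) (nat_lit 143) (nat_lit 5) (nat_lit 148) (nat_lit 5) (nat_lit 149) (nat_lit 5) (nat_lit 485) (nat_lit 399) (nat_lit 256)))) (XT.nd (nat_lit 78) (nat_lit 456) (nat_lit 0) (XT.lf (nat_lit 0) (nat_lit 204652268) (nat_lit 380) (nat_lit 13178568550) (nat_lit 456) (nat_lit 2965192253) (nat_lit 138) (nat_lit 5) (nat_lit 143) (nat_lit 5) (nat_lit 144) (nat_lit 5) (nat_lit 486) (nat_lit 399) (nat_lit 255)) (XT.nd (nat_lit 78)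 (nat_lit 380) (nat_lit 0) (XT.lf (nat_lit 0) (nat_lit 793616175) (nat_lit 456) (nat_lit 6675460703) (nat_lit 76) (nat_lit 9081671735) (nat_lit 137) (nat_lit 5) (nat_lit 143) (nat_lit 5) (nat_lit 138) (nat_lit 5) (nat_lit 487) (nat_lit 399) (nat_lit 254)) (XT.lf (nat_lit 0) (nat_lit 2982294093) (nat_lit 380) (nat_lit 1612245884) (nat_lit 456) (nat_lit 12162068039) (nat_lit 132) (nat_lit 5) (nat_lit 137) (nat_lit 5) (nat_lit 138) (nat_lit 5) (nat_lit 488) (nat_lit 399) (nat_lit 253))))))) (XT.nd (nat_lit 858) (nat_lit 1292) (nat_lit 0) (XT.nd (nat_lit 390) (nat_lit 1064) (nat_lit 0) (XT.nd (nat_lit 156) (nat_lit 760) (nat_lit 0) (XT.nd (nat_lit 78) (nat_lit 304) (nat_lit 0) (XT.lf (nat_lit 0) (nat_lit 8532219002) (nat_lit 456) (nat_lit 4090084549) (nat_lit 76) (nat_lit 4343068292) (nat_lit 132) (nat_lit 5) (nat_lit 138) (nat_lit 5) (nat_lit 133) (nat_lit 5) (nat_lit 489) (nat_lit 399) (nat_lit 252)) (XT.lf (nat_lit 0) (nat_lit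 5834584083) (nat_lit 304) (nat_lit 6750200204) (nat_lit 380) (nat_lit 4592805938) (nat_lit 128) (nat_lit 5) (nat_lit 132) (nat_lit 5) (nat_lit 133) (nat_lit 5) (nat_lit 490) (nat_lit 399) (nat_lit 251))) (XT.nd (nat_lit 78) (nat_lit 760) (nat_lit 0) (XT.lf (nat_lit 0) (nat_lit 15994224030) (nat_lit 304) (nat_lit 739317564) (nat_lit 380) (nat_lit 660210461) (nat_lit 128) (nat_lit 5) (nat_lit 132) (nat_lit 5) (nat_lit 133) (nat_lit 5) (nat_lit 491) (nat_lit 399) (nat_lit 250)) (XT.nd (nat_lit 78) (nat_lit 304) (nat_lit 0) (XT.lf (nat_lit 0) (nat_lit 3387680503) (nat_lit 456) (nat_lit 8830433092) (nat_lit 76) (nat_lit 5394078343) (nat_lit 122) (nat_lit 5) (nat_lit 128) (nat_lit 5) (nat_lit 123) (nat_lit 5) (nat_lit 492) (nat_lit 399) (nat_lit 249)) (XT.lf (nat_lit 0) (nat_lit 1340244870) (nat_lit 304) (nat_lit 6178432106) (nat_lit 380) (nat_lit 10316018392) (nat_lit 118) (nat_lit 5) (nat_lit 122) (nat_lit 5) (nat_lit 123) (nat_lit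 5) (nat_lit 493) (nat_lit 399) (nat_lit 248))))) (XT.nd (nat_lit 234) (nat_lit 608) (nat_lit 0) (XT.nd (nat_lit 78) (nat_lit 456) (nat_lit 0) (XT.lf (nat_lit 0) (nat_lit 11779825457) (nat_lit 380) (nat_lit 6245609221) (nat_lit 76) (nat_lit 35265295) (nat_lit 118) (nat_lit 5) (nat_lit 123) (nat_lit 5) (nat_lit 119) (nat_lit 5) (nat_lit 494) (nat_lit 399) (nat_lit 247)) (XT.nd (nat_lit 78) (nat_lit 76) (nat_lit 0) (XT.lf (nat_lit 0) (nat_lit 4203892715) (nat_lit 380) (nat_lit 11978750112) (nat_lit 456) (nat_lit 2107454641) (nat_lit 113) (nat_lit 5) (nat_lit 118) (nat_lit 5) (nat_lit 119) (nat_lit 5) (nat_lit 495) (nat_lit 399) (nat_lit 246)) (XT.lf (nat_lit 0) (nat_lit 2151699305) (nat_lit 456) (nat_lit 3609002070) (nat_lit 76) (nat_lit 12762494958) (nat_lit 112) (nat_lit 5) (nat_lit 118) (nat_lit 5) (nat_lit 113) (nat_lit 5) (nat_lit 496) (nat_lit 399) (nat_lit 245)))) (XT.nd (nat_lit 78) (nat_lit 304) (nat_lit 0) (XT.lf (nat_lit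 0) (nat_lit 6506826180) (nat_lit 380) (nat_lit 11624901022) (nat_lit 76) (nat_lit 628172813) (nat_lit 108) (nat_lit 5) (nat_lit 113) (nat_lit 5) (nat_lit 109) (nat_lit 5) (nat_lit 497) (nat_lit 399) (nat_lit 244)) (XT.nd (nat_lit 78) (nat_lit 304) (nat_lit 0) (XT.lf (nat_lit 0) (nat_lit 11000146359) (nat_lit 380) (nat_lit 914635071) (nat_lit 76) (nat_lit 7085536109) (nat_lit 108) (nat_lit 5) (nat_lit 113) (nat_lit 5) (nat_lit 109) (nat_lit 5) (nat_lit 498) (nat_lit 399) (nat_lit 243)) (XT.lf (nat_lit 0) (nat_lit 10124709870) (nat_lit 304) (nat_lit 5513145419) (nat_lit 380) (nat_lit 3606599232) (nat_lit 104) (nat_lit 5) (nat_lit 108) (nat_lit 5) (nat_lit 109) (nat_lit 5) (nat_lit 499) (nat_lit 399) (nat_lit 242)))))) (XT.nd (nat_lit 468) (nat_lit 304) (nat_lit 0) (XT.nd (nat_lit 234) (nat_lit 304) (nat_lit 0) (XT.nd (nat_lit 78) (nat_lit 304) (nat_lit 0) (XT.lf (nat_lit 0) (nat_lit 877450400) (nat_lit 380) (nat_lit 17594722582)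 (nat_lit 76) (nat_lit 1020907554) (nat_lit 99) (nat_lit 5) (nat_lit 104) (nat_lit 5) (nat_lit 100) (nat_lit 5) (nat_lit 500) (nat_lit 399) (nat_lit 241)) (XT.nd (nat_lit 78) (nat_lit 304) (nat_lit 0) (XT.lf (nat_lit 0) (nat_lit 5489923304) (nat_lit 380) (nat_lit 6563820115) (nat_lit 76) (nat_lit 7690719630) (nat_lit 99) (nat_lit 5) (nat_lit 104) (nat_lit 5) (nat_lit 100) (nat_lit 5) (nat_lit 501) (nat_lit 399) (nat_lit 240)) (XT.lf (nat_lit 0) (nat_lit 4732108724) (nat_lit 304) (nat_lit 5482354100) (nat_lit 380) (nat_lit 9786015483) (nat_lit 95) (nat_lit 5) (nat_lit 99) (nat_lit 5) (nat_lit 100) (nat_lit 5) (nat_lit 502) (nat_lit 399) (nat_lit 239)))) (XT.nd (nat_lit 78) (nat_lit 304) (nat_lit 0) (XT.lf (nat_lit 0) (nat_lit 15074905033) (nat_lit 380) (nat_lit 3943730069) (nat_lit 76) (nat_lit 1242151936) (nat_lit 95) (nat_lit 5) (nat_lit 100) (nat_lit 5) (nat_lit 96) (nat_lit 5) (nat_lit 503) (nat_lit 399) (nat_lit 238)) (XT.nd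 (nat_lit 78) (nat_lit 76) (nat_lit 0) (XT.lf (nat_lit 0) (nat_lit 7654115821) (nat_lit 228) (nat_lit 12453805053) (nat_lit 304) (nat_lit 416875154) (nat_lit 92) (nat_lit 5) (nat_lit 95) (nat_lit 5) (nat_lit 96) (nat_lit 5) (nat_lit 504) (nat_lit 399) (nat_lit 237)) (XT.lf (nat_lit 0) (nat_lit 4405209333) (nat_lit 304) (nat_lit 1302623095) (nat_lit 76) (nat_lit 15085356025) (nat_lit 91) (nat_lit 5) (nat_lit 95) (nat_lit 5) (nat_lit 92) (nat_lit 5) (nat_lit 505) (nat_lit 399) (nat_lit 236))))) (XT.nd (nat_lit 51246) (nat_lit 0) (nat_lit 38380) (XT.nd (nat_lit 51090) (nat_lit 0) (nat_lit 38380) (XT.lf (nat_lit 0) (nat_lit 9384729904) (nat_lit 380) (nat_lit 10457555866) (nat_lit 76) (nat_lit 1223277619) (nat_lit 87) (nat_lit 5) (nat_lit 92) (nat_lit 5) (nat_lit 88) (nat_lit 5) (nat_lit 506) (nat_lit 399) (nat_lit 235)) (XT.nd (nat_lit 78) (nat_lit 0) (nat_lit 0) (XT.lf (nat_lit 0) (nat_lit 11808012) (nat_lit 0) (nat_lit 11808012)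 (nat_lit 1140) (nat_lit 3580836833) (nat_lit 592) (nat_lit 5) (nat_lit 592) (nat_lit 3) (nat_lit 607) (nat_lit 3) (nat_lit 400) (nat_lit 400) (nat_lit 340)) (XT.lf (nat_lit 0) (nat_lit 1689968569) (nat_lit 1140) (nat_lit 3692819059) (nat_lit 1216) (nat_lit 1864772623) (nat_lit 592) (nat_lit 5) (nat_lit 607) (nat_lit 3) (nat_lit 608) (nat_lit 5) (nat_lit 401) (nat_lit 400) (nat_lit 339)))) (XT.nd (nat_lit 78) (nat_lit 0) (nat_lit 0) (XT.lf (nat_lit 0) (nat_lit 3323099634) (nat_lit 1140) (nat_lit 153042462) (nat_lit 1216) (nat_lit 3811710440) (nat_lit 592) (nat_lit 5) (nat_lit 607) (nat_lit 3) (nat_lit 608) (nat_lit 5) (nat_lit 402) (nat_lit 400) (nat_lit 338)) (XT.nd (nat_lit 78) (nat_lit 0) (nat_lit 76) (XT.lf (nat_lit 76) (nat_lit 3481238646) (nat_lit 0) (nat_lit 1488476222) (nat_lit 1216) (nat_lit 2359634521) (nat_lit 593) (nat_lit 5) (nat_lit 592) (nat_lit 5) (nat_lit 608) (nat_lit 5) (nat_lit 403) (nat_lit 400) (nat_lit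 337)) (XT.lf (nat_lit 0) (nat_lit 6612817393) (nat_lit 1140) (nat_lit 207647629) (nat_lit 1216) (nat_lit 551954913) (nat_lit 593) (nat_lit 5) (nat_lit 608) (nat_lit 5) (nat_lit 609) (nat_lit 5) (nat_lit 404) (nat_lit 400) (nat_lit 336))))))))
noncomputable def xc142 : XT := (XT.nd (nat_lit 1716) (nat_lit 13984) (nat_lit 0) (XT.nd (nat_lit 858) (nat_lit 4256) (nat_lit 0) (XT.nd (nat_lit 390) (nat_lit 2432) (nat_lit 0) (XT.nd (nat_lit 156) (nat_lit 0) (nat_lit 0) (XT.nd (nat_lit 78) (nat_lit 0) (nat_lit 0) (XT.lf (nat_lit 0) (nat_lit 853458776) (nat_lit 1216) (nat_lit 3902522575) (nat_lit 1292) (nat_lit 2660422115) (nat_lit 577) (nat_lit 5) (nat_lit 593) (nat_lit 5) (nat_lit 594) (nat_lit 5) (nat_lit 405) (nat_lit 400) (nat_lit 335)) (XT.lf (nat_lit 0) (nat_lit 2450215798) (nat_lit 1216) (nat_lit 176339508) (nat_lit 1292) (nat_lit 4835392832) (nat_lit 577) (nat_lit 5) (nat_lit 593) (nat_lit 5) (nat_lit 594) (nat_lit 5) (nat_lit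 406) (nat_lit 400) (nat_lit 334))) (XT.nd (nat_lit 78) (nat_lit 0) (nat_lit 76) (XT.lf (nat_lit 76) (nat_lit 3649966898) (nat_lit 0) (nat_lit 413612985) (nat_lit 1292) (nat_lit 3445144106) (nat_lit 578) (nat_lit 5) (nat_lit 577) (nat_lit 5) (nat_lit 594) (nat_lit 5) (nat_lit 407) (nat_lit 400) (nat_lit 333)) (XT.nd (nat_lit 78) (nat_lit 0) (nat_lit 0) (XT.lf (nat_lit 0) (nat_lit 5684073411) (nat_lit 1216) (nat_lit 36210592) (nat_lit 1292) (nat_lit 1836667565) (nat_lit 578) (nat_lit 5) (nat_lit 594) (nat_lit 5) (nat_lit 595) (nat_lit 5) (nat_lit 408) (nat_lit 400) (nat_lit 332)) (XT.lf (nat_lit 76) (nat_lit 3888486037) (nat_lit 0) (nat_lit 3438928715) (nat_lit 1292) (nat_lit 278933380) (nat_lit 579) (nat_lit 5) (nat_lit 578) (nat_lit 5) (nat_lit 595) (nat_lit 5) (nat_lit 409) (nat_lit 400) (nat_lit 331))))) (XT.nd (nat_lit 234) (nat_lit 1216) (nat_lit 0) (XT.nd (nat_lit 78) (nat_lit 0) (nat_lit 76) (XT.lf (nat_lit 76) (nat_lit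 206482561) (nat_lit 0) (nat_lit 1087113608) (nat_lit 1368) (nat_lit 6363686827) (nat_lit 562) (nat_lit 5) (nat_lit 561) (nat_lit 5) (nat_lit 579) (nat_lit 5) (nat_lit 410) (nat_lit 400) (nat_lit 330)) (XT.nd (nat_lit 78) (nat_lit 0) (nat_lit 0) (XT.lf (nat_lit 0) (nat_lit 2890932850) (nat_lit 1292) (nat_lit 3483158990) (nat_lit 1368) (nat_lit 1335178445) (nat_lit 562) (nat_lit 5) (nat_lit 579) (nat_lit 5) (nat_lit 580) (nat_lit 5) (nat_lit 411) (nat_lit 400) (nat_lit 329)) (XT.lf (nat_lit 76) (nat_lit 540585556) (nat_lit 0) (nat_lit 3954513757) (nat_lit 1368) (nat_lit 3267712531) (nat_lit 563) (nat_lit 5) (nat_lit 562) (nat_lit 5) (nat_lit 580) (nat_lit 5) (nat_lit 412) (nat_lit 400) (nat_lit 328)))) (XT.nd (nat_lit 78) (nat_lit 1292) (nat_lit 0) (XT.lf (nat_lit 76) (nat_lit 4669032192) (nat_lit 0) (nat_lit 1450417750) (nat_lit 1368) (nat_lit 1698224226) (nat_lit 563) (nat_lit 5) (nat_lit 562) (nat_lit 5) (nat_lit 580) (nat_lit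 5) (nat_lit 413) (nat_lit 400) (nat_lit 327)) (XT.nd (nat_lit 78) (nat_lit 1368) (nat_lit 0) (XT.lf (nat_lit 76) (nat_lit 988898526) (nat_lit 0) (nat_lit 6766472815) (nat_lit 1368) (nat_lit 118692434) (nat_lit 564) (nat_lit 5) (nat_lit 563) (nat_lit 5) (nat_lit 581) (nat_lit 5) (nat_lit 414) (nat_lit 400) (nat_lit 326)) (XT.lf (nat_lit 0) (nat_lit 1469517505) (nat_lit 1368) (nat_lit 2722354533) (nat_lit 1444) (nat_lit 3739593379) (nat_lit 545) (nat_lit 5) (nat_lit 563) (nat_lit 5) (nat_lit 564) (nat_lit 5) (nat_lit 415) (nat_lit 400) (nat_lit 325)))))) (XT.nd (nat_lit 390) (nat_lit 2964) (nat_lit 0) (XT.nd (nat_lit 156) (nat_lit 1292) (nat_lit 0) (XT.nd (nat_lit 78) (nat_lit 0) (nat_lit 76) (XT.lf (nat_lit 76) (nat_lit 1519689454) (nat_lit 0) (nat_lit 1544538676) (nat_lit 1444) (nat_lit 4926255791) (nat_lit 546) (nat_lit 5) (nat_lit 545) (nat_lit 5) (nat_lit 564) (nat_lit 5) (nat_lit 416) (nat_lit 400) (nat_lit 324)) (XT.lf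 (nat_lit 0) (nat_lit 4683757000) (nat_lit 1368) (nat_lit 2198217734) (nat_lit 1444) (nat_lit 1168860404) (nat_lit 546) (nat_lit 5) (nat_lit 564) (nat_lit 5) (nat_lit 565) (nat_lit 5) (nat_lit 417) (nat_lit 400) (nat_lit 323))) (XT.nd (nat_lit 78) (nat_lit 1368) (nat_lit 0) (XT.lf (nat_lit 76) (nat_lit 2154552838) (nat_lit 0) (nat_lit 4173018359) (nat_lit 1444) (nat_lit 1784994897) (nat_lit 547) (nat_lit 5) (nat_lit 546) (nat_lit 5) (nat_lit 565) (nat_lit 5) (nat_lit 418) (nat_lit 400) (nat_lit 322)) (XT.nd (nat_lit 78) (nat_lit 1368) (nat_lit 0) (XT.lf (nat_lit 76) (nat_lit 6601043132) (nat_lit 0) (nat_lit 1386130560) (nat_lit 1444) (nat_lit 188710138) (nat_lit 547) (nat_lit 5) (nat_lit 546) (nat_lit 5) (nat_lit 565) (nat_lit 5) (nat_lit 419) (nat_lit 400) (nat_lit 321)) (XT.lf (nat_lit 0) (nat_lit 1417725667) (nat_lit 1444) (nat_lit 5348643228) (nat_lit 1520) (nat_lit 1473980006) (nat_lit 528) (nat_lit 5) (nat_lit 547) (nat_lit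 5) (nat_lit 548) (nat_lit 5) (nat_lit 420) (nat_lit 400) (nat_lit 320))))) (XT.nd (nat_lit 234) (nat_lit 2964) (nat_lit 0) (XT.nd (nat_lit 78) (nat_lit 0) (nat_lit 0) (XT.lf (nat_lit 0) (nat_lit 3042670988) (nat_lit 1444) (nat_lit 871097253) (nat_lit 1520) (nat_lit 4392541734) (nat_lit 528) (nat_lit 5) (nat_lit 547) (nat_lit 5) (nat_lit 548) (nat_lit 5) (nat_lit 421) (nat_lit 400) (nat_lit 319)) (XT.nd (nat_lit 78) (nat_lit 0) (nat_lit 76) (XT.lf (nat_lit 76) (nat_lit 3721636735) (nat_lit 0) (nat_lit 972335536) (nat_lit 1520) (nat_lit 3679750467) (nat_lit 529) (nat_lit 5) (nat_lit 528) (nat_lit 5) (nat_lit 548) (nat_lit 5) (nat_lit 422) (nat_lit 400) (nat_lit 318)) (XT.lf (nat_lit 0) (nat_lit 6367533370) (nat_lit 1444) (nat_lit 61210299) (nat_lit 76) (nat_lit 2013964834) (nat_lit 529) (nat_lit 5) (nat_lit 548) (nat_lit 5) (nat_lit 530) (nat_lit 5) (nat_lit 423) (nat_lit 400) (nat_lit 317)))) (XT.nd (nat_lit 78) (nat_lit 1596)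 (nat_lit 0) (XT.lf (nat_lit 0) (nat_lit 4652859389) (nat_lit 1444) (nat_lit 3429122623) (nat_lit 1520) (nat_lit 430952879) (nat_lit 510) (nat_lit 5) (nat_lit 529) (nat_lit 5) (nat_lit 530) (nat_lit 5) (nat_lit 424) (nat_lit 400) (nat_lit 316)) (XT.nd (nat_lit 78) (nat_lit 0) (nat_lit 0) (XT.lf (nat_lit 0) (nat_lit 857182102) (nat_lit 1520) (nat_lit 349598393) (nat_lit 1596) (nat_lit 7378092969) (nat_lit 489) (nat_lit 5) (nat_lit 509) (nat_lit 5) (nat_lit 510) (nat_lit 5) (nat_lit 425) (nat_lit 400) (nat_lit 315)) (XT.lf (nat_lit 0) (nat_lit 2887145811) (nat_lit 1596) (nat_lit 2981683119) (nat_lit 76) (nat_lit 2789060654) (nat_lit 489) (nat_lit 5) (nat_lit 510) (nat_lit 5) (nat_lit 490) (nat_lit 5) (nat_lit 426) (nat_lit 400) (nat_lit 314))))))) (XT.nd (nat_lit 858) (nat_lit 5776) (nat_lit 0) (XT.nd (nat_lit 390) (nat_lit 3116) (nat_lit 0) (XT.nd (nat_lit 156) (nat_lit 3496) (nat_lit 0) (XT.nd (nat_lit 78) (nat_lit 0) (nat_lit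 0) (XT.lf (nat_lit 0) (nat_lit 1857855329) (nat_lit 1596) (nat_lit 2729643970) (nat_lit 1672) (nat_lit 4145147645) (nat_lit 468) (nat_lit 5) (nat_lit 489) (nat_lit 5) (nat_lit 490) (nat_lit 5) (nat_lit 427) (nat_lit 400) (nat_lit 313)) (XT.lf (nat_lit 0) (nat_lit 6317496652) (nat_lit 1672) (nat_lit 2000971355) (nat_lit 76) (nat_lit 490527073) (nat_lit 468) (nat_lit 5) (nat_lit 490) (nat_lit 5) (nat_lit 469) (nat_lit 5) (nat_lit 428) (nat_lit 400) (nat_lit 312))) (XT.nd (nat_lit 78) (nat_lit 1824) (nat_lit 0) (XT.lf (nat_lit 0) (nat_lit 2967764121) (nat_lit 1672) (nat_lit 5124645223) (nat_lit 1748) (nat_lit 794262728) (nat_lit 446) (nat_lit 5) (nat_lit 468) (nat_lit 5) (nat_lit 469) (nat_lit 5) (nat_lit 429) (nat_lit 400) (nat_lit 311)) (XT.nd (nat_lit 78) (nat_lit 1748) (nat_lit 0) (XT.lf (nat_lit 0) (nat_lit 911310524) (nat_lit 1748) (nat_lit 932425427) (nat_lit 76) (nat_lit 7122319260) (nat_lit 445) (nat_lit 5) (nat_lit 468)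 (nat_lit 5) (nat_lit 446) (nat_lit 5) (nat_lit 430) (nat_lit 400) (nat_lit 310)) (XT.lf (nat_lit 0) (nat_lit 2651193174) (nat_lit 1824) (nat_lit 4876707619) (nat_lit 76) (nat_lit 1518811285) (nat_lit 422) (nat_lit 5) (nat_lit 446) (nat_lit 5) (nat_lit 423) (nat_lit 5) (nat_lit 431) (nat_lit 400) (nat_lit 309))))) (XT.nd (nat_lit 234) (nat_lit 912) (nat_lit 0) (XT.nd (nat_lit 78) (nat_lit 912) (nat_lit 0) (XT.lf (nat_lit 0) (nat_lit 225422645) (nat_lit 1292) (nat_lit 4194499107) (nat_lit 1368) (nat_lit 4709186942) (nat_lit 405) (nat_lit 5) (nat_lit 422) (nat_lit 5) (nat_lit 423) (nat_lit 5) (nat_lit 432) (nat_lit 400) (nat_lit 308)) (XT.nd (nat_lit 78) (nat_lit 912) (nat_lit 0) (XT.lf (nat_lit 0) (nat_lit 5472308009) (nat_lit 1292) (nat_lit 758874607) (nat_lit 1368) (nat_lit 2981834899) (nat_lit 405) (nat_lit 5) (nat_lit 422) (nat_lit 5) (nat_lit 423) (nat_lit 5) (nat_lit 433) (nat_lit 400) (nat_lit 307)) (XT.lf (nat_lit 0) (nat_lit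 1503969701) (nat_lit 912) (nat_lit 6577236739) (nat_lit 988) (nat_lit 1217354600) (nat_lit 393) (nat_lit 5) (nat_lit 405) (nat_lit 5) (nat_lit 406) (nat_lit 5) (nat_lit 434) (nat_lit 400) (nat_lit 306)))) (XT.nd (nat_lit 78) (nat_lit 836) (nat_lit 0) (XT.lf (nat_lit 0) (nat_lit 580187686) (nat_lit 988) (nat_lit 2513677626) (nat_lit 76) (nat_lit 6291773280) (nat_lit 392) (nat_lit 5) (nat_lit 405) (nat_lit 5) (nat_lit 393) (nat_lit 5) (nat_lit 435) (nat_lit 400) (nat_lit 305)) (XT.nd (nat_lit 78) (nat_lit 0) (nat_lit 0) (XT.lf (nat_lit 0) (nat_lit 2394861635) (nat_lit 912) (nat_lit 6598203880) (nat_lit 76) (nat_lit 481288483) (nat_lit 381) (nat_lit 5) (nat_lit 393) (nat_lit 5) (nat_lit 382) (nat_lit 5) (nat_lit 436) (nat_lit 400) (nat_lit 304)) (XT.lf (nat_lit 0) (nat_lit 4259238411) (nat_lit 912) (nat_lit 1200777782) (nat_lit 76) (nat_lit 4104566060) (nat_lit 381) (nat_lit 5) (nat_lit 393) (nat_lit 5) (nat_lit 382) (nat_lit 5)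 (nat_lit 437) (nat_lit 400) (nat_lit 303)))))) (XT.nd (nat_lit 468) (nat_lit 2356) (nat_lit 0) (XT.nd (nat_lit 234) (nat_lit 1596) (nat_lit 0) (XT.nd (nat_lit 78) (nat_lit 912) (nat_lit 0) (XT.lf (nat_lit 0) (nat_lit 4338438861) (nat_lit 912) (nat_lit 1827044006) (nat_lit 988) (nat_lit 3491047199) (nat_lit 369) (nat_lit 5) (nat_lit 381) (nat_lit 5) (nat_lit 382) (nat_lit 5) (nat_lit 438) (nat_lit 400) (nat_lit 302)) (XT.nd (nat_lit 78) (nat_lit 76) (nat_lit 0) (XT.lf (nat_lit 0) (nat_lit 221840060) (nat_lit 836) (nat_lit 7886489040) (nat_lit 912) (nat_lit 1642024666) (nat_lit 358) (nat_lit 5) (nat_lit 369) (nat_lit 5) (nat_lit 370) (nat_lit 5) (nat_lit 439) (nat_lit 400) (nat_lit 301)) (XT.lf (nat_lit 0) (nat_lit 265677117) (nat_lit 912) (nat_lit 3938141895) (nat_lit 76) (nat_lit 5641711489) (nat_lit 357) (nat_lit 5) (nat_lit 369) (nat_lit 5) (nat_lit 358) (nat_lit 5) (nat_lit 440) (nat_lit 400) (nat_lit 300)))) (XT.nd (nat_lit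 78) (nat_lit 760) (nat_lit 0) (XT.lf (nat_lit 0) (nat_lit 1753076756) (nat_lit 836) (nat_lit 425201041) (nat_lit 912) (nat_lit 7764347359) (nat_lit 346) (nat_lit 5) (nat_lit 357) (nat_lit 5) (nat_lit 358) (nat_lit 5) (nat_lit 441) (nat_lit 400) (nat_lit 299)) (XT.nd (nat_lit 78) (nat_lit 760) (nat_lit 0) (XT.lf (nat_lit 0) (nat_lit 4155616766) (nat_lit 912) (nat_lit 2475445376) (nat_lit 76) (nat_lit 3410075812) (nat_lit 346) (nat_lit 5) (nat_lit 358) (nat_lit 5) (nat_lit 347) (nat_lit 5) (nat_lit 442) (nat_lit 400) (nat_lit 298)) (XT.lf (nat_lit 0) (nat_lit 3371422728) (nat_lit 760) (nat_lit 2803844988) (nat_lit 836) (nat_lit 3966303846) (nat_lit 336) (nat_lit 5) (nat_lit 346) (nat_lit 5) (nat_lit 347) (nat_lit 5) (nat_lit 443) (nat_lit 400) (nat_lit 297))))) (XT.nd (nat_lit 234) (nat_lit 760) (nat_lit 0) (XT.nd (nat_lit 78) (nat_lit 1596) (nat_lit 0) (XT.lf (nat_lit 0) (nat_lit 8237509591) (nat_lit 836) (nat_lit 905348317)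 (nat_lit 76) (nat_lit 1101117717) (nat_lit 336) (nat_lit 5) (nat_lit 347) (nat_lit 5) (nat_lit 337) (nat_lit 5) (nat_lit 444) (nat_lit 400) (nat_lit 296)) (XT.nd (nat_lit 78) (nat_lit 760) (nat_lit 0) (XT.lf (nat_lit 0) (nat_lit 23318286) (nat_lit 836) (nat_lit 5245623634) (nat_lit 76) (nat_lit 5078879289) (nat_lit 325) (nat_lit 5) (nat_lit 336) (nat_lit 5) (nat_lit 326) (nat_lit 5) (nat_lit 445) (nat_lit 400) (nat_lit 295)) (XT.lf (nat_lit 0) (nat_lit 762334162) (nat_lit 760) (nat_lit 1294473067) (nat_lit 836) (nat_lit 8396877120) (nat_lit 315) (nat_lit 5) (nat_lit 325) (nat_lit 5) (nat_lit 326) (nat_lit 5) (nat_lit 446) (nat_lit 400) (nat_lit 294)))) (XT.nd (nat_lit 78) (nat_lit 760) (nat_lit 0) (XT.lf (nat_lit 0) (nat_lit 4163455821) (nat_lit 836) (nat_lit 3640693188) (nat_lit 76) (nat_lit 2756871251) (nat_lit 315) (nat_lit 5) (nat_lit 326) (nat_lit 5) (nat_lit 316) (nat_lit 5) (nat_lit 447) (nat_lit 400) (nat_lit 293)) (XT.nd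 (nat_lit 78) (nat_lit 0) (nat_lit 0) (XT.lf (nat_lit 0) (nat_lit 2532938092) (nat_lit 760) (nat_lit 3783865954) (nat_lit 836) (nat_lit 4353612711) (nat_lit 305) (nat_lit 5) (nat_lit 315) (nat_lit 5) (nat_lit 316) (nat_lit 5) (nat_lit 448) (nat_lit 400) (nat_lit 292)) (XT.lf (nat_lit 0) (nat_lit 8519656994) (nat_lit 836) (nat_lit 1927269550) (nat_lit 76) (nat_lit 334950986) (nat_lit 305) (nat_lit 5) (nat_lit 316) (nat_lit 5) (nat_lit 306) (nat_lit 5) (nat_lit 449) (nat_lit 400) (nat_lit 291))))))))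
noncomputable def xc143 : XT := (XT.nd (nat_lit 1716) (nat_lit 6080) (nat_lit 0) (XT.nd (nat_lit 858) (nat_lit 3344) (nat_lit 0) (XT.nd (nat_lit 390) (nat_lit 2660) (nat_lit 0) (XT.nd (nat_lit 156) (nat_lit 1368) (nat_lit 0) (XT.nd (nat_lit 78) (nat_lit 76) (nat_lit 0) (XT.lf (nat_lit 0) (nat_lit 4417540778) (nat_lit 684) (nat_lit 6382950826) (nat_lit 760) (nat_lit 94402419) (nat_lit 296) (nat_lit 5) (nat_lit 305) (nat_lit 5) (nat_lit 306) (nat_lit 5) (nat_lit 450) (nat_lit 400) (nat_lit 290)) (XT.lf (nat_lit 0) (nat_lit 2082322228) (nat_lit 760) (nat_lit 130969256) (nat_lit 76) (nat_lit 8796743057) (nat_lit 295) (nat_lit 5) (nat_lit 305) (nat_lit 5) (nat_lit 296) (nat_lit 5) (nat_lit 451) (nat_lit 400) (nat_lit 289))) (XT.nd (nat_lit 78) (nat_lit 684) (nat_lit 0) (XT.lf (nat_lit 0) (nat_lit 4337078879) (nat_lit 760) (nat_lit 4736985396) (nat_lit 76) (nat_lit 2052690594) (nat_lit 286) (nat_lit 5) (nat_lit 296) (nat_lit 5) (nat_lit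 287) (nat_lit 5) (nat_lit 452) (nat_lit 400) (nat_lit 288)) (XT.nd (nat_lit 78) (nat_lit 0) (nat_lit 0) (XT.lf (nat_lit 0) (nat_lit 1783252279) (nat_lit 684) (nat_lit 4861695387) (nat_lit 760) (nat_lit 4600706217) (nat_lit 277) (nat_lit 5) (nat_lit 286) (nat_lit 5) (nat_lit 287) (nat_lit 5) (nat_lit 453) (nat_lit 400) (nat_lit 287)) (XT.lf (nat_lit 0) (nat_lit 8475874727) (nat_lit 684) (nat_lit 536013695) (nat_lit 760) (nat_lit 2354788689) (nat_lit 277) (nat_lit 5) (nat_lit 286) (nat_lit 5) (nat_lit 287) (nat_lit 5) (nat_lit 454) (nat_lit 400) (nat_lit 286))))) (XT.nd (nat_lit 234) (nat_lit 1292) (nat_lit 0) (XT.nd (nat_lit 78) (nat_lit 684) (nat_lit 0) (XT.lf (nat_lit 0) (nat_lit 3814947513) (nat_lit 684) (nat_lit 7642632008) (nat_lit 760) (nat_lit 31917493) (nat_lit 268) (nat_lit 5) (nat_lit 277) (nat_lit 5) (nat_lit 278) (nat_lit 5) (nat_lit 455) (nat_lit 400) (nat_lit 285)) (XT.nd (nat_lit 78) (nat_lit 608) (nat_lit 0) (XT.lf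 (nat_lit 0) (nat_lit 2311403062) (nat_lit 760) (nat_lit 961493352) (nat_lit 76) (nat_lit 8341484695) (nat_lit 267) (nat_lit 5) (nat_lit 277) (nat_lit 5) (nat_lit 268) (nat_lit 5) (nat_lit 456) (nat_lit 400) (nat_lit 284)) (XT.lf (nat_lit 0) (nat_lit 4729593881) (nat_lit 684) (nat_lit 5807550165) (nat_lit 76) (nat_lit 1204050180) (nat_lit 259) (nat_lit 5) (nat_lit 268) (nat_lit 5) (nat_lit 260) (nat_lit 5) (nat_lit 457) (nat_lit 400) (nat_lit 283)))) (XT.nd (nat_lit 78) (nat_lit 684) (nat_lit 0) (XT.lf (nat_lit 0) (nat_lit 1079738039) (nat_lit 608) (nat_lit 6133711136) (nat_lit 684) (nat_lit 4656752519) (nat_lit 251) (nat_lit 5) (nat_lit 259) (nat_lit 5) (nat_lit 260) (nat_lit 5) (nat_lit 458) (nat_lit 400) (nat_lit 282)) (XT.nd (nat_lit 78) (nat_lit 684) (nat_lit 0) (XT.lf (nat_lit 0) (nat_lit 8161631337) (nat_lit 608) (nat_lit 1606651198) (nat_lit 684) (nat_lit 2233084778) (nat_lit 251) (nat_lit 5) (nat_lit 259) (nat_lit 5)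 (nat_lit 260) (nat_lit 5) (nat_lit 459) (nat_lit 400) (nat_lit 281)) (XT.lf (nat_lit 0) (nat_lit 259379499) (nat_lit 684) (nat_lit 8885059967) (nat_lit 76) (nat_lit 2990220429) (nat_lit 242) (nat_lit 5) (nat_lit 251) (nat_lit 5) (nat_lit 243) (nat_lit 5) (nat_lit 460) (nat_lit 400) (nat_lit 280)))))) (XT.nd (nat_lit 390) (nat_lit 1596) (nat_lit 0) (XT.nd (nat_lit 156) (nat_lit 1140) (nat_lit 0) (XT.nd (nat_lit 78) (nat_lit 608) (nat_lit 0) (XT.lf (nat_lit 0) (nat_lit 2791128885) (nat_lit 684) (nat_lit 1784779883) (nat_lit 76) (nat_lit 7694031401) (nat_lit 242) (nat_lit 5) (nat_lit 251) (nat_lit 5) (nat_lit 243) (nat_lit 5) (nat_lit 461) (nat_lit 400) (nat_lit 279)) (XT.lf (nat_lit 0) (nat_lit 5393100116) (nat_lit 684) (nat_lit 6899977904) (nat_lit 76) (nat_lit 114460005) (nat_lit 234) (nat_lit 5) (nat_lit 243) (nat_lit 5) (nat_lit 235) (nat_lit 5) (nat_lit 462) (nat_lit 400) (nat_lit 278))) (XT.nd (nat_lit 78) (nat_lit 608)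 (nat_lit 0) (XT.lf (nat_lit 0) (nat_lit 375241547) (nat_lit 532) (nat_lit 7699900114) (nat_lit 608) (nat_lit 4472189201) (nat_lit 227) (nat_lit 5) (nat_lit 234) (nat_lit 5) (nat_lit 235) (nat_lit 5) (nat_lit 463) (nat_lit 400) (nat_lit 277)) (XT.nd (nat_lit 78) (nat_lit 608) (nat_lit 0) (XT.lf (nat_lit 0) (nat_lit 7868050182) (nat_lit 532) (nat_lit 2972500245) (nat_lit 608) (nat_lit 1848778171) (nat_lit 227) (nat_lit 5) (nat_lit 234) (nat_lit 5) (nat_lit 235) (nat_lit 5) (nat_lit 464) (nat_lit 400) (nat_lit 276)) (XT.lf (nat_lit 0) (nat_lit 829452259) (nat_lit 608) (nat_lit 10161019805) (nat_lit 76) (nat_lit 1843326279) (nat_lit 219) (nat_lit 5) (nat_lit 227) (nat_lit 5) (nat_lit 220) (nat_lit 5) (nat_lit 465) (nat_lit 400) (nat_lit 275))))) (XT.nd (nat_lit 234) (nat_lit 1064) (nat_lit 0) (XT.nd (nat_lit 78) (nat_lit 532) (nat_lit 0) (XT.lf (nat_lit 0) (nat_lit 3572557946) (nat_lit 608) (nat_lit 2651985078) (nat_lit 76) (nat_lit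 6755652099) (nat_lit 219) (nat_lit 5) (nat_lit 227) (nat_lit 5) (nat_lit 220) (nat_lit 5) (nat_lit 466) (nat_lit 400) (nat_lit 274)) (XT.nd (nat_lit 78) (nat_lit 0) (nat_lit 0) (XT.lf (nat_lit 0) (nat_lit 5052512862) (nat_lit 532) (nat_lit 1334924638) (nat_lit 608) (nat_lit 6741747402) (nat_lit 212) (nat_lit 5) (nat_lit 219) (nat_lit 5) (nat_lit 220) (nat_lit 5) (nat_lit 467) (nat_lit 400) (nat_lit 273)) (XT.lf (nat_lit 0) (nat_lit 9284493560) (nat_lit 608) (nat_lit 378709973) (nat_lit 76) (nat_lit 3617436599) (nat_lit 212) (nat_lit 5) (nat_lit 220) (nat_lit 5) (nat_lit 213) (nat_lit 5) (nat_lit 468) (nat_lit 400) (nat_lit 272)))) (XT.nd (nat_lit 78) (nat_lit 532) (nat_lit 0) (XT.lf (nat_lit 0) (nat_lit 7542579017) (nat_lit 532) (nat_lit 4739283004) (nat_lit 608) (nat_lit 1152418191) (nat_lit 205) (nat_lit 5) (nat_lit 212) (nat_lit 5) (nat_lit 213) (nat_lit 5) (nat_lit 469) (nat_lit 400) (nat_lit 271)) (XT.nd (nat_lit 78) (nat_lit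 0) (nat_lit 0) (XT.lf (nat_lit 0) (nat_lit 1727608310) (nat_lit 532) (nat_lit 11561775038) (nat_lit 76) (nat_lit 301338758) (nat_lit 198) (nat_lit 5) (nat_lit 205) (nat_lit 5) (nat_lit 199) (nat_lit 5) (nat_lit 470) (nat_lit 400) (nat_lit 270)) (XT.lf (nat_lit 0) (nat_lit 4705759460) (nat_lit 532) (nat_lit 3621830204) (nat_lit 76) (nat_lit 5421434711) (nat_lit 198) (nat_lit 5) (nat_lit 205) (nat_lit 5) (nat_lit 199) (nat_lit 5) (nat_lit 471) (nat_lit 400) (nat_lit 269))))))) (XT.nd (nat_lit 858) (nat_lit 2736) (nat_lit 0) (XT.nd (nat_lit 390) (nat_lit 1824) (nat_lit 0) (XT.nd (nat_lit 156) (nat_lit 988) (nat_lit 0) (XT.nd (nat_lit 78) (nat_lit 0) (nat_lit 0) (XT.lf (nat_lit 0) (nat_lit 4515626750) (nat_lit 532) (nat_lit 3242220570) (nat_lit 608) (nat_lit 6152360826) (nat_lit 191) (nat_lit 5) (nat_lit 198) (nat_lit 5) (nat_lit 199) (nat_lit 5) (nat_lit 472) (nat_lit 400) (nat_lit 268)) (XT.lf (nat_lit 0) (nat_lit 10893249261)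 (nat_lit 608) (nat_lit 1242627398) (nat_lit 76) (nat_lit 1938296356) (nat_lit 191) (nat_lit 5) (nat_lit 199) (nat_lit 5) (nat_lit 192) (nat_lit 5) (nat_lit 473) (nat_lit 400) (nat_lit 267))) (XT.nd (nat_lit 78) (nat_lit 532) (nat_lit 0) (XT.lf (nat_lit 0) (nat_lit 7124095112) (nat_lit 456) (nat_lit 7020460420) (nat_lit 532) (nat_lit 95800540) (nat_lit 185) (nat_lit 5) (nat_lit 191) (nat_lit 5) (nat_lit 192) (nat_lit 5) (nat_lit 474) (nat_lit 400) (nat_lit 266)) (XT.nd (nat_lit 78) (nat_lit 0) (nat_lit 0) (XT.lf (nat_lit 0) (nat_lit 1241422542) (nat_lit 456) (nat_lit 1771568651) (nat_lit 532) (nat_lit 11396438501) (nat_lit 178) (nat_lit 5) (nat_lit 184) (nat_lit 5) (nat_lit 185) (nat_lit 5) (nat_lit 475) (nat_lit 400) (nat_lit 265)) (XT.lf (nat_lit 0) (nat_lit 6239647695) (nat_lit 532) (nat_lit 4762828825) (nat_lit 76) (nat_lit 3578258823) (nat_lit 178) (nat_lit 5) (nat_lit 185) (nat_lit 5) (nat_lit 179) (nat_lit 5) (nat_lit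 476) (nat_lit 400) (nat_lit 264))))) (XT.nd (nat_lit 234) (nat_lit 836) (nat_lit 0) (XT.nd (nat_lit 78) (nat_lit 532) (nat_lit 0) (XT.lf (nat_lit 0) (nat_lit 3828925864) (nat_lit 456) (nat_lit 5724426887) (nat_lit 532) (nat_lit 5201666645) (nat_lit 172) (nat_lit 5) (nat_lit 178) (nat_lit 5) (nat_lit 179) (nat_lit 5) (nat_lit 477) (nat_lit 400) (nat_lit 263)) (XT.nd (nat_lit 78) (nat_lit 532) (nat_lit 0) (XT.lf (nat_lit 0) (nat_lit 12637196690) (nat_lit 456) (nat_lit 314166500) (nat_lit 532) (nat_lit 1981067863) (nat_lit 172) (nat_lit 5) (nat_lit 178) (nat_lit 5) (nat_lit 179) (nat_lit 5) (nat_lit 478) (nat_lit 400) (nat_lit 262)) (XT.lf (nat_lit 0) (nat_lit 1349813789) (nat_lit 532) (nat_lit 8580518781) (nat_lit 76) (nat_lit 5181632058) (nat_lit 165) (nat_lit 5) (nat_lit 172) (nat_lit 5) (nat_lit 166) (nat_lit 5) (nat_lit 479) (nat_lit 400) (nat_lit 261)))) (XT.nd (nat_lit 78) (nat_lit 456) (nat_lit 0) (XT.lf (nat_lit 0) (nat_lit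 239041937) (nat_lit 380) (nat_lit 4487260809) (nat_lit 456) (nat_lit 10568416310) (nat_lit 160) (nat_lit 5) (nat_lit 165) (nat_lit 5) (nat_lit 166) (nat_lit 5) (nat_lit 480) (nat_lit 400) (nat_lit 260)) (XT.nd (nat_lit 78) (nat_lit 456) (nat_lit 0) (XT.lf (nat_lit 0) (nat_lit 8221649766) (nat_lit 456) (nat_lit 6155850462) (nat_lit 76) (nat_lit 1102604133) (nat_lit 160) (nat_lit 5) (nat_lit 166) (nat_lit 5) (nat_lit 161) (nat_lit 5) (nat_lit 481) (nat_lit 400) (nat_lit 259)) (XT.lf (nat_lit 0) (nat_lit 2910938482) (nat_lit 456) (nat_lit 8911302147) (nat_lit 532) (nat_lit 3846252316) (nat_lit 154) (nat_lit 5) (nat_lit 160) (nat_lit 5) (nat_lit 161) (nat_lit 5) (nat_lit 482) (nat_lit 400) (nat_lit 258)))))) (XT.nd (nat_lit 468) (nat_lit 1444) (nat_lit 0) (XT.nd (nat_lit 234) (nat_lit 836) (nat_lit 0) (XT.nd (nat_lit 78) (nat_lit 456) (nat_lit 0) (XT.lf (nat_lit 0) (nat_lit 12223140867) (nat_lit 456) (nat_lit 3299866288) (nat_lit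 532) (nat_lit 337081132) (nat_lit 154) (nat_lit 5) (nat_lit 160) (nat_lit 5) (nat_lit 161) (nat_lit 5) (nat_lit 483) (nat_lit 400) (nat_lit 257)) (XT.nd (nat_lit 78) (nat_lit 0) (nat_lit 0) (XT.lf (nat_lit 0) (nat_lit 3239869031) (nat_lit 456) (nat_lit 10370073112) (nat_lit 76) (nat_lit 2444352179) (nat_lit 148) (nat_lit 5) (nat_lit 154) (nat_lit 5) (nat_lit 149) (nat_lit 5) (nat_lit 484) (nat_lit 400) (nat_lit 256)) (XT.lf (nat_lit 0) (nat_lit 6917385461) (nat_lit 456) (nat_lit 1054284880) (nat_lit 76) (nat_lit 8280000891) (nat_lit 148) (nat_lit 5) (nat_lit 154) (nat_lit 5) (nat_lit 149) (nat_lit 5) (nat_lit 485) (nat_lit 400) (nat_lit 255)))) (XT.nd (nat_lit 78) (nat_lit 456) (nat_lit 0) (XT.lf (nat_lit 0) (nat_lit 8540958718) (nat_lit 380) (nat_lit 2170315386) (nat_lit 456) (nat_lit 5740867230) (nat_lit 143) (nat_lit 5) (nat_lit 148) (nat_lit 5) (nat_lit 149) (nat_lit 5) (nat_lit 486) (nat_lit 400) (nat_lit 254)) (XT.nd (nat_lit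 78) (nat_lit 76) (nat_lit 0) (XT.lf (nat_lit 0) (nat_lit 1664408650) (nat_lit 380) (nat_lit 12946342104) (nat_lit 456) (nat_lit 2045277931) (nat_lit 138) (nat_lit 5) (nat_lit 143) (nat_lit 5) (nat_lit 144) (nat_lit 5) (nat_lit 487) (nat_lit 400) (nat_lit 253)) (XT.lf (nat_lit 0) (nat_lit 1756915503) (nat_lit 456) (nat_lit 5369108887) (nat_lit 76) (nat_lit 9736641350) (nat_lit 137) (nat_lit 5) (nat_lit 143) (nat_lit 5) (nat_lit 138) (nat_lit 5) (nat_lit 488) (nat_lit 400) (nat_lit 252))))) (XT.nd (nat_lit 234) (nat_lit 760) (nat_lit 0) (XT.nd (nat_lit 78) (nat_lit 304) (nat_lit 0) (XT.lf (nat_lit 0) (nat_lit 4472328235) (nat_lit 380) (nat_lit 1152239576) (nat_lit 456) (nat_lit 11448263248) (nat_lit 132) (nat_lit 5) (nat_lit 137) (nat_lit 5) (nat_lit 138) (nat_lit 5) (nat_lit 489) (nat_lit 400) (nat_lit 251)) (XT.nd (nat_lit 78) (nat_lit 304) (nat_lit 0) (XT.lf (nat_lit 0) (nat_lit 9625738926) (nat_lit 456) (nat_lit 2754139812)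 (nat_lit 76) (nat_lit 4906199524) (nat_lit 132) (nat_lit 5) (nat_lit 138) (nat_lit 5) (nat_lit 133) (nat_lit 5) (nat_lit 490) (nat_lit 400) (nat_lit 250)) (XT.lf (nat_lit 0) (nat_lit 7359694914) (nat_lit 304) (nat_lit 6390709396) (nat_lit 380) (nat_lit 3752318540) (nat_lit 128) (nat_lit 5) (nat_lit 132) (nat_lit 5) (nat_lit 133) (nat_lit 5) (nat_lit 491) (nat_lit 400) (nat_lit 249)))) (XT.nd (nat_lit 78) (nat_lit 684) (nat_lit 0) (XT.lf (nat_lit 0) (nat_lit 237491463) (nat_lit 380) (nat_lit 30219924) (nat_lit 76) (nat_lit 17455826441) (nat_lit 127) (nat_lit 5) (nat_lit 132) (nat_lit 5) (nat_lit 128) (nat_lit 5) (nat_lit 492) (nat_lit 400) (nat_lit 248)) (XT.nd (nat_lit 78) (nat_lit 304) (nat_lit 0) (XT.lf (nat_lit 0) (nat_lit 4351988816) (nat_lit 456) (nat_lit 7608463290) (nat_lit 76) (nat_lit 5985919999) (nat_lit 122) (nat_lit 5) (nat_lit 128) (nat_lit 5) (nat_lit 123) (nat_lit 5) (nat_lit 493) (nat_lit 400) (nat_lit 247))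 (XT.lf (nat_lit 0) (nat_lit 2756427057) (nat_lit 304) (nat_lit 5800619415) (nat_lit 380) (nat_lit 9616452905) (nat_lit 118) (nat_lit 5) (nat_lit 122) (nat_lit 5) (nat_lit 123) (nat_lit 5) (nat_lit 494) (nat_lit 400) (nat_lit 246))))))))
noncomputable def xc144 : XT := (XT.nd (nat_lit 52806) (nat_lit 0) (nat_lit 25156) (XT.nd (nat_lit 858) (nat_lit 0) (nat_lit 0) (XT.nd (nat_lit 390) (nat_lit 988) (nat_lit 0) (XT.nd (nat_lit 156) (nat_lit 684) (nat_lit 0) (XT.nd (nat_lit 78) (nat_lit 380) (nat_lit 0) (XT.lf (nat_lit 0) (nat_lit 12889197709) (nat_lit 380) (nat_lit 4994039163) (nat_lit 76) (nat_lit 521074156) (nat_lit 118) (nat_lit 5) (nat_lit 123) (nat_lit 5) (nat_lit 119) (nat_lit 5) (nat_lit 495) (nat_lit 400) (nat_lit 245)) (XT.lf (nat_lit 0) (nat_lit 5655397008) (nat_lit 380) (nat_lit 11716419800) (nat_lit 456) (nat_lit 1266647255) (nat_lit 113) (nat_lit 5) (nat_lit 118) (nat_lit 5) (nat_lit 119) (nat_lit 5) (nat_lit 496)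 (nat_lit 400) (nat_lit 244))) (XT.nd (nat_lit 78) (nat_lit 608) (nat_lit 0) (XT.lf (nat_lit 0) (nat_lit 3049023826) (nat_lit 456) (nat_lit 2329094804) (nat_lit 76) (nat_lit 13498335739) (nat_lit 112) (nat_lit 5) (nat_lit 118) (nat_lit 5) (nat_lit 113) (nat_lit 5) (nat_lit 497) (nat_lit 400) (nat_lit 243)) (XT.nd (nat_lit 78) (nat_lit 304) (nat_lit 0) (XT.lf (nat_lit 0) (nat_lit 7486449746) (nat_lit 380) (nat_lit 10500390515) (nat_lit 76) (nat_lit 1131150288) (nat_lit 108) (nat_lit 5) (nat_lit 113) (nat_lit 5) (nat_lit 109) (nat_lit 5) (nat_lit 498) (nat_lit 400) (nat_lit 242)) (XT.lf (nat_lit 0) (nat_lit 402754947) (nat_lit 304) (nat_lit 11652839724) (nat_lit 380) (nat_lit 7307904894) (nat_lit 104) (nat_lit 5) (nat_lit 108) (nat_lit 5) (nat_lit 109) (nat_lit 5) (nat_lit 499) (nat_lit 400) (nat_lit 241))))) (XT.nd (nat_lit 234) (nat_lit 608) (nat_lit 0) (XT.nd (nat_lit 78) (nat_lit 380) (nat_lit 0) (XT.lf (nat_lit 0) (nat_lit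 11648851949) (nat_lit 304) (nat_lit 5126841885) (nat_lit 380) (nat_lit 2837034995) (nat_lit 104) (nat_lit 5) (nat_lit 108) (nat_lit 5) (nat_lit 109) (nat_lit 5) (nat_lit 500) (nat_lit 400) (nat_lit 240)) (XT.nd (nat_lit 78) (nat_lit 0) (nat_lit 0) (XT.lf (nat_lit 0) (nat_lit 1721218947) (nat_lit 380) (nat_lit 16609272773) (nat_lit 76) (nat_lit 1535817275) (nat_lit 99) (nat_lit 5) (nat_lit 104) (nat_lit 5) (nat_lit 100) (nat_lit 5) (nat_lit 501) (nat_lit 400) (nat_lit 239)) (XT.lf (nat_lit 0) (nat_lit 6409740927) (nat_lit 380) (nat_lit 5383974693) (nat_lit 76) (nat_lit 8329329679) (nat_lit 99) (nat_lit 5) (nat_lit 104) (nat_lit 5) (nat_lit 100) (nat_lit 5) (nat_lit 502) (nat_lit 400) (nat_lit 238)))) (XT.nd (nat_lit 78) (nat_lit 304) (nat_lit 0) (XT.lf (nat_lit 0) (nat_lit 6129246921) (nat_lit 304) (nat_lit 5092098255) (nat_lit 380) (nat_lit 9162986298) (nat_lit 95) (nat_lit 5) (nat_lit 99) (nat_lit 5) (nat_lit 100) (nat_lit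 5) (nat_lit 503) (nat_lit 400) (nat_lit 237)) (XT.nd (nat_lit 78) (nat_lit 304) (nat_lit 0) (XT.lf (nat_lit 0) (nat_lit 16166441170) (nat_lit 380) (nat_lit 2732990239) (nat_lit 76) (nat_lit 1750668122) (nat_lit 95) (nat_lit 5) (nat_lit 100) (nat_lit 5) (nat_lit 96) (nat_lit 5) (nat_lit 504) (nat_lit 400) (nat_lit 236)) (XT.lf (nat_lit 0) (nat_lit 368512820) (nat_lit 304) (nat_lit 11833630333) (nat_lit 76) (nat_lit 8717342528) (nat_lit 91) (nat_lit 5) (nat_lit 95) (nat_lit 5) (nat_lit 92) (nat_lit 5) (nat_lit 505) (nat_lit 400) (nat_lit 235)))))) (XT.nd (nat_lit 51480) (nat_lit 0) (nat_lit 35720) (XT.nd (nat_lit 51246) (nat_lit 0) (nat_lit 36860) (XT.nd (nat_lit 51168) (nat_lit 0) (nat_lit 38076) (XT.lf (nat_lit 0) (nat_lit 5266008361) (nat_lit 304) (nat_lit 62300345) (nat_lit 76) (nat_lit 15865193043) (nat_lit 91) (nat_lit 5) (nat_lit 95) (nat_lit 5) (nat_lit 92) (nat_lit 5) (nat_lit 506) (nat_lit 400) (nat_lit 234)) (XT.lf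 (nat_lit 0) (nat_lit 821750644) (nat_lit 0) (nat_lit 821750644) (nat_lit 1140) (nat_lit 2000066955) (nat_lit 592) (nat_lit 5) (nat_lit 592) (nat_lit 3) (nat_lit 607) (nat_lit 3) (nat_lit 401) (nat_lit 401) (nat_lit 338))) (XT.nd (nat_lit 78) (nat_lit 1216) (nat_lit 0) (XT.lf (nat_lit 0) (nat_lit 4888779297) (nat_lit 1140) (nat_lit 2104053294) (nat_lit 1216) (nat_lit 335230770) (nat_lit 592) (nat_lit 5) (nat_lit 607) (nat_lit 3) (nat_lit 608) (nat_lit 5) (nat_lit 402) (nat_lit 401) (nat_lit 337)) (XT.nd (nat_lit 78) (nat_lit 1216) (nat_lit 0) (XT.lf (nat_lit 76) (nat_lit 1493506000) (nat_lit 0) (nat_lit 5008704769) (nat_lit 1216) (nat_lit 868020475) (nat_lit 593) (nat_lit 5) (nat_lit 592) (nat_lit 5) (nat_lit 608) (nat_lit 5) (nat_lit 403) (nat_lit 401) (nat_lit 336)) (XT.lf (nat_lit 0) (nat_lit 698667299) (nat_lit 1216) (nat_lit 2248215800) (nat_lit 1292) (nat_lit 4466805579) (nat_lit 576) (nat_lit 5) (nat_lit 592) (nat_lit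 5) (nat_lit 593) (nat_lit 5) (nat_lit 404) (nat_lit 401) (nat_lit 335))))) (XT.nd (nat_lit 234) (nat_lit 1140) (nat_lit 0) (XT.nd (nat_lit 78) (nat_lit 0) (nat_lit 76) (XT.lf (nat_lit 76) (nat_lit 1444561310) (nat_lit 0) (nat_lit 810111710) (nat_lit 1292) (nat_lit 5203849349) (nat_lit 577) (nat_lit 5) (nat_lit 576) (nat_lit 5) (nat_lit 593) (nat_lit 5) (nat_lit 405) (nat_lit 401) (nat_lit 334)) (XT.nd (nat_lit 78) (nat_lit 0) (nat_lit 0) (XT.lf (nat_lit 0) (nat_lit 3826850417) (nat_lit 1216) (nat_lit 2293543107) (nat_lit 1292) (nat_lit 1384171903) (nat_lit 577) (nat_lit 5) (nat_lit 593) (nat_lit 5) (nat_lit 594) (nat_lit 5) (nat_lit 406) (nat_lit 401) (nat_lit 333)) (XT.lf (nat_lit 76) (nat_lit 1493674411) (nat_lit 0) (nat_lit 3913598986) (nat_lit 1292) (nat_lit 2144733364) (nat_lit 578) (nat_lit 5) (nat_lit 577) (nat_lit 5) (nat_lit 594) (nat_lit 5) (nat_lit 407) (nat_lit 401) (nat_lit 332)))) (XT.nd (nat_lit 78) (nat_lit 1216)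 (nat_lit 0) (XT.lf (nat_lit 76) (nat_lit 5366035881) (nat_lit 0) (nat_lit 1631008358) (nat_lit 1292) (nat_lit 603811085) (nat_lit 578) (nat_lit 5) (nat_lit 577) (nat_lit 5) (nat_lit 594) (nat_lit 5) (nat_lit 408) (nat_lit 401) (nat_lit 331)) (XT.nd (nat_lit 78) (nat_lit 0) (nat_lit 0) (XT.lf (nat_lit 0) (nat_lit 933574910) (nat_lit 1292) (nat_lit 5996971443) (nat_lit 1368) (nat_lit 720454700) (nat_lit 561) (nat_lit 5) (nat_lit 578) (nat_lit 5) (nat_lit 579) (nat_lit 5) (nat_lit 409) (nat_lit 401) (nat_lit 330)) (XT.lf (nat_lit 0) (nat_lit 2483043727) (nat_lit 1292) (nat_lit 2088269263) (nat_lit 1368) (nat_lit 3130980910) (nat_lit 561) (nat_lit 5) (nat_lit 578) (nat_lit 5) (nat_lit 579) (nat_lit 5) (nat_lit 410) (nat_lit 401) (nat_lit 329))))))) (XT.nd (nat_lit 858) (nat_lit 7980) (nat_lit 0) (XT.nd (nat_lit 390) (nat_lit 1292) (nat_lit 0) (XT.nd (nat_lit 156) (nat_lit 1292) (nat_lit 0) (XT.nd (nat_lit 78) (nat_lit 0) (nat_lit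 76) (XT.lf (nat_lit 76) (nat_lit 1901517001) (nat_lit 0) (nat_lit 2138561282) (nat_lit 1368) (nat_lit 3715014981) (nat_lit 562) (nat_lit 5) (nat_lit 561) (nat_lit 5) (nat_lit 579) (nat_lit 5) (nat_lit 411) (nat_lit 401) (nat_lit 328)) (XT.lf (nat_lit 0) (nat_lit 5609461958) (nat_lit 1292) (nat_lit 1834267551) (nat_lit 1368) (nat_lit 365606886) (nat_lit 562) (nat_lit 5) (nat_lit 579) (nat_lit 5) (nat_lit 580) (nat_lit 5) (nat_lit 412) (nat_lit 401) (nat_lit 327))) (XT.nd (nat_lit 78) (nat_lit 1368) (nat_lit 0) (XT.lf (nat_lit 76) (nat_lit 2258645606) (nat_lit 0) (nat_lit 4945979941) (nat_lit 1368) (nat_lit 660162711) (nat_lit 563) (nat_lit 5) (nat_lit 562) (nat_lit 5) (nat_lit 580) (nat_lit 5) (nat_lit 413) (nat_lit 401) (nat_lit 326)) (XT.nd (nat_lit 78) (nat_lit 0) (nat_lit 76) (XT.lf (nat_lit 0) (nat_lit 876655190) (nat_lit 1368) (nat_lit 1491374282) (nat_lit 1444) (nat_lit 5553647708) (nat_lit 544) (nat_lit 5) (nat_lit 562)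 (nat_lit 5) (nat_lit 563) (nat_lit 5) (nat_lit 414) (nat_lit 401) (nat_lit 325)) (XT.lf (nat_lit 0) (nat_lit 2421451771) (nat_lit 1368) (nat_lit 5267056650) (nat_lit 1444) (nat_lit 291397585) (nat_lit 545) (nat_lit 5) (nat_lit 563) (nat_lit 5) (nat_lit 564) (nat_lit 5) (nat_lit 415) (nat_lit 401) (nat_lit 324))))) (XT.nd (nat_lit 234) (nat_lit 1368) (nat_lit 0) (XT.nd (nat_lit 78) (nat_lit 0) (nat_lit 0) (XT.lf (nat_lit 0) (nat_lit 3990015942) (nat_lit 1368) (nat_lit 1056188033) (nat_lit 1444) (nat_lit 2993248823) (nat_lit 545) (nat_lit 5) (nat_lit 563) (nat_lit 5) (nat_lit 564) (nat_lit 5) (nat_lit 416) (nat_lit 401) (nat_lit 323)) (XT.nd (nat_lit 78) (nat_lit 0) (nat_lit 76) (XT.lf (nat_lit 76) (nat_lit 3259377007) (nat_lit 0) (nat_lit 2319496385) (nat_lit 1444) (nat_lit 2521549303) (nat_lit 546) (nat_lit 5) (nat_lit 545) (nat_lit 5) (nat_lit 564) (nat_lit 5) (nat_lit 417) (nat_lit 401) (nat_lit 322)) (XT.lf (nat_lit 0) (nat_lit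 7177951477) (nat_lit 1368) (nat_lit 512774594) (nat_lit 1444) (nat_lit 472327452) (nat_lit 546) (nat_lit 5) (nat_lit 564) (nat_lit 5) (nat_lit 565) (nat_lit 5) (nat_lit 418) (nat_lit 401) (nat_lit 321)))) (XT.nd (nat_lit 78) (nat_lit 0) (nat_lit 0) (XT.lf (nat_lit 0) (nat_lit 584210849) (nat_lit 1444) (nat_lit 4314922619) (nat_lit 1520) (nat_lit 3327542497) (nat_lit 527) (nat_lit 5) (nat_lit 546) (nat_lit 5) (nat_lit 547) (nat_lit 5) (nat_lit 419) (nat_lit 401) (nat_lit 320)) (XT.nd (nat_lit 78) (nat_lit 0) (nat_lit 76) (XT.lf (nat_lit 76) (nat_lit 112495209) (nat_lit 0) (nat_lit 2032615412) (nat_lit 1520) (nat_lit 6146871984) (nat_lit 528) (nat_lit 5) (nat_lit 527) (nat_lit 5) (nat_lit 547) (nat_lit 5) (nat_lit 420) (nat_lit 401) (nat_lit 319)) (XT.lf (nat_lit 0) (nat_lit 3741855748) (nat_lit 1444) (nat_lit 3700216037) (nat_lit 1520) (nat_lit 916440655) (nat_lit 528) (nat_lit 5) (nat_lit 547) (nat_lit 5) (nat_lit 548) (nat_lit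 5) (nat_lit 421) (nat_lit 401) (nat_lit 318)))))) (XT.nd (nat_lit 390) (nat_lit 5092) (nat_lit 0) (XT.nd (nat_lit 156) (nat_lit 2964) (nat_lit 0) (XT.nd (nat_lit 78) (nat_lit 0) (nat_lit 0) (XT.lf (nat_lit 76) (nat_lit 843524219) (nat_lit 0) (nat_lit 4516237267) (nat_lit 1520) (nat_lit 3066836292) (nat_lit 529) (nat_lit 5) (nat_lit 528) (nat_lit 5) (nat_lit 548) (nat_lit 5) (nat_lit 422) (nat_lit 401) (nat_lit 317)) (XT.lf (nat_lit 76) (nat_lit 5505727676) (nat_lit 0) (nat_lit 1499852080) (nat_lit 1520) (nat_lit 1490563216) (nat_lit 529) (nat_lit 5) (nat_lit 528) (nat_lit 5) (nat_lit 548) (nat_lit 5) (nat_lit 423) (nat_lit 401) (nat_lit 316))) (XT.nd (nat_lit 78) (nat_lit 1520) (nat_lit 0) (XT.lf (nat_lit 0) (nat_lit 108146305) (nat_lit 1520) (nat_lit 6884768406) (nat_lit 76) (nat_lit 1574309040) (nat_lit 509) (nat_lit 5) (nat_lit 529) (nat_lit 5) (nat_lit 510) (nat_lit 5) (nat_lit 424) (nat_lit 401) (nat_lit 315)) (XT.nd (nat_lit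 78) (nat_lit 1520) (nat_lit 0) (XT.lf (nat_lit 0) (nat_lit 1720583122) (nat_lit 1520) (nat_lit 2192931738) (nat_lit 76) (nat_lit 4725988703) (nat_lit 509) (nat_lit 5) (nat_lit 529) (nat_lit 5) (nat_lit 510) (nat_lit 5) (nat_lit 425) (nat_lit 401) (nat_lit 314)) (XT.lf (nat_lit 0) (nat_lit 2604359847) (nat_lit 1520) (nat_lit 749935841) (nat_lit 1596) (nat_lit 5359161275) (nat_lit 489) (nat_lit 5) (nat_lit 509) (nat_lit 5) (nat_lit 510) (nat_lit 5) (nat_lit 426) (nat_lit 401) (nat_lit 313))))) (XT.nd (nat_lit 234) (nat_lit 3496) (nat_lit 0) (XT.nd (nat_lit 78) (nat_lit 1596) (nat_lit 0) (XT.lf (nat_lit 0) (nat_lit 5024129633) (nat_lit 1596) (nat_lit 1300432534) (nat_lit 76) (nat_lit 2464266688) (nat_lit 489) (nat_lit 5) (nat_lit 510) (nat_lit 5) (nat_lit 490) (nat_lit 5) (nat_lit 427) (nat_lit 401) (nat_lit 312)) (XT.nd (nat_lit 78) (nat_lit 0) (nat_lit 0) (XT.lf (nat_lit 0) (nat_lit 3624443498) (nat_lit 1596) (nat_lit 3104505876)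 (nat_lit 1672) (nat_lit 2136735228) (nat_lit 468) (nat_lit 5) (nat_lit 489) (nat_lit 5) (nat_lit 490) (nat_lit 5) (nat_lit 428) (nat_lit 401) (nat_lit 311)) (XT.lf (nat_lit 0) (nat_lit 8451317850) (nat_lit 1672) (nat_lit 302632212) (nat_lit 76) (nat_lit 190466397) (nat_lit 468) (nat_lit 5) (nat_lit 490) (nat_lit 5) (nat_lit 469) (nat_lit 5) (nat_lit 429) (nat_lit 401) (nat_lit 310)))) (XT.nd (nat_lit 78) (nat_lit 1748) (nat_lit 0) (XT.lf (nat_lit 0) (nat_lit 1193496070) (nat_lit 1748) (nat_lit 4278032475) (nat_lit 76) (nat_lit 3552536347) (nat_lit 445) (nat_lit 5) (nat_lit 468) (nat_lit 5) (nat_lit 446) (nat_lit 5) (nat_lit 430) (nat_lit 401) (nat_lit 309)) (XT.nd (nat_lit 78) (nat_lit 0) (nat_lit 0) (XT.lf (nat_lit 0) (nat_lit 778740976) (nat_lit 1748) (nat_lit 2109791877) (nat_lit 1824) (nat_lit 6217089573) (nat_lit 422) (nat_lit 5) (nat_lit 445) (nat_lit 5) (nat_lit 446) (nat_lit 5) (nat_lit 431) (nat_lit 401) (nat_lit 308))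 (XT.lf (nat_lit 0) (nat_lit 4629517651) (nat_lit 1824) (nat_lit 3225438072) (nat_lit 76) (nat_lit 1333621872) (nat_lit 422) (nat_lit 5) (nat_lit 446) (nat_lit 5) (nat_lit 423) (nat_lit 5) (nat_lit 432) (nat_lit 401) (nat_lit 307))))))))
noncomputable def xc145 : XT := (XT.nd (nat_lit 1716) (nat_lit 7524) (nat_lit 0) (XT.nd (nat_lit 858) (nat_lit 5244) (nat_lit 0) (XT.nd (nat_lit 390) (nat_lit 2660) (nat_lit 0) (XT.nd (nat_lit 156) (nat_lit 1824) (nat_lit 0) (XT.nd (nat_lit 78) (nat_lit 0) (nat_lit 0) (XT.lf (nat_lit 0) (nat_lit 1967229510) (nat_lit 1292) (nat_lit 4439919992) (nat_lit 1368) (nat_lit 2866013101) (nat_lit 405) (nat_lit 5) (nat_lit 422) (nat_lit 5) (nat_lit 423) (nat_lit 5) (nat_lit 433) (nat_lit 401) (nat_lit 306)) (XT.lf (nat_lit 0) (nat_lit 7284987907) (nat_lit 1292) (nat_lit 932415730) (nat_lit 1368) (nat_lit 1142101421) (nat_lit 405) (nat_lit 5) (nat_lit 422) (nat_lit 5) (nat_lit 423) (nat_lit 5) (nat_lit 434)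 (nat_lit 401) (nat_lit 305))) (XT.nd (nat_lit 78) (nat_lit 836) (nat_lit 0) (XT.lf (nat_lit 0) (nat_lit 622584661) (nat_lit 988) (nat_lit 6186768402) (nat_lit 76) (nat_lit 2637860556) (nat_lit 392) (nat_lit 5) (nat_lit 405) (nat_lit 5) (nat_lit 393) (nat_lit 5) (nat_lit 435) (nat_lit 401) (nat_lit 304)) (XT.nd (nat_lit 78) (nat_lit 836) (nat_lit 0) (XT.lf (nat_lit 0) (nat_lit 2403557335) (nat_lit 988) (nat_lit 842722929) (nat_lit 76) (nat_lit 6290326117) (nat_lit 392) (nat_lit 5) (nat_lit 405) (nat_lit 5) (nat_lit 393) (nat_lit 5) (nat_lit 436) (nat_lit 401) (nat_lit 303)) (XT.lf (nat_lit 0) (nat_lit 4229598993) (nat_lit 912) (nat_lit 4983514266) (nat_lit 76) (nat_lit 414491345) (nat_lit 381) (nat_lit 5) (nat_lit 393) (nat_lit 5) (nat_lit 382) (nat_lit 5) (nat_lit 437) (nat_lit 401) (nat_lit 302))))) (XT.nd (nat_lit 234) (nat_lit 836) (nat_lit 0) (XT.nd (nat_lit 78) (nat_lit 912) (nat_lit 0) (XT.lf (nat_lit 0) (nat_lit 494092351)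 (nat_lit 912) (nat_lit 5605342847) (nat_lit 988) (nat_lit 3620848585) (nat_lit 369) (nat_lit 5) (nat_lit 381) (nat_lit 5) (nat_lit 382) (nat_lit 5) (nat_lit 438) (nat_lit 401) (nat_lit 301)) (XT.nd (nat_lit 78) (nat_lit 912) (nat_lit 0) (XT.lf (nat_lit 0) (nat_lit 6126347392) (nat_lit 912) (nat_lit 1890945005) (nat_lit 988) (nat_lit 1797318004) (nat_lit 369) (nat_lit 5) (nat_lit 381) (nat_lit 5) (nat_lit 382) (nat_lit 5) (nat_lit 439) (nat_lit 401) (nat_lit 300)) (XT.lf (nat_lit 0) (nat_lit 64494301) (nat_lit 912) (nat_lit 7959980583) (nat_lit 76) (nat_lit 1886293958) (nat_lit 357) (nat_lit 5) (nat_lit 369) (nat_lit 5) (nat_lit 358) (nat_lit 5) (nat_lit 440) (nat_lit 401) (nat_lit 299)))) (XT.nd (nat_lit 78) (nat_lit 836) (nat_lit 0) (XT.lf (nat_lit 0) (nat_lit 1954709584) (nat_lit 912) (nat_lit 2302954673) (nat_lit 76) (nat_lit 5750649908) (nat_lit 357) (nat_lit 5) (nat_lit 369) (nat_lit 5) (nat_lit 358) (nat_lit 5) (nat_lit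 441) (nat_lit 401) (nat_lit 298)) (XT.nd (nat_lit 78) (nat_lit 0) (nat_lit 0) (XT.lf (nat_lit 0) (nat_lit 3490812364) (nat_lit 836) (nat_lit 392790707) (nat_lit 912) (nat_lit 6224195701) (nat_lit 346) (nat_lit 5) (nat_lit 357) (nat_lit 5) (nat_lit 358) (nat_lit 5) (nat_lit 442) (nat_lit 401) (nat_lit 297)) (XT.lf (nat_lit 0) (nat_lit 5868165729) (nat_lit 912) (nat_lit 822907893) (nat_lit 76) (nat_lit 3517863364) (nat_lit 346) (nat_lit 5) (nat_lit 358) (nat_lit 5) (nat_lit 347) (nat_lit 5) (nat_lit 443) (nat_lit 401) (nat_lit 296)))))) (XT.nd (nat_lit 390) (nat_lit 2888) (nat_lit 0) (XT.nd (nat_lit 156) (nat_lit 836) (nat_lit 0) (XT.nd (nat_lit 78) (nat_lit 760) (nat_lit 0) (XT.lf (nat_lit 0) (nat_lit 5129699899) (nat_lit 760) (nat_lit 2777538172) (nat_lit 836) (nat_lit 2404569156) (nat_lit 336) (nat_lit 5) (nat_lit 346) (nat_lit 5) (nat_lit 347) (nat_lit 5) (nat_lit 444) (nat_lit 401) (nat_lit 295)) (XT.lf (nat_lit 0) (nat_lit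 775847142) (nat_lit 760) (nat_lit 9208900829) (nat_lit 836) (nat_lit 432039300) (nat_lit 326) (nat_lit 5) (nat_lit 336) (nat_lit 5) (nat_lit 337) (nat_lit 5) (nat_lit 445) (nat_lit 401) (nat_lit 294))) (XT.nd (nat_lit 78) (nat_lit 760) (nat_lit 0) (XT.lf (nat_lit 0) (nat_lit 1591918435) (nat_lit 836) (nat_lit 3651280193) (nat_lit 76) (nat_lit 5279814461) (nat_lit 325) (nat_lit 5) (nat_lit 336) (nat_lit 5) (nat_lit 326) (nat_lit 5) (nat_lit 446) (nat_lit 401) (nat_lit 293)) (XT.nd (nat_lit 78) (nat_lit 0) (nat_lit 0) (XT.lf (nat_lit 0) (nat_lit 2465657444) (nat_lit 760) (nat_lit 1180632105) (nat_lit 836) (nat_lit 6985107576) (nat_lit 315) (nat_lit 5) (nat_lit 325) (nat_lit 5) (nat_lit 326) (nat_lit 5) (nat_lit 447) (nat_lit 401) (nat_lit 292)) (XT.lf (nat_lit 0) (nat_lit 5765600818) (nat_lit 836) (nat_lit 2028673437) (nat_lit 76) (nat_lit 2947202630) (nat_lit 315) (nat_lit 5) (nat_lit 326) (nat_lit 5) (nat_lit 316) (nat_lit 5)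 (nat_lit 448) (nat_lit 401) (nat_lit 291))))) (XT.nd (nat_lit 234) (nat_lit 1368) (nat_lit 0) (XT.nd (nat_lit 78) (nat_lit 760) (nat_lit 0) (XT.lf (nat_lit 0) (nat_lit 4257346037) (nat_lit 760) (nat_lit 3685755181) (nat_lit 836) (nat_lit 2910345965) (nat_lit 305) (nat_lit 5) (nat_lit 315) (nat_lit 5) (nat_lit 316) (nat_lit 5) (nat_lit 449) (nat_lit 401) (nat_lit 290)) (XT.nd (nat_lit 78) (nat_lit 760) (nat_lit 0) (XT.lf (nat_lit 0) (nat_lit 10161706445) (nat_lit 836) (nat_lit 296208327) (nat_lit 76) (nat_lit 509795918) (nat_lit 305) (nat_lit 5) (nat_lit 316) (nat_lit 5) (nat_lit 306) (nat_lit 5) (nat_lit 450) (nat_lit 401) (nat_lit 289)) (XT.lf (nat_lit 0) (nat_lit 1368527077) (nat_lit 760) (nat_lit 4927846051) (nat_lit 76) (nat_lit 4786803339) (nat_lit 295) (nat_lit 5) (nat_lit 305) (nat_lit 5) (nat_lit 296) (nat_lit 5) (nat_lit 451) (nat_lit 401) (nat_lit 288)))) (XT.nd (nat_lit 78) (nat_lit 684) (nat_lit 0) (XT.lf (nat_lit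 0) (nat_lit 1532022817) (nat_lit 684) (nat_lit 2036750292) (nat_lit 760) (nat_lit 7632216185) (nat_lit 286) (nat_lit 5) (nat_lit 295) (nat_lit 5) (nat_lit 296) (nat_lit 5) (nat_lit 452) (nat_lit 401) (nat_lit 287)) (XT.nd (nat_lit 78) (nat_lit 684) (nat_lit 0) (XT.lf (nat_lit 0) (nat_lit 5842568256) (nat_lit 760) (nat_lit 3169753681) (nat_lit 76) (nat_lit 2308250084) (nat_lit 286) (nat_lit 5) (nat_lit 296) (nat_lit 5) (nat_lit 287) (nat_lit 5) (nat_lit 453) (nat_lit 401) (nat_lit 286)) (XT.lf (nat_lit 0) (nat_lit 3469954725) (nat_lit 684) (nat_lit 4709540738) (nat_lit 760) (nat_lit 3262702255) (nat_lit 277) (nat_lit 5) (nat_lit 286) (nat_lit 5) (nat_lit 287) (nat_lit 5) (nat_lit 454) (nat_lit 401) (nat_lit 285))))))) (XT.nd (nat_lit 858) (nat_lit 3724) (nat_lit 0) (XT.nd (nat_lit 390) (nat_lit 1824) (nat_lit 0) (XT.nd (nat_lit 156) (nat_lit 1216) (nat_lit 0) (XT.nd (nat_lit 78) (nat_lit 760) (nat_lit 0) (XT.lf (nat_lit 0) (nat_lit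 10264056340) (nat_lit 684) (nat_lit 302235385) (nat_lit 760) (nat_lit 999905947) (nat_lit 277) (nat_lit 5) (nat_lit 286) (nat_lit 5) (nat_lit 287) (nat_lit 5) (nat_lit 455) (nat_lit 401) (nat_lit 284)) (XT.lf (nat_lit 0) (nat_lit 1336579548) (nat_lit 760) (nat_lit 6175254822) (nat_lit 76) (nat_lit 4179765773) (nat_lit 267) (nat_lit 5) (nat_lit 277) (nat_lit 5) (nat_lit 268) (nat_lit 5) (nat_lit 456) (nat_lit 401) (nat_lit 283))) (XT.nd (nat_lit 78) (nat_lit 608) (nat_lit 0) (XT.lf (nat_lit 0) (nat_lit 647945580) (nat_lit 608) (nat_lit 3055763431) (nat_lit 684) (nat_lit 8115727506) (nat_lit 259) (nat_lit 5) (nat_lit 267) (nat_lit 5) (nat_lit 268) (nat_lit 5) (nat_lit 457) (nat_lit 401) (nat_lit 282)) (XT.nd (nat_lit 78) (nat_lit 608) (nat_lit 0) (XT.lf (nat_lit 0) (nat_lit 6152036261) (nat_lit 684) (nat_lit 4289205232) (nat_lit 76) (nat_lit 1507915044) (nat_lit 259) (nat_lit 5) (nat_lit 268) (nat_lit 5) (nat_lit 260) (nat_lit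 5) (nat_lit 458) (nat_lit 401) (nat_lit 281)) (XT.lf (nat_lit 0) (nat_lit 2725075474) (nat_lit 608) (nat_lit 5944999316) (nat_lit 684) (nat_lit 3410985211) (nat_lit 251) (nat_lit 5) (nat_lit 259) (nat_lit 5) (nat_lit 260) (nat_lit 5) (nat_lit 459) (nat_lit 401) (nat_lit 280))))) (XT.nd (nat_lit 234) (nat_lit 1140) (nat_lit 0) (XT.nd (nat_lit 78) (nat_lit 684) (nat_lit 0) (XT.lf (nat_lit 0) (nat_lit 9916768546) (nat_lit 608) (nat_lit 1333503788) (nat_lit 684) (nat_lit 965097103) (nat_lit 251) (nat_lit 5) (nat_lit 259) (nat_lit 5) (nat_lit 260) (nat_lit 5) (nat_lit 460) (nat_lit 401) (nat_lit 279)) (XT.nd (nat_lit 78) (nat_lit 0) (nat_lit 0) (XT.lf (nat_lit 0) (nat_lit 1547048058) (nat_lit 684) (nat_lit 7440119812) (nat_lit 76) (nat_lit 3364254233) (nat_lit 242) (nat_lit 5) (nat_lit 251) (nat_lit 5) (nat_lit 243) (nat_lit 5) (nat_lit 461) (nat_lit 401) (nat_lit 278)) (XT.lf (nat_lit 0) (nat_lit 4104285745) (nat_lit 684) (nat_lit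 229650623) (nat_lit 76) (nat_lit 8155980064) (nat_lit 242) (nat_lit 5) (nat_lit 251) (nat_lit 5) (nat_lit 243) (nat_lit 5) (nat_lit 462) (nat_lit 401) (nat_lit 277)))) (XT.nd (nat_lit 78) (nat_lit 532) (nat_lit 0) (XT.lf (nat_lit 0) (nat_lit 6746094265) (nat_lit 684) (nat_lit 5434680022) (nat_lit 76) (nat_lit 449741411) (nat_lit 234) (nat_lit 5) (nat_lit 243) (nat_lit 5) (nat_lit 235) (nat_lit 5) (nat_lit 463) (nat_lit 401) (nat_lit 276)) (XT.nd (nat_lit 78) (nat_lit 0) (nat_lit 0) (XT.lf (nat_lit 0) (nat_lit 1975495808) (nat_lit 532) (nat_lit 7492207662) (nat_lit 608) (nat_lit 3305687687) (nat_lit 227) (nat_lit 5) (nat_lit 234) (nat_lit 5) (nat_lit 235) (nat_lit 5) (nat_lit 464) (nat_lit 401) (nat_lit 275)) (XT.lf (nat_lit 0) (nat_lit 9586930235) (nat_lit 532) (nat_lit 2677351766) (nat_lit 608) (nat_lit 654434815) (nat_lit 227) (nat_lit 5) (nat_lit 234) (nat_lit 5) (nat_lit 235) (nat_lit 5) (nat_lit 465) (nat_lit 401) (nat_lit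 274)))))) (XT.nd (nat_lit 468) (nat_lit 1520) (nat_lit 0) (XT.nd (nat_lit 234) (nat_lit 1064) (nat_lit 0) (XT.nd (nat_lit 78) (nat_lit 532) (nat_lit 0) (XT.lf (nat_lit 0) (nat_lit 2049938367) (nat_lit 608) (nat_lit 8774794598) (nat_lit 76) (nat_lit 2241413555) (nat_lit 219) (nat_lit 5) (nat_lit 227) (nat_lit 5) (nat_lit 220) (nat_lit 5) (nat_lit 466) (nat_lit 401) (nat_lit 273)) (XT.nd (nat_lit 78) (nat_lit 532) (nat_lit 0) (XT.lf (nat_lit 0) (nat_lit 4824300343) (nat_lit 608) (nat_lit 1146744777) (nat_lit 76) (nat_lit 7244903132) (nat_lit 219) (nat_lit 5) (nat_lit 227) (nat_lit 5) (nat_lit 220) (nat_lit 5) (nat_lit 467) (nat_lit 401) (nat_lit 272)) (XT.lf (nat_lit 0) (nat_lit 6701591280) (nat_lit 532) (nat_lit 980794067) (nat_lit 608) (nat_lit 5685799123) (nat_lit 212) (nat_lit 5) (nat_lit 219) (nat_lit 5) (nat_lit 220) (nat_lit 5) (nat_lit 468) (nat_lit 401) (nat_lit 271)))) (XT.nd (nat_lit 78) (nat_lit 532) (nat_lit 0) (XT.lf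 (nat_lit 0) (nat_lit 1167398721) (nat_lit 532) (nat_lit 9457101190) (nat_lit 608) (nat_lit 2898431256) (nat_lit 205) (nat_lit 5) (nat_lit 212) (nat_lit 5) (nat_lit 213) (nat_lit 5) (nat_lit 469) (nat_lit 401) (nat_lit 270)) (XT.nd (nat_lit 78) (nat_lit 532) (nat_lit 0) (XT.lf (nat_lit 0) (nat_lit 9221681978) (nat_lit 532) (nat_lit 4439991620) (nat_lit 608) (nat_lit 18377909) (nat_lit 205) (nat_lit 5) (nat_lit 212) (nat_lit 5) (nat_lit 213) (nat_lit 5) (nat_lit 470) (nat_lit 401) (nat_lit 269)) (XT.lf (nat_lit 0) (nat_lit 2894262878) (nat_lit 532) (nat_lit 10239324758) (nat_lit 76) (nat_lit 706085004) (nat_lit 198) (nat_lit 5) (nat_lit 205) (nat_lit 5) (nat_lit 199) (nat_lit 5) (nat_lit 471) (nat_lit 401) (nat_lit 268))))) (XT.nd (nat_lit 234) (nat_lit 532) (nat_lit 0) (XT.nd (nat_lit 78) (nat_lit 988) (nat_lit 0) (XT.lf (nat_lit 0) (nat_lit 5909778965) (nat_lit 532) (nat_lit 2171045455) (nat_lit 76) (nat_lit 5920764847) (nat_lit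 198) (nat_lit 5) (nat_lit 205) (nat_lit 5) (nat_lit 199) (nat_lit 5) (nat_lit 472) (nat_lit 401) (nat_lit 267)) (XT.nd (nat_lit 78) (nat_lit 456) (nat_lit 0) (XT.lf (nat_lit 0) (nat_lit 6119139445) (nat_lit 532) (nat_lit 2891831006) (nat_lit 608) (nat_lit 5155269289) (nat_lit 191) (nat_lit 5) (nat_lit 198) (nat_lit 5) (nat_lit 199) (nat_lit 5) (nat_lit 473) (nat_lit 401) (nat_lit 266)) (XT.lf (nat_lit 0) (nat_lit 238269265) (nat_lit 456) (nat_lit 11953472531) (nat_lit 532) (nat_lit 2142093065) (nat_lit 185) (nat_lit 5) (nat_lit 191) (nat_lit 5) (nat_lit 192) (nat_lit 5) (nat_lit 474) (nat_lit 401) (nat_lit 265)))) (XT.nd (nat_lit 78) (nat_lit 456) (nat_lit 0) (XT.lf (nat_lit 0) (nat_lit 978451540) (nat_lit 532) (nat_lit 5750727536) (nat_lit 76) (nat_lit 7774298131) (nat_lit 184) (nat_lit 5) (nat_lit 191) (nat_lit 5) (nat_lit 185) (nat_lit 5) (nat_lit 475) (nat_lit 401) (nat_lit 264)) (XT.nd (nat_lit 78) (nat_lit 0) (nat_lit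 0) (XT.lf (nat_lit 0) (nat_lit 2763559247) (nat_lit 456) (nat_lit 1373223604) (nat_lit 532) (nat_lit 10539367795) (nat_lit 178) (nat_lit 5) (nat_lit 184) (nat_lit 5) (nat_lit 185) (nat_lit 5) (nat_lit 476) (nat_lit 401) (nat_lit 263)) (XT.lf (nat_lit 0) (nat_lit 7409880059) (nat_lit 532) (nat_lit 3371850566) (nat_lit 76) (nat_lit 4069517494) (nat_lit 178) (nat_lit 5) (nat_lit 185) (nat_lit 5) (nat_lit 179) (nat_lit 5) (nat_lit 477) (nat_lit 401) (nat_lit 262))))))))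
noncomputable def xc146 : XT := (XT.nd (nat_lit 1716) (nat_lit 1292) (nat_lit 0) (XT.nd (nat_lit 858) (nat_lit 2280) (nat_lit 0) (XT.nd (nat_lit 390) (nat_lit 1672) (nat_lit 0) (XT.nd (nat_lit 156) (nat_lit 912) (nat_lit 0) (XT.nd (nat_lit 78) (nat_lit 0) (nat_lit 0) (XT.lf (nat_lit 0) (nat_lit 5381961356) (nat_lit 456) (nat_lit 5396985186) (nat_lit 532) (nat_lit 4250293352) (nat_lit 172) (nat_lit 5) (nat_lit 178) (nat_lit 5) (nat_lit 179) (nat_lit 5) (nat_lit 478) (nat_lit 401) (nat_lit 261)) (XT.lf (nat_lit 0) (nat_lit 14225364824) (nat_lit 532) (nat_lit 873894204) (nat_lit 76) (nat_lit 111335518) (nat_lit 172) (nat_lit 5) (nat_lit 179) (nat_lit 5) (nat_lit 173) (nat_lit 5) (nat_lit 479) (nat_lit 401) (nat_lit 260))) (XT.nd (nat_lit 78) (nat_lit 380) (nat_lit 0) (XT.lf (nat_lit 0) (nat_lit 2390218582) (nat_lit 532) (nat_lit 7282958022) (nat_lit 76) (nat_lit 5720580714) (nat_lit 165) (nat_lit 5) (nat_lit 172) (nat_lit 5) (nat_lit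 166) (nat_lit 5) (nat_lit 480) (nat_lit 401) (nat_lit 259)) (XT.nd (nat_lit 78) (nat_lit 0) (nat_lit 0) (XT.lf (nat_lit 0) (nat_lit 1703328310) (nat_lit 380) (nat_lit 4120514330) (nat_lit 456) (nat_lit 9756535585) (nat_lit 160) (nat_lit 5) (nat_lit 165) (nat_lit 5) (nat_lit 166) (nat_lit 5) (nat_lit 481) (nat_lit 401) (nat_lit 258)) (XT.lf (nat_lit 0) (nat_lit 9372335395) (nat_lit 456) (nat_lit 4831146982) (nat_lit 76) (nat_lit 1566327515) (nat_lit 160) (nat_lit 5) (nat_lit 166) (nat_lit 5) (nat_lit 161) (nat_lit 5) (nat_lit 482) (nat_lit 401) (nat_lit 257))))) (XT.nd (nat_lit 234) (nat_lit 760) (nat_lit 0) (XT.nd (nat_lit 78) (nat_lit 456) (nat_lit 0) (XT.lf (nat_lit 0) (nat_lit 4407452607) (nat_lit 456) (nat_lit 8627485549) (nat_lit 532) (nat_lit 2927231452) (nat_lit 154) (nat_lit 5) (nat_lit 160) (nat_lit 5) (nat_lit 161) (nat_lit 5) (nat_lit 483) (nat_lit 401) (nat_lit 256)) (XT.nd (nat_lit 78) (nat_lit 380) (nat_lit 0)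 (XT.lf (nat_lit 0) (nat_lit 624298209) (nat_lit 532) (nat_lit 2284393054) (nat_lit 76) (nat_lit 13249209591) (nat_lit 153) (nat_lit 5) (nat_lit 160) (nat_lit 5) (nat_lit 154) (nat_lit 5) (nat_lit 484) (nat_lit 401) (nat_lit 255)) (XT.lf (nat_lit 0) (nat_lit 4261547746) (nat_lit 456) (nat_lit 9147524809) (nat_lit 76) (nat_lit 2947011582) (nat_lit 148) (nat_lit 5) (nat_lit 154) (nat_lit 5) (nat_lit 149) (nat_lit 5) (nat_lit 485) (nat_lit 401) (nat_lit 254)))) (XT.nd (nat_lit 78) (nat_lit 380) (nat_lit 0) (XT.lf (nat_lit 0) (nat_lit 330880514) (nat_lit 380) (nat_lit 7665119907) (nat_lit 456) (nat_lit 8561743553) (nat_lit 143) (nat_lit 5) (nat_lit 148) (nat_lit 5) (nat_lit 149) (nat_lit 5) (nat_lit 486) (nat_lit 401) (nat_lit 253)) (XT.nd (nat_lit 78) (nat_lit 380) (nat_lit 0) (XT.lf (nat_lit 0) (nat_lit 10104466325) (nat_lit 380) (nat_lit 1749799985) (nat_lit 456) (nat_lit 4908190225) (nat_lit 143) (nat_lit 5) (nat_lit 148) (nat_lit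 5) (nat_lit 149) (nat_lit 5) (nat_lit 487) (nat_lit 401) (nat_lit 252)) (XT.lf (nat_lit 0) (nat_lit 3096834978) (nat_lit 380) (nat_lit 12728723562) (nat_lit 456) (nat_lit 1144989558) (nat_lit 138) (nat_lit 5) (nat_lit 143) (nat_lit 5) (nat_lit 144) (nat_lit 5) (nat_lit 488) (nat_lit 401) (nat_lit 251)))))) (XT.nd (nat_lit 390) (nat_lit 1064) (nat_lit 0) (XT.nd (nat_lit 156) (nat_lit 760) (nat_lit 0) (XT.nd (nat_lit 78) (nat_lit 380) (nat_lit 0) (XT.lf (nat_lit 0) (nat_lit 2702691072) (nat_lit 456) (nat_lit 4092541594) (nat_lit 76) (nat_lit 10386330137) (nat_lit 137) (nat_lit 5) (nat_lit 143) (nat_lit 5) (nat_lit 138) (nat_lit 5) (nat_lit 489) (nat_lit 401) (nat_lit 250)) (XT.lf (nat_lit 0) (nat_lit 5936619339) (nat_lit 380) (nat_lit 702147856) (nat_lit 456) (nat_lit 10757345630) (nat_lit 132) (nat_lit 5) (nat_lit 137) (nat_lit 5) (nat_lit 138) (nat_lit 5) (nat_lit 490) (nat_lit 401) (nat_lit 249))) (XT.nd (nat_lit 78) (nat_lit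 760) (nat_lit 0) (XT.lf (nat_lit 0) (nat_lit 10705292866) (nat_lit 456) (nat_lit 1446529003) (nat_lit 76) (nat_lit 5462099240) (nat_lit 132) (nat_lit 5) (nat_lit 138) (nat_lit 5) (nat_lit 133) (nat_lit 5) (nat_lit 491) (nat_lit 401) (nat_lit 248)) (XT.nd (nat_lit 78) (nat_lit 456) (nat_lit 0) (XT.lf (nat_lit 0) (nat_lit 8860617328) (nat_lit 304) (nat_lit 6043230608) (nat_lit 380) (nat_lit 2931225429) (nat_lit 128) (nat_lit 5) (nat_lit 132) (nat_lit 5) (nat_lit 133) (nat_lit 5) (nat_lit 492) (nat_lit 401) (nat_lit 247)) (XT.lf (nat_lit 0) (nat_lit 1119239433) (nat_lit 456) (nat_lit 16736316980) (nat_lit 76) (nat_lit 204782230) (nat_lit 122) (nat_lit 5) (nat_lit 128) (nat_lit 5) (nat_lit 123) (nat_lit 5) (nat_lit 493) (nat_lit 401) (nat_lit 246))))) (XT.nd (nat_lit 234) (nat_lit 760) (nat_lit 0) (XT.nd (nat_lit 78) (nat_lit 304) (nat_lit 0) (XT.lf (nat_lit 0) (nat_lit 5300768983) (nat_lit 456) (nat_lit 6416362598) (nat_lit 76)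 (nat_lit 6570805728) (nat_lit 122) (nat_lit 5) (nat_lit 128) (nat_lit 5) (nat_lit 123) (nat_lit 5) (nat_lit 494) (nat_lit 401) (nat_lit 245)) (XT.nd (nat_lit 78) (nat_lit 0) (nat_lit 0) (XT.lf (nat_lit 0) (nat_lit 4146981674) (nat_lit 304) (nat_lit 5434719719) (nat_lit 380) (nat_lit 8938072759) (nat_lit 118) (nat_lit 5) (nat_lit 122) (nat_lit 5) (nat_lit 123) (nat_lit 5) (nat_lit 495) (nat_lit 401) (nat_lit 244)) (XT.lf (nat_lit 0) (nat_lit 13986827628) (nat_lit 380) (nat_lit 3770888186) (nat_lit 76) (nat_lit 997762032) (nat_lit 118) (nat_lit 5) (nat_lit 123) (nat_lit 5) (nat_lit 119) (nat_lit 5) (nat_lit 496) (nat_lit 401) (nat_lit 243)))) (XT.nd (nat_lit 78) (nat_lit 380) (nat_lit 0) (XT.lf (nat_lit 0) (nat_lit 7082832552) (nat_lit 380) (nat_lit 11468332476) (nat_lit 456) (nat_lit 443309998) (nat_lit 113) (nat_lit 5) (nat_lit 118) (nat_lit 5) (nat_lit 119) (nat_lit 5) (nat_lit 497) (nat_lit 401) (nat_lit 242)) (XT.nd (nat_lit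 78) (nat_lit 304) (nat_lit 0) (XT.lf (nat_lit 0) (nat_lit 3931121695) (nat_lit 456) (nat_lit 1076092590) (nat_lit 76) (nat_lit 14230231406) (nat_lit 112) (nat_lit 5) (nat_lit 118) (nat_lit 5) (nat_lit 113) (nat_lit 5) (nat_lit 498) (nat_lit 401) (nat_lit 241)) (XT.lf (nat_lit 0) (nat_lit 8452679165) (nat_lit 380) (nat_lit 9406084093) (nat_lit 76) (nat_lit 1625143938) (nat_lit 108) (nat_lit 5) (nat_lit 113) (nat_lit 5) (nat_lit 109) (nat_lit 5) (nat_lit 499) (nat_lit 401) (nat_lit 240))))))) (XT.nd (nat_lit 52026) (nat_lit 0) (nat_lit 34352) (XT.nd (nat_lit 390) (nat_lit 304) (nat_lit 0) (XT.nd (nat_lit 156) (nat_lit 684) (nat_lit 0) (XT.nd (nat_lit 78) (nat_lit 0) (nat_lit 0) (XT.lf (nat_lit 0) (nat_lit 1706543263) (nat_lit 304) (nat_lit 11399066673) (nat_lit 380) (nat_lit 6628870617) (nat_lit 104) (nat_lit 5) (nat_lit 108) (nat_lit 5) (nat_lit 109) (nat_lit 5) (nat_lit 500) (nat_lit 401) (nat_lit 239)) (XT.lf (nat_lit 0) (nat_lit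 13152155672) (nat_lit 304) (nat_lit 4752094560) (nat_lit 380) (nat_lit 2084763562) (nat_lit 104) (nat_lit 5) (nat_lit 108) (nat_lit 5) (nat_lit 109) (nat_lit 5) (nat_lit 501) (nat_lit 401) (nat_lit 238))) (XT.nd (nat_lit 78) (nat_lit 304) (nat_lit 0) (XT.lf (nat_lit 0) (nat_lit 2549779754) (nat_lit 380) (nat_lit 15656044675) (nat_lit 76) (nat_lit 2041823480) (nat_lit 99) (nat_lit 5) (nat_lit 104) (nat_lit 5) (nat_lit 100) (nat_lit 5) (nat_lit 502) (nat_lit 401) (nat_lit 237)) (XT.nd (nat_lit 78) (nat_lit 304) (nat_lit 0) (XT.lf (nat_lit 0) (nat_lit 7316500871) (nat_lit 380) (nat_lit 4231444821) (nat_lit 76) (nat_lit 8961886724) (nat_lit 99) (nat_lit 5) (nat_lit 104) (nat_lit 5) (nat_lit 100) (nat_lit 5) (nat_lit 503) (nat_lit 401) (nat_lit 236)) (XT.lf (nat_lit 0) (nat_lit 7503750375) (nat_lit 304) (nat_lit 4713449133) (nat_lit 380) (nat_lit 8559289569) (nat_lit 95) (nat_lit 5) (nat_lit 99) (nat_lit 5) (nat_lit 100) (nat_lit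 5) (nat_lit 504) (nat_lit 401) (nat_lit 235))))) (XT.nd (nat_lit 51402) (nat_lit 0) (nat_lit 36784) (XT.nd (nat_lit 78) (nat_lit 304) (nat_lit 0) (XT.lf (nat_lit 0) (nat_lit 17249129890) (nat_lit 380) (nat_lit 1548112911) (nat_lit 76) (nat_lit 2250573014) (nat_lit 95) (nat_lit 5) (nat_lit 100) (nat_lit 5) (nat_lit 96) (nat_lit 5) (nat_lit 505) (nat_lit 401) (nat_lit 234)) (XT.nd (nat_lit 51246) (nat_lit 0) (nat_lit 38076) (XT.lf (nat_lit 0) (nat_lit 1133427039) (nat_lit 304) (nat_lit 10828758614) (nat_lit 76) (nat_lit 9360444181) (nat_lit 91) (nat_lit 5) (nat_lit 95) (nat_lit 5) (nat_lit 92) (nat_lit 5) (nat_lit 506) (nat_lit 401) (nat_lit 233)) (XT.lf (nat_lit 0) (nat_lit 1616450239) (nat_lit 0) (nat_lit 1616450239) (nat_lit 1140) (nat_lit 451845866) (nat_lit 592) (nat_lit 5) (nat_lit 592) (nat_lit 3) (nat_lit 607) (nat_lit 3) (nat_lit 402) (nat_lit 402) (nat_lit 336)))) (XT.nd (nat_lit 78) (nat_lit 0) (nat_lit 76) (XT.lf (nat_lit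 0) (nat_lit 615616098) (nat_lit 1292) (nat_lit 559782251) (nat_lit 1292) (nat_lit 6237046614) (nat_lit 575) (nat_lit 3) (nat_lit 592) (nat_lit 3) (nat_lit 592) (nat_lit 5) (nat_lit 403) (nat_lit 402) (nat_lit 335)) (XT.nd (nat_lit 78) (nat_lit 0) (nat_lit 0) (XT.lf (nat_lit 0) (nat_lit 2139886475) (nat_lit 1216) (nat_lit 4359853975) (nat_lit 1292) (nat_lit 956676825) (nat_lit 576) (nat_lit 5) (nat_lit 592) (nat_lit 5) (nat_lit 593) (nat_lit 5) (nat_lit 404) (nat_lit 402) (nat_lit 334)) (XT.lf (nat_lit 0) (nat_lit 3667204794) (nat_lit 1216) (nat_lit 696457279) (nat_lit 1292) (nat_lit 3138169437) (nat_lit 576) (nat_lit 5) (nat_lit 592) (nat_lit 5) (nat_lit 593) (nat_lit 5) (nat_lit 405) (nat_lit 402) (nat_lit 333)))))) (XT.nd (nat_lit 468) (nat_lit 1292) (nat_lit 0) (XT.nd (nat_lit 234) (nat_lit 0) (nat_lit 0) (XT.nd (nat_lit 78) (nat_lit 1216) (nat_lit 0) (XT.lf (nat_lit 76) (nat_lit 3059670618) (nat_lit 0) (nat_lit 2147026160)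 (nat_lit 1292) (nat_lit 2341838158) (nat_lit 577) (nat_lit 5) (nat_lit 576) (nat_lit 5) (nat_lit 593) (nat_lit 5) (nat_lit 406) (nat_lit 402) (nat_lit 332)) (XT.nd (nat_lit 78) (nat_lit 1292) (nat_lit 0) (XT.lf (nat_lit 0) (nat_lit 6744912286) (nat_lit 1216) (nat_lit 717893478) (nat_lit 1292) (nat_lit 134021186) (nat_lit 577) (nat_lit 5) (nat_lit 593) (nat_lit 5) (nat_lit 594) (nat_lit 5) (nat_lit 407) (nat_lit 402) (nat_lit 331)) (XT.lf (nat_lit 0) (nat_lit 656815686) (nat_lit 1292) (nat_lit 4516062517) (nat_lit 1368) (nat_lit 2473177227) (nat_lit 560) (nat_lit 5) (nat_lit 577) (nat_lit 5) (nat_lit 578) (nat_lit 5) (nat_lit 408) (nat_lit 402) (nat_lit 330)))) (XT.nd (nat_lit 78) (nat_lit 0) (nat_lit 0) (XT.lf (nat_lit 0) (nat_lit 2152731913) (nat_lit 1292) (nat_lit 658622037) (nat_lit 1368) (nat_lit 4885445970) (nat_lit 560) (nat_lit 5) (nat_lit 577) (nat_lit 5) (nat_lit 578) (nat_lit 5) (nat_lit 409) (nat_lit 402) (nat_lit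 329)) (XT.nd (nat_lit 78) (nat_lit 0) (nat_lit 76) (XT.lf (nat_lit 76) (nat_lit 3298299106) (nat_lit 0) (nat_lit 365955041) (nat_lit 1368) (nat_lit 4084603585) (nat_lit 561) (nat_lit 5) (nat_lit 560) (nat_lit 5) (nat_lit 578) (nat_lit 5) (nat_lit 410) (nat_lit 402) (nat_lit 328)) (XT.lf (nat_lit 0) (nat_lit 5189206284) (nat_lit 1292) (nat_lit 494026542) (nat_lit 1368) (nat_lit 2119071833) (nat_lit 561) (nat_lit 5) (nat_lit 578) (nat_lit 5) (nat_lit 579) (nat_lit 5) (nat_lit 411) (nat_lit 402) (nat_lit 327))))) (XT.nd (nat_lit 234) (nat_lit 0) (nat_lit 76) (XT.nd (nat_lit 78) (nat_lit 1368) (nat_lit 0) (XT.lf (nat_lit 76) (nat_lit 3564792235) (nat_lit 0) (nat_lit 3171053195) (nat_lit 1368) (nat_lit 1121163049) (nat_lit 562) (nat_lit 5) (nat_lit 561) (nat_lit 5) (nat_lit 579) (nat_lit 5) (nat_lit 412) (nat_lit 402) (nat_lit 326)) (XT.nd (nat_lit 78) (nat_lit 0) (nat_lit 76) (XT.lf (nat_lit 0) (nat_lit 364615563) (nat_lit 1368)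 (nat_lit 225377151) (nat_lit 1444) (nat_lit 7323387727) (nat_lit 543) (nat_lit 5) (nat_lit 561) (nat_lit 5) (nat_lit 562) (nat_lit 5) (nat_lit 413) (nat_lit 402) (nat_lit 325)) (XT.lf (nat_lit 0) (nat_lit 1870882933) (nat_lit 1368) (nat_lit 4038409237) (nat_lit 1444) (nat_lit 2061334779) (nat_lit 544) (nat_lit 5) (nat_lit 562) (nat_lit 5) (nat_lit 563) (nat_lit 5) (nat_lit 414) (nat_lit 402) (nat_lit 324)))) (XT.nd (nat_lit 78) (nat_lit 0) (nat_lit 0) (XT.lf (nat_lit 76) (nat_lit 123043667) (nat_lit 0) (nat_lit 3257647020) (nat_lit 1444) (nat_lit 4648870223) (nat_lit 545) (nat_lit 5) (nat_lit 544) (nat_lit 5) (nat_lit 563) (nat_lit 5) (nat_lit 415) (nat_lit 402) (nat_lit 323)) (XT.nd (nat_lit 78) (nat_lit 0) (nat_lit 76) (XT.lf (nat_lit 76) (nat_lit 4400925792) (nat_lit 0) (nat_lit 514558702) (nat_lit 1444) (nat_lit 3174303869) (nat_lit 545) (nat_lit 5) (nat_lit 544) (nat_lit 5) (nat_lit 563) (nat_lit 5) (nat_lit 416) (nat_lit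 402) (nat_lit 322)) (XT.lf (nat_lit 76) (nat_lit 584149498) (nat_lit 0) (nat_lit 5883834772) (nat_lit 1444) (nat_lit 1683506292) (nat_lit 546) (nat_lit 5) (nat_lit 545) (nat_lit 5) (nat_lit 564) (nat_lit 5) (nat_lit 417) (nat_lit 402) (nat_lit 321))))))))
noncomputable def xc147 : XT := (XT.nd (nat_lit 1716) (nat_lit 9652) (nat_lit 0) (XT.nd (nat_lit 858) (nat_lit 7524) (nat_lit 0) (XT.nd (nat_lit 390) (nat_lit 4408) (nat_lit 0) (XT.nd (nat_lit 156) (nat_lit 0) (nat_lit 76) (XT.nd (nat_lit 78) (nat_lit 1444) (nat_lit 0) (XT.lf (nat_lit 76) (nat_lit 4967484351) (nat_lit 0) (nat_lit 3081060223) (nat_lit 1444) (nat_lit 165952219) (nat_lit 546) (nat_lit 5) (nat_lit 545) (nat_lit 5) (nat_lit 564) (nat_lit 5) (nat_lit 418) (nat_lit 402) (nat_lit 320)) (XT.lf (nat_lit 76) (nat_lit 1144073992) (nat_lit 0) (nat_lit 196451930) (nat_lit 1520) (nat_lit 6938533626) (nat_lit 527) (nat_lit 5) (nat_lit 526) (nat_lit 5) (nat_lit 546) (nat_lit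 5) (nat_lit 419) (nat_lit 402) (nat_lit 319))) (XT.nd (nat_lit 78) (nat_lit 0) (nat_lit 0) (XT.lf (nat_lit 0) (nat_lit 2884463795) (nat_lit 1444) (nat_lit 2718762648) (nat_lit 1520) (nat_lit 2741483739) (nat_lit 527) (nat_lit 5) (nat_lit 546) (nat_lit 5) (nat_lit 547) (nat_lit 5) (nat_lit 420) (nat_lit 402) (nat_lit 318)) (XT.nd (nat_lit 78) (nat_lit 0) (nat_lit 76) (XT.lf (nat_lit 76) (nat_lit 1786134732) (nat_lit 0) (nat_lit 2656424704) (nat_lit 1520) (nat_lit 3969458235) (nat_lit 528) (nat_lit 5) (nat_lit 527) (nat_lit 5) (nat_lit 547) (nat_lit 5) (nat_lit 421) (nat_lit 402) (nat_lit 317)) (XT.lf (nat_lit 0) (nat_lit 6023320667) (nat_lit 1444) (nat_lit 2086984626) (nat_lit 1520) (nat_lit 370545179) (nat_lit 528) (nat_lit 5) (nat_lit 547) (nat_lit 5) (nat_lit 548) (nat_lit 5) (nat_lit 422) (nat_lit 402) (nat_lit 316))))) (XT.nd (nat_lit 234) (nat_lit 3040) (nat_lit 0) (XT.nd (nat_lit 78) (nat_lit 1520) (nat_lit 0) (XT.lf (nat_lit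 76) (nat_lit 2536530200) (nat_lit 0) (nat_lit 5104669691) (nat_lit 1520) (nat_lit 909759037) (nat_lit 529) (nat_lit 5) (nat_lit 528) (nat_lit 5) (nat_lit 548) (nat_lit 5) (nat_lit 423) (nat_lit 402) (nat_lit 315)) (XT.nd (nat_lit 78) (nat_lit 0) (nat_lit 76) (XT.lf (nat_lit 0) (nat_lit 645956762) (nat_lit 1520) (nat_lit 1367898511) (nat_lit 1596) (nat_lit 6608820852) (nat_lit 508) (nat_lit 5) (nat_lit 528) (nat_lit 5) (nat_lit 529) (nat_lit 5) (nat_lit 424) (nat_lit 402) (nat_lit 314)) (XT.lf (nat_lit 0) (nat_lit 2222456285) (nat_lit 1520) (nat_lit 5315119380) (nat_lit 76) (nat_lit 1158103241) (nat_lit 509) (nat_lit 5) (nat_lit 529) (nat_lit 5) (nat_lit 510) (nat_lit 5) (nat_lit 425) (nat_lit 402) (nat_lit 313)))) (XT.nd (nat_lit 78) (nat_lit 3116) (nat_lit 0) (XT.lf (nat_lit 0) (nat_lit 3825727190) (nat_lit 1520) (nat_lit 562923319) (nat_lit 76) (nat_lit 4381594772) (nat_lit 509) (nat_lit 5) (nat_lit 529) (nat_lit 5) (nat_lit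 510) (nat_lit 5) (nat_lit 426) (nat_lit 402) (nat_lit 312)) (XT.nd (nat_lit 78) (nat_lit 1596) (nat_lit 0) (XT.lf (nat_lit 0) (nat_lit 4319301814) (nat_lit 1520) (nat_lit 1143005953) (nat_lit 1596) (nat_lit 3383978533) (nat_lit 489) (nat_lit 5) (nat_lit 509) (nat_lit 5) (nat_lit 510) (nat_lit 5) (nat_lit 427) (nat_lit 402) (nat_lit 311)) (XT.lf (nat_lit 0) (nat_lit 351451758) (nat_lit 1596) (nat_lit 6773943771) (nat_lit 1672) (nat_lit 1798585139) (nat_lit 468) (nat_lit 5) (nat_lit 489) (nat_lit 5) (nat_lit 490) (nat_lit 5) (nat_lit 428) (nat_lit 402) (nat_lit 310)))))) (XT.nd (nat_lit 390) (nat_lit 4028) (nat_lit 0) (XT.nd (nat_lit 156) (nat_lit 1748) (nat_lit 0) (XT.nd (nat_lit 78) (nat_lit 1748) (nat_lit 0) (XT.lf (nat_lit 0) (nat_lit 5359207514) (nat_lit 1596) (nat_lit 3474428584) (nat_lit 1672) (nat_lit 169362888) (nat_lit 468) (nat_lit 5) (nat_lit 489) (nat_lit 5) (nat_lit 490) (nat_lit 5) (nat_lit 429) (nat_lit 402) (nat_lit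 309)) (XT.lf (nat_lit 0) (nat_lit 1369935721) (nat_lit 1672) (nat_lit 86155237) (nat_lit 1748) (nat_lit 7627656073) (nat_lit 445) (nat_lit 5) (nat_lit 467) (nat_lit 5) (nat_lit 468) (nat_lit 5) (nat_lit 430) (nat_lit 402) (nat_lit 308))) (XT.nd (nat_lit 78) (nat_lit 1748) (nat_lit 0) (XT.lf (nat_lit 0) (nat_lit 3132993459) (nat_lit 1748) (nat_lit 2677709218) (nat_lit 76) (nat_lit 3354968253) (nat_lit 445) (nat_lit 5) (nat_lit 468) (nat_lit 5) (nat_lit 446) (nat_lit 5) (nat_lit 431) (nat_lit 402) (nat_lit 307)) (XT.nd (nat_lit 78) (nat_lit 0) (nat_lit 0) (XT.lf (nat_lit 0) (nat_lit 2469108362) (nat_lit 1748) (nat_lit 2366135158) (nat_lit 1824) (nat_lit 4414160878) (nat_lit 422) (nat_lit 5) (nat_lit 445) (nat_lit 5) (nat_lit 446) (nat_lit 5) (nat_lit 432) (nat_lit 402) (nat_lit 306)) (XT.lf (nat_lit 0) (nat_lit 6572646849) (nat_lit 1824) (nat_lit 1609051313) (nat_lit 76) (nat_lit 1153099348) (nat_lit 422) (nat_lit 5) (nat_lit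 446) (nat_lit 5) (nat_lit 423) (nat_lit 5) (nat_lit 433) (nat_lit 402) (nat_lit 305))))) (XT.nd (nat_lit 234) (nat_lit 1748) (nat_lit 0) (XT.nd (nat_lit 78) (nat_lit 988) (nat_lit 0) (XT.lf (nat_lit 0) (nat_lit 3676411097) (nat_lit 1292) (nat_lit 4683976853) (nat_lit 1368) (nat_lit 1061205740) (nat_lit 405) (nat_lit 5) (nat_lit 422) (nat_lit 5) (nat_lit 423) (nat_lit 5) (nat_lit 434) (nat_lit 402) (nat_lit 304)) (XT.nd (nat_lit 78) (nat_lit 912) (nat_lit 0) (XT.lf (nat_lit 0) (nat_lit 652007037) (nat_lit 1368) (nat_lit 446895874) (nat_lit 76) (nat_lit 8411400413) (nat_lit 404) (nat_lit 5) (nat_lit 422) (nat_lit 5) (nat_lit 405) (nat_lit 5) (nat_lit 435) (nat_lit 402) (nat_lit 303)) (XT.lf (nat_lit 0) (nat_lit 2411277428) (nat_lit 988) (nat_lit 4623025094) (nat_lit 76) (nat_lit 2565830876) (nat_lit 392) (nat_lit 5) (nat_lit 405) (nat_lit 5) (nat_lit 393) (nat_lit 5) (nat_lit 436) (nat_lit 402) (nat_lit 302)))) (XT.nd (nat_lit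 78) (nat_lit 912) (nat_lit 0) (XT.lf (nat_lit 0) (nat_lit 805376123) (nat_lit 836) (nat_lit 3392894212) (nat_lit 912) (nat_lit 5493645462) (nat_lit 381) (nat_lit 5) (nat_lit 392) (nat_lit 5) (nat_lit 393) (nat_lit 5) (nat_lit 437) (nat_lit 402) (nat_lit 301)) (XT.nd (nat_lit 78) (nat_lit 912) (nat_lit 0) (XT.lf (nat_lit 0) (nat_lit 6031645918) (nat_lit 912) (nat_lit 3404355551) (nat_lit 76) (nat_lit 349325859) (nat_lit 381) (nat_lit 5) (nat_lit 393) (nat_lit 5) (nat_lit 382) (nat_lit 5) (nat_lit 438) (nat_lit 402) (nat_lit 300)) (XT.lf (nat_lit 0) (nat_lit 2171758271) (nat_lit 912) (nat_lit 5744273350) (nat_lit 988) (nat_lit 1964294832) (nat_lit 369) (nat_lit 5) (nat_lit 381) (nat_lit 5) (nat_lit 382) (nat_lit 5) (nat_lit 439) (nat_lit 402) (nat_lit 299))))))) (XT.nd (nat_lit 858) (nat_lit 4788) (nat_lit 0) (XT.nd (nat_lit 390) (nat_lit 2356) (nat_lit 0) (XT.nd (nat_lit 156) (nat_lit 1596) (nat_lit 0) (XT.nd (nat_lit 78) (nat_lit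 912) (nat_lit 0) (XT.lf (nat_lit 0) (nat_lit 7883956764) (nat_lit 912) (nat_lit 1955061598) (nat_lit 988) (nat_lit 138195026) (nat_lit 369) (nat_lit 5) (nat_lit 381) (nat_lit 5) (nat_lit 382) (nat_lit 5) (nat_lit 440) (nat_lit 402) (nat_lit 298)) (XT.lf (nat_lit 0) (nat_lit 1716489014) (nat_lit 912) (nat_lit 6438836999) (nat_lit 76) (nat_lit 1920200415) (nat_lit 357) (nat_lit 5) (nat_lit 369) (nat_lit 5) (nat_lit 358) (nat_lit 5) (nat_lit 441) (nat_lit 402) (nat_lit 297))) (XT.nd (nat_lit 78) (nat_lit 1596) (nat_lit 0) (XT.lf (nat_lit 0) (nat_lit 3612141842) (nat_lit 912) (nat_lit 701618476) (nat_lit 76) (nat_lit 5861918374) (nat_lit 357) (nat_lit 5) (nat_lit 369) (nat_lit 5) (nat_lit 358) (nat_lit 5) (nat_lit 442) (nat_lit 402) (nat_lit 296)) (XT.nd (nat_lit 78) (nat_lit 760) (nat_lit 0) (XT.lf (nat_lit 0) (nat_lit 5197185774) (nat_lit 836) (nat_lit 361320919) (nat_lit 912) (nat_lit 4719076956) (nat_lit 346) (nat_lit 5) (nat_lit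 357) (nat_lit 5) (nat_lit 358) (nat_lit 5) (nat_lit 443) (nat_lit 402) (nat_lit 295)) (XT.lf (nat_lit 0) (nat_lit 807174036) (nat_lit 760) (nat_lit 6749759335) (nat_lit 836) (nat_lit 2824336166) (nat_lit 336) (nat_lit 5) (nat_lit 346) (nat_lit 5) (nat_lit 347) (nat_lit 5) (nat_lit 444) (nat_lit 402) (nat_lit 294))))) (XT.nd (nat_lit 234) (nat_lit 1520) (nat_lit 0) (XT.nd (nat_lit 78) (nat_lit 836) (nat_lit 0) (XT.lf (nat_lit 0) (nat_lit 6857484898) (nat_lit 760) (nat_lit 2753904280) (nat_lit 836) (nat_lit 875324163) (nat_lit 336) (nat_lit 5) (nat_lit 346) (nat_lit 5) (nat_lit 347) (nat_lit 5) (nat_lit 445) (nat_lit 402) (nat_lit 293)) (XT.nd (nat_lit 78) (nat_lit 0) (nat_lit 0) (XT.lf (nat_lit 0) (nat_lit 1102485574) (nat_lit 836) (nat_lit 8164960575) (nat_lit 76) (nat_lit 1326592382) (nat_lit 325) (nat_lit 5) (nat_lit 336) (nat_lit 5) (nat_lit 326) (nat_lit 5) (nat_lit 446) (nat_lit 402) (nat_lit 292)) (XT.lf (nat_lit 0) (nat_lit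 3130998042) (nat_lit 836) (nat_lit 2091034061) (nat_lit 76) (nat_lit 5480910160) (nat_lit 325) (nat_lit 5) (nat_lit 336) (nat_lit 5) (nat_lit 326) (nat_lit 5) (nat_lit 447) (nat_lit 402) (nat_lit 291)))) (XT.nd (nat_lit 78) (nat_lit 760) (nat_lit 0) (XT.lf (nat_lit 0) (nat_lit 4137497119) (nat_lit 760) (nat_lit 1069940228) (nat_lit 836) (nat_lit 5606444592) (nat_lit 315) (nat_lit 5) (nat_lit 325) (nat_lit 5) (nat_lit 326) (nat_lit 5) (nat_lit 448) (nat_lit 402) (nat_lit 290)) (XT.nd (nat_lit 78) (nat_lit 760) (nat_lit 0) (XT.lf (nat_lit 0) (nat_lit 7340808914) (nat_lit 836) (nat_lit 449837434) (nat_lit 76) (nat_lit 3136090890) (nat_lit 315) (nat_lit 5) (nat_lit 326) (nat_lit 5) (nat_lit 316) (nat_lit 5) (nat_lit 449) (nat_lit 402) (nat_lit 289)) (XT.lf (nat_lit 0) (nat_lit 5951248420) (nat_lit 760) (nat_lit 3592430595) (nat_lit 836) (nat_lit 1497638811) (nat_lit 305) (nat_lit 5) (nat_lit 315) (nat_lit 5) (nat_lit 316) (nat_lit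 5) (nat_lit 450) (nat_lit 402) (nat_lit 288)))))) (XT.nd (nat_lit 468) (nat_lit 1900) (nat_lit 0) (XT.nd (nat_lit 234) (nat_lit 1444) (nat_lit 0) (XT.nd (nat_lit 78) (nat_lit 684) (nat_lit 0) (XT.lf (nat_lit 0) (nat_lit 621514628) (nat_lit 760) (nat_lit 9842382691) (nat_lit 76) (nat_lit 694267358) (nat_lit 295) (nat_lit 5) (nat_lit 305) (nat_lit 5) (nat_lit 296) (nat_lit 5) (nat_lit 451) (nat_lit 402) (nat_lit 287)) (XT.nd (nat_lit 78) (nat_lit 684) (nat_lit 0) (XT.lf (nat_lit 0) (nat_lit 2802620685) (nat_lit 760) (nat_lit 3413149341) (nat_lit 76) (nat_lit 5060592519) (nat_lit 295) (nat_lit 5) (nat_lit 305) (nat_lit 5) (nat_lit 296) (nat_lit 5) (nat_lit 452) (nat_lit 402) (nat_lit 286)) (XT.lf (nat_lit 0) (nat_lit 3165303394) (nat_lit 684) (nat_lit 1864390841) (nat_lit 760) (nat_lit 6367187667) (nat_lit 286) (nat_lit 5) (nat_lit 295) (nat_lit 5) (nat_lit 296) (nat_lit 5) (nat_lit 453) (nat_lit 402) (nat_lit 285)))) (XT.nd (nat_lit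 78) (nat_lit 1444) (nat_lit 0) (XT.lf (nat_lit 0) (nat_lit 7323075713) (nat_lit 760) (nat_lit 1635713707) (nat_lit 76) (nat_lit 2560591247) (nat_lit 286) (nat_lit 5) (nat_lit 296) (nat_lit 5) (nat_lit 287) (nat_lit 5) (nat_lit 454) (nat_lit 402) (nat_lit 284)) (XT.nd (nat_lit 78) (nat_lit 760) (nat_lit 0) (XT.lf (nat_lit 0) (nat_lit 5126279425) (nat_lit 684) (nat_lit 4564027059) (nat_lit 760) (nat_lit 1953467559) (nat_lit 277) (nat_lit 5) (nat_lit 286) (nat_lit 5) (nat_lit 287) (nat_lit 5) (nat_lit 455) (nat_lit 402) (nat_lit 283)) (XT.lf (nat_lit 0) (nat_lit 255583028) (nat_lit 684) (nat_lit 69413322) (nat_lit 760) (nat_lit 11445716572) (nat_lit 267) (nat_lit 5) (nat_lit 276) (nat_lit 5) (nat_lit 277) (nat_lit 5) (nat_lit 456) (nat_lit 402) (nat_lit 282))))) (XT.nd (nat_lit 234) (nat_lit 1292) (nat_lit 0) (XT.nd (nat_lit 78) (nat_lit 608) (nat_lit 0) (XT.lf (nat_lit 0) (nat_lit 2678870939) (nat_lit 760) (nat_lit 4710357098)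 (nat_lit 76) (nat_lit 4509588348) (nat_lit 267) (nat_lit 5) (nat_lit 277) (nat_lit 5) (nat_lit 268) (nat_lit 5) (nat_lit 457) (nat_lit 402) (nat_lit 281)) (XT.nd (nat_lit 78) (nat_lit 0) (nat_lit 0) (XT.lf (nat_lit 0) (nat_lit 2238857294) (nat_lit 608) (nat_lit 2838935523) (nat_lit 684) (nat_lit 6951733644) (nat_lit 259) (nat_lit 5) (nat_lit 267) (nat_lit 5) (nat_lit 268) (nat_lit 5) (nat_lit 458) (nat_lit 402) (nat_lit 280)) (XT.lf (nat_lit 0) (nat_lit 7551365434) (nat_lit 684) (nat_lit 2803962869) (nat_lit 76) (nat_lit 1806992856) (nat_lit 259) (nat_lit 5) (nat_lit 268) (nat_lit 5) (nat_lit 260) (nat_lit 5) (nat_lit 459) (nat_lit 402) (nat_lit 279)))) (XT.nd (nat_lit 78) (nat_lit 684) (nat_lit 0) (XT.lf (nat_lit 0) (nat_lit 4340267751) (nat_lit 608) (nat_lit 5764604760) (nat_lit 684) (nat_lit 2192293768) (nat_lit 251) (nat_lit 5) (nat_lit 259) (nat_lit 5) (nat_lit 260) (nat_lit 5) (nat_lit 460) (nat_lit 402) (nat_lit 278))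 (XT.nd (nat_lit 78) (nat_lit 608) (nat_lit 0) (XT.lf (nat_lit 0) (nat_lit 273641992) (nat_lit 684) (nat_lit 791269567) (nat_lit 76) (nat_lit 11369714630) (nat_lit 250) (nat_lit 5) (nat_lit 259) (nat_lit 5) (nat_lit 251) (nat_lit 5) (nat_lit 461) (nat_lit 402) (nat_lit 277)) (XT.lf (nat_lit 0) (nat_lit 2810669688) (nat_lit 684) (nat_lit 6029289995) (nat_lit 76) (nat_lit 3733566803) (nat_lit 242) (nat_lit 5) (nat_lit 251) (nat_lit 5) (nat_lit 243) (nat_lit 5) (nat_lit 462) (nat_lit 402) (nat_lit 276))))))))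
noncomputable def xc148 : XT := (XT.nd (nat_lit 1716) (nat_lit 4484) (nat_lit 0) (XT.nd (nat_lit 858) (nat_lit 3344) (nat_lit 0) (XT.nd (nat_lit 390) (nat_lit 1596) (nat_lit 0) (XT.nd (nat_lit 156) (nat_lit 1140) (nat_lit 0) (XT.nd (nat_lit 78) (nat_lit 0) (nat_lit 0) (XT.lf (nat_lit 0) (nat_lit 1312014863) (nat_lit 608) (nat_lit 4091385528) (nat_lit 684) (nat_lit 7311708649) (nat_lit 234) (nat_lit 5) (nat_lit 242) (nat_lit 5) (nat_lit 243) (nat_lit 5) (nat_lit 463) (nat_lit 402) (nat_lit 275)) (XT.lf (nat_lit 0) (nat_lit 8077798297) (nat_lit 684) (nat_lit 4002334177) (nat_lit 76) (nat_lit 778797951) (nat_lit 234) (nat_lit 5) (nat_lit 243) (nat_lit 5) (nat_lit 235) (nat_lit 5) (nat_lit 464) (nat_lit 402) (nat_lit 274))) (XT.nd (nat_lit 78) (nat_lit 608) (nat_lit 0) (XT.lf (nat_lit 0) (nat_lit 3545906753) (nat_lit 532) (nat_lit 7294406243) (nat_lit 608) (nat_lit 2164626029) (nat_lit 227) (nat_lit 5) (nat_lit 234) (nat_lit 5)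 (nat_lit 235) (nat_lit 5) (nat_lit 465) (nat_lit 402) (nat_lit 273)) (XT.nd (nat_lit 78) (nat_lit 532) (nat_lit 0) (XT.lf (nat_lit 0) (nat_lit 509214599) (nat_lit 608) (nat_lit 1877438110) (nat_lit 76) (nat_lit 10766920504) (nat_lit 226) (nat_lit 5) (nat_lit 234) (nat_lit 5) (nat_lit 227) (nat_lit 5) (nat_lit 466) (nat_lit 402) (nat_lit 272)) (XT.lf (nat_lit 0) (nat_lit 3248085406) (nat_lit 608) (nat_lit 7422564997) (nat_lit 76) (nat_lit 2633435934) (nat_lit 219) (nat_lit 5) (nat_lit 227) (nat_lit 5) (nat_lit 220) (nat_lit 5) (nat_lit 467) (nat_lit 402) (nat_lit 271))))) (XT.nd (nat_lit 234) (nat_lit 532) (nat_lit 0) (XT.nd (nat_lit 78) (nat_lit 532) (nat_lit 0) (XT.lf (nat_lit 0) (nat_lit 332450567) (nat_lit 532) (nat_lit 5724953362) (nat_lit 608) (nat_lit 7399895497) (nat_lit 212) (nat_lit 5) (nat_lit 219) (nat_lit 5) (nat_lit 220) (nat_lit 5) (nat_lit 468) (nat_lit 402) (nat_lit 270)) (XT.nd (nat_lit 78) (nat_lit 532) (nat_lit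 0) (XT.lf (nat_lit 0) (nat_lit 8323539447) (nat_lit 532) (nat_lit 634368942) (nat_lit 608) (nat_lit 4654971443) (nat_lit 212) (nat_lit 5) (nat_lit 219) (nat_lit 5) (nat_lit 220) (nat_lit 5) (nat_lit 469) (nat_lit 402) (nat_lit 269)) (XT.lf (nat_lit 0) (nat_lit 2689032363) (nat_lit 532) (nat_lit 9259893171) (nat_lit 608) (nat_lit 1821999248) (nat_lit 205) (nat_lit 5) (nat_lit 212) (nat_lit 5) (nat_lit 213) (nat_lit 5) (nat_lit 470) (nat_lit 402) (nat_lit 268)))) (XT.nd (nat_lit 78) (nat_lit 456) (nat_lit 0) (XT.lf (nat_lit 0) (nat_lit 1079071720) (nat_lit 608) (nat_lit 3063704041) (nat_lit 76) (nat_lit 9788710274) (nat_lit 204) (nat_lit 5) (nat_lit 212) (nat_lit 5) (nat_lit 205) (nat_lit 5) (nat_lit 471) (nat_lit 402) (nat_lit 267)) (XT.nd (nat_lit 78) (nat_lit 0) (nat_lit 0) (XT.lf (nat_lit 0) (nat_lit 4040289622) (nat_lit 532) (nat_lit 8950756986) (nat_lit 76) (nat_lit 1103443412) (nat_lit 198) (nat_lit 5) (nat_lit 205) (nat_lit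 5) (nat_lit 199) (nat_lit 5) (nat_lit 472) (nat_lit 402) (nat_lit 266)) (XT.lf (nat_lit 0) (nat_lit 7094779923) (nat_lit 532) (nat_lit 750393552) (nat_lit 76) (nat_lit 6414902407) (nat_lit 198) (nat_lit 5) (nat_lit 205) (nat_lit 5) (nat_lit 199) (nat_lit 5) (nat_lit 473) (nat_lit 402) (nat_lit 265)))))) (XT.nd (nat_lit 390) (nat_lit 1824) (nat_lit 0) (XT.nd (nat_lit 156) (nat_lit 532) (nat_lit 0) (XT.nd (nat_lit 78) (nat_lit 456) (nat_lit 0) (XT.lf (nat_lit 0) (nat_lit 7695962987) (nat_lit 532) (nat_lit 2550557693) (nat_lit 608) (nat_lit 4181732275) (nat_lit 191) (nat_lit 5) (nat_lit 198) (nat_lit 5) (nat_lit 199) (nat_lit 5) (nat_lit 474) (nat_lit 402) (nat_lit 264)) (XT.lf (nat_lit 0) (nat_lit 1706503849) (nat_lit 456) (nat_lit 11775753132) (nat_lit 532) (nat_lit 1117120026) (nat_lit 185) (nat_lit 5) (nat_lit 191) (nat_lit 5) (nat_lit 192) (nat_lit 5) (nat_lit 475) (nat_lit 402) (nat_lit 263))) (XT.nd (nat_lit 78) (nat_lit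 456) (nat_lit 0) (XT.lf (nat_lit 0) (nat_lit 2031167940) (nat_lit 532) (nat_lit 4417045236) (nat_lit 76) (nat_lit 8324477486) (nat_lit 184) (nat_lit 5) (nat_lit 191) (nat_lit 5) (nat_lit 185) (nat_lit 5) (nat_lit 476) (nat_lit 402) (nat_lit 262)) (XT.nd (nat_lit 78) (nat_lit 0) (nat_lit 0) (XT.lf (nat_lit 0) (nat_lit 4257996383) (nat_lit 456) (nat_lit 983755722) (nat_lit 532) (nat_lit 9707287528) (nat_lit 178) (nat_lit 5) (nat_lit 184) (nat_lit 5) (nat_lit 185) (nat_lit 5) (nat_lit 477) (nat_lit 402) (nat_lit 261)) (XT.lf (nat_lit 0) (nat_lit 8562921384) (nat_lit 532) (nat_lit 2010765052) (nat_lit 76) (nat_lit 4554304129) (nat_lit 178) (nat_lit 5) (nat_lit 185) (nat_lit 5) (nat_lit 179) (nat_lit 5) (nat_lit 478) (nat_lit 402) (nat_lit 260))))) (XT.nd (nat_lit 234) (nat_lit 836) (nat_lit 0) (XT.nd (nat_lit 78) (nat_lit 532) (nat_lit 0) (XT.lf (nat_lit 0) (nat_lit 6908724933) (nat_lit 456) (nat_lit 5080155342) (nat_lit 532) (nat_lit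 3320875319) (nat_lit 172) (nat_lit 5) (nat_lit 178) (nat_lit 5) (nat_lit 179) (nat_lit 5) (nat_lit 479) (nat_lit 402) (nat_lit 259)) (XT.nd (nat_lit 78) (nat_lit 76) (nat_lit 0) (XT.lf (nat_lit 0) (nat_lit 523767374) (nat_lit 456) (nat_lit 14967066850) (nat_lit 532) (nat_lit 4174537) (nat_lit 166) (nat_lit 5) (nat_lit 172) (nat_lit 5) (nat_lit 173) (nat_lit 5) (nat_lit 480) (nat_lit 402) (nat_lit 258)) (XT.lf (nat_lit 0) (nat_lit 3412079582) (nat_lit 532) (nat_lit 6016495753) (nat_lit 76) (nat_lit 6253404491) (nat_lit 165) (nat_lit 5) (nat_lit 172) (nat_lit 5) (nat_lit 166) (nat_lit 5) (nat_lit 481) (nat_lit 402) (nat_lit 257)))) (XT.nd (nat_lit 78) (nat_lit 456) (nat_lit 0) (XT.lf (nat_lit 0) (nat_lit 3140226033) (nat_lit 380) (nat_lit 3764159049) (nat_lit 456) (nat_lit 8968151254) (nat_lit 160) (nat_lit 5) (nat_lit 165) (nat_lit 5) (nat_lit 166) (nat_lit 5) (nat_lit 482) (nat_lit 402) (nat_lit 256)) (XT.nd (nat_lit 78) (nat_lit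 456) (nat_lit 0) (XT.lf (nat_lit 0) (nat_lit 10507737345) (nat_lit 456) (nat_lit 3536170066) (nat_lit 76) (nat_lit 2022174729) (nat_lit 160) (nat_lit 5) (nat_lit 166) (nat_lit 5) (nat_lit 161) (nat_lit 5) (nat_lit 483) (nat_lit 402) (nat_lit 255)) (XT.lf (nat_lit 0) (nat_lit 5878046253) (nat_lit 456) (nat_lit 8355934298) (nat_lit 532) (nat_lit 2028503964) (nat_lit 154) (nat_lit 5) (nat_lit 160) (nat_lit 5) (nat_lit 161) (nat_lit 5) (nat_lit 484) (nat_lit 402) (nat_lit 254))))))) (XT.nd (nat_lit 858) (nat_lit 2052) (nat_lit 0) (XT.nd (nat_lit 390) (nat_lit 1216) (nat_lit 0) (XT.nd (nat_lit 156) (nat_lit 760) (nat_lit 0) (XT.nd (nat_lit 78) (nat_lit 380) (nat_lit 0) (XT.lf (nat_lit 0) (nat_lit 1562977624) (nat_lit 532) (nat_lit 962279118) (nat_lit 76) (nat_lit 13937122923) (nat_lit 153) (nat_lit 5) (nat_lit 160) (nat_lit 5) (nat_lit 154) (nat_lit 5) (nat_lit 485) (nat_lit 402) (nat_lit 253)) (XT.lf (nat_lit 0) (nat_lit 5266503168)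 (nat_lit 456) (nat_lit 7956052232) (nat_lit 76) (nat_lit 3442103640) (nat_lit 148) (nat_lit 5) (nat_lit 154) (nat_lit 5) (nat_lit 149) (nat_lit 5) (nat_lit 486) (nat_lit 402) (nat_lit 252))) (XT.nd (nat_lit 78) (nat_lit 380) (nat_lit 0) (XT.lf (nat_lit 0) (nat_lit 1702878940) (nat_lit 380) (nat_lit 7363597101) (nat_lit 456) (nat_lit 7804062396) (nat_lit 143) (nat_lit 5) (nat_lit 148) (nat_lit 5) (nat_lit 149) (nat_lit 5) (nat_lit 487) (nat_lit 402) (nat_lit 251)) (XT.nd (nat_lit 78) (nat_lit 380) (nat_lit 0) (XT.lf (nat_lit 0) (nat_lit 11645164295) (nat_lit 380) (nat_lit 1338888921) (nat_lit 456) (nat_lit 4095652041) (nat_lit 143) (nat_lit 5) (nat_lit 148) (nat_lit 5) (nat_lit 149) (nat_lit 5) (nat_lit 488) (nat_lit 402) (nat_lit 250)) (XT.lf (nat_lit 0) (nat_lit 4503579592) (nat_lit 380) (nat_lit 12525257488) (nat_lit 456) (nat_lit 263243126) (nat_lit 138) (nat_lit 5) (nat_lit 143) (nat_lit 5) (nat_lit 144) (nat_lit 5) (nat_lit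 489) (nat_lit 402) (nat_lit 249))))) (XT.nd (nat_lit 234) (nat_lit 760) (nat_lit 0) (XT.nd (nat_lit 78) (nat_lit 380) (nat_lit 0) (XT.lf (nat_lit 0) (nat_lit 3632020997) (nat_lit 456) (nat_lit 2844183400) (nat_lit 76) (nat_lit 11031346205) (nat_lit 137) (nat_lit 5) (nat_lit 143) (nat_lit 5) (nat_lit 138) (nat_lit 5) (nat_lit 490) (nat_lit 402) (nat_lit 248)) (XT.nd (nat_lit 78) (nat_lit 0) (nat_lit 0) (XT.lf (nat_lit 0) (nat_lit 7376809377) (nat_lit 380) (nat_lit 261426769) (nat_lit 456) (nat_lit 10088329833) (nat_lit 132) (nat_lit 5) (nat_lit 137) (nat_lit 5) (nat_lit 138) (nat_lit 5) (nat_lit 491) (nat_lit 402) (nat_lit 247)) (XT.lf (nat_lit 0) (nat_lit 11771993073) (nat_lit 456) (nat_lit 165681030) (nat_lit 76) (nat_lit 6011340962) (nat_lit 132) (nat_lit 5) (nat_lit 138) (nat_lit 5) (nat_lit 133) (nat_lit 5) (nat_lit 492) (nat_lit 402) (nat_lit 246)))) (XT.nd (nat_lit 78) (nat_lit 456) (nat_lit 0) (XT.lf (nat_lit 0) (nat_lit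 10338991263) (nat_lit 304) (nat_lit 5707258450) (nat_lit 380) (nat_lit 2128508645) (nat_lit 128) (nat_lit 5) (nat_lit 132) (nat_lit 5) (nat_lit 133) (nat_lit 5) (nat_lit 493) (nat_lit 402) (nat_lit 245)) (XT.nd (nat_lit 78) (nat_lit 0) (nat_lit 0) (XT.lf (nat_lit 0) (nat_lit 1986467741) (nat_lit 456) (nat_lit 15753131596) (nat_lit 76) (nat_lit 664924275) (nat_lit 122) (nat_lit 5) (nat_lit 128) (nat_lit 5) (nat_lit 123) (nat_lit 5) (nat_lit 494) (nat_lit 402) (nat_lit 244)) (XT.lf (nat_lit 0) (nat_lit 6235062323) (nat_lit 456) (nat_lit 5252619533) (nat_lit 76) (nat_lit 7149326157) (nat_lit 122) (nat_lit 5) (nat_lit 128) (nat_lit 5) (nat_lit 123) (nat_lit 5) (nat_lit 495) (nat_lit 402) (nat_lit 243)))))) (XT.nd (nat_lit 468) (nat_lit 684) (nat_lit 0) (XT.nd (nat_lit 234) (nat_lit 608) (nat_lit 0) (XT.nd (nat_lit 78) (nat_lit 456) (nat_lit 0) (XT.lf (nat_lit 0) (nat_lit 5513491162) (nat_lit 304) (nat_lit 5080215262) (nat_lit 380)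 (nat_lit 8279935710) (nat_lit 118) (nat_lit 5) (nat_lit 122) (nat_lit 5) (nat_lit 123) (nat_lit 5) (nat_lit 496) (nat_lit 402) (nat_lit 242)) (XT.nd (nat_lit 78) (nat_lit 456) (nat_lit 0) (XT.lf (nat_lit 0) (nat_lit 15073797904) (nat_lit 380) (nat_lit 2574649126) (nat_lit 76) (nat_lit 1465877973) (nat_lit 118) (nat_lit 5) (nat_lit 123) (nat_lit 5) (nat_lit 119) (nat_lit 5) (nat_lit 497) (nat_lit 402) (nat_lit 241)) (XT.lf (nat_lit 0) (nat_lit 358771225) (nat_lit 456) (nat_lit 10872837428) (nat_lit 76) (nat_lit 8126601095) (nat_lit 112) (nat_lit 5) (nat_lit 118) (nat_lit 5) (nat_lit 113) (nat_lit 5) (nat_lit 498) (nat_lit 402) (nat_lit 240)))) (XT.nd (nat_lit 78) (nat_lit 304) (nat_lit 0) (XT.lf (nat_lit 0) (nat_lit 153518657) (nat_lit 304) (nat_lit 4646454620) (nat_lit 380) (nat_lit 14806305810) (nat_lit 108) (nat_lit 5) (nat_lit 112) (nat_lit 5) (nat_lit 113) (nat_lit 5) (nat_lit 499) (nat_lit 402) (nat_lit 239)) (XT.nd (nat_lit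 78) (nat_lit 304) (nat_lit 0) (XT.lf (nat_lit 0) (nat_lit 9406527466) (nat_lit 380) (nat_lit 8340539654) (nat_lit 76) (nat_lit 2110713565) (nat_lit 108) (nat_lit 5) (nat_lit 113) (nat_lit 5) (nat_lit 109) (nat_lit 5) (nat_lit 500) (nat_lit 402) (nat_lit 238)) (XT.lf (nat_lit 0) (nat_lit 2986092446) (nat_lit 304) (nat_lit 11159122356) (nat_lit 380) (nat_lit 5968298880) (nat_lit 104) (nat_lit 5) (nat_lit 108) (nat_lit 5) (nat_lit 109) (nat_lit 5) (nat_lit 501) (nat_lit 402) (nat_lit 237))))) (XT.nd (nat_lit 234) (nat_lit 304) (nat_lit 0) (XT.nd (nat_lit 78) (nat_lit 380) (nat_lit 0) (XT.lf (nat_lit 0) (nat_lit 14636197136) (nat_lit 304) (nat_lit 4388385814) (nat_lit 380) (nat_lit 1348861629) (nat_lit 104) (nat_lit 5) (nat_lit 108) (nat_lit 5) (nat_lit 109) (nat_lit 5) (nat_lit 502) (nat_lit 402) (nat_lit 236)) (XT.nd (nat_lit 78) (nat_lit 0) (nat_lit 0) (XT.lf (nat_lit 0) (nat_lit 3364074491) (nat_lit 380) (nat_lit 14733666190)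 (nat_lit 76) (nat_lit 2539493725) (nat_lit 99) (nat_lit 5) (nat_lit 104) (nat_lit 5) (nat_lit 100) (nat_lit 5) (nat_lit 503) (nat_lit 402) (nat_lit 235)) (XT.lf (nat_lit 0) (nat_lit 8211163381) (nat_lit 380) (nat_lit 3104799817) (nat_lit 76) (nat_lit 9589000708) (nat_lit 99) (nat_lit 5) (nat_lit 104) (nat_lit 5) (nat_lit 100) (nat_lit 5) (nat_lit 504) (nat_lit 402) (nat_lit 234)))) (XT.nd (nat_lit 78) (nat_lit 0) (nat_lit 0) (XT.lf (nat_lit 0) (nat_lit 8857130375) (nat_lit 304) (nat_lit 4345885083) (nat_lit 380) (nat_lit 7974077384) (nat_lit 95) (nat_lit 5) (nat_lit 99) (nat_lit 5) (nat_lit 100) (nat_lit 5) (nat_lit 505) (nat_lit 402) (nat_lit 233)) (XT.nd (nat_lit 51324) (nat_lit 0) (nat_lit 36480) (XT.lf (nat_lit 0) (nat_lit 18323985514) (nat_lit 380) (nat_lit 387670775) (nat_lit 76) (nat_lit 2742423699) (nat_lit 95) (nat_lit 5) (nat_lit 100) (nat_lit 5) (nat_lit 96) (nat_lit 5) (nat_lit 506) (nat_lit 402) (nat_lit 232)) (XT.lf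 (nat_lit 0) (nat_lit 1051690617) (nat_lit 1292) (nat_lit 1338074849) (nat_lit 1292) (nat_lit 1338074849) (nat_lit 575) (nat_lit 3) (nat_lit 592) (nat_lit 3) (nat_lit 592) (nat_lit 5) (nat_lit 403) (nat_lit 403) (nat_lit 334))))))))
noncomputable def xc149 : XT := (XT.nd (nat_lit 1716) (nat_lit 13908) (nat_lit 0) (XT.nd (nat_lit 858) (nat_lit 2660) (nat_lit 0) (XT.nd (nat_lit 390) (nat_lit 1216) (nat_lit 0) (XT.nd (nat_lit 156) (nat_lit 1216) (nat_lit 0) (XT.nd (nat_lit 78) (nat_lit 0) (nat_lit 0) (XT.lf (nat_lit 76) (nat_lit 948510662) (nat_lit 0) (nat_lit 2639554237) (nat_lit 1292) (nat_lit 3912386574) (nat_lit 576) (nat_lit 5) (nat_lit 575) (nat_lit 3) (nat_lit 592) (nat_lit 5) (nat_lit 404) (nat_lit 403) (nat_lit 333)) (XT.lf (nat_lit 76) (nat_lit 4662176645) (nat_lit 0) (nat_lit 419865120) (nat_lit 1292) (nat_lit 2464497431) (nat_lit 576) (nat_lit 5) (nat_lit 575) (nat_lit 3) (nat_lit 592) (nat_lit 5) (nat_lit 405) (nat_lit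 403) (nat_lit 332))) (XT.nd (nat_lit 78) (nat_lit 1292) (nat_lit 0) (XT.lf (nat_lit 76) (nat_lit 835288679) (nat_lit 0) (nat_lit 5750518279) (nat_lit 1292) (nat_lit 1008156731) (nat_lit 577) (nat_lit 5) (nat_lit 576) (nat_lit 5) (nat_lit 593) (nat_lit 5) (nat_lit 406) (nat_lit 403) (nat_lit 331)) (XT.nd (nat_lit 78) (nat_lit 0) (nat_lit 0) (XT.lf (nat_lit 0) (nat_lit 456174122) (nat_lit 1292) (nat_lit 3000158743) (nat_lit 1368) (nat_lit 4186252039) (nat_lit 559) (nat_lit 5) (nat_lit 576) (nat_lit 5) (nat_lit 577) (nat_lit 5) (nat_lit 407) (nat_lit 403) (nat_lit 330)) (XT.lf (nat_lit 76) (nat_lit 817342828) (nat_lit 0) (nat_lit 1087856172) (nat_lit 1368) (nat_lit 5787480564) (nat_lit 560) (nat_lit 5) (nat_lit 559) (nat_lit 5) (nat_lit 577) (nat_lit 5) (nat_lit 408) (nat_lit 403) (nat_lit 329))))) (XT.nd (nat_lit 234) (nat_lit 1292) (nat_lit 0) (XT.nd (nat_lit 78) (nat_lit 0) (nat_lit 0) (XT.lf (nat_lit 0) (nat_lit 3376365479)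 (nat_lit 1292) (nat_lit 3021192545) (nat_lit 1368) (nat_lit 1346367058) (nat_lit 560) (nat_lit 5) (nat_lit 577) (nat_lit 5) (nat_lit 578) (nat_lit 5) (nat_lit 409) (nat_lit 403) (nat_lit 328)) (XT.nd (nat_lit 78) (nat_lit 0) (nat_lit 0) (XT.lf (nat_lit 76) (nat_lit 894040060) (nat_lit 0) (nat_lit 3960897740) (nat_lit 1368) (nat_lit 2941710007) (nat_lit 561) (nat_lit 5) (nat_lit 560) (nat_lit 5) (nat_lit 578) (nat_lit 5) (nat_lit 410) (nat_lit 403) (nat_lit 327)) (XT.lf (nat_lit 76) (nat_lit 4908149728) (nat_lit 0) (nat_lit 1440733569) (nat_lit 1368) (nat_lit 1501837368) (nat_lit 561) (nat_lit 5) (nat_lit 560) (nat_lit 5) (nat_lit 578) (nat_lit 5) (nat_lit 411) (nat_lit 403) (nat_lit 326)))) (XT.nd (nat_lit 78) (nat_lit 1368) (nat_lit 0) (XT.lf (nat_lit 76) (nat_lit 1082773614) (nat_lit 0) (nat_lit 6770593363) (nat_lit 1368) (nat_lit 52906303) (nat_lit 562) (nat_lit 5) (nat_lit 561) (nat_lit 5) (nat_lit 579) (nat_lit 5) (nat_lit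 412) (nat_lit 403) (nat_lit 325)) (XT.nd (nat_lit 78) (nat_lit 0) (nat_lit 0) (XT.lf (nat_lit 0) (nat_lit 1402322195) (nat_lit 1368) (nat_lit 2774030369) (nat_lit 1444) (nat_lit 3786490219) (nat_lit 543) (nat_lit 5) (nat_lit 561) (nat_lit 5) (nat_lit 562) (nat_lit 5) (nat_lit 413) (nat_lit 403) (nat_lit 324)) (XT.lf (nat_lit 76) (nat_lit 1353161555) (nat_lit 0) (nat_lit 1508816416) (nat_lit 1444) (nat_lit 5159048911) (nat_lit 544) (nat_lit 5) (nat_lit 543) (nat_lit 5) (nat_lit 562) (nat_lit 5) (nat_lit 414) (nat_lit 403) (nat_lit 323)))))) (XT.nd (nat_lit 390) (nat_lit 1368) (nat_lit 0) (XT.nd (nat_lit 156) (nat_lit 1368) (nat_lit 0) (XT.nd (nat_lit 78) (nat_lit 0) (nat_lit 0) (XT.lf (nat_lit 0) (nat_lit 4345264820) (nat_lit 1368) (nat_lit 2508754191) (nat_lit 1444) (nat_lit 1226477502) (nat_lit 544) (nat_lit 5) (nat_lit 562) (nat_lit 5) (nat_lit 563) (nat_lit 5) (nat_lit 415) (nat_lit 403) (nat_lit 322)) (XT.lf (nat_lit 76)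 (nat_lit 1725332882) (nat_lit 0) (nat_lit 4122539382) (nat_lit 1444) (nat_lit 2293500577) (nat_lit 545) (nat_lit 5) (nat_lit 544) (nat_lit 5) (nat_lit 563) (nat_lit 5) (nat_lit 416) (nat_lit 403) (nat_lit 321))) (XT.nd (nat_lit 78) (nat_lit 1368) (nat_lit 0) (XT.lf (nat_lit 76) (nat_lit 6057403465) (nat_lit 0) (nat_lit 1308908132) (nat_lit 1444) (nat_lit 837449701) (nat_lit 545) (nat_lit 5) (nat_lit 544) (nat_lit 5) (nat_lit 563) (nat_lit 5) (nat_lit 417) (nat_lit 403) (nat_lit 320)) (XT.nd (nat_lit 78) (nat_lit 0) (nat_lit 0) (XT.lf (nat_lit 0) (nat_lit 633258952) (nat_lit 1444) (nat_lit 6065153906) (nat_lit 1520) (nat_lit 1569029724) (nat_lit 526) (nat_lit 5) (nat_lit 545) (nat_lit 5) (nat_lit 546) (nat_lit 5) (nat_lit 418) (nat_lit 403) (nat_lit 319)) (XT.lf (nat_lit 0) (nat_lit 2115217674) (nat_lit 1444) (nat_lit 1700672364) (nat_lit 1520) (nat_lit 4516545366) (nat_lit 526) (nat_lit 5) (nat_lit 545) (nat_lit 5) (nat_lit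 546) (nat_lit 5) (nat_lit 419) (nat_lit 403) (nat_lit 318))))) (XT.nd (nat_lit 234) (nat_lit 1368) (nat_lit 0) (XT.nd (nat_lit 78) (nat_lit 0) (nat_lit 76) (XT.lf (nat_lit 76) (nat_lit 2766543479) (nat_lit 0) (nat_lit 848697092) (nat_lit 1520) (nat_lit 4783728431) (nat_lit 527) (nat_lit 5) (nat_lit 526) (nat_lit 5) (nat_lit 546) (nat_lit 5) (nat_lit 420) (nat_lit 403) (nat_lit 317)) (XT.nd (nat_lit 78) (nat_lit 0) (nat_lit 0) (XT.lf (nat_lit 0) (nat_lit 5141853887) (nat_lit 1444) (nat_lit 1156011389) (nat_lit 1520) (nat_lit 2169045433) (nat_lit 527) (nat_lit 5) (nat_lit 546) (nat_lit 5) (nat_lit 547) (nat_lit 5) (nat_lit 421) (nat_lit 403) (nat_lit 316)) (XT.lf (nat_lit 76) (nat_lit 3428344948) (nat_lit 0) (nat_lit 3270065486) (nat_lit 1520) (nat_lit 1837821651) (nat_lit 528) (nat_lit 5) (nat_lit 527) (nat_lit 5) (nat_lit 547) (nat_lit 5) (nat_lit 422) (nat_lit 403) (nat_lit 315)))) (XT.nd (nat_lit 78) (nat_lit 1444) (nat_lit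 0) (XT.lf (nat_lit 76) (nat_lit 8099267214) (nat_lit 0) (nat_lit 166542930) (nat_lit 1520) (nat_lit 341544384) (nat_lit 528) (nat_lit 5) (nat_lit 527) (nat_lit 5) (nat_lit 547) (nat_lit 5) (nat_lit 423) (nat_lit 403) (nat_lit 314)) (XT.nd (nat_lit 78) (nat_lit 0) (nat_lit 0) (XT.lf (nat_lit 0) (nat_lit 1188521223) (nat_lit 1520) (nat_lit 4489031810) (nat_lit 1596) (nat_lit 3001813090) (nat_lit 508) (nat_lit 5) (nat_lit 528) (nat_lit 5) (nat_lit 529) (nat_lit 5) (nat_lit 424) (nat_lit 403) (nat_lit 313)) (XT.lf (nat_lit 76) (nat_lit 215074652) (nat_lit 0) (nat_lit 2508241921) (nat_lit 1596) (nat_lit 6029890556) (nat_lit 509) (nat_lit 5) (nat_lit 508) (nat_lit 5) (nat_lit 529) (nat_lit 5) (nat_lit 425) (nat_lit 403) (nat_lit 312))))))) (XT.nd (nat_lit 858) (nat_lit 5092) (nat_lit 0) (XT.nd (nat_lit 390) (nat_lit 5700) (nat_lit 0) (XT.nd (nat_lit 156) (nat_lit 1672) (nat_lit 0) (XT.nd (nat_lit 78) (nat_lit 1520) (nat_lit 0) (XT.lf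 (nat_lit 0) (nat_lit 4297035220) (nat_lit 1520) (nat_lit 3780375637) (nat_lit 76) (nat_lit 750957752) (nat_lit 509) (nat_lit 5) (nat_lit 529) (nat_lit 5) (nat_lit 510) (nat_lit 5) (nat_lit 426) (nat_lit 403) (nat_lit 311)) (XT.lf (nat_lit 0) (nat_lit 1048437414) (nat_lit 1520) (nat_lit 4850934813) (nat_lit 1596) (nat_lit 3005726253) (nat_lit 489) (nat_lit 5) (nat_lit 509) (nat_lit 5) (nat_lit 510) (nat_lit 5) (nat_lit 427) (nat_lit 403) (nat_lit 310))) (XT.nd (nat_lit 78) (nat_lit 1672) (nat_lit 0) (XT.lf (nat_lit 0) (nat_lit 6003971943) (nat_lit 1520) (nat_lit 1529256495) (nat_lit 1596) (nat_lit 1450152944) (nat_lit 489) (nat_lit 5) (nat_lit 509) (nat_lit 5) (nat_lit 510) (nat_lit 5) (nat_lit 428) (nat_lit 403) (nat_lit 309)) (XT.nd (nat_lit 78) (nat_lit 0) (nat_lit 0) (XT.lf (nat_lit 0) (nat_lit 134350886) (nat_lit 1672) (nat_lit 7075966851) (nat_lit 76) (nat_lit 1852909857) (nat_lit 467) (nat_lit 5) (nat_lit 489) (nat_lit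 5) (nat_lit 468) (nat_lit 5) (nat_lit 429) (nat_lit 403) (nat_lit 308)) (XT.lf (nat_lit 0) (nat_lit 1736228430) (nat_lit 1672) (nat_lit 2091916794) (nat_lit 76) (nat_lit 5316239203) (nat_lit 467) (nat_lit 5) (nat_lit 489) (nat_lit 5) (nat_lit 468) (nat_lit 5) (nat_lit 430) (nat_lit 403) (nat_lit 307))))) (XT.nd (nat_lit 234) (nat_lit 2280) (nat_lit 0) (XT.nd (nat_lit 78) (nat_lit 1748) (nat_lit 0) (XT.lf (nat_lit 0) (nat_lit 3010281565) (nat_lit 1672) (nat_lit 354729934) (nat_lit 1748) (nat_lit 5862262820) (nat_lit 445) (nat_lit 5) (nat_lit 467) (nat_lit 5) (nat_lit 468) (nat_lit 5) (nat_lit 431) (nat_lit 403) (nat_lit 306)) (XT.nd (nat_lit 78) (nat_lit 1748) (nat_lit 0) (XT.lf (nat_lit 0) (nat_lit 5036894646) (nat_lit 1748) (nat_lit 1110844422) (nat_lit 76) (nat_lit 3163879593) (nat_lit 445) (nat_lit 5) (nat_lit 468) (nat_lit 5) (nat_lit 446) (nat_lit 5) (nat_lit 432) (nat_lit 403) (nat_lit 305)) (XT.lf (nat_lit 0) (nat_lit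 4128248858) (nat_lit 1748) (nat_lit 2619289698) (nat_lit 1824) (nat_lit 2650011871) (nat_lit 422) (nat_lit 5) (nat_lit 445) (nat_lit 5) (nat_lit 446) (nat_lit 5) (nat_lit 433) (nat_lit 403) (nat_lit 304)))) (XT.nd (nat_lit 78) (nat_lit 2280) (nat_lit 0) (XT.lf (nat_lit 0) (nat_lit 8482779952) (nat_lit 1824) (nat_lit 25608040) (nat_lit 76) (nat_lit 977012006) (nat_lit 422) (nat_lit 5) (nat_lit 446) (nat_lit 5) (nat_lit 423) (nat_lit 5) (nat_lit 434) (nat_lit 403) (nat_lit 303)) (XT.nd (nat_lit 78) (nat_lit 912) (nat_lit 0) (XT.lf (nat_lit 0) (nat_lit 698111547) (nat_lit 1368) (nat_lit 4224089732) (nat_lit 76) (nat_lit 4652138267) (nat_lit 404) (nat_lit 5) (nat_lit 422) (nat_lit 5) (nat_lit 405) (nat_lit 5) (nat_lit 435) (nat_lit 403) (nat_lit 302)) (XT.lf (nat_lit 0) (nat_lit 1156360178) (nat_lit 912) (nat_lit 1247905779) (nat_lit 988) (nat_lit 7260969184) (nat_lit 392) (nat_lit 5) (nat_lit 404) (nat_lit 5) (nat_lit 405) (nat_lit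 5) (nat_lit 436) (nat_lit 403) (nat_lit 301)))))) (XT.nd (nat_lit 468) (nat_lit 2432) (nat_lit 0) (XT.nd (nat_lit 234) (nat_lit 1824) (nat_lit 0) (XT.nd (nat_lit 78) (nat_lit 836) (nat_lit 0) (XT.lf (nat_lit 0) (nat_lit 4166770444) (nat_lit 988) (nat_lit 3093533773) (nat_lit 76) (nat_lit 2497206230) (nat_lit 392) (nat_lit 5) (nat_lit 405) (nat_lit 5) (nat_lit 393) (nat_lit 5) (nat_lit 437) (nat_lit 403) (nat_lit 300)) (XT.nd (nat_lit 78) (nat_lit 0) (nat_lit 0) (XT.lf (nat_lit 0) (nat_lit 2432764732) (nat_lit 836) (nat_lit 3533724150) (nat_lit 912) (nat_lit 3885109316) (nat_lit 381) (nat_lit 5) (nat_lit 392) (nat_lit 5) (nat_lit 393) (nat_lit 5) (nat_lit 438) (nat_lit 403) (nat_lit 299)) (XT.lf (nat_lit 0) (nat_lit 7803042912) (nat_lit 912) (nat_lit 1858804638) (nat_lit 76) (nat_lit 285709423) (nat_lit 381) (nat_lit 5) (nat_lit 393) (nat_lit 5) (nat_lit 382) (nat_lit 5) (nat_lit 439) (nat_lit 403) (nat_lit 298)))) (XT.nd (nat_lit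 78) (nat_lit 912) (nat_lit 0) (XT.lf (nat_lit 0) (nat_lit 3818215420) (nat_lit 912) (nat_lit 5884940868) (nat_lit 988) (nat_lit 341748045) (nat_lit 369) (nat_lit 5) (nat_lit 381) (nat_lit 5) (nat_lit 382) (nat_lit 5) (nat_lit 440) (nat_lit 403) (nat_lit 297)) (XT.nd (nat_lit 78) (nat_lit 836) (nat_lit 0) (XT.lf (nat_lit 0) (nat_lit 1468769626) (nat_lit 988) (nat_lit 540813506) (nat_lit 76) (nat_lit 8134600236) (nat_lit 368) (nat_lit 5) (nat_lit 381) (nat_lit 5) (nat_lit 369) (nat_lit 5) (nat_lit 441) (nat_lit 403) (nat_lit 296)) (XT.lf (nat_lit 0) (nat_lit 3337424742) (nat_lit 912) (nat_lit 4952520317) (nat_lit 76) (nat_lit 1954933314) (nat_lit 357) (nat_lit 5) (nat_lit 369) (nat_lit 5) (nat_lit 358) (nat_lit 5) (nat_lit 442) (nat_lit 403) (nat_lit 295))))) (XT.nd (nat_lit 234) (nat_lit 836) (nat_lit 0) (XT.nd (nat_lit 78) (nat_lit 760) (nat_lit 0) (XT.lf (nat_lit 0) (nat_lit 879306338) (nat_lit 836) (nat_lit 4366283407) (nat_lit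 912) (nat_lit 5101960316) (nat_lit 346) (nat_lit 5) (nat_lit 357) (nat_lit 5) (nat_lit 358) (nat_lit 5) (nat_lit 443) (nat_lit 403) (nat_lit 294)) (XT.nd (nat_lit 78) (nat_lit 760) (nat_lit 0) (XT.lf (nat_lit 0) (nat_lit 6874137144) (nat_lit 836) (nat_lit 330748797) (nat_lit 912) (nat_lit 3247135294) (nat_lit 346) (nat_lit 5) (nat_lit 357) (nat_lit 5) (nat_lit 358) (nat_lit 5) (nat_lit 444) (nat_lit 403) (nat_lit 293)) (XT.lf (nat_lit 0) (nat_lit 2416642026) (nat_lit 760) (nat_lit 6807122507) (nat_lit 836) (nat_lit 1334414677) (nat_lit 336) (nat_lit 5) (nat_lit 346) (nat_lit 5) (nat_lit 347) (nat_lit 5) (nat_lit 445) (nat_lit 403) (nat_lit 292)))) (XT.nd (nat_lit 78) (nat_lit 760) (nat_lit 0) (XT.lf (nat_lit 0) (nat_lit 615081724) (nat_lit 836) (nat_lit 2113663301) (nat_lit 76) (nat_lit 7937508202) (nat_lit 335) (nat_lit 5) (nat_lit 346) (nat_lit 5) (nat_lit 336) (nat_lit 5) (nat_lit 446) (nat_lit 403) (nat_lit 291)) (XT.nd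 (nat_lit 78) (nat_lit 0) (nat_lit 0) (XT.lf (nat_lit 0) (nat_lit 2602222773) (nat_lit 836) (nat_lit 6727012987) (nat_lit 76) (nat_lit 1446751103) (nat_lit 325) (nat_lit 5) (nat_lit 336) (nat_lit 5) (nat_lit 326) (nat_lit 5) (nat_lit 447) (nat_lit 403) (nat_lit 290)) (XT.lf (nat_lit 0) (nat_lit 4642331226) (nat_lit 836) (nat_lit 563004939) (nat_lit 76) (nat_lit 5682319415) (nat_lit 325) (nat_lit 5) (nat_lit 336) (nat_lit 5) (nat_lit 326) (nat_lit 5) (nat_lit 448) (nat_lit 403) (nat_lit 289))))))))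
noncomputable def xc150 : XT := (XT.nd (nat_lit 1716) (nat_lit 6384) (nat_lit 0) (XT.nd (nat_lit 858) (nat_lit 3572) (nat_lit 0) (XT.nd (nat_lit 390) (nat_lit 2736) (nat_lit 0) (XT.nd (nat_lit 156) (nat_lit 760) (nat_lit 0) (XT.nd (nat_lit 78) (nat_lit 760) (nat_lit 0) (XT.lf (nat_lit 0) (nat_lit 5779768905) (nat_lit 760) (nat_lit 962249720) (nat_lit 836) (nat_lit 4259168317) (nat_lit 315) (nat_lit 5) (nat_lit 325) (nat_lit 5) (nat_lit 326) (nat_lit 5) (nat_lit 449) (nat_lit 403) (nat_lit 288)) (XT.lf (nat_lit 0) (nat_lit 1112279389) (nat_lit 760) (nat_lit 7785773893) (nat_lit 836) (nat_lit 2218653290) (nat_lit 305) (nat_lit 5) (nat_lit 315) (nat_lit 5) (nat_lit 316) (nat_lit 5) (nat_lit 450) (nat_lit 403) (nat_lit 287))) (XT.nd (nat_lit 78) (nat_lit 760) (nat_lit 0) (XT.lf (nat_lit 0) (nat_lit 7616558915) (nat_lit 760) (nat_lit 3503725873) (nat_lit 836) (nat_lit 113794901) (nat_lit 305) (nat_lit 5) (nat_lit 315) (nat_lit 5)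 (nat_lit 316) (nat_lit 5) (nat_lit 451) (nat_lit 403) (nat_lit 286)) (XT.nd (nat_lit 78) (nat_lit 0) (nat_lit 0) (XT.lf (nat_lit 0) (nat_lit 2013085181) (nat_lit 760) (nat_lit 8457609138) (nat_lit 76) (nat_lit 882714581) (nat_lit 295) (nat_lit 5) (nat_lit 305) (nat_lit 5) (nat_lit 296) (nat_lit 5) (nat_lit 452) (nat_lit 403) (nat_lit 285)) (XT.lf (nat_lit 0) (nat_lit 4210771394) (nat_lit 760) (nat_lit 1930803301) (nat_lit 76) (nat_lit 5332943463) (nat_lit 295) (nat_lit 5) (nat_lit 305) (nat_lit 5) (nat_lit 296) (nat_lit 5) (nat_lit 453) (nat_lit 403) (nat_lit 284))))) (XT.nd (nat_lit 234) (nat_lit 1368) (nat_lit 0) (XT.nd (nat_lit 78) (nat_lit 684) (nat_lit 0) (XT.lf (nat_lit 0) (nat_lit 4769017113) (nat_lit 684) (nat_lit 1696858919) (nat_lit 760) (nat_lit 5131908542) (nat_lit 286) (nat_lit 5) (nat_lit 295) (nat_lit 5) (nat_lit 296) (nat_lit 5) (nat_lit 454) (nat_lit 403) (nat_lit 283)) (XT.nd (nat_lit 78) (nat_lit 684) (nat_lit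 0) (XT.lf (nat_lit 0) (nat_lit 8780240892) (nat_lit 760) (nat_lit 133023284) (nat_lit 76) (nat_lit 2809973162) (nat_lit 286) (nat_lit 5) (nat_lit 296) (nat_lit 5) (nat_lit 287) (nat_lit 5) (nat_lit 455) (nat_lit 403) (nat_lit 282)) (XT.lf (nat_lit 0) (nat_lit 6754108364) (nat_lit 684) (nat_lit 4424911123) (nat_lit 760) (nat_lit 671421243) (nat_lit 277) (nat_lit 5) (nat_lit 286) (nat_lit 5) (nat_lit 287) (nat_lit 5) (nat_lit 456) (nat_lit 403) (nat_lit 281)))) (XT.nd (nat_lit 78) (nat_lit 608) (nat_lit 0) (XT.lf (nat_lit 0) (nat_lit 1620801097) (nat_lit 760) (nat_lit 10187715134) (nat_lit 76) (nat_lit 171526260) (nat_lit 267) (nat_lit 5) (nat_lit 277) (nat_lit 5) (nat_lit 268) (nat_lit 5) (nat_lit 457) (nat_lit 403) (nat_lit 280)) (XT.nd (nat_lit 78) (nat_lit 608) (nat_lit 0) (XT.lf (nat_lit 0) (nat_lit 3996923367) (nat_lit 760) (nat_lit 3277841036) (nat_lit 76) (nat_lit 4836446070) (nat_lit 267) (nat_lit 5) (nat_lit 277) (nat_lit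 5) (nat_lit 268) (nat_lit 5) (nat_lit 458) (nat_lit 403) (nat_lit 279)) (XT.lf (nat_lit 0) (nat_lit 3800313412) (nat_lit 608) (nat_lit 2628563930) (nat_lit 684) (nat_lit 5815962077) (nat_lit 259) (nat_lit 5) (nat_lit 267) (nat_lit 5) (nat_lit 268) (nat_lit 5) (nat_lit 459) (nat_lit 403) (nat_lit 278)))))) (XT.nd (nat_lit 390) (nat_lit 1672) (nat_lit 0) (XT.nd (nat_lit 156) (nat_lit 1292) (nat_lit 0) (XT.nd (nat_lit 78) (nat_lit 608) (nat_lit 0) (XT.lf (nat_lit 0) (nat_lit 8929121356) (nat_lit 684) (nat_lit 1350020531) (nat_lit 76) (nat_lit 2101609752) (nat_lit 259) (nat_lit 5) (nat_lit 268) (nat_lit 5) (nat_lit 260) (nat_lit 5) (nat_lit 460) (nat_lit 403) (nat_lit 277)) (XT.lf (nat_lit 0) (nat_lit 5927160349) (nat_lit 608) (nat_lit 5592224284) (nat_lit 684) (nat_lit 999200824) (nat_lit 251) (nat_lit 5) (nat_lit 259) (nat_lit 5) (nat_lit 260) (nat_lit 5) (nat_lit 461) (nat_lit 403) (nat_lit 276))) (XT.nd (nat_lit 78) (nat_lit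 608) (nat_lit 0) (XT.lf (nat_lit 0) (nat_lit 688782034) (nat_lit 608) (nat_lit 791585361) (nat_lit 684) (nat_lit 11178661125) (nat_lit 242) (nat_lit 5) (nat_lit 250) (nat_lit 5) (nat_lit 251) (nat_lit 5) (nat_lit 462) (nat_lit 403) (nat_lit 275)) (XT.nd (nat_lit 78) (nat_lit 608) (nat_lit 0) (XT.lf (nat_lit 0) (nat_lit 4051697259) (nat_lit 684) (nat_lit 4650806002) (nat_lit 76) (nat_lit 4098537528) (nat_lit 242) (nat_lit 5) (nat_lit 251) (nat_lit 5) (nat_lit 243) (nat_lit 5) (nat_lit 463) (nat_lit 403) (nat_lit 274)) (XT.lf (nat_lit 0) (nat_lit 2827462653) (nat_lit 608) (nat_lit 3855257195) (nat_lit 684) (nat_lit 6263011498) (nat_lit 234) (nat_lit 5) (nat_lit 242) (nat_lit 5) (nat_lit 243) (nat_lit 5) (nat_lit 464) (nat_lit 403) (nat_lit 273))))) (XT.nd (nat_lit 234) (nat_lit 1064) (nat_lit 0) (XT.nd (nat_lit 78) (nat_lit 608) (nat_lit 0) (XT.lf (nat_lit 0) (nat_lit 9389663901) (nat_lit 684) (nat_lit 2601181854) (nat_lit 76)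 (nat_lit 1102007236) (nat_lit 234) (nat_lit 5) (nat_lit 243) (nat_lit 5) (nat_lit 235) (nat_lit 5) (nat_lit 465) (nat_lit 403) (nat_lit 272)) (XT.nd (nat_lit 78) (nat_lit 76) (nat_lit 0) (XT.lf (nat_lit 0) (nat_lit 5088279164) (nat_lit 532) (nat_lit 7106148296) (nat_lit 608) (nat_lit 1047619231) (nat_lit 227) (nat_lit 5) (nat_lit 234) (nat_lit 5) (nat_lit 235) (nat_lit 5) (nat_lit 466) (nat_lit 403) (nat_lit 271)) (XT.lf (nat_lit 0) (nat_lit 1642028092) (nat_lit 608) (nat_lit 457230051) (nat_lit 76) (nat_lit 11294698512) (nat_lit 226) (nat_lit 5) (nat_lit 234) (nat_lit 5) (nat_lit 227) (nat_lit 5) (nat_lit 467) (nat_lit 403) (nat_lit 270)))) (XT.nd (nat_lit 78) (nat_lit 532) (nat_lit 0) (XT.lf (nat_lit 0) (nat_lit 4425261908) (nat_lit 608) (nat_lit 6102614246) (nat_lit 76) (nat_lit 3019816791) (nat_lit 219) (nat_lit 5) (nat_lit 227) (nat_lit 5) (nat_lit 220) (nat_lit 5) (nat_lit 468) (nat_lit 403) (nat_lit 269)) (XT.nd (nat_lit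 78) (nat_lit 0) (nat_lit 0) (XT.lf (nat_lit 0) (nat_lit 1797841089) (nat_lit 532) (nat_lit 5480588697) (nat_lit 608) (nat_lit 6425791776) (nat_lit 212) (nat_lit 5) (nat_lit 219) (nat_lit 5) (nat_lit 220) (nat_lit 5) (nat_lit 469) (nat_lit 403) (nat_lit 268)) (XT.lf (nat_lit 0) (nat_lit 9920148971) (nat_lit 532) (nat_lit 295229133) (nat_lit 608) (nat_lit 3647971234) (nat_lit 212) (nat_lit 5) (nat_lit 219) (nat_lit 5) (nat_lit 220) (nat_lit 5) (nat_lit 470) (nat_lit 403) (nat_lit 267))))))) (XT.nd (nat_lit 858) (nat_lit 2812) (nat_lit 0) (XT.nd (nat_lit 390) (nat_lit 1976) (nat_lit 0) (XT.nd (nat_lit 156) (nat_lit 988) (nat_lit 0) (XT.nd (nat_lit 78) (nat_lit 76) (nat_lit 0) (XT.lf (nat_lit 0) (nat_lit 4182918419) (nat_lit 532) (nat_lit 9073743434) (nat_lit 608) (nat_lit 768088759) (nat_lit 205) (nat_lit 5) (nat_lit 212) (nat_lit 5) (nat_lit 213) (nat_lit 5) (nat_lit 471) (nat_lit 403) (nat_lit 266)) (XT.lf (nat_lit 0) (nat_lit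 2155604460) (nat_lit 608) (nat_lit 1698881263) (nat_lit 76) (nat_lit 10334321943) (nat_lit 204) (nat_lit 5) (nat_lit 212) (nat_lit 5) (nat_lit 205) (nat_lit 5) (nat_lit 472) (nat_lit 403) (nat_lit 265))) (XT.nd (nat_lit 78) (nat_lit 532) (nat_lit 0) (XT.lf (nat_lit 0) (nat_lit 5166983041) (nat_lit 532) (nat_lit 7694406624) (nat_lit 76) (nat_lit 1493867439) (nat_lit 198) (nat_lit 5) (nat_lit 205) (nat_lit 5) (nat_lit 199) (nat_lit 5) (nat_lit 473) (nat_lit 403) (nat_lit 264)) (XT.nd (nat_lit 78) (nat_lit 0) (nat_lit 0) (XT.lf (nat_lit 0) (nat_lit 650349101) (nat_lit 532) (nat_lit 7615928943) (nat_lit 608) (nat_lit 6258206360) (nat_lit 191) (nat_lit 5) (nat_lit 198) (nat_lit 5) (nat_lit 199) (nat_lit 5) (nat_lit 474) (nat_lit 403) (nat_lit 263)) (XT.lf (nat_lit 0) (nat_lit 9247845293) (nat_lit 532) (nat_lit 2217956838) (nat_lit 608) (nat_lit 3230531857) (nat_lit 191) (nat_lit 5) (nat_lit 198) (nat_lit 5) (nat_lit 199) (nat_lit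 5) (nat_lit 475) (nat_lit 403) (nat_lit 262))))) (XT.nd (nat_lit 234) (nat_lit 988) (nat_lit 0) (XT.nd (nat_lit 78) (nat_lit 532) (nat_lit 0) (XT.lf (nat_lit 0) (nat_lit 3147274831) (nat_lit 456) (nat_lit 11610663764) (nat_lit 532) (nat_lit 113112080) (nat_lit 185) (nat_lit 5) (nat_lit 191) (nat_lit 5) (nat_lit 192) (nat_lit 5) (nat_lit 476) (nat_lit 403) (nat_lit 261)) (XT.nd (nat_lit 78) (nat_lit 456) (nat_lit 0) (XT.lf (nat_lit 0) (nat_lit 3064820296) (nat_lit 532) (nat_lit 3112943955) (nat_lit 76) (nat_lit 8870334003) (nat_lit 184) (nat_lit 5) (nat_lit 191) (nat_lit 5) (nat_lit 185) (nat_lit 5) (nat_lit 477) (nat_lit 403) (nat_lit 260)) (XT.lf (nat_lit 0) (nat_lit 5726437693) (nat_lit 456) (nat_lit 602688475) (nat_lit 532) (nat_lit 8899061475) (nat_lit 178) (nat_lit 5) (nat_lit 184) (nat_lit 5) (nat_lit 185) (nat_lit 5) (nat_lit 478) (nat_lit 403) (nat_lit 259)))) (XT.nd (nat_lit 78) (nat_lit 988) (nat_lit 0) (XT.lf (nat_lit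 0) (nat_lit 9700004229) (nat_lit 532) (nat_lit 677929099) (nat_lit 76) (nat_lit 5033122127) (nat_lit 178) (nat_lit 5) (nat_lit 185) (nat_lit 5) (nat_lit 179) (nat_lit 5) (nat_lit 479) (nat_lit 403) (nat_lit 258)) (XT.nd (nat_lit 78) (nat_lit 532) (nat_lit 0) (XT.lf (nat_lit 0) (nat_lit 8410917455) (nat_lit 456) (nat_lit 4773483219) (nat_lit 532) (nat_lit 2412260241) (nat_lit 172) (nat_lit 5) (nat_lit 178) (nat_lit 5) (nat_lit 179) (nat_lit 5) (nat_lit 480) (nat_lit 403) (nat_lit 257)) (XT.lf (nat_lit 0) (nat_lit 950755295) (nat_lit 532) (nat_lit 13886205796) (nat_lit 76) (nat_lit 948681107) (nat_lit 165) (nat_lit 5) (nat_lit 172) (nat_lit 5) (nat_lit 166) (nat_lit 5) (nat_lit 481) (nat_lit 403) (nat_lit 256)))))) (XT.nd (nat_lit 468) (nat_lit 1520) (nat_lit 0) (XT.nd (nat_lit 234) (nat_lit 912) (nat_lit 0) (XT.nd (nat_lit 78) (nat_lit 380) (nat_lit 0) (XT.lf (nat_lit 0) (nat_lit 4416553996) (nat_lit 532) (nat_lit 4779538636)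 (nat_lit 76) (nat_lit 6780637290) (nat_lit 165) (nat_lit 5) (nat_lit 172) (nat_lit 5) (nat_lit 166) (nat_lit 5) (nat_lit 482) (nat_lit 403) (nat_lit 255)) (XT.nd (nat_lit 78) (nat_lit 0) (nat_lit 0) (XT.lf (nat_lit 0) (nat_lit 4551388067) (nat_lit 380) (nat_lit 3417714465) (nat_lit 456) (nat_lit 8202190324) (nat_lit 160) (nat_lit 5) (nat_lit 165) (nat_lit 5) (nat_lit 166) (nat_lit 5) (nat_lit 483) (nat_lit 403) (nat_lit 254)) (XT.lf (nat_lit 0) (nat_lit 11629037076) (nat_lit 456) (nat_lit 2269331130) (nat_lit 76) (nat_lit 2470654233) (nat_lit 160) (nat_lit 5) (nat_lit 166) (nat_lit 5) (nat_lit 161) (nat_lit 5) (nat_lit 484) (nat_lit 403) (nat_lit 253)))) (XT.nd (nat_lit 78) (nat_lit 456) (nat_lit 0) (XT.lf (nat_lit 0) (nat_lit 7324369763) (nat_lit 456) (nat_lit 8096197003) (nat_lit 532) (nat_lit 1148973970) (nat_lit 154) (nat_lit 5) (nat_lit 160) (nat_lit 5) (nat_lit 161) (nat_lit 5) (nat_lit 485) (nat_lit 403) (nat_lit 252))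 (XT.nd (nat_lit 78) (nat_lit 0) (nat_lit 0) (XT.lf (nat_lit 0) (nat_lit 337591255) (nat_lit 380) (nat_lit 2149066018) (nat_lit 456) (nat_lit 14286972277) (nat_lit 148) (nat_lit 5) (nat_lit 153) (nat_lit 5) (nat_lit 154) (nat_lit 5) (nat_lit 486) (nat_lit 403) (nat_lit 251)) (XT.lf (nat_lit 0) (nat_lit 6255843675) (nat_lit 456) (nat_lit 6794120726) (nat_lit 76) (nat_lit 3930161232) (nat_lit 148) (nat_lit 5) (nat_lit 154) (nat_lit 5) (nat_lit 149) (nat_lit 5) (nat_lit 487) (nat_lit 403) (nat_lit 250))))) (XT.nd (nat_lit 234) (nat_lit 684) (nat_lit 0) (XT.nd (nat_lit 78) (nat_lit 456) (nat_lit 0) (XT.lf (nat_lit 0) (nat_lit 3049297934) (nat_lit 380) (nat_lit 7073705255) (nat_lit 456) (nat_lit 7067298556) (nat_lit 143) (nat_lit 5) (nat_lit 148) (nat_lit 5) (nat_lit 149) (nat_lit 5) (nat_lit 488) (nat_lit 403) (nat_lit 249)) (XT.nd (nat_lit 78) (nat_lit 456) (nat_lit 0) (XT.lf (nat_lit 0) (nat_lit 13164696419) (nat_lit 380) (nat_lit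 937074751) (nat_lit 456) (nat_lit 3302226761) (nat_lit 143) (nat_lit 5) (nat_lit 148) (nat_lit 5) (nat_lit 149) (nat_lit 5) (nat_lit 489) (nat_lit 403) (nat_lit 248)) (XT.lf (nat_lit 0) (nat_lit 593127369) (nat_lit 456) (nat_lit 11738400798) (nat_lit 76) (nat_lit 5289131003) (nat_lit 137) (nat_lit 5) (nat_lit 143) (nat_lit 5) (nat_lit 138) (nat_lit 5) (nat_lit 490) (nat_lit 403) (nat_lit 247)))) (XT.nd (nat_lit 78) (nat_lit 684) (nat_lit 0) (XT.lf (nat_lit 0) (nat_lit 4545949483) (nat_lit 456) (nat_lit 1622511680) (nat_lit 76) (nat_lit 11672282111) (nat_lit 137) (nat_lit 5) (nat_lit 143) (nat_lit 5) (nat_lit 138) (nat_lit 5) (nat_lit 491) (nat_lit 403) (nat_lit 246)) (XT.nd (nat_lit 78) (nat_lit 304) (nat_lit 0) (XT.lf (nat_lit 0) (nat_lit 8625146381) (nat_lit 456) (nat_lit 9270923812) (nat_lit 76) (nat_lit 168214217) (nat_lit 132) (nat_lit 5) (nat_lit 138) (nat_lit 5) (nat_lit 133) (nat_lit 5) (nat_lit 492) (nat_lit 403) (nat_lit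 245)) (XT.lf (nat_lit 0) (nat_lit 1104408114) (nat_lit 304) (nat_lit 11729682443) (nat_lit 380) (nat_lit 5457244228) (nat_lit 128) (nat_lit 5) (nat_lit 132) (nat_lit 5) (nat_lit 133) (nat_lit 5) (nat_lit 493) (nat_lit 403) (nat_lit 244))))))))
noncomputable def xc151 : XT := (XT.nd (nat_lit 53040) (nat_lit 0) (nat_lit 23484) (XT.nd (nat_lit 858) (nat_lit 304) (nat_lit 0) (XT.nd (nat_lit 390) (nat_lit 1444) (nat_lit 0) (XT.nd (nat_lit 156) (nat_lit 304) (nat_lit 0) (XT.nd (nat_lit 78) (nat_lit 456) (nat_lit 0) (XT.lf (nat_lit 0) (nat_lit 11796406986) (nat_lit 304) (nat_lit 5382306377) (nat_lit 380) (nat_lit 1343184457) (nat_lit 128) (nat_lit 5) (nat_lit 132) (nat_lit 5) (nat_lit 133) (nat_lit 5) (nat_lit 494) (nat_lit 403) (nat_lit 243)) (XT.lf (nat_lit 0) (nat_lit 2838234313) (nat_lit 456) (nat_lit 14801458623) (nat_lit 76) (nat_lit 1116560324) (nat_lit 122) (nat_lit 5) (nat_lit 128) (nat_lit 5) (nat_lit 123) (nat_lit 5) (nat_lit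 495) (nat_lit 403) (nat_lit 242))) (XT.nd (nat_lit 78) (nat_lit 304) (nat_lit 0) (XT.lf (nat_lit 0) (nat_lit 7155878488) (nat_lit 456) (nat_lit 4115774272) (nat_lit 76) (nat_lit 7722055390) (nat_lit 122) (nat_lit 5) (nat_lit 128) (nat_lit 5) (nat_lit 123) (nat_lit 5) (nat_lit 496) (nat_lit 403) (nat_lit 241)) (XT.nd (nat_lit 78) (nat_lit 0) (nat_lit 0) (XT.lf (nat_lit 0) (nat_lit 6857488258) (nat_lit 304) (nat_lit 4736607293) (nat_lit 380) (nat_lit 7641133709) (nat_lit 118) (nat_lit 5) (nat_lit 122) (nat_lit 5) (nat_lit 123) (nat_lit 5) (nat_lit 497) (nat_lit 403) (nat_lit 240)) (XT.lf (nat_lit 0) (nat_lit 16151161716) (nat_lit 380) (nat_lit 1403865268) (nat_lit 76) (nat_lit 1925953607) (nat_lit 118) (nat_lit 5) (nat_lit 123) (nat_lit 5) (nat_lit 119) (nat_lit 5) (nat_lit 498) (nat_lit 403) (nat_lit 239))))) (XT.nd (nat_lit 234) (nat_lit 684) (nat_lit 0) (XT.nd (nat_lit 78) (nat_lit 304) (nat_lit 0) (XT.lf (nat_lit 0) (nat_lit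 1139703907) (nat_lit 456) (nat_lit 9865667044) (nat_lit 76) (nat_lit 8724419086) (nat_lit 112) (nat_lit 5) (nat_lit 118) (nat_lit 5) (nat_lit 113) (nat_lit 5) (nat_lit 499) (nat_lit 403) (nat_lit 238)) (XT.nd (nat_lit 78) (nat_lit 0) (nat_lit 0) (XT.lf (nat_lit 0) (nat_lit 1373159405) (nat_lit 304) (nat_lit 4289297666) (nat_lit 380) (nat_lit 14320511283) (nat_lit 108) (nat_lit 5) (nat_lit 112) (nat_lit 5) (nat_lit 113) (nat_lit 5) (nat_lit 500) (nat_lit 403) (nat_lit 237)) (XT.lf (nat_lit 0) (nat_lit 10348978197) (nat_lit 380) (nat_lit 7302365710) (nat_lit 76) (nat_lit 2588401451) (nat_lit 108) (nat_lit 5) (nat_lit 113) (nat_lit 5) (nat_lit 109) (nat_lit 5) (nat_lit 501) (nat_lit 403) (nat_lit 236)))) (XT.nd (nat_lit 78) (nat_lit 380) (nat_lit 0) (XT.lf (nat_lit 0) (nat_lit 4242871501) (nat_lit 304) (nat_lit 10932549277) (nat_lit 380) (nat_lit 5325314657) (nat_lit 104) (nat_lit 5) (nat_lit 108) (nat_lit 5) (nat_lit 109) (nat_lit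 5) (nat_lit 502) (nat_lit 403) (nat_lit 235)) (XT.nd (nat_lit 78) (nat_lit 380) (nat_lit 0) (XT.lf (nat_lit 0) (nat_lit 16102506575) (nat_lit 304) (nat_lit 4035216740) (nat_lit 380) (nat_lit 628436703) (nat_lit 104) (nat_lit 5) (nat_lit 108) (nat_lit 5) (nat_lit 109) (nat_lit 5) (nat_lit 503) (nat_lit 403) (nat_lit 234)) (XT.lf (nat_lit 0) (nat_lit 4165015288) (nat_lit 380) (nat_lit 13840816082) (nat_lit 76) (nat_lit 3029377963) (nat_lit 99) (nat_lit 5) (nat_lit 104) (nat_lit 5) (nat_lit 100) (nat_lit 5) (nat_lit 504) (nat_lit 403) (nat_lit 233)))))) (XT.nd (nat_lit 51714) (nat_lit 0) (nat_lit 33972) (XT.nd (nat_lit 51480) (nat_lit 0) (nat_lit 35188) (XT.nd (nat_lit 78) (nat_lit 304) (nat_lit 0) (XT.lf (nat_lit 0) (nat_lit 9094660478) (nat_lit 380) (nat_lit 2002657155) (nat_lit 76) (nat_lit 10211265392) (nat_lit 99) (nat_lit 5) (nat_lit 104) (nat_lit 5) (nat_lit 100) (nat_lit 5) (nat_lit 505) (nat_lit 403) (nat_lit 232)) (XT.lf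 (nat_lit 0) (nat_lit 10190852177) (nat_lit 304) (nat_lit 3988903291) (nat_lit 380) (nat_lit 7406532811) (nat_lit 95) (nat_lit 5) (nat_lit 99) (nat_lit 5) (nat_lit 100) (nat_lit 5) (nat_lit 506) (nat_lit 403) (nat_lit 231))) (XT.nd (nat_lit 78) (nat_lit 1292) (nat_lit 0) (XT.lf (nat_lit 0) (nat_lit 2520752920) (nat_lit 1292) (nat_lit 626086997) (nat_lit 1292) (nat_lit 626086997) (nat_lit 575) (nat_lit 3) (nat_lit 592) (nat_lit 3) (nat_lit 592) (nat_lit 5) (nat_lit 404) (nat_lit 404) (nat_lit 332)) (XT.nd (nat_lit 78) (nat_lit 1292) (nat_lit 0) (XT.lf (nat_lit 76) (nat_lit 2435259185) (nat_lit 0) (nat_lit 4073368350) (nat_lit 1292) (nat_lit 1083857652) (nat_lit 576) (nat_lit 5) (nat_lit 575) (nat_lit 3) (nat_lit 592) (nat_lit 5) (nat_lit 405) (nat_lit 404) (nat_lit 331)) (XT.lf (nat_lit 0) (nat_lit 331587035) (nat_lit 1292) (nat_lit 1448394408) (nat_lit 1368) (nat_lit 5860606362) (nat_lit 558) (nat_lit 5) (nat_lit 575) (nat_lit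 3) (nat_lit 576) (nat_lit 5) (nat_lit 406) (nat_lit 404) (nat_lit 330))))) (XT.nd (nat_lit 234) (nat_lit 1292) (nat_lit 0) (XT.nd (nat_lit 78) (nat_lit 0) (nat_lit 0) (XT.lf (nat_lit 0) (nat_lit 1743520796) (nat_lit 1292) (nat_lit 5354844526) (nat_lit 1368) (nat_lit 591502440) (nat_lit 559) (nat_lit 5) (nat_lit 576) (nat_lit 5) (nat_lit 577) (nat_lit 5) (nat_lit 407) (nat_lit 404) (nat_lit 329)) (XT.nd (nat_lit 78) (nat_lit 0) (nat_lit 0) (XT.lf (nat_lit 0) (nat_lit 3169566294) (nat_lit 1292) (nat_lit 1557880104) (nat_lit 1368) (nat_lit 3012981644) (nat_lit 559) (nat_lit 5) (nat_lit 576) (nat_lit 5) (nat_lit 577) (nat_lit 5) (nat_lit 408) (nat_lit 404) (nat_lit 328)) (XT.lf (nat_lit 76) (nat_lit 2326088066) (nat_lit 0) (nat_lit 2278148367) (nat_lit 1368) (nat_lit 3188172967) (nat_lit 560) (nat_lit 5) (nat_lit 559) (nat_lit 5) (nat_lit 577) (nat_lit 5) (nat_lit 409) (nat_lit 404) (nat_lit 327)))) (XT.nd (nat_lit 78) (nat_lit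 1368) (nat_lit 0) (XT.lf (nat_lit 0) (nat_lit 6045212934) (nat_lit 1292) (nat_lit 1557980080) (nat_lit 1368) (nat_lit 242696827) (nat_lit 560) (nat_lit 5) (nat_lit 577) (nat_lit 5) (nat_lit 578) (nat_lit 5) (nat_lit 410) (nat_lit 404) (nat_lit 326)) (XT.nd (nat_lit 78) (nat_lit 1368) (nat_lit 0) (XT.lf (nat_lit 76) (nat_lit 2425533253) (nat_lit 0) (nat_lit 5086644546) (nat_lit 1368) (nat_lit 388330198) (nat_lit 561) (nat_lit 5) (nat_lit 560) (nat_lit 5) (nat_lit 578) (nat_lit 5) (nat_lit 411) (nat_lit 404) (nat_lit 325)) (XT.lf (nat_lit 0) (nat_lit 1015622916) (nat_lit 1368) (nat_lit 1473118637) (nat_lit 1444) (nat_lit 5467808160) (nat_lit 542) (nat_lit 5) (nat_lit 560) (nat_lit 5) (nat_lit 561) (nat_lit 5) (nat_lit 412) (nat_lit 404) (nat_lit 324))))))) (XT.nd (nat_lit 858) (nat_lit 7828) (nat_lit 0) (XT.nd (nat_lit 390) (nat_lit 1368) (nat_lit 0) (XT.nd (nat_lit 156) (nat_lit 1368) (nat_lit 0) (XT.nd (nat_lit 78) (nat_lit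 0) (nat_lit 0) (XT.lf (nat_lit 0) (nat_lit 2428027799) (nat_lit 1368) (nat_lit 5394319994) (nat_lit 1444) (nat_lit 191612505) (nat_lit 543) (nat_lit 5) (nat_lit 561) (nat_lit 5) (nat_lit 562) (nat_lit 5) (nat_lit 413) (nat_lit 404) (nat_lit 323)) (XT.lf (nat_lit 0) (nat_lit 3863000478) (nat_lit 1368) (nat_lit 1294903827) (nat_lit 1444) (nat_lit 2914739007) (nat_lit 543) (nat_lit 5) (nat_lit 561) (nat_lit 5) (nat_lit 562) (nat_lit 5) (nat_lit 414) (nat_lit 404) (nat_lit 322))) (XT.nd (nat_lit 78) (nat_lit 1368) (nat_lit 0) (XT.lf (nat_lit 76) (nat_lit 2904735837) (nat_lit 0) (nat_lit 2409313007) (nat_lit 1444) (nat_lit 2818714018) (nat_lit 544) (nat_lit 5) (nat_lit 543) (nat_lit 5) (nat_lit 562) (nat_lit 5) (nat_lit 415) (nat_lit 404) (nat_lit 321)) (XT.nd (nat_lit 78) (nat_lit 1444) (nat_lit 0) (XT.lf (nat_lit 0) (nat_lit 6774504054) (nat_lit 1368) (nat_lit 1011040741) (nat_lit 1444) (nat_lit 408942488) (nat_lit 544) (nat_lit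 5) (nat_lit 562) (nat_lit 5) (nat_lit 563) (nat_lit 5) (nat_lit 416) (nat_lit 404) (nat_lit 320)) (XT.lf (nat_lit 0) (nat_lit 13721805) (nat_lit 1444) (nat_lit 4959860850) (nat_lit 1520) (nat_lit 3283730710) (nat_lit 525) (nat_lit 5) (nat_lit 544) (nat_lit 5) (nat_lit 545) (nat_lit 5) (nat_lit 417) (nat_lit 404) (nat_lit 319))))) (XT.nd (nat_lit 234) (nat_lit 1368) (nat_lit 0) (XT.nd (nat_lit 78) (nat_lit 0) (nat_lit 76) (XT.lf (nat_lit 0) (nat_lit 1433877929) (nat_lit 1444) (nat_lit 645198609) (nat_lit 1520) (nat_lit 6242605507) (nat_lit 525) (nat_lit 5) (nat_lit 544) (nat_lit 5) (nat_lit 545) (nat_lit 5) (nat_lit 418) (nat_lit 404) (nat_lit 318)) (XT.nd (nat_lit 78) (nat_lit 0) (nat_lit 0) (XT.lf (nat_lit 0) (nat_lit 2883442675) (nat_lit 1444) (nat_lit 4607847861) (nat_lit 1520) (nat_lit 896036873) (nat_lit 526) (nat_lit 5) (nat_lit 545) (nat_lit 5) (nat_lit 546) (nat_lit 5) (nat_lit 419) (nat_lit 404) (nat_lit 317)) (XT.lf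 (nat_lit 0) (nat_lit 4351167659) (nat_lit 1444) (nat_lit 187029809) (nat_lit 1520) (nat_lit 3916314071) (nat_lit 526) (nat_lit 5) (nat_lit 545) (nat_lit 5) (nat_lit 546) (nat_lit 5) (nat_lit 420) (nat_lit 404) (nat_lit 316)))) (XT.nd (nat_lit 78) (nat_lit 1444) (nat_lit 0) (XT.lf (nat_lit 76) (nat_lit 4359348404) (nat_lit 0) (nat_lit 1488812252) (nat_lit 1520) (nat_lit 2674889478) (nat_lit 527) (nat_lit 5) (nat_lit 526) (nat_lit 5) (nat_lit 546) (nat_lit 5) (nat_lit 421) (nat_lit 404) (nat_lit 315)) (XT.nd (nat_lit 78) (nat_lit 1520) (nat_lit 0) (XT.lf (nat_lit 76) (nat_lit 380186110) (nat_lit 0) (nat_lit 6981257026) (nat_lit 1520) (nat_lit 1231798251) (nat_lit 528) (nat_lit 5) (nat_lit 527) (nat_lit 5) (nat_lit 547) (nat_lit 5) (nat_lit 422) (nat_lit 404) (nat_lit 314)) (XT.lf (nat_lit 0) (nat_lit 247304295) (nat_lit 1520) (nat_lit 3625249871) (nat_lit 1596) (nat_lit 4792053664) (nat_lit 507) (nat_lit 5) (nat_lit 527) (nat_lit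 5) (nat_lit 528) (nat_lit 5) (nat_lit 423) (nat_lit 404) (nat_lit 313)))))) (XT.nd (nat_lit 468) (nat_lit 6384) (nat_lit 0) (XT.nd (nat_lit 234) (nat_lit 1444) (nat_lit 0) (XT.nd (nat_lit 78) (nat_lit 0) (nat_lit 76) (XT.lf (nat_lit 76) (nat_lit 1039433419) (nat_lit 0) (nat_lit 679682486) (nat_lit 1596) (nat_lit 7018538803) (nat_lit 508) (nat_lit 5) (nat_lit 507) (nat_lit 5) (nat_lit 528) (nat_lit 5) (nat_lit 424) (nat_lit 404) (nat_lit 312)) (XT.nd (nat_lit 78) (nat_lit 0) (nat_lit 0) (XT.lf (nat_lit 0) (nat_lit 3234884068) (nat_lit 1520) (nat_lit 3002821866) (nat_lit 1596) (nat_lit 2574174383) (nat_lit 508) (nat_lit 5) (nat_lit 528) (nat_lit 5) (nat_lit 529) (nat_lit 5) (nat_lit 425) (nat_lit 404) (nat_lit 311)) (XT.lf (nat_lit 76) (nat_lit 1784998366) (nat_lit 0) (nat_lit 2985883343) (nat_lit 1596) (nat_lit 4116918490) (nat_lit 509) (nat_lit 5) (nat_lit 508) (nat_lit 5) (nat_lit 529) (nat_lit 5) (nat_lit 426) (nat_lit 404)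 (nat_lit 310)))) (XT.nd (nat_lit 78) (nat_lit 1596) (nat_lit 0) (XT.lf (nat_lit 0) (nat_lit 6334273320) (nat_lit 1520) (nat_lit 2278660840) (nat_lit 76) (nat_lit 352378720) (nat_lit 509) (nat_lit 5) (nat_lit 529) (nat_lit 5) (nat_lit 510) (nat_lit 5) (nat_lit 427) (nat_lit 404) (nat_lit 309)) (XT.nd (nat_lit 78) (nat_lit 76) (nat_lit 0) (XT.lf (nat_lit 0) (nat_lit 2636351351) (nat_lit 1520) (nat_lit 5304218630) (nat_lit 1596) (nat_lit 1103580817) (nat_lit 489) (nat_lit 5) (nat_lit 509) (nat_lit 5) (nat_lit 510) (nat_lit 5) (nat_lit 428) (nat_lit 404) (nat_lit 308)) (XT.lf (nat_lit 0) (nat_lit 438796891) (nat_lit 1596) (nat_lit 1467379704) (nat_lit 76) (nat_lit 7218530705) (nat_lit 488) (nat_lit 5) (nat_lit 509) (nat_lit 5) (nat_lit 489) (nat_lit 5) (nat_lit 429) (nat_lit 404) (nat_lit 307))))) (XT.nd (nat_lit 234) (nat_lit 3116) (nat_lit 0) (XT.nd (nat_lit 78) (nat_lit 1672) (nat_lit 0) (XT.lf (nat_lit 0) (nat_lit 2006364303)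 (nat_lit 1672) (nat_lit 5625693150) (nat_lit 76) (nat_lit 1574496487) (nat_lit 467) (nat_lit 5) (nat_lit 489) (nat_lit 5) (nat_lit 468) (nat_lit 5) (nat_lit 430) (nat_lit 404) (nat_lit 306)) (XT.nd (nat_lit 78) (nat_lit 1672) (nat_lit 0) (XT.lf (nat_lit 0) (nat_lit 3603625939) (nat_lit 1672) (nat_lit 573173719) (nat_lit 76) (nat_lit 5113278137) (nat_lit 467) (nat_lit 5) (nat_lit 489) (nat_lit 5) (nat_lit 468) (nat_lit 5) (nat_lit 431) (nat_lit 404) (nat_lit 305)) (XT.lf (nat_lit 0) (nat_lit 4620801624) (nat_lit 1672) (nat_lit 618313952) (nat_lit 1748) (nat_lit 4136037897) (nat_lit 445) (nat_lit 5) (nat_lit 467) (nat_lit 5) (nat_lit 468) (nat_lit 5) (nat_lit 432) (nat_lit 404) (nat_lit 304)))) (XT.nd (nat_lit 78) (nat_lit 1368) (nat_lit 0) (XT.lf (nat_lit 0) (nat_lit 430075341) (nat_lit 1748) (nat_lit 6480093206) (nat_lit 1824) (nat_lit 2551711909) (nat_lit 422) (nat_lit 5) (nat_lit 445) (nat_lit 5) (nat_lit 446) (nat_lit 5)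 (nat_lit 433) (nat_lit 404) (nat_lit 303)) (XT.nd (nat_lit 78) (nat_lit 1368) (nat_lit 0) (XT.lf (nat_lit 0) (nat_lit 5758063286) (nat_lit 1748) (nat_lit 2869514628) (nat_lit 1824) (nat_lit 922512084) (nat_lit 422) (nat_lit 5) (nat_lit 445) (nat_lit 5) (nat_lit 446) (nat_lit 5) (nat_lit 434) (nat_lit 404) (nat_lit 302)) (XT.lf (nat_lit 0) (nat_lit 722278025) (nat_lit 1368) (nat_lit 8097909657) (nat_lit 76) (nat_lit 819932481) (nat_lit 404) (nat_lit 5) (nat_lit 422) (nat_lit 5) (nat_lit 405) (nat_lit 5) (nat_lit 435) (nat_lit 404) (nat_lit 301))))))))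
noncomputable def xc152 : XT := (XT.nd (nat_lit 1716) (nat_lit 7904) (nat_lit 0) (XT.nd (nat_lit 858) (nat_lit 4484) (nat_lit 0) (XT.nd (nat_lit 390) (nat_lit 3496) (nat_lit 0) (XT.nd (nat_lit 156) (nat_lit 836) (nat_lit 0) (XT.nd (nat_lit 78) (nat_lit 912) (nat_lit 0) (XT.lf (nat_lit 0) (nat_lit 2409829585) (nat_lit 1368) (nat_lit 2742857704) (nat_lit 76) (nat_lit 4578703664) (nat_lit 404) (nat_lit 5) (nat_lit 422) (nat_lit 5) (nat_lit 405) (nat_lit 5) (nat_lit 436) (nat_lit 404) (nat_lit 300)) (XT.lf (nat_lit 0) (nat_lit 2734900455) (nat_lit 912) (nat_lit 1392016071) (nat_lit 988) (nat_lit 5697661161) (nat_lit 392) (nat_lit 5) (nat_lit 404) (nat_lit 5) (nat_lit 405) (nat_lit 5) (nat_lit 437) (nat_lit 404) (nat_lit 299))) (XT.nd (nat_lit 78) (nat_lit 836) (nat_lit 0) (XT.lf (nat_lit 0) (nat_lit 5891078044) (nat_lit 988) (nat_lit 1596434993) (nat_lit 76) (nat_lit 2431866556) (nat_lit 392) (nat_lit 5) (nat_lit 405) (nat_lit 5)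 (nat_lit 393) (nat_lit 5) (nat_lit 438) (nat_lit 404) (nat_lit 298)) (XT.nd (nat_lit 78) (nat_lit 0) (nat_lit 0) (XT.lf (nat_lit 0) (nat_lit 4030133105) (nat_lit 836) (nat_lit 3674537094) (nat_lit 912) (nat_lit 2311130365) (nat_lit 381) (nat_lit 5) (nat_lit 392) (nat_lit 5) (nat_lit 393) (nat_lit 5) (nat_lit 439) (nat_lit 404) (nat_lit 297)) (XT.lf (nat_lit 0) (nat_lit 9545766666) (nat_lit 912) (nat_lit 345002238) (nat_lit 76) (nat_lit 223562256) (nat_lit 381) (nat_lit 5) (nat_lit 393) (nat_lit 5) (nat_lit 382) (nat_lit 5) (nat_lit 440) (nat_lit 404) (nat_lit 296))))) (XT.nd (nat_lit 234) (nat_lit 1672) (nat_lit 0) (XT.nd (nat_lit 78) (nat_lit 836) (nat_lit 0) (XT.lf (nat_lit 0) (nat_lit 1232341519) (nat_lit 988) (nat_lit 4786809409) (nat_lit 76) (nat_lit 4194743236) (nat_lit 368) (nat_lit 5) (nat_lit 381) (nat_lit 5) (nat_lit 369) (nat_lit 5) (nat_lit 441) (nat_lit 404) (nat_lit 295)) (XT.nd (nat_lit 78) (nat_lit 0) (nat_lit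 0) (XT.lf (nat_lit 0) (nat_lit 992912101) (nat_lit 836) (nat_lit 2057123479) (nat_lit 912) (nat_lit 7265575541) (nat_lit 357) (nat_lit 5) (nat_lit 368) (nat_lit 5) (nat_lit 369) (nat_lit 5) (nat_lit 442) (nat_lit 404) (nat_lit 294)) (XT.lf (nat_lit 0) (nat_lit 4929169342) (nat_lit 912) (nat_lit 3499193347) (nat_lit 76) (nat_lit 1990503424) (nat_lit 357) (nat_lit 5) (nat_lit 369) (nat_lit 5) (nat_lit 358) (nat_lit 5) (nat_lit 443) (nat_lit 404) (nat_lit 293)))) (XT.nd (nat_lit 78) (nat_lit 836) (nat_lit 0) (XT.lf (nat_lit 0) (nat_lit 2439056832) (nat_lit 836) (nat_lit 4416551683) (nat_lit 912) (nat_lit 3668388541) (nat_lit 346) (nat_lit 5) (nat_lit 357) (nat_lit 5) (nat_lit 358) (nat_lit 5) (nat_lit 444) (nat_lit 404) (nat_lit 292)) (XT.nd (nat_lit 78) (nat_lit 836) (nat_lit 0) (XT.lf (nat_lit 0) (nat_lit 8523545737) (nat_lit 836) (nat_lit 301032996) (nat_lit 912) (nat_lit 1806577038) (nat_lit 346) (nat_lit 5) (nat_lit 357) (nat_lit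 5) (nat_lit 358) (nat_lit 5) (nat_lit 445) (nat_lit 404) (nat_lit 291)) (XT.lf (nat_lit 0) (nat_lit 123613566) (nat_lit 836) (nat_lit 6744204409) (nat_lit 76) (nat_lit 3871985566) (nat_lit 335) (nat_lit 5) (nat_lit 346) (nat_lit 5) (nat_lit 336) (nat_lit 5) (nat_lit 446) (nat_lit 404) (nat_lit 290)))))) (XT.nd (nat_lit 390) (nat_lit 2204) (nat_lit 0) (XT.nd (nat_lit 156) (nat_lit 1520) (nat_lit 0) (XT.nd (nat_lit 78) (nat_lit 760) (nat_lit 0) (XT.lf (nat_lit 0) (nat_lit 2065486719) (nat_lit 836) (nat_lit 635028395) (nat_lit 76) (nat_lit 8149929848) (nat_lit 335) (nat_lit 5) (nat_lit 346) (nat_lit 5) (nat_lit 336) (nat_lit 5) (nat_lit 447) (nat_lit 404) (nat_lit 289)) (XT.lf (nat_lit 0) (nat_lit 4074574311) (nat_lit 836) (nat_lit 5322484812) (nat_lit 76) (nat_lit 1565677352) (nat_lit 325) (nat_lit 5) (nat_lit 336) (nat_lit 5) (nat_lit 326) (nat_lit 5) (nat_lit 448) (nat_lit 404) (nat_lit 288))) (XT.nd (nat_lit 78) (nat_lit 760)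 (nat_lit 0) (XT.lf (nat_lit 0) (nat_lit 947046265) (nat_lit 760) (nat_lit 5186738361) (nat_lit 836) (nat_lit 4943295084) (nat_lit 315) (nat_lit 5) (nat_lit 325) (nat_lit 5) (nat_lit 326) (nat_lit 5) (nat_lit 449) (nat_lit 404) (nat_lit 287)) (XT.nd (nat_lit 78) (nat_lit 760) (nat_lit 0) (XT.lf (nat_lit 0) (nat_lit 7394327994) (nat_lit 760) (nat_lit 857418098) (nat_lit 836) (nat_lit 2941616998) (nat_lit 315) (nat_lit 5) (nat_lit 325) (nat_lit 5) (nat_lit 326) (nat_lit 5) (nat_lit 450) (nat_lit 404) (nat_lit 286)) (XT.lf (nat_lit 0) (nat_lit 2650491180) (nat_lit 760) (nat_lit 7784084141) (nat_lit 836) (nat_lit 876951174) (nat_lit 305) (nat_lit 5) (nat_lit 315) (nat_lit 5) (nat_lit 316) (nat_lit 5) (nat_lit 451) (nat_lit 404) (nat_lit 285))))) (XT.nd (nat_lit 234) (nat_lit 1444) (nat_lit 0) (XT.nd (nat_lit 78) (nat_lit 684) (nat_lit 0) (XT.lf (nat_lit 0) (nat_lit 1226526545) (nat_lit 836) (nat_lit 2184724353) (nat_lit 76) (nat_lit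 8020374285) (nat_lit 304) (nat_lit 5) (nat_lit 315) (nat_lit 5) (nat_lit 305) (nat_lit 5) (nat_lit 452) (nat_lit 404) (nat_lit 284)) (XT.nd (nat_lit 78) (nat_lit 0) (nat_lit 0) (XT.lf (nat_lit 0) (nat_lit 3378933449) (nat_lit 760) (nat_lit 7106556393) (nat_lit 76) (nat_lit 1068152298) (nat_lit 295) (nat_lit 5) (nat_lit 305) (nat_lit 5) (nat_lit 296) (nat_lit 5) (nat_lit 453) (nat_lit 404) (nat_lit 283)) (XT.lf (nat_lit 0) (nat_lit 5594581492) (nat_lit 760) (nat_lit 479022379) (nat_lit 76) (nat_lit 5604095887) (nat_lit 295) (nat_lit 5) (nat_lit 305) (nat_lit 5) (nat_lit 296) (nat_lit 5) (nat_lit 454) (nat_lit 404) (nat_lit 282)))) (XT.nd (nat_lit 78) (nat_lit 760) (nat_lit 0) (XT.lf (nat_lit 0) (nat_lit 6344989200) (nat_lit 684) (nat_lit 1533929758) (nat_lit 760) (nat_lit 3924836143) (nat_lit 286) (nat_lit 5) (nat_lit 295) (nat_lit 5) (nat_lit 296) (nat_lit 5) (nat_lit 455) (nat_lit 404) (nat_lit 281)) (XT.nd (nat_lit 78) (nat_lit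 76) (nat_lit 0) (XT.lf (nat_lit 0) (nat_lit 1357908525) (nat_lit 684) (nat_lit 8866561071) (nat_lit 760) (nat_lit 1707555446) (nat_lit 277) (nat_lit 5) (nat_lit 286) (nat_lit 5) (nat_lit 287) (nat_lit 5) (nat_lit 456) (nat_lit 404) (nat_lit 280)) (XT.lf (nat_lit 0) (nat_lit 577293541) (nat_lit 760) (nat_lit 3710791960) (nat_lit 76) (nat_lit 7774097009) (nat_lit 276) (nat_lit 5) (nat_lit 286) (nat_lit 5) (nat_lit 277) (nat_lit 5) (nat_lit 457) (nat_lit 404) (nat_lit 279))))))) (XT.nd (nat_lit 858) (nat_lit 3572) (nat_lit 0) (XT.nd (nat_lit 390) (nat_lit 2356) (nat_lit 0) (XT.nd (nat_lit 156) (nat_lit 1292) (nat_lit 0) (XT.nd (nat_lit 78) (nat_lit 0) (nat_lit 0) (XT.lf (nat_lit 0) (nat_lit 2892898501) (nat_lit 760) (nat_lit 8894681982) (nat_lit 76) (nat_lit 406982231) (nat_lit 267) (nat_lit 5) (nat_lit 277) (nat_lit 5) (nat_lit 268) (nat_lit 5) (nat_lit 458) (nat_lit 404) (nat_lit 278)) (XT.lf (nat_lit 0) (nat_lit 5292235738)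 (nat_lit 760) (nat_lit 1875959176) (nat_lit 76) (nat_lit 5160650919) (nat_lit 267) (nat_lit 5) (nat_lit 277) (nat_lit 5) (nat_lit 268) (nat_lit 5) (nat_lit 459) (nat_lit 404) (nat_lit 277))) (XT.nd (nat_lit 78) (nat_lit 684) (nat_lit 0) (XT.lf (nat_lit 0) (nat_lit 5334104159) (nat_lit 608) (nat_lit 2424358676) (nat_lit 684) (nat_lit 4706977359) (nat_lit 259) (nat_lit 5) (nat_lit 267) (nat_lit 5) (nat_lit 268) (nat_lit 5) (nat_lit 460) (nat_lit 404) (nat_lit 276)) (XT.nd (nat_lit 78) (nat_lit 76) (nat_lit 0) (XT.lf (nat_lit 0) (nat_lit 75352941) (nat_lit 608) (nat_lit 10211933328) (nat_lit 684) (nat_lit 2317218308) (nat_lit 251) (nat_lit 5) (nat_lit 259) (nat_lit 5) (nat_lit 260) (nat_lit 5) (nat_lit 461) (nat_lit 404) (nat_lit 275)) (XT.lf (nat_lit 0) (nat_lit 167496200) (nat_lit 684) (nat_lit 5258946688) (nat_lit 76) (nat_lit 7318920395) (nat_lit 250) (nat_lit 5) (nat_lit 259) (nat_lit 5) (nat_lit 251) (nat_lit 5) (nat_lit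 462) (nat_lit 404) (nat_lit 274))))) (XT.nd (nat_lit 234) (nat_lit 1140) (nat_lit 0) (XT.nd (nat_lit 78) (nat_lit 608) (nat_lit 0) (XT.lf (nat_lit 0) (nat_lit 2150657309) (nat_lit 608) (nat_lit 519027543) (nat_lit 684) (nat_lit 10219075188) (nat_lit 242) (nat_lit 5) (nat_lit 250) (nat_lit 5) (nat_lit 251) (nat_lit 5) (nat_lit 463) (nat_lit 404) (nat_lit 273)) (XT.nd (nat_lit 78) (nat_lit 608) (nat_lit 0) (XT.lf (nat_lit 0) (nat_lit 5271537602) (nat_lit 684) (nat_lit 3302963035) (nat_lit 76) (nat_lit 4459534989) (nat_lit 242) (nat_lit 5) (nat_lit 251) (nat_lit 5) (nat_lit 243) (nat_lit 5) (nat_lit 464) (nat_lit 404) (nat_lit 272)) (XT.lf (nat_lit 0) (nat_lit 4315391656) (nat_lit 608) (nat_lit 3626752917) (nat_lit 684) (nat_lit 5239741043) (nat_lit 234) (nat_lit 5) (nat_lit 242) (nat_lit 5) (nat_lit 243) (nat_lit 5) (nat_lit 465) (nat_lit 404) (nat_lit 271)))) (XT.nd (nat_lit 78) (nat_lit 1140) (nat_lit 0) (XT.lf (nat_lit 0) (nat_lit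 10683098892) (nat_lit 684) (nat_lit 1229523248) (nat_lit 76) (nat_lit 1419734930) (nat_lit 234) (nat_lit 5) (nat_lit 243) (nat_lit 5) (nat_lit 235) (nat_lit 5) (nat_lit 466) (nat_lit 404) (nat_lit 270)) (XT.nd (nat_lit 78) (nat_lit 532) (nat_lit 0) (XT.lf (nat_lit 0) (nat_lit 46059756) (nat_lit 608) (nat_lit 6880731648) (nat_lit 76) (nat_lit 6557991819) (nat_lit 226) (nat_lit 5) (nat_lit 234) (nat_lit 5) (nat_lit 227) (nat_lit 5) (nat_lit 467) (nat_lit 404) (nat_lit 269)) (XT.lf (nat_lit 0) (nat_lit 947198372) (nat_lit 532) (nat_lit 1812856262) (nat_lit 608) (nat_lit 10879851138) (nat_lit 219) (nat_lit 5) (nat_lit 226) (nat_lit 5) (nat_lit 227) (nat_lit 5) (nat_lit 468) (nat_lit 404) (nat_lit 268)))))) (XT.nd (nat_lit 468) (nat_lit 1976) (nat_lit 0) (XT.nd (nat_lit 234) (nat_lit 1064) (nat_lit 0) (XT.nd (nat_lit 78) (nat_lit 532) (nat_lit 0) (XT.lf (nat_lit 0) (nat_lit 5582793284) (nat_lit 608) (nat_lit 4813284322) (nat_lit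 76) (nat_lit 3400966815) (nat_lit 219) (nat_lit 5) (nat_lit 227) (nat_lit 5) (nat_lit 220) (nat_lit 5) (nat_lit 469) (nat_lit 404) (nat_lit 267)) (XT.nd (nat_lit 78) (nat_lit 0) (nat_lit 0) (XT.lf (nat_lit 0) (nat_lit 3235894710) (nat_lit 532) (nat_lit 5245271855) (nat_lit 608) (nat_lit 5475778555) (nat_lit 212) (nat_lit 5) (nat_lit 219) (nat_lit 5) (nat_lit 220) (nat_lit 5) (nat_lit 470) (nat_lit 404) (nat_lit 266)) (XT.lf (nat_lit 0) (nat_lit 11456365496) (nat_lit 608) (nat_lit 2626758070) (nat_lit 76) (nat_lit 36545917) (nat_lit 212) (nat_lit 5) (nat_lit 220) (nat_lit 5) (nat_lit 213) (nat_lit 5) (nat_lit 471) (nat_lit 404) (nat_lit 265)))) (XT.nd (nat_lit 78) (nat_lit 456) (nat_lit 0) (XT.lf (nat_lit 0) (nat_lit 261090546) (nat_lit 608) (nat_lit 8635447981) (nat_lit 76) (nat_lit 5387918547) (nat_lit 204) (nat_lit 5) (nat_lit 212) (nat_lit 5) (nat_lit 205) (nat_lit 5) (nat_lit 472) (nat_lit 404) (nat_lit 264)) (XT.nd (nat_lit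 78) (nat_lit 456) (nat_lit 0) (XT.lf (nat_lit 0) (nat_lit 3212702810) (nat_lit 608) (nat_lit 362139109) (nat_lit 76) (nat_lit 10877261231) (nat_lit 204) (nat_lit 5) (nat_lit 212) (nat_lit 5) (nat_lit 205) (nat_lit 5) (nat_lit 473) (nat_lit 404) (nat_lit 263)) (XT.lf (nat_lit 0) (nat_lit 6275597236) (nat_lit 532) (nat_lit 6468666247) (nat_lit 76) (nat_lit 1877796267) (nat_lit 198) (nat_lit 5) (nat_lit 205) (nat_lit 5) (nat_lit 199) (nat_lit 5) (nat_lit 474) (nat_lit 404) (nat_lit 262))))) (XT.nd (nat_lit 234) (nat_lit 912) (nat_lit 0) (XT.nd (nat_lit 78) (nat_lit 532) (nat_lit 0) (XT.lf (nat_lit 0) (nat_lit 2033908090) (nat_lit 532) (nat_lit 7392157318) (nat_lit 608) (nat_lit 5368826307) (nat_lit 191) (nat_lit 5) (nat_lit 198) (nat_lit 5) (nat_lit 199) (nat_lit 5) (nat_lit 475) (nat_lit 404) (nat_lit 261)) (XT.nd (nat_lit 78) (nat_lit 532) (nat_lit 0) (XT.lf (nat_lit 0) (nat_lit 10776480637) (nat_lit 532) (nat_lit 1893600089)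 (nat_lit 608) (nat_lit 2300491337) (nat_lit 191) (nat_lit 5) (nat_lit 198) (nat_lit 5) (nat_lit 199) (nat_lit 5) (nat_lit 476) (nat_lit 404) (nat_lit 260)) (XT.lf (nat_lit 0) (nat_lit 859696672) (nat_lit 532) (nat_lit 10592362877) (nat_lit 76) (nat_lit 3696773963) (nat_lit 184) (nat_lit 5) (nat_lit 191) (nat_lit 5) (nat_lit 185) (nat_lit 5) (nat_lit 477) (nat_lit 404) (nat_lit 259)))) (XT.nd (nat_lit 78) (nat_lit 912) (nat_lit 0) (XT.lf (nat_lit 0) (nat_lit 4080585172) (nat_lit 532) (nat_lit 1836830875) (nat_lit 76) (nat_lit 9412376369) (nat_lit 184) (nat_lit 5) (nat_lit 191) (nat_lit 5) (nat_lit 185) (nat_lit 5) (nat_lit 478) (nat_lit 404) (nat_lit 258)) (XT.nd (nat_lit 78) (nat_lit 456) (nat_lit 0) (XT.lf (nat_lit 0) (nat_lit 7170533327) (nat_lit 456) (nat_lit 229561197) (nat_lit 532) (nat_lit 8113594221) (nat_lit 178) (nat_lit 5) (nat_lit 184) (nat_lit 5) (nat_lit 185) (nat_lit 5) (nat_lit 479) (nat_lit 404) (nat_lit 257))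 (XT.lf (nat_lit 0) (nat_lit 636595382) (nat_lit 456) (nat_lit 10189862409) (nat_lit 532) (nat_lit 4873998199) (nat_lit 172) (nat_lit 5) (nat_lit 178) (nat_lit 5) (nat_lit 179) (nat_lit 5) (nat_lit 480) (nat_lit 404) (nat_lit 256))))))))
noncomputable def xc153 : XT := (XT.nd (nat_lit 1716) (nat_lit 684) (nat_lit 0) (XT.nd (nat_lit 858) (nat_lit 2204) (nat_lit 0) (XT.nd (nat_lit 390) (nat_lit 1748) (nat_lit 0) (XT.nd (nat_lit 156) (nat_lit 380) (nat_lit 0) (XT.nd (nat_lit 78) (nat_lit 532) (nat_lit 0) (XT.lf (nat_lit 0) (nat_lit 9890187344) (nat_lit 456) (nat_lit 4476531480) (nat_lit 532) (nat_lit 1523334566) (nat_lit 172) (nat_lit 5) (nat_lit 178) (nat_lit 5) (nat_lit 179) (nat_lit 5) (nat_lit 481) (nat_lit 404) (nat_lit 255)) (XT.lf (nat_lit 0) (nat_lit 1887645717) (nat_lit 532) (nat_lit 12833256350) (nat_lit 76) (nat_lit 1361933856) (nat_lit 165) (nat_lit 5) (nat_lit 172) (nat_lit 5) (nat_lit 166) (nat_lit 5) (nat_lit 482)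 (nat_lit 404) (nat_lit 254))) (XT.nd (nat_lit 78) (nat_lit 380) (nat_lit 0) (XT.lf (nat_lit 0) (nat_lit 5404762837) (nat_lit 532) (nat_lit 3570547485) (nat_lit 76) (nat_lit 7302798199) (nat_lit 165) (nat_lit 5) (nat_lit 172) (nat_lit 5) (nat_lit 166) (nat_lit 5) (nat_lit 483) (nat_lit 404) (nat_lit 253)) (XT.nd (nat_lit 78) (nat_lit 0) (nat_lit 0) (XT.lf (nat_lit 0) (nat_lit 5938414975) (nat_lit 380) (nat_lit 3080717192) (nat_lit 456) (nat_lit 7457618257) (nat_lit 160) (nat_lit 5) (nat_lit 165) (nat_lit 5) (nat_lit 166) (nat_lit 5) (nat_lit 484) (nat_lit 404) (nat_lit 252)) (XT.lf (nat_lit 0) (nat_lit 12737381932) (nat_lit 456) (nat_lit 1029094591) (nat_lit 76) (nat_lit 2912258792) (nat_lit 160) (nat_lit 5) (nat_lit 166) (nat_lit 5) (nat_lit 161) (nat_lit 5) (nat_lit 485) (nat_lit 404) (nat_lit 251))))) (XT.nd (nat_lit 234) (nat_lit 836) (nat_lit 0) (XT.nd (nat_lit 78) (nat_lit 456) (nat_lit 0) (XT.lf (nat_lit 0) (nat_lit 8748022272)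 (nat_lit 456) (nat_lit 7847840301) (nat_lit 532) (nat_lit 287581983) (nat_lit 154) (nat_lit 5) (nat_lit 160) (nat_lit 5) (nat_lit 161) (nat_lit 5) (nat_lit 486) (nat_lit 404) (nat_lit 250)) (XT.nd (nat_lit 78) (nat_lit 0) (nat_lit 0) (XT.lf (nat_lit 0) (nat_lit 1624773591) (nat_lit 380) (nat_lit 1775589816) (nat_lit 456) (nat_lit 13691315768) (nat_lit 148) (nat_lit 5) (nat_lit 153) (nat_lit 5) (nat_lit 154) (nat_lit 5) (nat_lit 487) (nat_lit 404) (nat_lit 249)) (XT.lf (nat_lit 0) (nat_lit 7230643791) (nat_lit 456) (nat_lit 5660248671) (nat_lit 76) (nat_lit 4411701327) (nat_lit 148) (nat_lit 5) (nat_lit 154) (nat_lit 5) (nat_lit 149) (nat_lit 5) (nat_lit 488) (nat_lit 404) (nat_lit 248)))) (XT.nd (nat_lit 78) (nat_lit 456) (nat_lit 0) (XT.lf (nat_lit 0) (nat_lit 4371684715) (nat_lit 380) (nat_lit 6794991175) (nat_lit 456) (nat_lit 6350469704) (nat_lit 143) (nat_lit 5) (nat_lit 148) (nat_lit 5) (nat_lit 149) (nat_lit 5) (nat_lit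 489) (nat_lit 404) (nat_lit 247)) (XT.nd (nat_lit 78) (nat_lit 456) (nat_lit 0) (XT.lf (nat_lit 0) (nat_lit 14664657820) (nat_lit 380) (nat_lit 543867045) (nat_lit 456) (nat_lit 2526923430) (nat_lit 143) (nat_lit 5) (nat_lit 148) (nat_lit 5) (nat_lit 149) (nat_lit 5) (nat_lit 490) (nat_lit 404) (nat_lit 246)) (XT.lf (nat_lit 0) (nat_lit 1429782138) (nat_lit 456) (nat_lit 10719683139) (nat_lit 76) (nat_lit 5806981252) (nat_lit 137) (nat_lit 5) (nat_lit 143) (nat_lit 5) (nat_lit 138) (nat_lit 5) (nat_lit 491) (nat_lit 404) (nat_lit 245)))))) (XT.nd (nat_lit 390) (nat_lit 1064) (nat_lit 0) (XT.nd (nat_lit 156) (nat_lit 760) (nat_lit 0) (XT.nd (nat_lit 78) (nat_lit 380) (nat_lit 0) (XT.lf (nat_lit 0) (nat_lit 5445488298) (nat_lit 456) (nat_lit 426054389) (nat_lit 76) (nat_lit 12309715625) (nat_lit 137) (nat_lit 5) (nat_lit 143) (nat_lit 5) (nat_lit 138) (nat_lit 5) (nat_lit 492) (nat_lit 404) (nat_lit 244)) (XT.lf (nat_lit 0) (nat_lit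 9601068006) (nat_lit 456) (nat_lit 8222108705) (nat_lit 76) (nat_lit 586200081) (nat_lit 132) (nat_lit 5) (nat_lit 138) (nat_lit 5) (nat_lit 133) (nat_lit 5) (nat_lit 493) (nat_lit 404) (nat_lit 243))) (XT.nd (nat_lit 78) (nat_lit 456) (nat_lit 0) (XT.lf (nat_lit 0) (nat_lit 2352609901) (nat_lit 304) (nat_lit 11533788600) (nat_lit 380) (nat_lit 4754727974) (nat_lit 128) (nat_lit 5) (nat_lit 132) (nat_lit 5) (nat_lit 133) (nat_lit 5) (nat_lit 494) (nat_lit 404) (nat_lit 242)) (XT.nd (nat_lit 78) (nat_lit 456) (nat_lit 0) (XT.lf (nat_lit 0) (nat_lit 13234407307) (nat_lit 304) (nat_lit 5067905944) (nat_lit 380) (nat_lit 574301932) (nat_lit 128) (nat_lit 5) (nat_lit 132) (nat_lit 5) (nat_lit 133) (nat_lit 5) (nat_lit 495) (nat_lit 404) (nat_lit 241)) (XT.lf (nat_lit 0) (nat_lit 3675503821) (nat_lit 456) (nat_lit 13879941078) (nat_lit 76) (nat_lit 1560207912) (nat_lit 122) (nat_lit 5) (nat_lit 128) (nat_lit 5) (nat_lit 123) (nat_lit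 5) (nat_lit 496) (nat_lit 404) (nat_lit 240))))) (XT.nd (nat_lit 234) (nat_lit 760) (nat_lit 0) (XT.nd (nat_lit 78) (nat_lit 304) (nat_lit 0) (XT.lf (nat_lit 0) (nat_lit 8064196863) (nat_lit 456) (nat_lit 3004416505) (nat_lit 76) (nat_lit 8289551773) (nat_lit 122) (nat_lit 5) (nat_lit 128) (nat_lit 5) (nat_lit 123) (nat_lit 5) (nat_lit 497) (nat_lit 404) (nat_lit 239)) (XT.nd (nat_lit 78) (nat_lit 0) (nat_lit 0) (XT.lf (nat_lit 0) (nat_lit 8180458162) (nat_lit 304) (nat_lit 4403415299) (nat_lit 380) (nat_lit 7020791529) (nat_lit 118) (nat_lit 5) (nat_lit 122) (nat_lit 5) (nat_lit 123) (nat_lit 5) (nat_lit 498) (nat_lit 404) (nat_lit 238)) (XT.lf (nat_lit 0) (nat_lit 17219944133) (nat_lit 380) (nat_lit 257128233) (nat_lit 76) (nat_lit 2378503892) (nat_lit 118) (nat_lit 5) (nat_lit 123) (nat_lit 5) (nat_lit 119) (nat_lit 5) (nat_lit 499) (nat_lit 404) (nat_lit 237)))) (XT.nd (nat_lit 78) (nat_lit 304) (nat_lit 0) (XT.lf (nat_lit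 0) (nat_lit 1906209306) (nat_lit 456) (nat_lit 8885907017) (nat_lit 76) (nat_lit 9317290751) (nat_lit 112) (nat_lit 5) (nat_lit 118) (nat_lit 5) (nat_lit 113) (nat_lit 5) (nat_lit 500) (nat_lit 404) (nat_lit 236)) (XT.nd (nat_lit 78) (nat_lit 0) (nat_lit 0) (XT.lf (nat_lit 0) (nat_lit 2569952057) (nat_lit 304) (nat_lit 3942474963) (nat_lit 380) (nat_lit 13855363796) (nat_lit 108) (nat_lit 5) (nat_lit 112) (nat_lit 5) (nat_lit 113) (nat_lit 5) (nat_lit 501) (nat_lit 404) (nat_lit 235)) (XT.lf (nat_lit 0) (nat_lit 11280986772) (nat_lit 380) (nat_lit 6290219313) (nat_lit 76) (nat_lit 3058733123) (nat_lit 108) (nat_lit 5) (nat_lit 113) (nat_lit 5) (nat_lit 109) (nat_lit 5) (nat_lit 502) (nat_lit 404) (nat_lit 234))))))) (XT.nd (nat_lit 52260) (nat_lit 0) (nat_lit 31008) (XT.nd (nat_lit 51792) (nat_lit 0) (nat_lit 33592) (XT.nd (nat_lit 156) (nat_lit 304) (nat_lit 0) (XT.nd (nat_lit 78) (nat_lit 76) (nat_lit 0) (XT.lf (nat_lit 0)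 (nat_lit 5478302947) (nat_lit 304) (nat_lit 10718909292) (nat_lit 380) (nat_lit 4699073736) (nat_lit 104) (nat_lit 5) (nat_lit 108) (nat_lit 5) (nat_lit 109) (nat_lit 5) (nat_lit 503) (nat_lit 404) (nat_lit 233)) (XT.lf (nat_lit 0) (nat_lit 76359406) (nat_lit 380) (nat_lit 3615234578) (nat_lit 76) (nat_lit 17475698629) (nat_lit 103) (nat_lit 5) (nat_lit 108) (nat_lit 5) (nat_lit 104) (nat_lit 5) (nat_lit 504) (nat_lit 404) (nat_lit 232))) (XT.nd (nat_lit 78) (nat_lit 0) (nat_lit 0) (XT.lf (nat_lit 0) (nat_lit 4953486015) (nat_lit 380) (nat_lit 12976221954) (nat_lit 76) (nat_lit 3512009316) (nat_lit 99) (nat_lit 5) (nat_lit 104) (nat_lit 5) (nat_lit 100) (nat_lit 5) (nat_lit 505) (nat_lit 404) (nat_lit 231)) (XT.nd (nat_lit 51480) (nat_lit 0) (nat_lit 34884) (XT.lf (nat_lit 0) (nat_lit 9967897238) (nat_lit 380) (nat_lit 923680445) (nat_lit 76) (nat_lit 10829259125) (nat_lit 99) (nat_lit 5) (nat_lit 104) (nat_lit 5) (nat_lit 100)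 (nat_lit 5) (nat_lit 506) (nat_lit 404) (nat_lit 230)) (XT.lf (nat_lit 0) (nat_lit 70983980) (nat_lit 0) (nat_lit 70983980) (nat_lit 1292) (nat_lit 3678054412) (nat_lit 558) (nat_lit 5) (nat_lit 558) (nat_lit 3) (nat_lit 575) (nat_lit 3) (nat_lit 405) (nat_lit 405) (nat_lit 330))))) (XT.nd (nat_lit 234) (nat_lit 1292) (nat_lit 0) (XT.nd (nat_lit 78) (nat_lit 0) (nat_lit 0) (XT.lf (nat_lit 0) (nat_lit 1666224916) (nat_lit 1292) (nat_lit 3804825776) (nat_lit 1368) (nat_lit 2217340896) (nat_lit 558) (nat_lit 5) (nat_lit 575) (nat_lit 3) (nat_lit 576) (nat_lit 5) (nat_lit 406) (nat_lit 405) (nat_lit 329)) (XT.nd (nat_lit 78) (nat_lit 0) (nat_lit 0) (XT.lf (nat_lit 0) (nat_lit 3041415280) (nat_lit 1292) (nat_lit 57394766) (nat_lit 1368) (nat_lit 4639602399) (nat_lit 558) (nat_lit 5) (nat_lit 575) (nat_lit 3) (nat_lit 576) (nat_lit 5) (nat_lit 407) (nat_lit 405) (nat_lit 328)) (XT.lf (nat_lit 76) (nat_lit 3796398019) (nat_lit 0) (nat_lit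 637375268) (nat_lit 1368) (nat_lit 3355879102) (nat_lit 559) (nat_lit 5) (nat_lit 558) (nat_lit 5) (nat_lit 576) (nat_lit 5) (nat_lit 408) (nat_lit 405) (nat_lit 327)))) (XT.nd (nat_lit 78) (nat_lit 1368) (nat_lit 0) (XT.lf (nat_lit 0) (nat_lit 5832216259) (nat_lit 1292) (nat_lit 145091325) (nat_lit 1368) (nat_lit 1865056506) (nat_lit 559) (nat_lit 5) (nat_lit 576) (nat_lit 5) (nat_lit 577) (nat_lit 5) (nat_lit 409) (nat_lit 405) (nat_lit 326)) (XT.nd (nat_lit 78) (nat_lit 1368) (nat_lit 0) (XT.lf (nat_lit 76) (nat_lit 3807056561) (nat_lit 0) (nat_lit 3446870764) (nat_lit 1368) (nat_lit 642308199) (nat_lit 560) (nat_lit 5) (nat_lit 559) (nat_lit 5) (nat_lit 577) (nat_lit 5) (nat_lit 410) (nat_lit 405) (nat_lit 325)) (XT.lf (nat_lit 0) (nat_lit 710663066) (nat_lit 1368) (nat_lit 134864123) (nat_lit 1444) (nat_lit 7106217490) (nat_lit 541) (nat_lit 5) (nat_lit 559) (nat_lit 5) (nat_lit 560) (nat_lit 5) (nat_lit 411) (nat_lit 405)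 (nat_lit 324)))))) (XT.nd (nat_lit 468) (nat_lit 1292) (nat_lit 0) (XT.nd (nat_lit 234) (nat_lit 1368) (nat_lit 0) (XT.nd (nat_lit 78) (nat_lit 0) (nat_lit 0) (XT.lf (nat_lit 0) (nat_lit 2086947321) (nat_lit 1368) (nat_lit 4093316461) (nat_lit 1444) (nat_lit 1827929061) (nat_lit 542) (nat_lit 5) (nat_lit 560) (nat_lit 5) (nat_lit 561) (nat_lit 5) (nat_lit 412) (nat_lit 405) (nat_lit 323)) (XT.nd (nat_lit 78) (nat_lit 0) (nat_lit 0) (XT.lf (nat_lit 0) (nat_lit 3465199338) (nat_lit 1368) (nat_lit 43182917) (nat_lit 1444) (nat_lit 4557909483) (nat_lit 542) (nat_lit 5) (nat_lit 560) (nat_lit 5) (nat_lit 561) (nat_lit 5) (nat_lit 413) (nat_lit 405) (nat_lit 322)) (XT.lf (nat_lit 76) (nat_lit 4123141439) (nat_lit 0) (nat_lit 743205475) (nat_lit 1444) (nat_lit 3259309488) (nat_lit 543) (nat_lit 5) (nat_lit 542) (nat_lit 5) (nat_lit 561) (nat_lit 5) (nat_lit 414) (nat_lit 405) (nat_lit 321)))) (XT.nd (nat_lit 78) (nat_lit 1444) (nat_lit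 0) (XT.lf (nat_lit 76) (nat_lit 156264010) (nat_lit 0) (nat_lit 6123180827) (nat_lit 1444) (nat_lit 1907095172) (nat_lit 544) (nat_lit 5) (nat_lit 543) (nat_lit 5) (nat_lit 562) (nat_lit 5) (nat_lit 415) (nat_lit 405) (nat_lit 320)) (XT.nd (nat_lit 78) (nat_lit 1444) (nat_lit 0) (XT.lf (nat_lit 76) (nat_lit 4428142981) (nat_lit 0) (nat_lit 3294023933) (nat_lit 1444) (nat_lit 526457127) (nat_lit 544) (nat_lit 5) (nat_lit 543) (nat_lit 5) (nat_lit 562) (nat_lit 5) (nat_lit 416) (nat_lit 405) (nat_lit 319)) (XT.lf (nat_lit 76) (nat_lit 454371345) (nat_lit 0) (nat_lit 388810084) (nat_lit 1520) (nat_lit 7469204379) (nat_lit 525) (nat_lit 5) (nat_lit 524) (nat_lit 5) (nat_lit 544) (nat_lit 5) (nat_lit 417) (nat_lit 405) (nat_lit 318))))) (XT.nd (nat_lit 234) (nat_lit 1368) (nat_lit 0) (XT.nd (nat_lit 78) (nat_lit 0) (nat_lit 0) (XT.lf (nat_lit 0) (nat_lit 2246225315) (nat_lit 1444) (nat_lit 3550685167) (nat_lit 1520) (nat_lit 2580190914)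 (nat_lit 525) (nat_lit 5) (nat_lit 544) (nat_lit 5) (nat_lit 545) (nat_lit 5) (nat_lit 418) (nat_lit 405) (nat_lit 317)) (XT.nd (nat_lit 78) (nat_lit 0) (nat_lit 76) (XT.lf (nat_lit 76) (nat_lit 831600975) (nat_lit 0) (nat_lit 2824813694) (nat_lit 1520) (nat_lit 4787124172) (nat_lit 526) (nat_lit 5) (nat_lit 525) (nat_lit 5) (nat_lit 545) (nat_lit 5) (nat_lit 419) (nat_lit 405) (nat_lit 316)) (XT.lf (nat_lit 0) (nat_lit 5091744501) (nat_lit 1444) (nat_lit 3182695011) (nat_lit 1520) (nat_lit 236935843) (nat_lit 526) (nat_lit 5) (nat_lit 545) (nat_lit 5) (nat_lit 546) (nat_lit 5) (nat_lit 420) (nat_lit 405) (nat_lit 315)))) (XT.nd (nat_lit 78) (nat_lit 1444) (nat_lit 0) (XT.lf (nat_lit 76) (nat_lit 1314021861) (nat_lit 0) (nat_lit 5241164350) (nat_lit 1520) (nat_lit 2025403161) (nat_lit 527) (nat_lit 5) (nat_lit 526) (nat_lit 5) (nat_lit 546) (nat_lit 5) (nat_lit 421) (nat_lit 405) (nat_lit 314)) (XT.nd (nat_lit 78) (nat_lit 1444)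 (nat_lit 0) (XT.lf (nat_lit 76) (nat_lit 5924307436) (nat_lit 0) (nat_lit 2117532382) (nat_lit 1520) (nat_lit 609477694) (nat_lit 527) (nat_lit 5) (nat_lit 526) (nat_lit 5) (nat_lit 546) (nat_lit 5) (nat_lit 422) (nat_lit 405) (nat_lit 313)) (XT.lf (nat_lit 0) (nat_lit 816217626) (nat_lit 1520) (nat_lit 6827370538) (nat_lit 1596) (nat_lit 1079924029) (nat_lit 507) (nat_lit 5) (nat_lit 527) (nat_lit 5) (nat_lit 528) (nat_lit 5) (nat_lit 423) (nat_lit 405) (nat_lit 312))))))))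
noncomputable def xc154 : XT := (XT.nd (nat_lit 1716) (nat_lit 9120) (nat_lit 0) (XT.nd (nat_lit 858) (nat_lit 5776) (nat_lit 0) (XT.nd (nat_lit 390) (nat_lit 6460) (nat_lit 0) (XT.nd (nat_lit 156) (nat_lit 0) (nat_lit 76) (XT.nd (nat_lit 78) (nat_lit 0) (nat_lit 0) (XT.lf (nat_lit 0) (nat_lit 2268106735) (nat_lit 1520) (nat_lit 2186197770) (nat_lit 1596) (nat_lit 4342657075) (nat_lit 507) (nat_lit 5) (nat_lit 527) (nat_lit 5) (nat_lit 528) (nat_lit 5) (nat_lit 424) (nat_lit 405) (nat_lit 311)) (XT.lf (nat_lit 76) (nat_lit 2561834731) (nat_lit 0) (nat_lit 1177742716) (nat_lit 1596) (nat_lit 5132499673) (nat_lit 508) (nat_lit 5) (nat_lit 507) (nat_lit 5) (nat_lit 528) (nat_lit 5) (nat_lit 425) (nat_lit 405) (nat_lit 310))) (XT.nd (nat_lit 78) (nat_lit 0) (nat_lit 0) (XT.lf (nat_lit 0) (nat_lit 5243634442) (nat_lit 1520) (nat_lit 1548085358) (nat_lit 1596) (nat_lit 2156919916) (nat_lit 508) (nat_lit 5) (nat_lit 528) (nat_lit 5)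 (nat_lit 529) (nat_lit 5) (nat_lit 426) (nat_lit 405) (nat_lit 309)) (XT.nd (nat_lit 78) (nat_lit 0) (nat_lit 0) (XT.lf (nat_lit 76) (nat_lit 3325525535) (nat_lit 0) (nat_lit 3456478157) (nat_lit 1596) (nat_lit 2244652979) (nat_lit 509) (nat_lit 5) (nat_lit 508) (nat_lit 5) (nat_lit 529) (nat_lit 5) (nat_lit 427) (nat_lit 405) (nat_lit 308)) (XT.lf (nat_lit 76) (nat_lit 8298117806) (nat_lit 0) (nat_lit 38617851) (nat_lit 1596) (nat_lit 769793977) (nat_lit 509) (nat_lit 5) (nat_lit 508) (nat_lit 5) (nat_lit 529) (nat_lit 5) (nat_lit 428) (nat_lit 405) (nat_lit 307))))) (XT.nd (nat_lit 234) (nat_lit 3420) (nat_lit 0) (XT.nd (nat_lit 78) (nat_lit 1596) (nat_lit 0) (XT.lf (nat_lit 0) (nat_lit 750437658) (nat_lit 1596) (nat_lit 4997260423) (nat_lit 76) (nat_lit 3439703685) (nat_lit 488) (nat_lit 5) (nat_lit 509) (nat_lit 5) (nat_lit 489) (nat_lit 5) (nat_lit 429) (nat_lit 405) (nat_lit 306)) (XT.nd (nat_lit 78) (nat_lit 0) (nat_lit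 0) (XT.lf (nat_lit 0) (nat_lit 4693602) (nat_lit 1596) (nat_lit 2267740052) (nat_lit 1672) (nat_lit 6997729715) (nat_lit 467) (nat_lit 5) (nat_lit 488) (nat_lit 5) (nat_lit 489) (nat_lit 5) (nat_lit 430) (nat_lit 405) (nat_lit 305)) (XT.lf (nat_lit 0) (nat_lit 3843229766) (nat_lit 1672) (nat_lit 4208225239) (nat_lit 76) (nat_lit 1302764996) (nat_lit 467) (nat_lit 5) (nat_lit 489) (nat_lit 5) (nat_lit 468) (nat_lit 5) (nat_lit 431) (nat_lit 405) (nat_lit 304)))) (XT.nd (nat_lit 78) (nat_lit 1748) (nat_lit 0) (XT.lf (nat_lit 0) (nat_lit 927509390) (nat_lit 1672) (nat_lit 4515719091) (nat_lit 1748) (nat_lit 3996780413) (nat_lit 445) (nat_lit 5) (nat_lit 467) (nat_lit 5) (nat_lit 468) (nat_lit 5) (nat_lit 432) (nat_lit 405) (nat_lit 303)) (XT.nd (nat_lit 78) (nat_lit 1748) (nat_lit 0) (XT.lf (nat_lit 0) (nat_lit 6203331485) (nat_lit 1672) (nat_lit 877209854) (nat_lit 1748) (nat_lit 2446872670) (nat_lit 445) (nat_lit 5) (nat_lit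 467) (nat_lit 5) (nat_lit 468) (nat_lit 5) (nat_lit 433) (nat_lit 405) (nat_lit 302)) (XT.lf (nat_lit 0) (nat_lit 1955588074) (nat_lit 1748) (nat_lit 6803655007) (nat_lit 1824) (nat_lit 857157888) (nat_lit 422) (nat_lit 5) (nat_lit 445) (nat_lit 5) (nat_lit 446) (nat_lit 5) (nat_lit 434) (nat_lit 405) (nat_lit 301)))))) (XT.nd (nat_lit 390) (nat_lit 3496) (nat_lit 0) (XT.nd (nat_lit 156) (nat_lit 912) (nat_lit 0) (XT.nd (nat_lit 78) (nat_lit 1292) (nat_lit 0) (XT.lf (nat_lit 0) (nat_lit 760294794) (nat_lit 1824) (nat_lit 2351664949) (nat_lit 76) (nat_lit 6594995649) (nat_lit 421) (nat_lit 5) (nat_lit 445) (nat_lit 5) (nat_lit 422) (nat_lit 5) (nat_lit 435) (nat_lit 405) (nat_lit 300)) (XT.lf (nat_lit 0) (nat_lit 2401190062) (nat_lit 1368) (nat_lit 6724854298) (nat_lit 76) (nat_lit 673118023) (nat_lit 404) (nat_lit 5) (nat_lit 422) (nat_lit 5) (nat_lit 405) (nat_lit 5) (nat_lit 436) (nat_lit 405) (nat_lit 299))) (XT.nd (nat_lit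 78) (nat_lit 912) (nat_lit 0) (XT.lf (nat_lit 0) (nat_lit 4089856056) (nat_lit 1368) (nat_lit 1292799612) (nat_lit 76) (nat_lit 4510264887) (nat_lit 404) (nat_lit 5) (nat_lit 422) (nat_lit 5) (nat_lit 405) (nat_lit 5) (nat_lit 437) (nat_lit 405) (nat_lit 298)) (XT.nd (nat_lit 78) (nat_lit 0) (nat_lit 0) (XT.lf (nat_lit 0) (nat_lit 4284612952) (nat_lit 912) (nat_lit 1534381745) (nat_lit 988) (nat_lit 4169431178) (nat_lit 392) (nat_lit 5) (nat_lit 404) (nat_lit 5) (nat_lit 405) (nat_lit 5) (nat_lit 438) (nat_lit 405) (nat_lit 297)) (XT.lf (nat_lit 0) (nat_lit 7586150847) (nat_lit 988) (nat_lit 129930920) (nat_lit 76) (nat_lit 2369696699) (nat_lit 392) (nat_lit 5) (nat_lit 405) (nat_lit 5) (nat_lit 393) (nat_lit 5) (nat_lit 439) (nat_lit 405) (nat_lit 296))))) (XT.nd (nat_lit 234) (nat_lit 1672) (nat_lit 0) (XT.nd (nat_lit 78) (nat_lit 988) (nat_lit 0) (XT.lf (nat_lit 0) (nat_lit 5599310429) (nat_lit 836) (nat_lit 3815442734) (nat_lit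 912) (nat_lit 769808626) (nat_lit 381) (nat_lit 5) (nat_lit 392) (nat_lit 5) (nat_lit 393) (nat_lit 5) (nat_lit 440) (nat_lit 405) (nat_lit 295)) (XT.nd (nat_lit 78) (nat_lit 0) (nat_lit 0) (XT.lf (nat_lit 0) (nat_lit 970783615) (nat_lit 988) (nat_lit 9137942650) (nat_lit 76) (nat_lit 176686453) (nat_lit 368) (nat_lit 5) (nat_lit 381) (nat_lit 5) (nat_lit 369) (nat_lit 5) (nat_lit 441) (nat_lit 405) (nat_lit 294)) (XT.lf (nat_lit 0) (nat_lit 2772129445) (nat_lit 988) (nat_lit 3381055737) (nat_lit 76) (nat_lit 4234274138) (nat_lit 368) (nat_lit 5) (nat_lit 381) (nat_lit 5) (nat_lit 369) (nat_lit 5) (nat_lit 442) (nat_lit 405) (nat_lit 293)))) (XT.nd (nat_lit 78) (nat_lit 836) (nat_lit 0) (XT.lf (nat_lit 0) (nat_lit 2504381981) (nat_lit 836) (nat_lit 2101771291) (nat_lit 912) (nat_lit 5885465865) (nat_lit 357) (nat_lit 5) (nat_lit 368) (nat_lit 5) (nat_lit 369) (nat_lit 5) (nat_lit 443) (nat_lit 405) (nat_lit 292)) (XT.nd (nat_lit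 78) (nat_lit 836) (nat_lit 0) (XT.lf (nat_lit 0) (nat_lit 6493531376) (nat_lit 912) (nat_lit 2077080543) (nat_lit 76) (nat_lit 2026921955) (nat_lit 357) (nat_lit 5) (nat_lit 369) (nat_lit 5) (nat_lit 358) (nat_lit 5) (nat_lit 444) (nat_lit 405) (nat_lit 291)) (XT.lf (nat_lit 0) (nat_lit 3970118213) (nat_lit 836) (nat_lit 4469264308) (nat_lit 912) (nat_lit 2265774976) (nat_lit 346) (nat_lit 5) (nat_lit 357) (nat_lit 5) (nat_lit 358) (nat_lit 5) (nat_lit 445) (nat_lit 405) (nat_lit 290))))))) (XT.nd (nat_lit 858) (nat_lit 4560) (nat_lit 0) (XT.nd (nat_lit 390) (nat_lit 2204) (nat_lit 0) (XT.nd (nat_lit 156) (nat_lit 1520) (nat_lit 0) (XT.nd (nat_lit 78) (nat_lit 836) (nat_lit 0) (XT.lf (nat_lit 0) (nat_lit 10147232578) (nat_lit 836) (nat_lit 272133648) (nat_lit 912) (nat_lit 395668054) (nat_lit 346) (nat_lit 5) (nat_lit 357) (nat_lit 5) (nat_lit 358) (nat_lit 5) (nat_lit 446) (nat_lit 405) (nat_lit 289)) (XT.lf (nat_lit 0) (nat_lit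 1535991093) (nat_lit 836) (nat_lit 5388002053) (nat_lit 76) (nat_lit 4002044377) (nat_lit 335) (nat_lit 5) (nat_lit 346) (nat_lit 5) (nat_lit 336) (nat_lit 5) (nat_lit 447) (nat_lit 405) (nat_lit 288))) (XT.nd (nat_lit 78) (nat_lit 760) (nat_lit 0) (XT.lf (nat_lit 0) (nat_lit 824939724) (nat_lit 760) (nat_lit 2669472839) (nat_lit 836) (nat_lit 7544932129) (nat_lit 325) (nat_lit 5) (nat_lit 335) (nat_lit 5) (nat_lit 336) (nat_lit 5) (nat_lit 448) (nat_lit 405) (nat_lit 287)) (XT.nd (nat_lit 78) (nat_lit 760) (nat_lit 0) (XT.lf (nat_lit 0) (nat_lit 5521220624) (nat_lit 836) (nat_lit 3949629977) (nat_lit 76) (nat_lit 1683487657) (nat_lit 325) (nat_lit 5) (nat_lit 336) (nat_lit 5) (nat_lit 326) (nat_lit 5) (nat_lit 449) (nat_lit 405) (nat_lit 286)) (XT.lf (nat_lit 0) (nat_lit 2435559455) (nat_lit 760) (nat_lit 5168829387) (nat_lit 836) (nat_lit 3666930902) (nat_lit 315) (nat_lit 5) (nat_lit 325) (nat_lit 5) (nat_lit 326) (nat_lit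 5) (nat_lit 450) (nat_lit 405) (nat_lit 285))))) (XT.nd (nat_lit 234) (nat_lit 1368) (nat_lit 0) (XT.nd (nat_lit 78) (nat_lit 836) (nat_lit 0) (XT.lf (nat_lit 0) (nat_lit 8982971676) (nat_lit 760) (nat_lit 755307890) (nat_lit 836) (nat_lit 1652184550) (nat_lit 315) (nat_lit 5) (nat_lit 325) (nat_lit 5) (nat_lit 326) (nat_lit 5) (nat_lit 451) (nat_lit 405) (nat_lit 284)) (XT.nd (nat_lit 78) (nat_lit 0) (nat_lit 0) (XT.lf (nat_lit 0) (nat_lit 432020669) (nat_lit 836) (nat_lit 7353553076) (nat_lit 76) (nat_lit 3725680636) (nat_lit 304) (nat_lit 5) (nat_lit 315) (nat_lit 5) (nat_lit 305) (nat_lit 5) (nat_lit 452) (nat_lit 405) (nat_lit 283)) (XT.lf (nat_lit 0) (nat_lit 2540056554) (nat_lit 836) (nat_lit 782443035) (nat_lit 76) (nat_lit 8311661240) (nat_lit 304) (nat_lit 5) (nat_lit 315) (nat_lit 5) (nat_lit 305) (nat_lit 5) (nat_lit 453) (nat_lit 405) (nat_lit 282)))) (XT.nd (nat_lit 78) (nat_lit 684) (nat_lit 0) (XT.lf (nat_lit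 0) (nat_lit 4720624540) (nat_lit 760) (nat_lit 5787514003) (nat_lit 76) (nat_lit 1250783535) (nat_lit 295) (nat_lit 5) (nat_lit 305) (nat_lit 5) (nat_lit 296) (nat_lit 5) (nat_lit 454) (nat_lit 405) (nat_lit 281)) (XT.nd (nat_lit 78) (nat_lit 0) (nat_lit 0) (XT.lf (nat_lit 0) (nat_lit 956464432) (nat_lit 684) (nat_lit 6005348516) (nat_lit 760) (nat_lit 4924029443) (nat_lit 286) (nat_lit 5) (nat_lit 295) (nat_lit 5) (nat_lit 296) (nat_lit 5) (nat_lit 455) (nat_lit 405) (nat_lit 280)) (XT.lf (nat_lit 0) (nat_lit 7894987547) (nat_lit 684) (nat_lit 1375386574) (nat_lit 760) (nat_lit 2744479953) (nat_lit 286) (nat_lit 5) (nat_lit 295) (nat_lit 5) (nat_lit 296) (nat_lit 5) (nat_lit 456) (nat_lit 405) (nat_lit 279)))))) (XT.nd (nat_lit 468) (nat_lit 1900) (nat_lit 0) (XT.nd (nat_lit 234) (nat_lit 1216) (nat_lit 0) (XT.nd (nat_lit 78) (nat_lit 760) (nat_lit 0) (XT.lf (nat_lit 0) (nat_lit 2822394110) (nat_lit 684) (nat_lit 8826784546)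 (nat_lit 760) (nat_lit 496789754) (nat_lit 277) (nat_lit 5) (nat_lit 286) (nat_lit 5) (nat_lit 287) (nat_lit 5) (nat_lit 457) (nat_lit 405) (nat_lit 278)) (XT.nd (nat_lit 78) (nat_lit 684) (nat_lit 0) (XT.lf (nat_lit 0) (nat_lit 1793338914) (nat_lit 760) (nat_lit 2359574740) (nat_lit 76) (nat_lit 8126141145) (nat_lit 276) (nat_lit 5) (nat_lit 286) (nat_lit 5) (nat_lit 277) (nat_lit 5) (nat_lit 458) (nat_lit 405) (nat_lit 277)) (XT.lf (nat_lit 0) (nat_lit 4142299514) (nat_lit 760) (nat_lit 7633910249) (nat_lit 76) (nat_lit 638137491) (nat_lit 267) (nat_lit 5) (nat_lit 277) (nat_lit 5) (nat_lit 268) (nat_lit 5) (nat_lit 459) (nat_lit 405) (nat_lit 276)))) (XT.nd (nat_lit 78) (nat_lit 1216) (nat_lit 0) (XT.lf (nat_lit 0) (nat_lit 6566259907) (nat_lit 760) (nat_lit 503022111) (nat_lit 76) (nat_lit 5482506698) (nat_lit 267) (nat_lit 5) (nat_lit 277) (nat_lit 5) (nat_lit 268) (nat_lit 5) (nat_lit 460) (nat_lit 405) (nat_lit 275))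 (XT.nd (nat_lit 78) (nat_lit 608) (nat_lit 0) (XT.lf (nat_lit 0) (nat_lit 6841963173) (nat_lit 608) (nat_lit 2226040263) (nat_lit 684) (nat_lit 3623392992) (nat_lit 259) (nat_lit 5) (nat_lit 267) (nat_lit 5) (nat_lit 268) (nat_lit 5) (nat_lit 461) (nat_lit 405) (nat_lit 274)) (XT.lf (nat_lit 0) (nat_lit 1490425712) (nat_lit 608) (nat_lit 10145091705) (nat_lit 684) (nat_lit 1197967598) (nat_lit 251) (nat_lit 5) (nat_lit 259) (nat_lit 5) (nat_lit 260) (nat_lit 5) (nat_lit 462) (nat_lit 405) (nat_lit 273))))) (XT.nd (nat_lit 234) (nat_lit 1216) (nat_lit 0) (XT.nd (nat_lit 78) (nat_lit 608) (nat_lit 0) (XT.lf (nat_lit 0) (nat_lit 1298599150) (nat_lit 684) (nat_lit 3963039790) (nat_lit 76) (nat_lit 7715826697) (nat_lit 250) (nat_lit 5) (nat_lit 259) (nat_lit 5) (nat_lit 251) (nat_lit 5) (nat_lit 463) (nat_lit 405) (nat_lit 272)) (XT.nd (nat_lit 78) (nat_lit 0) (nat_lit 0) (XT.lf (nat_lit 0) (nat_lit 3585538617) (nat_lit 608) (nat_lit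 252217086) (nat_lit 684) (nat_lit 9286241045) (nat_lit 242) (nat_lit 5) (nat_lit 250) (nat_lit 5) (nat_lit 251) (nat_lit 5) (nat_lit 464) (nat_lit 405) (nat_lit 271)) (XT.lf (nat_lit 0) (nat_lit 6471553512) (nat_lit 684) (nat_lit 1984113524) (nat_lit 76) (nat_lit 4816917452) (nat_lit 242) (nat_lit 5) (nat_lit 251) (nat_lit 5) (nat_lit 243) (nat_lit 5) (nat_lit 465) (nat_lit 405) (nat_lit 270)))) (XT.nd (nat_lit 78) (nat_lit 608) (nat_lit 0) (XT.lf (nat_lit 0) (nat_lit 5777497019) (nat_lit 608) (nat_lit 3405545739) (nat_lit 684) (nat_lit 4240604025) (nat_lit 234) (nat_lit 5) (nat_lit 242) (nat_lit 5) (nat_lit 243) (nat_lit 5) (nat_lit 466) (nat_lit 405) (nat_lit 269)) (XT.nd (nat_lit 78) (nat_lit 76) (nat_lit 0) (XT.lf (nat_lit 0) (nat_lit 115804004) (nat_lit 532) (nat_lit 11844417039) (nat_lit 608) (nat_lit 1617283142) (nat_lit 227) (nat_lit 5) (nat_lit 234) (nat_lit 5) (nat_lit 235) (nat_lit 5) (nat_lit 467) (nat_lit 405) (nat_lit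 268)) (XT.lf (nat_lit 0) (nat_lit 1104859520) (nat_lit 608) (nat_lit 5644669469) (nat_lit 76) (nat_lit 6983570467) (nat_lit 226) (nat_lit 5) (nat_lit 234) (nat_lit 5) (nat_lit 227) (nat_lit 5) (nat_lit 468) (nat_lit 405) (nat_lit 267))))))))
noncomputable def xc155 : XT := (XT.nd (nat_lit 1716) (nat_lit 3344) (nat_lit 0) (XT.nd (nat_lit 858) (nat_lit 3116) (nat_lit 0) (XT.nd (nat_lit 390) (nat_lit 1520) (nat_lit 0) (XT.nd (nat_lit 156) (nat_lit 1140) (nat_lit 0) (XT.nd (nat_lit 78) (nat_lit 0) (nat_lit 0) (XT.lf (nat_lit 0) (nat_lit 2330781803) (nat_lit 532) (nat_lit 1530469920) (nat_lit 608) (nat_lit 10030314735) (nat_lit 219) (nat_lit 5) (nat_lit 226) (nat_lit 5) (nat_lit 227) (nat_lit 5) (nat_lit 469) (nat_lit 405) (nat_lit 266)) (XT.lf (nat_lit 0) (nat_lit 6721963701) (nat_lit 608) (nat_lit 3552973491) (nat_lit 76) (nat_lit 3777284584) (nat_lit 219) (nat_lit 5) (nat_lit 227) (nat_lit 5) (nat_lit 220) (nat_lit 5) (nat_lit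 470) (nat_lit 405) (nat_lit 265))) (XT.nd (nat_lit 78) (nat_lit 608) (nat_lit 0) (XT.lf (nat_lit 0) (nat_lit 4648264277) (nat_lit 532) (nat_lit 5018642675) (nat_lit 608) (nat_lit 4548645667) (nat_lit 212) (nat_lit 5) (nat_lit 219) (nat_lit 5) (nat_lit 220) (nat_lit 5) (nat_lit 471) (nat_lit 405) (nat_lit 264)) (XT.nd (nat_lit 78) (nat_lit 608) (nat_lit 0) (XT.lf (nat_lit 0) (nat_lit 12683796333) (nat_lit 608) (nat_lit 1340047610) (nat_lit 76) (nat_lit 358047896) (nat_lit 212) (nat_lit 5) (nat_lit 220) (nat_lit 5) (nat_lit 213) (nat_lit 5) (nat_lit 472) (nat_lit 405) (nat_lit 263)) (XT.lf (nat_lit 0) (nat_lit 1260416533) (nat_lit 608) (nat_lit 7464314020) (nat_lit 76) (nat_lit 5825336574) (nat_lit 204) (nat_lit 5) (nat_lit 212) (nat_lit 5) (nat_lit 205) (nat_lit 5) (nat_lit 473) (nat_lit 405) (nat_lit 262))))) (XT.nd (nat_lit 234) (nat_lit 532) (nat_lit 0) (XT.nd (nat_lit 78) (nat_lit 532) (nat_lit 0) (XT.lf (nat_lit 0) (nat_lit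 960711066) (nat_lit 456) (nat_lit 3297095311) (nat_lit 532) (nat_lit 10463528704) (nat_lit 198) (nat_lit 5) (nat_lit 204) (nat_lit 5) (nat_lit 205) (nat_lit 5) (nat_lit 474) (nat_lit 405) (nat_lit 261)) (XT.nd (nat_lit 78) (nat_lit 532) (nat_lit 0) (XT.lf (nat_lit 0) (nat_lit 7367347680) (nat_lit 532) (nat_lit 5271983718) (nat_lit 76) (nat_lit 2255655422) (nat_lit 198) (nat_lit 5) (nat_lit 205) (nat_lit 5) (nat_lit 199) (nat_lit 5) (nat_lit 475) (nat_lit 405) (nat_lit 260)) (XT.lf (nat_lit 0) (nat_lit 3391918053) (nat_lit 532) (nat_lit 7178514301) (nat_lit 608) (nat_lit 4501054640) (nat_lit 191) (nat_lit 5) (nat_lit 198) (nat_lit 5) (nat_lit 199) (nat_lit 5) (nat_lit 476) (nat_lit 405) (nat_lit 259)))) (XT.nd (nat_lit 78) (nat_lit 532) (nat_lit 0) (XT.lf (nat_lit 0) (nat_lit 12283512016) (nat_lit 532) (nat_lit 1577073891) (nat_lit 608) (nat_lit 1390473523) (nat_lit 191) (nat_lit 5) (nat_lit 198) (nat_lit 5) (nat_lit 199) (nat_lit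 5) (nat_lit 477) (nat_lit 405) (nat_lit 258)) (XT.nd (nat_lit 78) (nat_lit 0) (nat_lit 0) (XT.lf (nat_lit 0) (nat_lit 1812644009) (nat_lit 532) (nat_lit 9492080763) (nat_lit 76) (nat_lit 4128195409) (nat_lit 184) (nat_lit 5) (nat_lit 191) (nat_lit 5) (nat_lit 185) (nat_lit 5) (nat_lit 478) (nat_lit 405) (nat_lit 257)) (XT.lf (nat_lit 0) (nat_lit 5079602173) (nat_lit 532) (nat_lit 587166147) (nat_lit 76) (nat_lit 9951100333) (nat_lit 184) (nat_lit 5) (nat_lit 191) (nat_lit 5) (nat_lit 185) (nat_lit 5) (nat_lit 479) (nat_lit 405) (nat_lit 256)))))) (XT.nd (nat_lit 390) (nat_lit 1672) (nat_lit 0) (XT.nd (nat_lit 156) (nat_lit 532) (nat_lit 0) (XT.nd (nat_lit 78) (nat_lit 456) (nat_lit 0) (XT.lf (nat_lit 0) (nat_lit 8456694062) (nat_lit 532) (nat_lit 7214641390) (nat_lit 76) (nat_lit 134286973) (nat_lit 178) (nat_lit 5) (nat_lit 185) (nat_lit 5) (nat_lit 179) (nat_lit 5) (nat_lit 480) (nat_lit 405) (nat_lit 255)) (XT.lf (nat_lit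 0) (nat_lit 1934671937) (nat_lit 456) (nat_lit 10008932790) (nat_lit 532) (nat_lit 4052683182) (nat_lit 172) (nat_lit 5) (nat_lit 178) (nat_lit 5) (nat_lit 179) (nat_lit 5) (nat_lit 481) (nat_lit 405) (nat_lit 254))) (XT.nd (nat_lit 78) (nat_lit 532) (nat_lit 0) (XT.lf (nat_lit 0) (nat_lit 11348132902) (nat_lit 456) (nat_lit 4188878906) (nat_lit 532) (nat_lit 653021864) (nat_lit 172) (nat_lit 5) (nat_lit 178) (nat_lit 5) (nat_lit 179) (nat_lit 5) (nat_lit 482) (nat_lit 405) (nat_lit 253)) (XT.nd (nat_lit 78) (nat_lit 0) (nat_lit 0) (XT.lf (nat_lit 0) (nat_lit 2807631730) (nat_lit 532) (nat_lit 11810919592) (nat_lit 76) (nat_lit 1768141320) (nat_lit 165) (nat_lit 5) (nat_lit 172) (nat_lit 5) (nat_lit 166) (nat_lit 5) (nat_lit 483) (nat_lit 405) (nat_lit 252)) (XT.lf (nat_lit 0) (nat_lit 6377792505) (nat_lit 532) (nat_lit 2388035018) (nat_lit 76) (nat_lit 7820392189) (nat_lit 165) (nat_lit 5) (nat_lit 172) (nat_lit 5) (nat_lit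 166) (nat_lit 5) (nat_lit 484) (nat_lit 405) (nat_lit 251))))) (XT.nd (nat_lit 234) (nat_lit 760) (nat_lit 0) (XT.nd (nat_lit 78) (nat_lit 532) (nat_lit 0) (XT.lf (nat_lit 0) (nat_lit 7302857196) (nat_lit 380) (nat_lit 2752720269) (nat_lit 456) (nat_lit 6733437410) (nat_lit 160) (nat_lit 5) (nat_lit 165) (nat_lit 5) (nat_lit 166) (nat_lit 5) (nat_lit 485) (nat_lit 405) (nat_lit 250)) (XT.nd (nat_lit 78) (nat_lit 76) (nat_lit 0) (XT.lf (nat_lit 0) (nat_lit 188496529) (nat_lit 456) (nat_lit 13646614011) (nat_lit 532) (nat_lit 3160193484) (nat_lit 154) (nat_lit 5) (nat_lit 160) (nat_lit 5) (nat_lit 161) (nat_lit 5) (nat_lit 486) (nat_lit 405) (nat_lit 249)) (XT.lf (nat_lit 0) (nat_lit 549395444) (nat_lit 532) (nat_lit 7057365985) (nat_lit 76) (nat_lit 9597471777) (nat_lit 153) (nat_lit 5) (nat_lit 160) (nat_lit 5) (nat_lit 154) (nat_lit 5) (nat_lit 487) (nat_lit 405) (nat_lit 248)))) (XT.nd (nat_lit 78) (nat_lit 380) (nat_lit 0)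 (XT.lf (nat_lit 0) (nat_lit 2887978896) (nat_lit 380) (nat_lit 1410815643) (nat_lit 456) (nat_lit 13117971808) (nat_lit 148) (nat_lit 5) (nat_lit 153) (nat_lit 5) (nat_lit 154) (nat_lit 5) (nat_lit 488) (nat_lit 405) (nat_lit 247)) (XT.nd (nat_lit 78) (nat_lit 380) (nat_lit 0) (XT.lf (nat_lit 0) (nat_lit 8191945672) (nat_lit 456) (nat_lit 4553005289) (nat_lit 76) (nat_lit 4887225693) (nat_lit 148) (nat_lit 5) (nat_lit 154) (nat_lit 5) (nat_lit 149) (nat_lit 5) (nat_lit 489) (nat_lit 405) (nat_lit 246)) (XT.lf (nat_lit 0) (nat_lit 5671537500) (nat_lit 380) (nat_lit 6527019233) (nat_lit 456) (nat_lit 5652628248) (nat_lit 143) (nat_lit 5) (nat_lit 148) (nat_lit 5) (nat_lit 149) (nat_lit 5) (nat_lit 490) (nat_lit 405) (nat_lit 245))))))) (XT.nd (nat_lit 858) (nat_lit 988) (nat_lit 0) (XT.nd (nat_lit 390) (nat_lit 1216) (nat_lit 0) (XT.nd (nat_lit 156) (nat_lit 684) (nat_lit 0) (XT.nd (nat_lit 78) (nat_lit 456) (nat_lit 0) (XT.lf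 (nat_lit 0) (nat_lit 16146597143) (nat_lit 380) (nat_lit 158791674) (nat_lit 456) (nat_lit 1768784595) (nat_lit 143) (nat_lit 5) (nat_lit 148) (nat_lit 5) (nat_lit 149) (nat_lit 5) (nat_lit 491) (nat_lit 405) (nat_lit 244)) (XT.lf (nat_lit 0) (nat_lit 2251142316) (nat_lit 456) (nat_lit 9729265503) (nat_lit 76) (nat_lit 6319187419) (nat_lit 137) (nat_lit 5) (nat_lit 143) (nat_lit 5) (nat_lit 138) (nat_lit 5) (nat_lit 492) (nat_lit 405) (nat_lit 243))) (XT.nd (nat_lit 78) (nat_lit 304) (nat_lit 0) (XT.lf (nat_lit 0) (nat_lit 756534151) (nat_lit 380) (nat_lit 5579995966) (nat_lit 456) (nat_lit 12192588239) (nat_lit 132) (nat_lit 5) (nat_lit 137) (nat_lit 5) (nat_lit 138) (nat_lit 5) (nat_lit 493) (nat_lit 405) (nat_lit 242)) (XT.nd (nat_lit 78) (nat_lit 304) (nat_lit 0) (XT.lf (nat_lit 0) (nat_lit 10565310338) (nat_lit 456) (nat_lit 7200244091) (nat_lit 76) (nat_lit 996445400) (nat_lit 132) (nat_lit 5) (nat_lit 138) (nat_lit 5)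 (nat_lit 133) (nat_lit 5) (nat_lit 494) (nat_lit 405) (nat_lit 241)) (XT.lf (nat_lit 0) (nat_lit 3578164238) (nat_lit 304) (nat_lit 11350693234) (nat_lit 380) (nat_lit 4069679187) (nat_lit 128) (nat_lit 5) (nat_lit 132) (nat_lit 5) (nat_lit 133) (nat_lit 5) (nat_lit 495) (nat_lit 405) (nat_lit 240))))) (XT.nd (nat_lit 234) (nat_lit 760) (nat_lit 0) (XT.nd (nat_lit 78) (nat_lit 380) (nat_lit 0) (XT.lf (nat_lit 0) (nat_lit 176710063) (nat_lit 380) (nat_lit 4585710203) (nat_lit 76) (nat_lit 14476593826) (nat_lit 127) (nat_lit 5) (nat_lit 132) (nat_lit 5) (nat_lit 128) (nat_lit 5) (nat_lit 496) (nat_lit 405) (nat_lit 239)) (XT.nd (nat_lit 78) (nat_lit 0) (nat_lit 0) (XT.lf (nat_lit 0) (nat_lit 4499210766) (nat_lit 456) (nat_lit 12987272005) (nat_lit 76) (nat_lit 1996368224) (nat_lit 122) (nat_lit 5) (nat_lit 128) (nat_lit 5) (nat_lit 123) (nat_lit 5) (nat_lit 497) (nat_lit 405) (nat_lit 238)) (XT.lf (nat_lit 0) (nat_lit 8960967926)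 (nat_lit 456) (nat_lit 1917183370) (nat_lit 76) (nat_lit 8852358645) (nat_lit 122) (nat_lit 5) (nat_lit 128) (nat_lit 5) (nat_lit 123) (nat_lit 5) (nat_lit 498) (nat_lit 405) (nat_lit 237)))) (XT.nd (nat_lit 78) (nat_lit 456) (nat_lit 0) (XT.lf (nat_lit 0) (nat_lit 9483840623) (nat_lit 304) (nat_lit 4080176281) (nat_lit 380) (nat_lit 6418065438) (nat_lit 118) (nat_lit 5) (nat_lit 122) (nat_lit 5) (nat_lit 123) (nat_lit 5) (nat_lit 499) (nat_lit 405) (nat_lit 236)) (XT.nd (nat_lit 78) (nat_lit 76) (nat_lit 0) (XT.lf (nat_lit 0) (nat_lit 878445034) (nat_lit 380) (nat_lit 17408401874) (nat_lit 456) (nat_lit 1951286261) (nat_lit 113) (nat_lit 5) (nat_lit 118) (nat_lit 5) (nat_lit 119) (nat_lit 5) (nat_lit 500) (nat_lit 405) (nat_lit 235)) (XT.lf (nat_lit 0) (nat_lit 2659165596) (nat_lit 456) (nat_lit 7932258983) (nat_lit 76) (nat_lit 9905773517) (nat_lit 112) (nat_lit 5) (nat_lit 118) (nat_lit 5) (nat_lit 113) (nat_lit 5) (nat_lit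 501) (nat_lit 405) (nat_lit 234)))))) (XT.nd (nat_lit 51948) (nat_lit 0) (nat_lit 33592) (XT.nd (nat_lit 234) (nat_lit 380) (nat_lit 0) (XT.nd (nat_lit 78) (nat_lit 304) (nat_lit 0) (XT.lf (nat_lit 0) (nat_lit 3745274074) (nat_lit 304) (nat_lit 3605514528) (nat_lit 380) (nat_lit 13410097262) (nat_lit 108) (nat_lit 5) (nat_lit 112) (nat_lit 5) (nat_lit 113) (nat_lit 5) (nat_lit 502) (nat_lit 405) (nat_lit 233)) (XT.nd (nat_lit 78) (nat_lit 304) (nat_lit 0) (XT.lf (nat_lit 0) (nat_lit 12203481757) (nat_lit 380) (nat_lit 5302804061) (nat_lit 76) (nat_lit 3522218092) (nat_lit 108) (nat_lit 5) (nat_lit 113) (nat_lit 5) (nat_lit 109) (nat_lit 5) (nat_lit 503) (nat_lit 405) (nat_lit 232)) (XT.lf (nat_lit 0) (nat_lit 6693764831) (nat_lit 304) (nat_lit 10517782891) (nat_lit 380) (nat_lit 4088761465) (nat_lit 104) (nat_lit 5) (nat_lit 108) (nat_lit 5) (nat_lit 109) (nat_lit 5) (nat_lit 504) (nat_lit 405) (nat_lit 231)))) (XT.nd (nat_lit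 78) (nat_lit 304) (nat_lit 0) (XT.lf (nat_lit 0) (nat_lit 759314837) (nat_lit 380) (nat_lit 2594180848) (nat_lit 76) (nat_lit 18223423210) (nat_lit 103) (nat_lit 5) (nat_lit 108) (nat_lit 5) (nat_lit 104) (nat_lit 5) (nat_lit 505) (nat_lit 405) (nat_lit 230)) (XT.nd (nat_lit 51558) (nat_lit 0) (nat_lit 34884) (XT.lf (nat_lit 0) (nat_lit 5730343530) (nat_lit 380) (nat_lit 12138658302) (nat_lit 76) (nat_lit 3987904821) (nat_lit 99) (nat_lit 5) (nat_lit 104) (nat_lit 5) (nat_lit 100) (nat_lit 5) (nat_lit 506) (nat_lit 405) (nat_lit 229)) (XT.lf (nat_lit 0) (nat_lit 750403799) (nat_lit 0) (nat_lit 750403799) (nat_lit 1292) (nat_lit 2368033622) (nat_lit 558) (nat_lit 5) (nat_lit 558) (nat_lit 3) (nat_lit 575) (nat_lit 3) (nat_lit 406) (nat_lit 406) (nat_lit 328))))) (XT.nd (nat_lit 234) (nat_lit 1292) (nat_lit 0) (XT.nd (nat_lit 78) (nat_lit 0) (nat_lit 0) (XT.lf (nat_lit 0) (nat_lit 4349742065) (nat_lit 1292) (nat_lit 2488797261)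 (nat_lit 1368) (nat_lit 949711154) (nat_lit 558) (nat_lit 5) (nat_lit 575) (nat_lit 3) (nat_lit 576) (nat_lit 5) (nat_lit 407) (nat_lit 406) (nat_lit 327)) (XT.nd (nat_lit 78) (nat_lit 0) (nat_lit 0) (XT.lf (nat_lit 76) (nat_lit 1323645650) (nat_lit 0) (nat_lit 4385420010) (nat_lit 1368) (nat_lit 2131091253) (nat_lit 559) (nat_lit 5) (nat_lit 558) (nat_lit 5) (nat_lit 576) (nat_lit 5) (nat_lit 408) (nat_lit 406) (nat_lit 326)) (XT.lf (nat_lit 76) (nat_lit 5228175306) (nat_lit 0) (nat_lit 1850358960) (nat_lit 1368) (nat_lit 814919520) (nat_lit 559) (nat_lit 5) (nat_lit 558) (nat_lit 5) (nat_lit 576) (nat_lit 5) (nat_lit 409) (nat_lit 406) (nat_lit 325)))) (XT.nd (nat_lit 78) (nat_lit 0) (nat_lit 0) (XT.lf (nat_lit 0) (nat_lit 500464240) (nat_lit 1368) (nat_lit 6695160926) (nat_lit 1444) (nat_lit 752537805) (nat_lit 541) (nat_lit 5) (nat_lit 559) (nat_lit 5) (nat_lit 560) (nat_lit 5) (nat_lit 410) (nat_lit 406) (nat_lit 324))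 (XT.nd (nat_lit 78) (nat_lit 0) (nat_lit 0) (XT.lf (nat_lit 0) (nat_lit 1828834570) (nat_lit 1368) (nat_lit 2754246946) (nat_lit 1444) (nat_lit 3420836098) (nat_lit 541) (nat_lit 5) (nat_lit 559) (nat_lit 5) (nat_lit 560) (nat_lit 5) (nat_lit 411) (nat_lit 406) (nat_lit 323)) (XT.lf (nat_lit 76) (nat_lit 1263779862) (nat_lit 0) (nat_lit 1896161043) (nat_lit 1444) (nat_lit 4901333685) (nat_lit 542) (nat_lit 5) (nat_lit 541) (nat_lit 5) (nat_lit 560) (nat_lit 5) (nat_lit 412) (nat_lit 406) (nat_lit 322))))))))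
noncomputable def xc156 : XT := (XT.nd (nat_lit 1716) (nat_lit 12084) (nat_lit 0) (XT.nd (nat_lit 858) (nat_lit 4636) (nat_lit 0) (XT.nd (nat_lit 390) (nat_lit 1368) (nat_lit 0) (XT.nd (nat_lit 156) (nat_lit 1368) (nat_lit 0) (XT.nd (nat_lit 78) (nat_lit 0) (nat_lit 0) (XT.lf (nat_lit 0) (nat_lit 4510317604) (nat_lit 1368) (nat_lit 2744400346) (nat_lit 1444) (nat_lit 865218191) (nat_lit 542) (nat_lit 5) (nat_lit 560) (nat_lit 5) (nat_lit 561) (nat_lit 5) (nat_lit 413) (nat_lit 406) (nat_lit 321)) (XT.lf (nat_lit 76) (nat_lit 1376737470) (nat_lit 0) (nat_lit 4501637230) (nat_lit 1444) (nat_lit 2301592962) (nat_lit 543) (nat_lit 5) (nat_lit 542) (nat_lit 5) (nat_lit 561) (nat_lit 5) (nat_lit 414) (nat_lit 406) (nat_lit 320))) (XT.nd (nat_lit 78) (nat_lit 1368) (nat_lit 0) (XT.lf (nat_lit 76) (nat_lit 5599103681) (nat_lit 0) (nat_lit 1662767382) (nat_lit 1444) (nat_lit 979577186) (nat_lit 543) (nat_lit 5) (nat_lit 542) (nat_lit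 5) (nat_lit 561) (nat_lit 5) (nat_lit 415) (nat_lit 406) (nat_lit 319)) (XT.nd (nat_lit 78) (nat_lit 0) (nat_lit 0) (XT.lf (nat_lit 0) (nat_lit 352655892) (nat_lit 1444) (nat_lit 6710744266) (nat_lit 1520) (nat_lit 1240947703) (nat_lit 524) (nat_lit 5) (nat_lit 543) (nat_lit 5) (nat_lit 544) (nat_lit 5) (nat_lit 416) (nat_lit 406) (nat_lit 318)) (XT.lf (nat_lit 0) (nat_lit 1697880749) (nat_lit 1444) (nat_lit 2454671383) (nat_lit 1520) (nat_lit 4215843979) (nat_lit 524) (nat_lit 5) (nat_lit 543) (nat_lit 5) (nat_lit 544) (nat_lit 5) (nat_lit 417) (nat_lit 406) (nat_lit 317))))) (XT.nd (nat_lit 234) (nat_lit 1368) (nat_lit 0) (XT.nd (nat_lit 78) (nat_lit 0) (nat_lit 76) (XT.lf (nat_lit 76) (nat_lit 1892726252) (nat_lit 0) (nat_lit 1160740075) (nat_lit 1520) (nat_lit 5380599111) (nat_lit 525) (nat_lit 5) (nat_lit 524) (nat_lit 5) (nat_lit 544) (nat_lit 5) (nat_lit 418) (nat_lit 406) (nat_lit 316)) (XT.nd (nat_lit 78) (nat_lit 0)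 (nat_lit 0) (XT.lf (nat_lit 0) (nat_lit 4436698720) (nat_lit 1444) (nat_lit 2171897929) (nat_lit 1520) (nat_lit 1892449855) (nat_lit 525) (nat_lit 5) (nat_lit 544) (nat_lit 5) (nat_lit 545) (nat_lit 5) (nat_lit 419) (nat_lit 406) (nat_lit 315)) (XT.lf (nat_lit 76) (nat_lit 2288495771) (nat_lit 0) (nat_lit 3553877644) (nat_lit 1520) (nat_lit 2727107100) (nat_lit 526) (nat_lit 5) (nat_lit 525) (nat_lit 5) (nat_lit 545) (nat_lit 5) (nat_lit 420) (nat_lit 406) (nat_lit 314)))) (XT.nd (nat_lit 78) (nat_lit 1444) (nat_lit 0) (XT.lf (nat_lit 76) (nat_lit 6848898045) (nat_lit 0) (nat_lit 414493786) (nat_lit 1520) (nat_lit 1376155476) (nat_lit 526) (nat_lit 5) (nat_lit 525) (nat_lit 5) (nat_lit 545) (nat_lit 5) (nat_lit 421) (nat_lit 406) (nat_lit 313)) (XT.nd (nat_lit 78) (nat_lit 0) (nat_lit 0) (XT.lf (nat_lit 0) (nat_lit 11300919) (nat_lit 1520) (nat_lit 5921810769) (nat_lit 1596) (nat_lit 2777721685) (nat_lit 506) (nat_lit 5) (nat_lit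 526) (nat_lit 5) (nat_lit 527) (nat_lit 5) (nat_lit 422) (nat_lit 406) (nat_lit 312)) (XT.lf (nat_lit 0) (nat_lit 1396404997) (nat_lit 1520) (nat_lit 1329793583) (nat_lit 1596) (nat_lit 6057406349) (nat_lit 506) (nat_lit 5) (nat_lit 526) (nat_lit 5) (nat_lit 527) (nat_lit 5) (nat_lit 423) (nat_lit 406) (nat_lit 311)))))) (XT.nd (nat_lit 390) (nat_lit 4712) (nat_lit 0) (XT.nd (nat_lit 156) (nat_lit 0) (nat_lit 0) (XT.nd (nat_lit 78) (nat_lit 0) (nat_lit 0) (XT.lf (nat_lit 0) (nat_lit 2808871737) (nat_lit 1520) (nat_lit 5481999225) (nat_lit 1596) (nat_lit 566975782) (nat_lit 507) (nat_lit 5) (nat_lit 527) (nat_lit 5) (nat_lit 528) (nat_lit 5) (nat_lit 424) (nat_lit 406) (nat_lit 310)) (XT.lf (nat_lit 0) (nat_lit 4251047065) (nat_lit 1520) (nat_lit 777060232) (nat_lit 1596) (nat_lit 3905444797) (nat_lit 507) (nat_lit 5) (nat_lit 527) (nat_lit 5) (nat_lit 528) (nat_lit 5) (nat_lit 425) (nat_lit 406) (nat_lit 309))) (XT.nd (nat_lit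 78) (nat_lit 0) (nat_lit 76) (XT.lf (nat_lit 76) (nat_lit 4056374620) (nat_lit 0) (nat_lit 1666951724) (nat_lit 1596) (nat_lit 3287427727) (nat_lit 508) (nat_lit 5) (nat_lit 507) (nat_lit 5) (nat_lit 528) (nat_lit 5) (nat_lit 426) (nat_lit 406) (nat_lit 308)) (XT.nd (nat_lit 78) (nat_lit 0) (nat_lit 0) (XT.lf (nat_lit 0) (nat_lit 7217069888) (nat_lit 1520) (nat_lit 123075377) (nat_lit 1596) (nat_lit 1749522025) (nat_lit 508) (nat_lit 5) (nat_lit 528) (nat_lit 5) (nat_lit 529) (nat_lit 5) (nat_lit 427) (nat_lit 406) (nat_lit 307)) (XT.lf (nat_lit 76) (nat_lit 4838428973) (nat_lit 0) (nat_lit 3920530006) (nat_lit 1596) (nat_lit 410841809) (nat_lit 509) (nat_lit 5) (nat_lit 508) (nat_lit 5) (nat_lit 529) (nat_lit 5) (nat_lit 428) (nat_lit 406) (nat_lit 306))))) (XT.nd (nat_lit 234) (nat_lit 1672) (nat_lit 0) (XT.nd (nat_lit 78) (nat_lit 1520) (nat_lit 0) (XT.lf (nat_lit 76) (nat_lit 631530097) (nat_lit 0) (nat_lit 415388740) (nat_lit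 1672) (nat_lit 8204866273) (nat_lit 488) (nat_lit 5) (nat_lit 487) (nat_lit 5) (nat_lit 509) (nat_lit 5) (nat_lit 429) (nat_lit 406) (nat_lit 305)) (XT.nd (nat_lit 78) (nat_lit 1596) (nat_lit 0) (XT.lf (nat_lit 0) (nat_lit 2554495776) (nat_lit 1596) (nat_lit 3625284706) (nat_lit 76) (nat_lit 3155058077) (nat_lit 488) (nat_lit 5) (nat_lit 509) (nat_lit 5) (nat_lit 489) (nat_lit 5) (nat_lit 430) (nat_lit 406) (nat_lit 304)) (XT.lf (nat_lit 0) (nat_lit 1467024709) (nat_lit 1596) (nat_lit 2614321397) (nat_lit 1672) (nat_lit 5338431396) (nat_lit 467) (nat_lit 5) (nat_lit 488) (nat_lit 5) (nat_lit 489) (nat_lit 5) (nat_lit 431) (nat_lit 406) (nat_lit 303)))) (XT.nd (nat_lit 78) (nat_lit 1672) (nat_lit 0) (XT.lf (nat_lit 0) (nat_lit 5647063006) (nat_lit 1672) (nat_lit 2821819026) (nat_lit 76) (nat_lit 1037373331) (nat_lit 467) (nat_lit 5) (nat_lit 489) (nat_lit 5) (nat_lit 468) (nat_lit 5) (nat_lit 432) (nat_lit 406) (nat_lit 302))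 (XT.nd (nat_lit 78) (nat_lit 0) (nat_lit 0) (XT.lf (nat_lit 0) (nat_lit 2406955488) (nat_lit 1672) (nat_lit 4847729181) (nat_lit 1748) (nat_lit 2339572898) (nat_lit 445) (nat_lit 5) (nat_lit 467) (nat_lit 5) (nat_lit 468) (nat_lit 5) (nat_lit 433) (nat_lit 406) (nat_lit 301)) (XT.lf (nat_lit 0) (nat_lit 7759649007) (nat_lit 1672) (nat_lit 1131710628) (nat_lit 1748) (nat_lit 792728630) (nat_lit 445) (nat_lit 5) (nat_lit 467) (nat_lit 5) (nat_lit 468) (nat_lit 5) (nat_lit 434) (nat_lit 406) (nat_lit 300))))))) (XT.nd (nat_lit 858) (nat_lit 5396) (nat_lit 0) (XT.nd (nat_lit 390) (nat_lit 2660) (nat_lit 0) (XT.nd (nat_lit 156) (nat_lit 2204) (nat_lit 0) (XT.nd (nat_lit 78) (nat_lit 0) (nat_lit 0) (XT.lf (nat_lit 0) (nat_lit 792965794) (nat_lit 1824) (nat_lit 6327869330) (nat_lit 76) (nat_lit 2654420538) (nat_lit 421) (nat_lit 5) (nat_lit 445) (nat_lit 5) (nat_lit 422) (nat_lit 5) (nat_lit 435) (nat_lit 406) (nat_lit 299)) (XT.lf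 (nat_lit 0) (nat_lit 2398834244) (nat_lit 1824) (nat_lit 947244051) (nat_lit 76) (nat_lit 6522087914) (nat_lit 421) (nat_lit 5) (nat_lit 445) (nat_lit 5) (nat_lit 422) (nat_lit 5) (nat_lit 436) (nat_lit 406) (nat_lit 298))) (XT.nd (nat_lit 78) (nat_lit 912) (nat_lit 0) (XT.lf (nat_lit 0) (nat_lit 4049047079) (nat_lit 1368) (nat_lit 5383944280) (nat_lit 76) (nat_lit 529705041) (nat_lit 404) (nat_lit 5) (nat_lit 422) (nat_lit 5) (nat_lit 405) (nat_lit 5) (nat_lit 437) (nat_lit 406) (nat_lit 297)) (XT.nd (nat_lit 78) (nat_lit 0) (nat_lit 0) (XT.lf (nat_lit 0) (nat_lit 129520635) (nat_lit 912) (nat_lit 5611437412) (nat_lit 988) (nat_lit 4317991127) (nat_lit 392) (nat_lit 5) (nat_lit 404) (nat_lit 5) (nat_lit 405) (nat_lit 5) (nat_lit 438) (nat_lit 406) (nat_lit 296)) (XT.lf (nat_lit 0) (nat_lit 5807266465) (nat_lit 912) (nat_lit 1675147574) (nat_lit 988) (nat_lit 2674404572) (nat_lit 392) (nat_lit 5) (nat_lit 404) (nat_lit 5) (nat_lit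 405) (nat_lit 5) (nat_lit 439) (nat_lit 406) (nat_lit 295))))) (XT.nd (nat_lit 234) (nat_lit 836) (nat_lit 0) (XT.nd (nat_lit 78) (nat_lit 988) (nat_lit 0) (XT.lf (nat_lit 0) (nat_lit 1325096136) (nat_lit 836) (nat_lit 7937385783) (nat_lit 912) (nat_lit 994093489) (nat_lit 381) (nat_lit 5) (nat_lit 392) (nat_lit 5) (nat_lit 393) (nat_lit 5) (nat_lit 440) (nat_lit 406) (nat_lit 294)) (XT.nd (nat_lit 78) (nat_lit 912) (nat_lit 0) (XT.lf (nat_lit 0) (nat_lit 730978939) (nat_lit 912) (nat_lit 3220664491) (nat_lit 76) (nat_lit 6406183938) (nat_lit 380) (nat_lit 5) (nat_lit 392) (nat_lit 5) (nat_lit 381) (nat_lit 5) (nat_lit 441) (nat_lit 406) (nat_lit 293)) (XT.lf (nat_lit 0) (nat_lit 2475631735) (nat_lit 988) (nat_lit 7848652620) (nat_lit 76) (nat_lit 136726101) (nat_lit 368) (nat_lit 5) (nat_lit 381) (nat_lit 5) (nat_lit 369) (nat_lit 5) (nat_lit 442) (nat_lit 406) (nat_lit 292)))) (XT.nd (nat_lit 78) (nat_lit 836) (nat_lit 0)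 (XT.lf (nat_lit 0) (nat_lit 4283878355) (nat_lit 988) (nat_lit 2005491672) (nat_lit 76) (nat_lit 4276318365) (nat_lit 368) (nat_lit 5) (nat_lit 381) (nat_lit 5) (nat_lit 369) (nat_lit 5) (nat_lit 443) (nat_lit 406) (nat_lit 291)) (XT.nd (nat_lit 78) (nat_lit 0) (nat_lit 0) (XT.lf (nat_lit 0) (nat_lit 3988160160) (nat_lit 836) (nat_lit 2147175942) (nat_lit 912) (nat_lit 4536987960) (nat_lit 357) (nat_lit 5) (nat_lit 368) (nat_lit 5) (nat_lit 369) (nat_lit 5) (nat_lit 444) (nat_lit 406) (nat_lit 290)) (XT.lf (nat_lit 0) (nat_lit 8032262680) (nat_lit 912) (nat_lit 684465416) (nat_lit 76) (nat_lit 2064200554) (nat_lit 357) (nat_lit 5) (nat_lit 369) (nat_lit 5) (nat_lit 358) (nat_lit 5) (nat_lit 445) (nat_lit 406) (nat_lit 289)))))) (XT.nd (nat_lit 468) (nat_lit 2204) (nat_lit 0) (XT.nd (nat_lit 234) (nat_lit 1520) (nat_lit 0) (XT.nd (nat_lit 78) (nat_lit 836) (nat_lit 0) (XT.lf (nat_lit 0) (nat_lit 5474242074) (nat_lit 836) (nat_lit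 4524414291) (nat_lit 912) (nat_lit 892423294) (nat_lit 346) (nat_lit 5) (nat_lit 357) (nat_lit 5) (nat_lit 358) (nat_lit 5) (nat_lit 446) (nat_lit 406) (nat_lit 288)) (XT.nd (nat_lit 78) (nat_lit 0) (nat_lit 0) (XT.lf (nat_lit 0) (nat_lit 746638761) (nat_lit 760) (nat_lit 232529467) (nat_lit 836) (nat_lit 10024313165) (nat_lit 335) (nat_lit 5) (nat_lit 345) (nat_lit 5) (nat_lit 346) (nat_lit 5) (nat_lit 447) (nat_lit 406) (nat_lit 287)) (XT.lf (nat_lit 0) (nat_lit 2921867830) (nat_lit 836) (nat_lit 4062576355) (nat_lit 76) (nat_lit 4132661100) (nat_lit 335) (nat_lit 5) (nat_lit 346) (nat_lit 5) (nat_lit 336) (nat_lit 5) (nat_lit 448) (nat_lit 406) (nat_lit 286)))) (XT.nd (nat_lit 78) (nat_lit 760) (nat_lit 0) (XT.lf (nat_lit 0) (nat_lit 2265195405) (nat_lit 760) (nat_lit 2636934595) (nat_lit 836) (nat_lit 6330902012) (nat_lit 325) (nat_lit 5) (nat_lit 335) (nat_lit 5) (nat_lit 336) (nat_lit 5) (nat_lit 449) (nat_lit 406) (nat_lit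 285)) (XT.nd (nat_lit 78) (nat_lit 760) (nat_lit 0) (XT.lf (nat_lit 0) (nat_lit 6943789238) (nat_lit 836) (nat_lit 2606761243) (nat_lit 76) (nat_lit 1800295394) (nat_lit 325) (nat_lit 5) (nat_lit 336) (nat_lit 5) (nat_lit 326) (nat_lit 5) (nat_lit 450) (nat_lit 406) (nat_lit 284)) (XT.lf (nat_lit 0) (nat_lit 3896777627) (nat_lit 760) (nat_lit 5155285808) (nat_lit 836) (nat_lit 2418441296) (nat_lit 315) (nat_lit 5) (nat_lit 325) (nat_lit 5) (nat_lit 326) (nat_lit 5) (nat_lit 451) (nat_lit 406) (nat_lit 283))))) (XT.nd (nat_lit 234) (nat_lit 684) (nat_lit 0) (XT.nd (nat_lit 78) (nat_lit 1520) (nat_lit 0) (XT.lf (nat_lit 0) (nat_lit 10547441877) (nat_lit 760) (nat_lit 655786433) (nat_lit 836) (nat_lit 389318218) (nat_lit 315) (nat_lit 5) (nat_lit 325) (nat_lit 5) (nat_lit 326) (nat_lit 5) (nat_lit 452) (nat_lit 406) (nat_lit 282)) (XT.nd (nat_lit 78) (nat_lit 684) (nat_lit 0) (XT.lf (nat_lit 0) (nat_lit 1704386060) (nat_lit 836)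 (nat_lit 6083000798) (nat_lit 76) (nat_lit 3928507453) (nat_lit 304) (nat_lit 5) (nat_lit 315) (nat_lit 5) (nat_lit 305) (nat_lit 5) (nat_lit 453) (nat_lit 406) (nat_lit 281)) (XT.lf (nat_lit 0) (nat_lit 599598752) (nat_lit 684) (nat_lit 3234097981) (nat_lit 760) (nat_lit 8007985964) (nat_lit 295) (nat_lit 5) (nat_lit 304) (nat_lit 5) (nat_lit 305) (nat_lit 5) (nat_lit 454) (nat_lit 406) (nat_lit 280)))) (XT.nd (nat_lit 78) (nat_lit 684) (nat_lit 0) (XT.lf (nat_lit 0) (nat_lit 6039674115) (nat_lit 760) (nat_lit 4498829914) (nat_lit 76) (nat_lit 1430805155) (nat_lit 295) (nat_lit 5) (nat_lit 305) (nat_lit 5) (nat_lit 296) (nat_lit 5) (nat_lit 455) (nat_lit 406) (nat_lit 279)) (XT.nd (nat_lit 78) (nat_lit 0) (nat_lit 0) (XT.lf (nat_lit 0) (nat_lit 2370788391) (nat_lit 684) (nat_lit 5939943938) (nat_lit 760) (nat_lit 3788340509) (nat_lit 286) (nat_lit 5) (nat_lit 295) (nat_lit 5) (nat_lit 296) (nat_lit 5) (nat_lit 456) (nat_lit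 406) (nat_lit 278)) (XT.lf (nat_lit 0) (nat_lit 9420725209) (nat_lit 684) (nat_lit 1221020238) (nat_lit 760) (nat_lit 1589399432) (nat_lit 286) (nat_lit 5) (nat_lit 295) (nat_lit 5) (nat_lit 296) (nat_lit 5) (nat_lit 457) (nat_lit 406) (nat_lit 277))))))))
noncomputable def xc157 : XT := (XT.nd (nat_lit 1716) (nat_lit 5472) (nat_lit 0) (XT.nd (nat_lit 858) (nat_lit 3268) (nat_lit 0) (XT.nd (nat_lit 390) (nat_lit 2432) (nat_lit 0) (XT.nd (nat_lit 156) (nat_lit 1292) (nat_lit 0) (XT.nd (nat_lit 78) (nat_lit 0) (nat_lit 0) (XT.lf (nat_lit 0) (nat_lit 680802112) (nat_lit 760) (nat_lit 8109272397) (nat_lit 76) (nat_lit 3574985579) (nat_lit 276) (nat_lit 5) (nat_lit 286) (nat_lit 5) (nat_lit 277) (nat_lit 5) (nat_lit 458) (nat_lit 406) (nat_lit 276)) (XT.lf (nat_lit 0) (nat_lit 2986933011) (nat_lit 760) (nat_lit 1036684478) (nat_lit 76) (nat_lit 8477593414) (nat_lit 276) (nat_lit 5) (nat_lit 286) (nat_lit 5) (nat_lit 277) (nat_lit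 5) (nat_lit 459) (nat_lit 406) (nat_lit 275))) (XT.nd (nat_lit 78) (nat_lit 608) (nat_lit 0) (XT.lf (nat_lit 0) (nat_lit 5370419478) (nat_lit 760) (nat_lit 6403788210) (nat_lit 76) (nat_lit 865255888) (nat_lit 267) (nat_lit 5) (nat_lit 277) (nat_lit 5) (nat_lit 268) (nat_lit 5) (nat_lit 460) (nat_lit 406) (nat_lit 274)) (XT.nd (nat_lit 78) (nat_lit 0) (nat_lit 0) (XT.lf (nat_lit 0) (nat_lit 853801722) (nat_lit 608) (nat_lit 6972144452) (nat_lit 684) (nat_lit 4954051152) (nat_lit 259) (nat_lit 5) (nat_lit 267) (nat_lit 5) (nat_lit 268) (nat_lit 5) (nat_lit 461) (nat_lit 406) (nat_lit 273)) (XT.lf (nat_lit 0) (nat_lit 8325569960) (nat_lit 608) (nat_lit 2033339243) (nat_lit 684) (nat_lit 2563869393) (nat_lit 259) (nat_lit 5) (nat_lit 267) (nat_lit 5) (nat_lit 268) (nat_lit 5) (nat_lit 462) (nat_lit 406) (nat_lit 272))))) (XT.nd (nat_lit 234) (nat_lit 1140) (nat_lit 0) (XT.nd (nat_lit 78) (nat_lit 684) (nat_lit 0) (XT.lf (nat_lit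 0) (nat_lit 2878909460) (nat_lit 608) (nat_lit 10087439629) (nat_lit 684) (nat_lit 101593351) (nat_lit 251) (nat_lit 5) (nat_lit 259) (nat_lit 5) (nat_lit 260) (nat_lit 5) (nat_lit 463) (nat_lit 406) (nat_lit 271)) (XT.nd (nat_lit 78) (nat_lit 608) (nat_lit 0) (XT.lf (nat_lit 0) (nat_lit 2408532135) (nat_lit 684) (nat_lit 2695620625) (nat_lit 76) (nat_lit 8110942823) (nat_lit 250) (nat_lit 5) (nat_lit 259) (nat_lit 5) (nat_lit 251) (nat_lit 5) (nat_lit 464) (nat_lit 406) (nat_lit 270)) (XT.lf (nat_lit 0) (nat_lit 4985963210) (nat_lit 684) (nat_lit 8369803284) (nat_lit 76) (nat_lit 9045703) (nat_lit 242) (nat_lit 5) (nat_lit 251) (nat_lit 5) (nat_lit 243) (nat_lit 5) (nat_lit 465) (nat_lit 406) (nat_lit 269)))) (XT.nd (nat_lit 78) (nat_lit 1140) (nat_lit 0) (XT.lf (nat_lit 0) (nat_lit 7653065665) (nat_lit 684) (nat_lit 692664718) (nat_lit 76) (nat_lit 5171033352) (nat_lit 242) (nat_lit 5) (nat_lit 251) (nat_lit 5) (nat_lit 243)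 (nat_lit 5) (nat_lit 466) (nat_lit 406) (nat_lit 268)) (XT.nd (nat_lit 78) (nat_lit 532) (nat_lit 0) (XT.lf (nat_lit 0) (nat_lit 7215420595) (nat_lit 608) (nat_lit 3191320786) (nat_lit 684) (nat_lit 3264351285) (nat_lit 234) (nat_lit 5) (nat_lit 242) (nat_lit 5) (nat_lit 243) (nat_lit 5) (nat_lit 467) (nat_lit 406) (nat_lit 267)) (XT.lf (nat_lit 0) (nat_lit 1450861557) (nat_lit 532) (nat_lit 11778658988) (nat_lit 608) (nat_lit 598709963) (nat_lit 227) (nat_lit 5) (nat_lit 234) (nat_lit 5) (nat_lit 235) (nat_lit 5) (nat_lit 468) (nat_lit 406) (nat_lit 266)))))) (XT.nd (nat_lit 390) (nat_lit 2128) (nat_lit 0) (XT.nd (nat_lit 156) (nat_lit 532) (nat_lit 0) (XT.nd (nat_lit 78) (nat_lit 532) (nat_lit 0) (XT.lf (nat_lit 0) (nat_lit 2143756565) (nat_lit 608) (nat_lit 4437227592) (nat_lit 76) (nat_lit 7406228046) (nat_lit 226) (nat_lit 5) (nat_lit 234) (nat_lit 5) (nat_lit 227) (nat_lit 5) (nat_lit 469) (nat_lit 406) (nat_lit 265))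 (XT.lf (nat_lit 0) (nat_lit 3689046289) (nat_lit 532) (nat_lit 1254809166) (nat_lit 608) (nat_lit 9205225695) (nat_lit 219) (nat_lit 5) (nat_lit 226) (nat_lit 5) (nat_lit 227) (nat_lit 5) (nat_lit 470) (nat_lit 406) (nat_lit 264))) (XT.nd (nat_lit 78) (nat_lit 532) (nat_lit 0) (XT.lf (nat_lit 0) (nat_lit 7844017883) (nat_lit 608) (nat_lit 2320133963) (nat_lit 76) (nat_lit 4149157104) (nat_lit 219) (nat_lit 5) (nat_lit 227) (nat_lit 5) (nat_lit 220) (nat_lit 5) (nat_lit 471) (nat_lit 406) (nat_lit 263)) (XT.nd (nat_lit 78) (nat_lit 0) (nat_lit 0) (XT.lf (nat_lit 0) (nat_lit 6036550278) (nat_lit 532) (nat_lit 4800354804) (nat_lit 608) (nat_lit 3643224445) (nat_lit 212) (nat_lit 5) (nat_lit 219) (nat_lit 5) (nat_lit 220) (nat_lit 5) (nat_lit 472) (nat_lit 406) (nat_lit 262)) (XT.lf (nat_lit 0) (nat_lit 13897010444) (nat_lit 608) (nat_lit 79607481) (nat_lit 76) (nat_lit 673523983) (nat_lit 212) (nat_lit 5) (nat_lit 220) (nat_lit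 5) (nat_lit 213) (nat_lit 5) (nat_lit 473) (nat_lit 406) (nat_lit 261))))) (XT.nd (nat_lit 234) (nat_lit 1064) (nat_lit 0) (XT.nd (nat_lit 78) (nat_lit 456) (nat_lit 0) (XT.lf (nat_lit 0) (nat_lit 2241126764) (nat_lit 608) (nat_lit 6321940438) (nat_lit 76) (nat_lit 6258701875) (nat_lit 204) (nat_lit 5) (nat_lit 212) (nat_lit 5) (nat_lit 205) (nat_lit 5) (nat_lit 474) (nat_lit 406) (nat_lit 260)) (XT.nd (nat_lit 78) (nat_lit 0) (nat_lit 0) (XT.lf (nat_lit 0) (nat_lit 2263087387) (nat_lit 456) (nat_lit 3024972826) (nat_lit 532) (nat_lit 9708613974) (nat_lit 198) (nat_lit 5) (nat_lit 204) (nat_lit 5) (nat_lit 205) (nat_lit 5) (nat_lit 475) (nat_lit 406) (nat_lit 259)) (XT.lf (nat_lit 0) (nat_lit 8443412915) (nat_lit 532) (nat_lit 4102859904) (nat_lit 76) (nat_lit 2627857370) (nat_lit 198) (nat_lit 5) (nat_lit 205) (nat_lit 5) (nat_lit 199) (nat_lit 5) (nat_lit 476) (nat_lit 406) (nat_lit 258)))) (XT.nd (nat_lit 78) (nat_lit 532)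 (nat_lit 0) (XT.lf (nat_lit 0) (nat_lit 4725934616) (nat_lit 532) (nat_lit 6974635372) (nat_lit 608) (nat_lit 3653793733) (nat_lit 191) (nat_lit 5) (nat_lit 198) (nat_lit 5) (nat_lit 199) (nat_lit 5) (nat_lit 477) (nat_lit 406) (nat_lit 257)) (XT.nd (nat_lit 78) (nat_lit 532) (nat_lit 0) (XT.lf (nat_lit 0) (nat_lit 13770533435) (nat_lit 532) (nat_lit 1267978884) (nat_lit 608) (nat_lit 499379072) (nat_lit 191) (nat_lit 5) (nat_lit 198) (nat_lit 5) (nat_lit 199) (nat_lit 5) (nat_lit 478) (nat_lit 406) (nat_lit 256)) (XT.lf (nat_lit 0) (nat_lit 2748313846) (nat_lit 532) (nat_lit 8420744589) (nat_lit 76) (nat_lit 4554363667) (nat_lit 184) (nat_lit 5) (nat_lit 191) (nat_lit 5) (nat_lit 185) (nat_lit 5) (nat_lit 479) (nat_lit 406) (nat_lit 255))))))) (XT.nd (nat_lit 858) (nat_lit 2736) (nat_lit 0) (XT.nd (nat_lit 390) (nat_lit 1292) (nat_lit 0) (XT.nd (nat_lit 156) (nat_lit 988) (nat_lit 0) (XT.nd (nat_lit 78) (nat_lit 0) (nat_lit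 0) (XT.lf (nat_lit 0) (nat_lit 646011904) (nat_lit 456) (nat_lit 5421157981) (nat_lit 532) (nat_lit 9845171784) (nat_lit 178) (nat_lit 5) (nat_lit 184) (nat_lit 5) (nat_lit 185) (nat_lit 5) (nat_lit 480) (nat_lit 406) (nat_lit 254)) (XT.lf (nat_lit 0) (nat_lit 9500604875) (nat_lit 532) (nat_lit 6115319393) (nat_lit 76) (nat_lit 488153454) (nat_lit 178) (nat_lit 5) (nat_lit 185) (nat_lit 5) (nat_lit 179) (nat_lit 5) (nat_lit 481) (nat_lit 406) (nat_lit 253))) (XT.nd (nat_lit 78) (nat_lit 532) (nat_lit 0) (XT.lf (nat_lit 0) (nat_lit 3208798524) (nat_lit 456) (nat_lit 9839323992) (nat_lit 532) (nat_lit 3250619794) (nat_lit 172) (nat_lit 5) (nat_lit 178) (nat_lit 5) (nat_lit 179) (nat_lit 5) (nat_lit 482) (nat_lit 406) (nat_lit 252)) (XT.nd (nat_lit 78) (nat_lit 456) (nat_lit 0) (XT.lf (nat_lit 0) (nat_lit 197099382) (nat_lit 532) (nat_lit 3711697742) (nat_lit 76) (nat_lit 12587882506) (nat_lit 171) (nat_lit 5) (nat_lit 178) (nat_lit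 5) (nat_lit 172) (nat_lit 5) (nat_lit 483) (nat_lit 406) (nat_lit 251)) (XT.lf (nat_lit 0) (nat_lit 3711759278) (nat_lit 532) (nat_lit 10817801301) (nat_lit 76) (nat_lit 2167757114) (nat_lit 165) (nat_lit 5) (nat_lit 172) (nat_lit 5) (nat_lit 166) (nat_lit 5) (nat_lit 484) (nat_lit 406) (nat_lit 250))))) (XT.nd (nat_lit 234) (nat_lit 456) (nat_lit 0) (XT.nd (nat_lit 78) (nat_lit 836) (nat_lit 0) (XT.lf (nat_lit 0) (nat_lit 7336696309) (nat_lit 532) (nat_lit 1230563676) (nat_lit 76) (nat_lit 8333910786) (nat_lit 165) (nat_lit 5) (nat_lit 172) (nat_lit 5) (nat_lit 166) (nat_lit 5) (nat_lit 485) (nat_lit 406) (nat_lit 249)) (XT.nd (nat_lit 78) (nat_lit 456) (nat_lit 0) (XT.lf (nat_lit 0) (nat_lit 8646217224) (nat_lit 380) (nat_lit 2433292488) (nat_lit 456) (nat_lit 6028685539) (nat_lit 160) (nat_lit 5) (nat_lit 165) (nat_lit 5) (nat_lit 166) (nat_lit 5) (nat_lit 486) (nat_lit 406) (nat_lit 248)) (XT.lf (nat_lit 0) (nat_lit 1395767672)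 (nat_lit 456) (nat_lit 13532929679) (nat_lit 532) (nat_lit 2390034369) (nat_lit 154) (nat_lit 5) (nat_lit 160) (nat_lit 5) (nat_lit 161) (nat_lit 5) (nat_lit 487) (nat_lit 406) (nat_lit 247)))) (XT.nd (nat_lit 78) (nat_lit 380) (nat_lit 0) (XT.lf (nat_lit 0) (nat_lit 1366690489) (nat_lit 532) (nat_lit 6007759528) (nat_lit 76) (nat_lit 10157606480) (nat_lit 153) (nat_lit 5) (nat_lit 160) (nat_lit 5) (nat_lit 154) (nat_lit 5) (nat_lit 488) (nat_lit 406) (nat_lit 246)) (XT.nd (nat_lit 78) (nat_lit 0) (nat_lit 0) (XT.lf (nat_lit 0) (nat_lit 4128658344) (nat_lit 380) (nat_lit 1054289579) (nat_lit 456) (nat_lit 12566057622) (nat_lit 148) (nat_lit 5) (nat_lit 153) (nat_lit 5) (nat_lit 154) (nat_lit 5) (nat_lit 489) (nat_lit 406) (nat_lit 245)) (XT.lf (nat_lit 0) (nat_lit 9140760562) (nat_lit 456) (nat_lit 3471008535) (nat_lit 76) (nat_lit 5357221591) (nat_lit 148) (nat_lit 5) (nat_lit 154) (nat_lit 5) (nat_lit 149) (nat_lit 5) (nat_lit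 490) (nat_lit 406) (nat_lit 244)))))) (XT.nd (nat_lit 468) (nat_lit 1216) (nat_lit 0) (XT.nd (nat_lit 234) (nat_lit 684) (nat_lit 0) (XT.nd (nat_lit 78) (nat_lit 456) (nat_lit 0) (XT.lf (nat_lit 0) (nat_lit 6950307629) (nat_lit 380) (nat_lit 6269370684) (nat_lit 456) (nat_lit 4972859927) (nat_lit 143) (nat_lit 5) (nat_lit 148) (nat_lit 5) (nat_lit 149) (nat_lit 5) (nat_lit 491) (nat_lit 406) (nat_lit 243)) (XT.nd (nat_lit 78) (nat_lit 456) (nat_lit 0) (XT.lf (nat_lit 0) (nat_lit 17394828157) (nat_lit 456) (nat_lit 809694391) (nat_lit 76) (nat_lit 215742769) (nat_lit 143) (nat_lit 5) (nat_lit 149) (nat_lit 5) (nat_lit 144) (nat_lit 5) (nat_lit 492) (nat_lit 406) (nat_lit 242)) (XT.lf (nat_lit 0) (nat_lit 3058145683) (nat_lit 456) (nat_lit 8765823806) (nat_lit 76) (nat_lit 6826257962) (nat_lit 137) (nat_lit 5) (nat_lit 143) (nat_lit 5) (nat_lit 138) (nat_lit 5) (nat_lit 493) (nat_lit 406) (nat_lit 241)))) (XT.nd (nat_lit 78) (nat_lit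 304) (nat_lit 0) (XT.lf (nat_lit 0) (nat_lit 1922073242) (nat_lit 380) (nat_lit 5295696419) (nat_lit 456) (nat_lit 11666723157) (nat_lit 132) (nat_lit 5) (nat_lit 137) (nat_lit 5) (nat_lit 138) (nat_lit 5) (nat_lit 494) (nat_lit 406) (nat_lit 240)) (XT.nd (nat_lit 78) (nat_lit 304) (nat_lit 0) (XT.lf (nat_lit 0) (nat_lit 11518851234) (nat_lit 456) (nat_lit 6204007922) (nat_lit 76) (nat_lit 1399420558) (nat_lit 132) (nat_lit 5) (nat_lit 138) (nat_lit 5) (nat_lit 133) (nat_lit 5) (nat_lit 495) (nat_lit 406) (nat_lit 239)) (XT.lf (nat_lit 0) (nat_lit 4782466988) (nat_lit 304) (nat_lit 11180003198) (nat_lit 380) (nat_lit 3401223341) (nat_lit 128) (nat_lit 5) (nat_lit 132) (nat_lit 5) (nat_lit 133) (nat_lit 5) (nat_lit 496) (nat_lit 406) (nat_lit 238))))) (XT.nd (nat_lit 234) (nat_lit 760) (nat_lit 0) (XT.nd (nat_lit 78) (nat_lit 380) (nat_lit 0) (XT.lf (nat_lit 0) (nat_lit 905749186) (nat_lit 380) (nat_lit 3557145181) (nat_lit 76)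 (nat_lit 15146281149) (nat_lit 127) (nat_lit 5) (nat_lit 132) (nat_lit 5) (nat_lit 128) (nat_lit 5) (nat_lit 497) (nat_lit 406) (nat_lit 237)) (XT.nd (nat_lit 78) (nat_lit 0) (nat_lit 0) (XT.lf (nat_lit 0) (nat_lit 5310260790) (nat_lit 456) (nat_lit 12122192480) (nat_lit 76) (nat_lit 2425526800) (nat_lit 122) (nat_lit 5) (nat_lit 128) (nat_lit 5) (nat_lit 123) (nat_lit 5) (nat_lit 498) (nat_lit 406) (nat_lit 236)) (XT.lf (nat_lit 0) (nat_lit 9847114549) (nat_lit 456) (nat_lit 852757463) (nat_lit 76) (nat_lit 9411005046) (nat_lit 122) (nat_lit 5) (nat_lit 128) (nat_lit 5) (nat_lit 123) (nat_lit 5) (nat_lit 499) (nat_lit 406) (nat_lit 235)))) (XT.nd (nat_lit 78) (nat_lit 456) (nat_lit 0) (XT.lf (nat_lit 0) (nat_lit 10769031947) (nat_lit 304) (nat_lit 3766444047) (nat_lit 380) (nat_lit 5832141932) (nat_lit 118) (nat_lit 5) (nat_lit 122) (nat_lit 5) (nat_lit 123) (nat_lit 5) (nat_lit 500) (nat_lit 406) (nat_lit 234)) (XT.nd (nat_lit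 78) (nat_lit 76) (nat_lit 0) (XT.lf (nat_lit 0) (nat_lit 1995784478) (nat_lit 380) (nat_lit 17352906018) (nat_lit 456) (nat_lit 1280182725) (nat_lit 113) (nat_lit 5) (nat_lit 118) (nat_lit 5) (nat_lit 119) (nat_lit 5) (nat_lit 501) (nat_lit 406) (nat_lit 233)) (XT.lf (nat_lit 0) (nat_lit 3399423209) (nat_lit 456) (nat_lit 7003470315) (nat_lit 76) (nat_lit 10490410471) (nat_lit 112) (nat_lit 5) (nat_lit 118) (nat_lit 5) (nat_lit 113) (nat_lit 5) (nat_lit 502) (nat_lit 406) (nat_lit 232))))))))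
noncomputable def xc158 : XT := (XT.nd (nat_lit 53274) (nat_lit 0) (nat_lit 18392) (XT.nd (nat_lit 52416) (nat_lit 0) (nat_lit 30552) (XT.nd (nat_lit 51948) (nat_lit 0) (nat_lit 33212) (XT.nd (nat_lit 156) (nat_lit 380) (nat_lit 0) (XT.nd (nat_lit 78) (nat_lit 0) (nat_lit 0) (XT.lf (nat_lit 0) (nat_lit 4900459233) (nat_lit 304) (nat_lit 3277961290) (nat_lit 380) (nat_lit 12983976053) (nat_lit 108) (nat_lit 5) (nat_lit 112) (nat_lit 5) (nat_lit 113) (nat_lit 5) (nat_lit 503) (nat_lit 406) (nat_lit 231)) (XT.lf (nat_lit 0) (nat_lit 13117366127) (nat_lit 380) (nat_lit 4338868179) (nat_lit 76) (nat_lit 3979350561) (nat_lit 108) (nat_lit 5) (nat_lit 113) (nat_lit 5) (nat_lit 109) (nat_lit 5) (nat_lit 504) (nat_lit 406) (nat_lit 230))) (XT.nd (nat_lit 78) (nat_lit 76) (nat_lit 0) (XT.lf (nat_lit 0) (nat_lit 7890592670) (nat_lit 304) (nat_lit 10328768513) (nat_lit 380) (nat_lit 3493591532) (nat_lit 104) (nat_lit 5) (nat_lit 108) (nat_lit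 5) (nat_lit 109) (nat_lit 5) (nat_lit 505) (nat_lit 406) (nat_lit 229)) (XT.nd (nat_lit 51636) (nat_lit 0) (nat_lit 34580) (XT.lf (nat_lit 0) (nat_lit 1429468687) (nat_lit 380) (nat_lit 1595162484) (nat_lit 76) (nat_lit 18970639279) (nat_lit 103) (nat_lit 5) (nat_lit 108) (nat_lit 5) (nat_lit 104) (nat_lit 5) (nat_lit 506) (nat_lit 406) (nat_lit 228)) (XT.lf (nat_lit 0) (nat_lit 1417084442) (nat_lit 0) (nat_lit 1417084442) (nat_lit 1292) (nat_lit 1085538587) (nat_lit 558) (nat_lit 5) (nat_lit 558) (nat_lit 3) (nat_lit 575) (nat_lit 3) (nat_lit 407) (nat_lit 407) (nat_lit 326))))) (XT.nd (nat_lit 234) (nat_lit 0) (nat_lit 0) (XT.nd (nat_lit 78) (nat_lit 1368) (nat_lit 0) (XT.lf (nat_lit 0) (nat_lit 6689732156) (nat_lit 0) (nat_lit 296210385) (nat_lit 1292) (nat_lit 906218896) (nat_lit 558) (nat_lit 5) (nat_lit 558) (nat_lit 3) (nat_lit 575) (nat_lit 3) (nat_lit 408) (nat_lit 407) (nat_lit 325)) (XT.nd (nat_lit 78) (nat_lit 0)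 (nat_lit 0) (XT.lf (nat_lit 0) (nat_lit 378199249) (nat_lit 1368) (nat_lit 5269093389) (nat_lit 1444) (nat_lit 2298645443) (nat_lit 540) (nat_lit 5) (nat_lit 558) (nat_lit 5) (nat_lit 559) (nat_lit 5) (nat_lit 409) (nat_lit 407) (nat_lit 324)) (XT.lf (nat_lit 0) (nat_lit 1653608847) (nat_lit 1368) (nat_lit 1376290260) (nat_lit 1444) (nat_lit 4971233423) (nat_lit 540) (nat_lit 5) (nat_lit 558) (nat_lit 5) (nat_lit 559) (nat_lit 5) (nat_lit 410) (nat_lit 407) (nat_lit 323)))) (XT.nd (nat_lit 78) (nat_lit 0) (nat_lit 76) (XT.lf (nat_lit 76) (nat_lit 2611314608) (nat_lit 0) (nat_lit 328148757) (nat_lit 1444) (nat_lit 5118279378) (nat_lit 541) (nat_lit 5) (nat_lit 540) (nat_lit 5) (nat_lit 559) (nat_lit 5) (nat_lit 411) (nat_lit 407) (nat_lit 322)) (XT.nd (nat_lit 78) (nat_lit 0) (nat_lit 0) (XT.lf (nat_lit 0) (nat_lit 4244685067) (nat_lit 1368) (nat_lit 1451717603) (nat_lit 1444) (nat_lit 2419219889) (nat_lit 541) (nat_lit 5) (nat_lit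 559) (nat_lit 5) (nat_lit 560) (nat_lit 5) (nat_lit 412) (nat_lit 407) (nat_lit 321)) (XT.lf (nat_lit 76) (nat_lit 2637738069) (nat_lit 0) (nat_lit 2926779574) (nat_lit 1444) (nat_lit 2610382398) (nat_lit 542) (nat_lit 5) (nat_lit 541) (nat_lit 5) (nat_lit 560) (nat_lit 5) (nat_lit 413) (nat_lit 407) (nat_lit 320)))))) (XT.nd (nat_lit 390) (nat_lit 1368) (nat_lit 0) (XT.nd (nat_lit 156) (nat_lit 1368) (nat_lit 0) (XT.nd (nat_lit 78) (nat_lit 0) (nat_lit 76) (XT.lf (nat_lit 76) (nat_lit 6811206555) (nat_lit 0) (nat_lit 78979880) (nat_lit 1444) (nat_lit 1345597843) (nat_lit 542) (nat_lit 5) (nat_lit 541) (nat_lit 5) (nat_lit 560) (nat_lit 5) (nat_lit 414) (nat_lit 407) (nat_lit 319)) (XT.lf (nat_lit 76) (nat_lit 2770448115) (nat_lit 0) (nat_lit 5478628600) (nat_lit 1444) (nat_lit 48685124) (nat_lit 543) (nat_lit 5) (nat_lit 542) (nat_lit 5) (nat_lit 561) (nat_lit 5) (nat_lit 415) (nat_lit 407) (nat_lit 318))) (XT.nd (nat_lit 78)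 (nat_lit 0) (nat_lit 76) (XT.lf (nat_lit 0) (nat_lit 1238238184) (nat_lit 1444) (nat_lit 1319042595) (nat_lit 1520) (nat_lit 5803926474) (nat_lit 523) (nat_lit 5) (nat_lit 542) (nat_lit 5) (nat_lit 543) (nat_lit 5) (nat_lit 416) (nat_lit 407) (nat_lit 317)) (XT.nd (nat_lit 78) (nat_lit 0) (nat_lit 0) (XT.lf (nat_lit 0) (nat_lit 2543850527) (nat_lit 1444) (nat_lit 5434436771) (nat_lit 1520) (nat_lit 447765028) (nat_lit 524) (nat_lit 5) (nat_lit 543) (nat_lit 5) (nat_lit 544) (nat_lit 5) (nat_lit 417) (nat_lit 407) (nat_lit 316)) (XT.lf (nat_lit 0) (nat_lit 3873153577) (nat_lit 1444) (nat_lit 1120899732) (nat_lit 1520) (nat_lit 3498198478) (nat_lit 524) (nat_lit 5) (nat_lit 543) (nat_lit 5) (nat_lit 544) (nat_lit 5) (nat_lit 418) (nat_lit 407) (nat_lit 315))))) (XT.nd (nat_lit 234) (nat_lit 1444) (nat_lit 0) (XT.nd (nat_lit 78) (nat_lit 0) (nat_lit 76) (XT.lf (nat_lit 76) (nat_lit 3304348059) (nat_lit 0) (nat_lit 1918435643) (nat_lit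 1520) (nat_lit 3337125591) (nat_lit 525) (nat_lit 5) (nat_lit 524) (nat_lit 5) (nat_lit 544) (nat_lit 5) (nat_lit 419) (nat_lit 407) (nat_lit 314)) (XT.nd (nat_lit 78) (nat_lit 0) (nat_lit 0) (XT.lf (nat_lit 0) (nat_lit 6587667314) (nat_lit 1444) (nat_lit 821832484) (nat_lit 1520) (nat_lit 1219663637) (nat_lit 525) (nat_lit 5) (nat_lit 544) (nat_lit 5) (nat_lit 545) (nat_lit 5) (nat_lit 420) (nat_lit 407) (nat_lit 313)) (XT.lf (nat_lit 76) (nat_lit 3718601305) (nat_lit 0) (nat_lit 4271406251) (nat_lit 1520) (nat_lit 709600458) (nat_lit 526) (nat_lit 5) (nat_lit 525) (nat_lit 5) (nat_lit 545) (nat_lit 5) (nat_lit 421) (nat_lit 407) (nat_lit 312)))) (XT.nd (nat_lit 78) (nat_lit 0) (nat_lit 76) (XT.lf (nat_lit 0) (nat_lit 619508844) (nat_lit 1520) (nat_lit 432893130) (nat_lit 1596) (nat_lit 7719401714) (nat_lit 505) (nat_lit 5) (nat_lit 525) (nat_lit 5) (nat_lit 526) (nat_lit 5) (nat_lit 422) (nat_lit 407) (nat_lit 311)) (XT.nd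 (nat_lit 78) (nat_lit 0) (nat_lit 0) (XT.lf (nat_lit 0) (nat_lit 1982035729) (nat_lit 1520) (nat_lit 4620913241) (nat_lit 1596) (nat_lit 2242081797) (nat_lit 506) (nat_lit 5) (nat_lit 526) (nat_lit 5) (nat_lit 527) (nat_lit 5) (nat_lit 423) (nat_lit 407) (nat_lit 310)) (XT.lf (nat_lit 76) (nat_lit 35580864) (nat_lit 0) (nat_lit 3320854612) (nat_lit 1596) (nat_lit 5563602350) (nat_lit 507) (nat_lit 5) (nat_lit 506) (nat_lit 5) (nat_lit 527) (nat_lit 5) (nat_lit 424) (nat_lit 407) (nat_lit 309))))))) (XT.nd (nat_lit 858) (nat_lit 7524) (nat_lit 0) (XT.nd (nat_lit 390) (nat_lit 3268) (nat_lit 0) (XT.nd (nat_lit 156) (nat_lit 1520) (nat_lit 0) (XT.nd (nat_lit 78) (nat_lit 0) (nat_lit 0) (XT.lf (nat_lit 0) (nat_lit 4764635638) (nat_lit 1520) (nat_lit 4167265196) (nat_lit 1596) (nat_lit 64525671) (nat_lit 507) (nat_lit 5) (nat_lit 527) (nat_lit 5) (nat_lit 528) (nat_lit 5) (nat_lit 425) (nat_lit 407) (nat_lit 308)) (XT.lf (nat_lit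 76) (nat_lit 611868439) (nat_lit 0) (nat_lit 5590511896) (nat_lit 1596) (nat_lit 2871942590) (nat_lit 508) (nat_lit 5) (nat_lit 507) (nat_lit 5) (nat_lit 528) (nat_lit 5) (nat_lit 426) (nat_lit 407) (nat_lit 307))) (XT.nd (nat_lit 78) (nat_lit 1520) (nat_lit 0) (XT.lf (nat_lit 76) (nat_lit 5524760085) (nat_lit 0) (nat_lit 2147862993) (nat_lit 1596) (nat_lit 1481086759) (nat_lit 508) (nat_lit 5) (nat_lit 507) (nat_lit 5) (nat_lit 528) (nat_lit 5) (nat_lit 427) (nat_lit 407) (nat_lit 306)) (XT.nd (nat_lit 78) (nat_lit 1596) (nat_lit 0) (XT.lf (nat_lit 76) (nat_lit 1290827077) (nat_lit 0) (nat_lit 7874969301) (nat_lit 1596) (nat_lit 69024877) (nat_lit 509) (nat_lit 5) (nat_lit 508) (nat_lit 5) (nat_lit 529) (nat_lit 5) (nat_lit 428) (nat_lit 407) (nat_lit 305)) (XT.lf (nat_lit 0) (nat_lit 1368506478) (nat_lit 1596) (nat_lit 3000837702) (nat_lit 1672) (nat_lit 4947735403) (nat_lit 487) (nat_lit 5) (nat_lit 508) (nat_lit 5) (nat_lit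 509) (nat_lit 5) (nat_lit 429) (nat_lit 407) (nat_lit 304))))) (XT.nd (nat_lit 234) (nat_lit 1748) (nat_lit 0) (XT.nd (nat_lit 78) (nat_lit 1520) (nat_lit 0) (XT.lf (nat_lit 76) (nat_lit 2049295911) (nat_lit 0) (nat_lit 774810936) (nat_lit 1672) (nat_lit 6577069114) (nat_lit 488) (nat_lit 5) (nat_lit 487) (nat_lit 5) (nat_lit 509) (nat_lit 5) (nat_lit 430) (nat_lit 407) (nat_lit 303)) (XT.nd (nat_lit 78) (nat_lit 1596) (nat_lit 0) (XT.lf (nat_lit 0) (nat_lit 4325164089) (nat_lit 1596) (nat_lit 2283025958) (nat_lit 76) (nat_lit 2878444050) (nat_lit 488) (nat_lit 5) (nat_lit 509) (nat_lit 5) (nat_lit 489) (nat_lit 5) (nat_lit 431) (nat_lit 407) (nat_lit 302)) (XT.lf (nat_lit 0) (nat_lit 2901821985) (nat_lit 1596) (nat_lit 2956137375) (nat_lit 1672) (nat_lit 3715814294) (nat_lit 467) (nat_lit 5) (nat_lit 488) (nat_lit 5) (nat_lit 489) (nat_lit 5) (nat_lit 432) (nat_lit 407) (nat_lit 301)))) (XT.nd (nat_lit 78) (nat_lit 1748) (nat_lit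 0) (XT.lf (nat_lit 0) (nat_lit 7419912612) (nat_lit 1672) (nat_lit 1464788742) (nat_lit 76) (nat_lit 777991074) (nat_lit 467) (nat_lit 5) (nat_lit 489) (nat_lit 5) (nat_lit 468) (nat_lit 5) (nat_lit 433) (nat_lit 407) (nat_lit 300)) (XT.nd (nat_lit 78) (nat_lit 76) (nat_lit 0) (XT.lf (nat_lit 0) (nat_lit 3859262139) (nat_lit 1672) (nat_lit 5176994135) (nat_lit 1748) (nat_lit 716676618) (nat_lit 445) (nat_lit 5) (nat_lit 467) (nat_lit 5) (nat_lit 468) (nat_lit 5) (nat_lit 434) (nat_lit 407) (nat_lit 299)) (XT.lf (nat_lit 0) (nat_lit 817501396) (nat_lit 1748) (nat_lit 559112843) (nat_lit 76) (nat_lit 8468489570) (nat_lit 444) (nat_lit 5) (nat_lit 467) (nat_lit 5) (nat_lit 445) (nat_lit 5) (nat_lit 435) (nat_lit 407) (nat_lit 298)))))) (XT.nd (nat_lit 468) (nat_lit 2660) (nat_lit 0) (XT.nd (nat_lit 234) (nat_lit 1824) (nat_lit 0) (XT.nd (nat_lit 78) (nat_lit 1292) (nat_lit 0) (XT.lf (nat_lit 0) (nat_lit 2400328595) (nat_lit 1824)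 (nat_lit 5031432407) (nat_lit 76) (nat_lit 2506717137) (nat_lit 421) (nat_lit 5) (nat_lit 445) (nat_lit 5) (nat_lit 422) (nat_lit 5) (nat_lit 436) (nat_lit 407) (nat_lit 297)) (XT.nd (nat_lit 78) (nat_lit 0) (nat_lit 0) (XT.lf (nat_lit 0) (nat_lit 434603430) (nat_lit 1292) (nat_lit 3575326766) (nat_lit 1368) (nat_lit 6023893257) (nat_lit 404) (nat_lit 5) (nat_lit 421) (nat_lit 5) (nat_lit 422) (nat_lit 5) (nat_lit 437) (nat_lit 407) (nat_lit 296)) (XT.lf (nat_lit 0) (nat_lit 5667737762) (nat_lit 1368) (nat_lit 4073507917) (nat_lit 76) (nat_lit 389515459) (nat_lit 404) (nat_lit 5) (nat_lit 422) (nat_lit 5) (nat_lit 405) (nat_lit 5) (nat_lit 438) (nat_lit 407) (nat_lit 295)))) (XT.nd (nat_lit 78) (nat_lit 912) (nat_lit 0) (XT.lf (nat_lit 0) (nat_lit 1540896590) (nat_lit 912) (nat_lit 5831585958) (nat_lit 988) (nat_lit 2856885038) (nat_lit 392) (nat_lit 5) (nat_lit 404) (nat_lit 5) (nat_lit 405) (nat_lit 5) (nat_lit 439) (nat_lit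 407) (nat_lit 294)) (XT.nd (nat_lit 78) (nat_lit 912) (nat_lit 0) (XT.lf (nat_lit 0) (nat_lit 7304574091) (nat_lit 912) (nat_lit 1814454248) (nat_lit 988) (nat_lit 1210769220) (nat_lit 392) (nat_lit 5) (nat_lit 404) (nat_lit 5) (nat_lit 405) (nat_lit 5) (nat_lit 440) (nat_lit 407) (nat_lit 293)) (XT.lf (nat_lit 0) (nat_lit 475681576) (nat_lit 912) (nat_lit 7680786413) (nat_lit 76) (nat_lit 2275441559) (nat_lit 380) (nat_lit 5) (nat_lit 392) (nat_lit 5) (nat_lit 381) (nat_lit 5) (nat_lit 441) (nat_lit 407) (nat_lit 292))))) (XT.nd (nat_lit 234) (nat_lit 1748) (nat_lit 0) (XT.nd (nat_lit 78) (nat_lit 912) (nat_lit 0) (XT.lf (nat_lit 0) (nat_lit 2193008780) (nat_lit 912) (nat_lit 1890235580) (nat_lit 76) (nat_lit 6452397363) (nat_lit 380) (nat_lit 5) (nat_lit 392) (nat_lit 5) (nat_lit 381) (nat_lit 5) (nat_lit 442) (nat_lit 407) (nat_lit 291)) (XT.nd (nat_lit 78) (nat_lit 0) (nat_lit 0) (XT.lf (nat_lit 0) (nat_lit 3952895665) (nat_lit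 988) (nat_lit 6590738242) (nat_lit 76) (nat_lit 97655470) (nat_lit 368) (nat_lit 5) (nat_lit 381) (nat_lit 5) (nat_lit 369) (nat_lit 5) (nat_lit 443) (nat_lit 407) (nat_lit 290)) (XT.lf (nat_lit 0) (nat_lit 5769312094) (nat_lit 988) (nat_lit 658456966) (nat_lit 76) (nat_lit 4320859289) (nat_lit 368) (nat_lit 5) (nat_lit 381) (nat_lit 5) (nat_lit 369) (nat_lit 5) (nat_lit 444) (nat_lit 407) (nat_lit 289)))) (XT.nd (nat_lit 78) (nat_lit 912) (nat_lit 0) (XT.lf (nat_lit 0) (nat_lit 5445941953) (nat_lit 836) (nat_lit 2193357854) (nat_lit 912) (nat_lit 3218474333) (nat_lit 357) (nat_lit 5) (nat_lit 368) (nat_lit 5) (nat_lit 369) (nat_lit 5) (nat_lit 445) (nat_lit 407) (nat_lit 288)) (XT.nd (nat_lit 78) (nat_lit 76) (nat_lit 0) (XT.lf (nat_lit 0) (nat_lit 689352947) (nat_lit 836) (nat_lit 8862183622) (nat_lit 912) (nat_lit 1417474097) (nat_lit 346) (nat_lit 5) (nat_lit 357) (nat_lit 5) (nat_lit 358) (nat_lit 5) (nat_lit 446) (nat_lit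 407) (nat_lit 287)) (XT.lf (nat_lit 0) (nat_lit 447361644) (nat_lit 912) (nat_lit 4131632996) (nat_lit 76) (nat_lit 6502761064) (nat_lit 345) (nat_lit 5) (nat_lit 357) (nat_lit 5) (nat_lit 346) (nat_lit 5) (nat_lit 447) (nat_lit 407) (nat_lit 286))))))))
noncomputable def xc159 : XT := (XT.nd (nat_lit 1716) (nat_lit 6308) (nat_lit 0) (XT.nd (nat_lit 858) (nat_lit 4560) (nat_lit 0) (XT.nd (nat_lit 390) (nat_lit 2204) (nat_lit 0) (XT.nd (nat_lit 156) (nat_lit 1520) (nat_lit 0) (XT.nd (nat_lit 78) (nat_lit 0) (nat_lit 0) (XT.lf (nat_lit 0) (nat_lit 2140073636) (nat_lit 760) (nat_lit 186936957) (nat_lit 836) (nat_lit 8869632258) (nat_lit 335) (nat_lit 5) (nat_lit 345) (nat_lit 5) (nat_lit 346) (nat_lit 5) (nat_lit 448) (nat_lit 407) (nat_lit 285)) (XT.lf (nat_lit 0) (nat_lit 4282839708) (nat_lit 836) (nat_lit 2766294491) (nat_lit 76) (nat_lit 4263926236) (nat_lit 335) (nat_lit 5) (nat_lit 346) (nat_lit 5) (nat_lit 336) (nat_lit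 5) (nat_lit 449) (nat_lit 407) (nat_lit 284))) (XT.nd (nat_lit 78) (nat_lit 760) (nat_lit 0) (XT.lf (nat_lit 0) (nat_lit 3678969984) (nat_lit 760) (nat_lit 2607082264) (nat_lit 836) (nat_lit 5145593140) (nat_lit 325) (nat_lit 5) (nat_lit 335) (nat_lit 5) (nat_lit 336) (nat_lit 5) (nat_lit 450) (nat_lit 407) (nat_lit 283)) (XT.nd (nat_lit 78) (nat_lit 760) (nat_lit 0) (XT.lf (nat_lit 0) (nat_lit 8343857065) (nat_lit 836) (nat_lit 1292247742) (nat_lit 76) (nat_lit 1916210936) (nat_lit 325) (nat_lit 5) (nat_lit 336) (nat_lit 5) (nat_lit 326) (nat_lit 5) (nat_lit 451) (nat_lit 407) (nat_lit 282)) (XT.lf (nat_lit 0) (nat_lit 5332370795) (nat_lit 760) (nat_lit 5146011510) (nat_lit 836) (nat_lit 1196310100) (nat_lit 315) (nat_lit 5) (nat_lit 325) (nat_lit 5) (nat_lit 326) (nat_lit 5) (nat_lit 452) (nat_lit 407) (nat_lit 281))))) (XT.nd (nat_lit 234) (nat_lit 684) (nat_lit 0) (XT.nd (nat_lit 78) (nat_lit 684) (nat_lit 0) (XT.lf (nat_lit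 0) (nat_lit 288026598) (nat_lit 760) (nat_lit 551199119) (nat_lit 836) (nat_lit 10960296298) (nat_lit 304) (nat_lit 5) (nat_lit 314) (nat_lit 5) (nat_lit 315) (nat_lit 5) (nat_lit 453) (nat_lit 407) (nat_lit 280)) (XT.nd (nat_lit 78) (nat_lit 684) (nat_lit 0) (XT.lf (nat_lit 0) (nat_lit 2953126778) (nat_lit 836) (nat_lit 4842085517) (nat_lit 76) (nat_lit 4130408249) (nat_lit 304) (nat_lit 5) (nat_lit 315) (nat_lit 5) (nat_lit 305) (nat_lit 5) (nat_lit 454) (nat_lit 407) (nat_lit 279)) (XT.lf (nat_lit 0) (nat_lit 1965201713) (nat_lit 684) (nat_lit 3144793767) (nat_lit 760) (nat_lit 6944235637) (nat_lit 295) (nat_lit 5) (nat_lit 304) (nat_lit 5) (nat_lit 305) (nat_lit 5) (nat_lit 455) (nat_lit 407) (nat_lit 278)))) (XT.nd (nat_lit 78) (nat_lit 684) (nat_lit 0) (XT.lf (nat_lit 0) (nat_lit 7337550530) (nat_lit 760) (nat_lit 3238908041) (nat_lit 76) (nat_lit 1608408139) (nat_lit 295) (nat_lit 5) (nat_lit 305) (nat_lit 5) (nat_lit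 296) (nat_lit 5) (nat_lit 456) (nat_lit 407) (nat_lit 277)) (XT.nd (nat_lit 78) (nat_lit 0) (nat_lit 0) (XT.lf (nat_lit 0) (nat_lit 3759221718) (nat_lit 684) (nat_lit 5880434908) (nat_lit 760) (nat_lit 2677862104) (nat_lit 286) (nat_lit 5) (nat_lit 295) (nat_lit 5) (nat_lit 296) (nat_lit 5) (nat_lit 457) (nat_lit 407) (nat_lit 276)) (XT.lf (nat_lit 0) (nat_lit 10923862811) (nat_lit 684) (nat_lit 1070628968) (nat_lit 760) (nat_lit 458201915) (nat_lit 286) (nat_lit 5) (nat_lit 295) (nat_lit 5) (nat_lit 296) (nat_lit 5) (nat_lit 458) (nat_lit 407) (nat_lit 275)))))) (XT.nd (nat_lit 390) (nat_lit 2508) (nat_lit 0) (XT.nd (nat_lit 156) (nat_lit 608) (nat_lit 0) (XT.nd (nat_lit 78) (nat_lit 684) (nat_lit 0) (XT.lf (nat_lit 0) (nat_lit 1829444937) (nat_lit 760) (nat_lit 6928240437) (nat_lit 76) (nat_lit 3831710237) (nat_lit 276) (nat_lit 5) (nat_lit 286) (nat_lit 5) (nat_lit 277) (nat_lit 5) (nat_lit 459) (nat_lit 407) (nat_lit 274))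 (XT.lf (nat_lit 0) (nat_lit 262909752) (nat_lit 684) (nat_lit 3898240259) (nat_lit 760) (nat_lit 8567535599) (nat_lit 267) (nat_lit 5) (nat_lit 276) (nat_lit 5) (nat_lit 277) (nat_lit 5) (nat_lit 460) (nat_lit 407) (nat_lit 273))) (XT.nd (nat_lit 78) (nat_lit 608) (nat_lit 0) (XT.lf (nat_lit 0) (nat_lit 6578629458) (nat_lit 760) (nat_lit 5202759549) (nat_lit 76) (nat_lit 1088592962) (nat_lit 267) (nat_lit 5) (nat_lit 277) (nat_lit 5) (nat_lit 268) (nat_lit 5) (nat_lit 461) (nat_lit 407) (nat_lit 272)) (XT.nd (nat_lit 78) (nat_lit 0) (nat_lit 0) (XT.lf (nat_lit 0) (nat_lit 2191238073) (nat_lit 608) (nat_lit 6879016924) (nat_lit 684) (nat_lit 3943336627) (nat_lit 259) (nat_lit 5) (nat_lit 267) (nat_lit 5) (nat_lit 268) (nat_lit 5) (nat_lit 462) (nat_lit 407) (nat_lit 271)) (XT.lf (nat_lit 0) (nat_lit 9786552258) (nat_lit 608) (nat_lit 1845995816) (nat_lit 684) (nat_lit 1527111931) (nat_lit 259) (nat_lit 5) (nat_lit 267) (nat_lit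 5) (nat_lit 268) (nat_lit 5) (nat_lit 463) (nat_lit 407) (nat_lit 270))))) (XT.nd (nat_lit 234) (nat_lit 1216) (nat_lit 0) (XT.nd (nat_lit 78) (nat_lit 608) (nat_lit 0) (XT.lf (nat_lit 0) (nat_lit 960440708) (nat_lit 684) (nat_lit 9071866365) (nat_lit 76) (nat_lit 3275518095) (nat_lit 250) (nat_lit 5) (nat_lit 259) (nat_lit 5) (nat_lit 251) (nat_lit 5) (nat_lit 464) (nat_lit 407) (nat_lit 269)) (XT.nd (nat_lit 78) (nat_lit 608) (nat_lit 0) (XT.lf (nat_lit 0) (nat_lit 3498572253) (nat_lit 684) (nat_lit 1455146300) (nat_lit 76) (nat_lit 8504610729) (nat_lit 250) (nat_lit 5) (nat_lit 259) (nat_lit 5) (nat_lit 251) (nat_lit 5) (nat_lit 465) (nat_lit 407) (nat_lit 268)) (XT.lf (nat_lit 0) (nat_lit 6117134515) (nat_lit 684) (nat_lit 7232168883) (nat_lit 76) (nat_lit 261949705) (nat_lit 242) (nat_lit 5) (nat_lit 251) (nat_lit 5) (nat_lit 243) (nat_lit 5) (nat_lit 466) (nat_lit 407) (nat_lit 267)))) (XT.nd (nat_lit 78) (nat_lit 608)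 (nat_lit 0) (XT.lf (nat_lit 0) (nat_lit 580537474) (nat_lit 608) (nat_lit 8240586229) (nat_lit 684) (nat_lit 4945453512) (nat_lit 234) (nat_lit 5) (nat_lit 242) (nat_lit 5) (nat_lit 243) (nat_lit 5) (nat_lit 467) (nat_lit 407) (nat_lit 266)) (XT.nd (nat_lit 78) (nat_lit 608) (nat_lit 0) (XT.lf (nat_lit 0) (nat_lit 8630753262) (nat_lit 608) (nat_lit 2983774781) (nat_lit 684) (nat_lit 2309775931) (nat_lit 234) (nat_lit 5) (nat_lit 242) (nat_lit 5) (nat_lit 243) (nat_lit 5) (nat_lit 468) (nat_lit 407) (nat_lit 265)) (XT.lf (nat_lit 0) (nat_lit 394187673) (nat_lit 608) (nat_lit 11326505024) (nat_lit 76) (nat_lit 2364035405) (nat_lit 226) (nat_lit 5) (nat_lit 234) (nat_lit 5) (nat_lit 227) (nat_lit 5) (nat_lit 469) (nat_lit 407) (nat_lit 264))))))) (XT.nd (nat_lit 858) (nat_lit 3116) (nat_lit 0) (XT.nd (nat_lit 390) (nat_lit 1520) (nat_lit 0) (XT.nd (nat_lit 156) (nat_lit 1140) (nat_lit 0) (XT.nd (nat_lit 78) (nat_lit 532) (nat_lit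 0) (XT.lf (nat_lit 0) (nat_lit 3163947974) (nat_lit 608) (nat_lit 3256907106) (nat_lit 76) (nat_lit 7826350079) (nat_lit 226) (nat_lit 5) (nat_lit 234) (nat_lit 5) (nat_lit 227) (nat_lit 5) (nat_lit 470) (nat_lit 407) (nat_lit 263)) (XT.lf (nat_lit 0) (nat_lit 5023543142) (nat_lit 532) (nat_lit 985528039) (nat_lit 608) (nat_lit 8403463875) (nat_lit 219) (nat_lit 5) (nat_lit 226) (nat_lit 5) (nat_lit 227) (nat_lit 5) (nat_lit 471) (nat_lit 407) (nat_lit 262))) (XT.nd (nat_lit 78) (nat_lit 1140) (nat_lit 0) (XT.lf (nat_lit 0) (nat_lit 8950162858) (nat_lit 608) (nat_lit 1113269631) (nat_lit 76) (nat_lit 4516960342) (nat_lit 219) (nat_lit 5) (nat_lit 227) (nat_lit 5) (nat_lit 220) (nat_lit 5) (nat_lit 472) (nat_lit 407) (nat_lit 261)) (XT.nd (nat_lit 78) (nat_lit 608) (nat_lit 0) (XT.lf (nat_lit 0) (nat_lit 7402303117) (nat_lit 532) (nat_lit 4590075160) (nat_lit 608) (nat_lit 2758385997) (nat_lit 212) (nat_lit 5) (nat_lit 219) (nat_lit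 5) (nat_lit 220) (nat_lit 5) (nat_lit 473) (nat_lit 407) (nat_lit 260)) (XT.lf (nat_lit 0) (nat_lit 178109732) (nat_lit 608) (nat_lit 13754109800) (nat_lit 76) (nat_lit 992114747) (nat_lit 204) (nat_lit 5) (nat_lit 212) (nat_lit 5) (nat_lit 205) (nat_lit 5) (nat_lit 474) (nat_lit 407) (nat_lit 259))))) (XT.nd (nat_lit 234) (nat_lit 1064) (nat_lit 0) (XT.nd (nat_lit 78) (nat_lit 456) (nat_lit 0) (XT.lf (nat_lit 0) (nat_lit 3204347896) (nat_lit 608) (nat_lit 5206876111) (nat_lit 76) (nat_lit 6688430477) (nat_lit 204) (nat_lit 5) (nat_lit 212) (nat_lit 5) (nat_lit 205) (nat_lit 5) (nat_lit 475) (nat_lit 407) (nat_lit 258)) (XT.nd (nat_lit 78) (nat_lit 0) (nat_lit 0) (XT.lf (nat_lit 0) (nat_lit 3541684487) (nat_lit 456) (nat_lit 2760535342) (nat_lit 532) (nat_lit 8976041439) (nat_lit 198) (nat_lit 5) (nat_lit 204) (nat_lit 5) (nat_lit 205) (nat_lit 5) (nat_lit 476) (nat_lit 407) (nat_lit 257)) (XT.lf (nat_lit 0) (nat_lit 9504936191)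 (nat_lit 532) (nat_lit 2959846468) (nat_lit 76) (nat_lit 2994802099) (nat_lit 198) (nat_lit 5) (nat_lit 205) (nat_lit 5) (nat_lit 199) (nat_lit 5) (nat_lit 477) (nat_lit 407) (nat_lit 256)))) (XT.nd (nat_lit 78) (nat_lit 532) (nat_lit 0) (XT.lf (nat_lit 0) (nat_lit 6037464268) (nat_lit 532) (nat_lit 6780170741) (nat_lit 608) (nat_lit 2825983409) (nat_lit 191) (nat_lit 5) (nat_lit 198) (nat_lit 5) (nat_lit 199) (nat_lit 5) (nat_lit 478) (nat_lit 407) (nat_lit 255)) (XT.nd (nat_lit 78) (nat_lit 456) (nat_lit 0) (XT.lf (nat_lit 0) (nat_lit 368951931) (nat_lit 608) (nat_lit 594501512) (nat_lit 76) (nat_lit 14867664310) (nat_lit 190) (nat_lit 5) (nat_lit 198) (nat_lit 5) (nat_lit 191) (nat_lit 5) (nat_lit 479) (nat_lit 407) (nat_lit 254)) (XT.lf (nat_lit 0) (nat_lit 3667771624) (nat_lit 532) (nat_lit 7376954762) (nat_lit 76) (nat_lit 4975712715) (nat_lit 184) (nat_lit 5) (nat_lit 191) (nat_lit 5) (nat_lit 185) (nat_lit 5) (nat_lit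 480) (nat_lit 407) (nat_lit 253)))))) (XT.nd (nat_lit 468) (nat_lit 1672) (nat_lit 0) (XT.nd (nat_lit 234) (nat_lit 532) (nat_lit 0) (XT.nd (nat_lit 78) (nat_lit 456) (nat_lit 0) (XT.lf (nat_lit 0) (nat_lit 1863161829) (nat_lit 456) (nat_lit 5180710798) (nat_lit 532) (nat_lit 9169450244) (nat_lit 178) (nat_lit 5) (nat_lit 184) (nat_lit 5) (nat_lit 185) (nat_lit 5) (nat_lit 481) (nat_lit 407) (nat_lit 252)) (XT.nd (nat_lit 78) (nat_lit 456) (nat_lit 0) (XT.lf (nat_lit 0) (nat_lit 10531425249) (nat_lit 532) (nat_lit 5042302036) (nat_lit 76) (nat_lit 835460489) (nat_lit 178) (nat_lit 5) (nat_lit 185) (nat_lit 5) (nat_lit 179) (nat_lit 5) (nat_lit 482) (nat_lit 407) (nat_lit 251)) (XT.lf (nat_lit 0) (nat_lit 4460434267) (nat_lit 456) (nat_lit 9680682315) (nat_lit 532) (nat_lit 2466807650) (nat_lit 172) (nat_lit 5) (nat_lit 178) (nat_lit 5) (nat_lit 179) (nat_lit 5) (nat_lit 483) (nat_lit 407) (nat_lit 250)))) (XT.nd (nat_lit 78)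 (nat_lit 456) (nat_lit 0) (XT.lf (nat_lit 0) (nat_lit 1022308089) (nat_lit 532) (nat_lit 2610694869) (nat_lit 76) (nat_lit 13177038553) (nat_lit 171) (nat_lit 5) (nat_lit 178) (nat_lit 5) (nat_lit 172) (nat_lit 5) (nat_lit 484) (nat_lit 407) (nat_lit 249)) (XT.nd (nat_lit 78) (nat_lit 0) (nat_lit 0) (XT.lf (nat_lit 0) (nat_lit 4601041477) (nat_lit 532) (nat_lit 9852557285) (nat_lit 76) (nat_lit 2561220837) (nat_lit 165) (nat_lit 5) (nat_lit 172) (nat_lit 5) (nat_lit 166) (nat_lit 5) (nat_lit 485) (nat_lit 407) (nat_lit 248)) (XT.lf (nat_lit 0) (nat_lit 8282495934) (nat_lit 532) (nat_lit 96743536) (nat_lit 76) (nat_lit 8843832708) (nat_lit 165) (nat_lit 5) (nat_lit 172) (nat_lit 5) (nat_lit 166) (nat_lit 5) (nat_lit 486) (nat_lit 407) (nat_lit 247))))) (XT.nd (nat_lit 234) (nat_lit 760) (nat_lit 0) (XT.nd (nat_lit 78) (nat_lit 532) (nat_lit 0) (XT.lf (nat_lit 0) (nat_lit 9969951723) (nat_lit 380) (nat_lit 2122017751) (nat_lit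 456) (nat_lit 5342434356) (nat_lit 160) (nat_lit 5) (nat_lit 165) (nat_lit 5) (nat_lit 166) (nat_lit 5) (nat_lit 487) (nat_lit 407) (nat_lit 246)) (XT.nd (nat_lit 78) (nat_lit 76) (nat_lit 0) (XT.lf (nat_lit 0) (nat_lit 2580450819) (nat_lit 456) (nat_lit 13431984454) (nat_lit 532) (nat_lit 1636832572) (nat_lit 154) (nat_lit 5) (nat_lit 160) (nat_lit 5) (nat_lit 161) (nat_lit 5) (nat_lit 488) (nat_lit 407) (nat_lit 245)) (XT.lf (nat_lit 0) (nat_lit 2169021547) (nat_lit 532) (nat_lit 4983399362) (nat_lit 76) (nat_lit 10714646794) (nat_lit 153) (nat_lit 5) (nat_lit 160) (nat_lit 5) (nat_lit 154) (nat_lit 5) (nat_lit 489) (nat_lit 407) (nat_lit 244)))) (XT.nd (nat_lit 78) (nat_lit 380) (nat_lit 0) (XT.lf (nat_lit 0) (nat_lit 5348217161) (nat_lit 380) (nat_lit 705573008) (nat_lit 456) (nat_lit 12034724390) (nat_lit 148) (nat_lit 5) (nat_lit 153) (nat_lit 5) (nat_lit 154) (nat_lit 5) (nat_lit 490) (nat_lit 407) (nat_lit 243)) (XT.nd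 (nat_lit 78) (nat_lit 380) (nat_lit 0) (XT.lf (nat_lit 0) (nat_lit 10078070175) (nat_lit 456) (nat_lit 2412923075) (nat_lit 76) (nat_lit 5822162432) (nat_lit 148) (nat_lit 5) (nat_lit 154) (nat_lit 5) (nat_lit 149) (nat_lit 5) (nat_lit 491) (nat_lit 407) (nat_lit 242)) (XT.lf (nat_lit 0) (nat_lit 8209401613) (nat_lit 380) (nat_lit 6021643014) (nat_lit 456) (nat_lit 4310282441) (nat_lit 143) (nat_lit 5) (nat_lit 148) (nat_lit 5) (nat_lit 149) (nat_lit 5) (nat_lit 492) (nat_lit 407) (nat_lit 241))))))))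
noncomputable def xc160 : XT := (XT.nd (nat_lit 53352) (nat_lit 0) (nat_lit 24092) (XT.nd (nat_lit 858) (nat_lit 608) (nat_lit 0) (XT.nd (nat_lit 390) (nat_lit 1216) (nat_lit 0) (XT.nd (nat_lit 156) (nat_lit 684) (nat_lit 0) (XT.nd (nat_lit 78) (nat_lit 76) (nat_lit 0) (XT.lf (nat_lit 0) (nat_lit 288411204) (nat_lit 380) (nat_lit 18190887306) (nat_lit 456) (nat_lit 294520557) (nat_lit 138) (nat_lit 5) (nat_lit 143) (nat_lit 5) (nat_lit 144) (nat_lit 5) (nat_lit 493) (nat_lit 407) (nat_lit 240)) (XT.lf (nat_lit 0) (nat_lit 3851700486) (nat_lit 456) (nat_lit 7828080875) (nat_lit 76) (nat_lit 7328687384) (nat_lit 137) (nat_lit 5) (nat_lit 143) (nat_lit 5) (nat_lit 138) (nat_lit 5) (nat_lit 494) (nat_lit 407) (nat_lit 239))) (XT.nd (nat_lit 78) (nat_lit 304) (nat_lit 0) (XT.lf (nat_lit 0) (nat_lit 3066251355) (nat_lit 380) (nat_lit 5021084139) (nat_lit 456) (nat_lit 11160229818) (nat_lit 132) (nat_lit 5) (nat_lit 137) (nat_lit 5)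 (nat_lit 138) (nat_lit 5) (nat_lit 495) (nat_lit 407) (nat_lit 238)) (XT.nd (nat_lit 78) (nat_lit 304) (nat_lit 0) (XT.lf (nat_lit 0) (nat_lit 12462641071) (nat_lit 456) (nat_lit 5232123980) (nat_lit 76) (nat_lit 1795581066) (nat_lit 132) (nat_lit 5) (nat_lit 138) (nat_lit 5) (nat_lit 133) (nat_lit 5) (nat_lit 496) (nat_lit 407) (nat_lit 237)) (XT.lf (nat_lit 0) (nat_lit 5966870138) (nat_lit 304) (nat_lit 11021342688) (nat_lit 380) (nat_lit 2748515945) (nat_lit 128) (nat_lit 5) (nat_lit 132) (nat_lit 5) (nat_lit 133) (nat_lit 5) (nat_lit 497) (nat_lit 407) (nat_lit 236))))) (XT.nd (nat_lit 234) (nat_lit 456) (nat_lit 0) (XT.nd (nat_lit 78) (nat_lit 684) (nat_lit 0) (XT.lf (nat_lit 0) (nat_lit 1621196850) (nat_lit 380) (nat_lit 2551510667) (nat_lit 76) (nat_lit 15814600318) (nat_lit 127) (nat_lit 5) (nat_lit 132) (nat_lit 5) (nat_lit 128) (nat_lit 5) (nat_lit 498) (nat_lit 407) (nat_lit 235)) (XT.nd (nat_lit 78) (nat_lit 304)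 (nat_lit 0) (XT.lf (nat_lit 0) (nat_lit 6109531952) (nat_lit 456) (nat_lit 11283489688) (nat_lit 76) (nat_lit 2848154226) (nat_lit 122) (nat_lit 5) (nat_lit 128) (nat_lit 5) (nat_lit 123) (nat_lit 5) (nat_lit 499) (nat_lit 407) (nat_lit 234)) (XT.lf (nat_lit 0) (nat_lit 192661869) (nat_lit 304) (nat_lit 10532122276) (nat_lit 380) (nat_lit 9774595430) (nat_lit 118) (nat_lit 5) (nat_lit 122) (nat_lit 5) (nat_lit 123) (nat_lit 5) (nat_lit 500) (nat_lit 407) (nat_lit 233)))) (XT.nd (nat_lit 78) (nat_lit 456) (nat_lit 0) (XT.lf (nat_lit 0) (nat_lit 12037386933) (nat_lit 304) (nat_lit 3461788539) (nat_lit 380) (nat_lit 5262236506) (nat_lit 118) (nat_lit 5) (nat_lit 122) (nat_lit 5) (nat_lit 123) (nat_lit 5) (nat_lit 501) (nat_lit 407) (nat_lit 232)) (XT.nd (nat_lit 78) (nat_lit 76) (nat_lit 0) (XT.lf (nat_lit 0) (nat_lit 3092765280) (nat_lit 380) (nat_lit 17311975006) (nat_lit 456) (nat_lit 623232304) (nat_lit 113) (nat_lit 5) (nat_lit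 118) (nat_lit 5) (nat_lit 119) (nat_lit 5) (nat_lit 502) (nat_lit 407) (nat_lit 231)) (XT.lf (nat_lit 0) (nat_lit 4127806043) (nat_lit 456) (nat_lit 6098332256) (nat_lit 76) (nat_lit 11071731063) (nat_lit 112) (nat_lit 5) (nat_lit 118) (nat_lit 5) (nat_lit 113) (nat_lit 5) (nat_lit 503) (nat_lit 407) (nat_lit 230)))))) (XT.nd (nat_lit 52026) (nat_lit 0) (nat_lit 31768) (XT.nd (nat_lit 156) (nat_lit 304) (nat_lit 0) (XT.nd (nat_lit 78) (nat_lit 0) (nat_lit 0) (XT.lf (nat_lit 0) (nat_lit 6036799518) (nat_lit 304) (nat_lit 2959376410) (nat_lit 380) (nat_lit 12576293834) (nat_lit 108) (nat_lit 5) (nat_lit 112) (nat_lit 5) (nat_lit 113) (nat_lit 5) (nat_lit 504) (nat_lit 407) (nat_lit 229)) (XT.lf (nat_lit 0) (nat_lit 14023518462) (nat_lit 380) (nat_lit 3397202672) (nat_lit 76) (nat_lit 4430610109) (nat_lit 108) (nat_lit 5) (nat_lit 113) (nat_lit 5) (nat_lit 109) (nat_lit 5) (nat_lit 505) (nat_lit 407) (nat_lit 228))) (XT.nd (nat_lit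 51714) (nat_lit 0) (nat_lit 33060) (XT.lf (nat_lit 0) (nat_lit 9070081322) (nat_lit 304) (nat_lit 10151481872) (nat_lit 380) (nat_lit 2912804807) (nat_lit 104) (nat_lit 5) (nat_lit 108) (nat_lit 5) (nat_lit 109) (nat_lit 5) (nat_lit 506) (nat_lit 407) (nat_lit 227)) (XT.nd (nat_lit 78) (nat_lit 0) (nat_lit 0) (XT.lf (nat_lit 0) (nat_lit 168724175) (nat_lit 1444) (nat_lit 1901937055) (nat_lit 1444) (nat_lit 1901937055) (nat_lit 539) (nat_lit 3) (nat_lit 558) (nat_lit 3) (nat_lit 558) (nat_lit 5) (nat_lit 408) (nat_lit 408) (nat_lit 324)) (XT.lf (nat_lit 76) (nat_lit 41935211) (nat_lit 0) (nat_lit 1519551536) (nat_lit 1444) (nat_lit 6438344042) (nat_lit 540) (nat_lit 5) (nat_lit 539) (nat_lit 3) (nat_lit 558) (nat_lit 5) (nat_lit 409) (nat_lit 408) (nat_lit 323))))) (XT.nd (nat_lit 234) (nat_lit 1368) (nat_lit 0) (XT.nd (nat_lit 78) (nat_lit 0) (nat_lit 0) (XT.lf (nat_lit 0) (nat_lit 2811180083) (nat_lit 1368) (nat_lit 4063791950)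 (nat_lit 1444) (nat_lit 1180572782) (nat_lit 540) (nat_lit 5) (nat_lit 558) (nat_lit 5) (nat_lit 559) (nat_lit 5) (nat_lit 410) (nat_lit 408) (nat_lit 322)) (XT.nd (nat_lit 78) (nat_lit 0) (nat_lit 0) (XT.lf (nat_lit 0) (nat_lit 4064540679) (nat_lit 1368) (nat_lit 118832431) (nat_lit 1444) (nat_lit 3929436945) (nat_lit 540) (nat_lit 5) (nat_lit 558) (nat_lit 5) (nat_lit 559) (nat_lit 5) (nat_lit 411) (nat_lit 408) (nat_lit 321)) (XT.lf (nat_lit 76) (nat_lit 3940070694) (nat_lit 0) (nat_lit 1397704972) (nat_lit 1444) (nat_lit 2833558988) (nat_lit 541) (nat_lit 5) (nat_lit 540) (nat_lit 5) (nat_lit 559) (nat_lit 5) (nat_lit 412) (nat_lit 408) (nat_lit 320)))) (XT.nd (nat_lit 78) (nat_lit 1444) (nat_lit 0) (XT.lf (nat_lit 0) (nat_lit 6616462472) (nat_lit 1368) (nat_lit 175855490) (nat_lit 1444) (nat_lit 1439122039) (nat_lit 541) (nat_lit 5) (nat_lit 559) (nat_lit 5) (nat_lit 560) (nat_lit 5) (nat_lit 413) (nat_lit 408) (nat_lit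 319)) (XT.nd (nat_lit 78) (nat_lit 1444) (nat_lit 0) (XT.lf (nat_lit 76) (nat_lit 3986804450) (nat_lit 0) (nat_lit 3939462906) (nat_lit 1444) (nat_lit 366379011) (nat_lit 542) (nat_lit 5) (nat_lit 541) (nat_lit 5) (nat_lit 560) (nat_lit 5) (nat_lit 414) (nat_lit 408) (nat_lit 318)) (XT.lf (nat_lit 0) (nat_lit 867153474) (nat_lit 1444) (nat_lit 143025909) (nat_lit 1520) (nat_lit 7345351900) (nat_lit 522) (nat_lit 5) (nat_lit 541) (nat_lit 5) (nat_lit 542) (nat_lit 5) (nat_lit 415) (nat_lit 408) (nat_lit 317))))))) (XT.nd (nat_lit 858) (nat_lit 6384) (nat_lit 0) (XT.nd (nat_lit 390) (nat_lit 1368) (nat_lit 0) (XT.nd (nat_lit 156) (nat_lit 0) (nat_lit 0) (XT.nd (nat_lit 78) (nat_lit 0) (nat_lit 0) (XT.lf (nat_lit 0) (nat_lit 2131681317) (nat_lit 1444) (nat_lit 4294732092) (nat_lit 1520) (nat_lit 1992996677) (nat_lit 523) (nat_lit 5) (nat_lit 542) (nat_lit 5) (nat_lit 543) (nat_lit 5) (nat_lit 416) (nat_lit 408) (nat_lit 316)) (XT.lf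 (nat_lit 0) (nat_lit 3400933203) (nat_lit 1444) (nat_lit 28947478) (nat_lit 1520) (nat_lit 5055106170) (nat_lit 523) (nat_lit 5) (nat_lit 542) (nat_lit 5) (nat_lit 543) (nat_lit 5) (nat_lit 417) (nat_lit 408) (nat_lit 315))) (XT.nd (nat_lit 78) (nat_lit 0) (nat_lit 76) (XT.lf (nat_lit 76) (nat_lit 4362327644) (nat_lit 0) (nat_lit 333896410) (nat_lit 1520) (nat_lit 3855646895) (nat_lit 524) (nat_lit 5) (nat_lit 523) (nat_lit 5) (nat_lit 543) (nat_lit 5) (nat_lit 418) (nat_lit 408) (nat_lit 314)) (XT.nd (nat_lit 78) (nat_lit 0) (nat_lit 0) (XT.lf (nat_lit 76) (nat_lit 188318850) (nat_lit 0) (nat_lit 5821685822) (nat_lit 1520) (nat_lit 2610245083) (nat_lit 525) (nat_lit 5) (nat_lit 524) (nat_lit 5) (nat_lit 544) (nat_lit 5) (nat_lit 419) (nat_lit 408) (nat_lit 313)) (XT.lf (nat_lit 76) (nat_lit 4690857245) (nat_lit 0) (nat_lit 2662764339) (nat_lit 1520) (nat_lit 1336311872) (nat_lit 525) (nat_lit 5) (nat_lit 524) (nat_lit 5) (nat_lit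 544) (nat_lit 5) (nat_lit 420) (nat_lit 408) (nat_lit 312))))) (XT.nd (nat_lit 234) (nat_lit 0) (nat_lit 76) (XT.nd (nat_lit 78) (nat_lit 1520) (nat_lit 0) (XT.lf (nat_lit 76) (nat_lit 507782492) (nat_lit 0) (nat_lit 8197090565) (nat_lit 1520) (nat_lit 56530895) (nat_lit 526) (nat_lit 5) (nat_lit 525) (nat_lit 5) (nat_lit 545) (nat_lit 5) (nat_lit 421) (nat_lit 408) (nat_lit 311)) (XT.nd (nat_lit 78) (nat_lit 0) (nat_lit 0) (XT.lf (nat_lit 0) (nat_lit 1251168762) (nat_lit 1520) (nat_lit 3718618184) (nat_lit 1596) (nat_lit 3863988747) (nat_lit 505) (nat_lit 5) (nat_lit 525) (nat_lit 5) (nat_lit 526) (nat_lit 5) (nat_lit 422) (nat_lit 408) (nat_lit 310)) (XT.lf (nat_lit 76) (nat_lit 900960678) (nat_lit 0) (nat_lit 1663717939) (nat_lit 1596) (nat_lit 6343308399) (nat_lit 506) (nat_lit 5) (nat_lit 505) (nat_lit 5) (nat_lit 526) (nat_lit 5) (nat_lit 423) (nat_lit 408) (nat_lit 309)))) (XT.nd (nat_lit 78) (nat_lit 0) (nat_lit 0) (XT.lf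 (nat_lit 0) (nat_lit 3915667978) (nat_lit 1520) (nat_lit 3349112222) (nat_lit 1596) (nat_lit 1718685908) (nat_lit 506) (nat_lit 5) (nat_lit 526) (nat_lit 5) (nat_lit 527) (nat_lit 5) (nat_lit 424) (nat_lit 408) (nat_lit 308)) (XT.nd (nat_lit 78) (nat_lit 0) (nat_lit 0) (XT.lf (nat_lit 76) (nat_lit 1391536638) (nat_lit 0) (nat_lit 3897681137) (nat_lit 1596) (nat_lit 3771333770) (nat_lit 507) (nat_lit 5) (nat_lit 506) (nat_lit 5) (nat_lit 527) (nat_lit 5) (nat_lit 425) (nat_lit 408) (nat_lit 307)) (XT.lf (nat_lit 76) (nat_lit 6254856939) (nat_lit 0) (nat_lit 433710556) (nat_lit 1596) (nat_lit 2450652045) (nat_lit 507) (nat_lit 5) (nat_lit 506) (nat_lit 5) (nat_lit 527) (nat_lit 5) (nat_lit 426) (nat_lit 408) (nat_lit 306)))))) (XT.nd (nat_lit 390) (nat_lit 4940) (nat_lit 0) (XT.nd (nat_lit 156) (nat_lit 0) (nat_lit 76) (XT.nd (nat_lit 78) (nat_lit 1596) (nat_lit 0) (XT.lf (nat_lit 76) (nat_lit 1984162643) (nat_lit 0) (nat_lit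 6141118442) (nat_lit 1596) (nat_lit 1093999556) (nat_lit 508) (nat_lit 5) (nat_lit 507) (nat_lit 5) (nat_lit 528) (nat_lit 5) (nat_lit 427) (nat_lit 408) (nat_lit 305)) (XT.lf (nat_lit 0) (nat_lit 284899348) (nat_lit 1596) (nat_lit 2334201539) (nat_lit 1672) (nat_lit 6681833168) (nat_lit 486) (nat_lit 5) (nat_lit 507) (nat_lit 5) (nat_lit 508) (nat_lit 5) (nat_lit 428) (nat_lit 408) (nat_lit 304))) (XT.nd (nat_lit 78) (nat_lit 0) (nat_lit 0) (XT.lf (nat_lit 0) (nat_lit 1677644567) (nat_lit 1596) (nat_lit 6715710333) (nat_lit 1672) (nat_lit 990709534) (nat_lit 487) (nat_lit 5) (nat_lit 508) (nat_lit 5) (nat_lit 509) (nat_lit 5) (nat_lit 429) (nat_lit 408) (nat_lit 303)) (XT.nd (nat_lit 78) (nat_lit 0) (nat_lit 0) (XT.lf (nat_lit 0) (nat_lit 3108745787) (nat_lit 1596) (nat_lit 1701338170) (nat_lit 1672) (nat_lit 4658570168) (nat_lit 487) (nat_lit 5) (nat_lit 508) (nat_lit 5) (nat_lit 509) (nat_lit 5) (nat_lit 430) (nat_lit 408)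 (nat_lit 302)) (XT.lf (nat_lit 76) (nat_lit 3440853928) (nat_lit 0) (nat_lit 1127787374) (nat_lit 1672) (nat_lit 4986297459) (nat_lit 488) (nat_lit 5) (nat_lit 487) (nat_lit 5) (nat_lit 509) (nat_lit 5) (nat_lit 431) (nat_lit 408) (nat_lit 301))))) (XT.nd (nat_lit 234) (nat_lit 3496) (nat_lit 0) (XT.nd (nat_lit 78) (nat_lit 1596) (nat_lit 0) (XT.lf (nat_lit 0) (nat_lit 6064472443) (nat_lit 1596) (nat_lit 968859063) (nat_lit 76) (nat_lit 2609489298) (nat_lit 488) (nat_lit 5) (nat_lit 509) (nat_lit 5) (nat_lit 489) (nat_lit 5) (nat_lit 432) (nat_lit 408) (nat_lit 300)) (XT.nd (nat_lit 78) (nat_lit 0) (nat_lit 0) (XT.lf (nat_lit 0) (nat_lit 4310739606) (nat_lit 1596) (nat_lit 3293546888) (nat_lit 1672) (nat_lit 2127899006) (nat_lit 467) (nat_lit 5) (nat_lit 488) (nat_lit 5) (nat_lit 489) (nat_lit 5) (nat_lit 433) (nat_lit 408) (nat_lit 299)) (XT.lf (nat_lit 0) (nat_lit 9163762947) (nat_lit 1672) (nat_lit 135504486) (nat_lit 76)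 (nat_lit 524298951) (nat_lit 467) (nat_lit 5) (nat_lit 489) (nat_lit 5) (nat_lit 468) (nat_lit 5) (nat_lit 434) (nat_lit 408) (nat_lit 298)))) (XT.nd (nat_lit 78) (nat_lit 1748) (nat_lit 0) (XT.lf (nat_lit 0) (nat_lit 862380988) (nat_lit 1748) (nat_lit 4635655473) (nat_lit 76) (nat_lit 4417921367) (nat_lit 444) (nat_lit 5) (nat_lit 467) (nat_lit 5) (nat_lit 445) (nat_lit 5) (nat_lit 435) (nat_lit 408) (nat_lit 297)) (XT.nd (nat_lit 78) (nat_lit 0) (nat_lit 0) (XT.lf (nat_lit 0) (nat_lit 784247795) (nat_lit 1748) (nat_lit 1607444319) (nat_lit 1824) (nat_lit 7618713265) (nat_lit 421) (nat_lit 5) (nat_lit 444) (nat_lit 5) (nat_lit 445) (nat_lit 5) (nat_lit 436) (nat_lit 408) (nat_lit 296)) (XT.lf (nat_lit 0) (nat_lit 3978038632) (nat_lit 1824) (nat_lit 3764323348) (nat_lit 76) (nat_lit 2363856658) (nat_lit 421) (nat_lit 5) (nat_lit 445) (nat_lit 5) (nat_lit 422) (nat_lit 5) (nat_lit 437) (nat_lit 408) (nat_lit 295))))))))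
noncomputable def xc161 : XT := (XT.nd (nat_lit 1716) (nat_lit 8132) (nat_lit 0) (XT.nd (nat_lit 858) (nat_lit 4560) (nat_lit 0) (XT.nd (nat_lit 390) (nat_lit 2660) (nat_lit 0) (XT.nd (nat_lit 156) (nat_lit 1824) (nat_lit 0) (XT.nd (nat_lit 78) (nat_lit 0) (nat_lit 0) (XT.lf (nat_lit 0) (nat_lit 1802034931) (nat_lit 1292) (nat_lit 3796624986) (nat_lit 1368) (nat_lit 4605242918) (nat_lit 404) (nat_lit 5) (nat_lit 421) (nat_lit 5) (nat_lit 422) (nat_lit 5) (nat_lit 438) (nat_lit 408) (nat_lit 294)) (XT.lf (nat_lit 0) (nat_lit 7259091115) (nat_lit 1368) (nat_lit 2791929971) (nat_lit 76) (nat_lit 252377200) (nat_lit 404) (nat_lit 5) (nat_lit 422) (nat_lit 5) (nat_lit 405) (nat_lit 5) (nat_lit 439) (nat_lit 408) (nat_lit 293))) (XT.nd (nat_lit 78) (nat_lit 912) (nat_lit 0) (XT.lf (nat_lit 0) (nat_lit 2925795205) (nat_lit 912) (nat_lit 6051946817) (nat_lit 988) (nat_lit 1426646814) (nat_lit 392) (nat_lit 5) (nat_lit 404) (nat_lit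 5) (nat_lit 405) (nat_lit 5) (nat_lit 440) (nat_lit 408) (nat_lit 292)) (XT.nd (nat_lit 78) (nat_lit 836) (nat_lit 0) (XT.lf (nat_lit 0) (nat_lit 220299422) (nat_lit 988) (nat_lit 1730660821) (nat_lit 76) (nat_lit 8556417906) (nat_lit 391) (nat_lit 5) (nat_lit 404) (nat_lit 5) (nat_lit 392) (nat_lit 5) (nat_lit 441) (nat_lit 408) (nat_lit 291)) (XT.lf (nat_lit 0) (nat_lit 1904224877) (nat_lit 912) (nat_lit 6466909787) (nat_lit 76) (nat_lit 2240646219) (nat_lit 380) (nat_lit 5) (nat_lit 392) (nat_lit 5) (nat_lit 381) (nat_lit 5) (nat_lit 442) (nat_lit 408) (nat_lit 290))))) (XT.nd (nat_lit 234) (nat_lit 912) (nat_lit 0) (XT.nd (nat_lit 78) (nat_lit 1748) (nat_lit 0) (XT.lf (nat_lit 0) (nat_lit 3628074513) (nat_lit 912) (nat_lit 587361513) (nat_lit 76) (nat_lit 6502715731) (nat_lit 380) (nat_lit 5) (nat_lit 392) (nat_lit 5) (nat_lit 381) (nat_lit 5) (nat_lit 443) (nat_lit 408) (nat_lit 289)) (XT.nd (nat_lit 78) (nat_lit 836) (nat_lit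 0) (XT.lf (nat_lit 0) (nat_lit 5404263550) (nat_lit 988) (nat_lit 5362607380) (nat_lit 76) (nat_lit 59426772) (nat_lit 368) (nat_lit 5) (nat_lit 381) (nat_lit 5) (nat_lit 369) (nat_lit 5) (nat_lit 444) (nat_lit 408) (nat_lit 288)) (XT.lf (nat_lit 0) (nat_lit 670446953) (nat_lit 836) (nat_lit 6564006302) (nat_lit 912) (nat_lit 3701788578) (nat_lit 357) (nat_lit 5) (nat_lit 368) (nat_lit 5) (nat_lit 369) (nat_lit 5) (nat_lit 445) (nat_lit 408) (nat_lit 287)))) (XT.nd (nat_lit 78) (nat_lit 912) (nat_lit 0) (XT.lf (nat_lit 0) (nat_lit 6879369239) (nat_lit 836) (nat_lit 2240337655) (nat_lit 912) (nat_lit 1928313460) (nat_lit 357) (nat_lit 5) (nat_lit 368) (nat_lit 5) (nat_lit 369) (nat_lit 5) (nat_lit 446) (nat_lit 408) (nat_lit 286)) (XT.nd (nat_lit 78) (nat_lit 76) (nat_lit 0) (XT.lf (nat_lit 0) (nat_lit 2045686892) (nat_lit 836) (nat_lit 9007166605) (nat_lit 912) (nat_lit 108981809) (nat_lit 346) (nat_lit 5) (nat_lit 357) (nat_lit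 5) (nat_lit 358) (nat_lit 5) (nat_lit 447) (nat_lit 408) (nat_lit 285)) (XT.lf (nat_lit 0) (nat_lit 1749748926) (nat_lit 912) (nat_lit 2880517816) (nat_lit 76) (nat_lit 6646919010) (nat_lit 345) (nat_lit 5) (nat_lit 357) (nat_lit 5) (nat_lit 346) (nat_lit 5) (nat_lit 448) (nat_lit 408) (nat_lit 284)))))) (XT.nd (nat_lit 390) (nat_lit 2204) (nat_lit 0) (XT.nd (nat_lit 156) (nat_lit 1596) (nat_lit 0) (XT.nd (nat_lit 78) (nat_lit 0) (nat_lit 0) (XT.lf (nat_lit 0) (nat_lit 3507848292) (nat_lit 760) (nat_lit 142383597) (nat_lit 836) (nat_lit 7744480526) (nat_lit 335) (nat_lit 5) (nat_lit 345) (nat_lit 5) (nat_lit 346) (nat_lit 5) (nat_lit 449) (nat_lit 408) (nat_lit 283)) (XT.lf (nat_lit 0) (nat_lit 5620452021) (nat_lit 836) (nat_lit 1497578291) (nat_lit 76) (nat_lit 4395929016) (nat_lit 335) (nat_lit 5) (nat_lit 346) (nat_lit 5) (nat_lit 336) (nat_lit 5) (nat_lit 450) (nat_lit 408) (nat_lit 282))) (XT.nd (nat_lit 78) (nat_lit 836)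 (nat_lit 0) (XT.lf (nat_lit 0) (nat_lit 5067880670) (nat_lit 760) (nat_lit 2579839996) (nat_lit 836) (nat_lit 3987521811) (nat_lit 325) (nat_lit 5) (nat_lit 335) (nat_lit 5) (nat_lit 336) (nat_lit 5) (nat_lit 451) (nat_lit 408) (nat_lit 281)) (XT.nd (nat_lit 78) (nat_lit 836) (nat_lit 0) (XT.lf (nat_lit 0) (nat_lit 9722952625) (nat_lit 836) (nat_lit 4512608) (nat_lit 76) (nat_lit 2031341801) (nat_lit 325) (nat_lit 5) (nat_lit 336) (nat_lit 5) (nat_lit 326) (nat_lit 5) (nat_lit 452) (nat_lit 408) (nat_lit 280)) (XT.lf (nat_lit 0) (nat_lit 916476) (nat_lit 836) (nat_lit 5139992952) (nat_lit 76) (nat_lit 6743033699) (nat_lit 314) (nat_lit 5) (nat_lit 325) (nat_lit 5) (nat_lit 315) (nat_lit 5) (nat_lit 453) (nat_lit 408) (nat_lit 279))))) (XT.nd (nat_lit 234) (nat_lit 760) (nat_lit 0) (XT.nd (nat_lit 78) (nat_lit 684) (nat_lit 0) (XT.lf (nat_lit 0) (nat_lit 1606347186) (nat_lit 760) (nat_lit 439703840) (nat_lit 836) (nat_lit 9965367874)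 (nat_lit 304) (nat_lit 5) (nat_lit 314) (nat_lit 5) (nat_lit 315) (nat_lit 5) (nat_lit 454) (nat_lit 408) (nat_lit 278)) (XT.nd (nat_lit 78) (nat_lit 684) (nat_lit 0) (XT.lf (nat_lit 0) (nat_lit 4179675854) (nat_lit 836) (nat_lit 3629262390) (nat_lit 76) (nat_lit 4331557982) (nat_lit 304) (nat_lit 5) (nat_lit 315) (nat_lit 5) (nat_lit 305) (nat_lit 5) (nat_lit 455) (nat_lit 408) (nat_lit 277)) (XT.lf (nat_lit 0) (nat_lit 3305554369) (nat_lit 684) (nat_lit 3059682939) (nat_lit 760) (nat_lit 5906736222) (nat_lit 295) (nat_lit 5) (nat_lit 304) (nat_lit 5) (nat_lit 305) (nat_lit 5) (nat_lit 456) (nat_lit 408) (nat_lit 276)))) (XT.nd (nat_lit 78) (nat_lit 760) (nat_lit 0) (XT.lf (nat_lit 0) (nat_lit 8615676909) (nat_lit 760) (nat_lit 2006205933) (nat_lit 76) (nat_lit 1783777840) (nat_lit 295) (nat_lit 5) (nat_lit 305) (nat_lit 5) (nat_lit 296) (nat_lit 5) (nat_lit 457) (nat_lit 408) (nat_lit 275)) (XT.nd (nat_lit 78) (nat_lit 76)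 (nat_lit 0) (XT.lf (nat_lit 0) (nat_lit 5123350367) (nat_lit 684) (nat_lit 5826659611) (nat_lit 760) (nat_lit 1591237477) (nat_lit 286) (nat_lit 5) (nat_lit 295) (nat_lit 5) (nat_lit 296) (nat_lit 5) (nat_lit 458) (nat_lit 408) (nat_lit 274)) (XT.lf (nat_lit 0) (nat_lit 641928515) (nat_lit 760) (nat_lit 277781829) (nat_lit 76) (nat_lit 11759774672) (nat_lit 285) (nat_lit 5) (nat_lit 295) (nat_lit 5) (nat_lit 286) (nat_lit 5) (nat_lit 459) (nat_lit 408) (nat_lit 273))))))) (XT.nd (nat_lit 858) (nat_lit 3648) (nat_lit 0) (XT.nd (nat_lit 390) (nat_lit 2508) (nat_lit 0) (XT.nd (nat_lit 156) (nat_lit 608) (nat_lit 0) (XT.nd (nat_lit 78) (nat_lit 684) (nat_lit 0) (XT.lf (nat_lit 0) (nat_lit 2956986146) (nat_lit 760) (nat_lit 5775746606) (nat_lit 76) (nat_lit 4086376878) (nat_lit 276) (nat_lit 5) (nat_lit 286) (nat_lit 5) (nat_lit 277) (nat_lit 5) (nat_lit 460) (nat_lit 408) (nat_lit 272)) (XT.lf (nat_lit 0) (nat_lit 1550732780) (nat_lit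 684) (nat_lit 3771528582) (nat_lit 760) (nat_lit 7639190345) (nat_lit 267) (nat_lit 5) (nat_lit 276) (nat_lit 5) (nat_lit 277) (nat_lit 5) (nat_lit 461) (nat_lit 408) (nat_lit 271))) (XT.nd (nat_lit 78) (nat_lit 608) (nat_lit 0) (XT.lf (nat_lit 0) (nat_lit 7768258170) (nat_lit 760) (nat_lit 4029321060) (nat_lit 76) (nat_lit 1308396306) (nat_lit 267) (nat_lit 5) (nat_lit 277) (nat_lit 5) (nat_lit 268) (nat_lit 5) (nat_lit 462) (nat_lit 408) (nat_lit 270)) (XT.nd (nat_lit 78) (nat_lit 0) (nat_lit 0) (XT.lf (nat_lit 0) (nat_lit 3504151951) (nat_lit 608) (nat_lit 6793057839) (nat_lit 684) (nat_lit 2955502525) (nat_lit 259) (nat_lit 5) (nat_lit 267) (nat_lit 5) (nat_lit 268) (nat_lit 5) (nat_lit 463) (nat_lit 408) (nat_lit 269)) (XT.lf (nat_lit 0) (nat_lit 11226488319) (nat_lit 608) (nat_lit 1663759435) (nat_lit 684) (nat_lit 511869038) (nat_lit 259) (nat_lit 5) (nat_lit 267) (nat_lit 5) (nat_lit 268) (nat_lit 5) (nat_lit 464) (nat_lit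 408) (nat_lit 268))))) (XT.nd (nat_lit 234) (nat_lit 1216) (nat_lit 0) (XT.nd (nat_lit 78) (nat_lit 608) (nat_lit 0) (XT.lf (nat_lit 0) (nat_lit 2001090184) (nat_lit 684) (nat_lit 7984297088) (nat_lit 76) (nat_lit 3567939290) (nat_lit 250) (nat_lit 5) (nat_lit 259) (nat_lit 5) (nat_lit 251) (nat_lit 5) (nat_lit 465) (nat_lit 408) (nat_lit 267)) (XT.nd (nat_lit 78) (nat_lit 608) (nat_lit 0) (XT.lf (nat_lit 0) (nat_lit 4569956111) (nat_lit 684) (nat_lit 240125104) (nat_lit 76) (nat_lit 8897164545) (nat_lit 250) (nat_lit 5) (nat_lit 259) (nat_lit 5) (nat_lit 251) (nat_lit 5) (nat_lit 466) (nat_lit 408) (nat_lit 266)) (XT.lf (nat_lit 0) (nat_lit 7230876707) (nat_lit 684) (nat_lit 6122457717) (nat_lit 76) (nat_lit 510098242) (nat_lit 242) (nat_lit 5) (nat_lit 251) (nat_lit 5) (nat_lit 243) (nat_lit 5) (nat_lit 467) (nat_lit 408) (nat_lit 265)))) (XT.nd (nat_lit 78) (nat_lit 608) (nat_lit 0) (XT.lf (nat_lit 0) (nat_lit 1838250435)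 (nat_lit 608) (nat_lit 8139346560) (nat_lit 684) (nat_lit 4044497504) (nat_lit 234) (nat_lit 5) (nat_lit 242) (nat_lit 5) (nat_lit 243) (nat_lit 5) (nat_lit 468) (nat_lit 408) (nat_lit 264)) (XT.nd (nat_lit 78) (nat_lit 608) (nat_lit 0) (XT.lf (nat_lit 0) (nat_lit 10025037162) (nat_lit 608) (nat_lit 2782615577) (nat_lit 684) (nat_lit 1375711569) (nat_lit 234) (nat_lit 5) (nat_lit 242) (nat_lit 5) (nat_lit 243) (nat_lit 5) (nat_lit 469) (nat_lit 408) (nat_lit 263)) (XT.lf (nat_lit 0) (nat_lit 1360224639) (nat_lit 608) (nat_lit 10308853714) (nat_lit 76) (nat_lit 2677980302) (nat_lit 226) (nat_lit 5) (nat_lit 234) (nat_lit 5) (nat_lit 227) (nat_lit 5) (nat_lit 470) (nat_lit 408) (nat_lit 262)))))) (XT.nd (nat_lit 468) (nat_lit 1976) (nat_lit 0) (XT.nd (nat_lit 234) (nat_lit 608) (nat_lit 0) (XT.nd (nat_lit 78) (nat_lit 1064) (nat_lit 0) (XT.lf (nat_lit 0) (nat_lit 4166592829) (nat_lit 608) (nat_lit 2102259551) (nat_lit 76) (nat_lit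 8244312560) (nat_lit 226) (nat_lit 5) (nat_lit 234) (nat_lit 5) (nat_lit 227) (nat_lit 5) (nat_lit 471) (nat_lit 408) (nat_lit 261)) (XT.nd (nat_lit 78) (nat_lit 532) (nat_lit 0) (XT.lf (nat_lit 0) (nat_lit 6335774795) (nat_lit 532) (nat_lit 722292320) (nat_lit 608) (nat_lit 7623949209) (nat_lit 219) (nat_lit 5) (nat_lit 226) (nat_lit 5) (nat_lit 227) (nat_lit 5) (nat_lit 472) (nat_lit 408) (nat_lit 260)) (XT.lf (nat_lit 0) (nat_lit 69983953) (nat_lit 532) (nat_lit 9972040059) (nat_lit 608) (nat_lit 4811530163) (nat_lit 212) (nat_lit 5) (nat_lit 219) (nat_lit 5) (nat_lit 220) (nat_lit 5) (nat_lit 473) (nat_lit 408) (nat_lit 259)))) (XT.nd (nat_lit 78) (nat_lit 608) (nat_lit 0) (XT.lf (nat_lit 0) (nat_lit 8747025297) (nat_lit 532) (nat_lit 4387483411) (nat_lit 608) (nat_lit 1893039552) (nat_lit 212) (nat_lit 5) (nat_lit 219) (nat_lit 5) (nat_lit 220) (nat_lit 5) (nat_lit 474) (nat_lit 408) (nat_lit 258)) (XT.nd (nat_lit 78) (nat_lit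 0) (nat_lit 0) (XT.lf (nat_lit 0) (nat_lit 1082062708) (nat_lit 608) (nat_lit 12812032059) (nat_lit 76) (nat_lit 1310539949) (nat_lit 204) (nat_lit 5) (nat_lit 212) (nat_lit 5) (nat_lit 205) (nat_lit 5) (nat_lit 475) (nat_lit 408) (nat_lit 257)) (XT.lf (nat_lit 0) (nat_lit 4151170914) (nat_lit 608) (nat_lit 4117719577) (nat_lit 76) (nat_lit 7114927427) (nat_lit 204) (nat_lit 5) (nat_lit 212) (nat_lit 5) (nat_lit 205) (nat_lit 5) (nat_lit 476) (nat_lit 408) (nat_lit 256))))) (XT.nd (nat_lit 234) (nat_lit 988) (nat_lit 0) (XT.nd (nat_lit 78) (nat_lit 532) (nat_lit 0) (XT.lf (nat_lit 0) (nat_lit 4797961614) (nat_lit 456) (nat_lit 2503426807) (nat_lit 532) (nat_lit 8264804085) (nat_lit 198) (nat_lit 5) (nat_lit 204) (nat_lit 5) (nat_lit 205) (nat_lit 5) (nat_lit 477) (nat_lit 408) (nat_lit 255)) (XT.nd (nat_lit 78) (nat_lit 532) (nat_lit 0) (XT.lf (nat_lit 0) (nat_lit 10553027051) (nat_lit 532) (nat_lit 1841543748) (nat_lit 76)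 (nat_lit 3356877670) (nat_lit 198) (nat_lit 5) (nat_lit 205) (nat_lit 5) (nat_lit 199) (nat_lit 5) (nat_lit 478) (nat_lit 408) (nat_lit 254)) (XT.lf (nat_lit 0) (nat_lit 7327966494) (nat_lit 532) (nat_lit 6594784788) (nat_lit 608) (nat_lit 2016599389) (nat_lit 191) (nat_lit 5) (nat_lit 198) (nat_lit 5) (nat_lit 199) (nat_lit 5) (nat_lit 479) (nat_lit 408) (nat_lit 253)))) (XT.nd (nat_lit 78) (nat_lit 456) (nat_lit 0) (XT.lf (nat_lit 0) (nat_lit 559049348) (nat_lit 456) (nat_lit 658702720) (nat_lit 532) (nat_lit 14913001175) (nat_lit 184) (nat_lit 5) (nat_lit 190) (nat_lit 5) (nat_lit 191) (nat_lit 5) (nat_lit 480) (nat_lit 408) (nat_lit 252)) (XT.nd (nat_lit 78) (nat_lit 456) (nat_lit 0) (XT.lf (nat_lit 0) (nat_lit 4572049299) (nat_lit 532) (nat_lit 6359360526) (nat_lit 76) (nat_lit 5392664277) (nat_lit 184) (nat_lit 5) (nat_lit 191) (nat_lit 5) (nat_lit 185) (nat_lit 5) (nat_lit 481) (nat_lit 408) (nat_lit 251)) (XT.lf (nat_lit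 0) (nat_lit 3057893047) (nat_lit 456) (nat_lit 4949001733) (nat_lit 532) (nat_lit 8514099364) (nat_lit 178) (nat_lit 5) (nat_lit 184) (nat_lit 5) (nat_lit 185) (nat_lit 5) (nat_lit 482) (nat_lit 408) (nat_lit 250))))))))
noncomputable def xc162 : XT := (XT.nd (nat_lit 1716) (nat_lit 304) (nat_lit 0) (XT.nd (nat_lit 858) (nat_lit 2356) (nat_lit 0) (XT.nd (nat_lit 390) (nat_lit 1292) (nat_lit 0) (XT.nd (nat_lit 156) (nat_lit 912) (nat_lit 0) (XT.nd (nat_lit 78) (nat_lit 456) (nat_lit 0) (XT.lf (nat_lit 0) (nat_lit 11550212422) (nat_lit 532) (nat_lit 3994240209) (nat_lit 76) (nat_lit 1176606421) (nat_lit 178) (nat_lit 5) (nat_lit 185) (nat_lit 5) (nat_lit 179) (nat_lit 5) (nat_lit 483) (nat_lit 408) (nat_lit 249)) (XT.lf (nat_lit 0) (nat_lit 5690992216) (nat_lit 456) (nat_lit 9532669514) (nat_lit 532) (nat_lit 1700280154) (nat_lit 172) (nat_lit 5) (nat_lit 178) (nat_lit 5) (nat_lit 179) (nat_lit 5) (nat_lit 484) (nat_lit 408) (nat_lit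 248))) (XT.nd (nat_lit 78) (nat_lit 836) (nat_lit 0) (XT.lf (nat_lit 0) (nat_lit 1832130183) (nat_lit 532) (nat_lit 1533307816) (nat_lit 76) (nat_lit 13764876130) (nat_lit 171) (nat_lit 5) (nat_lit 178) (nat_lit 5) (nat_lit 172) (nat_lit 5) (nat_lit 485) (nat_lit 408) (nat_lit 247)) (XT.nd (nat_lit 78) (nat_lit 380) (nat_lit 0) (XT.lf (nat_lit 0) (nat_lit 5476460051) (nat_lit 532) (nat_lit 8913891359) (nat_lit 76) (nat_lit 2948958692) (nat_lit 165) (nat_lit 5) (nat_lit 172) (nat_lit 5) (nat_lit 166) (nat_lit 5) (nat_lit 486) (nat_lit 408) (nat_lit 246)) (XT.lf (nat_lit 0) (nat_lit 1028255458) (nat_lit 380) (nat_lit 8194603516) (nat_lit 456) (nat_lit 8329045156) (nat_lit 160) (nat_lit 5) (nat_lit 165) (nat_lit 5) (nat_lit 166) (nat_lit 5) (nat_lit 487) (nat_lit 408) (nat_lit 245))))) (XT.nd (nat_lit 234) (nat_lit 760) (nat_lit 0) (XT.nd (nat_lit 78) (nat_lit 532) (nat_lit 0) (XT.lf (nat_lit 0) (nat_lit 11275473550) (nat_lit 380)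 (nat_lit 1818494451) (nat_lit 456) (nat_lit 4673788144) (nat_lit 160) (nat_lit 5) (nat_lit 165) (nat_lit 5) (nat_lit 166) (nat_lit 5) (nat_lit 488) (nat_lit 408) (nat_lit 244)) (XT.nd (nat_lit 78) (nat_lit 76) (nat_lit 0) (XT.lf (nat_lit 0) (nat_lit 3743908925) (nat_lit 456) (nat_lit 13343450153) (nat_lit 532) (nat_lit 899670641) (nat_lit 154) (nat_lit 5) (nat_lit 160) (nat_lit 5) (nat_lit 161) (nat_lit 5) (nat_lit 489) (nat_lit 408) (nat_lit 243)) (XT.lf (nat_lit 0) (nat_lit 2957305138) (nat_lit 532) (nat_lit 3982994919) (nat_lit 76) (nat_lit 11269086005) (nat_lit 153) (nat_lit 5) (nat_lit 160) (nat_lit 5) (nat_lit 154) (nat_lit 5) (nat_lit 490) (nat_lit 408) (nat_lit 242)))) (XT.nd (nat_lit 78) (nat_lit 380) (nat_lit 0) (XT.lf (nat_lit 0) (nat_lit 6548016616) (nat_lit 380) (nat_lit 364241983) (nat_lit 456) (nat_lit 11523155917) (nat_lit 148) (nat_lit 5) (nat_lit 153) (nat_lit 5) (nat_lit 154) (nat_lit 5) (nat_lit 491) (nat_lit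 408) (nat_lit 241)) (XT.nd (nat_lit 78) (nat_lit 380) (nat_lit 0) (XT.lf (nat_lit 0) (nat_lit 11004828044) (nat_lit 456) (nat_lit 1377458323) (nat_lit 76) (nat_lit 6282508420) (nat_lit 148) (nat_lit 5) (nat_lit 154) (nat_lit 5) (nat_lit 149) (nat_lit 5) (nat_lit 492) (nat_lit 408) (nat_lit 240)) (XT.lf (nat_lit 0) (nat_lit 9450183101) (nat_lit 380) (nat_lit 5783449305) (nat_lit 456) (nat_lit 3664044140) (nat_lit 143) (nat_lit 5) (nat_lit 148) (nat_lit 5) (nat_lit 149) (nat_lit 5) (nat_lit 493) (nat_lit 408) (nat_lit 239)))))) (XT.nd (nat_lit 390) (nat_lit 1216) (nat_lit 0) (XT.nd (nat_lit 156) (nat_lit 684) (nat_lit 0) (XT.nd (nat_lit 78) (nat_lit 0) (nat_lit 0) (XT.lf (nat_lit 0) (nat_lit 421560239) (nat_lit 456) (nat_lit 17761930841) (nat_lit 76) (nat_lit 951369599) (nat_lit 137) (nat_lit 5) (nat_lit 143) (nat_lit 5) (nat_lit 138) (nat_lit 5) (nat_lit 494) (nat_lit 408) (nat_lit 238)) (XT.lf (nat_lit 0) (nat_lit 4632686716)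 (nat_lit 456) (nat_lit 6914804538) (nat_lit 76) (nat_lit 7826956886) (nat_lit 137) (nat_lit 5) (nat_lit 143) (nat_lit 5) (nat_lit 138) (nat_lit 5) (nat_lit 495) (nat_lit 408) (nat_lit 237))) (XT.nd (nat_lit 78) (nat_lit 304) (nat_lit 0) (XT.lf (nat_lit 0) (nat_lit 4190375929) (nat_lit 380) (nat_lit 4755755910) (nat_lit 456) (nat_lit 10672335026) (nat_lit 132) (nat_lit 5) (nat_lit 137) (nat_lit 5) (nat_lit 138) (nat_lit 5) (nat_lit 496) (nat_lit 408) (nat_lit 236)) (XT.nd (nat_lit 78) (nat_lit 304) (nat_lit 0) (XT.lf (nat_lit 0) (nat_lit 13397604015) (nat_lit 456) (nat_lit 4283359980) (nat_lit 76) (nat_lit 2185368213) (nat_lit 132) (nat_lit 5) (nat_lit 138) (nat_lit 5) (nat_lit 133) (nat_lit 5) (nat_lit 497) (nat_lit 408) (nat_lit 235)) (XT.lf (nat_lit 0) (nat_lit 7132683714) (nat_lit 304) (nat_lit 10874352613) (nat_lit 380) (nat_lit 2110741297) (nat_lit 128) (nat_lit 5) (nat_lit 132) (nat_lit 5) (nat_lit 133) (nat_lit 5) (nat_lit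 498) (nat_lit 408) (nat_lit 234))))) (XT.nd (nat_lit 234) (nat_lit 456) (nat_lit 0) (XT.nd (nat_lit 78) (nat_lit 684) (nat_lit 0) (XT.lf (nat_lit 0) (nat_lit 2323875191) (nat_lit 380) (nat_lit 1567576041) (nat_lit 76) (nat_lit 16482097194) (nat_lit 127) (nat_lit 5) (nat_lit 132) (nat_lit 5) (nat_lit 128) (nat_lit 5) (nat_lit 499) (nat_lit 408) (nat_lit 233)) (XT.nd (nat_lit 78) (nat_lit 304) (nat_lit 0) (XT.lf (nat_lit 0) (nat_lit 6897875941) (nat_lit 456) (nat_lit 10469995082) (nat_lit 76) (nat_lit 3264706785) (nat_lit 122) (nat_lit 5) (nat_lit 128) (nat_lit 5) (nat_lit 123) (nat_lit 5) (nat_lit 500) (nat_lit 408) (nat_lit 232)) (XT.lf (nat_lit 0) (nat_lit 1228842899) (nat_lit 304) (nat_lit 10370231006) (nat_lit 380) (nat_lit 9297000804) (nat_lit 118) (nat_lit 5) (nat_lit 122) (nat_lit 5) (nat_lit 123) (nat_lit 5) (nat_lit 501) (nat_lit 408) (nat_lit 231)))) (XT.nd (nat_lit 78) (nat_lit 456) (nat_lit 0) (XT.lf (nat_lit 0) (nat_lit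 13290220743) (nat_lit 304) (nat_lit 3165795177) (nat_lit 380) (nat_lit 4707592477) (nat_lit 118) (nat_lit 5) (nat_lit 122) (nat_lit 5) (nat_lit 123) (nat_lit 5) (nat_lit 502) (nat_lit 408) (nat_lit 230)) (XT.nd (nat_lit 78) (nat_lit 0) (nat_lit 0) (XT.lf (nat_lit 0) (nat_lit 20085789) (nat_lit 456) (nat_lit 17265070889) (nat_lit 76) (nat_lit 4150417996) (nat_lit 112) (nat_lit 5) (nat_lit 118) (nat_lit 5) (nat_lit 113) (nat_lit 5) (nat_lit 503) (nat_lit 408) (nat_lit 229)) (XT.lf (nat_lit 0) (nat_lit 4845112615) (nat_lit 456) (nat_lit 5215678115) (nat_lit 76) (nat_lit 11650251788) (nat_lit 112) (nat_lit 5) (nat_lit 118) (nat_lit 5) (nat_lit 113) (nat_lit 5) (nat_lit 504) (nat_lit 408) (nat_lit 228))))))) (XT.nd (nat_lit 52572) (nat_lit 0) (nat_lit 28728) (XT.nd (nat_lit 52104) (nat_lit 0) (nat_lit 31464) (XT.nd (nat_lit 51870) (nat_lit 0) (nat_lit 32756) (XT.nd (nat_lit 78) (nat_lit 0) (nat_lit 0) (XT.lf (nat_lit 0) (nat_lit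 7155546947) (nat_lit 304) (nat_lit 2649336615) (nat_lit 380) (nat_lit 12186372440) (nat_lit 108) (nat_lit 5) (nat_lit 112) (nat_lit 5) (nat_lit 113) (nat_lit 5) (nat_lit 505) (nat_lit 408) (nat_lit 227)) (XT.lf (nat_lit 0) (nat_lit 14922794111) (nat_lit 380) (nat_lit 2476639545) (nat_lit 76) (nat_lit 4876462350) (nat_lit 108) (nat_lit 5) (nat_lit 113) (nat_lit 5) (nat_lit 109) (nat_lit 5) (nat_lit 506) (nat_lit 408) (nat_lit 226))) (XT.nd (nat_lit 78) (nat_lit 0) (nat_lit 0) (XT.lf (nat_lit 0) (nat_lit 1384566709) (nat_lit 1444) (nat_lit 1321416168) (nat_lit 1444) (nat_lit 1321416168) (nat_lit 539) (nat_lit 3) (nat_lit 558) (nat_lit 3) (nat_lit 558) (nat_lit 5) (nat_lit 409) (nat_lit 409) (nat_lit 322)) (XT.nd (nat_lit 78) (nat_lit 0) (nat_lit 76) (XT.lf (nat_lit 76) (nat_lit 1271754229) (nat_lit 0) (nat_lit 2706329942) (nat_lit 1444) (nat_lit 4133247947) (nat_lit 540) (nat_lit 5) (nat_lit 539) (nat_lit 3) (nat_lit 558) (nat_lit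 5) (nat_lit 410) (nat_lit 409) (nat_lit 321)) (XT.lf (nat_lit 0) (nat_lit 5198638641) (nat_lit 1368) (nat_lit 2885279913) (nat_lit 1444) (nat_lit 85339976) (nat_lit 540) (nat_lit 5) (nat_lit 558) (nat_lit 5) (nat_lit 559) (nat_lit 5) (nat_lit 411) (nat_lit 409) (nat_lit 320))))) (XT.nd (nat_lit 234) (nat_lit 0) (nat_lit 0) (XT.nd (nat_lit 78) (nat_lit 1368) (nat_lit 0) (XT.lf (nat_lit 76) (nat_lit 1128679913) (nat_lit 0) (nat_lit 5310004185) (nat_lit 1444) (nat_lit 1789767770) (nat_lit 541) (nat_lit 5) (nat_lit 540) (nat_lit 5) (nat_lit 559) (nat_lit 5) (nat_lit 412) (nat_lit 409) (nat_lit 319)) (XT.nd (nat_lit 78) (nat_lit 1368) (nat_lit 0) (XT.lf (nat_lit 76) (nat_lit 5245832695) (nat_lit 0) (nat_lit 2447374989) (nat_lit 1444) (nat_lit 595837648) (nat_lit 541) (nat_lit 5) (nat_lit 540) (nat_lit 5) (nat_lit 559) (nat_lit 5) (nat_lit 413) (nat_lit 409) (nat_lit 318)) (XT.lf (nat_lit 0) (nat_lit 594801919) (nat_lit 1444) (nat_lit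 7266013614) (nat_lit 1520) (nat_lit 490344024) (nat_lit 522) (nat_lit 5) (nat_lit 541) (nat_lit 5) (nat_lit 542) (nat_lit 5) (nat_lit 414) (nat_lit 409) (nat_lit 317)))) (XT.nd (nat_lit 78) (nat_lit 0) (nat_lit 0) (XT.lf (nat_lit 0) (nat_lit 1809295188) (nat_lit 1444) (nat_lit 3113912674) (nat_lit 1520) (nat_lit 3491078288) (nat_lit 522) (nat_lit 5) (nat_lit 541) (nat_lit 5) (nat_lit 542) (nat_lit 5) (nat_lit 415) (nat_lit 409) (nat_lit 316)) (XT.nd (nat_lit 78) (nat_lit 0) (nat_lit 76) (XT.lf (nat_lit 76) (nat_lit 1119402314) (nat_lit 0) (nat_lit 1907754829) (nat_lit 1520) (nat_lit 5451945611) (nat_lit 523) (nat_lit 5) (nat_lit 522) (nat_lit 5) (nat_lit 542) (nat_lit 5) (nat_lit 416) (nat_lit 409) (nat_lit 315)) (XT.lf (nat_lit 0) (nat_lit 4270324998) (nat_lit 1444) (nat_lit 3089964018) (nat_lit 1520) (nat_lit 1184916578) (nat_lit 523) (nat_lit 5) (nat_lit 542) (nat_lit 5) (nat_lit 543) (nat_lit 5) (nat_lit 417) (nat_lit 409)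 (nat_lit 314)))))) (XT.nd (nat_lit 468) (nat_lit 1368) (nat_lit 0) (XT.nd (nat_lit 234) (nat_lit 1444) (nat_lit 0) (XT.nd (nat_lit 78) (nat_lit 0) (nat_lit 0) (XT.lf (nat_lit 76) (nat_lit 1252252695) (nat_lit 0) (nat_lit 4279741445) (nat_lit 1520) (nat_lit 3080772297) (nat_lit 524) (nat_lit 5) (nat_lit 523) (nat_lit 5) (nat_lit 543) (nat_lit 5) (nat_lit 418) (nat_lit 409) (nat_lit 313)) (XT.nd (nat_lit 78) (nat_lit 0) (nat_lit 76) (XT.lf (nat_lit 76) (nat_lit 5706605093) (nat_lit 0) (nat_lit 1106324350) (nat_lit 1520) (nat_lit 1868876929) (nat_lit 524) (nat_lit 5) (nat_lit 523) (nat_lit 5) (nat_lit 543) (nat_lit 5) (nat_lit 419) (nat_lit 409) (nat_lit 312)) (XT.lf (nat_lit 76) (nat_lit 1486616820) (nat_lit 0) (nat_lit 6630237169) (nat_lit 1520) (nat_lit 635434073) (nat_lit 525) (nat_lit 5) (nat_lit 524) (nat_lit 5) (nat_lit 544) (nat_lit 5) (nat_lit 420) (nat_lit 409) (nat_lit 311)))) (XT.nd (nat_lit 78) (nat_lit 0) (nat_lit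 0) (XT.lf (nat_lit 0) (nat_lit 616045471) (nat_lit 1520) (nat_lit 2774386861) (nat_lit 1596) (nat_lit 5433643549) (nat_lit 504) (nat_lit 5) (nat_lit 524) (nat_lit 5) (nat_lit 525) (nat_lit 5) (nat_lit 421) (nat_lit 409) (nat_lit 310)) (XT.nd (nat_lit 78) (nat_lit 0) (nat_lit 76) (XT.lf (nat_lit 76) (nat_lit 1809476059) (nat_lit 0) (nat_lit 60944322) (nat_lit 1596) (nat_lit 7027075471) (nat_lit 505) (nat_lit 5) (nat_lit 504) (nat_lit 5) (nat_lit 525) (nat_lit 5) (nat_lit 422) (nat_lit 409) (nat_lit 309)) (XT.lf (nat_lit 0) (nat_lit 3165339159) (nat_lit 1520) (nat_lit 2488387204) (nat_lit 1596) (nat_lit 3318356458) (nat_lit 505) (nat_lit 5) (nat_lit 525) (nat_lit 5) (nat_lit 526) (nat_lit 5) (nat_lit 423) (nat_lit 409) (nat_lit 308))))) (XT.nd (nat_lit 234) (nat_lit 1444) (nat_lit 0) (XT.nd (nat_lit 78) (nat_lit 0) (nat_lit 76) (XT.lf (nat_lit 76) (nat_lit 2215000319) (nat_lit 0) (nat_lit 2261491419) (nat_lit 1596) (nat_lit 4571870662)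 (nat_lit 506) (nat_lit 5) (nat_lit 505) (nat_lit 5) (nat_lit 526) (nat_lit 5) (nat_lit 424) (nat_lit 409) (nat_lit 307)) (XT.nd (nat_lit 78) (nat_lit 0) (nat_lit 0) (XT.lf (nat_lit 0) (nat_lit 5814426872) (nat_lit 1520) (nat_lit 2104849480) (nat_lit 1596) (nat_lit 1206887456) (nat_lit 506) (nat_lit 5) (nat_lit 526) (nat_lit 5) (nat_lit 527) (nat_lit 5) (nat_lit 425) (nat_lit 409) (nat_lit 306)) (XT.lf (nat_lit 76) (nat_lit 2721985746) (nat_lit 0) (nat_lit 4466224371) (nat_lit 1596) (nat_lit 2017136621) (nat_lit 507) (nat_lit 5) (nat_lit 506) (nat_lit 5) (nat_lit 527) (nat_lit 5) (nat_lit 426) (nat_lit 409) (nat_lit 305)))) (XT.nd (nat_lit 78) (nat_lit 1520) (nat_lit 0) (XT.lf (nat_lit 76) (nat_lit 7657030916) (nat_lit 0) (nat_lit 923354975) (nat_lit 1596) (nat_lit 705916239) (nat_lit 507) (nat_lit 5) (nat_lit 506) (nat_lit 5) (nat_lit 527) (nat_lit 5) (nat_lit 427) (nat_lit 409) (nat_lit 304)) (XT.nd (nat_lit 78) (nat_lit 0)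 (nat_lit 0) (XT.lf (nat_lit 0) (nat_lit 639730539) (nat_lit 1596) (nat_lit 6041674656) (nat_lit 1672) (nat_lit 2687066599) (nat_lit 486) (nat_lit 5) (nat_lit 507) (nat_lit 5) (nat_lit 508) (nat_lit 5) (nat_lit 428) (nat_lit 409) (nat_lit 303)) (XT.lf (nat_lit 0) (nat_lit 1997435695) (nat_lit 1596) (nat_lit 1076080988) (nat_lit 1672) (nat_lit 6378789621) (nat_lit 486) (nat_lit 5) (nat_lit 507) (nat_lit 5) (nat_lit 508) (nat_lit 5) (nat_lit 429) (nat_lit 409) (nat_lit 302))))))))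
noncomputable def xc163 : XT := (XT.nd (nat_lit 1716) (nat_lit 9348) (nat_lit 0) (XT.nd (nat_lit 858) (nat_lit 5244) (nat_lit 0) (XT.nd (nat_lit 390) (nat_lit 4788) (nat_lit 0) (XT.nd (nat_lit 156) (nat_lit 1520) (nat_lit 0) (XT.nd (nat_lit 78) (nat_lit 0) (nat_lit 0) (XT.lf (nat_lit 0) (nat_lit 3390480967) (nat_lit 1596) (nat_lit 5517165436) (nat_lit 1672) (nat_lit 630013977) (nat_lit 487) (nat_lit 5) (nat_lit 508) (nat_lit 5) (nat_lit 509) (nat_lit 5) (nat_lit 430) (nat_lit 409) (nat_lit 301)) (XT.lf (nat_lit 0) (nat_lit 4817277084) (nat_lit 1596) (nat_lit 428640322) (nat_lit 1672) (nat_lit 4378692799) (nat_lit 487) (nat_lit 5) (nat_lit 508) (nat_lit 5) (nat_lit 509) (nat_lit 5) (nat_lit 431) (nat_lit 409) (nat_lit 300))) (XT.nd (nat_lit 78) (nat_lit 1520) (nat_lit 0) (XT.lf (nat_lit 76) (nat_lit 4807798746) (nat_lit 0) (nat_lit 1474718573) (nat_lit 1672) (nat_lit 3430589885) (nat_lit 488) (nat_lit 5) (nat_lit 487) (nat_lit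 5) (nat_lit 509) (nat_lit 5) (nat_lit 432) (nat_lit 409) (nat_lit 299)) (XT.nd (nat_lit 78) (nat_lit 0) (nat_lit 0) (XT.lf (nat_lit 0) (nat_lit 323023931) (nat_lit 1596) (nat_lit 7453459883) (nat_lit 1672) (nat_lit 2026908115) (nat_lit 467) (nat_lit 5) (nat_lit 488) (nat_lit 5) (nat_lit 489) (nat_lit 5) (nat_lit 433) (nat_lit 409) (nat_lit 298)) (XT.lf (nat_lit 0) (nat_lit 5695379217) (nat_lit 1596) (nat_lit 3626898376) (nat_lit 1672) (nat_lit 572771890) (nat_lit 467) (nat_lit 5) (nat_lit 488) (nat_lit 5) (nat_lit 489) (nat_lit 5) (nat_lit 434) (nat_lit 409) (nat_lit 297))))) (XT.nd (nat_lit 234) (nat_lit 1292) (nat_lit 0) (XT.nd (nat_lit 78) (nat_lit 1748) (nat_lit 0) (XT.lf (nat_lit 0) (nat_lit 887660507) (nat_lit 1748) (nat_lit 8811474347) (nat_lit 76) (nat_lit 289509884) (nat_lit 444) (nat_lit 5) (nat_lit 467) (nat_lit 5) (nat_lit 445) (nat_lit 5) (nat_lit 435) (nat_lit 409) (nat_lit 296)) (XT.nd (nat_lit 78) (nat_lit 1748)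 (nat_lit 0) (XT.lf (nat_lit 0) (nat_lit 2401931385) (nat_lit 1748) (nat_lit 3410469225) (nat_lit 76) (nat_lit 4270995325) (nat_lit 444) (nat_lit 5) (nat_lit 467) (nat_lit 5) (nat_lit 445) (nat_lit 5) (nat_lit 436) (nat_lit 409) (nat_lit 295)) (XT.lf (nat_lit 0) (nat_lit 2109161718) (nat_lit 1748) (nat_lit 1831318324) (nat_lit 1824) (nat_lit 6239687897) (nat_lit 421) (nat_lit 5) (nat_lit 444) (nat_lit 5) (nat_lit 445) (nat_lit 5) (nat_lit 437) (nat_lit 409) (nat_lit 294)))) (XT.nd (nat_lit 78) (nat_lit 1292) (nat_lit 0) (XT.lf (nat_lit 0) (nat_lit 5527902620) (nat_lit 1824) (nat_lit 2524983030) (nat_lit 76) (nat_lit 2225633193) (nat_lit 421) (nat_lit 5) (nat_lit 445) (nat_lit 5) (nat_lit 422) (nat_lit 5) (nat_lit 438) (nat_lit 409) (nat_lit 293)) (XT.nd (nat_lit 78) (nat_lit 0) (nat_lit 0) (XT.lf (nat_lit 0) (nat_lit 3144053554) (nat_lit 1292) (nat_lit 4016532577) (nat_lit 1368) (nat_lit 3217985796) (nat_lit 404) (nat_lit 5)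 (nat_lit 421) (nat_lit 5) (nat_lit 422) (nat_lit 5) (nat_lit 439) (nat_lit 409) (nat_lit 292)) (XT.lf (nat_lit 0) (nat_lit 8824879049) (nat_lit 1368) (nat_lit 1537649285) (nat_lit 76) (nat_lit 118123929) (nat_lit 404) (nat_lit 5) (nat_lit 422) (nat_lit 5) (nat_lit 405) (nat_lit 5) (nat_lit 440) (nat_lit 409) (nat_lit 291)))))) (XT.nd (nat_lit 390) (nat_lit 2508) (nat_lit 0) (XT.nd (nat_lit 156) (nat_lit 1748) (nat_lit 0) (XT.nd (nat_lit 78) (nat_lit 76) (nat_lit 0) (XT.lf (nat_lit 0) (nat_lit 4285811189) (nat_lit 912) (nat_lit 6272686965) (nat_lit 988) (nat_lit 25560445) (nat_lit 392) (nat_lit 5) (nat_lit 404) (nat_lit 5) (nat_lit 405) (nat_lit 5) (nat_lit 441) (nat_lit 409) (nat_lit 290)) (XT.lf (nat_lit 0) (nat_lit 1607910892) (nat_lit 988) (nat_lit 470532805) (nat_lit 76) (nat_lit 8611039217) (nat_lit 391) (nat_lit 5) (nat_lit 404) (nat_lit 5) (nat_lit 392) (nat_lit 5) (nat_lit 442) (nat_lit 409) (nat_lit 289))) (XT.nd (nat_lit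 78) (nat_lit 912) (nat_lit 0) (XT.lf (nat_lit 0) (nat_lit 3306236391) (nat_lit 912) (nat_lit 5281857024) (nat_lit 76) (nat_lit 2208273282) (nat_lit 380) (nat_lit 5) (nat_lit 392) (nat_lit 5) (nat_lit 381) (nat_lit 5) (nat_lit 443) (nat_lit 409) (nat_lit 288)) (XT.nd (nat_lit 78) (nat_lit 0) (nat_lit 0) (XT.lf (nat_lit 0) (nat_lit 698673066) (nat_lit 912) (nat_lit 4343682536) (nat_lit 988) (nat_lit 5862960815) (nat_lit 368) (nat_lit 5) (nat_lit 380) (nat_lit 5) (nat_lit 381) (nat_lit 5) (nat_lit 444) (nat_lit 409) (nat_lit 287)) (XT.lf (nat_lit 0) (nat_lit 6831370325) (nat_lit 988) (nat_lit 4162722246) (nat_lit 76) (nat_lit 21993808) (nat_lit 368) (nat_lit 5) (nat_lit 381) (nat_lit 5) (nat_lit 369) (nat_lit 5) (nat_lit 445) (nat_lit 409) (nat_lit 286))))) (XT.nd (nat_lit 234) (nat_lit 760) (nat_lit 0) (XT.nd (nat_lit 78) (nat_lit 912) (nat_lit 0) (XT.lf (nat_lit 0) (nat_lit 1982393586) (nat_lit 836) (nat_lit 6698338039) (nat_lit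 912) (nat_lit 2447853409) (nat_lit 357) (nat_lit 5) (nat_lit 368) (nat_lit 5) (nat_lit 369) (nat_lit 5) (nat_lit 446) (nat_lit 409) (nat_lit 285)) (XT.nd (nat_lit 78) (nat_lit 912) (nat_lit 0) (XT.lf (nat_lit 0) (nat_lit 8290032795) (nat_lit 836) (nat_lit 2288136183) (nat_lit 912) (nat_lit 664947434) (nat_lit 357) (nat_lit 5) (nat_lit 368) (nat_lit 5) (nat_lit 369) (nat_lit 5) (nat_lit 447) (nat_lit 409) (nat_lit 284)) (XT.lf (nat_lit 0) (nat_lit 1158374936) (nat_lit 912) (nat_lit 7990153727) (nat_lit 76) (nat_lit 2210866544) (nat_lit 345) (nat_lit 5) (nat_lit 357) (nat_lit 5) (nat_lit 346) (nat_lit 5) (nat_lit 448) (nat_lit 409) (nat_lit 283)))) (XT.nd (nat_lit 78) (nat_lit 760) (nat_lit 0) (XT.lf (nat_lit 0) (nat_lit 3027958100) (nat_lit 912) (nat_lit 1656171386) (nat_lit 76) (nat_lit 6793412490) (nat_lit 345) (nat_lit 5) (nat_lit 357) (nat_lit 5) (nat_lit 346) (nat_lit 5) (nat_lit 449) (nat_lit 409) (nat_lit 282)) (XT.nd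 (nat_lit 78) (nat_lit 0) (nat_lit 0) (XT.lf (nat_lit 0) (nat_lit 4851528118) (nat_lit 760) (nat_lit 98814411) (nat_lit 836) (nat_lit 6647405145) (nat_lit 335) (nat_lit 5) (nat_lit 345) (nat_lit 5) (nat_lit 346) (nat_lit 5) (nat_lit 450) (nat_lit 409) (nat_lit 281)) (XT.lf (nat_lit 0) (nat_lit 6936201621) (nat_lit 836) (nat_lit 254901934) (nat_lit 76) (nat_lit 4528757491) (nat_lit 335) (nat_lit 5) (nat_lit 346) (nat_lit 5) (nat_lit 336) (nat_lit 5) (nat_lit 451) (nat_lit 409) (nat_lit 280))))))) (XT.nd (nat_lit 858) (nat_lit 4180) (nat_lit 0) (XT.nd (nat_lit 390) (nat_lit 2812) (nat_lit 0) (XT.nd (nat_lit 156) (nat_lit 836) (nat_lit 0) (XT.nd (nat_lit 78) (nat_lit 760) (nat_lit 0) (XT.lf (nat_lit 0) (nat_lit 6433493654) (nat_lit 760) (nat_lit 2555135457) (nat_lit 836) (nat_lit 2855254570) (nat_lit 325) (nat_lit 5) (nat_lit 335) (nat_lit 5) (nat_lit 336) (nat_lit 5) (nat_lit 452) (nat_lit 409) (nat_lit 279)) (XT.lf (nat_lit 0)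 (nat_lit 1274687063) (nat_lit 760) (nat_lit 9816147228) (nat_lit 836) (nat_lit 879381838) (nat_lit 315) (nat_lit 5) (nat_lit 325) (nat_lit 5) (nat_lit 326) (nat_lit 5) (nat_lit 453) (nat_lit 409) (nat_lit 278))) (XT.nd (nat_lit 78) (nat_lit 760) (nat_lit 0) (XT.lf (nat_lit 0) (nat_lit 1159286555) (nat_lit 836) (nat_lit 3972846149) (nat_lit 76) (nat_lit 6966035252) (nat_lit 314) (nat_lit 5) (nat_lit 325) (nat_lit 5) (nat_lit 315) (nat_lit 5) (nat_lit 454) (nat_lit 409) (nat_lit 277)) (XT.nd (nat_lit 78) (nat_lit 0) (nat_lit 0) (XT.lf (nat_lit 0) (nat_lit 2900065879) (nat_lit 760) (nat_lit 330736228) (nat_lit 836) (nat_lit 8997687198) (nat_lit 304) (nat_lit 5) (nat_lit 314) (nat_lit 5) (nat_lit 315) (nat_lit 5) (nat_lit 455) (nat_lit 409) (nat_lit 276)) (XT.lf (nat_lit 0) (nat_lit 5385420986) (nat_lit 836) (nat_lit 2443038682) (nat_lit 76) (nat_lit 4532127596) (nat_lit 304) (nat_lit 5) (nat_lit 315) (nat_lit 5) (nat_lit 305) (nat_lit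 5) (nat_lit 456) (nat_lit 409) (nat_lit 275))))) (XT.nd (nat_lit 234) (nat_lit 1444) (nat_lit 0) (XT.nd (nat_lit 78) (nat_lit 684) (nat_lit 0) (XT.lf (nat_lit 0) (nat_lit 4622192775) (nat_lit 684) (nat_lit 2978617175) (nat_lit 760) (nat_lit 4894167248) (nat_lit 295) (nat_lit 5) (nat_lit 304) (nat_lit 5) (nat_lit 305) (nat_lit 5) (nat_lit 457) (nat_lit 409) (nat_lit 274)) (XT.nd (nat_lit 78) (nat_lit 684) (nat_lit 0) (XT.lf (nat_lit 0) (nat_lit 9875433132) (nat_lit 760) (nat_lit 799232524) (nat_lit 76) (nat_lit 1957094245) (nat_lit 295) (nat_lit 5) (nat_lit 305) (nat_lit 5) (nat_lit 296) (nat_lit 5) (nat_lit 458) (nat_lit 409) (nat_lit 273)) (XT.lf (nat_lit 0) (nat_lit 6464710313) (nat_lit 684) (nat_lit 5778463857) (nat_lit 760) (nat_lit 527155010) (nat_lit 286) (nat_lit 5) (nat_lit 295) (nat_lit 5) (nat_lit 296) (nat_lit 5) (nat_lit 459) (nat_lit 409) (nat_lit 272)))) (XT.nd (nat_lit 78) (nat_lit 684) (nat_lit 0) (XT.lf (nat_lit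 0) (nat_lit 958171086) (nat_lit 684) (nat_lit 763144724) (nat_lit 760) (nat_lit 11190178081) (nat_lit 276) (nat_lit 5) (nat_lit 285) (nat_lit 5) (nat_lit 286) (nat_lit 5) (nat_lit 460) (nat_lit 409) (nat_lit 271)) (XT.nd (nat_lit 78) (nat_lit 684) (nat_lit 0) (XT.lf (nat_lit 0) (nat_lit 4064715171) (nat_lit 760) (nat_lit 4650336279) (nat_lit 76) (nat_lit 4339223636) (nat_lit 276) (nat_lit 5) (nat_lit 286) (nat_lit 5) (nat_lit 277) (nat_lit 5) (nat_lit 461) (nat_lit 409) (nat_lit 270)) (XT.lf (nat_lit 0) (nat_lit 2814508712) (nat_lit 684) (nat_lit 3650230508) (nat_lit 760) (nat_lit 6734980720) (nat_lit 267) (nat_lit 5) (nat_lit 276) (nat_lit 5) (nat_lit 277) (nat_lit 5) (nat_lit 462) (nat_lit 409) (nat_lit 269)))))) (XT.nd (nat_lit 468) (nat_lit 2280) (nat_lit 0) (XT.nd (nat_lit 234) (nat_lit 1216) (nat_lit 0) (XT.nd (nat_lit 78) (nat_lit 684) (nat_lit 0) (XT.lf (nat_lit 0) (nat_lit 8940593847) (nat_lit 760) (nat_lit 2882020438)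 (nat_lit 76) (nat_lit 1524905912) (nat_lit 267) (nat_lit 5) (nat_lit 277) (nat_lit 5) (nat_lit 268) (nat_lit 5) (nat_lit 463) (nat_lit 409) (nat_lit 268)) (XT.nd (nat_lit 78) (nat_lit 76) (nat_lit 0) (XT.lf (nat_lit 0) (nat_lit 4794043829) (nat_lit 608) (nat_lit 6714059880) (nat_lit 684) (nat_lit 1989333035) (nat_lit 259) (nat_lit 5) (nat_lit 267) (nat_lit 5) (nat_lit 268) (nat_lit 5) (nat_lit 464) (nat_lit 409) (nat_lit 267)) (XT.lf (nat_lit 0) (nat_lit 476734056) (nat_lit 684) (nat_lit 1006455238) (nat_lit 76) (nat_lit 12166975911) (nat_lit 258) (nat_lit 5) (nat_lit 267) (nat_lit 5) (nat_lit 259) (nat_lit 5) (nat_lit 465) (nat_lit 409) (nat_lit 266)))) (XT.nd (nat_lit 78) (nat_lit 608) (nat_lit 0) (XT.lf (nat_lit 0) (nat_lit 3022888864) (nat_lit 684) (nat_lit 6924253498) (nat_lit 76) (nat_lit 3857397685) (nat_lit 250) (nat_lit 5) (nat_lit 259) (nat_lit 5) (nat_lit 251) (nat_lit 5) (nat_lit 466) (nat_lit 409) (nat_lit 265))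 (XT.nd (nat_lit 78) (nat_lit 0) (nat_lit 0) (XT.lf (nat_lit 0) (nat_lit 963522429) (nat_lit 608) (nat_lit 4666614979) (nat_lit 684) (nat_lit 8331664379) (nat_lit 242) (nat_lit 5) (nat_lit 250) (nat_lit 5) (nat_lit 251) (nat_lit 5) (nat_lit 467) (nat_lit 409) (nat_lit 264)) (XT.lf (nat_lit 0) (nat_lit 8328396492) (nat_lit 684) (nat_lit 5039260443) (nat_lit 76) (nat_lit 753777276) (nat_lit 242) (nat_lit 5) (nat_lit 251) (nat_lit 5) (nat_lit 243) (nat_lit 5) (nat_lit 468) (nat_lit 409) (nat_lit 263))))) (XT.nd (nat_lit 234) (nat_lit 1064) (nat_lit 0) (XT.nd (nat_lit 78) (nat_lit 608) (nat_lit 0) (XT.lf (nat_lit 0) (nat_lit 3072729987) (nat_lit 608) (nat_lit 8046413198) (nat_lit 684) (nat_lit 3164348355) (nat_lit 234) (nat_lit 5) (nat_lit 242) (nat_lit 5) (nat_lit 243) (nat_lit 5) (nat_lit 469) (nat_lit 409) (nat_lit 262)) (XT.nd (nat_lit 78) (nat_lit 608) (nat_lit 0) (XT.lf (nat_lit 0) (nat_lit 11399767850) (nat_lit 608) (nat_lit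 2587561719) (nat_lit 684) (nat_lit 461030605) (nat_lit 234) (nat_lit 5) (nat_lit 242) (nat_lit 5) (nat_lit 243) (nat_lit 5) (nat_lit 470) (nat_lit 409) (nat_lit 261)) (XT.lf (nat_lit 0) (nat_lit 2308376088) (nat_lit 608) (nat_lit 9319162458) (nat_lit 76) (nat_lit 2987849201) (nat_lit 226) (nat_lit 5) (nat_lit 234) (nat_lit 5) (nat_lit 227) (nat_lit 5) (nat_lit 471) (nat_lit 409) (nat_lit 260)))) (XT.nd (nat_lit 78) (nat_lit 1064) (nat_lit 0) (XT.lf (nat_lit 0) (nat_lit 5152813858) (nat_lit 608) (nat_lit 971884811) (nat_lit 76) (nat_lit 8660482431) (nat_lit 226) (nat_lit 5) (nat_lit 234) (nat_lit 5) (nat_lit 227) (nat_lit 5) (nat_lit 472) (nat_lit 409) (nat_lit 259)) (XT.nd (nat_lit 78) (nat_lit 532) (nat_lit 0) (XT.lf (nat_lit 0) (nat_lit 7627196933) (nat_lit 532) (nat_lit 464779036) (nat_lit 608) (nat_lit 6865640090) (nat_lit 219) (nat_lit 5) (nat_lit 226) (nat_lit 5) (nat_lit 227) (nat_lit 5) (nat_lit 473) (nat_lit 409) (nat_lit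 258)) (XT.lf (nat_lit 0) (nat_lit 1244595513) (nat_lit 532) (nat_lit 9882860025) (nat_lit 608) (nat_lit 4005295898) (nat_lit 212) (nat_lit 5) (nat_lit 219) (nat_lit 5) (nat_lit 220) (nat_lit 5) (nat_lit 474) (nat_lit 409) (nat_lit 257))))))))
noncomputable def xc164 : XT := (XT.nd (nat_lit 1716) (nat_lit 2204) (nat_lit 0) (XT.nd (nat_lit 858) (nat_lit 2660) (nat_lit 0) (XT.nd (nat_lit 390) (nat_lit 1976) (nat_lit 0) (XT.nd (nat_lit 156) (nat_lit 456) (nat_lit 0) (XT.nd (nat_lit 78) (nat_lit 608) (nat_lit 0) (XT.lf (nat_lit 0) (nat_lit 10072173529) (nat_lit 532) (nat_lit 4192271475) (nat_lit 608) (nat_lit 1046130865) (nat_lit 212) (nat_lit 5) (nat_lit 219) (nat_lit 5) (nat_lit 220) (nat_lit 5) (nat_lit 475) (nat_lit 409) (nat_lit 256)) (XT.lf (nat_lit 0) (nat_lit 1969131472) (nat_lit 608) (nat_lit 11898376567) (nat_lit 76) (nat_lit 1623739317) (nat_lit 204) (nat_lit 5) (nat_lit 212) (nat_lit 5) (nat_lit 205) (nat_lit 5) (nat_lit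 476) (nat_lit 409) (nat_lit 255))) (XT.nd (nat_lit 78) (nat_lit 456) (nat_lit 0) (XT.lf (nat_lit 0) (nat_lit 5082652675) (nat_lit 608) (nat_lit 3053116976) (nat_lit 76) (nat_lit 7538587317) (nat_lit 204) (nat_lit 5) (nat_lit 212) (nat_lit 5) (nat_lit 205) (nat_lit 5) (nat_lit 477) (nat_lit 409) (nat_lit 254)) (XT.nd (nat_lit 78) (nat_lit 0) (nat_lit 0) (XT.lf (nat_lit 0) (nat_lit 6033332070) (nat_lit 456) (nat_lit 2253303838) (nat_lit 532) (nat_lit 7573931209) (nat_lit 198) (nat_lit 5) (nat_lit 204) (nat_lit 5) (nat_lit 205) (nat_lit 5) (nat_lit 478) (nat_lit 409) (nat_lit 253)) (XT.lf (nat_lit 0) (nat_lit 11588762848) (nat_lit 532) (nat_lit 746598721) (nat_lit 76) (nat_lit 3714460752) (nat_lit 198) (nat_lit 5) (nat_lit 205) (nat_lit 5) (nat_lit 199) (nat_lit 5) (nat_lit 479) (nat_lit 409) (nat_lit 252))))) (XT.nd (nat_lit 234) (nat_lit 912) (nat_lit 0) (XT.nd (nat_lit 78) (nat_lit 532) (nat_lit 0) (XT.lf (nat_lit 0) (nat_lit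 8598855832) (nat_lit 532) (nat_lit 6418155524) (nat_lit 608) (nat_lit 1224651783) (nat_lit 191) (nat_lit 5) (nat_lit 198) (nat_lit 5) (nat_lit 199) (nat_lit 5) (nat_lit 480) (nat_lit 409) (nat_lit 251)) (XT.nd (nat_lit 78) (nat_lit 0) (nat_lit 0) (XT.lf (nat_lit 0) (nat_lit 1698161434) (nat_lit 456) (nat_lit 356527870) (nat_lit 532) (nat_lit 14382275069) (nat_lit 184) (nat_lit 5) (nat_lit 190) (nat_lit 5) (nat_lit 191) (nat_lit 5) (nat_lit 481) (nat_lit 409) (nat_lit 250)) (XT.lf (nat_lit 0) (nat_lit 5462146804) (nat_lit 532) (nat_lit 5366657952) (nat_lit 76) (nat_lit 5805628393) (nat_lit 184) (nat_lit 5) (nat_lit 191) (nat_lit 5) (nat_lit 185) (nat_lit 5) (nat_lit 482) (nat_lit 409) (nat_lit 249)))) (XT.nd (nat_lit 78) (nat_lit 456) (nat_lit 0) (XT.lf (nat_lit 0) (nat_lit 4231572996) (nat_lit 456) (nat_lit 4725679497) (nat_lit 532) (nat_lit 7878210759) (nat_lit 178) (nat_lit 5) (nat_lit 184) (nat_lit 5) (nat_lit 185) (nat_lit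 5) (nat_lit 483) (nat_lit 409) (nat_lit 248)) (XT.nd (nat_lit 78) (nat_lit 456) (nat_lit 0) (XT.lf (nat_lit 0) (nat_lit 12557993551) (nat_lit 532) (nat_lit 2969830639) (nat_lit 76) (nat_lit 1511976998) (nat_lit 178) (nat_lit 5) (nat_lit 185) (nat_lit 5) (nat_lit 179) (nat_lit 5) (nat_lit 484) (nat_lit 409) (nat_lit 247)) (XT.lf (nat_lit 0) (nat_lit 6901841340) (nat_lit 456) (nat_lit 9394962228) (nat_lit 532) (nat_lit 950103087) (nat_lit 172) (nat_lit 5) (nat_lit 178) (nat_lit 5) (nat_lit 179) (nat_lit 5) (nat_lit 485) (nat_lit 409) (nat_lit 246)))))) (XT.nd (nat_lit 390) (nat_lit 1292) (nat_lit 0) (XT.nd (nat_lit 156) (nat_lit 836) (nat_lit 0) (XT.nd (nat_lit 78) (nat_lit 456) (nat_lit 0) (XT.lf (nat_lit 0) (nat_lit 2627496289) (nat_lit 532) (nat_lit 478236804) (nat_lit 76) (nat_lit 14351877618) (nat_lit 171) (nat_lit 5) (nat_lit 178) (nat_lit 5) (nat_lit 172) (nat_lit 5) (nat_lit 486) (nat_lit 409) (nat_lit 245)) (XT.lf (nat_lit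 0) (nat_lit 6338966707) (nat_lit 532) (nat_lit 8000553392) (nat_lit 76) (nat_lit 3331384077) (nat_lit 165) (nat_lit 5) (nat_lit 172) (nat_lit 5) (nat_lit 166) (nat_lit 5) (nat_lit 487) (nat_lit 409) (nat_lit 244))) (XT.nd (nat_lit 78) (nat_lit 456) (nat_lit 0) (XT.lf (nat_lit 0) (nat_lit 2133254678) (nat_lit 380) (nat_lit 8019315532) (nat_lit 456) (nat_lit 7735336942) (nat_lit 160) (nat_lit 5) (nat_lit 165) (nat_lit 5) (nat_lit 166) (nat_lit 5) (nat_lit 488) (nat_lit 409) (nat_lit 243)) (XT.nd (nat_lit 78) (nat_lit 456) (nat_lit 0) (XT.lf (nat_lit 0) (nat_lit 12564153718) (nat_lit 380) (nat_lit 1522334875) (nat_lit 456) (nat_lit 4021882420) (nat_lit 160) (nat_lit 5) (nat_lit 165) (nat_lit 5) (nat_lit 166) (nat_lit 5) (nat_lit 489) (nat_lit 409) (nat_lit 242)) (XT.lf (nat_lit 0) (nat_lit 4887461739) (nat_lit 456) (nat_lit 13267014668) (nat_lit 532) (nat_lit 177661573) (nat_lit 154) (nat_lit 5) (nat_lit 160) (nat_lit 5) (nat_lit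 161) (nat_lit 5) (nat_lit 490) (nat_lit 409) (nat_lit 241))))) (XT.nd (nat_lit 234) (nat_lit 836) (nat_lit 0) (XT.nd (nat_lit 78) (nat_lit 380) (nat_lit 0) (XT.lf (nat_lit 0) (nat_lit 3732428903) (nat_lit 532) (nat_lit 3005299540) (nat_lit 76) (nat_lit 11821405706) (nat_lit 153) (nat_lit 5) (nat_lit 160) (nat_lit 5) (nat_lit 154) (nat_lit 5) (nat_lit 491) (nat_lit 409) (nat_lit 240)) (XT.nd (nat_lit 78) (nat_lit 0) (nat_lit 0) (XT.lf (nat_lit 0) (nat_lit 7729375941) (nat_lit 380) (nat_lit 29886602) (nat_lit 456) (nat_lit 11030567363) (nat_lit 148) (nat_lit 5) (nat_lit 153) (nat_lit 5) (nat_lit 154) (nat_lit 5) (nat_lit 492) (nat_lit 409) (nat_lit 239)) (XT.lf (nat_lit 0) (nat_lit 11921960808) (nat_lit 456) (nat_lit 363366569) (nat_lit 76) (nat_lit 6738707164) (nat_lit 148) (nat_lit 5) (nat_lit 154) (nat_lit 5) (nat_lit 149) (nat_lit 5) (nat_lit 493) (nat_lit 409) (nat_lit 238)))) (XT.nd (nat_lit 78) (nat_lit 456) (nat_lit 0)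 (XT.lf (nat_lit 0) (nat_lit 10673974782) (nat_lit 380) (nat_lit 5554417627) (nat_lit 456) (nat_lit 3033322765) (nat_lit 143) (nat_lit 5) (nat_lit 148) (nat_lit 5) (nat_lit 149) (nat_lit 5) (nat_lit 494) (nat_lit 409) (nat_lit 237)) (XT.nd (nat_lit 78) (nat_lit 0) (nat_lit 0) (XT.lf (nat_lit 0) (nat_lit 1120140678) (nat_lit 456) (nat_lit 17068308718) (nat_lit 76) (nat_lit 1315196750) (nat_lit 137) (nat_lit 5) (nat_lit 143) (nat_lit 5) (nat_lit 138) (nat_lit 5) (nat_lit 495) (nat_lit 409) (nat_lit 236)) (XT.lf (nat_lit 0) (nat_lit 5401957347) (nat_lit 456) (nat_lit 6024805787) (nat_lit 76) (nat_lit 8321535003) (nat_lit 137) (nat_lit 5) (nat_lit 143) (nat_lit 5) (nat_lit 138) (nat_lit 5) (nat_lit 496) (nat_lit 409) (nat_lit 235))))))) (XT.nd (nat_lit 52650) (nat_lit 0) (nat_lit 30020) (XT.nd (nat_lit 390) (nat_lit 1064) (nat_lit 0) (XT.nd (nat_lit 156) (nat_lit 760) (nat_lit 0) (XT.nd (nat_lit 78) (nat_lit 0) (nat_lit 0) (XT.lf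 (nat_lit 0) (nat_lit 5295713192) (nat_lit 380) (nat_lit 4499323631) (nat_lit 456) (nat_lit 10202295195) (nat_lit 132) (nat_lit 5) (nat_lit 137) (nat_lit 5) (nat_lit 138) (nat_lit 5) (nat_lit 497) (nat_lit 409) (nat_lit 234)) (XT.lf (nat_lit 0) (nat_lit 14324639259) (nat_lit 456) (nat_lit 3356525758) (nat_lit 76) (nat_lit 2569209684) (nat_lit 132) (nat_lit 5) (nat_lit 138) (nat_lit 5) (nat_lit 133) (nat_lit 5) (nat_lit 498) (nat_lit 409) (nat_lit 233))) (XT.nd (nat_lit 78) (nat_lit 456) (nat_lit 0) (XT.lf (nat_lit 0) (nat_lit 8281177616) (nat_lit 304) (nat_lit 10738689983) (nat_lit 380) (nat_lit 1487111289) (nat_lit 128) (nat_lit 5) (nat_lit 132) (nat_lit 5) (nat_lit 133) (nat_lit 5) (nat_lit 499) (nat_lit 409) (nat_lit 232)) (XT.nd (nat_lit 78) (nat_lit 380) (nat_lit 0) (XT.lf (nat_lit 0) (nat_lit 3014580302) (nat_lit 380) (nat_lit 604151669) (nat_lit 76) (nat_lit 17149306294) (nat_lit 127) (nat_lit 5) (nat_lit 132) (nat_lit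 5) (nat_lit 128) (nat_lit 5) (nat_lit 500) (nat_lit 409) (nat_lit 231)) (XT.lf (nat_lit 0) (nat_lit 7676119263) (nat_lit 456) (nat_lit 9680582604) (nat_lit 76) (nat_lit 3675627099) (nat_lit 122) (nat_lit 5) (nat_lit 128) (nat_lit 5) (nat_lit 123) (nat_lit 5) (nat_lit 501) (nat_lit 409) (nat_lit 230))))) (XT.nd (nat_lit 234) (nat_lit 304) (nat_lit 0) (XT.nd (nat_lit 78) (nat_lit 456) (nat_lit 0) (XT.lf (nat_lit 0) (nat_lit 2245661002) (nat_lit 304) (nat_lit 10219567849) (nat_lit 380) (nat_lit 8835991057) (nat_lit 118) (nat_lit 5) (nat_lit 122) (nat_lit 5) (nat_lit 123) (nat_lit 5) (nat_lit 502) (nat_lit 409) (nat_lit 229)) (XT.nd (nat_lit 78) (nat_lit 456) (nat_lit 0) (XT.lf (nat_lit 0) (nat_lit 14528810692) (nat_lit 304) (nat_lit 2878064240) (nat_lit 380) (nat_lit 4167479852) (nat_lit 118) (nat_lit 5) (nat_lit 122) (nat_lit 5) (nat_lit 123) (nat_lit 5) (nat_lit 503) (nat_lit 409) (nat_lit 228)) (XT.lf (nat_lit 0) (nat_lit 642791869)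 (nat_lit 456) (nat_lit 16625449968) (nat_lit 76) (nat_lit 4583510772) (nat_lit 112) (nat_lit 5) (nat_lit 118) (nat_lit 5) (nat_lit 113) (nat_lit 5) (nat_lit 504) (nat_lit 409) (nat_lit 227)))) (XT.nd (nat_lit 78) (nat_lit 304) (nat_lit 0) (XT.lf (nat_lit 0) (nat_lit 5552117184) (nat_lit 456) (nat_lit 4354381541) (nat_lit 76) (nat_lit 12226476840) (nat_lit 112) (nat_lit 5) (nat_lit 118) (nat_lit 5) (nat_lit 113) (nat_lit 5) (nat_lit 505) (nat_lit 409) (nat_lit 226)) (XT.nd (nat_lit 51870) (nat_lit 0) (nat_lit 32756) (XT.lf (nat_lit 0) (nat_lit 8257915324) (nat_lit 304) (nat_lit 2347433572) (nat_lit 380) (nat_lit 11813560798) (nat_lit 108) (nat_lit 5) (nat_lit 112) (nat_lit 5) (nat_lit 113) (nat_lit 5) (nat_lit 506) (nat_lit 409) (nat_lit 225)) (XT.lf (nat_lit 0) (nat_lit 2577644481) (nat_lit 1444) (nat_lit 753304287) (nat_lit 1444) (nat_lit 753304287) (nat_lit 539) (nat_lit 3) (nat_lit 558) (nat_lit 3) (nat_lit 558) (nat_lit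 5) (nat_lit 410) (nat_lit 410) (nat_lit 320)))))) (XT.nd (nat_lit 468) (nat_lit 1368) (nat_lit 0) (XT.nd (nat_lit 234) (nat_lit 0) (nat_lit 0) (XT.nd (nat_lit 78) (nat_lit 1368) (nat_lit 0) (XT.lf (nat_lit 76) (nat_lit 2478446825) (nat_lit 0) (nat_lit 3871939985) (nat_lit 1444) (nat_lit 1876559797) (nat_lit 540) (nat_lit 5) (nat_lit 539) (nat_lit 3) (nat_lit 558) (nat_lit 5) (nat_lit 411) (nat_lit 410) (nat_lit 319)) (XT.nd (nat_lit 78) (nat_lit 1368) (nat_lit 0) (XT.lf (nat_lit 76) (nat_lit 6548337918) (nat_lit 0) (nat_lit 1001486069) (nat_lit 1444) (nat_lit 737132976) (nat_lit 540) (nat_lit 5) (nat_lit 539) (nat_lit 3) (nat_lit 558) (nat_lit 5) (nat_lit 412) (nat_lit 410) (nat_lit 318)) (XT.lf (nat_lit 0) (nat_lit 418282550) (nat_lit 1444) (nat_lit 5996797094) (nat_lit 1520) (nat_lit 1933066601) (nat_lit 521) (nat_lit 5) (nat_lit 540) (nat_lit 5) (nat_lit 541) (nat_lit 5) (nat_lit 413) (nat_lit 410) (nat_lit 317)))) (XT.nd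 (nat_lit 78) (nat_lit 0) (nat_lit 0) (XT.lf (nat_lit 0) (nat_lit 1576591983) (nat_lit 1444) (nat_lit 1891192187) (nat_lit 1520) (nat_lit 4942893815) (nat_lit 521) (nat_lit 5) (nat_lit 540) (nat_lit 5) (nat_lit 541) (nat_lit 5) (nat_lit 414) (nat_lit 410) (nat_lit 316)) (XT.nd (nat_lit 78) (nat_lit 0) (nat_lit 76) (XT.lf (nat_lit 76) (nat_lit 2311190352) (nat_lit 0) (nat_lit 433716276) (nat_lit 1520) (nat_lit 5729826005) (nat_lit 522) (nat_lit 5) (nat_lit 521) (nat_lit 5) (nat_lit 541) (nat_lit 5) (nat_lit 415) (nat_lit 410) (nat_lit 315)) (XT.lf (nat_lit 0) (nat_lit 3939003345) (nat_lit 1444) (nat_lit 1950105066) (nat_lit 1520) (nat_lit 2650920526) (nat_lit 522) (nat_lit 5) (nat_lit 541) (nat_lit 5) (nat_lit 542) (nat_lit 5) (nat_lit 416) (nat_lit 410) (nat_lit 314))))) (XT.nd (nat_lit 234) (nat_lit 1444) (nat_lit 0) (XT.nd (nat_lit 78) (nat_lit 0) (nat_lit 76) (XT.lf (nat_lit 76) (nat_lit 2359809868) (nat_lit 0) (nat_lit 2788271405)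 (nat_lit 1520) (nat_lit 3458736610) (nat_lit 523) (nat_lit 5) (nat_lit 522) (nat_lit 5) (nat_lit 542) (nat_lit 5) (nat_lit 417) (nat_lit 410) (nat_lit 313)) (XT.nd (nat_lit 78) (nat_lit 0) (nat_lit 0) (XT.lf (nat_lit 0) (nat_lit 6370350927) (nat_lit 1444) (nat_lit 1911218589) (nat_lit 1520) (nat_lit 393601423) (nat_lit 523) (nat_lit 5) (nat_lit 542) (nat_lit 5) (nat_lit 543) (nat_lit 5) (nat_lit 418) (nat_lit 410) (nat_lit 312)) (XT.lf (nat_lit 76) (nat_lit 2509680979) (nat_lit 0) (nat_lit 5116071580) (nat_lit 1520) (nat_lit 1118973131) (nat_lit 524) (nat_lit 5) (nat_lit 523) (nat_lit 5) (nat_lit 543) (nat_lit 5) (nat_lit 419) (nat_lit 410) (nat_lit 311)))) (XT.nd (nat_lit 78) (nat_lit 0) (nat_lit 76) (XT.lf (nat_lit 0) (nat_lit 76469113) (nat_lit 1520) (nat_lit 1787483582) (nat_lit 1596) (nat_lit 6951973787) (nat_lit 503) (nat_lit 5) (nat_lit 523) (nat_lit 5) (nat_lit 524) (nat_lit 5) (nat_lit 420) (nat_lit 410) (nat_lit 310))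 (XT.nd (nat_lit 78) (nat_lit 0) (nat_lit 0) (XT.lf (nat_lit 0) (nat_lit 1283109805) (nat_lit 1520) (nat_lit 6136363625) (nat_lit 1596) (nat_lit 1468892362) (nat_lit 504) (nat_lit 5) (nat_lit 524) (nat_lit 5) (nat_lit 525) (nat_lit 5) (nat_lit 421) (nat_lit 410) (nat_lit 309)) (XT.lf (nat_lit 0) (nat_lit 2513417411) (nat_lit 1520) (nat_lit 1584371785) (nat_lit 1596) (nat_lit 4864481737) (nat_lit 504) (nat_lit 5) (nat_lit 524) (nat_lit 5) (nat_lit 525) (nat_lit 5) (nat_lit 422) (nat_lit 410) (nat_lit 308))))))))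
noncomputable def xc165 : XT := (XT.nd (nat_lit 1716) (nat_lit 9880) (nat_lit 0) (XT.nd (nat_lit 858) (nat_lit 7980) (nat_lit 0) (XT.nd (nat_lit 390) (nat_lit 1444) (nat_lit 0) (XT.nd (nat_lit 156) (nat_lit 0) (nat_lit 76) (XT.nd (nat_lit 78) (nat_lit 0) (nat_lit 76) (XT.lf (nat_lit 76) (nat_lit 3082974296) (nat_lit 0) (nat_lit 680977166) (nat_lit 1596) (nat_lit 5273797886) (nat_lit 505) (nat_lit 5) (nat_lit 504) (nat_lit 5) (nat_lit 525) (nat_lit 5) (nat_lit 423) (nat_lit 410) (nat_lit 307)) (XT.lf (nat_lit 0) (nat_lit 5044435083) (nat_lit 1520) (nat_lit 1284210943) (nat_lit 1596) (nat_lit 2785999958) (nat_lit 505) (nat_lit 5) (nat_lit 525) (nat_lit 5) (nat_lit 526) (nat_lit 5) (nat_lit 424) (nat_lit 410) (nat_lit 306))) (XT.nd (nat_lit 78) (nat_lit 0) (nat_lit 76) (XT.lf (nat_lit 76) (nat_lit 3504994699) (nat_lit 0) (nat_lit 2849300179) (nat_lit 1596) (nat_lit 2838717625) (nat_lit 506) (nat_lit 5) (nat_lit 505) (nat_lit 5)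 (nat_lit 526) (nat_lit 5) (nat_lit 425) (nat_lit 410) (nat_lit 305)) (XT.nd (nat_lit 78) (nat_lit 0) (nat_lit 0) (XT.lf (nat_lit 0) (nat_lit 7680470825) (nat_lit 1520) (nat_lit 886618723) (nat_lit 1596) (nat_lit 706061566) (nat_lit 506) (nat_lit 5) (nat_lit 526) (nat_lit 5) (nat_lit 527) (nat_lit 5) (nat_lit 426) (nat_lit 410) (nat_lit 304)) (XT.lf (nat_lit 76) (nat_lit 4028461577) (nat_lit 0) (nat_lit 5027088277) (nat_lit 1596) (nat_lit 298902052) (nat_lit 507) (nat_lit 5) (nat_lit 506) (nat_lit 5) (nat_lit 527) (nat_lit 5) (nat_lit 427) (nat_lit 410) (nat_lit 303))))) (XT.nd (nat_lit 234) (nat_lit 0) (nat_lit 152) (XT.nd (nat_lit 78) (nat_lit 0) (nat_lit 76) (XT.lf (nat_lit 0) (nat_lit 990892391) (nat_lit 1596) (nat_lit 406573822) (nat_lit 1672) (nat_lit 8040116122) (nat_lit 485) (nat_lit 5) (nat_lit 506) (nat_lit 5) (nat_lit 507) (nat_lit 5) (nat_lit 428) (nat_lit 410) (nat_lit 302)) (XT.nd (nat_lit 78) (nat_lit 0) (nat_lit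 0) (XT.lf (nat_lit 0) (nat_lit 2325896091) (nat_lit 1596) (nat_lit 4883287971) (nat_lit 1672) (nat_lit 2312690077) (nat_lit 486) (nat_lit 5) (nat_lit 507) (nat_lit 5) (nat_lit 508) (nat_lit 5) (nat_lit 429) (nat_lit 410) (nat_lit 301)) (XT.lf (nat_lit 76) (nat_lit 158615086) (nat_lit 0) (nat_lit 3520358903) (nat_lit 1672) (nat_lit 5929056776) (nat_lit 487) (nat_lit 5) (nat_lit 486) (nat_lit 5) (nat_lit 508) (nat_lit 5) (nat_lit 430) (nat_lit 410) (nat_lit 300)))) (XT.nd (nat_lit 78) (nat_lit 0) (nat_lit 0) (XT.lf (nat_lit 0) (nat_lit 5072365471) (nat_lit 1596) (nat_lit 4346406185) (nat_lit 1672) (nat_lit 276880165) (nat_lit 487) (nat_lit 5) (nat_lit 508) (nat_lit 5) (nat_lit 509) (nat_lit 5) (nat_lit 431) (nat_lit 410) (nat_lit 299)) (XT.nd (nat_lit 78) (nat_lit 0) (nat_lit 0) (XT.lf (nat_lit 76) (nat_lit 829650791) (nat_lit 0) (nat_lit 5671784834) (nat_lit 1672) (nat_lit 3283439672) (nat_lit 488) (nat_lit 5) (nat_lit 487) (nat_lit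 5) (nat_lit 509) (nat_lit 5) (nat_lit 432) (nat_lit 410) (nat_lit 298)) (XT.lf (nat_lit 76) (nat_lit 6151674577) (nat_lit 0) (nat_lit 1815992502) (nat_lit 1672) (nat_lit 1908050661) (nat_lit 488) (nat_lit 5) (nat_lit 487) (nat_lit 5) (nat_lit 509) (nat_lit 5) (nat_lit 433) (nat_lit 410) (nat_lit 297)))))) (XT.nd (nat_lit 390) (nat_lit 3116) (nat_lit 0) (XT.nd (nat_lit 156) (nat_lit 3420) (nat_lit 0) (XT.nd (nat_lit 78) (nat_lit 76) (nat_lit 0) (XT.lf (nat_lit 0) (nat_lit 1602449918) (nat_lit 1596) (nat_lit 7864764914) (nat_lit 1672) (nat_lit 501088340) (nat_lit 467) (nat_lit 5) (nat_lit 488) (nat_lit 5) (nat_lit 489) (nat_lit 5) (nat_lit 434) (nat_lit 410) (nat_lit 296)) (XT.lf (nat_lit 0) (nat_lit 938939694) (nat_lit 1672) (nat_lit 3011289824) (nat_lit 76) (nat_lit 6112051728) (nat_lit 466) (nat_lit 5) (nat_lit 488) (nat_lit 5) (nat_lit 467) (nat_lit 5) (nat_lit 435) (nat_lit 410) (nat_lit 295))) (XT.nd (nat_lit 78) (nat_lit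 1748) (nat_lit 0) (XT.lf (nat_lit 0) (nat_lit 2397867421) (nat_lit 1748) (nat_lit 7695645641) (nat_lit 76) (nat_lit 64629033) (nat_lit 444) (nat_lit 5) (nat_lit 467) (nat_lit 5) (nat_lit 445) (nat_lit 5) (nat_lit 436) (nat_lit 410) (nat_lit 294)) (XT.nd (nat_lit 78) (nat_lit 1748) (nat_lit 0) (XT.lf (nat_lit 0) (nat_lit 3913159918) (nat_lit 1748) (nat_lit 2211954890) (nat_lit 76) (nat_lit 4130267145) (nat_lit 444) (nat_lit 5) (nat_lit 467) (nat_lit 5) (nat_lit 445) (nat_lit 5) (nat_lit 437) (nat_lit 410) (nat_lit 293)) (XT.lf (nat_lit 0) (nat_lit 3409734963) (nat_lit 1748) (nat_lit 2052224889) (nat_lit 1824) (nat_lit 4892548137) (nat_lit 421) (nat_lit 5) (nat_lit 444) (nat_lit 5) (nat_lit 445) (nat_lit 5) (nat_lit 438) (nat_lit 410) (nat_lit 292))))) (XT.nd (nat_lit 234) (nat_lit 1824) (nat_lit 0) (XT.nd (nat_lit 78) (nat_lit 1292) (nat_lit 0) (XT.lf (nat_lit 0) (nat_lit 7051670222) (nat_lit 1824) (nat_lit 1311904466) (nat_lit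 76) (nat_lit 2091848474) (nat_lit 421) (nat_lit 5) (nat_lit 445) (nat_lit 5) (nat_lit 422) (nat_lit 5) (nat_lit 439) (nat_lit 410) (nat_lit 291)) (XT.nd (nat_lit 78) (nat_lit 0) (nat_lit 0) (XT.lf (nat_lit 0) (nat_lit 4462199836) (nat_lit 1292) (nat_lit 4235247591) (nat_lit 1368) (nat_lit 1860428960) (nat_lit 404) (nat_lit 5) (nat_lit 421) (nat_lit 5) (nat_lit 422) (nat_lit 5) (nat_lit 440) (nat_lit 410) (nat_lit 290)) (XT.lf (nat_lit 0) (nat_lit 10353323732) (nat_lit 1292) (nat_lit 13583334) (nat_lit 1368) (nat_lit 295661371) (nat_lit 404) (nat_lit 5) (nat_lit 421) (nat_lit 5) (nat_lit 422) (nat_lit 5) (nat_lit 441) (nat_lit 410) (nat_lit 289)))) (XT.nd (nat_lit 78) (nat_lit 836) (nat_lit 0) (XT.lf (nat_lit 0) (nat_lit 1330354084) (nat_lit 988) (nat_lit 5154688935) (nat_lit 76) (nat_lit 4283207198) (nat_lit 391) (nat_lit 5) (nat_lit 404) (nat_lit 5) (nat_lit 392) (nat_lit 5) (nat_lit 442) (nat_lit 410) (nat_lit 288)) (XT.nd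 (nat_lit 78) (nat_lit 0) (nat_lit 0) (XT.lf (nat_lit 0) (nat_lit 774681477) (nat_lit 836) (nat_lit 2199911305) (nat_lit 912) (nat_lit 7901625334) (nat_lit 380) (nat_lit 5) (nat_lit 391) (nat_lit 5) (nat_lit 392) (nat_lit 5) (nat_lit 443) (nat_lit 410) (nat_lit 287)) (XT.lf (nat_lit 0) (nat_lit 4683325188) (nat_lit 912) (nat_lit 4124142608) (nat_lit 76) (nat_lit 2178250107) (nat_lit 380) (nat_lit 5) (nat_lit 392) (nat_lit 5) (nat_lit 381) (nat_lit 5) (nat_lit 444) (nat_lit 410) (nat_lit 286))))))) (XT.nd (nat_lit 858) (nat_lit 4864) (nat_lit 0) (XT.nd (nat_lit 390) (nat_lit 2356) (nat_lit 0) (XT.nd (nat_lit 156) (nat_lit 1748) (nat_lit 0) (XT.nd (nat_lit 78) (nat_lit 0) (nat_lit 0) (XT.lf (nat_lit 0) (nat_lit 1967686560) (nat_lit 912) (nat_lit 4468923598) (nat_lit 988) (nat_lit 4660594589) (nat_lit 368) (nat_lit 5) (nat_lit 380) (nat_lit 5) (nat_lit 381) (nat_lit 5) (nat_lit 445) (nat_lit 410) (nat_lit 285)) (XT.lf (nat_lit 0)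 (nat_lit 8221013363) (nat_lit 912) (nat_lit 14883291) (nat_lit 988) (nat_lit 2974810484) (nat_lit 368) (nat_lit 5) (nat_lit 380) (nat_lit 5) (nat_lit 381) (nat_lit 5) (nat_lit 446) (nat_lit 410) (nat_lit 284))) (XT.nd (nat_lit 78) (nat_lit 912) (nat_lit 0) (XT.lf (nat_lit 0) (nat_lit 3270155350) (nat_lit 836) (nat_lit 6835237913) (nat_lit 912) (nat_lit 1220406266) (nat_lit 357) (nat_lit 5) (nat_lit 368) (nat_lit 5) (nat_lit 369) (nat_lit 5) (nat_lit 447) (nat_lit 410) (nat_lit 283)) (XT.nd (nat_lit 78) (nat_lit 836) (nat_lit 0) (XT.lf (nat_lit 0) (nat_lit 565613586) (nat_lit 912) (nat_lit 1767365356) (nat_lit 76) (nat_lit 9110065370) (nat_lit 356) (nat_lit 5) (nat_lit 368) (nat_lit 5) (nat_lit 357) (nat_lit 5) (nat_lit 448) (nat_lit 410) (nat_lit 282)) (XT.lf (nat_lit 0) (nat_lit 2400379881) (nat_lit 912) (nat_lit 6893136423) (nat_lit 76) (nat_lit 2268373187) (nat_lit 345) (nat_lit 5) (nat_lit 357) (nat_lit 5) (nat_lit 346)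 (nat_lit 5) (nat_lit 449) (nat_lit 410) (nat_lit 281))))) (XT.nd (nat_lit 234) (nat_lit 836) (nat_lit 0) (XT.nd (nat_lit 78) (nat_lit 1520) (nat_lit 0) (XT.lf (nat_lit 0) (nat_lit 4283455935) (nat_lit 912) (nat_lit 457117972) (nat_lit 76) (nat_lit 6942309478) (nat_lit 345) (nat_lit 5) (nat_lit 357) (nat_lit 5) (nat_lit 346) (nat_lit 5) (nat_lit 450) (nat_lit 410) (nat_lit 280)) (XT.nd (nat_lit 78) (nat_lit 760) (nat_lit 0) (XT.lf (nat_lit 0) (nat_lit 6172629095) (nat_lit 760) (nat_lit 56176264) (nat_lit 836) (nat_lit 5577003582) (nat_lit 335) (nat_lit 5) (nat_lit 345) (nat_lit 5) (nat_lit 346) (nat_lit 5) (nat_lit 451) (nat_lit 410) (nat_lit 279)) (XT.lf (nat_lit 0) (nat_lit 976010812) (nat_lit 760) (nat_lit 7261865129) (nat_lit 836) (nat_lit 3692824726) (nat_lit 325) (nat_lit 5) (nat_lit 335) (nat_lit 5) (nat_lit 336) (nat_lit 5) (nat_lit 452) (nat_lit 410) (nat_lit 278)))) (XT.nd (nat_lit 78) (nat_lit 836) (nat_lit 0) (XT.lf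 (nat_lit 0) (nat_lit 7777326320) (nat_lit 760) (nat_lit 2532899701) (nat_lit 836) (nat_lit 1747406108) (nat_lit 325) (nat_lit 5) (nat_lit 335) (nat_lit 5) (nat_lit 336) (nat_lit 5) (nat_lit 453) (nat_lit 410) (nat_lit 277)) (XT.nd (nat_lit 78) (nat_lit 0) (nat_lit 0) (XT.lf (nat_lit 0) (nat_lit 250433411) (nat_lit 836) (nat_lit 9658570180) (nat_lit 76) (nat_lit 2277739184) (nat_lit 314) (nat_lit 5) (nat_lit 325) (nat_lit 5) (nat_lit 315) (nat_lit 5) (nat_lit 454) (nat_lit 410) (nat_lit 276)) (XT.lf (nat_lit 0) (nat_lit 2295843825) (nat_lit 836) (nat_lit 2831669987) (nat_lit 76) (nat_lit 7190074217) (nat_lit 314) (nat_lit 5) (nat_lit 325) (nat_lit 5) (nat_lit 315) (nat_lit 5) (nat_lit 455) (nat_lit 410) (nat_lit 275)))))) (XT.nd (nat_lit 468) (nat_lit 1976) (nat_lit 0) (XT.nd (nat_lit 234) (nat_lit 1444) (nat_lit 0) (XT.nd (nat_lit 78) (nat_lit 684) (nat_lit 0) (XT.lf (nat_lit 0) (nat_lit 4170669801) (nat_lit 760) (nat_lit 224162094)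 (nat_lit 836) (nat_lit 8055968477) (nat_lit 304) (nat_lit 5) (nat_lit 314) (nat_lit 5) (nat_lit 315) (nat_lit 5) (nat_lit 456) (nat_lit 410) (nat_lit 274)) (XT.nd (nat_lit 78) (nat_lit 684) (nat_lit 0) (XT.lf (nat_lit 0) (nat_lit 6571706506) (nat_lit 836) (nat_lit 1281971586) (nat_lit 76) (nat_lit 4732284233) (nat_lit 304) (nat_lit 5) (nat_lit 315) (nat_lit 5) (nat_lit 305) (nat_lit 5) (nat_lit 457) (nat_lit 410) (nat_lit 273)) (XT.lf (nat_lit 0) (nat_lit 5916604448) (nat_lit 684) (nat_lit 2901454202) (nat_lit 760) (nat_lit 3905253497) (nat_lit 295) (nat_lit 5) (nat_lit 304) (nat_lit 5) (nat_lit 305) (nat_lit 5) (nat_lit 458) (nat_lit 410) (nat_lit 272)))) (XT.nd (nat_lit 78) (nat_lit 760) (nat_lit 0) (XT.lf (nat_lit 0) (nat_lit 388549938) (nat_lit 684) (nat_lit 10732130539) (nat_lit 760) (nat_lit 1742505001) (nat_lit 286) (nat_lit 5) (nat_lit 295) (nat_lit 5) (nat_lit 296) (nat_lit 5) (nat_lit 459) (nat_lit 410) (nat_lit 271))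 (XT.nd (nat_lit 78) (nat_lit 684) (nat_lit 0) (XT.lf (nat_lit 0) (nat_lit 508890801) (nat_lit 760) (nat_lit 5223395087) (nat_lit 76) (nat_lit 7272484009) (nat_lit 285) (nat_lit 5) (nat_lit 295) (nat_lit 5) (nat_lit 286) (nat_lit 5) (nat_lit 460) (nat_lit 410) (nat_lit 270)) (XT.lf (nat_lit 0) (nat_lit 2174252961) (nat_lit 684) (nat_lit 608414183) (nat_lit 760) (nat_lit 10366277977) (nat_lit 276) (nat_lit 5) (nat_lit 285) (nat_lit 5) (nat_lit 286) (nat_lit 5) (nat_lit 461) (nat_lit 410) (nat_lit 269))))) (XT.nd (nat_lit 234) (nat_lit 1292) (nat_lit 0) (XT.nd (nat_lit 78) (nat_lit 684) (nat_lit 0) (XT.lf (nat_lit 0) (nat_lit 5153880776) (nat_lit 760) (nat_lit 3550604386) (nat_lit 76) (nat_lit 4590482561) (nat_lit 276) (nat_lit 5) (nat_lit 286) (nat_lit 5) (nat_lit 277) (nat_lit 5) (nat_lit 462) (nat_lit 410) (nat_lit 268)) (XT.nd (nat_lit 78) (nat_lit 0) (nat_lit 0) (XT.lf (nat_lit 0) (nat_lit 4055690541) (nat_lit 684) (nat_lit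 3534145685) (nat_lit 760) (nat_lit 5853731246) (nat_lit 267) (nat_lit 5) (nat_lit 276) (nat_lit 5) (nat_lit 277) (nat_lit 5) (nat_lit 463) (nat_lit 410) (nat_lit 267)) (XT.lf (nat_lit 0) (nat_lit 10096886034) (nat_lit 760) (nat_lit 1759454154) (nat_lit 76) (nat_lit 1738354511) (nat_lit 267) (nat_lit 5) (nat_lit 277) (nat_lit 5) (nat_lit 268) (nat_lit 5) (nat_lit 464) (nat_lit 410) (nat_lit 266)))) (XT.nd (nat_lit 78) (nat_lit 684) (nat_lit 0) (XT.lf (nat_lit 0) (nat_lit 6062366881) (nat_lit 608) (nat_lit 6641825203) (nat_lit 684) (nat_lit 1043653009) (nat_lit 259) (nat_lit 5) (nat_lit 267) (nat_lit 5) (nat_lit 268) (nat_lit 5) (nat_lit 465) (nat_lit 410) (nat_lit 265)) (XT.nd (nat_lit 78) (nat_lit 0) (nat_lit 0) (XT.lf (nat_lit 0) (nat_lit 137557251) (nat_lit 608) (nat_lit 1303077259) (nat_lit 684) (nat_lit 12463233440) (nat_lit 250) (nat_lit 5) (nat_lit 258) (nat_lit 5) (nat_lit 259) (nat_lit 5) (nat_lit 466) (nat_lit 410)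 (nat_lit 264)) (XT.lf (nat_lit 0) (nat_lit 4026999925) (nat_lit 684) (nat_lit 5890372620) (nat_lit 76) (nat_lit 4144176174) (nat_lit 250) (nat_lit 5) (nat_lit 259) (nat_lit 5) (nat_lit 251) (nat_lit 5) (nat_lit 467) (nat_lit 410) (nat_lit 263))))))))
noncomputable def xc166 : XT := (XT.nd (nat_lit 1716) (nat_lit 3648) (nat_lit 0) (XT.nd (nat_lit 858) (nat_lit 3344) (nat_lit 0) (XT.nd (nat_lit 390) (nat_lit 1672) (nat_lit 0) (XT.nd (nat_lit 156) (nat_lit 1216) (nat_lit 0) (XT.nd (nat_lit 78) (nat_lit 0) (nat_lit 0) (XT.lf (nat_lit 0) (nat_lit 2147445892) (nat_lit 608) (nat_lit 4528006243) (nat_lit 684) (nat_lit 7546726485) (nat_lit 242) (nat_lit 5) (nat_lit 250) (nat_lit 5) (nat_lit 251) (nat_lit 5) (nat_lit 468) (nat_lit 410) (nat_lit 262)) (XT.lf (nat_lit 0) (nat_lit 9410864316) (nat_lit 684) (nat_lit 3981215944) (nat_lit 76) (nat_lit 993263692) (nat_lit 242) (nat_lit 5) (nat_lit 251) (nat_lit 5) (nat_lit 243) (nat_lit 5) (nat_lit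 469) (nat_lit 410) (nat_lit 261))) (XT.nd (nat_lit 78) (nat_lit 608) (nat_lit 0) (XT.lf (nat_lit 0) (nat_lit 4285390415) (nat_lit 608) (nat_lit 7961551099) (nat_lit 684) (nat_lit 2303914543) (nat_lit 234) (nat_lit 5) (nat_lit 242) (nat_lit 5) (nat_lit 243) (nat_lit 5) (nat_lit 470) (nat_lit 410) (nat_lit 260)) (XT.nd (nat_lit 78) (nat_lit 532) (nat_lit 0) (XT.lf (nat_lit 0) (nat_lit 429647598) (nat_lit 684) (nat_lit 1965811249) (nat_lit 76) (nat_lit 12323865611) (nat_lit 233) (nat_lit 5) (nat_lit 242) (nat_lit 5) (nat_lit 234) (nat_lit 5) (nat_lit 471) (nat_lit 410) (nat_lit 259)) (XT.lf (nat_lit 0) (nat_lit 3239729073) (nat_lit 608) (nat_lit 8356114402) (nat_lit 76) (nat_lit 3293962676) (nat_lit 226) (nat_lit 5) (nat_lit 234) (nat_lit 5) (nat_lit 227) (nat_lit 5) (nat_lit 472) (nat_lit 410) (nat_lit 258))))) (XT.nd (nat_lit 234) (nat_lit 608) (nat_lit 0) (XT.nd (nat_lit 78) (nat_lit 532) (nat_lit 0) (XT.lf (nat_lit 0) (nat_lit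 137372595) (nat_lit 532) (nat_lit 5987218339) (nat_lit 608) (nat_lit 8938737370) (nat_lit 219) (nat_lit 5) (nat_lit 226) (nat_lit 5) (nat_lit 227) (nat_lit 5) (nat_lit 473) (nat_lit 410) (nat_lit 257)) (XT.nd (nat_lit 78) (nat_lit 532) (nat_lit 0) (XT.lf (nat_lit 0) (nat_lit 8899220536) (nat_lit 532) (nat_lit 212675990) (nat_lit 608) (nat_lit 6127531800) (nat_lit 219) (nat_lit 5) (nat_lit 226) (nat_lit 5) (nat_lit 227) (nat_lit 5) (nat_lit 474) (nat_lit 410) (nat_lit 256)) (XT.lf (nat_lit 0) (nat_lit 2397142056) (nat_lit 532) (nat_lit 9803103888) (nat_lit 608) (nat_lit 3217980759) (nat_lit 212) (nat_lit 5) (nat_lit 219) (nat_lit 5) (nat_lit 220) (nat_lit 5) (nat_lit 475) (nat_lit 410) (nat_lit 255)))) (XT.nd (nat_lit 78) (nat_lit 608) (nat_lit 0) (XT.lf (nat_lit 0) (nat_lit 11379160758) (nat_lit 532) (nat_lit 4004143045) (nat_lit 608) (nat_lit 216640681) (nat_lit 212) (nat_lit 5) (nat_lit 219) (nat_lit 5) (nat_lit 220) (nat_lit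 5) (nat_lit 476) (nat_lit 410) (nat_lit 254)) (XT.nd (nat_lit 78) (nat_lit 0) (nat_lit 0) (XT.lf (nat_lit 0) (nat_lit 2840336006) (nat_lit 608) (nat_lit 11011876458) (nat_lit 76) (nat_lit 1932058556) (nat_lit 204) (nat_lit 5) (nat_lit 212) (nat_lit 5) (nat_lit 205) (nat_lit 5) (nat_lit 477) (nat_lit 410) (nat_lit 253)) (XT.lf (nat_lit 0) (nat_lit 5999817400) (nat_lit 608) (nat_lit 2011760060) (nat_lit 76) (nat_lit 7959794802) (nat_lit 204) (nat_lit 5) (nat_lit 212) (nat_lit 5) (nat_lit 205) (nat_lit 5) (nat_lit 478) (nat_lit 410) (nat_lit 252)))))) (XT.nd (nat_lit 390) (nat_lit 1824) (nat_lit 0) (XT.nd (nat_lit 156) (nat_lit 532) (nat_lit 0) (XT.nd (nat_lit 78) (nat_lit 532) (nat_lit 0) (XT.lf (nat_lit 0) (nat_lit 7249165209) (nat_lit 456) (nat_lit 2009835211) (nat_lit 532) (nat_lit 6902486960) (nat_lit 198) (nat_lit 5) (nat_lit 204) (nat_lit 5) (nat_lit 205) (nat_lit 5) (nat_lit 479) (nat_lit 410) (nat_lit 251)) (XT.lf (nat_lit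 0) (nat_lit 330633284) (nat_lit 532) (nat_lit 12284703621) (nat_lit 608) (nat_lit 3739430549) (nat_lit 191) (nat_lit 5) (nat_lit 198) (nat_lit 5) (nat_lit 199) (nat_lit 5) (nat_lit 480) (nat_lit 410) (nat_lit 250))) (XT.nd (nat_lit 78) (nat_lit 532) (nat_lit 0) (XT.lf (nat_lit 0) (nat_lit 9851503853) (nat_lit 532) (nat_lit 6249974075) (nat_lit 608) (nat_lit 449183657) (nat_lit 191) (nat_lit 5) (nat_lit 198) (nat_lit 5) (nat_lit 199) (nat_lit 5) (nat_lit 481) (nat_lit 410) (nat_lit 249)) (XT.nd (nat_lit 78) (nat_lit 0) (nat_lit 0) (XT.lf (nat_lit 0) (nat_lit 2816256823) (nat_lit 456) (nat_lit 60554905) (nat_lit 532) (nat_lit 13873124982) (nat_lit 184) (nat_lit 5) (nat_lit 190) (nat_lit 5) (nat_lit 191) (nat_lit 5) (nat_lit 482) (nat_lit 410) (nat_lit 248)) (XT.lf (nat_lit 0) (nat_lit 6339033454) (nat_lit 532) (nat_lit 4397588012) (nat_lit 76) (nat_lit 6215003965) (nat_lit 184) (nat_lit 5) (nat_lit 191) (nat_lit 5) (nat_lit 185)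 (nat_lit 5) (nat_lit 483) (nat_lit 410) (nat_lit 247))))) (XT.nd (nat_lit 234) (nat_lit 912) (nat_lit 0) (XT.nd (nat_lit 78) (nat_lit 456) (nat_lit 0) (XT.lf (nat_lit 0) (nat_lit 5385525956) (nat_lit 456) (nat_lit 4510406207) (nat_lit 532) (nat_lit 7260908968) (nat_lit 178) (nat_lit 5) (nat_lit 184) (nat_lit 5) (nat_lit 185) (nat_lit 5) (nat_lit 484) (nat_lit 410) (nat_lit 246)) (XT.nd (nat_lit 78) (nat_lit 456) (nat_lit 0) (XT.lf (nat_lit 0) (nat_lit 13555767110) (nat_lit 532) (nat_lit 1967813973) (nat_lit 76) (nat_lit 1841945919) (nat_lit 178) (nat_lit 5) (nat_lit 185) (nat_lit 5) (nat_lit 179) (nat_lit 5) (nat_lit 485) (nat_lit 410) (nat_lit 245)) (XT.lf (nat_lit 0) (nat_lit 8094308463) (nat_lit 456) (nat_lit 9267251441) (nat_lit 532) (nat_lit 215373249) (nat_lit 172) (nat_lit 5) (nat_lit 178) (nat_lit 5) (nat_lit 179) (nat_lit 5) (nat_lit 486) (nat_lit 410) (nat_lit 244)))) (XT.nd (nat_lit 78) (nat_lit 380) (nat_lit 0) (XT.lf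 (nat_lit 0) (nat_lit 563161088) (nat_lit 456) (nat_lit 2849802885) (nat_lit 532) (nat_lit 14379010618) (nat_lit 165) (nat_lit 5) (nat_lit 171) (nat_lit 5) (nat_lit 172) (nat_lit 5) (nat_lit 487) (nat_lit 410) (nat_lit 243)) (XT.nd (nat_lit 78) (nat_lit 380) (nat_lit 0) (XT.lf (nat_lit 0) (nat_lit 7189484464) (nat_lit 532) (nat_lit 7111337437) (nat_lit 76) (nat_lit 3708898159) (nat_lit 165) (nat_lit 5) (nat_lit 172) (nat_lit 5) (nat_lit 166) (nat_lit 5) (nat_lit 488) (nat_lit 410) (nat_lit 242)) (XT.lf (nat_lit 0) (nat_lit 3218243984) (nat_lit 380) (nat_lit 7853692563) (nat_lit 456) (nat_lit 7159277517) (nat_lit 160) (nat_lit 5) (nat_lit 165) (nat_lit 5) (nat_lit 166) (nat_lit 5) (nat_lit 489) (nat_lit 410) (nat_lit 241))))))) (XT.nd (nat_lit 858) (nat_lit 1216) (nat_lit 0) (XT.nd (nat_lit 390) (nat_lit 1140) (nat_lit 0) (XT.nd (nat_lit 156) (nat_lit 760) (nat_lit 0) (XT.nd (nat_lit 78) (nat_lit 532) (nat_lit 0) (XT.lf (nat_lit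 0) (nat_lit 13837323276) (nat_lit 380) (nat_lit 1233164632) (nat_lit 456) (nat_lit 3385882652) (nat_lit 160) (nat_lit 5) (nat_lit 165) (nat_lit 5) (nat_lit 166) (nat_lit 5) (nat_lit 490) (nat_lit 410) (nat_lit 240)) (XT.lf (nat_lit 0) (nat_lit 523100744) (nat_lit 532) (nat_lit 12675770379) (nat_lit 76) (nat_lit 5485776644) (nat_lit 153) (nat_lit 5) (nat_lit 160) (nat_lit 5) (nat_lit 154) (nat_lit 5) (nat_lit 491) (nat_lit 410) (nat_lit 239))) (XT.nd (nat_lit 78) (nat_lit 760) (nat_lit 0) (XT.lf (nat_lit 0) (nat_lit 4495252858) (nat_lit 532) (nat_lit 2049108648) (nat_lit 76) (nat_lit 12372076401) (nat_lit 153) (nat_lit 5) (nat_lit 160) (nat_lit 5) (nat_lit 154) (nat_lit 5) (nat_lit 492) (nat_lit 410) (nat_lit 238)) (XT.nd (nat_lit 78) (nat_lit 380) (nat_lit 0) (XT.lf (nat_lit 0) (nat_lit 8597618696) (nat_lit 456) (nat_lit 10260248531) (nat_lit 76) (nat_lit 293982704) (nat_lit 148) (nat_lit 5) (nat_lit 154) (nat_lit 5) (nat_lit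 149) (nat_lit 5) (nat_lit 493) (nat_lit 410) (nat_lit 237)) (XT.lf (nat_lit 0) (nat_lit 638938628) (nat_lit 380) (nat_lit 12195579246) (nat_lit 456) (nat_lit 6556404065) (nat_lit 143) (nat_lit 5) (nat_lit 148) (nat_lit 5) (nat_lit 149) (nat_lit 5) (nat_lit 494) (nat_lit 410) (nat_lit 236))))) (XT.nd (nat_lit 234) (nat_lit 684) (nat_lit 0) (XT.nd (nat_lit 78) (nat_lit 456) (nat_lit 0) (XT.lf (nat_lit 0) (nat_lit 11882060218) (nat_lit 380) (nat_lit 5334190464) (nat_lit 456) (nat_lit 2417324228) (nat_lit 143) (nat_lit 5) (nat_lit 148) (nat_lit 5) (nat_lit 149) (nat_lit 5) (nat_lit 495) (nat_lit 410) (nat_lit 235)) (XT.nd (nat_lit 78) (nat_lit 0) (nat_lit 0) (XT.lf (nat_lit 0) (nat_lit 1805893391) (nat_lit 456) (nat_lit 16401542694) (nat_lit 76) (nat_lit 1672911449) (nat_lit 137) (nat_lit 5) (nat_lit 143) (nat_lit 5) (nat_lit 138) (nat_lit 5) (nat_lit 496) (nat_lit 410) (nat_lit 234)) (XT.lf (nat_lit 0) (nat_lit 6160339532) (nat_lit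 456) (nat_lit 5156937002) (nat_lit 76) (nat_lit 8812878217) (nat_lit 137) (nat_lit 5) (nat_lit 143) (nat_lit 5) (nat_lit 138) (nat_lit 5) (nat_lit 497) (nat_lit 410) (nat_lit 233)))) (XT.nd (nat_lit 78) (nat_lit 304) (nat_lit 0) (XT.lf (nat_lit 0) (nat_lit 6383489956) (nat_lit 380) (nat_lit 4251413720) (nat_lit 456) (nat_lit 9749395182) (nat_lit 132) (nat_lit 5) (nat_lit 137) (nat_lit 5) (nat_lit 138) (nat_lit 5) (nat_lit 498) (nat_lit 410) (nat_lit 232)) (XT.nd (nat_lit 78) (nat_lit 304) (nat_lit 0) (XT.lf (nat_lit 0) (nat_lit 15244622204) (nat_lit 456) (nat_lit 2450471516) (nat_lit 76) (nat_lit 2947520164) (nat_lit 132) (nat_lit 5) (nat_lit 138) (nat_lit 5) (nat_lit 133) (nat_lit 5) (nat_lit 499) (nat_lit 410) (nat_lit 231)) (XT.lf (nat_lit 0) (nat_lit 9413583395) (nat_lit 304) (nat_lit 10614027333) (nat_lit 380) (nat_lit 876864246) (nat_lit 128) (nat_lit 5) (nat_lit 132) (nat_lit 5) (nat_lit 133) (nat_lit 5) (nat_lit 500)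 (nat_lit 410) (nat_lit 230)))))) (XT.nd (nat_lit 52338) (nat_lit 0) (nat_lit 31008) (XT.nd (nat_lit 234) (nat_lit 456) (nat_lit 0) (XT.nd (nat_lit 78) (nat_lit 304) (nat_lit 0) (XT.lf (nat_lit 0) (nat_lit 344430091) (nat_lit 380) (nat_lit 3351889550) (nat_lit 456) (nat_lit 17474557609) (nat_lit 122) (nat_lit 5) (nat_lit 127) (nat_lit 5) (nat_lit 128) (nat_lit 5) (nat_lit 501) (nat_lit 410) (nat_lit 229)) (XT.nd (nat_lit 78) (nat_lit 304) (nat_lit 0) (XT.lf (nat_lit 0) (nat_lit 8445064374) (nat_lit 456) (nat_lit 8914166978) (nat_lit 76) (nat_lit 4081344732) (nat_lit 122) (nat_lit 5) (nat_lit 128) (nat_lit 5) (nat_lit 123) (nat_lit 5) (nat_lit 502) (nat_lit 410) (nat_lit 228)) (XT.lf (nat_lit 0) (nat_lit 3244285531) (nat_lit 304) (nat_lit 10079795637) (nat_lit 380) (nat_lit 8390882962) (nat_lit 118) (nat_lit 5) (nat_lit 122) (nat_lit 5) (nat_lit 123) (nat_lit 5) (nat_lit 503) (nat_lit 410) (nat_lit 227)))) (XT.nd (nat_lit 78)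 (nat_lit 456) (nat_lit 0) (XT.lf (nat_lit 0) (nat_lit 15754397993) (nat_lit 304) (nat_lit 2598210261) (nat_lit 380) (nat_lit 3641194237) (nat_lit 118) (nat_lit 5) (nat_lit 122) (nat_lit 5) (nat_lit 123) (nat_lit 5) (nat_lit 504) (nat_lit 410) (nat_lit 226)) (XT.nd (nat_lit 78) (nat_lit 0) (nat_lit 0) (XT.lf (nat_lit 0) (nat_lit 1253787233) (nat_lit 456) (nat_lit 16011282363) (nat_lit 76) (nat_lit 5011671198) (nat_lit 112) (nat_lit 5) (nat_lit 118) (nat_lit 5) (nat_lit 113) (nat_lit 5) (nat_lit 505) (nat_lit 410) (nat_lit 225)) (XT.lf (nat_lit 0) (nat_lit 6249570829) (nat_lit 456) (nat_lit 3513354854) (nat_lit 76) (nat_lit 12800898740) (nat_lit 112) (nat_lit 5) (nat_lit 118) (nat_lit 5) (nat_lit 113) (nat_lit 5) (nat_lit 506) (nat_lit 410) (nat_lit 224))))) (XT.nd (nat_lit 234) (nat_lit 0) (nat_lit 76) (XT.nd (nat_lit 78) (nat_lit 1444) (nat_lit 0) (XT.lf (nat_lit 0) (nat_lit 3749330433) (nat_lit 1444) (nat_lit 196916890) (nat_lit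 1444) (nat_lit 196916890) (nat_lit 539) (nat_lit 3) (nat_lit 558) (nat_lit 3) (nat_lit 558) (nat_lit 5) (nat_lit 411) (nat_lit 411) (nat_lit 318)) (XT.nd (nat_lit 78) (nat_lit 0) (nat_lit 0) (XT.lf (nat_lit 0) (nat_lit 330036177) (nat_lit 1444) (nat_lit 4685451078) (nat_lit 1520) (nat_lit 3331152710) (nat_lit 520) (nat_lit 5) (nat_lit 539) (nat_lit 3) (nat_lit 540) (nat_lit 5) (nat_lit 412) (nat_lit 411) (nat_lit 317)) (XT.lf (nat_lit 0) (nat_lit 1433498605) (nat_lit 1444) (nat_lit 625773328) (nat_lit 1520) (nat_lit 6349311876) (nat_lit 520) (nat_lit 5) (nat_lit 539) (nat_lit 3) (nat_lit 540) (nat_lit 5) (nat_lit 413) (nat_lit 411) (nat_lit 316)))) (XT.nd (nat_lit 78) (nat_lit 0) (nat_lit 0) (XT.lf (nat_lit 0) (nat_lit 2560349746) (nat_lit 1444) (nat_lit 4931498959) (nat_lit 1520) (nat_lit 979900492) (nat_lit 521) (nat_lit 5) (nat_lit 540) (nat_lit 5) (nat_lit 541) (nat_lit 5) (nat_lit 414) (nat_lit 411) (nat_lit 315)) (XT.nd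 (nat_lit 78) (nat_lit 0) (nat_lit 0) (XT.lf (nat_lit 0) (nat_lit 3699988083) (nat_lit 1444) (nat_lit 767021837) (nat_lit 1520) (nat_lit 4069371847) (nat_lit 521) (nat_lit 5) (nat_lit 540) (nat_lit 5) (nat_lit 541) (nat_lit 5) (nat_lit 415) (nat_lit 411) (nat_lit 314)) (XT.lf (nat_lit 76) (nat_lit 3511763654) (nat_lit 0) (nat_lit 1346383223) (nat_lit 1520) (nat_lit 3744254260) (nat_lit 522) (nat_lit 5) (nat_lit 521) (nat_lit 5) (nat_lit 541) (nat_lit 5) (nat_lit 416) (nat_lit 411) (nat_lit 313))))))))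
noncomputable def xc167 : XT := (XT.nd (nat_lit 1716) (nat_lit 12084) (nat_lit 0) (XT.nd (nat_lit 858) (nat_lit 3116) (nat_lit 0) (XT.nd (nat_lit 390) (nat_lit 1368) (nat_lit 0) (XT.nd (nat_lit 156) (nat_lit 1444) (nat_lit 0) (XT.nd (nat_lit 78) (nat_lit 0) (nat_lit 0) (XT.lf (nat_lit 0) (nat_lit 6030011644) (nat_lit 1444) (nat_lit 810631713) (nat_lit 1520) (nat_lit 1829295215) (nat_lit 522) (nat_lit 5) (nat_lit 541) (nat_lit 5) (nat_lit 542) (nat_lit 5) (nat_lit 417) (nat_lit 411) (nat_lit 312)) (XT.lf (nat_lit 76) (nat_lit 3577728392) (nat_lit 0) (nat_lit 3653688390) (nat_lit 1520) (nat_lit 1507296277) (nat_lit 523) (nat_lit 5) (nat_lit 522) (nat_lit 5) (nat_lit 542) (nat_lit 5) (nat_lit 418) (nat_lit 411) (nat_lit 311))) (XT.nd (nat_lit 78) (nat_lit 1444) (nat_lit 0) (XT.lf (nat_lit 76) (nat_lit 8049692482) (nat_lit 0) (nat_lit 386967213) (nat_lit 1520) (nat_lit 372615349) (nat_lit 523) (nat_lit 5) (nat_lit 522) (nat_lit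 5) (nat_lit 542) (nat_lit 5) (nat_lit 419) (nat_lit 411) (nat_lit 310)) (XT.nd (nat_lit 78) (nat_lit 0) (nat_lit 0) (XT.lf (nat_lit 0) (nat_lit 792952442) (nat_lit 1520) (nat_lit 5141702780) (nat_lit 1596) (nat_lit 2946129316) (nat_lit 503) (nat_lit 5) (nat_lit 523) (nat_lit 5) (nat_lit 524) (nat_lit 5) (nat_lit 420) (nat_lit 411) (nat_lit 309)) (XT.lf (nat_lit 0) (nat_lit 1959700448) (nat_lit 1520) (nat_lit 636338736) (nat_lit 1596) (nat_lit 6357986343) (nat_lit 503) (nat_lit 5) (nat_lit 523) (nat_lit 5) (nat_lit 524) (nat_lit 5) (nat_lit 421) (nat_lit 411) (nat_lit 308))))) (XT.nd (nat_lit 234) (nat_lit 1444) (nat_lit 0) (XT.nd (nat_lit 78) (nat_lit 0) (nat_lit 0) (XT.lf (nat_lit 0) (nat_lit 3156861246) (nat_lit 1520) (nat_lit 5038009707) (nat_lit 1596) (nat_lit 833726403) (nat_lit 504) (nat_lit 5) (nat_lit 524) (nat_lit 5) (nat_lit 525) (nat_lit 5) (nat_lit 422) (nat_lit 411) (nat_lit 307)) (XT.nd (nat_lit 78) (nat_lit 0)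 (nat_lit 0) (XT.lf (nat_lit 0) (nat_lit 4375537961) (nat_lit 1520) (nat_lit 418920799) (nat_lit 1596) (nat_lit 4310257836) (nat_lit 504) (nat_lit 5) (nat_lit 524) (nat_lit 5) (nat_lit 525) (nat_lit 5) (nat_lit 423) (nat_lit 411) (nat_lit 306)) (XT.lf (nat_lit 76) (nat_lit 4333896293) (nat_lit 0) (nat_lit 1289381368) (nat_lit 1596) (nat_lit 3558994054) (nat_lit 505) (nat_lit 5) (nat_lit 504) (nat_lit 5) (nat_lit 525) (nat_lit 5) (nat_lit 424) (nat_lit 411) (nat_lit 305)))) (XT.nd (nat_lit 78) (nat_lit 1520) (nat_lit 0) (XT.lf (nat_lit 0) (nat_lit 6890603620) (nat_lit 1520) (nat_lit 104643330) (nat_lit 1596) (nat_lit 2266245496) (nat_lit 505) (nat_lit 5) (nat_lit 525) (nat_lit 5) (nat_lit 526) (nat_lit 5) (nat_lit 425) (nat_lit 411) (nat_lit 304)) (XT.nd (nat_lit 78) (nat_lit 1520) (nat_lit 0) (XT.lf (nat_lit 76) (nat_lit 4772417137) (nat_lit 0) (nat_lit 3427796114) (nat_lit 1596) (nat_lit 1141752598) (nat_lit 506) (nat_lit 5)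 (nat_lit 505) (nat_lit 5) (nat_lit 526) (nat_lit 5) (nat_lit 426) (nat_lit 411) (nat_lit 303)) (XT.lf (nat_lit 0) (nat_lit 92266650) (nat_lit 1596) (nat_lit 9113907752) (nat_lit 1672) (nat_lit 218231131) (nat_lit 485) (nat_lit 5) (nat_lit 506) (nat_lit 5) (nat_lit 507) (nat_lit 5) (nat_lit 427) (nat_lit 411) (nat_lit 302)))))) (XT.nd (nat_lit 390) (nat_lit 3116) (nat_lit 0) (XT.nd (nat_lit 156) (nat_lit 0) (nat_lit 76) (XT.nd (nat_lit 78) (nat_lit 0) (nat_lit 0) (XT.lf (nat_lit 0) (nat_lit 1367239612) (nat_lit 1596) (nat_lit 4204444502) (nat_lit 1672) (nat_lit 3936034326) (nat_lit 485) (nat_lit 5) (nat_lit 506) (nat_lit 5) (nat_lit 507) (nat_lit 5) (nat_lit 428) (nat_lit 411) (nat_lit 301)) (XT.lf (nat_lit 76) (nat_lit 797803281) (nat_lit 0) (nat_lit 1853499716) (nat_lit 1672) (nat_lit 6941729254) (nat_lit 486) (nat_lit 5) (nat_lit 485) (nat_lit 5) (nat_lit 507) (nat_lit 5) (nat_lit 429) (nat_lit 411) (nat_lit 300))) (XT.nd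 (nat_lit 78) (nat_lit 0) (nat_lit 0) (XT.lf (nat_lit 0) (nat_lit 3980805920) (nat_lit 1596) (nat_lit 3751407231) (nat_lit 1672) (nat_lit 1947450364) (nat_lit 486) (nat_lit 5) (nat_lit 507) (nat_lit 5) (nat_lit 508) (nat_lit 5) (nat_lit 430) (nat_lit 411) (nat_lit 299)) (XT.nd (nat_lit 78) (nat_lit 0) (nat_lit 0) (XT.lf (nat_lit 76) (nat_lit 1383244765) (nat_lit 0) (nat_lit 3954094026) (nat_lit 1672) (nat_lit 4430686030) (nat_lit 487) (nat_lit 5) (nat_lit 486) (nat_lit 5) (nat_lit 508) (nat_lit 5) (nat_lit 431) (nat_lit 411) (nat_lit 298)) (XT.lf (nat_lit 76) (nat_lit 6655632954) (nat_lit 0) (nat_lit 70032915) (nat_lit 1672) (nat_lit 3132400308) (nat_lit 487) (nat_lit 5) (nat_lit 486) (nat_lit 5) (nat_lit 508) (nat_lit 5) (nat_lit 432) (nat_lit 411) (nat_lit 297))))) (XT.nd (nat_lit 234) (nat_lit 1672) (nat_lit 0) (XT.nd (nat_lit 78) (nat_lit 1596) (nat_lit 0) (XT.lf (nat_lit 76) (nat_lit 2069498568) (nat_lit 0) (nat_lit 6090886764)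 (nat_lit 1672) (nat_lit 1789156484) (nat_lit 488) (nat_lit 5) (nat_lit 487) (nat_lit 5) (nat_lit 509) (nat_lit 5) (nat_lit 433) (nat_lit 411) (nat_lit 296)) (XT.nd (nat_lit 78) (nat_lit 1596) (nat_lit 0) (XT.lf (nat_lit 76) (nat_lit 7473977442) (nat_lit 0) (nat_lit 2151985130) (nat_lit 1672) (nat_lit 416846986) (nat_lit 488) (nat_lit 5) (nat_lit 487) (nat_lit 5) (nat_lit 509) (nat_lit 5) (nat_lit 434) (nat_lit 411) (nat_lit 295)) (XT.lf (nat_lit 0) (nat_lit 981382189) (nat_lit 1672) (nat_lit 7286145329) (nat_lit 76) (nat_lit 1870065842) (nat_lit 466) (nat_lit 5) (nat_lit 488) (nat_lit 5) (nat_lit 467) (nat_lit 5) (nat_lit 435) (nat_lit 411) (nat_lit 294)))) (XT.nd (nat_lit 78) (nat_lit 1672) (nat_lit 0) (XT.lf (nat_lit 0) (nat_lit 2414374366) (nat_lit 1672) (nat_lit 1852195498) (nat_lit 76) (nat_lit 5967405787) (nat_lit 466) (nat_lit 5) (nat_lit 488) (nat_lit 5) (nat_lit 467) (nat_lit 5) (nat_lit 436) (nat_lit 411) (nat_lit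 293)) (XT.nd (nat_lit 78) (nat_lit 0) (nat_lit 0) (XT.lf (nat_lit 0) (nat_lit 3723487032) (nat_lit 1672) (nat_lit 157862592) (nat_lit 1748) (nat_lit 6450834910) (nat_lit 444) (nat_lit 5) (nat_lit 466) (nat_lit 5) (nat_lit 467) (nat_lit 5) (nat_lit 437) (nat_lit 411) (nat_lit 292)) (XT.lf (nat_lit 0) (nat_lit 5397795574) (nat_lit 1748) (nat_lit 1038658694) (nat_lit 76) (nat_lit 3995506007) (nat_lit 444) (nat_lit 5) (nat_lit 467) (nat_lit 5) (nat_lit 445) (nat_lit 5) (nat_lit 438) (nat_lit 411) (nat_lit 291))))))) (XT.nd (nat_lit 858) (nat_lit 5396) (nat_lit 0) (XT.nd (nat_lit 390) (nat_lit 2660) (nat_lit 0) (XT.nd (nat_lit 156) (nat_lit 2280) (nat_lit 0) (XT.nd (nat_lit 78) (nat_lit 0) (nat_lit 0) (XT.lf (nat_lit 0) (nat_lit 4687454855) (nat_lit 1748) (nat_lit 2270393761) (nat_lit 1824) (nat_lit 3575622553) (nat_lit 421) (nat_lit 5) (nat_lit 444) (nat_lit 5) (nat_lit 445) (nat_lit 5) (nat_lit 439) (nat_lit 411) (nat_lit 290))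 (XT.lf (nat_lit 0) (nat_lit 8551036526) (nat_lit 1824) (nat_lit 123630613) (nat_lit 76) (nat_lit 1962311565) (nat_lit 421) (nat_lit 5) (nat_lit 445) (nat_lit 5) (nat_lit 422) (nat_lit 5) (nat_lit 440) (nat_lit 411) (nat_lit 289))) (XT.nd (nat_lit 78) (nat_lit 988) (nat_lit 0) (XT.lf (nat_lit 0) (nat_lit 5757965564) (nat_lit 1292) (nat_lit 4452963272) (nat_lit 1368) (nat_lit 530935740) (nat_lit 404) (nat_lit 5) (nat_lit 421) (nat_lit 5) (nat_lit 422) (nat_lit 5) (nat_lit 441) (nat_lit 411) (nat_lit 288)) (XT.nd (nat_lit 78) (nat_lit 0) (nat_lit 0) (XT.lf (nat_lit 0) (nat_lit 899122075) (nat_lit 912) (nat_lit 131426873) (nat_lit 988) (nat_lit 9818382666) (nat_lit 391) (nat_lit 5) (nat_lit 403) (nat_lit 5) (nat_lit 404) (nat_lit 5) (nat_lit 442) (nat_lit 411) (nat_lit 287)) (XT.lf (nat_lit 0) (nat_lit 2660386584) (nat_lit 988) (nat_lit 4037719133) (nat_lit 76) (nat_lit 4259084149) (nat_lit 391) (nat_lit 5) (nat_lit 404) (nat_lit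 5) (nat_lit 392) (nat_lit 5) (nat_lit 443) (nat_lit 411) (nat_lit 286))))) (XT.nd (nat_lit 234) (nat_lit 912) (nat_lit 0) (XT.nd (nat_lit 78) (nat_lit 912) (nat_lit 0) (XT.lf (nat_lit 0) (nat_lit 2002211953) (nat_lit 836) (nat_lit 2317610088) (nat_lit 912) (nat_lit 6747855838) (nat_lit 380) (nat_lit 5) (nat_lit 391) (nat_lit 5) (nat_lit 392) (nat_lit 5) (nat_lit 444) (nat_lit 411) (nat_lit 285)) (XT.nd (nat_lit 78) (nat_lit 912) (nat_lit 0) (XT.lf (nat_lit 0) (nat_lit 6037049428) (nat_lit 912) (nat_lit 2992331384) (nat_lit 76) (nat_lit 2150507304) (nat_lit 380) (nat_lit 5) (nat_lit 392) (nat_lit 5) (nat_lit 381) (nat_lit 5) (nat_lit 445) (nat_lit 411) (nat_lit 284)) (XT.lf (nat_lit 0) (nat_lit 3213345590) (nat_lit 912) (nat_lit 4595179627) (nat_lit 988) (nat_lit 3485423703) (nat_lit 368) (nat_lit 5) (nat_lit 380) (nat_lit 5) (nat_lit 381) (nat_lit 5) (nat_lit 446) (nat_lit 411) (nat_lit 283)))) (XT.nd (nat_lit 78) (nat_lit 912)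 (nat_lit 0) (XT.lf (nat_lit 0) (nat_lit 9568085884) (nat_lit 912) (nat_lit 51335424) (nat_lit 988) (nat_lit 1790794167) (nat_lit 368) (nat_lit 5) (nat_lit 380) (nat_lit 5) (nat_lit 381) (nat_lit 5) (nat_lit 447) (nat_lit 411) (nat_lit 282)) (XT.nd (nat_lit 78) (nat_lit 76) (nat_lit 0) (XT.lf (nat_lit 0) (nat_lit 4535206566) (nat_lit 836) (nat_lit 6974761888) (nat_lit 912) (nat_lit 17974512) (nat_lit 357) (nat_lit 5) (nat_lit 368) (nat_lit 5) (nat_lit 369) (nat_lit 5) (nat_lit 448) (nat_lit 411) (nat_lit 281)) (XT.lf (nat_lit 0) (nat_lit 1763935322) (nat_lit 912) (nat_lit 610501679) (nat_lit 76) (nat_lit 9273417352) (nat_lit 356) (nat_lit 5) (nat_lit 368) (nat_lit 5) (nat_lit 357) (nat_lit 5) (nat_lit 449) (nat_lit 411) (nat_lit 280)))))) (XT.nd (nat_lit 468) (nat_lit 2204) (nat_lit 0) (XT.nd (nat_lit 234) (nat_lit 1596) (nat_lit 0) (XT.nd (nat_lit 78) (nat_lit 760) (nat_lit 0) (XT.lf (nat_lit 0) (nat_lit 3619895982) (nat_lit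 912) (nat_lit 5822982640) (nat_lit 76) (nat_lit 2326513924) (nat_lit 345) (nat_lit 5) (nat_lit 357) (nat_lit 5) (nat_lit 346) (nat_lit 5) (nat_lit 450) (nat_lit 411) (nat_lit 279)) (XT.nd (nat_lit 78) (nat_lit 0) (nat_lit 0) (XT.lf (nat_lit 0) (nat_lit 727612347) (nat_lit 760) (nat_lit 4794774597) (nat_lit 836) (nat_lit 6370790279) (nat_lit 335) (nat_lit 5) (nat_lit 345) (nat_lit 5) (nat_lit 346) (nat_lit 5) (nat_lit 451) (nat_lit 411) (nat_lit 278)) (XT.lf (nat_lit 0) (nat_lit 7472619946) (nat_lit 760) (nat_lit 14417787) (nat_lit 836) (nat_lit 4531921523) (nat_lit 335) (nat_lit 5) (nat_lit 345) (nat_lit 5) (nat_lit 346) (nat_lit 5) (nat_lit 452) (nat_lit 411) (nat_lit 277)))) (XT.nd (nat_lit 78) (nat_lit 836) (nat_lit 0) (XT.lf (nat_lit 0) (nat_lit 2186867101) (nat_lit 760) (nat_lit 7335201975) (nat_lit 836) (nat_lit 2624569893) (nat_lit 325) (nat_lit 5) (nat_lit 335) (nat_lit 5) (nat_lit 336) (nat_lit 5) (nat_lit 453) (nat_lit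 411) (nat_lit 276)) (XT.nd (nat_lit 78) (nat_lit 836) (nat_lit 0) (XT.lf (nat_lit 0) (nat_lit 9100849388) (nat_lit 760) (nat_lit 2513067052) (nat_lit 836) (nat_lit 662637243) (nat_lit 325) (nat_lit 5) (nat_lit 335) (nat_lit 5) (nat_lit 336) (nat_lit 5) (nat_lit 454) (nat_lit 411) (nat_lit 275)) (XT.lf (nat_lit 0) (nat_lit 1346982804) (nat_lit 836) (nat_lit 8655042481) (nat_lit 76) (nat_lit 2406351086) (nat_lit 314) (nat_lit 5) (nat_lit 325) (nat_lit 5) (nat_lit 315) (nat_lit 5) (nat_lit 455) (nat_lit 411) (nat_lit 274))))) (XT.nd (nat_lit 234) (nat_lit 1444) (nat_lit 0) (XT.nd (nat_lit 78) (nat_lit 760) (nat_lit 0) (XT.lf (nat_lit 0) (nat_lit 3411898667) (nat_lit 836) (nat_lit 1715068972) (nat_lit 76) (nat_lit 7415304249) (nat_lit 314) (nat_lit 5) (nat_lit 325) (nat_lit 5) (nat_lit 315) (nat_lit 5) (nat_lit 456) (nat_lit 411) (nat_lit 273)) (XT.nd (nat_lit 78) (nat_lit 0) (nat_lit 0) (XT.lf (nat_lit 0) (nat_lit 5419598964) (nat_lit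 760) (nat_lit 119851738) (nat_lit 836) (nat_lit 7138971290) (nat_lit 304) (nat_lit 5) (nat_lit 314) (nat_lit 5) (nat_lit 315) (nat_lit 5) (nat_lit 457) (nat_lit 411) (nat_lit 272)) (XT.lf (nat_lit 0) (nat_lit 7739835274) (nat_lit 836) (nat_lit 144666121) (nat_lit 76) (nat_lit 4932191437) (nat_lit 304) (nat_lit 5) (nat_lit 315) (nat_lit 5) (nat_lit 305) (nat_lit 5) (nat_lit 458) (nat_lit 411) (nat_lit 271)))) (XT.nd (nat_lit 78) (nat_lit 760) (nat_lit 0) (XT.lf (nat_lit 0) (nat_lit 7190230480) (nat_lit 684) (nat_lit 2828057569) (nat_lit 760) (nat_lit 2938763127) (nat_lit 295) (nat_lit 5) (nat_lit 304) (nat_lit 5) (nat_lit 305) (nat_lit 5) (nat_lit 459) (nat_lit 411) (nat_lit 270)) (XT.nd (nat_lit 78) (nat_lit 76) (nat_lit 0) (XT.lf (nat_lit 0) (nat_lit 1563757424) (nat_lit 684) (nat_lit 10791545385) (nat_lit 760) (nat_lit 744657254) (nat_lit 286) (nat_lit 5) (nat_lit 295) (nat_lit 5) (nat_lit 296) (nat_lit 5) (nat_lit 460) (nat_lit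 411) (nat_lit 269)) (XT.lf (nat_lit 0) (nat_lit 1518239038) (nat_lit 760) (nat_lit 4169803526) (nat_lit 76) (nat_lit 7556603884) (nat_lit 285) (nat_lit 5) (nat_lit 295) (nat_lit 5) (nat_lit 286) (nat_lit 5) (nat_lit 461) (nat_lit 411) (nat_lit 268))))))))
noncomputable def xc168 : XT := (XT.nd (nat_lit 1716) (nat_lit 5472) (nat_lit 0) (XT.nd (nat_lit 858) (nat_lit 3724) (nat_lit 0) (XT.nd (nat_lit 390) (nat_lit 1976) (nat_lit 0) (XT.nd (nat_lit 156) (nat_lit 1292) (nat_lit 0) (XT.nd (nat_lit 78) (nat_lit 0) (nat_lit 0) (XT.lf (nat_lit 0) (nat_lit 3368178671) (nat_lit 684) (nat_lit 457190083) (nat_lit 760) (nat_lit 9566583482) (nat_lit 276) (nat_lit 5) (nat_lit 285) (nat_lit 5) (nat_lit 286) (nat_lit 5) (nat_lit 462) (nat_lit 411) (nat_lit 267)) (XT.lf (nat_lit 0) (nat_lit 6225692822) (nat_lit 760) (nat_lit 2475193349) (nat_lit 76) (nat_lit 4840379921) (nat_lit 276) (nat_lit 5) (nat_lit 286) (nat_lit 5) (nat_lit 277) (nat_lit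 5) (nat_lit 463) (nat_lit 411) (nat_lit 266))) (XT.nd (nat_lit 78) (nat_lit 608) (nat_lit 0) (XT.lf (nat_lit 0) (nat_lit 5275685218) (nat_lit 684) (nat_lit 3423081740) (nat_lit 760) (nat_lit 4994307324) (nat_lit 267) (nat_lit 5) (nat_lit 276) (nat_lit 5) (nat_lit 277) (nat_lit 5) (nat_lit 464) (nat_lit 411) (nat_lit 265)) (XT.nd (nat_lit 78) (nat_lit 608) (nat_lit 0) (XT.lf (nat_lit 0) (nat_lit 11238347312) (nat_lit 760) (nat_lit 660265408) (nat_lit 76) (nat_lit 1948967892) (nat_lit 267) (nat_lit 5) (nat_lit 277) (nat_lit 5) (nat_lit 268) (nat_lit 5) (nat_lit 465) (nat_lit 411) (nat_lit 264)) (XT.lf (nat_lit 0) (nat_lit 7310529036) (nat_lit 608) (nat_lit 6576165096) (nat_lit 684) (nat_lit 117326255) (nat_lit 259) (nat_lit 5) (nat_lit 267) (nat_lit 5) (nat_lit 268) (nat_lit 5) (nat_lit 466) (nat_lit 411) (nat_lit 263))))) (XT.nd (nat_lit 234) (nat_lit 684) (nat_lit 0) (XT.nd (nat_lit 78) (nat_lit 608) (nat_lit 0) (XT.lf (nat_lit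 0) (nat_lit 1272357955) (nat_lit 608) (nat_lit 1120887417) (nat_lit 684) (nat_lit 11770019010) (nat_lit 250) (nat_lit 5) (nat_lit 258) (nat_lit 5) (nat_lit 259) (nat_lit 5) (nat_lit 467) (nat_lit 411) (nat_lit 262)) (XT.nd (nat_lit 78) (nat_lit 608) (nat_lit 0) (XT.lf (nat_lit 0) (nat_lit 5014550000) (nat_lit 684) (nat_lit 4881338524) (nat_lit 76) (nat_lit 4428550024) (nat_lit 250) (nat_lit 5) (nat_lit 259) (nat_lit 5) (nat_lit 251) (nat_lit 5) (nat_lit 468) (nat_lit 411) (nat_lit 261)) (XT.lf (nat_lit 0) (nat_lit 3309822927) (nat_lit 608) (nat_lit 4395631885) (nat_lit 684) (nat_lit 6783040503) (nat_lit 242) (nat_lit 5) (nat_lit 250) (nat_lit 5) (nat_lit 251) (nat_lit 5) (nat_lit 469) (nat_lit 411) (nat_lit 260)))) (XT.nd (nat_lit 78) (nat_lit 684) (nat_lit 0) (XT.lf (nat_lit 0) (nat_lit 10479415988) (nat_lit 684) (nat_lit 2947009325) (nat_lit 76) (nat_lit 1228825688) (nat_lit 242) (nat_lit 5) (nat_lit 251) (nat_lit 5) (nat_lit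 243) (nat_lit 5) (nat_lit 470) (nat_lit 411) (nat_lit 259)) (XT.nd (nat_lit 78) (nat_lit 76) (nat_lit 0) (XT.lf (nat_lit 0) (nat_lit 5477601326) (nat_lit 608) (nat_lit 7884536098) (nat_lit 684) (nat_lit 1462141258) (nat_lit 234) (nat_lit 5) (nat_lit 242) (nat_lit 5) (nat_lit 243) (nat_lit 5) (nat_lit 471) (nat_lit 411) (nat_lit 258)) (XT.lf (nat_lit 0) (nat_lit 1297267259) (nat_lit 684) (nat_lit 908722496) (nat_lit 76) (nat_lit 12790358657) (nat_lit 233) (nat_lit 5) (nat_lit 242) (nat_lit 5) (nat_lit 234) (nat_lit 5) (nat_lit 472) (nat_lit 411) (nat_lit 257)))))) (XT.nd (nat_lit 390) (nat_lit 2052) (nat_lit 0) (XT.nd (nat_lit 156) (nat_lit 608) (nat_lit 0) (XT.nd (nat_lit 78) (nat_lit 532) (nat_lit 0) (XT.lf (nat_lit 0) (nat_lit 4155336288) (nat_lit 608) (nat_lit 7418439203) (nat_lit 76) (nat_lit 3596632097) (nat_lit 226) (nat_lit 5) (nat_lit 234) (nat_lit 5) (nat_lit 227) (nat_lit 5) (nat_lit 473) (nat_lit 411) (nat_lit 256))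 (XT.lf (nat_lit 0) (nat_lit 1237649129) (nat_lit 532) (nat_lit 5850689543) (nat_lit 608) (nat_lit 8259256145) (nat_lit 219) (nat_lit 5) (nat_lit 226) (nat_lit 5) (nat_lit 227) (nat_lit 5) (nat_lit 474) (nat_lit 411) (nat_lit 255))) (XT.nd (nat_lit 78) (nat_lit 608) (nat_lit 0) (XT.lf (nat_lit 0) (nat_lit 10119117982) (nat_lit 608) (nat_lit 5374559143) (nat_lit 76) (nat_lit 33868593) (nat_lit 219) (nat_lit 5) (nat_lit 227) (nat_lit 5) (nat_lit 220) (nat_lit 5) (nat_lit 475) (nat_lit 411) (nat_lit 254)) (XT.nd (nat_lit 78) (nat_lit 76) (nat_lit 0) (XT.lf (nat_lit 0) (nat_lit 3528951327) (nat_lit 532) (nat_lit 9732524927) (nat_lit 608) (nat_lit 2448602335) (nat_lit 212) (nat_lit 5) (nat_lit 219) (nat_lit 5) (nat_lit 220) (nat_lit 5) (nat_lit 476) (nat_lit 411) (nat_lit 253)) (XT.lf (nat_lit 0) (nat_lit 588594627) (nat_lit 608) (nat_lit 3230268716) (nat_lit 76) (nat_lit 12076813712) (nat_lit 211) (nat_lit 5) (nat_lit 219) (nat_lit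 5) (nat_lit 212) (nat_lit 5) (nat_lit 477) (nat_lit 411) (nat_lit 252))))) (XT.nd (nat_lit 234) (nat_lit 1064) (nat_lit 0) (XT.nd (nat_lit 78) (nat_lit 456) (nat_lit 0) (XT.lf (nat_lit 0) (nat_lit 3696663973) (nat_lit 608) (nat_lit 10151310796) (nat_lit 76) (nat_lit 2235832804) (nat_lit 204) (nat_lit 5) (nat_lit 212) (nat_lit 5) (nat_lit 205) (nat_lit 5) (nat_lit 478) (nat_lit 411) (nat_lit 251)) (XT.nd (nat_lit 78) (nat_lit 456) (nat_lit 0) (XT.lf (nat_lit 0) (nat_lit 6903658108) (nat_lit 608) (nat_lit 992384289) (nat_lit 76) (nat_lit 8378925087) (nat_lit 204) (nat_lit 5) (nat_lit 212) (nat_lit 5) (nat_lit 205) (nat_lit 5) (nat_lit 479) (nat_lit 411) (nat_lit 250)) (XT.lf (nat_lit 0) (nat_lit 8446788360) (nat_lit 456) (nat_lit 1772701366) (nat_lit 532) (nat_lit 6249568924) (nat_lit 198) (nat_lit 5) (nat_lit 204) (nat_lit 5) (nat_lit 205) (nat_lit 5) (nat_lit 480) (nat_lit 411) (nat_lit 249)))) (XT.nd (nat_lit 78) (nat_lit 532)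 (nat_lit 0) (XT.lf (nat_lit 0) (nat_lit 1396727228) (nat_lit 532) (nat_lit 12239667733) (nat_lit 608) (nat_lit 3029943511) (nat_lit 191) (nat_lit 5) (nat_lit 198) (nat_lit 5) (nat_lit 199) (nat_lit 5) (nat_lit 481) (nat_lit 411) (nat_lit 248)) (XT.nd (nat_lit 78) (nat_lit 456) (nat_lit 0) (XT.lf (nat_lit 0) (nat_lit 306655080) (nat_lit 608) (nat_lit 5781231286) (nat_lit 76) (nat_lit 10778528168) (nat_lit 190) (nat_lit 5) (nat_lit 198) (nat_lit 5) (nat_lit 191) (nat_lit 5) (nat_lit 482) (nat_lit 411) (nat_lit 247)) (XT.lf (nat_lit 0) (nat_lit 3686538813) (nat_lit 532) (nat_lit 13156655303) (nat_lit 76) (nat_lit 226556818) (nat_lit 184) (nat_lit 5) (nat_lit 191) (nat_lit 5) (nat_lit 185) (nat_lit 5) (nat_lit 483) (nat_lit 411) (nat_lit 246))))))) (XT.nd (nat_lit 858) (nat_lit 2736) (nat_lit 0) (XT.nd (nat_lit 390) (nat_lit 1292) (nat_lit 0) (XT.nd (nat_lit 156) (nat_lit 988) (nat_lit 0) (XT.nd (nat_lit 78) (nat_lit 456) (nat_lit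 0) (XT.lf (nat_lit 0) (nat_lit 7203649295) (nat_lit 532) (nat_lit 3450934717) (nat_lit 76) (nat_lit 6621179289) (nat_lit 184) (nat_lit 5) (nat_lit 191) (nat_lit 5) (nat_lit 185) (nat_lit 5) (nat_lit 484) (nat_lit 411) (nat_lit 245)) (XT.lf (nat_lit 0) (nat_lit 6521034918) (nat_lit 456) (nat_lit 4302856854) (nat_lit 532) (nat_lit 6661350133) (nat_lit 178) (nat_lit 5) (nat_lit 184) (nat_lit 5) (nat_lit 185) (nat_lit 5) (nat_lit 485) (nat_lit 411) (nat_lit 244))) (XT.nd (nat_lit 78) (nat_lit 988) (nat_lit 0) (XT.lf (nat_lit 0) (nat_lit 14544504221) (nat_lit 532) (nat_lit 986972945) (nat_lit 76) (nat_lit 2166875362) (nat_lit 178) (nat_lit 5) (nat_lit 185) (nat_lit 5) (nat_lit 179) (nat_lit 5) (nat_lit 486) (nat_lit 411) (nat_lit 243)) (XT.nd (nat_lit 78) (nat_lit 456) (nat_lit 0) (XT.lf (nat_lit 0) (nat_lit 498162539) (nat_lit 532) (nat_lit 8647736488) (nat_lit 76) (nat_lit 8768174643) (nat_lit 171) (nat_lit 5) (nat_lit 178) (nat_lit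 5) (nat_lit 172) (nat_lit 5) (nat_lit 487) (nat_lit 411) (nat_lit 242)) (XT.lf (nat_lit 0) (nat_lit 1590807678) (nat_lit 456) (nat_lit 2597957847) (nat_lit 532) (nat_lit 13944772781) (nat_lit 165) (nat_lit 5) (nat_lit 171) (nat_lit 5) (nat_lit 172) (nat_lit 5) (nat_lit 488) (nat_lit 411) (nat_lit 241))))) (XT.nd (nat_lit 234) (nat_lit 912) (nat_lit 0) (XT.nd (nat_lit 78) (nat_lit 380) (nat_lit 0) (XT.lf (nat_lit 0) (nat_lit 8028908931) (nat_lit 532) (nat_lit 6245079928) (nat_lit 76) (nat_lit 4081890425) (nat_lit 165) (nat_lit 5) (nat_lit 172) (nat_lit 5) (nat_lit 166) (nat_lit 5) (nat_lit 489) (nat_lit 411) (nat_lit 240)) (XT.nd (nat_lit 78) (nat_lit 0) (nat_lit 0) (XT.lf (nat_lit 0) (nat_lit 4284458357) (nat_lit 380) (nat_lit 7697416473) (nat_lit 456) (nat_lit 6600073444) (nat_lit 160) (nat_lit 5) (nat_lit 165) (nat_lit 5) (nat_lit 166) (nat_lit 5) (nat_lit 490) (nat_lit 411) (nat_lit 239)) (XT.lf (nat_lit 0) (nat_lit 15096275127)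 (nat_lit 380) (nat_lit 950622100) (nat_lit 456) (nat_lit 2764983028) (nat_lit 160) (nat_lit 5) (nat_lit 165) (nat_lit 5) (nat_lit 166) (nat_lit 5) (nat_lit 491) (nat_lit 411) (nat_lit 238)))) (XT.nd (nat_lit 78) (nat_lit 380) (nat_lit 0) (XT.lf (nat_lit 0) (nat_lit 1208244501) (nat_lit 532) (nat_lit 11932916293) (nat_lit 76) (nat_lit 5903573138) (nat_lit 153) (nat_lit 5) (nat_lit 160) (nat_lit 5) (nat_lit 154) (nat_lit 5) (nat_lit 492) (nat_lit 411) (nat_lit 237)) (XT.nd (nat_lit 78) (nat_lit 380) (nat_lit 0) (XT.lf (nat_lit 0) (nat_lit 5246610604) (nat_lit 532) (nat_lit 1113257985) (nat_lit 76) (nat_lit 12921558087) (nat_lit 153) (nat_lit 5) (nat_lit 160) (nat_lit 5) (nat_lit 154) (nat_lit 5) (nat_lit 493) (nat_lit 411) (nat_lit 236)) (XT.lf (nat_lit 0) (nat_lit 9426403851) (nat_lit 456) (nat_lit 9483891998) (nat_lit 76) (nat_lit 611345664) (nat_lit 148) (nat_lit 5) (nat_lit 154) (nat_lit 5) (nat_lit 149) (nat_lit 5) (nat_lit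 494) (nat_lit 411) (nat_lit 235)))))) (XT.nd (nat_lit 468) (nat_lit 1520) (nat_lit 0) (XT.nd (nat_lit 234) (nat_lit 380) (nat_lit 0) (XT.nd (nat_lit 78) (nat_lit 456) (nat_lit 0) (XT.lf (nat_lit 0) (nat_lit 1626821263) (nat_lit 380) (nat_lit 12114671698) (nat_lit 456) (nat_lit 6024135095) (nat_lit 143) (nat_lit 5) (nat_lit 148) (nat_lit 5) (nat_lit 149) (nat_lit 5) (nat_lit 495) (nat_lit 411) (nat_lit 234)) (XT.nd (nat_lit 78) (nat_lit 456) (nat_lit 0) (XT.lf (nat_lit 0) (nat_lit 13075685601) (nat_lit 380) (nat_lit 5122424142) (nat_lit 456) (nat_lit 1815281447) (nat_lit 143) (nat_lit 5) (nat_lit 148) (nat_lit 5) (nat_lit 149) (nat_lit 5) (nat_lit 496) (nat_lit 411) (nat_lit 233)) (XT.lf (nat_lit 0) (nat_lit 2479602473) (nat_lit 456) (nat_lit 15760588352) (nat_lit 76) (nat_lit 2024911358) (nat_lit 137) (nat_lit 5) (nat_lit 143) (nat_lit 5) (nat_lit 138) (nat_lit 5) (nat_lit 497) (nat_lit 411) (nat_lit 232)))) (XT.nd (nat_lit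 78) (nat_lit 380) (nat_lit 0) (XT.lf (nat_lit 0) (nat_lit 6908635748) (nat_lit 456) (nat_lit 4310090256) (nat_lit 76) (nat_lit 9301431546) (nat_lit 137) (nat_lit 5) (nat_lit 143) (nat_lit 5) (nat_lit 138) (nat_lit 5) (nat_lit 498) (nat_lit 411) (nat_lit 231)) (XT.nd (nat_lit 78) (nat_lit 0) (nat_lit 0) (XT.lf (nat_lit 0) (nat_lit 7454895337) (nat_lit 380) (nat_lit 4011666540) (nat_lit 456) (nat_lit 9312947179) (nat_lit 132) (nat_lit 5) (nat_lit 137) (nat_lit 5) (nat_lit 138) (nat_lit 5) (nat_lit 499) (nat_lit 411) (nat_lit 230)) (XT.lf (nat_lit 0) (nat_lit 16158405614) (nat_lit 456) (nat_lit 1564086139) (nat_lit 76) (nat_lit 3320701907) (nat_lit 132) (nat_lit 5) (nat_lit 138) (nat_lit 5) (nat_lit 133) (nat_lit 5) (nat_lit 500) (nat_lit 411) (nat_lit 229))))) (XT.nd (nat_lit 234) (nat_lit 760) (nat_lit 0) (XT.nd (nat_lit 78) (nat_lit 456) (nat_lit 0) (XT.lf (nat_lit 0) (nat_lit 10531095957) (nat_lit 304) (nat_lit 10500052161)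 (nat_lit 380) (nat_lit 279263826) (nat_lit 128) (nat_lit 5) (nat_lit 132) (nat_lit 5) (nat_lit 133) (nat_lit 5) (nat_lit 501) (nat_lit 411) (nat_lit 228)) (XT.nd (nat_lit 78) (nat_lit 0) (nat_lit 0) (XT.lf (nat_lit 0) (nat_lit 1282551132) (nat_lit 380) (nat_lit 3088907809) (nat_lit 456) (nat_lit 17210722374) (nat_lit 122) (nat_lit 5) (nat_lit 127) (nat_lit 5) (nat_lit 128) (nat_lit 5) (nat_lit 502) (nat_lit 411) (nat_lit 227)) (XT.lf (nat_lit 0) (nat_lit 9205490772) (nat_lit 456) (nat_lit 8169702069) (nat_lit 76) (nat_lit 4482276790) (nat_lit 122) (nat_lit 5) (nat_lit 128) (nat_lit 5) (nat_lit 123) (nat_lit 5) (nat_lit 503) (nat_lit 411) (nat_lit 226)))) (XT.nd (nat_lit 78) (nat_lit 456) (nat_lit 0) (XT.lf (nat_lit 0) (nat_lit 4225848778) (nat_lit 304) (nat_lit 9950592271) (nat_lit 380) (nat_lit 7961019041) (nat_lit 118) (nat_lit 5) (nat_lit 122) (nat_lit 5) (nat_lit 123) (nat_lit 5) (nat_lit 504) (nat_lit 411) (nat_lit 225))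 (XT.nd (nat_lit 78) (nat_lit 456) (nat_lit 0) (XT.lf (nat_lit 0) (nat_lit 16968189420) (nat_lit 304) (nat_lit 2325861448) (nat_lit 380) (nat_lit 3128055789) (nat_lit 118) (nat_lit 5) (nat_lit 122) (nat_lit 5) (nat_lit 123) (nat_lit 5) (nat_lit 505) (nat_lit 411) (nat_lit 224)) (XT.lf (nat_lit 0) (nat_lit 1853776018) (nat_lit 456) (nat_lit 15421592012) (nat_lit 76) (nat_lit 5435328509) (nat_lit 112) (nat_lit 5) (nat_lit 118) (nat_lit 5) (nat_lit 113) (nat_lit 5) (nat_lit 506) (nat_lit 411) (nat_lit 223))))))))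
noncomputable def xc169 : XT := (XT.nd (nat_lit 1716) (nat_lit 12920) (nat_lit 0) (XT.nd (nat_lit 858) (nat_lit 1368) (nat_lit 0) (XT.nd (nat_lit 390) (nat_lit 1368) (nat_lit 0) (XT.nd (nat_lit 156) (nat_lit 0) (nat_lit 0) (XT.nd (nat_lit 78) (nat_lit 0) (nat_lit 0) (XT.lf (nat_lit 0) (nat_lit 346115862) (nat_lit 0) (nat_lit 346115862) (nat_lit 1444) (nat_lit 3511724633) (nat_lit 520) (nat_lit 5) (nat_lit 520) (nat_lit 3) (nat_lit 539) (nat_lit 3) (nat_lit 412) (nat_lit 412) (nat_lit 316)) (XT.lf (nat_lit 0) (nat_lit 2469493035) (nat_lit 1444) (nat_lit 3658830273) (nat_lit 1520) (nat_lit 2341906390) (nat_lit 520) (nat_lit 5) (nat_lit 539) (nat_lit 3) (nat_lit 540) (nat_lit 5) (nat_lit 413) (nat_lit 412) (nat_lit 315))) (XT.nd (nat_lit 78) (nat_lit 0) (nat_lit 76) (XT.lf (nat_lit 76) (nat_lit 466187918) (nat_lit 0) (nat_lit 3090042887) (nat_lit 1520) (nat_lit 4977970944) (nat_lit 521) (nat_lit 5) (nat_lit 520) (nat_lit 5) (nat_lit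 540) (nat_lit 5) (nat_lit 414) (nat_lit 412) (nat_lit 314)) (XT.nd (nat_lit 78) (nat_lit 0) (nat_lit 0) (XT.lf (nat_lit 0) (nat_lit 4662404055) (nat_lit 1444) (nat_lit 3890918945) (nat_lit 1520) (nat_lit 46184929) (nat_lit 521) (nat_lit 5) (nat_lit 540) (nat_lit 5) (nat_lit 541) (nat_lit 5) (nat_lit 415) (nat_lit 412) (nat_lit 313)) (XT.lf (nat_lit 76) (nat_lit 338955733) (nat_lit 0) (nat_lit 5447867457) (nat_lit 1520) (nat_lit 2879383125) (nat_lit 522) (nat_lit 5) (nat_lit 521) (nat_lit 5) (nat_lit 541) (nat_lit 5) (nat_lit 416) (nat_lit 412) (nat_lit 312))))) (XT.nd (nat_lit 234) (nat_lit 0) (nat_lit 0) (XT.nd (nat_lit 78) (nat_lit 1444) (nat_lit 0) (XT.lf (nat_lit 76) (nat_lit 4691523624) (nat_lit 0) (nat_lit 2242200374) (nat_lit 1520) (nat_lit 1800523173) (nat_lit 522) (nat_lit 5) (nat_lit 521) (nat_lit 5) (nat_lit 541) (nat_lit 5) (nat_lit 417) (nat_lit 412) (nat_lit 311)) (XT.nd (nat_lit 78) (nat_lit 1520) (nat_lit 0)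 (XT.lf (nat_lit 76) (nat_lit 309934312) (nat_lit 0) (nat_lit 7776780821) (nat_lit 1520) (nat_lit 717278866) (nat_lit 523) (nat_lit 5) (nat_lit 522) (nat_lit 5) (nat_lit 542) (nat_lit 5) (nat_lit 418) (nat_lit 412) (nat_lit 310)) (XT.lf (nat_lit 0) (nat_lit 399402072) (nat_lit 1520) (nat_lit 4102891687) (nat_lit 1596) (nat_lit 4372462440) (nat_lit 502) (nat_lit 5) (nat_lit 522) (nat_lit 5) (nat_lit 523) (nat_lit 5) (nat_lit 419) (nat_lit 412) (nat_lit 309)))) (XT.nd (nat_lit 78) (nat_lit 0) (nat_lit 76) (XT.lf (nat_lit 76) (nat_lit 361185925) (nat_lit 0) (nat_lit 1145174607) (nat_lit 1596) (nat_lit 7440935050) (nat_lit 503) (nat_lit 5) (nat_lit 502) (nat_lit 5) (nat_lit 523) (nat_lit 5) (nat_lit 420) (nat_lit 412) (nat_lit 308)) (XT.nd (nat_lit 78) (nat_lit 0) (nat_lit 0) (XT.lf (nat_lit 0) (nat_lit 2653617326) (nat_lit 1520) (nat_lit 4080914760) (nat_lit 1596) (nat_lit 2286398060) (nat_lit 503) (nat_lit 5) (nat_lit 523) (nat_lit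 5) (nat_lit 524) (nat_lit 5) (nat_lit 421) (nat_lit 412) (nat_lit 307)) (XT.lf (nat_lit 76) (nat_lit 498275416) (nat_lit 0) (nat_lit 3312487347) (nat_lit 1596) (nat_lit 5285543197) (nat_lit 504) (nat_lit 5) (nat_lit 503) (nat_lit 5) (nat_lit 524) (nat_lit 5) (nat_lit 422) (nat_lit 412) (nat_lit 306)))))) (XT.nd (nat_lit 390) (nat_lit 0) (nat_lit 0) (XT.nd (nat_lit 156) (nat_lit 1520) (nat_lit 0) (XT.nd (nat_lit 78) (nat_lit 0) (nat_lit 0) (XT.lf (nat_lit 0) (nat_lit 4996324159) (nat_lit 1520) (nat_lit 3965104783) (nat_lit 1596) (nat_lit 211662170) (nat_lit 504) (nat_lit 5) (nat_lit 524) (nat_lit 5) (nat_lit 525) (nat_lit 5) (nat_lit 423) (nat_lit 412) (nat_lit 305)) (XT.lf (nat_lit 76) (nat_lit 732965840) (nat_lit 0) (nat_lit 5476337552) (nat_lit 1596) (nat_lit 3042041582) (nat_lit 505) (nat_lit 5) (nat_lit 504) (nat_lit 5) (nat_lit 525) (nat_lit 5) (nat_lit 424) (nat_lit 412) (nat_lit 304))) (XT.nd (nat_lit 78) (nat_lit 1520)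 (nat_lit 0) (XT.lf (nat_lit 76) (nat_lit 5563656216) (nat_lit 0) (nat_lit 1886857440) (nat_lit 1596) (nat_lit 1880577828) (nat_lit 505) (nat_lit 5) (nat_lit 504) (nat_lit 5) (nat_lit 525) (nat_lit 5) (nat_lit 425) (nat_lit 412) (nat_lit 303)) (XT.nd (nat_lit 78) (nat_lit 1596) (nat_lit 0) (XT.lf (nat_lit 76) (nat_lit 1065690966) (nat_lit 0) (nat_lit 7647152391) (nat_lit 1596) (nat_lit 699670525) (nat_lit 506) (nat_lit 5) (nat_lit 505) (nat_lit 5) (nat_lit 526) (nat_lit 5) (nat_lit 426) (nat_lit 412) (nat_lit 302)) (XT.lf (nat_lit 0) (nat_lit 514218202) (nat_lit 1596) (nat_lit 3479942223) (nat_lit 1672) (nat_lit 5501025652) (nat_lit 484) (nat_lit 5) (nat_lit 505) (nat_lit 5) (nat_lit 506) (nat_lit 5) (nat_lit 427) (nat_lit 412) (nat_lit 301))))) (XT.nd (nat_lit 234) (nat_lit 0) (nat_lit 152) (XT.nd (nat_lit 78) (nat_lit 0) (nat_lit 76) (XT.lf (nat_lit 76) (nat_lit 1483917684) (nat_lit 0) (nat_lit 247212256) (nat_lit 1672) (nat_lit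 7848533470) (nat_lit 485) (nat_lit 5) (nat_lit 484) (nat_lit 5) (nat_lit 506) (nat_lit 5) (nat_lit 428) (nat_lit 412) (nat_lit 300)) (XT.nd (nat_lit 78) (nat_lit 0) (nat_lit 0) (XT.lf (nat_lit 0) (nat_lit 2997930376) (nat_lit 1596) (nat_lit 3110057660) (nat_lit 1672) (nat_lit 3557337584) (nat_lit 485) (nat_lit 5) (nat_lit 506) (nat_lit 5) (nat_lit 507) (nat_lit 5) (nat_lit 429) (nat_lit 412) (nat_lit 299)) (XT.lf (nat_lit 76) (nat_lit 1984481949) (nat_lit 0) (nat_lit 2299356032) (nat_lit 1672) (nat_lit 5468993886) (nat_lit 486) (nat_lit 5) (nat_lit 485) (nat_lit 5) (nat_lit 507) (nat_lit 5) (nat_lit 430) (nat_lit 412) (nat_lit 298)))) (XT.nd (nat_lit 78) (nat_lit 0) (nat_lit 0) (XT.lf (nat_lit 0) (nat_lit 5606358128) (nat_lit 1596) (nat_lit 2644633666) (nat_lit 1672) (nat_lit 1590884650) (nat_lit 486) (nat_lit 5) (nat_lit 507) (nat_lit 5) (nat_lit 508) (nat_lit 5) (nat_lit 431) (nat_lit 412) (nat_lit 297)) (XT.nd (nat_lit 78)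 (nat_lit 0) (nat_lit 0) (XT.lf (nat_lit 76) (nat_lit 2584936359) (nat_lit 0) (nat_lit 4382395385) (nat_lit 1672) (nat_lit 2965136082) (nat_lit 487) (nat_lit 5) (nat_lit 486) (nat_lit 5) (nat_lit 508) (nat_lit 5) (nat_lit 432) (nat_lit 412) (nat_lit 296)) (XT.lf (nat_lit 76) (nat_lit 7939752181) (nat_lit 0) (nat_lit 413805611) (nat_lit 1672) (nat_lit 1671358442) (nat_lit 487) (nat_lit 5) (nat_lit 486) (nat_lit 5) (nat_lit 508) (nat_lit 5) (nat_lit 433) (nat_lit 412) (nat_lit 295))))))) (XT.nd (nat_lit 858) (nat_lit 5852) (nat_lit 0) (XT.nd (nat_lit 390) (nat_lit 4028) (nat_lit 0) (XT.nd (nat_lit 156) (nat_lit 1596) (nat_lit 0) (XT.nd (nat_lit 78) (nat_lit 1672) (nat_lit 0) (XT.lf (nat_lit 76) (nat_lit 3286642828) (nat_lit 0) (nat_lit 6506501340) (nat_lit 1672) (nat_lit 325562468) (nat_lit 488) (nat_lit 5) (nat_lit 487) (nat_lit 5) (nat_lit 509) (nat_lit 5) (nat_lit 434) (nat_lit 412) (nat_lit 294)) (XT.lf (nat_lit 0) (nat_lit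 1031091010) (nat_lit 1672) (nat_lit 1445050777) (nat_lit 1748) (nat_lit 7738147100) (nat_lit 465) (nat_lit 5) (nat_lit 487) (nat_lit 5) (nat_lit 488) (nat_lit 5) (nat_lit 435) (nat_lit 412) (nat_lit 293))) (XT.nd (nat_lit 78) (nat_lit 1672) (nat_lit 0) (XT.lf (nat_lit 0) (nat_lit 2429103832) (nat_lit 1672) (nat_lit 6236456350) (nat_lit 76) (nat_lit 1645813261) (nat_lit 466) (nat_lit 5) (nat_lit 488) (nat_lit 5) (nat_lit 467) (nat_lit 5) (nat_lit 436) (nat_lit 412) (nat_lit 292)) (XT.nd (nat_lit 78) (nat_lit 1672) (nat_lit 0) (XT.lf (nat_lit 0) (nat_lit 3862754009) (nat_lit 1672) (nat_lit 717266971) (nat_lit 76) (nat_lit 5830230473) (nat_lit 466) (nat_lit 5) (nat_lit 488) (nat_lit 5) (nat_lit 467) (nat_lit 5) (nat_lit 437) (nat_lit 412) (nat_lit 291)) (XT.lf (nat_lit 0) (nat_lit 4962218864) (nat_lit 1672) (nat_lit 376956283) (nat_lit 1748) (nat_lit 5171655120) (nat_lit 444) (nat_lit 5) (nat_lit 466) (nat_lit 5) (nat_lit 467)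 (nat_lit 5) (nat_lit 438) (nat_lit 412) (nat_lit 290))))) (XT.nd (nat_lit 234) (nat_lit 988) (nat_lit 0) (XT.nd (nat_lit 78) (nat_lit 1292) (nat_lit 0) (XT.lf (nat_lit 0) (nat_lit 112297852) (nat_lit 1748) (nat_lit 6745944047) (nat_lit 1824) (nat_lit 3754921512) (nat_lit 421) (nat_lit 5) (nat_lit 444) (nat_lit 5) (nat_lit 445) (nat_lit 5) (nat_lit 439) (nat_lit 412) (nat_lit 289)) (XT.nd (nat_lit 78) (nat_lit 1292) (nat_lit 0) (XT.lf (nat_lit 0) (nat_lit 5943761808) (nat_lit 1748) (nat_lit 2486048055) (nat_lit 1824) (nat_lit 2287295956) (nat_lit 421) (nat_lit 5) (nat_lit 444) (nat_lit 5) (nat_lit 445) (nat_lit 5) (nat_lit 440) (nat_lit 412) (nat_lit 288)) (XT.lf (nat_lit 0) (nat_lit 1055085371) (nat_lit 1292) (nat_lit 8979409377) (nat_lit 1368) (nat_lit 788603517) (nat_lit 404) (nat_lit 5) (nat_lit 421) (nat_lit 5) (nat_lit 422) (nat_lit 5) (nat_lit 441) (nat_lit 412) (nat_lit 287)))) (XT.nd (nat_lit 78) (nat_lit 912) (nat_lit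 0) (XT.lf (nat_lit 0) (nat_lit 761950723) (nat_lit 1368) (nat_lit 3902804484) (nat_lit 76) (nat_lit 6265732085) (nat_lit 403) (nat_lit 5) (nat_lit 421) (nat_lit 5) (nat_lit 404) (nat_lit 5) (nat_lit 442) (nat_lit 412) (nat_lit 286)) (XT.nd (nat_lit 78) (nat_lit 0) (nat_lit 0) (XT.lf (nat_lit 0) (nat_lit 2086615787) (nat_lit 912) (nat_lit 243120319) (nat_lit 988) (nat_lit 8710252768) (nat_lit 391) (nat_lit 5) (nat_lit 403) (nat_lit 5) (nat_lit 404) (nat_lit 5) (nat_lit 443) (nat_lit 412) (nat_lit 285)) (XT.lf (nat_lit 0) (nat_lit 3966406136) (nat_lit 988) (nat_lit 2945786491) (nat_lit 76) (nat_lit 4238741810) (nat_lit 391) (nat_lit 5) (nat_lit 404) (nat_lit 5) (nat_lit 392) (nat_lit 5) (nat_lit 444) (nat_lit 412) (nat_lit 284)))))) (XT.nd (nat_lit 468) (nat_lit 2356) (nat_lit 0) (XT.nd (nat_lit 234) (nat_lit 1748) (nat_lit 0) (XT.nd (nat_lit 78) (nat_lit 912) (nat_lit 0) (XT.lf (nat_lit 0) (nat_lit 3207228170) (nat_lit 836) (nat_lit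 2434800965) (nat_lit 912) (nat_lit 5621949824) (nat_lit 380) (nat_lit 5) (nat_lit 391) (nat_lit 5) (nat_lit 392) (nat_lit 5) (nat_lit 445) (nat_lit 412) (nat_lit 283)) (XT.nd (nat_lit 78) (nat_lit 912) (nat_lit 0) (XT.lf (nat_lit 0) (nat_lit 7368918575) (nat_lit 912) (nat_lit 1885036455) (nat_lit 76) (nat_lit 2124978613) (nat_lit 380) (nat_lit 5) (nat_lit 392) (nat_lit 5) (nat_lit 381) (nat_lit 5) (nat_lit 446) (nat_lit 412) (nat_lit 282)) (XT.lf (nat_lit 0) (nat_lit 4437075496) (nat_lit 912) (nat_lit 4722528776) (nat_lit 988) (nat_lit 2336002248) (nat_lit 368) (nat_lit 5) (nat_lit 380) (nat_lit 5) (nat_lit 381) (nat_lit 5) (nat_lit 447) (nat_lit 412) (nat_lit 281)))) (XT.nd (nat_lit 78) (nat_lit 1748) (nat_lit 0) (XT.lf (nat_lit 0) (nat_lit 10896176027) (nat_lit 912) (nat_lit 87112679) (nat_lit 988) (nat_lit 631384630) (nat_lit 368) (nat_lit 5) (nat_lit 380) (nat_lit 5) (nat_lit 381) (nat_lit 5) (nat_lit 448) (nat_lit 412)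 (nat_lit 280)) (XT.nd (nat_lit 78) (nat_lit 836) (nat_lit 0) (XT.lf (nat_lit 0) (nat_lit 1145641219) (nat_lit 912) (nat_lit 5963637793) (nat_lit 76) (nat_lit 4625645933) (nat_lit 356) (nat_lit 5) (nat_lit 368) (nat_lit 5) (nat_lit 357) (nat_lit 5) (nat_lit 449) (nat_lit 412) (nat_lit 279)) (XT.lf (nat_lit 0) (nat_lit 530157375) (nat_lit 836) (nat_lit 2413415227) (nat_lit 912) (nat_lit 8914053073) (nat_lit 345) (nat_lit 5) (nat_lit 356) (nat_lit 5) (nat_lit 357) (nat_lit 5) (nat_lit 450) (nat_lit 412) (nat_lit 278))))) (XT.nd (nat_lit 234) (nat_lit 1596) (nat_lit 0) (XT.nd (nat_lit 78) (nat_lit 760) (nat_lit 0) (XT.lf (nat_lit 0) (nat_lit 4818311301) (nat_lit 912) (nat_lit 4778334535) (nat_lit 76) (nat_lit 2385321474) (nat_lit 345) (nat_lit 5) (nat_lit 357) (nat_lit 5) (nat_lit 346) (nat_lit 5) (nat_lit 451) (nat_lit 412) (nat_lit 277)) (XT.nd (nat_lit 78) (nat_lit 0) (nat_lit 0) (XT.lf (nat_lit 0) (nat_lit 1895633485) (nat_lit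 760) (nat_lit 4848628910) (nat_lit 836) (nat_lit 5364262818) (nat_lit 335) (nat_lit 5) (nat_lit 345) (nat_lit 5) (nat_lit 346) (nat_lit 5) (nat_lit 452) (nat_lit 412) (nat_lit 276)) (XT.lf (nat_lit 0) (nat_lit 8726585626) (nat_lit 836) (nat_lit 3484512297) (nat_lit 76) (nat_lit 26163005) (nat_lit 335) (nat_lit 5) (nat_lit 346) (nat_lit 5) (nat_lit 336) (nat_lit 5) (nat_lit 453) (nat_lit 412) (nat_lit 275)))) (XT.nd (nat_lit 78) (nat_lit 836) (nat_lit 0) (XT.lf (nat_lit 0) (nat_lit 3375679483) (nat_lit 760) (nat_lit 7412797541) (nat_lit 836) (nat_lit 1579299539) (nat_lit 325) (nat_lit 5) (nat_lit 335) (nat_lit 5) (nat_lit 336) (nat_lit 5) (nat_lit 454) (nat_lit 412) (nat_lit 274)) (XT.nd (nat_lit 78) (nat_lit 760) (nat_lit 0) (XT.lf (nat_lit 0) (nat_lit 395096400) (nat_lit 836) (nat_lit 2097827283) (nat_lit 76) (nat_lit 10007741259) (nat_lit 324) (nat_lit 5) (nat_lit 335) (nat_lit 5) (nat_lit 325) (nat_lit 5) (nat_lit 455) (nat_lit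 412) (nat_lit 273)) (XT.lf (nat_lit 0) (nat_lit 2423077328) (nat_lit 836) (nat_lit 7677913512) (nat_lit 76) (nat_lit 2534310017) (nat_lit 314) (nat_lit 5) (nat_lit 325) (nat_lit 5) (nat_lit 315) (nat_lit 5) (nat_lit 456) (nat_lit 412) (nat_lit 272))))))))
noncomputable def xc170 : XT := (XT.nd (nat_lit 1716) (nat_lit 6004) (nat_lit 0) (XT.nd (nat_lit 858) (nat_lit 3572) (nat_lit 0) (XT.nd (nat_lit 390) (nat_lit 2052) (nat_lit 0) (XT.nd (nat_lit 156) (nat_lit 1444) (nat_lit 0) (XT.nd (nat_lit 78) (nat_lit 760) (nat_lit 0) (XT.lf (nat_lit 0) (nat_lit 4508719845) (nat_lit 836) (nat_lit 621694059) (nat_lit 76) (nat_lit 7641876912) (nat_lit 314) (nat_lit 5) (nat_lit 325) (nat_lit 5) (nat_lit 315) (nat_lit 5) (nat_lit 457) (nat_lit 412) (nat_lit 271)) (XT.lf (nat_lit 0) (nat_lit 6648248313) (nat_lit 760) (nat_lit 17679763) (nat_lit 836) (nat_lit 6245498739) (nat_lit 304) (nat_lit 5) (nat_lit 314) (nat_lit 5) (nat_lit 315) (nat_lit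 5) (nat_lit 458) (nat_lit 412) (nat_lit 270))) (XT.nd (nat_lit 78) (nat_lit 760) (nat_lit 0) (XT.lf (nat_lit 0) (nat_lit 983120688) (nat_lit 684) (nat_lit 7914332883) (nat_lit 760) (nat_lit 4155271735) (nat_lit 295) (nat_lit 5) (nat_lit 304) (nat_lit 5) (nat_lit 305) (nat_lit 5) (nat_lit 459) (nat_lit 412) (nat_lit 269)) (XT.nd (nat_lit 78) (nat_lit 760) (nat_lit 0) (XT.lf (nat_lit 0) (nat_lit 8444467561) (nat_lit 684) (nat_lit 2758296424) (nat_lit 760) (nat_lit 1993505864) (nat_lit 295) (nat_lit 5) (nat_lit 304) (nat_lit 5) (nat_lit 305) (nat_lit 5) (nat_lit 460) (nat_lit 412) (nat_lit 268)) (XT.lf (nat_lit 0) (nat_lit 229990084) (nat_lit 760) (nat_lit 10626642772) (nat_lit 76) (nat_lit 2485602638) (nat_lit 285) (nat_lit 5) (nat_lit 295) (nat_lit 5) (nat_lit 286) (nat_lit 5) (nat_lit 461) (nat_lit 412) (nat_lit 267))))) (XT.nd (nat_lit 234) (nat_lit 1368) (nat_lit 0) (XT.nd (nat_lit 78) (nat_lit 684) (nat_lit 0) (XT.lf (nat_lit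 0) (nat_lit 2508975234) (nat_lit 760) (nat_lit 3140108994) (nat_lit 76) (nat_lit 7841021425) (nat_lit 285) (nat_lit 5) (nat_lit 295) (nat_lit 5) (nat_lit 286) (nat_lit 5) (nat_lit 462) (nat_lit 412) (nat_lit 266)) (XT.nd (nat_lit 78) (nat_lit 0) (nat_lit 0) (XT.lf (nat_lit 0) (nat_lit 4541309883) (nat_lit 684) (nat_lit 309286227) (nat_lit 760) (nat_lit 8789998912) (nat_lit 276) (nat_lit 5) (nat_lit 285) (nat_lit 5) (nat_lit 286) (nat_lit 5) (nat_lit 463) (nat_lit 412) (nat_lit 265)) (XT.lf (nat_lit 0) (nat_lit 7281323970) (nat_lit 760) (nat_lit 1422791099) (nat_lit 76) (nat_lit 5089136490) (nat_lit 276) (nat_lit 5) (nat_lit 286) (nat_lit 5) (nat_lit 277) (nat_lit 5) (nat_lit 464) (nat_lit 412) (nat_lit 264)))) (XT.nd (nat_lit 78) (nat_lit 684) (nat_lit 0) (XT.lf (nat_lit 0) (nat_lit 6475855658) (nat_lit 684) (nat_lit 3316853967) (nat_lit 760) (nat_lit 4155613552) (nat_lit 267) (nat_lit 5) (nat_lit 276) (nat_lit 5) (nat_lit 277)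 (nat_lit 5) (nat_lit 465) (nat_lit 412) (nat_lit 263)) (XT.nd (nat_lit 78) (nat_lit 76) (nat_lit 0) (XT.lf (nat_lit 0) (nat_lit 422397659) (nat_lit 608) (nat_lit 11946499797) (nat_lit 684) (nat_lit 1737310041) (nat_lit 259) (nat_lit 5) (nat_lit 267) (nat_lit 5) (nat_lit 268) (nat_lit 5) (nat_lit 466) (nat_lit 412) (nat_lit 262)) (XT.lf (nat_lit 0) (nat_lit 780375332) (nat_lit 684) (nat_lit 5731287591) (nat_lit 76) (nat_lit 7754282896) (nat_lit 258) (nat_lit 5) (nat_lit 267) (nat_lit 5) (nat_lit 259) (nat_lit 5) (nat_lit 467) (nat_lit 412) (nat_lit 261)))))) (XT.nd (nat_lit 390) (nat_lit 1748) (nat_lit 0) (XT.nd (nat_lit 156) (nat_lit 1216) (nat_lit 0) (XT.nd (nat_lit 78) (nat_lit 0) (nat_lit 0) (XT.lf (nat_lit 0) (nat_lit 2385895809) (nat_lit 608) (nat_lit 943140434) (nat_lit 684) (nat_lit 11099537903) (nat_lit 250) (nat_lit 5) (nat_lit 258) (nat_lit 5) (nat_lit 259) (nat_lit 5) (nat_lit 468) (nat_lit 412) (nat_lit 260)) (XT.lf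 (nat_lit 0) (nat_lit 5986630769) (nat_lit 684) (nat_lit 3895880376) (nat_lit 76) (nat_lit 4710787236) (nat_lit 250) (nat_lit 5) (nat_lit 259) (nat_lit 5) (nat_lit 251) (nat_lit 5) (nat_lit 469) (nat_lit 412) (nat_lit 259))) (XT.nd (nat_lit 78) (nat_lit 608) (nat_lit 0) (XT.lf (nat_lit 0) (nat_lit 4451978745) (nat_lit 608) (nat_lit 4269266857) (nat_lit 684) (nat_lit 6039596630) (nat_lit 242) (nat_lit 5) (nat_lit 250) (nat_lit 5) (nat_lit 251) (nat_lit 5) (nat_lit 470) (nat_lit 412) (nat_lit 258)) (XT.nd (nat_lit 78) (nat_lit 608) (nat_lit 0) (XT.lf (nat_lit 0) (nat_lit 11535154237) (nat_lit 684) (nat_lit 1935369987) (nat_lit 76) (nat_lit 1460723158) (nat_lit 242) (nat_lit 5) (nat_lit 251) (nat_lit 5) (nat_lit 243) (nat_lit 5) (nat_lit 471) (nat_lit 412) (nat_lit 257)) (XT.lf (nat_lit 0) (nat_lit 6650689591) (nat_lit 608) (nat_lit 7815154517) (nat_lit 684) (nat_lit 638008866) (nat_lit 234) (nat_lit 5) (nat_lit 242) (nat_lit 5)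 (nat_lit 243) (nat_lit 5) (nat_lit 472) (nat_lit 412) (nat_lit 256))))) (XT.nd (nat_lit 234) (nat_lit 608) (nat_lit 0) (XT.nd (nat_lit 78) (nat_lit 532) (nat_lit 0) (XT.lf (nat_lit 0) (nat_lit 128620167) (nat_lit 532) (nat_lit 2021097178) (nat_lit 608) (nat_lit 13129853005) (nat_lit 226) (nat_lit 5) (nat_lit 233) (nat_lit 5) (nat_lit 234) (nat_lit 5) (nat_lit 473) (nat_lit 412) (nat_lit 255)) (XT.nd (nat_lit 78) (nat_lit 532) (nat_lit 0) (XT.lf (nat_lit 0) (nat_lit 5056217555) (nat_lit 608) (nat_lit 6504911133) (nat_lit 76) (nat_lit 3896160056) (nat_lit 226) (nat_lit 5) (nat_lit 234) (nat_lit 5) (nat_lit 227) (nat_lit 5) (nat_lit 474) (nat_lit 412) (nat_lit 254)) (XT.lf (nat_lit 0) (nat_lit 2317312802) (nat_lit 532) (nat_lit 5721381569) (nat_lit 608) (nat_lit 7599512421) (nat_lit 219) (nat_lit 5) (nat_lit 226) (nat_lit 5) (nat_lit 227) (nat_lit 5) (nat_lit 475) (nat_lit 412) (nat_lit 253)))) (XT.nd (nat_lit 78) (nat_lit 608)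 (nat_lit 0) (XT.lf (nat_lit 0) (nat_lit 11115802509) (nat_lit 608) (nat_lit 4433372555) (nat_lit 76) (nat_lit 272870680) (nat_lit 219) (nat_lit 5) (nat_lit 227) (nat_lit 5) (nat_lit 220) (nat_lit 5) (nat_lit 476) (nat_lit 412) (nat_lit 252)) (XT.nd (nat_lit 78) (nat_lit 76) (nat_lit 0) (XT.lf (nat_lit 0) (nat_lit 4641308928) (nat_lit 532) (nat_lit 9670888383) (nat_lit 608) (nat_lit 1696211405) (nat_lit 212) (nat_lit 5) (nat_lit 219) (nat_lit 5) (nat_lit 220) (nat_lit 5) (nat_lit 477) (nat_lit 412) (nat_lit 251)) (XT.lf (nat_lit 0) (nat_lit 1375712555) (nat_lit 608) (nat_lit 2263063268) (nat_lit 76) (nat_lit 12559152515) (nat_lit 211) (nat_lit 5) (nat_lit 219) (nat_lit 5) (nat_lit 212) (nat_lit 5) (nat_lit 478) (nat_lit 412) (nat_lit 250))))))) (XT.nd (nat_lit 858) (nat_lit 2508) (nat_lit 0) (XT.nd (nat_lit 390) (nat_lit 1900) (nat_lit 0) (XT.nd (nat_lit 156) (nat_lit 608) (nat_lit 0) (XT.nd (nat_lit 78) (nat_lit 456) (nat_lit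 0) (XT.lf (nat_lit 0) (nat_lit 4539072114) (nat_lit 608) (nat_lit 9315502725) (nat_lit 76) (nat_lit 2535387096) (nat_lit 204) (nat_lit 5) (nat_lit 212) (nat_lit 5) (nat_lit 205) (nat_lit 5) (nat_lit 479) (nat_lit 412) (nat_lit 249)) (XT.lf (nat_lit 0) (nat_lit 6315845) (nat_lit 456) (nat_lit 7788863159) (nat_lit 532) (nat_lit 8790069569) (nat_lit 198) (nat_lit 5) (nat_lit 204) (nat_lit 5) (nat_lit 205) (nat_lit 5) (nat_lit 480) (nat_lit 412) (nat_lit 248))) (XT.nd (nat_lit 78) (nat_lit 608) (nat_lit 0) (XT.lf (nat_lit 0) (nat_lit 9627488687) (nat_lit 456) (nat_lit 1541593927) (nat_lit 532) (nat_lit 5614306770) (nat_lit 198) (nat_lit 5) (nat_lit 204) (nat_lit 5) (nat_lit 205) (nat_lit 5) (nat_lit 481) (nat_lit 412) (nat_lit 247)) (XT.nd (nat_lit 78) (nat_lit 76) (nat_lit 0) (XT.lf (nat_lit 0) (nat_lit 2443002101) (nat_lit 532) (nat_lit 12205020526) (nat_lit 608) (nat_lit 2336721111) (nat_lit 191) (nat_lit 5) (nat_lit 198) (nat_lit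 5) (nat_lit 199) (nat_lit 5) (nat_lit 482) (nat_lit 412) (nat_lit 246)) (XT.lf (nat_lit 0) (nat_lit 1042135994) (nat_lit 608) (nat_lit 4888652457) (nat_lit 76) (nat_lit 11258229483) (nat_lit 190) (nat_lit 5) (nat_lit 198) (nat_lit 5) (nat_lit 191) (nat_lit 5) (nat_lit 483) (nat_lit 412) (nat_lit 245))))) (XT.nd (nat_lit 234) (nat_lit 988) (nat_lit 0) (XT.nd (nat_lit 78) (nat_lit 456) (nat_lit 0) (XT.lf (nat_lit 0) (nat_lit 4483637405) (nat_lit 532) (nat_lit 12405469728) (nat_lit 76) (nat_lit 507436233) (nat_lit 184) (nat_lit 5) (nat_lit 191) (nat_lit 5) (nat_lit 185) (nat_lit 5) (nat_lit 484) (nat_lit 412) (nat_lit 244)) (XT.nd (nat_lit 78) (nat_lit 456) (nat_lit 0) (XT.lf (nat_lit 0) (nat_lit 8056906414) (nat_lit 532) (nat_lit 2525523331) (nat_lit 76) (nat_lit 7024532561) (nat_lit 184) (nat_lit 5) (nat_lit 191) (nat_lit 5) (nat_lit 185) (nat_lit 5) (nat_lit 485) (nat_lit 412) (nat_lit 243)) (XT.lf (nat_lit 0) (nat_lit 7639343393)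 (nat_lit 456) (nat_lit 4102718799) (nat_lit 532) (nat_lit 6078720721) (nat_lit 178) (nat_lit 5) (nat_lit 184) (nat_lit 5) (nat_lit 185) (nat_lit 5) (nat_lit 486) (nat_lit 412) (nat_lit 242)))) (XT.nd (nat_lit 78) (nat_lit 988) (nat_lit 0) (XT.lf (nat_lit 0) (nat_lit 15525149946) (nat_lit 532) (nat_lit 26130602) (nat_lit 76) (nat_lit 2487116488) (nat_lit 178) (nat_lit 5) (nat_lit 185) (nat_lit 5) (nat_lit 179) (nat_lit 5) (nat_lit 487) (nat_lit 412) (nat_lit 241)) (XT.nd (nat_lit 78) (nat_lit 456) (nat_lit 0) (XT.lf (nat_lit 0) (nat_lit 1195325042) (nat_lit 532) (nat_lit 7837305613) (nat_lit 76) (nat_lit 9225858021) (nat_lit 171) (nat_lit 5) (nat_lit 178) (nat_lit 5) (nat_lit 172) (nat_lit 5) (nat_lit 488) (nat_lit 412) (nat_lit 240)) (XT.lf (nat_lit 0) (nat_lit 2599539794) (nat_lit 456) (nat_lit 2353068585) (nat_lit 532) (nat_lit 13529879262) (nat_lit 165) (nat_lit 5) (nat_lit 171) (nat_lit 5) (nat_lit 172) (nat_lit 5) (nat_lit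 489) (nat_lit 412) (nat_lit 239)))))) (XT.nd (nat_lit 468) (nat_lit 1216) (nat_lit 0) (XT.nd (nat_lit 234) (nat_lit 912) (nat_lit 0) (XT.nd (nat_lit 78) (nat_lit 380) (nat_lit 0) (XT.lf (nat_lit 0) (nat_lit 8858109542) (nat_lit 532) (nat_lit 5400657941) (nat_lit 76) (nat_lit 4450739212) (nat_lit 165) (nat_lit 5) (nat_lit 172) (nat_lit 5) (nat_lit 166) (nat_lit 5) (nat_lit 490) (nat_lit 412) (nat_lit 238)) (XT.nd (nat_lit 78) (nat_lit 0) (nat_lit 0) (XT.lf (nat_lit 0) (nat_lit 5333093981) (nat_lit 380) (nat_lit 7550182621) (nat_lit 456) (nat_lit 6056959934) (nat_lit 160) (nat_lit 5) (nat_lit 165) (nat_lit 5) (nat_lit 166) (nat_lit 5) (nat_lit 491) (nat_lit 412) (nat_lit 237)) (XT.lf (nat_lit 0) (nat_lit 16342265783) (nat_lit 380) (nat_lit 674357893) (nat_lit 456) (nat_lit 2158405259) (nat_lit 160) (nat_lit 5) (nat_lit 165) (nat_lit 5) (nat_lit 166) (nat_lit 5) (nat_lit 492) (nat_lit 412) (nat_lit 236)))) (XT.nd (nat_lit 78) (nat_lit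 380) (nat_lit 0) (XT.lf (nat_lit 0) (nat_lit 1880892420) (nat_lit 532) (nat_lit 11213895368) (nat_lit 76) (nat_lit 6317762403) (nat_lit 153) (nat_lit 5) (nat_lit 160) (nat_lit 5) (nat_lit 154) (nat_lit 5) (nat_lit 493) (nat_lit 412) (nat_lit 235)) (XT.nd (nat_lit 78) (nat_lit 380) (nat_lit 0) (XT.lf (nat_lit 0) (nat_lit 5987310491) (nat_lit 532) (nat_lit 196621917) (nat_lit 76) (nat_lit 13470300820) (nat_lit 153) (nat_lit 5) (nat_lit 160) (nat_lit 5) (nat_lit 154) (nat_lit 5) (nat_lit 494) (nat_lit 412) (nat_lit 234)) (XT.lf (nat_lit 0) (nat_lit 10246259093) (nat_lit 456) (nat_lit 8730123564) (nat_lit 76) (nat_lit 922960607) (nat_lit 148) (nat_lit 5) (nat_lit 154) (nat_lit 5) (nat_lit 149) (nat_lit 5) (nat_lit 495) (nat_lit 412) (nat_lit 233))))) (XT.nd (nat_lit 234) (nat_lit 380) (nat_lit 0) (XT.nd (nat_lit 78) (nat_lit 456) (nat_lit 0) (XT.lf (nat_lit 0) (nat_lit 2596597079) (nat_lit 380) (nat_lit 12044759121) (nat_lit 456)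 (nat_lit 5506981261) (nat_lit 143) (nat_lit 5) (nat_lit 148) (nat_lit 5) (nat_lit 149) (nat_lit 5) (nat_lit 496) (nat_lit 412) (nat_lit 232)) (XT.nd (nat_lit 78) (nat_lit 456) (nat_lit 0) (XT.lf (nat_lit 0) (nat_lit 14256061461) (nat_lit 380) (nat_lit 4918788300) (nat_lit 456) (nat_lit 1226453218) (nat_lit 143) (nat_lit 5) (nat_lit 148) (nat_lit 5) (nat_lit 149) (nat_lit 5) (nat_lit 497) (nat_lit 412) (nat_lit 231)) (XT.lf (nat_lit 0) (nat_lit 3142027292) (nat_lit 456) (nat_lit 15144441799) (nat_lit 76) (nat_lit 2371581904) (nat_lit 137) (nat_lit 5) (nat_lit 143) (nat_lit 5) (nat_lit 138) (nat_lit 5) (nat_lit 498) (nat_lit 412) (nat_lit 230)))) (XT.nd (nat_lit 78) (nat_lit 380) (nat_lit 0) (XT.lf (nat_lit 0) (nat_lit 7647624904) (nat_lit 456) (nat_lit 3483195669) (nat_lit 76) (nat_lit 9787629117) (nat_lit 137) (nat_lit 5) (nat_lit 143) (nat_lit 5) (nat_lit 138) (nat_lit 5) (nat_lit 499) (nat_lit 412) (nat_lit 229)) (XT.nd (nat_lit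 78) (nat_lit 0) (nat_lit 0) (XT.lf (nat_lit 0) (nat_lit 8511082423) (nat_lit 380) (nat_lit 3779735843) (nat_lit 456) (nat_lit 8892289643) (nat_lit 132) (nat_lit 5) (nat_lit 137) (nat_lit 5) (nat_lit 138) (nat_lit 5) (nat_lit 500) (nat_lit 412) (nat_lit 228)) (XT.lf (nat_lit 0) (nat_lit 17066820714) (nat_lit 456) (nat_lit 696295575) (nat_lit 76) (nat_lit 3689145298) (nat_lit 132) (nat_lit 5) (nat_lit 138) (nat_lit 5) (nat_lit 133) (nat_lit 5) (nat_lit 501) (nat_lit 412) (nat_lit 227))))))))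
noncomputable def xc171 : XT := (XT.nd (nat_lit 53742) (nat_lit 0) (nat_lit 17252) (XT.nd (nat_lit 52884) (nat_lit 0) (nat_lit 27816) (XT.nd (nat_lit 52416) (nat_lit 0) (nat_lit 29108) (XT.nd (nat_lit 156) (nat_lit 304) (nat_lit 0) (XT.nd (nat_lit 78) (nat_lit 380) (nat_lit 0) (XT.lf (nat_lit 0) (nat_lit 302383537) (nat_lit 380) (nat_lit 10092053703) (nat_lit 76) (nat_lit 11330462524) (nat_lit 127) (nat_lit 5) (nat_lit 132) (nat_lit 5) (nat_lit 128) (nat_lit 5) (nat_lit 502) (nat_lit 412) (nat_lit 226)) (XT.lf (nat_lit 0) (nat_lit 2203273704) (nat_lit 380) (nat_lit 2833481494) (nat_lit 456) (nat_lit 16965426645) (nat_lit 122) (nat_lit 5) (nat_lit 127) (nat_lit 5) (nat_lit 128) (nat_lit 5) (nat_lit 503) (nat_lit 412) (nat_lit 225))) (XT.nd (nat_lit 78) (nat_lit 304) (nat_lit 0) (XT.lf (nat_lit 0) (nat_lit 9958156058) (nat_lit 456) (nat_lit 7446179301) (nat_lit 76) (nat_lit 4878828480) (nat_lit 122) (nat_lit 5) (nat_lit 128) (nat_lit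 5) (nat_lit 123) (nat_lit 5) (nat_lit 504) (nat_lit 412) (nat_lit 224)) (XT.nd (nat_lit 78) (nat_lit 0) (nat_lit 0) (XT.lf (nat_lit 0) (nat_lit 5191447584) (nat_lit 304) (nat_lit 9831650177) (nat_lit 380) (nat_lit 7545766546) (nat_lit 118) (nat_lit 5) (nat_lit 122) (nat_lit 5) (nat_lit 123) (nat_lit 5) (nat_lit 505) (nat_lit 412) (nat_lit 223)) (XT.lf (nat_lit 0) (nat_lit 18171358924) (nat_lit 304) (nat_lit 2060659129) (nat_lit 380) (nat_lit 2627408202) (nat_lit 118) (nat_lit 5) (nat_lit 122) (nat_lit 5) (nat_lit 123) (nat_lit 5) (nat_lit 506) (nat_lit 412) (nat_lit 222))))) (XT.nd (nat_lit 234) (nat_lit 1444) (nat_lit 0) (XT.nd (nat_lit 78) (nat_lit 0) (nat_lit 0) (XT.lf (nat_lit 0) (nat_lit 877499611) (nat_lit 0) (nat_lit 877499611) (nat_lit 1444) (nat_lit 2511721557) (nat_lit 520) (nat_lit 5) (nat_lit 520) (nat_lit 3) (nat_lit 539) (nat_lit 3) (nat_lit 413) (nat_lit 413) (nat_lit 314)) (XT.nd (nat_lit 78) (nat_lit 0) (nat_lit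 0) (XT.lf (nat_lit 0) (nat_lit 4568917628) (nat_lit 1444) (nat_lit 2655180825) (nat_lit 1520) (nat_lit 1373875839) (nat_lit 520) (nat_lit 5) (nat_lit 539) (nat_lit 3) (nat_lit 540) (nat_lit 5) (nat_lit 414) (nat_lit 413) (nat_lit 313)) (XT.lf (nat_lit 76) (nat_lit 1545253348) (nat_lit 0) (nat_lit 4098885518) (nat_lit 1520) (nat_lit 3019764870) (nat_lit 521) (nat_lit 5) (nat_lit 520) (nat_lit 5) (nat_lit 540) (nat_lit 5) (nat_lit 415) (nat_lit 413) (nat_lit 312)))) (XT.nd (nat_lit 78) (nat_lit 1444) (nat_lit 0) (XT.lf (nat_lit 76) (nat_lit 5851843232) (nat_lit 0) (nat_lit 880737649) (nat_lit 1520) (nat_lit 1998744926) (nat_lit 521) (nat_lit 5) (nat_lit 520) (nat_lit 5) (nat_lit 540) (nat_lit 5) (nat_lit 416) (nat_lit 413) (nat_lit 311)) (XT.nd (nat_lit 78) (nat_lit 1520) (nat_lit 0) (XT.lf (nat_lit 76) (nat_lit 1433504159) (nat_lit 0) (nat_lit 6408677244) (nat_lit 1520) (nat_lit 957935326) (nat_lit 522) (nat_lit 5) (nat_lit 521)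 (nat_lit 5) (nat_lit 541) (nat_lit 5) (nat_lit 417) (nat_lit 413) (nat_lit 310)) (XT.lf (nat_lit 0) (nat_lit 102337200) (nat_lit 1520) (nat_lit 3019169893) (nat_lit 1596) (nat_lit 5748770660) (nat_lit 501) (nat_lit 5) (nat_lit 521) (nat_lit 5) (nat_lit 522) (nat_lit 5) (nat_lit 418) (nat_lit 413) (nat_lit 309)))))) (XT.nd (nat_lit 390) (nat_lit 1368) (nat_lit 0) (XT.nd (nat_lit 156) (nat_lit 0) (nat_lit 0) (XT.nd (nat_lit 78) (nat_lit 0) (nat_lit 0) (XT.lf (nat_lit 0) (nat_lit 1157069417) (nat_lit 1520) (nat_lit 7530435220) (nat_lit 1596) (nat_lit 254496831) (nat_lit 502) (nat_lit 5) (nat_lit 522) (nat_lit 5) (nat_lit 523) (nat_lit 5) (nat_lit 419) (nat_lit 413) (nat_lit 308)) (XT.lf (nat_lit 0) (nat_lit 2249643520) (nat_lit 1520) (nat_lit 3078326511) (nat_lit 1596) (nat_lit 3686862258) (nat_lit 502) (nat_lit 5) (nat_lit 522) (nat_lit 5) (nat_lit 523) (nat_lit 5) (nat_lit 420) (nat_lit 413) (nat_lit 307))) (XT.nd (nat_lit 78)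 (nat_lit 0) (nat_lit 76) (XT.lf (nat_lit 76) (nat_lit 1467752239) (nat_lit 0) (nat_lit 1882003956) (nat_lit 1596) (nat_lit 5739657218) (nat_lit 503) (nat_lit 5) (nat_lit 502) (nat_lit 5) (nat_lit 523) (nat_lit 5) (nat_lit 421) (nat_lit 413) (nat_lit 306)) (XT.nd (nat_lit 78) (nat_lit 0) (nat_lit 0) (XT.lf (nat_lit 0) (nat_lit 4479859450) (nat_lit 1520) (nat_lit 3044095843) (nat_lit 1596) (nat_lit 1641378383) (nat_lit 503) (nat_lit 5) (nat_lit 523) (nat_lit 5) (nat_lit 524) (nat_lit 5) (nat_lit 422) (nat_lit 413) (nat_lit 305)) (XT.lf (nat_lit 76) (nat_lit 1619319997) (nat_lit 0) (nat_lit 4013273626) (nat_lit 1596) (nat_lit 3610185284) (nat_lit 504) (nat_lit 5) (nat_lit 503) (nat_lit 5) (nat_lit 524) (nat_lit 5) (nat_lit 423) (nat_lit 413) (nat_lit 304))))) (XT.nd (nat_lit 234) (nat_lit 1444) (nat_lit 0) (XT.nd (nat_lit 78) (nat_lit 0) (nat_lit 76) (XT.lf (nat_lit 76) (nat_lit 6402888036) (nat_lit 0) (nat_lit 403330088) (nat_lit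 1596) (nat_lit 2515605204) (nat_lit 504) (nat_lit 5) (nat_lit 503) (nat_lit 5) (nat_lit 524) (nat_lit 5) (nat_lit 424) (nat_lit 413) (nat_lit 303)) (XT.nd (nat_lit 78) (nat_lit 0) (nat_lit 0) (XT.lf (nat_lit 76) (nat_lit 1868293782) (nat_lit 0) (nat_lit 6146343171) (nat_lit 1596) (nat_lit 1387592112) (nat_lit 505) (nat_lit 5) (nat_lit 504) (nat_lit 5) (nat_lit 525) (nat_lit 5) (nat_lit 425) (nat_lit 413) (nat_lit 302)) (XT.lf (nat_lit 76) (nat_lit 6773624071) (nat_lit 0) (nat_lit 2474083675) (nat_lit 1596) (nat_lit 236532226) (nat_lit 505) (nat_lit 5) (nat_lit 504) (nat_lit 5) (nat_lit 525) (nat_lit 5) (nat_lit 426) (nat_lit 413) (nat_lit 301)))) (XT.nd (nat_lit 78) (nat_lit 0) (nat_lit 0) (XT.lf (nat_lit 0) (nat_lit 926609694) (nat_lit 1596) (nat_lit 7358698161) (nat_lit 1672) (nat_lit 1282440826) (nat_lit 484) (nat_lit 5) (nat_lit 505) (nat_lit 5) (nat_lit 506) (nat_lit 5) (nat_lit 427) (nat_lit 413) (nat_lit 300)) (XT.nd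 (nat_lit 78) (nat_lit 0) (nat_lit 0) (XT.lf (nat_lit 0) (nat_lit 2123437664) (nat_lit 1596) (nat_lit 2421670838) (nat_lit 1672) (nat_lit 5107522326) (nat_lit 484) (nat_lit 5) (nat_lit 505) (nat_lit 5) (nat_lit 506) (nat_lit 5) (nat_lit 428) (nat_lit 413) (nat_lit 299)) (XT.lf (nat_lit 76) (nat_lit 2634046069) (nat_lit 0) (nat_lit 706564604) (nat_lit 1672) (nat_lit 6398677991) (nat_lit 485) (nat_lit 5) (nat_lit 484) (nat_lit 5) (nat_lit 506) (nat_lit 5) (nat_lit 429) (nat_lit 413) (nat_lit 298))))))) (XT.nd (nat_lit 858) (nat_lit 5776) (nat_lit 0) (XT.nd (nat_lit 390) (nat_lit 4864) (nat_lit 0) (XT.nd (nat_lit 156) (nat_lit 0) (nat_lit 76) (XT.nd (nat_lit 78) (nat_lit 0) (nat_lit 0) (XT.lf (nat_lit 0) (nat_lit 4598975078) (nat_lit 1596) (nat_lit 2039544730) (nat_lit 1672) (nat_lit 3188828984) (nat_lit 485) (nat_lit 5) (nat_lit 506) (nat_lit 5) (nat_lit 507) (nat_lit 5) (nat_lit 430) (nat_lit 413) (nat_lit 297)) (XT.lf (nat_lit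 76) (nat_lit 3149433604) (nat_lit 0) (nat_lit 2738255803) (nat_lit 1672) (nat_lit 4029383035) (nat_lit 486) (nat_lit 5) (nat_lit 485) (nat_lit 5) (nat_lit 507) (nat_lit 5) (nat_lit 431) (nat_lit 413) (nat_lit 296))) (XT.nd (nat_lit 78) (nat_lit 0) (nat_lit 0) (XT.lf (nat_lit 0) (nat_lit 7204390798) (nat_lit 1596) (nat_lit 1561615429) (nat_lit 1672) (nat_lit 1242545941) (nat_lit 486) (nat_lit 5) (nat_lit 507) (nat_lit 5) (nat_lit 508) (nat_lit 5) (nat_lit 432) (nat_lit 413) (nat_lit 295)) (XT.nd (nat_lit 78) (nat_lit 0) (nat_lit 0) (XT.lf (nat_lit 76) (nat_lit 3765072898) (nat_lit 0) (nat_lit 4805702153) (nat_lit 1672) (nat_lit 1530625204) (nat_lit 487) (nat_lit 5) (nat_lit 486) (nat_lit 5) (nat_lit 508) (nat_lit 5) (nat_lit 433) (nat_lit 413) (nat_lit 294)) (XT.lf (nat_lit 76) (nat_lit 9204858804) (nat_lit 0) (nat_lit 751159037) (nat_lit 1672) (nat_lit 240262474) (nat_lit 487) (nat_lit 5) (nat_lit 486) (nat_lit 5) (nat_lit 508)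 (nat_lit 5) (nat_lit 434) (nat_lit 413) (nat_lit 293))))) (XT.nd (nat_lit 234) (nat_lit 3344) (nat_lit 0) (XT.nd (nat_lit 78) (nat_lit 0) (nat_lit 0) (XT.lf (nat_lit 0) (nat_lit 1094534991) (nat_lit 1672) (nat_lit 5817139820) (nat_lit 1748) (nat_lit 3380594103) (nat_lit 465) (nat_lit 5) (nat_lit 487) (nat_lit 5) (nat_lit 488) (nat_lit 5) (nat_lit 435) (nat_lit 413) (nat_lit 292)) (XT.nd (nat_lit 78) (nat_lit 0) (nat_lit 76) (XT.lf (nat_lit 0) (nat_lit 2446079009) (nat_lit 1672) (nat_lit 347080007) (nat_lit 1748) (nat_lit 7597126457) (nat_lit 465) (nat_lit 5) (nat_lit 487) (nat_lit 5) (nat_lit 488) (nat_lit 5) (nat_lit 436) (nat_lit 413) (nat_lit 291)) (XT.lf (nat_lit 0) (nat_lit 3850325276) (nat_lit 1672) (nat_lit 5212192892) (nat_lit 76) (nat_lit 1427235968) (nat_lit 466) (nat_lit 5) (nat_lit 488) (nat_lit 5) (nat_lit 467) (nat_lit 5) (nat_lit 437) (nat_lit 413) (nat_lit 290)))) (XT.nd (nat_lit 78) (nat_lit 1748) (nat_lit 0)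 (XT.lf (nat_lit 0) (nat_lit 400098369) (nat_lit 1672) (nat_lit 4888233295) (nat_lit 1748) (nat_lit 5302772105) (nat_lit 444) (nat_lit 5) (nat_lit 466) (nat_lit 5) (nat_lit 467) (nat_lit 5) (nat_lit 438) (nat_lit 413) (nat_lit 289)) (XT.nd (nat_lit 78) (nat_lit 1748) (nat_lit 0) (XT.lf (nat_lit 0) (nat_lit 6180515617) (nat_lit 1672) (nat_lit 592046771) (nat_lit 1748) (nat_lit 3921573720) (nat_lit 444) (nat_lit 5) (nat_lit 466) (nat_lit 5) (nat_lit 467) (nat_lit 5) (nat_lit 439) (nat_lit 413) (nat_lit 288)) (XT.lf (nat_lit 0) (nat_lit 1254306412) (nat_lit 1748) (nat_lit 7047771182) (nat_lit 1824) (nat_lit 2496844404) (nat_lit 421) (nat_lit 5) (nat_lit 444) (nat_lit 5) (nat_lit 445) (nat_lit 5) (nat_lit 440) (nat_lit 413) (nat_lit 287)))))) (XT.nd (nat_lit 468) (nat_lit 2660) (nat_lit 0) (XT.nd (nat_lit 234) (nat_lit 1748) (nat_lit 0) (XT.nd (nat_lit 78) (nat_lit 1368) (nat_lit 0) (XT.lf (nat_lit 0) (nat_lit 7180051361) (nat_lit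 1748) (nat_lit 2699404559) (nat_lit 1824) (nat_lit 1026007034) (nat_lit 421) (nat_lit 5) (nat_lit 444) (nat_lit 5) (nat_lit 445) (nat_lit 5) (nat_lit 441) (nat_lit 413) (nat_lit 286)) (XT.nd (nat_lit 78) (nat_lit 0) (nat_lit 0) (XT.lf (nat_lit 0) (nat_lit 477156878) (nat_lit 1368) (nat_lit 8803977693) (nat_lit 76) (nat_lit 1732760602) (nat_lit 403) (nat_lit 5) (nat_lit 421) (nat_lit 5) (nat_lit 404) (nat_lit 5) (nat_lit 442) (nat_lit 413) (nat_lit 285)) (XT.lf (nat_lit 0) (nat_lit 2023251439) (nat_lit 1368) (nat_lit 2849318496) (nat_lit 76) (nat_lit 6251262879) (nat_lit 403) (nat_lit 5) (nat_lit 421) (nat_lit 5) (nat_lit 404) (nat_lit 5) (nat_lit 443) (nat_lit 413) (nat_lit 284)))) (XT.nd (nat_lit 78) (nat_lit 836) (nat_lit 0) (XT.lf (nat_lit 0) (nat_lit 3252445824) (nat_lit 912) (nat_lit 352812511) (nat_lit 988) (nat_lit 7630615501) (nat_lit 391) (nat_lit 5) (nat_lit 403) (nat_lit 5) (nat_lit 404) (nat_lit 5) (nat_lit 444)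 (nat_lit 413) (nat_lit 283)) (XT.nd (nat_lit 78) (nat_lit 836) (nat_lit 0) (XT.lf (nat_lit 0) (nat_lit 5249897869) (nat_lit 988) (nat_lit 1877552063) (nat_lit 76) (nat_lit 4222090250) (nat_lit 391) (nat_lit 5) (nat_lit 404) (nat_lit 5) (nat_lit 392) (nat_lit 5) (nat_lit 445) (nat_lit 413) (nat_lit 282)) (XT.lf (nat_lit 0) (nat_lit 4391107430) (nat_lit 836) (nat_lit 2551584907) (nat_lit 912) (nat_lit 4522486541) (nat_lit 380) (nat_lit 5) (nat_lit 391) (nat_lit 5) (nat_lit 392) (nat_lit 5) (nat_lit 446) (nat_lit 413) (nat_lit 281))))) (XT.nd (nat_lit 234) (nat_lit 836) (nat_lit 0) (XT.nd (nat_lit 78) (nat_lit 1824) (nat_lit 0) (XT.lf (nat_lit 0) (nat_lit 8680395523) (nat_lit 912) (nat_lit 800917157) (nat_lit 76) (nat_lit 2101600796) (nat_lit 380) (nat_lit 5) (nat_lit 392) (nat_lit 5) (nat_lit 381) (nat_lit 5) (nat_lit 447) (nat_lit 413) (nat_lit 280)) (XT.nd (nat_lit 78) (nat_lit 912) (nat_lit 0) (XT.lf (nat_lit 0) (nat_lit 5640256639)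 (nat_lit 912) (nat_lit 4851048514) (nat_lit 988) (nat_lit 1210932665) (nat_lit 368) (nat_lit 5) (nat_lit 380) (nat_lit 5) (nat_lit 381) (nat_lit 5) (nat_lit 448) (nat_lit 413) (nat_lit 279)) (XT.lf (nat_lit 0) (nat_lit 384307727) (nat_lit 836) (nat_lit 116367934) (nat_lit 912) (nat_lit 11323351342) (nat_lit 356) (nat_lit 5) (nat_lit 367) (nat_lit 5) (nat_lit 368) (nat_lit 5) (nat_lit 449) (nat_lit 413) (nat_lit 278)))) (XT.nd (nat_lit 78) (nat_lit 836) (nat_lit 0) (XT.lf (nat_lit 0) (nat_lit 2287099574) (nat_lit 912) (nat_lit 4959463511) (nat_lit 76) (nat_lit 4700396711) (nat_lit 356) (nat_lit 5) (nat_lit 368) (nat_lit 5) (nat_lit 357) (nat_lit 5) (nat_lit 450) (nat_lit 413) (nat_lit 277)) (XT.nd (nat_lit 78) (nat_lit 0) (nat_lit 0) (XT.lf (nat_lit 0) (nat_lit 1656816462) (nat_lit 836) (nat_lit 2449487032) (nat_lit 912) (nat_lit 7966110507) (nat_lit 345) (nat_lit 5) (nat_lit 356) (nat_lit 5) (nat_lit 357) (nat_lit 5) (nat_lit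 451) (nat_lit 413) (nat_lit 276)) (XT.lf (nat_lit 0) (nat_lit 5996970300) (nat_lit 912) (nat_lit 3757880697) (nat_lit 76) (nat_lit 2444828433) (nat_lit 345) (nat_lit 5) (nat_lit 357) (nat_lit 5) (nat_lit 346) (nat_lit 5) (nat_lit 452) (nat_lit 413) (nat_lit 275))))))))
noncomputable def xc172 : XT := (XT.nd (nat_lit 1716) (nat_lit 6308) (nat_lit 0) (XT.nd (nat_lit 858) (nat_lit 4484) (nat_lit 0) (XT.nd (nat_lit 390) (nat_lit 2204) (nat_lit 0) (XT.nd (nat_lit 156) (nat_lit 1596) (nat_lit 0) (XT.nd (nat_lit 78) (nat_lit 0) (nat_lit 0) (XT.lf (nat_lit 0) (nat_lit 3042224443) (nat_lit 760) (nat_lit 4905192820) (nat_lit 836) (nat_lit 4381637208) (nat_lit 335) (nat_lit 5) (nat_lit 345) (nat_lit 5) (nat_lit 346) (nat_lit 5) (nat_lit 453) (nat_lit 413) (nat_lit 274)) (XT.lf (nat_lit 0) (nat_lit 9948697711) (nat_lit 836) (nat_lit 2446303351) (nat_lit 76) (nat_lit 65783031) (nat_lit 335) (nat_lit 5) (nat_lit 346) (nat_lit 5) (nat_lit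 336) (nat_lit 5) (nat_lit 454) (nat_lit 413) (nat_lit 273))) (XT.nd (nat_lit 78) (nat_lit 836) (nat_lit 0) (XT.lf (nat_lit 0) (nat_lit 4543803453) (nat_lit 760) (nat_lit 7494628585) (nat_lit 836) (nat_lit 555751204) (nat_lit 325) (nat_lit 5) (nat_lit 335) (nat_lit 5) (nat_lit 336) (nat_lit 5) (nat_lit 455) (nat_lit 413) (nat_lit 272)) (XT.nd (nat_lit 78) (nat_lit 760) (nat_lit 0) (XT.lf (nat_lit 0) (nat_lit 1423876807) (nat_lit 836) (nat_lit 1046932259) (nat_lit 76) (nat_lit 10259196758) (nat_lit 324) (nat_lit 5) (nat_lit 335) (nat_lit 5) (nat_lit 325) (nat_lit 5) (nat_lit 456) (nat_lit 413) (nat_lit 271)) (XT.lf (nat_lit 0) (nat_lit 3479953781) (nat_lit 836) (nat_lit 6725906790) (nat_lit 76) (nat_lit 2661728156) (nat_lit 314) (nat_lit 5) (nat_lit 325) (nat_lit 5) (nat_lit 315) (nat_lit 5) (nat_lit 457) (nat_lit 413) (nat_lit 270))))) (XT.nd (nat_lit 234) (nat_lit 760) (nat_lit 0) (XT.nd (nat_lit 78) (nat_lit 684) (nat_lit 0)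 (XT.lf (nat_lit 0) (nat_lit 455736371) (nat_lit 760) (nat_lit 5134758878) (nat_lit 836) (nat_lit 7417164413) (nat_lit 304) (nat_lit 5) (nat_lit 314) (nat_lit 5) (nat_lit 315) (nat_lit 5) (nat_lit 458) (nat_lit 413) (nat_lit 269)) (XT.nd (nat_lit 78) (nat_lit 684) (nat_lit 0) (XT.lf (nat_lit 0) (nat_lit 7776030064) (nat_lit 836) (nat_lit 5292456039) (nat_lit 76) (nat_lit 81393432) (nat_lit 304) (nat_lit 5) (nat_lit 315) (nat_lit 5) (nat_lit 305) (nat_lit 5) (nat_lit 459) (nat_lit 413) (nat_lit 268)) (XT.lf (nat_lit 0) (nat_lit 2091442387) (nat_lit 684) (nat_lit 7948774152) (nat_lit 760) (nat_lit 3254031556) (nat_lit 295) (nat_lit 5) (nat_lit 304) (nat_lit 5) (nat_lit 305) (nat_lit 5) (nat_lit 460) (nat_lit 413) (nat_lit 267)))) (XT.nd (nat_lit 78) (nat_lit 760) (nat_lit 0) (XT.lf (nat_lit 0) (nat_lit 9680669937) (nat_lit 684) (nat_lit 2692045305) (nat_lit 760) (nat_lit 1068331262) (nat_lit 295) (nat_lit 5) (nat_lit 304) (nat_lit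 5) (nat_lit 305) (nat_lit 5) (nat_lit 461) (nat_lit 413) (nat_lit 266)) (XT.nd (nat_lit 78) (nat_lit 0) (nat_lit 0) (XT.lf (nat_lit 0) (nat_lit 1176130489) (nat_lit 760) (nat_lit 9747910331) (nat_lit 76) (nat_lit 2665986713) (nat_lit 285) (nat_lit 5) (nat_lit 295) (nat_lit 5) (nat_lit 286) (nat_lit 5) (nat_lit 462) (nat_lit 413) (nat_lit 265)) (XT.lf (nat_lit 0) (nat_lit 3482233761) (nat_lit 760) (nat_lit 2133043236) (nat_lit 76) (nat_lit 8125951679) (nat_lit 285) (nat_lit 5) (nat_lit 295) (nat_lit 5) (nat_lit 286) (nat_lit 5) (nat_lit 463) (nat_lit 413) (nat_lit 264)))))) (XT.nd (nat_lit 390) (nat_lit 2432) (nat_lit 0) (XT.nd (nat_lit 156) (nat_lit 1368) (nat_lit 0) (XT.nd (nat_lit 78) (nat_lit 0) (nat_lit 0) (XT.lf (nat_lit 0) (nat_lit 5694965414) (nat_lit 684) (nat_lit 164522645) (nat_lit 760) (nat_lit 8035468019) (nat_lit 276) (nat_lit 5) (nat_lit 285) (nat_lit 5) (nat_lit 286) (nat_lit 5) (nat_lit 464) (nat_lit 413) (nat_lit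 263)) (XT.lf (nat_lit 0) (nat_lit 8321911322) (nat_lit 760) (nat_lit 392129161) (nat_lit 76) (nat_lit 5336967826) (nat_lit 276) (nat_lit 5) (nat_lit 286) (nat_lit 5) (nat_lit 277) (nat_lit 5) (nat_lit 465) (nat_lit 413) (nat_lit 262))) (XT.nd (nat_lit 78) (nat_lit 684) (nat_lit 0) (XT.lf (nat_lit 0) (nat_lit 7657522651) (nat_lit 684) (nat_lit 3215285042) (nat_lit 760) (nat_lit 3336592106) (nat_lit 267) (nat_lit 5) (nat_lit 276) (nat_lit 5) (nat_lit 277) (nat_lit 5) (nat_lit 466) (nat_lit 413) (nat_lit 261)) (XT.nd (nat_lit 78) (nat_lit 76) (nat_lit 0) (XT.lf (nat_lit 0) (nat_lit 1492762614) (nat_lit 608) (nat_lit 11998382003) (nat_lit 684) (nat_lit 879488702) (nat_lit 259) (nat_lit 5) (nat_lit 267) (nat_lit 5) (nat_lit 268) (nat_lit 5) (nat_lit 467) (nat_lit 413) (nat_lit 260)) (XT.lf (nat_lit 0) (nat_lit 1659572404) (nat_lit 684) (nat_lit 4793148451) (nat_lit 76) (nat_lit 8081078947) (nat_lit 258) (nat_lit 5) (nat_lit 267)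 (nat_lit 5) (nat_lit 259) (nat_lit 5) (nat_lit 468) (nat_lit 413) (nat_lit 259))))) (XT.nd (nat_lit 234) (nat_lit 1216) (nat_lit 0) (XT.nd (nat_lit 78) (nat_lit 608) (nat_lit 0) (XT.lf (nat_lit 0) (nat_lit 3479452532) (nat_lit 608) (nat_lit 769611151) (nat_lit 684) (nat_lit 10450823657) (nat_lit 250) (nat_lit 5) (nat_lit 258) (nat_lit 5) (nat_lit 259) (nat_lit 5) (nat_lit 469) (nat_lit 413) (nat_lit 258)) (XT.nd (nat_lit 78) (nat_lit 608) (nat_lit 0) (XT.lf (nat_lit 0) (nat_lit 6944300495) (nat_lit 684) (nat_lit 2932770573) (nat_lit 76) (nat_lit 4991148897) (nat_lit 250) (nat_lit 5) (nat_lit 259) (nat_lit 5) (nat_lit 251) (nat_lit 5) (nat_lit 470) (nat_lit 413) (nat_lit 257)) (XT.lf (nat_lit 0) (nat_lit 5575196866) (nat_lit 608) (nat_lit 4148695192) (nat_lit 684) (nat_lit 5315420586) (nat_lit 242) (nat_lit 5) (nat_lit 250) (nat_lit 5) (nat_lit 251) (nat_lit 5) (nat_lit 471) (nat_lit 413) (nat_lit 256)))) (XT.nd (nat_lit 78)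 (nat_lit 1216) (nat_lit 0) (XT.lf (nat_lit 0) (nat_lit 12579150217) (nat_lit 684) (nat_lit 945069769) (nat_lit 76) (nat_lit 1689208051) (nat_lit 242) (nat_lit 5) (nat_lit 251) (nat_lit 5) (nat_lit 243) (nat_lit 5) (nat_lit 472) (nat_lit 413) (nat_lit 255)) (XT.nd (nat_lit 78) (nat_lit 532) (nat_lit 0) (XT.lf (nat_lit 0) (nat_lit 167245961) (nat_lit 684) (nat_lit 7584834529) (nat_lit 76) (nat_lit 7637572943) (nat_lit 233) (nat_lit 5) (nat_lit 242) (nat_lit 5) (nat_lit 234) (nat_lit 5) (nat_lit 473) (nat_lit 413) (nat_lit 254)) (XT.lf (nat_lit 0) (nat_lit 1157562318) (nat_lit 532) (nat_lit 1835421142) (nat_lit 608) (nat_lit 12576004720) (nat_lit 226) (nat_lit 5) (nat_lit 233) (nat_lit 5) (nat_lit 234) (nat_lit 5) (nat_lit 474) (nat_lit 413) (nat_lit 253))))))) (XT.nd (nat_lit 858) (nat_lit 3116) (nat_lit 0) (XT.nd (nat_lit 390) (nat_lit 2052) (nat_lit 0) (XT.nd (nat_lit 156) (nat_lit 608) (nat_lit 0) (XT.nd (nat_lit 78) (nat_lit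 532) (nat_lit 0) (XT.lf (nat_lit 0) (nat_lit 5943361265) (nat_lit 608) (nat_lit 5614347251) (nat_lit 76) (nat_lit 4192840771) (nat_lit 226) (nat_lit 5) (nat_lit 234) (nat_lit 5) (nat_lit 227) (nat_lit 5) (nat_lit 475) (nat_lit 413) (nat_lit 252)) (XT.lf (nat_lit 0) (nat_lit 3377606281) (nat_lit 532) (nat_lit 5599052411) (nat_lit 608) (nat_lit 6958606815) (nat_lit 219) (nat_lit 5) (nat_lit 226) (nat_lit 5) (nat_lit 227) (nat_lit 5) (nat_lit 476) (nat_lit 413) (nat_lit 251))) (XT.nd (nat_lit 78) (nat_lit 608) (nat_lit 0) (XT.lf (nat_lit 0) (nat_lit 12101577005) (nat_lit 608) (nat_lit 3514083671) (nat_lit 76) (nat_lit 507398370) (nat_lit 219) (nat_lit 5) (nat_lit 227) (nat_lit 5) (nat_lit 220) (nat_lit 5) (nat_lit 477) (nat_lit 413) (nat_lit 250)) (XT.nd (nat_lit 78) (nat_lit 76) (nat_lit 0) (XT.lf (nat_lit 0) (nat_lit 5735460150) (nat_lit 532) (nat_lit 9617971046) (nat_lit 608) (nat_lit 959890559) (nat_lit 212) (nat_lit 5) (nat_lit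 219) (nat_lit 5) (nat_lit 220) (nat_lit 5) (nat_lit 478) (nat_lit 413) (nat_lit 249)) (XT.lf (nat_lit 0) (nat_lit 2148465210) (nat_lit 608) (nat_lit 1316580183) (nat_lit 76) (nat_lit 13041787439) (nat_lit 211) (nat_lit 5) (nat_lit 219) (nat_lit 5) (nat_lit 212) (nat_lit 5) (nat_lit 479) (nat_lit 413) (nat_lit 248))))) (XT.nd (nat_lit 234) (nat_lit 1064) (nat_lit 0) (XT.nd (nat_lit 78) (nat_lit 456) (nat_lit 0) (XT.lf (nat_lit 0) (nat_lit 5368487603) (nat_lit 608) (nat_lit 8503317695) (nat_lit 76) (nat_lit 2831036818) (nat_lit 204) (nat_lit 5) (nat_lit 212) (nat_lit 5) (nat_lit 205) (nat_lit 5) (nat_lit 480) (nat_lit 413) (nat_lit 247)) (XT.nd (nat_lit 78) (nat_lit 0) (nat_lit 0) (XT.lf (nat_lit 0) (nat_lit 998368200) (nat_lit 456) (nat_lit 7683305651) (nat_lit 532) (nat_lit 8220524360) (nat_lit 198) (nat_lit 5) (nat_lit 204) (nat_lit 5) (nat_lit 205) (nat_lit 5) (nat_lit 481) (nat_lit 413) (nat_lit 246)) (XT.lf (nat_lit 0) (nat_lit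 10792514968) (nat_lit 456) (nat_lit 1316215247) (nat_lit 532) (nat_lit 4995860944) (nat_lit 198) (nat_lit 5) (nat_lit 204) (nat_lit 5) (nat_lit 205) (nat_lit 5) (nat_lit 482) (nat_lit 413) (nat_lit 245)))) (XT.nd (nat_lit 78) (nat_lit 532) (nat_lit 0) (XT.lf (nat_lit 0) (nat_lit 3470659076) (nat_lit 532) (nat_lit 12180531393) (nat_lit 608) (nat_lit 1658906062) (nat_lit 191) (nat_lit 5) (nat_lit 198) (nat_lit 5) (nat_lit 199) (nat_lit 5) (nat_lit 483) (nat_lit 413) (nat_lit 244)) (XT.nd (nat_lit 78) (nat_lit 456) (nat_lit 0) (XT.lf (nat_lit 0) (nat_lit 1764005062) (nat_lit 608) (nat_lit 4017371820) (nat_lit 76) (nat_lit 11737268305) (nat_lit 190) (nat_lit 5) (nat_lit 198) (nat_lit 5) (nat_lit 191) (nat_lit 5) (nat_lit 484) (nat_lit 413) (nat_lit 243)) (XT.lf (nat_lit 0) (nat_lit 5268588715) (nat_lit 532) (nat_lit 11678647672) (nat_lit 76) (nat_lit 783202296) (nat_lit 184) (nat_lit 5) (nat_lit 191) (nat_lit 5) (nat_lit 185) (nat_lit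 5) (nat_lit 485) (nat_lit 413) (nat_lit 242)))))) (XT.nd (nat_lit 468) (nat_lit 1672) (nat_lit 0) (XT.nd (nat_lit 234) (nat_lit 532) (nat_lit 0) (XT.nd (nat_lit 78) (nat_lit 912) (nat_lit 0) (XT.lf (nat_lit 0) (nat_lit 8899690191) (nat_lit 532) (nat_lit 1620218650) (nat_lit 76) (nat_lit 7425432367) (nat_lit 184) (nat_lit 5) (nat_lit 191) (nat_lit 5) (nat_lit 185) (nat_lit 5) (nat_lit 486) (nat_lit 413) (nat_lit 241)) (XT.nd (nat_lit 78) (nat_lit 456) (nat_lit 0) (XT.lf (nat_lit 0) (nat_lit 8741657151) (nat_lit 456) (nat_lit 3909691291) (nat_lit 532) (nat_lit 5512236297) (nat_lit 178) (nat_lit 5) (nat_lit 184) (nat_lit 5) (nat_lit 185) (nat_lit 5) (nat_lit 487) (nat_lit 413) (nat_lit 240)) (XT.lf (nat_lit 0) (nat_lit 928022584) (nat_lit 456) (nat_lit 15576627288) (nat_lit 532) (nat_lit 1881012685) (nat_lit 172) (nat_lit 5) (nat_lit 178) (nat_lit 5) (nat_lit 179) (nat_lit 5) (nat_lit 488) (nat_lit 413) (nat_lit 239)))) (XT.nd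 (nat_lit 78) (nat_lit 456) (nat_lit 0) (XT.lf (nat_lit 0) (nat_lit 1879746011) (nat_lit 532) (nat_lit 7048852182) (nat_lit 76) (nat_lit 9681732241) (nat_lit 171) (nat_lit 5) (nat_lit 178) (nat_lit 5) (nat_lit 172) (nat_lit 5) (nat_lit 489) (nat_lit 413) (nat_lit 238)) (XT.nd (nat_lit 78) (nat_lit 0) (nat_lit 0) (XT.lf (nat_lit 0) (nat_lit 3590511715) (nat_lit 456) (nat_lit 2114808524) (nat_lit 532) (nat_lit 13133628543) (nat_lit 165) (nat_lit 5) (nat_lit 171) (nat_lit 5) (nat_lit 172) (nat_lit 5) (nat_lit 490) (nat_lit 413) (nat_lit 237)) (XT.lf (nat_lit 0) (nat_lit 9677930740) (nat_lit 532) (nat_lit 4576987531) (nat_lit 76) (nat_lit 4815812223) (nat_lit 165) (nat_lit 5) (nat_lit 172) (nat_lit 5) (nat_lit 166) (nat_lit 5) (nat_lit 491) (nat_lit 413) (nat_lit 236))))) (XT.nd (nat_lit 234) (nat_lit 760) (nat_lit 0) (XT.nd (nat_lit 78) (nat_lit 532) (nat_lit 0) (XT.lf (nat_lit 0) (nat_lit 6365309933) (nat_lit 380) (nat_lit 7411699363)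 (nat_lit 456) (nat_lit 5529199692) (nat_lit 160) (nat_lit 5) (nat_lit 165) (nat_lit 5) (nat_lit 166) (nat_lit 5) (nat_lit 492) (nat_lit 413) (nat_lit 235)) (XT.nd (nat_lit 78) (nat_lit 532) (nat_lit 0) (XT.lf (nat_lit 0) (nat_lit 17576517052) (nat_lit 380) (nat_lit 404034355) (nat_lit 456) (nat_lit 1565397441) (nat_lit 160) (nat_lit 5) (nat_lit 165) (nat_lit 5) (nat_lit 166) (nat_lit 5) (nat_lit 493) (nat_lit 413) (nat_lit 234)) (XT.lf (nat_lit 0) (nat_lit 2541811910) (nat_lit 532) (nat_lit 10517681877) (nat_lit 76) (nat_lit 6728736838) (nat_lit 153) (nat_lit 5) (nat_lit 160) (nat_lit 5) (nat_lit 154) (nat_lit 5) (nat_lit 494) (nat_lit 413) (nat_lit 233)))) (XT.nd (nat_lit 78) (nat_lit 380) (nat_lit 0) (XT.lf (nat_lit 0) (nat_lit 711215916) (nat_lit 380) (nat_lit 6011538511) (nat_lit 456) (nat_lit 13312147024) (nat_lit 148) (nat_lit 5) (nat_lit 153) (nat_lit 5) (nat_lit 154) (nat_lit 5) (nat_lit 495) (nat_lit 413) (nat_lit 232))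 (XT.nd (nat_lit 78) (nat_lit 380) (nat_lit 0) (XT.lf (nat_lit 0) (nat_lit 11057996236) (nat_lit 456) (nat_lit 7997914929) (nat_lit 76) (nat_lit 1229182246) (nat_lit 148) (nat_lit 5) (nat_lit 154) (nat_lit 5) (nat_lit 149) (nat_lit 5) (nat_lit 496) (nat_lit 413) (nat_lit 231)) (XT.lf (nat_lit 0) (nat_lit 3549374264) (nat_lit 380) (nat_lit 11985571632) (nat_lit 456) (nat_lit 5004244555) (nat_lit 143) (nat_lit 5) (nat_lit 148) (nat_lit 5) (nat_lit 149) (nat_lit 5) (nat_lit 497) (nat_lit 413) (nat_lit 230))))))))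
noncomputable def xc173 : XT := (XT.nd (nat_lit 53820) (nat_lit 0) (nat_lit 19000) (XT.nd (nat_lit 52962) (nat_lit 0) (nat_lit 27740) (XT.nd (nat_lit 390) (nat_lit 760) (nat_lit 0) (XT.nd (nat_lit 156) (nat_lit 684) (nat_lit 0) (XT.nd (nat_lit 78) (nat_lit 456) (nat_lit 0) (XT.lf (nat_lit 0) (nat_lit 15424364301) (nat_lit 380) (nat_lit 4722965369) (nat_lit 456) (nat_lit 650123134) (nat_lit 143) (nat_lit 5) (nat_lit 148) (nat_lit 5) (nat_lit 149) (nat_lit 5) (nat_lit 498) (nat_lit 413) (nat_lit 229)) (XT.lf (nat_lit 0) (nat_lit 3793903564) (nat_lit 456) (nat_lit 14552138093) (nat_lit 76) (nat_lit 2713296816) (nat_lit 137) (nat_lit 5) (nat_lit 143) (nat_lit 5) (nat_lit 138) (nat_lit 5) (nat_lit 499) (nat_lit 413) (nat_lit 228))) (XT.nd (nat_lit 78) (nat_lit 684) (nat_lit 0) (XT.lf (nat_lit 0) (nat_lit 8378063409) (nat_lit 456) (nat_lit 2675219835) (nat_lit 76) (nat_lit 10271894713) (nat_lit 137) (nat_lit 5) (nat_lit 143) (nat_lit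 5) (nat_lit 138) (nat_lit 5) (nat_lit 500) (nat_lit 413) (nat_lit 227)) (XT.nd (nat_lit 78) (nat_lit 304) (nat_lit 0) (XT.lf (nat_lit 0) (nat_lit 9553169872) (nat_lit 380) (nat_lit 3555288241) (nat_lit 456) (nat_lit 8486786262) (nat_lit 132) (nat_lit 5) (nat_lit 137) (nat_lit 5) (nat_lit 138) (nat_lit 5) (nat_lit 501) (nat_lit 413) (nat_lit 226)) (XT.lf (nat_lit 0) (nat_lit 155984491) (nat_lit 304) (nat_lit 17815706525) (nat_lit 380) (nat_lit 3898257653) (nat_lit 128) (nat_lit 5) (nat_lit 132) (nat_lit 5) (nat_lit 133) (nat_lit 5) (nat_lit 502) (nat_lit 413) (nat_lit 225))))) (XT.nd (nat_lit 234) (nat_lit 304) (nat_lit 0) (XT.nd (nat_lit 78) (nat_lit 380) (nat_lit 0) (XT.lf (nat_lit 0) (nat_lit 869270109) (nat_lit 380) (nat_lit 9427882499) (nat_lit 76) (nat_lit 11850944298) (nat_lit 127) (nat_lit 5) (nat_lit 132) (nat_lit 5) (nat_lit 128) (nat_lit 5) (nat_lit 503) (nat_lit 413) (nat_lit 224)) (XT.nd (nat_lit 78) (nat_lit 0)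 (nat_lit 0) (XT.lf (nat_lit 0) (nat_lit 3107654008) (nat_lit 380) (nat_lit 2585264089) (nat_lit 456) (nat_lit 16738116401) (nat_lit 122) (nat_lit 5) (nat_lit 127) (nat_lit 5) (nat_lit 128) (nat_lit 5) (nat_lit 504) (nat_lit 413) (nat_lit 223)) (XT.lf (nat_lit 0) (nat_lit 10703796947) (nat_lit 456) (nat_lit 6742626139) (nat_lit 76) (nat_lit 5271393664) (nat_lit 122) (nat_lit 5) (nat_lit 128) (nat_lit 5) (nat_lit 123) (nat_lit 5) (nat_lit 505) (nat_lit 413) (nat_lit 222)))) (XT.nd (nat_lit 52182) (nat_lit 0) (nat_lit 30552) (XT.lf (nat_lit 0) (nat_lit 6142144884) (nat_lit 304) (nat_lit 9722675781) (nat_lit 380) (nat_lit 7144516483) (nat_lit 118) (nat_lit 5) (nat_lit 122) (nat_lit 5) (nat_lit 123) (nat_lit 5) (nat_lit 506) (nat_lit 413) (nat_lit 221)) (XT.nd (nat_lit 78) (nat_lit 0) (nat_lit 0) (XT.lf (nat_lit 0) (nat_lit 1399145559) (nat_lit 0) (nat_lit 1399145559) (nat_lit 1444) (nat_lit 1533277050) (nat_lit 520) (nat_lit 5)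 (nat_lit 520) (nat_lit 3) (nat_lit 539) (nat_lit 3) (nat_lit 414) (nat_lit 414) (nat_lit 312)) (XT.lf (nat_lit 0) (nat_lit 6630725365) (nat_lit 1444) (nat_lit 1673272856) (nat_lit 1520) (nat_lit 425893264) (nat_lit 520) (nat_lit 5) (nat_lit 539) (nat_lit 3) (nat_lit 540) (nat_lit 5) (nat_lit 415) (nat_lit 414) (nat_lit 311)))))) (XT.nd (nat_lit 390) (nat_lit 1368) (nat_lit 0) (XT.nd (nat_lit 156) (nat_lit 1444) (nat_lit 0) (XT.nd (nat_lit 78) (nat_lit 0) (nat_lit 0) (XT.lf (nat_lit 76) (nat_lit 2604360713) (nat_lit 0) (nat_lit 5091130215) (nat_lit 1520) (nat_lit 1102300218) (nat_lit 521) (nat_lit 5) (nat_lit 520) (nat_lit 5) (nat_lit 540) (nat_lit 5) (nat_lit 416) (nat_lit 414) (nat_lit 310)) (XT.lf (nat_lit 76) (nat_lit 6976921566) (nat_lit 0) (nat_lit 1790771017) (nat_lit 1520) (nat_lit 99641442) (nat_lit 521) (nat_lit 5) (nat_lit 520) (nat_lit 5) (nat_lit 540) (nat_lit 5) (nat_lit 417) (nat_lit 414) (nat_lit 309))) (XT.nd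 (nat_lit 78) (nat_lit 0) (nat_lit 0) (XT.lf (nat_lit 0) (nat_lit 912960308) (nat_lit 1520) (nat_lit 6436538005) (nat_lit 1596) (nat_lit 1588617391) (nat_lit 501) (nat_lit 5) (nat_lit 521) (nat_lit 5) (nat_lit 522) (nat_lit 5) (nat_lit 418) (nat_lit 414) (nat_lit 308)) (XT.nd (nat_lit 78) (nat_lit 0) (nat_lit 0) (XT.lf (nat_lit 0) (nat_lit 1944814903) (nat_lit 1520) (nat_lit 2029491650) (nat_lit 1596) (nat_lit 5035994171) (nat_lit 501) (nat_lit 5) (nat_lit 521) (nat_lit 5) (nat_lit 522) (nat_lit 5) (nat_lit 419) (nat_lit 414) (nat_lit 307)) (XT.lf (nat_lit 76) (nat_lit 2484692878) (nat_lit 0) (nat_lit 504927039) (nat_lit 1596) (nat_lit 6094470686) (nat_lit 502) (nat_lit 5) (nat_lit 501) (nat_lit 5) (nat_lit 522) (nat_lit 5) (nat_lit 420) (nat_lit 414) (nat_lit 306))))) (XT.nd (nat_lit 234) (nat_lit 1444) (nat_lit 0) (XT.nd (nat_lit 78) (nat_lit 0) (nat_lit 0) (XT.lf (nat_lit 0) (nat_lit 4065352853) (nat_lit 1520) (nat_lit 2076241551)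 (nat_lit 1596) (nat_lit 3017568524) (nat_lit 502) (nat_lit 5) (nat_lit 522) (nat_lit 5) (nat_lit 523) (nat_lit 5) (nat_lit 421) (nat_lit 414) (nat_lit 305)) (XT.nd (nat_lit 78) (nat_lit 0) (nat_lit 76) (XT.lf (nat_lit 76) (nat_lit 2553761066) (nat_lit 0) (nat_lit 2605847281) (nat_lit 1596) (nat_lit 4076195333) (nat_lit 503) (nat_lit 5) (nat_lit 502) (nat_lit 5) (nat_lit 523) (nat_lit 5) (nat_lit 422) (nat_lit 414) (nat_lit 304)) (XT.lf (nat_lit 0) (nat_lit 6273772072) (nat_lit 1520) (nat_lit 2029970828) (nat_lit 1596) (nat_lit 1010280885) (nat_lit 503) (nat_lit 5) (nat_lit 523) (nat_lit 5) (nat_lit 524) (nat_lit 5) (nat_lit 423) (nat_lit 414) (nat_lit 303)))) (XT.nd (nat_lit 78) (nat_lit 1520) (nat_lit 0) (XT.lf (nat_lit 76) (nat_lit 2719640914) (nat_lit 0) (nat_lit 4703435803) (nat_lit 1596) (nat_lit 1970481283) (nat_lit 504) (nat_lit 5) (nat_lit 503) (nat_lit 5) (nat_lit 524) (nat_lit 5) (nat_lit 424) (nat_lit 414) (nat_lit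 302)) (XT.nd (nat_lit 78) (nat_lit 1520) (nat_lit 0) (XT.lf (nat_lit 76) (nat_lit 7577940422) (nat_lit 0) (nat_lit 1009334636) (nat_lit 1596) (nat_lit 887576420) (nat_lit 504) (nat_lit 5) (nat_lit 503) (nat_lit 5) (nat_lit 524) (nat_lit 5) (nat_lit 425) (nat_lit 414) (nat_lit 301)) (XT.lf (nat_lit 0) (nat_lit 230279243) (nat_lit 1596) (nat_lit 6576160286) (nat_lit 1672) (nat_lit 2750986816) (nat_lit 483) (nat_lit 5) (nat_lit 504) (nat_lit 5) (nat_lit 505) (nat_lit 5) (nat_lit 426) (nat_lit 414) (nat_lit 300))))))) (XT.nd (nat_lit 858) (nat_lit 7296) (nat_lit 0) (XT.nd (nat_lit 390) (nat_lit 1444) (nat_lit 0) (XT.nd (nat_lit 156) (nat_lit 0) (nat_lit 76) (XT.nd (nat_lit 78) (nat_lit 0) (nat_lit 76) (XT.lf (nat_lit 0) (nat_lit 1357058891) (nat_lit 1596) (nat_lit 1685551632) (nat_lit 1672) (nat_lit 6598962157) (nat_lit 483) (nat_lit 5) (nat_lit 504) (nat_lit 5) (nat_lit 505) (nat_lit 5) (nat_lit 427) (nat_lit 414) (nat_lit 299))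 (XT.lf (nat_lit 0) (nat_lit 2512725318) (nat_lit 1596) (nat_lit 6400116997) (nat_lit 1672) (nat_lit 814438820) (nat_lit 484) (nat_lit 5) (nat_lit 505) (nat_lit 5) (nat_lit 506) (nat_lit 5) (nat_lit 428) (nat_lit 414) (nat_lit 298))) (XT.nd (nat_lit 78) (nat_lit 0) (nat_lit 0) (XT.lf (nat_lit 0) (nat_lit 3702752917) (nat_lit 1596) (nat_lit 1386030600) (nat_lit 1672) (nat_lit 4725701378) (nat_lit 484) (nat_lit 5) (nat_lit 505) (nat_lit 5) (nat_lit 506) (nat_lit 5) (nat_lit 429) (nat_lit 414) (nat_lit 297)) (XT.nd (nat_lit 78) (nat_lit 0) (nat_lit 76) (XT.lf (nat_lit 76) (nat_lit 3763668581) (nat_lit 0) (nat_lit 1157458779) (nat_lit 1672) (nat_lit 4982220419) (nat_lit 485) (nat_lit 5) (nat_lit 484) (nat_lit 5) (nat_lit 506) (nat_lit 5) (nat_lit 430) (nat_lit 414) (nat_lit 296)) (XT.lf (nat_lit 0) (nat_lit 6172198422) (nat_lit 1596) (nat_lit 991606210) (nat_lit 1672) (nat_lit 2830022564) (nat_lit 485) (nat_lit 5) (nat_lit 506) (nat_lit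 5) (nat_lit 507) (nat_lit 5) (nat_lit 431) (nat_lit 414) (nat_lit 295))))) (XT.nd (nat_lit 234) (nat_lit 1596) (nat_lit 0) (XT.nd (nat_lit 78) (nat_lit 0) (nat_lit 76) (XT.lf (nat_lit 76) (nat_lit 4293988997) (nat_lit 0) (nat_lit 3170676292) (nat_lit 1672) (nat_lit 2621129166) (nat_lit 486) (nat_lit 5) (nat_lit 485) (nat_lit 5) (nat_lit 507) (nat_lit 5) (nat_lit 432) (nat_lit 414) (nat_lit 294)) (XT.nd (nat_lit 78) (nat_lit 0) (nat_lit 0) (XT.lf (nat_lit 0) (nat_lit 8776684599) (nat_lit 1596) (nat_lit 501045634) (nat_lit 1672) (nat_lit 902002394) (nat_lit 486) (nat_lit 5) (nat_lit 507) (nat_lit 5) (nat_lit 508) (nat_lit 5) (nat_lit 433) (nat_lit 414) (nat_lit 293)) (XT.lf (nat_lit 76) (nat_lit 4924993551) (nat_lit 0) (nat_lit 5224441014) (nat_lit 1672) (nat_lit 125430711) (nat_lit 487) (nat_lit 5) (nat_lit 486) (nat_lit 5) (nat_lit 508) (nat_lit 5) (nat_lit 434) (nat_lit 414) (nat_lit 292)))) (XT.nd (nat_lit 78) (nat_lit 0)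 (nat_lit 76) (XT.lf (nat_lit 76) (nat_lit 73521096) (nat_lit 0) (nat_lit 1074294918) (nat_lit 1748) (nat_lit 9224226471) (nat_lit 465) (nat_lit 5) (nat_lit 464) (nat_lit 5) (nat_lit 487) (nat_lit 5) (nat_lit 435) (nat_lit 414) (nat_lit 291)) (XT.nd (nat_lit 78) (nat_lit 0) (nat_lit 0) (XT.lf (nat_lit 0) (nat_lit 2483451357) (nat_lit 1672) (nat_lit 4828706356) (nat_lit 1748) (nat_lit 3158222078) (nat_lit 465) (nat_lit 5) (nat_lit 487) (nat_lit 5) (nat_lit 488) (nat_lit 5) (nat_lit 436) (nat_lit 414) (nat_lit 290)) (XT.lf (nat_lit 76) (nat_lit 738781627) (nat_lit 0) (nat_lit 3101236864) (nat_lit 1748) (nat_lit 6730786071) (nat_lit 466) (nat_lit 5) (nat_lit 465) (nat_lit 5) (nat_lit 488) (nat_lit 5) (nat_lit 437) (nat_lit 414) (nat_lit 289)))))) (XT.nd (nat_lit 468) (nat_lit 2660) (nat_lit 0) (XT.nd (nat_lit 234) (nat_lit 3116) (nat_lit 0) (XT.nd (nat_lit 78) (nat_lit 1672) (nat_lit 0) (XT.lf (nat_lit 0) (nat_lit 5246669890) (nat_lit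 1672) (nat_lit 4212060948) (nat_lit 76) (nat_lit 1214052930) (nat_lit 466) (nat_lit 5) (nat_lit 488) (nat_lit 5) (nat_lit 467) (nat_lit 5) (nat_lit 438) (nat_lit 414) (nat_lit 288)) (XT.nd (nat_lit 78) (nat_lit 0) (nat_lit 0) (XT.lf (nat_lit 0) (nat_lit 1505210509) (nat_lit 1672) (nat_lit 5189479689) (nat_lit 1748) (nat_lit 4081852545) (nat_lit 444) (nat_lit 5) (nat_lit 466) (nat_lit 5) (nat_lit 467) (nat_lit 5) (nat_lit 439) (nat_lit 414) (nat_lit 287)) (XT.lf (nat_lit 0) (nat_lit 7379724137) (nat_lit 1672) (nat_lit 803379598) (nat_lit 1748) (nat_lit 2699049310) (nat_lit 444) (nat_lit 5) (nat_lit 466) (nat_lit 5) (nat_lit 467) (nat_lit 5) (nat_lit 440) (nat_lit 414) (nat_lit 286)))) (XT.nd (nat_lit 78) (nat_lit 1368) (nat_lit 0) (XT.lf (nat_lit 0) (nat_lit 2374896773) (nat_lit 1748) (nat_lit 7349153608) (nat_lit 1824) (nat_lit 1265374585) (nat_lit 421) (nat_lit 5) (nat_lit 444) (nat_lit 5) (nat_lit 445) (nat_lit 5) (nat_lit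 441) (nat_lit 414) (nat_lit 285)) (XT.nd (nat_lit 78) (nat_lit 1292) (nat_lit 0) (XT.lf (nat_lit 0) (nat_lit 207002949) (nat_lit 1824) (nat_lit 2702281977) (nat_lit 76) (nat_lit 8189284097) (nat_lit 420) (nat_lit 5) (nat_lit 444) (nat_lit 5) (nat_lit 421) (nat_lit 5) (nat_lit 442) (nat_lit 414) (nat_lit 284)) (XT.lf (nat_lit 0) (nat_lit 1708329135) (nat_lit 1368) (nat_lit 7870702268) (nat_lit 76) (nat_lit 1630372826) (nat_lit 403) (nat_lit 5) (nat_lit 421) (nat_lit 5) (nat_lit 404) (nat_lit 5) (nat_lit 443) (nat_lit 414) (nat_lit 283))))) (XT.nd (nat_lit 234) (nat_lit 1748) (nat_lit 0) (XT.nd (nat_lit 78) (nat_lit 912) (nat_lit 0) (XT.lf (nat_lit 0) (nat_lit 3261392075) (nat_lit 1368) (nat_lit 1818701946) (nat_lit 76) (nat_lit 6241932265) (nat_lit 403) (nat_lit 5) (nat_lit 421) (nat_lit 5) (nat_lit 404) (nat_lit 5) (nat_lit 444) (nat_lit 414) (nat_lit 282)) (XT.nd (nat_lit 78) (nat_lit 0) (nat_lit 0) (XT.lf (nat_lit 0) (nat_lit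 4397942378) (nat_lit 912) (nat_lit 460627878) (nat_lit 988) (nat_lit 6578073714) (nat_lit 391) (nat_lit 5) (nat_lit 403) (nat_lit 5) (nat_lit 404) (nat_lit 5) (nat_lit 445) (nat_lit 414) (nat_lit 281)) (XT.lf (nat_lit 0) (nat_lit 6512300296) (nat_lit 988) (nat_lit 831721560) (nat_lit 76) (nat_lit 4209044170) (nat_lit 391) (nat_lit 5) (nat_lit 404) (nat_lit 5) (nat_lit 392) (nat_lit 5) (nat_lit 446) (nat_lit 414) (nat_lit 280)))) (XT.nd (nat_lit 78) (nat_lit 912) (nat_lit 0) (XT.lf (nat_lit 0) (nat_lit 5555183613) (nat_lit 836) (nat_lit 2668060591) (nat_lit 912) (nat_lit 3448093635) (nat_lit 380) (nat_lit 5) (nat_lit 391) (nat_lit 5) (nat_lit 392) (nat_lit 5) (nat_lit 447) (nat_lit 414) (nat_lit 279)) (XT.nd (nat_lit 78) (nat_lit 0) (nat_lit 0) (XT.lf (nat_lit 0) (nat_lit 264795732) (nat_lit 912) (nat_lit 9709822141) (nat_lit 988) (nat_lit 1817237019) (nat_lit 368) (nat_lit 5) (nat_lit 380) (nat_lit 5) (nat_lit 381) (nat_lit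 5) (nat_lit 448) (nat_lit 414) (nat_lit 278)) (XT.lf (nat_lit 0) (nat_lit 6824226355) (nat_lit 912) (nat_lit 4980815699) (nat_lit 988) (nat_lit 108863710) (nat_lit 368) (nat_lit 5) (nat_lit 380) (nat_lit 5) (nat_lit 381) (nat_lit 5) (nat_lit 449) (nat_lit 414) (nat_lit 277))))))))
noncomputable def xc174 : XT := (XT.nd (nat_lit 1716) (nat_lit 6840) (nat_lit 0) (XT.nd (nat_lit 858) (nat_lit 4104) (nat_lit 0) (XT.nd (nat_lit 390) (nat_lit 2356) (nat_lit 0) (XT.nd (nat_lit 156) (nat_lit 1596) (nat_lit 0) (XT.nd (nat_lit 78) (nat_lit 0) (nat_lit 0) (XT.lf (nat_lit 0) (nat_lit 1471076426) (nat_lit 836) (nat_lit 136340577) (nat_lit 912) (nat_lit 10430868984) (nat_lit 356) (nat_lit 5) (nat_lit 367) (nat_lit 5) (nat_lit 368) (nat_lit 5) (nat_lit 450) (nat_lit 414) (nat_lit 276)) (XT.lf (nat_lit 0) (nat_lit 3407952609) (nat_lit 912) (nat_lit 3978830560) (nat_lit 76) (nat_lit 4777332230) (nat_lit 356) (nat_lit 5) (nat_lit 368) (nat_lit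 5) (nat_lit 357) (nat_lit 5) (nat_lit 451) (nat_lit 414) (nat_lit 275))) (XT.nd (nat_lit 78) (nat_lit 760) (nat_lit 0) (XT.lf (nat_lit 0) (nat_lit 2762670918) (nat_lit 836) (nat_lit 2486753878) (nat_lit 912) (nat_lit 7042941726) (nat_lit 345) (nat_lit 5) (nat_lit 356) (nat_lit 5) (nat_lit 357) (nat_lit 5) (nat_lit 452) (nat_lit 414) (nat_lit 274)) (XT.nd (nat_lit 78) (nat_lit 760) (nat_lit 0) (XT.lf (nat_lit 0) (nat_lit 7157175730) (nat_lit 912) (nat_lit 2760354219) (nat_lit 76) (nat_lit 2505067302) (nat_lit 345) (nat_lit 5) (nat_lit 357) (nat_lit 5) (nat_lit 346) (nat_lit 5) (nat_lit 453) (nat_lit 414) (nat_lit 273)) (XT.lf (nat_lit 0) (nat_lit 4168695891) (nat_lit 760) (nat_lit 4964457126) (nat_lit 836) (nat_lit 3421681653) (nat_lit 335) (nat_lit 5) (nat_lit 345) (nat_lit 5) (nat_lit 346) (nat_lit 5) (nat_lit 454) (nat_lit 414) (nat_lit 272))))) (XT.nd (nat_lit 234) (nat_lit 1520) (nat_lit 0) (XT.nd (nat_lit 78) (nat_lit 836)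 (nat_lit 0) (XT.lf (nat_lit 0) (nat_lit 11154573215) (nat_lit 836) (nat_lit 1430351303) (nat_lit 76) (nat_lit 104677283) (nat_lit 335) (nat_lit 5) (nat_lit 346) (nat_lit 5) (nat_lit 336) (nat_lit 5) (nat_lit 455) (nat_lit 414) (nat_lit 271)) (XT.nd (nat_lit 78) (nat_lit 0) (nat_lit 0) (XT.lf (nat_lit 0) (nat_lit 441429577) (nat_lit 836) (nat_lit 7136283807) (nat_lit 76) (nat_lit 5248160058) (nat_lit 324) (nat_lit 5) (nat_lit 335) (nat_lit 5) (nat_lit 325) (nat_lit 5) (nat_lit 456) (nat_lit 414) (nat_lit 270)) (XT.lf (nat_lit 0) (nat_lit 2433590867) (nat_lit 836) (nat_lit 17456093) (nat_lit 76) (nat_lit 10513689299) (nat_lit 324) (nat_lit 5) (nat_lit 335) (nat_lit 5) (nat_lit 325) (nat_lit 5) (nat_lit 457) (nat_lit 414) (nat_lit 269)))) (XT.nd (nat_lit 78) (nat_lit 760) (nat_lit 0) (XT.lf (nat_lit 0) (nat_lit 4518809782) (nat_lit 836) (nat_lit 5797790369) (nat_lit 76) (nat_lit 2788715063) (nat_lit 314) (nat_lit 5) (nat_lit 325)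 (nat_lit 5) (nat_lit 315) (nat_lit 5) (nat_lit 458) (nat_lit 414) (nat_lit 268)) (XT.nd (nat_lit 78) (nat_lit 0) (nat_lit 0) (XT.lf (nat_lit 0) (nat_lit 1520494638) (nat_lit 760) (nat_lit 5138916343) (nat_lit 836) (nat_lit 6589024319) (nat_lit 304) (nat_lit 5) (nat_lit 314) (nat_lit 5) (nat_lit 315) (nat_lit 5) (nat_lit 459) (nat_lit 414) (nat_lit 267)) (XT.lf (nat_lit 0) (nat_lit 8870516939) (nat_lit 836) (nat_lit 4344990137) (nat_lit 76) (nat_lit 178359902) (nat_lit 304) (nat_lit 5) (nat_lit 315) (nat_lit 5) (nat_lit 305) (nat_lit 5) (nat_lit 460) (nat_lit 414) (nat_lit 266)))))) (XT.nd (nat_lit 390) (nat_lit 1976) (nat_lit 0) (XT.nd (nat_lit 156) (nat_lit 1444) (nat_lit 0) (XT.nd (nat_lit 78) (nat_lit 0) (nat_lit 0) (XT.lf (nat_lit 0) (nat_lit 3179656553) (nat_lit 684) (nat_lit 7988713314) (nat_lit 760) (nat_lit 2372989913) (nat_lit 295) (nat_lit 5) (nat_lit 304) (nat_lit 5) (nat_lit 305) (nat_lit 5) (nat_lit 461) (nat_lit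 414) (nat_lit 265)) (XT.lf (nat_lit 0) (nat_lit 10900151295) (nat_lit 684) (nat_lit 2629183936) (nat_lit 760) (nat_lit 162127030) (nat_lit 295) (nat_lit 5) (nat_lit 304) (nat_lit 5) (nat_lit 305) (nat_lit 5) (nat_lit 462) (nat_lit 414) (nat_lit 264))) (XT.nd (nat_lit 78) (nat_lit 684) (nat_lit 0) (XT.lf (nat_lit 0) (nat_lit 2104632532) (nat_lit 760) (nat_lit 8893978402) (nat_lit 76) (nat_lit 2844904316) (nat_lit 285) (nat_lit 5) (nat_lit 295) (nat_lit 5) (nat_lit 286) (nat_lit 5) (nat_lit 463) (nat_lit 414) (nat_lit 263)) (XT.nd (nat_lit 78) (nat_lit 684) (nat_lit 0) (XT.lf (nat_lit 0) (nat_lit 4439113176) (nat_lit 760) (nat_lit 1147380438) (nat_lit 76) (nat_lit 8411605877) (nat_lit 285) (nat_lit 5) (nat_lit 295) (nat_lit 5) (nat_lit 286) (nat_lit 5) (nat_lit 464) (nat_lit 414) (nat_lit 262)) (XT.lf (nat_lit 0) (nat_lit 6830423097) (nat_lit 684) (nat_lit 22725337) (nat_lit 760) (nat_lit 7301972389) (nat_lit 276) (nat_lit 5)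 (nat_lit 285) (nat_lit 5) (nat_lit 286) (nat_lit 5) (nat_lit 465) (nat_lit 414) (nat_lit 261))))) (XT.nd (nat_lit 234) (nat_lit 684) (nat_lit 0) (XT.nd (nat_lit 78) (nat_lit 608) (nat_lit 0) (XT.lf (nat_lit 0) (nat_lit 626232330) (nat_lit 684) (nat_lit 8726391584) (nat_lit 760) (nat_lit 4961918129) (nat_lit 267) (nat_lit 5) (nat_lit 276) (nat_lit 5) (nat_lit 277) (nat_lit 5) (nat_lit 466) (nat_lit 414) (nat_lit 260)) (XT.nd (nat_lit 78) (nat_lit 608) (nat_lit 0) (XT.lf (nat_lit 0) (nat_lit 8821966721) (nat_lit 684) (nat_lit 3118204733) (nat_lit 760) (nat_lit 2536221184) (nat_lit 267) (nat_lit 5) (nat_lit 276) (nat_lit 5) (nat_lit 277) (nat_lit 5) (nat_lit 467) (nat_lit 414) (nat_lit 259)) (XT.lf (nat_lit 0) (nat_lit 2543299335) (nat_lit 608) (nat_lit 12058565147) (nat_lit 684) (nat_lit 39170421) (nat_lit 259) (nat_lit 5) (nat_lit 267) (nat_lit 5) (nat_lit 268) (nat_lit 5) (nat_lit 468) (nat_lit 414) (nat_lit 258)))) (XT.nd (nat_lit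 78) (nat_lit 608) (nat_lit 0) (XT.lf (nat_lit 0) (nat_lit 2522819181) (nat_lit 684) (nat_lit 3877126672) (nat_lit 76) (nat_lit 8407743196) (nat_lit 258) (nat_lit 5) (nat_lit 267) (nat_lit 5) (nat_lit 259) (nat_lit 5) (nat_lit 469) (nat_lit 414) (nat_lit 257)) (XT.nd (nat_lit 78) (nat_lit 0) (nat_lit 0) (XT.lf (nat_lit 0) (nat_lit 4554269194) (nat_lit 608) (nat_lit 600082102) (nat_lit 684) (nat_lit 9822945662) (nat_lit 250) (nat_lit 5) (nat_lit 258) (nat_lit 5) (nat_lit 259) (nat_lit 5) (nat_lit 470) (nat_lit 414) (nat_lit 256)) (XT.lf (nat_lit 0) (nat_lit 7888585496) (nat_lit 684) (nat_lit 1990822937) (nat_lit 76) (nat_lit 5269889518) (nat_lit 250) (nat_lit 5) (nat_lit 259) (nat_lit 5) (nat_lit 251) (nat_lit 5) (nat_lit 471) (nat_lit 414) (nat_lit 255))))))) (XT.nd (nat_lit 858) (nat_lit 2888) (nat_lit 0) (XT.nd (nat_lit 390) (nat_lit 2128) (nat_lit 0) (XT.nd (nat_lit 156) (nat_lit 608) (nat_lit 0) (XT.nd (nat_lit 78) (nat_lit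 608) (nat_lit 0) (XT.lf (nat_lit 0) (nat_lit 6680720937) (nat_lit 608) (nat_lit 4033709655) (nat_lit 684) (nat_lit 4609572157) (nat_lit 242) (nat_lit 5) (nat_lit 250) (nat_lit 5) (nat_lit 251) (nat_lit 5) (nat_lit 472) (nat_lit 414) (nat_lit 254)) (XT.lf (nat_lit 0) (nat_lit 25412116) (nat_lit 608) (nat_lit 13587197838) (nat_lit 684) (nat_lit 1889277605) (nat_lit 234) (nat_lit 5) (nat_lit 242) (nat_lit 5) (nat_lit 243) (nat_lit 5) (nat_lit 473) (nat_lit 414) (nat_lit 253))) (XT.nd (nat_lit 78) (nat_lit 532) (nat_lit 0) (XT.lf (nat_lit 0) (nat_lit 948637837) (nat_lit 684) (nat_lit 6743483451) (nat_lit 76) (nat_lit 7989599430) (nat_lit 233) (nat_lit 5) (nat_lit 242) (nat_lit 5) (nat_lit 234) (nat_lit 5) (nat_lit 474) (nat_lit 414) (nat_lit 252)) (XT.nd (nat_lit 78) (nat_lit 0) (nat_lit 0) (XT.lf (nat_lit 0) (nat_lit 2167228124) (nat_lit 532) (nat_lit 1654811246) (nat_lit 608) (nat_lit 12042783036) (nat_lit 226) (nat_lit 5) (nat_lit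 233) (nat_lit 5) (nat_lit 234) (nat_lit 5) (nat_lit 475) (nat_lit 414) (nat_lit 251)) (XT.lf (nat_lit 0) (nat_lit 6817725760) (nat_lit 608) (nat_lit 4745605644) (nat_lit 76) (nat_lit 4486960479) (nat_lit 226) (nat_lit 5) (nat_lit 234) (nat_lit 5) (nat_lit 227) (nat_lit 5) (nat_lit 476) (nat_lit 414) (nat_lit 250))))) (XT.nd (nat_lit 234) (nat_lit 1064) (nat_lit 0) (XT.nd (nat_lit 78) (nat_lit 532) (nat_lit 0) (XT.lf (nat_lit 0) (nat_lit 4419732823) (nat_lit 532) (nat_lit 5483470224) (nat_lit 608) (nat_lit 6335672210) (nat_lit 219) (nat_lit 5) (nat_lit 226) (nat_lit 5) (nat_lit 227) (nat_lit 5) (nat_lit 477) (nat_lit 414) (nat_lit 249)) (XT.nd (nat_lit 78) (nat_lit 532) (nat_lit 0) (XT.lf (nat_lit 0) (nat_lit 13077420970) (nat_lit 608) (nat_lit 2615549182) (nat_lit 76) (nat_lit 737721536) (nat_lit 219) (nat_lit 5) (nat_lit 227) (nat_lit 5) (nat_lit 220) (nat_lit 5) (nat_lit 478) (nat_lit 414) (nat_lit 248)) (XT.lf (nat_lit 0)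 (nat_lit 6812611725) (nat_lit 532) (nat_lit 9573560855) (nat_lit 608) (nat_lit 238752850) (nat_lit 212) (nat_lit 5) (nat_lit 219) (nat_lit 5) (nat_lit 220) (nat_lit 5) (nat_lit 479) (nat_lit 414) (nat_lit 247)))) (XT.nd (nat_lit 78) (nat_lit 988) (nat_lit 0) (XT.lf (nat_lit 0) (nat_lit 2907734403) (nat_lit 608) (nat_lit 389678079) (nat_lit 76) (nat_lit 13525087502) (nat_lit 211) (nat_lit 5) (nat_lit 219) (nat_lit 5) (nat_lit 212) (nat_lit 5) (nat_lit 480) (nat_lit 414) (nat_lit 246)) (XT.nd (nat_lit 78) (nat_lit 456) (nat_lit 0) (XT.lf (nat_lit 0) (nat_lit 6185809342) (nat_lit 608) (nat_lit 7713661745) (nat_lit 76) (nat_lit 3123088139) (nat_lit 204) (nat_lit 5) (nat_lit 212) (nat_lit 5) (nat_lit 205) (nat_lit 5) (nat_lit 481) (nat_lit 414) (nat_lit 245)) (XT.lf (nat_lit 0) (nat_lit 1971743905) (nat_lit 456) (nat_lit 7585784941) (nat_lit 532) (nat_lit 7668530964) (nat_lit 198) (nat_lit 5) (nat_lit 204) (nat_lit 5) (nat_lit 205)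 (nat_lit 5) (nat_lit 482) (nat_lit 414) (nat_lit 244)))))) (XT.nd (nat_lit 468) (nat_lit 1368) (nat_lit 0) (XT.nd (nat_lit 234) (nat_lit 912) (nat_lit 0) (XT.nd (nat_lit 78) (nat_lit 608) (nat_lit 0) (XT.lf (nat_lit 0) (nat_lit 11943079328) (nat_lit 456) (nat_lit 1096277960) (nat_lit 532) (nat_lit 4393421414) (nat_lit 198) (nat_lit 5) (nat_lit 204) (nat_lit 5) (nat_lit 205) (nat_lit 5) (nat_lit 483) (nat_lit 414) (nat_lit 243)) (XT.nd (nat_lit 78) (nat_lit 76) (nat_lit 0) (XT.lf (nat_lit 0) (nat_lit 4480861313) (nat_lit 532) (nat_lit 12165982136) (nat_lit 608) (nat_lit 995669851) (nat_lit 191) (nat_lit 5) (nat_lit 198) (nat_lit 5) (nat_lit 199) (nat_lit 5) (nat_lit 484) (nat_lit 414) (nat_lit 242)) (XT.lf (nat_lit 0) (nat_lit 2473089803) (nat_lit 608) (nat_lit 3166295106) (nat_lit 76) (nat_lit 12216029658) (nat_lit 190) (nat_lit 5) (nat_lit 198) (nat_lit 5) (nat_lit 191) (nat_lit 5) (nat_lit 485) (nat_lit 414) (nat_lit 241))))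 (XT.nd (nat_lit 78) (nat_lit 456) (nat_lit 0) (XT.lf (nat_lit 0) (nat_lit 6042240537) (nat_lit 532) (nat_lit 10975146951) (nat_lit 76) (nat_lit 1054169436) (nat_lit 184) (nat_lit 5) (nat_lit 191) (nat_lit 5) (nat_lit 185) (nat_lit 5) (nat_lit 486) (nat_lit 414) (nat_lit 240)) (XT.nd (nat_lit 78) (nat_lit 456) (nat_lit 0) (XT.lf (nat_lit 0) (nat_lit 9732860512) (nat_lit 532) (nat_lit 733923342) (nat_lit 76) (nat_lit 7824238165) (nat_lit 184) (nat_lit 5) (nat_lit 191) (nat_lit 5) (nat_lit 185) (nat_lit 5) (nat_lit 487) (nat_lit 414) (nat_lit 239)) (XT.lf (nat_lit 0) (nat_lit 9829145898) (nat_lit 456) (nat_lit 3723484997) (nat_lit 532) (nat_lit 4961140348) (nat_lit 178) (nat_lit 5) (nat_lit 184) (nat_lit 5) (nat_lit 185) (nat_lit 5) (nat_lit 488) (nat_lit 414) (nat_lit 238))))) (XT.nd (nat_lit 234) (nat_lit 380) (nat_lit 0) (XT.nd (nat_lit 78) (nat_lit 532) (nat_lit 0) (XT.lf (nat_lit 0) (nat_lit 1864528062) (nat_lit 456) (nat_lit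 15613402309) (nat_lit 532) (nat_lit 1262463961) (nat_lit 172) (nat_lit 5) (nat_lit 178) (nat_lit 5) (nat_lit 179) (nat_lit 5) (nat_lit 489) (nat_lit 414) (nat_lit 237)) (XT.nd (nat_lit 78) (nat_lit 456) (nat_lit 0) (XT.lf (nat_lit 0) (nat_lit 2552206817) (nat_lit 532) (nat_lit 6281332933) (nat_lit 76) (nat_lit 10136186821) (nat_lit 171) (nat_lit 5) (nat_lit 178) (nat_lit 5) (nat_lit 172) (nat_lit 5) (nat_lit 490) (nat_lit 414) (nat_lit 236)) (XT.lf (nat_lit 0) (nat_lit 4564841293) (nat_lit 456) (nat_lit 1882862640) (nat_lit 532) (nat_lit 12755347343) (nat_lit 165) (nat_lit 5) (nat_lit 171) (nat_lit 5) (nat_lit 172) (nat_lit 5) (nat_lit 491) (nat_lit 414) (nat_lit 235)))) (XT.nd (nat_lit 78) (nat_lit 380) (nat_lit 0) (XT.lf (nat_lit 0) (nat_lit 10489193130) (nat_lit 532) (nat_lit 3773022121) (nat_lit 76) (nat_lit 5177467017) (nat_lit 165) (nat_lit 5) (nat_lit 172) (nat_lit 5) (nat_lit 166) (nat_lit 5) (nat_lit 492) (nat_lit 414)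 (nat_lit 234)) (XT.nd (nat_lit 78) (nat_lit 0) (nat_lit 0) (XT.lf (nat_lit 0) (nat_lit 7382229811) (nat_lit 380) (nat_lit 7281687570) (nat_lit 456) (nat_lit 5016081802) (nat_lit 160) (nat_lit 5) (nat_lit 165) (nat_lit 5) (nat_lit 166) (nat_lit 5) (nat_lit 493) (nat_lit 414) (nat_lit 233)) (XT.lf (nat_lit 0) (nat_lit 18800217667) (nat_lit 380) (nat_lit 139325061) (nat_lit 456) (nat_lit 985232954) (nat_lit 160) (nat_lit 5) (nat_lit 165) (nat_lit 5) (nat_lit 166) (nat_lit 5) (nat_lit 494) (nat_lit 414) (nat_lit 232))))))))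
noncomputable def xc175 : XT := (XT.nd (nat_lit 53898) (nat_lit 0) (nat_lit 19608) (XT.nd (nat_lit 858) (nat_lit 0) (nat_lit 0) (XT.nd (nat_lit 390) (nat_lit 1596) (nat_lit 0) (XT.nd (nat_lit 156) (nat_lit 380) (nat_lit 0) (XT.nd (nat_lit 78) (nat_lit 380) (nat_lit 0) (XT.lf (nat_lit 0) (nat_lit 3191746227) (nat_lit 532) (nat_lit 9843287918) (nat_lit 76) (nat_lit 7136878652) (nat_lit 153) (nat_lit 5) (nat_lit 160) (nat_lit 5) (nat_lit 154) (nat_lit 5) (nat_lit 495) (nat_lit 414) (nat_lit 231)) (XT.lf (nat_lit 0) (nat_lit 1604367122) (nat_lit 380) (nat_lit 5845900028) (nat_lit 456) (nat_lit 12973372669) (nat_lit 148) (nat_lit 5) (nat_lit 153) (nat_lit 5) (nat_lit 154) (nat_lit 5) (nat_lit 496) (nat_lit 414) (nat_lit 230))) (XT.nd (nat_lit 78) (nat_lit 380) (nat_lit 0) (XT.lf (nat_lit 0) (nat_lit 11862404874) (nat_lit 456) (nat_lit 7286274703) (nat_lit 76) (nat_lit 1530354153) (nat_lit 148) (nat_lit 5) (nat_lit 154) (nat_lit 5)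 (nat_lit 149) (nat_lit 5) (nat_lit 497) (nat_lit 414) (nat_lit 229)) (XT.nd (nat_lit 78) (nat_lit 0) (nat_lit 0) (XT.lf (nat_lit 0) (nat_lit 4486226074) (nat_lit 380) (nat_lit 11936852970) (nat_lit 456) (nat_lit 4515251850) (nat_lit 143) (nat_lit 5) (nat_lit 148) (nat_lit 5) (nat_lit 149) (nat_lit 5) (nat_lit 498) (nat_lit 414) (nat_lit 228)) (XT.lf (nat_lit 0) (nat_lit 16581738180) (nat_lit 380) (nat_lit 4534650073) (nat_lit 456) (nat_lit 85598541) (nat_lit 143) (nat_lit 5) (nat_lit 148) (nat_lit 5) (nat_lit 149) (nat_lit 5) (nat_lit 499) (nat_lit 414) (nat_lit 227))))) (XT.nd (nat_lit 234) (nat_lit 760) (nat_lit 0) (XT.nd (nat_lit 78) (nat_lit 380) (nat_lit 0) (XT.lf (nat_lit 0) (nat_lit 4435944387) (nat_lit 456) (nat_lit 13982749731) (nat_lit 76) (nat_lit 3050418649) (nat_lit 137) (nat_lit 5) (nat_lit 143) (nat_lit 5) (nat_lit 138) (nat_lit 5) (nat_lit 500) (nat_lit 414) (nat_lit 226)) (XT.nd (nat_lit 78) (nat_lit 380) (nat_lit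 0) (XT.lf (nat_lit 0) (nat_lit 9100686198) (nat_lit 456) (nat_lit 1885164306) (nat_lit 76) (nat_lit 10754642310) (nat_lit 137) (nat_lit 5) (nat_lit 143) (nat_lit 5) (nat_lit 138) (nat_lit 5) (nat_lit 501) (nat_lit 414) (nat_lit 225)) (XT.lf (nat_lit 0) (nat_lit 10582243459) (nat_lit 380) (nat_lit 3338002696) (nat_lit 456) (nat_lit 8095824973) (nat_lit 132) (nat_lit 5) (nat_lit 137) (nat_lit 5) (nat_lit 138) (nat_lit 5) (nat_lit 502) (nat_lit 414) (nat_lit 224)))) (XT.nd (nat_lit 78) (nat_lit 456) (nat_lit 0) (XT.lf (nat_lit 0) (nat_lit 1000746288) (nat_lit 304) (nat_lit 17876520800) (nat_lit 380) (nat_lit 3419073635) (nat_lit 128) (nat_lit 5) (nat_lit 132) (nat_lit 5) (nat_lit 133) (nat_lit 5) (nat_lit 503) (nat_lit 414) (nat_lit 223)) (XT.nd (nat_lit 78) (nat_lit 380) (nat_lit 0) (XT.lf (nat_lit 0) (nat_lit 1425716354) (nat_lit 380) (nat_lit 8784056182) (nat_lit 76) (nat_lit 12370424280) (nat_lit 127) (nat_lit 5) (nat_lit 132)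 (nat_lit 5) (nat_lit 128) (nat_lit 5) (nat_lit 504) (nat_lit 414) (nat_lit 222)) (XT.lf (nat_lit 0) (nat_lit 3996714844) (nat_lit 380) (nat_lit 2343921471) (nat_lit 456) (nat_lit 16528262449) (nat_lit 122) (nat_lit 5) (nat_lit 127) (nat_lit 5) (nat_lit 128) (nat_lit 5) (nat_lit 505) (nat_lit 414) (nat_lit 221)))))) (XT.nd (nat_lit 52572) (nat_lit 0) (nat_lit 28804) (XT.nd (nat_lit 52338) (nat_lit 0) (nat_lit 28728) (XT.nd (nat_lit 52260) (nat_lit 0) (nat_lit 30248) (XT.lf (nat_lit 0) (nat_lit 11443130256) (nat_lit 456) (nat_lit 6058104624) (nat_lit 76) (nat_lit 5660355384) (nat_lit 122) (nat_lit 5) (nat_lit 128) (nat_lit 5) (nat_lit 123) (nat_lit 5) (nat_lit 506) (nat_lit 414) (nat_lit 220)) (XT.lf (nat_lit 0) (nat_lit 1911649766) (nat_lit 0) (nat_lit 1911649766) (nat_lit 1444) (nat_lit 575208509) (nat_lit 520) (nat_lit 5) (nat_lit 520) (nat_lit 3) (nat_lit 539) (nat_lit 3) (nat_lit 415) (nat_lit 415) (nat_lit 310))) (XT.nd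 (nat_lit 78) (nat_lit 1520) (nat_lit 0) (XT.lf (nat_lit 0) (nat_lit 8150707885) (nat_lit 0) (nat_lit 509857530) (nat_lit 1444) (nat_lit 205370292) (nat_lit 520) (nat_lit 5) (nat_lit 520) (nat_lit 3) (nat_lit 539) (nat_lit 3) (nat_lit 416) (nat_lit 415) (nat_lit 309)) (XT.nd (nat_lit 78) (nat_lit 0) (nat_lit 0) (XT.lf (nat_lit 0) (nat_lit 766524310) (nat_lit 1520) (nat_lit 5296204937) (nat_lit 1596) (nat_lit 2873055786) (nat_lit 500) (nat_lit 5) (nat_lit 520) (nat_lit 5) (nat_lit 521) (nat_lit 5) (nat_lit 417) (nat_lit 415) (nat_lit 308)) (XT.lf (nat_lit 0) (nat_lit 1739036455) (nat_lit 1520) (nat_lit 933645044) (nat_lit 1596) (nat_lit 6334651682) (nat_lit 500) (nat_lit 5) (nat_lit 520) (nat_lit 5) (nat_lit 521) (nat_lit 5) (nat_lit 418) (nat_lit 415) (nat_lit 307))))) (XT.nd (nat_lit 234) (nat_lit 0) (nat_lit 76) (XT.nd (nat_lit 78) (nat_lit 0) (nat_lit 0) (XT.lf (nat_lit 0) (nat_lit 2735563591) (nat_lit 1520) (nat_lit 5535796569)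 (nat_lit 1596) (nat_lit 808868266) (nat_lit 501) (nat_lit 5) (nat_lit 521) (nat_lit 5) (nat_lit 522) (nat_lit 5) (nat_lit 419) (nat_lit 415) (nat_lit 306)) (XT.nd (nat_lit 78) (nat_lit 0) (nat_lit 0) (XT.lf (nat_lit 0) (nat_lit 3752675982) (nat_lit 1520) (nat_lit 1060795015) (nat_lit 1596) (nat_lit 4341104767) (nat_lit 501) (nat_lit 5) (nat_lit 521) (nat_lit 5) (nat_lit 522) (nat_lit 5) (nat_lit 420) (nat_lit 415) (nat_lit 305)) (XT.lf (nat_lit 76) (nat_lit 3537033160) (nat_lit 0) (nat_lit 1253168198) (nat_lit 1596) (nat_lit 4440214416) (nat_lit 502) (nat_lit 5) (nat_lit 501) (nat_lit 5) (nat_lit 522) (nat_lit 5) (nat_lit 421) (nat_lit 415) (nat_lit 304)))) (XT.nd (nat_lit 78) (nat_lit 0) (nat_lit 0) (XT.lf (nat_lit 0) (nat_lit 5848617293) (nat_lit 1520) (nat_lit 1095417776) (nat_lit 1596) (nat_lit 2363741713) (nat_lit 502) (nat_lit 5) (nat_lit 522) (nat_lit 5) (nat_lit 523) (nat_lit 5) (nat_lit 422) (nat_lit 415) (nat_lit 303))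 (XT.nd (nat_lit 78) (nat_lit 0) (nat_lit 76) (XT.lf (nat_lit 76) (nat_lit 3620458916) (nat_lit 0) (nat_lit 3317521364) (nat_lit 1596) (nat_lit 2448516020) (nat_lit 503) (nat_lit 5) (nat_lit 502) (nat_lit 5) (nat_lit 523) (nat_lit 5) (nat_lit 423) (nat_lit 415) (nat_lit 302)) (XT.lf (nat_lit 0) (nat_lit 8037382301) (nat_lit 1520) (nat_lit 1037307142) (nat_lit 1596) (nat_lit 392342456) (nat_lit 503) (nat_lit 5) (nat_lit 523) (nat_lit 5) (nat_lit 524) (nat_lit 5) (nat_lit 424) (nat_lit 415) (nat_lit 301))))))) (XT.nd (nat_lit 858) (nat_lit 6384) (nat_lit 0) (XT.nd (nat_lit 390) (nat_lit 1368) (nat_lit 0) (XT.nd (nat_lit 156) (nat_lit 0) (nat_lit 76) (XT.nd (nat_lit 78) (nat_lit 1596) (nat_lit 0) (XT.lf (nat_lit 76) (nat_lit 3800499052) (nat_lit 0) (nat_lit 5383718192) (nat_lit 1596) (nat_lit 364458666) (nat_lit 504) (nat_lit 5) (nat_lit 503) (nat_lit 5) (nat_lit 524) (nat_lit 5) (nat_lit 425) (nat_lit 415) (nat_lit 300)) (XT.lf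 (nat_lit 0) (nat_lit 698557455) (nat_lit 1596) (nat_lit 900995472) (nat_lit 1672) (nat_lit 8032592635) (nat_lit 482) (nat_lit 5) (nat_lit 503) (nat_lit 5) (nat_lit 504) (nat_lit 5) (nat_lit 426) (nat_lit 415) (nat_lit 299))) (XT.nd (nat_lit 78) (nat_lit 0) (nat_lit 0) (XT.lf (nat_lit 0) (nat_lit 1798764786) (nat_lit 1596) (nat_lit 5651104914) (nat_lit 1672) (nat_lit 2266956721) (nat_lit 483) (nat_lit 5) (nat_lit 504) (nat_lit 5) (nat_lit 505) (nat_lit 5) (nat_lit 427) (nat_lit 415) (nat_lit 298)) (XT.nd (nat_lit 78) (nat_lit 0) (nat_lit 76) (XT.lf (nat_lit 0) (nat_lit 2917415714) (nat_lit 1596) (nat_lit 683401315) (nat_lit 1672) (nat_lit 6202461173) (nat_lit 483) (nat_lit 5) (nat_lit 504) (nat_lit 5) (nat_lit 505) (nat_lit 5) (nat_lit 428) (nat_lit 415) (nat_lit 297)) (XT.lf (nat_lit 0) (nat_lit 4069692079) (nat_lit 1596) (nat_lit 5465302029) (nat_lit 1672) (nat_lit 356245837) (nat_lit 484) (nat_lit 5) (nat_lit 505) (nat_lit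 5) (nat_lit 506) (nat_lit 5) (nat_lit 429) (nat_lit 415) (nat_lit 296))))) (XT.nd (nat_lit 234) (nat_lit 1520) (nat_lit 0) (XT.nd (nat_lit 78) (nat_lit 0) (nat_lit 0) (XT.lf (nat_lit 0) (nat_lit 5253976853) (nat_lit 1596) (nat_lit 371773459) (nat_lit 1672) (nat_lit 4355037210) (nat_lit 484) (nat_lit 5) (nat_lit 505) (nat_lit 5) (nat_lit 506) (nat_lit 5) (nat_lit 430) (nat_lit 415) (nat_lit 295)) (XT.nd (nat_lit 78) (nat_lit 0) (nat_lit 76) (XT.lf (nat_lit 76) (nat_lit 4874064589) (nat_lit 0) (nat_lit 1600410802) (nat_lit 1672) (nat_lit 3597405839) (nat_lit 485) (nat_lit 5) (nat_lit 484) (nat_lit 5) (nat_lit 506) (nat_lit 5) (nat_lit 431) (nat_lit 415) (nat_lit 294)) (XT.lf (nat_lit 76) (nat_lit 35479712) (nat_lit 0) (nat_lit 7684118374) (nat_lit 1672) (nat_lit 2445200074) (nat_lit 486) (nat_lit 5) (nat_lit 485) (nat_lit 5) (nat_lit 507) (nat_lit 5) (nat_lit 432) (nat_lit 415) (nat_lit 293)))) (XT.nd (nat_lit 78) (nat_lit 1596)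 (nat_lit 0) (XT.lf (nat_lit 76) (nat_lit 5419436945) (nat_lit 0) (nat_lit 3597080373) (nat_lit 1672) (nat_lit 1242523750) (nat_lit 486) (nat_lit 5) (nat_lit 485) (nat_lit 5) (nat_lit 507) (nat_lit 5) (nat_lit 433) (nat_lit 415) (nat_lit 292)) (XT.nd (nat_lit 78) (nat_lit 1672) (nat_lit 0) (XT.lf (nat_lit 76) (nat_lit 545493800) (nat_lit 0) (nat_lit 9783013205) (nat_lit 1672) (nat_lit 26884596) (nat_lit 487) (nat_lit 5) (nat_lit 486) (nat_lit 5) (nat_lit 508) (nat_lit 5) (nat_lit 434) (nat_lit 415) (nat_lit 291)) (XT.lf (nat_lit 0) (nat_lit 1235691841) (nat_lit 1672) (nat_lit 4395042754) (nat_lit 1748) (nat_lit 4822011549) (nat_lit 464) (nat_lit 5) (nat_lit 486) (nat_lit 5) (nat_lit 487) (nat_lit 5) (nat_lit 435) (nat_lit 415) (nat_lit 290)))))) (XT.nd (nat_lit 468) (nat_lit 4864) (nat_lit 0) (XT.nd (nat_lit 234) (nat_lit 1520) (nat_lit 0) (XT.nd (nat_lit 78) (nat_lit 0) (nat_lit 76) (XT.lf (nat_lit 76) (nat_lit 1129007023) (nat_lit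 0) (nat_lit 1383856934) (nat_lit 1748) (nat_lit 8039391283) (nat_lit 465) (nat_lit 5) (nat_lit 464) (nat_lit 5) (nat_lit 487) (nat_lit 5) (nat_lit 436) (nat_lit 415) (nat_lit 289)) (XT.nd (nat_lit 78) (nat_lit 0) (nat_lit 0) (XT.lf (nat_lit 0) (nat_lit 3847062778) (nat_lit 1672) (nat_lit 3863404031) (nat_lit 1748) (nat_lit 2942663042) (nat_lit 465) (nat_lit 5) (nat_lit 487) (nat_lit 5) (nat_lit 488) (nat_lit 5) (nat_lit 437) (nat_lit 415) (nat_lit 288)) (XT.lf (nat_lit 76) (nat_lit 1808447682) (nat_lit 0) (nat_lit 3403399044) (nat_lit 1748) (nat_lit 5544102106) (nat_lit 466) (nat_lit 5) (nat_lit 465) (nat_lit 5) (nat_lit 488) (nat_lit 5) (nat_lit 438) (nat_lit 415) (nat_lit 287)))) (XT.nd (nat_lit 78) (nat_lit 1672) (nat_lit 0) (XT.lf (nat_lit 0) (nat_lit 6619709890) (nat_lit 1672) (nat_lit 3234810623) (nat_lit 76) (nat_lit 1005992815) (nat_lit 466) (nat_lit 5) (nat_lit 488) (nat_lit 5) (nat_lit 467) (nat_lit 5) (nat_lit 439)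 (nat_lit 415) (nat_lit 286)) (XT.nd (nat_lit 78) (nat_lit 0) (nat_lit 0) (XT.lf (nat_lit 0) (nat_lit 2589822766) (nat_lit 1672) (nat_lit 5488849568) (nat_lit 1748) (nat_lit 2888042650) (nat_lit 444) (nat_lit 5) (nat_lit 466) (nat_lit 5) (nat_lit 467) (nat_lit 5) (nat_lit 440) (nat_lit 415) (nat_lit 285)) (XT.lf (nat_lit 0) (nat_lit 8561150038) (nat_lit 1672) (nat_lit 1011192567) (nat_lit 1748) (nat_lit 1502592114) (nat_lit 444) (nat_lit 5) (nat_lit 466) (nat_lit 5) (nat_lit 467) (nat_lit 5) (nat_lit 441) (nat_lit 415) (nat_lit 284))))) (XT.nd (nat_lit 234) (nat_lit 1748) (nat_lit 0) (XT.nd (nat_lit 78) (nat_lit 1368) (nat_lit 0) (XT.lf (nat_lit 0) (nat_lit 3475359176) (nat_lit 1748) (nat_lit 7650334107) (nat_lit 1824) (nat_lit 59033954) (nat_lit 421) (nat_lit 5) (nat_lit 444) (nat_lit 5) (nat_lit 445) (nat_lit 5) (nat_lit 442) (nat_lit 415) (nat_lit 283)) (XT.nd (nat_lit 78) (nat_lit 1292) (nat_lit 0) (XT.lf (nat_lit 0) (nat_lit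 1402804613) (nat_lit 1824) (nat_lit 1707843284) (nat_lit 76) (nat_lit 8185729604) (nat_lit 420) (nat_lit 5) (nat_lit 444) (nat_lit 5) (nat_lit 421) (nat_lit 5) (nat_lit 443) (nat_lit 415) (nat_lit 282)) (XT.lf (nat_lit 0) (nat_lit 2916687489) (nat_lit 1368) (nat_lit 6961838941) (nat_lit 76) (nat_lit 1531258840) (nat_lit 403) (nat_lit 5) (nat_lit 421) (nat_lit 5) (nat_lit 404) (nat_lit 5) (nat_lit 444) (nat_lit 415) (nat_lit 281)))) (XT.nd (nat_lit 78) (nat_lit 1748) (nat_lit 0) (XT.lf (nat_lit 0) (nat_lit 4477788320) (nat_lit 1368) (nat_lit 809706012) (nat_lit 76) (nat_lit 6237632242) (nat_lit 403) (nat_lit 5) (nat_lit 421) (nat_lit 5) (nat_lit 404) (nat_lit 5) (nat_lit 445) (nat_lit 415) (nat_lit 280)) (XT.nd (nat_lit 78) (nat_lit 836) (nat_lit 0) (XT.lf (nat_lit 0) (nat_lit 5524393765) (nat_lit 912) (nat_lit 566686953) (nat_lit 988) (nat_lit 5551278694) (nat_lit 391) (nat_lit 5) (nat_lit 403) (nat_lit 5) (nat_lit 404) (nat_lit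 5) (nat_lit 446) (nat_lit 415) (nat_lit 279)) (XT.lf (nat_lit 0) (nat_lit 195520816) (nat_lit 836) (nat_lit 7560755980) (nat_lit 912) (nat_lit 4005271376) (nat_lit 380) (nat_lit 5) (nat_lit 391) (nat_lit 5) (nat_lit 392) (nat_lit 5) (nat_lit 447) (nat_lit 415) (nat_lit 278))))))))
noncomputable def xc176 : XT := (XT.nd (nat_lit 1716) (nat_lit 6612) (nat_lit 0) (XT.nd (nat_lit 858) (nat_lit 4256) (nat_lit 0) (XT.nd (nat_lit 390) (nat_lit 3192) (nat_lit 0) (XT.nd (nat_lit 156) (nat_lit 912) (nat_lit 0) (XT.nd (nat_lit 78) (nat_lit 912) (nat_lit 0) (XT.lf (nat_lit 0) (nat_lit 6700749063) (nat_lit 836) (nat_lit 2784324519) (nat_lit 912) (nat_lit 2397445130) (nat_lit 380) (nat_lit 5) (nat_lit 391) (nat_lit 5) (nat_lit 392) (nat_lit 5) (nat_lit 448) (nat_lit 415) (nat_lit 277)) (XT.lf (nat_lit 0) (nat_lit 1320253003) (nat_lit 912) (nat_lit 9936122716) (nat_lit 988) (nat_lit 749378221) (nat_lit 368) (nat_lit 5) (nat_lit 380) (nat_lit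 5) (nat_lit 381) (nat_lit 5) (nat_lit 449) (nat_lit 415) (nat_lit 276))) (XT.nd (nat_lit 78) (nat_lit 836) (nat_lit 0) (XT.lf (nat_lit 0) (nat_lit 958769955) (nat_lit 988) (nat_lit 4146702847) (nat_lit 76) (nat_lit 7025077034) (nat_lit 367) (nat_lit 5) (nat_lit 380) (nat_lit 5) (nat_lit 368) (nat_lit 5) (nat_lit 450) (nat_lit 415) (nat_lit 275)) (XT.nd (nat_lit 78) (nat_lit 0) (nat_lit 0) (XT.lf (nat_lit 0) (nat_lit 2537678409) (nat_lit 836) (nat_lit 156027486) (nat_lit 912) (nat_lit 9563987148) (nat_lit 356) (nat_lit 5) (nat_lit 367) (nat_lit 5) (nat_lit 368) (nat_lit 5) (nat_lit 451) (nat_lit 415) (nat_lit 274)) (XT.lf (nat_lit 0) (nat_lit 4509474832) (nat_lit 912) (nat_lit 3020515764) (nat_lit 76) (nat_lit 4856469402) (nat_lit 356) (nat_lit 5) (nat_lit 368) (nat_lit 5) (nat_lit 357) (nat_lit 5) (nat_lit 452) (nat_lit 415) (nat_lit 273))))) (XT.nd (nat_lit 234) (nat_lit 1596) (nat_lit 0) (XT.nd (nat_lit 78) (nat_lit 760) (nat_lit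 0) (XT.lf (nat_lit 0) (nat_lit 3848987512) (nat_lit 836) (nat_lit 2525221275) (nat_lit 912) (nat_lit 6143344014) (nat_lit 345) (nat_lit 5) (nat_lit 356) (nat_lit 5) (nat_lit 357) (nat_lit 5) (nat_lit 453) (nat_lit 415) (nat_lit 272)) (XT.nd (nat_lit 78) (nat_lit 760) (nat_lit 0) (XT.lf (nat_lit 0) (nat_lit 8300190472) (nat_lit 912) (nat_lit 1784530843) (nat_lit 76) (nat_lit 2566070514) (nat_lit 345) (nat_lit 5) (nat_lit 357) (nat_lit 5) (nat_lit 346) (nat_lit 5) (nat_lit 454) (nat_lit 415) (nat_lit 271)) (XT.lf (nat_lit 0) (nat_lit 5276317175) (nat_lit 760) (nat_lit 5026414905) (nat_lit 836) (nat_lit 2483206117) (nat_lit 335) (nat_lit 5) (nat_lit 345) (nat_lit 5) (nat_lit 346) (nat_lit 5) (nat_lit 455) (nat_lit 415) (nat_lit 270)))) (XT.nd (nat_lit 78) (nat_lit 1596) (nat_lit 0) (XT.lf (nat_lit 0) (nat_lit 12345467015) (nat_lit 836) (nat_lit 435430729) (nat_lit 76) (nat_lit 142890197) (nat_lit 335) (nat_lit 5) (nat_lit 346)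 (nat_lit 5) (nat_lit 336) (nat_lit 5) (nat_lit 456) (nat_lit 415) (nat_lit 269)) (XT.nd (nat_lit 78) (nat_lit 760) (nat_lit 0) (XT.lf (nat_lit 0) (nat_lit 1412254761) (nat_lit 836) (nat_lit 6249191041) (nat_lit 76) (nat_lit 5401465030) (nat_lit 324) (nat_lit 5) (nat_lit 335) (nat_lit 5) (nat_lit 325) (nat_lit 5) (nat_lit 457) (nat_lit 415) (nat_lit 268)) (XT.lf (nat_lit 0) (nat_lit 1005001483) (nat_lit 760) (nat_lit 2426920251) (nat_lit 836) (nat_lit 9772880631) (nat_lit 314) (nat_lit 5) (nat_lit 324) (nat_lit 5) (nat_lit 325) (nat_lit 5) (nat_lit 458) (nat_lit 415) (nat_lit 267)))))) (XT.nd (nat_lit 390) (nat_lit 2736) (nat_lit 0) (XT.nd (nat_lit 156) (nat_lit 760) (nat_lit 0) (XT.nd (nat_lit 78) (nat_lit 760) (nat_lit 0) (XT.lf (nat_lit 0) (nat_lit 5540805476) (nat_lit 836) (nat_lit 4892375015) (nat_lit 76) (nat_lit 2915377815) (nat_lit 314) (nat_lit 5) (nat_lit 325) (nat_lit 5) (nat_lit 315) (nat_lit 5) (nat_lit 459) (nat_lit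 415) (nat_lit 266)) (XT.lf (nat_lit 0) (nat_lit 2565556145) (nat_lit 760) (nat_lit 5146983296) (nat_lit 836) (nat_lit 5782239463) (nat_lit 304) (nat_lit 5) (nat_lit 314) (nat_lit 5) (nat_lit 315) (nat_lit 5) (nat_lit 460) (nat_lit 415) (nat_lit 265))) (XT.nd (nat_lit 78) (nat_lit 760) (nat_lit 0) (XT.lf (nat_lit 0) (nat_lit 9950432346) (nat_lit 836) (nat_lit 3419476423) (nat_lit 76) (nat_lit 273563588) (nat_lit 304) (nat_lit 5) (nat_lit 315) (nat_lit 5) (nat_lit 305) (nat_lit 5) (nat_lit 461) (nat_lit 415) (nat_lit 264)) (XT.nd (nat_lit 78) (nat_lit 76) (nat_lit 0) (XT.lf (nat_lit 0) (nat_lit 4249002586) (nat_lit 684) (nat_lit 8034073584) (nat_lit 760) (nat_lit 1511066519) (nat_lit 295) (nat_lit 5) (nat_lit 304) (nat_lit 5) (nat_lit 305) (nat_lit 5) (nat_lit 462) (nat_lit 415) (nat_lit 263)) (XT.lf (nat_lit 0) (nat_lit 716658563) (nat_lit 760) (nat_lit 1848129311) (nat_lit 76) (nat_lit 11382718857) (nat_lit 294) (nat_lit 5)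 (nat_lit 304) (nat_lit 5) (nat_lit 295) (nat_lit 5) (nat_lit 463) (nat_lit 415) (nat_lit 262))))) (XT.nd (nat_lit 234) (nat_lit 1368) (nat_lit 0) (XT.nd (nat_lit 78) (nat_lit 684) (nat_lit 0) (XT.lf (nat_lit 0) (nat_lit 3016563163) (nat_lit 760) (nat_lit 8063697517) (nat_lit 76) (nat_lit 3022523152) (nat_lit 285) (nat_lit 5) (nat_lit 295) (nat_lit 5) (nat_lit 286) (nat_lit 5) (nat_lit 464) (nat_lit 415) (nat_lit 261)) (XT.nd (nat_lit 78) (nat_lit 684) (nat_lit 0) (XT.lf (nat_lit 0) (nat_lit 5380677772) (nat_lit 760) (nat_lit 181935446) (nat_lit 76) (nat_lit 8698191671) (nat_lit 285) (nat_lit 5) (nat_lit 295) (nat_lit 5) (nat_lit 286) (nat_lit 5) (nat_lit 465) (nat_lit 415) (nat_lit 260)) (XT.lf (nat_lit 0) (nat_lit 7833402524) (nat_lit 760) (nat_lit 6473010862) (nat_lit 76) (nat_lit 114749027) (nat_lit 276) (nat_lit 5) (nat_lit 286) (nat_lit 5) (nat_lit 277) (nat_lit 5) (nat_lit 466) (nat_lit 415) (nat_lit 259)))) (XT.nd (nat_lit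 78) (nat_lit 684) (nat_lit 0) (XT.lf (nat_lit 0) (nat_lit 1630221308) (nat_lit 684) (nat_lit 8742697838) (nat_lit 760) (nat_lit 4211055742) (nat_lit 267) (nat_lit 5) (nat_lit 276) (nat_lit 5) (nat_lit 277) (nat_lit 5) (nat_lit 467) (nat_lit 415) (nat_lit 258)) (XT.nd (nat_lit 78) (nat_lit 684) (nat_lit 0) (XT.lf (nat_lit 0) (nat_lit 9970429910) (nat_lit 684) (nat_lit 3025449633) (nat_lit 760) (nat_lit 1753513500) (nat_lit 267) (nat_lit 5) (nat_lit 276) (nat_lit 5) (nat_lit 277) (nat_lit 5) (nat_lit 468) (nat_lit 415) (nat_lit 257)) (XT.lf (nat_lit 0) (nat_lit 774349906) (nat_lit 684) (nat_lit 11347387003) (nat_lit 76) (nat_lit 2795666285) (nat_lit 258) (nat_lit 5) (nat_lit 267) (nat_lit 5) (nat_lit 259) (nat_lit 5) (nat_lit 469) (nat_lit 415) (nat_lit 256))))))) (XT.nd (nat_lit 858) (nat_lit 3040) (nat_lit 0) (XT.nd (nat_lit 390) (nat_lit 1748) (nat_lit 0) (XT.nd (nat_lit 156) (nat_lit 1216) (nat_lit 0) (XT.nd (nat_lit 78) (nat_lit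 608) (nat_lit 0) (XT.lf (nat_lit 0) (nat_lit 3371098835) (nat_lit 684) (nat_lit 2982077175) (nat_lit 76) (nat_lit 8734531921) (nat_lit 258) (nat_lit 5) (nat_lit 267) (nat_lit 5) (nat_lit 259) (nat_lit 5) (nat_lit 470) (nat_lit 415) (nat_lit 255)) (XT.lf (nat_lit 0) (nat_lit 5611547976) (nat_lit 608) (nat_lit 434343190) (nat_lit 684) (nat_lit 9215007739) (nat_lit 250) (nat_lit 5) (nat_lit 258) (nat_lit 5) (nat_lit 259) (nat_lit 5) (nat_lit 471) (nat_lit 415) (nat_lit 254))) (XT.nd (nat_lit 78) (nat_lit 1216) (nat_lit 0) (XT.lf (nat_lit 0) (nat_lit 8820481573) (nat_lit 684) (nat_lit 1068890984) (nat_lit 76) (nat_lit 5547257362) (nat_lit 250) (nat_lit 5) (nat_lit 259) (nat_lit 5) (nat_lit 251) (nat_lit 5) (nat_lit 472) (nat_lit 415) (nat_lit 253)) (XT.nd (nat_lit 78) (nat_lit 608) (nat_lit 0) (XT.lf (nat_lit 0) (nat_lit 7769756475) (nat_lit 608) (nat_lit 3924111414) (nat_lit 684) (nat_lit 3921143799) (nat_lit 242) (nat_lit 5) (nat_lit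 250) (nat_lit 5) (nat_lit 251) (nat_lit 5) (nat_lit 473) (nat_lit 415) (nat_lit 252)) (XT.lf (nat_lit 0) (nat_lit 989197897) (nat_lit 608) (nat_lit 13653275415) (nat_lit 684) (nat_lit 1154134931) (nat_lit 234) (nat_lit 5) (nat_lit 242) (nat_lit 5) (nat_lit 243) (nat_lit 5) (nat_lit 474) (nat_lit 415) (nat_lit 251))))) (XT.nd (nat_lit 234) (nat_lit 1140) (nat_lit 0) (XT.nd (nat_lit 78) (nat_lit 532) (nat_lit 0) (XT.lf (nat_lit 0) (nat_lit 1715445038) (nat_lit 684) (nat_lit 5923866606) (nat_lit 76) (nat_lit 8340928356) (nat_lit 233) (nat_lit 5) (nat_lit 242) (nat_lit 5) (nat_lit 234) (nat_lit 5) (nat_lit 475) (nat_lit 415) (nat_lit 250)) (XT.nd (nat_lit 78) (nat_lit 0) (nat_lit 0) (XT.lf (nat_lit 0) (nat_lit 3158779684) (nat_lit 532) (nat_lit 1479027886) (nat_lit 608) (nat_lit 11529369399) (nat_lit 226) (nat_lit 5) (nat_lit 233) (nat_lit 5) (nat_lit 234) (nat_lit 5) (nat_lit 476) (nat_lit 415) (nat_lit 249)) (XT.lf (nat_lit 0)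 (nat_lit 7680240665) (nat_lit 608) (nat_lit 3897583740) (nat_lit 76) (nat_lit 4778797817) (nat_lit 226) (nat_lit 5) (nat_lit 234) (nat_lit 5) (nat_lit 227) (nat_lit 5) (nat_lit 477) (nat_lit 415) (nat_lit 248)))) (XT.nd (nat_lit 78) (nat_lit 608) (nat_lit 0) (XT.lf (nat_lit 0) (nat_lit 5444857983) (nat_lit 532) (nat_lit 5374412952) (nat_lit 608) (nat_lit 5729872446) (nat_lit 219) (nat_lit 5) (nat_lit 226) (nat_lit 5) (nat_lit 227) (nat_lit 5) (nat_lit 478) (nat_lit 415) (nat_lit 247)) (XT.nd (nat_lit 78) (nat_lit 608) (nat_lit 0) (XT.lf (nat_lit 0) (nat_lit 14044286983) (nat_lit 608) (nat_lit 1736664316) (nat_lit 76) (nat_lit 964101493) (nat_lit 219) (nat_lit 5) (nat_lit 227) (nat_lit 5) (nat_lit 220) (nat_lit 5) (nat_lit 479) (nat_lit 415) (nat_lit 246)) (XT.lf (nat_lit 0) (nat_lit 461920797) (nat_lit 608) (nat_lit 9072435984) (nat_lit 76) (nat_lit 7408912992) (nat_lit 211) (nat_lit 5) (nat_lit 219) (nat_lit 5) (nat_lit 212)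 (nat_lit 5) (nat_lit 480) (nat_lit 415) (nat_lit 245)))))) (XT.nd (nat_lit 390) (nat_lit 1520) (nat_lit 0) (XT.nd (nat_lit 156) (nat_lit 988) (nat_lit 0) (XT.nd (nat_lit 78) (nat_lit 0) (nat_lit 0) (XT.lf (nat_lit 0) (nat_lit 525640713) (nat_lit 532) (nat_lit 3132146276) (nat_lit 608) (nat_lit 13487187101) (nat_lit 204) (nat_lit 5) (nat_lit 211) (nat_lit 5) (nat_lit 212) (nat_lit 5) (nat_lit 481) (nat_lit 415) (nat_lit 244)) (XT.lf (nat_lit 0) (nat_lit 6991909214) (nat_lit 608) (nat_lit 6945479862) (nat_lit 76) (nat_lit 3411838430) (nat_lit 204) (nat_lit 5) (nat_lit 212) (nat_lit 5) (nat_lit 205) (nat_lit 5) (nat_lit 482) (nat_lit 415) (nat_lit 243))) (XT.nd (nat_lit 78) (nat_lit 532) (nat_lit 0) (XT.lf (nat_lit 0) (nat_lit 2927565117) (nat_lit 456) (nat_lit 7496067708) (nat_lit 532) (nat_lit 7133316536) (nat_lit 198) (nat_lit 5) (nat_lit 204) (nat_lit 5) (nat_lit 205) (nat_lit 5) (nat_lit 483) (nat_lit 415) (nat_lit 242)) (XT.nd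 (nat_lit 78) (nat_lit 532) (nat_lit 0) (XT.lf (nat_lit 0) (nat_lit 13080358889) (nat_lit 456) (nat_lit 881504566) (nat_lit 532) (nat_lit 3806206462) (nat_lit 198) (nat_lit 5) (nat_lit 204) (nat_lit 5) (nat_lit 205) (nat_lit 5) (nat_lit 484) (nat_lit 415) (nat_lit 241)) (XT.lf (nat_lit 0) (nat_lit 5474735608) (nat_lit 532) (nat_lit 12161166557) (nat_lit 608) (nat_lit 346211533) (nat_lit 191) (nat_lit 5) (nat_lit 198) (nat_lit 5) (nat_lit 199) (nat_lit 5) (nat_lit 485) (nat_lit 415) (nat_lit 240))))) (XT.nd (nat_lit 234) (nat_lit 532) (nat_lit 0) (XT.nd (nat_lit 78) (nat_lit 912) (nat_lit 0) (XT.lf (nat_lit 0) (nat_lit 3170191584) (nat_lit 608) (nat_lit 2334365193) (nat_lit 76) (nat_lit 12694890800) (nat_lit 190) (nat_lit 5) (nat_lit 198) (nat_lit 5) (nat_lit 191) (nat_lit 5) (nat_lit 486) (nat_lit 415) (nat_lit 239)) (XT.nd (nat_lit 78) (nat_lit 456) (nat_lit 0) (XT.lf (nat_lit 0) (nat_lit 6805415267) (nat_lit 532) (nat_lit 10293963928)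 (nat_lit 76) (nat_lit 1320642188) (nat_lit 184) (nat_lit 5) (nat_lit 191) (nat_lit 5) (nat_lit 185) (nat_lit 5) (nat_lit 487) (nat_lit 415) (nat_lit 238)) (XT.lf (nat_lit 0) (nat_lit 136210062) (nat_lit 456) (nat_lit 10421927242) (nat_lit 532) (nat_lit 8085975040) (nat_lit 178) (nat_lit 5) (nat_lit 184) (nat_lit 5) (nat_lit 185) (nat_lit 5) (nat_lit 488) (nat_lit 415) (nat_lit 237)))) (XT.nd (nat_lit 78) (nat_lit 532) (nat_lit 0) (XT.lf (nat_lit 0) (nat_lit 10902944891) (nat_lit 456) (nat_lit 3543821557) (nat_lit 532) (nat_lit 4424703144) (nat_lit 178) (nat_lit 5) (nat_lit 184) (nat_lit 5) (nat_lit 185) (nat_lit 5) (nat_lit 489) (nat_lit 415) (nat_lit 236)) (XT.nd (nat_lit 78) (nat_lit 76) (nat_lit 0) (XT.lf (nat_lit 0) (nat_lit 2784118727) (nat_lit 456) (nat_lit 15661581999) (nat_lit 532) (nat_lit 657024103) (nat_lit 172) (nat_lit 5) (nat_lit 178) (nat_lit 5) (nat_lit 179) (nat_lit 5) (nat_lit 490) (nat_lit 415) (nat_lit 235))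 (XT.lf (nat_lit 0) (nat_lit 3213464223) (nat_lit 532) (nat_lit 5533741317) (nat_lit 76) (nat_lit 10589602536) (nat_lit 171) (nat_lit 5) (nat_lit 178) (nat_lit 5) (nat_lit 172) (nat_lit 5) (nat_lit 491) (nat_lit 415) (nat_lit 234))))))))
noncomputable def xc177 : XT := (XT.nd (nat_lit 53976) (nat_lit 0) (nat_lit 21356) (XT.nd (nat_lit 858) (nat_lit 1140) (nat_lit 0) (XT.nd (nat_lit 390) (nat_lit 1216) (nat_lit 0) (XT.nd (nat_lit 156) (nat_lit 912) (nat_lit 0) (XT.nd (nat_lit 78) (nat_lit 0) (nat_lit 0) (XT.lf (nat_lit 0) (nat_lit 5523611536) (nat_lit 456) (nat_lit 1656926992) (nat_lit 532) (nat_lit 12394389535) (nat_lit 165) (nat_lit 5) (nat_lit 171) (nat_lit 5) (nat_lit 172) (nat_lit 5) (nat_lit 492) (nat_lit 415) (nat_lit 233)) (XT.lf (nat_lit 0) (nat_lit 11292694578) (nat_lit 532) (nat_lit 2987750959) (nat_lit 76) (nat_lit 5536051487) (nat_lit 165) (nat_lit 5) (nat_lit 172) (nat_lit 5) (nat_lit 166) (nat_lit 5) (nat_lit 493)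 (nat_lit 415) (nat_lit 232))) (XT.nd (nat_lit 78) (nat_lit 532) (nat_lit 0) (XT.lf (nat_lit 0) (nat_lit 8384943303) (nat_lit 380) (nat_lit 7159880163) (nat_lit 456) (nat_lit 4516920657) (nat_lit 160) (nat_lit 5) (nat_lit 165) (nat_lit 5) (nat_lit 166) (nat_lit 5) (nat_lit 494) (nat_lit 415) (nat_lit 231)) (XT.nd (nat_lit 78) (nat_lit 532) (nat_lit 0) (XT.lf (nat_lit 0) (nat_lit 19895218884) (nat_lit 456) (nat_lit 297903422) (nat_lit 76) (nat_lit 118510706) (nat_lit 160) (nat_lit 5) (nat_lit 166) (nat_lit 5) (nat_lit 161) (nat_lit 5) (nat_lit 495) (nat_lit 415) (nat_lit 230)) (XT.lf (nat_lit 0) (nat_lit 3831415523) (nat_lit 532) (nat_lit 9189761908) (nat_lit 76) (nat_lit 7542560359) (nat_lit 153) (nat_lit 5) (nat_lit 160) (nat_lit 5) (nat_lit 154) (nat_lit 5) (nat_lit 496) (nat_lit 415) (nat_lit 229))))) (XT.nd (nat_lit 234) (nat_lit 456) (nat_lit 0) (XT.nd (nat_lit 78) (nat_lit 380) (nat_lit 0) (XT.lf (nat_lit 0) (nat_lit 2481251550)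 (nat_lit 380) (nat_lit 5688049426) (nat_lit 456) (nat_lit 12651316387) (nat_lit 148) (nat_lit 5) (nat_lit 153) (nat_lit 5) (nat_lit 154) (nat_lit 5) (nat_lit 497) (nat_lit 415) (nat_lit 228)) (XT.nd (nat_lit 78) (nat_lit 380) (nat_lit 0) (XT.lf (nat_lit 0) (nat_lit 12660253426) (nat_lit 456) (nat_lit 6594246904) (nat_lit 76) (nat_lit 1826809238) (nat_lit 148) (nat_lit 5) (nat_lit 154) (nat_lit 5) (nat_lit 149) (nat_lit 5) (nat_lit 498) (nat_lit 415) (nat_lit 227)) (XT.lf (nat_lit 0) (nat_lit 5408192352) (nat_lit 380) (nat_lit 11898360026) (nat_lit 456) (nat_lit 4039353891) (nat_lit 143) (nat_lit 5) (nat_lit 148) (nat_lit 5) (nat_lit 149) (nat_lit 5) (nat_lit 499) (nat_lit 415) (nat_lit 226)))) (XT.nd (nat_lit 78) (nat_lit 380) (nat_lit 0) (XT.lf (nat_lit 0) (nat_lit 461655307) (nat_lit 456) (nat_lit 3888795696) (nat_lit 76) (nat_lit 17264542977) (nat_lit 142) (nat_lit 5) (nat_lit 148) (nat_lit 5) (nat_lit 143) (nat_lit 5) (nat_lit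 500) (nat_lit 415) (nat_lit 225)) (XT.nd (nat_lit 78) (nat_lit 0) (nat_lit 0) (XT.lf (nat_lit 0) (nat_lit 5068841237) (nat_lit 456) (nat_lit 13435385191) (nat_lit 76) (nat_lit 3383299279) (nat_lit 137) (nat_lit 5) (nat_lit 143) (nat_lit 5) (nat_lit 138) (nat_lit 5) (nat_lit 501) (nat_lit 415) (nat_lit 224)) (XT.lf (nat_lit 0) (nat_lit 9816207728) (nat_lit 456) (nat_lit 1112064127) (nat_lit 76) (nat_lit 11236276584) (nat_lit 137) (nat_lit 5) (nat_lit 143) (nat_lit 5) (nat_lit 138) (nat_lit 5) (nat_lit 502) (nat_lit 415) (nat_lit 223)))))) (XT.nd (nat_lit 52650) (nat_lit 0) (nat_lit 28652) (XT.nd (nat_lit 156) (nat_lit 456) (nat_lit 0) (XT.nd (nat_lit 78) (nat_lit 304) (nat_lit 0) (XT.lf (nat_lit 0) (nat_lit 11599357560) (nat_lit 380) (nat_lit 3127570027) (nat_lit 456) (nat_lit 7718817006) (nat_lit 132) (nat_lit 5) (nat_lit 137) (nat_lit 5) (nat_lit 138) (nat_lit 5) (nat_lit 503) (nat_lit 415) (nat_lit 222)) (XT.lf (nat_lit 0)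 (nat_lit 1829721333) (nat_lit 304) (nat_lit 17950025979) (nat_lit 380) (nat_lit 2951940717) (nat_lit 128) (nat_lit 5) (nat_lit 132) (nat_lit 5) (nat_lit 133) (nat_lit 5) (nat_lit 504) (nat_lit 415) (nat_lit 221))) (XT.nd (nat_lit 78) (nat_lit 380) (nat_lit 0) (XT.lf (nat_lit 0) (nat_lit 1972359135) (nat_lit 380) (nat_lit 8159675823) (nat_lit 76) (nat_lit 12889325552) (nat_lit 127) (nat_lit 5) (nat_lit 132) (nat_lit 5) (nat_lit 128) (nat_lit 5) (nat_lit 505) (nat_lit 415) (nat_lit 220)) (XT.nd (nat_lit 52338) (nat_lit 0) (nat_lit 28652) (XT.lf (nat_lit 0) (nat_lit 4871447061) (nat_lit 380) (nat_lit 2109131407) (nat_lit 456) (nat_lit 16335359532) (nat_lit 122) (nat_lit 5) (nat_lit 127) (nat_lit 5) (nat_lit 128) (nat_lit 5) (nat_lit 506) (nat_lit 415) (nat_lit 219)) (XT.lf (nat_lit 0) (nat_lit 358858611) (nat_lit 1596) (nat_lit 2054322763) (nat_lit 1596) (nat_lit 2054322763) (nat_lit 499) (nat_lit 3) (nat_lit 520) (nat_lit 3) (nat_lit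 520) (nat_lit 5) (nat_lit 416) (nat_lit 416) (nat_lit 308))))) (XT.nd (nat_lit 234) (nat_lit 0) (nat_lit 152) (XT.nd (nat_lit 78) (nat_lit 0) (nat_lit 76) (XT.lf (nat_lit 76) (nat_lit 212781791) (nat_lit 0) (nat_lit 1420842796) (nat_lit 1596) (nat_lit 7372275971) (nat_lit 500) (nat_lit 5) (nat_lit 499) (nat_lit 3) (nat_lit 520) (nat_lit 5) (nat_lit 417) (nat_lit 416) (nat_lit 307)) (XT.nd (nat_lit 78) (nat_lit 0) (nat_lit 0) (XT.lf (nat_lit 0) (nat_lit 2585127125) (nat_lit 1520) (nat_lit 4427701793) (nat_lit 1596) (nat_lit 2065043657) (nat_lit 500) (nat_lit 5) (nat_lit 520) (nat_lit 5) (nat_lit 521) (nat_lit 5) (nat_lit 418) (nat_lit 416) (nat_lit 306)) (XT.lf (nat_lit 76) (nat_lit 3042787) (nat_lit 0) (nat_lit 3538708200) (nat_lit 1596) (nat_lit 5609818504) (nat_lit 501) (nat_lit 5) (nat_lit 500) (nat_lit 5) (nat_lit 521) (nat_lit 5) (nat_lit 419) (nat_lit 416) (nat_lit 305)))) (XT.nd (nat_lit 78) (nat_lit 0) (nat_lit 0) (XT.lf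 (nat_lit 0) (nat_lit 4524554060) (nat_lit 1520) (nat_lit 4657015963) (nat_lit 1596) (nat_lit 45036527) (nat_lit 501) (nat_lit 5) (nat_lit 521) (nat_lit 5) (nat_lit 522) (nat_lit 5) (nat_lit 420) (nat_lit 416) (nat_lit 304)) (XT.nd (nat_lit 78) (nat_lit 0) (nat_lit 0) (XT.lf (nat_lit 0) (nat_lit 5528003224) (nat_lit 1520) (nat_lit 111916272) (nat_lit 1596) (nat_lit 3663212054) (nat_lit 501) (nat_lit 5) (nat_lit 521) (nat_lit 5) (nat_lit 522) (nat_lit 5) (nat_lit 421) (nat_lit 416) (nat_lit 303)) (XT.lf (nat_lit 76) (nat_lit 4571486266) (nat_lit 0) (nat_lit 1987711202) (nat_lit 1596) (nat_lit 2821842921) (nat_lit 502) (nat_lit 5) (nat_lit 501) (nat_lit 5) (nat_lit 522) (nat_lit 5) (nat_lit 422) (nat_lit 416) (nat_lit 302))))))) (XT.nd (nat_lit 858) (nat_lit 5928) (nat_lit 0) (XT.nd (nat_lit 390) (nat_lit 0) (nat_lit 152) (XT.nd (nat_lit 156) (nat_lit 1596) (nat_lit 0) (XT.nd (nat_lit 78) (nat_lit 0) (nat_lit 0) (XT.lf (nat_lit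 0) (nat_lit 7601457943) (nat_lit 1520) (nat_lit 134676568) (nat_lit 1596) (nat_lit 1724570776) (nat_lit 502) (nat_lit 5) (nat_lit 522) (nat_lit 5) (nat_lit 523) (nat_lit 5) (nat_lit 423) (nat_lit 416) (nat_lit 301)) (XT.lf (nat_lit 76) (nat_lit 4669052858) (nat_lit 0) (nat_lit 4017817522) (nat_lit 1596) (nat_lit 854653564) (nat_lit 503) (nat_lit 5) (nat_lit 502) (nat_lit 5) (nat_lit 523) (nat_lit 5) (nat_lit 424) (nat_lit 416) (nat_lit 300))) (XT.nd (nat_lit 78) (nat_lit 0) (nat_lit 76) (XT.lf (nat_lit 0) (nat_lit 147729054) (nat_lit 1596) (nat_lit 67287416) (nat_lit 1672) (nat_lit 9409328226) (nat_lit 481) (nat_lit 5) (nat_lit 502) (nat_lit 5) (nat_lit 503) (nat_lit 5) (nat_lit 425) (nat_lit 416) (nat_lit 299)) (XT.nd (nat_lit 78) (nat_lit 0) (nat_lit 0) (XT.lf (nat_lit 0) (nat_lit 1193923647) (nat_lit 1596) (nat_lit 4852907334) (nat_lit 1672) (nat_lit 3661179949) (nat_lit 482) (nat_lit 5) (nat_lit 503) (nat_lit 5) (nat_lit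 504) (nat_lit 5) (nat_lit 426) (nat_lit 416) (nat_lit 298)) (XT.lf (nat_lit 76) (nat_lit 69960424) (nat_lit 0) (nat_lit 2173214514) (nat_lit 1672) (nat_lit 7550538988) (nat_lit 483) (nat_lit 5) (nat_lit 482) (nat_lit 5) (nat_lit 504) (nat_lit 5) (nat_lit 427) (nat_lit 416) (nat_lit 297))))) (XT.nd (nat_lit 234) (nat_lit 0) (nat_lit 76) (XT.nd (nat_lit 78) (nat_lit 0) (nat_lit 0) (XT.lf (nat_lit 0) (nat_lit 3337892674) (nat_lit 1596) (nat_lit 4748576669) (nat_lit 1672) (nat_lit 1794177985) (nat_lit 483) (nat_lit 5) (nat_lit 504) (nat_lit 5) (nat_lit 505) (nat_lit 5) (nat_lit 428) (nat_lit 416) (nat_lit 296)) (XT.nd (nat_lit 78) (nat_lit 0) (nat_lit 0) (XT.lf (nat_lit 76) (nat_lit 302536064) (nat_lit 0) (nat_lit 4148871241) (nat_lit 1672) (nat_lit 5517979901) (nat_lit 484) (nat_lit 5) (nat_lit 483) (nat_lit 5) (nat_lit 505) (nat_lit 5) (nat_lit 429) (nat_lit 416) (nat_lit 295)) (XT.lf (nat_lit 76) (nat_lit 5505982428) (nat_lit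 0) (nat_lit 93918052) (nat_lit 1672) (nat_lit 4459752978) (nat_lit 484) (nat_lit 5) (nat_lit 483) (nat_lit 5) (nat_lit 505) (nat_lit 5) (nat_lit 430) (nat_lit 416) (nat_lit 294)))) (XT.nd (nat_lit 78) (nat_lit 0) (nat_lit 0) (XT.lf (nat_lit 76) (nat_lit 630577698) (nat_lit 0) (nat_lit 6152381429) (nat_lit 1672) (nat_lit 3368539625) (nat_lit 485) (nat_lit 5) (nat_lit 484) (nat_lit 5) (nat_lit 506) (nat_lit 5) (nat_lit 431) (nat_lit 416) (nat_lit 293)) (XT.nd (nat_lit 78) (nat_lit 0) (nat_lit 76) (XT.lf (nat_lit 76) (nat_lit 5966473444) (nat_lit 0) (nat_lit 2035920410) (nat_lit 1672) (nat_lit 2242538320) (nat_lit 485) (nat_lit 5) (nat_lit 484) (nat_lit 5) (nat_lit 506) (nat_lit 5) (nat_lit 432) (nat_lit 416) (nat_lit 292)) (XT.lf (nat_lit 76) (nat_lit 1055373784) (nat_lit 0) (nat_lit 8193673835) (nat_lit 1672) (nat_lit 1091135449) (nat_lit 486) (nat_lit 5) (nat_lit 485) (nat_lit 5) (nat_lit 507) (nat_lit 5) (nat_lit 433) (nat_lit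 416) (nat_lit 291)))))) (XT.nd (nat_lit 468) (nat_lit 4560) (nat_lit 0) (XT.nd (nat_lit 234) (nat_lit 0) (nat_lit 76) (XT.nd (nat_lit 78) (nat_lit 0) (nat_lit 76) (XT.lf (nat_lit 0) (nat_lit 106667655) (nat_lit 1672) (nat_lit 3910533717) (nat_lit 1748) (nat_lit 6419642700) (nat_lit 463) (nat_lit 5) (nat_lit 485) (nat_lit 5) (nat_lit 486) (nat_lit 5) (nat_lit 434) (nat_lit 416) (nat_lit 290)) (XT.nd (nat_lit 78) (nat_lit 0) (nat_lit 0) (XT.lf (nat_lit 0) (nat_lit 1308185614) (nat_lit 1672) (nat_lit 8965725812) (nat_lit 1748) (nat_lit 261500340) (nat_lit 464) (nat_lit 5) (nat_lit 486) (nat_lit 5) (nat_lit 487) (nat_lit 5) (nat_lit 435) (nat_lit 416) (nat_lit 289)) (XT.lf (nat_lit 0) (nat_lit 2569472594) (nat_lit 1672) (nat_lit 3463147627) (nat_lit 1748) (nat_lit 4602620819) (nat_lit 464) (nat_lit 5) (nat_lit 486) (nat_lit 5) (nat_lit 487) (nat_lit 5) (nat_lit 436) (nat_lit 416) (nat_lit 288)))) (XT.nd (nat_lit 78) (nat_lit 0)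 (nat_lit 76) (XT.lf (nat_lit 76) (nat_lit 2164673961) (nat_lit 0) (nat_lit 1688423844) (nat_lit 1748) (nat_lit 6884031744) (nat_lit 465) (nat_lit 5) (nat_lit 464) (nat_lit 5) (nat_lit 487) (nat_lit 5) (nat_lit 437) (nat_lit 416) (nat_lit 287)) (XT.nd (nat_lit 78) (nat_lit 0) (nat_lit 0) (XT.lf (nat_lit 0) (nat_lit 5186924442) (nat_lit 1672) (nat_lit 2920029617) (nat_lit 1748) (nat_lit 2733615997) (nat_lit 465) (nat_lit 5) (nat_lit 487) (nat_lit 5) (nat_lit 488) (nat_lit 5) (nat_lit 438) (nat_lit 416) (nat_lit 286)) (XT.lf (nat_lit 76) (nat_lit 2858544378) (nat_lit 0) (nat_lit 3702279638) (nat_lit 1748) (nat_lit 4384992140) (nat_lit 466) (nat_lit 5) (nat_lit 465) (nat_lit 5) (nat_lit 488) (nat_lit 5) (nat_lit 439) (nat_lit 416) (nat_lit 285))))) (XT.nd (nat_lit 234) (nat_lit 3116) (nat_lit 0) (XT.nd (nat_lit 78) (nat_lit 1672) (nat_lit 0) (XT.lf (nat_lit 0) (nat_lit 7970968565) (nat_lit 1672) (nat_lit 2279234301) (nat_lit 76)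 (nat_lit 802793589) (nat_lit 466) (nat_lit 5) (nat_lit 488) (nat_lit 5) (nat_lit 467) (nat_lit 5) (nat_lit 440) (nat_lit 416) (nat_lit 284)) (XT.nd (nat_lit 78) (nat_lit 0) (nat_lit 0) (XT.lf (nat_lit 0) (nat_lit 3655179435) (nat_lit 1672) (nat_lit 5786612224) (nat_lit 1748) (nat_lit 1719883717) (nat_lit 444) (nat_lit 5) (nat_lit 466) (nat_lit 5) (nat_lit 467) (nat_lit 5) (nat_lit 441) (nat_lit 416) (nat_lit 283)) (XT.lf (nat_lit 0) (nat_lit 9726059524) (nat_lit 1672) (nat_lit 1215716089) (nat_lit 1748) (nat_lit 330761813) (nat_lit 444) (nat_lit 5) (nat_lit 466) (nat_lit 5) (nat_lit 467) (nat_lit 5) (nat_lit 442) (nat_lit 416) (nat_lit 282)))) (XT.nd (nat_lit 78) (nat_lit 1292) (nat_lit 0) (XT.lf (nat_lit 0) (nat_lit 1108870782) (nat_lit 1824) (nat_lit 6835238653) (nat_lit 76) (nat_lit 3440631046) (nat_lit 420) (nat_lit 5) (nat_lit 444) (nat_lit 5) (nat_lit 421) (nat_lit 5) (nat_lit 443) (nat_lit 416) (nat_lit 281)) (XT.nd (nat_lit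 78) (nat_lit 1292) (nat_lit 0) (XT.lf (nat_lit 0) (nat_lit 2576248636) (nat_lit 1824) (nat_lit 734229741) (nat_lit 76) (nat_lit 8188602044) (nat_lit 420) (nat_lit 5) (nat_lit 444) (nat_lit 5) (nat_lit 421) (nat_lit 5) (nat_lit 444) (nat_lit 416) (nat_lit 280)) (XT.lf (nat_lit 0) (nat_lit 4103617713) (nat_lit 1368) (nat_lit 6076203198) (nat_lit 76) (nat_lit 1435277479) (nat_lit 403) (nat_lit 5) (nat_lit 421) (nat_lit 5) (nat_lit 404) (nat_lit 5) (nat_lit 445) (nat_lit 416) (nat_lit 279))))))))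
noncomputable def xc178 : XT := (XT.nd (nat_lit 1716) (nat_lit 7448) (nat_lit 0) (XT.nd (nat_lit 858) (nat_lit 4484) (nat_lit 0) (XT.nd (nat_lit 390) (nat_lit 2432) (nat_lit 0) (XT.nd (nat_lit 156) (nat_lit 1824) (nat_lit 0) (XT.nd (nat_lit 78) (nat_lit 0) (nat_lit 0) (XT.lf (nat_lit 0) (nat_lit 181254029) (nat_lit 912) (nat_lit 5493734010) (nat_lit 988) (nat_lit 6058183622) (nat_lit 391) (nat_lit 5) (nat_lit 403) (nat_lit 5) (nat_lit 404) (nat_lit 5) (nat_lit 446) (nat_lit 416) (nat_lit 278)) (XT.lf (nat_lit 0) (nat_lit 6633048248) (nat_lit 912) (nat_lit 671106542) (nat_lit 988) (nat_lit 4548928168) (nat_lit 391) (nat_lit 5) (nat_lit 403) (nat_lit 5) (nat_lit 404) (nat_lit 5) (nat_lit 447) (nat_lit 416) (nat_lit 277))) (XT.nd (nat_lit 78) (nat_lit 988) (nat_lit 0) (XT.lf (nat_lit 0) (nat_lit 1213609446) (nat_lit 836) (nat_lit 7773640429) (nat_lit 912) (nat_lit 2987719571) (nat_lit 380) (nat_lit 5) (nat_lit 391) (nat_lit 5)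 (nat_lit 392) (nat_lit 5) (nat_lit 448) (nat_lit 416) (nat_lit 276)) (XT.nd (nat_lit 78) (nat_lit 988) (nat_lit 0) (XT.lf (nat_lit 0) (nat_lit 7829056410) (nat_lit 836) (nat_lit 2900471137) (nat_lit 912) (nat_lit 1369259491) (nat_lit 380) (nat_lit 5) (nat_lit 391) (nat_lit 5) (nat_lit 392) (nat_lit 5) (nat_lit 449) (nat_lit 416) (nat_lit 275)) (XT.lf (nat_lit 0) (nat_lit 293065496) (nat_lit 988) (nat_lit 9870670541) (nat_lit 76) (nat_lit 2061008254) (nat_lit 367) (nat_lit 5) (nat_lit 380) (nat_lit 5) (nat_lit 368) (nat_lit 5) (nat_lit 450) (nat_lit 416) (nat_lit 274))))) (XT.nd (nat_lit 234) (nat_lit 1596) (nat_lit 0) (XT.nd (nat_lit 78) (nat_lit 836) (nat_lit 0) (XT.lf (nat_lit 0) (nat_lit 2004814459) (nat_lit 988) (nat_lit 3226129408) (nat_lit 76) (nat_lit 7121409138) (nat_lit 367) (nat_lit 5) (nat_lit 380) (nat_lit 5) (nat_lit 368) (nat_lit 5) (nat_lit 451) (nat_lit 416) (nat_lit 273)) (XT.nd (nat_lit 78) (nat_lit 0) (nat_lit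 0) (XT.lf (nat_lit 0) (nat_lit 3585337451) (nat_lit 836) (nat_lit 175449551) (nat_lit 912) (nat_lit 8721530620) (nat_lit 356) (nat_lit 5) (nat_lit 367) (nat_lit 5) (nat_lit 368) (nat_lit 5) (nat_lit 452) (nat_lit 416) (nat_lit 272)) (XT.lf (nat_lit 0) (nat_lit 5592900749) (nat_lit 912) (nat_lit 2083337259) (nat_lit 76) (nat_lit 4937826518) (nat_lit 356) (nat_lit 5) (nat_lit 368) (nat_lit 5) (nat_lit 357) (nat_lit 5) (nat_lit 453) (nat_lit 416) (nat_lit 271)))) (XT.nd (nat_lit 78) (nat_lit 760) (nat_lit 0) (XT.lf (nat_lit 0) (nat_lit 4916992997) (nat_lit 836) (nat_lit 2564895558) (nat_lit 912) (nat_lit 5266156543) (nat_lit 345) (nat_lit 5) (nat_lit 356) (nat_lit 5) (nat_lit 357) (nat_lit 5) (nat_lit 454) (nat_lit 416) (nat_lit 270)) (XT.nd (nat_lit 78) (nat_lit 760) (nat_lit 0) (XT.lf (nat_lit 0) (nat_lit 9427239291) (nat_lit 912) (nat_lit 829227168) (nat_lit 76) (nat_lit 2627870457) (nat_lit 345) (nat_lit 5) (nat_lit 357) (nat_lit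 5) (nat_lit 346) (nat_lit 5) (nat_lit 455) (nat_lit 416) (nat_lit 269)) (XT.lf (nat_lit 0) (nat_lit 6366318110) (nat_lit 760) (nat_lit 5091061462) (nat_lit 836) (nat_lit 1565060580) (nat_lit 335) (nat_lit 5) (nat_lit 345) (nat_lit 5) (nat_lit 346) (nat_lit 5) (nat_lit 456) (nat_lit 416) (nat_lit 268)))))) (XT.nd (nat_lit 390) (nat_lit 2128) (nat_lit 0) (XT.nd (nat_lit 156) (nat_lit 1520) (nat_lit 0) (XT.nd (nat_lit 78) (nat_lit 0) (nat_lit 0) (XT.lf (nat_lit 0) (nat_lit 358041727) (nat_lit 836) (nat_lit 12618888647) (nat_lit 76) (nat_lit 186370633) (nat_lit 324) (nat_lit 5) (nat_lit 335) (nat_lit 5) (nat_lit 325) (nat_lit 5) (nat_lit 457) (nat_lit 416) (nat_lit 267)) (XT.lf (nat_lit 0) (nat_lit 2365140948) (nat_lit 836) (nat_lit 5384345524) (nat_lit 76) (nat_lit 5555958931) (nat_lit 324) (nat_lit 5) (nat_lit 335) (nat_lit 5) (nat_lit 325) (nat_lit 5) (nat_lit 458) (nat_lit 416) (nat_lit 266))) (XT.nd (nat_lit 78) (nat_lit 760)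 (nat_lit 0) (XT.lf (nat_lit 0) (nat_lit 2008418815) (nat_lit 760) (nat_lit 2405036576) (nat_lit 836) (nat_lit 9036958820) (nat_lit 314) (nat_lit 5) (nat_lit 324) (nat_lit 5) (nat_lit 325) (nat_lit 5) (nat_lit 459) (nat_lit 416) (nat_lit 265)) (XT.nd (nat_lit 78) (nat_lit 760) (nat_lit 0) (XT.lf (nat_lit 0) (nat_lit 6547065164) (nat_lit 836) (nat_lit 4008512440) (nat_lit 76) (nat_lit 3041821138) (nat_lit 314) (nat_lit 5) (nat_lit 325) (nat_lit 5) (nat_lit 315) (nat_lit 5) (nat_lit 460) (nat_lit 416) (nat_lit 264)) (XT.lf (nat_lit 0) (nat_lit 3592118724) (nat_lit 760) (nat_lit 5158889346) (nat_lit 836) (nat_lit 4995764547) (nat_lit 304) (nat_lit 5) (nat_lit 314) (nat_lit 5) (nat_lit 315) (nat_lit 5) (nat_lit 461) (nat_lit 416) (nat_lit 263))))) (XT.nd (nat_lit 234) (nat_lit 1368) (nat_lit 0) (XT.nd (nat_lit 78) (nat_lit 760) (nat_lit 0) (XT.lf (nat_lit 0) (nat_lit 11016900690) (nat_lit 836) (nat_lit 2514765686) (nat_lit 76) (nat_lit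 367112990) (nat_lit 304) (nat_lit 5) (nat_lit 315) (nat_lit 5) (nat_lit 305) (nat_lit 5) (nat_lit 462) (nat_lit 416) (nat_lit 262)) (XT.nd (nat_lit 78) (nat_lit 76) (nat_lit 0) (XT.lf (nat_lit 0) (nat_lit 5300680928) (nat_lit 684) (nat_lit 8084783895) (nat_lit 760) (nat_lit 667217114) (nat_lit 295) (nat_lit 5) (nat_lit 304) (nat_lit 5) (nat_lit 305) (nat_lit 5) (nat_lit 463) (nat_lit 416) (nat_lit 261)) (XT.lf (nat_lit 0) (nat_lit 1576685009) (nat_lit 760) (nat_lit 925908712) (nat_lit 76) (nat_lit 11706748334) (nat_lit 294) (nat_lit 5) (nat_lit 304) (nat_lit 5) (nat_lit 295) (nat_lit 5) (nat_lit 464) (nat_lit 416) (nat_lit 260)))) (XT.nd (nat_lit 78) (nat_lit 684) (nat_lit 0) (XT.lf (nat_lit 0) (nat_lit 3912955537) (nat_lit 760) (nat_lit 7255959114) (nat_lit 76) (nat_lit 3199006631) (nat_lit 285) (nat_lit 5) (nat_lit 295) (nat_lit 5) (nat_lit 286) (nat_lit 5) (nat_lit 465) (nat_lit 416) (nat_lit 259)) (XT.nd (nat_lit 78) (nat_lit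 0) (nat_lit 0) (XT.lf (nat_lit 0) (nat_lit 774596934) (nat_lit 684) (nat_lit 5538391347) (nat_lit 760) (nat_lit 8216345627) (nat_lit 276) (nat_lit 5) (nat_lit 285) (nat_lit 5) (nat_lit 286) (nat_lit 5) (nat_lit 466) (nat_lit 416) (nat_lit 258)) (XT.lf (nat_lit 0) (nat_lit 8800664210) (nat_lit 760) (nat_lit 5643195493) (nat_lit 76) (nat_lit 249324730) (nat_lit 276) (nat_lit 5) (nat_lit 286) (nat_lit 5) (nat_lit 277) (nat_lit 5) (nat_lit 467) (nat_lit 416) (nat_lit 257))))))) (XT.nd (nat_lit 858) (nat_lit 3648) (nat_lit 0) (XT.nd (nat_lit 390) (nat_lit 1824) (nat_lit 0) (XT.nd (nat_lit 156) (nat_lit 1292) (nat_lit 0) (XT.nd (nat_lit 78) (nat_lit 0) (nat_lit 0) (XT.lf (nat_lit 0) (nat_lit 2615790297) (nat_lit 684) (nat_lit 8765474153) (nat_lit 760) (nat_lit 3478186555) (nat_lit 267) (nat_lit 5) (nat_lit 276) (nat_lit 5) (nat_lit 277) (nat_lit 5) (nat_lit 468) (nat_lit 416) (nat_lit 256)) (XT.lf (nat_lit 0) (nat_lit 11104117491)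 (nat_lit 684) (nat_lit 2936862899) (nat_lit 760) (nat_lit 987514847) (nat_lit 267) (nat_lit 5) (nat_lit 276) (nat_lit 5) (nat_lit 277) (nat_lit 5) (nat_lit 469) (nat_lit 416) (nat_lit 255))) (XT.nd (nat_lit 78) (nat_lit 608) (nat_lit 0) (XT.lf (nat_lit 0) (nat_lit 1572016580) (nat_lit 684) (nat_lit 10620813145) (nat_lit 76) (nat_lit 3007103004) (nat_lit 258) (nat_lit 5) (nat_lit 267) (nat_lit 5) (nat_lit 259) (nat_lit 5) (nat_lit 470) (nat_lit 416) (nat_lit 254)) (XT.nd (nat_lit 78) (nat_lit 608) (nat_lit 0) (XT.lf (nat_lit 0) (nat_lit 4205363631) (nat_lit 684) (nat_lit 2106893623) (nat_lit 76) (nat_lit 9061696475) (nat_lit 258) (nat_lit 5) (nat_lit 267) (nat_lit 5) (nat_lit 259) (nat_lit 5) (nat_lit 471) (nat_lit 416) (nat_lit 253)) (XT.lf (nat_lit 0) (nat_lit 6652453867) (nat_lit 608) (nat_lit 272191383) (nat_lit 684) (nat_lit 8626146767) (nat_lit 250) (nat_lit 5) (nat_lit 258) (nat_lit 5) (nat_lit 259) (nat_lit 5) (nat_lit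 472) (nat_lit 416) (nat_lit 252))))) (XT.nd (nat_lit 234) (nat_lit 608) (nat_lit 0) (XT.nd (nat_lit 78) (nat_lit 1216) (nat_lit 0) (XT.lf (nat_lit 0) (nat_lit 9740955378) (nat_lit 684) (nat_lit 165866254) (nat_lit 76) (nat_lit 5823494756) (nat_lit 250) (nat_lit 5) (nat_lit 259) (nat_lit 5) (nat_lit 251) (nat_lit 5) (nat_lit 473) (nat_lit 416) (nat_lit 251)) (XT.nd (nat_lit 78) (nat_lit 608) (nat_lit 0) (XT.lf (nat_lit 0) (nat_lit 8843472558) (nat_lit 608) (nat_lit 3819709718) (nat_lit 684) (nat_lit 3249259293) (nat_lit 242) (nat_lit 5) (nat_lit 250) (nat_lit 5) (nat_lit 251) (nat_lit 5) (nat_lit 474) (nat_lit 416) (nat_lit 250)) (XT.lf (nat_lit 0) (nat_lit 1934854153) (nat_lit 608) (nat_lit 13728660819) (nat_lit 684) (nat_lit 434303148) (nat_lit 234) (nat_lit 5) (nat_lit 242) (nat_lit 5) (nat_lit 243) (nat_lit 5) (nat_lit 475) (nat_lit 416) (nat_lit 249)))) (XT.nd (nat_lit 78) (nat_lit 532) (nat_lit 0) (XT.lf (nat_lit 0) (nat_lit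 2468549061) (nat_lit 684) (nat_lit 5124921299) (nat_lit 76) (nat_lit 8691846246) (nat_lit 233) (nat_lit 5) (nat_lit 242) (nat_lit 5) (nat_lit 234) (nat_lit 5) (nat_lit 476) (nat_lit 416) (nat_lit 248)) (XT.nd (nat_lit 78) (nat_lit 0) (nat_lit 0) (XT.lf (nat_lit 0) (nat_lit 4133342242) (nat_lit 532) (nat_lit 1307839909) (nat_lit 608) (nat_lit 11034976685) (nat_lit 226) (nat_lit 5) (nat_lit 233) (nat_lit 5) (nat_lit 234) (nat_lit 5) (nat_lit 477) (nat_lit 416) (nat_lit 247)) (XT.lf (nat_lit 0) (nat_lit 8531808176) (nat_lit 608) (nat_lit 3069216675) (nat_lit 76) (nat_lit 5068624185) (nat_lit 226) (nat_lit 5) (nat_lit 234) (nat_lit 5) (nat_lit 227) (nat_lit 5) (nat_lit 478) (nat_lit 416) (nat_lit 246)))))) (XT.nd (nat_lit 468) (nat_lit 1520) (nat_lit 0) (XT.nd (nat_lit 234) (nat_lit 988) (nat_lit 0) (XT.nd (nat_lit 78) (nat_lit 608) (nat_lit 0) (XT.lf (nat_lit 0) (nat_lit 6454111260) (nat_lit 532) (nat_lit 5271667957) (nat_lit 608)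 (nat_lit 5140401067) (nat_lit 219) (nat_lit 5) (nat_lit 226) (nat_lit 5) (nat_lit 227) (nat_lit 5) (nat_lit 479) (nat_lit 416) (nat_lit 245)) (XT.nd (nat_lit 78) (nat_lit 608) (nat_lit 0) (XT.lf (nat_lit 0) (nat_lit 15003101974) (nat_lit 608) (nat_lit 876361223) (nat_lit 76) (nat_lit 1186791373) (nat_lit 219) (nat_lit 5) (nat_lit 227) (nat_lit 5) (nat_lit 220) (nat_lit 5) (nat_lit 480) (nat_lit 416) (nat_lit 244)) (XT.lf (nat_lit 0) (nat_lit 1146144596) (nat_lit 608) (nat_lit 8355631290) (nat_lit 76) (nat_lit 7766724344) (nat_lit 211) (nat_lit 5) (nat_lit 219) (nat_lit 5) (nat_lit 212) (nat_lit 5) (nat_lit 481) (nat_lit 416) (nat_lit 243)))) (XT.nd (nat_lit 78) (nat_lit 456) (nat_lit 0) (XT.lf (nat_lit 0) (nat_lit 1428497379) (nat_lit 532) (nat_lit 2969989414) (nat_lit 608) (nat_lit 13075903320) (nat_lit 204) (nat_lit 5) (nat_lit 211) (nat_lit 5) (nat_lit 212) (nat_lit 5) (nat_lit 482) (nat_lit 416) (nat_lit 242)) (XT.nd (nat_lit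 78) (nat_lit 456) (nat_lit 0) (XT.lf (nat_lit 0) (nat_lit 7787633293) (nat_lit 608) (nat_lit 6197754399) (nat_lit 76) (nat_lit 3697576667) (nat_lit 204) (nat_lit 5) (nat_lit 212) (nat_lit 5) (nat_lit 205) (nat_lit 5) (nat_lit 483) (nat_lit 416) (nat_lit 241)) (XT.lf (nat_lit 0) (nat_lit 3866918355) (nat_lit 456) (nat_lit 7413931265) (nat_lit 532) (nat_lit 6614136415) (nat_lit 198) (nat_lit 5) (nat_lit 204) (nat_lit 5) (nat_lit 205) (nat_lit 5) (nat_lit 484) (nat_lit 416) (nat_lit 240))))) (XT.nd (nat_lit 234) (nat_lit 912) (nat_lit 0) (XT.nd (nat_lit 78) (nat_lit 608) (nat_lit 0) (XT.lf (nat_lit 0) (nat_lit 14205497376) (nat_lit 456) (nat_lit 671627013) (nat_lit 532) (nat_lit 3233461522) (nat_lit 198) (nat_lit 5) (nat_lit 204) (nat_lit 5) (nat_lit 205) (nat_lit 5) (nat_lit 485) (nat_lit 416) (nat_lit 239)) (XT.nd (nat_lit 78) (nat_lit 0) (nat_lit 0) (XT.lf (nat_lit 0) (nat_lit 286436836) (nat_lit 608) (nat_lit 11877531081) (nat_lit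 76) (nat_lit 6165015007) (nat_lit 190) (nat_lit 5) (nat_lit 198) (nat_lit 5) (nat_lit 191) (nat_lit 5) (nat_lit 486) (nat_lit 416) (nat_lit 238)) (XT.lf (nat_lit 0) (nat_lit 3856086751) (nat_lit 608) (nat_lit 1520560556) (nat_lit 76) (nat_lit 13174221669) (nat_lit 190) (nat_lit 5) (nat_lit 198) (nat_lit 5) (nat_lit 191) (nat_lit 5) (nat_lit 487) (nat_lit 416) (nat_lit 237)))) (XT.nd (nat_lit 78) (nat_lit 456) (nat_lit 0) (XT.lf (nat_lit 0) (nat_lit 7558911038) (nat_lit 532) (nat_lit 9634131979) (nat_lit 76) (nat_lit 1582915627) (nat_lit 184) (nat_lit 5) (nat_lit 191) (nat_lit 5) (nat_lit 185) (nat_lit 5) (nat_lit 488) (nat_lit 416) (nat_lit 236)) (XT.nd (nat_lit 78) (nat_lit 0) (nat_lit 0) (XT.lf (nat_lit 0) (nat_lit 998950022) (nat_lit 456) (nat_lit 10381215649) (nat_lit 532) (nat_lit 7624498452) (nat_lit 178) (nat_lit 5) (nat_lit 184) (nat_lit 5) (nat_lit 185) (nat_lit 5) (nat_lit 489) (nat_lit 416) (nat_lit 235)) (XT.lf (nat_lit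 0) (nat_lit 11964156494) (nat_lit 456) (nat_lit 3370433148) (nat_lit 532) (nat_lit 3902220650) (nat_lit 178) (nat_lit 5) (nat_lit 184) (nat_lit 5) (nat_lit 185) (nat_lit 5) (nat_lit 490) (nat_lit 416) (nat_lit 234))))))))
noncomputable def xc179 : XT := (XT.nd (nat_lit 54054) (nat_lit 0) (nat_lit 20976) (XT.nd (nat_lit 858) (nat_lit 1140) (nat_lit 0) (XT.nd (nat_lit 390) (nat_lit 1368) (nat_lit 0) (XT.nd (nat_lit 156) (nat_lit 836) (nat_lit 0) (XT.nd (nat_lit 78) (nat_lit 76) (nat_lit 0) (XT.lf (nat_lit 0) (nat_lit 3687840416) (nat_lit 456) (nat_lit 15720980156) (nat_lit 532) (nat_lit 63965876) (nat_lit 172) (nat_lit 5) (nat_lit 178) (nat_lit 5) (nat_lit 179) (nat_lit 5) (nat_lit 491) (nat_lit 416) (nat_lit 233)) (XT.lf (nat_lit 0) (nat_lit 3864251453) (nat_lit 532) (nat_lit 4805105999) (nat_lit 76) (nat_lit 11042351891) (nat_lit 171) (nat_lit 5) (nat_lit 178) (nat_lit 5) (nat_lit 172) (nat_lit 5) (nat_lit 492) (nat_lit 416)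 (nat_lit 232))) (XT.nd (nat_lit 78) (nat_lit 380) (nat_lit 0) (XT.lf (nat_lit 0) (nat_lit 6467872134) (nat_lit 456) (nat_lit 1436708265) (nat_lit 532) (nat_lit 12050135116) (nat_lit 165) (nat_lit 5) (nat_lit 171) (nat_lit 5) (nat_lit 172) (nat_lit 5) (nat_lit 493) (nat_lit 416) (nat_lit 231)) (XT.nd (nat_lit 78) (nat_lit 380) (nat_lit 0) (XT.lf (nat_lit 0) (nat_lit 12089211277) (nat_lit 532) (nat_lit 2220197632) (nat_lit 76) (nat_lit 5891904322) (nat_lit 165) (nat_lit 5) (nat_lit 172) (nat_lit 5) (nat_lit 166) (nat_lit 5) (nat_lit 494) (nat_lit 416) (nat_lit 230)) (XT.lf (nat_lit 0) (nat_lit 9374507698) (nat_lit 380) (nat_lit 7046021674) (nat_lit 456) (nat_lit 4031054937) (nat_lit 160) (nat_lit 5) (nat_lit 165) (nat_lit 5) (nat_lit 166) (nat_lit 5) (nat_lit 495) (nat_lit 416) (nat_lit 229))))) (XT.nd (nat_lit 234) (nat_lit 456) (nat_lit 0) (XT.nd (nat_lit 78) (nat_lit 380) (nat_lit 0) (XT.lf (nat_lit 0) (nat_lit 143359334) (nat_lit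 532) (nat_lit 20189316936) (nat_lit 76) (nat_lit 373899249) (nat_lit 153) (nat_lit 5) (nat_lit 160) (nat_lit 5) (nat_lit 154) (nat_lit 5) (nat_lit 496) (nat_lit 416) (nat_lit 228)) (XT.nd (nat_lit 78) (nat_lit 380) (nat_lit 0) (XT.lf (nat_lit 0) (nat_lit 4461517853) (nat_lit 532) (nat_lit 8556187126) (nat_lit 76) (nat_lit 7946145259) (nat_lit 153) (nat_lit 5) (nat_lit 160) (nat_lit 5) (nat_lit 154) (nat_lit 5) (nat_lit 497) (nat_lit 416) (nat_lit 227)) (XT.lf (nat_lit 0) (nat_lit 3342869167) (nat_lit 380) (nat_lit 5537711412) (nat_lit 456) (nat_lit 12345400254) (nat_lit 148) (nat_lit 5) (nat_lit 153) (nat_lit 5) (nat_lit 154) (nat_lit 5) (nat_lit 498) (nat_lit 416) (nat_lit 226)))) (XT.nd (nat_lit 78) (nat_lit 456) (nat_lit 0) (XT.lf (nat_lit 0) (nat_lit 13452290150) (nat_lit 456) (nat_lit 5920909532) (nat_lit 76) (nat_lit 2118870223) (nat_lit 148) (nat_lit 5) (nat_lit 154) (nat_lit 5) (nat_lit 149) (nat_lit 5) (nat_lit 499)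 (nat_lit 416) (nat_lit 225)) (XT.nd (nat_lit 78) (nat_lit 76) (nat_lit 0) (XT.lf (nat_lit 0) (nat_lit 6316280995) (nat_lit 380) (nat_lit 11869862402) (nat_lit 456) (nat_lit 3575924326) (nat_lit 143) (nat_lit 5) (nat_lit 148) (nat_lit 5) (nat_lit 149) (nat_lit 5) (nat_lit 500) (nat_lit 416) (nat_lit 224)) (XT.lf (nat_lit 0) (nat_lit 997436594) (nat_lit 456) (nat_lit 3175249991) (nat_lit 76) (nat_lit 17863992237) (nat_lit 142) (nat_lit 5) (nat_lit 148) (nat_lit 5) (nat_lit 143) (nat_lit 5) (nat_lit 501) (nat_lit 416) (nat_lit 223)))))) (XT.nd (nat_lit 52728) (nat_lit 0) (nat_lit 28272) (XT.nd (nat_lit 156) (nat_lit 760) (nat_lit 0) (XT.nd (nat_lit 78) (nat_lit 0) (nat_lit 0) (XT.lf (nat_lit 0) (nat_lit 5693264930) (nat_lit 456) (nat_lit 12909187536) (nat_lit 76) (nat_lit 3712280390) (nat_lit 137) (nat_lit 5) (nat_lit 143) (nat_lit 5) (nat_lit 138) (nat_lit 5) (nat_lit 502) (nat_lit 416) (nat_lit 222)) (XT.lf (nat_lit 0) (nat_lit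 10525322930) (nat_lit 456) (nat_lit 354986431) (nat_lit 76) (nat_lit 11717193416) (nat_lit 137) (nat_lit 5) (nat_lit 143) (nat_lit 5) (nat_lit 138) (nat_lit 5) (nat_lit 503) (nat_lit 416) (nat_lit 221))) (XT.nd (nat_lit 78) (nat_lit 380) (nat_lit 0) (XT.lf (nat_lit 0) (nat_lit 12605536592) (nat_lit 380) (nat_lit 2923692435) (nat_lit 456) (nat_lit 7355195974) (nat_lit 132) (nat_lit 5) (nat_lit 137) (nat_lit 5) (nat_lit 138) (nat_lit 5) (nat_lit 504) (nat_lit 416) (nat_lit 220)) (XT.nd (nat_lit 78) (nat_lit 76) (nat_lit 0) (XT.lf (nat_lit 0) (nat_lit 2643862970) (nat_lit 304) (nat_lit 18036030308) (nat_lit 380) (nat_lit 2496259817) (nat_lit 128) (nat_lit 5) (nat_lit 132) (nat_lit 5) (nat_lit 133) (nat_lit 5) (nat_lit 505) (nat_lit 416) (nat_lit 219)) (XT.lf (nat_lit 0) (nat_lit 2509815212) (nat_lit 380) (nat_lit 7553875219) (nat_lit 76) (nat_lit 13408062455) (nat_lit 127) (nat_lit 5) (nat_lit 132) (nat_lit 5) (nat_lit 128) (nat_lit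 5) (nat_lit 506) (nat_lit 416) (nat_lit 218))))) (XT.nd (nat_lit 234) (nat_lit 0) (nat_lit 76) (XT.nd (nat_lit 78) (nat_lit 0) (nat_lit 0) (XT.lf (nat_lit 0) (nat_lit 1267493346) (nat_lit 1596) (nat_lit 1635525183) (nat_lit 1596) (nat_lit 1635525183) (nat_lit 499) (nat_lit 3) (nat_lit 520) (nat_lit 3) (nat_lit 520) (nat_lit 5) (nat_lit 417) (nat_lit 417) (nat_lit 306)) (XT.nd (nat_lit 78) (nat_lit 0) (nat_lit 76) (XT.lf (nat_lit 76) (nat_lit 1130754391) (nat_lit 0) (nat_lit 2309038993) (nat_lit 1596) (nat_lit 5710203581) (nat_lit 500) (nat_lit 5) (nat_lit 499) (nat_lit 3) (nat_lit 520) (nat_lit 5) (nat_lit 418) (nat_lit 417) (nat_lit 305)) (XT.lf (nat_lit 0) (nat_lit 4370078733) (nat_lit 1520) (nat_lit 3579666784) (nat_lit 1596) (nat_lit 1274478667) (nat_lit 500) (nat_lit 5) (nat_lit 520) (nat_lit 5) (nat_lit 521) (nat_lit 5) (nat_lit 419) (nat_lit 417) (nat_lit 304)))) (XT.nd (nat_lit 78) (nat_lit 0) (nat_lit 0) (XT.lf (nat_lit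 76) (nat_lit 933530917) (nat_lit 0) (nat_lit 4384359830) (nat_lit 1596) (nat_lit 3982073783) (nat_lit 501) (nat_lit 5) (nat_lit 500) (nat_lit 5) (nat_lit 521) (nat_lit 5) (nat_lit 420) (nat_lit 417) (nat_lit 303)) (XT.nd (nat_lit 78) (nat_lit 0) (nat_lit 76) (XT.lf (nat_lit 76) (nat_lit 5573474265) (nat_lit 0) (nat_lit 713136050) (nat_lit 1596) (nat_lit 3090577203) (nat_lit 501) (nat_lit 5) (nat_lit 500) (nat_lit 5) (nat_lit 521) (nat_lit 5) (nat_lit 421) (nat_lit 417) (nat_lit 302)) (XT.lf (nat_lit 76) (nat_lit 829144467) (nat_lit 0) (nat_lit 6449052199) (nat_lit 1596) (nat_lit 2177695182) (nat_lit 502) (nat_lit 5) (nat_lit 501) (nat_lit 5) (nat_lit 522) (nat_lit 5) (nat_lit 422) (nat_lit 417) (nat_lit 301))))))) (XT.nd (nat_lit 858) (nat_lit 5928) (nat_lit 0) (XT.nd (nat_lit 390) (nat_lit 0) (nat_lit 76) (XT.nd (nat_lit 156) (nat_lit 1520) (nat_lit 0) (XT.nd (nat_lit 78) (nat_lit 0) (nat_lit 76) (XT.lf (nat_lit 76) (nat_lit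 5589206305) (nat_lit 0) (nat_lit 2709395107) (nat_lit 1596) (nat_lit 1237395713) (nat_lit 502) (nat_lit 5) (nat_lit 501) (nat_lit 5) (nat_lit 522) (nat_lit 5) (nat_lit 423) (nat_lit 417) (nat_lit 300)) (XT.lf (nat_lit 76) (nat_lit 817848210) (nat_lit 0) (nat_lit 8513294449) (nat_lit 1596) (nat_lit 286733748) (nat_lit 503) (nat_lit 5) (nat_lit 502) (nat_lit 5) (nat_lit 523) (nat_lit 5) (nat_lit 424) (nat_lit 417) (nat_lit 299))) (XT.nd (nat_lit 78) (nat_lit 0) (nat_lit 0) (XT.lf (nat_lit 0) (nat_lit 698016666) (nat_lit 1596) (nat_lit 4004801991) (nat_lit 1672) (nat_lit 4998011509) (nat_lit 481) (nat_lit 5) (nat_lit 502) (nat_lit 5) (nat_lit 503) (nat_lit 5) (nat_lit 425) (nat_lit 417) (nat_lit 298)) (XT.nd (nat_lit 78) (nat_lit 0) (nat_lit 76) (XT.lf (nat_lit 76) (nat_lit 883601069) (nat_lit 0) (nat_lit 800594185) (nat_lit 1672) (nat_lit 8101504484) (nat_lit 482) (nat_lit 5) (nat_lit 481) (nat_lit 5) (nat_lit 503) (nat_lit 5)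 (nat_lit 426) (nat_lit 417) (nat_lit 297)) (XT.lf (nat_lit 0) (nat_lit 2717990458) (nat_lit 1596) (nat_lit 3981280909) (nat_lit 1672) (nat_lit 3172443447) (nat_lit 482) (nat_lit 5) (nat_lit 503) (nat_lit 5) (nat_lit 504) (nat_lit 5) (nat_lit 427) (nat_lit 417) (nat_lit 296))))) (XT.nd (nat_lit 234) (nat_lit 0) (nat_lit 76) (XT.nd (nat_lit 78) (nat_lit 0) (nat_lit 76) (XT.lf (nat_lit 76) (nat_lit 1033671280) (nat_lit 0) (nat_lit 2731388004) (nat_lit 1672) (nat_lit 6194544811) (nat_lit 483) (nat_lit 5) (nat_lit 482) (nat_lit 5) (nat_lit 504) (nat_lit 5) (nat_lit 428) (nat_lit 417) (nat_lit 295)) (XT.nd (nat_lit 78) (nat_lit 0) (nat_lit 0) (XT.lf (nat_lit 0) (nat_lit 4849433873) (nat_lit 1596) (nat_lit 3867432917) (nat_lit 1672) (nat_lit 1332062824) (nat_lit 483) (nat_lit 5) (nat_lit 504) (nat_lit 5) (nat_lit 505) (nat_lit 5) (nat_lit 429) (nat_lit 417) (nat_lit 294)) (XT.lf (nat_lit 76) (nat_lit 1278280260) (nat_lit 0) (nat_lit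 4684905345) (nat_lit 1672) (nat_lit 4176707877) (nat_lit 484) (nat_lit 5) (nat_lit 483) (nat_lit 5) (nat_lit 505) (nat_lit 5) (nat_lit 430) (nat_lit 417) (nat_lit 293)))) (XT.nd (nat_lit 78) (nat_lit 0) (nat_lit 76) (XT.lf (nat_lit 76) (nat_lit 6566781953) (nat_lit 0) (nat_lit 539969628) (nat_lit 1672) (nat_lit 3125779781) (nat_lit 484) (nat_lit 5) (nat_lit 483) (nat_lit 5) (nat_lit 505) (nat_lit 5) (nat_lit 431) (nat_lit 417) (nat_lit 292)) (XT.nd (nat_lit 78) (nat_lit 0) (nat_lit 0) (XT.lf (nat_lit 76) (nat_lit 1618608431) (nat_lit 0) (nat_lit 6671018657) (nat_lit 1672) (nat_lit 2037071558) (nat_lit 485) (nat_lit 5) (nat_lit 484) (nat_lit 5) (nat_lit 506) (nat_lit 5) (nat_lit 432) (nat_lit 417) (nat_lit 291)) (XT.lf (nat_lit 76) (nat_lit 7042096226) (nat_lit 0) (nat_lit 2464471759) (nat_lit 1672) (nat_lit 915978440) (nat_lit 485) (nat_lit 5) (nat_lit 484) (nat_lit 5) (nat_lit 506) (nat_lit 5) (nat_lit 433) (nat_lit 417) (nat_lit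 290)))))) (XT.nd (nat_lit 468) (nat_lit 4560) (nat_lit 0) (XT.nd (nat_lit 234) (nat_lit 0) (nat_lit 76) (XT.nd (nat_lit 78) (nat_lit 0) (nat_lit 0) (XT.lf (nat_lit 0) (nat_lit 232442448) (nat_lit 1672) (nat_lit 8465599158) (nat_lit 1748) (nat_lit 1822087302) (nat_lit 463) (nat_lit 5) (nat_lit 485) (nat_lit 5) (nat_lit 486) (nat_lit 5) (nat_lit 434) (nat_lit 417) (nat_lit 289)) (XT.nd (nat_lit 78) (nat_lit 0) (nat_lit 0) (XT.lf (nat_lit 0) (nat_lit 1413510774) (nat_lit 1672) (nat_lit 3010626501) (nat_lit 1748) (nat_lit 6194970795) (nat_lit 463) (nat_lit 5) (nat_lit 485) (nat_lit 5) (nat_lit 486) (nat_lit 5) (nat_lit 435) (nat_lit 417) (nat_lit 288)) (XT.lf (nat_lit 76) (nat_lit 2574552480) (nat_lit 0) (nat_lit 43478072) (nat_lit 1748) (nat_lit 8102044561) (nat_lit 464) (nat_lit 5) (nat_lit 463) (nat_lit 5) (nat_lit 486) (nat_lit 5) (nat_lit 436) (nat_lit 417) (nat_lit 287)))) (XT.nd (nat_lit 78) (nat_lit 0) (nat_lit 0) (XT.lf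 (nat_lit 0) (nat_lit 3879096298) (nat_lit 1672) (nat_lit 2552214518) (nat_lit 1748) (nat_lit 4391106375) (nat_lit 464) (nat_lit 5) (nat_lit 486) (nat_lit 5) (nat_lit 487) (nat_lit 5) (nat_lit 437) (nat_lit 417) (nat_lit 286)) (XT.nd (nat_lit 78) (nat_lit 0) (nat_lit 76) (XT.lf (nat_lit 76) (nat_lit 3181714843) (nat_lit 0) (nat_lit 1988330125) (nat_lit 1748) (nat_lit 5756672621) (nat_lit 465) (nat_lit 5) (nat_lit 464) (nat_lit 5) (nat_lit 487) (nat_lit 5) (nat_lit 438) (nat_lit 417) (nat_lit 285)) (XT.lf (nat_lit 0) (nat_lit 6504542601) (nat_lit 1672) (nat_lit 1997420506) (nat_lit 1748) (nat_lit 2530790906) (nat_lit 465) (nat_lit 5) (nat_lit 487) (nat_lit 5) (nat_lit 488) (nat_lit 5) (nat_lit 439) (nat_lit 417) (nat_lit 284))))) (XT.nd (nat_lit 234) (nat_lit 3116) (nat_lit 0) (XT.nd (nat_lit 78) (nat_lit 1596) (nat_lit 0) (XT.lf (nat_lit 76) (nat_lit 3890270957) (nat_lit 0) (nat_lit 3998175109) (nat_lit 1748) (nat_lit 3252015311)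 (nat_lit 466) (nat_lit 5) (nat_lit 465) (nat_lit 5) (nat_lit 488) (nat_lit 5) (nat_lit 440) (nat_lit 417) (nat_lit 283)) (XT.nd (nat_lit 78) (nat_lit 1672) (nat_lit 0) (XT.lf (nat_lit 0) (nat_lit 9301922420) (nat_lit 1672) (nat_lit 1344164880) (nat_lit 76) (nat_lit 604202130) (nat_lit 466) (nat_lit 5) (nat_lit 488) (nat_lit 5) (nat_lit 467) (nat_lit 5) (nat_lit 441) (nat_lit 417) (nat_lit 282)) (XT.lf (nat_lit 0) (nat_lit 4702485460) (nat_lit 1672) (nat_lit 6083030420) (nat_lit 1748) (nat_lit 575965564) (nat_lit 444) (nat_lit 5) (nat_lit 466) (nat_lit 5) (nat_lit 467) (nat_lit 5) (nat_lit 442) (nat_lit 417) (nat_lit 281)))) (XT.nd (nat_lit 78) (nat_lit 3040) (nat_lit 0) (XT.lf (nat_lit 0) (nat_lit 807108498) (nat_lit 1748) (nat_lit 604648880) (nat_lit 76) (nat_lit 10063156521) (nat_lit 443) (nat_lit 5) (nat_lit 466) (nat_lit 5) (nat_lit 444) (nat_lit 5) (nat_lit 443) (nat_lit 417) (nat_lit 280)) (XT.nd (nat_lit 78) (nat_lit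 1292) (nat_lit 0) (XT.lf (nat_lit 0) (nat_lit 2253977542) (nat_lit 1824) (nat_lit 5983933222) (nat_lit 76) (nat_lit 3351755282) (nat_lit 420) (nat_lit 5) (nat_lit 444) (nat_lit 5) (nat_lit 421) (nat_lit 5) (nat_lit 444) (nat_lit 417) (nat_lit 279)) (XT.lf (nat_lit 0) (nat_lit 222643123) (nat_lit 1292) (nat_lit 3507487155) (nat_lit 1368) (nat_lit 7976580054) (nat_lit 403) (nat_lit 5) (nat_lit 420) (nat_lit 5) (nat_lit 421) (nat_lit 5) (nat_lit 445) (nat_lit 417) (nat_lit 278))))))))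
noncomputable def xc180 : XT := (XT.nd (nat_lit 1716) (nat_lit 7448) (nat_lit 0) (XT.nd (nat_lit 858) (nat_lit 4484) (nat_lit 0) (XT.nd (nat_lit 390) (nat_lit 3420) (nat_lit 0) (XT.nd (nat_lit 156) (nat_lit 836) (nat_lit 0) (XT.nd (nat_lit 78) (nat_lit 912) (nat_lit 0) (XT.lf (nat_lit 0) (nat_lit 5270461765) (nat_lit 1368) (nat_lit 5212651788) (nat_lit 76) (nat_lit 1342292777) (nat_lit 403) (nat_lit 5) (nat_lit 421) (nat_lit 5) (nat_lit 404) (nat_lit 5) (nat_lit 446) (nat_lit 417) (nat_lit 277)) (XT.lf (nat_lit 0) (nat_lit 1163473823) (nat_lit 912) (nat_lit 5694869326) (nat_lit 988) (nat_lit 5087802099) (nat_lit 391) (nat_lit 5) (nat_lit 403) (nat_lit 5) (nat_lit 404) (nat_lit 5) (nat_lit 447) (nat_lit 417) (nat_lit 276))) (XT.nd (nat_lit 78) (nat_lit 836) (nat_lit 0) (XT.lf (nat_lit 0) (nat_lit 7725115795) (nat_lit 912) (nat_lit 773999885) (nat_lit 988) (nat_lit 3569764383) (nat_lit 391) (nat_lit 5) (nat_lit 403) (nat_lit 5)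 (nat_lit 404) (nat_lit 5) (nat_lit 448) (nat_lit 417) (nat_lit 275)) (XT.nd (nat_lit 78) (nat_lit 0) (nat_lit 0) (XT.lf (nat_lit 0) (nat_lit 2212678073) (nat_lit 836) (nat_lit 7988387872) (nat_lit 912) (nat_lit 1992440097) (nat_lit 380) (nat_lit 5) (nat_lit 391) (nat_lit 5) (nat_lit 392) (nat_lit 5) (nat_lit 449) (nat_lit 417) (nat_lit 274)) (XT.lf (nat_lit 0) (nat_lit 8941320320) (nat_lit 836) (nat_lit 3016592946) (nat_lit 912) (nat_lit 362297755) (nat_lit 380) (nat_lit 5) (nat_lit 391) (nat_lit 5) (nat_lit 392) (nat_lit 5) (nat_lit 450) (nat_lit 417) (nat_lit 273))))) (XT.nd (nat_lit 234) (nat_lit 1596) (nat_lit 0) (XT.nd (nat_lit 78) (nat_lit 836) (nat_lit 0) (XT.lf (nat_lit 0) (nat_lit 1305661223) (nat_lit 988) (nat_lit 9084253073) (nat_lit 76) (nat_lit 2058925050) (nat_lit 367) (nat_lit 5) (nat_lit 380) (nat_lit 5) (nat_lit 368) (nat_lit 5) (nat_lit 451) (nat_lit 417) (nat_lit 272)) (XT.nd (nat_lit 78) (nat_lit 836) (nat_lit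 0) (XT.lf (nat_lit 0) (nat_lit 3031905275) (nat_lit 988) (nat_lit 2326111919) (nat_lit 76) (nat_lit 7221383037) (nat_lit 367) (nat_lit 5) (nat_lit 380) (nat_lit 5) (nat_lit 368) (nat_lit 5) (nat_lit 452) (nat_lit 417) (nat_lit 271)) (XT.lf (nat_lit 0) (nat_lit 4615238619) (nat_lit 836) (nat_lit 194627049) (nat_lit 912) (nat_lit 7902366200) (nat_lit 356) (nat_lit 5) (nat_lit 367) (nat_lit 5) (nat_lit 368) (nat_lit 5) (nat_lit 453) (nat_lit 417) (nat_lit 270)))) (XT.nd (nat_lit 78) (nat_lit 1596) (nat_lit 0) (XT.lf (nat_lit 0) (nat_lit 6659426603) (nat_lit 912) (nat_lit 1166152775) (nat_lit 76) (nat_lit 5021423232) (nat_lit 356) (nat_lit 5) (nat_lit 368) (nat_lit 5) (nat_lit 357) (nat_lit 5) (nat_lit 454) (nat_lit 417) (nat_lit 269)) (XT.nd (nat_lit 78) (nat_lit 760) (nat_lit 0) (XT.lf (nat_lit 0) (nat_lit 5967875855) (nat_lit 836) (nat_lit 2605783874) (nat_lit 912) (nat_lit 4410258652) (nat_lit 345) (nat_lit 5) (nat_lit 356)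 (nat_lit 5) (nat_lit 357) (nat_lit 5) (nat_lit 455) (nat_lit 417) (nat_lit 268)) (XT.lf (nat_lit 0) (nat_lit 108119063) (nat_lit 760) (nat_lit 10432093453) (nat_lit 836) (nat_lit 2583082421) (nat_lit 335) (nat_lit 5) (nat_lit 345) (nat_lit 5) (nat_lit 346) (nat_lit 5) (nat_lit 456) (nat_lit 417) (nat_lit 267)))))) (XT.nd (nat_lit 390) (nat_lit 2888) (nat_lit 0) (XT.nd (nat_lit 156) (nat_lit 760) (nat_lit 0) (XT.nd (nat_lit 78) (nat_lit 836) (nat_lit 0) (XT.lf (nat_lit 0) (nat_lit 7439890716) (nat_lit 760) (nat_lit 5158394282) (nat_lit 836) (nat_lit 666133362) (nat_lit 335) (nat_lit 5) (nat_lit 345) (nat_lit 5) (nat_lit 346) (nat_lit 5) (nat_lit 457) (nat_lit 417) (nat_lit 266)) (XT.lf (nat_lit 0) (nat_lit 1271713436) (nat_lit 836) (nat_lit 11900845501) (nat_lit 76) (nat_lit 235651576) (nat_lit 324) (nat_lit 5) (nat_lit 335) (nat_lit 5) (nat_lit 325) (nat_lit 5) (nat_lit 458) (nat_lit 417) (nat_lit 265))) (XT.nd (nat_lit 78)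 (nat_lit 760) (nat_lit 0) (XT.lf (nat_lit 0) (nat_lit 3301179919) (nat_lit 836) (nat_lit 4540639377) (nat_lit 76) (nat_lit 5711738433) (nat_lit 324) (nat_lit 5) (nat_lit 335) (nat_lit 5) (nat_lit 325) (nat_lit 5) (nat_lit 459) (nat_lit 417) (nat_lit 264)) (XT.nd (nat_lit 78) (nat_lit 0) (nat_lit 0) (XT.lf (nat_lit 0) (nat_lit 2993721084) (nat_lit 760) (nat_lit 2385449804) (nat_lit 836) (nat_lit 8322485171) (nat_lit 314) (nat_lit 5) (nat_lit 324) (nat_lit 5) (nat_lit 325) (nat_lit 5) (nat_lit 460) (nat_lit 417) (nat_lit 263)) (XT.lf (nat_lit 0) (nat_lit 7538678880) (nat_lit 836) (nat_lit 3145093613) (nat_lit 76) (nat_lit 3168147531) (nat_lit 314) (nat_lit 5) (nat_lit 325) (nat_lit 5) (nat_lit 315) (nat_lit 5) (nat_lit 461) (nat_lit 417) (nat_lit 262))))) (XT.nd (nat_lit 234) (nat_lit 1368) (nat_lit 0) (XT.nd (nat_lit 78) (nat_lit 760) (nat_lit 0) (XT.lf (nat_lit 0) (nat_lit 4601342351) (nat_lit 760) (nat_lit 5174568463) (nat_lit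 836) (nat_lit 4228590539) (nat_lit 304) (nat_lit 5) (nat_lit 314) (nat_lit 5) (nat_lit 315) (nat_lit 5) (nat_lit 462) (nat_lit 417) (nat_lit 261)) (XT.nd (nat_lit 78) (nat_lit 760) (nat_lit 0) (XT.lf (nat_lit 0) (nat_lit 12071013883) (nat_lit 836) (nat_lit 1629747403) (nat_lit 76) (nat_lit 459113200) (nat_lit 304) (nat_lit 5) (nat_lit 315) (nat_lit 5) (nat_lit 305) (nat_lit 5) (nat_lit 463) (nat_lit 417) (nat_lit 260)) (XT.lf (nat_lit 0) (nat_lit 157475282) (nat_lit 760) (nat_lit 7982246702) (nat_lit 76) (nat_lit 6177322739) (nat_lit 294) (nat_lit 5) (nat_lit 304) (nat_lit 5) (nat_lit 295) (nat_lit 5) (nat_lit 464) (nat_lit 417) (nat_lit 259)))) (XT.nd (nat_lit 78) (nat_lit 1368) (nat_lit 0) (XT.lf (nat_lit 0) (nat_lit 2421072683) (nat_lit 760) (nat_lit 22489953) (nat_lit 76) (nat_lit 12033516038) (nat_lit 294) (nat_lit 5) (nat_lit 304) (nat_lit 5) (nat_lit 295) (nat_lit 5) (nat_lit 465) (nat_lit 417) (nat_lit 258)) (XT.nd (nat_lit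 78) (nat_lit 684) (nat_lit 0) (XT.lf (nat_lit 0) (nat_lit 4794810487) (nat_lit 760) (nat_lit 6469693873) (nat_lit 76) (nat_lit 3374514077) (nat_lit 285) (nat_lit 5) (nat_lit 295) (nat_lit 5) (nat_lit 286) (nat_lit 5) (nat_lit 466) (nat_lit 417) (nat_lit 257)) (XT.lf (nat_lit 0) (nat_lit 1715345766) (nat_lit 684) (nat_lit 5517748719) (nat_lit 760) (nat_lit 7570763529) (nat_lit 276) (nat_lit 5) (nat_lit 285) (nat_lit 5) (nat_lit 286) (nat_lit 5) (nat_lit 467) (nat_lit 417) (nat_lit 256))))))) (XT.nd (nat_lit 858) (nat_lit 3648) (nat_lit 0) (XT.nd (nat_lit 390) (nat_lit 2432) (nat_lit 0) (XT.nd (nat_lit 156) (nat_lit 684) (nat_lit 0) (XT.nd (nat_lit 78) (nat_lit 684) (nat_lit 0) (XT.lf (nat_lit 0) (nat_lit 9755794791) (nat_lit 760) (nat_lit 4834033657) (nat_lit 76) (nat_lit 381455326) (nat_lit 276) (nat_lit 5) (nat_lit 286) (nat_lit 5) (nat_lit 277) (nat_lit 5) (nat_lit 468) (nat_lit 417) (nat_lit 255)) (XT.lf (nat_lit 0) (nat_lit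 3584065890) (nat_lit 684) (nat_lit 8794611355) (nat_lit 760) (nat_lit 2762388597) (nat_lit 267) (nat_lit 5) (nat_lit 276) (nat_lit 5) (nat_lit 277) (nat_lit 5) (nat_lit 469) (nat_lit 417) (nat_lit 254))) (XT.nd (nat_lit 78) (nat_lit 684) (nat_lit 0) (XT.lf (nat_lit 0) (nat_lit 12224199632) (nat_lit 684) (nat_lit 2852293999) (nat_lit 760) (nat_lit 237302703) (nat_lit 267) (nat_lit 5) (nat_lit 276) (nat_lit 5) (nat_lit 277) (nat_lit 5) (nat_lit 470) (nat_lit 417) (nat_lit 253)) (XT.nd (nat_lit 78) (nat_lit 0) (nat_lit 0) (XT.lf (nat_lit 0) (nat_lit 2355263598) (nat_lit 684) (nat_lit 9916734216) (nat_lit 76) (nat_lit 3216729295) (nat_lit 258) (nat_lit 5) (nat_lit 267) (nat_lit 5) (nat_lit 259) (nat_lit 5) (nat_lit 471) (nat_lit 417) (nat_lit 252)) (XT.lf (nat_lit 0) (nat_lit 5026536282) (nat_lit 684) (nat_lit 1250506797) (nat_lit 76) (nat_lit 9389483572) (nat_lit 258) (nat_lit 5) (nat_lit 267) (nat_lit 5) (nat_lit 259) (nat_lit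 5) (nat_lit 472) (nat_lit 417) (nat_lit 251))))) (XT.nd (nat_lit 234) (nat_lit 1216) (nat_lit 0) (XT.nd (nat_lit 78) (nat_lit 608) (nat_lit 0) (XT.lf (nat_lit 0) (nat_lit 7678116295) (nat_lit 608) (nat_lit 113430413) (nat_lit 684) (nat_lit 8055531365) (nat_lit 250) (nat_lit 5) (nat_lit 258) (nat_lit 5) (nat_lit 259) (nat_lit 5) (nat_lit 473) (nat_lit 417) (nat_lit 250)) (XT.nd (nat_lit 78) (nat_lit 0) (nat_lit 0) (XT.lf (nat_lit 0) (nat_lit 728882719) (nat_lit 608) (nat_lit 9926795412) (nat_lit 684) (nat_lit 5374688069) (nat_lit 242) (nat_lit 5) (nat_lit 250) (nat_lit 5) (nat_lit 251) (nat_lit 5) (nat_lit 474) (nat_lit 417) (nat_lit 249)) (XT.lf (nat_lit 0) (nat_lit 9903003440) (nat_lit 608) (nat_lit 3720321594) (nat_lit 684) (nat_lit 2593072447) (nat_lit 242) (nat_lit 5) (nat_lit 250) (nat_lit 5) (nat_lit 251) (nat_lit 5) (nat_lit 475) (nat_lit 417) (nat_lit 248)))) (XT.nd (nat_lit 78) (nat_lit 532) (nat_lit 0) (XT.lf (nat_lit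 0) (nat_lit 267521771) (nat_lit 684) (nat_lit 13543913107) (nat_lit 76) (nat_lit 2594153801) (nat_lit 233) (nat_lit 5) (nat_lit 242) (nat_lit 5) (nat_lit 234) (nat_lit 5) (nat_lit 476) (nat_lit 417) (nat_lit 247)) (XT.nd (nat_lit 78) (nat_lit 532) (nat_lit 0) (XT.lf (nat_lit 0) (nat_lit 3208803473) (nat_lit 684) (nat_lit 4345621725) (nat_lit 76) (nat_lit 9042633694) (nat_lit 233) (nat_lit 5) (nat_lit 242) (nat_lit 5) (nat_lit 234) (nat_lit 5) (nat_lit 477) (nat_lit 417) (nat_lit 246)) (XT.lf (nat_lit 0) (nat_lit 5092005784) (nat_lit 532) (nat_lit 1141024258) (nat_lit 608) (nat_lit 10558847978) (nat_lit 226) (nat_lit 5) (nat_lit 233) (nat_lit 5) (nat_lit 234) (nat_lit 5) (nat_lit 478) (nat_lit 417) (nat_lit 245)))))) (XT.nd (nat_lit 468) (nat_lit 1976) (nat_lit 0) (XT.nd (nat_lit 234) (nat_lit 1140) (nat_lit 0) (XT.nd (nat_lit 78) (nat_lit 532) (nat_lit 0) (XT.lf (nat_lit 0) (nat_lit 9373304294) (nat_lit 608) (nat_lit 2259475730)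 (nat_lit 76) (nat_lit 5356704100) (nat_lit 226) (nat_lit 5) (nat_lit 234) (nat_lit 5) (nat_lit 227) (nat_lit 5) (nat_lit 479) (nat_lit 417) (nat_lit 244)) (XT.nd (nat_lit 78) (nat_lit 0) (nat_lit 0) (XT.lf (nat_lit 0) (nat_lit 7448587677) (nat_lit 532) (nat_lit 5175031676) (nat_lit 608) (nat_lit 4566480112) (nat_lit 219) (nat_lit 5) (nat_lit 226) (nat_lit 5) (nat_lit 227) (nat_lit 5) (nat_lit 480) (nat_lit 417) (nat_lit 243)) (XT.lf (nat_lit 0) (nat_lit 15954768446) (nat_lit 608) (nat_lit 33607420) (nat_lit 76) (nat_lit 1406036476) (nat_lit 219) (nat_lit 5) (nat_lit 227) (nat_lit 5) (nat_lit 220) (nat_lit 5) (nat_lit 481) (nat_lit 417) (nat_lit 242)))) (XT.nd (nat_lit 78) (nat_lit 532) (nat_lit 0) (XT.lf (nat_lit 0) (nat_lit 1817842366) (nat_lit 608) (nat_lit 7659370778) (nat_lit 76) (nat_lit 8123551615) (nat_lit 211) (nat_lit 5) (nat_lit 219) (nat_lit 5) (nat_lit 212) (nat_lit 5) (nat_lit 482) (nat_lit 417) (nat_lit 241)) (XT.nd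 (nat_lit 78) (nat_lit 0) (nat_lit 0) (XT.lf (nat_lit 0) (nat_lit 2314760378) (nat_lit 532) (nat_lit 2813318665) (nat_lit 608) (nat_lit 12682838991) (nat_lit 204) (nat_lit 5) (nat_lit 211) (nat_lit 5) (nat_lit 212) (nat_lit 5) (nat_lit 483) (nat_lit 417) (nat_lit 240)) (XT.lf (nat_lit 0) (nat_lit 8573803006) (nat_lit 608) (nat_lit 5469503546) (nat_lit 76) (nat_lit 3980583822) (nat_lit 204) (nat_lit 5) (nat_lit 212) (nat_lit 5) (nat_lit 205) (nat_lit 5) (nat_lit 484) (nat_lit 417) (nat_lit 239))))) (XT.nd (nat_lit 234) (nat_lit 912) (nat_lit 0) (XT.nd (nat_lit 78) (nat_lit 608) (nat_lit 0) (XT.lf (nat_lit 0) (nat_lit 4790856045) (nat_lit 456) (nat_lit 7339163180) (nat_lit 532) (nat_lit 6110272997) (nat_lit 198) (nat_lit 5) (nat_lit 204) (nat_lit 5) (nat_lit 205) (nat_lit 5) (nat_lit 485) (nat_lit 417) (nat_lit 238)) (XT.nd (nat_lit 78) (nat_lit 608) (nat_lit 0) (XT.lf (nat_lit 0) (nat_lit 15319606659) (nat_lit 456) (nat_lit 466386308)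 (nat_lit 532) (nat_lit 2674458060) (nat_lit 198) (nat_lit 5) (nat_lit 204) (nat_lit 5) (nat_lit 205) (nat_lit 5) (nat_lit 486) (nat_lit 417) (nat_lit 237)) (XT.lf (nat_lit 0) (nat_lit 902451196) (nat_lit 608) (nat_lit 11271462153) (nat_lit 76) (nat_lit 6509328104) (nat_lit 190) (nat_lit 5) (nat_lit 198) (nat_lit 5) (nat_lit 191) (nat_lit 5) (nat_lit 487) (nat_lit 417) (nat_lit 236)))) (XT.nd (nat_lit 78) (nat_lit 912) (nat_lit 0) (XT.lf (nat_lit 0) (nat_lit 4531527724) (nat_lit 608) (nat_lit 723893777) (nat_lit 76) (nat_lit 13654385315) (nat_lit 190) (nat_lit 5) (nat_lit 198) (nat_lit 5) (nat_lit 191) (nat_lit 5) (nat_lit 488) (nat_lit 417) (nat_lit 235)) (XT.nd (nat_lit 78) (nat_lit 456) (nat_lit 0) (XT.lf (nat_lit 0) (nat_lit 8303502817) (nat_lit 532) (nat_lit 8994720013) (nat_lit 76) (nat_lit 1841275781) (nat_lit 184) (nat_lit 5) (nat_lit 191) (nat_lit 5) (nat_lit 185) (nat_lit 5) (nat_lit 489) (nat_lit 417) (nat_lit 234))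 (XT.lf (nat_lit 0) (nat_lit 1845549322) (nat_lit 456) (nat_lit 10349364628) (nat_lit 532) (nat_lit 7177991796) (nat_lit 178) (nat_lit 5) (nat_lit 184) (nat_lit 5) (nat_lit 185) (nat_lit 5) (nat_lit 490) (nat_lit 417) (nat_lit 233))))))))
noncomputable def xc181 : XT := (XT.nd (nat_lit 54132) (nat_lit 0) (nat_lit 20900) (XT.nd (nat_lit 858) (nat_lit 1140) (nat_lit 0) (XT.nd (nat_lit 390) (nat_lit 1672) (nat_lit 0) (XT.nd (nat_lit 156) (nat_lit 456) (nat_lit 0) (XT.nd (nat_lit 78) (nat_lit 532) (nat_lit 0) (XT.lf (nat_lit 0) (nat_lit 13013851681) (nat_lit 456) (nat_lit 3203062071) (nat_lit 532) (nat_lit 3393013470) (nat_lit 178) (nat_lit 5) (nat_lit 184) (nat_lit 5) (nat_lit 185) (nat_lit 5) (nat_lit 491) (nat_lit 417) (nat_lit 232)) (XT.lf (nat_lit 0) (nat_lit 510628101) (nat_lit 532) (nat_lit 15277368256) (nat_lit 76) (nat_lit 4062651454) (nat_lit 171) (nat_lit 5) (nat_lit 178) (nat_lit 5) (nat_lit 172) (nat_lit 5) (nat_lit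 492) (nat_lit 417) (nat_lit 231))) (XT.nd (nat_lit 78) (nat_lit 456) (nat_lit 0) (XT.lf (nat_lit 0) (nat_lit 4505279220) (nat_lit 532) (nat_lit 4094489410) (nat_lit 76) (nat_lit 11494799566) (nat_lit 171) (nat_lit 5) (nat_lit 178) (nat_lit 5) (nat_lit 172) (nat_lit 5) (nat_lit 493) (nat_lit 417) (nat_lit 230)) (XT.nd (nat_lit 78) (nat_lit 0) (nat_lit 0) (XT.lf (nat_lit 0) (nat_lit 7398640926) (nat_lit 456) (nat_lit 1221923334) (nat_lit 532) (nat_lit 11721989212) (nat_lit 165) (nat_lit 5) (nat_lit 171) (nat_lit 5) (nat_lit 172) (nat_lit 5) (nat_lit 494) (nat_lit 417) (nat_lit 229)) (XT.lf (nat_lit 0) (nat_lit 12879498777) (nat_lit 532) (nat_lit 1469418629) (nat_lit 76) (nat_lit 6245355447) (nat_lit 165) (nat_lit 5) (nat_lit 172) (nat_lit 5) (nat_lit 166) (nat_lit 5) (nat_lit 495) (nat_lit 417) (nat_lit 228))))) (XT.nd (nat_lit 234) (nat_lit 760) (nat_lit 0) (XT.nd (nat_lit 78) (nat_lit 532) (nat_lit 0) (XT.lf (nat_lit 0) (nat_lit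 10351949340) (nat_lit 380) (nat_lit 6939867817) (nat_lit 456) (nat_lit 3557846611) (nat_lit 160) (nat_lit 5) (nat_lit 165) (nat_lit 5) (nat_lit 166) (nat_lit 5) (nat_lit 496) (nat_lit 417) (nat_lit 227)) (XT.nd (nat_lit 78) (nat_lit 0) (nat_lit 0) (XT.lf (nat_lit 0) (nat_lit 688848110) (nat_lit 532) (nat_lit 19791760118) (nat_lit 76) (nat_lit 629155365) (nat_lit 153) (nat_lit 5) (nat_lit 160) (nat_lit 5) (nat_lit 154) (nat_lit 5) (nat_lit 497) (nat_lit 417) (nat_lit 226)) (XT.lf (nat_lit 0) (nat_lit 5082730160) (nat_lit 532) (nat_lit 7941680323) (nat_lit 76) (nat_lit 8347987900) (nat_lit 153) (nat_lit 5) (nat_lit 160) (nat_lit 5) (nat_lit 154) (nat_lit 5) (nat_lit 498) (nat_lit 417) (nat_lit 225)))) (XT.nd (nat_lit 78) (nat_lit 380) (nat_lit 0) (XT.lf (nat_lit 0) (nat_lit 4190188474) (nat_lit 380) (nat_lit 5394621924) (nat_lit 456) (nat_lit 12055070215) (nat_lit 148) (nat_lit 5) (nat_lit 153) (nat_lit 5) (nat_lit 154) (nat_lit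 5) (nat_lit 499) (nat_lit 417) (nat_lit 224)) (XT.nd (nat_lit 78) (nat_lit 380) (nat_lit 0) (XT.lf (nat_lit 0) (nat_lit 14239244119) (nat_lit 456) (nat_lit 5265373175) (nat_lit 76) (nat_lit 2406850089) (nat_lit 148) (nat_lit 5) (nat_lit 154) (nat_lit 5) (nat_lit 149) (nat_lit 5) (nat_lit 500) (nat_lit 417) (nat_lit 223)) (XT.lf (nat_lit 0) (nat_lit 7211469356) (nat_lit 380) (nat_lit 11851141980) (nat_lit 456) (nat_lit 3124358765) (nat_lit 143) (nat_lit 5) (nat_lit 148) (nat_lit 5) (nat_lit 149) (nat_lit 5) (nat_lit 501) (nat_lit 417) (nat_lit 222)))))) (XT.nd (nat_lit 52806) (nat_lit 0) (nat_lit 28196) (XT.nd (nat_lit 156) (nat_lit 684) (nat_lit 0) (XT.nd (nat_lit 78) (nat_lit 380) (nat_lit 0) (XT.lf (nat_lit 0) (nat_lit 1523486999) (nat_lit 456) (nat_lit 2478161354) (nat_lit 76) (nat_lit 18465561201) (nat_lit 142) (nat_lit 5) (nat_lit 148) (nat_lit 5) (nat_lit 143) (nat_lit 5) (nat_lit 502) (nat_lit 417) (nat_lit 221)) (XT.lf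 (nat_lit 0) (nat_lit 6309866549) (nat_lit 456) (nat_lit 12403333072) (nat_lit 76) (nat_lit 4037693939) (nat_lit 137) (nat_lit 5) (nat_lit 143) (nat_lit 5) (nat_lit 138) (nat_lit 5) (nat_lit 503) (nat_lit 417) (nat_lit 220))) (XT.nd (nat_lit 78) (nat_lit 304) (nat_lit 0) (XT.lf (nat_lit 0) (nat_lit 392113553) (nat_lit 380) (nat_lit 10839140442) (nat_lit 456) (nat_lit 11808212672) (nat_lit 132) (nat_lit 5) (nat_lit 137) (nat_lit 5) (nat_lit 138) (nat_lit 5) (nat_lit 504) (nat_lit 417) (nat_lit 219)) (XT.nd (nat_lit 78) (nat_lit 304) (nat_lit 0) (XT.lf (nat_lit 0) (nat_lit 13601776390) (nat_lit 380) (nat_lit 2726083054) (nat_lit 456) (nat_lit 7004416991) (nat_lit 132) (nat_lit 5) (nat_lit 137) (nat_lit 5) (nat_lit 138) (nat_lit 5) (nat_lit 505) (nat_lit 417) (nat_lit 218)) (XT.lf (nat_lit 0) (nat_lit 3444094335) (nat_lit 304) (nat_lit 18134355498) (nat_lit 380) (nat_lit 2051452494) (nat_lit 128) (nat_lit 5) (nat_lit 132) (nat_lit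 5) (nat_lit 133) (nat_lit 5) (nat_lit 506) (nat_lit 417) (nat_lit 217))))) (XT.nd (nat_lit 234) (nat_lit 0) (nat_lit 76) (XT.nd (nat_lit 78) (nat_lit 0) (nat_lit 0) (XT.lf (nat_lit 0) (nat_lit 2159296080) (nat_lit 1596) (nat_lit 1226209509) (nat_lit 1596) (nat_lit 1226209509) (nat_lit 499) (nat_lit 3) (nat_lit 520) (nat_lit 3) (nat_lit 520) (nat_lit 5) (nat_lit 418) (nat_lit 418) (nat_lit 304)) (XT.nd (nat_lit 78) (nat_lit 0) (nat_lit 76) (XT.lf (nat_lit 76) (nat_lit 2031605699) (nat_lit 0) (nat_lit 3181612834) (nat_lit 1596) (nat_lit 4085155530) (nat_lit 500) (nat_lit 5) (nat_lit 499) (nat_lit 3) (nat_lit 520) (nat_lit 5) (nat_lit 419) (nat_lit 418) (nat_lit 303)) (XT.lf (nat_lit 0) (nat_lit 6123425200) (nat_lit 1520) (nat_lit 2751039969) (nat_lit 1596) (nat_lit 500404743) (nat_lit 500) (nat_lit 5) (nat_lit 520) (nat_lit 5) (nat_lit 521) (nat_lit 5) (nat_lit 420) (nat_lit 418) (nat_lit 302)))) (XT.nd (nat_lit 78) (nat_lit 0)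 (nat_lit 0) (XT.lf (nat_lit 76) (nat_lit 1846499186) (nat_lit 0) (nat_lit 5216835057) (nat_lit 1596) (nat_lit 2389338200) (nat_lit 501) (nat_lit 5) (nat_lit 500) (nat_lit 5) (nat_lit 521) (nat_lit 5) (nat_lit 421) (nat_lit 418) (nat_lit 301)) (XT.nd (nat_lit 78) (nat_lit 0) (nat_lit 76) (XT.lf (nat_lit 76) (nat_lit 6561706153) (nat_lit 0) (nat_lit 1457583114) (nat_lit 1596) (nat_lit 1512803396) (nat_lit 501) (nat_lit 5) (nat_lit 500) (nat_lit 5) (nat_lit 521) (nat_lit 5) (nat_lit 422) (nat_lit 418) (nat_lit 300)) (XT.lf (nat_lit 76) (nat_lit 1753855115) (nat_lit 0) (nat_lit 7246591753) (nat_lit 1596) (nat_lit 612539216) (nat_lit 502) (nat_lit 5) (nat_lit 501) (nat_lit 5) (nat_lit 522) (nat_lit 5) (nat_lit 423) (nat_lit 418) (nat_lit 299))))))) (XT.nd (nat_lit 858) (nat_lit 4484) (nat_lit 0) (XT.nd (nat_lit 390) (nat_lit 1368) (nat_lit 0) (XT.nd (nat_lit 156) (nat_lit 0) (nat_lit 76) (XT.nd (nat_lit 78) (nat_lit 0) (nat_lit 76)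 (XT.lf (nat_lit 0) (nat_lit 310891328) (nat_lit 1596) (nat_lit 3106054957) (nat_lit 1672) (nat_lit 6278334190) (nat_lit 480) (nat_lit 5) (nat_lit 501) (nat_lit 5) (nat_lit 502) (nat_lit 5) (nat_lit 424) (nat_lit 418) (nat_lit 298)) (XT.lf (nat_lit 0) (nat_lit 1239142046) (nat_lit 1596) (nat_lit 8033484217) (nat_lit 1672) (nat_lit 506628537) (nat_lit 481) (nat_lit 5) (nat_lit 502) (nat_lit 5) (nat_lit 503) (nat_lit 5) (nat_lit 425) (nat_lit 418) (nat_lit 297))) (XT.nd (nat_lit 78) (nat_lit 0) (nat_lit 0) (XT.lf (nat_lit 0) (nat_lit 2209795328) (nat_lit 1596) (nat_lit 3162696416) (nat_lit 1672) (nat_lit 4491946091) (nat_lit 481) (nat_lit 5) (nat_lit 502) (nat_lit 5) (nat_lit 503) (nat_lit 5) (nat_lit 426) (nat_lit 418) (nat_lit 296)) (XT.nd (nat_lit 78) (nat_lit 0) (nat_lit 76) (XT.lf (nat_lit 76) (nat_lit 1817407589) (nat_lit 0) (nat_lit 1374869065) (nat_lit 1672) (nat_lit 6759205435) (nat_lit 482) (nat_lit 5) (nat_lit 481) (nat_lit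 5) (nat_lit 503) (nat_lit 5) (nat_lit 427) (nat_lit 418) (nat_lit 295)) (XT.lf (nat_lit 0) (nat_lit 4214284464) (nat_lit 1596) (nat_lit 3129837158) (nat_lit 1672) (nat_lit 2695753810) (nat_lit 482) (nat_lit 5) (nat_lit 503) (nat_lit 5) (nat_lit 504) (nat_lit 5) (nat_lit 428) (nat_lit 418) (nat_lit 294))))) (XT.nd (nat_lit 234) (nat_lit 1520) (nat_lit 0) (XT.nd (nat_lit 78) (nat_lit 0) (nat_lit 76) (XT.lf (nat_lit 76) (nat_lit 1979288618) (nat_lit 0) (nat_lit 3280738178) (nat_lit 1672) (nat_lit 4869949589) (nat_lit 483) (nat_lit 5) (nat_lit 482) (nat_lit 5) (nat_lit 504) (nat_lit 5) (nat_lit 429) (nat_lit 418) (nat_lit 293)) (XT.nd (nat_lit 78) (nat_lit 0) (nat_lit 0) (XT.lf (nat_lit 0) (nat_lit 6335103199) (nat_lit 1596) (nat_lit 3006570036) (nat_lit 1672) (nat_lit 880043256) (nat_lit 483) (nat_lit 5) (nat_lit 504) (nat_lit 5) (nat_lit 505) (nat_lit 5) (nat_lit 430) (nat_lit 418) (nat_lit 292)) (XT.lf (nat_lit 76) (nat_lit 2235884960)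 (nat_lit 0) (nat_lit 5214067388) (nat_lit 1672) (nat_lit 2864979038) (nat_lit 484) (nat_lit 5) (nat_lit 483) (nat_lit 5) (nat_lit 505) (nat_lit 5) (nat_lit 431) (nat_lit 418) (nat_lit 291)))) (XT.nd (nat_lit 78) (nat_lit 1596) (nat_lit 0) (XT.lf (nat_lit 76) (nat_lit 7611881411) (nat_lit 0) (nat_lit 977694448) (nat_lit 1672) (nat_lit 1820390478) (nat_lit 484) (nat_lit 5) (nat_lit 483) (nat_lit 5) (nat_lit 505) (nat_lit 5) (nat_lit 432) (nat_lit 418) (nat_lit 290)) (XT.nd (nat_lit 78) (nat_lit 1672) (nat_lit 0) (XT.lf (nat_lit 76) (nat_lit 2588523064) (nat_lit 0) (nat_lit 7184667404) (nat_lit 1672) (nat_lit 733292748) (nat_lit 485) (nat_lit 5) (nat_lit 484) (nat_lit 5) (nat_lit 506) (nat_lit 5) (nat_lit 433) (nat_lit 418) (nat_lit 289)) (XT.lf (nat_lit 0) (nat_lit 378824709) (nat_lit 1672) (nat_lit 2505167286) (nat_lit 1748) (nat_lit 7720730606) (nat_lit 462) (nat_lit 5) (nat_lit 484) (nat_lit 5) (nat_lit 485) (nat_lit 5) (nat_lit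 434) (nat_lit 418) (nat_lit 288)))))) (XT.nd (nat_lit 468) (nat_lit 4560) (nat_lit 0) (XT.nd (nat_lit 234) (nat_lit 0) (nat_lit 76) (XT.nd (nat_lit 78) (nat_lit 0) (nat_lit 0) (XT.lf (nat_lit 0) (nat_lit 1516218518) (nat_lit 1672) (nat_lit 7675972033) (nat_lit 1748) (nat_lit 1512387128) (nat_lit 463) (nat_lit 5) (nat_lit 485) (nat_lit 5) (nat_lit 486) (nat_lit 5) (nat_lit 435) (nat_lit 418) (nat_lit 287)) (XT.nd (nat_lit 78) (nat_lit 0) (nat_lit 0) (XT.lf (nat_lit 0) (nat_lit 2695827285) (nat_lit 1672) (nat_lit 2130702649) (nat_lit 1748) (nat_lit 5979515387) (nat_lit 463) (nat_lit 5) (nat_lit 485) (nat_lit 5) (nat_lit 486) (nat_lit 5) (nat_lit 436) (nat_lit 418) (nat_lit 286)) (XT.lf (nat_lit 76) (nat_lit 3559994803) (nat_lit 0) (nat_lit 345917344) (nat_lit 1748) (nat_lit 7003497203) (nat_lit 464) (nat_lit 5) (nat_lit 463) (nat_lit 5) (nat_lit 486) (nat_lit 5) (nat_lit 437) (nat_lit 418) (nat_lit 285)))) (XT.nd (nat_lit 78)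 (nat_lit 0) (nat_lit 0) (XT.lf (nat_lit 0) (nat_lit 5166053707) (nat_lit 1672) (nat_lit 1661124955) (nat_lit 1748) (nat_lit 4187149514) (nat_lit 464) (nat_lit 5) (nat_lit 486) (nat_lit 5) (nat_lit 487) (nat_lit 5) (nat_lit 438) (nat_lit 418) (nat_lit 284)) (XT.nd (nat_lit 78) (nat_lit 0) (nat_lit 76) (XT.lf (nat_lit 76) (nat_lit 4181284745) (nat_lit 0) (nat_lit 2283900076) (nat_lit 1748) (nat_lit 4655889352) (nat_lit 465) (nat_lit 5) (nat_lit 464) (nat_lit 5) (nat_lit 487) (nat_lit 5) (nat_lit 439) (nat_lit 418) (nat_lit 283)) (XT.lf (nat_lit 0) (nat_lit 7801376696) (nat_lit 1672) (nat_lit 1094453016) (nat_lit 1748) (nat_lit 2333908252) (nat_lit 465) (nat_lit 5) (nat_lit 487) (nat_lit 5) (nat_lit 488) (nat_lit 5) (nat_lit 440) (nat_lit 418) (nat_lit 282))))) (XT.nd (nat_lit 234) (nat_lit 3040) (nat_lit 0) (XT.nd (nat_lit 78) (nat_lit 1672) (nat_lit 0) (XT.lf (nat_lit 76) (nat_lit 4904788883) (nat_lit 0) (nat_lit 4291373788)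 (nat_lit 1748) (nat_lit 2143779309) (nat_lit 466) (nat_lit 5) (nat_lit 465) (nat_lit 5) (nat_lit 488) (nat_lit 5) (nat_lit 441) (nat_lit 418) (nat_lit 281)) (XT.nd (nat_lit 78) (nat_lit 1748) (nat_lit 0) (XT.lf (nat_lit 0) (nat_lit 10614003240) (nat_lit 1672) (nat_lit 428474064) (nat_lit 76) (nat_lit 409973860) (nat_lit 466) (nat_lit 5) (nat_lit 488) (nat_lit 5) (nat_lit 467) (nat_lit 5) (nat_lit 442) (nat_lit 418) (nat_lit 280)) (XT.lf (nat_lit 0) (nat_lit 537926747) (nat_lit 1748) (nat_lit 5836824205) (nat_lit 76) (nat_lit 5191371618) (nat_lit 443) (nat_lit 5) (nat_lit 466) (nat_lit 5) (nat_lit 444) (nat_lit 5) (nat_lit 443) (nat_lit 418) (nat_lit 279)))) (XT.nd (nat_lit 78) (nat_lit 1292) (nat_lit 0) (XT.lf (nat_lit 0) (nat_lit 320339210) (nat_lit 1748) (nat_lit 1600782149) (nat_lit 1824) (nat_lit 9761028838) (nat_lit 420) (nat_lit 5) (nat_lit 443) (nat_lit 5) (nat_lit 444) (nat_lit 5) (nat_lit 444) (nat_lit 418) (nat_lit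 278)) (XT.nd (nat_lit 78) (nat_lit 1292) (nat_lit 0) (XT.lf (nat_lit 0) (nat_lit 3378381722) (nat_lit 1824) (nat_lit 5153967323) (nat_lit 76) (nat_lit 3267225236) (nat_lit 420) (nat_lit 5) (nat_lit 444) (nat_lit 5) (nat_lit 421) (nat_lit 5) (nat_lit 445) (nat_lit 418) (nat_lit 277)) (XT.lf (nat_lit 0) (nat_lit 1170492887) (nat_lit 1292) (nat_lit 3698526556) (nat_lit 1368) (nat_lit 7050246625) (nat_lit 403) (nat_lit 5) (nat_lit 420) (nat_lit 5) (nat_lit 421) (nat_lit 5) (nat_lit 446) (nat_lit 418) (nat_lit 276))))))))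
noncomputable def xc182 : XT := (XT.nd (nat_lit 1716) (nat_lit 7448) (nat_lit 0) (XT.nd (nat_lit 858) (nat_lit 4484) (nat_lit 0) (XT.nd (nat_lit 390) (nat_lit 3344) (nat_lit 0) (XT.nd (nat_lit 156) (nat_lit 912) (nat_lit 0) (XT.nd (nat_lit 78) (nat_lit 912) (nat_lit 0) (XT.lf (nat_lit 0) (nat_lit 6418519691) (nat_lit 1368) (nat_lit 4370081032) (nat_lit 76) (nat_lit 1252173762) (nat_lit 403) (nat_lit 5) (nat_lit 421) (nat_lit 5) (nat_lit 404) (nat_lit 5) (nat_lit 447) (nat_lit 418) (nat_lit 275)) (XT.lf (nat_lit 0) (nat_lit 2127337988) (nat_lit 912) (nat_lit 5896483588) (nat_lit 988) (nat_lit 4140398975) (nat_lit 391) (nat_lit 5) (nat_lit 403) (nat_lit 5) (nat_lit 404) (nat_lit 5) (nat_lit 448) (nat_lit 418) (nat_lit 274))) (XT.nd (nat_lit 78) (nat_lit 912) (nat_lit 0) (XT.lf (nat_lit 0) (nat_lit 8801769766) (nat_lit 912) (nat_lit 875476819) (nat_lit 988) (nat_lit 2612572253) (nat_lit 391) (nat_lit 5) (nat_lit 403) (nat_lit 5)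 (nat_lit 404) (nat_lit 5) (nat_lit 449) (nat_lit 418) (nat_lit 273)) (XT.nd (nat_lit 78) (nat_lit 76) (nat_lit 0) (XT.lf (nat_lit 0) (nat_lit 3193875538) (nat_lit 836) (nat_lit 8205128558) (nat_lit 912) (nat_lit 1018223285) (nat_lit 380) (nat_lit 5) (nat_lit 391) (nat_lit 5) (nat_lit 392) (nat_lit 5) (nat_lit 450) (nat_lit 418) (nat_lit 272)) (XT.lf (nat_lit 0) (nat_lit 616446021) (nat_lit 912) (nat_lit 2512197919) (nat_lit 76) (nat_lit 9418136483) (nat_lit 379) (nat_lit 5) (nat_lit 391) (nat_lit 5) (nat_lit 380) (nat_lit 5) (nat_lit 451) (nat_lit 418) (nat_lit 271))))) (XT.nd (nat_lit 234) (nat_lit 1596) (nat_lit 0) (XT.nd (nat_lit 78) (nat_lit 836) (nat_lit 0) (XT.lf (nat_lit 0) (nat_lit 2299416140) (nat_lit 988) (nat_lit 8320310608) (nat_lit 76) (nat_lit 2058481704) (nat_lit 367) (nat_lit 5) (nat_lit 380) (nat_lit 5) (nat_lit 368) (nat_lit 5) (nat_lit 452) (nat_lit 418) (nat_lit 270)) (XT.nd (nat_lit 78) (nat_lit 836) (nat_lit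 0) (XT.lf (nat_lit 0) (nat_lit 4041211707) (nat_lit 988) (nat_lit 1445548346) (nat_lit 76) (nat_lit 7325004966) (nat_lit 367) (nat_lit 5) (nat_lit 380) (nat_lit 5) (nat_lit 368) (nat_lit 5) (nat_lit 453) (nat_lit 418) (nat_lit 269)) (XT.lf (nat_lit 0) (nat_lit 5628529953) (nat_lit 836) (nat_lit 213579671) (nat_lit 912) (nat_lit 7105400999) (nat_lit 356) (nat_lit 5) (nat_lit 367) (nat_lit 5) (nat_lit 368) (nat_lit 5) (nat_lit 454) (nat_lit 418) (nat_lit 268)))) (XT.nd (nat_lit 78) (nat_lit 1596) (nat_lit 0) (XT.lf (nat_lit 0) (nat_lit 7710212059) (nat_lit 912) (nat_lit 267857962) (nat_lit 76) (nat_lit 5107280555) (nat_lit 356) (nat_lit 5) (nat_lit 368) (nat_lit 5) (nat_lit 357) (nat_lit 5) (nat_lit 455) (nat_lit 418) (nat_lit 267)) (XT.nd (nat_lit 78) (nat_lit 760) (nat_lit 0) (XT.lf (nat_lit 0) (nat_lit 7002787964) (nat_lit 836) (nat_lit 2647894174) (nat_lit 912) (nat_lit 3574568187) (nat_lit 345) (nat_lit 5) (nat_lit 356) (nat_lit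 5) (nat_lit 357) (nat_lit 5) (nat_lit 456) (nat_lit 418) (nat_lit 266)) (XT.lf (nat_lit 0) (nat_lit 1037973841) (nat_lit 760) (nat_lit 10606923156) (nat_lit 836) (nat_lit 1722755413) (nat_lit 335) (nat_lit 5) (nat_lit 345) (nat_lit 5) (nat_lit 346) (nat_lit 5) (nat_lit 457) (nat_lit 418) (nat_lit 265)))))) (XT.nd (nat_lit 390) (nat_lit 2888) (nat_lit 0) (XT.nd (nat_lit 156) (nat_lit 760) (nat_lit 0) (XT.nd (nat_lit 78) (nat_lit 760) (nat_lit 0) (XT.lf (nat_lit 0) (nat_lit 211835317) (nat_lit 836) (nat_lit 5015156142) (nat_lit 76) (nat_lit 8284934036) (nat_lit 334) (nat_lit 5) (nat_lit 345) (nat_lit 5) (nat_lit 335) (nat_lit 5) (nat_lit 458) (nat_lit 418) (nat_lit 264)) (XT.lf (nat_lit 0) (nat_lit 2168457657) (nat_lit 836) (nat_lit 11206124119) (nat_lit 76) (nat_lit 284149239) (nat_lit 324) (nat_lit 5) (nat_lit 335) (nat_lit 5) (nat_lit 325) (nat_lit 5) (nat_lit 459) (nat_lit 418) (nat_lit 263))) (XT.nd (nat_lit 78) (nat_lit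 760) (nat_lit 0) (XT.lf (nat_lit 0) (nat_lit 4221428960) (nat_lit 836) (nat_lit 3717002859) (nat_lit 76) (nat_lit 5868899311) (nat_lit 324) (nat_lit 5) (nat_lit 335) (nat_lit 5) (nat_lit 325) (nat_lit 5) (nat_lit 460) (nat_lit 418) (nat_lit 262)) (XT.nd (nat_lit 78) (nat_lit 0) (nat_lit 0) (XT.lf (nat_lit 0) (nat_lit 3962028697) (nat_lit 760) (nat_lit 2368099684) (nat_lit 836) (nat_lit 7628484254) (nat_lit 314) (nat_lit 5) (nat_lit 324) (nat_lit 5) (nat_lit 325) (nat_lit 5) (nat_lit 461) (nat_lit 418) (nat_lit 261)) (XT.lf (nat_lit 0) (nat_lit 8516703911) (nat_lit 836) (nat_lit 2301047124) (nat_lit 76) (nat_lit 3294457397) (nat_lit 314) (nat_lit 5) (nat_lit 325) (nat_lit 5) (nat_lit 315) (nat_lit 5) (nat_lit 462) (nat_lit 418) (nat_lit 260))))) (XT.nd (nat_lit 234) (nat_lit 1368) (nat_lit 0) (XT.nd (nat_lit 78) (nat_lit 760) (nat_lit 0) (XT.lf (nat_lit 0) (nat_lit 5594350795) (nat_lit 760) (nat_lit 5193958843) (nat_lit 836)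 (nat_lit 3479743186) (nat_lit 304) (nat_lit 5) (nat_lit 314) (nat_lit 5) (nat_lit 315) (nat_lit 5) (nat_lit 463) (nat_lit 418) (nat_lit 259)) (XT.nd (nat_lit 78) (nat_lit 760) (nat_lit 0) (XT.lf (nat_lit 0) (nat_lit 13113832834) (nat_lit 836) (nat_lit 763348122) (nat_lit 76) (nat_lit 549666042) (nat_lit 304) (nat_lit 5) (nat_lit 315) (nat_lit 5) (nat_lit 305) (nat_lit 5) (nat_lit 464) (nat_lit 418) (nat_lit 258)) (XT.lf (nat_lit 0) (nat_lit 957540449) (nat_lit 760) (nat_lit 7238031898) (nat_lit 76) (nat_lit 6391685603) (nat_lit 294) (nat_lit 5) (nat_lit 304) (nat_lit 5) (nat_lit 295) (nat_lit 5) (nat_lit 465) (nat_lit 418) (nat_lit 257)))) (XT.nd (nat_lit 78) (nat_lit 684) (nat_lit 0) (XT.lf (nat_lit 0) (nat_lit 874668683) (nat_lit 684) (nat_lit 2381794247) (nat_lit 760) (nat_lit 11494232301) (nat_lit 285) (nat_lit 5) (nat_lit 294) (nat_lit 5) (nat_lit 295) (nat_lit 5) (nat_lit 466) (nat_lit 418) (nat_lit 256)) (XT.nd (nat_lit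 78) (nat_lit 684) (nat_lit 0) (XT.lf (nat_lit 0) (nat_lit 5663097929) (nat_lit 760) (nat_lit 5703870119) (nat_lit 76) (nat_lit 3549200929) (nat_lit 285) (nat_lit 5) (nat_lit 295) (nat_lit 5) (nat_lit 286) (nat_lit 5) (nat_lit 467) (nat_lit 418) (nat_lit 255)) (XT.lf (nat_lit 0) (nat_lit 2638980723) (nat_lit 684) (nat_lit 5501796066) (nat_lit 760) (nat_lit 6943719544) (nat_lit 276) (nat_lit 5) (nat_lit 285) (nat_lit 5) (nat_lit 286) (nat_lit 5) (nat_lit 468) (nat_lit 418) (nat_lit 254))))))) (XT.nd (nat_lit 858) (nat_lit 3648) (nat_lit 0) (XT.nd (nat_lit 390) (nat_lit 2432) (nat_lit 0) (XT.nd (nat_lit 156) (nat_lit 684) (nat_lit 0) (XT.nd (nat_lit 78) (nat_lit 684) (nat_lit 0) (XT.lf (nat_lit 0) (nat_lit 10699773910) (nat_lit 760) (nat_lit 4044491967) (nat_lit 76) (nat_lit 511291373) (nat_lit 276) (nat_lit 5) (nat_lit 286) (nat_lit 5) (nat_lit 277) (nat_lit 5) (nat_lit 469) (nat_lit 418) (nat_lit 253)) (XT.lf (nat_lit 0) (nat_lit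 4536139160) (nat_lit 684) (nat_lit 8830007348) (nat_lit 760) (nat_lit 2062771231) (nat_lit 267) (nat_lit 5) (nat_lit 276) (nat_lit 5) (nat_lit 277) (nat_lit 5) (nat_lit 470) (nat_lit 418) (nat_lit 252))) (XT.nd (nat_lit 78) (nat_lit 608) (nat_lit 0) (XT.lf (nat_lit 0) (nat_lit 491483545) (nat_lit 760) (nat_lit 2276816815) (nat_lit 76) (nat_lit 12837031332) (nat_lit 266) (nat_lit 5) (nat_lit 276) (nat_lit 5) (nat_lit 267) (nat_lit 5) (nat_lit 471) (nat_lit 418) (nat_lit 251)) (XT.nd (nat_lit 78) (nat_lit 0) (nat_lit 0) (XT.lf (nat_lit 0) (nat_lit 3124981986) (nat_lit 684) (nat_lit 9234162333) (nat_lit 76) (nat_lit 3424743457) (nat_lit 258) (nat_lit 5) (nat_lit 267) (nat_lit 5) (nat_lit 259) (nat_lit 5) (nat_lit 472) (nat_lit 418) (nat_lit 250)) (XT.lf (nat_lit 0) (nat_lit 5835511239) (nat_lit 684) (nat_lit 411883044) (nat_lit 76) (nat_lit 9718135573) (nat_lit 258) (nat_lit 5) (nat_lit 267) (nat_lit 5) (nat_lit 259) (nat_lit 5)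 (nat_lit 473) (nat_lit 418) (nat_lit 249))))) (XT.nd (nat_lit 234) (nat_lit 1216) (nat_lit 0) (XT.nd (nat_lit 78) (nat_lit 608) (nat_lit 0) (XT.lf (nat_lit 0) (nat_lit 8647774737) (nat_lit 684) (nat_lit 7460504651) (nat_lit 76) (nat_lit 41576967) (nat_lit 250) (nat_lit 5) (nat_lit 259) (nat_lit 5) (nat_lit 251) (nat_lit 5) (nat_lit 474) (nat_lit 418) (nat_lit 248)) (XT.nd (nat_lit 78) (nat_lit 0) (nat_lit 0) (XT.lf (nat_lit 0) (nat_lit 1608814718) (nat_lit 608) (nat_lit 9952995714) (nat_lit 684) (nat_lit 4775150426) (nat_lit 242) (nat_lit 5) (nat_lit 250) (nat_lit 5) (nat_lit 251) (nat_lit 5) (nat_lit 475) (nat_lit 418) (nat_lit 247)) (XT.lf (nat_lit 0) (nat_lit 10949450121) (nat_lit 608) (nat_lit 3625771550) (nat_lit 684) (nat_lit 1951765852) (nat_lit 242) (nat_lit 5) (nat_lit 250) (nat_lit 5) (nat_lit 251) (nat_lit 5) (nat_lit 476) (nat_lit 418) (nat_lit 246)))) (XT.nd (nat_lit 78) (nat_lit 532) (nat_lit 0) (XT.lf (nat_lit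 0) (nat_lit 950208903) (nat_lit 684) (nat_lit 12950283527) (nat_lit 76) (nat_lit 2819517782) (nat_lit 233) (nat_lit 5) (nat_lit 242) (nat_lit 5) (nat_lit 234) (nat_lit 5) (nat_lit 477) (nat_lit 418) (nat_lit 245)) (XT.nd (nat_lit 78) (nat_lit 532) (nat_lit 0) (XT.lf (nat_lit 0) (nat_lit 3937035128) (nat_lit 684) (nat_lit 3584977451) (nat_lit 76) (nat_lit 9393565686) (nat_lit 233) (nat_lit 5) (nat_lit 242) (nat_lit 5) (nat_lit 234) (nat_lit 5) (nat_lit 478) (nat_lit 418) (nat_lit 244)) (XT.lf (nat_lit 0) (nat_lit 6035826577) (nat_lit 532) (nat_lit 978365651) (nat_lit 608) (nat_lit 10100255386) (nat_lit 226) (nat_lit 5) (nat_lit 233) (nat_lit 5) (nat_lit 234) (nat_lit 5) (nat_lit 479) (nat_lit 418) (nat_lit 243)))))) (XT.nd (nat_lit 468) (nat_lit 1976) (nat_lit 0) (XT.nd (nat_lit 234) (nat_lit 608) (nat_lit 0) (XT.nd (nat_lit 78) (nat_lit 1064) (nat_lit 0) (XT.lf (nat_lit 0) (nat_lit 10205580025) (nat_lit 608) (nat_lit 1467366822)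 (nat_lit 76) (nat_lit 5643295536) (nat_lit 226) (nat_lit 5) (nat_lit 234) (nat_lit 5) (nat_lit 227) (nat_lit 5) (nat_lit 480) (nat_lit 418) (nat_lit 242)) (XT.nd (nat_lit 78) (nat_lit 532) (nat_lit 0) (XT.lf (nat_lit 0) (nat_lit 8429349310) (nat_lit 532) (nat_lit 5084309279) (nat_lit 608) (nat_lit 4007358948) (nat_lit 219) (nat_lit 5) (nat_lit 226) (nat_lit 5) (nat_lit 227) (nat_lit 5) (nat_lit 481) (nat_lit 418) (nat_lit 241)) (XT.lf (nat_lit 0) (nat_lit 803128876) (nat_lit 532) (nat_lit 16102251223) (nat_lit 608) (nat_lit 824160186) (nat_lit 212) (nat_lit 5) (nat_lit 219) (nat_lit 5) (nat_lit 220) (nat_lit 5) (nat_lit 482) (nat_lit 418) (nat_lit 240)))) (XT.nd (nat_lit 78) (nat_lit 532) (nat_lit 0) (XT.lf (nat_lit 0) (nat_lit 2477781372) (nat_lit 608) (nat_lit 6982710886) (nat_lit 76) (nat_lit 8479691221) (nat_lit 211) (nat_lit 5) (nat_lit 219) (nat_lit 5) (nat_lit 212) (nat_lit 5) (nat_lit 483) (nat_lit 418) (nat_lit 239))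 (XT.nd (nat_lit 78) (nat_lit 0) (nat_lit 0) (XT.lf (nat_lit 0) (nat_lit 3185443372) (nat_lit 532) (nat_lit 2661904782) (nat_lit 608) (nat_lit 12307331608) (nat_lit 204) (nat_lit 5) (nat_lit 211) (nat_lit 5) (nat_lit 212) (nat_lit 5) (nat_lit 484) (nat_lit 418) (nat_lit 238)) (XT.lf (nat_lit 0) (nat_lit 9351216250) (nat_lit 608) (nat_lit 4759779872) (nat_lit 76) (nat_lit 4261133235) (nat_lit 204) (nat_lit 5) (nat_lit 212) (nat_lit 5) (nat_lit 205) (nat_lit 5) (nat_lit 485) (nat_lit 418) (nat_lit 237))))) (XT.nd (nat_lit 234) (nat_lit 912) (nat_lit 0) (XT.nd (nat_lit 78) (nat_lit 608) (nat_lit 0) (XT.lf (nat_lit 0) (nat_lit 5700398005) (nat_lit 456) (nat_lit 7271560908) (nat_lit 532) (nat_lit 5621034640) (nat_lit 198) (nat_lit 5) (nat_lit 204) (nat_lit 5) (nat_lit 205) (nat_lit 5) (nat_lit 486) (nat_lit 418) (nat_lit 236)) (XT.nd (nat_lit 78) (nat_lit 608) (nat_lit 0) (XT.lf (nat_lit 0) (nat_lit 16423768243) (nat_lit 456) (nat_lit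 265532137) (nat_lit 532) (nat_lit 2128492499) (nat_lit 198) (nat_lit 5) (nat_lit 204) (nat_lit 5) (nat_lit 205) (nat_lit 5) (nat_lit 487) (nat_lit 418) (nat_lit 235)) (XT.lf (nat_lit 0) (nat_lit 1507087708) (nat_lit 608) (nat_lit 10686030621) (nat_lit 76) (nat_lit 6851945268) (nat_lit 190) (nat_lit 5) (nat_lit 198) (nat_lit 5) (nat_lit 191) (nat_lit 5) (nat_lit 488) (nat_lit 418) (nat_lit 234)))) (XT.nd (nat_lit 78) (nat_lit 456) (nat_lit 0) (XT.lf (nat_lit 0) (nat_lit 57341940) (nat_lit 456) (nat_lit 5140274412) (nat_lit 532) (nat_lit 14078768678) (nat_lit 184) (nat_lit 5) (nat_lit 190) (nat_lit 5) (nat_lit 191) (nat_lit 5) (nat_lit 489) (nat_lit 418) (nat_lit 233)) (XT.nd (nat_lit 78) (nat_lit 456) (nat_lit 0) (XT.lf (nat_lit 0) (nat_lit 9039943460) (nat_lit 532) (nat_lit 8374831055) (nat_lit 76) (nat_lit 2096000029) (nat_lit 184) (nat_lit 5) (nat_lit 191) (nat_lit 5) (nat_lit 185) (nat_lit 5) (nat_lit 490) (nat_lit 418) (nat_lit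 232)) (XT.lf (nat_lit 0) (nat_lit 2676981934) (nat_lit 456) (nat_lit 10326175706) (nat_lit 532) (nat_lit 6745814776) (nat_lit 178) (nat_lit 5) (nat_lit 184) (nat_lit 5) (nat_lit 185) (nat_lit 5) (nat_lit 491) (nat_lit 418) (nat_lit 231))))))))
noncomputable def xc183 : XT := (XT.nd (nat_lit 54210) (nat_lit 0) (nat_lit 20596) (XT.nd (nat_lit 858) (nat_lit 836) (nat_lit 0) (XT.nd (nat_lit 390) (nat_lit 1672) (nat_lit 0) (XT.nd (nat_lit 156) (nat_lit 456) (nat_lit 0) (XT.nd (nat_lit 78) (nat_lit 532) (nat_lit 0) (XT.lf (nat_lit 0) (nat_lit 14053071485) (nat_lit 456) (nat_lit 3041460357) (nat_lit 532) (nat_lit 2896425841) (nat_lit 178) (nat_lit 5) (nat_lit 184) (nat_lit 5) (nat_lit 185) (nat_lit 5) (nat_lit 492) (nat_lit 418) (nat_lit 230)) (XT.lf (nat_lit 0) (nat_lit 1073529622) (nat_lit 532) (nat_lit 14792014926) (nat_lit 76) (nat_lit 4370963932) (nat_lit 171) (nat_lit 5) (nat_lit 178) (nat_lit 5) (nat_lit 172) (nat_lit 5) (nat_lit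 493) (nat_lit 418) (nat_lit 229))) (XT.nd (nat_lit 78) (nat_lit 456) (nat_lit 0) (XT.lf (nat_lit 0) (nat_lit 5137236725) (nat_lit 532) (nat_lit 3400986360) (nat_lit 76) (nat_lit 11947302861) (nat_lit 171) (nat_lit 5) (nat_lit 178) (nat_lit 5) (nat_lit 172) (nat_lit 5) (nat_lit 494) (nat_lit 418) (nat_lit 228)) (XT.nd (nat_lit 78) (nat_lit 0) (nat_lit 0) (XT.lf (nat_lit 0) (nat_lit 8316905314) (nat_lit 456) (nat_lit 1012298848) (nat_lit 532) (nat_lit 11409381125) (nat_lit 165) (nat_lit 5) (nat_lit 171) (nat_lit 5) (nat_lit 172) (nat_lit 5) (nat_lit 495) (nat_lit 418) (nat_lit 227)) (XT.lf (nat_lit 0) (nat_lit 13664292977) (nat_lit 532) (nat_lit 734501970) (nat_lit 76) (nat_lit 6596726453) (nat_lit 165) (nat_lit 5) (nat_lit 172) (nat_lit 5) (nat_lit 166) (nat_lit 5) (nat_lit 496) (nat_lit 418) (nat_lit 226))))) (XT.nd (nat_lit 234) (nat_lit 760) (nat_lit 0) (XT.nd (nat_lit 78) (nat_lit 532) (nat_lit 0) (XT.lf (nat_lit 0) (nat_lit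 11318265036) (nat_lit 380) (nat_lit 6841185079) (nat_lit 456) (nat_lit 3096679991) (nat_lit 160) (nat_lit 5) (nat_lit 165) (nat_lit 5) (nat_lit 166) (nat_lit 5) (nat_lit 497) (nat_lit 418) (nat_lit 225)) (XT.nd (nat_lit 78) (nat_lit 0) (nat_lit 0) (XT.lf (nat_lit 0) (nat_lit 1224176003) (nat_lit 532) (nat_lit 19417369295) (nat_lit 76) (nat_lit 879895075) (nat_lit 153) (nat_lit 5) (nat_lit 160) (nat_lit 5) (nat_lit 154) (nat_lit 5) (nat_lit 498) (nat_lit 418) (nat_lit 224)) (XT.lf (nat_lit 0) (nat_lit 5695709205) (nat_lit 532) (nat_lit 7345390376) (nat_lit 76) (nat_lit 8748434524) (nat_lit 153) (nat_lit 5) (nat_lit 160) (nat_lit 5) (nat_lit 154) (nat_lit 5) (nat_lit 499) (nat_lit 418) (nat_lit 223)))) (XT.nd (nat_lit 78) (nat_lit 380) (nat_lit 0) (XT.lf (nat_lit 0) (nat_lit 5024147879) (nat_lit 380) (nat_lit 5258527708) (nat_lit 456) (nat_lit 11779795184) (nat_lit 148) (nat_lit 5) (nat_lit 153) (nat_lit 5) (nat_lit 154) (nat_lit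 5) (nat_lit 500) (nat_lit 418) (nat_lit 222)) (XT.nd (nat_lit 78) (nat_lit 380) (nat_lit 0) (XT.lf (nat_lit 0) (nat_lit 15021826162) (nat_lit 456) (nat_lit 4626779690) (nat_lit 76) (nat_lit 2691052509) (nat_lit 148) (nat_lit 5) (nat_lit 154) (nat_lit 5) (nat_lit 149) (nat_lit 5) (nat_lit 501) (nat_lit 418) (nat_lit 221)) (XT.lf (nat_lit 0) (nat_lit 8094705607) (nat_lit 380) (nat_lit 11841992511) (nat_lit 456) (nat_lit 2684073883) (nat_lit 143) (nat_lit 5) (nat_lit 148) (nat_lit 5) (nat_lit 149) (nat_lit 5) (nat_lit 502) (nat_lit 418) (nat_lit 220)))))) (XT.nd (nat_lit 52884) (nat_lit 0) (nat_lit 26372) (XT.nd (nat_lit 156) (nat_lit 380) (nat_lit 0) (XT.nd (nat_lit 78) (nat_lit 380) (nat_lit 0) (XT.lf (nat_lit 0) (nat_lit 2040405867) (nat_lit 456) (nat_lit 1796665723) (nat_lit 76) (nat_lit 19069675500) (nat_lit 142) (nat_lit 5) (nat_lit 148) (nat_lit 5) (nat_lit 143) (nat_lit 5) (nat_lit 503) (nat_lit 418) (nat_lit 219)) (XT.lf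 (nat_lit 0) (nat_lit 6919278337) (nat_lit 456) (nat_lit 11917030054) (nat_lit 76) (nat_lit 4359862601) (nat_lit 137) (nat_lit 5) (nat_lit 143) (nat_lit 5) (nat_lit 138) (nat_lit 5) (nat_lit 504) (nat_lit 418) (nat_lit 218))) (XT.nd (nat_lit 78) (nat_lit 0) (nat_lit 0) (XT.lf (nat_lit 0) (nat_lit 1129494124) (nat_lit 380) (nat_lit 10804861261) (nat_lit 456) (nat_lit 11556256432) (nat_lit 132) (nat_lit 5) (nat_lit 137) (nat_lit 5) (nat_lit 138) (nat_lit 5) (nat_lit 505) (nat_lit 418) (nat_lit 217)) (XT.nd (nat_lit 52572) (nat_lit 0) (nat_lit 27892) (XT.lf (nat_lit 0) (nat_lit 14589045545) (nat_lit 380) (nat_lit 2534465509) (nat_lit 456) (nat_lit 6665955828) (nat_lit 132) (nat_lit 5) (nat_lit 137) (nat_lit 5) (nat_lit 138) (nat_lit 5) (nat_lit 506) (nat_lit 418) (nat_lit 216)) (XT.lf (nat_lit 0) (nat_lit 3035289447) (nat_lit 1596) (nat_lit 825871937) (nat_lit 1596) (nat_lit 825871937) (nat_lit 499) (nat_lit 3) (nat_lit 520) (nat_lit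 3) (nat_lit 520) (nat_lit 5) (nat_lit 419) (nat_lit 419) (nat_lit 302))))) (XT.nd (nat_lit 234) (nat_lit 1520) (nat_lit 0) (XT.nd (nat_lit 78) (nat_lit 0) (nat_lit 0) (XT.lf (nat_lit 76) (nat_lit 2916371051) (nat_lit 0) (nat_lit 4039548302) (nat_lit 1596) (nat_lit 2495143796) (nat_lit 500) (nat_lit 5) (nat_lit 499) (nat_lit 3) (nat_lit 520) (nat_lit 5) (nat_lit 420) (nat_lit 419) (nat_lit 301)) (XT.nd (nat_lit 78) (nat_lit 0) (nat_lit 76) (XT.lf (nat_lit 76) (nat_lit 7587313287) (nat_lit 0) (nat_lit 261532682) (nat_lit 1596) (nat_lit 1680962624) (nat_lit 500) (nat_lit 5) (nat_lit 499) (nat_lit 3) (nat_lit 520) (nat_lit 5) (nat_lit 421) (nat_lit 419) (nat_lit 300)) (XT.lf (nat_lit 76) (nat_lit 2743000152) (nat_lit 0) (nat_lit 6037038761) (nat_lit 1596) (nat_lit 829688345) (nat_lit 501) (nat_lit 5) (nat_lit 500) (nat_lit 5) (nat_lit 521) (nat_lit 5) (nat_lit 422) (nat_lit 419) (nat_lit 299)))) (XT.nd (nat_lit 78) (nat_lit 0) (nat_lit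 76) (XT.lf (nat_lit 0) (nat_lit 32427840) (nat_lit 1596) (nat_lit 2155919723) (nat_lit 1672) (nat_lit 7503011476) (nat_lit 479) (nat_lit 5) (nat_lit 500) (nat_lit 5) (nat_lit 501) (nat_lit 5) (nat_lit 423) (nat_lit 419) (nat_lit 298)) (XT.nd (nat_lit 78) (nat_lit 0) (nat_lit 0) (XT.lf (nat_lit 0) (nat_lit 909366698) (nat_lit 1596) (nat_lit 7118652130) (nat_lit 1672) (nat_lit 1746327241) (nat_lit 480) (nat_lit 5) (nat_lit 501) (nat_lit 5) (nat_lit 502) (nat_lit 5) (nat_lit 424) (nat_lit 419) (nat_lit 297)) (XT.lf (nat_lit 0) (nat_lit 1813150788) (nat_lit 1596) (nat_lit 2292092813) (nat_lit 1672) (nat_lit 5753569083) (nat_lit 480) (nat_lit 5) (nat_lit 501) (nat_lit 5) (nat_lit 502) (nat_lit 5) (nat_lit 425) (nat_lit 419) (nat_lit 296))))))) (XT.nd (nat_lit 858) (nat_lit 4484) (nat_lit 0) (XT.nd (nat_lit 390) (nat_lit 1368) (nat_lit 0) (XT.nd (nat_lit 156) (nat_lit 0) (nat_lit 76) (XT.nd (nat_lit 78) (nat_lit 0) (nat_lit 76) (XT.lf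 (nat_lit 76) (nat_lit 2654473273) (nat_lit 0) (nat_lit 78410045) (nat_lit 1672) (nat_lit 7212133715) (nat_lit 481) (nat_lit 5) (nat_lit 480) (nat_lit 5) (nat_lit 502) (nat_lit 5) (nat_lit 426) (nat_lit 419) (nat_lit 295)) (XT.lf (nat_lit 0) (nat_lit 3693647452) (nat_lit 1596) (nat_lit 2339558943) (nat_lit 1672) (nat_lit 3999292079) (nat_lit 481) (nat_lit 5) (nat_lit 502) (nat_lit 5) (nat_lit 503) (nat_lit 5) (nat_lit 427) (nat_lit 419) (nat_lit 294))) (XT.nd (nat_lit 78) (nat_lit 0) (nat_lit 76) (XT.lf (nat_lit 76) (nat_lit 2734315620) (nat_lit 0) (nat_lit 1938951409) (nat_lit 1672) (nat_lit 5448475339) (nat_lit 482) (nat_lit 5) (nat_lit 481) (nat_lit 5) (nat_lit 503) (nat_lit 5) (nat_lit 428) (nat_lit 419) (nat_lit 293)) (XT.nd (nat_lit 78) (nat_lit 0) (nat_lit 0) (XT.lf (nat_lit 0) (nat_lit 5684512288) (nat_lit 1596) (nat_lit 2297519091) (nat_lit 1672) (nat_lit 2230504616) (nat_lit 482) (nat_lit 5) (nat_lit 503) (nat_lit 5)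 (nat_lit 504) (nat_lit 5) (nat_lit 429) (nat_lit 419) (nat_lit 292)) (XT.lf (nat_lit 76) (nat_lit 2907901603) (nat_lit 0) (nat_lit 3821864681) (nat_lit 1672) (nat_lit 3575108944) (nat_lit 483) (nat_lit 5) (nat_lit 482) (nat_lit 5) (nat_lit 504) (nat_lit 5) (nat_lit 430) (nat_lit 419) (nat_lit 291))))) (XT.nd (nat_lit 234) (nat_lit 1596) (nat_lit 0) (XT.nd (nat_lit 78) (nat_lit 0) (nat_lit 0) (XT.lf (nat_lit 0) (nat_lit 7796561748) (nat_lit 1596) (nat_lit 2164921795) (nat_lit 1672) (nat_lit 437570281) (nat_lit 483) (nat_lit 5) (nat_lit 504) (nat_lit 5) (nat_lit 505) (nat_lit 5) (nat_lit 431) (nat_lit 419) (nat_lit 290)) (XT.nd (nat_lit 78) (nat_lit 0) (nat_lit 0) (XT.lf (nat_lit 76) (nat_lit 3176449541) (nat_lit 0) (nat_lit 5736903076) (nat_lit 1672) (nat_lit 1581195385) (nat_lit 484) (nat_lit 5) (nat_lit 483) (nat_lit 5) (nat_lit 505) (nat_lit 5) (nat_lit 432) (nat_lit 419) (nat_lit 289)) (XT.lf (nat_lit 76) (nat_lit 8642400295)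 (nat_lit 0) (nat_lit 1407595730) (nat_lit 1672) (nat_lit 542010803) (nat_lit 484) (nat_lit 5) (nat_lit 483) (nat_lit 5) (nat_lit 505) (nat_lit 5) (nat_lit 433) (nat_lit 419) (nat_lit 288)))) (XT.nd (nat_lit 78) (nat_lit 0) (nat_lit 0) (XT.lf (nat_lit 0) (nat_lit 537213000) (nat_lit 1672) (nat_lit 7153006411) (nat_lit 1748) (nat_lit 3000612090) (nat_lit 462) (nat_lit 5) (nat_lit 484) (nat_lit 5) (nat_lit 485) (nat_lit 5) (nat_lit 434) (nat_lit 419) (nat_lit 287)) (XT.nd (nat_lit 78) (nat_lit 0) (nat_lit 76) (XT.lf (nat_lit 0) (nat_lit 1636756098) (nat_lit 1672) (nat_lit 1654822886) (nat_lit 1748) (nat_lit 7499866988) (nat_lit 462) (nat_lit 5) (nat_lit 484) (nat_lit 5) (nat_lit 485) (nat_lit 5) (nat_lit 435) (nat_lit 419) (nat_lit 286)) (XT.lf (nat_lit 0) (nat_lit 2776000041) (nat_lit 1672) (nat_lit 6907789139) (nat_lit 1748) (nat_lit 1209934063) (nat_lit 463) (nat_lit 5) (nat_lit 485) (nat_lit 5) (nat_lit 486) (nat_lit 5) (nat_lit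 436) (nat_lit 419) (nat_lit 285)))))) (XT.nd (nat_lit 468) (nat_lit 4560) (nat_lit 0) (XT.nd (nat_lit 234) (nat_lit 0) (nat_lit 76) (XT.nd (nat_lit 78) (nat_lit 0) (nat_lit 0) (XT.lf (nat_lit 0) (nat_lit 3955093980) (nat_lit 1672) (nat_lit 1269686962) (nat_lit 1748) (nat_lit 5772928433) (nat_lit 463) (nat_lit 5) (nat_lit 485) (nat_lit 5) (nat_lit 486) (nat_lit 5) (nat_lit 437) (nat_lit 419) (nat_lit 284)) (XT.nd (nat_lit 78) (nat_lit 0) (nat_lit 76) (XT.lf (nat_lit 76) (nat_lit 4528879506) (nat_lit 0) (nat_lit 642695081) (nat_lit 1748) (nat_lit 5931929075) (nat_lit 464) (nat_lit 5) (nat_lit 463) (nat_lit 5) (nat_lit 486) (nat_lit 5) (nat_lit 438) (nat_lit 419) (nat_lit 283)) (XT.lf (nat_lit 0) (nat_lit 6431788741) (nat_lit 1672) (nat_lit 788797806) (nat_lit 1748) (nat_lit 3990443649) (nat_lit 464) (nat_lit 5) (nat_lit 486) (nat_lit 5) (nat_lit 487) (nat_lit 5) (nat_lit 439) (nat_lit 419) (nat_lit 282)))) (XT.nd (nat_lit 78)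 (nat_lit 0) (nat_lit 76) (XT.lf (nat_lit 76) (nat_lit 5164502524) (nat_lit 0) (nat_lit 2575448270) (nat_lit 1748) (nat_lit 3580305945) (nat_lit 465) (nat_lit 5) (nat_lit 464) (nat_lit 5) (nat_lit 487) (nat_lit 5) (nat_lit 440) (nat_lit 419) (nat_lit 281)) (XT.nd (nat_lit 78) (nat_lit 0) (nat_lit 0) (XT.lf (nat_lit 0) (nat_lit 9078841411) (nat_lit 1672) (nat_lit 210040749) (nat_lit 1748) (nat_lit 2142698612) (nat_lit 465) (nat_lit 5) (nat_lit 487) (nat_lit 5) (nat_lit 488) (nat_lit 5) (nat_lit 441) (nat_lit 419) (nat_lit 280)) (XT.lf (nat_lit 76) (nat_lit 5903223479) (nat_lit 0) (nat_lit 4582156259) (nat_lit 1748) (nat_lit 1058938335) (nat_lit 466) (nat_lit 5) (nat_lit 465) (nat_lit 5) (nat_lit 488) (nat_lit 5) (nat_lit 442) (nat_lit 419) (nat_lit 279))))) (XT.nd (nat_lit 234) (nat_lit 1292) (nat_lit 0) (XT.nd (nat_lit 78) (nat_lit 1748) (nat_lit 0) (XT.lf (nat_lit 0) (nat_lit 248895949) (nat_lit 1748) (nat_lit 11185957878) (nat_lit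 76) (nat_lit 224594917) (nat_lit 443) (nat_lit 5) (nat_lit 466) (nat_lit 5) (nat_lit 444) (nat_lit 5) (nat_lit 443) (nat_lit 419) (nat_lit 278)) (XT.nd (nat_lit 78) (nat_lit 1748) (nat_lit 0) (XT.lf (nat_lit 0) (nat_lit 1622990025) (nat_lit 1748) (nat_lit 5038972686) (nat_lit 76) (nat_lit 5113697622) (nat_lit 443) (nat_lit 5) (nat_lit 466) (nat_lit 5) (nat_lit 444) (nat_lit 5) (nat_lit 444) (nat_lit 419) (nat_lit 277)) (XT.lf (nat_lit 0) (nat_lit 1235316971) (nat_lit 1748) (nat_lit 1783365805) (nat_lit 1824) (nat_lit 8875634907) (nat_lit 420) (nat_lit 5) (nat_lit 443) (nat_lit 5) (nat_lit 444) (nat_lit 5) (nat_lit 445) (nat_lit 419) (nat_lit 276)))) (XT.nd (nat_lit 78) (nat_lit 1292) (nat_lit 0) (XT.lf (nat_lit 0) (nat_lit 4483362496) (nat_lit 1824) (nat_lit 4344277961) (nat_lit 76) (nat_lit 3186890049) (nat_lit 420) (nat_lit 5) (nat_lit 444) (nat_lit 5) (nat_lit 421) (nat_lit 5) (nat_lit 446) (nat_lit 419) (nat_lit 275)) (XT.nd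 (nat_lit 78) (nat_lit 0) (nat_lit 0) (XT.lf (nat_lit 0) (nat_lit 2100666396) (nat_lit 1292) (nat_lit 3888692452) (nat_lit 1368) (nat_lit 6147551990) (nat_lit 403) (nat_lit 5) (nat_lit 420) (nat_lit 5) (nat_lit 421) (nat_lit 5) (nat_lit 447) (nat_lit 419) (nat_lit 274)) (XT.lf (nat_lit 0) (nat_lit 7549051456) (nat_lit 1368) (nat_lit 3547425182) (nat_lit 76) (nat_lit 1164794255) (nat_lit 403) (nat_lit 5) (nat_lit 421) (nat_lit 5) (nat_lit 404) (nat_lit 5) (nat_lit 448) (nat_lit 419) (nat_lit 273))))))))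
noncomputable def xc184 : XT := (XT.nd (nat_lit 1716) (nat_lit 7448) (nat_lit 0) (XT.nd (nat_lit 858) (nat_lit 4408) (nat_lit 0) (XT.nd (nat_lit 390) (nat_lit 2508) (nat_lit 0) (XT.nd (nat_lit 156) (nat_lit 1824) (nat_lit 0) (XT.nd (nat_lit 78) (nat_lit 0) (nat_lit 0) (XT.lf (nat_lit 0) (nat_lit 3073954998) (nat_lit 912) (nat_lit 6098723981) (nat_lit 988) (nat_lit 3214787918) (nat_lit 391) (nat_lit 5) (nat_lit 403) (nat_lit 5) (nat_lit 404) (nat_lit 5) (nat_lit 449) (nat_lit 419) (nat_lit 272)) (XT.lf (nat_lit 0) (nat_lit 9864148544) (nat_lit 912) (nat_lit 975643925) (nat_lit 988) (nat_lit 1676177584) (nat_lit 391) (nat_lit 5) (nat_lit 403) (nat_lit 5) (nat_lit 404) (nat_lit 5) (nat_lit 450) (nat_lit 419) (nat_lit 271))) (XT.nd (nat_lit 78) (nat_lit 988) (nat_lit 0) (XT.lf (nat_lit 0) (nat_lit 4158314279) (nat_lit 836) (nat_lit 8423991729) (nat_lit 912) (nat_lit 63899541) (nat_lit 380) (nat_lit 5) (nat_lit 391) (nat_lit 5) (nat_lit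 392) (nat_lit 5) (nat_lit 451) (nat_lit 419) (nat_lit 270)) (XT.nd (nat_lit 78) (nat_lit 912) (nat_lit 0) (XT.lf (nat_lit 0) (nat_lit 1571819058) (nat_lit 912) (nat_lit 1666756301) (nat_lit 76) (nat_lit 9540029941) (nat_lit 379) (nat_lit 5) (nat_lit 391) (nat_lit 5) (nat_lit 380) (nat_lit 5) (nat_lit 452) (nat_lit 419) (nat_lit 269)) (XT.lf (nat_lit 0) (nat_lit 3275471449) (nat_lit 988) (nat_lit 7577809162) (nat_lit 76) (nat_lit 2059645719) (nat_lit 367) (nat_lit 5) (nat_lit 380) (nat_lit 5) (nat_lit 368) (nat_lit 5) (nat_lit 453) (nat_lit 419) (nat_lit 268))))) (XT.nd (nat_lit 234) (nat_lit 836) (nat_lit 0) (XT.nd (nat_lit 78) (nat_lit 1672) (nat_lit 0) (XT.lf (nat_lit 0) (nat_lit 5033866320) (nat_lit 988) (nat_lit 583373375) (nat_lit 76) (nat_lit 7432283869) (nat_lit 367) (nat_lit 5) (nat_lit 380) (nat_lit 5) (nat_lit 368) (nat_lit 5) (nat_lit 454) (nat_lit 419) (nat_lit 267)) (XT.nd (nat_lit 78) (nat_lit 836) (nat_lit 0)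 (XT.lf (nat_lit 0) (nat_lit 6626324083) (nat_lit 836) (nat_lit 232326543) (nat_lit 912) (nat_lit 6329580793) (nat_lit 356) (nat_lit 5) (nat_lit 367) (nat_lit 5) (nat_lit 368) (nat_lit 5) (nat_lit 455) (nat_lit 419) (nat_lit 266)) (XT.lf (nat_lit 0) (nat_lit 620756534) (nat_lit 836) (nat_lit 8129655646) (nat_lit 912) (nat_lit 4578694668) (nat_lit 345) (nat_lit 5) (nat_lit 356) (nat_lit 5) (nat_lit 357) (nat_lit 5) (nat_lit 456) (nat_lit 419) (nat_lit 265)))) (XT.nd (nat_lit 78) (nat_lit 836) (nat_lit 0) (XT.lf (nat_lit 0) (nat_lit 8022846216) (nat_lit 836) (nat_lit 2691235201) (nat_lit 912) (nat_lit 2758039907) (nat_lit 345) (nat_lit 5) (nat_lit 356) (nat_lit 5) (nat_lit 357) (nat_lit 5) (nat_lit 457) (nat_lit 419) (nat_lit 264)) (XT.nd (nat_lit 78) (nat_lit 76) (nat_lit 0) (XT.lf (nat_lit 0) (nat_lit 1950402287) (nat_lit 760) (nat_lit 10786562421) (nat_lit 836) (nat_lit 880635495) (nat_lit 335) (nat_lit 5) (nat_lit 345) (nat_lit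 5) (nat_lit 346) (nat_lit 5) (nat_lit 458) (nat_lit 419) (nat_lit 263)) (XT.lf (nat_lit 0) (nat_lit 1064188285) (nat_lit 836) (nat_lit 4229789738) (nat_lit 76) (nat_lit 8471010413) (nat_lit 334) (nat_lit 5) (nat_lit 345) (nat_lit 5) (nat_lit 335) (nat_lit 5) (nat_lit 459) (nat_lit 419) (nat_lit 262)))))) (XT.nd (nat_lit 390) (nat_lit 2128) (nat_lit 0) (XT.nd (nat_lit 156) (nat_lit 1520) (nat_lit 0) (XT.nd (nat_lit 78) (nat_lit 0) (nat_lit 0) (XT.lf (nat_lit 0) (nat_lit 3049302735) (nat_lit 836) (nat_lit 10533727675) (nat_lit 76) (nat_lit 331916644) (nat_lit 324) (nat_lit 5) (nat_lit 335) (nat_lit 5) (nat_lit 325) (nat_lit 5) (nat_lit 460) (nat_lit 419) (nat_lit 261)) (XT.lf (nat_lit 0) (nat_lit 5126912368) (nat_lit 836) (nat_lit 2912402792) (nat_lit 76) (nat_lit 6027536533) (nat_lit 324) (nat_lit 5) (nat_lit 335) (nat_lit 5) (nat_lit 325) (nat_lit 5) (nat_lit 461) (nat_lit 419) (nat_lit 260))) (XT.nd (nat_lit 78) (nat_lit 760)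 (nat_lit 0) (XT.lf (nat_lit 0) (nat_lit 4914426895) (nat_lit 760) (nat_lit 2352928886) (nat_lit 836) (nat_lit 6954015665) (nat_lit 314) (nat_lit 5) (nat_lit 324) (nat_lit 5) (nat_lit 325) (nat_lit 5) (nat_lit 462) (nat_lit 419) (nat_lit 259)) (XT.nd (nat_lit 78) (nat_lit 760) (nat_lit 0) (XT.lf (nat_lit 0) (nat_lit 9482166261) (nat_lit 836) (nat_lit 1475337614) (nat_lit 76) (nat_lit 3420849156) (nat_lit 314) (nat_lit 5) (nat_lit 325) (nat_lit 5) (nat_lit 315) (nat_lit 5) (nat_lit 463) (nat_lit 419) (nat_lit 258)) (XT.lf (nat_lit 0) (nat_lit 6572233194) (nat_lit 760) (nat_lit 5217002774) (nat_lit 836) (nat_lit 2748281568) (nat_lit 304) (nat_lit 5) (nat_lit 314) (nat_lit 5) (nat_lit 315) (nat_lit 5) (nat_lit 464) (nat_lit 419) (nat_lit 257))))) (XT.nd (nat_lit 234) (nat_lit 684) (nat_lit 0) (XT.nd (nat_lit 78) (nat_lit 760) (nat_lit 0) (XT.lf (nat_lit 0) (nat_lit 86605955) (nat_lit 684) (nat_lit 14060345224) (nat_lit 760) (nat_lit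 552826570) (nat_lit 295) (nat_lit 5) (nat_lit 304) (nat_lit 5) (nat_lit 305) (nat_lit 5) (nat_lit 465) (nat_lit 419) (nat_lit 256)) (XT.nd (nat_lit 78) (nat_lit 684) (nat_lit 0) (XT.lf (nat_lit 0) (nat_lit 1742661712) (nat_lit 760) (nat_lit 6514030772) (nat_lit 76) (nat_lit 6606809213) (nat_lit 294) (nat_lit 5) (nat_lit 304) (nat_lit 5) (nat_lit 295) (nat_lit 5) (nat_lit 466) (nat_lit 419) (nat_lit 255)) (XT.lf (nat_lit 0) (nat_lit 1755208281) (nat_lit 684) (nat_lit 2322938801) (nat_lit 760) (nat_lit 10952252521) (nat_lit 285) (nat_lit 5) (nat_lit 294) (nat_lit 5) (nat_lit 295) (nat_lit 5) (nat_lit 467) (nat_lit 419) (nat_lit 254)))) (XT.nd (nat_lit 78) (nat_lit 684) (nat_lit 0) (XT.lf (nat_lit 0) (nat_lit 6518758228) (nat_lit 760) (nat_lit 4957492282) (nat_lit 76) (nat_lit 3723218946) (nat_lit 285) (nat_lit 5) (nat_lit 295) (nat_lit 5) (nat_lit 286) (nat_lit 5) (nat_lit 468) (nat_lit 419) (nat_lit 253)) (XT.nd (nat_lit 78)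 (nat_lit 0) (nat_lit 0) (XT.lf (nat_lit 0) (nat_lit 3546554687) (nat_lit 684) (nat_lit 5490429040) (nat_lit 760) (nat_lit 6334363200) (nat_lit 276) (nat_lit 5) (nat_lit 285) (nat_lit 5) (nat_lit 286) (nat_lit 5) (nat_lit 469) (nat_lit 419) (nat_lit 252)) (XT.lf (nat_lit 0) (nat_lit 11633553340) (nat_lit 760) (nat_lit 3273572539) (nat_lit 76) (nat_lit 638978697) (nat_lit 276) (nat_lit 5) (nat_lit 286) (nat_lit 5) (nat_lit 277) (nat_lit 5) (nat_lit 470) (nat_lit 419) (nat_lit 251))))))) (XT.nd (nat_lit 858) (nat_lit 3648) (nat_lit 0) (XT.nd (nat_lit 390) (nat_lit 1824) (nat_lit 0) (XT.nd (nat_lit 156) (nat_lit 1216) (nat_lit 0) (XT.nd (nat_lit 78) (nat_lit 76) (nat_lit 0) (XT.lf (nat_lit 0) (nat_lit 5473067204) (nat_lit 684) (nat_lit 8871566901) (nat_lit 760) (nat_lit 1378473851) (nat_lit 267) (nat_lit 5) (nat_lit 276) (nat_lit 5) (nat_lit 277) (nat_lit 5) (nat_lit 471) (nat_lit 419) (nat_lit 250)) (XT.lf (nat_lit 0) (nat_lit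 1203310322) (nat_lit 760) (nat_lit 1483252536) (nat_lit 76) (nat_lit 13216677082) (nat_lit 266) (nat_lit 5) (nat_lit 276) (nat_lit 5) (nat_lit 267) (nat_lit 5) (nat_lit 472) (nat_lit 419) (nat_lit 249))) (XT.nd (nat_lit 78) (nat_lit 608) (nat_lit 0) (XT.lf (nat_lit 0) (nat_lit 3882034793) (nat_lit 684) (nat_lit 8572145688) (nat_lit 76) (nat_lit 3631338649) (nat_lit 258) (nat_lit 5) (nat_lit 267) (nat_lit 5) (nat_lit 259) (nat_lit 5) (nat_lit 473) (nat_lit 419) (nat_lit 248)) (XT.nd (nat_lit 78) (nat_lit 0) (nat_lit 0) (XT.lf (nat_lit 0) (nat_lit 415425608) (nat_lit 608) (nat_lit 6220427552) (nat_lit 684) (nat_lit 9635162368) (nat_lit 250) (nat_lit 5) (nat_lit 258) (nat_lit 5) (nat_lit 259) (nat_lit 5) (nat_lit 474) (nat_lit 419) (nat_lit 247)) (XT.lf (nat_lit 0) (nat_lit 9494652079) (nat_lit 684) (nat_lit 6772454875) (nat_lit 76) (nat_lit 192118787) (nat_lit 250) (nat_lit 5) (nat_lit 259) (nat_lit 5) (nat_lit 251) (nat_lit 5)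 (nat_lit 475) (nat_lit 419) (nat_lit 246))))) (XT.nd (nat_lit 234) (nat_lit 532) (nat_lit 0) (XT.nd (nat_lit 78) (nat_lit 684) (nat_lit 0) (XT.lf (nat_lit 0) (nat_lit 2472742592) (nat_lit 608) (nat_lit 9986412024) (nat_lit 684) (nat_lit 4191076922) (nat_lit 242) (nat_lit 5) (nat_lit 250) (nat_lit 5) (nat_lit 251) (nat_lit 5) (nat_lit 476) (nat_lit 419) (nat_lit 245)) (XT.nd (nat_lit 78) (nat_lit 684) (nat_lit 0) (XT.lf (nat_lit 0) (nat_lit 11983881850) (nat_lit 608) (nat_lit 3535891290) (nat_lit 684) (nat_lit 1324549686) (nat_lit 242) (nat_lit 5) (nat_lit 250) (nat_lit 5) (nat_lit 251) (nat_lit 5) (nat_lit 477) (nat_lit 419) (nat_lit 244)) (XT.lf (nat_lit 0) (nat_lit 1620247969) (nat_lit 684) (nat_lit 12378351247) (nat_lit 76) (nat_lit 3042652567) (nat_lit 233) (nat_lit 5) (nat_lit 242) (nat_lit 5) (nat_lit 234) (nat_lit 5) (nat_lit 478) (nat_lit 419) (nat_lit 243)))) (XT.nd (nat_lit 78) (nat_lit 532) (nat_lit 0) (XT.lf (nat_lit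 0) (nat_lit 4654045328) (nat_lit 684) (nat_lit 2842031951) (nat_lit 76) (nat_lit 9744911931) (nat_lit 233) (nat_lit 5) (nat_lit 242) (nat_lit 5) (nat_lit 234) (nat_lit 5) (nat_lit 479) (nat_lit 419) (nat_lit 242)) (XT.nd (nat_lit 78) (nat_lit 0) (nat_lit 0) (XT.lf (nat_lit 0) (nat_lit 6965828651) (nat_lit 532) (nat_lit 819656250) (nat_lit 608) (nat_lit 9658498910) (nat_lit 226) (nat_lit 5) (nat_lit 233) (nat_lit 5) (nat_lit 234) (nat_lit 5) (nat_lit 480) (nat_lit 419) (nat_lit 241)) (XT.lf (nat_lit 0) (nat_lit 11029462526) (nat_lit 608) (nat_lit 691929054) (nat_lit 76) (nat_lit 5928650254) (nat_lit 226) (nat_lit 5) (nat_lit 234) (nat_lit 5) (nat_lit 227) (nat_lit 5) (nat_lit 481) (nat_lit 419) (nat_lit 240)))))) (XT.nd (nat_lit 468) (nat_lit 1520) (nat_lit 0) (XT.nd (nat_lit 234) (nat_lit 988) (nat_lit 0) (XT.nd (nat_lit 78) (nat_lit 608) (nat_lit 0) (XT.lf (nat_lit 0) (nat_lit 9397426762) (nat_lit 532) (nat_lit 4999314352)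 (nat_lit 608) (nat_lit 3462313157) (nat_lit 219) (nat_lit 5) (nat_lit 226) (nat_lit 5) (nat_lit 227) (nat_lit 5) (nat_lit 482) (nat_lit 419) (nat_lit 239)) (XT.nd (nat_lit 78) (nat_lit 76) (nat_lit 0) (XT.lf (nat_lit 0) (nat_lit 1624520176) (nat_lit 532) (nat_lit 16226178027) (nat_lit 608) (nat_lit 221163745) (nat_lit 212) (nat_lit 5) (nat_lit 219) (nat_lit 5) (nat_lit 220) (nat_lit 5) (nat_lit 483) (nat_lit 419) (nat_lit 238)) (XT.lf (nat_lit 0) (nat_lit 3126704703) (nat_lit 608) (nat_lit 6324741779) (nat_lit 76) (nat_lit 8835433232) (nat_lit 211) (nat_lit 5) (nat_lit 219) (nat_lit 5) (nat_lit 212) (nat_lit 5) (nat_lit 484) (nat_lit 419) (nat_lit 237)))) (XT.nd (nat_lit 78) (nat_lit 456) (nat_lit 0) (XT.lf (nat_lit 0) (nat_lit 4041528042) (nat_lit 532) (nat_lit 2515527100) (nat_lit 608) (nat_lit 11948745289) (nat_lit 204) (nat_lit 5) (nat_lit 211) (nat_lit 5) (nat_lit 212) (nat_lit 5) (nat_lit 485) (nat_lit 419) (nat_lit 236))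 (XT.nd (nat_lit 78) (nat_lit 456) (nat_lit 0) (XT.lf (nat_lit 0) (nat_lit 10120648480) (nat_lit 608) (nat_lit 4067668909) (nat_lit 76) (nat_lit 4539490979) (nat_lit 204) (nat_lit 5) (nat_lit 212) (nat_lit 5) (nat_lit 205) (nat_lit 5) (nat_lit 486) (nat_lit 419) (nat_lit 235)) (XT.lf (nat_lit 0) (nat_lit 6596532877) (nat_lit 456) (nat_lit 7210931443) (nat_lit 532) (nat_lit 5145754625) (nat_lit 198) (nat_lit 5) (nat_lit 204) (nat_lit 5) (nat_lit 205) (nat_lit 5) (nat_lit 487) (nat_lit 419) (nat_lit 234))))) (XT.nd (nat_lit 234) (nat_lit 456) (nat_lit 0) (XT.nd (nat_lit 78) (nat_lit 1064) (nat_lit 0) (XT.lf (nat_lit 0) (nat_lit 17519034698) (nat_lit 456) (nat_lit 68822502) (nat_lit 532) (nat_lit 1594885184) (nat_lit 198) (nat_lit 5) (nat_lit 204) (nat_lit 5) (nat_lit 205) (nat_lit 5) (nat_lit 488) (nat_lit 419) (nat_lit 233)) (XT.nd (nat_lit 78) (nat_lit 456) (nat_lit 0) (XT.lf (nat_lit 0) (nat_lit 2101039043) (nat_lit 608) (nat_lit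 10120377171) (nat_lit 76) (nat_lit 7193165835) (nat_lit 190) (nat_lit 5) (nat_lit 198) (nat_lit 5) (nat_lit 191) (nat_lit 5) (nat_lit 489) (nat_lit 419) (nat_lit 232)) (XT.lf (nat_lit 0) (nat_lit 832735380) (nat_lit 456) (nat_lit 5026614713) (nat_lit 532) (nat_lit 13791302473) (nat_lit 184) (nat_lit 5) (nat_lit 190) (nat_lit 5) (nat_lit 191) (nat_lit 5) (nat_lit 490) (nat_lit 419) (nat_lit 231)))) (XT.nd (nat_lit 78) (nat_lit 456) (nat_lit 0) (XT.lf (nat_lit 0) (nat_lit 9768964730) (nat_lit 532) (nat_lit 7773600880) (nat_lit 76) (nat_lit 2347357488) (nat_lit 184) (nat_lit 5) (nat_lit 191) (nat_lit 5) (nat_lit 185) (nat_lit 5) (nat_lit 491) (nat_lit 419) (nat_lit 230)) (XT.nd (nat_lit 78) (nat_lit 0) (nat_lit 0) (XT.lf (nat_lit 0) (nat_lit 3494190955) (nat_lit 456) (nat_lit 10311461028) (nat_lit 532) (nat_lit 6327350779) (nat_lit 178) (nat_lit 5) (nat_lit 184) (nat_lit 5) (nat_lit 185) (nat_lit 5) (nat_lit 492) (nat_lit 419)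 (nat_lit 229)) (XT.lf (nat_lit 0) (nat_lit 15082828388) (nat_lit 456) (nat_lit 2885389376) (nat_lit 532) (nat_lit 2411824659) (nat_lit 178) (nat_lit 5) (nat_lit 184) (nat_lit 5) (nat_lit 185) (nat_lit 5) (nat_lit 493) (nat_lit 419) (nat_lit 228))))))))
noncomputable def xc185 : XT := (XT.nd (nat_lit 54288) (nat_lit 0) (nat_lit 19684) (XT.nd (nat_lit 858) (nat_lit 760) (nat_lit 0) (XT.nd (nat_lit 390) (nat_lit 1368) (nat_lit 0) (XT.nd (nat_lit 156) (nat_lit 836) (nat_lit 0) (XT.nd (nat_lit 78) (nat_lit 0) (nat_lit 0) (XT.lf (nat_lit 0) (nat_lit 1626227587) (nat_lit 532) (nat_lit 14327666167) (nat_lit 76) (nat_lit 4676625664) (nat_lit 171) (nat_lit 5) (nat_lit 178) (nat_lit 5) (nat_lit 172) (nat_lit 5) (nat_lit 494) (nat_lit 419) (nat_lit 227)) (XT.lf (nat_lit 0) (nat_lit 5760792610) (nat_lit 532) (nat_lit 2723722698) (nat_lit 76) (nat_lit 12400212108) (nat_lit 171) (nat_lit 5) (nat_lit 178) (nat_lit 5) (nat_lit 172) (nat_lit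 5) (nat_lit 495) (nat_lit 419) (nat_lit 226))) (XT.nd (nat_lit 78) (nat_lit 380) (nat_lit 0) (XT.lf (nat_lit 0) (nat_lit 9223623629) (nat_lit 456) (nat_lit 807570822) (nat_lit 532) (nat_lit 11111763411) (nat_lit 165) (nat_lit 5) (nat_lit 171) (nat_lit 5) (nat_lit 172) (nat_lit 5) (nat_lit 496) (nat_lit 419) (nat_lit 225)) (XT.nd (nat_lit 78) (nat_lit 380) (nat_lit 0) (XT.lf (nat_lit 0) (nat_lit 14444311079) (nat_lit 532) (nat_lit 14565873) (nat_lit 76) (nat_lit 6946331010) (nat_lit 165) (nat_lit 5) (nat_lit 172) (nat_lit 5) (nat_lit 166) (nat_lit 5) (nat_lit 497) (nat_lit 419) (nat_lit 224)) (XT.lf (nat_lit 0) (nat_lit 12274423406) (nat_lit 380) (nat_lit 6749750327) (nat_lit 456) (nat_lit 2646960810) (nat_lit 160) (nat_lit 5) (nat_lit 165) (nat_lit 5) (nat_lit 166) (nat_lit 5) (nat_lit 498) (nat_lit 419) (nat_lit 223))))) (XT.nd (nat_lit 234) (nat_lit 456) (nat_lit 0) (XT.nd (nat_lit 78) (nat_lit 380) (nat_lit 0) (XT.lf (nat_lit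 0) (nat_lit 1749957995) (nat_lit 532) (nat_lit 19065399471) (nat_lit 76) (nat_lit 1126401669) (nat_lit 153) (nat_lit 5) (nat_lit 160) (nat_lit 5) (nat_lit 154) (nat_lit 5) (nat_lit 499) (nat_lit 419) (nat_lit 222)) (XT.nd (nat_lit 78) (nat_lit 380) (nat_lit 0) (XT.lf (nat_lit 0) (nat_lit 6301092480) (nat_lit 532) (nat_lit 6766496997) (nat_lit 76) (nat_lit 9147823501) (nat_lit 153) (nat_lit 5) (nat_lit 160) (nat_lit 5) (nat_lit 154) (nat_lit 5) (nat_lit 500) (nat_lit 419) (nat_lit 221)) (XT.lf (nat_lit 0) (nat_lit 5845657015) (nat_lit 380) (nat_lit 5129185906) (nat_lit 456) (nat_lit 11519066178) (nat_lit 148) (nat_lit 5) (nat_lit 153) (nat_lit 5) (nat_lit 154) (nat_lit 5) (nat_lit 501) (nat_lit 419) (nat_lit 220)))) (XT.nd (nat_lit 78) (nat_lit 456) (nat_lit 0) (XT.lf (nat_lit 0) (nat_lit 15800729775) (nat_lit 456) (nat_lit 4004300915) (nat_lit 76) (nat_lit 2971772269) (nat_lit 148) (nat_lit 5) (nat_lit 154) (nat_lit 5) (nat_lit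 149) (nat_lit 5) (nat_lit 502) (nat_lit 419) (nat_lit 219)) (XT.nd (nat_lit 78) (nat_lit 76) (nat_lit 0) (XT.lf (nat_lit 0) (nat_lit 8966910046) (nat_lit 380) (nat_lit 11842219223) (nat_lit 456) (nat_lit 2254506556) (nat_lit 143) (nat_lit 5) (nat_lit 148) (nat_lit 5) (nat_lit 149) (nat_lit 5) (nat_lit 503) (nat_lit 419) (nat_lit 218)) (XT.lf (nat_lit 0) (nat_lit 2548773699) (nat_lit 456) (nat_lit 1129928085) (nat_lit 76) (nat_lit 19676754396) (nat_lit 142) (nat_lit 5) (nat_lit 148) (nat_lit 5) (nat_lit 143) (nat_lit 5) (nat_lit 504) (nat_lit 419) (nat_lit 217)))))) (XT.nd (nat_lit 52962) (nat_lit 0) (nat_lit 26372) (XT.nd (nat_lit 52728) (nat_lit 0) (nat_lit 27892) (XT.nd (nat_lit 78) (nat_lit 380) (nat_lit 0) (XT.lf (nat_lit 0) (nat_lit 7522114555) (nat_lit 456) (nat_lit 11449517445) (nat_lit 76) (nat_lit 4679100207) (nat_lit 137) (nat_lit 5) (nat_lit 143) (nat_lit 5) (nat_lit 138) (nat_lit 5) (nat_lit 505) (nat_lit 419) (nat_lit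 216)) (XT.lf (nat_lit 0) (nat_lit 1853293445) (nat_lit 380) (nat_lit 10779645540) (nat_lit 456) (nat_lit 11318215381) (nat_lit 132) (nat_lit 5) (nat_lit 137) (nat_lit 5) (nat_lit 138) (nat_lit 5) (nat_lit 506) (nat_lit 419) (nat_lit 215))) (XT.nd (nat_lit 78) (nat_lit 0) (nat_lit 0) (XT.lf (nat_lit 0) (nat_lit 3896463754) (nat_lit 1596) (nat_lit 434025514) (nat_lit 1596) (nat_lit 434025514) (nat_lit 499) (nat_lit 3) (nat_lit 520) (nat_lit 3) (nat_lit 520) (nat_lit 5) (nat_lit 420) (nat_lit 420) (nat_lit 300)) (XT.nd (nat_lit 78) (nat_lit 0) (nat_lit 0) (XT.lf (nat_lit 76) (nat_lit 3786052988) (nat_lit 0) (nat_lit 4883798718) (nat_lit 1596) (nat_lit 938246553) (nat_lit 500) (nat_lit 5) (nat_lit 499) (nat_lit 3) (nat_lit 520) (nat_lit 5) (nat_lit 421) (nat_lit 420) (nat_lit 299)) (XT.lf (nat_lit 76) (nat_lit 8534505157) (nat_lit 0) (nat_lit 1015252992) (nat_lit 1596) (nat_lit 139287643) (nat_lit 500) (nat_lit 5) (nat_lit 499)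 (nat_lit 3) (nat_lit 520) (nat_lit 5) (nat_lit 422) (nat_lit 420) (nat_lit 298))))) (XT.nd (nat_lit 234) (nat_lit 0) (nat_lit 76) (XT.nd (nat_lit 78) (nat_lit 0) (nat_lit 0) (XT.lf (nat_lit 0) (nat_lit 689571738) (nat_lit 1596) (nat_lit 6151649423) (nat_lit 1672) (nat_lit 2929853820) (nat_lit 479) (nat_lit 5) (nat_lit 500) (nat_lit 5) (nat_lit 501) (nat_lit 5) (nat_lit 423) (nat_lit 420) (nat_lit 297)) (XT.nd (nat_lit 78) (nat_lit 0) (nat_lit 76) (XT.lf (nat_lit 0) (nat_lit 1527933955) (nat_lit 1596) (nat_lit 1368726744) (nat_lit 1672) (nat_lit 6958175802) (nat_lit 479) (nat_lit 5) (nat_lit 500) (nat_lit 5) (nat_lit 501) (nat_lit 5) (nat_lit 424) (nat_lit 420) (nat_lit 296)) (XT.lf (nat_lit 0) (nat_lit 2394261516) (nat_lit 1596) (nat_lit 6402120032) (nat_lit 1672) (nat_lit 1143673598) (nat_lit 480) (nat_lit 5) (nat_lit 501) (nat_lit 5) (nat_lit 502) (nat_lit 5) (nat_lit 425) (nat_lit 420) (nat_lit 295)))) (XT.nd (nat_lit 78)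 (nat_lit 0) (nat_lit 0) (XT.lf (nat_lit 0) (nat_lit 3287362318) (nat_lit 1596) (nat_lit 1495870806) (nat_lit 1672) (nat_lit 5243561850) (nat_lit 480) (nat_lit 5) (nat_lit 501) (nat_lit 5) (nat_lit 502) (nat_lit 5) (nat_lit 426) (nat_lit 420) (nat_lit 294)) (XT.nd (nat_lit 78) (nat_lit 0) (nat_lit 76) (XT.lf (nat_lit 76) (nat_lit 3544086708) (nat_lit 0) (nat_lit 658638990) (nat_lit 1672) (nat_lit 5912461517) (nat_lit 481) (nat_lit 5) (nat_lit 480) (nat_lit 5) (nat_lit 502) (nat_lit 5) (nat_lit 427) (nat_lit 420) (nat_lit 293)) (XT.lf (nat_lit 0) (nat_lit 5151273012) (nat_lit 1596) (nat_lit 1534378378) (nat_lit 1672) (nat_lit 3519403897) (nat_lit 481) (nat_lit 5) (nat_lit 502) (nat_lit 5) (nat_lit 503) (nat_lit 5) (nat_lit 428) (nat_lit 420) (nat_lit 292))))))) (XT.nd (nat_lit 858) (nat_lit 5320) (nat_lit 0) (XT.nd (nat_lit 390) (nat_lit 1520) (nat_lit 0) (XT.nd (nat_lit 156) (nat_lit 0) (nat_lit 76) (XT.nd (nat_lit 78) (nat_lit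 0) (nat_lit 76) (XT.lf (nat_lit 76) (nat_lit 3635368599) (nat_lit 0) (nat_lit 2493479153) (nat_lit 1672) (nat_lit 4167677252) (nat_lit 482) (nat_lit 5) (nat_lit 481) (nat_lit 5) (nat_lit 503) (nat_lit 5) (nat_lit 429) (nat_lit 420) (nat_lit 291)) (XT.lf (nat_lit 0) (nat_lit 7130326846) (nat_lit 1596) (nat_lit 1483305295) (nat_lit 1672) (nat_lit 1776110220) (nat_lit 482) (nat_lit 5) (nat_lit 503) (nat_lit 5) (nat_lit 504) (nat_lit 5) (nat_lit 430) (nat_lit 420) (nat_lit 290))) (XT.nd (nat_lit 78) (nat_lit 0) (nat_lit 76) (XT.lf (nat_lit 76) (nat_lit 3820564839) (nat_lit 0) (nat_lit 4355349014) (nat_lit 1672) (nat_lit 2308433848) (nat_lit 483) (nat_lit 5) (nat_lit 482) (nat_lit 5) (nat_lit 504) (nat_lit 5) (nat_lit 431) (nat_lit 420) (nat_lit 289)) (XT.nd (nat_lit 78) (nat_lit 0) (nat_lit 0) (XT.lf (nat_lit 0) (nat_lit 9235419247) (nat_lit 1596) (nat_lit 1341457791) (nat_lit 1672) (nat_lit 4113073) (nat_lit 483) (nat_lit 5) (nat_lit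 504) (nat_lit 5) (nat_lit 505) (nat_lit 5) (nat_lit 432) (nat_lit 420) (nat_lit 288)) (XT.lf (nat_lit 76) (nat_lit 4101038586) (nat_lit 0) (nat_lit 6253942504) (nat_lit 1672) (nat_lit 323811955) (nat_lit 484) (nat_lit 5) (nat_lit 483) (nat_lit 5) (nat_lit 505) (nat_lit 5) (nat_lit 433) (nat_lit 420) (nat_lit 287))))) (XT.nd (nat_lit 234) (nat_lit 0) (nat_lit 152) (XT.nd (nat_lit 78) (nat_lit 0) (nat_lit 76) (XT.lf (nat_lit 0) (nat_lit 701558323) (nat_lit 1672) (nat_lit 1123894599) (nat_lit 1748) (nat_lit 8953158677) (nat_lit 461) (nat_lit 5) (nat_lit 483) (nat_lit 5) (nat_lit 484) (nat_lit 5) (nat_lit 434) (nat_lit 420) (nat_lit 286)) (XT.nd (nat_lit 78) (nat_lit 0) (nat_lit 0) (XT.lf (nat_lit 0) (nat_lit 1773795392) (nat_lit 1672) (nat_lit 6413274632) (nat_lit 1748) (nat_lit 2692704498) (nat_lit 462) (nat_lit 5) (nat_lit 484) (nat_lit 5) (nat_lit 485) (nat_lit 5) (nat_lit 435) (nat_lit 420) (nat_lit 285)) (XT.lf (nat_lit 0)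 (nat_lit 2871293310) (nat_lit 1672) (nat_lit 822437082) (nat_lit 1748) (nat_lit 7289158608) (nat_lit 462) (nat_lit 5) (nat_lit 484) (nat_lit 5) (nat_lit 485) (nat_lit 5) (nat_lit 436) (nat_lit 420) (nat_lit 284)))) (XT.nd (nat_lit 78) (nat_lit 0) (nat_lit 0) (XT.lf (nat_lit 0) (nat_lit 4013235874) (nat_lit 1672) (nat_lit 6160033412) (nat_lit 1748) (nat_lit 914351115) (nat_lit 463) (nat_lit 5) (nat_lit 485) (nat_lit 5) (nat_lit 486) (nat_lit 5) (nat_lit 437) (nat_lit 420) (nat_lit 283)) (XT.nd (nat_lit 78) (nat_lit 0) (nat_lit 0) (XT.lf (nat_lit 0) (nat_lit 5192740793) (nat_lit 1672) (nat_lit 426540006) (nat_lit 1748) (nat_lit 5574875600) (nat_lit 463) (nat_lit 5) (nat_lit 485) (nat_lit 5) (nat_lit 486) (nat_lit 5) (nat_lit 438) (nat_lit 420) (nat_lit 282)) (XT.lf (nat_lit 76) (nat_lit 5482283709) (nat_lit 0) (nat_lit 934152779) (nat_lit 1748) (nat_lit 4885978968) (nat_lit 464) (nat_lit 5) (nat_lit 463) (nat_lit 5) (nat_lit 486)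 (nat_lit 5) (nat_lit 439) (nat_lit 420) (nat_lit 281)))))) (XT.nd (nat_lit 468) (nat_lit 3876) (nat_lit 0) (XT.nd (nat_lit 234) (nat_lit 1672) (nat_lit 0) (XT.nd (nat_lit 78) (nat_lit 0) (nat_lit 0) (XT.lf (nat_lit 76) (nat_lit 66686899) (nat_lit 0) (nat_lit 7611446600) (nat_lit 1748) (nat_lit 3734439913) (nat_lit 465) (nat_lit 5) (nat_lit 464) (nat_lit 5) (nat_lit 487) (nat_lit 5) (nat_lit 440) (nat_lit 420) (nat_lit 280)) (XT.nd (nat_lit 78) (nat_lit 0) (nat_lit 76) (XT.lf (nat_lit 76) (nat_lit 6132452402) (nat_lit 0) (nat_lit 2863279989) (nat_lit 1748) (nat_lit 2528592961) (nat_lit 465) (nat_lit 5) (nat_lit 464) (nat_lit 5) (nat_lit 487) (nat_lit 5) (nat_lit 441) (nat_lit 420) (nat_lit 279)) (XT.lf (nat_lit 76) (nat_lit 665596393) (nat_lit 0) (nat_lit 9677033748) (nat_lit 1748) (nat_lit 1295627353) (nat_lit 466) (nat_lit 5) (nat_lit 465) (nat_lit 5) (nat_lit 488) (nat_lit 5) (nat_lit 442) (nat_lit 420) (nat_lit 278)))) (XT.nd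 (nat_lit 78) (nat_lit 0) (nat_lit 76) (XT.lf (nat_lit 0) (nat_lit 3758895) (nat_lit 1748) (nat_lit 4867011608) (nat_lit 1824) (nat_lit 6882881394) (nat_lit 442) (nat_lit 5) (nat_lit 465) (nat_lit 5) (nat_lit 466) (nat_lit 5) (nat_lit 443) (nat_lit 420) (nat_lit 277)) (XT.nd (nat_lit 78) (nat_lit 0) (nat_lit 0) (XT.lf (nat_lit 0) (nat_lit 1307113811) (nat_lit 1748) (nat_lit 10513022132) (nat_lit 76) (nat_lit 51144239) (nat_lit 443) (nat_lit 5) (nat_lit 466) (nat_lit 5) (nat_lit 444) (nat_lit 5) (nat_lit 444) (nat_lit 420) (nat_lit 276)) (XT.lf (nat_lit 0) (nat_lit 2688038005) (nat_lit 1748) (nat_lit 4260678704) (nat_lit 76) (nat_lit 5041518068) (nat_lit 443) (nat_lit 5) (nat_lit 466) (nat_lit 5) (nat_lit 444) (nat_lit 5) (nat_lit 445) (nat_lit 420) (nat_lit 275))))) (XT.nd (nat_lit 234) (nat_lit 912) (nat_lit 0) (XT.nd (nat_lit 78) (nat_lit 1292) (nat_lit 0) (XT.lf (nat_lit 0) (nat_lit 2133313368) (nat_lit 1748) (nat_lit 1963754394)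 (nat_lit 1824) (nat_lit 8014494676) (nat_lit 420) (nat_lit 5) (nat_lit 443) (nat_lit 5) (nat_lit 444) (nat_lit 5) (nat_lit 446) (nat_lit 420) (nat_lit 274)) (XT.nd (nat_lit 78) (nat_lit 1292) (nat_lit 0) (XT.lf (nat_lit 0) (nat_lit 5570158868) (nat_lit 1824) (nat_lit 3553838734) (nat_lit 76) (nat_lit 3110605077) (nat_lit 420) (nat_lit 5) (nat_lit 444) (nat_lit 5) (nat_lit 421) (nat_lit 5) (nat_lit 447) (nat_lit 420) (nat_lit 273)) (XT.lf (nat_lit 0) (nat_lit 3014232637) (nat_lit 1292) (nat_lit 4078149659) (nat_lit 1368) (nat_lit 5267331589) (nat_lit 403) (nat_lit 5) (nat_lit 420) (nat_lit 5) (nat_lit 421) (nat_lit 5) (nat_lit 448) (nat_lit 420) (nat_lit 272)))) (XT.nd (nat_lit 78) (nat_lit 912) (nat_lit 0) (XT.lf (nat_lit 0) (nat_lit 8663278708) (nat_lit 1368) (nat_lit 2743654856) (nat_lit 76) (nat_lit 1080032679) (nat_lit 403) (nat_lit 5) (nat_lit 421) (nat_lit 5) (nat_lit 404) (nat_lit 5) (nat_lit 449) (nat_lit 420) (nat_lit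 271)) (XT.nd (nat_lit 78) (nat_lit 0) (nat_lit 0) (XT.lf (nat_lit 0) (nat_lit 4004398198) (nat_lit 912) (nat_lit 6301735294) (nat_lit 988) (nat_lit 2309822780) (nat_lit 391) (nat_lit 5) (nat_lit 403) (nat_lit 5) (nat_lit 404) (nat_lit 5) (nat_lit 450) (nat_lit 420) (nat_lit 270)) (XT.lf (nat_lit 0) (nat_lit 10913357103) (nat_lit 912) (nat_lit 1074604680) (nat_lit 988) (nat_lit 759445355) (nat_lit 391) (nat_lit 5) (nat_lit 403) (nat_lit 5) (nat_lit 404) (nat_lit 5) (nat_lit 451) (nat_lit 420) (nat_lit 269))))))))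
noncomputable def xc186 : XT := (XT.nd (nat_lit 1716) (nat_lit 7220) (nat_lit 0) (XT.nd (nat_lit 858) (nat_lit 4408) (nat_lit 0) (XT.nd (nat_lit 390) (nat_lit 2432) (nat_lit 0) (XT.nd (nat_lit 156) (nat_lit 1748) (nat_lit 0) (XT.nd (nat_lit 78) (nat_lit 0) (nat_lit 0) (XT.lf (nat_lit 0) (nat_lit 860230338) (nat_lit 912) (nat_lit 7779102805) (nat_lit 76) (nat_lit 4241068968) (nat_lit 379) (nat_lit 5) (nat_lit 391) (nat_lit 5) (nat_lit 380) (nat_lit 5) (nat_lit 452) (nat_lit 420) (nat_lit 268)) (XT.lf (nat_lit 0) (nat_lit 2509680003) (nat_lit 912) (nat_lit 839186413) (nat_lit 76) (nat_lit 9666942350) (nat_lit 379) (nat_lit 5) (nat_lit 391) (nat_lit 5) (nat_lit 380) (nat_lit 5) (nat_lit 453) (nat_lit 420) (nat_lit 267))) (XT.nd (nat_lit 78) (nat_lit 836) (nat_lit 0) (XT.lf (nat_lit 0) (nat_lit 4234932230) (nat_lit 988) (nat_lit 6855751680) (nat_lit 76) (nat_lit 2062386481) (nat_lit 367) (nat_lit 5) (nat_lit 380) (nat_lit 5) (nat_lit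 368) (nat_lit 5) (nat_lit 454) (nat_lit 420) (nat_lit 266)) (XT.nd (nat_lit 78) (nat_lit 0) (nat_lit 0) (XT.lf (nat_lit 0) (nat_lit 264917584) (nat_lit 836) (nat_lit 5747768976) (nat_lit 912) (nat_lit 7280033794) (nat_lit 356) (nat_lit 5) (nat_lit 367) (nat_lit 5) (nat_lit 368) (nat_lit 5) (nat_lit 455) (nat_lit 420) (nat_lit 265)) (XT.lf (nat_lit 0) (nat_lit 7609699787) (nat_lit 836) (nat_lit 250886260) (nat_lit 912) (nat_lit 5573888456) (nat_lit 356) (nat_lit 5) (nat_lit 367) (nat_lit 5) (nat_lit 368) (nat_lit 5) (nat_lit 456) (nat_lit 420) (nat_lit 264))))) (XT.nd (nat_lit 234) (nat_lit 836) (nat_lit 0) (XT.nd (nat_lit 78) (nat_lit 760) (nat_lit 0) (XT.lf (nat_lit 0) (nat_lit 1495919206) (nat_lit 836) (nat_lit 8282820468) (nat_lit 912) (nat_lit 3799661067) (nat_lit 345) (nat_lit 5) (nat_lit 356) (nat_lit 5) (nat_lit 357) (nat_lit 5) (nat_lit 457) (nat_lit 420) (nat_lit 263)) (XT.nd (nat_lit 78) (nat_lit 760) (nat_lit 0) (XT.lf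 (nat_lit 0) (nat_lit 9029134062) (nat_lit 836) (nat_lit 2735816482) (nat_lit 912) (nat_lit 1959663945) (nat_lit 345) (nat_lit 5) (nat_lit 356) (nat_lit 5) (nat_lit 357) (nat_lit 5) (nat_lit 458) (nat_lit 420) (nat_lit 262)) (XT.lf (nat_lit 0) (nat_lit 2846454709) (nat_lit 760) (nat_lit 10971056455) (nat_lit 836) (nat_lit 55711655) (nat_lit 335) (nat_lit 5) (nat_lit 345) (nat_lit 5) (nat_lit 346) (nat_lit 5) (nat_lit 459) (nat_lit 420) (nat_lit 261)))) (XT.nd (nat_lit 78) (nat_lit 760) (nat_lit 0) (XT.lf (nat_lit 0) (nat_lit 1900654924) (nat_lit 836) (nat_lit 3463107632) (nat_lit 76) (nat_lit 8660017026) (nat_lit 334) (nat_lit 5) (nat_lit 345) (nat_lit 5) (nat_lit 335) (nat_lit 5) (nat_lit 460) (nat_lit 420) (nat_lit 260)) (XT.nd (nat_lit 78) (nat_lit 0) (nat_lit 0) (XT.lf (nat_lit 0) (nat_lit 3915244504) (nat_lit 836) (nat_lit 9882696224) (nat_lit 76) (nat_lit 379005208) (nat_lit 324) (nat_lit 5) (nat_lit 335) (nat_lit 5) (nat_lit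 325) (nat_lit 5) (nat_lit 461) (nat_lit 420) (nat_lit 259)) (XT.lf (nat_lit 0) (nat_lit 6018622884) (nat_lit 836) (nat_lit 2125841040) (nat_lit 76) (nat_lit 6187744353) (nat_lit 324) (nat_lit 5) (nat_lit 335) (nat_lit 5) (nat_lit 325) (nat_lit 5) (nat_lit 462) (nat_lit 420) (nat_lit 258)))))) (XT.nd (nat_lit 390) (nat_lit 2128) (nat_lit 0) (XT.nd (nat_lit 156) (nat_lit 1520) (nat_lit 0) (XT.nd (nat_lit 78) (nat_lit 0) (nat_lit 0) (XT.lf (nat_lit 0) (nat_lit 5851967282) (nat_lit 760) (nat_lit 2339882898) (nat_lit 836) (nat_lit 6298172608) (nat_lit 314) (nat_lit 5) (nat_lit 324) (nat_lit 5) (nat_lit 325) (nat_lit 5) (nat_lit 463) (nat_lit 420) (nat_lit 257)) (XT.lf (nat_lit 0) (nat_lit 10436062057) (nat_lit 836) (nat_lit 666964271) (nat_lit 76) (nat_lit 3547419359) (nat_lit 314) (nat_lit 5) (nat_lit 325) (nat_lit 5) (nat_lit 315) (nat_lit 5) (nat_lit 464) (nat_lit 420) (nat_lit 256))) (XT.nd (nat_lit 78) (nat_lit 760) (nat_lit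 0) (XT.lf (nat_lit 0) (nat_lit 7536045584) (nat_lit 760) (nat_lit 5243646516) (nat_lit 836) (nat_lit 2033296716) (nat_lit 304) (nat_lit 5) (nat_lit 314) (nat_lit 5) (nat_lit 315) (nat_lit 5) (nat_lit 465) (nat_lit 420) (nat_lit 255)) (XT.nd (nat_lit 78) (nat_lit 0) (nat_lit 0) (XT.lf (nat_lit 0) (nat_lit 194463752) (nat_lit 760) (nat_lit 14050046908) (nat_lit 76) (nat_lit 734138404) (nat_lit 294) (nat_lit 5) (nat_lit 304) (nat_lit 5) (nat_lit 295) (nat_lit 5) (nat_lit 466) (nat_lit 420) (nat_lit 254)) (XT.lf (nat_lit 0) (nat_lit 2513741835) (nat_lit 760) (nat_lit 5809284703) (nat_lit 76) (nat_lit 6822845721) (nat_lit 294) (nat_lit 5) (nat_lit 304) (nat_lit 5) (nat_lit 295) (nat_lit 5) (nat_lit 467) (nat_lit 420) (nat_lit 253))))) (XT.nd (nat_lit 234) (nat_lit 760) (nat_lit 0) (XT.nd (nat_lit 78) (nat_lit 684) (nat_lit 0) (XT.lf (nat_lit 0) (nat_lit 2619845535) (nat_lit 684) (nat_lit 2267041435) (nat_lit 760) (nat_lit 10429405582)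 (nat_lit 285) (nat_lit 5) (nat_lit 294) (nat_lit 5) (nat_lit 295) (nat_lit 5) (nat_lit 468) (nat_lit 420) (nat_lit 252)) (XT.nd (nat_lit 78) (nat_lit 684) (nat_lit 0) (XT.lf (nat_lit 0) (nat_lit 7362703501) (nat_lit 760) (nat_lit 4229599414) (nat_lit 76) (nat_lit 3896716387) (nat_lit 285) (nat_lit 5) (nat_lit 295) (nat_lit 5) (nat_lit 286) (nat_lit 5) (nat_lit 469) (nat_lit 420) (nat_lit 251)) (XT.lf (nat_lit 0) (nat_lit 4439087424) (nat_lit 684) (nat_lit 5483548897) (nat_lit 760) (nat_lit 5741874441) (nat_lit 276) (nat_lit 5) (nat_lit 285) (nat_lit 5) (nat_lit 286) (nat_lit 5) (nat_lit 470) (nat_lit 420) (nat_lit 250)))) (XT.nd (nat_lit 78) (nat_lit 760) (nat_lit 0) (XT.lf (nat_lit 0) (nat_lit 12558058270) (nat_lit 760) (nat_lit 2520311513) (nat_lit 76) (nat_lit 764658594) (nat_lit 276) (nat_lit 5) (nat_lit 286) (nat_lit 5) (nat_lit 277) (nat_lit 5) (nat_lit 471) (nat_lit 420) (nat_lit 249)) (XT.nd (nat_lit 78) (nat_lit 76)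 (nat_lit 0) (XT.lf (nat_lit 0) (nat_lit 6395874626) (nat_lit 684) (nat_lit 8919201437) (nat_lit 760) (nat_lit 708664624) (nat_lit 267) (nat_lit 5) (nat_lit 276) (nat_lit 5) (nat_lit 277) (nat_lit 5) (nat_lit 472) (nat_lit 420) (nat_lit 248)) (XT.lf (nat_lit 0) (nat_lit 1902114232) (nat_lit 760) (nat_lit 706400270) (nat_lit 76) (nat_lit 13599143191) (nat_lit 266) (nat_lit 5) (nat_lit 276) (nat_lit 5) (nat_lit 267) (nat_lit 5) (nat_lit 473) (nat_lit 420) (nat_lit 247))))))) (XT.nd (nat_lit 858) (nat_lit 3040) (nat_lit 0) (XT.nd (nat_lit 390) (nat_lit 2356) (nat_lit 0) (XT.nd (nat_lit 156) (nat_lit 608) (nat_lit 0) (XT.nd (nat_lit 78) (nat_lit 608) (nat_lit 0) (XT.lf (nat_lit 0) (nat_lit 4627258311) (nat_lit 684) (nat_lit 7929767100) (nat_lit 76) (nat_lit 3836703141) (nat_lit 258) (nat_lit 5) (nat_lit 267) (nat_lit 5) (nat_lit 259) (nat_lit 5) (nat_lit 474) (nat_lit 420) (nat_lit 246)) (XT.lf (nat_lit 0) (nat_lit 1232201534) (nat_lit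 608) (nat_lit 6196110759) (nat_lit 684) (nat_lit 9154782327) (nat_lit 250) (nat_lit 5) (nat_lit 258) (nat_lit 5) (nat_lit 259) (nat_lit 5) (nat_lit 475) (nat_lit 420) (nat_lit 245))) (XT.nd (nat_lit 78) (nat_lit 608) (nat_lit 0) (XT.lf (nat_lit 0) (nat_lit 10332297761) (nat_lit 684) (nat_lit 6103155924) (nat_lit 76) (nat_lit 339858010) (nat_lit 250) (nat_lit 5) (nat_lit 259) (nat_lit 5) (nat_lit 251) (nat_lit 5) (nat_lit 476) (nat_lit 420) (nat_lit 244)) (XT.nd (nat_lit 78) (nat_lit 0) (nat_lit 0) (XT.lf (nat_lit 0) (nat_lit 3321651097) (nat_lit 608) (nat_lit 10026928803) (nat_lit 684) (nat_lit 3621710731) (nat_lit 242) (nat_lit 5) (nat_lit 250) (nat_lit 5) (nat_lit 251) (nat_lit 5) (nat_lit 477) (nat_lit 420) (nat_lit 243)) (XT.lf (nat_lit 0) (nat_lit 13007337578) (nat_lit 608) (nat_lit 3450519448) (nat_lit 684) (nat_lit 710660554) (nat_lit 242) (nat_lit 5) (nat_lit 250) (nat_lit 5) (nat_lit 251) (nat_lit 5) (nat_lit 478) (nat_lit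 420) (nat_lit 242))))) (XT.nd (nat_lit 234) (nat_lit 1140) (nat_lit 0) (XT.nd (nat_lit 78) (nat_lit 532) (nat_lit 0) (XT.lf (nat_lit 0) (nat_lit 2278407338) (nat_lit 684) (nat_lit 11827246656) (nat_lit 76) (nat_lit 3263775159) (nat_lit 233) (nat_lit 5) (nat_lit 242) (nat_lit 5) (nat_lit 234) (nat_lit 5) (nat_lit 479) (nat_lit 420) (nat_lit 241)) (XT.nd (nat_lit 78) (nat_lit 532) (nat_lit 0) (XT.lf (nat_lit 0) (nat_lit 5360610950) (nat_lit 684) (nat_lit 2115861201) (nat_lit 76) (nat_lit 10096937170) (nat_lit 233) (nat_lit 5) (nat_lit 242) (nat_lit 5) (nat_lit 234) (nat_lit 5) (nat_lit 480) (nat_lit 420) (nat_lit 240)) (XT.lf (nat_lit 0) (nat_lit 7883005222) (nat_lit 532) (nat_lit 664695363) (nat_lit 608) (nat_lit 9232905352) (nat_lit 226) (nat_lit 5) (nat_lit 233) (nat_lit 5) (nat_lit 234) (nat_lit 5) (nat_lit 481) (nat_lit 420) (nat_lit 239)))) (XT.nd (nat_lit 78) (nat_lit 608) (nat_lit 0) (XT.lf (nat_lit 0) (nat_lit 68667266)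 (nat_lit 532) (nat_lit 11777534786) (nat_lit 608) (nat_lit 6144792682) (nat_lit 219) (nat_lit 5) (nat_lit 226) (nat_lit 5) (nat_lit 227) (nat_lit 5) (nat_lit 482) (nat_lit 420) (nat_lit 238)) (XT.nd (nat_lit 78) (nat_lit 608) (nat_lit 0) (XT.lf (nat_lit 0) (nat_lit 10353820574) (nat_lit 532) (nat_lit 4919868581) (nat_lit 608) (nat_lit 2930643455) (nat_lit 219) (nat_lit 5) (nat_lit 226) (nat_lit 5) (nat_lit 227) (nat_lit 5) (nat_lit 483) (nat_lit 420) (nat_lit 237)) (XT.lf (nat_lit 0) (nat_lit 364986989) (nat_lit 608) (nat_lit 15992840296) (nat_lit 76) (nat_lit 2063631161) (nat_lit 211) (nat_lit 5) (nat_lit 219) (nat_lit 5) (nat_lit 212) (nat_lit 5) (nat_lit 484) (nat_lit 420) (nat_lit 236)))))) (XT.nd (nat_lit 468) (nat_lit 1444) (nat_lit 0) (XT.nd (nat_lit 234) (nat_lit 1064) (nat_lit 0) (XT.nd (nat_lit 78) (nat_lit 532) (nat_lit 0) (XT.lf (nat_lit 0) (nat_lit 3765332323) (nat_lit 608) (nat_lit 5684585975) (nat_lit 76) (nat_lit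 9191061722) (nat_lit 211) (nat_lit 5) (nat_lit 219) (nat_lit 5) (nat_lit 212) (nat_lit 5) (nat_lit 485) (nat_lit 420) (nat_lit 235)) (XT.nd (nat_lit 78) (nat_lit 0) (nat_lit 0) (XT.lf (nat_lit 0) (nat_lit 4883965488) (nat_lit 532) (nat_lit 2373973188) (nat_lit 608) (nat_lit 11606469761) (nat_lit 204) (nat_lit 5) (nat_lit 211) (nat_lit 5) (nat_lit 212) (nat_lit 5) (nat_lit 486) (nat_lit 420) (nat_lit 234)) (XT.lf (nat_lit 0) (nat_lit 10882853746) (nat_lit 608) (nat_lit 3392287800) (nat_lit 76) (nat_lit 4815916208) (nat_lit 204) (nat_lit 5) (nat_lit 212) (nat_lit 5) (nat_lit 205) (nat_lit 5) (nat_lit 487) (nat_lit 420) (nat_lit 233)))) (XT.nd (nat_lit 78) (nat_lit 608) (nat_lit 0) (XT.lf (nat_lit 0) (nat_lit 7480219505) (nat_lit 456) (nat_lit 7157090977) (nat_lit 532) (nat_lit 4683790145) (nat_lit 198) (nat_lit 5) (nat_lit 204) (nat_lit 5) (nat_lit 205) (nat_lit 5) (nat_lit 488) (nat_lit 420) (nat_lit 232)) (XT.nd (nat_lit 78)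 (nat_lit 608) (nat_lit 0) (XT.lf (nat_lit 0) (nat_lit 18483259357) (nat_lit 532) (nat_lit 949807692) (nat_lit 76) (nat_lit 122350655) (nat_lit 198) (nat_lit 5) (nat_lit 205) (nat_lit 5) (nat_lit 199) (nat_lit 5) (nat_lit 489) (nat_lit 420) (nat_lit 231)) (XT.lf (nat_lit 0) (nat_lit 2684975991) (nat_lit 608) (nat_lit 9573674697) (nat_lit 76) (nat_lit 7533282191) (nat_lit 190) (nat_lit 5) (nat_lit 198) (nat_lit 5) (nat_lit 191) (nat_lit 5) (nat_lit 490) (nat_lit 420) (nat_lit 230))))) (XT.nd (nat_lit 234) (nat_lit 532) (nat_lit 0) (XT.nd (nat_lit 78) (nat_lit 456) (nat_lit 0) (XT.lf (nat_lit 0) (nat_lit 1593571750) (nat_lit 456) (nat_lit 4919087426) (nat_lit 532) (nat_lit 13520183521) (nat_lit 184) (nat_lit 5) (nat_lit 190) (nat_lit 5) (nat_lit 191) (nat_lit 5) (nat_lit 491) (nat_lit 420) (nat_lit 229)) (XT.nd (nat_lit 78) (nat_lit 456) (nat_lit 0) (XT.lf (nat_lit 0) (nat_lit 10491278282) (nat_lit 532) (nat_lit 7190196701) (nat_lit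 76) (nat_lit 2595609385) (nat_lit 184) (nat_lit 5) (nat_lit 191) (nat_lit 5) (nat_lit 185) (nat_lit 5) (nat_lit 492) (nat_lit 420) (nat_lit 228)) (XT.lf (nat_lit 0) (nat_lit 4298089944) (nat_lit 456) (nat_lit 10305043005) (nat_lit 532) (nat_lit 5922005934) (nat_lit 178) (nat_lit 5) (nat_lit 184) (nat_lit 5) (nat_lit 185) (nat_lit 5) (nat_lit 493) (nat_lit 420) (nat_lit 227)))) (XT.nd (nat_lit 78) (nat_lit 532) (nat_lit 0) (XT.lf (nat_lit 0) (nat_lit 16104107671) (nat_lit 456) (nat_lit 2734619474) (nat_lit 532) (nat_lit 1938598544) (nat_lit 178) (nat_lit 5) (nat_lit 184) (nat_lit 5) (nat_lit 185) (nat_lit 5) (nat_lit 494) (nat_lit 420) (nat_lit 226)) (XT.nd (nat_lit 78) (nat_lit 0) (nat_lit 0) (XT.lf (nat_lit 0) (nat_lit 2169351306) (nat_lit 532) (nat_lit 13883549501) (nat_lit 76) (nat_lit 4979926011) (nat_lit 171) (nat_lit 5) (nat_lit 178) (nat_lit 5) (nat_lit 172) (nat_lit 5) (nat_lit 495) (nat_lit 420) (nat_lit 225)) (XT.lf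 (nat_lit 0) (nat_lit 6376595880) (nat_lit 532) (nat_lit 2061854025) (nat_lit 76) (nat_lit 12853871089) (nat_lit 171) (nat_lit 5) (nat_lit 178) (nat_lit 5) (nat_lit 172) (nat_lit 5) (nat_lit 496) (nat_lit 420) (nat_lit 224))))))))
noncomputable def xc187 : XT := (XT.nd (nat_lit 54366) (nat_lit 0) (nat_lit 17480) (XT.nd (nat_lit 53508) (nat_lit 0) (nat_lit 25916) (XT.nd (nat_lit 390) (nat_lit 1216) (nat_lit 0) (XT.nd (nat_lit 156) (nat_lit 532) (nat_lit 0) (XT.nd (nat_lit 78) (nat_lit 380) (nat_lit 0) (XT.lf (nat_lit 0) (nat_lit 10119726445) (nat_lit 456) (nat_lit 607484250) (nat_lit 532) (nat_lit 10828611005) (nat_lit 165) (nat_lit 5) (nat_lit 171) (nat_lit 5) (nat_lit 172) (nat_lit 5) (nat_lit 497) (nat_lit 420) (nat_lit 223)) (XT.lf (nat_lit 0) (nat_lit 700428766) (nat_lit 380) (nat_lit 14524371394) (nat_lit 456) (nat_lit 6598594148) (nat_lit 160) (nat_lit 5) (nat_lit 165) (nat_lit 5) (nat_lit 166) (nat_lit 5) (nat_lit 498)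 (nat_lit 420) (nat_lit 222))) (XT.nd (nat_lit 78) (nat_lit 532) (nat_lit 0) (XT.lf (nat_lit 0) (nat_lit 13221366190) (nat_lit 380) (nat_lit 6665350435) (nat_lit 456) (nat_lit 2208115346) (nat_lit 160) (nat_lit 5) (nat_lit 165) (nat_lit 5) (nat_lit 166) (nat_lit 5) (nat_lit 499) (nat_lit 420) (nat_lit 221)) (XT.nd (nat_lit 78) (nat_lit 0) (nat_lit 0) (XT.lf (nat_lit 0) (nat_lit 2266789597) (nat_lit 532) (nat_lit 18735137671) (nat_lit 76) (nat_lit 1368949591) (nat_lit 153) (nat_lit 5) (nat_lit 160) (nat_lit 5) (nat_lit 154) (nat_lit 5) (nat_lit 500) (nat_lit 420) (nat_lit 220)) (XT.lf (nat_lit 0) (nat_lit 6899499077) (nat_lit 532) (nat_lit 6204209496) (nat_lit 76) (nat_lit 9546485744) (nat_lit 153) (nat_lit 5) (nat_lit 160) (nat_lit 5) (nat_lit 154) (nat_lit 5) (nat_lit 501) (nat_lit 420) (nat_lit 219))))) (XT.nd (nat_lit 234) (nat_lit 456) (nat_lit 0) (XT.nd (nat_lit 78) (nat_lit 380) (nat_lit 0) (XT.lf (nat_lit 0) (nat_lit 6655598009)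 (nat_lit 380) (nat_lit 5006363668) (nat_lit 456) (nat_lit 11272395493) (nat_lit 148) (nat_lit 5) (nat_lit 153) (nat_lit 5) (nat_lit 154) (nat_lit 5) (nat_lit 502) (nat_lit 420) (nat_lit 218)) (XT.nd (nat_lit 78) (nat_lit 380) (nat_lit 0) (XT.lf (nat_lit 0) (nat_lit 16576632001) (nat_lit 456) (nat_lit 3397137444) (nat_lit 76) (nat_lit 3249295671) (nat_lit 148) (nat_lit 5) (nat_lit 154) (nat_lit 5) (nat_lit 149) (nat_lit 5) (nat_lit 503) (nat_lit 420) (nat_lit 217)) (XT.lf (nat_lit 0) (nat_lit 9828976357) (nat_lit 380) (nat_lit 11851638445) (nat_lit 456) (nat_lit 1835113023) (nat_lit 143) (nat_lit 5) (nat_lit 148) (nat_lit 5) (nat_lit 149) (nat_lit 5) (nat_lit 504) (nat_lit 420) (nat_lit 216)))) (XT.nd (nat_lit 78) (nat_lit 380) (nat_lit 0) (XT.lf (nat_lit 0) (nat_lit 3049152975) (nat_lit 456) (nat_lit 477141264) (nat_lit 76) (nat_lit 20287211231) (nat_lit 142) (nat_lit 5) (nat_lit 148) (nat_lit 5) (nat_lit 143) (nat_lit 5) (nat_lit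 505) (nat_lit 420) (nat_lit 215)) (XT.nd (nat_lit 52728) (nat_lit 0) (nat_lit 27512) (XT.lf (nat_lit 0) (nat_lit 8118972312) (nat_lit 456) (nat_lit 11000063725) (nat_lit 76) (nat_lit 4995712155) (nat_lit 137) (nat_lit 5) (nat_lit 143) (nat_lit 5) (nat_lit 138) (nat_lit 5) (nat_lit 506) (nat_lit 420) (nat_lit 214)) (XT.lf (nat_lit 0) (nat_lit 4743778379) (nat_lit 1596) (nat_lit 50199429) (nat_lit 1596) (nat_lit 50199429) (nat_lit 499) (nat_lit 3) (nat_lit 520) (nat_lit 3) (nat_lit 520) (nat_lit 5) (nat_lit 421) (nat_lit 421) (nat_lit 298)))))) (XT.nd (nat_lit 390) (nat_lit 0) (nat_lit 152) (XT.nd (nat_lit 156) (nat_lit 0) (nat_lit 76) (XT.nd (nat_lit 78) (nat_lit 0) (nat_lit 0) (XT.lf (nat_lit 0) (nat_lit 579690840) (nat_lit 1596) (nat_lit 5131707210) (nat_lit 1672) (nat_lit 4058041807) (nat_lit 478) (nat_lit 5) (nat_lit 499) (nat_lit 3) (nat_lit 500) (nat_lit 5) (nat_lit 422) (nat_lit 421) (nat_lit 297)) (XT.lf (nat_lit 0) (nat_lit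 1354055557) (nat_lit 1596) (nat_lit 391840960) (nat_lit 1672) (nat_lit 8106610758) (nat_lit 478) (nat_lit 5) (nat_lit 499) (nat_lit 3) (nat_lit 500) (nat_lit 5) (nat_lit 423) (nat_lit 421) (nat_lit 296))) (XT.nd (nat_lit 78) (nat_lit 0) (nat_lit 0) (XT.lf (nat_lit 0) (nat_lit 2168909798) (nat_lit 1596) (nat_lit 5460651653) (nat_lit 1672) (nat_lit 2307180403) (nat_lit 479) (nat_lit 5) (nat_lit 500) (nat_lit 5) (nat_lit 501) (nat_lit 5) (nat_lit 424) (nat_lit 421) (nat_lit 295)) (XT.nd (nat_lit 78) (nat_lit 0) (nat_lit 76) (XT.lf (nat_lit 0) (nat_lit 2995303050) (nat_lit 1596) (nat_lit 598031909) (nat_lit 1672) (nat_lit 6429427069) (nat_lit 479) (nat_lit 5) (nat_lit 500) (nat_lit 5) (nat_lit 501) (nat_lit 5) (nat_lit 425) (nat_lit 421) (nat_lit 294)) (XT.lf (nat_lit 0) (nat_lit 3851900191) (nat_lit 1596) (nat_lit 5704609625) (nat_lit 1672) (nat_lit 553724899) (nat_lit 480) (nat_lit 5) (nat_lit 501) (nat_lit 5) (nat_lit 502) (nat_lit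 5) (nat_lit 426) (nat_lit 421) (nat_lit 293))))) (XT.nd (nat_lit 234) (nat_lit 0) (nat_lit 76) (XT.nd (nat_lit 78) (nat_lit 0) (nat_lit 0) (XT.lf (nat_lit 0) (nat_lit 4735220784) (nat_lit 1596) (nat_lit 716422724) (nat_lit 1672) (nat_lit 4747627037) (nat_lit 480) (nat_lit 5) (nat_lit 501) (nat_lit 5) (nat_lit 502) (nat_lit 5) (nat_lit 427) (nat_lit 421) (nat_lit 292)) (XT.nd (nat_lit 78) (nat_lit 0) (nat_lit 76) (XT.lf (nat_lit 76) (nat_lit 4419009167) (nat_lit 0) (nat_lit 1228002412) (nat_lit 1672) (nat_lit 4642864849) (nat_lit 481) (nat_lit 5) (nat_lit 480) (nat_lit 5) (nat_lit 502) (nat_lit 5) (nat_lit 428) (nat_lit 421) (nat_lit 291)) (XT.lf (nat_lit 0) (nat_lit 6584318284) (nat_lit 1596) (nat_lit 746177304) (nat_lit 1672) (nat_lit 3051658542) (nat_lit 481) (nat_lit 5) (nat_lit 502) (nat_lit 5) (nat_lit 503) (nat_lit 5) (nat_lit 429) (nat_lit 421) (nat_lit 290)))) (XT.nd (nat_lit 78) (nat_lit 0) (nat_lit 76) (XT.lf (nat_lit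 76) (nat_lit 4521577187) (nat_lit 0) (nat_lit 3039070300) (nat_lit 1672) (nat_lit 2915229573) (nat_lit 482) (nat_lit 5) (nat_lit 481) (nat_lit 5) (nat_lit 503) (nat_lit 5) (nat_lit 430) (nat_lit 421) (nat_lit 289)) (XT.nd (nat_lit 78) (nat_lit 0) (nat_lit 0) (XT.lf (nat_lit 0) (nat_lit 8553329684) (nat_lit 1596) (nat_lit 686208446) (nat_lit 1672) (nat_lit 1332004889) (nat_lit 482) (nat_lit 5) (nat_lit 503) (nat_lit 5) (nat_lit 504) (nat_lit 5) (nat_lit 431) (nat_lit 421) (nat_lit 288)) (XT.lf (nat_lit 76) (nat_lit 4718299860) (nat_lit 0) (nat_lit 4881755340) (nat_lit 1672) (nat_lit 1068388304) (nat_lit 483) (nat_lit 5) (nat_lit 482) (nat_lit 5) (nat_lit 504) (nat_lit 5) (nat_lit 432) (nat_lit 421) (nat_lit 287))))))) (XT.nd (nat_lit 858) (nat_lit 7144) (nat_lit 0) (XT.nd (nat_lit 390) (nat_lit 0) (nat_lit 152) (XT.nd (nat_lit 156) (nat_lit 0) (nat_lit 0) (XT.nd (nat_lit 78) (nat_lit 1596) (nat_lit 0) (XT.lf (nat_lit 76) (nat_lit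 10229570458) (nat_lit 0) (nat_lit 426434543) (nat_lit 1672) (nat_lit 111516102) (nat_lit 483) (nat_lit 5) (nat_lit 482) (nat_lit 5) (nat_lit 504) (nat_lit 5) (nat_lit 433) (nat_lit 421) (nat_lit 286)) (XT.lf (nat_lit 0) (nat_lit 896748107) (nat_lit 1672) (nat_lit 5862935108) (nat_lit 1748) (nat_lit 4107917643) (nat_lit 461) (nat_lit 5) (nat_lit 483) (nat_lit 5) (nat_lit 484) (nat_lit 5) (nat_lit 434) (nat_lit 421) (nat_lit 285))) (XT.nd (nat_lit 78) (nat_lit 0) (nat_lit 76) (XT.lf (nat_lit 0) (nat_lit 1914319404) (nat_lit 1672) (nat_lit 318696030) (nat_lit 1748) (nat_lit 8736843949) (nat_lit 461) (nat_lit 5) (nat_lit 483) (nat_lit 5) (nat_lit 484) (nat_lit 5) (nat_lit 435) (nat_lit 421) (nat_lit 284)) (XT.nd (nat_lit 78) (nat_lit 0) (nat_lit 0) (XT.lf (nat_lit 0) (nat_lit 2987508643) (nat_lit 1672) (nat_lit 5693028103) (nat_lit 1748) (nat_lit 2392925529) (nat_lit 462) (nat_lit 5) (nat_lit 484) (nat_lit 5) (nat_lit 485) (nat_lit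 5) (nat_lit 436) (nat_lit 421) (nat_lit 283)) (XT.lf (nat_lit 0) (nat_lit 4083853826) (nat_lit 1672) (nat_lit 7011293) (nat_lit 1748) (nat_lit 7088242703) (nat_lit 462) (nat_lit 5) (nat_lit 484) (nat_lit 5) (nat_lit 485) (nat_lit 5) (nat_lit 437) (nat_lit 421) (nat_lit 282))))) (XT.nd (nat_lit 234) (nat_lit 0) (nat_lit 76) (XT.nd (nat_lit 78) (nat_lit 0) (nat_lit 0) (XT.lf (nat_lit 0) (nat_lit 5229328958) (nat_lit 1672) (nat_lit 5431723594) (nat_lit 1748) (nat_lit 625274018) (nat_lit 463) (nat_lit 5) (nat_lit 485) (nat_lit 5) (nat_lit 486) (nat_lit 5) (nat_lit 438) (nat_lit 421) (nat_lit 281)) (XT.nd (nat_lit 78) (nat_lit 0) (nat_lit 0) (XT.lf (nat_lit 76) (nat_lit 405055774) (nat_lit 0) (nat_lit 6007726947) (nat_lit 1748) (nat_lit 4982609856) (nat_lit 464) (nat_lit 5) (nat_lit 463) (nat_lit 5) (nat_lit 486) (nat_lit 5) (nat_lit 439) (nat_lit 421) (nat_lit 280)) (XT.lf (nat_lit 76) (nat_lit 6421251386) (nat_lit 0) (nat_lit 1220621107)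 (nat_lit 1748) (nat_lit 3864332256) (nat_lit 464) (nat_lit 5) (nat_lit 463) (nat_lit 5) (nat_lit 486) (nat_lit 5) (nat_lit 440) (nat_lit 421) (nat_lit 279)))) (XT.nd (nat_lit 78) (nat_lit 0) (nat_lit 0) (XT.lf (nat_lit 76) (nat_lit 915726350) (nat_lit 0) (nat_lit 7995364506) (nat_lit 1748) (nat_lit 2707835474) (nat_lit 465) (nat_lit 5) (nat_lit 464) (nat_lit 5) (nat_lit 487) (nat_lit 5) (nat_lit 441) (nat_lit 421) (nat_lit 278)) (XT.nd (nat_lit 78) (nat_lit 0) (nat_lit 76) (XT.lf (nat_lit 76) (nat_lit 7086185482) (nat_lit 0) (nat_lit 3147691641) (nat_lit 1748) (nat_lit 1499465568) (nat_lit 465) (nat_lit 5) (nat_lit 464) (nat_lit 5) (nat_lit 487) (nat_lit 5) (nat_lit 442) (nat_lit 421) (nat_lit 277)) (XT.lf (nat_lit 76) (nat_lit 1527317698) (nat_lit 0) (nat_lit 10063708092) (nat_lit 1748) (nat_lit 258867399) (nat_lit 466) (nat_lit 5) (nat_lit 465) (nat_lit 5) (nat_lit 488) (nat_lit 5) (nat_lit 443) (nat_lit 421) (nat_lit 276))))))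 (XT.nd (nat_lit 468) (nat_lit 2736) (nat_lit 0) (XT.nd (nat_lit 234) (nat_lit 2964) (nat_lit 0) (XT.nd (nat_lit 78) (nat_lit 0) (nat_lit 0) (XT.lf (nat_lit 0) (nat_lit 1032005994) (nat_lit 1748) (nat_lit 4118627078) (nat_lit 1824) (nat_lit 6817241424) (nat_lit 442) (nat_lit 5) (nat_lit 465) (nat_lit 5) (nat_lit 466) (nat_lit 5) (nat_lit 444) (nat_lit 421) (nat_lit 275)) (XT.nd (nat_lit 78) (nat_lit 0) (nat_lit 76) (XT.lf (nat_lit 76) (nat_lit 2225934063) (nat_lit 0) (nat_lit 120445388) (nat_lit 1824) (nat_lit 9741782495) (nat_lit 443) (nat_lit 5) (nat_lit 442) (nat_lit 5) (nat_lit 466) (nat_lit 5) (nat_lit 445) (nat_lit 421) (nat_lit 274)) (XT.lf (nat_lit 0) (nat_lit 3734290288) (nat_lit 1748) (nat_lit 3500954336) (nat_lit 76) (nat_lit 4974669165) (nat_lit 443) (nat_lit 5) (nat_lit 466) (nat_lit 5) (nat_lit 444) (nat_lit 5) (nat_lit 446) (nat_lit 421) (nat_lit 273)))) (XT.nd (nat_lit 78) (nat_lit 1292) (nat_lit 0) (XT.lf (nat_lit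 0) (nat_lit 3015358776) (nat_lit 1748) (nat_lit 2142131052) (nat_lit 1824) (nat_lit 7176463799) (nat_lit 420) (nat_lit 5) (nat_lit 443) (nat_lit 5) (nat_lit 444) (nat_lit 5) (nat_lit 447) (nat_lit 421) (nat_lit 272)) (XT.nd (nat_lit 78) (nat_lit 1292) (nat_lit 0) (XT.lf (nat_lit 0) (nat_lit 6639971429) (nat_lit 1824) (nat_lit 2781658312) (nat_lit 76) (nat_lit 3038231661) (nat_lit 420) (nat_lit 5) (nat_lit 444) (nat_lit 5) (nat_lit 421) (nat_lit 5) (nat_lit 448) (nat_lit 421) (nat_lit 271)) (XT.lf (nat_lit 0) (nat_lit 3912226741) (nat_lit 1292) (nat_lit 4267059208) (nat_lit 1368) (nat_lit 4408461149) (nat_lit 403) (nat_lit 5) (nat_lit 420) (nat_lit 5) (nat_lit 421) (nat_lit 5) (nat_lit 449) (nat_lit 421) (nat_lit 270))))) (XT.nd (nat_lit 234) (nat_lit 1748) (nat_lit 0) (XT.nd (nat_lit 78) (nat_lit 988) (nat_lit 0) (XT.lf (nat_lit 0) (nat_lit 9762386481) (nat_lit 1368) (nat_lit 1957775522) (nat_lit 76) (nat_lit 997771875) (nat_lit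 403) (nat_lit 5) (nat_lit 421) (nat_lit 5) (nat_lit 404) (nat_lit 5) (nat_lit 450) (nat_lit 421) (nat_lit 269)) (XT.nd (nat_lit 78) (nat_lit 76) (nat_lit 0) (XT.lf (nat_lit 0) (nat_lit 4919707328) (nat_lit 912) (nat_lit 6505660075) (nat_lit 988) (nat_lit 1424395921) (nat_lit 391) (nat_lit 5) (nat_lit 403) (nat_lit 5) (nat_lit 404) (nat_lit 5) (nat_lit 451) (nat_lit 421) (nat_lit 268)) (XT.lf (nat_lit 0) (nat_lit 136902564) (nat_lit 988) (nat_lit 1034638338) (nat_lit 76) (nat_lit 11812647272) (nat_lit 390) (nat_lit 5) (nat_lit 403) (nat_lit 5) (nat_lit 391) (nat_lit 5) (nat_lit 452) (nat_lit 421) (nat_lit 267)))) (XT.nd (nat_lit 78) (nat_lit 912) (nat_lit 0) (XT.lf (nat_lit 0) (nat_lit 1766086479) (nat_lit 912) (nat_lit 7090660338) (nat_lit 76) (nat_lit 4263254867) (nat_lit 379) (nat_lit 5) (nat_lit 391) (nat_lit 5) (nat_lit 380) (nat_lit 5) (nat_lit 453) (nat_lit 421) (nat_lit 266)) (XT.nd (nat_lit 78) (nat_lit 912) (nat_lit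 0) (XT.lf (nat_lit 0) (nat_lit 3431100597) (nat_lit 912) (nat_lit 28495118) (nat_lit 76) (nat_lit 9798873864) (nat_lit 379) (nat_lit 5) (nat_lit 391) (nat_lit 5) (nat_lit 380) (nat_lit 5) (nat_lit 454) (nat_lit 421) (nat_lit 265)) (XT.lf (nat_lit 0) (nat_lit 5178869006) (nat_lit 988) (nat_lit 6153176532) (nat_lit 76) (nat_lit 2066675202) (nat_lit 367) (nat_lit 5) (nat_lit 380) (nat_lit 5) (nat_lit 368) (nat_lit 5) (nat_lit 455) (nat_lit 421) (nat_lit 264))))))))
noncomputable def xc188 : XT := (XT.nd (nat_lit 1716) (nat_lit 6840) (nat_lit 0) (XT.nd (nat_lit 858) (nat_lit 4104) (nat_lit 0) (XT.nd (nat_lit 390) (nat_lit 2280) (nat_lit 0) (XT.nd (nat_lit 156) (nat_lit 1672) (nat_lit 0) (XT.nd (nat_lit 78) (nat_lit 0) (nat_lit 0) (XT.lf (nat_lit 0) (nat_lit 1104381840) (nat_lit 836) (nat_lit 5876364735) (nat_lit 912) (nat_lit 6560650202) (nat_lit 356) (nat_lit 5) (nat_lit 367) (nat_lit 5) (nat_lit 368) (nat_lit 5) (nat_lit 456)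 (nat_lit 421) (nat_lit 263)) (XT.lf (nat_lit 0) (nat_lit 8579703493) (nat_lit 836) (nat_lit 269276906) (nat_lit 912) (nat_lit 4837342432) (nat_lit 356) (nat_lit 5) (nat_lit 367) (nat_lit 5) (nat_lit 368) (nat_lit 5) (nat_lit 457) (nat_lit 421) (nat_lit 262))) (XT.nd (nat_lit 78) (nat_lit 836) (nat_lit 0) (XT.lf (nat_lit 0) (nat_lit 2355083592) (nat_lit 836) (nat_lit 8439414698) (nat_lit 912) (nat_lit 3038853544) (nat_lit 345) (nat_lit 5) (nat_lit 356) (nat_lit 5) (nat_lit 357) (nat_lit 5) (nat_lit 458) (nat_lit 421) (nat_lit 261)) (XT.nd (nat_lit 78) (nat_lit 836) (nat_lit 0) (XT.lf (nat_lit 0) (nat_lit 10022703021) (nat_lit 836) (nat_lit 2781648323) (nat_lit 912) (nat_lit 1178464338) (nat_lit 345) (nat_lit 5) (nat_lit 356) (nat_lit 5) (nat_lit 357) (nat_lit 5) (nat_lit 459) (nat_lit 421) (nat_lit 260)) (XT.lf (nat_lit 0) (nat_lit 743118288) (nat_lit 836) (nat_lit 10412348345) (nat_lit 76) (nat_lit 2979043099) (nat_lit 334)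 (nat_lit 5) (nat_lit 345) (nat_lit 5) (nat_lit 335) (nat_lit 5) (nat_lit 460) (nat_lit 421) (nat_lit 259))))) (XT.nd (nat_lit 234) (nat_lit 1520) (nat_lit 0) (XT.nd (nat_lit 78) (nat_lit 760) (nat_lit 0) (XT.lf (nat_lit 0) (nat_lit 2722196351) (nat_lit 836) (nat_lit 2714148043) (nat_lit 76) (nat_lit 8852043208) (nat_lit 334) (nat_lit 5) (nat_lit 345) (nat_lit 5) (nat_lit 335) (nat_lit 5) (nat_lit 461) (nat_lit 421) (nat_lit 258)) (XT.nd (nat_lit 78) (nat_lit 0) (nat_lit 0) (XT.lf (nat_lit 0) (nat_lit 4767247697) (nat_lit 836) (nat_lit 9252105238) (nat_lit 76) (nat_lit 425464812) (nat_lit 324) (nat_lit 5) (nat_lit 335) (nat_lit 5) (nat_lit 325) (nat_lit 5) (nat_lit 462) (nat_lit 421) (nat_lit 257)) (XT.lf (nat_lit 0) (nat_lit 6897523090) (nat_lit 836) (nat_lit 1356353047) (nat_lit 76) (nat_lit 6349616396) (nat_lit 324) (nat_lit 5) (nat_lit 335) (nat_lit 5) (nat_lit 325) (nat_lit 5) (nat_lit 463) (nat_lit 421) (nat_lit 256))))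 (XT.nd (nat_lit 78) (nat_lit 760) (nat_lit 0) (XT.lf (nat_lit 0) (nat_lit 6775669304) (nat_lit 760) (nat_lit 2328909922) (nat_lit 836) (nat_lit 5660080533) (nat_lit 314) (nat_lit 5) (nat_lit 324) (nat_lit 5) (nat_lit 325) (nat_lit 5) (nat_lit 464) (nat_lit 421) (nat_lit 255)) (XT.nd (nat_lit 78) (nat_lit 0) (nat_lit 0) (XT.lf (nat_lit 0) (nat_lit 126702358) (nat_lit 760) (nat_lit 11253479193) (nat_lit 836) (nat_lit 3548383083) (nat_lit 304) (nat_lit 5) (nat_lit 314) (nat_lit 5) (nat_lit 315) (nat_lit 5) (nat_lit 465) (nat_lit 421) (nat_lit 254)) (XT.lf (nat_lit 0) (nat_lit 8486812370) (nat_lit 760) (nat_lit 5273840174) (nat_lit 836) (nat_lit 1333910284) (nat_lit 304) (nat_lit 5) (nat_lit 314) (nat_lit 5) (nat_lit 315) (nat_lit 5) (nat_lit 466) (nat_lit 421) (nat_lit 253)))))) (XT.nd (nat_lit 390) (nat_lit 1976) (nat_lit 0) (XT.nd (nat_lit 156) (nat_lit 1368) (nat_lit 0) (XT.nd (nat_lit 78) (nat_lit 0) (nat_lit 0) (XT.lf (nat_lit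 0) (nat_lit 920144094) (nat_lit 760) (nat_lit 13512394233) (nat_lit 76) (nat_lit 831076392) (nat_lit 294) (nat_lit 5) (nat_lit 304) (nat_lit 5) (nat_lit 295) (nat_lit 5) (nat_lit 467) (nat_lit 421) (nat_lit 252)) (XT.lf (nat_lit 0) (nat_lit 3271654973) (nat_lit 760) (nat_lit 5122868816) (nat_lit 76) (nat_lit 7039945008) (nat_lit 294) (nat_lit 5) (nat_lit 304) (nat_lit 5) (nat_lit 295) (nat_lit 5) (nat_lit 468) (nat_lit 421) (nat_lit 251))) (XT.nd (nat_lit 78) (nat_lit 684) (nat_lit 0) (XT.lf (nat_lit 0) (nat_lit 3469563754) (nat_lit 684) (nat_lit 2214000735) (nat_lit 760) (nat_lit 9924910275) (nat_lit 285) (nat_lit 5) (nat_lit 294) (nat_lit 5) (nat_lit 295) (nat_lit 5) (nat_lit 469) (nat_lit 421) (nat_lit 250)) (XT.nd (nat_lit 78) (nat_lit 684) (nat_lit 0) (XT.lf (nat_lit 0) (nat_lit 8195818882) (nat_lit 760) (nat_lit 3519263766) (nat_lit 76) (nat_lit 4069838202) (nat_lit 285) (nat_lit 5) (nat_lit 295) (nat_lit 5) (nat_lit 286)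 (nat_lit 5) (nat_lit 470) (nat_lit 421) (nat_lit 249)) (XT.lf (nat_lit 0) (nat_lit 5317567022) (nat_lit 684) (nat_lit 5481062317) (nat_lit 760) (nat_lit 5165462388) (nat_lit 276) (nat_lit 5) (nat_lit 285) (nat_lit 5) (nat_lit 286) (nat_lit 5) (nat_lit 471) (nat_lit 421) (nat_lit 248))))) (XT.nd (nat_lit 234) (nat_lit 608) (nat_lit 0) (XT.nd (nat_lit 78) (nat_lit 1368) (nat_lit 0) (XT.lf (nat_lit 0) (nat_lit 13474188546) (nat_lit 760) (nat_lit 1783777647) (nat_lit 76) (nat_lit 888468032) (nat_lit 276) (nat_lit 5) (nat_lit 286) (nat_lit 5) (nat_lit 277) (nat_lit 5) (nat_lit 472) (nat_lit 421) (nat_lit 247)) (XT.nd (nat_lit 78) (nat_lit 684) (nat_lit 0) (XT.lf (nat_lit 0) (nat_lit 7305554977) (nat_lit 684) (nat_lit 8972828831) (nat_lit 760) (nat_lit 52539276) (nat_lit 267) (nat_lit 5) (nat_lit 276) (nat_lit 5) (nat_lit 277) (nat_lit 5) (nat_lit 473) (nat_lit 421) (nat_lit 246)) (XT.lf (nat_lit 0) (nat_lit 55397538) (nat_lit 608)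 (nat_lit 2533655472) (nat_lit 684) (nat_lit 13929633530) (nat_lit 258) (nat_lit 5) (nat_lit 266) (nat_lit 5) (nat_lit 267) (nat_lit 5) (nat_lit 474) (nat_lit 421) (nat_lit 245)))) (XT.nd (nat_lit 78) (nat_lit 608) (nat_lit 0) (XT.lf (nat_lit 0) (nat_lit 5361463245) (nat_lit 684) (nat_lit 7306142620) (nat_lit 76) (nat_lit 4041020556) (nat_lit 258) (nat_lit 5) (nat_lit 267) (nat_lit 5) (nat_lit 259) (nat_lit 5) (nat_lit 475) (nat_lit 421) (nat_lit 244)) (XT.nd (nat_lit 78) (nat_lit 0) (nat_lit 0) (XT.lf (nat_lit 0) (nat_lit 2033919204) (nat_lit 608) (nat_lit 6177082816) (nat_lit 684) (nat_lit 8690931330) (nat_lit 250) (nat_lit 5) (nat_lit 258) (nat_lit 5) (nat_lit 259) (nat_lit 5) (nat_lit 476) (nat_lit 421) (nat_lit 243)) (XT.lf (nat_lit 0) (nat_lit 11161543332) (nat_lit 684) (nat_lit 5451720342) (nat_lit 76) (nat_lit 484964328) (nat_lit 250) (nat_lit 5) (nat_lit 259) (nat_lit 5) (nat_lit 251) (nat_lit 5) (nat_lit 477) (nat_lit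 421) (nat_lit 242))))))) (XT.nd (nat_lit 858) (nat_lit 3344) (nat_lit 0) (XT.nd (nat_lit 390) (nat_lit 1672) (nat_lit 0) (XT.nd (nat_lit 156) (nat_lit 1216) (nat_lit 0) (XT.nd (nat_lit 78) (nat_lit 0) (nat_lit 0) (XT.lf (nat_lit 0) (nat_lit 4156494013) (nat_lit 608) (nat_lit 10074438292) (nat_lit 684) (nat_lit 3066321293) (nat_lit 242) (nat_lit 5) (nat_lit 250) (nat_lit 5) (nat_lit 251) (nat_lit 5) (nat_lit 478) (nat_lit 421) (nat_lit 241)) (XT.lf (nat_lit 0) (nat_lit 14020827362) (nat_lit 608) (nat_lit 3369501321) (nat_lit 684) (nat_lit 109360379) (nat_lit 242) (nat_lit 5) (nat_lit 250) (nat_lit 5) (nat_lit 251) (nat_lit 5) (nat_lit 479) (nat_lit 421) (nat_lit 240))) (XT.nd (nat_lit 78) (nat_lit 532) (nat_lit 0) (XT.lf (nat_lit 0) (nat_lit 2925431088) (nat_lit 684) (nat_lit 11296133365) (nat_lit 76) (nat_lit 3483096741) (nat_lit 233) (nat_lit 5) (nat_lit 242) (nat_lit 5) (nat_lit 234) (nat_lit 5) (nat_lit 480) (nat_lit 421)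 (nat_lit 239)) (XT.nd (nat_lit 78) (nat_lit 532) (nat_lit 0) (XT.lf (nat_lit 0) (nat_lit 6057485525) (nat_lit 684) (nat_lit 1405572323) (nat_lit 76) (nat_lit 10449901480) (nat_lit 233) (nat_lit 5) (nat_lit 242) (nat_lit 5) (nat_lit 234) (nat_lit 5) (nat_lit 481) (nat_lit 421) (nat_lit 238)) (XT.lf (nat_lit 0) (nat_lit 8788320072) (nat_lit 532) (nat_lit 513289143) (nat_lit 608) (nat_lit 8822827265) (nat_lit 226) (nat_lit 5) (nat_lit 233) (nat_lit 5) (nat_lit 234) (nat_lit 5) (nat_lit 482) (nat_lit 421) (nat_lit 237))))) (XT.nd (nat_lit 234) (nat_lit 532) (nat_lit 0) (XT.nd (nat_lit 78) (nat_lit 608) (nat_lit 0) (XT.lf (nat_lit 0) (nat_lit 823418333) (nat_lit 532) (nat_lit 11837171699) (nat_lit 608) (nat_lit 5678555237) (nat_lit 219) (nat_lit 5) (nat_lit 226) (nat_lit 5) (nat_lit 227) (nat_lit 5) (nat_lit 483) (nat_lit 421) (nat_lit 236)) (XT.nd (nat_lit 78) (nat_lit 608) (nat_lit 0) (XT.lf (nat_lit 0) (nat_lit 11299502595) (nat_lit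 532) (nat_lit 4845801461) (nat_lit 608) (nat_lit 2411674659) (nat_lit 219) (nat_lit 5) (nat_lit 226) (nat_lit 5) (nat_lit 227) (nat_lit 5) (nat_lit 484) (nat_lit 421) (nat_lit 235)) (XT.lf (nat_lit 0) (nat_lit 937084303) (nat_lit 608) (nat_lit 15561078828) (nat_lit 76) (nat_lit 2280315379) (nat_lit 211) (nat_lit 5) (nat_lit 219) (nat_lit 5) (nat_lit 212) (nat_lit 5) (nat_lit 485) (nat_lit 421) (nat_lit 234)))) (XT.nd (nat_lit 78) (nat_lit 532) (nat_lit 0) (XT.lf (nat_lit 0) (nat_lit 4394362081) (nat_lit 608) (nat_lit 5061397034) (nat_lit 76) (nat_lit 9546855108) (nat_lit 211) (nat_lit 5) (nat_lit 219) (nat_lit 5) (nat_lit 212) (nat_lit 5) (nat_lit 486) (nat_lit 421) (nat_lit 233)) (XT.nd (nat_lit 78) (nat_lit 0) (nat_lit 0) (XT.lf (nat_lit 0) (nat_lit 5713677559) (nat_lit 532) (nat_lit 2237038528) (nat_lit 608) (nat_lit 11279919385) (nat_lit 204) (nat_lit 5) (nat_lit 211) (nat_lit 5) (nat_lit 212) (nat_lit 5) (nat_lit 487) (nat_lit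 421) (nat_lit 232)) (XT.lf (nat_lit 0) (nat_lit 11638565700) (nat_lit 608) (nat_lit 2732783991) (nat_lit 76) (nat_lit 5090661492) (nat_lit 204) (nat_lit 5) (nat_lit 212) (nat_lit 5) (nat_lit 205) (nat_lit 5) (nat_lit 488) (nat_lit 421) (nat_lit 231)))))) (XT.nd (nat_lit 468) (nat_lit 1368) (nat_lit 0) (XT.nd (nat_lit 234) (nat_lit 912) (nat_lit 0) (XT.nd (nat_lit 78) (nat_lit 608) (nat_lit 0) (XT.lf (nat_lit 0) (nat_lit 8352388265) (nat_lit 456) (nat_lit 7109864577) (nat_lit 532) (nat_lit 4234521337) (nat_lit 198) (nat_lit 5) (nat_lit 204) (nat_lit 5) (nat_lit 205) (nat_lit 5) (nat_lit 489) (nat_lit 421) (nat_lit 230)) (XT.nd (nat_lit 78) (nat_lit 608) (nat_lit 0) (XT.lf (nat_lit 0) (nat_lit 19375897237) (nat_lit 532) (nat_lit 251081460) (nat_lit 76) (nat_lit 308985419) (nat_lit 198) (nat_lit 5) (nat_lit 205) (nat_lit 5) (nat_lit 199) (nat_lit 5) (nat_lit 490) (nat_lit 421) (nat_lit 229)) (XT.lf (nat_lit 0) (nat_lit 3259548414)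 (nat_lit 608) (nat_lit 9045127028) (nat_lit 76) (nat_lit 7872580129) (nat_lit 190) (nat_lit 5) (nat_lit 198) (nat_lit 5) (nat_lit 191) (nat_lit 5) (nat_lit 491) (nat_lit 421) (nat_lit 228)))) (XT.nd (nat_lit 78) (nat_lit 456) (nat_lit 0) (XT.lf (nat_lit 0) (nat_lit 2340727367) (nat_lit 456) (nat_lit 4817488801) (nat_lit 532) (nat_lit 13264880731) (nat_lit 184) (nat_lit 5) (nat_lit 190) (nat_lit 5) (nat_lit 191) (nat_lit 5) (nat_lit 492) (nat_lit 421) (nat_lit 227)) (XT.nd (nat_lit 78) (nat_lit 456) (nat_lit 0) (XT.lf (nat_lit 0) (nat_lit 11207576605) (nat_lit 532) (nat_lit 6623815901) (nat_lit 76) (nat_lit 2841009411) (nat_lit 184) (nat_lit 5) (nat_lit 191) (nat_lit 5) (nat_lit 185) (nat_lit 5) (nat_lit 493) (nat_lit 421) (nat_lit 226)) (XT.lf (nat_lit 0) (nat_lit 5089564209) (nat_lit 456) (nat_lit 10306753973) (nat_lit 532) (nat_lit 5529208200) (nat_lit 178) (nat_lit 5) (nat_lit 184) (nat_lit 5) (nat_lit 185) (nat_lit 5) (nat_lit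 494) (nat_lit 421) (nat_lit 225))))) (XT.nd (nat_lit 234) (nat_lit 836) (nat_lit 0) (XT.nd (nat_lit 78) (nat_lit 532) (nat_lit 0) (XT.lf (nat_lit 0) (nat_lit 17117868713) (nat_lit 456) (nat_lit 2588929617) (nat_lit 532) (nat_lit 1476156934) (nat_lit 178) (nat_lit 5) (nat_lit 184) (nat_lit 5) (nat_lit 185) (nat_lit 5) (nat_lit 495) (nat_lit 421) (nat_lit 224)) (XT.nd (nat_lit 78) (nat_lit 0) (nat_lit 0) (XT.lf (nat_lit 0) (nat_lit 2703510311) (nat_lit 532) (nat_lit 13458923308) (nat_lit 76) (nat_lit 5281146824) (nat_lit 171) (nat_lit 5) (nat_lit 178) (nat_lit 5) (nat_lit 172) (nat_lit 5) (nat_lit 496) (nat_lit 421) (nat_lit 223)) (XT.lf (nat_lit 0) (nat_lit 6985276797) (nat_lit 532) (nat_lit 1414564455) (nat_lit 76) (nat_lit 13308617425) (nat_lit 171) (nat_lit 5) (nat_lit 178) (nat_lit 5) (nat_lit 172) (nat_lit 5) (nat_lit 497) (nat_lit 421) (nat_lit 222)))) (XT.nd (nat_lit 78) (nat_lit 380) (nat_lit 0) (XT.lf (nat_lit 0) (nat_lit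 11006117844) (nat_lit 456) (nat_lit 411792732) (nat_lit 532) (nat_lit 10559420370) (nat_lit 165) (nat_lit 5) (nat_lit 171) (nat_lit 5) (nat_lit 172) (nat_lit 5) (nat_lit 498) (nat_lit 421) (nat_lit 221)) (XT.nd (nat_lit 78) (nat_lit 0) (nat_lit 0) (XT.lf (nat_lit 0) (nat_lit 1402137650) (nat_lit 380) (nat_lit 14599765783) (nat_lit 456) (nat_lit 6248424188) (nat_lit 160) (nat_lit 5) (nat_lit 165) (nat_lit 5) (nat_lit 166) (nat_lit 5) (nat_lit 499) (nat_lit 421) (nat_lit 220)) (XT.lf (nat_lit 0) (nat_lit 14160009502) (nat_lit 380) (nat_lit 6587781916) (nat_lit 456) (nat_lit 1779589572) (nat_lit 160) (nat_lit 5) (nat_lit 165) (nat_lit 5) (nat_lit 166) (nat_lit 5) (nat_lit 500) (nat_lit 421) (nat_lit 219))))))))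
noncomputable def xc189 : XT := (XT.nd (nat_lit 54444) (nat_lit 0) (nat_lit 15808) (XT.nd (nat_lit 53586) (nat_lit 0) (nat_lit 24548) (XT.nd (nat_lit 390) (nat_lit 456) (nat_lit 0) (XT.nd (nat_lit 156) (nat_lit 760) (nat_lit 0) (XT.nd (nat_lit 78) (nat_lit 0) (nat_lit 0) (XT.lf (nat_lit 0) (nat_lit 2775247690) (nat_lit 532) (nat_lit 18425901756) (nat_lit 76) (nat_lit 1607804832) (nat_lit 153) (nat_lit 5) (nat_lit 160) (nat_lit 5) (nat_lit 154) (nat_lit 5) (nat_lit 501) (nat_lit 421) (nat_lit 218)) (XT.lf (nat_lit 0) (nat_lit 7491530530) (nat_lit 532) (nat_lit 5657765579) (nat_lit 76) (nat_lit 9944745114) (nat_lit 153) (nat_lit 5) (nat_lit 160) (nat_lit 5) (nat_lit 154) (nat_lit 5) (nat_lit 502) (nat_lit 421) (nat_lit 217))) (XT.nd (nat_lit 78) (nat_lit 380) (nat_lit 0) (XT.lf (nat_lit 0) (nat_lit 7454826706) (nat_lit 380) (nat_lit 4889837774) (nat_lit 456) (nat_lit 11039315906) (nat_lit 148) (nat_lit 5) (nat_lit 153) (nat_lit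 5) (nat_lit 154) (nat_lit 5) (nat_lit 503) (nat_lit 421) (nat_lit 216)) (XT.nd (nat_lit 78) (nat_lit 380) (nat_lit 0) (XT.lf (nat_lit 0) (nat_lit 17350194274) (nat_lit 456) (nat_lit 2804517439) (nat_lit 76) (nat_lit 3523900920) (nat_lit 148) (nat_lit 5) (nat_lit 154) (nat_lit 5) (nat_lit 149) (nat_lit 5) (nat_lit 504) (nat_lit 421) (nat_lit 215)) (XT.lf (nat_lit 0) (nat_lit 10681772831) (nat_lit 380) (nat_lit 11870077249) (nat_lit 456) (nat_lit 1425368085) (nat_lit 143) (nat_lit 5) (nat_lit 148) (nat_lit 5) (nat_lit 149) (nat_lit 5) (nat_lit 505) (nat_lit 421) (nat_lit 214))))) (XT.nd (nat_lit 52962) (nat_lit 0) (nat_lit 25916) (XT.nd (nat_lit 52806) (nat_lit 0) (nat_lit 25916) (XT.lf (nat_lit 0) (nat_lit 164634466) (nat_lit 380) (nat_lit 3378523389) (nat_lit 456) (nat_lit 20737888317) (nat_lit 137) (nat_lit 5) (nat_lit 142) (nat_lit 5) (nat_lit 143) (nat_lit 5) (nat_lit 506) (nat_lit 421) (nat_lit 213)) (XT.nd (nat_lit 78)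 (nat_lit 0) (nat_lit 0) (XT.lf (nat_lit 0) (nat_lit 323916525) (nat_lit 0) (nat_lit 323916525) (nat_lit 1596) (nat_lit 4278036808) (nat_lit 478) (nat_lit 5) (nat_lit 478) (nat_lit 3) (nat_lit 499) (nat_lit 3) (nat_lit 422) (nat_lit 422) (nat_lit 296)) (XT.lf (nat_lit 0) (nat_lit 2056250966) (nat_lit 1596) (nat_lit 4464862871) (nat_lit 1672) (nat_lit 3413971797) (nat_lit 478) (nat_lit 5) (nat_lit 499) (nat_lit 3) (nat_lit 500) (nat_lit 5) (nat_lit 423) (nat_lit 422) (nat_lit 295)))) (XT.nd (nat_lit 78) (nat_lit 0) (nat_lit 76) (XT.lf (nat_lit 76) (nat_lit 359426837) (nat_lit 0) (nat_lit 2460284948) (nat_lit 1672) (nat_lit 7200639139) (nat_lit 479) (nat_lit 5) (nat_lit 478) (nat_lit 5) (nat_lit 500) (nat_lit 5) (nat_lit 424) (nat_lit 422) (nat_lit 294)) (XT.nd (nat_lit 78) (nat_lit 0) (nat_lit 0) (XT.lf (nat_lit 0) (nat_lit 3620925657) (nat_lit 1596) (nat_lit 4787443735) (nat_lit 1672) (nat_lit 1698508081) (nat_lit 479) (nat_lit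 5) (nat_lit 500) (nat_lit 5) (nat_lit 501) (nat_lit 5) (nat_lit 425) (nat_lit 422) (nat_lit 293)) (XT.lf (nat_lit 76) (nat_lit 159174417) (nat_lit 0) (nat_lit 4278085476) (nat_lit 1672) (nat_lit 5757898257) (nat_lit 480) (nat_lit 5) (nat_lit 479) (nat_lit 5) (nat_lit 501) (nat_lit 5) (nat_lit 426) (nat_lit 422) (nat_lit 292)))))) (XT.nd (nat_lit 390) (nat_lit 1444) (nat_lit 0) (XT.nd (nat_lit 156) (nat_lit 0) (nat_lit 76) (XT.nd (nat_lit 78) (nat_lit 0) (nat_lit 76) (XT.lf (nat_lit 76) (nat_lit 5259560483) (nat_lit 0) (nat_lit 24548094) (nat_lit 1672) (nat_lit 5000817520) (nat_lit 480) (nat_lit 5) (nat_lit 479) (nat_lit 5) (nat_lit 501) (nat_lit 5) (nat_lit 427) (nat_lit 422) (nat_lit 291)) (XT.lf (nat_lit 76) (nat_lit 47812742) (nat_lit 0) (nat_lit 6110865047) (nat_lit 1672) (nat_lit 4217601248) (nat_lit 481) (nat_lit 5) (nat_lit 480) (nat_lit 5) (nat_lit 502) (nat_lit 5) (nat_lit 428) (nat_lit 422) (nat_lit 290))) (XT.nd (nat_lit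 78) (nat_lit 0) (nat_lit 76) (XT.lf (nat_lit 76) (nat_lit 5280208193) (nat_lit 0) (nat_lit 1787155541) (nat_lit 1672) (nat_lit 3401767995) (nat_lit 481) (nat_lit 5) (nat_lit 480) (nat_lit 5) (nat_lit 502) (nat_lit 5) (nat_lit 429) (nat_lit 422) (nat_lit 289)) (XT.nd (nat_lit 78) (nat_lit 0) (nat_lit 0) (XT.lf (nat_lit 76) (nat_lit 26334732) (nat_lit 0) (nat_lit 7968214420) (nat_lit 1672) (nat_lit 2569290907) (nat_lit 482) (nat_lit 5) (nat_lit 481) (nat_lit 5) (nat_lit 503) (nat_lit 5) (nat_lit 430) (nat_lit 422) (nat_lit 288)) (XT.lf (nat_lit 76) (nat_lit 5393920705) (nat_lit 0) (nat_lit 3576323797) (nat_lit 1672) (nat_lit 1689603729) (nat_lit 482) (nat_lit 5) (nat_lit 481) (nat_lit 5) (nat_lit 503) (nat_lit 5) (nat_lit 431) (nat_lit 422) (nat_lit 287))))) (XT.nd (nat_lit 234) (nat_lit 0) (nat_lit 76) (XT.nd (nat_lit 78) (nat_lit 1672) (nat_lit 0) (XT.lf (nat_lit 76) (nat_lit 95984985) (nat_lit 0) (nat_lit 9859711443) (nat_lit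 1672) (nat_lit 802280185) (nat_lit 483) (nat_lit 5) (nat_lit 482) (nat_lit 5) (nat_lit 504) (nat_lit 5) (nat_lit 432) (nat_lit 422) (nat_lit 286)) (XT.nd (nat_lit 78) (nat_lit 0) (nat_lit 0) (XT.lf (nat_lit 0) (nat_lit 144591340) (nat_lit 1672) (nat_lit 5256069638) (nat_lit 1748) (nat_lit 5456534955) (nat_lit 460) (nat_lit 5) (nat_lit 482) (nat_lit 5) (nat_lit 483) (nat_lit 5) (nat_lit 433) (nat_lit 422) (nat_lit 285)) (XT.lf (nat_lit 76) (nat_lit 245445428) (nat_lit 0) (nat_lit 840025962) (nat_lit 1748) (nat_lit 9873110535) (nat_lit 461) (nat_lit 5) (nat_lit 460) (nat_lit 5) (nat_lit 483) (nat_lit 5) (nat_lit 434) (nat_lit 422) (nat_lit 284)))) (XT.nd (nat_lit 78) (nat_lit 0) (nat_lit 0) (XT.lf (nat_lit 0) (nat_lit 2089908475) (nat_lit 1672) (nat_lit 5168746300) (nat_lit 1748) (nat_lit 3802450602) (nat_lit 461) (nat_lit 5) (nat_lit 483) (nat_lit 5) (nat_lit 484) (nat_lit 5) (nat_lit 435) (nat_lit 422) (nat_lit 283)) (XT.nd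 (nat_lit 78) (nat_lit 0) (nat_lit 76) (XT.lf (nat_lit 76) (nat_lit 476719079) (nat_lit 0) (nat_lit 2631163659) (nat_lit 1748) (nat_lit 8057932028) (nat_lit 462) (nat_lit 5) (nat_lit 461) (nat_lit 5) (nat_lit 484) (nat_lit 5) (nat_lit 436) (nat_lit 422) (nat_lit 282)) (XT.lf (nat_lit 0) (nat_lit 4179743767) (nat_lit 1672) (nat_lit 4991325399) (nat_lit 1748) (nat_lit 2100882984) (nat_lit 462) (nat_lit 5) (nat_lit 484) (nat_lit 5) (nat_lit 485) (nat_lit 5) (nat_lit 437) (nat_lit 422) (nat_lit 281))))))) (XT.nd (nat_lit 858) (nat_lit 5700) (nat_lit 0) (XT.nd (nat_lit 390) (nat_lit 3192) (nat_lit 0) (XT.nd (nat_lit 156) (nat_lit 0) (nat_lit 76) (XT.nd (nat_lit 78) (nat_lit 0) (nat_lit 76) (XT.lf (nat_lit 76) (nat_lit 802951158) (nat_lit 0) (nat_lit 4478072399) (nat_lit 1748) (nat_lit 6099033360) (nat_lit 463) (nat_lit 5) (nat_lit 462) (nat_lit 5) (nat_lit 485) (nat_lit 5) (nat_lit 438) (nat_lit 422) (nat_lit 280)) (XT.lf (nat_lit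 0) (nat_lit 6425638304) (nat_lit 1672) (nat_lit 4721912770) (nat_lit 1748) (nat_lit 342350702) (nat_lit 463) (nat_lit 5) (nat_lit 485) (nat_lit 5) (nat_lit 486) (nat_lit 5) (nat_lit 439) (nat_lit 422) (nat_lit 279))) (XT.nd (nat_lit 78) (nat_lit 0) (nat_lit 0) (XT.lf (nat_lit 76) (nat_lit 1226217677) (nat_lit 0) (nat_lit 6390416067) (nat_lit 1748) (nat_lit 3984844122) (nat_lit 464) (nat_lit 5) (nat_lit 463) (nat_lit 5) (nat_lit 486) (nat_lit 5) (nat_lit 440) (nat_lit 422) (nat_lit 278)) (XT.nd (nat_lit 78) (nat_lit 0) (nat_lit 76) (XT.lf (nat_lit 76) (nat_lit 7346794833) (nat_lit 0) (nat_lit 1502420373) (nat_lit 1748) (nat_lit 2865718968) (nat_lit 464) (nat_lit 5) (nat_lit 463) (nat_lit 5) (nat_lit 486) (nat_lit 5) (nat_lit 441) (nat_lit 422) (nat_lit 277)) (XT.lf (nat_lit 76) (nat_lit 1748829144) (nat_lit 0) (nat_lit 8377964005) (nat_lit 1748) (nat_lit 1703463505) (nat_lit 465) (nat_lit 5) (nat_lit 464) (nat_lit 5) (nat_lit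 487) (nat_lit 5) (nat_lit 442) (nat_lit 422) (nat_lit 276))))) (XT.nd (nat_lit 234) (nat_lit 1672) (nat_lit 0) (XT.nd (nat_lit 78) (nat_lit 1672) (nat_lit 0) (XT.lf (nat_lit 76) (nat_lit 8026721218) (nat_lit 0) (nat_lit 3428971169) (nat_lit 1748) (nat_lit 491681665) (nat_lit 465) (nat_lit 5) (nat_lit 464) (nat_lit 5) (nat_lit 487) (nat_lit 5) (nat_lit 443) (nat_lit 422) (nat_lit 275)) (XT.nd (nat_lit 78) (nat_lit 0) (nat_lit 0) (XT.lf (nat_lit 0) (nat_lit 747429935) (nat_lit 1748) (nat_lit 9698170724) (nat_lit 1824) (nat_lit 1620883076) (nat_lit 442) (nat_lit 5) (nat_lit 465) (nat_lit 5) (nat_lit 466) (nat_lit 5) (nat_lit 444) (nat_lit 422) (nat_lit 274)) (XT.lf (nat_lit 0) (nat_lit 2040892867) (nat_lit 1748) (nat_lit 3388115382) (nat_lit 1824) (nat_lit 6758182949) (nat_lit 442) (nat_lit 5) (nat_lit 465) (nat_lit 5) (nat_lit 466) (nat_lit 5) (nat_lit 445) (nat_lit 422) (nat_lit 273)))) (XT.nd (nat_lit 78) (nat_lit 1672) (nat_lit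 0) (XT.lf (nat_lit 76) (nat_lit 3077989060) (nat_lit 0) (nat_lit 289430407) (nat_lit 1824) (nat_lit 8942753024) (nat_lit 443) (nat_lit 5) (nat_lit 442) (nat_lit 5) (nat_lit 466) (nat_lit 5) (nat_lit 446) (nat_lit 422) (nat_lit 272)) (XT.nd (nat_lit 78) (nat_lit 1748) (nat_lit 0) (XT.lf (nat_lit 0) (nat_lit 4762927961) (nat_lit 1748) (nat_lit 2758845450) (nat_lit 76) (nat_lit 4912994474) (nat_lit 443) (nat_lit 5) (nat_lit 466) (nat_lit 5) (nat_lit 444) (nat_lit 5) (nat_lit 447) (nat_lit 422) (nat_lit 271)) (XT.lf (nat_lit 0) (nat_lit 3882450977) (nat_lit 1748) (nat_lit 2318673759) (nat_lit 1824) (nat_lit 6360438318) (nat_lit 420) (nat_lit 5) (nat_lit 443) (nat_lit 5) (nat_lit 444) (nat_lit 5) (nat_lit 448) (nat_lit 422) (nat_lit 270)))))) (XT.nd (nat_lit 468) (nat_lit 2584) (nat_lit 0) (XT.nd (nat_lit 234) (nat_lit 1824) (nat_lit 0) (XT.nd (nat_lit 78) (nat_lit 1292) (nat_lit 0) (XT.lf (nat_lit 0) (nat_lit 7693964036) (nat_lit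 1824) (nat_lit 2026778987) (nat_lit 76) (nat_lit 2969636897) (nat_lit 420) (nat_lit 5) (nat_lit 444) (nat_lit 5) (nat_lit 421) (nat_lit 5) (nat_lit 449) (nat_lit 422) (nat_lit 269)) (XT.nd (nat_lit 78) (nat_lit 0) (nat_lit 0) (XT.lf (nat_lit 0) (nat_lit 4795651448) (nat_lit 1292) (nat_lit 4455578552) (nat_lit 1368) (nat_lit 3569855025) (nat_lit 403) (nat_lit 5) (nat_lit 420) (nat_lit 5) (nat_lit 421) (nat_lit 5) (nat_lit 450) (nat_lit 422) (nat_lit 268)) (XT.lf (nat_lit 0) (nat_lit 10847524829) (nat_lit 1368) (nat_lit 1188826043) (nat_lit 76) (nat_lit 917898921) (nat_lit 403) (nat_lit 5) (nat_lit 421) (nat_lit 5) (nat_lit 404) (nat_lit 5) (nat_lit 451) (nat_lit 422) (nat_lit 267)))) (XT.nd (nat_lit 78) (nat_lit 912) (nat_lit 0) (XT.lf (nat_lit 0) (nat_lit 5820889984) (nat_lit 912) (nat_lit 6710638784) (nat_lit 988) (nat_lit 557436594) (nat_lit 391) (nat_lit 5) (nat_lit 403) (nat_lit 5) (nat_lit 404) (nat_lit 5) (nat_lit 452)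 (nat_lit 422) (nat_lit 266)) (XT.nd (nat_lit 78) (nat_lit 836) (nat_lit 0) (XT.lf (nat_lit 0) (nat_lit 1006016394) (nat_lit 988) (nat_lit 256539046) (nat_lit 76) (nat_lit 11963758160) (nat_lit 390) (nat_lit 5) (nat_lit 403) (nat_lit 5) (nat_lit 391) (nat_lit 5) (nat_lit 453) (nat_lit 422) (nat_lit 265)) (XT.lf (nat_lit 0) (nat_lit 2655552320) (nat_lit 912) (nat_lit 6421223522) (nat_lit 76) (nat_lit 4288316697) (nat_lit 379) (nat_lit 5) (nat_lit 391) (nat_lit 5) (nat_lit 380) (nat_lit 5) (nat_lit 454) (nat_lit 422) (nat_lit 264))))) (XT.nd (nat_lit 234) (nat_lit 836) (nat_lit 0) (XT.nd (nat_lit 78) (nat_lit 836) (nat_lit 0) (XT.lf (nat_lit 0) (nat_lit 776461571) (nat_lit 912) (nat_lit 3565698529) (nat_lit 988) (nat_lit 9164408262) (nat_lit 367) (nat_lit 5) (nat_lit 379) (nat_lit 5) (nat_lit 380) (nat_lit 5) (nat_lit 455) (nat_lit 422) (nat_lit 263)) (XT.nd (nat_lit 78) (nat_lit 836) (nat_lit 0) (XT.lf (nat_lit 0) (nat_lit 6108319254)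 (nat_lit 988) (nat_lit 5469156074) (nat_lit 76) (nat_lit 2072484861) (nat_lit 367) (nat_lit 5) (nat_lit 380) (nat_lit 5) (nat_lit 368) (nat_lit 5) (nat_lit 456) (nat_lit 422) (nat_lit 262)) (XT.lf (nat_lit 0) (nat_lit 1928243703) (nat_lit 836) (nat_lit 6007002736) (nat_lit 912) (nat_lit 5860467331) (nat_lit 356) (nat_lit 5) (nat_lit 367) (nat_lit 5) (nat_lit 368) (nat_lit 5) (nat_lit 457) (nat_lit 422) (nat_lit 261)))) (XT.nd (nat_lit 78) (nat_lit 836) (nat_lit 0) (XT.lf (nat_lit 0) (nat_lit 9537350725) (nat_lit 836) (nat_lit 287516078) (nat_lit 912) (nat_lit 4118995286) (nat_lit 356) (nat_lit 5) (nat_lit 367) (nat_lit 5) (nat_lit 368) (nat_lit 5) (nat_lit 458) (nat_lit 422) (nat_lit 260)) (XT.nd (nat_lit 78) (nat_lit 0) (nat_lit 0) (XT.lf (nat_lit 0) (nat_lit 3199230634) (nat_lit 836) (nat_lit 8599492709) (nat_lit 912) (nat_lit 2295323863) (nat_lit 345) (nat_lit 5) (nat_lit 356) (nat_lit 5) (nat_lit 357) (nat_lit 5) (nat_lit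 459) (nat_lit 422) (nat_lit 259)) (XT.lf (nat_lit 0) (nat_lit 11004574110) (nat_lit 836) (nat_lit 2828741796) (nat_lit 912) (nat_lit 413497593) (nat_lit 345) (nat_lit 5) (nat_lit 356) (nat_lit 5) (nat_lit 357) (nat_lit 5) (nat_lit 460) (nat_lit 422) (nat_lit 258))))))))
noncomputable def xc190 : XT := (XT.nd (nat_lit 1716) (nat_lit 6460) (nat_lit 0) (XT.nd (nat_lit 858) (nat_lit 3952) (nat_lit 0) (XT.nd (nat_lit 390) (nat_lit 2204) (nat_lit 0) (XT.nd (nat_lit 156) (nat_lit 1520) (nat_lit 0) (XT.nd (nat_lit 78) (nat_lit 0) (nat_lit 0) (XT.lf (nat_lit 0) (nat_lit 1526145682) (nat_lit 836) (nat_lit 9818417133) (nat_lit 76) (nat_lit 3057080669) (nat_lit 334) (nat_lit 5) (nat_lit 345) (nat_lit 5) (nat_lit 335) (nat_lit 5) (nat_lit 461) (nat_lit 422) (nat_lit 257)) (XT.lf (nat_lit 0) (nat_lit 3529743248) (nat_lit 836) (nat_lit 1981981810) (nat_lit 76) (nat_lit 9047178884) (nat_lit 334) (nat_lit 5) (nat_lit 345) (nat_lit 5) (nat_lit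 335) (nat_lit 5) (nat_lit 462) (nat_lit 422) (nat_lit 256))) (XT.nd (nat_lit 78) (nat_lit 760) (nat_lit 0) (XT.lf (nat_lit 0) (nat_lit 5606247305) (nat_lit 836) (nat_lit 8641064192) (nat_lit 76) (nat_lit 471343869) (nat_lit 324) (nat_lit 5) (nat_lit 335) (nat_lit 5) (nat_lit 325) (nat_lit 5) (nat_lit 463) (nat_lit 422) (nat_lit 255)) (XT.nd (nat_lit 78) (nat_lit 760) (nat_lit 0) (XT.lf (nat_lit 0) (nat_lit 7764546742) (nat_lit 836) (nat_lit 603006430) (nat_lit 76) (nat_lit 6513245745) (nat_lit 324) (nat_lit 5) (nat_lit 335) (nat_lit 5) (nat_lit 325) (nat_lit 5) (nat_lit 464) (nat_lit 422) (nat_lit 254)) (XT.lf (nat_lit 0) (nat_lit 7686521672) (nat_lit 760) (nat_lit 2319960792) (nat_lit 836) (nat_lit 5038895825) (nat_lit 314) (nat_lit 5) (nat_lit 324) (nat_lit 5) (nat_lit 325) (nat_lit 5) (nat_lit 465) (nat_lit 422) (nat_lit 253))))) (XT.nd (nat_lit 234) (nat_lit 684) (nat_lit 0) (XT.nd (nat_lit 78) (nat_lit 760) (nat_lit 0)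 (XT.lf (nat_lit 0) (nat_lit 913595105) (nat_lit 760) (nat_lit 11405333804) (nat_lit 836) (nat_lit 2893809208) (nat_lit 304) (nat_lit 5) (nat_lit 314) (nat_lit 5) (nat_lit 315) (nat_lit 5) (nat_lit 466) (nat_lit 422) (nat_lit 252)) (XT.nd (nat_lit 78) (nat_lit 760) (nat_lit 0) (XT.lf (nat_lit 0) (nat_lit 9425527734) (nat_lit 760) (nat_lit 5307537593) (nat_lit 836) (nat_lit 649273258) (nat_lit 304) (nat_lit 5) (nat_lit 314) (nat_lit 5) (nat_lit 315) (nat_lit 5) (nat_lit 467) (nat_lit 422) (nat_lit 251)) (XT.lf (nat_lit 0) (nat_lit 1632310016) (nat_lit 760) (nat_lit 12995777823) (nat_lit 76) (nat_lit 926759070) (nat_lit 294) (nat_lit 5) (nat_lit 304) (nat_lit 5) (nat_lit 295) (nat_lit 5) (nat_lit 468) (nat_lit 422) (nat_lit 250)))) (XT.nd (nat_lit 78) (nat_lit 684) (nat_lit 0) (XT.lf (nat_lit 0) (nat_lit 4017247915) (nat_lit 760) (nat_lit 4453890608) (nat_lit 76) (nat_lit 7258254840) (nat_lit 294) (nat_lit 5) (nat_lit 304) (nat_lit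 5) (nat_lit 295) (nat_lit 5) (nat_lit 469) (nat_lit 422) (nat_lit 249)) (XT.nd (nat_lit 78) (nat_lit 0) (nat_lit 0) (XT.lf (nat_lit 0) (nat_lit 4305315378) (nat_lit 684) (nat_lit 2163719496) (nat_lit 760) (nat_lit 9438014959) (nat_lit 285) (nat_lit 5) (nat_lit 294) (nat_lit 5) (nat_lit 295) (nat_lit 5) (nat_lit 470) (nat_lit 422) (nat_lit 248)) (XT.lf (nat_lit 0) (nat_lit 9018963739) (nat_lit 760) (nat_lit 2825589413) (nat_lit 76) (nat_lit 4242726207) (nat_lit 285) (nat_lit 5) (nat_lit 295) (nat_lit 5) (nat_lit 286) (nat_lit 5) (nat_lit 471) (nat_lit 422) (nat_lit 247)))))) (XT.nd (nat_lit 390) (nat_lit 1900) (nat_lit 0) (XT.nd (nat_lit 156) (nat_lit 1368) (nat_lit 0) (XT.nd (nat_lit 78) (nat_lit 0) (nat_lit 0) (XT.lf (nat_lit 0) (nat_lit 6182951283) (nat_lit 684) (nat_lit 5482881221) (nat_lit 760) (nat_lit 4604364157) (nat_lit 276) (nat_lit 5) (nat_lit 285) (nat_lit 5) (nat_lit 286) (nat_lit 5) (nat_lit 472) (nat_lit 422) (nat_lit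 246)) (XT.lf (nat_lit 0) (nat_lit 14382819867) (nat_lit 760) (nat_lit 1063070947) (nat_lit 76) (nat_lit 1010539840) (nat_lit 276) (nat_lit 5) (nat_lit 286) (nat_lit 5) (nat_lit 277) (nat_lit 5) (nat_lit 473) (nat_lit 422) (nat_lit 245))) (XT.nd (nat_lit 78) (nat_lit 608) (nat_lit 0) (XT.lf (nat_lit 0) (nat_lit 582933188) (nat_lit 760) (nat_lit 8445528247) (nat_lit 76) (nat_lit 7616227154) (nat_lit 266) (nat_lit 5) (nat_lit 276) (nat_lit 5) (nat_lit 267) (nat_lit 5) (nat_lit 474) (nat_lit 422) (nat_lit 244)) (XT.nd (nat_lit 78) (nat_lit 0) (nat_lit 0) (XT.lf (nat_lit 0) (nat_lit 811504773) (nat_lit 608) (nat_lit 2457584594) (nat_lit 684) (nat_lit 13567265103) (nat_lit 258) (nat_lit 5) (nat_lit 266) (nat_lit 5) (nat_lit 267) (nat_lit 5) (nat_lit 475) (nat_lit 422) (nat_lit 243)) (XT.lf (nat_lit 0) (nat_lit 6085435846) (nat_lit 684) (nat_lit 6700420199) (nat_lit 76) (nat_lit 4244470101) (nat_lit 258) (nat_lit 5) (nat_lit 267) (nat_lit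 5) (nat_lit 259) (nat_lit 5) (nat_lit 476) (nat_lit 422) (nat_lit 242))))) (XT.nd (nat_lit 234) (nat_lit 684) (nat_lit 0) (XT.nd (nat_lit 78) (nat_lit 608) (nat_lit 0) (XT.lf (nat_lit 0) (nat_lit 2821496510) (nat_lit 608) (nat_lit 6163225243) (nat_lit 684) (nat_lit 8242925039) (nat_lit 250) (nat_lit 5) (nat_lit 258) (nat_lit 5) (nat_lit 259) (nat_lit 5) (nat_lit 477) (nat_lit 422) (nat_lit 241)) (XT.nd (nat_lit 78) (nat_lit 608) (nat_lit 0) (XT.lf (nat_lit 0) (nat_lit 11983197513) (nat_lit 684) (nat_lit 4817291946) (nat_lit 76) (nat_lit 627602059) (nat_lit 250) (nat_lit 5) (nat_lit 259) (nat_lit 5) (nat_lit 251) (nat_lit 5) (nat_lit 478) (nat_lit 422) (nat_lit 240)) (XT.lf (nat_lit 0) (nat_lit 4978195493) (nat_lit 608) (nat_lit 10128840278) (nat_lit 684) (nat_lit 2524203223) (nat_lit 242) (nat_lit 5) (nat_lit 250) (nat_lit 5) (nat_lit 251) (nat_lit 5) (nat_lit 479) (nat_lit 422) (nat_lit 239)))) (XT.nd (nat_lit 78) (nat_lit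 608) (nat_lit 0) (XT.lf (nat_lit 0) (nat_lit 473768528) (nat_lit 684) (nat_lit 2815740856) (nat_lit 76) (nat_lit 14548385949) (nat_lit 241) (nat_lit 5) (nat_lit 250) (nat_lit 5) (nat_lit 242) (nat_lit 5) (nat_lit 480) (nat_lit 422) (nat_lit 238)) (XT.nd (nat_lit 78) (nat_lit 0) (nat_lit 0) (XT.lf (nat_lit 0) (nat_lit 3562040059) (nat_lit 684) (nat_lit 10784206912) (nat_lit 76) (nat_lit 3700822957) (nat_lit 233) (nat_lit 5) (nat_lit 242) (nat_lit 5) (nat_lit 234) (nat_lit 5) (nat_lit 481) (nat_lit 422) (nat_lit 237)) (XT.lf (nat_lit 0) (nat_lit 6745400284) (nat_lit 684) (nat_lit 710302280) (nat_lit 76) (nat_lit 10804060571) (nat_lit 233) (nat_lit 5) (nat_lit 242) (nat_lit 5) (nat_lit 234) (nat_lit 5) (nat_lit 482) (nat_lit 422) (nat_lit 236))))))) (XT.nd (nat_lit 858) (nat_lit 2736) (nat_lit 0) (XT.nd (nat_lit 390) (nat_lit 2052) (nat_lit 0) (XT.nd (nat_lit 156) (nat_lit 608) (nat_lit 0) (XT.nd (nat_lit 78) (nat_lit 532) (nat_lit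 0) (XT.lf (nat_lit 0) (nat_lit 9682708875) (nat_lit 532) (nat_lit 365250306) (nat_lit 608) (nat_lit 8427641948) (nat_lit 226) (nat_lit 5) (nat_lit 233) (nat_lit 5) (nat_lit 234) (nat_lit 5) (nat_lit 483) (nat_lit 422) (nat_lit 235)) (XT.lf (nat_lit 0) (nat_lit 1564009846) (nat_lit 532) (nat_lit 11904832298) (nat_lit 608) (nat_lit 5225869806) (nat_lit 219) (nat_lit 5) (nat_lit 226) (nat_lit 5) (nat_lit 227) (nat_lit 5) (nat_lit 484) (nat_lit 422) (nat_lit 234))) (XT.nd (nat_lit 78) (nat_lit 608) (nat_lit 0) (XT.lf (nat_lit 0) (nat_lit 12235417300) (nat_lit 532) (nat_lit 4776950004) (nat_lit 608) (nat_lit 1904754686) (nat_lit 219) (nat_lit 5) (nat_lit 226) (nat_lit 5) (nat_lit 227) (nat_lit 5) (nat_lit 485) (nat_lit 422) (nat_lit 233)) (XT.nd (nat_lit 78) (nat_lit 0) (nat_lit 0) (XT.lf (nat_lit 0) (nat_lit 1498691784) (nat_lit 608) (nat_lit 15149868385) (nat_lit 76) (nat_lit 2494521834) (nat_lit 211) (nat_lit 5) (nat_lit 219)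 (nat_lit 5) (nat_lit 212) (nat_lit 5) (nat_lit 486) (nat_lit 422) (nat_lit 232)) (XT.lf (nat_lit 0) (nat_lit 5014470691) (nat_lit 608) (nat_lit 4454358288) (nat_lit 76) (nat_lit 9903086473) (nat_lit 211) (nat_lit 5) (nat_lit 219) (nat_lit 5) (nat_lit 212) (nat_lit 5) (nat_lit 487) (nat_lit 422) (nat_lit 231))))) (XT.nd (nat_lit 234) (nat_lit 1064) (nat_lit 0) (XT.nd (nat_lit 78) (nat_lit 456) (nat_lit 0) (XT.lf (nat_lit 0) (nat_lit 6531558148) (nat_lit 532) (nat_lit 2104526200) (nat_lit 608) (nat_lit 10968532218) (nat_lit 204) (nat_lit 5) (nat_lit 211) (nat_lit 5) (nat_lit 212) (nat_lit 5) (nat_lit 488) (nat_lit 422) (nat_lit 230)) (XT.nd (nat_lit 78) (nat_lit 456) (nat_lit 0) (XT.lf (nat_lit 0) (nat_lit 12388498567) (nat_lit 608) (nat_lit 2088333976) (nat_lit 76) (nat_lit 5363973146) (nat_lit 204) (nat_lit 5) (nat_lit 212) (nat_lit 5) (nat_lit 205) (nat_lit 5) (nat_lit 489) (nat_lit 422) (nat_lit 229)) (XT.lf (nat_lit 0) (nat_lit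 9213942346) (nat_lit 456) (nat_lit 7069085879) (nat_lit 532) (nat_lit 3797350353) (nat_lit 198) (nat_lit 5) (nat_lit 204) (nat_lit 5) (nat_lit 205) (nat_lit 5) (nat_lit 490) (nat_lit 422) (nat_lit 228)))) (XT.nd (nat_lit 78) (nat_lit 532) (nat_lit 0) (XT.lf (nat_lit 0) (nat_lit 439513560) (nat_lit 532) (nat_lit 19829420261) (nat_lit 608) (nat_lit 55540696) (nat_lit 191) (nat_lit 5) (nat_lit 198) (nat_lit 5) (nat_lit 199) (nat_lit 5) (nat_lit 491) (nat_lit 422) (nat_lit 227)) (XT.nd (nat_lit 78) (nat_lit 456) (nat_lit 0) (XT.lf (nat_lit 0) (nat_lit 3825386155) (nat_lit 608) (nat_lit 8533967705) (nat_lit 76) (nat_lit 8211339204) (nat_lit 190) (nat_lit 5) (nat_lit 198) (nat_lit 5) (nat_lit 191) (nat_lit 5) (nat_lit 492) (nat_lit 422) (nat_lit 226)) (XT.lf (nat_lit 0) (nat_lit 3075050739) (nat_lit 456) (nat_lit 4721623685) (nat_lit 532) (nat_lit 13024885708) (nat_lit 184) (nat_lit 5) (nat_lit 190) (nat_lit 5) (nat_lit 191) (nat_lit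 5) (nat_lit 493) (nat_lit 422) (nat_lit 225)))))) (XT.nd (nat_lit 468) (nat_lit 1292) (nat_lit 0) (XT.nd (nat_lit 234) (nat_lit 988) (nat_lit 0) (XT.nd (nat_lit 78) (nat_lit 456) (nat_lit 0) (XT.lf (nat_lit 0) (nat_lit 11918533941) (nat_lit 532) (nat_lit 6073684824) (nat_lit 76) (nat_lit 3083804069) (nat_lit 184) (nat_lit 5) (nat_lit 191) (nat_lit 5) (nat_lit 185) (nat_lit 5) (nat_lit 494) (nat_lit 422) (nat_lit 224)) (XT.nd (nat_lit 78) (nat_lit 0) (nat_lit 0) (XT.lf (nat_lit 0) (nat_lit 5869472050) (nat_lit 456) (nat_lit 10316435870) (nat_lit 532) (nat_lit 5148406501) (nat_lit 178) (nat_lit 5) (nat_lit 184) (nat_lit 5) (nat_lit 185) (nat_lit 5) (nat_lit 495) (nat_lit 422) (nat_lit 223)) (XT.lf (nat_lit 0) (nat_lit 18125046241) (nat_lit 456) (nat_lit 2448107049) (nat_lit 532) (nat_lit 1023929227) (nat_lit 178) (nat_lit 5) (nat_lit 184) (nat_lit 5) (nat_lit 185) (nat_lit 5) (nat_lit 496) (nat_lit 422) (nat_lit 222)))) (XT.nd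 (nat_lit 78) (nat_lit 456) (nat_lit 0) (XT.lf (nat_lit 0) (nat_lit 3229295222) (nat_lit 532) (nat_lit 13053075646) (nat_lit 76) (nat_lit 5580562814) (nat_lit 171) (nat_lit 5) (nat_lit 178) (nat_lit 5) (nat_lit 172) (nat_lit 5) (nat_lit 497) (nat_lit 422) (nat_lit 221)) (XT.nd (nat_lit 78) (nat_lit 456) (nat_lit 0) (XT.lf (nat_lit 0) (nat_lit 7587447730) (nat_lit 532) (nat_lit 781065423) (nat_lit 76) (nat_lit 13764782963) (nat_lit 171) (nat_lit 5) (nat_lit 178) (nat_lit 5) (nat_lit 172) (nat_lit 5) (nat_lit 498) (nat_lit 422) (nat_lit 220)) (XT.lf (nat_lit 0) (nat_lit 11883676638) (nat_lit 456) (nat_lit 220258110) (nat_lit 532) (nat_lit 10303708686) (nat_lit 165) (nat_lit 5) (nat_lit 171) (nat_lit 5) (nat_lit 172) (nat_lit 5) (nat_lit 499) (nat_lit 422) (nat_lit 219))))) (XT.nd (nat_lit 234) (nat_lit 380) (nat_lit 0) (XT.nd (nat_lit 78) (nat_lit 532) (nat_lit 0) (XT.lf (nat_lit 0) (nat_lit 2091176470) (nat_lit 380) (nat_lit 14685020385)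 (nat_lit 456) (nat_lit 5909972984) (nat_lit 160) (nat_lit 5) (nat_lit 165) (nat_lit 5) (nat_lit 166) (nat_lit 5) (nat_lit 500) (nat_lit 422) (nat_lit 218)) (XT.nd (nat_lit 78) (nat_lit 532) (nat_lit 0) (XT.lf (nat_lit 0) (nat_lit 15091245053) (nat_lit 380) (nat_lit 6516850580) (nat_lit 456) (nat_lit 1360848337) (nat_lit 160) (nat_lit 5) (nat_lit 165) (nat_lit 5) (nat_lit 166) (nat_lit 5) (nat_lit 501) (nat_lit 422) (nat_lit 217)) (XT.lf (nat_lit 0) (nat_lit 3275891342) (nat_lit 532) (nat_lit 18137039295) (nat_lit 76) (nat_lit 1843225296) (nat_lit 153) (nat_lit 5) (nat_lit 160) (nat_lit 5) (nat_lit 154) (nat_lit 5) (nat_lit 502) (nat_lit 422) (nat_lit 216)))) (XT.nd (nat_lit 78) (nat_lit 380) (nat_lit 0) (XT.lf (nat_lit 0) (nat_lit 8077771629) (nat_lit 532) (nat_lit 5126430209) (nat_lit 76) (nat_lit 10342918809) (nat_lit 153) (nat_lit 5) (nat_lit 160) (nat_lit 5) (nat_lit 154) (nat_lit 5) (nat_lit 503) (nat_lit 422) (nat_lit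 215)) (XT.nd (nat_lit 78) (nat_lit 0) (nat_lit 0) (XT.lf (nat_lit 0) (nat_lit 8244173852) (nat_lit 380) (nat_lit 4779394268) (nat_lit 456) (nat_lit 10819379908) (nat_lit 148) (nat_lit 5) (nat_lit 153) (nat_lit 5) (nat_lit 154) (nat_lit 5) (nat_lit 504) (nat_lit 422) (nat_lit 214)) (XT.lf (nat_lit 0) (nat_lit 18122063242) (nat_lit 456) (nat_lit 2225695491) (nat_lit 76) (nat_lit 3795858500) (nat_lit 148) (nat_lit 5) (nat_lit 154) (nat_lit 5) (nat_lit 149) (nat_lit 5) (nat_lit 505) (nat_lit 422) (nat_lit 213))))))))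
noncomputable def xc191 : XT := (XT.nd (nat_lit 54522) (nat_lit 0) (nat_lit 12996) (XT.nd (nat_lit 53664) (nat_lit 0) (nat_lit 24092) (XT.nd (nat_lit 53196) (nat_lit 0) (nat_lit 25536) (XT.nd (nat_lit 52962) (nat_lit 0) (nat_lit 25460) (XT.nd (nat_lit 52884) (nat_lit 0) (nat_lit 25460) (XT.lf (nat_lit 0) (nat_lit 11526143530) (nat_lit 380) (nat_lit 11897373099) (nat_lit 456) (nat_lit 1024764338) (nat_lit 143) (nat_lit 5) (nat_lit 148) (nat_lit 5) (nat_lit 149) (nat_lit 5) (nat_lit 506) (nat_lit 422) (nat_lit 212)) (XT.lf (nat_lit 0) (nat_lit 690624651) (nat_lit 0) (nat_lit 690624651) (nat_lit 1596) (nat_lit 3628511265) (nat_lit 478) (nat_lit 5) (nat_lit 478) (nat_lit 3) (nat_lit 499) (nat_lit 3) (nat_lit 423) (nat_lit 423) (nat_lit 294))) (XT.nd (nat_lit 78) (nat_lit 0) (nat_lit 0) (XT.lf (nat_lit 0) (nat_lit 3505455868) (nat_lit 1596) (nat_lit 3814561432) (nat_lit 1672) (nat_lit 2785181984) (nat_lit 478) (nat_lit 5) (nat_lit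 499) (nat_lit 3) (nat_lit 500) (nat_lit 5) (nat_lit 424) (nat_lit 423) (nat_lit 293)) (XT.nd (nat_lit 78) (nat_lit 0) (nat_lit 76) (XT.lf (nat_lit 76) (nat_lit 1101348289) (nat_lit 0) (nat_lit 3159998577) (nat_lit 1672) (nat_lit 5931288156) (nat_lit 479) (nat_lit 5) (nat_lit 478) (nat_lit 5) (nat_lit 500) (nat_lit 5) (nat_lit 425) (nat_lit 423) (nat_lit 292)) (XT.lf (nat_lit 0) (nat_lit 5047282716) (nat_lit 1596) (nat_lit 4131154017) (nat_lit 1672) (nat_lit 1103089613) (nat_lit 479) (nat_lit 5) (nat_lit 500) (nat_lit 5) (nat_lit 501) (nat_lit 5) (nat_lit 426) (nat_lit 423) (nat_lit 291))))) (XT.nd (nat_lit 234) (nat_lit 0) (nat_lit 76) (XT.nd (nat_lit 78) (nat_lit 0) (nat_lit 0) (XT.lf (nat_lit 76) (nat_lit 909448875) (nat_lit 0) (nat_lit 4948797558) (nat_lit 1672) (nat_lit 4513768186) (nat_lit 480) (nat_lit 5) (nat_lit 479) (nat_lit 5) (nat_lit 501) (nat_lit 5) (nat_lit 427) (nat_lit 423) (nat_lit 290)) (XT.nd (nat_lit 78)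 (nat_lit 0) (nat_lit 76) (XT.lf (nat_lit 76) (nat_lit 6097193820) (nat_lit 0) (nat_lit 598715891) (nat_lit 1672) (nat_lit 3768198541) (nat_lit 480) (nat_lit 5) (nat_lit 479) (nat_lit 5) (nat_lit 501) (nat_lit 5) (nat_lit 428) (nat_lit 423) (nat_lit 289)) (XT.lf (nat_lit 76) (nat_lit 806434529) (nat_lit 0) (nat_lit 6757193212) (nat_lit 1672) (nat_lit 2994155086) (nat_lit 481) (nat_lit 5) (nat_lit 480) (nat_lit 5) (nat_lit 502) (nat_lit 5) (nat_lit 429) (nat_lit 423) (nat_lit 288)))) (XT.nd (nat_lit 78) (nat_lit 0) (nat_lit 76) (XT.lf (nat_lit 76) (nat_lit 6128621702) (nat_lit 0) (nat_lit 2336732832) (nat_lit 1672) (nat_lit 2187648270) (nat_lit 481) (nat_lit 5) (nat_lit 480) (nat_lit 5) (nat_lit 502) (nat_lit 5) (nat_lit 430) (nat_lit 423) (nat_lit 287)) (XT.nd (nat_lit 78) (nat_lit 0) (nat_lit 0) (XT.lf (nat_lit 76) (nat_lit 793441793) (nat_lit 0) (nat_lit 8594708210) (nat_lit 1672) (nat_lit 1361921397) (nat_lit 482) (nat_lit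 5) (nat_lit 481) (nat_lit 5) (nat_lit 503) (nat_lit 5) (nat_lit 431) (nat_lit 423) (nat_lit 286)) (XT.lf (nat_lit 76) (nat_lit 6253348497) (nat_lit 0) (nat_lit 4105820372) (nat_lit 1672) (nat_lit 489321953) (nat_lit 482) (nat_lit 5) (nat_lit 481) (nat_lit 5) (nat_lit 503) (nat_lit 5) (nat_lit 432) (nat_lit 423) (nat_lit 285)))))) (XT.nd (nat_lit 390) (nat_lit 0) (nat_lit 152) (XT.nd (nat_lit 156) (nat_lit 0) (nat_lit 0) (XT.nd (nat_lit 78) (nat_lit 0) (nat_lit 0) (XT.lf (nat_lit 0) (nat_lit 388539117) (nat_lit 1672) (nat_lit 10079720838) (nat_lit 1748) (nat_lit 480709955) (nat_lit 460) (nat_lit 5) (nat_lit 482) (nat_lit 5) (nat_lit 483) (nat_lit 5) (nat_lit 433) (nat_lit 423) (nat_lit 284)) (XT.lf (nat_lit 0) (nat_lit 1320162007) (nat_lit 1672) (nat_lit 4586487590) (nat_lit 1748) (nat_lit 5143893689) (nat_lit 460) (nat_lit 5) (nat_lit 482) (nat_lit 5) (nat_lit 483) (nat_lit 5) (nat_lit 434) (nat_lit 423) (nat_lit 283))) (XT.nd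 (nat_lit 78) (nat_lit 0) (nat_lit 76) (XT.lf (nat_lit 76) (nat_lit 1019961045) (nat_lit 0) (nat_lit 1241901708) (nat_lit 1748) (nat_lit 8892460908) (nat_lit 461) (nat_lit 5) (nat_lit 460) (nat_lit 5) (nat_lit 483) (nat_lit 5) (nat_lit 435) (nat_lit 423) (nat_lit 282)) (XT.nd (nat_lit 78) (nat_lit 0) (nat_lit 0) (XT.lf (nat_lit 0) (nat_lit 3261296615) (nat_lit 1672) (nat_lit 4492183211) (nat_lit 1748) (nat_lit 3505926187) (nat_lit 461) (nat_lit 5) (nat_lit 483) (nat_lit 5) (nat_lit 484) (nat_lit 5) (nat_lit 436) (nat_lit 423) (nat_lit 281)) (XT.lf (nat_lit 76) (nat_lit 1261060305) (nat_lit 0) (nat_lit 3021451796) (nat_lit 1748) (nat_lit 7084046319) (nat_lit 462) (nat_lit 5) (nat_lit 461) (nat_lit 5) (nat_lit 484) (nat_lit 5) (nat_lit 437) (nat_lit 423) (nat_lit 280))))) (XT.nd (nat_lit 234) (nat_lit 0) (nat_lit 76) (XT.nd (nat_lit 78) (nat_lit 0) (nat_lit 0) (XT.lf (nat_lit 0) (nat_lit 5351847823) (nat_lit 1672) (nat_lit 4307257957)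 (nat_lit 1748) (nat_lit 1816198360) (nat_lit 462) (nat_lit 5) (nat_lit 484) (nat_lit 5) (nat_lit 485) (nat_lit 5) (nat_lit 438) (nat_lit 423) (nat_lit 279)) (XT.nd (nat_lit 78) (nat_lit 0) (nat_lit 76) (XT.lf (nat_lit 76) (nat_lit 1597746935) (nat_lit 0) (nat_lit 4861119032) (nat_lit 1748) (nat_lit 5127036994) (nat_lit 463) (nat_lit 5) (nat_lit 462) (nat_lit 5) (nat_lit 485) (nat_lit 5) (nat_lit 439) (nat_lit 423) (nat_lit 278)) (XT.lf (nat_lit 0) (nat_lit 7603480911) (nat_lit 1672) (nat_lit 4029686958) (nat_lit 1748) (nat_lit 65240781) (nat_lit 463) (nat_lit 5) (nat_lit 485) (nat_lit 5) (nat_lit 486) (nat_lit 5) (nat_lit 440) (nat_lit 423) (nat_lit 277)))) (XT.nd (nat_lit 78) (nat_lit 0) (nat_lit 0) (XT.lf (nat_lit 76) (nat_lit 2032230677) (nat_lit 0) (nat_lit 6770564431) (nat_lit 1748) (nat_lit 3009737148) (nat_lit 464) (nat_lit 5) (nat_lit 463) (nat_lit 5) (nat_lit 486) (nat_lit 5) (nat_lit 441) (nat_lit 423) (nat_lit 276))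 (XT.nd (nat_lit 78) (nat_lit 0) (nat_lit 76) (XT.lf (nat_lit 76) (nat_lit 8259896069) (nat_lit 0) (nat_lit 1779860979) (nat_lit 1748) (nat_lit 1888911920) (nat_lit 464) (nat_lit 5) (nat_lit 463) (nat_lit 5) (nat_lit 486) (nat_lit 5) (nat_lit 442) (nat_lit 423) (nat_lit 275)) (XT.lf (nat_lit 76) (nat_lit 2566954772) (nat_lit 0) (nat_lit 8759568084) (nat_lit 1748) (nat_lit 720108055) (nat_lit 465) (nat_lit 5) (nat_lit 464) (nat_lit 5) (nat_lit 487) (nat_lit 5) (nat_lit 443) (nat_lit 423) (nat_lit 274))))))) (XT.nd (nat_lit 858) (nat_lit 4940) (nat_lit 0) (XT.nd (nat_lit 390) (nat_lit 4712) (nat_lit 0) (XT.nd (nat_lit 156) (nat_lit 0) (nat_lit 76) (XT.nd (nat_lit 78) (nat_lit 0) (nat_lit 76) (XT.lf (nat_lit 0) (nat_lit 489455313) (nat_lit 1748) (nat_lit 3214658618) (nat_lit 1824) (nat_lit 8462309008) (nat_lit 441) (nat_lit 5) (nat_lit 464) (nat_lit 5) (nat_lit 465) (nat_lit 5) (nat_lit 444) (nat_lit 423) (nat_lit 273)) (XT.lf (nat_lit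 0) (nat_lit 1731247899) (nat_lit 1748) (nat_lit 9095188807) (nat_lit 1824) (nat_lit 1461728871) (nat_lit 442) (nat_lit 5) (nat_lit 465) (nat_lit 5) (nat_lit 466) (nat_lit 5) (nat_lit 445) (nat_lit 423) (nat_lit 272))) (XT.nd (nat_lit 78) (nat_lit 0) (nat_lit 0) (XT.lf (nat_lit 0) (nat_lit 3031582652) (nat_lit 1748) (nat_lit 2674558737) (nat_lit 1824) (nat_lit 6705531053) (nat_lit 442) (nat_lit 5) (nat_lit 465) (nat_lit 5) (nat_lit 466) (nat_lit 5) (nat_lit 446) (nat_lit 423) (nat_lit 271)) (XT.nd (nat_lit 78) (nat_lit 0) (nat_lit 76) (XT.lf (nat_lit 76) (nat_lit 3915727538) (nat_lit 0) (nat_lit 455326773) (nat_lit 1824) (nat_lit 8166335958) (nat_lit 443) (nat_lit 5) (nat_lit 442) (nat_lit 5) (nat_lit 466) (nat_lit 5) (nat_lit 447) (nat_lit 423) (nat_lit 270)) (XT.lf (nat_lit 0) (nat_lit 5775095273) (nat_lit 1748) (nat_lit 2033430305) (nat_lit 76) (nat_lit 4856344642) (nat_lit 443) (nat_lit 5) (nat_lit 466) (nat_lit 5) (nat_lit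 444) (nat_lit 5) (nat_lit 448) (nat_lit 423) (nat_lit 269))))) (XT.nd (nat_lit 234) (nat_lit 1824) (nat_lit 0) (XT.nd (nat_lit 78) (nat_lit 1292) (nat_lit 0) (XT.lf (nat_lit 0) (nat_lit 4735556577) (nat_lit 1748) (nat_lit 2493555584) (nat_lit 1824) (nat_lit 5565353007) (nat_lit 420) (nat_lit 5) (nat_lit 443) (nat_lit 5) (nat_lit 444) (nat_lit 5) (nat_lit 449) (nat_lit 423) (nat_lit 268)) (XT.nd (nat_lit 78) (nat_lit 1292) (nat_lit 0) (XT.lf (nat_lit 0) (nat_lit 8733265442) (nat_lit 1824) (nat_lit 1288275264) (nat_lit 76) (nat_lit 2904693420) (nat_lit 420) (nat_lit 5) (nat_lit 444) (nat_lit 5) (nat_lit 421) (nat_lit 5) (nat_lit 450) (nat_lit 423) (nat_lit 267)) (XT.lf (nat_lit 0) (nat_lit 5665478522) (nat_lit 1292) (nat_lit 4643861748) (nat_lit 1368) (nat_lit 2750464594) (nat_lit 403) (nat_lit 5) (nat_lit 420) (nat_lit 5) (nat_lit 421) (nat_lit 5) (nat_lit 451) (nat_lit 423) (nat_lit 266)))) (XT.nd (nat_lit 78) (nat_lit 1824)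 (nat_lit 0) (XT.lf (nat_lit 0) (nat_lit 11919810406) (nat_lit 1368) (nat_lit 435877275) (nat_lit 76) (nat_lit 840304967) (nat_lit 403) (nat_lit 5) (nat_lit 421) (nat_lit 5) (nat_lit 404) (nat_lit 5) (nat_lit 452) (nat_lit 423) (nat_lit 265)) (XT.nd (nat_lit 78) (nat_lit 836) (nat_lit 0) (XT.lf (nat_lit 0) (nat_lit 288259790) (nat_lit 988) (nat_lit 6626615784) (nat_lit 76) (nat_lit 6418728872) (nat_lit 390) (nat_lit 5) (nat_lit 403) (nat_lit 5) (nat_lit 391) (nat_lit 5) (nat_lit 453) (nat_lit 423) (nat_lit 264)) (XT.lf (nat_lit 0) (nat_lit 512830020) (nat_lit 836) (nat_lit 1349369686) (nat_lit 912) (nat_lit 11611697048) (nat_lit 379) (nat_lit 5) (nat_lit 390) (nat_lit 5) (nat_lit 391) (nat_lit 5) (nat_lit 454) (nat_lit 423) (nat_lit 263)))))) (XT.nd (nat_lit 468) (nat_lit 2356) (nat_lit 0) (XT.nd (nat_lit 234) (nat_lit 1672) (nat_lit 0) (XT.nd (nat_lit 78) (nat_lit 912) (nat_lit 0) (XT.lf (nat_lit 0) (nat_lit 3529640021) (nat_lit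 912) (nat_lit 5769899797) (nat_lit 76) (nat_lit 4316217529) (nat_lit 379) (nat_lit 5) (nat_lit 391) (nat_lit 5) (nat_lit 380) (nat_lit 5) (nat_lit 455) (nat_lit 423) (nat_lit 262)) (XT.nd (nat_lit 78) (nat_lit 0) (nat_lit 0) (XT.lf (nat_lit 0) (nat_lit 1566609075) (nat_lit 912) (nat_lit 3672302635) (nat_lit 988) (nat_lit 8521376606) (nat_lit 367) (nat_lit 5) (nat_lit 379) (nat_lit 5) (nat_lit 380) (nat_lit 5) (nat_lit 456) (nat_lit 423) (nat_lit 261)) (XT.lf (nat_lit 0) (nat_lit 7024288856) (nat_lit 988) (nat_lit 4802795262) (nat_lit 76) (nat_lit 2079790147) (nat_lit 367) (nat_lit 5) (nat_lit 380) (nat_lit 5) (nat_lit 368) (nat_lit 5) (nat_lit 457) (nat_lit 423) (nat_lit 260)))) (XT.nd (nat_lit 78) (nat_lit 836) (nat_lit 0) (XT.lf (nat_lit 0) (nat_lit 2737448932) (nat_lit 836) (nat_lit 6139744392) (nat_lit 912) (nat_lit 5178564918) (nat_lit 356) (nat_lit 5) (nat_lit 367) (nat_lit 5) (nat_lit 368) (nat_lit 5) (nat_lit 458) (nat_lit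 423) (nat_lit 259)) (XT.nd (nat_lit 78) (nat_lit 836) (nat_lit 0) (XT.lf (nat_lit 0) (nat_lit 10483627500) (nat_lit 836) (nat_lit 305620911) (nat_lit 912) (nat_lit 3417932290) (nat_lit 356) (nat_lit 5) (nat_lit 367) (nat_lit 5) (nat_lit 368) (nat_lit 5) (nat_lit 459) (nat_lit 423) (nat_lit 258)) (XT.lf (nat_lit 0) (nat_lit 4029310373) (nat_lit 836) (nat_lit 8763110511) (nat_lit 912) (nat_lit 1568155800) (nat_lit 345) (nat_lit 5) (nat_lit 356) (nat_lit 5) (nat_lit 357) (nat_lit 5) (nat_lit 460) (nat_lit 423) (nat_lit 257))))) (XT.nd (nat_lit 234) (nat_lit 1520) (nat_lit 0) (XT.nd (nat_lit 78) (nat_lit 760) (nat_lit 0) (XT.lf (nat_lit 0) (nat_lit 331740019) (nat_lit 912) (nat_lit 2543142567) (nat_lit 76) (nat_lit 11641773076) (nat_lit 344) (nat_lit 5) (nat_lit 356) (nat_lit 5) (nat_lit 345) (nat_lit 5) (nat_lit 461) (nat_lit 423) (nat_lit 256)) (XT.nd (nat_lit 78) (nat_lit 0) (nat_lit 0) (XT.lf (nat_lit 0) (nat_lit 2295004840)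 (nat_lit 836) (nat_lit 9243756854) (nat_lit 76) (nat_lit 3135962293) (nat_lit 334) (nat_lit 5) (nat_lit 345) (nat_lit 5) (nat_lit 335) (nat_lit 5) (nat_lit 462) (nat_lit 423) (nat_lit 255)) (XT.lf (nat_lit 0) (nat_lit 4324197176) (nat_lit 836) (nat_lit 1265711032) (nat_lit 76) (nat_lit 9245514629) (nat_lit 334) (nat_lit 5) (nat_lit 345) (nat_lit 5) (nat_lit 335) (nat_lit 5) (nat_lit 463) (nat_lit 423) (nat_lit 254)))) (XT.nd (nat_lit 78) (nat_lit 760) (nat_lit 0) (XT.lf (nat_lit 0) (nat_lit 6433149890) (nat_lit 836) (nat_lit 8048715204) (nat_lit 76) (nat_lit 516689394) (nat_lit 324) (nat_lit 5) (nat_lit 335) (nat_lit 5) (nat_lit 325) (nat_lit 5) (nat_lit 464) (nat_lit 423) (nat_lit 253)) (XT.nd (nat_lit 78) (nat_lit 0) (nat_lit 0) (XT.lf (nat_lit 0) (nat_lit 136895786) (nat_lit 760) (nat_lit 8484593099) (nat_lit 836) (nat_lit 6542718052) (nat_lit 314) (nat_lit 5) (nat_lit 324) (nat_lit 5) (nat_lit 325) (nat_lit 5) (nat_lit 465)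 (nat_lit 423) (nat_lit 252)) (XT.lf (nat_lit 0) (nat_lit 8585483730) (nat_lit 760) (nat_lit 2312988873) (nat_lit 836) (nat_lit 4433804538) (nat_lit 314) (nat_lit 5) (nat_lit 324) (nat_lit 5) (nat_lit 325) (nat_lit 5) (nat_lit 466) (nat_lit 423) (nat_lit 251))))))))
noncomputable def xc192 : XT := (XT.nd (nat_lit 1716) (nat_lit 5624) (nat_lit 0) (XT.nd (nat_lit 858) (nat_lit 3572) (nat_lit 0) (XT.nd (nat_lit 390) (nat_lit 2052) (nat_lit 0) (XT.nd (nat_lit 156) (nat_lit 1368) (nat_lit 0) (XT.nd (nat_lit 78) (nat_lit 76) (nat_lit 0) (XT.lf (nat_lit 0) (nat_lit 1685768102) (nat_lit 760) (nat_lit 11563068534) (nat_lit 836) (nat_lit 2254317518) (nat_lit 304) (nat_lit 5) (nat_lit 314) (nat_lit 5) (nat_lit 315) (nat_lit 5) (nat_lit 467) (nat_lit 423) (nat_lit 250)) (XT.lf (nat_lit 0) (nat_lit 21154143) (nat_lit 836) (nat_lit 5323400142) (nat_lit 76) (nat_lit 10331860911) (nat_lit 303) (nat_lit 5) (nat_lit 314) (nat_lit 5) (nat_lit 304)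 (nat_lit 5) (nat_lit 468) (nat_lit 423) (nat_lit 249))) (XT.nd (nat_lit 78) (nat_lit 684) (nat_lit 0) (XT.lf (nat_lit 0) (nat_lit 2331779592) (nat_lit 760) (nat_lit 12499383983) (nat_lit 76) (nat_lit 1021285360) (nat_lit 294) (nat_lit 5) (nat_lit 304) (nat_lit 5) (nat_lit 295) (nat_lit 5) (nat_lit 469) (nat_lit 423) (nat_lit 248)) (XT.nd (nat_lit 78) (nat_lit 684) (nat_lit 0) (XT.lf (nat_lit 0) (nat_lit 4751341281) (nat_lit 760) (nat_lit 3801488621) (nat_lit 76) (nat_lit 7477921023) (nat_lit 294) (nat_lit 5) (nat_lit 304) (nat_lit 5) (nat_lit 295) (nat_lit 5) (nat_lit 470) (nat_lit 423) (nat_lit 247)) (XT.lf (nat_lit 0) (nat_lit 5128023329) (nat_lit 684) (nat_lit 2116104560) (nat_lit 760) (nat_lit 8967996403) (nat_lit 285) (nat_lit 5) (nat_lit 294) (nat_lit 5) (nat_lit 295) (nat_lit 5) (nat_lit 471) (nat_lit 423) (nat_lit 246))))) (XT.nd (nat_lit 234) (nat_lit 1368) (nat_lit 0) (XT.nd (nat_lit 78) (nat_lit 684) (nat_lit 0) (XT.lf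 (nat_lit 0) (nat_lit 9832972849) (nat_lit 760) (nat_lit 2147710940) (nat_lit 76) (nat_lit 4415519256) (nat_lit 285) (nat_lit 5) (nat_lit 295) (nat_lit 5) (nat_lit 286) (nat_lit 5) (nat_lit 472) (nat_lit 423) (nat_lit 245)) (XT.nd (nat_lit 78) (nat_lit 0) (nat_lit 0) (XT.lf (nat_lit 0) (nat_lit 7036169055) (nat_lit 684) (nat_lit 5488922598) (nat_lit 760) (nat_lit 4057843713) (nat_lit 276) (nat_lit 5) (nat_lit 285) (nat_lit 5) (nat_lit 286) (nat_lit 5) (nat_lit 473) (nat_lit 423) (nat_lit 244)) (XT.lf (nat_lit 0) (nat_lit 15284804936) (nat_lit 760) (nat_lit 357321357) (nat_lit 76) (nat_lit 1131002892) (nat_lit 276) (nat_lit 5) (nat_lit 286) (nat_lit 5) (nat_lit 277) (nat_lit 5) (nat_lit 474) (nat_lit 423) (nat_lit 243)))) (XT.nd (nat_lit 78) (nat_lit 608) (nat_lit 0) (XT.lf (nat_lit 0) (nat_lit 1205722579) (nat_lit 760) (nat_lit 7883951231) (nat_lit 76) (nat_lit 7875548003) (nat_lit 266) (nat_lit 5) (nat_lit 276) (nat_lit 5) (nat_lit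 267) (nat_lit 5) (nat_lit 475) (nat_lit 423) (nat_lit 242)) (XT.nd (nat_lit 78) (nat_lit 0) (nat_lit 0) (XT.lf (nat_lit 0) (nat_lit 1553416611) (nat_lit 608) (nat_lit 2384913922) (nat_lit 684) (nat_lit 13222538609) (nat_lit 258) (nat_lit 5) (nat_lit 266) (nat_lit 5) (nat_lit 267) (nat_lit 5) (nat_lit 476) (nat_lit 423) (nat_lit 241)) (XT.lf (nat_lit 0) (nat_lit 6799939005) (nat_lit 684) (nat_lit 6111778399) (nat_lit 76) (nat_lit 4447226799) (nat_lit 258) (nat_lit 5) (nat_lit 267) (nat_lit 5) (nat_lit 259) (nat_lit 5) (nat_lit 477) (nat_lit 423) (nat_lit 240)))))) (XT.nd (nat_lit 390) (nat_lit 1672) (nat_lit 0) (XT.nd (nat_lit 156) (nat_lit 1292) (nat_lit 0) (XT.nd (nat_lit 78) (nat_lit 0) (nat_lit 0) (XT.lf (nat_lit 0) (nat_lit 3595822367) (nat_lit 608) (nat_lit 6154425899) (nat_lit 684) (nat_lit 7810104842) (nat_lit 250) (nat_lit 5) (nat_lit 258) (nat_lit 5) (nat_lit 259) (nat_lit 5) (nat_lit 478) (nat_lit 423) (nat_lit 239))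 (XT.lf (nat_lit 0) (nat_lit 12798047270) (nat_lit 684) (nat_lit 4199044548) (nat_lit 76) (nat_lit 767930383) (nat_lit 250) (nat_lit 5) (nat_lit 259) (nat_lit 5) (nat_lit 251) (nat_lit 5) (nat_lit 479) (nat_lit 423) (nat_lit 238))) (XT.nd (nat_lit 78) (nat_lit 684) (nat_lit 0) (XT.lf (nat_lit 0) (nat_lit 5787651369) (nat_lit 608) (nat_lit 10190041862) (nat_lit 684) (nat_lit 1994675277) (nat_lit 242) (nat_lit 5) (nat_lit 250) (nat_lit 5) (nat_lit 251) (nat_lit 5) (nat_lit 480) (nat_lit 423) (nat_lit 237)) (XT.nd (nat_lit 78) (nat_lit 608) (nat_lit 0) (XT.lf (nat_lit 0) (nat_lit 1044425319) (nat_lit 684) (nat_lit 2168505272) (nat_lit 76) (nat_lit 14970378940) (nat_lit 241) (nat_lit 5) (nat_lit 250) (nat_lit 5) (nat_lit 242) (nat_lit 5) (nat_lit 481) (nat_lit 423) (nat_lit 236)) (XT.lf (nat_lit 0) (nat_lit 4188932868) (nat_lit 684) (nat_lit 10290693511) (nat_lit 76) (nat_lit 3917154181) (nat_lit 233) (nat_lit 5) (nat_lit 242) (nat_lit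 5) (nat_lit 234) (nat_lit 5) (nat_lit 482) (nat_lit 423) (nat_lit 235))))) (XT.nd (nat_lit 234) (nat_lit 608) (nat_lit 0) (XT.nd (nat_lit 78) (nat_lit 1064) (nat_lit 0) (XT.lf (nat_lit 0) (nat_lit 7425065160) (nat_lit 684) (nat_lit 29216620) (nat_lit 76) (nat_lit 11159666061) (nat_lit 233) (nat_lit 5) (nat_lit 242) (nat_lit 5) (nat_lit 234) (nat_lit 5) (nat_lit 483) (nat_lit 423) (nat_lit 234)) (XT.nd (nat_lit 78) (nat_lit 532) (nat_lit 0) (XT.lf (nat_lit 0) (nat_lit 10567080470) (nat_lit 532) (nat_lit 220397854) (nat_lit 608) (nat_lit 8046750474) (nat_lit 226) (nat_lit 5) (nat_lit 233) (nat_lit 5) (nat_lit 234) (nat_lit 5) (nat_lit 484) (nat_lit 423) (nat_lit 233)) (XT.lf (nat_lit 0) (nat_lit 2291294606) (nat_lit 532) (nat_lit 11980411800) (nat_lit 608) (nat_lit 4786119099) (nat_lit 219) (nat_lit 5) (nat_lit 226) (nat_lit 5) (nat_lit 227) (nat_lit 5) (nat_lit 485) (nat_lit 423) (nat_lit 232)))) (XT.nd (nat_lit 78) (nat_lit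 608) (nat_lit 0) (XT.lf (nat_lit 0) (nat_lit 13162483060) (nat_lit 532) (nat_lit 4713158472) (nat_lit 608) (nat_lit 1409253600) (nat_lit 219) (nat_lit 5) (nat_lit 226) (nat_lit 5) (nat_lit 227) (nat_lit 5) (nat_lit 486) (nat_lit 423) (nat_lit 231)) (XT.nd (nat_lit 78) (nat_lit 0) (nat_lit 0) (XT.lf (nat_lit 0) (nat_lit 2050451275) (nat_lit 608) (nat_lit 14758486648) (nat_lit 76) (nat_lit 2706465470) (nat_lit 211) (nat_lit 5) (nat_lit 219) (nat_lit 5) (nat_lit 212) (nat_lit 5) (nat_lit 487) (nat_lit 423) (nat_lit 230)) (XT.lf (nat_lit 0) (nat_lit 5626314668) (nat_lit 608) (nat_lit 3862681626) (nat_lit 76) (nat_lit 10260023887) (nat_lit 211) (nat_lit 5) (nat_lit 219) (nat_lit 5) (nat_lit 212) (nat_lit 5) (nat_lit 488) (nat_lit 423) (nat_lit 229))))))) (XT.nd (nat_lit 858) (nat_lit 2584) (nat_lit 0) (XT.nd (nat_lit 390) (nat_lit 1444) (nat_lit 0) (XT.nd (nat_lit 156) (nat_lit 1064) (nat_lit 0) (XT.nd (nat_lit 78) (nat_lit 0) (nat_lit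 0) (XT.lf (nat_lit 0) (nat_lit 7338474429) (nat_lit 532) (nat_lit 1976246580) (nat_lit 608) (nat_lit 10671769111) (nat_lit 204) (nat_lit 5) (nat_lit 211) (nat_lit 5) (nat_lit 212) (nat_lit 5) (nat_lit 489) (nat_lit 423) (nat_lit 228)) (XT.lf (nat_lit 0) (nat_lit 13133348077) (nat_lit 608) (nat_lit 1458142087) (nat_lit 76) (nat_lit 5636091540) (nat_lit 204) (nat_lit 5) (nat_lit 212) (nat_lit 5) (nat_lit 205) (nat_lit 5) (nat_lit 490) (nat_lit 423) (nat_lit 227))) (XT.nd (nat_lit 78) (nat_lit 608) (nat_lit 0) (XT.lf (nat_lit 0) (nat_lit 10065758981) (nat_lit 456) (nat_lit 7034596787) (nat_lit 532) (nat_lit 3371700465) (nat_lit 198) (nat_lit 5) (nat_lit 204) (nat_lit 5) (nat_lit 205) (nat_lit 5) (nat_lit 491) (nat_lit 423) (nat_lit 226)) (XT.nd (nat_lit 78) (nat_lit 0) (nat_lit 0) (XT.lf (nat_lit 0) (nat_lit 434921653) (nat_lit 608) (nat_lit 19603800335) (nat_lit 76) (nat_lit 682339947) (nat_lit 190) (nat_lit 5) (nat_lit 198) (nat_lit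 5) (nat_lit 191) (nat_lit 5) (nat_lit 492) (nat_lit 423) (nat_lit 225)) (XT.lf (nat_lit 0) (nat_lit 4383099927) (nat_lit 608) (nat_lit 8039458801) (nat_lit 76) (nat_lit 8549833070) (nat_lit 190) (nat_lit 5) (nat_lit 198) (nat_lit 5) (nat_lit 191) (nat_lit 5) (nat_lit 493) (nat_lit 423) (nat_lit 224))))) (XT.nd (nat_lit 234) (nat_lit 532) (nat_lit 0) (XT.nd (nat_lit 78) (nat_lit 456) (nat_lit 0) (XT.lf (nat_lit 0) (nat_lit 3797363773) (nat_lit 456) (nat_lit 4631305205) (nat_lit 532) (nat_lit 12799711914) (nat_lit 184) (nat_lit 5) (nat_lit 190) (nat_lit 5) (nat_lit 191) (nat_lit 5) (nat_lit 494) (nat_lit 423) (nat_lit 223)) (XT.nd (nat_lit 78) (nat_lit 456) (nat_lit 0) (XT.lf (nat_lit 0) (nat_lit 12624807160) (nat_lit 532) (nat_lit 5539057602) (nat_lit 76) (nat_lit 3324233005) (nat_lit 184) (nat_lit 5) (nat_lit 191) (nat_lit 5) (nat_lit 185) (nat_lit 5) (nat_lit 495) (nat_lit 423) (nat_lit 222)) (XT.lf (nat_lit 0) (nat_lit 6638645956)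 (nat_lit 456) (nat_lit 10333939920) (nat_lit 532) (nat_lit 4779069880) (nat_lit 178) (nat_lit 5) (nat_lit 184) (nat_lit 5) (nat_lit 185) (nat_lit 5) (nat_lit 496) (nat_lit 423) (nat_lit 221)))) (XT.nd (nat_lit 78) (nat_lit 532) (nat_lit 0) (XT.lf (nat_lit 0) (nat_lit 19126551543) (nat_lit 456) (nat_lit 2311946968) (nat_lit 532) (nat_lit 581363938) (nat_lit 178) (nat_lit 5) (nat_lit 184) (nat_lit 5) (nat_lit 185) (nat_lit 5) (nat_lit 497) (nat_lit 423) (nat_lit 220)) (XT.nd (nat_lit 78) (nat_lit 0) (nat_lit 0) (XT.lf (nat_lit 0) (nat_lit 3747278574) (nat_lit 532) (nat_lit 12665323118) (nat_lit 76) (nat_lit 5878441903) (nat_lit 171) (nat_lit 5) (nat_lit 178) (nat_lit 5) (nat_lit 172) (nat_lit 5) (nat_lit 498) (nat_lit 423) (nat_lit 219)) (XT.lf (nat_lit 0) (nat_lit 8183703986) (nat_lit 532) (nat_lit 160594535) (nat_lit 76) (nat_lit 14222694145) (nat_lit 171) (nat_lit 5) (nat_lit 178) (nat_lit 5) (nat_lit 172) (nat_lit 5) (nat_lit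 499) (nat_lit 423) (nat_lit 218)))))) (XT.nd (nat_lit 390) (nat_lit 1216) (nat_lit 0) (XT.nd (nat_lit 156) (nat_lit 532) (nat_lit 0) (XT.nd (nat_lit 78) (nat_lit 380) (nat_lit 0) (XT.lf (nat_lit 0) (nat_lit 12753257551) (nat_lit 456) (nat_lit 32650127) (nat_lit 532) (nat_lit 10061013068) (nat_lit 165) (nat_lit 5) (nat_lit 171) (nat_lit 5) (nat_lit 172) (nat_lit 5) (nat_lit 500) (nat_lit 423) (nat_lit 217)) (XT.lf (nat_lit 0) (nat_lit 2768328785) (nat_lit 380) (nat_lit 14780008073) (nat_lit 456) (nat_lit 5582747908) (nat_lit 160) (nat_lit 5) (nat_lit 165) (nat_lit 5) (nat_lit 166) (nat_lit 5) (nat_lit 501) (nat_lit 423) (nat_lit 216))) (XT.nd (nat_lit 78) (nat_lit 532) (nat_lit 0) (XT.lf (nat_lit 0) (nat_lit 16015941312) (nat_lit 380) (nat_lit 6452371199) (nat_lit 456) (nat_lit 951374582) (nat_lit 160) (nat_lit 5) (nat_lit 165) (nat_lit 5) (nat_lit 166) (nat_lit 5) (nat_lit 502) (nat_lit 423) (nat_lit 215)) (XT.nd (nat_lit 78)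 (nat_lit 0) (nat_lit 0) (XT.lf (nat_lit 0) (nat_lit 3769262588) (nat_lit 532) (nat_lit 17867926470) (nat_lit 76) (nat_lit 2075461167) (nat_lit 153) (nat_lit 5) (nat_lit 160) (nat_lit 5) (nat_lit 154) (nat_lit 5) (nat_lit 503) (nat_lit 423) (nat_lit 214)) (XT.lf (nat_lit 0) (nat_lit 8658791198) (nat_lit 532) (nat_lit 4609494489) (nat_lit 76) (nat_lit 10741317739) (nat_lit 153) (nat_lit 5) (nat_lit 160) (nat_lit 5) (nat_lit 154) (nat_lit 5) (nat_lit 504) (nat_lit 423) (nat_lit 213))))) (XT.nd (nat_lit 53040) (nat_lit 0) (nat_lit 25916) (XT.nd (nat_lit 78) (nat_lit 836) (nat_lit 0) (XT.lf (nat_lit 0) (nat_lit 9024446230) (nat_lit 380) (nat_lit 4674828116) (nat_lit 456) (nat_lit 10612158975) (nat_lit 148) (nat_lit 5) (nat_lit 153) (nat_lit 5) (nat_lit 154) (nat_lit 5) (nat_lit 505) (nat_lit 423) (nat_lit 212)) (XT.nd (nat_lit 156) (nat_lit 836) (nat_lit 0) (XT.lf (nat_lit 0) (nat_lit 18892871562) (nat_lit 456) (nat_lit 1659951522)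 (nat_lit 76) (nat_lit 4065431534) (nat_lit 148) (nat_lit 5) (nat_lit 154) (nat_lit 5) (nat_lit 149) (nat_lit 5) (nat_lit 506) (nat_lit 423) (nat_lit 211)) (XT.lf (nat_lit 0) (nat_lit 1423867152) (nat_lit 380) (nat_lit 3093107825) (nat_lit 456) (nat_lit 20728280652) (nat_lit 137) (nat_lit 5) (nat_lit 142) (nat_lit 5) (nat_lit 143) (nat_lit 5) (nat_lit 508) (nat_lit 423) (nat_lit 209)))) (XT.nd (nat_lit 78) (nat_lit 0) (nat_lit 0) (XT.lf (nat_lit 0) (nat_lit 1050678778) (nat_lit 0) (nat_lit 1050678778) (nat_lit 1596) (nat_lit 2994539507) (nat_lit 478) (nat_lit 5) (nat_lit 478) (nat_lit 3) (nat_lit 499) (nat_lit 3) (nat_lit 424) (nat_lit 424) (nat_lit 292)) (XT.nd (nat_lit 78) (nat_lit 0) (nat_lit 0) (XT.lf (nat_lit 0) (nat_lit 4928967409) (nat_lit 1596) (nat_lit 3179973483) (nat_lit 1672) (nat_lit 2170884424) (nat_lit 478) (nat_lit 5) (nat_lit 499) (nat_lit 3) (nat_lit 500) (nat_lit 5) (nat_lit 425) (nat_lit 424) (nat_lit 291))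 (XT.lf (nat_lit 76) (nat_lit 1829577596) (nat_lit 0) (nat_lit 3848446464) (nat_lit 1672) (nat_lit 4691432791) (nat_lit 479) (nat_lit 5) (nat_lit 478) (nat_lit 5) (nat_lit 500) (nat_lit 5) (nat_lit 426) (nat_lit 424) (nat_lit 290))))))))
noncomputable def xc193 : XT := (XT.nd (nat_lit 1716) (nat_lit 11172) (nat_lit 0) (XT.nd (nat_lit 858) (nat_lit 1368) (nat_lit 0) (XT.nd (nat_lit 390) (nat_lit 1520) (nat_lit 0) (XT.nd (nat_lit 156) (nat_lit 0) (nat_lit 0) (XT.nd (nat_lit 78) (nat_lit 0) (nat_lit 0) (XT.lf (nat_lit 0) (nat_lit 6449591833) (nat_lit 1596) (nat_lit 3490941081) (nat_lit 1672) (nat_lit 520202703) (nat_lit 479) (nat_lit 5) (nat_lit 500) (nat_lit 5) (nat_lit 501) (nat_lit 5) (nat_lit 427) (nat_lit 424) (nat_lit 289)) (XT.lf (nat_lit 76) (nat_lit 1645718370) (nat_lit 0) (nat_lit 5610201778) (nat_lit 1672) (nat_lit 3297538325) (nat_lit 480) (nat_lit 5) (nat_lit 479) (nat_lit 5) (nat_lit 501) (nat_lit 5) (nat_lit 428)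 (nat_lit 424) (nat_lit 288))) (XT.nd (nat_lit 78) (nat_lit 0) (nat_lit 76) (XT.lf (nat_lit 76) (nat_lit 6923138203) (nat_lit 0) (nat_lit 1162090473) (nat_lit 1672) (nat_lit 2562675036) (nat_lit 480) (nat_lit 5) (nat_lit 479) (nat_lit 5) (nat_lit 501) (nat_lit 5) (nat_lit 429) (nat_lit 424) (nat_lit 287)) (XT.nd (nat_lit 78) (nat_lit 0) (nat_lit 0) (XT.lf (nat_lit 76) (nat_lit 1550807676) (nat_lit 0) (nat_lit 7396096077) (nat_lit 1672) (nat_lit 1797023399) (nat_lit 481) (nat_lit 5) (nat_lit 480) (nat_lit 5) (nat_lit 502) (nat_lit 5) (nat_lit 430) (nat_lit 424) (nat_lit 286)) (XT.lf (nat_lit 76) (nat_lit 6965159290) (nat_lit 0) (nat_lit 2877348862) (nat_lit 1672) (nat_lit 999033795) (nat_lit 481) (nat_lit 5) (nat_lit 480) (nat_lit 5) (nat_lit 502) (nat_lit 5) (nat_lit 431) (nat_lit 424) (nat_lit 285))))) (XT.nd (nat_lit 234) (nat_lit 0) (nat_lit 76) (XT.nd (nat_lit 78) (nat_lit 1672) (nat_lit 0) (XT.lf (nat_lit 76) (nat_lit 1546123745)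 (nat_lit 0) (nat_lit 9215592668) (nat_lit 1672) (nat_lit 179283500) (nat_lit 482) (nat_lit 5) (nat_lit 481) (nat_lit 5) (nat_lit 503) (nat_lit 5) (nat_lit 432) (nat_lit 424) (nat_lit 284)) (XT.nd (nat_lit 78) (nat_lit 0) (nat_lit 76) (XT.lf (nat_lit 0) (nat_lit 678034150) (nat_lit 1672) (nat_lit 3945539226) (nat_lit 1748) (nat_lit 6418197151) (nat_lit 459) (nat_lit 5) (nat_lit 481) (nat_lit 5) (nat_lit 482) (nat_lit 5) (nat_lit 433) (nat_lit 424) (nat_lit 283)) (XT.lf (nat_lit 0) (nat_lit 1545995036) (nat_lit 1672) (nat_lit 9521802077) (nat_lit 1748) (nat_lit 76822227) (nat_lit 460) (nat_lit 5) (nat_lit 482) (nat_lit 5) (nat_lit 483) (nat_lit 5) (nat_lit 434) (nat_lit 424) (nat_lit 282)))) (XT.nd (nat_lit 78) (nat_lit 0) (nat_lit 0) (XT.lf (nat_lit 0) (nat_lit 2473707539) (nat_lit 1672) (nat_lit 3933596580) (nat_lit 1748) (nat_lit 4841377516) (nat_lit 460) (nat_lit 5) (nat_lit 482) (nat_lit 5) (nat_lit 483) (nat_lit 5) (nat_lit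 435) (nat_lit 424) (nat_lit 281)) (XT.nd (nat_lit 78) (nat_lit 0) (nat_lit 76) (XT.lf (nat_lit 76) (nat_lit 1780082207) (nat_lit 0) (nat_lit 1636862029) (nat_lit 1748) (nat_lit 7937945807) (nat_lit 461) (nat_lit 5) (nat_lit 460) (nat_lit 5) (nat_lit 483) (nat_lit 5) (nat_lit 436) (nat_lit 424) (nat_lit 280)) (XT.lf (nat_lit 0) (nat_lit 4412249163) (nat_lit 1672) (nat_lit 3832374805) (nat_lit 1748) (nat_lit 3217938764) (nat_lit 461) (nat_lit 5) (nat_lit 483) (nat_lit 5) (nat_lit 484) (nat_lit 5) (nat_lit 437) (nat_lit 424) (nat_lit 279)))))) (XT.nd (nat_lit 390) (nat_lit 1520) (nat_lit 0) (XT.nd (nat_lit 156) (nat_lit 0) (nat_lit 76) (XT.nd (nat_lit 78) (nat_lit 0) (nat_lit 76) (XT.lf (nat_lit 76) (nat_lit 2031001660) (nat_lit 0) (nat_lit 3406433759) (nat_lit 1748) (nat_lit 6134758052) (nat_lit 462) (nat_lit 5) (nat_lit 461) (nat_lit 5) (nat_lit 484) (nat_lit 5) (nat_lit 438) (nat_lit 424) (nat_lit 278)) (XT.lf (nat_lit 0) (nat_lit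 6505125821) (nat_lit 1672) (nat_lit 3639948724) (nat_lit 1748) (nat_lit 1538506292) (nat_lit 462) (nat_lit 5) (nat_lit 484) (nat_lit 5) (nat_lit 485) (nat_lit 5) (nat_lit 439) (nat_lit 424) (nat_lit 277))) (XT.nd (nat_lit 78) (nat_lit 0) (nat_lit 0) (XT.lf (nat_lit 76) (nat_lit 2378199329) (nat_lit 0) (nat_lit 5240430211) (nat_lit 1748) (nat_lit 4178081161) (nat_lit 463) (nat_lit 5) (nat_lit 462) (nat_lit 5) (nat_lit 485) (nat_lit 5) (nat_lit 440) (nat_lit 424) (nat_lit 276)) (XT.nd (nat_lit 78) (nat_lit 0) (nat_lit 76) (XT.lf (nat_lit 76) (nat_lit 8556363717) (nat_lit 0) (nat_lit 209127692) (nat_lit 1748) (nat_lit 3146393857) (nat_lit 463) (nat_lit 5) (nat_lit 462) (nat_lit 5) (nat_lit 485) (nat_lit 5) (nat_lit 441) (nat_lit 424) (nat_lit 275)) (XT.lf (nat_lit 76) (nat_lit 2824017780) (nat_lit 0) (nat_lit 7148517091) (nat_lit 1748) (nat_lit 2056087354) (nat_lit 464) (nat_lit 5) (nat_lit 463) (nat_lit 5) (nat_lit 486) (nat_lit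 5) (nat_lit 442) (nat_lit 424) (nat_lit 274))))) (XT.nd (nat_lit 234) (nat_lit 0) (nat_lit 76) (XT.nd (nat_lit 78) (nat_lit 1672) (nat_lit 0) (XT.lf (nat_lit 76) (nat_lit 9161508196) (nat_lit 0) (nat_lit 2053243857) (nat_lit 1748) (nat_lit 932724926) (nat_lit 464) (nat_lit 5) (nat_lit 463) (nat_lit 5) (nat_lit 486) (nat_lit 5) (nat_lit 443) (nat_lit 424) (nat_lit 273)) (XT.nd (nat_lit 78) (nat_lit 0) (nat_lit 0) (XT.lf (nat_lit 0) (nat_lit 240214339) (nat_lit 1748) (nat_lit 8898666320) (nat_lit 1824) (nat_lit 3129205977) (nat_lit 441) (nat_lit 5) (nat_lit 464) (nat_lit 5) (nat_lit 465) (nat_lit 5) (nat_lit 444) (nat_lit 424) (nat_lit 272)) (XT.lf (nat_lit 0) (nat_lit 1445412383) (nat_lit 1748) (nat_lit 2528133737) (nat_lit 1824) (nat_lit 8417016777) (nat_lit 441) (nat_lit 5) (nat_lit 464) (nat_lit 5) (nat_lit 465) (nat_lit 5) (nat_lit 445) (nat_lit 424) (nat_lit 271)))) (XT.nd (nat_lit 78) (nat_lit 0) (nat_lit 0) (XT.lf (nat_lit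 0) (nat_lit 2697119844) (nat_lit 1748) (nat_lit 8511093610) (nat_lit 1824) (nat_lit 1306830551) (nat_lit 442) (nat_lit 5) (nat_lit 465) (nat_lit 5) (nat_lit 466) (nat_lit 5) (nat_lit 446) (nat_lit 424) (nat_lit 270)) (XT.nd (nat_lit 78) (nat_lit 0) (nat_lit 0) (XT.lf (nat_lit 0) (nat_lit 4005201547) (nat_lit 1748) (nat_lit 1977070526) (nat_lit 1824) (nat_lit 6659119225) (nat_lit 442) (nat_lit 5) (nat_lit 465) (nat_lit 5) (nat_lit 466) (nat_lit 5) (nat_lit 447) (nat_lit 424) (nat_lit 269)) (XT.lf (nat_lit 76) (nat_lit 4740080820) (nat_lit 0) (nat_lit 618323887) (nat_lit 1824) (nat_lit 7411484931) (nat_lit 443) (nat_lit 5) (nat_lit 442) (nat_lit 5) (nat_lit 466) (nat_lit 5) (nat_lit 448) (nat_lit 424) (nat_lit 268))))))) (XT.nd (nat_lit 858) (nat_lit 4712) (nat_lit 0) (XT.nd (nat_lit 390) (nat_lit 2660) (nat_lit 0) (XT.nd (nat_lit 156) (nat_lit 2204) (nat_lit 0) (XT.nd (nat_lit 78) (nat_lit 1748) (nat_lit 0) (XT.lf (nat_lit 0)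 (nat_lit 6771901248) (nat_lit 1748) (nat_lit 1323818198) (nat_lit 76) (nat_lit 4804577147) (nat_lit 443) (nat_lit 5) (nat_lit 466) (nat_lit 5) (nat_lit 444) (nat_lit 5) (nat_lit 449) (nat_lit 424) (nat_lit 267)) (XT.lf (nat_lit 0) (nat_lit 5575612364) (nat_lit 1748) (nat_lit 2666944909) (nat_lit 1824) (nat_lit 4790179793) (nat_lit 420) (nat_lit 5) (nat_lit 443) (nat_lit 5) (nat_lit 444) (nat_lit 5) (nat_lit 450) (nat_lit 424) (nat_lit 266))) (XT.nd (nat_lit 78) (nat_lit 2204) (nat_lit 0) (XT.lf (nat_lit 0) (nat_lit 9758970855) (nat_lit 1824) (nat_lit 565252511) (nat_lit 76) (nat_lit 2843279200) (nat_lit 420) (nat_lit 5) (nat_lit 444) (nat_lit 5) (nat_lit 421) (nat_lit 5) (nat_lit 451) (nat_lit 424) (nat_lit 265)) (XT.nd (nat_lit 78) (nat_lit 912) (nat_lit 0) (XT.lf (nat_lit 0) (nat_lit 6522650111) (nat_lit 1292) (nat_lit 4832059653) (nat_lit 1368) (nat_lit 1949276720) (nat_lit 403) (nat_lit 5) (nat_lit 420) (nat_lit 5) (nat_lit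 421) (nat_lit 5) (nat_lit 452) (nat_lit 424) (nat_lit 264)) (XT.lf (nat_lit 0) (nat_lit 305982289) (nat_lit 912) (nat_lit 12676332341) (nat_lit 988) (nat_lit 460889414) (nat_lit 391) (nat_lit 5) (nat_lit 403) (nat_lit 5) (nat_lit 404) (nat_lit 5) (nat_lit 453) (nat_lit 424) (nat_lit 263))))) (XT.nd (nat_lit 234) (nat_lit 1748) (nat_lit 0) (XT.nd (nat_lit 78) (nat_lit 836) (nat_lit 0) (XT.lf (nat_lit 0) (nat_lit 1110430232) (nat_lit 988) (nat_lit 6006428502) (nat_lit 76) (nat_lit 6466872187) (nat_lit 390) (nat_lit 5) (nat_lit 403) (nat_lit 5) (nat_lit 391) (nat_lit 5) (nat_lit 454) (nat_lit 424) (nat_lit 262)) (XT.nd (nat_lit 78) (nat_lit 0) (nat_lit 0) (XT.lf (nat_lit 0) (nat_lit 1270854115) (nat_lit 836) (nat_lit 1433841887) (nat_lit 912) (nat_lit 11022360396) (nat_lit 379) (nat_lit 5) (nat_lit 390) (nat_lit 5) (nat_lit 391) (nat_lit 5) (nat_lit 455) (nat_lit 424) (nat_lit 261)) (XT.lf (nat_lit 0) (nat_lit 4389329952) (nat_lit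 912) (nat_lit 5135828171) (nat_lit 76) (nat_lit 4346923366) (nat_lit 379) (nat_lit 5) (nat_lit 391) (nat_lit 5) (nat_lit 380) (nat_lit 5) (nat_lit 456) (nat_lit 424) (nat_lit 260)))) (XT.nd (nat_lit 78) (nat_lit 836) (nat_lit 0) (XT.lf (nat_lit 0) (nat_lit 2342480158) (nat_lit 912) (nat_lit 3779668465) (nat_lit 988) (nat_lit 7897571322) (nat_lit 367) (nat_lit 5) (nat_lit 379) (nat_lit 5) (nat_lit 380) (nat_lit 5) (nat_lit 457) (nat_lit 424) (nat_lit 259)) (XT.nd (nat_lit 78) (nat_lit 836) (nat_lit 0) (XT.lf (nat_lit 0) (nat_lit 7927753505) (nat_lit 988) (nat_lit 4153230315) (nat_lit 76) (nat_lit 2088567408) (nat_lit 367) (nat_lit 5) (nat_lit 380) (nat_lit 5) (nat_lit 368) (nat_lit 5) (nat_lit 458) (nat_lit 424) (nat_lit 258)) (XT.lf (nat_lit 0) (nat_lit 3532913362) (nat_lit 836) (nat_lit 6274651546) (nat_lit 912) (nat_lit 4514054940) (nat_lit 356) (nat_lit 5) (nat_lit 367) (nat_lit 5) (nat_lit 368) (nat_lit 5) (nat_lit 459)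 (nat_lit 424) (nat_lit 257)))))) (XT.nd (nat_lit 468) (nat_lit 2280) (nat_lit 0) (XT.nd (nat_lit 234) (nat_lit 1520) (nat_lit 0) (XT.nd (nat_lit 78) (nat_lit 912) (nat_lit 0) (XT.lf (nat_lit 0) (nat_lit 11419491669) (nat_lit 836) (nat_lit 323608099) (nat_lit 912) (nat_lit 2733270077) (nat_lit 356) (nat_lit 5) (nat_lit 367) (nat_lit 5) (nat_lit 368) (nat_lit 5) (nat_lit 460) (nat_lit 424) (nat_lit 256)) (XT.nd (nat_lit 78) (nat_lit 76) (nat_lit 0) (XT.lf (nat_lit 0) (nat_lit 4846243299) (nat_lit 836) (nat_lit 8930325765) (nat_lit 912) (nat_lit 856463803) (nat_lit 345) (nat_lit 5) (nat_lit 356) (nat_lit 5) (nat_lit 357) (nat_lit 5) (nat_lit 461) (nat_lit 424) (nat_lit 255)) (XT.lf (nat_lit 0) (nat_lit 1057306008) (nat_lit 912) (nat_lit 1862360651) (nat_lit 76) (nat_lit 11872761490) (nat_lit 344) (nat_lit 5) (nat_lit 356) (nat_lit 5) (nat_lit 345) (nat_lit 5) (nat_lit 462) (nat_lit 424) (nat_lit 254)))) (XT.nd (nat_lit 78) (nat_lit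 760) (nat_lit 0) (XT.lf (nat_lit 0) (nat_lit 3050570685) (nat_lit 836) (nat_lit 8687543350) (nat_lit 76) (nat_lit 3215732683) (nat_lit 334) (nat_lit 5) (nat_lit 345) (nat_lit 5) (nat_lit 335) (nat_lit 5) (nat_lit 463) (nat_lit 424) (nat_lit 253)) (XT.nd (nat_lit 78) (nat_lit 760) (nat_lit 0) (XT.lf (nat_lit 0) (nat_lit 5106431852) (nat_lit 836) (nat_lit 564467762) (nat_lit 76) (nat_lit 9447141730) (nat_lit 334) (nat_lit 5) (nat_lit 345) (nat_lit 5) (nat_lit 335) (nat_lit 5) (nat_lit 464) (nat_lit 424) (nat_lit 252)) (XT.lf (nat_lit 0) (nat_lit 7248834839) (nat_lit 836) (nat_lit 7474231731) (nat_lit 76) (nat_lit 561547065) (nat_lit 324) (nat_lit 5) (nat_lit 335) (nat_lit 5) (nat_lit 325) (nat_lit 5) (nat_lit 465) (nat_lit 424) (nat_lit 251))))) (XT.nd (nat_lit 234) (nat_lit 760) (nat_lit 0) (XT.nd (nat_lit 78) (nat_lit 760) (nat_lit 0) (XT.lf (nat_lit 0) (nat_lit 870252941) (nat_lit 760) (nat_lit 8601960319) (nat_lit 836) (nat_lit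 5981543782) (nat_lit 314) (nat_lit 5) (nat_lit 324) (nat_lit 5) (nat_lit 325) (nat_lit 5) (nat_lit 466) (nat_lit 424) (nat_lit 250)) (XT.nd (nat_lit 78) (nat_lit 760) (nat_lit 0) (XT.lf (nat_lit 0) (nat_lit 9473486777) (nat_lit 760) (nat_lit 2307949981) (nat_lit 836) (nat_lit 3844021186) (nat_lit 314) (nat_lit 5) (nat_lit 324) (nat_lit 5) (nat_lit 325) (nat_lit 5) (nat_lit 467) (nat_lit 424) (nat_lit 249)) (XT.lf (nat_lit 0) (nat_lit 2444109661) (nat_lit 760) (nat_lit 11726690588) (nat_lit 836) (nat_lit 1629115639) (nat_lit 304) (nat_lit 5) (nat_lit 314) (nat_lit 5) (nat_lit 315) (nat_lit 5) (nat_lit 468) (nat_lit 424) (nat_lit 248)))) (XT.nd (nat_lit 78) (nat_lit 684) (nat_lit 0) (XT.lf (nat_lit 0) (nat_lit 670103970) (nat_lit 836) (nat_lit 4710676388) (nat_lit 76) (nat_lit 10596037269) (nat_lit 303) (nat_lit 5) (nat_lit 314) (nat_lit 5) (nat_lit 304) (nat_lit 5) (nat_lit 469) (nat_lit 424) (nat_lit 247)) (XT.nd (nat_lit 78)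 (nat_lit 0) (nat_lit 0) (XT.lf (nat_lit 0) (nat_lit 3019344996) (nat_lit 760) (nat_lit 12022430683) (nat_lit 76) (nat_lit 1114751348) (nat_lit 294) (nat_lit 5) (nat_lit 304) (nat_lit 5) (nat_lit 295) (nat_lit 5) (nat_lit 470) (nat_lit 424) (nat_lit 246)) (XT.lf (nat_lit 0) (nat_lit 5474730667) (nat_lit 760) (nat_lit 3164831158) (nat_lit 76) (nat_lit 7699087563) (nat_lit 294) (nat_lit 5) (nat_lit 304) (nat_lit 5) (nat_lit 295) (nat_lit 5) (nat_lit 471) (nat_lit 424) (nat_lit 245))))))))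
noncomputable def xc194 : XT := (XT.nd (nat_lit 1716) (nat_lit 3572) (nat_lit 0) (XT.nd (nat_lit 858) (nat_lit 3876) (nat_lit 0) (XT.nd (nat_lit 390) (nat_lit 1900) (nat_lit 0) (XT.nd (nat_lit 156) (nat_lit 1444) (nat_lit 0) (XT.nd (nat_lit 78) (nat_lit 0) (nat_lit 0) (XT.lf (nat_lit 0) (nat_lit 5938582299) (nat_lit 684) (nat_lit 2071066669) (nat_lit 760) (nat_lit 8514158661) (nat_lit 285) (nat_lit 5) (nat_lit 294) (nat_lit 5) (nat_lit 295) (nat_lit 5) (nat_lit 472) (nat_lit 424) (nat_lit 244)) (XT.lf (nat_lit 0) (nat_lit 10638657522) (nat_lit 760) (nat_lit 1484792166) (nat_lit 76) (nat_lit 4588353406) (nat_lit 285) (nat_lit 5) (nat_lit 295) (nat_lit 5) (nat_lit 286) (nat_lit 5) (nat_lit 473) (nat_lit 424) (nat_lit 243))) (XT.nd (nat_lit 78) (nat_lit 760) (nat_lit 0) (XT.lf (nat_lit 0) (nat_lit 7878121528) (nat_lit 684) (nat_lit 5499108348) (nat_lit 760) (nat_lit 3525190776) (nat_lit 276) (nat_lit 5) (nat_lit 285) (nat_lit 5)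 (nat_lit 286) (nat_lit 5) (nat_lit 474) (nat_lit 424) (nat_lit 242)) (XT.nd (nat_lit 78) (nat_lit 76) (nat_lit 0) (XT.lf (nat_lit 0) (nat_lit 338755337) (nat_lit 684) (nat_lit 15844418663) (nat_lit 760) (nat_lit 913426376) (nat_lit 267) (nat_lit 5) (nat_lit 276) (nat_lit 5) (nat_lit 277) (nat_lit 5) (nat_lit 475) (nat_lit 424) (nat_lit 241)) (XT.lf (nat_lit 0) (nat_lit 1817236806) (nat_lit 760) (nat_lit 7339508396) (nat_lit 76) (nat_lit 8135900472) (nat_lit 266) (nat_lit 5) (nat_lit 276) (nat_lit 5) (nat_lit 267) (nat_lit 5) (nat_lit 476) (nat_lit 424) (nat_lit 240))))) (XT.nd (nat_lit 234) (nat_lit 684) (nat_lit 0) (XT.nd (nat_lit 78) (nat_lit 608) (nat_lit 0) (XT.lf (nat_lit 0) (nat_lit 2281987580) (nat_lit 608) (nat_lit 2315520347) (nat_lit 684) (nat_lit 12894840404) (nat_lit 258) (nat_lit 5) (nat_lit 266) (nat_lit 5) (nat_lit 267) (nat_lit 5) (nat_lit 477) (nat_lit 424) (nat_lit 239)) (XT.nd (nat_lit 78) (nat_lit 608) (nat_lit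 0) (XT.lf (nat_lit 0) (nat_lit 7505713295) (nat_lit 684) (nat_lit 5539425151) (nat_lit 76) (nat_lit 4649461701) (nat_lit 258) (nat_lit 5) (nat_lit 267) (nat_lit 5) (nat_lit 259) (nat_lit 5) (nat_lit 478) (nat_lit 424) (nat_lit 238)) (XT.lf (nat_lit 0) (nat_lit 4357757968) (nat_lit 608) (nat_lit 6150578767) (nat_lit 684) (nat_lit 7391836833) (nat_lit 250) (nat_lit 5) (nat_lit 258) (nat_lit 5) (nat_lit 259) (nat_lit 5) (nat_lit 479) (nat_lit 424) (nat_lit 237)))) (XT.nd (nat_lit 78) (nat_lit 684) (nat_lit 0) (XT.lf (nat_lit 0) (nat_lit 13606858857) (nat_lit 684) (nat_lit 3596180729) (nat_lit 76) (nat_lit 906103565) (nat_lit 250) (nat_lit 5) (nat_lit 259) (nat_lit 5) (nat_lit 251) (nat_lit 5) (nat_lit 480) (nat_lit 424) (nat_lit 236)) (XT.nd (nat_lit 78) (nat_lit 76) (nat_lit 0) (XT.lf (nat_lit 0) (nat_lit 6585730391) (nat_lit 608) (nat_lit 10257957249) (nat_lit 684) (nat_lit 1477079346) (nat_lit 242) (nat_lit 5) (nat_lit 250)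 (nat_lit 5) (nat_lit 251) (nat_lit 5) (nat_lit 481) (nat_lit 424) (nat_lit 235)) (XT.lf (nat_lit 0) (nat_lit 1604703887) (nat_lit 684) (nat_lit 1535644696) (nat_lit 76) (nat_lit 15395723920) (nat_lit 241) (nat_lit 5) (nat_lit 250) (nat_lit 5) (nat_lit 242) (nat_lit 5) (nat_lit 482) (nat_lit 424) (nat_lit 234)))))) (XT.nd (nat_lit 390) (nat_lit 2204) (nat_lit 0) (XT.nd (nat_lit 156) (nat_lit 532) (nat_lit 0) (XT.nd (nat_lit 78) (nat_lit 532) (nat_lit 0) (XT.lf (nat_lit 0) (nat_lit 4806786889) (nat_lit 684) (nat_lit 9814848847) (nat_lit 76) (nat_lit 4132285774) (nat_lit 233) (nat_lit 5) (nat_lit 242) (nat_lit 5) (nat_lit 234) (nat_lit 5) (nat_lit 483) (nat_lit 424) (nat_lit 233)) (XT.lf (nat_lit 0) (nat_lit 646976946) (nat_lit 532) (nat_lit 7454393417) (nat_lit 608) (nat_lit 10874189421) (nat_lit 226) (nat_lit 5) (nat_lit 233) (nat_lit 5) (nat_lit 234) (nat_lit 5) (nat_lit 484) (nat_lit 424) (nat_lit 232))) (XT.nd (nat_lit 78)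 (nat_lit 532) (nat_lit 0) (XT.lf (nat_lit 0) (nat_lit 11442318098) (nat_lit 532) (nat_lit 78556812) (nat_lit 608) (nat_lit 7679576763) (nat_lit 226) (nat_lit 5) (nat_lit 233) (nat_lit 5) (nat_lit 234) (nat_lit 5) (nat_lit 485) (nat_lit 424) (nat_lit 231)) (XT.nd (nat_lit 78) (nat_lit 0) (nat_lit 0) (XT.lf (nat_lit 0) (nat_lit 3006098355) (nat_lit 532) (nat_lit 12063813632) (nat_lit 608) (nat_lit 4358707971) (nat_lit 219) (nat_lit 5) (nat_lit 226) (nat_lit 5) (nat_lit 227) (nat_lit 5) (nat_lit 486) (nat_lit 424) (nat_lit 230)) (XT.lf (nat_lit 0) (nat_lit 14081593366) (nat_lit 532) (nat_lit 4654278108) (nat_lit 608) (nat_lit 924562682) (nat_lit 219) (nat_lit 5) (nat_lit 226) (nat_lit 5) (nat_lit 227) (nat_lit 5) (nat_lit 487) (nat_lit 424) (nat_lit 229))))) (XT.nd (nat_lit 234) (nat_lit 1064) (nat_lit 0) (XT.nd (nat_lit 78) (nat_lit 532) (nat_lit 0) (XT.lf (nat_lit 0) (nat_lit 2592984383) (nat_lit 608) (nat_lit 14386240864) (nat_lit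 76) (nat_lit 2916355255) (nat_lit 211) (nat_lit 5) (nat_lit 219) (nat_lit 5) (nat_lit 212) (nat_lit 5) (nat_lit 488) (nat_lit 424) (nat_lit 228)) (XT.nd (nat_lit 78) (nat_lit 532) (nat_lit 0) (XT.lf (nat_lit 0) (nat_lit 6230531238) (nat_lit 608) (nat_lit 3285606320) (nat_lit 76) (nat_lit 10617930714) (nat_lit 211) (nat_lit 5) (nat_lit 219) (nat_lit 5) (nat_lit 212) (nat_lit 5) (nat_lit 489) (nat_lit 424) (nat_lit 227)) (XT.lf (nat_lit 0) (nat_lit 8135268060) (nat_lit 532) (nat_lit 1852017047) (nat_lit 608) (nat_lit 10389112844) (nat_lit 204) (nat_lit 5) (nat_lit 211) (nat_lit 5) (nat_lit 212) (nat_lit 5) (nat_lit 490) (nat_lit 424) (nat_lit 226)))) (XT.nd (nat_lit 78) (nat_lit 1064) (nat_lit 0) (XT.lf (nat_lit 0) (nat_lit 13873792373) (nat_lit 608) (nat_lit 841439331) (nat_lit 76) (nat_lit 5907251405) (nat_lit 204) (nat_lit 5) (nat_lit 212) (nat_lit 5) (nat_lit 205) (nat_lit 5) (nat_lit 491) (nat_lit 424) (nat_lit 225)) (XT.nd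 (nat_lit 78) (nat_lit 608) (nat_lit 0) (XT.lf (nat_lit 0) (nat_lit 10908690643) (nat_lit 456) (nat_lit 7006247192) (nat_lit 532) (nat_lit 2957015198) (nat_lit 198) (nat_lit 5) (nat_lit 204) (nat_lit 5) (nat_lit 205) (nat_lit 5) (nat_lit 492) (nat_lit 424) (nat_lit 224)) (XT.lf (nat_lit 0) (nat_lit 915390722) (nat_lit 608) (nat_lit 19343730991) (nat_lit 76) (nat_lit 866836827) (nat_lit 190) (nat_lit 5) (nat_lit 198) (nat_lit 5) (nat_lit 191) (nat_lit 5) (nat_lit 493) (nat_lit 424) (nat_lit 223))))))) (XT.nd (nat_lit 858) (nat_lit 760) (nat_lit 0) (XT.nd (nat_lit 390) (nat_lit 1900) (nat_lit 0) (XT.nd (nat_lit 156) (nat_lit 456) (nat_lit 0) (XT.nd (nat_lit 78) (nat_lit 456) (nat_lit 0) (XT.lf (nat_lit 0) (nat_lit 4933282156) (nat_lit 608) (nat_lit 7560889790) (nat_lit 76) (nat_lit 8888329811) (nat_lit 190) (nat_lit 5) (nat_lit 198) (nat_lit 5) (nat_lit 191) (nat_lit 5) (nat_lit 494) (nat_lit 424) (nat_lit 222)) (XT.lf (nat_lit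 0) (nat_lit 4508462932) (nat_lit 456) (nat_lit 4546354460) (nat_lit 532) (nat_lit 12588893860) (nat_lit 184) (nat_lit 5) (nat_lit 190) (nat_lit 5) (nat_lit 191) (nat_lit 5) (nat_lit 495) (nat_lit 424) (nat_lit 221))) (XT.nd (nat_lit 78) (nat_lit 456) (nat_lit 0) (XT.lf (nat_lit 0) (nat_lit 13327036618) (nat_lit 532) (nat_lit 5019215034) (nat_lit 76) (nat_lit 3562529328) (nat_lit 184) (nat_lit 5) (nat_lit 191) (nat_lit 5) (nat_lit 185) (nat_lit 5) (nat_lit 496) (nat_lit 424) (nat_lit 220)) (XT.nd (nat_lit 78) (nat_lit 0) (nat_lit 0) (XT.lf (nat_lit 0) (nat_lit 7397893754) (nat_lit 456) (nat_lit 10359126344) (nat_lit 532) (nat_lit 4420686696) (nat_lit 178) (nat_lit 5) (nat_lit 184) (nat_lit 5) (nat_lit 185) (nat_lit 5) (nat_lit 497) (nat_lit 424) (nat_lit 219)) (XT.lf (nat_lit 0) (nat_lit 20123273632) (nat_lit 456) (nat_lit 2180252207) (nat_lit 532) (nat_lit 147927901) (nat_lit 178) (nat_lit 5) (nat_lit 184) (nat_lit 5) (nat_lit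 185) (nat_lit 5) (nat_lit 498) (nat_lit 424) (nat_lit 218))))) (XT.nd (nat_lit 234) (nat_lit 912) (nat_lit 0) (XT.nd (nat_lit 78) (nat_lit 456) (nat_lit 0) (XT.lf (nat_lit 0) (nat_lit 4258015618) (nat_lit 532) (nat_lit 12295009780) (nat_lit 76) (nat_lit 6175045567) (nat_lit 171) (nat_lit 5) (nat_lit 178) (nat_lit 5) (nat_lit 172) (nat_lit 5) (nat_lit 499) (nat_lit 424) (nat_lit 217)) (XT.nd (nat_lit 78) (nat_lit 0) (nat_lit 0) (XT.lf (nat_lit 0) (nat_lit 453533711) (nat_lit 456) (nat_lit 8324035537) (nat_lit 532) (nat_lit 14232083297) (nat_lit 165) (nat_lit 5) (nat_lit 171) (nat_lit 5) (nat_lit 172) (nat_lit 5) (nat_lit 500) (nat_lit 424) (nat_lit 216)) (XT.lf (nat_lit 0) (nat_lit 13465420478) (nat_lit 532) (nat_lit 9680617946) (nat_lit 76) (nat_lit 149270188) (nat_lit 165) (nat_lit 5) (nat_lit 172) (nat_lit 5) (nat_lit 166) (nat_lit 5) (nat_lit 501) (nat_lit 424) (nat_lit 215)))) (XT.nd (nat_lit 78) (nat_lit 532) (nat_lit 0)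 (XT.lf (nat_lit 0) (nat_lit 3434353554) (nat_lit 380) (nat_lit 14884611772) (nat_lit 456) (nat_lit 5266274707) (nat_lit 160) (nat_lit 5) (nat_lit 165) (nat_lit 5) (nat_lit 166) (nat_lit 5) (nat_lit 502) (nat_lit 424) (nat_lit 214)) (XT.nd (nat_lit 78) (nat_lit 532) (nat_lit 0) (XT.lf (nat_lit 0) (nat_lit 16934944642) (nat_lit 380) (nat_lit 6394167189) (nat_lit 456) (nat_lit 550668585) (nat_lit 160) (nat_lit 5) (nat_lit 165) (nat_lit 5) (nat_lit 166) (nat_lit 5) (nat_lit 503) (nat_lit 424) (nat_lit 213)) (XT.lf (nat_lit 0) (nat_lit 4255887190) (nat_lit 532) (nat_lit 17617967035) (nat_lit 76) (nat_lit 2304755247) (nat_lit 153) (nat_lit 5) (nat_lit 160) (nat_lit 5) (nat_lit 154) (nat_lit 5) (nat_lit 504) (nat_lit 424) (nat_lit 212)))))) (XT.nd (nat_lit 53352) (nat_lit 0) (nat_lit 23940) (XT.nd (nat_lit 53118) (nat_lit 0) (nat_lit 25460) (XT.nd (nat_lit 78) (nat_lit 760) (nat_lit 0) (XT.lf (nat_lit 0) (nat_lit 9235142855) (nat_lit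 532) (nat_lit 4106274610) (nat_lit 76) (nat_lit 11140246894) (nat_lit 153) (nat_lit 5) (nat_lit 160) (nat_lit 5) (nat_lit 154) (nat_lit 5) (nat_lit 505) (nat_lit 424) (nat_lit 211)) (XT.nd (nat_lit 156) (nat_lit 380) (nat_lit 0) (XT.lf (nat_lit 0) (nat_lit 9796427754) (nat_lit 380) (nat_lit 4575942865) (nat_lit 456) (nat_lit 10417242859) (nat_lit 148) (nat_lit 5) (nat_lit 153) (nat_lit 5) (nat_lit 154) (nat_lit 5) (nat_lit 506) (nat_lit 424) (nat_lit 210)) (XT.lf (nat_lit 0) (nat_lit 13192869482) (nat_lit 380) (nat_lit 11977935810) (nat_lit 456) (nat_lit 249035316) (nat_lit 143) (nat_lit 5) (nat_lit 148) (nat_lit 5) (nat_lit 149) (nat_lit 5) (nat_lit 508) (nat_lit 424) (nat_lit 208)))) (XT.nd (nat_lit 78) (nat_lit 0) (nat_lit 0) (XT.lf (nat_lit 0) (nat_lit 1404489002) (nat_lit 0) (nat_lit 1404489002) (nat_lit 1596) (nat_lit 2375324200) (nat_lit 478) (nat_lit 5) (nat_lit 478) (nat_lit 3) (nat_lit 499) (nat_lit 3) (nat_lit 425)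 (nat_lit 425) (nat_lit 290)) (XT.nd (nat_lit 78) (nat_lit 0) (nat_lit 0) (XT.lf (nat_lit 0) (nat_lit 6328394916) (nat_lit 1596) (nat_lit 2560298080) (nat_lit 1672) (nat_lit 1570317876) (nat_lit 478) (nat_lit 5) (nat_lit 499) (nat_lit 3) (nat_lit 500) (nat_lit 5) (nat_lit 426) (nat_lit 425) (nat_lit 289)) (XT.lf (nat_lit 76) (nat_lit 2544948791) (nat_lit 0) (nat_lit 4526384169) (nat_lit 1672) (nat_lit 3479531797) (nat_lit 479) (nat_lit 5) (nat_lit 478) (nat_lit 5) (nat_lit 500) (nat_lit 5) (nat_lit 427) (nat_lit 425) (nat_lit 288))))) (XT.nd (nat_lit 234) (nat_lit 1520) (nat_lit 0) (XT.nd (nat_lit 78) (nat_lit 0) (nat_lit 76) (XT.lf (nat_lit 76) (nat_lit 7778221316) (nat_lit 0) (nat_lit 51526832) (nat_lit 1672) (nat_lit 2814800202) (nat_lit 479) (nat_lit 5) (nat_lit 478) (nat_lit 5) (nat_lit 500) (nat_lit 5) (nat_lit 428) (nat_lit 425) (nat_lit 287)) (XT.nd (nat_lit 78) (nat_lit 0) (nat_lit 0) (XT.lf (nat_lit 76) (nat_lit 2368829313)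 (nat_lit 0) (nat_lit 6262994308) (nat_lit 1672) (nat_lit 2107717057) (nat_lit 480) (nat_lit 5) (nat_lit 479) (nat_lit 5) (nat_lit 501) (nat_lit 5) (nat_lit 429) (nat_lit 425) (nat_lit 286)) (XT.lf (nat_lit 76) (nat_lit 7738264277) (nat_lit 0) (nat_lit 1715321003) (nat_lit 1672) (nat_lit 1382779484) (nat_lit 480) (nat_lit 5) (nat_lit 479) (nat_lit 5) (nat_lit 501) (nat_lit 5) (nat_lit 430) (nat_lit 425) (nat_lit 285)))) (XT.nd (nat_lit 78) (nat_lit 1672) (nat_lit 0) (XT.lf (nat_lit 76) (nat_lit 2281789666) (nat_lit 0) (nat_lit 8028215423) (nat_lit 1672) (nat_lit 624760493) (nat_lit 481) (nat_lit 5) (nat_lit 480) (nat_lit 5) (nat_lit 502) (nat_lit 5) (nat_lit 431) (nat_lit 425) (nat_lit 284)) (XT.nd (nat_lit 78) (nat_lit 0) (nat_lit 76) (XT.lf (nat_lit 0) (nat_lit 163328095) (nat_lit 1672) (nat_lit 3245175084) (nat_lit 1748) (nat_lit 7626279379) (nat_lit 458) (nat_lit 5) (nat_lit 480) (nat_lit 5) (nat_lit 481) (nat_lit 5) (nat_lit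 432) (nat_lit 425) (nat_lit 283)) (XT.lf (nat_lit 0) (nat_lit 967172962) (nat_lit 1672) (nat_lit 8857796773) (nat_lit 1748) (nat_lit 1311584783) (nat_lit 459) (nat_lit 5) (nat_lit 481) (nat_lit 5) (nat_lit 482) (nat_lit 5) (nat_lit 433) (nat_lit 425) (nat_lit 282))))))))
noncomputable def xc195 : XT := (XT.nd (nat_lit 1716) (nat_lit 10032) (nat_lit 0) (XT.nd (nat_lit 858) (nat_lit 3800) (nat_lit 0) (XT.nd (nat_lit 390) (nat_lit 1444) (nat_lit 0) (XT.nd (nat_lit 156) (nat_lit 0) (nat_lit 76) (XT.nd (nat_lit 78) (nat_lit 0) (nat_lit 0) (XT.lf (nat_lit 0) (nat_lit 1816735784) (nat_lit 1672) (nat_lit 3314852353) (nat_lit 1748) (nat_lit 6108185310) (nat_lit 459) (nat_lit 5) (nat_lit 481) (nat_lit 5) (nat_lit 482) (nat_lit 5) (nat_lit 434) (nat_lit 425) (nat_lit 281)) (XT.lf (nat_lit 76) (nat_lit 2360728690) (nat_lit 0) (nat_lit 323326962) (nat_lit 1748) (nat_lit 8660990054) (nat_lit 460) (nat_lit 5) (nat_lit 459) (nat_lit 5) (nat_lit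 482) (nat_lit 5) (nat_lit 435) (nat_lit 425) (nat_lit 280))) (XT.nd (nat_lit 78) (nat_lit 0) (nat_lit 0) (XT.lf (nat_lit 0) (nat_lit 3606555672) (nat_lit 1672) (nat_lit 3296562281) (nat_lit 1748) (nat_lit 4548552965) (nat_lit 460) (nat_lit 5) (nat_lit 482) (nat_lit 5) (nat_lit 483) (nat_lit 5) (nat_lit 436) (nat_lit 425) (nat_lit 279)) (XT.nd (nat_lit 78) (nat_lit 0) (nat_lit 76) (XT.lf (nat_lit 76) (nat_lit 2526681488) (nat_lit 0) (nat_lit 2025349256) (nat_lit 1748) (nat_lit 7008311491) (nat_lit 461) (nat_lit 5) (nat_lit 460) (nat_lit 5) (nat_lit 483) (nat_lit 5) (nat_lit 437) (nat_lit 425) (nat_lit 278)) (XT.lf (nat_lit 0) (nat_lit 5544060675) (nat_lit 1672) (nat_lit 3188480133) (nat_lit 1748) (nat_lit 2938097282) (nat_lit 461) (nat_lit 5) (nat_lit 483) (nat_lit 5) (nat_lit 484) (nat_lit 5) (nat_lit 438) (nat_lit 425) (nat_lit 277))))) (XT.nd (nat_lit 234) (nat_lit 1596) (nat_lit 0) (XT.nd (nat_lit 78) (nat_lit 0) (nat_lit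 76) (XT.lf (nat_lit 76) (nat_lit 2787423452) (nat_lit 0) (nat_lit 3786512575) (nat_lit 1748) (nat_lit 5208847682) (nat_lit 462) (nat_lit 5) (nat_lit 461) (nat_lit 5) (nat_lit 484) (nat_lit 5) (nat_lit 439) (nat_lit 425) (nat_lit 276)) (XT.nd (nat_lit 78) (nat_lit 0) (nat_lit 0) (XT.lf (nat_lit 0) (nat_lit 7640842565) (nat_lit 1672) (nat_lit 2988550858) (nat_lit 1748) (nat_lit 1267454007) (nat_lit 462) (nat_lit 5) (nat_lit 484) (nat_lit 5) (nat_lit 485) (nat_lit 5) (nat_lit 440) (nat_lit 425) (nat_lit 275)) (XT.lf (nat_lit 76) (nat_lit 3145195703) (nat_lit 0) (nat_lit 5616373761) (nat_lit 1748) (nat_lit 3250977106) (nat_lit 463) (nat_lit 5) (nat_lit 462) (nat_lit 5) (nat_lit 485) (nat_lit 5) (nat_lit 441) (nat_lit 425) (nat_lit 274)))) (XT.nd (nat_lit 78) (nat_lit 1672) (nat_lit 0) (XT.lf (nat_lit 76) (nat_lit 9432816862) (nat_lit 0) (nat_lit 479128820) (nat_lit 1748) (nat_lit 2218473029) (nat_lit 463) (nat_lit 5) (nat_lit 462)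 (nat_lit 5) (nat_lit 485) (nat_lit 5) (nat_lit 442) (nat_lit 425) (nat_lit 273)) (XT.nd (nat_lit 78) (nat_lit 1748) (nat_lit 0) (XT.lf (nat_lit 76) (nat_lit 3602472847) (nat_lit 0) (nat_lit 7524610627) (nat_lit 1748) (nat_lit 1122733383) (nat_lit 464) (nat_lit 5) (nat_lit 463) (nat_lit 5) (nat_lit 486) (nat_lit 5) (nat_lit 443) (nat_lit 425) (nat_lit 272)) (XT.lf (nat_lit 0) (nat_lit 3936610) (nat_lit 1748) (nat_lit 2318897858) (nat_lit 1824) (nat_lit 10048593677) (nat_lit 440) (nat_lit 5) (nat_lit 463) (nat_lit 5) (nat_lit 464) (nat_lit 5) (nat_lit 444) (nat_lit 425) (nat_lit 271)))))) (XT.nd (nat_lit 390) (nat_lit 3876) (nat_lit 0) (XT.nd (nat_lit 156) (nat_lit 0) (nat_lit 76) (XT.nd (nat_lit 78) (nat_lit 0) (nat_lit 0) (XT.lf (nat_lit 0) (nat_lit 1172634276) (nat_lit 1748) (nat_lit 8340543515) (nat_lit 1824) (nat_lit 2981458321) (nat_lit 441) (nat_lit 5) (nat_lit 464) (nat_lit 5) (nat_lit 465) (nat_lit 5) (nat_lit 445) (nat_lit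 425) (nat_lit 270)) (XT.lf (nat_lit 0) (nat_lit 2383747738) (nat_lit 1748) (nat_lit 1857033538) (nat_lit 1824) (nat_lit 8379149489) (nat_lit 441) (nat_lit 5) (nat_lit 464) (nat_lit 5) (nat_lit 465) (nat_lit 5) (nat_lit 446) (nat_lit 425) (nat_lit 269))) (XT.nd (nat_lit 78) (nat_lit 0) (nat_lit 0) (XT.lf (nat_lit 0) (nat_lit 3646147773) (nat_lit 1748) (nat_lit 7945061183) (nat_lit 1824) (nat_lit 1155984369) (nat_lit 442) (nat_lit 5) (nat_lit 465) (nat_lit 5) (nat_lit 466) (nat_lit 5) (nat_lit 447) (nat_lit 425) (nat_lit 268)) (XT.nd (nat_lit 78) (nat_lit 0) (nat_lit 0) (XT.lf (nat_lit 0) (nat_lit 4962840413) (nat_lit 1748) (nat_lit 1294793996) (nat_lit 1824) (nat_lit 6618789068) (nat_lit 442) (nat_lit 5) (nat_lit 465) (nat_lit 5) (nat_lit 466) (nat_lit 5) (nat_lit 448) (nat_lit 425) (nat_lit 267)) (XT.lf (nat_lit 76) (nat_lit 5551951575) (nat_lit 0) (nat_lit 778605185) (nat_lit 1824) (nat_lit 6677190844) (nat_lit 443) (nat_lit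 5) (nat_lit 442) (nat_lit 5) (nat_lit 466) (nat_lit 5) (nat_lit 449) (nat_lit 425) (nat_lit 266))))) (XT.nd (nat_lit 234) (nat_lit 988) (nat_lit 0) (XT.nd (nat_lit 78) (nat_lit 3040) (nat_lit 0) (XT.lf (nat_lit 0) (nat_lit 7754421231) (nat_lit 1748) (nat_lit 629148163) (nat_lit 76) (nat_lit 4757556053) (nat_lit 443) (nat_lit 5) (nat_lit 466) (nat_lit 5) (nat_lit 444) (nat_lit 5) (nat_lit 450) (nat_lit 425) (nat_lit 265)) (XT.nd (nat_lit 78) (nat_lit 1292) (nat_lit 0) (XT.lf (nat_lit 0) (nat_lit 6403526626) (nat_lit 1748) (nat_lit 2839005657) (nat_lit 1824) (nat_lit 4033926224) (nat_lit 420) (nat_lit 5) (nat_lit 443) (nat_lit 5) (nat_lit 444) (nat_lit 5) (nat_lit 451) (nat_lit 425) (nat_lit 264)) (XT.lf (nat_lit 0) (nat_lit 145056780) (nat_lit 1292) (nat_lit 10628028477) (nat_lit 1368) (nat_lit 2641162365) (nat_lit 403) (nat_lit 5) (nat_lit 420) (nat_lit 5) (nat_lit 421) (nat_lit 5) (nat_lit 452) (nat_lit 425) (nat_lit 263))))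 (XT.nd (nat_lit 78) (nat_lit 988) (nat_lit 0) (XT.lf (nat_lit 0) (nat_lit 7368080064) (nat_lit 1292) (nat_lit 5020320099) (nat_lit 1368) (nat_lit 1165312268) (nat_lit 403) (nat_lit 5) (nat_lit 420) (nat_lit 5) (nat_lit 421) (nat_lit 5) (nat_lit 453) (nat_lit 425) (nat_lit 262)) (XT.nd (nat_lit 78) (nat_lit 0) (nat_lit 0) (XT.lf (nat_lit 0) (nat_lit 336455638) (nat_lit 988) (nat_lit 12658953552) (nat_lit 76) (nat_lit 700498789) (nat_lit 390) (nat_lit 5) (nat_lit 403) (nat_lit 5) (nat_lit 391) (nat_lit 5) (nat_lit 454) (nat_lit 425) (nat_lit 261)) (XT.lf (nat_lit 0) (nat_lit 1917342072) (nat_lit 988) (nat_lit 5403066493) (nat_lit 76) (nat_lit 6519093846) (nat_lit 390) (nat_lit 5) (nat_lit 403) (nat_lit 5) (nat_lit 391) (nat_lit 5) (nat_lit 455) (nat_lit 425) (nat_lit 260))))))) (XT.nd (nat_lit 858) (nat_lit 5016) (nat_lit 0) (XT.nd (nat_lit 390) (nat_lit 2432) (nat_lit 0) (XT.nd (nat_lit 156) (nat_lit 1748) (nat_lit 0) (XT.nd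 (nat_lit 78) (nat_lit 0) (nat_lit 0) (XT.lf (nat_lit 0) (nat_lit 2015001970) (nat_lit 836) (nat_lit 1517771327) (nat_lit 912) (nat_lit 10453139598) (nat_lit 379) (nat_lit 5) (nat_lit 390) (nat_lit 5) (nat_lit 391) (nat_lit 5) (nat_lit 456) (nat_lit 425) (nat_lit 259)) (XT.lf (nat_lit 0) (nat_lit 5235572078) (nat_lit 912) (nat_lit 4518177930) (nat_lit 76) (nat_lit 4380403054) (nat_lit 379) (nat_lit 5) (nat_lit 391) (nat_lit 5) (nat_lit 380) (nat_lit 5) (nat_lit 457) (nat_lit 425) (nat_lit 258))) (XT.nd (nat_lit 78) (nat_lit 836) (nat_lit 0) (XT.lf (nat_lit 0) (nat_lit 3104957310) (nat_lit 912) (nat_lit 3887864465) (nat_lit 988) (nat_lit 7292130962) (nat_lit 367) (nat_lit 5) (nat_lit 379) (nat_lit 5) (nat_lit 380) (nat_lit 5) (nat_lit 458) (nat_lit 425) (nat_lit 257)) (XT.nd (nat_lit 78) (nat_lit 836) (nat_lit 0) (XT.lf (nat_lit 0) (nat_lit 8819660046) (nat_lit 988) (nat_lit 3519627437) (nat_lit 76) (nat_lit 2098794598) (nat_lit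 367) (nat_lit 5) (nat_lit 380) (nat_lit 5) (nat_lit 368) (nat_lit 5) (nat_lit 459) (nat_lit 425) (nat_lit 256)) (XT.lf (nat_lit 0) (nat_lit 4315524196) (nat_lit 836) (nat_lit 6411786509) (nat_lit 912) (nat_lit 3866080295) (nat_lit 356) (nat_lit 5) (nat_lit 367) (nat_lit 5) (nat_lit 368) (nat_lit 5) (nat_lit 460) (nat_lit 425) (nat_lit 255))))) (XT.nd (nat_lit 234) (nat_lit 1520) (nat_lit 0) (XT.nd (nat_lit 78) (nat_lit 912) (nat_lit 0) (XT.lf (nat_lit 0) (nat_lit 12345874215) (nat_lit 836) (nat_lit 341493920) (nat_lit 912) (nat_lit 2064155337) (nat_lit 356) (nat_lit 5) (nat_lit 367) (nat_lit 5) (nat_lit 368) (nat_lit 5) (nat_lit 461) (nat_lit 425) (nat_lit 254)) (XT.nd (nat_lit 78) (nat_lit 76) (nat_lit 0) (XT.lf (nat_lit 0) (nat_lit 5650921644) (nat_lit 836) (nat_lit 9101197798) (nat_lit 912) (nat_lit 159391701) (nat_lit 345) (nat_lit 5) (nat_lit 356) (nat_lit 5) (nat_lit 357) (nat_lit 5) (nat_lit 462) (nat_lit 425) (nat_lit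 253)) (XT.lf (nat_lit 0) (nat_lit 1769466343) (nat_lit 912) (nat_lit 1196373755) (nat_lit 76) (nat_lit 12108441396) (nat_lit 344) (nat_lit 5) (nat_lit 356) (nat_lit 5) (nat_lit 345) (nat_lit 5) (nat_lit 463) (nat_lit 425) (nat_lit 252)))) (XT.nd (nat_lit 78) (nat_lit 760) (nat_lit 0) (XT.lf (nat_lit 0) (nat_lit 3793690661) (nat_lit 836) (nat_lit 8148982952) (nat_lit 76) (nat_lit 3296436365) (nat_lit 334) (nat_lit 5) (nat_lit 345) (nat_lit 5) (nat_lit 335) (nat_lit 5) (nat_lit 464) (nat_lit 425) (nat_lit 251)) (XT.nd (nat_lit 78) (nat_lit 0) (nat_lit 0) (XT.lf (nat_lit 0) (nat_lit 124216380) (nat_lit 760) (nat_lit 5753884489) (nat_lit 836) (nat_lit 9528742353) (nat_lit 324) (nat_lit 5) (nat_lit 334) (nat_lit 5) (nat_lit 335) (nat_lit 5) (nat_lit 465) (nat_lit 425) (nat_lit 250)) (XT.lf (nat_lit 0) (nat_lit 8054155587) (nat_lit 836) (nat_lit 6916817310) (nat_lit 76) (nat_lit 605961284) (nat_lit 324) (nat_lit 5) (nat_lit 335) (nat_lit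 5) (nat_lit 325) (nat_lit 5) (nat_lit 466) (nat_lit 425) (nat_lit 249)))))) (XT.nd (nat_lit 468) (nat_lit 2736) (nat_lit 0) (XT.nd (nat_lit 234) (nat_lit 760) (nat_lit 0) (XT.nd (nat_lit 78) (nat_lit 760) (nat_lit 0) (XT.lf (nat_lit 0) (nat_lit 1589906404) (nat_lit 760) (nat_lit 8723706713) (nat_lit 836) (nat_lit 5436018342) (nat_lit 314) (nat_lit 5) (nat_lit 324) (nat_lit 5) (nat_lit 325) (nat_lit 5) (nat_lit 467) (nat_lit 425) (nat_lit 248)) (XT.nd (nat_lit 78) (nat_lit 760) (nat_lit 0) (XT.lf (nat_lit 0) (nat_lit 10351435340) (nat_lit 760) (nat_lit 2304802302) (nat_lit 836) (nat_lit 3268787575) (nat_lit 314) (nat_lit 5) (nat_lit 324) (nat_lit 5) (nat_lit 325) (nat_lit 5) (nat_lit 468) (nat_lit 425) (nat_lit 247)) (XT.lf (nat_lit 0) (nat_lit 3189479933) (nat_lit 760) (nat_lit 11896211599) (nat_lit 836) (nat_lit 1017437831) (nat_lit 304) (nat_lit 5) (nat_lit 314) (nat_lit 5) (nat_lit 315) (nat_lit 5) (nat_lit 469) (nat_lit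 425) (nat_lit 246)))) (XT.nd (nat_lit 78) (nat_lit 684) (nat_lit 0) (XT.lf (nat_lit 0) (nat_lit 1306849710) (nat_lit 836) (nat_lit 4113625252) (nat_lit 76) (nat_lit 10863262840) (nat_lit 303) (nat_lit 5) (nat_lit 314) (nat_lit 5) (nat_lit 304) (nat_lit 5) (nat_lit 470) (nat_lit 425) (nat_lit 245)) (XT.nd (nat_lit 78) (nat_lit 0) (nat_lit 0) (XT.lf (nat_lit 0) (nat_lit 3695773621) (nat_lit 760) (nat_lit 11564166321) (nat_lit 76) (nat_lit 1207250413) (nat_lit 294) (nat_lit 5) (nat_lit 304) (nat_lit 5) (nat_lit 295) (nat_lit 5) (nat_lit 471) (nat_lit 425) (nat_lit 244)) (XT.lf (nat_lit 0) (nat_lit 6188187757) (nat_lit 760) (nat_lit 2543115060) (nat_lit 76) (nat_lit 7921896803) (nat_lit 294) (nat_lit 5) (nat_lit 304) (nat_lit 5) (nat_lit 295) (nat_lit 5) (nat_lit 472) (nat_lit 425) (nat_lit 243))))) (XT.nd (nat_lit 234) (nat_lit 1368) (nat_lit 0) (XT.nd (nat_lit 78) (nat_lit 684) (nat_lit 0) (XT.lf (nat_lit 0) (nat_lit 6737860004)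 (nat_lit 684) (nat_lit 2028520315) (nat_lit 760) (nat_lit 8075832003) (nat_lit 285) (nat_lit 5) (nat_lit 294) (nat_lit 5) (nat_lit 295) (nat_lit 5) (nat_lit 473) (nat_lit 425) (nat_lit 242)) (XT.nd (nat_lit 78) (nat_lit 684) (nat_lit 0) (XT.lf (nat_lit 0) (nat_lit 11436806698) (nat_lit 760) (nat_lit 836024925) (nat_lit 76) (nat_lit 4761362078) (nat_lit 285) (nat_lit 5) (nat_lit 295) (nat_lit 5) (nat_lit 286) (nat_lit 5) (nat_lit 474) (nat_lit 425) (nat_lit 241)) (XT.lf (nat_lit 0) (nat_lit 8709683470) (nat_lit 684) (nat_lit 5513365120) (nat_lit 760) (nat_lit 3005719764) (nat_lit 276) (nat_lit 5) (nat_lit 285) (nat_lit 5) (nat_lit 286) (nat_lit 5) (nat_lit 475) (nat_lit 425) (nat_lit 240)))) (XT.nd (nat_lit 78) (nat_lit 684) (nat_lit 0) (XT.lf (nat_lit 0) (nat_lit 1026102058) (nat_lit 684) (nat_lit 16052698878) (nat_lit 760) (nat_lit 348159600) (nat_lit 267) (nat_lit 5) (nat_lit 276) (nat_lit 5) (nat_lit 277) (nat_lit 5) (nat_lit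 476) (nat_lit 425) (nat_lit 239)) (XT.nd (nat_lit 78) (nat_lit 608) (nat_lit 0) (XT.lf (nat_lit 0) (nat_lit 2418171869) (nat_lit 760) (nat_lit 6811440953) (nat_lit 76) (nat_lit 8397466529) (nat_lit 266) (nat_lit 5) (nat_lit 276) (nat_lit 5) (nat_lit 267) (nat_lit 5) (nat_lit 477) (nat_lit 425) (nat_lit 238)) (XT.lf (nat_lit 0) (nat_lit 2998045090) (nat_lit 608) (nat_lit 2249285721) (nat_lit 684) (nat_lit 12583582101) (nat_lit 258) (nat_lit 5) (nat_lit 266) (nat_lit 5) (nat_lit 267) (nat_lit 5) (nat_lit 478) (nat_lit 425) (nat_lit 237))))))))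
noncomputable def xc196 : XT := (XT.nd (nat_lit 1716) (nat_lit 1748) (nat_lit 0) (XT.nd (nat_lit 858) (nat_lit 3040) (nat_lit 0) (XT.nd (nat_lit 390) (nat_lit 2280) (nat_lit 0) (XT.nd (nat_lit 156) (nat_lit 684) (nat_lit 0) (XT.nd (nat_lit 78) (nat_lit 608) (nat_lit 0) (XT.lf (nat_lit 0) (nat_lit 8203477994) (nat_lit 684) (nat_lit 4982596568) (nat_lit 76) (nat_lit 4851342097) (nat_lit 258) (nat_lit 5) (nat_lit 267) (nat_lit 5) (nat_lit 259) (nat_lit 5) (nat_lit 479) (nat_lit 425) (nat_lit 236)) (XT.lf (nat_lit 0) (nat_lit 5108137995) (nat_lit 608) (nat_lit 6151583759) (nat_lit 684) (nat_lit 6987510839) (nat_lit 250) (nat_lit 5) (nat_lit 258) (nat_lit 5) (nat_lit 259) (nat_lit 5) (nat_lit 480) (nat_lit 425) (nat_lit 235))) (XT.nd (nat_lit 78) (nat_lit 684) (nat_lit 0) (XT.lf (nat_lit 0) (nat_lit 14410378811) (nat_lit 684) (nat_lit 3007930651) (nat_lit 76) (nat_lit 1042271171) (nat_lit 250) (nat_lit 5) (nat_lit 259) (nat_lit 5)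 (nat_lit 251) (nat_lit 5) (nat_lit 481) (nat_lit 425) (nat_lit 234)) (XT.nd (nat_lit 78) (nat_lit 76) (nat_lit 0) (XT.lf (nat_lit 0) (nat_lit 7373275444) (nat_lit 608) (nat_lit 10332507543) (nat_lit 684) (nat_lit 970779490) (nat_lit 242) (nat_lit 5) (nat_lit 250) (nat_lit 5) (nat_lit 251) (nat_lit 5) (nat_lit 482) (nat_lit 425) (nat_lit 233)) (XT.lf (nat_lit 0) (nat_lit 2155242853) (nat_lit 684) (nat_lit 916385770) (nat_lit 76) (nat_lit 15824685497) (nat_lit 241) (nat_lit 5) (nat_lit 250) (nat_lit 5) (nat_lit 242) (nat_lit 5) (nat_lit 483) (nat_lit 425) (nat_lit 232))))) (XT.nd (nat_lit 234) (nat_lit 1140) (nat_lit 0) (XT.nd (nat_lit 78) (nat_lit 532) (nat_lit 0) (XT.lf (nat_lit 0) (nat_lit 5416259192) (nat_lit 684) (nat_lit 9355956921) (nat_lit 76) (nat_lit 4346408335) (nat_lit 233) (nat_lit 5) (nat_lit 242) (nat_lit 5) (nat_lit 234) (nat_lit 5) (nat_lit 484) (nat_lit 425) (nat_lit 231)) (XT.nd (nat_lit 78) (nat_lit 0) (nat_lit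 0) (XT.lf (nat_lit 0) (nat_lit 1310794935) (nat_lit 532) (nat_lit 7460099914) (nat_lit 608) (nat_lit 10573919562) (nat_lit 226) (nat_lit 5) (nat_lit 233) (nat_lit 5) (nat_lit 234) (nat_lit 5) (nat_lit 485) (nat_lit 425) (nat_lit 230)) (XT.lf (nat_lit 0) (nat_lit 12249230993) (nat_lit 608) (nat_lit 7265517089) (nat_lit 76) (nat_lit 59649315) (nat_lit 226) (nat_lit 5) (nat_lit 234) (nat_lit 5) (nat_lit 227) (nat_lit 5) (nat_lit 486) (nat_lit 425) (nat_lit 229)))) (XT.nd (nat_lit 78) (nat_lit 608) (nat_lit 0) (XT.lf (nat_lit 0) (nat_lit 3709220953) (nat_lit 532) (nat_lit 12154949186) (nat_lit 608) (nat_lit 3943062533) (nat_lit 219) (nat_lit 5) (nat_lit 226) (nat_lit 5) (nat_lit 227) (nat_lit 5) (nat_lit 487) (nat_lit 425) (nat_lit 228)) (XT.nd (nat_lit 78) (nat_lit 608) (nat_lit 0) (XT.lf (nat_lit 0) (nat_lit 14993618009) (nat_lit 532) (nat_lit 4600166886) (nat_lit 608) (nat_lit 450093545) (nat_lit 219) (nat_lit 5) (nat_lit 226)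 (nat_lit 5) (nat_lit 227) (nat_lit 5) (nat_lit 488) (nat_lit 425) (nat_lit 227)) (XT.lf (nat_lit 0) (nat_lit 3126893362) (nat_lit 608) (nat_lit 14032466721) (nat_lit 76) (nat_lit 3124394466) (nat_lit 211) (nat_lit 5) (nat_lit 219) (nat_lit 5) (nat_lit 212) (nat_lit 5) (nat_lit 489) (nat_lit 425) (nat_lit 226)))))) (XT.nd (nat_lit 390) (nat_lit 1444) (nat_lit 0) (XT.nd (nat_lit 156) (nat_lit 1064) (nat_lit 0) (XT.nd (nat_lit 78) (nat_lit 532) (nat_lit 0) (XT.lf (nat_lit 0) (nat_lit 6827739207) (nat_lit 608) (nat_lit 2722397898) (nat_lit 76) (nat_lit 10977065903) (nat_lit 211) (nat_lit 5) (nat_lit 219) (nat_lit 5) (nat_lit 212) (nat_lit 5) (nat_lit 490) (nat_lit 425) (nat_lit 225)) (XT.lf (nat_lit 0) (nat_lit 8922756335) (nat_lit 532) (nat_lit 1731661709) (nat_lit 608) (nat_lit 10120067296) (nat_lit 204) (nat_lit 5) (nat_lit 211) (nat_lit 5) (nat_lit 212) (nat_lit 5) (nat_lit 491) (nat_lit 425) (nat_lit 224))) (XT.nd (nat_lit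 78) (nat_lit 1064) (nat_lit 0) (XT.lf (nat_lit 0) (nat_lit 14610492879) (nat_lit 608) (nat_lit 237482267) (nat_lit 76) (nat_lit 6177682125) (nat_lit 204) (nat_lit 5) (nat_lit 212) (nat_lit 5) (nat_lit 205) (nat_lit 5) (nat_lit 492) (nat_lit 425) (nat_lit 223)) (XT.nd (nat_lit 78) (nat_lit 608) (nat_lit 0) (XT.lf (nat_lit 0) (nat_lit 11743566189) (nat_lit 456) (nat_lit 6983894693) (nat_lit 532) (nat_lit 2552757504) (nat_lit 198) (nat_lit 5) (nat_lit 204) (nat_lit 5) (nat_lit 205) (nat_lit 5) (nat_lit 493) (nat_lit 425) (nat_lit 222)) (XT.lf (nat_lit 0) (nat_lit 1387149743) (nat_lit 608) (nat_lit 19103783859) (nat_lit 76) (nat_lit 1048389327) (nat_lit 190) (nat_lit 5) (nat_lit 198) (nat_lit 5) (nat_lit 191) (nat_lit 5) (nat_lit 494) (nat_lit 425) (nat_lit 221))))) (XT.nd (nat_lit 234) (nat_lit 988) (nat_lit 0) (XT.nd (nat_lit 78) (nat_lit 456) (nat_lit 0) (XT.lf (nat_lit 0) (nat_lit 5476507806) (nat_lit 608) (nat_lit 7097576457)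 (nat_lit 76) (nat_lit 9227092254) (nat_lit 190) (nat_lit 5) (nat_lit 198) (nat_lit 5) (nat_lit 191) (nat_lit 5) (nat_lit 495) (nat_lit 425) (nat_lit 220)) (XT.nd (nat_lit 78) (nat_lit 0) (nat_lit 0) (XT.lf (nat_lit 0) (nat_lit 5209120352) (nat_lit 456) (nat_lit 4466600226) (nat_lit 532) (nat_lit 12391986335) (nat_lit 184) (nat_lit 5) (nat_lit 190) (nat_lit 5) (nat_lit 191) (nat_lit 5) (nat_lit 496) (nat_lit 425) (nat_lit 219)) (XT.lf (nat_lit 0) (nat_lit 14025846972) (nat_lit 532) (nat_lit 4513463503) (nat_lit 76) (nat_lit 3798919922) (nat_lit 184) (nat_lit 5) (nat_lit 191) (nat_lit 5) (nat_lit 185) (nat_lit 5) (nat_lit 497) (nat_lit 425) (nat_lit 218)))) (XT.nd (nat_lit 78) (nat_lit 532) (nat_lit 0) (XT.lf (nat_lit 0) (nat_lit 8147999726) (nat_lit 456) (nat_lit 10391864067) (nat_lit 532) (nat_lit 4072763846) (nat_lit 178) (nat_lit 5) (nat_lit 184) (nat_lit 5) (nat_lit 185) (nat_lit 5) (nat_lit 498) (nat_lit 425) (nat_lit 217))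 (XT.nd (nat_lit 78) (nat_lit 456) (nat_lit 0) (XT.lf (nat_lit 0) (nat_lit 273262984) (nat_lit 532) (nat_lit 1777736210) (nat_lit 76) (nat_lit 20840983653) (nat_lit 177) (nat_lit 5) (nat_lit 184) (nat_lit 5) (nat_lit 178) (nat_lit 5) (nat_lit 499) (nat_lit 425) (nat_lit 216)) (XT.lf (nat_lit 0) (nat_lit 4762045089) (nat_lit 532) (nat_lit 11941506092) (nat_lit 76) (nat_lit 6470629164) (nat_lit 171) (nat_lit 5) (nat_lit 178) (nat_lit 5) (nat_lit 172) (nat_lit 5) (nat_lit 500) (nat_lit 425) (nat_lit 215))))))) (XT.nd (nat_lit 53820) (nat_lit 0) (nat_lit 23560) (XT.nd (nat_lit 390) (nat_lit 380) (nat_lit 0) (XT.nd (nat_lit 156) (nat_lit 912) (nat_lit 0) (XT.nd (nat_lit 78) (nat_lit 0) (nat_lit 0) (XT.lf (nat_lit 0) (nat_lit 1058064823) (nat_lit 456) (nat_lit 8309577973) (nat_lit 532) (nat_lit 14093839165) (nat_lit 165) (nat_lit 5) (nat_lit 171) (nat_lit 5) (nat_lit 172) (nat_lit 5) (nat_lit 501) (nat_lit 425) (nat_lit 214)) (XT.lf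 (nat_lit 0) (nat_lit 14142274900) (nat_lit 532) (nat_lit 9283397656) (nat_lit 76) (nat_lit 327319549) (nat_lit 165) (nat_lit 5) (nat_lit 172) (nat_lit 5) (nat_lit 166) (nat_lit 5) (nat_lit 502) (nat_lit 425) (nat_lit 213))) (XT.nd (nat_lit 78) (nat_lit 532) (nat_lit 0) (XT.lf (nat_lit 0) (nat_lit 4089986217) (nat_lit 380) (nat_lit 14998724170) (nat_lit 456) (nat_lit 4960096781) (nat_lit 160) (nat_lit 5) (nat_lit 165) (nat_lit 5) (nat_lit 166) (nat_lit 5) (nat_lit 503) (nat_lit 425) (nat_lit 212)) (XT.nd (nat_lit 78) (nat_lit 532) (nat_lit 0) (XT.lf (nat_lit 0) (nat_lit 17849080389) (nat_lit 380) (nat_lit 6342070301) (nat_lit 456) (nat_lit 158247231) (nat_lit 160) (nat_lit 5) (nat_lit 165) (nat_lit 5) (nat_lit 166) (nat_lit 5) (nat_lit 504) (nat_lit 425) (nat_lit 211)) (XT.lf (nat_lit 0) (nat_lit 4736275358) (nat_lit 532) (nat_lit 17386591308) (nat_lit 76) (nat_lit 2531343293) (nat_lit 153) (nat_lit 5) (nat_lit 160) (nat_lit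 5) (nat_lit 154) (nat_lit 5) (nat_lit 505) (nat_lit 425) (nat_lit 210))))) (XT.nd (nat_lit 53196) (nat_lit 0) (nat_lit 25080) (XT.nd (nat_lit 156) (nat_lit 380) (nat_lit 0) (XT.lf (nat_lit 0) (nat_lit 9807365736) (nat_lit 532) (nat_lit 3616110820) (nat_lit 76) (nat_lit 11540005696) (nat_lit 153) (nat_lit 5) (nat_lit 160) (nat_lit 5) (nat_lit 154) (nat_lit 5) (nat_lit 506) (nat_lit 425) (nat_lit 209)) (XT.nd (nat_lit 52962) (nat_lit 0) (nat_lit 25080) (XT.lf (nat_lit 0) (nat_lit 20433771465) (nat_lit 456) (nat_lit 564937576) (nat_lit 76) (nat_lit 4598441744) (nat_lit 148) (nat_lit 5) (nat_lit 154) (nat_lit 5) (nat_lit 149) (nat_lit 5) (nat_lit 508) (nat_lit 425) (nat_lit 207)) (XT.lf (nat_lit 0) (nat_lit 1752452531) (nat_lit 0) (nat_lit 1752452531) (nat_lit 1596) (nat_lit 1770095104) (nat_lit 478) (nat_lit 5) (nat_lit 478) (nat_lit 3) (nat_lit 499) (nat_lit 3) (nat_lit 426) (nat_lit 426) (nat_lit 288)))) (XT.nd (nat_lit 78) (nat_lit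 0) (nat_lit 0) (XT.lf (nat_lit 0) (nat_lit 7705297453) (nat_lit 1596) (nat_lit 1954761565) (nat_lit 1672) (nat_lit 982746689) (nat_lit 478) (nat_lit 5) (nat_lit 499) (nat_lit 3) (nat_lit 500) (nat_lit 5) (nat_lit 427) (nat_lit 426) (nat_lit 287)) (XT.nd (nat_lit 78) (nat_lit 0) (nat_lit 0) (XT.lf (nat_lit 76) (nat_lit 3248269569) (nat_lit 0) (nat_lit 5194544279) (nat_lit 1672) (nat_lit 2294095856) (nat_lit 479) (nat_lit 5) (nat_lit 478) (nat_lit 5) (nat_lit 500) (nat_lit 5) (nat_lit 428) (nat_lit 426) (nat_lit 286)) (XT.lf (nat_lit 76) (nat_lit 8573414960) (nat_lit 0) (nat_lit 618863669) (nat_lit 1672) (nat_lit 1640677994) (nat_lit 479) (nat_lit 5) (nat_lit 478) (nat_lit 5) (nat_lit 500) (nat_lit 5) (nat_lit 429) (nat_lit 426) (nat_lit 285)))))) (XT.nd (nat_lit 468) (nat_lit 0) (nat_lit 76) (XT.nd (nat_lit 234) (nat_lit 0) (nat_lit 0) (XT.nd (nat_lit 78) (nat_lit 1596) (nat_lit 0) (XT.lf (nat_lit 76) (nat_lit 3079601300) (nat_lit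 0) (nat_lit 6907850979) (nat_lit 1672) (nat_lit 942862522) (nat_lit 480) (nat_lit 5) (nat_lit 479) (nat_lit 5) (nat_lit 501) (nat_lit 5) (nat_lit 430) (nat_lit 426) (nat_lit 284)) (XT.nd (nat_lit 78) (nat_lit 1596) (nat_lit 0) (XT.lf (nat_lit 76) (nat_lit 8543417211) (nat_lit 0) (nat_lit 2259036035) (nat_lit 1672) (nat_lit 227093038) (nat_lit 480) (nat_lit 5) (nat_lit 479) (nat_lit 5) (nat_lit 501) (nat_lit 5) (nat_lit 431) (nat_lit 426) (nat_lit 283)) (XT.lf (nat_lit 0) (nat_lit 517158890) (nat_lit 1672) (nat_lit 8133545881) (nat_lit 1748) (nat_lit 2479581471) (nat_lit 458) (nat_lit 5) (nat_lit 480) (nat_lit 5) (nat_lit 481) (nat_lit 5) (nat_lit 432) (nat_lit 426) (nat_lit 282)))) (XT.nd (nat_lit 78) (nat_lit 0) (nat_lit 76) (XT.lf (nat_lit 0) (nat_lit 1290179824) (nat_lit 1672) (nat_lit 2635223617) (nat_lit 1748) (nat_lit 7307273393) (nat_lit 458) (nat_lit 5) (nat_lit 480) (nat_lit 5) (nat_lit 481) (nat_lit 5) (nat_lit 433)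 (nat_lit 426) (nat_lit 281)) (XT.nd (nat_lit 78) (nat_lit 0) (nat_lit 0) (XT.lf (nat_lit 0) (nat_lit 2089595785) (nat_lit 1672) (nat_lit 8339268730) (nat_lit 1748) (nat_lit 908036298) (nat_lit 459) (nat_lit 5) (nat_lit 481) (nat_lit 5) (nat_lit 482) (nat_lit 5) (nat_lit 434) (nat_lit 426) (nat_lit 280)) (XT.lf (nat_lit 0) (nat_lit 2934520857) (nat_lit 1672) (nat_lit 2699106283) (nat_lit 1748) (nat_lit 5808995898) (nat_lit 459) (nat_lit 5) (nat_lit 481) (nat_lit 5) (nat_lit 482) (nat_lit 5) (nat_lit 435) (nat_lit 426) (nat_lit 279))))) (XT.nd (nat_lit 234) (nat_lit 0) (nat_lit 152) (XT.nd (nat_lit 78) (nat_lit 0) (nat_lit 76) (XT.lf (nat_lit 76) (nat_lit 3085499254) (nat_lit 0) (nat_lit 716882102) (nat_lit 1748) (nat_lit 7747961716) (nat_lit 460) (nat_lit 5) (nat_lit 459) (nat_lit 5) (nat_lit 482) (nat_lit 5) (nat_lit 436) (nat_lit 426) (nat_lit 278)) (XT.nd (nat_lit 78) (nat_lit 0) (nat_lit 0) (XT.lf (nat_lit 0) (nat_lit 4719992035)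 (nat_lit 1672) (nat_lit 2674579042) (nat_lit 1748) (nat_lit 4265002589) (nat_lit 460) (nat_lit 5) (nat_lit 482) (nat_lit 5) (nat_lit 483) (nat_lit 5) (nat_lit 437) (nat_lit 426) (nat_lit 277)) (XT.lf (nat_lit 76) (nat_lit 3260603849) (nat_lit 0) (nat_lit 2407792022) (nat_lit 1748) (nat_lit 6102348123) (nat_lit 461) (nat_lit 5) (nat_lit 460) (nat_lit 5) (nat_lit 483) (nat_lit 5) (nat_lit 438) (nat_lit 426) (nat_lit 276)))) (XT.nd (nat_lit 78) (nat_lit 0) (nat_lit 0) (XT.lf (nat_lit 0) (nat_lit 6657985456) (nat_lit 1672) (nat_lit 2559687099) (nat_lit 1748) (nat_lit 2666024687) (nat_lit 461) (nat_lit 5) (nat_lit 483) (nat_lit 5) (nat_lit 484) (nat_lit 5) (nat_lit 439) (nat_lit 426) (nat_lit 275)) (XT.nd (nat_lit 78) (nat_lit 0) (nat_lit 76) (XT.lf (nat_lit 76) (nat_lit 3531178225) (nat_lit 0) (nat_lit 4162079563) (nat_lit 1748) (nat_lit 4305137736) (nat_lit 462) (nat_lit 5) (nat_lit 461) (nat_lit 5) (nat_lit 484) (nat_lit 5) (nat_lit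 440) (nat_lit 426) (nat_lit 274)) (XT.lf (nat_lit 0) (nat_lit 8760224417) (nat_lit 1672) (nat_lit 2352246481) (nat_lit 1748) (nat_lit 1002700809) (nat_lit 462) (nat_lit 5) (nat_lit 484) (nat_lit 5) (nat_lit 485) (nat_lit 5) (nat_lit 441) (nat_lit 426) (nat_lit 273))))))))
noncomputable def xc197 : XT := (XT.nd (nat_lit 1716) (nat_lit 8968) (nat_lit 0) (XT.nd (nat_lit 858) (nat_lit 5776) (nat_lit 0) (XT.nd (nat_lit 390) (nat_lit 1520) (nat_lit 0) (XT.nd (nat_lit 156) (nat_lit 1672) (nat_lit 0) (XT.nd (nat_lit 78) (nat_lit 0) (nat_lit 0) (XT.lf (nat_lit 76) (nat_lit 3899595568) (nat_lit 0) (nat_lit 5989307682) (nat_lit 1748) (nat_lit 2344576349) (nat_lit 463) (nat_lit 5) (nat_lit 462) (nat_lit 5) (nat_lit 485) (nat_lit 5) (nat_lit 442) (nat_lit 426) (nat_lit 272)) (XT.lf (nat_lit 76) (nat_lit 10299410406) (nat_lit 0) (nat_lit 744207912) (nat_lit 1748) (nat_lit 1310469648) (nat_lit 463) (nat_lit 5) (nat_lit 462) (nat_lit 5) (nat_lit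 485) (nat_lit 5) (nat_lit 443) (nat_lit 426) (nat_lit 271))) (XT.nd (nat_lit 78) (nat_lit 1748) (nat_lit 0) (XT.lf (nat_lit 76) (nat_lit 4368461857) (nat_lit 0) (nat_lit 7899173576) (nat_lit 1748) (nat_lit 208552413) (nat_lit 464) (nat_lit 5) (nat_lit 463) (nat_lit 5) (nat_lit 486) (nat_lit 5) (nat_lit 444) (nat_lit 426) (nat_lit 270)) (XT.nd (nat_lit 78) (nat_lit 0) (nat_lit 76) (XT.lf (nat_lit 0) (nat_lit 910242296) (nat_lit 1748) (nat_lit 1672644794) (nat_lit 1824) (nat_lit 10017590232) (nat_lit 440) (nat_lit 5) (nat_lit 463) (nat_lit 5) (nat_lit 464) (nat_lit 5) (nat_lit 445) (nat_lit 426) (nat_lit 269)) (XT.lf (nat_lit 0) (nat_lit 2087682166) (nat_lit 1748) (nat_lit 7799841764) (nat_lit 1824) (nat_lit 2838923151) (nat_lit 441) (nat_lit 5) (nat_lit 464) (nat_lit 5) (nat_lit 465) (nat_lit 5) (nat_lit 446) (nat_lit 426) (nat_lit 268))))) (XT.nd (nat_lit 234) (nat_lit 1596) (nat_lit 0) (XT.nd (nat_lit 78) (nat_lit 0) (nat_lit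 76) (XT.lf (nat_lit 0) (nat_lit 3305535638) (nat_lit 1748) (nat_lit 1200534384) (nat_lit 1824) (nat_lit 8348532149) (nat_lit 441) (nat_lit 5) (nat_lit 464) (nat_lit 5) (nat_lit 465) (nat_lit 5) (nat_lit 447) (nat_lit 426) (nat_lit 267)) (XT.nd (nat_lit 78) (nat_lit 0) (nat_lit 0) (XT.lf (nat_lit 0) (nat_lit 4579398998) (nat_lit 1748) (nat_lit 7396297758) (nat_lit 1824) (nat_lit 1008993722) (nat_lit 442) (nat_lit 5) (nat_lit 465) (nat_lit 5) (nat_lit 466) (nat_lit 5) (nat_lit 448) (nat_lit 426) (nat_lit 266)) (XT.lf (nat_lit 0) (nat_lit 5905556309) (nat_lit 1748) (nat_lit 626901005) (nat_lit 1824) (nat_lit 6584390011) (nat_lit 442) (nat_lit 5) (nat_lit 465) (nat_lit 5) (nat_lit 466) (nat_lit 5) (nat_lit 449) (nat_lit 426) (nat_lit 265)))) (XT.nd (nat_lit 78) (nat_lit 1672) (nat_lit 0) (XT.lf (nat_lit 76) (nat_lit 6352215077) (nat_lit 0) (nat_lit 936348395) (nat_lit 1824) (nat_lit 5962480350) (nat_lit 443) (nat_lit 5) (nat_lit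 442) (nat_lit 5) (nat_lit 466) (nat_lit 5) (nat_lit 450) (nat_lit 426) (nat_lit 264)) (XT.nd (nat_lit 78) (nat_lit 0) (nat_lit 0) (XT.lf (nat_lit 0) (nat_lit 52095519) (nat_lit 1748) (nat_lit 8671941107) (nat_lit 1824) (nat_lit 4663394493) (nat_lit 420) (nat_lit 5) (nat_lit 443) (nat_lit 5) (nat_lit 444) (nat_lit 5) (nat_lit 451) (nat_lit 426) (nat_lit 263)) (XT.lf (nat_lit 0) (nat_lit 7220180409) (nat_lit 1748) (nat_lit 3009897507) (nat_lit 1824) (nat_lit 3295634002) (nat_lit 420) (nat_lit 5) (nat_lit 443) (nat_lit 5) (nat_lit 444) (nat_lit 5) (nat_lit 452) (nat_lit 426) (nat_lit 262)))))) (XT.nd (nat_lit 390) (nat_lit 2660) (nat_lit 0) (XT.nd (nat_lit 156) (nat_lit 1824) (nat_lit 0) (XT.nd (nat_lit 78) (nat_lit 0) (nat_lit 0) (XT.lf (nat_lit 0) (nat_lit 848915711) (nat_lit 1292) (nat_lit 10930411843) (nat_lit 1368) (nat_lit 1887171900) (nat_lit 403) (nat_lit 5) (nat_lit 420) (nat_lit 5) (nat_lit 421) (nat_lit 5) (nat_lit 453)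 (nat_lit 426) (nat_lit 261)) (XT.lf (nat_lit 0) (nat_lit 8202655189) (nat_lit 1292) (nat_lit 5208788066) (nat_lit 1368) (nat_lit 397624678) (nat_lit 403) (nat_lit 5) (nat_lit 420) (nat_lit 5) (nat_lit 421) (nat_lit 5) (nat_lit 454) (nat_lit 426) (nat_lit 260))) (XT.nd (nat_lit 78) (nat_lit 836) (nat_lit 0) (XT.lf (nat_lit 0) (nat_lit 1112501648) (nat_lit 988) (nat_lit 12202828134) (nat_lit 76) (nat_lit 638905055) (nat_lit 390) (nat_lit 5) (nat_lit 403) (nat_lit 5) (nat_lit 391) (nat_lit 5) (nat_lit 455) (nat_lit 426) (nat_lit 259)) (XT.nd (nat_lit 78) (nat_lit 836) (nat_lit 0) (XT.lf (nat_lit 0) (nat_lit 2709921166) (nat_lit 988) (nat_lit 4815731265) (nat_lit 76) (nat_lit 6575354438) (nat_lit 390) (nat_lit 5) (nat_lit 403) (nat_lit 5) (nat_lit 391) (nat_lit 5) (nat_lit 456) (nat_lit 426) (nat_lit 258)) (XT.lf (nat_lit 0) (nat_lit 2746123589) (nat_lit 836) (nat_lit 1601233830) (nat_lit 912) (nat_lit 9903198156) (nat_lit 379)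 (nat_lit 5) (nat_lit 390) (nat_lit 5) (nat_lit 391) (nat_lit 5) (nat_lit 457) (nat_lit 426) (nat_lit 257))))) (XT.nd (nat_lit 234) (nat_lit 1748) (nat_lit 0) (XT.nd (nat_lit 78) (nat_lit 912) (nat_lit 0) (XT.lf (nat_lit 0) (nat_lit 6069287294) (nat_lit 912) (nat_lit 3916147406) (nat_lit 76) (nat_lit 4416628206) (nat_lit 379) (nat_lit 5) (nat_lit 391) (nat_lit 5) (nat_lit 380) (nat_lit 5) (nat_lit 458) (nat_lit 426) (nat_lit 256)) (XT.nd (nat_lit 78) (nat_lit 0) (nat_lit 0) (XT.lf (nat_lit 0) (nat_lit 3854895315) (nat_lit 912) (nat_lit 3996958385) (nat_lit 988) (nat_lit 6704225227) (nat_lit 367) (nat_lit 5) (nat_lit 379) (nat_lit 5) (nat_lit 380) (nat_lit 5) (nat_lit 459) (nat_lit 426) (nat_lit 255)) (XT.lf (nat_lit 0) (nat_lit 9700927788) (nat_lit 988) (nat_lit 2901181572) (nat_lit 76) (nat_lit 2110451230) (nat_lit 367) (nat_lit 5) (nat_lit 380) (nat_lit 5) (nat_lit 368) (nat_lit 5) (nat_lit 460) (nat_lit 426) (nat_lit 254))))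 (XT.nd (nat_lit 78) (nat_lit 912) (nat_lit 0) (XT.lf (nat_lit 0) (nat_lit 5086141262) (nat_lit 836) (nat_lit 6551212100) (nat_lit 912) (nat_lit 3233813527) (nat_lit 356) (nat_lit 5) (nat_lit 367) (nat_lit 5) (nat_lit 368) (nat_lit 5) (nat_lit 461) (nat_lit 426) (nat_lit 253)) (XT.nd (nat_lit 78) (nat_lit 912) (nat_lit 0) (XT.lf (nat_lit 0) (nat_lit 13263680505) (nat_lit 836) (nat_lit 359294251) (nat_lit 912) (nat_lit 1409763567) (nat_lit 356) (nat_lit 5) (nat_lit 367) (nat_lit 5) (nat_lit 368) (nat_lit 5) (nat_lit 462) (nat_lit 426) (nat_lit 252)) (XT.lf (nat_lit 0) (nat_lit 517017640) (nat_lit 912) (nat_lit 8755300510) (nat_lit 76) (nat_lit 5923723524) (nat_lit 344) (nat_lit 5) (nat_lit 356) (nat_lit 5) (nat_lit 345) (nat_lit 5) (nat_lit 463) (nat_lit 426) (nat_lit 251))))))) (XT.nd (nat_lit 858) (nat_lit 4484) (nat_lit 0) (XT.nd (nat_lit 390) (nat_lit 2204) (nat_lit 0) (XT.nd (nat_lit 156) (nat_lit 1520) (nat_lit 0) (XT.nd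 (nat_lit 78) (nat_lit 760) (nat_lit 0) (XT.lf (nat_lit 0) (nat_lit 2469036959) (nat_lit 912) (nat_lit 544374559) (nat_lit 76) (nat_lit 12348903838) (nat_lit 344) (nat_lit 5) (nat_lit 356) (nat_lit 5) (nat_lit 345) (nat_lit 5) (nat_lit 464) (nat_lit 426) (nat_lit 250)) (XT.lf (nat_lit 0) (nat_lit 4525185929) (nat_lit 836) (nat_lit 7627311260) (nat_lit 76) (nat_lit 3378117714) (nat_lit 334) (nat_lit 5) (nat_lit 345) (nat_lit 5) (nat_lit 335) (nat_lit 5) (nat_lit 465) (nat_lit 426) (nat_lit 249))) (XT.nd (nat_lit 78) (nat_lit 760) (nat_lit 0) (XT.lf (nat_lit 0) (nat_lit 806847773) (nat_lit 760) (nat_lit 5835997211) (nat_lit 836) (nat_lit 9059029847) (nat_lit 324) (nat_lit 5) (nat_lit 334) (nat_lit 5) (nat_lit 335) (nat_lit 5) (nat_lit 466) (nat_lit 426) (nat_lit 248)) (XT.nd (nat_lit 78) (nat_lit 760) (nat_lit 0) (XT.lf (nat_lit 0) (nat_lit 8849940786) (nat_lit 836) (nat_lit 6375704352) (nat_lit 76) (nat_lit 649975241) (nat_lit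 324) (nat_lit 5) (nat_lit 335) (nat_lit 5) (nat_lit 325) (nat_lit 5) (nat_lit 467) (nat_lit 426) (nat_lit 247)) (XT.lf (nat_lit 0) (nat_lit 2296683775) (nat_lit 760) (nat_lit 8849840965) (nat_lit 836) (nat_lit 4905411224) (nat_lit 314) (nat_lit 5) (nat_lit 324) (nat_lit 5) (nat_lit 325) (nat_lit 5) (nat_lit 468) (nat_lit 426) (nat_lit 246))))) (XT.nd (nat_lit 234) (nat_lit 1368) (nat_lit 0) (XT.nd (nat_lit 78) (nat_lit 836) (nat_lit 0) (XT.lf (nat_lit 0) (nat_lit 11220208402) (nat_lit 760) (nat_lit 2303506307) (nat_lit 836) (nat_lit 2707371674) (nat_lit 314) (nat_lit 5) (nat_lit 324) (nat_lit 5) (nat_lit 325) (nat_lit 5) (nat_lit 469) (nat_lit 426) (nat_lit 245)) (XT.nd (nat_lit 78) (nat_lit 76) (nat_lit 0) (XT.lf (nat_lit 0) (nat_lit 3922712130) (nat_lit 760) (nat_lit 12071647557) (nat_lit 836) (nat_lit 418543872) (nat_lit 304) (nat_lit 5) (nat_lit 314) (nat_lit 5) (nat_lit 315) (nat_lit 5) (nat_lit 470) (nat_lit 426) (nat_lit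 244)) (XT.lf (nat_lit 0) (nat_lit 1932125170) (nat_lit 836) (nat_lit 3531475743) (nat_lit 76) (nat_lit 11133685368) (nat_lit 303) (nat_lit 5) (nat_lit 314) (nat_lit 5) (nat_lit 304) (nat_lit 5) (nat_lit 471) (nat_lit 426) (nat_lit 243)))) (XT.nd (nat_lit 78) (nat_lit 684) (nat_lit 0) (XT.lf (nat_lit 0) (nat_lit 4361809168) (nat_lit 760) (nat_lit 11123868548) (nat_lit 76) (nat_lit 1298873352) (nat_lit 294) (nat_lit 5) (nat_lit 304) (nat_lit 5) (nat_lit 295) (nat_lit 5) (nat_lit 472) (nat_lit 426) (nat_lit 242)) (XT.nd (nat_lit 78) (nat_lit 684) (nat_lit 0) (XT.lf (nat_lit 0) (nat_lit 6892461389) (nat_lit 760) (nat_lit 1935564518) (nat_lit 76) (nat_lit 8146489572) (nat_lit 294) (nat_lit 5) (nat_lit 304) (nat_lit 5) (nat_lit 295) (nat_lit 5) (nat_lit 473) (nat_lit 426) (nat_lit 241)) (XT.lf (nat_lit 0) (nat_lit 7526698383) (nat_lit 684) (nat_lit 1988383602) (nat_lit 760) (nat_lit 7652371872) (nat_lit 285) (nat_lit 5) (nat_lit 294)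 (nat_lit 5) (nat_lit 295) (nat_lit 5) (nat_lit 474) (nat_lit 426) (nat_lit 240)))))) (XT.nd (nat_lit 468) (nat_lit 2432) (nat_lit 0) (XT.nd (nat_lit 234) (nat_lit 608) (nat_lit 0) (XT.nd (nat_lit 78) (nat_lit 1444) (nat_lit 0) (XT.lf (nat_lit 0) (nat_lit 12228187992) (nat_lit 760) (nat_lit 200627888) (nat_lit 76) (nat_lit 4934676214) (nat_lit 285) (nat_lit 5) (nat_lit 295) (nat_lit 5) (nat_lit 286) (nat_lit 5) (nat_lit 475) (nat_lit 426) (nat_lit 239)) (XT.nd (nat_lit 78) (nat_lit 760) (nat_lit 0) (XT.lf (nat_lit 0) (nat_lit 9531704428) (nat_lit 684) (nat_lit 5531624160) (nat_lit 760) (nat_lit 2498768773) (nat_lit 276) (nat_lit 5) (nat_lit 285) (nat_lit 5) (nat_lit 286) (nat_lit 5) (nat_lit 476) (nat_lit 426) (nat_lit 238)) (XT.lf (nat_lit 0) (nat_lit 203054634) (nat_lit 760) (nat_lit 16064944846) (nat_lit 76) (nat_lit 1496351049) (nat_lit 266) (nat_lit 5) (nat_lit 276) (nat_lit 5) (nat_lit 267) (nat_lit 5) (nat_lit 477) (nat_lit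 426) (nat_lit 237)))) (XT.nd (nat_lit 78) (nat_lit 608) (nat_lit 0) (XT.lf (nat_lit 0) (nat_lit 3009201902) (nat_lit 760) (nat_lit 6299017705) (nat_lit 76) (nat_lit 8660425517) (nat_lit 266) (nat_lit 5) (nat_lit 276) (nat_lit 5) (nat_lit 267) (nat_lit 5) (nat_lit 478) (nat_lit 426) (nat_lit 236)) (XT.nd (nat_lit 78) (nat_lit 0) (nat_lit 0) (XT.lf (nat_lit 0) (nat_lit 3702390611) (nat_lit 608) (nat_lit 2186096662) (nat_lit 684) (nat_lit 12288199619) (nat_lit 258) (nat_lit 5) (nat_lit 266) (nat_lit 5) (nat_lit 267) (nat_lit 5) (nat_lit 479) (nat_lit 426) (nat_lit 235)) (XT.lf (nat_lit 0) (nat_lit 8893932054) (nat_lit 684) (nat_lit 4440555798) (nat_lit 76) (nat_lit 5053031724) (nat_lit 258) (nat_lit 5) (nat_lit 267) (nat_lit 5) (nat_lit 259) (nat_lit 5) (nat_lit 480) (nat_lit 426) (nat_lit 234))))) (XT.nd (nat_lit 234) (nat_lit 1216) (nat_lit 0) (XT.nd (nat_lit 78) (nat_lit 608) (nat_lit 0) (XT.lf (nat_lit 0) (nat_lit 5847771794)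 (nat_lit 608) (nat_lit 6157346516) (nat_lit 684) (nat_lit 6596539476) (nat_lit 250) (nat_lit 5) (nat_lit 258) (nat_lit 5) (nat_lit 259) (nat_lit 5) (nat_lit 481) (nat_lit 426) (nat_lit 233)) (XT.nd (nat_lit 78) (nat_lit 608) (nat_lit 0) (XT.lf (nat_lit 0) (nat_lit 15209334924) (nat_lit 684) (nat_lit 2433550920) (nat_lit 76) (nat_lit 1176578276) (nat_lit 250) (nat_lit 5) (nat_lit 259) (nat_lit 5) (nat_lit 251) (nat_lit 5) (nat_lit 482) (nat_lit 426) (nat_lit 232)) (XT.lf (nat_lit 0) (nat_lit 8151104702) (nat_lit 608) (nat_lit 10413620543) (nat_lit 684) (nat_lit 475161013) (nat_lit 242) (nat_lit 5) (nat_lit 250) (nat_lit 5) (nat_lit 251) (nat_lit 5) (nat_lit 483) (nat_lit 426) (nat_lit 231)))) (XT.nd (nat_lit 78) (nat_lit 1140) (nat_lit 0) (XT.lf (nat_lit 0) (nat_lit 2696660751) (nat_lit 684) (nat_lit 309980863) (nat_lit 76) (nat_lit 16257525899) (nat_lit 241) (nat_lit 5) (nat_lit 250) (nat_lit 5) (nat_lit 242) (nat_lit 5) (nat_lit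 484) (nat_lit 426) (nat_lit 230)) (XT.nd (nat_lit 78) (nat_lit 532) (nat_lit 0) (XT.lf (nat_lit 0) (nat_lit 6017987458) (nat_lit 684) (nat_lit 8913328940) (nat_lit 76) (nat_lit 4559707940) (nat_lit 233) (nat_lit 5) (nat_lit 242) (nat_lit 5) (nat_lit 234) (nat_lit 5) (nat_lit 485) (nat_lit 426) (nat_lit 229)) (XT.lf (nat_lit 0) (nat_lit 1962614880) (nat_lit 532) (nat_lit 7471488214) (nat_lit 608) (nat_lit 10287749311) (nat_lit 226) (nat_lit 5) (nat_lit 233) (nat_lit 5) (nat_lit 234) (nat_lit 5) (nat_lit 486) (nat_lit 426) (nat_lit 228))))))))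
noncomputable def xc198 : XT := (XT.nd (nat_lit 54834) (nat_lit 0) (nat_lit 21812) (XT.nd (nat_lit 858) (nat_lit 2356) (nat_lit 0) (XT.nd (nat_lit 390) (nat_lit 2052) (nat_lit 0) (XT.nd (nat_lit 156) (nat_lit 608) (nat_lit 0) (XT.nd (nat_lit 78) (nat_lit 532) (nat_lit 0) (XT.lf (nat_lit 0) (nat_lit 12973318677) (nat_lit 608) (nat_lit 6788702370) (nat_lit 76) (nat_lit 194181759) (nat_lit 226) (nat_lit 5) (nat_lit 234) (nat_lit 5) (nat_lit 227) (nat_lit 5) (nat_lit 487) (nat_lit 426) (nat_lit 227)) (XT.lf (nat_lit 0) (nat_lit 4401437506) (nat_lit 532) (nat_lit 12253737597) (nat_lit 608) (nat_lit 3538629283) (nat_lit 219) (nat_lit 5) (nat_lit 226) (nat_lit 5) (nat_lit 227) (nat_lit 5) (nat_lit 488) (nat_lit 426) (nat_lit 226))) (XT.nd (nat_lit 78) (nat_lit 532) (nat_lit 0) (XT.lf (nat_lit 0) (nat_lit 14529629) (nat_lit 608) (nat_lit 4536062140) (nat_lit 76) (nat_lit 15884777094) (nat_lit 218) (nat_lit 5) (nat_lit 226) (nat_lit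 5) (nat_lit 219) (nat_lit 5) (nat_lit 489) (nat_lit 426) (nat_lit 225)) (XT.nd (nat_lit 78) (nat_lit 0) (nat_lit 0) (XT.lf (nat_lit 0) (nat_lit 3652761958) (nat_lit 608) (nat_lit 13696527283) (nat_lit 76) (nat_lit 3330780958) (nat_lit 211) (nat_lit 5) (nat_lit 219) (nat_lit 5) (nat_lit 212) (nat_lit 5) (nat_lit 490) (nat_lit 426) (nat_lit 224)) (XT.lf (nat_lit 0) (nat_lit 7418539804) (nat_lit 608) (nat_lit 2172347059) (nat_lit 76) (nat_lit 11337684283) (nat_lit 211) (nat_lit 5) (nat_lit 219) (nat_lit 5) (nat_lit 212) (nat_lit 5) (nat_lit 491) (nat_lit 426) (nat_lit 223))))) (XT.nd (nat_lit 234) (nat_lit 1064) (nat_lit 0) (XT.nd (nat_lit 78) (nat_lit 456) (nat_lit 0) (XT.lf (nat_lit 0) (nat_lit 9701733293) (nat_lit 532) (nat_lit 1615011131) (nat_lit 608) (nat_lit 9864156641) (nat_lit 204) (nat_lit 5) (nat_lit 211) (nat_lit 5) (nat_lit 212) (nat_lit 5) (nat_lit 492) (nat_lit 426) (nat_lit 222)) (XT.nd (nat_lit 78) (nat_lit 0)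 (nat_lit 0) (XT.lf (nat_lit 0) (nat_lit 359158493) (nat_lit 456) (nat_lit 14987268543) (nat_lit 532) (nat_lit 6090781422) (nat_lit 198) (nat_lit 5) (nat_lit 204) (nat_lit 5) (nat_lit 205) (nat_lit 5) (nat_lit 493) (nat_lit 426) (nat_lit 221)) (XT.lf (nat_lit 0) (nat_lit 12571191965) (nat_lit 456) (nat_lit 6967404342) (nat_lit 532) (nat_lit 2158408966) (nat_lit 198) (nat_lit 5) (nat_lit 204) (nat_lit 5) (nat_lit 205) (nat_lit 5) (nat_lit 494) (nat_lit 426) (nat_lit 220)))) (XT.nd (nat_lit 78) (nat_lit 456) (nat_lit 0) (XT.lf (nat_lit 0) (nat_lit 1850735882) (nat_lit 608) (nat_lit 18883378037) (nat_lit 76) (nat_lit 1227196179) (nat_lit 190) (nat_lit 5) (nat_lit 198) (nat_lit 5) (nat_lit 191) (nat_lit 5) (nat_lit 495) (nat_lit 426) (nat_lit 219)) (XT.nd (nat_lit 78) (nat_lit 456) (nat_lit 0) (XT.lf (nat_lit 0) (nat_lit 6013335163) (nat_lit 608) (nat_lit 6648859849) (nat_lit 76) (nat_lit 9566378281) (nat_lit 190) (nat_lit 5) (nat_lit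 198) (nat_lit 5) (nat_lit 191) (nat_lit 5) (nat_lit 496) (nat_lit 426) (nat_lit 218)) (XT.lf (nat_lit 0) (nat_lit 5900084921) (nat_lit 456) (nat_lit 4391878671) (nat_lit 532) (nat_lit 12208563661) (nat_lit 184) (nat_lit 5) (nat_lit 190) (nat_lit 5) (nat_lit 191) (nat_lit 5) (nat_lit 497) (nat_lit 426) (nat_lit 217)))))) (XT.nd (nat_lit 390) (nat_lit 912) (nat_lit 0) (XT.nd (nat_lit 156) (nat_lit 988) (nat_lit 0) (XT.nd (nat_lit 78) (nat_lit 456) (nat_lit 0) (XT.lf (nat_lit 0) (nat_lit 14721847978) (nat_lit 532) (nat_lit 4021133934) (nat_lit 76) (nat_lit 4033625740) (nat_lit 184) (nat_lit 5) (nat_lit 191) (nat_lit 5) (nat_lit 185) (nat_lit 5) (nat_lit 498) (nat_lit 426) (nat_lit 216)) (XT.lf (nat_lit 0) (nat_lit 8889725672) (nat_lit 456) (nat_lit 10432030448) (nat_lit 532) (nat_lit 3734826020) (nat_lit 178) (nat_lit 5) (nat_lit 184) (nat_lit 5) (nat_lit 185) (nat_lit 5) (nat_lit 499) (nat_lit 426) (nat_lit 215))) (XT.nd (nat_lit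 78) (nat_lit 912) (nat_lit 0) (XT.lf (nat_lit 0) (nat_lit 684505387) (nat_lit 532) (nat_lit 1240407577) (nat_lit 76) (nat_lit 21416720805) (nat_lit 177) (nat_lit 5) (nat_lit 184) (nat_lit 5) (nat_lit 178) (nat_lit 5) (nat_lit 500) (nat_lit 426) (nat_lit 214)) (XT.nd (nat_lit 78) (nat_lit 456) (nat_lit 0) (XT.lf (nat_lit 0) (nat_lit 5259889949) (nat_lit 532) (nat_lit 11604207914) (nat_lit 76) (nat_lit 6765442252) (nat_lit 171) (nat_lit 5) (nat_lit 178) (nat_lit 5) (nat_lit 172) (nat_lit 5) (nat_lit 501) (nat_lit 426) (nat_lit 213)) (XT.lf (nat_lit 0) (nat_lit 1651564102) (nat_lit 456) (nat_lit 8301857311) (nat_lit 532) (nat_lit 13969251321) (nat_lit 165) (nat_lit 5) (nat_lit 171) (nat_lit 5) (nat_lit 172) (nat_lit 5) (nat_lit 502) (nat_lit 426) (nat_lit 212))))) (XT.nd (nat_lit 234) (nat_lit 456) (nat_lit 0) (XT.nd (nat_lit 78) (nat_lit 456) (nat_lit 0) (XT.lf (nat_lit 0) (nat_lit 14816840903) (nat_lit 532) (nat_lit 8901175712)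 (nat_lit 76) (nat_lit 502131952) (nat_lit 165) (nat_lit 5) (nat_lit 172) (nat_lit 5) (nat_lit 166) (nat_lit 5) (nat_lit 503) (nat_lit 426) (nat_lit 211)) (XT.nd (nat_lit 78) (nat_lit 76) (nat_lit 0) (XT.lf (nat_lit 0) (nat_lit 4735939721) (nat_lit 380) (nat_lit 15122247445) (nat_lit 456) (nat_lit 4663774476) (nat_lit 160) (nat_lit 5) (nat_lit 165) (nat_lit 5) (nat_lit 166) (nat_lit 5) (nat_lit 504) (nat_lit 426) (nat_lit 210)) (XT.lf (nat_lit 0) (nat_lit 223387979) (nat_lit 456) (nat_lit 6071033296) (nat_lit 76) (nat_lit 18534266907) (nat_lit 159) (nat_lit 5) (nat_lit 165) (nat_lit 5) (nat_lit 160) (nat_lit 5) (nat_lit 505) (nat_lit 426) (nat_lit 209)))) (XT.nd (nat_lit 53196) (nat_lit 0) (nat_lit 24700) (XT.lf (nat_lit 0) (nat_lit 5210922458) (nat_lit 532) (nat_lit 17173255211) (nat_lit 76) (nat_lit 2755454340) (nat_lit 153) (nat_lit 5) (nat_lit 160) (nat_lit 5) (nat_lit 154) (nat_lit 5) (nat_lit 506) (nat_lit 426) (nat_lit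 208)) (XT.nd (nat_lit 78) (nat_lit 0) (nat_lit 0) (XT.lf (nat_lit 0) (nat_lit 2094954243) (nat_lit 0) (nat_lit 2094954243) (nat_lit 1596) (nat_lit 1178107944) (nat_lit 478) (nat_lit 5) (nat_lit 478) (nat_lit 3) (nat_lit 499) (nat_lit 3) (nat_lit 427) (nat_lit 427) (nat_lit 286)) (XT.lf (nat_lit 0) (nat_lit 9061186023) (nat_lit 1596) (nat_lit 1362616431) (nat_lit 1672) (nat_lit 407459731) (nat_lit 478) (nat_lit 5) (nat_lit 499) (nat_lit 3) (nat_lit 500) (nat_lit 5) (nat_lit 428) (nat_lit 427) (nat_lit 285))))))) (XT.nd (nat_lit 858) (nat_lit 1292) (nat_lit 0) (XT.nd (nat_lit 390) (nat_lit 0) (nat_lit 76) (XT.nd (nat_lit 156) (nat_lit 1596) (nat_lit 0) (XT.nd (nat_lit 78) (nat_lit 0) (nat_lit 0) (XT.lf (nat_lit 76) (nat_lit 3940322429) (nat_lit 0) (nat_lit 5853637420) (nat_lit 1672) (nat_lit 1133685408) (nat_lit 479) (nat_lit 5) (nat_lit 478) (nat_lit 5) (nat_lit 500) (nat_lit 5) (nat_lit 429) (nat_lit 427) (nat_lit 284)) (XT.lf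 (nat_lit 76) (nat_lit 9359674895) (nat_lit 0) (nat_lit 1175556879) (nat_lit 1672) (nat_lit 490851980) (nat_lit 479) (nat_lit 5) (nat_lit 478) (nat_lit 5) (nat_lit 500) (nat_lit 5) (nat_lit 430) (nat_lit 427) (nat_lit 283))) (XT.nd (nat_lit 78) (nat_lit 0) (nat_lit 0) (XT.lf (nat_lit 0) (nat_lit 195817170) (nat_lit 1672) (nat_lit 7348296999) (nat_lit 1748) (nat_lit 3581697069) (nat_lit 457) (nat_lit 5) (nat_lit 479) (nat_lit 5) (nat_lit 480) (nat_lit 5) (nat_lit 431) (nat_lit 427) (nat_lit 282)) (XT.nd (nat_lit 78) (nat_lit 0) (nat_lit 76) (XT.lf (nat_lit 0) (nat_lit 893877363) (nat_lit 1672) (nat_lit 1893968659) (nat_lit 1748) (nat_lit 8439542107) (nat_lit 457) (nat_lit 5) (nat_lit 479) (nat_lit 5) (nat_lit 480) (nat_lit 5) (nat_lit 432) (nat_lit 427) (nat_lit 281)) (XT.lf (nat_lit 0) (nat_lit 1629056154) (nat_lit 1672) (nat_lit 7634594281) (nat_lit 1748) (nat_lit 2066887243) (nat_lit 458) (nat_lit 5) (nat_lit 480) (nat_lit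 5) (nat_lit 481) (nat_lit 5) (nat_lit 433) (nat_lit 427) (nat_lit 280))))) (XT.nd (nat_lit 234) (nat_lit 0) (nat_lit 76) (XT.nd (nat_lit 78) (nat_lit 0) (nat_lit 76) (XT.lf (nat_lit 0) (nat_lit 2395938407) (nat_lit 1672) (nat_lit 2039278562) (nat_lit 1748) (nat_lit 7000197432) (nat_lit 458) (nat_lit 5) (nat_lit 480) (nat_lit 5) (nat_lit 481) (nat_lit 5) (nat_lit 434) (nat_lit 427) (nat_lit 279)) (XT.nd (nat_lit 78) (nat_lit 0) (nat_lit 0) (XT.lf (nat_lit 0) (nat_lit 3191633149) (nat_lit 1672) (nat_lit 7837384383) (nat_lit 1748) (nat_lit 513105732) (nat_lit 459) (nat_lit 5) (nat_lit 481) (nat_lit 5) (nat_lit 482) (nat_lit 5) (nat_lit 435) (nat_lit 427) (nat_lit 278)) (XT.lf (nat_lit 0) (nat_lit 4032667596) (nat_lit 1672) (nat_lit 2097529858) (nat_lit 1748) (nat_lit 5520184353) (nat_lit 459) (nat_lit 5) (nat_lit 481) (nat_lit 5) (nat_lit 482) (nat_lit 5) (nat_lit 436) (nat_lit 427) (nat_lit 277)))) (XT.nd (nat_lit 78) (nat_lit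 0) (nat_lit 76) (XT.lf (nat_lit 76) (nat_lit 3798454904) (nat_lit 0) (nat_lit 1103277223) (nat_lit 1748) (nat_lit 6858853149) (nat_lit 460) (nat_lit 5) (nat_lit 459) (nat_lit 5) (nat_lit 482) (nat_lit 5) (nat_lit 437) (nat_lit 427) (nat_lit 276)) (XT.nd (nat_lit 78) (nat_lit 0) (nat_lit 0) (XT.lf (nat_lit 0) (nat_lit 5815261974) (nat_lit 1672) (nat_lit 2066868695) (nat_lit 1748) (nat_lit 3990324329) (nat_lit 460) (nat_lit 5) (nat_lit 482) (nat_lit 5) (nat_lit 483) (nat_lit 5) (nat_lit 438) (nat_lit 427) (nat_lit 275)) (XT.lf (nat_lit 76) (nat_lit 3982667841) (nat_lit 0) (nat_lit 2784605861) (nat_lit 1748) (nat_lit 5218887976) (nat_lit 461) (nat_lit 5) (nat_lit 460) (nat_lit 5) (nat_lit 483) (nat_lit 5) (nat_lit 439) (nat_lit 427) (nat_lit 274)))))) (XT.nd (nat_lit 468) (nat_lit 0) (nat_lit 0) (XT.nd (nat_lit 234) (nat_lit 1596) (nat_lit 0) (XT.nd (nat_lit 78) (nat_lit 0) (nat_lit 0) (XT.lf (nat_lit 0) (nat_lit 7755239329) (nat_lit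 1672) (nat_lit 1945211255) (nat_lit 1748) (nat_lit 2401357348) (nat_lit 461) (nat_lit 5) (nat_lit 483) (nat_lit 5) (nat_lit 484) (nat_lit 5) (nat_lit 440) (nat_lit 427) (nat_lit 273)) (XT.nd (nat_lit 78) (nat_lit 0) (nat_lit 76) (XT.lf (nat_lit 76) (nat_lit 4263091970) (nat_lit 0) (nat_lit 4533514864) (nat_lit 1748) (nat_lit 3422491068) (nat_lit 462) (nat_lit 5) (nat_lit 461) (nat_lit 5) (nat_lit 484) (nat_lit 5) (nat_lit 441) (nat_lit 427) (nat_lit 272)) (XT.lf (nat_lit 0) (nat_lit 9864461010) (nat_lit 1672) (nat_lit 1730245472) (nat_lit 1748) (nat_lit 743917572) (nat_lit 462) (nat_lit 5) (nat_lit 484) (nat_lit 5) (nat_lit 485) (nat_lit 5) (nat_lit 442) (nat_lit 427) (nat_lit 271)))) (XT.nd (nat_lit 78) (nat_lit 1672) (nat_lit 0) (XT.lf (nat_lit 76) (nat_lit 4642231800) (nat_lit 0) (nat_lit 6359580616) (nat_lit 1748) (nat_lit 1457769011) (nat_lit 463) (nat_lit 5) (nat_lit 462) (nat_lit 5) (nat_lit 485) (nat_lit 5) (nat_lit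 443) (nat_lit 427) (nat_lit 270)) (XT.nd (nat_lit 78) (nat_lit 1672) (nat_lit 0) (XT.lf (nat_lit 76) (nat_lit 11157010693) (nat_lit 0) (nat_lit 1004667345) (nat_lit 1748) (nat_lit 421287997) (nat_lit 463) (nat_lit 5) (nat_lit 462) (nat_lit 5) (nat_lit 485) (nat_lit 5) (nat_lit 444) (nat_lit 427) (nat_lit 269)) (XT.lf (nat_lit 0) (nat_lit 678524243) (nat_lit 1748) (nat_lit 7589449346) (nat_lit 1824) (nat_lit 4439746631) (nat_lit 440) (nat_lit 5) (nat_lit 463) (nat_lit 5) (nat_lit 464) (nat_lit 5) (nat_lit 445) (nat_lit 427) (nat_lit 268))))) (XT.nd (nat_lit 234) (nat_lit 0) (nat_lit 152) (XT.nd (nat_lit 78) (nat_lit 0) (nat_lit 76) (XT.lf (nat_lit 0) (nat_lit 1799484199) (nat_lit 1748) (nat_lit 1040362375) (nat_lit 1824) (nat_lit 9994974603) (nat_lit 440) (nat_lit 5) (nat_lit 463) (nat_lit 5) (nat_lit 464) (nat_lit 5) (nat_lit 446) (nat_lit 427) (nat_lit 267)) (XT.nd (nat_lit 78) (nat_lit 0) (nat_lit 0) (XT.lf (nat_lit 0) (nat_lit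 2986409285) (nat_lit 1748) (nat_lit 7275799556) (nat_lit 1824) (nat_lit 2701387565) (nat_lit 441) (nat_lit 5) (nat_lit 464) (nat_lit 5) (nat_lit 465) (nat_lit 5) (nat_lit 447) (nat_lit 427) (nat_lit 266)) (XT.lf (nat_lit 0) (nat_lit 4211816425) (nat_lit 1748) (nat_lit 557840127) (nat_lit 1824) (nat_lit 8324998823) (nat_lit 441) (nat_lit 5) (nat_lit 464) (nat_lit 5) (nat_lit 465) (nat_lit 5) (nat_lit 448) (nat_lit 427) (nat_lit 265)))) (XT.nd (nat_lit 78) (nat_lit 0) (nat_lit 0) (XT.lf (nat_lit 0) (nat_lit 5497907653) (nat_lit 1748) (nat_lit 6864038547) (nat_lit 1824) (nat_lit 865668852) (nat_lit 442) (nat_lit 5) (nat_lit 465) (nat_lit 5) (nat_lit 466) (nat_lit 5) (nat_lit 449) (nat_lit 427) (nat_lit 264)) (XT.nd (nat_lit 78) (nat_lit 0) (nat_lit 0) (XT.lf (nat_lit 76) (nat_lit 27773430) (nat_lit 0) (nat_lit 6806780872) (nat_lit 1824) (nat_lit 6528185936) (nat_lit 443) (nat_lit 5) (nat_lit 442) (nat_lit 5) (nat_lit 466) (nat_lit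 5) (nat_lit 450) (nat_lit 427) (nat_lit 263)) (XT.lf (nat_lit 76) (nat_lit 7141720422) (nat_lit 0) (nat_lit 1091725793) (nat_lit 1824) (nat_lit 5266414395) (nat_lit 443) (nat_lit 5) (nat_lit 442) (nat_lit 5) (nat_lit 466) (nat_lit 5) (nat_lit 451) (nat_lit 427) (nat_lit 262))))))))
noncomputable def xc199 : XT := (XT.nd (nat_lit 1716) (nat_lit 7904) (nat_lit 0) (XT.nd (nat_lit 858) (nat_lit 4712) (nat_lit 0) (XT.nd (nat_lit 390) (nat_lit 2584) (nat_lit 0) (XT.nd (nat_lit 156) (nat_lit 2280) (nat_lit 0) (XT.nd (nat_lit 78) (nat_lit 0) (nat_lit 0) (XT.lf (nat_lit 0) (nat_lit 728219048) (nat_lit 1748) (nat_lit 8957254181) (nat_lit 1824) (nat_lit 3953749886) (nat_lit 420) (nat_lit 5) (nat_lit 443) (nat_lit 5) (nat_lit 444) (nat_lit 5) (nat_lit 452) (nat_lit 427) (nat_lit 261)) (XT.lf (nat_lit 0) (nat_lit 8026428741) (nat_lit 1748) (nat_lit 3179776096) (nat_lit 1824) (nat_lit 2574377568) (nat_lit 420) (nat_lit 5) (nat_lit 443) (nat_lit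 5) (nat_lit 444) (nat_lit 5) (nat_lit 453) (nat_lit 427) (nat_lit 260))) (XT.nd (nat_lit 78) (nat_lit 988) (nat_lit 0) (XT.lf (nat_lit 0) (nat_lit 1539632774) (nat_lit 1292) (nat_lit 11235354947) (nat_lit 1368) (nat_lit 1149431186) (nat_lit 403) (nat_lit 5) (nat_lit 420) (nat_lit 5) (nat_lit 421) (nat_lit 5) (nat_lit 454) (nat_lit 427) (nat_lit 259)) (XT.nd (nat_lit 78) (nat_lit 912) (nat_lit 0) (XT.lf (nat_lit 0) (nat_lit 350049435) (nat_lit 1368) (nat_lit 5045207403) (nat_lit 76) (nat_lit 8674838027) (nat_lit 402) (nat_lit 5) (nat_lit 420) (nat_lit 5) (nat_lit 403) (nat_lit 5) (nat_lit 455) (nat_lit 427) (nat_lit 258)) (XT.lf (nat_lit 0) (nat_lit 1874195066) (nat_lit 988) (nat_lit 11765123366) (nat_lit 76) (nat_lit 579015230) (nat_lit 390) (nat_lit 5) (nat_lit 403) (nat_lit 5) (nat_lit 391) (nat_lit 5) (nat_lit 456) (nat_lit 427) (nat_lit 257))))) (XT.nd (nat_lit 234) (nat_lit 1748) (nat_lit 0) (XT.nd (nat_lit 78) (nat_lit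 836) (nat_lit 0) (XT.lf (nat_lit 0) (nat_lit 3489064084) (nat_lit 988) (nat_lit 4243652429) (nat_lit 76) (nat_lit 6635618462) (nat_lit 390) (nat_lit 5) (nat_lit 403) (nat_lit 5) (nat_lit 391) (nat_lit 5) (nat_lit 457) (nat_lit 427) (nat_lit 256)) (XT.nd (nat_lit 78) (nat_lit 0) (nat_lit 0) (XT.lf (nat_lit 0) (nat_lit 3465042198) (nat_lit 836) (nat_lit 1684303370) (nat_lit 912) (nat_lit 9371730944) (nat_lit 379) (nat_lit 5) (nat_lit 390) (nat_lit 5) (nat_lit 391) (nat_lit 5) (nat_lit 458) (nat_lit 427) (nat_lit 255)) (XT.lf (nat_lit 0) (nat_lit 6891368710) (nat_lit 912) (nat_lit 3328962778) (nat_lit 76) (nat_lit 4455573122) (nat_lit 379) (nat_lit 5) (nat_lit 391) (nat_lit 5) (nat_lit 380) (nat_lit 5) (nat_lit 459) (nat_lit 427) (nat_lit 254)))) (XT.nd (nat_lit 78) (nat_lit 836) (nat_lit 0) (XT.lf (nat_lit 0) (nat_lit 4593122459) (nat_lit 912) (nat_lit 4107017343) (nat_lit 988) (nat_lit 6133053720) (nat_lit 367) (nat_lit 5) (nat_lit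 379) (nat_lit 5) (nat_lit 380) (nat_lit 5) (nat_lit 460) (nat_lit 427) (nat_lit 253)) (XT.nd (nat_lit 78) (nat_lit 836) (nat_lit 0) (XT.lf (nat_lit 0) (nat_lit 10572449746) (nat_lit 988) (nat_lit 2297115226) (nat_lit 76) (nat_lit 2123518328) (nat_lit 367) (nat_lit 5) (nat_lit 380) (nat_lit 5) (nat_lit 368) (nat_lit 5) (nat_lit 461) (nat_lit 427) (nat_lit 252)) (XT.lf (nat_lit 0) (nat_lit 5845598210) (nat_lit 836) (nat_lit 6692991688) (nat_lit 912) (nat_lit 2616455605) (nat_lit 356) (nat_lit 5) (nat_lit 367) (nat_lit 5) (nat_lit 368) (nat_lit 5) (nat_lit 462) (nat_lit 427) (nat_lit 251)))))) (XT.nd (nat_lit 390) (nat_lit 2280) (nat_lit 0) (XT.nd (nat_lit 156) (nat_lit 1520) (nat_lit 0) (XT.nd (nat_lit 78) (nat_lit 912) (nat_lit 0) (XT.lf (nat_lit 0) (nat_lit 14173791490) (nat_lit 836) (nat_lit 377024593) (nat_lit 912) (nat_lit 769297866) (nat_lit 356) (nat_lit 5) (nat_lit 367) (nat_lit 5) (nat_lit 368) (nat_lit 5) (nat_lit 463)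 (nat_lit 427) (nat_lit 250)) (XT.lf (nat_lit 0) (nat_lit 1178516120) (nat_lit 912) (nat_lit 8267733313) (nat_lit 76) (nat_lit 6040525067) (nat_lit 344) (nat_lit 5) (nat_lit 356) (nat_lit 5) (nat_lit 345) (nat_lit 5) (nat_lit 464) (nat_lit 427) (nat_lit 249))) (XT.nd (nat_lit 78) (nat_lit 760) (nat_lit 0) (XT.lf (nat_lit 0) (nat_lit 95672324) (nat_lit 760) (nat_lit 3061756864) (nat_lit 836) (nat_lit 12499190634) (nat_lit 334) (nat_lit 5) (nat_lit 344) (nat_lit 5) (nat_lit 345) (nat_lit 5) (nat_lit 465) (nat_lit 427) (nat_lit 248)) (XT.nd (nat_lit 78) (nat_lit 760) (nat_lit 0) (XT.lf (nat_lit 0) (nat_lit 5245852523) (nat_lit 836) (nat_lit 7121791980) (nat_lit 76) (nat_lit 3460820996) (nat_lit 334) (nat_lit 5) (nat_lit 345) (nat_lit 5) (nat_lit 335) (nat_lit 5) (nat_lit 466) (nat_lit 427) (nat_lit 247)) (XT.lf (nat_lit 0) (nat_lit 1476720855) (nat_lit 760) (nat_lit 5921032258) (nat_lit 836) (nat_lit 8605562854) (nat_lit 324) (nat_lit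 5) (nat_lit 334) (nat_lit 5) (nat_lit 335) (nat_lit 5) (nat_lit 467) (nat_lit 427) (nat_lit 246))))) (XT.nd (nat_lit 234) (nat_lit 1520) (nat_lit 0) (XT.nd (nat_lit 78) (nat_lit 760) (nat_lit 0) (XT.lf (nat_lit 0) (nat_lit 9636995433) (nat_lit 836) (nat_lit 5850152980) (nat_lit 76) (nat_lit 693630966) (nat_lit 324) (nat_lit 5) (nat_lit 335) (nat_lit 5) (nat_lit 325) (nat_lit 5) (nat_lit 468) (nat_lit 427) (nat_lit 245)) (XT.nd (nat_lit 78) (nat_lit 0) (nat_lit 0) (XT.lf (nat_lit 0) (nat_lit 2991386427) (nat_lit 760) (nat_lit 8980375000) (nat_lit 836) (nat_lit 4389017828) (nat_lit 314) (nat_lit 5) (nat_lit 324) (nat_lit 5) (nat_lit 325) (nat_lit 5) (nat_lit 469) (nat_lit 427) (nat_lit 244)) (XT.lf (nat_lit 0) (nat_lit 12080660586) (nat_lit 760) (nat_lit 2304024684) (nat_lit 836) (nat_lit 2159066539) (nat_lit 314) (nat_lit 5) (nat_lit 324) (nat_lit 5) (nat_lit 325) (nat_lit 5) (nat_lit 470) (nat_lit 427) (nat_lit 243)))) (XT.nd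 (nat_lit 78) (nat_lit 684) (nat_lit 0) (XT.lf (nat_lit 0) (nat_lit 166074966) (nat_lit 836) (nat_lit 12085829313) (nat_lit 76) (nat_lit 4477424281) (nat_lit 303) (nat_lit 5) (nat_lit 314) (nat_lit 5) (nat_lit 304) (nat_lit 5) (nat_lit 471) (nat_lit 427) (nat_lit 242)) (XT.nd (nat_lit 78) (nat_lit 684) (nat_lit 0) (XT.lf (nat_lit 0) (nat_lit 2546640863) (nat_lit 836) (nat_lit 2963483560) (nat_lit 76) (nat_lit 11407452186) (nat_lit 303) (nat_lit 5) (nat_lit 314) (nat_lit 5) (nat_lit 304) (nat_lit 5) (nat_lit 472) (nat_lit 427) (nat_lit 241)) (XT.lf (nat_lit 0) (nat_lit 5018172682) (nat_lit 760) (nat_lit 10700843132) (nat_lit 76) (nat_lit 1389708498) (nat_lit 294) (nat_lit 5) (nat_lit 304) (nat_lit 5) (nat_lit 295) (nat_lit 5) (nat_lit 473) (nat_lit 427) (nat_lit 240))))))) (XT.nd (nat_lit 858) (nat_lit 3876) (nat_lit 0) (XT.nd (nat_lit 390) (nat_lit 1900) (nat_lit 0) (XT.nd (nat_lit 156) (nat_lit 1444) (nat_lit 0) (XT.nd (nat_lit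 78) (nat_lit 684) (nat_lit 0) (XT.lf (nat_lit 0) (nat_lit 7588278588) (nat_lit 760) (nat_lit 1341429939) (nat_lit 76) (nat_lit 8373005324) (nat_lit 294) (nat_lit 5) (nat_lit 304) (nat_lit 5) (nat_lit 295) (nat_lit 5) (nat_lit 474) (nat_lit 427) (nat_lit 239)) (XT.lf (nat_lit 0) (nat_lit 8305914761) (nat_lit 684) (nat_lit 1950578110) (nat_lit 760) (nat_lit 7243157900) (nat_lit 285) (nat_lit 5) (nat_lit 294) (nat_lit 5) (nat_lit 295) (nat_lit 5) (nat_lit 475) (nat_lit 427) (nat_lit 238))) (XT.nd (nat_lit 78) (nat_lit 760) (nat_lit 0) (XT.lf (nat_lit 0) (nat_lit 427764782) (nat_lit 684) (nat_lit 12588561264) (nat_lit 760) (nat_lit 4683436972) (nat_lit 276) (nat_lit 5) (nat_lit 285) (nat_lit 5) (nat_lit 286) (nat_lit 5) (nat_lit 476) (nat_lit 427) (nat_lit 237)) (XT.nd (nat_lit 78) (nat_lit 760) (nat_lit 0) (XT.lf (nat_lit 0) (nat_lit 10345009882) (nat_lit 684) (nat_lit 5553821174) (nat_lit 760) (nat_lit 2003698602) (nat_lit 276)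 (nat_lit 5) (nat_lit 285) (nat_lit 5) (nat_lit 286) (nat_lit 5) (nat_lit 477) (nat_lit 427) (nat_lit 236)) (XT.lf (nat_lit 0) (nat_lit 739141802) (nat_lit 760) (nat_lit 15750310343) (nat_lit 76) (nat_lit 1619424794) (nat_lit 266) (nat_lit 5) (nat_lit 276) (nat_lit 5) (nat_lit 267) (nat_lit 5) (nat_lit 478) (nat_lit 427) (nat_lit 235))))) (XT.nd (nat_lit 234) (nat_lit 1292) (nat_lit 0) (XT.nd (nat_lit 78) (nat_lit 608) (nat_lit 0) (XT.lf (nat_lit 0) (nat_lit 3590980131) (nat_lit 760) (nat_lit 5801533941) (nat_lit 76) (nat_lit 8924954345) (nat_lit 266) (nat_lit 5) (nat_lit 276) (nat_lit 5) (nat_lit 267) (nat_lit 5) (nat_lit 479) (nat_lit 427) (nat_lit 234)) (XT.nd (nat_lit 78) (nat_lit 0) (nat_lit 0) (XT.lf (nat_lit 0) (nat_lit 4395800803) (nat_lit 608) (nat_lit 2125844381) (nat_lit 684) (nat_lit 12008152265) (nat_lit 258) (nat_lit 5) (nat_lit 266) (nat_lit 5) (nat_lit 267) (nat_lit 5) (nat_lit 480) (nat_lit 427) (nat_lit 233))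 (XT.lf (nat_lit 0) (nat_lit 9577755042) (nat_lit 684) (nat_lit 3912591923) (nat_lit 76) (nat_lit 5254690961) (nat_lit 258) (nat_lit 5) (nat_lit 267) (nat_lit 5) (nat_lit 259) (nat_lit 5) (nat_lit 481) (nat_lit 427) (nat_lit 232)))) (XT.nd (nat_lit 78) (nat_lit 684) (nat_lit 0) (XT.lf (nat_lit 0) (nat_lit 6577444491) (nat_lit 608) (nat_lit 6167778222) (nat_lit 684) (nat_lit 6218357252) (nat_lit 250) (nat_lit 5) (nat_lit 258) (nat_lit 5) (nat_lit 259) (nat_lit 5) (nat_lit 482) (nat_lit 427) (nat_lit 231)) (XT.nd (nat_lit 78) (nat_lit 684) (nat_lit 0) (XT.lf (nat_lit 0) (nat_lit 16004437170) (nat_lit 684) (nat_lit 1872323491) (nat_lit 76) (nat_lit 1309165669) (nat_lit 250) (nat_lit 5) (nat_lit 259) (nat_lit 5) (nat_lit 251) (nat_lit 5) (nat_lit 483) (nat_lit 427) (nat_lit 230)) (XT.lf (nat_lit 0) (nat_lit 10234421) (nat_lit 684) (nat_lit 10490927463) (nat_lit 76) (nat_lit 8909709653) (nat_lit 241) (nat_lit 5) (nat_lit 250) (nat_lit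 5) (nat_lit 242) (nat_lit 5) (nat_lit 484) (nat_lit 427) (nat_lit 229)))))) (XT.nd (nat_lit 468) (nat_lit 2128) (nat_lit 0) (XT.nd (nat_lit 234) (nat_lit 608) (nat_lit 0) (XT.nd (nat_lit 78) (nat_lit 532) (nat_lit 0) (XT.lf (nat_lit 0) (nat_lit 288071116) (nat_lit 608) (nat_lit 2943356137) (nat_lit 684) (nat_lit 16408304457) (nat_lit 233) (nat_lit 5) (nat_lit 241) (nat_lit 5) (nat_lit 242) (nat_lit 5) (nat_lit 485) (nat_lit 427) (nat_lit 228)) (XT.nd (nat_lit 78) (nat_lit 532) (nat_lit 0) (XT.lf (nat_lit 0) (nat_lit 6612590845) (nat_lit 684) (nat_lit 8486302248) (nat_lit 76) (nat_lit 4772366381) (nat_lit 233) (nat_lit 5) (nat_lit 242) (nat_lit 5) (nat_lit 234) (nat_lit 5) (nat_lit 486) (nat_lit 427) (nat_lit 227)) (XT.lf (nat_lit 0) (nat_lit 2603178256) (nat_lit 532) (nat_lit 7488455754) (nat_lit 608) (nat_lit 10015179958) (nat_lit 226) (nat_lit 5) (nat_lit 233) (nat_lit 5) (nat_lit 234) (nat_lit 5) (nat_lit 487) (nat_lit 427)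 (nat_lit 226)))) (XT.nd (nat_lit 78) (nat_lit 608) (nat_lit 0) (XT.lf (nat_lit 0) (nat_lit 13693283959) (nat_lit 608) (nat_lit 6326509230) (nat_lit 76) (nat_lit 326227118) (nat_lit 226) (nat_lit 5) (nat_lit 234) (nat_lit 5) (nat_lit 227) (nat_lit 5) (nat_lit 488) (nat_lit 427) (nat_lit 225)) (XT.nd (nat_lit 78) (nat_lit 76) (nat_lit 0) (XT.lf (nat_lit 0) (nat_lit 5083499448) (nat_lit 532) (nat_lit 12360105533) (nat_lit 608) (nat_lit 3144874283) (nat_lit 219) (nat_lit 5) (nat_lit 226) (nat_lit 5) (nat_lit 227) (nat_lit 5) (nat_lit 489) (nat_lit 427) (nat_lit 224)) (XT.lf (nat_lit 0) (nat_lit 464266519) (nat_lit 608) (nat_lit 4038333989) (nat_lit 76) (nat_lit 16332395801) (nat_lit 218) (nat_lit 5) (nat_lit 226) (nat_lit 5) (nat_lit 219) (nat_lit 5) (nat_lit 490) (nat_lit 427) (nat_lit 223))))) (XT.nd (nat_lit 234) (nat_lit 1064) (nat_lit 0) (XT.nd (nat_lit 78) (nat_lit 532) (nat_lit 0) (XT.lf (nat_lit 0) (nat_lit 4171156230) (nat_lit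 608) (nat_lit 13377811949) (nat_lit 76) (nat_lit 3535707422) (nat_lit 211) (nat_lit 5) (nat_lit 219) (nat_lit 5) (nat_lit 212) (nat_lit 5) (nat_lit 491) (nat_lit 427) (nat_lit 222)) (XT.nd (nat_lit 78) (nat_lit 532) (nat_lit 0) (XT.lf (nat_lit 0) (nat_lit 8003517495) (nat_lit 608) (nat_lit 1634768628) (nat_lit 76) (nat_lit 11700036836) (nat_lit 211) (nat_lit 5) (nat_lit 219) (nat_lit 5) (nat_lit 212) (nat_lit 5) (nat_lit 492) (nat_lit 427) (nat_lit 221)) (XT.lf (nat_lit 0) (nat_lit 10472970796) (nat_lit 532) (nat_lit 1501902075) (nat_lit 608) (nat_lit 9620924587) (nat_lit 204) (nat_lit 5) (nat_lit 211) (nat_lit 5) (nat_lit 212) (nat_lit 5) (nat_lit 493) (nat_lit 427) (nat_lit 220)))) (XT.nd (nat_lit 78) (nat_lit 608) (nat_lit 0) (XT.lf (nat_lit 0) (nat_lit 947473480) (nat_lit 456) (nat_lit 15133907791) (nat_lit 532) (nat_lit 5775926768) (nat_lit 198) (nat_lit 5) (nat_lit 204) (nat_lit 5) (nat_lit 205) (nat_lit 5) (nat_lit 494)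 (nat_lit 427) (nat_lit 219)) (XT.nd (nat_lit 78) (nat_lit 608) (nat_lit 0) (XT.lf (nat_lit 0) (nat_lit 13392352879) (nat_lit 456) (nat_lit 6956648387) (nat_lit 532) (nat_lit 1773469025) (nat_lit 198) (nat_lit 5) (nat_lit 204) (nat_lit 5) (nat_lit 205) (nat_lit 5) (nat_lit 495) (nat_lit 427) (nat_lit 218)) (XT.lf (nat_lit 0) (nat_lit 2306669423) (nat_lit 608) (nat_lit 18681959189) (nat_lit 76) (nat_lit 1403450085) (nat_lit 190) (nat_lit 5) (nat_lit 198) (nat_lit 5) (nat_lit 191) (nat_lit 5) (nat_lit 496) (nat_lit 427) (nat_lit 217))))))))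
noncomputable def xc200 : XT := (XT.nd (nat_lit 54912) (nat_lit 0) (nat_lit 16264) (XT.nd (nat_lit 54054) (nat_lit 0) (nat_lit 23028) (XT.nd (nat_lit 390) (nat_lit 1824) (nat_lit 0) (XT.nd (nat_lit 156) (nat_lit 532) (nat_lit 0) (XT.nd (nat_lit 78) (nat_lit 456) (nat_lit 0) (XT.lf (nat_lit 0) (nat_lit 6544306595) (nat_lit 608) (nat_lit 6214105273) (nat_lit 76) (nat_lit 9906441124) (nat_lit 190) (nat_lit 5) (nat_lit 198) (nat_lit 5) (nat_lit 191) (nat_lit 5) (nat_lit 497) (nat_lit 427) (nat_lit 216)) (XT.lf (nat_lit 0) (nat_lit 6582083315) (nat_lit 456) (nat_lit 4322033084) (nat_lit 532) (nat_lit 12038218978) (nat_lit 184) (nat_lit 5) (nat_lit 190) (nat_lit 5) (nat_lit 191) (nat_lit 5) (nat_lit 498) (nat_lit 427) (nat_lit 215))) (XT.nd (nat_lit 78) (nat_lit 532) (nat_lit 0) (XT.lf (nat_lit 0) (nat_lit 15415635250) (nat_lit 532) (nat_lit 3541580796) (nat_lit 76) (nat_lit 4266862095) (nat_lit 184) (nat_lit 5) (nat_lit 191) (nat_lit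 5) (nat_lit 185) (nat_lit 5) (nat_lit 499) (nat_lit 427) (nat_lit 214)) (XT.nd (nat_lit 78) (nat_lit 76) (nat_lit 0) (XT.lf (nat_lit 0) (nat_lit 9623811951) (nat_lit 456) (nat_lit 10479511022) (nat_lit 532) (nat_lit 3406414983) (nat_lit 178) (nat_lit 5) (nat_lit 184) (nat_lit 5) (nat_lit 185) (nat_lit 5) (nat_lit 500) (nat_lit 427) (nat_lit 213)) (XT.lf (nat_lit 0) (nat_lit 1088215818) (nat_lit 532) (nat_lit 714578130) (nat_lit 76) (nat_lit 21997801739) (nat_lit 177) (nat_lit 5) (nat_lit 184) (nat_lit 5) (nat_lit 178) (nat_lit 5) (nat_lit 501) (nat_lit 427) (nat_lit 212))))) (XT.nd (nat_lit 234) (nat_lit 912) (nat_lit 0) (XT.nd (nat_lit 78) (nat_lit 456) (nat_lit 0) (XT.lf (nat_lit 0) (nat_lit 5752058105) (nat_lit 532) (nat_lit 11282535536) (nat_lit 76) (nat_lit 7059728899) (nat_lit 171) (nat_lit 5) (nat_lit 178) (nat_lit 5) (nat_lit 172) (nat_lit 5) (nat_lit 502) (nat_lit 427) (nat_lit 211)) (XT.nd (nat_lit 78) (nat_lit 0)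 (nat_lit 0) (XT.lf (nat_lit 0) (nat_lit 2234708785) (nat_lit 456) (nat_lit 8300735459) (nat_lit 532) (nat_lit 13857955238) (nat_lit 165) (nat_lit 5) (nat_lit 171) (nat_lit 5) (nat_lit 172) (nat_lit 5) (nat_lit 503) (nat_lit 427) (nat_lit 210)) (XT.lf (nat_lit 0) (nat_lit 15489687241) (nat_lit 532) (nat_lit 8533361186) (nat_lit 76) (nat_lit 673906628) (nat_lit 165) (nat_lit 5) (nat_lit 172) (nat_lit 5) (nat_lit 166) (nat_lit 5) (nat_lit 504) (nat_lit 427) (nat_lit 209)))) (XT.nd (nat_lit 156) (nat_lit 532) (nat_lit 0) (XT.lf (nat_lit 0) (nat_lit 5372905516) (nat_lit 380) (nat_lit 15255093001) (nat_lit 456) (nat_lit 4376884413) (nat_lit 160) (nat_lit 5) (nat_lit 165) (nat_lit 5) (nat_lit 166) (nat_lit 5) (nat_lit 505) (nat_lit 427) (nat_lit 208)) (XT.nd (nat_lit 53196) (nat_lit 0) (nat_lit 24700) (XT.lf (nat_lit 0) (nat_lit 5680309681) (nat_lit 532) (nat_lit 16977439343) (nat_lit 76) (nat_lit 2977311006) (nat_lit 153) (nat_lit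 5) (nat_lit 160) (nat_lit 5) (nat_lit 154) (nat_lit 5) (nat_lit 507) (nat_lit 427) (nat_lit 206)) (XT.lf (nat_lit 0) (nat_lit 2432367228) (nat_lit 0) (nat_lit 2432367228) (nat_lit 1596) (nat_lit 598643324) (nat_lit 478) (nat_lit 5) (nat_lit 478) (nat_lit 3) (nat_lit 499) (nat_lit 3) (nat_lit 428) (nat_lit 428) (nat_lit 284)))))) (XT.nd (nat_lit 390) (nat_lit 0) (nat_lit 152) (XT.nd (nat_lit 156) (nat_lit 0) (nat_lit 0) (XT.nd (nat_lit 78) (nat_lit 1672) (nat_lit 0) (XT.lf (nat_lit 0) (nat_lit 10240246645) (nat_lit 0) (nat_lit 158306869) (nat_lit 1596) (nat_lit 625861190) (nat_lit 478) (nat_lit 5) (nat_lit 478) (nat_lit 3) (nat_lit 499) (nat_lit 3) (nat_lit 429) (nat_lit 428) (nat_lit 283)) (XT.lf (nat_lit 0) (nat_lit 3050901) (nat_lit 1672) (nat_lit 6501281869) (nat_lit 1748) (nat_lit 4618794401) (nat_lit 456) (nat_lit 5) (nat_lit 478) (nat_lit 5) (nat_lit 479) (nat_lit 5) (nat_lit 430) (nat_lit 428) (nat_lit 282))) (XT.nd (nat_lit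 78) (nat_lit 0) (nat_lit 76) (XT.lf (nat_lit 0) (nat_lit 627705343) (nat_lit 1672) (nat_lit 1090329925) (nat_lit 1748) (nat_lit 9505869344) (nat_lit 456) (nat_lit 5) (nat_lit 478) (nat_lit 5) (nat_lit 479) (nat_lit 5) (nat_lit 431) (nat_lit 428) (nat_lit 281)) (XT.nd (nat_lit 78) (nat_lit 0) (nat_lit 0) (XT.lf (nat_lit 0) (nat_lit 1300198542) (nat_lit 1672) (nat_lit 6867440324) (nat_lit 1748) (nat_lit 3158356090) (nat_lit 457) (nat_lit 5) (nat_lit 479) (nat_lit 5) (nat_lit 480) (nat_lit 5) (nat_lit 432) (nat_lit 428) (nat_lit 280)) (XT.lf (nat_lit 0) (nat_lit 1990642192) (nat_lit 1672) (nat_lit 1316335665) (nat_lit 1748) (nat_lit 8123063419) (nat_lit 457) (nat_lit 5) (nat_lit 479) (nat_lit 5) (nat_lit 480) (nat_lit 5) (nat_lit 433) (nat_lit 428) (nat_lit 279))))) (XT.nd (nat_lit 234) (nat_lit 0) (nat_lit 76) (XT.nd (nat_lit 78) (nat_lit 0) (nat_lit 0) (XT.lf (nat_lit 0) (nat_lit 2720416675) (nat_lit 1672) (nat_lit 7151355257)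 (nat_lit 1748) (nat_lit 1663890254) (nat_lit 458) (nat_lit 5) (nat_lit 480) (nat_lit 5) (nat_lit 481) (nat_lit 5) (nat_lit 434) (nat_lit 428) (nat_lit 278)) (XT.nd (nat_lit 78) (nat_lit 0) (nat_lit 76) (XT.lf (nat_lit 0) (nat_lit 3481876193) (nat_lit 1672) (nat_lit 1456602458) (nat_lit 1748) (nat_lit 6704579093) (nat_lit 458) (nat_lit 5) (nat_lit 480) (nat_lit 5) (nat_lit 481) (nat_lit 5) (nat_lit 435) (nat_lit 428) (nat_lit 277)) (XT.lf (nat_lit 0) (nat_lit 4274540638) (nat_lit 1672) (nat_lit 7351427609) (nat_lit 1748) (nat_lit 126317393) (nat_lit 459) (nat_lit 5) (nat_lit 481) (nat_lit 5) (nat_lit 482) (nat_lit 5) (nat_lit 436) (nat_lit 428) (nat_lit 276)))) (XT.nd (nat_lit 78) (nat_lit 0) (nat_lit 0) (XT.lf (nat_lit 0) (nat_lit 5112413914) (nat_lit 1672) (nat_lit 1509378042) (nat_lit 1748) (nat_lit 5241322889) (nat_lit 459) (nat_lit 5) (nat_lit 481) (nat_lit 5) (nat_lit 482) (nat_lit 5) (nat_lit 437) (nat_lit 428) (nat_lit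 275)) (XT.nd (nat_lit 78) (nat_lit 0) (nat_lit 76) (XT.lf (nat_lit 76) (nat_lit 4500381005) (nat_lit 0) (nat_lit 1482952800) (nat_lit 1748) (nat_lit 5992504837) (nat_lit 460) (nat_lit 5) (nat_lit 459) (nat_lit 5) (nat_lit 482) (nat_lit 5) (nat_lit 438) (nat_lit 428) (nat_lit 274)) (XT.lf (nat_lit 0) (nat_lit 6893572307) (nat_lit 1672) (nat_lit 1472679419) (nat_lit 1748) (nat_lit 3724130900) (nat_lit 460) (nat_lit 5) (nat_lit 482) (nat_lit 5) (nat_lit 483) (nat_lit 5) (nat_lit 439) (nat_lit 428) (nat_lit 273))))))) (XT.nd (nat_lit 858) (nat_lit 5472) (nat_lit 0) (XT.nd (nat_lit 390) (nat_lit 1596) (nat_lit 0) (XT.nd (nat_lit 156) (nat_lit 0) (nat_lit 76) (XT.nd (nat_lit 78) (nat_lit 0) (nat_lit 76) (XT.lf (nat_lit 76) (nat_lit 4693666752) (nat_lit 0) (nat_lit 3156193786) (nat_lit 1748) (nat_lit 4356803692) (nat_lit 461) (nat_lit 5) (nat_lit 460) (nat_lit 5) (nat_lit 483) (nat_lit 5) (nat_lit 440) (nat_lit 428) (nat_lit 272))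 (XT.lf (nat_lit 0) (nat_lit 8837001328) (nat_lit 1672) (nat_lit 1344294656) (nat_lit 1748) (nat_lit 2143744517) (nat_lit 461) (nat_lit 5) (nat_lit 483) (nat_lit 5) (nat_lit 484) (nat_lit 5) (nat_lit 441) (nat_lit 428) (nat_lit 271))) (XT.nd (nat_lit 78) (nat_lit 0) (nat_lit 76) (XT.lf (nat_lit 76) (nat_lit 4983965286) (nat_lit 0) (nat_lit 4901187959) (nat_lit 1748) (nat_lit 2559809187) (nat_lit 462) (nat_lit 5) (nat_lit 461) (nat_lit 5) (nat_lit 484) (nat_lit 5) (nat_lit 442) (nat_lit 428) (nat_lit 270)) (XT.nd (nat_lit 78) (nat_lit 0) (nat_lit 0) (XT.lf (nat_lit 0) (nat_lit 10954706886) (nat_lit 1672) (nat_lit 1121784312) (nat_lit 1748) (nat_lit 490786261) (nat_lit 462) (nat_lit 5) (nat_lit 484) (nat_lit 5) (nat_lit 485) (nat_lit 5) (nat_lit 443) (nat_lit 428) (nat_lit 269)) (XT.lf (nat_lit 76) (nat_lit 5373911808) (nat_lit 0) (nat_lit 6727532301) (nat_lit 1748) (nat_lit 589482191) (nat_lit 463) (nat_lit 5) (nat_lit 462) (nat_lit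 5) (nat_lit 485) (nat_lit 5) (nat_lit 444) (nat_lit 428) (nat_lit 268))))) (XT.nd (nat_lit 234) (nat_lit 0) (nat_lit 152) (XT.nd (nat_lit 78) (nat_lit 0) (nat_lit 76) (XT.lf (nat_lit 0) (nat_lit 444227980) (nat_lit 1748) (nat_lit 813590995) (nat_lit 1824) (nat_lit 11559251111) (nat_lit 439) (nat_lit 5) (nat_lit 462) (nat_lit 5) (nat_lit 463) (nat_lit 5) (nat_lit 445) (nat_lit 428) (nat_lit 267)) (XT.nd (nat_lit 78) (nat_lit 0) (nat_lit 0) (XT.lf (nat_lit 0) (nat_lit 1546052627) (nat_lit 1748) (nat_lit 7088556652) (nat_lit 1824) (nat_lit 4309946040) (nat_lit 440) (nat_lit 5) (nat_lit 463) (nat_lit 5) (nat_lit 464) (nat_lit 5) (nat_lit 446) (nat_lit 428) (nat_lit 266)) (XT.lf (nat_lit 0) (nat_lit 2672687510) (nat_lit 1748) (nat_lit 421285622) (nat_lit 1824) (nat_lit 9980564758) (nat_lit 440) (nat_lit 5) (nat_lit 463) (nat_lit 5) (nat_lit 464) (nat_lit 5) (nat_lit 447) (nat_lit 428) (nat_lit 265)))) (XT.nd (nat_lit 78) (nat_lit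 0) (nat_lit 0) (XT.lf (nat_lit 0) (nat_lit 3869833622) (nat_lit 1748) (nat_lit 6767683248) (nat_lit 1824) (nat_lit 2568646718) (nat_lit 441) (nat_lit 5) (nat_lit 464) (nat_lit 5) (nat_lit 465) (nat_lit 5) (nat_lit 448) (nat_lit 428) (nat_lit 264)) (XT.nd (nat_lit 78) (nat_lit 0) (nat_lit 76) (XT.lf (nat_lit 76) (nat_lit 72773486) (nat_lit 0) (nat_lit 5031297007) (nat_lit 1824) (nat_lit 8236091338) (nat_lit 442) (nat_lit 5) (nat_lit 441) (nat_lit 5) (nat_lit 465) (nat_lit 5) (nat_lit 449) (nat_lit 428) (nat_lit 263)) (XT.lf (nat_lit 0) (nat_lit 6402676143) (nat_lit 1748) (nat_lit 6347546570) (nat_lit 1824) (nat_lit 725826575) (nat_lit 442) (nat_lit 5) (nat_lit 465) (nat_lit 5) (nat_lit 466) (nat_lit 5) (nat_lit 450) (nat_lit 428) (nat_lit 262)))))) (XT.nd (nat_lit 468) (nat_lit 2660) (nat_lit 0) (XT.nd (nat_lit 234) (nat_lit 1368) (nat_lit 0) (XT.nd (nat_lit 78) (nat_lit 1672) (nat_lit 0) (XT.lf (nat_lit 76) (nat_lit 677800510)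 (nat_lit 0) (nat_lit 7076887499) (nat_lit 1824) (nat_lit 5859420672) (nat_lit 443) (nat_lit 5) (nat_lit 442) (nat_lit 5) (nat_lit 466) (nat_lit 5) (nat_lit 451) (nat_lit 428) (nat_lit 261)) (XT.nd (nat_lit 78) (nat_lit 1672) (nat_lit 0) (XT.lf (nat_lit 76) (nat_lit 7921291705) (nat_lit 0) (nat_lit 1244904436) (nat_lit 1824) (nat_lit 4588086818) (nat_lit 443) (nat_lit 5) (nat_lit 442) (nat_lit 5) (nat_lit 466) (nat_lit 5) (nat_lit 452) (nat_lit 428) (nat_lit 260)) (XT.lf (nat_lit 0) (nat_lit 1391650806) (nat_lit 1748) (nat_lit 9243929302) (nat_lit 1824) (nat_lit 3261090458) (nat_lit 420) (nat_lit 5) (nat_lit 443) (nat_lit 5) (nat_lit 444) (nat_lit 5) (nat_lit 453) (nat_lit 428) (nat_lit 259)))) (XT.nd (nat_lit 78) (nat_lit 1368) (nat_lit 0) (XT.lf (nat_lit 0) (nat_lit 8823101803) (nat_lit 1748) (nat_lit 3348793223) (nat_lit 1824) (nat_lit 1869262741) (nat_lit 420) (nat_lit 5) (nat_lit 443) (nat_lit 5) (nat_lit 444) (nat_lit 5)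 (nat_lit 454) (nat_lit 428) (nat_lit 258)) (XT.nd (nat_lit 78) (nat_lit 76) (nat_lit 0) (XT.lf (nat_lit 0) (nat_lit 2218002082) (nat_lit 1292) (nat_lit 11543044426) (nat_lit 1368) (nat_lit 427048652) (nat_lit 403) (nat_lit 5) (nat_lit 420) (nat_lit 5) (nat_lit 421) (nat_lit 5) (nat_lit 455) (nat_lit 428) (nat_lit 257)) (XT.lf (nat_lit 0) (nat_lit 1078222464) (nat_lit 1368) (nat_lit 4501455341) (nat_lit 76) (nat_lit 8757202374) (nat_lit 402) (nat_lit 5) (nat_lit 420) (nat_lit 5) (nat_lit 403) (nat_lit 5) (nat_lit 456) (nat_lit 428) (nat_lit 256))))) (XT.nd (nat_lit 234) (nat_lit 912) (nat_lit 0) (XT.nd (nat_lit 78) (nat_lit 836) (nat_lit 0) (XT.lf (nat_lit 0) (nat_lit 2622408864) (nat_lit 988) (nat_lit 11345138126) (nat_lit 76) (nat_lit 520749392) (nat_lit 390) (nat_lit 5) (nat_lit 403) (nat_lit 5) (nat_lit 391) (nat_lit 5) (nat_lit 457) (nat_lit 428) (nat_lit 255)) (XT.nd (nat_lit 78) (nat_lit 836) (nat_lit 0) (XT.lf (nat_lit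 0) (nat_lit 4255639382) (nat_lit 988) (nat_lit 3686086549) (nat_lit 76) (nat_lit 6699854221) (nat_lit 390) (nat_lit 5) (nat_lit 403) (nat_lit 5) (nat_lit 391) (nat_lit 5) (nat_lit 458) (nat_lit 428) (nat_lit 254)) (XT.lf (nat_lit 0) (nat_lit 4172555399) (nat_lit 836) (nat_lit 1767052167) (nat_lit 912) (nat_lit 8857962972) (nat_lit 379) (nat_lit 5) (nat_lit 390) (nat_lit 5) (nat_lit 391) (nat_lit 5) (nat_lit 459) (nat_lit 428) (nat_lit 253)))) (XT.nd (nat_lit 78) (nat_lit 912) (nat_lit 0) (XT.lf (nat_lit 0) (nat_lit 7702682887) (nat_lit 912) (nat_lit 2755876927) (nat_lit 76) (nat_lit 4497214719) (nat_lit 379) (nat_lit 5) (nat_lit 391) (nat_lit 5) (nat_lit 380) (nat_lit 5) (nat_lit 460) (nat_lit 428) (nat_lit 252)) (XT.nd (nat_lit 78) (nat_lit 0) (nat_lit 0) (XT.lf (nat_lit 0) (nat_lit 5320441691) (nat_lit 912) (nat_lit 4218107893) (nat_lit 988) (nat_lit 5577844734) (nat_lit 367) (nat_lit 5) (nat_lit 379) (nat_lit 5) (nat_lit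 380) (nat_lit 5) (nat_lit 461) (nat_lit 428) (nat_lit 251)) (XT.lf (nat_lit 0) (nat_lit 11435093861) (nat_lit 988) (nat_lit 1706677313) (nat_lit 76) (nat_lit 2137978385) (nat_lit 367) (nat_lit 5) (nat_lit 380) (nat_lit 5) (nat_lit 368) (nat_lit 5) (nat_lit 462) (nat_lit 428) (nat_lit 250))))))))
noncomputable def xc201 : XT := (XT.nd (nat_lit 1716) (nat_lit 6916) (nat_lit 0) (XT.nd (nat_lit 858) (nat_lit 4028) (nat_lit 0) (XT.nd (nat_lit 390) (nat_lit 2356) (nat_lit 0) (XT.nd (nat_lit 156) (nat_lit 1672) (nat_lit 0) (XT.nd (nat_lit 78) (nat_lit 0) (nat_lit 0) (XT.lf (nat_lit 0) (nat_lit 6594703680) (nat_lit 836) (nat_lit 6837189224) (nat_lit 912) (nat_lit 2013234743) (nat_lit 356) (nat_lit 5) (nat_lit 367) (nat_lit 5) (nat_lit 368) (nat_lit 5) (nat_lit 463) (nat_lit 428) (nat_lit 249)) (XT.lf (nat_lit 0) (nat_lit 15077064874) (nat_lit 836) (nat_lit 394700087) (nat_lit 912) (nat_lit 141987771) (nat_lit 356) (nat_lit 5) (nat_lit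 367) (nat_lit 5) (nat_lit 368) (nat_lit 5) (nat_lit 464) (nat_lit 428) (nat_lit 248))) (XT.nd (nat_lit 78) (nat_lit 760) (nat_lit 0) (XT.lf (nat_lit 0) (nat_lit 1827959306) (nat_lit 912) (nat_lit 7796147180) (nat_lit 76) (nat_lit 6159727603) (nat_lit 344) (nat_lit 5) (nat_lit 356) (nat_lit 5) (nat_lit 345) (nat_lit 5) (nat_lit 465) (nat_lit 428) (nat_lit 247)) (XT.nd (nat_lit 78) (nat_lit 0) (nat_lit 0) (XT.lf (nat_lit 0) (nat_lit 730336170) (nat_lit 760) (nat_lit 3107950684) (nat_lit 836) (nat_lit 12118955846) (nat_lit 334) (nat_lit 5) (nat_lit 344) (nat_lit 5) (nat_lit 345) (nat_lit 5) (nat_lit 466) (nat_lit 428) (nat_lit 246)) (XT.lf (nat_lit 0) (nat_lit 5956462456) (nat_lit 836) (nat_lit 6631715801) (nat_lit 76) (nat_lit 3544590404) (nat_lit 334) (nat_lit 5) (nat_lit 345) (nat_lit 5) (nat_lit 335) (nat_lit 5) (nat_lit 467) (nat_lit 428) (nat_lit 245))))) (XT.nd (nat_lit 234) (nat_lit 836) (nat_lit 0) (XT.nd (nat_lit 78)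 (nat_lit 760) (nat_lit 0) (XT.lf (nat_lit 0) (nat_lit 2134606028) (nat_lit 760) (nat_lit 6008998369) (nat_lit 836) (nat_lit 8167670660) (nat_lit 324) (nat_lit 5) (nat_lit 334) (nat_lit 5) (nat_lit 335) (nat_lit 5) (nat_lit 468) (nat_lit 428) (nat_lit 244)) (XT.nd (nat_lit 78) (nat_lit 760) (nat_lit 0) (XT.lf (nat_lit 0) (nat_lit 10416101962) (nat_lit 836) (nat_lit 5339449908) (nat_lit 76) (nat_lit 736969387) (nat_lit 324) (nat_lit 5) (nat_lit 335) (nat_lit 5) (nat_lit 325) (nat_lit 5) (nat_lit 469) (nat_lit 428) (nat_lit 243)) (XT.lf (nat_lit 0) (nat_lit 3674790641) (nat_lit 760) (nat_lit 9115323921) (nat_lit 836) (nat_lit 3886158412) (nat_lit 314) (nat_lit 5) (nat_lit 324) (nat_lit 5) (nat_lit 325) (nat_lit 5) (nat_lit 470) (nat_lit 428) (nat_lit 242)))) (XT.nd (nat_lit 78) (nat_lit 836) (nat_lit 0) (XT.lf (nat_lit 0) (nat_lit 12933623294) (nat_lit 760) (nat_lit 2306322257) (nat_lit 836) (nat_lit 1623189269) (nat_lit 314) (nat_lit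 5) (nat_lit 324) (nat_lit 5) (nat_lit 325) (nat_lit 5) (nat_lit 471) (nat_lit 428) (nat_lit 241)) (XT.nd (nat_lit 78) (nat_lit 0) (nat_lit 0) (XT.lf (nat_lit 0) (nat_lit 733978024) (nat_lit 836) (nat_lit 11701446195) (nat_lit 76) (nat_lit 4617064050) (nat_lit 303) (nat_lit 5) (nat_lit 314) (nat_lit 5) (nat_lit 304) (nat_lit 5) (nat_lit 472) (nat_lit 428) (nat_lit 240)) (XT.lf (nat_lit 0) (nat_lit 3151085012) (nat_lit 836) (nat_lit 2408929992) (nat_lit 76) (nat_lit 11684710332) (nat_lit 303) (nat_lit 5) (nat_lit 314) (nat_lit 5) (nat_lit 304) (nat_lit 5) (nat_lit 473) (nat_lit 428) (nat_lit 239)))))) (XT.nd (nat_lit 390) (nat_lit 1976) (nat_lit 0) (XT.nd (nat_lit 156) (nat_lit 1368) (nat_lit 0) (XT.nd (nat_lit 78) (nat_lit 0) (nat_lit 0) (XT.lf (nat_lit 0) (nat_lit 5665563558) (nat_lit 760) (nat_lit 10294422867) (nat_lit 76) (nat_lit 1479841845) (nat_lit 294) (nat_lit 5) (nat_lit 304) (nat_lit 5) (nat_lit 295) (nat_lit 5) (nat_lit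 474) (nat_lit 428) (nat_lit 238)) (XT.lf (nat_lit 0) (nat_lit 8276345554) (nat_lit 760) (nat_lit 759986845) (nat_lit 76) (nat_lit 8601582270) (nat_lit 294) (nat_lit 5) (nat_lit 304) (nat_lit 5) (nat_lit 295) (nat_lit 5) (nat_lit 475) (nat_lit 428) (nat_lit 237))) (XT.nd (nat_lit 78) (nat_lit 684) (nat_lit 0) (XT.lf (nat_lit 0) (nat_lit 9076302962) (nat_lit 684) (nat_lit 1915028769) (nat_lit 760) (nat_lit 6847592944) (nat_lit 285) (nat_lit 5) (nat_lit 294) (nat_lit 5) (nat_lit 295) (nat_lit 5) (nat_lit 476) (nat_lit 428) (nat_lit 236)) (XT.nd (nat_lit 78) (nat_lit 0) (nat_lit 0) (XT.lf (nat_lit 0) (nat_lit 1046782201) (nat_lit 684) (nat_lit 12753631050) (nat_lit 760) (nat_lit 4242747333) (nat_lit 276) (nat_lit 5) (nat_lit 285) (nat_lit 5) (nat_lit 286) (nat_lit 5) (nat_lit 477) (nat_lit 428) (nat_lit 235)) (XT.lf (nat_lit 0) (nat_lit 11150402357) (nat_lit 684) (nat_lit 5579896186) (nat_lit 760) (nat_lit 1519891811) (nat_lit 276)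 (nat_lit 5) (nat_lit 285) (nat_lit 5) (nat_lit 286) (nat_lit 5) (nat_lit 478) (nat_lit 428) (nat_lit 234))))) (XT.nd (nat_lit 234) (nat_lit 608) (nat_lit 0) (XT.nd (nat_lit 78) (nat_lit 608) (nat_lit 0) (XT.lf (nat_lit 0) (nat_lit 1265291491) (nat_lit 760) (nat_lit 15454077219) (nat_lit 76) (nat_lit 1741343012) (nat_lit 266) (nat_lit 5) (nat_lit 276) (nat_lit 5) (nat_lit 267) (nat_lit 5) (nat_lit 479) (nat_lit 428) (nat_lit 233)) (XT.nd (nat_lit 78) (nat_lit 608) (nat_lit 0) (XT.lf (nat_lit 0) (nat_lit 4164139786) (nat_lit 760) (nat_lit 5318310374) (nat_lit 76) (nat_lit 9191227669) (nat_lit 266) (nat_lit 5) (nat_lit 276) (nat_lit 5) (nat_lit 267) (nat_lit 5) (nat_lit 480) (nat_lit 428) (nat_lit 232)) (XT.lf (nat_lit 0) (nat_lit 5079028603) (nat_lit 608) (nat_lit 2068424499) (nat_lit 684) (nat_lit 11742921860) (nat_lit 258) (nat_lit 5) (nat_lit 266) (nat_lit 5) (nat_lit 267) (nat_lit 5) (nat_lit 481) (nat_lit 428) (nat_lit 231))))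 (XT.nd (nat_lit 78) (nat_lit 608) (nat_lit 0) (XT.lf (nat_lit 0) (nat_lit 10255608055) (nat_lit 684) (nat_lit 3398018895) (nat_lit 76) (nat_lit 5456477016) (nat_lit 258) (nat_lit 5) (nat_lit 267) (nat_lit 5) (nat_lit 259) (nat_lit 5) (nat_lit 482) (nat_lit 428) (nat_lit 230)) (XT.nd (nat_lit 78) (nat_lit 0) (nat_lit 0) (XT.lf (nat_lit 0) (nat_lit 7297918084) (nat_lit 608) (nat_lit 6182795432) (nat_lit 684) (nat_lit 5852419693) (nat_lit 250) (nat_lit 5) (nat_lit 258) (nat_lit 5) (nat_lit 259) (nat_lit 5) (nat_lit 483) (nat_lit 428) (nat_lit 229)) (XT.lf (nat_lit 0) (nat_lit 16796378613) (nat_lit 684) (nat_lit 1323554615) (nat_lit 76) (nat_lit 1440170039) (nat_lit 250) (nat_lit 5) (nat_lit 259) (nat_lit 5) (nat_lit 251) (nat_lit 5) (nat_lit 484) (nat_lit 428) (nat_lit 228))))))) (XT.nd (nat_lit 858) (nat_lit 2964) (nat_lit 0) (XT.nd (nat_lit 390) (nat_lit 2128) (nat_lit 0) (XT.nd (nat_lit 156) (nat_lit 532) (nat_lit 0) (XT.nd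 (nat_lit 78) (nat_lit 608) (nat_lit 0) (XT.lf (nat_lit 0) (nat_lit 480010618) (nat_lit 684) (nat_lit 10112046509) (nat_lit 76) (nat_lit 9197539932) (nat_lit 241) (nat_lit 5) (nat_lit 250) (nat_lit 5) (nat_lit 242) (nat_lit 5) (nat_lit 485) (nat_lit 428) (nat_lit 227)) (XT.lf (nat_lit 0) (nat_lit 878659018) (nat_lit 608) (nat_lit 2881558085) (nat_lit 684) (nat_lit 16262927507) (nat_lit 233) (nat_lit 5) (nat_lit 241) (nat_lit 5) (nat_lit 242) (nat_lit 5) (nat_lit 486) (nat_lit 428) (nat_lit 226))) (XT.nd (nat_lit 78) (nat_lit 532) (nat_lit 0) (XT.lf (nat_lit 0) (nat_lit 7200670842) (nat_lit 684) (nat_lit 8074239297) (nat_lit 76) (nat_lit 4984561384) (nat_lit 233) (nat_lit 5) (nat_lit 242) (nat_lit 5) (nat_lit 234) (nat_lit 5) (nat_lit 487) (nat_lit 428) (nat_lit 225)) (XT.nd (nat_lit 78) (nat_lit 0) (nat_lit 0) (XT.lf (nat_lit 0) (nat_lit 3233203257) (nat_lit 532) (nat_lit 7510906314) (nat_lit 608) (nat_lit 9755733136) (nat_lit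 226) (nat_lit 5) (nat_lit 233) (nat_lit 5) (nat_lit 234) (nat_lit 5) (nat_lit 488) (nat_lit 428) (nat_lit 224)) (XT.lf (nat_lit 0) (nat_lit 14409766813) (nat_lit 608) (nat_lit 5878292023) (nat_lit 76) (nat_lit 455936709) (nat_lit 226) (nat_lit 5) (nat_lit 234) (nat_lit 5) (nat_lit 227) (nat_lit 5) (nat_lit 489) (nat_lit 428) (nat_lit 223))))) (XT.nd (nat_lit 234) (nat_lit 988) (nat_lit 0) (XT.nd (nat_lit 78) (nat_lit 608) (nat_lit 0) (XT.lf (nat_lit 0) (nat_lit 5756135597) (nat_lit 532) (nat_lit 12473986981) (nat_lit 608) (nat_lit 2761282355) (nat_lit 219) (nat_lit 5) (nat_lit 226) (nat_lit 5) (nat_lit 227) (nat_lit 5) (nat_lit 490) (nat_lit 428) (nat_lit 222)) (XT.nd (nat_lit 78) (nat_lit 532) (nat_lit 0) (XT.lf (nat_lit 0) (nat_lit 905545599) (nat_lit 608) (nat_lit 3553501483) (nat_lit 76) (nat_lit 16783921806) (nat_lit 218) (nat_lit 5) (nat_lit 226) (nat_lit 5) (nat_lit 219) (nat_lit 5) (nat_lit 491) (nat_lit 428) (nat_lit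 221)) (XT.lf (nat_lit 0) (nat_lit 4682625330) (nat_lit 608) (nat_lit 13075735470) (nat_lit 76) (nat_lit 3739361637) (nat_lit 211) (nat_lit 5) (nat_lit 219) (nat_lit 5) (nat_lit 212) (nat_lit 5) (nat_lit 492) (nat_lit 428) (nat_lit 220)))) (XT.nd (nat_lit 78) (nat_lit 988) (nat_lit 0) (XT.lf (nat_lit 0) (nat_lit 8583240762) (nat_lit 608) (nat_lit 1109000552) (nat_lit 76) (nat_lit 12064370970) (nat_lit 211) (nat_lit 5) (nat_lit 219) (nat_lit 5) (nat_lit 212) (nat_lit 5) (nat_lit 493) (nat_lit 428) (nat_lit 219)) (XT.nd (nat_lit 78) (nat_lit 456) (nat_lit 0) (XT.lf (nat_lit 0) (nat_lit 11237219559) (nat_lit 532) (nat_lit 1392177258) (nat_lit 608) (nat_lit 9389933634) (nat_lit 204) (nat_lit 5) (nat_lit 211) (nat_lit 5) (nat_lit 212) (nat_lit 5) (nat_lit 494) (nat_lit 428) (nat_lit 218)) (XT.lf (nat_lit 0) (nat_lit 1524988709) (nat_lit 456) (nat_lit 15289425122) (nat_lit 532) (nat_lit 5471731460) (nat_lit 198) (nat_lit 5) (nat_lit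 204) (nat_lit 5) (nat_lit 205) (nat_lit 5) (nat_lit 495) (nat_lit 428) (nat_lit 217)))))) (XT.nd (nat_lit 468) (nat_lit 1444) (nat_lit 0) (XT.nd (nat_lit 234) (nat_lit 912) (nat_lit 0) (XT.nd (nat_lit 78) (nat_lit 608) (nat_lit 0) (XT.lf (nat_lit 0) (nat_lit 14207813427) (nat_lit 456) (nat_lit 6951506035) (nat_lit 532) (nat_lit 1397454245) (nat_lit 198) (nat_lit 5) (nat_lit 204) (nat_lit 5) (nat_lit 205) (nat_lit 5) (nat_lit 496) (nat_lit 428) (nat_lit 216)) (XT.nd (nat_lit 78) (nat_lit 0) (nat_lit 0) (XT.lf (nat_lit 0) (nat_lit 2755454507) (nat_lit 608) (nat_lit 18498998595) (nat_lit 76) (nat_lit 1577337986) (nat_lit 190) (nat_lit 5) (nat_lit 198) (nat_lit 5) (nat_lit 191) (nat_lit 5) (nat_lit 497) (nat_lit 428) (nat_lit 215)) (XT.lf (nat_lit 0) (nat_lit 7069949290) (nat_lit 608) (nat_lit 5792701322) (nat_lit 76) (nat_lit 10247529651) (nat_lit 190) (nat_lit 5) (nat_lit 198) (nat_lit 5) (nat_lit 191) (nat_lit 5) (nat_lit 498)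 (nat_lit 428) (nat_lit 214)))) (XT.nd (nat_lit 78) (nat_lit 456) (nat_lit 0) (XT.lf (nat_lit 0) (nat_lit 7255820998) (nat_lit 456) (nat_lit 4256913615) (nat_lit 532) (nat_lit 11880563562) (nat_lit 184) (nat_lit 5) (nat_lit 190) (nat_lit 5) (nat_lit 191) (nat_lit 5) (nat_lit 499) (nat_lit 428) (nat_lit 213)) (XT.nd (nat_lit 78) (nat_lit 456) (nat_lit 0) (XT.lf (nat_lit 0) (nat_lit 16107791009) (nat_lit 532) (nat_lit 3074181139) (nat_lit 76) (nat_lit 4498838937) (nat_lit 184) (nat_lit 5) (nat_lit 191) (nat_lit 5) (nat_lit 185) (nat_lit 5) (nat_lit 500) (nat_lit 428) (nat_lit 212)) (XT.lf (nat_lit 0) (nat_lit 10350978467) (nat_lit 456) (nat_lit 10534199248) (nat_lit 532) (nat_lit 3087088883) (nat_lit 178) (nat_lit 5) (nat_lit 184) (nat_lit 5) (nat_lit 185) (nat_lit 5) (nat_lit 501) (nat_lit 428) (nat_lit 211))))) (XT.nd (nat_lit 234) (nat_lit 456) (nat_lit 0) (XT.nd (nat_lit 78) (nat_lit 912) (nat_lit 0) (XT.lf (nat_lit 0) (nat_lit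 1484855492) (nat_lit 532) (nat_lit 199614023) (nat_lit 76) (nat_lit 22584572959) (nat_lit 177) (nat_lit 5) (nat_lit 184) (nat_lit 5) (nat_lit 178) (nat_lit 5) (nat_lit 502) (nat_lit 428) (nat_lit 210)) (XT.nd (nat_lit 78) (nat_lit 456) (nat_lit 0) (XT.lf (nat_lit 0) (nat_lit 6239043092) (nat_lit 532) (nat_lit 10975932751) (nat_lit 76) (nat_lit 7353727977) (nat_lit 171) (nat_lit 5) (nat_lit 178) (nat_lit 5) (nat_lit 172) (nat_lit 5) (nat_lit 503) (nat_lit 428) (nat_lit 209)) (XT.lf (nat_lit 0) (nat_lit 2808154788) (nat_lit 456) (nat_lit 8306082158) (nat_lit 532) (nat_lit 13759603856) (nat_lit 165) (nat_lit 5) (nat_lit 171) (nat_lit 5) (nat_lit 172) (nat_lit 5) (nat_lit 504) (nat_lit 428) (nat_lit 208)))) (XT.nd (nat_lit 156) (nat_lit 456) (nat_lit 0) (XT.lf (nat_lit 0) (nat_lit 16161370182) (nat_lit 532) (nat_lit 8179385926) (nat_lit 76) (nat_lit 842836545) (nat_lit 165) (nat_lit 5) (nat_lit 172) (nat_lit 5) (nat_lit 166) (nat_lit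 5) (nat_lit 505) (nat_lit 428) (nat_lit 207)) (XT.nd (nat_lit 53274) (nat_lit 0) (nat_lit 24244) (XT.lf (nat_lit 0) (nat_lit 961132595) (nat_lit 456) (nat_lit 5253276517) (nat_lit 76) (nat_lit 19602659915) (nat_lit 159) (nat_lit 5) (nat_lit 165) (nat_lit 5) (nat_lit 160) (nat_lit 5) (nat_lit 507) (nat_lit 428) (nat_lit 205)) (XT.lf (nat_lit 0) (nat_lit 2765053308) (nat_lit 0) (nat_lit 2765053308) (nat_lit 1596) (nat_lit 31005675) (nat_lit 478) (nat_lit 5) (nat_lit 478) (nat_lit 3) (nat_lit 499) (nat_lit 3) (nat_lit 429) (nat_lit 429) (nat_lit 282))))))))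
noncomputable def xc202 : XT := (XT.nd (nat_lit 1716) (nat_lit 10336) (nat_lit 0) (XT.nd (nat_lit 858) (nat_lit 1216) (nat_lit 0) (XT.nd (nat_lit 390) (nat_lit 0) (nat_lit 228) (XT.nd (nat_lit 156) (nat_lit 0) (nat_lit 76) (XT.nd (nat_lit 78) (nat_lit 0) (nat_lit 76) (XT.lf (nat_lit 0) (nat_lit 491579952) (nat_lit 1748) (nat_lit 223532991) (nat_lit 1748) (nat_lit 10507111562) (nat_lit 455) (nat_lit 3) (nat_lit 478) (nat_lit 3) (nat_lit 478) (nat_lit 5) (nat_lit 430) (nat_lit 429) (nat_lit 281)) (XT.lf (nat_lit 0) (nat_lit 1102923683) (nat_lit 1672) (nat_lit 6037036490) (nat_lit 1748) (nat_lit 4183310098) (nat_lit 456) (nat_lit 5) (nat_lit 478) (nat_lit 5) (nat_lit 479) (nat_lit 5) (nat_lit 431) (nat_lit 429) (nat_lit 280))) (XT.nd (nat_lit 78) (nat_lit 0) (nat_lit 76) (XT.lf (nat_lit 0) (nat_lit 1718506278) (nat_lit 1672) (nat_lit 529517880) (nat_lit 1748) (nat_lit 9178476740) (nat_lit 456) (nat_lit 5) (nat_lit 478) (nat_lit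 5) (nat_lit 479) (nat_lit 5) (nat_lit 432) (nat_lit 429) (nat_lit 279)) (XT.nd (nat_lit 78) (nat_lit 0) (nat_lit 0) (XT.lf (nat_lit 0) (nat_lit 2383935142) (nat_lit 1672) (nat_lit 6401345632) (nat_lit 1748) (nat_lit 2745768770) (nat_lit 457) (nat_lit 5) (nat_lit 479) (nat_lit 5) (nat_lit 480) (nat_lit 5) (nat_lit 433) (nat_lit 429) (nat_lit 278)) (XT.lf (nat_lit 0) (nat_lit 3067447811) (nat_lit 1672) (nat_lit 751051105) (nat_lit 1748) (nat_lit 7819098765) (nat_lit 457) (nat_lit 5) (nat_lit 479) (nat_lit 5) (nat_lit 480) (nat_lit 5) (nat_lit 434) (nat_lit 429) (nat_lit 277))))) (XT.nd (nat_lit 234) (nat_lit 0) (nat_lit 76) (XT.nd (nat_lit 78) (nat_lit 0) (nat_lit 0) (XT.lf (nat_lit 0) (nat_lit 3792490712) (nat_lit 1672) (nat_lit 6683145426) (nat_lit 1748) (nat_lit 1270087385) (nat_lit 458) (nat_lit 5) (nat_lit 480) (nat_lit 5) (nat_lit 481) (nat_lit 5) (nat_lit 435) (nat_lit 429) (nat_lit 276)) (XT.nd (nat_lit 78) (nat_lit 0)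 (nat_lit 0) (XT.lf (nat_lit 0) (nat_lit 4549225191) (nat_lit 1672) (nat_lit 886482608) (nat_lit 1748) (nat_lit 6419964131) (nat_lit 458) (nat_lit 5) (nat_lit 480) (nat_lit 5) (nat_lit 481) (nat_lit 5) (nat_lit 436) (nat_lit 429) (nat_lit 275)) (XT.lf (nat_lit 76) (nat_lit 5085049253) (nat_lit 0) (nat_lit 256148189) (nat_lit 1748) (nat_lit 6626223591) (nat_lit 459) (nat_lit 5) (nat_lit 458) (nat_lit 5) (nat_lit 481) (nat_lit 5) (nat_lit 437) (nat_lit 429) (nat_lit 274)))) (XT.nd (nat_lit 78) (nat_lit 0) (nat_lit 0) (XT.lf (nat_lit 0) (nat_lit 6174959161) (nat_lit 1672) (nat_lit 933930835) (nat_lit 1748) (nat_lit 4971999836) (nat_lit 459) (nat_lit 5) (nat_lit 481) (nat_lit 5) (nat_lit 482) (nat_lit 5) (nat_lit 438) (nat_lit 429) (nat_lit 273)) (XT.nd (nat_lit 78) (nat_lit 0) (nat_lit 76) (XT.lf (nat_lit 76) (nat_lit 5192038955) (nat_lit 0) (nat_lit 1856335456) (nat_lit 1748) (nat_lit 5147797672) (nat_lit 460) (nat_lit 5) (nat_lit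 459) (nat_lit 5) (nat_lit 482) (nat_lit 5) (nat_lit 439) (nat_lit 429) (nat_lit 272)) (XT.lf (nat_lit 0) (nat_lit 7956093015) (nat_lit 1672) (nat_lit 891284631) (nat_lit 1748) (nat_lit 3466049202) (nat_lit 460) (nat_lit 5) (nat_lit 482) (nat_lit 5) (nat_lit 483) (nat_lit 5) (nat_lit 440) (nat_lit 429) (nat_lit 271)))))) (XT.nd (nat_lit 390) (nat_lit 0) (nat_lit 0) (XT.nd (nat_lit 156) (nat_lit 1596) (nat_lit 0) (XT.nd (nat_lit 78) (nat_lit 0) (nat_lit 76) (XT.lf (nat_lit 76) (nat_lit 5394369724) (nat_lit 0) (nat_lit 3522946850) (nat_lit 1748) (nat_lit 3515006622) (nat_lit 461) (nat_lit 5) (nat_lit 460) (nat_lit 5) (nat_lit 483) (nat_lit 5) (nat_lit 441) (nat_lit 429) (nat_lit 270)) (XT.lf (nat_lit 0) (nat_lit 9904415338) (nat_lit 1672) (nat_lit 756204747) (nat_lit 1748) (nat_lit 1892847803) (nat_lit 461) (nat_lit 5) (nat_lit 483) (nat_lit 5) (nat_lit 484) (nat_lit 5) (nat_lit 442) (nat_lit 429) (nat_lit 269))) (XT.nd (nat_lit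 78) (nat_lit 1672) (nat_lit 0) (XT.lf (nat_lit 76) (nat_lit 5694574500) (nat_lit 0) (nat_lit 5265458160) (nat_lit 1748) (nat_lit 1716030647) (nat_lit 462) (nat_lit 5) (nat_lit 461) (nat_lit 5) (nat_lit 484) (nat_lit 5) (nat_lit 443) (nat_lit 429) (nat_lit 268)) (XT.nd (nat_lit 78) (nat_lit 1748) (nat_lit 0) (XT.lf (nat_lit 0) (nat_lit 12032083084) (nat_lit 1672) (nat_lit 526124968) (nat_lit 1748) (nat_lit 242999465) (nat_lit 462) (nat_lit 5) (nat_lit 484) (nat_lit 5) (nat_lit 485) (nat_lit 5) (nat_lit 444) (nat_lit 429) (nat_lit 267)) (XT.lf (nat_lit 0) (nat_lit 257894310) (nat_lit 1748) (nat_lit 6833869096) (nat_lit 1824) (nat_lit 5835793743) (nat_lit 439) (nat_lit 5) (nat_lit 462) (nat_lit 5) (nat_lit 463) (nat_lit 5) (nat_lit 445) (nat_lit 429) (nat_lit 266))))) (XT.nd (nat_lit 234) (nat_lit 0) (nat_lit 152) (XT.nd (nat_lit 78) (nat_lit 0) (nat_lit 76) (XT.lf (nat_lit 0) (nat_lit 1287701125) (nat_lit 1748) (nat_lit 216547294)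 (nat_lit 1824) (nat_lit 11552235857) (nat_lit 439) (nat_lit 5) (nat_lit 462) (nat_lit 5) (nat_lit 463) (nat_lit 5) (nat_lit 446) (nat_lit 429) (nat_lit 265)) (XT.nd (nat_lit 78) (nat_lit 0) (nat_lit 0) (XT.lf (nat_lit 0) (nat_lit 2397771352) (nat_lit 1748) (nat_lit 6602990529) (nat_lit 1824) (nat_lit 4186037767) (nat_lit 440) (nat_lit 5) (nat_lit 463) (nat_lit 5) (nat_lit 464) (nat_lit 5) (nat_lit 447) (nat_lit 429) (nat_lit 264)) (XT.lf (nat_lit 76) (nat_lit 187788064) (nat_lit 0) (nat_lit 3344276041) (nat_lit 1824) (nat_lit 9787619788) (nat_lit 441) (nat_lit 5) (nat_lit 440) (nat_lit 5) (nat_lit 464) (nat_lit 5) (nat_lit 448) (nat_lit 429) (nat_lit 263)))) (XT.nd (nat_lit 78) (nat_lit 0) (nat_lit 0) (XT.lf (nat_lit 0) (nat_lit 4738941320) (nat_lit 1748) (nat_lit 6274785953) (nat_lit 1824) (nat_lit 2440503507) (nat_lit 441) (nat_lit 5) (nat_lit 464) (nat_lit 5) (nat_lit 465) (nat_lit 5) (nat_lit 449) (nat_lit 429) (nat_lit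 262)) (XT.nd (nat_lit 78) (nat_lit 0) (nat_lit 76) (XT.lf (nat_lit 76) (nat_lit 698346686) (nat_lit 0) (nat_lit 5288044683) (nat_lit 1824) (nat_lit 7604751400) (nat_lit 442) (nat_lit 5) (nat_lit 441) (nat_lit 5) (nat_lit 465) (nat_lit 5) (nat_lit 450) (nat_lit 429) (nat_lit 261)) (XT.lf (nat_lit 0) (nat_lit 7294676548) (nat_lit 1748) (nat_lit 5846111546) (nat_lit 1824) (nat_lit 589289997) (nat_lit 442) (nat_lit 5) (nat_lit 465) (nat_lit 5) (nat_lit 466) (nat_lit 5) (nat_lit 451) (nat_lit 429) (nat_lit 260))))))) (XT.nd (nat_lit 858) (nat_lit 4864) (nat_lit 0) (XT.nd (nat_lit 390) (nat_lit 2660) (nat_lit 0) (XT.nd (nat_lit 156) (nat_lit 3040) (nat_lit 0) (XT.nd (nat_lit 78) (nat_lit 0) (nat_lit 0) (XT.lf (nat_lit 76) (nat_lit 1315608358) (nat_lit 0) (nat_lit 7347194001) (nat_lit 1824) (nat_lit 5208319021) (nat_lit 443) (nat_lit 5) (nat_lit 442) (nat_lit 5) (nat_lit 466) (nat_lit 5) (nat_lit 452) (nat_lit 429) (nat_lit 259)) (XT.lf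 (nat_lit 76) (nat_lit 8691729144) (nat_lit 0) (nat_lit 1396046399) (nat_lit 1824) (nat_lit 3926623001) (nat_lit 443) (nat_lit 5) (nat_lit 442) (nat_lit 5) (nat_lit 466) (nat_lit 5) (nat_lit 453) (nat_lit 429) (nat_lit 258))) (XT.nd (nat_lit 78) (nat_lit 1368) (nat_lit 0) (XT.lf (nat_lit 0) (nat_lit 2043154888) (nat_lit 1748) (nat_lit 9532162404) (nat_lit 1824) (nat_lit 2584545230) (nat_lit 420) (nat_lit 5) (nat_lit 443) (nat_lit 5) (nat_lit 444) (nat_lit 5) (nat_lit 454) (nat_lit 429) (nat_lit 257)) (XT.nd (nat_lit 78) (nat_lit 1368) (nat_lit 0) (XT.lf (nat_lit 0) (nat_lit 9611006060) (nat_lit 1748) (nat_lit 3517097044) (nat_lit 1824) (nat_lit 1179425410) (nat_lit 420) (nat_lit 5) (nat_lit 443) (nat_lit 5) (nat_lit 444) (nat_lit 5) (nat_lit 455) (nat_lit 429) (nat_lit 256)) (XT.lf (nat_lit 0) (nat_lit 277154622) (nat_lit 1368) (nat_lit 11574650912) (nat_lit 76) (nat_lit 2605778110) (nat_lit 402) (nat_lit 5) (nat_lit 420) (nat_lit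 5) (nat_lit 403) (nat_lit 5) (nat_lit 456) (nat_lit 429) (nat_lit 255))))) (XT.nd (nat_lit 234) (nat_lit 1748) (nat_lit 0) (XT.nd (nat_lit 78) (nat_lit 912) (nat_lit 0) (XT.lf (nat_lit 0) (nat_lit 1792954964) (nat_lit 1368) (nat_lit 3971861024) (nat_lit 76) (nat_lit 8844752792) (nat_lit 402) (nat_lit 5) (nat_lit 420) (nat_lit 5) (nat_lit 403) (nat_lit 5) (nat_lit 457) (nat_lit 429) (nat_lit 254)) (XT.nd (nat_lit 78) (nat_lit 0) (nat_lit 0) (XT.lf (nat_lit 0) (nat_lit 3357988430) (nat_lit 988) (nat_lit 10942198801) (nat_lit 76) (nat_lit 464030449) (nat_lit 390) (nat_lit 5) (nat_lit 403) (nat_lit 5) (nat_lit 391) (nat_lit 5) (nat_lit 458) (nat_lit 429) (nat_lit 253)) (XT.lf (nat_lit 0) (nat_lit 5010488826) (nat_lit 988) (nat_lit 3142316037) (nat_lit 76) (nat_lit 6768033726) (nat_lit 390) (nat_lit 5) (nat_lit 403) (nat_lit 5) (nat_lit 391) (nat_lit 5) (nat_lit 459) (nat_lit 429) (nat_lit 252)))) (XT.nd (nat_lit 78) (nat_lit 912)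 (nat_lit 0) (XT.lf (nat_lit 0) (nat_lit 4869436300) (nat_lit 836) (nat_lit 1849550775) (nat_lit 912) (nat_lit 8361148192) (nat_lit 379) (nat_lit 5) (nat_lit 390) (nat_lit 5) (nat_lit 391) (nat_lit 5) (nat_lit 460) (nat_lit 429) (nat_lit 251)) (XT.nd (nat_lit 78) (nat_lit 912) (nat_lit 0) (XT.lf (nat_lit 0) (nat_lit 8504071035) (nat_lit 912) (nat_lit 2196168334) (nat_lit 76) (nat_lit 4541532460) (nat_lit 379) (nat_lit 5) (nat_lit 391) (nat_lit 5) (nat_lit 380) (nat_lit 5) (nat_lit 461) (nat_lit 429) (nat_lit 250)) (XT.lf (nat_lit 0) (nat_lit 6037631747) (nat_lit 912) (nat_lit 4330296082) (nat_lit 988) (nat_lit 5037854089) (nat_lit 367) (nat_lit 5) (nat_lit 379) (nat_lit 5) (nat_lit 380) (nat_lit 5) (nat_lit 462) (nat_lit 429) (nat_lit 249)))))) (XT.nd (nat_lit 468) (nat_lit 2356) (nat_lit 0) (XT.nd (nat_lit 234) (nat_lit 760) (nat_lit 0) (XT.nd (nat_lit 78) (nat_lit 1748) (nat_lit 0) (XT.lf (nat_lit 0) (nat_lit 12289704158) (nat_lit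 988) (nat_lit 1129142061) (nat_lit 76) (nat_lit 2153815318) (nat_lit 367) (nat_lit 5) (nat_lit 380) (nat_lit 5) (nat_lit 368) (nat_lit 5) (nat_lit 463) (nat_lit 429) (nat_lit 248)) (XT.nd (nat_lit 78) (nat_lit 912) (nat_lit 0) (XT.lf (nat_lit 0) (nat_lit 7334242414) (nat_lit 836) (nat_lit 6983869286) (nat_lit 912) (nat_lit 1423405269) (nat_lit 356) (nat_lit 5) (nat_lit 367) (nat_lit 5) (nat_lit 368) (nat_lit 5) (nat_lit 464) (nat_lit 429) (nat_lit 247)) (XT.lf (nat_lit 0) (nat_lit 58270083) (nat_lit 836) (nat_lit 408817775) (nat_lit 912) (nat_lit 15446603079) (nat_lit 344) (nat_lit 5) (nat_lit 355) (nat_lit 5) (nat_lit 356) (nat_lit 5) (nat_lit 465) (nat_lit 429) (nat_lit 246)))) (XT.nd (nat_lit 78) (nat_lit 760) (nat_lit 0) (XT.lf (nat_lit 0) (nat_lit 2466087950) (nat_lit 912) (nat_lit 7339862512) (nat_lit 76) (nat_lit 6281376629) (nat_lit 344) (nat_lit 5) (nat_lit 356) (nat_lit 5) (nat_lit 345) (nat_lit 5) (nat_lit 466) (nat_lit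 429) (nat_lit 245)) (XT.nd (nat_lit 78) (nat_lit 0) (nat_lit 0) (XT.lf (nat_lit 0) (nat_lit 1353122823) (nat_lit 760) (nat_lit 3155652453) (nat_lit 836) (nat_lit 11755588518) (nat_lit 334) (nat_lit 5) (nat_lit 344) (nat_lit 5) (nat_lit 345) (nat_lit 5) (nat_lit 467) (nat_lit 429) (nat_lit 244)) (XT.lf (nat_lit 0) (nat_lit 6657764795) (nat_lit 836) (nat_lit 6156399310) (nat_lit 76) (nat_lit 3629470090) (nat_lit 334) (nat_lit 5) (nat_lit 345) (nat_lit 5) (nat_lit 335) (nat_lit 5) (nat_lit 468) (nat_lit 429) (nat_lit 243))))) (XT.nd (nat_lit 234) (nat_lit 836) (nat_lit 0) (XT.nd (nat_lit 78) (nat_lit 760) (nat_lit 0) (XT.lf (nat_lit 0) (nat_lit 2781249279) (nat_lit 760) (nat_lit 6099906388) (nat_lit 836) (nat_lit 7744707800) (nat_lit 324) (nat_lit 5) (nat_lit 334) (nat_lit 5) (nat_lit 335) (nat_lit 5) (nat_lit 469) (nat_lit 429) (nat_lit 242)) (XT.nd (nat_lit 78) (nat_lit 760) (nat_lit 0) (XT.lf (nat_lit 0) (nat_lit 11188021291)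 (nat_lit 836) (nat_lit 4842907369) (nat_lit 76) (nat_lit 780030383) (nat_lit 324) (nat_lit 5) (nat_lit 335) (nat_lit 5) (nat_lit 325) (nat_lit 5) (nat_lit 470) (nat_lit 429) (nat_lit 241)) (XT.lf (nat_lit 0) (nat_lit 4347648705) (nat_lit 760) (nat_lit 9254705969) (nat_lit 836) (nat_lit 3396177069) (nat_lit 314) (nat_lit 5) (nat_lit 324) (nat_lit 5) (nat_lit 325) (nat_lit 5) (nat_lit 471) (nat_lit 429) (nat_lit 240)))) (XT.nd (nat_lit 78) (nat_lit 836) (nat_lit 0) (XT.lf (nat_lit 0) (nat_lit 13779905810) (nat_lit 760) (nat_lit 2310365927) (nat_lit 836) (nat_lit 1099080004) (nat_lit 314) (nat_lit 5) (nat_lit 324) (nat_lit 5) (nat_lit 325) (nat_lit 5) (nat_lit 472) (nat_lit 429) (nat_lit 239)) (XT.nd (nat_lit 78) (nat_lit 0) (nat_lit 0) (XT.lf (nat_lit 0) (nat_lit 1291315753) (nat_lit 836) (nat_lit 11333687630) (nat_lit 76) (nat_lit 4757551510) (nat_lit 303) (nat_lit 5) (nat_lit 314) (nat_lit 5) (nat_lit 304) (nat_lit 5) (nat_lit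 473) (nat_lit 429) (nat_lit 238)) (XT.lf (nat_lit 0) (nat_lit 3746124524) (nat_lit 836) (nat_lit 1867120858) (nat_lit 76) (nat_lit 11965606674) (nat_lit 303) (nat_lit 5) (nat_lit 314) (nat_lit 5) (nat_lit 304) (nat_lit 5) (nat_lit 474) (nat_lit 429) (nat_lit 237))))))))
noncomputable def xc203 : XT := (XT.nd (nat_lit 1716) (nat_lit 2888) (nat_lit 0) (XT.nd (nat_lit 858) (nat_lit 3952) (nat_lit 0) (XT.nd (nat_lit 390) (nat_lit 1976) (nat_lit 0) (XT.nd (nat_lit 156) (nat_lit 1368) (nat_lit 0) (XT.nd (nat_lit 78) (nat_lit 0) (nat_lit 0) (XT.lf (nat_lit 0) (nat_lit 6304660511) (nat_lit 760) (nat_lit 9903966528) (nat_lit 76) (nat_lit 1569357153) (nat_lit 294) (nat_lit 5) (nat_lit 304) (nat_lit 5) (nat_lit 295) (nat_lit 5) (nat_lit 475) (nat_lit 429) (nat_lit 236)) (XT.lf (nat_lit 0) (nat_lit 8957348623) (nat_lit 760) (nat_lit 190534820) (nat_lit 76) (nat_lit 8832357514) (nat_lit 294) (nat_lit 5) (nat_lit 304) (nat_lit 5) (nat_lit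 295) (nat_lit 5) (nat_lit 476) (nat_lit 429) (nat_lit 235))) (XT.nd (nat_lit 78) (nat_lit 684) (nat_lit 0) (XT.lf (nat_lit 0) (nat_lit 9838634390) (nat_lit 684) (nat_lit 1881663731) (nat_lit 760) (nat_lit 6465102171) (nat_lit 285) (nat_lit 5) (nat_lit 294) (nat_lit 5) (nat_lit 295) (nat_lit 5) (nat_lit 477) (nat_lit 429) (nat_lit 234)) (XT.nd (nat_lit 78) (nat_lit 0) (nat_lit 0) (XT.lf (nat_lit 0) (nat_lit 1654474980) (nat_lit 684) (nat_lit 12925368953) (nat_lit 760) (nat_lit 3813993688) (nat_lit 276) (nat_lit 5) (nat_lit 285) (nat_lit 5) (nat_lit 286) (nat_lit 5) (nat_lit 478) (nat_lit 429) (nat_lit 233)) (XT.lf (nat_lit 0) (nat_lit 11948662497) (nat_lit 684) (nat_lit 5609793406) (nat_lit 760) (nat_lit 1046751812) (nat_lit 276) (nat_lit 5) (nat_lit 285) (nat_lit 5) (nat_lit 286) (nat_lit 5) (nat_lit 479) (nat_lit 429) (nat_lit 232))))) (XT.nd (nat_lit 234) (nat_lit 608) (nat_lit 0) (XT.nd (nat_lit 78) (nat_lit 608) (nat_lit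 0) (XT.lf (nat_lit 0) (nat_lit 1782107177) (nat_lit 760) (nat_lit 15175654601) (nat_lit 76) (nat_lit 1862223046) (nat_lit 266) (nat_lit 5) (nat_lit 276) (nat_lit 5) (nat_lit 267) (nat_lit 5) (nat_lit 480) (nat_lit 429) (nat_lit 231)) (XT.nd (nat_lit 78) (nat_lit 608) (nat_lit 0) (XT.lf (nat_lit 0) (nat_lit 4729294989) (nat_lit 760) (nat_lit 4848692109) (nat_lit 76) (nat_lit 9459418080) (nat_lit 266) (nat_lit 5) (nat_lit 276) (nat_lit 5) (nat_lit 267) (nat_lit 5) (nat_lit 481) (nat_lit 429) (nat_lit 230)) (XT.lf (nat_lit 0) (nat_lit 5752804277) (nat_lit 608) (nat_lit 2013736886) (nat_lit 684) (nat_lit 11492011890) (nat_lit 258) (nat_lit 5) (nat_lit 266) (nat_lit 5) (nat_lit 267) (nat_lit 5) (nat_lit 482) (nat_lit 429) (nat_lit 229)))) (XT.nd (nat_lit 78) (nat_lit 608) (nat_lit 0) (XT.lf (nat_lit 0) (nat_lit 10928134588) (nat_lit 684) (nat_lit 2896174518) (nat_lit 76) (nat_lit 5658544115) (nat_lit 258) (nat_lit 5) (nat_lit 267)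 (nat_lit 5) (nat_lit 259) (nat_lit 5) (nat_lit 483) (nat_lit 429) (nat_lit 228)) (XT.nd (nat_lit 78) (nat_lit 0) (nat_lit 0) (XT.lf (nat_lit 0) (nat_lit 8009932484) (nat_lit 608) (nat_lit 6202319897) (nat_lit 684) (nat_lit 5498202513) (nat_lit 250) (nat_lit 5) (nat_lit 258) (nat_lit 5) (nat_lit 259) (nat_lit 5) (nat_lit 484) (nat_lit 429) (nat_lit 227)) (XT.lf (nat_lit 0) (nat_lit 17585836269) (nat_lit 684) (nat_lit 786573817) (nat_lit 76) (nat_lit 1569724166) (nat_lit 250) (nat_lit 5) (nat_lit 259) (nat_lit 5) (nat_lit 251) (nat_lit 5) (nat_lit 485) (nat_lit 429) (nat_lit 226)))))) (XT.nd (nat_lit 390) (nat_lit 2128) (nat_lit 0) (XT.nd (nat_lit 156) (nat_lit 532) (nat_lit 0) (XT.nd (nat_lit 78) (nat_lit 608) (nat_lit 0) (XT.lf (nat_lit 0) (nat_lit 940948305) (nat_lit 684) (nat_lit 9748447856) (nat_lit 76) (nat_lit 9486869515) (nat_lit 241) (nat_lit 5) (nat_lit 250) (nat_lit 5) (nat_lit 242) (nat_lit 5) (nat_lit 486) (nat_lit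 429) (nat_lit 225)) (XT.lf (nat_lit 0) (nat_lit 1458349154) (nat_lit 608) (nat_lit 2823209648) (nat_lit 684) (nat_lit 16133031271) (nat_lit 233) (nat_lit 5) (nat_lit 241) (nat_lit 5) (nat_lit 242) (nat_lit 5) (nat_lit 487) (nat_lit 429) (nat_lit 224))) (XT.nd (nat_lit 78) (nat_lit 532) (nat_lit 0) (XT.lf (nat_lit 0) (nat_lit 7782812076) (nat_lit 684) (nat_lit 7676526664) (nat_lit 76) (nat_lit 5196466833) (nat_lit 233) (nat_lit 5) (nat_lit 242) (nat_lit 5) (nat_lit 234) (nat_lit 5) (nat_lit 488) (nat_lit 429) (nat_lit 223)) (XT.nd (nat_lit 78) (nat_lit 0) (nat_lit 0) (XT.lf (nat_lit 0) (nat_lit 3853385812) (nat_lit 532) (nat_lit 7538749820) (nat_lit 608) (nat_lit 9508950046) (nat_lit 226) (nat_lit 5) (nat_lit 233) (nat_lit 5) (nat_lit 234) (nat_lit 5) (nat_lit 489) (nat_lit 429) (nat_lit 222)) (XT.lf (nat_lit 0) (nat_lit 15123391960) (nat_lit 608) (nat_lit 5443428612) (nat_lit 76) (nat_lit 583457066) (nat_lit 226) (nat_lit 5)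 (nat_lit 234) (nat_lit 5) (nat_lit 227) (nat_lit 5) (nat_lit 490) (nat_lit 429) (nat_lit 221))))) (XT.nd (nat_lit 234) (nat_lit 988) (nat_lit 0) (XT.nd (nat_lit 78) (nat_lit 608) (nat_lit 0) (XT.lf (nat_lit 0) (nat_lit 6420053156) (nat_lit 532) (nat_lit 12595323063) (nat_lit 608) (nat_lit 2387356317) (nat_lit 219) (nat_lit 5) (nat_lit 226) (nat_lit 5) (nat_lit 227) (nat_lit 5) (nat_lit 491) (nat_lit 429) (nat_lit 220)) (XT.nd (nat_lit 78) (nat_lit 532) (nat_lit 0) (XT.lf (nat_lit 0) (nat_lit 1338875416) (nat_lit 608) (nat_lit 3080935232) (nat_lit 76) (nat_lit 17239629164) (nat_lit 218) (nat_lit 5) (nat_lit 226) (nat_lit 5) (nat_lit 219) (nat_lit 5) (nat_lit 492) (nat_lit 429) (nat_lit 219)) (XT.lf (nat_lit 0) (nat_lit 5187702264) (nat_lit 608) (nat_lit 12789736995) (nat_lit 76) (nat_lit 3941926711) (nat_lit 211) (nat_lit 5) (nat_lit 219) (nat_lit 5) (nat_lit 212) (nat_lit 5) (nat_lit 493) (nat_lit 429) (nat_lit 218)))) (XT.nd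 (nat_lit 78) (nat_lit 988) (nat_lit 0) (XT.lf (nat_lit 0) (nat_lit 9158262860) (nat_lit 608) (nat_lit 594402931) (nat_lit 76) (nat_lit 12430930783) (nat_lit 211) (nat_lit 5) (nat_lit 219) (nat_lit 5) (nat_lit 212) (nat_lit 5) (nat_lit 494) (nat_lit 429) (nat_lit 217)) (XT.nd (nat_lit 78) (nat_lit 456) (nat_lit 0) (XT.lf (nat_lit 0) (nat_lit 11995210150) (nat_lit 532) (nat_lit 1285685107) (nat_lit 608) (nat_lit 9170764366) (nat_lit 204) (nat_lit 5) (nat_lit 211) (nat_lit 5) (nat_lit 212) (nat_lit 5) (nat_lit 495) (nat_lit 429) (nat_lit 216)) (XT.lf (nat_lit 0) (nat_lit 2092364453) (nat_lit 456) (nat_lit 15453767233) (nat_lit 532) (nat_lit 5177750245) (nat_lit 198) (nat_lit 5) (nat_lit 204) (nat_lit 5) (nat_lit 205) (nat_lit 5) (nat_lit 496) (nat_lit 429) (nat_lit 215))))))) (XT.nd (nat_lit 54210) (nat_lit 0) (nat_lit 22420) (XT.nd (nat_lit 390) (nat_lit 1824) (nat_lit 0) (XT.nd (nat_lit 156) (nat_lit 456) (nat_lit 0) (XT.nd (nat_lit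 78) (nat_lit 608) (nat_lit 0) (XT.lf (nat_lit 0) (nat_lit 15018318686) (nat_lit 456) (nat_lit 6951863223) (nat_lit 532) (nat_lit 1029897601) (nat_lit 198) (nat_lit 5) (nat_lit 204) (nat_lit 5) (nat_lit 205) (nat_lit 5) (nat_lit 497) (nat_lit 429) (nat_lit 214)) (XT.lf (nat_lit 0) (nat_lit 3197579836) (nat_lit 608) (nat_lit 18333992237) (nat_lit 76) (nat_lit 1749041319) (nat_lit 190) (nat_lit 5) (nat_lit 198) (nat_lit 5) (nat_lit 191) (nat_lit 5) (nat_lit 498) (nat_lit 429) (nat_lit 213))) (XT.nd (nat_lit 78) (nat_lit 456) (nat_lit 0) (XT.lf (nat_lit 0) (nat_lit 7590775962) (nat_lit 608) (nat_lit 5384058946) (nat_lit 76) (nat_lit 10589888649) (nat_lit 190) (nat_lit 5) (nat_lit 198) (nat_lit 5) (nat_lit 191) (nat_lit 5) (nat_lit 499) (nat_lit 429) (nat_lit 212)) (XT.nd (nat_lit 78) (nat_lit 0) (nat_lit 0) (XT.lf (nat_lit 0) (nat_lit 7921983186) (nat_lit 456) (nat_lit 4196377022) (nat_lit 532) (nat_lit 11735226163) (nat_lit 184)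 (nat_lit 5) (nat_lit 190) (nat_lit 5) (nat_lit 191) (nat_lit 5) (nat_lit 500) (nat_lit 429) (nat_lit 211)) (XT.lf (nat_lit 0) (nat_lit 16798884789) (nat_lit 532) (nat_lit 2618333666) (nat_lit 76) (nat_lit 4729761122) (nat_lit 184) (nat_lit 5) (nat_lit 191) (nat_lit 5) (nat_lit 185) (nat_lit 5) (nat_lit 501) (nat_lit 429) (nat_lit 210))))) (XT.nd (nat_lit 234) (nat_lit 836) (nat_lit 0) (XT.nd (nat_lit 78) (nat_lit 532) (nat_lit 0) (XT.lf (nat_lit 0) (nat_lit 11071925639) (nat_lit 456) (nat_lit 10595996272) (nat_lit 532) (nat_lit 2776421588) (nat_lit 178) (nat_lit 5) (nat_lit 184) (nat_lit 5) (nat_lit 185) (nat_lit 5) (nat_lit 502) (nat_lit 429) (nat_lit 209)) (XT.nd (nat_lit 78) (nat_lit 0) (nat_lit 0) (XT.lf (nat_lit 0) (nat_lit 309152310) (nat_lit 456) (nat_lit 1567726004) (nat_lit 532) (nat_lit 22870233502) (nat_lit 171) (nat_lit 5) (nat_lit 177) (nat_lit 5) (nat_lit 178) (nat_lit 5) (nat_lit 503) (nat_lit 429) (nat_lit 208))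 (XT.lf (nat_lit 0) (nat_lit 6721324748) (nat_lit 532) (nat_lit 10683865963) (nat_lit 76) (nat_lit 7647673452) (nat_lit 171) (nat_lit 5) (nat_lit 178) (nat_lit 5) (nat_lit 172) (nat_lit 5) (nat_lit 504) (nat_lit 429) (nat_lit 207)))) (XT.nd (nat_lit 156) (nat_lit 380) (nat_lit 0) (XT.lf (nat_lit 0) (nat_lit 3372537633) (nat_lit 456) (nat_lit 8317774725) (nat_lit 532) (nat_lit 13673866976) (nat_lit 165) (nat_lit 5) (nat_lit 171) (nat_lit 5) (nat_lit 172) (nat_lit 5) (nat_lit 505) (nat_lit 429) (nat_lit 206)) (XT.nd (nat_lit 53352) (nat_lit 0) (nat_lit 22420) (XT.lf (nat_lit 0) (nat_lit 6622538016) (nat_lit 380) (nat_lit 15548441220) (nat_lit 456) (nat_lit 3829785010) (nat_lit 160) (nat_lit 5) (nat_lit 165) (nat_lit 5) (nat_lit 166) (nat_lit 5) (nat_lit 507) (nat_lit 429) (nat_lit 204)) (XT.lf (nat_lit 0) (nat_lit 518586007) (nat_lit 1748) (nat_lit 2571297546) (nat_lit 1748) (nat_lit 2571297546) (nat_lit 455) (nat_lit 3) (nat_lit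 478) (nat_lit 3) (nat_lit 478) (nat_lit 5) (nat_lit 430) (nat_lit 430) (nat_lit 280)))))) (XT.nd (nat_lit 468) (nat_lit 0) (nat_lit 228) (XT.nd (nat_lit 234) (nat_lit 0) (nat_lit 152) (XT.nd (nat_lit 78) (nat_lit 0) (nat_lit 76) (XT.lf (nat_lit 76) (nat_lit 326230373) (nat_lit 0) (nat_lit 1255332652) (nat_lit 1748) (nat_lit 9843186070) (nat_lit 456) (nat_lit 5) (nat_lit 455) (nat_lit 3) (nat_lit 478) (nat_lit 5) (nat_lit 431) (nat_lit 430) (nat_lit 279)) (XT.nd (nat_lit 78) (nat_lit 0) (nat_lit 0) (XT.lf (nat_lit 0) (nat_lit 2182086890) (nat_lit 1672) (nat_lit 5586582471) (nat_lit 1748) (nat_lit 3759613564) (nat_lit 456) (nat_lit 5) (nat_lit 478) (nat_lit 5) (nat_lit 479) (nat_lit 5) (nat_lit 432) (nat_lit 430) (nat_lit 278)) (XT.lf (nat_lit 76) (nat_lit 20150895) (nat_lit 0) (nat_lit 2769233530) (nat_lit 1748) (nat_lit 8844611764) (nat_lit 457) (nat_lit 5) (nat_lit 456) (nat_lit 5) (nat_lit 479) (nat_lit 5) (nat_lit 433) (nat_lit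 430) (nat_lit 277)))) (XT.nd (nat_lit 78) (nat_lit 0) (nat_lit 0) (XT.lf (nat_lit 0) (nat_lit 3448273428) (nat_lit 1672) (nat_lit 5949361494) (nat_lit 1748) (nat_lit 2343403829) (nat_lit 457) (nat_lit 5) (nat_lit 479) (nat_lit 5) (nat_lit 480) (nat_lit 5) (nat_lit 434) (nat_lit 430) (nat_lit 276)) (XT.nd (nat_lit 78) (nat_lit 0) (nat_lit 76) (XT.lf (nat_lit 0) (nat_lit 4125521848) (nat_lit 1672) (nat_lit 197433842) (nat_lit 1748) (nat_lit 7527166704) (nat_lit 457) (nat_lit 5) (nat_lit 479) (nat_lit 5) (nat_lit 480) (nat_lit 5) (nat_lit 435) (nat_lit 430) (nat_lit 275)) (XT.lf (nat_lit 0) (nat_lit 4846489031) (nat_lit 1672) (nat_lit 6229306473) (nat_lit 1748) (nat_lit 884992521) (nat_lit 458) (nat_lit 5) (nat_lit 480) (nat_lit 5) (nat_lit 481) (nat_lit 5) (nat_lit 436) (nat_lit 430) (nat_lit 274))))) (XT.nd (nat_lit 234) (nat_lit 0) (nat_lit 76) (XT.nd (nat_lit 78) (nat_lit 0) (nat_lit 0) (XT.lf (nat_lit 0) (nat_lit 5599178816)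 (nat_lit 1672) (nat_lit 328230043) (nat_lit 1748) (nat_lit 6145915755) (nat_lit 458) (nat_lit 5) (nat_lit 480) (nat_lit 5) (nat_lit 481) (nat_lit 5) (nat_lit 437) (nat_lit 430) (nat_lit 273)) (XT.nd (nat_lit 78) (nat_lit 0) (nat_lit 76) (XT.lf (nat_lit 76) (nat_lit 5758943098) (nat_lit 0) (nat_lit 632959153) (nat_lit 1748) (nat_lit 5795713731) (nat_lit 459) (nat_lit 5) (nat_lit 458) (nat_lit 5) (nat_lit 481) (nat_lit 5) (nat_lit 438) (nat_lit 430) (nat_lit 272)) (XT.lf (nat_lit 0) (nat_lit 7221465811) (nat_lit 1672) (nat_lit 370492219) (nat_lit 1748) (nat_lit 4711819004) (nat_lit 459) (nat_lit 5) (nat_lit 481) (nat_lit 5) (nat_lit 482) (nat_lit 5) (nat_lit 439) (nat_lit 430) (nat_lit 271)))) (XT.nd (nat_lit 78) (nat_lit 0) (nat_lit 76) (XT.lf (nat_lit 76) (nat_lit 5874167247) (nat_lit 0) (nat_lit 2223838559) (nat_lit 1748) (nat_lit 4323651297) (nat_lit 460) (nat_lit 5) (nat_lit 459) (nat_lit 5) (nat_lit 482) (nat_lit 5) (nat_lit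 440) (nat_lit 430) (nat_lit 270)) (XT.nd (nat_lit 78) (nat_lit 0) (nat_lit 0) (XT.lf (nat_lit 0) (nat_lit 9003958880) (nat_lit 1672) (nat_lit 321981934) (nat_lit 1748) (nat_lit 3215719747) (nat_lit 460) (nat_lit 5) (nat_lit 482) (nat_lit 5) (nat_lit 483) (nat_lit 5) (nat_lit 441) (nat_lit 430) (nat_lit 269)) (XT.lf (nat_lit 76) (nat_lit 6085522821) (nat_lit 0) (nat_lit 3885244684) (nat_lit 1748) (nat_lit 2692445217) (nat_lit 461) (nat_lit 5) (nat_lit 460) (nat_lit 5) (nat_lit 483) (nat_lit 5) (nat_lit 442) (nat_lit 430) (nat_lit 268))))))))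
noncomputable def xc204 : XT := (XT.nd (nat_lit 1716) (nat_lit 9576) (nat_lit 0) (XT.nd (nat_lit 858) (nat_lit 5472) (nat_lit 0) (XT.nd (nat_lit 390) (nat_lit 0) (nat_lit 76) (XT.nd (nat_lit 156) (nat_lit 1672) (nat_lit 0) (XT.nd (nat_lit 78) (nat_lit 0) (nat_lit 0) (XT.lf (nat_lit 0) (nat_lit 10958591672) (nat_lit 1672) (nat_lit 180233300) (nat_lit 1748) (nat_lit 1648340664) (nat_lit 461) (nat_lit 5) (nat_lit 483) (nat_lit 5) (nat_lit 484) (nat_lit 5) (nat_lit 443) (nat_lit 430) (nat_lit 267)) (XT.lf (nat_lit 76) (nat_lit 6395672746) (nat_lit 0) (nat_lit 5626675091) (nat_lit 1748) (nat_lit 890129496) (nat_lit 462) (nat_lit 5) (nat_lit 461) (nat_lit 5) (nat_lit 484) (nat_lit 5) (nat_lit 444) (nat_lit 430) (nat_lit 266))) (XT.nd (nat_lit 78) (nat_lit 0) (nat_lit 0) (XT.lf (nat_lit 0) (nat_lit 56816655) (nat_lit 1748) (nat_lit 12982649069) (nat_lit 1824) (nat_lit 1011682) (nat_lit 439) (nat_lit 5) (nat_lit 462) (nat_lit 5) (nat_lit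 463) (nat_lit 5) (nat_lit 445) (nat_lit 430) (nat_lit 265)) (XT.nd (nat_lit 78) (nat_lit 0) (nat_lit 0) (XT.lf (nat_lit 0) (nat_lit 1081276300) (nat_lit 1748) (nat_lit 6369256752) (nat_lit 1824) (nat_lit 5718979935) (nat_lit 439) (nat_lit 5) (nat_lit 462) (nat_lit 5) (nat_lit 463) (nat_lit 5) (nat_lit 446) (nat_lit 430) (nat_lit 264)) (XT.lf (nat_lit 76) (nat_lit 373520276) (nat_lit 0) (nat_lit 1744540507) (nat_lit 1824) (nat_lit 11183234770) (nat_lit 440) (nat_lit 5) (nat_lit 439) (nat_lit 5) (nat_lit 463) (nat_lit 5) (nat_lit 447) (nat_lit 430) (nat_lit 263))))) (XT.nd (nat_lit 234) (nat_lit 0) (nat_lit 76) (XT.nd (nat_lit 78) (nat_lit 0) (nat_lit 0) (XT.lf (nat_lit 0) (nat_lit 3234651878) (nat_lit 1748) (nat_lit 6132073354) (nat_lit 1824) (nat_lit 4067810048) (nat_lit 440) (nat_lit 5) (nat_lit 463) (nat_lit 5) (nat_lit 464) (nat_lit 5) (nat_lit 448) (nat_lit 430) (nat_lit 262)) (XT.nd (nat_lit 78) (nat_lit 0) (nat_lit 76)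 (XT.lf (nat_lit 76) (nat_lit 790553857) (nat_lit 0) (nat_lit 3589496680) (nat_lit 1824) (nat_lit 9190262622) (nat_lit 441) (nat_lit 5) (nat_lit 440) (nat_lit 5) (nat_lit 464) (nat_lit 5) (nat_lit 449) (nat_lit 430) (nat_lit 261)) (XT.lf (nat_lit 0) (nat_lit 5594688068) (nat_lit 1748) (nat_lit 5796426462) (nat_lit 1824) (nat_lit 2316768263) (nat_lit 441) (nat_lit 5) (nat_lit 464) (nat_lit 5) (nat_lit 465) (nat_lit 5) (nat_lit 450) (nat_lit 430) (nat_lit 260)))) (XT.nd (nat_lit 78) (nat_lit 0) (nat_lit 76) (XT.lf (nat_lit 76) (nat_lit 1312196098) (nat_lit 0) (nat_lit 5543864916) (nat_lit 1824) (nat_lit 6991696711) (nat_lit 442) (nat_lit 5) (nat_lit 441) (nat_lit 5) (nat_lit 465) (nat_lit 5) (nat_lit 451) (nat_lit 430) (nat_lit 259)) (XT.nd (nat_lit 78) (nat_lit 0) (nat_lit 0) (XT.lf (nat_lit 0) (nat_lit 8174851974) (nat_lit 1748) (nat_lit 5359048814) (nat_lit 1824) (nat_lit 455888264) (nat_lit 442) (nat_lit 5) (nat_lit 465) (nat_lit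 5) (nat_lit 466) (nat_lit 5) (nat_lit 452) (nat_lit 430) (nat_lit 258)) (XT.lf (nat_lit 76) (nat_lit 1941931903) (nat_lit 0) (nat_lit 7617906385) (nat_lit 1824) (nat_lit 4574028977) (nat_lit 443) (nat_lit 5) (nat_lit 442) (nat_lit 5) (nat_lit 466) (nat_lit 5) (nat_lit 453) (nat_lit 430) (nat_lit 257)))))) (XT.nd (nat_lit 390) (nat_lit 2660) (nat_lit 0) (XT.nd (nat_lit 156) (nat_lit 1368) (nat_lit 0) (XT.nd (nat_lit 78) (nat_lit 1672) (nat_lit 0) (XT.lf (nat_lit 76) (nat_lit 9453810175) (nat_lit 0) (nat_lit 1545308998) (nat_lit 1824) (nat_lit 3281178575) (nat_lit 443) (nat_lit 5) (nat_lit 442) (nat_lit 5) (nat_lit 466) (nat_lit 5) (nat_lit 454) (nat_lit 430) (nat_lit 256)) (XT.lf (nat_lit 0) (nat_lit 2683471143) (nat_lit 1748) (nat_lit 9822146785) (nat_lit 1824) (nat_lit 1923272815) (nat_lit 420) (nat_lit 5) (nat_lit 443) (nat_lit 5) (nat_lit 444) (nat_lit 5) (nat_lit 455) (nat_lit 430) (nat_lit 255))) (XT.nd (nat_lit 78) (nat_lit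 1368) (nat_lit 0) (XT.lf (nat_lit 0) (nat_lit 10390925356) (nat_lit 1748) (nat_lit 3684832253) (nat_lit 1824) (nat_lit 504030272) (nat_lit 420) (nat_lit 5) (nat_lit 443) (nat_lit 5) (nat_lit 444) (nat_lit 5) (nat_lit 456) (nat_lit 430) (nat_lit 254)) (XT.nd (nat_lit 78) (nat_lit 0) (nat_lit 0) (XT.lf (nat_lit 0) (nat_lit 962274234) (nat_lit 1368) (nat_lit 11198669985) (nat_lit 76) (nat_lit 2572017564) (nat_lit 402) (nat_lit 5) (nat_lit 420) (nat_lit 5) (nat_lit 403) (nat_lit 5) (nat_lit 457) (nat_lit 430) (nat_lit 253)) (XT.lf (nat_lit 0) (nat_lit 2495065554) (nat_lit 1368) (nat_lit 3455735554) (nat_lit 76) (nat_lit 8937455584) (nat_lit 402) (nat_lit 5) (nat_lit 420) (nat_lit 5) (nat_lit 403) (nat_lit 5) (nat_lit 458) (nat_lit 430) (nat_lit 252))))) (XT.nd (nat_lit 234) (nat_lit 912) (nat_lit 0) (XT.nd (nat_lit 78) (nat_lit 836) (nat_lit 0) (XT.lf (nat_lit 0) (nat_lit 4081752763) (nat_lit 988) (nat_lit 10555658226) (nat_lit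 76) (nat_lit 408784019) (nat_lit 390) (nat_lit 5) (nat_lit 403) (nat_lit 5) (nat_lit 391) (nat_lit 5) (nat_lit 459) (nat_lit 430) (nat_lit 251)) (XT.nd (nat_lit 78) (nat_lit 836) (nat_lit 0) (XT.lf (nat_lit 0) (nat_lit 5754428567) (nat_lit 988) (nat_lit 2611648092) (nat_lit 76) (nat_lit 6840132597) (nat_lit 390) (nat_lit 5) (nat_lit 403) (nat_lit 5) (nat_lit 391) (nat_lit 5) (nat_lit 460) (nat_lit 430) (nat_lit 250)) (XT.lf (nat_lit 0) (nat_lit 5556434593) (nat_lit 836) (nat_lit 1931868169) (nat_lit 912) (nat_lit 7880568350) (nat_lit 379) (nat_lit 5) (nat_lit 390) (nat_lit 5) (nat_lit 391) (nat_lit 5) (nat_lit 461) (nat_lit 430) (nat_lit 249)))) (XT.nd (nat_lit 78) (nat_lit 912) (nat_lit 0) (XT.lf (nat_lit 0) (nat_lit 9296350158) (nat_lit 912) (nat_lit 1649140018) (nat_lit 76) (nat_lit 4588508291) (nat_lit 379) (nat_lit 5) (nat_lit 391) (nat_lit 5) (nat_lit 380) (nat_lit 5) (nat_lit 462) (nat_lit 430) (nat_lit 248)) (XT.nd (nat_lit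 78) (nat_lit 0) (nat_lit 0) (XT.lf (nat_lit 0) (nat_lit 6745448225) (nat_lit 912) (nat_lit 4443647516) (nat_lit 988) (nat_lit 4512364016) (nat_lit 367) (nat_lit 5) (nat_lit 379) (nat_lit 5) (nat_lit 380) (nat_lit 5) (nat_lit 463) (nat_lit 430) (nat_lit 247)) (XT.lf (nat_lit 0) (nat_lit 13137101874) (nat_lit 988) (nat_lit 563807950) (nat_lit 76) (nat_lit 2171014428) (nat_lit 367) (nat_lit 5) (nat_lit 380) (nat_lit 5) (nat_lit 368) (nat_lit 5) (nat_lit 464) (nat_lit 430) (nat_lit 246))))))) (XT.nd (nat_lit 858) (nat_lit 4712) (nat_lit 0) (XT.nd (nat_lit 390) (nat_lit 2356) (nat_lit 0) (XT.nd (nat_lit 156) (nat_lit 760) (nat_lit 0) (XT.nd (nat_lit 78) (nat_lit 912) (nat_lit 0) (XT.lf (nat_lit 0) (nat_lit 8064976341) (nat_lit 836) (nat_lit 7133097110) (nat_lit 912) (nat_lit 846246530) (nat_lit 356) (nat_lit 5) (nat_lit 367) (nat_lit 5) (nat_lit 368) (nat_lit 5) (nat_lit 465) (nat_lit 430) (nat_lit 245)) (XT.lf (nat_lit 0) (nat_lit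 647684073) (nat_lit 836) (nat_lit 418529489) (nat_lit 912) (nat_lit 15153806210) (nat_lit 344) (nat_lit 5) (nat_lit 355) (nat_lit 5) (nat_lit 356) (nat_lit 5) (nat_lit 466) (nat_lit 430) (nat_lit 244))) (XT.nd (nat_lit 78) (nat_lit 760) (nat_lit 0) (XT.lf (nat_lit 0) (nat_lit 3093619492) (nat_lit 912) (nat_lit 6898224918) (nat_lit 76) (nat_lit 6405518649) (nat_lit 344) (nat_lit 5) (nat_lit 356) (nat_lit 5) (nat_lit 345) (nat_lit 5) (nat_lit 467) (nat_lit 430) (nat_lit 243)) (XT.nd (nat_lit 78) (nat_lit 0) (nat_lit 0) (XT.lf (nat_lit 0) (nat_lit 1964748841) (nat_lit 760) (nat_lit 3204869650) (nat_lit 836) (nat_lit 11408475717) (nat_lit 334) (nat_lit 5) (nat_lit 344) (nat_lit 5) (nat_lit 345) (nat_lit 5) (nat_lit 468) (nat_lit 430) (nat_lit 242)) (XT.lf (nat_lit 0) (nat_lit 7350486690) (nat_lit 836) (nat_lit 5695183961) (nat_lit 76) (nat_lit 3715504202) (nat_lit 334) (nat_lit 5) (nat_lit 345) (nat_lit 5) (nat_lit 335) (nat_lit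 5) (nat_lit 469) (nat_lit 430) (nat_lit 241))))) (XT.nd (nat_lit 234) (nat_lit 836) (nat_lit 0) (XT.nd (nat_lit 78) (nat_lit 760) (nat_lit 0) (XT.lf (nat_lit 0) (nat_lit 3417373236) (nat_lit 760) (nat_lit 6193769234) (nat_lit 836) (nat_lit 7336053057) (nat_lit 324) (nat_lit 5) (nat_lit 334) (nat_lit 5) (nat_lit 335) (nat_lit 5) (nat_lit 470) (nat_lit 430) (nat_lit 240)) (XT.nd (nat_lit 78) (nat_lit 760) (nat_lit 0) (XT.lf (nat_lit 0) (nat_lit 11953493837) (nat_lit 836) (nat_lit 4359862077) (nat_lit 76) (nat_lit 822852837) (nat_lit 324) (nat_lit 5) (nat_lit 335) (nat_lit 5) (nat_lit 325) (nat_lit 5) (nat_lit 471) (nat_lit 430) (nat_lit 239)) (XT.lf (nat_lit 0) (nat_lit 5010689963) (nat_lit 760) (nat_lit 9398542465) (nat_lit 836) (nat_lit 2918440758) (nat_lit 314) (nat_lit 5) (nat_lit 324) (nat_lit 5) (nat_lit 325) (nat_lit 5) (nat_lit 472) (nat_lit 430) (nat_lit 238)))) (XT.nd (nat_lit 78) (nat_lit 836) (nat_lit 0) (XT.lf (nat_lit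 0) (nat_lit 14620296362) (nat_lit 760) (nat_lit 2316124595) (nat_lit 836) (nat_lit 586100965) (nat_lit 314) (nat_lit 5) (nat_lit 324) (nat_lit 5) (nat_lit 325) (nat_lit 5) (nat_lit 473) (nat_lit 430) (nat_lit 237)) (XT.nd (nat_lit 78) (nat_lit 0) (nat_lit 0) (XT.lf (nat_lit 0) (nat_lit 1838728158) (nat_lit 836) (nat_lit 10981942035) (nat_lit 76) (nat_lit 4898979144) (nat_lit 303) (nat_lit 5) (nat_lit 314) (nat_lit 5) (nat_lit 304) (nat_lit 5) (nat_lit 474) (nat_lit 430) (nat_lit 236)) (XT.lf (nat_lit 0) (nat_lit 4332405927) (nat_lit 836) (nat_lit 1337385483) (nat_lit 76) (nat_lit 12250288027) (nat_lit 303) (nat_lit 5) (nat_lit 314) (nat_lit 5) (nat_lit 304) (nat_lit 5) (nat_lit 475) (nat_lit 430) (nat_lit 235)))))) (XT.nd (nat_lit 468) (nat_lit 1900) (nat_lit 0) (XT.nd (nat_lit 234) (nat_lit 1444) (nat_lit 0) (XT.nd (nat_lit 78) (nat_lit 684) (nat_lit 0) (XT.lf (nat_lit 0) (nat_lit 6936122503) (nat_lit 760) (nat_lit 9528857856)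 (nat_lit 76) (nat_lit 1658336059) (nat_lit 294) (nat_lit 5) (nat_lit 304) (nat_lit 5) (nat_lit 295) (nat_lit 5) (nat_lit 476) (nat_lit 430) (nat_lit 234)) (XT.nd (nat_lit 78) (nat_lit 0) (nat_lit 0) (XT.lf (nat_lit 0) (nat_lit 372488761) (nat_lit 684) (nat_lit 9261884869) (nat_lit 760) (nat_lit 8695396860) (nat_lit 285) (nat_lit 5) (nat_lit 294) (nat_lit 5) (nat_lit 295) (nat_lit 5) (nat_lit 477) (nat_lit 430) (nat_lit 233)) (XT.lf (nat_lit 0) (nat_lit 10593659066) (nat_lit 684) (nat_lit 1850414256) (nat_lit 760) (nat_lit 6095132173) (nat_lit 285) (nat_lit 5) (nat_lit 294) (nat_lit 5) (nat_lit 295) (nat_lit 5) (nat_lit 478) (nat_lit 430) (nat_lit 232)))) (XT.nd (nat_lit 78) (nat_lit 760) (nat_lit 0) (XT.lf (nat_lit 0) (nat_lit 2251537120) (nat_lit 684) (nat_lit 13103777603) (nat_lit 760) (nat_lit 3396609018) (nat_lit 276) (nat_lit 5) (nat_lit 285) (nat_lit 5) (nat_lit 286) (nat_lit 5) (nat_lit 479) (nat_lit 430) (nat_lit 231))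 (XT.nd (nat_lit 78) (nat_lit 760) (nat_lit 0) (XT.lf (nat_lit 0) (nat_lit 12740550100) (nat_lit 684) (nat_lit 5643461108) (nat_lit 760) (nat_lit 583702001) (nat_lit 276) (nat_lit 5) (nat_lit 285) (nat_lit 5) (nat_lit 286) (nat_lit 5) (nat_lit 480) (nat_lit 430) (nat_lit 230)) (XT.lf (nat_lit 0) (nat_lit 2290173249) (nat_lit 760) (nat_lit 14914477033) (nat_lit 76) (nat_lit 1982179132) (nat_lit 266) (nat_lit 5) (nat_lit 276) (nat_lit 5) (nat_lit 267) (nat_lit 5) (nat_lit 481) (nat_lit 430) (nat_lit 229))))) (XT.nd (nat_lit 234) (nat_lit 1292) (nat_lit 0) (XT.nd (nat_lit 78) (nat_lit 608) (nat_lit 0) (XT.lf (nat_lit 0) (nat_lit 5287041604) (nat_lit 760) (nat_lit 4392047657) (nat_lit 76) (nat_lit 9729696269) (nat_lit 266) (nat_lit 5) (nat_lit 276) (nat_lit 5) (nat_lit 267) (nat_lit 5) (nat_lit 482) (nat_lit 430) (nat_lit 228)) (XT.nd (nat_lit 78) (nat_lit 0) (nat_lit 0) (XT.lf (nat_lit 0) (nat_lit 6417836431) (nat_lit 608) (nat_lit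 1961685497) (nat_lit 684) (nat_lit 11254946700) (nat_lit 258) (nat_lit 5) (nat_lit 266) (nat_lit 5) (nat_lit 267) (nat_lit 5) (nat_lit 483) (nat_lit 430) (nat_lit 227)) (XT.lf (nat_lit 0) (nat_lit 11595961381) (nat_lit 684) (nat_lit 2406419467) (nat_lit 76) (nat_lit 5861043677) (nat_lit 258) (nat_lit 5) (nat_lit 267) (nat_lit 5) (nat_lit 259) (nat_lit 5) (nat_lit 484) (nat_lit 430) (nat_lit 226)))) (XT.nd (nat_lit 78) (nat_lit 684) (nat_lit 0) (XT.lf (nat_lit 0) (nat_lit 8714206527) (nat_lit 608) (nat_lit 6226278401) (nat_lit 684) (nat_lit 5155200805) (nat_lit 250) (nat_lit 5) (nat_lit 258) (nat_lit 5) (nat_lit 259) (nat_lit 5) (nat_lit 485) (nat_lit 430) (nat_lit 225)) (XT.nd (nat_lit 78) (nat_lit 684) (nat_lit 0) (XT.lf (nat_lit 0) (nat_lit 18373471952) (nat_lit 684) (nat_lit 260732926) (nat_lit 76) (nat_lit 1697957103) (nat_lit 250) (nat_lit 5) (nat_lit 259) (nat_lit 5) (nat_lit 251) (nat_lit 5) (nat_lit 486) (nat_lit 430)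 (nat_lit 224)) (XT.lf (nat_lit 0) (nat_lit 1393578761) (nat_lit 684) (nat_lit 9399549470) (nat_lit 76) (nat_lit 9777893702) (nat_lit 241) (nat_lit 5) (nat_lit 250) (nat_lit 5) (nat_lit 242) (nat_lit 5) (nat_lit 487) (nat_lit 430) (nat_lit 223))))))))
noncomputable def xc205 : XT := (XT.nd (nat_lit 55146) (nat_lit 0) (nat_lit 19380) (XT.nd (nat_lit 858) (nat_lit 2508) (nat_lit 0) (XT.nd (nat_lit 390) (nat_lit 1596) (nat_lit 0) (XT.nd (nat_lit 156) (nat_lit 1064) (nat_lit 0) (XT.nd (nat_lit 78) (nat_lit 0) (nat_lit 0) (XT.lf (nat_lit 0) (nat_lit 2027805405) (nat_lit 608) (nat_lit 2768197871) (nat_lit 684) (nat_lit 16018211326) (nat_lit 233) (nat_lit 5) (nat_lit 241) (nat_lit 5) (nat_lit 242) (nat_lit 5) (nat_lit 488) (nat_lit 430) (nat_lit 222)) (XT.lf (nat_lit 0) (nat_lit 8359583096) (nat_lit 684) (nat_lit 7292574094) (nat_lit 76) (nat_lit 5408252975) (nat_lit 233) (nat_lit 5) (nat_lit 242) (nat_lit 5) (nat_lit 234) (nat_lit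 5) (nat_lit 489) (nat_lit 430) (nat_lit 221))) (XT.nd (nat_lit 78) (nat_lit 532) (nat_lit 0) (XT.lf (nat_lit 0) (nat_lit 4464400557) (nat_lit 532) (nat_lit 7571902152) (nat_lit 608) (nat_lit 9274390722) (nat_lit 226) (nat_lit 5) (nat_lit 233) (nat_lit 5) (nat_lit 234) (nat_lit 5) (nat_lit 490) (nat_lit 430) (nat_lit 220)) (XT.nd (nat_lit 78) (nat_lit 532) (nat_lit 0) (XT.lf (nat_lit 0) (nat_lit 15834769651) (nat_lit 608) (nat_lit 5021319435) (nat_lit 76) (nat_lit 708930150) (nat_lit 226) (nat_lit 5) (nat_lit 234) (nat_lit 5) (nat_lit 227) (nat_lit 5) (nat_lit 491) (nat_lit 430) (nat_lit 219)) (XT.lf (nat_lit 0) (nat_lit 7075938694) (nat_lit 532) (nat_lit 12724061840) (nat_lit 608) (nat_lit 2022616241) (nat_lit 219) (nat_lit 5) (nat_lit 226) (nat_lit 5) (nat_lit 227) (nat_lit 5) (nat_lit 492) (nat_lit 430) (nat_lit 218))))) (XT.nd (nat_lit 234) (nat_lit 988) (nat_lit 0) (XT.nd (nat_lit 78) (nat_lit 532) (nat_lit 0) (XT.lf (nat_lit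 0) (nat_lit 1764748374) (nat_lit 608) (nat_lit 2620027715) (nat_lit 76) (nat_lit 17699789799) (nat_lit 218) (nat_lit 5) (nat_lit 226) (nat_lit 5) (nat_lit 219) (nat_lit 5) (nat_lit 493) (nat_lit 430) (nat_lit 217)) (XT.nd (nat_lit 78) (nat_lit 0) (nat_lit 0) (XT.lf (nat_lit 0) (nat_lit 5686904626) (nat_lit 608) (nat_lit 12519279154) (nat_lit 76) (nat_lit 4143581317) (nat_lit 211) (nat_lit 5) (nat_lit 219) (nat_lit 5) (nat_lit 212) (nat_lit 5) (nat_lit 494) (nat_lit 430) (nat_lit 216)) (XT.lf (nat_lit 0) (nat_lit 9729122544) (nat_lit 608) (nat_lit 90357087) (nat_lit 76) (nat_lit 12799957313) (nat_lit 211) (nat_lit 5) (nat_lit 219) (nat_lit 5) (nat_lit 212) (nat_lit 5) (nat_lit 495) (nat_lit 430) (nat_lit 215)))) (XT.nd (nat_lit 78) (nat_lit 456) (nat_lit 0) (XT.lf (nat_lit 0) (nat_lit 12747653954) (nat_lit 532) (nat_lit 1182279532) (nat_lit 608) (nat_lit 8963014774) (nat_lit 204) (nat_lit 5) (nat_lit 211) (nat_lit 5) (nat_lit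 212) (nat_lit 5) (nat_lit 496) (nat_lit 430) (nat_lit 214)) (XT.nd (nat_lit 78) (nat_lit 0) (nat_lit 0) (XT.lf (nat_lit 0) (nat_lit 2650240165) (nat_lit 456) (nat_lit 15626888722) (nat_lit 532) (nat_lit 4893554536) (nat_lit 198) (nat_lit 5) (nat_lit 204) (nat_lit 5) (nat_lit 205) (nat_lit 5) (nat_lit 497) (nat_lit 430) (nat_lit 213)) (XT.lf (nat_lit 0) (nat_lit 15824595277) (nat_lit 456) (nat_lit 6957612394) (nat_lit 532) (nat_lit 670347794) (nat_lit 198) (nat_lit 5) (nat_lit 204) (nat_lit 5) (nat_lit 205) (nat_lit 5) (nat_lit 498) (nat_lit 430) (nat_lit 212)))))) (XT.nd (nat_lit 390) (nat_lit 988) (nat_lit 0) (XT.nd (nat_lit 156) (nat_lit 912) (nat_lit 0) (XT.nd (nat_lit 78) (nat_lit 0) (nat_lit 0) (XT.lf (nat_lit 0) (nat_lit 3633519360) (nat_lit 608) (nat_lit 18186459923) (nat_lit 76) (nat_lit 1918736268) (nat_lit 190) (nat_lit 5) (nat_lit 198) (nat_lit 5) (nat_lit 191) (nat_lit 5) (nat_lit 499) (nat_lit 430) (nat_lit 211))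 (XT.lf (nat_lit 0) (nat_lit 8107285527) (nat_lit 608) (nat_lit 4987610558) (nat_lit 76) (nat_lit 10933759091) (nat_lit 190) (nat_lit 5) (nat_lit 198) (nat_lit 5) (nat_lit 191) (nat_lit 5) (nat_lit 500) (nat_lit 430) (nat_lit 210))) (XT.nd (nat_lit 78) (nat_lit 456) (nat_lit 0) (XT.lf (nat_lit 0) (nat_lit 8581235775) (nat_lit 456) (nat_lit 4140286429) (nat_lit 532) (nat_lit 11601852379) (nat_lit 184) (nat_lit 5) (nat_lit 190) (nat_lit 5) (nat_lit 191) (nat_lit 5) (nat_lit 501) (nat_lit 430) (nat_lit 209)) (XT.nd (nat_lit 78) (nat_lit 456) (nat_lit 0) (XT.lf (nat_lit 0) (nat_lit 17489474135) (nat_lit 532) (nat_lit 2173457839) (nat_lit 76) (nat_lit 4959828668) (nat_lit 184) (nat_lit 5) (nat_lit 191) (nat_lit 5) (nat_lit 185) (nat_lit 5) (nat_lit 502) (nat_lit 430) (nat_lit 208)) (XT.lf (nat_lit 0) (nat_lit 11787335319) (nat_lit 456) (nat_lit 10664810699) (nat_lit 532) (nat_lit 2474002045) (nat_lit 178) (nat_lit 5) (nat_lit 184)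 (nat_lit 5) (nat_lit 185) (nat_lit 5) (nat_lit 503) (nat_lit 430) (nat_lit 207))))) (XT.nd (nat_lit 53664) (nat_lit 0) (nat_lit 22040) (XT.nd (nat_lit 78) (nat_lit 456) (nat_lit 0) (XT.lf (nat_lit 0) (nat_lit 810783680) (nat_lit 456) (nat_lit 1453175865) (nat_lit 532) (nat_lit 22971041165) (nat_lit 171) (nat_lit 5) (nat_lit 177) (nat_lit 5) (nat_lit 178) (nat_lit 5) (nat_lit 504) (nat_lit 430) (nat_lit 206)) (XT.nd (nat_lit 156) (nat_lit 456) (nat_lit 0) (XT.lf (nat_lit 0) (nat_lit 7199369845) (nat_lit 532) (nat_lit 10405823326) (nat_lit 76) (nat_lit 7941794659) (nat_lit 171) (nat_lit 5) (nat_lit 178) (nat_lit 5) (nat_lit 172) (nat_lit 5) (nat_lit 505) (nat_lit 430) (nat_lit 205)) (XT.lf (nat_lit 0) (nat_lit 17503412546) (nat_lit 532) (nat_lit 7510789183) (nat_lit 76) (nat_lit 1172904273) (nat_lit 165) (nat_lit 5) (nat_lit 172) (nat_lit 5) (nat_lit 166) (nat_lit 5) (nat_lit 507) (nat_lit 430) (nat_lit 203)))) (XT.nd (nat_lit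 78) (nat_lit 0) (nat_lit 0) (XT.lf (nat_lit 0) (nat_lit 1057405458) (nat_lit 1748) (nat_lit 2353137490) (nat_lit 1748) (nat_lit 2353137490) (nat_lit 455) (nat_lit 3) (nat_lit 478) (nat_lit 3) (nat_lit 478) (nat_lit 5) (nat_lit 431) (nat_lit 431) (nat_lit 278)) (XT.nd (nat_lit 78) (nat_lit 0) (nat_lit 76) (XT.lf (nat_lit 76) (nat_lit 868379810) (nat_lit 0) (nat_lit 1784464129) (nat_lit 1748) (nat_lit 8979302580) (nat_lit 456) (nat_lit 5) (nat_lit 455) (nat_lit 3) (nat_lit 478) (nat_lit 5) (nat_lit 432) (nat_lit 431) (nat_lit 277)) (XT.lf (nat_lit 0) (nat_lit 3241784696) (nat_lit 1672) (nat_lit 5149299561) (nat_lit 1748) (nat_lit 3347144613) (nat_lit 456) (nat_lit 5) (nat_lit 478) (nat_lit 5) (nat_lit 479) (nat_lit 5) (nat_lit 433) (nat_lit 431) (nat_lit 276))))))) (XT.nd (nat_lit 858) (nat_lit 2736) (nat_lit 0) (XT.nd (nat_lit 390) (nat_lit 0) (nat_lit 152) (XT.nd (nat_lit 156) (nat_lit 0) (nat_lit 76) (XT.nd (nat_lit 78) (nat_lit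 0) (nat_lit 76) (XT.lf (nat_lit 76) (nat_lit 565956536) (nat_lit 0) (nat_lit 3278890094) (nat_lit 1748) (nat_lit 8001543255) (nat_lit 457) (nat_lit 5) (nat_lit 456) (nat_lit 5) (nat_lit 479) (nat_lit 5) (nat_lit 434) (nat_lit 431) (nat_lit 275)) (XT.lf (nat_lit 0) (nat_lit 4494420349) (nat_lit 1672) (nat_lit 5510860208) (nat_lit 1748) (nat_lit 1950748341) (nat_lit 457) (nat_lit 5) (nat_lit 479) (nat_lit 5) (nat_lit 480) (nat_lit 5) (nat_lit 435) (nat_lit 431) (nat_lit 274))) (XT.nd (nat_lit 78) (nat_lit 0) (nat_lit 76) (XT.lf (nat_lit 76) (nat_lit 349762041) (nat_lit 0) (nat_lit 4818562163) (nat_lit 1748) (nat_lit 6899313429) (nat_lit 458) (nat_lit 5) (nat_lit 457) (nat_lit 5) (nat_lit 480) (nat_lit 5) (nat_lit 436) (nat_lit 431) (nat_lit 273)) (XT.nd (nat_lit 78) (nat_lit 0) (nat_lit 0) (XT.lf (nat_lit 0) (nat_lit 5883584617) (nat_lit 1672) (nat_lit 5789204154) (nat_lit 1748) (nat_lit 508135844) (nat_lit 458) (nat_lit 5) (nat_lit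 480) (nat_lit 5) (nat_lit 481) (nat_lit 5) (nat_lit 437) (nat_lit 431) (nat_lit 272)) (XT.lf (nat_lit 76) (nat_lit 221729503) (nat_lit 0) (nat_lit 6412603687) (nat_lit 1748) (nat_lit 5661724057) (nat_lit 459) (nat_lit 5) (nat_lit 458) (nat_lit 5) (nat_lit 481) (nat_lit 5) (nat_lit 438) (nat_lit 431) (nat_lit 271))))) (XT.nd (nat_lit 234) (nat_lit 0) (nat_lit 152) (XT.nd (nat_lit 78) (nat_lit 0) (nat_lit 76) (XT.lf (nat_lit 76) (nat_lit 6424095875) (nat_lit 0) (nat_lit 1002873239) (nat_lit 1748) (nat_lit 4985989469) (nat_lit 459) (nat_lit 5) (nat_lit 458) (nat_lit 5) (nat_lit 481) (nat_lit 5) (nat_lit 439) (nat_lit 431) (nat_lit 270)) (XT.nd (nat_lit 78) (nat_lit 0) (nat_lit 0) (XT.lf (nat_lit 76) (nat_lit 184024359) (nat_lit 0) (nat_lit 8070231538) (nat_lit 1748) (nat_lit 4277569519) (nat_lit 460) (nat_lit 5) (nat_lit 459) (nat_lit 5) (nat_lit 482) (nat_lit 5) (nat_lit 440) (nat_lit 431) (nat_lit 269)) (XT.lf (nat_lit 76) (nat_lit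 6547482497) (nat_lit 0) (nat_lit 2585862806) (nat_lit 1748) (nat_lit 3519022508) (nat_lit 460) (nat_lit 5) (nat_lit 459) (nat_lit 5) (nat_lit 482) (nat_lit 5) (nat_lit 441) (nat_lit 431) (nat_lit 268)))) (XT.nd (nat_lit 78) (nat_lit 0) (nat_lit 0) (XT.lf (nat_lit 76) (nat_lit 239042996) (nat_lit 0) (nat_lit 9800780078) (nat_lit 1748) (nat_lit 2735305148) (nat_lit 461) (nat_lit 5) (nat_lit 460) (nat_lit 5) (nat_lit 483) (nat_lit 5) (nat_lit 442) (nat_lit 431) (nat_lit 267)) (XT.nd (nat_lit 78) (nat_lit 0) (nat_lit 76) (XT.lf (nat_lit 76) (nat_lit 6767850062) (nat_lit 0) (nat_lit 4243456014) (nat_lit 1748) (nat_lit 1888103485) (nat_lit 461) (nat_lit 5) (nat_lit 460) (nat_lit 5) (nat_lit 483) (nat_lit 5) (nat_lit 443) (nat_lit 431) (nat_lit 266)) (XT.lf (nat_lit 76) (nat_lit 389411821) (nat_lit 0) (nat_lit 11613725090) (nat_lit 1748) (nat_lit 1023024422) (nat_lit 462) (nat_lit 5) (nat_lit 461) (nat_lit 5) (nat_lit 484) (nat_lit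 5) (nat_lit 444) (nat_lit 431) (nat_lit 265)))))) (XT.nd (nat_lit 468) (nat_lit 1368) (nat_lit 0) (XT.nd (nat_lit 234) (nat_lit 0) (nat_lit 76) (XT.nd (nat_lit 78) (nat_lit 1748) (nat_lit 0) (XT.lf (nat_lit 76) (nat_lit 7087991002) (nat_lit 0) (nat_lit 5985179150) (nat_lit 1748) (nat_lit 81113781) (nat_lit 462) (nat_lit 5) (nat_lit 461) (nat_lit 5) (nat_lit 484) (nat_lit 5) (nat_lit 445) (nat_lit 431) (nat_lit 264)) (XT.nd (nat_lit 78) (nat_lit 0) (nat_lit 76) (XT.lf (nat_lit 76) (nat_lit 630685275) (nat_lit 0) (nat_lit 230947672) (nat_lit 1824) (nat_lit 12423354112) (nat_lit 439) (nat_lit 5) (nat_lit 438) (nat_lit 5) (nat_lit 462) (nat_lit 5) (nat_lit 446) (nat_lit 431) (nat_lit 263)) (XT.lf (nat_lit 0) (nat_lit 1889353290) (nat_lit 1748) (nat_lit 5918700974) (nat_lit 1824) (nat_lit 5608898094) (nat_lit 439) (nat_lit 5) (nat_lit 462) (nat_lit 5) (nat_lit 463) (nat_lit 5) (nat_lit 447) (nat_lit 431) (nat_lit 262)))) (XT.nd (nat_lit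 78) (nat_lit 0) (nat_lit 76) (XT.lf (nat_lit 76) (nat_lit 955129352) (nat_lit 0) (nat_lit 1980051183) (nat_lit 1824) (nat_lit 10616428249) (nat_lit 440) (nat_lit 5) (nat_lit 439) (nat_lit 5) (nat_lit 463) (nat_lit 5) (nat_lit 448) (nat_lit 431) (nat_lit 261)) (XT.nd (nat_lit 78) (nat_lit 0) (nat_lit 0) (XT.lf (nat_lit 0) (nat_lit 4057635092) (nat_lit 1748) (nat_lit 5675152167) (nat_lit 1824) (nat_lit 3955059680) (nat_lit 440) (nat_lit 5) (nat_lit 463) (nat_lit 5) (nat_lit 464) (nat_lit 5) (nat_lit 449) (nat_lit 431) (nat_lit 260)) (XT.lf (nat_lit 76) (nat_lit 1382114677) (nat_lit 0) (nat_lit 3832696762) (nat_lit 1824) (nat_lit 8611755723) (nat_lit 441) (nat_lit 5) (nat_lit 440) (nat_lit 5) (nat_lit 464) (nat_lit 5) (nat_lit 450) (nat_lit 431) (nat_lit 259))))) (XT.nd (nat_lit 234) (nat_lit 1596) (nat_lit 0) (XT.nd (nat_lit 78) (nat_lit 0) (nat_lit 0) (XT.lf (nat_lit 0) (nat_lit 6438000439) (nat_lit 1748) (nat_lit 5331948215)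 (nat_lit 1824) (nat_lit 2197258458) (nat_lit 441) (nat_lit 5) (nat_lit 464) (nat_lit 5) (nat_lit 465) (nat_lit 5) (nat_lit 451) (nat_lit 431) (nat_lit 258)) (XT.nd (nat_lit 78) (nat_lit 0) (nat_lit 76) (XT.lf (nat_lit 76) (nat_lit 1915028330) (nat_lit 0) (nat_lit 5798974566) (nat_lit 1824) (nat_lit 6396092625) (nat_lit 442) (nat_lit 5) (nat_lit 441) (nat_lit 5) (nat_lit 465) (nat_lit 5) (nat_lit 452) (nat_lit 431) (nat_lit 257)) (XT.lf (nat_lit 0) (nat_lit 9044117847) (nat_lit 1748) (nat_lit 4885698299) (nat_lit 1824) (nat_lit 325456305) (nat_lit 442) (nat_lit 5) (nat_lit 465) (nat_lit 5) (nat_lit 466) (nat_lit 5) (nat_lit 453) (nat_lit 431) (nat_lit 256)))) (XT.nd (nat_lit 78) (nat_lit 1672) (nat_lit 0) (XT.lf (nat_lit 76) (nat_lit 2557482745) (nat_lit 0) (nat_lit 7889226935) (nat_lit 1824) (nat_lit 3955728296) (nat_lit 443) (nat_lit 5) (nat_lit 442) (nat_lit 5) (nat_lit 466) (nat_lit 5) (nat_lit 454) (nat_lit 431) (nat_lit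 255)) (XT.nd (nat_lit 78) (nat_lit 1672) (nat_lit 0) (XT.lf (nat_lit 76) (nat_lit 10208290501) (nat_lit 0) (nat_lit 1692845003) (nat_lit 1824) (nat_lit 2650938164) (nat_lit 443) (nat_lit 5) (nat_lit 442) (nat_lit 5) (nat_lit 466) (nat_lit 5) (nat_lit 455) (nat_lit 431) (nat_lit 254)) (XT.lf (nat_lit 0) (nat_lit 3313316228) (nat_lit 1748) (nat_lit 10114073317) (nat_lit 1824) (nat_lit 1276460187) (nat_lit 420) (nat_lit 5) (nat_lit 443) (nat_lit 5) (nat_lit 444) (nat_lit 5) (nat_lit 456) (nat_lit 431) (nat_lit 253))))))))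
noncomputable def xc206 : XT := (XT.nd (nat_lit 1716) (nat_lit 7220) (nat_lit 0) (XT.nd (nat_lit 858) (nat_lit 4484) (nat_lit 0) (XT.nd (nat_lit 390) (nat_lit 3496) (nat_lit 0) (XT.nd (nat_lit 156) (nat_lit 912) (nat_lit 0) (XT.nd (nat_lit 78) (nat_lit 1292) (nat_lit 0) (XT.lf (nat_lit 0) (nat_lit 155661719) (nat_lit 1824) (nat_lit 3695433976) (nat_lit 76) (nat_lit 11006915671) (nat_lit 419) (nat_lit 5) (nat_lit 443) (nat_lit 5) (nat_lit 420) (nat_lit 5) (nat_lit 457) (nat_lit 431) (nat_lit 252)) (XT.lf (nat_lit 0) (nat_lit 1634707455) (nat_lit 1368) (nat_lit 10838758394) (nat_lit 76) (nat_lit 2540916481) (nat_lit 402) (nat_lit 5) (nat_lit 420) (nat_lit 5) (nat_lit 403) (nat_lit 5) (nat_lit 458) (nat_lit 431) (nat_lit 251))) (XT.nd (nat_lit 78) (nat_lit 912) (nat_lit 0) (XT.lf (nat_lit 0) (nat_lit 3185346998) (nat_lit 1368) (nat_lit 2952414000) (nat_lit 76) (nat_lit 9035281721) (nat_lit 402) (nat_lit 5) (nat_lit 420) (nat_lit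 5) (nat_lit 403) (nat_lit 5) (nat_lit 459) (nat_lit 431) (nat_lit 250)) (XT.nd (nat_lit 78) (nat_lit 0) (nat_lit 0) (XT.lf (nat_lit 0) (nat_lit 4794495627) (nat_lit 988) (nat_lit 10184894659) (nat_lit 76) (nat_lit 354938324) (nat_lit 390) (nat_lit 5) (nat_lit 403) (nat_lit 5) (nat_lit 391) (nat_lit 5) (nat_lit 460) (nat_lit 431) (nat_lit 249)) (XT.lf (nat_lit 0) (nat_lit 6488250285) (nat_lit 988) (nat_lit 2093413670) (nat_lit 76) (nat_lit 6916129979) (nat_lit 390) (nat_lit 5) (nat_lit 403) (nat_lit 5) (nat_lit 391) (nat_lit 5) (nat_lit 461) (nat_lit 431) (nat_lit 248))))) (XT.nd (nat_lit 234) (nat_lit 1748) (nat_lit 0) (XT.nd (nat_lit 78) (nat_lit 912) (nat_lit 0) (XT.lf (nat_lit 0) (nat_lit 6234277594) (nat_lit 836) (nat_lit 2014071832) (nat_lit 912) (nat_lit 7415531884) (nat_lit 379) (nat_lit 5) (nat_lit 390) (nat_lit 5) (nat_lit 391) (nat_lit 5) (nat_lit 462) (nat_lit 431) (nat_lit 247)) (XT.nd (nat_lit 78) (nat_lit 912)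 (nat_lit 0) (XT.lf (nat_lit 0) (nat_lit 10080314168) (nat_lit 912) (nat_lit 1114118510) (nat_lit 76) (nat_lit 4638126574) (nat_lit 379) (nat_lit 5) (nat_lit 391) (nat_lit 5) (nat_lit 380) (nat_lit 5) (nat_lit 463) (nat_lit 431) (nat_lit 246)) (XT.lf (nat_lit 0) (nat_lit 7444624627) (nat_lit 912) (nat_lit 4558227418) (nat_lit 988) (nat_lit 4000682082) (nat_lit 367) (nat_lit 5) (nat_lit 379) (nat_lit 5) (nat_lit 380) (nat_lit 5) (nat_lit 464) (nat_lit 431) (nat_lit 245)))) (XT.nd (nat_lit 78) (nat_lit 1748) (nat_lit 0) (XT.lf (nat_lit 0) (nat_lit 13978086542) (nat_lit 988) (nat_lit 9996687) (nat_lit 76) (nat_lit 2189562363) (nat_lit 367) (nat_lit 5) (nat_lit 380) (nat_lit 5) (nat_lit 368) (nat_lit 5) (nat_lit 465) (nat_lit 431) (nat_lit 244)) (XT.nd (nat_lit 78) (nat_lit 912) (nat_lit 0) (XT.lf (nat_lit 0) (nat_lit 8787645608) (nat_lit 836) (nat_lit 7284938636) (nat_lit 912) (nat_lit 281061844) (nat_lit 356) (nat_lit 5) (nat_lit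 367) (nat_lit 5) (nat_lit 368) (nat_lit 5) (nat_lit 466) (nat_lit 431) (nat_lit 243)) (XT.lf (nat_lit 0) (nat_lit 1226043933) (nat_lit 836) (nat_lit 428375818) (nat_lit 912) (nat_lit 14878519271) (nat_lit 344) (nat_lit 5) (nat_lit 355) (nat_lit 5) (nat_lit 356) (nat_lit 5) (nat_lit 467) (nat_lit 431) (nat_lit 242)))))) (XT.nd (nat_lit 390) (nat_lit 2964) (nat_lit 0) (XT.nd (nat_lit 156) (nat_lit 760) (nat_lit 0) (XT.nd (nat_lit 78) (nat_lit 760) (nat_lit 0) (XT.lf (nat_lit 0) (nat_lit 3711249074) (nat_lit 912) (nat_lit 6470604215) (nat_lit 76) (nat_lit 6532201195) (nat_lit 344) (nat_lit 5) (nat_lit 356) (nat_lit 5) (nat_lit 345) (nat_lit 5) (nat_lit 468) (nat_lit 431) (nat_lit 241)) (XT.lf (nat_lit 0) (nat_lit 2565908065) (nat_lit 760) (nat_lit 3255610784) (nat_lit 836) (nat_lit 11077029149) (nat_lit 334) (nat_lit 5) (nat_lit 344) (nat_lit 5) (nat_lit 345) (nat_lit 5) (nat_lit 469) (nat_lit 431) (nat_lit 240))) (XT.nd (nat_lit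 78) (nat_lit 760) (nat_lit 0) (XT.lf (nat_lit 0) (nat_lit 8035334370) (nat_lit 836) (nat_lit 5247435068) (nat_lit 76) (nat_lit 3802736923) (nat_lit 334) (nat_lit 5) (nat_lit 345) (nat_lit 5) (nat_lit 335) (nat_lit 5) (nat_lit 470) (nat_lit 431) (nat_lit 239)) (XT.nd (nat_lit 78) (nat_lit 0) (nat_lit 0) (XT.lf (nat_lit 0) (nat_lit 4043678190) (nat_lit 760) (nat_lit 6290601864) (nat_lit 836) (nat_lit 6941108511) (nat_lit 324) (nat_lit 5) (nat_lit 334) (nat_lit 5) (nat_lit 335) (nat_lit 5) (nat_lit 471) (nat_lit 431) (nat_lit 238)) (XT.lf (nat_lit 0) (nat_lit 12713240492) (nat_lit 836) (nat_lit 3889674238) (nat_lit 76) (nat_lit 865474682) (nat_lit 324) (nat_lit 5) (nat_lit 335) (nat_lit 5) (nat_lit 325) (nat_lit 5) (nat_lit 472) (nat_lit 431) (nat_lit 237))))) (XT.nd (nat_lit 234) (nat_lit 1368) (nat_lit 0) (XT.nd (nat_lit 78) (nat_lit 836) (nat_lit 0) (XT.lf (nat_lit 0) (nat_lit 5664621837) (nat_lit 760) (nat_lit 9546857774) (nat_lit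 836) (nat_lit 2452338357) (nat_lit 314) (nat_lit 5) (nat_lit 324) (nat_lit 5) (nat_lit 325) (nat_lit 5) (nat_lit 473) (nat_lit 431) (nat_lit 236)) (XT.nd (nat_lit 78) (nat_lit 836) (nat_lit 0) (XT.lf (nat_lit 0) (nat_lit 15455563146) (nat_lit 760) (nat_lit 2323569107) (nat_lit 836) (nat_lit 83635517) (nat_lit 314) (nat_lit 5) (nat_lit 324) (nat_lit 5) (nat_lit 325) (nat_lit 5) (nat_lit 474) (nat_lit 431) (nat_lit 235)) (XT.lf (nat_lit 0) (nat_lit 2376834988) (nat_lit 836) (nat_lit 10645622257) (nat_lit 76) (nat_lit 5041438354) (nat_lit 303) (nat_lit 5) (nat_lit 314) (nat_lit 5) (nat_lit 304) (nat_lit 5) (nat_lit 475) (nat_lit 431) (nat_lit 234)))) (XT.nd (nat_lit 78) (nat_lit 1368) (nat_lit 0) (XT.lf (nat_lit 0) (nat_lit 4910556268) (nat_lit 836) (nat_lit 819075723) (nat_lit 76) (nat_lit 12538901265) (nat_lit 303) (nat_lit 5) (nat_lit 314) (nat_lit 5) (nat_lit 304) (nat_lit 5) (nat_lit 476) (nat_lit 431) (nat_lit 233)) (XT.nd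 (nat_lit 78) (nat_lit 684) (nat_lit 0) (XT.lf (nat_lit 0) (nat_lit 7560589650) (nat_lit 760) (nat_lit 9168504600) (nat_lit 76) (nat_lit 1746858185) (nat_lit 294) (nat_lit 5) (nat_lit 304) (nat_lit 5) (nat_lit 295) (nat_lit 5) (nat_lit 477) (nat_lit 431) (nat_lit 232)) (XT.lf (nat_lit 0) (nat_lit 927244408) (nat_lit 684) (nat_lit 9379590459) (nat_lit 760) (nat_lit 8379822404) (nat_lit 285) (nat_lit 5) (nat_lit 294) (nat_lit 5) (nat_lit 295) (nat_lit 5) (nat_lit 478) (nat_lit 431) (nat_lit 231))))))) (XT.nd (nat_lit 858) (nat_lit 3268) (nat_lit 0) (XT.nd (nat_lit 390) (nat_lit 2508) (nat_lit 0) (XT.nd (nat_lit 156) (nat_lit 760) (nat_lit 0) (XT.nd (nat_lit 78) (nat_lit 684) (nat_lit 0) (XT.lf (nat_lit 0) (nat_lit 11342106631) (nat_lit 684) (nat_lit 1821214593) (nat_lit 760) (nat_lit 5737150117) (nat_lit 285) (nat_lit 5) (nat_lit 294) (nat_lit 5) (nat_lit 295) (nat_lit 5) (nat_lit 479) (nat_lit 431) (nat_lit 230)) (XT.lf (nat_lit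 0) (nat_lit 2838640757) (nat_lit 684) (nat_lit 13288864757) (nat_lit 760) (nat_lit 2990046250) (nat_lit 276) (nat_lit 5) (nat_lit 285) (nat_lit 5) (nat_lit 286) (nat_lit 5) (nat_lit 480) (nat_lit 431) (nat_lit 229))) (XT.nd (nat_lit 78) (nat_lit 760) (nat_lit 0) (XT.lf (nat_lit 0) (nat_lit 13526805117) (nat_lit 684) (nat_lit 5680851509) (nat_lit 760) (nat_lit 130184916) (nat_lit 276) (nat_lit 5) (nat_lit 285) (nat_lit 5) (nat_lit 286) (nat_lit 5) (nat_lit 481) (nat_lit 431) (nat_lit 228)) (XT.nd (nat_lit 78) (nat_lit 0) (nat_lit 0) (XT.lf (nat_lit 0) (nat_lit 2790055846) (nat_lit 760) (nat_lit 14670003541) (nat_lit 76) (nat_lit 2101322546) (nat_lit 266) (nat_lit 5) (nat_lit 276) (nat_lit 5) (nat_lit 267) (nat_lit 5) (nat_lit 482) (nat_lit 431) (nat_lit 227)) (XT.lf (nat_lit 0) (nat_lit 5837958055) (nat_lit 760) (nat_lit 3947767989) (nat_lit 76) (nat_lit 10002231206) (nat_lit 266) (nat_lit 5) (nat_lit 276) (nat_lit 5) (nat_lit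 267) (nat_lit 5) (nat_lit 483) (nat_lit 431) (nat_lit 226))))) (XT.nd (nat_lit 234) (nat_lit 1292) (nat_lit 0) (XT.nd (nat_lit 78) (nat_lit 608) (nat_lit 0) (XT.lf (nat_lit 0) (nat_lit 7074812987) (nat_lit 608) (nat_lit 1912178216) (nat_lit 684) (nat_lit 11031270714) (nat_lit 258) (nat_lit 5) (nat_lit 266) (nat_lit 5) (nat_lit 267) (nat_lit 5) (nat_lit 484) (nat_lit 431) (nat_lit 225)) (XT.nd (nat_lit 78) (nat_lit 608) (nat_lit 0) (XT.lf (nat_lit 0) (nat_lit 12259699238) (nat_lit 684) (nat_lit 1928136340) (nat_lit 76) (nat_lit 6064124489) (nat_lit 258) (nat_lit 5) (nat_lit 267) (nat_lit 5) (nat_lit 259) (nat_lit 5) (nat_lit 485) (nat_lit 431) (nat_lit 224)) (XT.lf (nat_lit 0) (nat_lit 9411438940) (nat_lit 608) (nat_lit 6254602611) (nat_lit 684) (nat_lit 4822928276) (nat_lit 250) (nat_lit 5) (nat_lit 258) (nat_lit 5) (nat_lit 259) (nat_lit 5) (nat_lit 486) (nat_lit 431) (nat_lit 223)))) (XT.nd (nat_lit 78) (nat_lit 684) (nat_lit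 0) (XT.lf (nat_lit 0) (nat_lit 257978298) (nat_lit 608) (nat_lit 18903629753) (nat_lit 684) (nat_lit 1568691011) (nat_lit 242) (nat_lit 5) (nat_lit 250) (nat_lit 5) (nat_lit 251) (nat_lit 5) (nat_lit 487) (nat_lit 431) (nat_lit 222)) (XT.nd (nat_lit 78) (nat_lit 608) (nat_lit 0) (XT.lf (nat_lit 0) (nat_lit 1838416398) (nat_lit 684) (nat_lit 9064792148) (nat_lit 76) (nat_lit 10070805283) (nat_lit 241) (nat_lit 5) (nat_lit 250) (nat_lit 5) (nat_lit 242) (nat_lit 5) (nat_lit 488) (nat_lit 431) (nat_lit 221)) (XT.lf (nat_lit 0) (nat_lit 2587670691) (nat_lit 608) (nat_lit 2716414607) (nat_lit 684) (nat_lit 15918082885) (nat_lit 233) (nat_lit 5) (nat_lit 241) (nat_lit 5) (nat_lit 242) (nat_lit 5) (nat_lit 489) (nat_lit 431) (nat_lit 220)))))) (XT.nd (nat_lit 468) (nat_lit 1596) (nat_lit 0) (XT.nd (nat_lit 234) (nat_lit 1140) (nat_lit 0) (XT.nd (nat_lit 78) (nat_lit 532) (nat_lit 0) (XT.lf (nat_lit 0) (nat_lit 8931537137) (nat_lit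 684) (nat_lit 6921813598) (nat_lit 76) (nat_lit 5620086630) (nat_lit 233) (nat_lit 5) (nat_lit 242) (nat_lit 5) (nat_lit 234) (nat_lit 5) (nat_lit 490) (nat_lit 431) (nat_lit 219)) (XT.nd (nat_lit 78) (nat_lit 0) (nat_lit 0) (XT.lf (nat_lit 0) (nat_lit 5066901784) (nat_lit 532) (nat_lit 7610284962) (nat_lit 608) (nat_lit 9051633319) (nat_lit 226) (nat_lit 5) (nat_lit 233) (nat_lit 5) (nat_lit 234) (nat_lit 5) (nat_lit 491) (nat_lit 431) (nat_lit 218)) (XT.lf (nat_lit 0) (nat_lit 16544496429) (nat_lit 608) (nat_lit 4611386588) (nat_lit 76) (nat_lit 832493551) (nat_lit 226) (nat_lit 5) (nat_lit 234) (nat_lit 5) (nat_lit 227) (nat_lit 5) (nat_lit 492) (nat_lit 431) (nat_lit 217)))) (XT.nd (nat_lit 78) (nat_lit 608) (nat_lit 0) (XT.lf (nat_lit 0) (nat_lit 7724459078) (nat_lit 532) (nat_lit 12860158144) (nat_lit 608) (nat_lit 1666598744) (nat_lit 219) (nat_lit 5) (nat_lit 226) (nat_lit 5) (nat_lit 227) (nat_lit 5) (nat_lit 493) (nat_lit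 431) (nat_lit 216)) (XT.nd (nat_lit 78) (nat_lit 532) (nat_lit 0) (XT.lf (nat_lit 0) (nat_lit 2183641429) (nat_lit 608) (nat_lit 2170192378) (nat_lit 76) (nat_lit 18164673765) (nat_lit 218) (nat_lit 5) (nat_lit 226) (nat_lit 5) (nat_lit 219) (nat_lit 5) (nat_lit 494) (nat_lit 431) (nat_lit 215)) (XT.lf (nat_lit 0) (nat_lit 6180735295) (nat_lit 608) (nat_lit 12263847185) (nat_lit 76) (nat_lit 4344499918) (nat_lit 211) (nat_lit 5) (nat_lit 219) (nat_lit 5) (nat_lit 212) (nat_lit 5) (nat_lit 495) (nat_lit 431) (nat_lit 214))))) (XT.nd (nat_lit 234) (nat_lit 608) (nat_lit 0) (XT.nd (nat_lit 78) (nat_lit 456) (nat_lit 0) (XT.lf (nat_lit 0) (nat_lit 409100761) (nat_lit 532) (nat_lit 9889900168) (nat_lit 608) (nat_lit 12765244178) (nat_lit 204) (nat_lit 5) (nat_lit 211) (nat_lit 5) (nat_lit 212) (nat_lit 5) (nat_lit 496) (nat_lit 431) (nat_lit 213)) (XT.nd (nat_lit 78) (nat_lit 456) (nat_lit 0) (XT.lf (nat_lit 0) (nat_lit 13495244096)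 (nat_lit 532) (nat_lit 1081819704) (nat_lit 608) (nat_lit 8766299599) (nat_lit 204) (nat_lit 5) (nat_lit 211) (nat_lit 5) (nat_lit 212) (nat_lit 5) (nat_lit 497) (nat_lit 431) (nat_lit 212)) (XT.lf (nat_lit 0) (nat_lit 3199235378) (nat_lit 456) (nat_lit 15808751895) (nat_lit 532) (nat_lit 4618731745) (nat_lit 198) (nat_lit 5) (nat_lit 204) (nat_lit 5) (nat_lit 205) (nat_lit 5) (nat_lit 498) (nat_lit 431) (nat_lit 211)))) (XT.nd (nat_lit 78) (nat_lit 608) (nat_lit 0) (XT.lf (nat_lit 0) (nat_lit 16627352290) (nat_lit 456) (nat_lit 6968652288) (nat_lit 532) (nat_lit 318368591) (nat_lit 198) (nat_lit 5) (nat_lit 204) (nat_lit 5) (nat_lit 205) (nat_lit 5) (nat_lit 499) (nat_lit 431) (nat_lit 210)) (XT.nd (nat_lit 78) (nat_lit 0) (nat_lit 0) (XT.lf (nat_lit 0) (nat_lit 4063732929) (nat_lit 608) (nat_lit 18055944448) (nat_lit 76) (nat_lit 2086594003) (nat_lit 190) (nat_lit 5) (nat_lit 198) (nat_lit 5) (nat_lit 191) (nat_lit 5) (nat_lit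 500) (nat_lit 431) (nat_lit 209)) (XT.lf (nat_lit 0) (nat_lit 8619963769) (nat_lit 608) (nat_lit 4602809167) (nat_lit 76) (nat_lit 11279378400) (nat_lit 190) (nat_lit 5) (nat_lit 198) (nat_lit 5) (nat_lit 191) (nat_lit 5) (nat_lit 501) (nat_lit 431) (nat_lit 208))))))))
noncomputable def xc207 : XT := (XT.nd (nat_lit 55146) (nat_lit 0) (nat_lit 12844) (XT.nd (nat_lit 54288) (nat_lit 0) (nat_lit 20748) (XT.nd (nat_lit 390) (nat_lit 456) (nat_lit 0) (XT.nd (nat_lit 156) (nat_lit 988) (nat_lit 0) (XT.nd (nat_lit 78) (nat_lit 0) (nat_lit 0) (XT.lf (nat_lit 0) (nat_lit 9234226239) (nat_lit 456) (nat_lit 4088511098) (nat_lit 532) (nat_lit 11480104050) (nat_lit 184) (nat_lit 5) (nat_lit 190) (nat_lit 5) (nat_lit 191) (nat_lit 5) (nat_lit 502) (nat_lit 431) (nat_lit 207)) (XT.lf (nat_lit 0) (nat_lit 18180105265) (nat_lit 532) (nat_lit 1738993029) (nat_lit 76) (nat_lit 5189237010) (nat_lit 184) (nat_lit 5) (nat_lit 191) (nat_lit 5) (nat_lit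 185) (nat_lit 5) (nat_lit 503) (nat_lit 431) (nat_lit 206))) (XT.nd (nat_lit 78) (nat_lit 532) (nat_lit 0) (XT.lf (nat_lit 0) (nat_lit 12497871690) (nat_lit 456) (nat_lit 10740558375) (nat_lit 532) (nat_lit 2179433667) (nat_lit 178) (nat_lit 5) (nat_lit 184) (nat_lit 5) (nat_lit 185) (nat_lit 5) (nat_lit 504) (nat_lit 431) (nat_lit 205)) (XT.nd (nat_lit 78) (nat_lit 0) (nat_lit 0) (XT.lf (nat_lit 0) (nat_lit 1303208815) (nat_lit 456) (nat_lit 1342000379) (nat_lit 532) (nat_lit 23087712078) (nat_lit 171) (nat_lit 5) (nat_lit 177) (nat_lit 5) (nat_lit 178) (nat_lit 5) (nat_lit 505) (nat_lit 431) (nat_lit 204)) (XT.lf (nat_lit 0) (nat_lit 7673632714) (nat_lit 532) (nat_lit 10141313920) (nat_lit 76) (nat_lit 8236316576) (nat_lit 171) (nat_lit 5) (nat_lit 178) (nat_lit 5) (nat_lit 172) (nat_lit 5) (nat_lit 506) (nat_lit 431) (nat_lit 203))))) (XT.nd (nat_lit 53664) (nat_lit 0) (nat_lit 22116) (XT.nd (nat_lit 53508) (nat_lit 0) (nat_lit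 22040) (XT.lf (nat_lit 0) (nat_lit 4476559301) (nat_lit 456) (nat_lit 8359743174) (nat_lit 532) (nat_lit 13538996719) (nat_lit 165) (nat_lit 5) (nat_lit 171) (nat_lit 5) (nat_lit 172) (nat_lit 5) (nat_lit 507) (nat_lit 431) (nat_lit 202)) (XT.nd (nat_lit 78) (nat_lit 0) (nat_lit 0) (XT.lf (nat_lit 0) (nat_lit 1586481029) (nat_lit 1748) (nat_lit 2141082587) (nat_lit 1748) (nat_lit 2141082587) (nat_lit 455) (nat_lit 3) (nat_lit 478) (nat_lit 3) (nat_lit 478) (nat_lit 5) (nat_lit 432) (nat_lit 432) (nat_lit 276)) (XT.lf (nat_lit 76) (nat_lit 1400573270) (nat_lit 0) (nat_lit 2304606337) (nat_lit 1748) (nat_lit 8139331527) (nat_lit 456) (nat_lit 5) (nat_lit 455) (nat_lit 3) (nat_lit 478) (nat_lit 5) (nat_lit 433) (nat_lit 432) (nat_lit 275)))) (XT.nd (nat_lit 78) (nat_lit 0) (nat_lit 0) (XT.lf (nat_lit 0) (nat_lit 4283221763) (nat_lit 1672) (nat_lit 4724589896) (nat_lit 1748) (nat_lit 2945362762) (nat_lit 456) (nat_lit 5) (nat_lit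 478) (nat_lit 5) (nat_lit 479) (nat_lit 5) (nat_lit 434) (nat_lit 432) (nat_lit 274)) (XT.nd (nat_lit 78) (nat_lit 0) (nat_lit 76) (XT.lf (nat_lit 76) (nat_lit 1101499640) (nat_lit 0) (nat_lit 3781099858) (nat_lit 1748) (nat_lit 7181219694) (nat_lit 457) (nat_lit 5) (nat_lit 456) (nat_lit 5) (nat_lit 479) (nat_lit 5) (nat_lit 435) (nat_lit 432) (nat_lit 273)) (XT.lf (nat_lit 0) (nat_lit 5523545061) (nat_lit 1672) (nat_lit 5085236855) (nat_lit 1748) (nat_lit 1567306979) (nat_lit 457) (nat_lit 5) (nat_lit 479) (nat_lit 5) (nat_lit 480) (nat_lit 5) (nat_lit 436) (nat_lit 432) (nat_lit 272)))))) (XT.nd (nat_lit 390) (nat_lit 1444) (nat_lit 0) (XT.nd (nat_lit 156) (nat_lit 0) (nat_lit 76) (XT.nd (nat_lit 78) (nat_lit 0) (nat_lit 76) (XT.lf (nat_lit 76) (nat_lit 889072572) (nat_lit 0) (nat_lit 5306894167) (nat_lit 1748) (nat_lit 6094267680) (nat_lit 458) (nat_lit 5) (nat_lit 457) (nat_lit 5) (nat_lit 480) (nat_lit 5) (nat_lit 437)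 (nat_lit 432) (nat_lit 271)) (XT.lf (nat_lit 0) (nat_lit 6904914331) (nat_lit 1672) (nat_lit 5362227329) (nat_lit 1748) (nat_lit 139063144) (nat_lit 458) (nat_lit 5) (nat_lit 480) (nat_lit 5) (nat_lit 481) (nat_lit 5) (nat_lit 438) (nat_lit 432) (nat_lit 270))) (XT.nd (nat_lit 78) (nat_lit 0) (nat_lit 0) (XT.lf (nat_lit 76) (nat_lit 765354205) (nat_lit 0) (nat_lit 6891105665) (nat_lit 1748) (nat_lit 4867469777) (nat_lit 459) (nat_lit 5) (nat_lit 458) (nat_lit 5) (nat_lit 481) (nat_lit 5) (nat_lit 439) (nat_lit 432) (nat_lit 269)) (XT.nd (nat_lit 78) (nat_lit 0) (nat_lit 76) (XT.lf (nat_lit 76) (nat_lit 7081195549) (nat_lit 0) (nat_lit 1366312963) (nat_lit 1748) (nat_lit 4196014395) (nat_lit 459) (nat_lit 5) (nat_lit 458) (nat_lit 5) (nat_lit 481) (nat_lit 5) (nat_lit 440) (nat_lit 432) (nat_lit 268)) (XT.lf (nat_lit 76) (nat_lit 732638086) (nat_lit 0) (nat_lit 8542957223) (nat_lit 1748) (nat_lit 3489491679) (nat_lit 460) (nat_lit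 5) (nat_lit 459) (nat_lit 5) (nat_lit 482) (nat_lit 5) (nat_lit 441) (nat_lit 432) (nat_lit 267))))) (XT.nd (nat_lit 234) (nat_lit 1596) (nat_lit 0) (XT.nd (nat_lit 78) (nat_lit 0) (nat_lit 76) (XT.lf (nat_lit 76) (nat_lit 7212680422) (nat_lit 0) (nat_lit 2942796782) (nat_lit 1748) (nat_lit 2732903713) (nat_lit 460) (nat_lit 5) (nat_lit 459) (nat_lit 5) (nat_lit 482) (nat_lit 5) (nat_lit 442) (nat_lit 432) (nat_lit 266)) (XT.nd (nat_lit 78) (nat_lit 0) (nat_lit 0) (XT.lf (nat_lit 76) (nat_lit 793448155) (nat_lit 0) (nat_lit 10271801990) (nat_lit 1748) (nat_lit 1948647882) (nat_lit 461) (nat_lit 5) (nat_lit 460) (nat_lit 5) (nat_lit 483) (nat_lit 5) (nat_lit 443) (nat_lit 432) (nat_lit 265)) (XT.lf (nat_lit 76) (nat_lit 7442054414) (nat_lit 0) (nat_lit 4597939164) (nat_lit 1748) (nat_lit 1100999506) (nat_lit 461) (nat_lit 5) (nat_lit 460) (nat_lit 5) (nat_lit 483) (nat_lit 5) (nat_lit 444) (nat_lit 432) (nat_lit 264)))) (XT.nd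 (nat_lit 78) (nat_lit 1748) (nat_lit 0) (XT.lf (nat_lit 76) (nat_lit 950538098) (nat_lit 0) (nat_lit 12087147197) (nat_lit 1748) (nat_lit 232878730) (nat_lit 462) (nat_lit 5) (nat_lit 461) (nat_lit 5) (nat_lit 484) (nat_lit 5) (nat_lit 445) (nat_lit 432) (nat_lit 263)) (XT.nd (nat_lit 78) (nat_lit 0) (nat_lit 0) (XT.lf (nat_lit 0) (nat_lit 702638193) (nat_lit 1748) (nat_lit 5633948687) (nat_lit 1824) (nat_lit 7064885832) (nat_lit 438) (nat_lit 5) (nat_lit 461) (nat_lit 5) (nat_lit 462) (nat_lit 5) (nat_lit 446) (nat_lit 432) (nat_lit 262)) (XT.lf (nat_lit 76) (nat_lit 1192792873) (nat_lit 0) (nat_lit 458551346) (nat_lit 1824) (nat_lit 11883675500) (nat_lit 439) (nat_lit 5) (nat_lit 438) (nat_lit 5) (nat_lit 462) (nat_lit 5) (nat_lit 447) (nat_lit 432) (nat_lit 261))))))) (XT.nd (nat_lit 858) (nat_lit 6460) (nat_lit 0) (XT.nd (nat_lit 390) (nat_lit 1520) (nat_lit 0) (XT.nd (nat_lit 156) (nat_lit 0) (nat_lit 76) (XT.nd (nat_lit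 78) (nat_lit 0) (nat_lit 0) (XT.lf (nat_lit 0) (nat_lit 2683052952) (nat_lit 1748) (nat_lit 5481576230) (nat_lit 1824) (nat_lit 5505330727) (nat_lit 439) (nat_lit 5) (nat_lit 462) (nat_lit 5) (nat_lit 463) (nat_lit 5) (nat_lit 448) (nat_lit 432) (nat_lit 260)) (XT.lf (nat_lit 76) (nat_lit 1526076105) (nat_lit 0) (nat_lit 2212481759) (nat_lit 1824) (nat_lit 10068980558) (nat_lit 440) (nat_lit 5) (nat_lit 439) (nat_lit 5) (nat_lit 463) (nat_lit 5) (nat_lit 449) (nat_lit 432) (nat_lit 259))) (XT.nd (nat_lit 78) (nat_lit 0) (nat_lit 0) (XT.lf (nat_lit 0) (nat_lit 4867632638) (nat_lit 1748) (nat_lit 5231597680) (nat_lit 1824) (nat_lit 3847591698) (nat_lit 440) (nat_lit 5) (nat_lit 463) (nat_lit 5) (nat_lit 464) (nat_lit 5) (nat_lit 450) (nat_lit 432) (nat_lit 258)) (XT.nd (nat_lit 78) (nat_lit 0) (nat_lit 76) (XT.lf (nat_lit 76) (nat_lit 1963149648) (nat_lit 0) (nat_lit 4074104780) (nat_lit 1824) (nat_lit 8051280197) (nat_lit 441)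 (nat_lit 5) (nat_lit 440) (nat_lit 5) (nat_lit 464) (nat_lit 5) (nat_lit 451) (nat_lit 432) (nat_lit 257)) (XT.lf (nat_lit 0) (nat_lit 7269777182) (nat_lit 1748) (nat_lit 4880718306) (nat_lit 1824) (nat_lit 2081798427) (nat_lit 441) (nat_lit 5) (nat_lit 464) (nat_lit 5) (nat_lit 465) (nat_lit 5) (nat_lit 452) (nat_lit 432) (nat_lit 256))))) (XT.nd (nat_lit 234) (nat_lit 1672) (nat_lit 0) (XT.nd (nat_lit 78) (nat_lit 0) (nat_lit 76) (XT.lf (nat_lit 76) (nat_lit 2507527580) (nat_lit 0) (nat_lit 6053585691) (nat_lit 1824) (nat_lit 5817134412) (nat_lit 442) (nat_lit 5) (nat_lit 441) (nat_lit 5) (nat_lit 465) (nat_lit 5) (nat_lit 453) (nat_lit 432) (nat_lit 255)) (XT.nd (nat_lit 78) (nat_lit 0) (nat_lit 0) (XT.lf (nat_lit 0) (nat_lit 9903363173) (nat_lit 1748) (nat_lit 4425423520) (nat_lit 1824) (nat_lit 197834592) (nat_lit 442) (nat_lit 5) (nat_lit 465) (nat_lit 5) (nat_lit 466) (nat_lit 5) (nat_lit 454) (nat_lit 432) (nat_lit 254))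 (XT.lf (nat_lit 76) (nat_lit 3162950167) (nat_lit 0) (nat_lit 8161354441) (nat_lit 1824) (nat_lit 3352623271) (nat_lit 443) (nat_lit 5) (nat_lit 442) (nat_lit 5) (nat_lit 466) (nat_lit 5) (nat_lit 455) (nat_lit 432) (nat_lit 253)))) (XT.nd (nat_lit 78) (nat_lit 1748) (nat_lit 0) (XT.lf (nat_lit 76) (nat_lit 10955905102) (nat_lit 0) (nat_lit 1838802851) (nat_lit 1824) (nat_lit 2035114192) (nat_lit 443) (nat_lit 5) (nat_lit 442) (nat_lit 5) (nat_lit 466) (nat_lit 5) (nat_lit 456) (nat_lit 432) (nat_lit 252)) (XT.nd (nat_lit 78) (nat_lit 76) (nat_lit 0) (XT.lf (nat_lit 0) (nat_lit 3933384610) (nat_lit 1748) (nat_lit 10408130636) (nat_lit 1824) (nat_lit 643321489) (nat_lit 420) (nat_lit 5) (nat_lit 443) (nat_lit 5) (nat_lit 444) (nat_lit 5) (nat_lit 457) (nat_lit 432) (nat_lit 251)) (XT.lf (nat_lit 0) (nat_lit 796058633) (nat_lit 1824) (nat_lit 3217758792) (nat_lit 76) (nat_lit 11128436990) (nat_lit 419) (nat_lit 5) (nat_lit 443)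 (nat_lit 5) (nat_lit 420) (nat_lit 5) (nat_lit 458) (nat_lit 432) (nat_lit 250)))))) (XT.nd (nat_lit 468) (nat_lit 3420) (nat_lit 0) (XT.nd (nat_lit 234) (nat_lit 836) (nat_lit 0) (XT.nd (nat_lit 78) (nat_lit 912) (nat_lit 0) (XT.lf (nat_lit 0) (nat_lit 2295225264) (nat_lit 1368) (nat_lit 10494321537) (nat_lit 76) (nat_lit 2512398561) (nat_lit 402) (nat_lit 5) (nat_lit 420) (nat_lit 5) (nat_lit 403) (nat_lit 5) (nat_lit 459) (nat_lit 432) (nat_lit 249)) (XT.nd (nat_lit 78) (nat_lit 912) (nat_lit 0) (XT.lf (nat_lit 0) (nat_lit 3864567330) (nat_lit 1368) (nat_lit 2461254412) (nat_lit 76) (nat_lit 9138206719) (nat_lit 402) (nat_lit 5) (nat_lit 420) (nat_lit 5) (nat_lit 403) (nat_lit 5) (nat_lit 460) (nat_lit 432) (nat_lit 248)) (XT.lf (nat_lit 0) (nat_lit 5496986663) (nat_lit 988) (nat_lit 9829310803) (nat_lit 76) (nat_lit 302424080) (nat_lit 390) (nat_lit 5) (nat_lit 403) (nat_lit 5) (nat_lit 391) (nat_lit 5) (nat_lit 461) (nat_lit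 432) (nat_lit 247)))) (XT.nd (nat_lit 78) (nat_lit 836) (nat_lit 0) (XT.lf (nat_lit 0) (nat_lit 7212722274) (nat_lit 988) (nat_lit 1586966503) (nat_lit 76) (nat_lit 6996008452) (nat_lit 390) (nat_lit 5) (nat_lit 403) (nat_lit 5) (nat_lit 391) (nat_lit 5) (nat_lit 462) (nat_lit 432) (nat_lit 246)) (XT.nd (nat_lit 78) (nat_lit 0) (nat_lit 0) (XT.lf (nat_lit 0) (nat_lit 6903671247) (nat_lit 836) (nat_lit 2096227836) (nat_lit 912) (nat_lit 6965372862) (nat_lit 379) (nat_lit 5) (nat_lit 390) (nat_lit 5) (nat_lit 391) (nat_lit 5) (nat_lit 463) (nat_lit 432) (nat_lit 245)) (XT.lf (nat_lit 0) (nat_lit 10856734953) (nat_lit 912) (nat_lit 590452871) (nat_lit 76) (nat_lit 4690374032) (nat_lit 379) (nat_lit 5) (nat_lit 391) (nat_lit 5) (nat_lit 380) (nat_lit 5) (nat_lit 464) (nat_lit 432) (nat_lit 244))))) (XT.nd (nat_lit 234) (nat_lit 1596) (nat_lit 0) (XT.nd (nat_lit 78) (nat_lit 912) (nat_lit 0) (XT.lf (nat_lit 0) (nat_lit 8135873366)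 (nat_lit 912) (nat_lit 4674100686) (nat_lit 988) (nat_lit 3502140154) (nat_lit 367) (nat_lit 5) (nat_lit 379) (nat_lit 5) (nat_lit 380) (nat_lit 5) (nat_lit 465) (nat_lit 432) (nat_lit 243)) (XT.nd (nat_lit 78) (nat_lit 76) (nat_lit 0) (XT.lf (nat_lit 0) (nat_lit 540030361) (nat_lit 836) (nat_lit 14276912912) (nat_lit 912) (nat_lit 1672922955) (nat_lit 356) (nat_lit 5) (nat_lit 367) (nat_lit 5) (nat_lit 368) (nat_lit 5) (nat_lit 466) (nat_lit 432) (nat_lit 242)) (XT.lf (nat_lit 0) (nat_lit 269244392) (nat_lit 912) (nat_lit 7168409375) (nat_lit 76) (nat_lit 9231918426) (nat_lit 355) (nat_lit 5) (nat_lit 367) (nat_lit 5) (nat_lit 356) (nat_lit 5) (nat_lit 467) (nat_lit 432) (nat_lit 241)))) (XT.nd (nat_lit 78) (nat_lit 760) (nat_lit 0) (XT.lf (nat_lit 0) (nat_lit 1794015579) (nat_lit 836) (nat_lit 438361768) (nat_lit 912) (nat_lit 14620185136) (nat_lit 344) (nat_lit 5) (nat_lit 355) (nat_lit 5) (nat_lit 356) (nat_lit 5) (nat_lit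 468) (nat_lit 432) (nat_lit 240)) (XT.nd (nat_lit 78) (nat_lit 760) (nat_lit 0) (XT.lf (nat_lit 0) (nat_lit 4319650518) (nat_lit 912) (nat_lit 6056393460) (nat_lit 76) (nat_lit 6661472836) (nat_lit 344) (nat_lit 5) (nat_lit 356) (nat_lit 5) (nat_lit 345) (nat_lit 5) (nat_lit 469) (nat_lit 432) (nat_lit 239)) (XT.lf (nat_lit 0) (nat_lit 3157272599) (nat_lit 760) (nat_lit 3307885381) (nat_lit 836) (nat_lit 10760684225) (nat_lit 334) (nat_lit 5) (nat_lit 344) (nat_lit 5) (nat_lit 345) (nat_lit 5) (nat_lit 470) (nat_lit 432) (nat_lit 238))))))))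
noncomputable def xc208 : XT := (XT.nd (nat_lit 1716) (nat_lit 4180) (nat_lit 0) (XT.nd (nat_lit 858) (nat_lit 3800) (nat_lit 0) (XT.nd (nat_lit 390) (nat_lit 2812) (nat_lit 0) (XT.nd (nat_lit 156) (nat_lit 836) (nat_lit 0) (XT.nd (nat_lit 78) (nat_lit 760) (nat_lit 0) (XT.lf (nat_lit 0) (nat_lit 8712994101) (nat_lit 836) (nat_lit 4812540851) (nat_lit 76) (nat_lit 3891212496) (nat_lit 334) (nat_lit 5) (nat_lit 345) (nat_lit 5) (nat_lit 335) (nat_lit 5) (nat_lit 471) (nat_lit 432) (nat_lit 237)) (XT.lf (nat_lit 0) (nat_lit 4660843074) (nat_lit 760) (nat_lit 6390421249) (nat_lit 836) (nat_lit 6559298610) (nat_lit 324) (nat_lit 5) (nat_lit 334) (nat_lit 5) (nat_lit 335) (nat_lit 5) (nat_lit 472) (nat_lit 432) (nat_lit 236))) (XT.nd (nat_lit 78) (nat_lit 836) (nat_lit 0) (XT.lf (nat_lit 0) (nat_lit 13467963566) (nat_lit 836) (nat_lit 3431726583) (nat_lit 76) (nat_lit 907932954) (nat_lit 324) (nat_lit 5) (nat_lit 335) (nat_lit 5)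 (nat_lit 325) (nat_lit 5) (nat_lit 473) (nat_lit 432) (nat_lit 235)) (XT.nd (nat_lit 78) (nat_lit 76) (nat_lit 0) (XT.lf (nat_lit 0) (nat_lit 6310130800) (nat_lit 760) (nat_lit 9699679263) (nat_lit 836) (nat_lit 1997279765) (nat_lit 314) (nat_lit 5) (nat_lit 324) (nat_lit 5) (nat_lit 325) (nat_lit 5) (nat_lit 474) (nat_lit 432) (nat_lit 234)) (XT.lf (nat_lit 0) (nat_lit 403549748) (nat_lit 836) (nat_lit 1926414409) (nat_lit 76) (nat_lit 15880197538) (nat_lit 313) (nat_lit 5) (nat_lit 324) (nat_lit 5) (nat_lit 314) (nat_lit 5) (nat_lit 475) (nat_lit 432) (nat_lit 233))))) (XT.nd (nat_lit 234) (nat_lit 1368) (nat_lit 0) (XT.nd (nat_lit 78) (nat_lit 684) (nat_lit 0) (XT.lf (nat_lit 0) (nat_lit 2906236611) (nat_lit 836) (nat_lit 10324164633) (nat_lit 76) (nat_lit 5185019550) (nat_lit 303) (nat_lit 5) (nat_lit 314) (nat_lit 5) (nat_lit 304) (nat_lit 5) (nat_lit 476) (nat_lit 432) (nat_lit 232)) (XT.nd (nat_lit 78) (nat_lit 684) (nat_lit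 0) (XT.lf (nat_lit 0) (nat_lit 5481183985) (nat_lit 836) (nat_lit 311565013) (nat_lit 76) (nat_lit 12831593436) (nat_lit 303) (nat_lit 5) (nat_lit 314) (nat_lit 5) (nat_lit 304) (nat_lit 5) (nat_lit 477) (nat_lit 432) (nat_lit 231)) (XT.lf (nat_lit 0) (nat_lit 8178684081) (nat_lit 760) (nat_lit 8822337579) (nat_lit 76) (nat_lit 1835001236) (nat_lit 294) (nat_lit 5) (nat_lit 304) (nat_lit 5) (nat_lit 295) (nat_lit 5) (nat_lit 478) (nat_lit 432) (nat_lit 230)))) (XT.nd (nat_lit 78) (nat_lit 684) (nat_lit 0) (XT.lf (nat_lit 0) (nat_lit 1471842613) (nat_lit 684) (nat_lit 9502272514) (nat_lit 760) (nat_lit 8076943657) (nat_lit 285) (nat_lit 5) (nat_lit 294) (nat_lit 5) (nat_lit 295) (nat_lit 5) (nat_lit 479) (nat_lit 432) (nat_lit 229)) (XT.nd (nat_lit 78) (nat_lit 684) (nat_lit 0) (XT.lf (nat_lit 0) (nat_lit 12084687309) (nat_lit 684) (nat_lit 1794001872) (nat_lit 760) (nat_lit 5390642928) (nat_lit 285) (nat_lit 5) (nat_lit 294)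 (nat_lit 5) (nat_lit 295) (nat_lit 5) (nat_lit 480) (nat_lit 432) (nat_lit 228)) (XT.lf (nat_lit 0) (nat_lit 3416437116) (nat_lit 684) (nat_lit 13480643208) (nat_lit 760) (nat_lit 2593777444) (nat_lit 276) (nat_lit 5) (nat_lit 285) (nat_lit 5) (nat_lit 286) (nat_lit 5) (nat_lit 481) (nat_lit 432) (nat_lit 227)))))) (XT.nd (nat_lit 390) (nat_lit 2432) (nat_lit 0) (XT.nd (nat_lit 156) (nat_lit 608) (nat_lit 0) (XT.nd (nat_lit 78) (nat_lit 684) (nat_lit 0) (XT.lf (nat_lit 0) (nat_lit 310215965) (nat_lit 760) (nat_lit 5409622975) (nat_lit 76) (nat_lit 13995850937) (nat_lit 275) (nat_lit 5) (nat_lit 285) (nat_lit 5) (nat_lit 276) (nat_lit 5) (nat_lit 482) (nat_lit 432) (nat_lit 226)) (XT.lf (nat_lit 0) (nat_lit 3282303649) (nat_lit 760) (nat_lit 14441716728) (nat_lit 76) (nat_lit 2219761753) (nat_lit 266) (nat_lit 5) (nat_lit 276) (nat_lit 5) (nat_lit 267) (nat_lit 5) (nat_lit 483) (nat_lit 432) (nat_lit 225))) (XT.nd (nat_lit 78)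 (nat_lit 608) (nat_lit 0) (XT.lf (nat_lit 0) (nat_lit 6382606124) (nat_lit 760) (nat_lit 3515265620) (nat_lit 76) (nat_lit 10277190296) (nat_lit 266) (nat_lit 5) (nat_lit 276) (nat_lit 5) (nat_lit 267) (nat_lit 5) (nat_lit 484) (nat_lit 432) (nat_lit 224)) (XT.nd (nat_lit 78) (nat_lit 0) (nat_lit 0) (XT.lf (nat_lit 0) (nat_lit 7724402122) (nat_lit 608) (nat_lit 1865126710) (nat_lit 684) (nat_lit 10820547684) (nat_lit 258) (nat_lit 5) (nat_lit 266) (nat_lit 5) (nat_lit 267) (nat_lit 5) (nat_lit 485) (nat_lit 432) (nat_lit 223)) (XT.lf (nat_lit 0) (nat_lit 12919943808) (nat_lit 684) (nat_lit 1460728751) (nat_lit 76) (nat_lit 6267932871) (nat_lit 258) (nat_lit 5) (nat_lit 267) (nat_lit 5) (nat_lit 259) (nat_lit 5) (nat_lit 486) (nat_lit 432) (nat_lit 222))))) (XT.nd (nat_lit 234) (nat_lit 1140) (nat_lit 0) (XT.nd (nat_lit 78) (nat_lit 684) (nat_lit 0) (XT.lf (nat_lit 0) (nat_lit 10102309283) (nat_lit 608) (nat_lit 6287228921) (nat_lit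 684) (nat_lit 4500916498) (nat_lit 250) (nat_lit 5) (nat_lit 258) (nat_lit 5) (nat_lit 259) (nat_lit 5) (nat_lit 487) (nat_lit 432) (nat_lit 221)) (XT.nd (nat_lit 78) (nat_lit 76) (nat_lit 0) (XT.lf (nat_lit 0) (nat_lit 770116129) (nat_lit 608) (nat_lit 19180737457) (nat_lit 684) (nat_lit 1185841968) (nat_lit 242) (nat_lit 5) (nat_lit 250) (nat_lit 5) (nat_lit 251) (nat_lit 5) (nat_lit 488) (nat_lit 432) (nat_lit 220)) (XT.lf (nat_lit 0) (nat_lit 2275959487) (nat_lit 684) (nat_lit 8743638633) (nat_lit 76) (nat_lit 10365794733) (nat_lit 241) (nat_lit 5) (nat_lit 250) (nat_lit 5) (nat_lit 242) (nat_lit 5) (nat_lit 489) (nat_lit 432) (nat_lit 219)))) (XT.nd (nat_lit 78) (nat_lit 532) (nat_lit 0) (XT.lf (nat_lit 0) (nat_lit 3138567874) (nat_lit 608) (nat_lit 2667756334) (nat_lit 684) (nat_lit 15832280119) (nat_lit 233) (nat_lit 5) (nat_lit 241) (nat_lit 5) (nat_lit 242) (nat_lit 5) (nat_lit 490) (nat_lit 432) (nat_lit 218)) (XT.nd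 (nat_lit 78) (nat_lit 532) (nat_lit 0) (XT.lf (nat_lit 0) (nat_lit 9499212843) (nat_lit 684) (nat_lit 6563698564) (nat_lit 76) (nat_lit 5832131379) (nat_lit 233) (nat_lit 5) (nat_lit 242) (nat_lit 5) (nat_lit 234) (nat_lit 5) (nat_lit 491) (nat_lit 432) (nat_lit 217)) (XT.lf (nat_lit 0) (nat_lit 5661524341) (nat_lit 532) (nat_lit 7653825501) (nat_lit 608) (nat_lit 8840273427) (nat_lit 226) (nat_lit 5) (nat_lit 233) (nat_lit 5) (nat_lit 234) (nat_lit 5) (nat_lit 492) (nat_lit 432) (nat_lit 216))))))) (XT.nd (nat_lit 858) (nat_lit 988) (nat_lit 0) (XT.nd (nat_lit 390) (nat_lit 1520) (nat_lit 0) (XT.nd (nat_lit 156) (nat_lit 1140) (nat_lit 0) (XT.nd (nat_lit 78) (nat_lit 532) (nat_lit 0) (XT.lf (nat_lit 0) (nat_lit 17253155854) (nat_lit 608) (nat_lit 4213072954) (nat_lit 76) (nat_lit 954280674) (nat_lit 226) (nat_lit 5) (nat_lit 234) (nat_lit 5) (nat_lit 227) (nat_lit 5) (nat_lit 493) (nat_lit 432) (nat_lit 215)) (XT.lf (nat_lit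 0) (nat_lit 8366262379) (nat_lit 532) (nat_lit 13003573406) (nat_lit 608) (nat_lit 1318856304) (nat_lit 219) (nat_lit 5) (nat_lit 226) (nat_lit 5) (nat_lit 227) (nat_lit 5) (nat_lit 494) (nat_lit 432) (nat_lit 214))) (XT.nd (nat_lit 78) (nat_lit 1064) (nat_lit 0) (XT.lf (nat_lit 0) (nat_lit 2596016763) (nat_lit 608) (nat_lit 1730862767) (nat_lit 76) (nat_lit 18634549487) (nat_lit 218) (nat_lit 5) (nat_lit 226) (nat_lit 5) (nat_lit 219) (nat_lit 5) (nat_lit 495) (nat_lit 432) (nat_lit 213)) (XT.nd (nat_lit 78) (nat_lit 532) (nat_lit 0) (XT.lf (nat_lit 0) (nat_lit 6669683119) (nat_lit 608) (nat_lit 12022948089) (nat_lit 76) (nat_lit 4544852982) (nat_lit 211) (nat_lit 5) (nat_lit 219) (nat_lit 5) (nat_lit 212) (nat_lit 5) (nat_lit 496) (nat_lit 432) (nat_lit 212)) (XT.lf (nat_lit 0) (nat_lit 900260290) (nat_lit 532) (nat_lit 9966026192) (nat_lit 608) (nat_lit 12651945660) (nat_lit 204) (nat_lit 5) (nat_lit 211) (nat_lit 5) (nat_lit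 212) (nat_lit 5) (nat_lit 497) (nat_lit 432) (nat_lit 211))))) (XT.nd (nat_lit 234) (nat_lit 988) (nat_lit 0) (XT.nd (nat_lit 78) (nat_lit 532) (nat_lit 0) (XT.lf (nat_lit 0) (nat_lit 14238656344) (nat_lit 532) (nat_lit 984169844) (nat_lit 608) (nat_lit 8580249706) (nat_lit 204) (nat_lit 5) (nat_lit 211) (nat_lit 5) (nat_lit 212) (nat_lit 5) (nat_lit 498) (nat_lit 432) (nat_lit 210)) (XT.nd (nat_lit 78) (nat_lit 76) (nat_lit 0) (XT.lf (nat_lit 0) (nat_lit 3739950583) (nat_lit 456) (nat_lit 15999326585) (nat_lit 532) (nat_lit 4352884655) (nat_lit 198) (nat_lit 5) (nat_lit 204) (nat_lit 5) (nat_lit 205) (nat_lit 5) (nat_lit 499) (nat_lit 432) (nat_lit 209)) (XT.lf (nat_lit 0) (nat_lit 26114754) (nat_lit 532) (nat_lit 6958597740) (nat_lit 76) (nat_lit 17400992179) (nat_lit 197) (nat_lit 5) (nat_lit 204) (nat_lit 5) (nat_lit 198) (nat_lit 5) (nat_lit 500) (nat_lit 432) (nat_lit 208)))) (XT.nd (nat_lit 78) (nat_lit 456) (nat_lit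 0) (XT.lf (nat_lit 0) (nat_lit 4488666932) (nat_lit 608) (nat_lit 17942010786) (nat_lit 76) (nat_lit 2252780909) (nat_lit 190) (nat_lit 5) (nat_lit 198) (nat_lit 5) (nat_lit 191) (nat_lit 5) (nat_lit 501) (nat_lit 432) (nat_lit 207)) (XT.nd (nat_lit 78) (nat_lit 456) (nat_lit 0) (XT.lf (nat_lit 0) (nat_lit 9129283970) (nat_lit 608) (nat_lit 4229127556) (nat_lit 76) (nat_lit 11626980699) (nat_lit 190) (nat_lit 5) (nat_lit 198) (nat_lit 5) (nat_lit 191) (nat_lit 5) (nat_lit 502) (nat_lit 432) (nat_lit 206)) (XT.lf (nat_lit 0) (nat_lit 9881584495) (nat_lit 456) (nat_lit 4040926208) (nat_lit 532) (nat_lit 11369658671) (nat_lit 184) (nat_lit 5) (nat_lit 190) (nat_lit 5) (nat_lit 191) (nat_lit 5) (nat_lit 503) (nat_lit 432) (nat_lit 205)))))) (XT.nd (nat_lit 53898) (nat_lit 0) (nat_lit 21584) (XT.nd (nat_lit 156) (nat_lit 532) (nat_lit 0) (XT.nd (nat_lit 78) (nat_lit 456) (nat_lit 0) (XT.lf (nat_lit 0) (nat_lit 18871313720) (nat_lit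 532) (nat_lit 1314397681) (nat_lit 76) (nat_lit 5418177237) (nat_lit 184) (nat_lit 5) (nat_lit 191) (nat_lit 5) (nat_lit 185) (nat_lit 5) (nat_lit 504) (nat_lit 432) (nat_lit 204)) (XT.lf (nat_lit 0) (nat_lit 13204182127) (nat_lit 456) (nat_lit 10823162182) (nat_lit 532) (nat_lit 1892333741) (nat_lit 178) (nat_lit 5) (nat_lit 184) (nat_lit 5) (nat_lit 185) (nat_lit 5) (nat_lit 505) (nat_lit 432) (nat_lit 203))) (XT.nd (nat_lit 78) (nat_lit 0) (nat_lit 0) (XT.lf (nat_lit 0) (nat_lit 1786990658) (nat_lit 456) (nat_lit 1234047035) (nat_lit 532) (nat_lit 23220025806) (nat_lit 171) (nat_lit 5) (nat_lit 177) (nat_lit 5) (nat_lit 178) (nat_lit 5) (nat_lit 506) (nat_lit 432) (nat_lit 202)) (XT.nd (nat_lit 53586) (nat_lit 0) (nat_lit 21584) (XT.lf (nat_lit 0) (nat_lit 8144555842) (nat_lit 532) (nat_lit 9889866966) (nat_lit 76) (nat_lit 8531460077) (nat_lit 171) (nat_lit 5) (nat_lit 178) (nat_lit 5) (nat_lit 172) (nat_lit 5) (nat_lit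 507) (nat_lit 432) (nat_lit 201)) (XT.lf (nat_lit 0) (nat_lit 2106414669) (nat_lit 1748) (nat_lit 1934848439) (nat_lit 1748) (nat_lit 1934848439) (nat_lit 455) (nat_lit 3) (nat_lit 478) (nat_lit 3) (nat_lit 478) (nat_lit 5) (nat_lit 433) (nat_lit 433) (nat_lit 274))))) (XT.nd (nat_lit 234) (nat_lit 0) (nat_lit 152) (XT.nd (nat_lit 78) (nat_lit 0) (nat_lit 76) (XT.lf (nat_lit 76) (nat_lit 1923419285) (nat_lit 0) (nat_lit 2816339491) (nat_lit 1748) (nat_lit 7322151698) (nat_lit 456) (nat_lit 5) (nat_lit 455) (nat_lit 3) (nat_lit 478) (nat_lit 5) (nat_lit 434) (nat_lit 433) (nat_lit 273)) (XT.nd (nat_lit 78) (nat_lit 0) (nat_lit 0) (XT.lf (nat_lit 0) (nat_lit 5307564949) (nat_lit 1672) (nat_lit 4311877104) (nat_lit 1748) (nat_lit 2553746427) (nat_lit 456) (nat_lit 5) (nat_lit 478) (nat_lit 5) (nat_lit 479) (nat_lit 5) (nat_lit 435) (nat_lit 433) (nat_lit 272)) (XT.lf (nat_lit 76) (nat_lit 1627397351) (nat_lit 0) (nat_lit 4276398866)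 (nat_lit 1748) (nat_lit 6382558019) (nat_lit 457) (nat_lit 5) (nat_lit 456) (nat_lit 5) (nat_lit 479) (nat_lit 5) (nat_lit 436) (nat_lit 433) (nat_lit 271)))) (XT.nd (nat_lit 78) (nat_lit 0) (nat_lit 0) (XT.lf (nat_lit 0) (nat_lit 6536780578) (nat_lit 1672) (nat_lit 4671908377) (nat_lit 1748) (nat_lit 1192601284) (nat_lit 457) (nat_lit 5) (nat_lit 479) (nat_lit 5) (nat_lit 480) (nat_lit 5) (nat_lit 437) (nat_lit 433) (nat_lit 270)) (XT.nd (nat_lit 78) (nat_lit 0) (nat_lit 0) (XT.lf (nat_lit 76) (nat_lit 1418498862) (nat_lit 0) (nat_lit 5789772498) (nat_lit 1748) (nat_lit 5309740099) (nat_lit 458) (nat_lit 5) (nat_lit 457) (nat_lit 5) (nat_lit 480) (nat_lit 5) (nat_lit 438) (nat_lit 433) (nat_lit 269)) (XT.lf (nat_lit 76) (nat_lit 7687421462) (nat_lit 0) (nat_lit 225623935) (nat_lit 1748) (nat_lit 4723628001) (nat_lit 458) (nat_lit 5) (nat_lit 457) (nat_lit 5) (nat_lit 480) (nat_lit 5) (nat_lit 439) (nat_lit 433) (nat_lit 268))))))))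
noncomputable def xc209 : XT := (XT.nd (nat_lit 1716) (nat_lit 10336) (nat_lit 0) (XT.nd (nat_lit 858) (nat_lit 2736) (nat_lit 0) (XT.nd (nat_lit 390) (nat_lit 1520) (nat_lit 0) (XT.nd (nat_lit 156) (nat_lit 0) (nat_lit 76) (XT.nd (nat_lit 78) (nat_lit 0) (nat_lit 0) (XT.lf (nat_lit 76) (nat_lit 1298913992) (nat_lit 0) (nat_lit 7365577052) (nat_lit 1748) (nat_lit 4092569307) (nat_lit 459) (nat_lit 5) (nat_lit 458) (nat_lit 5) (nat_lit 481) (nat_lit 5) (nat_lit 440) (nat_lit 433) (nat_lit 267)) (XT.lf (nat_lit 76) (nat_lit 7730910345) (nat_lit 0) (nat_lit 1723687530) (nat_lit 1748) (nat_lit 3424787756) (nat_lit 459) (nat_lit 5) (nat_lit 458) (nat_lit 5) (nat_lit 481) (nat_lit 5) (nat_lit 441) (nat_lit 433) (nat_lit 266))) (XT.nd (nat_lit 78) (nat_lit 0) (nat_lit 0) (XT.lf (nat_lit 76) (nat_lit 1271063666) (nat_lit 0) (nat_lit 9013048446) (nat_lit 1748) (nat_lit 2719576370) (nat_lit 460) (nat_lit 5) (nat_lit 459) (nat_lit 5) (nat_lit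 482) (nat_lit 5) (nat_lit 442) (nat_lit 433) (nat_lit 265)) (XT.nd (nat_lit 78) (nat_lit 0) (nat_lit 76) (XT.lf (nat_lit 76) (nat_lit 7870436793) (nat_lit 0) (nat_lit 3295017501) (nat_lit 1748) (nat_lit 1964321452) (nat_lit 460) (nat_lit 5) (nat_lit 459) (nat_lit 5) (nat_lit 482) (nat_lit 5) (nat_lit 443) (nat_lit 433) (nat_lit 264)) (XT.lf (nat_lit 76) (nat_lit 1337598835) (nat_lit 0) (nat_lit 10741565510) (nat_lit 1748) (nat_lit 1178928635) (nat_lit 461) (nat_lit 5) (nat_lit 460) (nat_lit 5) (nat_lit 483) (nat_lit 5) (nat_lit 444) (nat_lit 433) (nat_lit 263))))) (XT.nd (nat_lit 234) (nat_lit 0) (nat_lit 0) (XT.nd (nat_lit 78) (nat_lit 1672) (nat_lit 0) (XT.lf (nat_lit 76) (nat_lit 8108818755) (nat_lit 0) (nat_lit 4949042536) (nat_lit 1748) (nat_lit 330184002) (nat_lit 461) (nat_lit 5) (nat_lit 460) (nat_lit 5) (nat_lit 483) (nat_lit 5) (nat_lit 445) (nat_lit 433) (nat_lit 262)) (XT.nd (nat_lit 78) (nat_lit 0) (nat_lit 0) (XT.lf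 (nat_lit 0) (nat_lit 534489960) (nat_lit 1748) (nat_lit 12022597021) (nat_lit 1824) (nat_lit 963323441) (nat_lit 438) (nat_lit 5) (nat_lit 461) (nat_lit 5) (nat_lit 462) (nat_lit 5) (nat_lit 446) (nat_lit 433) (nat_lit 261)) (XT.lf (nat_lit 0) (nat_lit 1470525206) (nat_lit 1748) (nat_lit 5214973562) (nat_lit 1824) (nat_lit 6968713470) (nat_lit 438) (nat_lit 5) (nat_lit 461) (nat_lit 5) (nat_lit 462) (nat_lit 5) (nat_lit 447) (nat_lit 433) (nat_lit 260)))) (XT.nd (nat_lit 78) (nat_lit 0) (nat_lit 76) (XT.lf (nat_lit 76) (nat_lit 1744805105) (nat_lit 0) (nat_lit 682048324) (nat_lit 1824) (nat_lit 11363807974) (nat_lit 439) (nat_lit 5) (nat_lit 438) (nat_lit 5) (nat_lit 462) (nat_lit 5) (nat_lit 448) (nat_lit 433) (nat_lit 259)) (XT.nd (nat_lit 78) (nat_lit 0) (nat_lit 0) (XT.lf (nat_lit 0) (nat_lit 3463273599) (nat_lit 1748) (nat_lit 5057279685) (nat_lit 1824) (nat_lit 5408069667) (nat_lit 439) (nat_lit 5) (nat_lit 462) (nat_lit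 5) (nat_lit 463) (nat_lit 5) (nat_lit 449) (nat_lit 433) (nat_lit 258)) (XT.lf (nat_lit 76) (nat_lit 2087013012) (nat_lit 0) (nat_lit 2442073141) (nat_lit 1824) (nat_lit 9540086951) (nat_lit 440) (nat_lit 5) (nat_lit 439) (nat_lit 5) (nat_lit 463) (nat_lit 5) (nat_lit 450) (nat_lit 433) (nat_lit 257)))))) (XT.nd (nat_lit 390) (nat_lit 2888) (nat_lit 0) (XT.nd (nat_lit 156) (nat_lit 0) (nat_lit 76) (XT.nd (nat_lit 78) (nat_lit 0) (nat_lit 0) (XT.lf (nat_lit 0) (nat_lit 5665528202) (nat_lit 1748) (nat_lit 4800803326) (nat_lit 1824) (nat_lit 3745219066) (nat_lit 440) (nat_lit 5) (nat_lit 463) (nat_lit 5) (nat_lit 464) (nat_lit 5) (nat_lit 451) (nat_lit 433) (nat_lit 256)) (XT.lf (nat_lit 76) (nat_lit 2534316407) (nat_lit 0) (nat_lit 4313943357) (nat_lit 1824) (nat_lit 7508047206) (nat_lit 441) (nat_lit 5) (nat_lit 440) (nat_lit 5) (nat_lit 464) (nat_lit 5) (nat_lit 452) (nat_lit 433) (nat_lit 255))) (XT.nd (nat_lit 78) (nat_lit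 0) (nat_lit 0) (XT.lf (nat_lit 0) (nat_lit 8090890462) (nat_lit 1748) (nat_lit 4442126527) (nat_lit 1824) (nat_lit 1970219094) (nat_lit 441) (nat_lit 5) (nat_lit 464) (nat_lit 5) (nat_lit 465) (nat_lit 5) (nat_lit 453) (nat_lit 433) (nat_lit 254)) (XT.nd (nat_lit 78) (nat_lit 0) (nat_lit 76) (XT.lf (nat_lit 76) (nat_lit 3090356605) (nat_lit 0) (nat_lit 6307905804) (nat_lit 1824) (nat_lit 5254046049) (nat_lit 442) (nat_lit 5) (nat_lit 441) (nat_lit 5) (nat_lit 465) (nat_lit 5) (nat_lit 454) (nat_lit 433) (nat_lit 253)) (XT.lf (nat_lit 0) (nat_lit 10753451745) (nat_lit 1748) (nat_lit 3977610628) (nat_lit 1824) (nat_lit 72868910) (nat_lit 442) (nat_lit 5) (nat_lit 465) (nat_lit 5) (nat_lit 466) (nat_lit 5) (nat_lit 455) (nat_lit 433) (nat_lit 252))))) (XT.nd (nat_lit 234) (nat_lit 1368) (nat_lit 0) (XT.nd (nat_lit 78) (nat_lit 1672) (nat_lit 0) (XT.lf (nat_lit 76) (nat_lit 3759002103) (nat_lit 0) (nat_lit 8434484419) (nat_lit 1824)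 (nat_lit 2763947565) (nat_lit 443) (nat_lit 5) (nat_lit 442) (nat_lit 5) (nat_lit 466) (nat_lit 5) (nat_lit 456) (nat_lit 433) (nat_lit 251)) (XT.nd (nat_lit 78) (nat_lit 1672) (nat_lit 0) (XT.lf (nat_lit 76) (nat_lit 11697369216) (nat_lit 0) (nat_lit 1983326839) (nat_lit 1824) (nat_lit 1432945719) (nat_lit 443) (nat_lit 5) (nat_lit 442) (nat_lit 5) (nat_lit 466) (nat_lit 5) (nat_lit 457) (nat_lit 433) (nat_lit 250)) (XT.lf (nat_lit 0) (nat_lit 4544349552) (nat_lit 1748) (nat_lit 10704505332) (nat_lit 1824) (nat_lit 23096895) (nat_lit 420) (nat_lit 5) (nat_lit 443) (nat_lit 5) (nat_lit 444) (nat_lit 5) (nat_lit 458) (nat_lit 433) (nat_lit 249)))) (XT.nd (nat_lit 78) (nat_lit 1292) (nat_lit 0) (XT.lf (nat_lit 0) (nat_lit 1424516984) (nat_lit 1824) (nat_lit 2751948778) (nat_lit 76) (nat_lit 11256218153) (nat_lit 419) (nat_lit 5) (nat_lit 443) (nat_lit 5) (nat_lit 420) (nat_lit 5) (nat_lit 459) (nat_lit 433) (nat_lit 248)) (XT.nd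 (nat_lit 78) (nat_lit 0) (nat_lit 0) (XT.lf (nat_lit 0) (nat_lit 2944574271) (nat_lit 1368) (nat_lit 10164788490) (nat_lit 76) (nat_lit 2486391005) (nat_lit 402) (nat_lit 5) (nat_lit 420) (nat_lit 5) (nat_lit 403) (nat_lit 5) (nat_lit 460) (nat_lit 433) (nat_lit 247)) (XT.lf (nat_lit 0) (nat_lit 4533470934) (nat_lit 1368) (nat_lit 1981636875) (nat_lit 76) (nat_lit 9246210533) (nat_lit 402) (nat_lit 5) (nat_lit 420) (nat_lit 5) (nat_lit 403) (nat_lit 5) (nat_lit 461) (nat_lit 433) (nat_lit 246))))))) (XT.nd (nat_lit 858) (nat_lit 5168) (nat_lit 0) (XT.nd (nat_lit 390) (nat_lit 2508) (nat_lit 0) (XT.nd (nat_lit 156) (nat_lit 1748) (nat_lit 0) (XT.nd (nat_lit 78) (nat_lit 0) (nat_lit 0) (XT.lf (nat_lit 0) (nat_lit 6189972459) (nat_lit 988) (nat_lit 9488332863) (nat_lit 76) (nat_lit 251174398) (nat_lit 390) (nat_lit 5) (nat_lit 403) (nat_lit 5) (nat_lit 391) (nat_lit 5) (nat_lit 462) (nat_lit 433) (nat_lit 245)) (XT.lf (nat_lit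 0) (nat_lit 7928590506) (nat_lit 988) (nat_lit 1091682150) (nat_lit 76) (nat_lit 7079753950) (nat_lit 390) (nat_lit 5) (nat_lit 403) (nat_lit 5) (nat_lit 391) (nat_lit 5) (nat_lit 463) (nat_lit 433) (nat_lit 244))) (XT.nd (nat_lit 78) (nat_lit 912) (nat_lit 0) (XT.lf (nat_lit 0) (nat_lit 7565301094) (nat_lit 836) (nat_lit 2178400920) (nat_lit 912) (nat_lit 6529449967) (nat_lit 379) (nat_lit 5) (nat_lit 390) (nat_lit 5) (nat_lit 391) (nat_lit 5) (nat_lit 464) (nat_lit 433) (nat_lit 243)) (XT.nd (nat_lit 78) (nat_lit 912) (nat_lit 0) (XT.lf (nat_lit 0) (nat_lit 11626363406) (nat_lit 912) (nat_lit 77513746) (nat_lit 76) (nat_lit 4745239689) (nat_lit 379) (nat_lit 5) (nat_lit 391) (nat_lit 5) (nat_lit 380) (nat_lit 5) (nat_lit 465) (nat_lit 433) (nat_lit 242)) (XT.lf (nat_lit 0) (nat_lit 8819886725) (nat_lit 912) (nat_lit 4791331949) (nat_lit 988) (nat_lit 3016093405) (nat_lit 367) (nat_lit 5) (nat_lit 379) (nat_lit 5) (nat_lit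 380) (nat_lit 5) (nat_lit 466) (nat_lit 433) (nat_lit 241))))) (XT.nd (nat_lit 234) (nat_lit 760) (nat_lit 0) (XT.nd (nat_lit 78) (nat_lit 912) (nat_lit 0) (XT.lf (nat_lit 0) (nat_lit 1079822213) (nat_lit 836) (nat_lit 14571101297) (nat_lit 912) (nat_lit 1157846522) (nat_lit 356) (nat_lit 5) (nat_lit 367) (nat_lit 5) (nat_lit 368) (nat_lit 5) (nat_lit 467) (nat_lit 433) (nat_lit 240)) (XT.nd (nat_lit 78) (nat_lit 836) (nat_lit 0) (XT.lf (nat_lit 0) (nat_lit 805355514) (nat_lit 912) (nat_lit 6785970392) (nat_lit 76) (nat_lit 9400887976) (nat_lit 355) (nat_lit 5) (nat_lit 367) (nat_lit 5) (nat_lit 356) (nat_lit 5) (nat_lit 468) (nat_lit 433) (nat_lit 239)) (XT.lf (nat_lit 0) (nat_lit 2352243803) (nat_lit 836) (nat_lit 448492357) (nat_lit 912) (nat_lit 14378270769) (nat_lit 344) (nat_lit 5) (nat_lit 355) (nat_lit 5) (nat_lit 356) (nat_lit 5) (nat_lit 469) (nat_lit 433) (nat_lit 238)))) (XT.nd (nat_lit 78) (nat_lit 760) (nat_lit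 0) (XT.lf (nat_lit 0) (nat_lit 4919477268) (nat_lit 912) (nat_lit 5655008028) (nat_lit 76) (nat_lit 6793383201) (nat_lit 344) (nat_lit 5) (nat_lit 356) (nat_lit 5) (nat_lit 345) (nat_lit 5) (nat_lit 470) (nat_lit 433) (nat_lit 237)) (XT.nd (nat_lit 78) (nat_lit 0) (nat_lit 0) (XT.lf (nat_lit 0) (nat_lit 3739493765) (nat_lit 760) (nat_lit 3361703970) (nat_lit 836) (nat_lit 10458899152) (nat_lit 334) (nat_lit 5) (nat_lit 344) (nat_lit 5) (nat_lit 345) (nat_lit 5) (nat_lit 471) (nat_lit 433) (nat_lit 236)) (XT.lf (nat_lit 0) (nat_lit 9384133110) (nat_lit 836) (nat_lit 4389911509) (nat_lit 76) (nat_lit 3980975265) (nat_lit 334) (nat_lit 5) (nat_lit 345) (nat_lit 5) (nat_lit 335) (nat_lit 5) (nat_lit 472) (nat_lit 433) (nat_lit 235)))))) (XT.nd (nat_lit 468) (nat_lit 2128) (nat_lit 0) (XT.nd (nat_lit 234) (nat_lit 1520) (nat_lit 0) (XT.nd (nat_lit 78) (nat_lit 760) (nat_lit 0) (XT.lf (nat_lit 0) (nat_lit 5269526410) (nat_lit 760)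 (nat_lit 6493246349) (nat_lit 836) (nat_lit 6190069288) (nat_lit 324) (nat_lit 5) (nat_lit 334) (nat_lit 5) (nat_lit 335) (nat_lit 5) (nat_lit 473) (nat_lit 433) (nat_lit 234)) (XT.nd (nat_lit 78) (nat_lit 760) (nat_lit 0) (XT.lf (nat_lit 0) (nat_lit 14218347697) (nat_lit 836) (nat_lit 2985423457) (nat_lit 76) (nat_lit 950263833) (nat_lit 324) (nat_lit 5) (nat_lit 335) (nat_lit 5) (nat_lit 325) (nat_lit 5) (nat_lit 474) (nat_lit 433) (nat_lit 233)) (XT.lf (nat_lit 0) (nat_lit 6947883326) (nat_lit 760) (nat_lit 9857037260) (nat_lit 836) (nat_lit 1552695027) (nat_lit 314) (nat_lit 5) (nat_lit 324) (nat_lit 5) (nat_lit 325) (nat_lit 5) (nat_lit 475) (nat_lit 433) (nat_lit 232)))) (XT.nd (nat_lit 78) (nat_lit 1444) (nat_lit 0) (XT.lf (nat_lit 0) (nat_lit 880420381) (nat_lit 836) (nat_lit 1457079922) (nat_lit 76) (nat_lit 16227375477) (nat_lit 313) (nat_lit 5) (nat_lit 324) (nat_lit 5) (nat_lit 314) (nat_lit 5) (nat_lit 476) (nat_lit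 433) (nat_lit 231)) (XT.nd (nat_lit 78) (nat_lit 684) (nat_lit 0) (XT.lf (nat_lit 0) (nat_lit 3427514865) (nat_lit 836) (nat_lit 10017028098) (nat_lit 76) (nat_lit 5329812240) (nat_lit 303) (nat_lit 5) (nat_lit 314) (nat_lit 5) (nat_lit 304) (nat_lit 5) (nat_lit 477) (nat_lit 433) (nat_lit 230)) (XT.lf (nat_lit 0) (nat_lit 188221089) (nat_lit 684) (nat_lit 5857880711) (nat_lit 760) (nat_lit 12941512839) (nat_lit 294) (nat_lit 5) (nat_lit 303) (nat_lit 5) (nat_lit 304) (nat_lit 5) (nat_lit 478) (nat_lit 433) (nat_lit 229))))) (XT.nd (nat_lit 234) (nat_lit 1444) (nat_lit 0) (XT.nd (nat_lit 78) (nat_lit 684) (nat_lit 0) (XT.lf (nat_lit 0) (nat_lit 8791010779) (nat_lit 760) (nat_lit 8489809788) (nat_lit 76) (nat_lit 1922841099) (nat_lit 294) (nat_lit 5) (nat_lit 304) (nat_lit 5) (nat_lit 295) (nat_lit 5) (nat_lit 479) (nat_lit 433) (nat_lit 228)) (XT.nd (nat_lit 78) (nat_lit 0) (nat_lit 0) (XT.lf (nat_lit 0) (nat_lit 2006905490)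 (nat_lit 684) (nat_lit 9629928736) (nat_lit 760) (nat_lit 7786276460) (nat_lit 285) (nat_lit 5) (nat_lit 294) (nat_lit 5) (nat_lit 295) (nat_lit 5) (nat_lit 480) (nat_lit 433) (nat_lit 227)) (XT.lf (nat_lit 0) (nat_lit 12822092845) (nat_lit 684) (nat_lit 1768715999) (nat_lit 760) (nat_lit 5055116502) (nat_lit 285) (nat_lit 5) (nat_lit 294) (nat_lit 5) (nat_lit 295) (nat_lit 5) (nat_lit 481) (nat_lit 433) (nat_lit 226)))) (XT.nd (nat_lit 78) (nat_lit 760) (nat_lit 0) (XT.lf (nat_lit 0) (nat_lit 3985557424) (nat_lit 684) (nat_lit 13679130693) (nat_lit 760) (nat_lit 2207293006) (nat_lit 276) (nat_lit 5) (nat_lit 285) (nat_lit 5) (nat_lit 286) (nat_lit 5) (nat_lit 482) (nat_lit 433) (nat_lit 225)) (XT.nd (nat_lit 78) (nat_lit 684) (nat_lit 0) (XT.lf (nat_lit 0) (nat_lit 740548537) (nat_lit 760) (nat_lit 5021110295) (nat_lit 76) (nat_lit 14339765702) (nat_lit 275) (nat_lit 5) (nat_lit 285) (nat_lit 5) (nat_lit 276) (nat_lit 5) (nat_lit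 483) (nat_lit 433) (nat_lit 224)) (XT.lf (nat_lit 0) (nat_lit 3767448651) (nat_lit 760) (nat_lit 14229121917) (nat_lit 76) (nat_lit 2337602543) (nat_lit 266) (nat_lit 5) (nat_lit 276) (nat_lit 5) (nat_lit 267) (nat_lit 5) (nat_lit 484) (nat_lit 433) (nat_lit 223))))))))
noncomputable def xc210 : XT := (XT.nd (nat_lit 1716) (nat_lit 532) (nat_lit 0) (XT.nd (nat_lit 858) (nat_lit 3116) (nat_lit 0) (XT.nd (nat_lit 390) (nat_lit 1748) (nat_lit 0) (XT.nd (nat_lit 156) (nat_lit 1216) (nat_lit 0) (XT.nd (nat_lit 78) (nat_lit 608) (nat_lit 0) (XT.lf (nat_lit 0) (nat_lit 6921531706) (nat_lit 760) (nat_lit 3093973731) (nat_lit 76) (nat_lit 10554739549) (nat_lit 266) (nat_lit 5) (nat_lit 276) (nat_lit 5) (nat_lit 267) (nat_lit 5) (nat_lit 485) (nat_lit 433) (nat_lit 222)) (XT.lf (nat_lit 0) (nat_lit 8367253174) (nat_lit 608) (nat_lit 1820446285) (nat_lit 684) (nat_lit 10622359980) (nat_lit 258) (nat_lit 5) (nat_lit 266) (nat_lit 5) (nat_lit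 267) (nat_lit 5) (nat_lit 486) (nat_lit 433) (nat_lit 221))) (XT.nd (nat_lit 78) (nat_lit 1216) (nat_lit 0) (XT.lf (nat_lit 0) (nat_lit 13577276350) (nat_lit 684) (nat_lit 1003620455) (nat_lit 76) (nat_lit 6472612839) (nat_lit 258) (nat_lit 5) (nat_lit 267) (nat_lit 5) (nat_lit 259) (nat_lit 5) (nat_lit 487) (nat_lit 433) (nat_lit 220)) (XT.nd (nat_lit 78) (nat_lit 608) (nat_lit 0) (XT.lf (nat_lit 0) (nat_lit 10787478847) (nat_lit 608) (nat_lit 6324098315) (nat_lit 684) (nat_lit 4188714198) (nat_lit 250) (nat_lit 5) (nat_lit 258) (nat_lit 5) (nat_lit 259) (nat_lit 5) (nat_lit 488) (nat_lit 433) (nat_lit 219)) (XT.lf (nat_lit 0) (nat_lit 1272810132) (nat_lit 608) (nat_lit 19467307906) (nat_lit 684) (nat_lit 811420723) (nat_lit 242) (nat_lit 5) (nat_lit 250) (nat_lit 5) (nat_lit 251) (nat_lit 5) (nat_lit 489) (nat_lit 433) (nat_lit 218))))) (XT.nd (nat_lit 234) (nat_lit 1064) (nat_lit 0) (XT.nd (nat_lit 78) (nat_lit 608) (nat_lit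 0) (XT.lf (nat_lit 0) (nat_lit 2706690865) (nat_lit 684) (nat_lit 8435572770) (nat_lit 76) (nat_lit 10663050405) (nat_lit 241) (nat_lit 5) (nat_lit 250) (nat_lit 5) (nat_lit 242) (nat_lit 5) (nat_lit 490) (nat_lit 433) (nat_lit 217)) (XT.nd (nat_lit 78) (nat_lit 0) (nat_lit 0) (XT.lf (nat_lit 0) (nat_lit 3681100640) (nat_lit 608) (nat_lit 2622123990) (nat_lit 684) (nat_lit 15760455494) (nat_lit 233) (nat_lit 5) (nat_lit 241) (nat_lit 5) (nat_lit 242) (nat_lit 5) (nat_lit 491) (nat_lit 433) (nat_lit 216)) (XT.lf (nat_lit 0) (nat_lit 10063134972) (nat_lit 684) (nat_lit 6217702922) (nat_lit 76) (nat_lit 6044547764) (nat_lit 233) (nat_lit 5) (nat_lit 242) (nat_lit 5) (nat_lit 234) (nat_lit 5) (nat_lit 492) (nat_lit 433) (nat_lit 215)))) (XT.nd (nat_lit 78) (nat_lit 532) (nat_lit 0) (XT.lf (nat_lit 0) (nat_lit 6248884509) (nat_lit 532) (nat_lit 7702456451) (nat_lit 608) (nat_lit 8639923419) (nat_lit 226) (nat_lit 5) (nat_lit 233)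 (nat_lit 5) (nat_lit 234) (nat_lit 5) (nat_lit 493) (nat_lit 433) (nat_lit 214)) (XT.nd (nat_lit 78) (nat_lit 532) (nat_lit 0) (XT.lf (nat_lit 0) (nat_lit 17961319218) (nat_lit 608) (nat_lit 3825841367) (nat_lit 76) (nat_lit 1074420932) (nat_lit 226) (nat_lit 5) (nat_lit 234) (nat_lit 5) (nat_lit 227) (nat_lit 5) (nat_lit 494) (nat_lit 433) (nat_lit 213)) (XT.lf (nat_lit 0) (nat_lit 9001978745) (nat_lit 532) (nat_lit 13154275496) (nat_lit 608) (nat_lit 978956598) (nat_lit 219) (nat_lit 5) (nat_lit 226) (nat_lit 5) (nat_lit 227) (nat_lit 5) (nat_lit 495) (nat_lit 433) (nat_lit 212)))))) (XT.nd (nat_lit 390) (nat_lit 1520) (nat_lit 0) (XT.nd (nat_lit 156) (nat_lit 988) (nat_lit 0) (XT.nd (nat_lit 78) (nat_lit 532) (nat_lit 0) (XT.lf (nat_lit 0) (nat_lit 3002322436) (nat_lit 608) (nat_lit 1301491691) (nat_lit 76) (nat_lit 19109684006) (nat_lit 218) (nat_lit 5) (nat_lit 226) (nat_lit 5) (nat_lit 219) (nat_lit 5) (nat_lit 496) (nat_lit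 433) (nat_lit 211)) (XT.lf (nat_lit 0) (nat_lit 7154223569) (nat_lit 608) (nat_lit 11796109820) (nat_lit 76) (nat_lit 4744807199) (nat_lit 211) (nat_lit 5) (nat_lit 219) (nat_lit 5) (nat_lit 212) (nat_lit 5) (nat_lit 497) (nat_lit 433) (nat_lit 210))) (XT.nd (nat_lit 78) (nat_lit 456) (nat_lit 0) (XT.lf (nat_lit 0) (nat_lit 1382488403) (nat_lit 532) (nat_lit 10048399408) (nat_lit 608) (nat_lit 12550694490) (nat_lit 204) (nat_lit 5) (nat_lit 211) (nat_lit 5) (nat_lit 212) (nat_lit 5) (nat_lit 498) (nat_lit 433) (nat_lit 209)) (XT.nd (nat_lit 78) (nat_lit 456) (nat_lit 0) (XT.lf (nat_lit 0) (nat_lit 14978549969) (nat_lit 532) (nat_lit 889199018) (nat_lit 608) (nat_lit 8404511481) (nat_lit 204) (nat_lit 5) (nat_lit 211) (nat_lit 5) (nat_lit 212) (nat_lit 5) (nat_lit 499) (nat_lit 433) (nat_lit 208)) (XT.lf (nat_lit 0) (nat_lit 4272968066) (nat_lit 456) (nat_lit 16198589984) (nat_lit 532) (nat_lit 4095630811) (nat_lit 198) (nat_lit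 5) (nat_lit 204) (nat_lit 5) (nat_lit 205) (nat_lit 5) (nat_lit 500) (nat_lit 433) (nat_lit 207))))) (XT.nd (nat_lit 234) (nat_lit 912) (nat_lit 0) (XT.nd (nat_lit 78) (nat_lit 532) (nat_lit 0) (XT.lf (nat_lit 0) (nat_lit 359770216) (nat_lit 532) (nat_lit 6644045016) (nat_lit 76) (nat_lit 17862877152) (nat_lit 197) (nat_lit 5) (nat_lit 204) (nat_lit 5) (nat_lit 198) (nat_lit 5) (nat_lit 501) (nat_lit 433) (nat_lit 206)) (XT.nd (nat_lit 78) (nat_lit 0) (nat_lit 0) (XT.lf (nat_lit 0) (nat_lit 4908754905) (nat_lit 608) (nat_lit 17844245320) (nat_lit 76) (nat_lit 2417458813) (nat_lit 190) (nat_lit 5) (nat_lit 198) (nat_lit 5) (nat_lit 191) (nat_lit 5) (nat_lit 502) (nat_lit 433) (nat_lit 205)) (XT.lf (nat_lit 0) (nat_lit 9635707526) (nat_lit 608) (nat_lit 3866057478) (nat_lit 76) (nat_lit 11976797064) (nat_lit 190) (nat_lit 5) (nat_lit 198) (nat_lit 5) (nat_lit 191) (nat_lit 5) (nat_lit 503) (nat_lit 433) (nat_lit 204)))) (XT.nd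 (nat_lit 78) (nat_lit 456) (nat_lit 0) (XT.lf (nat_lit 0) (nat_lit 10523923730) (nat_lit 456) (nat_lit 3997412637) (nat_lit 532) (nat_lit 11270208841) (nat_lit 184) (nat_lit 5) (nat_lit 190) (nat_lit 5) (nat_lit 191) (nat_lit 5) (nat_lit 504) (nat_lit 433) (nat_lit 203)) (XT.nd (nat_lit 78) (nat_lit 456) (nat_lit 0) (XT.lf (nat_lit 0) (nat_lit 19563624991) (nat_lit 532) (nat_lit 899148525) (nat_lit 76) (nat_lit 5646836329) (nat_lit 184) (nat_lit 5) (nat_lit 191) (nat_lit 5) (nat_lit 185) (nat_lit 5) (nat_lit 505) (nat_lit 433) (nat_lit 202)) (XT.lf (nat_lit 0) (nat_lit 13906898030) (nat_lit 456) (nat_lit 10912551838) (nat_lit 532) (nat_lit 1612332858) (nat_lit 178) (nat_lit 5) (nat_lit 184) (nat_lit 5) (nat_lit 185) (nat_lit 5) (nat_lit 506) (nat_lit 433) (nat_lit 201))))))) (XT.nd (nat_lit 54444) (nat_lit 0) (nat_lit 20216) (XT.nd (nat_lit 53976) (nat_lit 0) (nat_lit 21736) (XT.nd (nat_lit 53742) (nat_lit 0) (nat_lit 21584)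 (XT.nd (nat_lit 53664) (nat_lit 0) (nat_lit 21584) (XT.lf (nat_lit 0) (nat_lit 2262674404) (nat_lit 456) (nat_lit 1129168814) (nat_lit 532) (nat_lit 23367778385) (nat_lit 171) (nat_lit 5) (nat_lit 177) (nat_lit 5) (nat_lit 178) (nat_lit 5) (nat_lit 507) (nat_lit 433) (nat_lit 200)) (XT.lf (nat_lit 0) (nat_lit 2617789424) (nat_lit 1748) (nat_lit 1734160749) (nat_lit 1748) (nat_lit 1734160749) (nat_lit 455) (nat_lit 3) (nat_lit 478) (nat_lit 3) (nat_lit 478) (nat_lit 5) (nat_lit 434) (nat_lit 434) (nat_lit 272))) (XT.nd (nat_lit 78) (nat_lit 0) (nat_lit 76) (XT.lf (nat_lit 76) (nat_lit 2437507191) (nat_lit 0) (nat_lit 3320225900) (nat_lit 1748) (nat_lit 6526681565) (nat_lit 456) (nat_lit 5) (nat_lit 455) (nat_lit 3) (nat_lit 478) (nat_lit 5) (nat_lit 435) (nat_lit 434) (nat_lit 271)) (XT.nd (nat_lit 78) (nat_lit 0) (nat_lit 0) (XT.lf (nat_lit 0) (nat_lit 6315944959) (nat_lit 1672) (nat_lit 3910605428) (nat_lit 1748) (nat_lit 2171792145)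 (nat_lit 456) (nat_lit 5) (nat_lit 478) (nat_lit 5) (nat_lit 479) (nat_lit 5) (nat_lit 436) (nat_lit 434) (nat_lit 270)) (XT.lf (nat_lit 76) (nat_lit 2144247218) (nat_lit 0) (nat_lit 4765307285) (nat_lit 1748) (nat_lit 5604513227) (nat_lit 457) (nat_lit 5) (nat_lit 456) (nat_lit 5) (nat_lit 479) (nat_lit 5) (nat_lit 437) (nat_lit 434) (nat_lit 269))))) (XT.nd (nat_lit 234) (nat_lit 0) (nat_lit 76) (XT.nd (nat_lit 78) (nat_lit 0) (nat_lit 0) (XT.lf (nat_lit 0) (nat_lit 7535225354) (nat_lit 1672) (nat_lit 4270312697) (nat_lit 1748) (nat_lit 826168963) (nat_lit 457) (nat_lit 5) (nat_lit 479) (nat_lit 5) (nat_lit 480) (nat_lit 5) (nat_lit 438) (nat_lit 434) (nat_lit 268)) (XT.nd (nat_lit 78) (nat_lit 0) (nat_lit 0) (XT.lf (nat_lit 76) (nat_lit 1938645885) (nat_lit 0) (nat_lit 6267679104) (nat_lit 1748) (nat_lit 4544719085) (nat_lit 458) (nat_lit 5) (nat_lit 457) (nat_lit 5) (nat_lit 480) (nat_lit 5) (nat_lit 439) (nat_lit 434) (nat_lit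 267)) (XT.lf (nat_lit 76) (nat_lit 8323304250) (nat_lit 0) (nat_lit 585147351) (nat_lit 1748) (nat_lit 3963967408) (nat_lit 458) (nat_lit 5) (nat_lit 457) (nat_lit 5) (nat_lit 480) (nat_lit 5) (nat_lit 440) (nat_lit 434) (nat_lit 266)))) (XT.nd (nat_lit 78) (nat_lit 0) (nat_lit 0) (XT.lf (nat_lit 76) (nat_lit 1823020591) (nat_lit 0) (nat_lit 7836465365) (nat_lit 1748) (nat_lit 3336041352) (nat_lit 459) (nat_lit 5) (nat_lit 458) (nat_lit 5) (nat_lit 481) (nat_lit 5) (nat_lit 441) (nat_lit 434) (nat_lit 265)) (XT.nd (nat_lit 78) (nat_lit 0) (nat_lit 76) (XT.lf (nat_lit 76) (nat_lit 8373889649) (nat_lit 0) (nat_lit 2075393411) (nat_lit 1748) (nat_lit 2671342981) (nat_lit 459) (nat_lit 5) (nat_lit 458) (nat_lit 5) (nat_lit 481) (nat_lit 5) (nat_lit 442) (nat_lit 434) (nat_lit 264)) (XT.lf (nat_lit 76) (nat_lit 1799919021) (nat_lit 0) (nat_lit 9480921947) (nat_lit 1748) (nat_lit 1966869529) (nat_lit 460) (nat_lit 5) (nat_lit 459)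 (nat_lit 5) (nat_lit 482) (nat_lit 5) (nat_lit 443) (nat_lit 434) (nat_lit 263)))))) (XT.nd (nat_lit 468) (nat_lit 0) (nat_lit 152) (XT.nd (nat_lit 234) (nat_lit 0) (nat_lit 76) (XT.nd (nat_lit 78) (nat_lit 1672) (nat_lit 0) (XT.lf (nat_lit 76) (nat_lit 8521408354) (nat_lit 0) (nat_lit 3642890921) (nat_lit 1748) (nat_lit 1212334971) (nat_lit 460) (nat_lit 5) (nat_lit 459) (nat_lit 5) (nat_lit 482) (nat_lit 5) (nat_lit 444) (nat_lit 434) (nat_lit 262)) (XT.nd (nat_lit 78) (nat_lit 1748) (nat_lit 0) (XT.lf (nat_lit 76) (nat_lit 1872118706) (nat_lit 0) (nat_lit 11210460143) (nat_lit 1748) (nat_lit 425217508) (nat_lit 461) (nat_lit 5) (nat_lit 460) (nat_lit 5) (nat_lit 483) (nat_lit 5) (nat_lit 445) (nat_lit 434) (nat_lit 261)) (XT.lf (nat_lit 0) (nat_lit 419683667) (nat_lit 1748) (nat_lit 4874605110) (nat_lit 1824) (nat_lit 8346306825) (nat_lit 437) (nat_lit 5) (nat_lit 460) (nat_lit 5) (nat_lit 461) (nat_lit 5) (nat_lit 446) (nat_lit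 434) (nat_lit 260)))) (XT.nd (nat_lit 78) (nat_lit 0) (nat_lit 0) (XT.lf (nat_lit 0) (nat_lit 1284232944) (nat_lit 1748) (nat_lit 11741819452) (nat_lit 1824) (nat_lit 749776107) (nat_lit 438) (nat_lit 5) (nat_lit 461) (nat_lit 5) (nat_lit 462) (nat_lit 5) (nat_lit 447) (nat_lit 434) (nat_lit 259)) (XT.nd (nat_lit 78) (nat_lit 0) (nat_lit 0) (XT.lf (nat_lit 0) (nat_lit 2224497656) (nat_lit 1748) (nat_lit 4808263711) (nat_lit 1824) (nat_lit 6879838913) (nat_lit 438) (nat_lit 5) (nat_lit 461) (nat_lit 5) (nat_lit 462) (nat_lit 5) (nat_lit 448) (nat_lit 434) (nat_lit 258)) (XT.lf (nat_lit 76) (nat_lit 2287348626) (nat_lit 0) (nat_lit 901692704) (nat_lit 1824) (nat_lit 10862959340) (nat_lit 439) (nat_lit 5) (nat_lit 438) (nat_lit 5) (nat_lit 462) (nat_lit 5) (nat_lit 449) (nat_lit 434) (nat_lit 257))))) (XT.nd (nat_lit 234) (nat_lit 0) (nat_lit 76) (XT.nd (nat_lit 78) (nat_lit 0) (nat_lit 0) (XT.lf (nat_lit 0) (nat_lit 4230885465)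 (nat_lit 1748) (nat_lit 4645230288) (nat_lit 1824) (nat_lit 5316915725) (nat_lit 439) (nat_lit 5) (nat_lit 462) (nat_lit 5) (nat_lit 463) (nat_lit 5) (nat_lit 450) (nat_lit 434) (nat_lit 256)) (XT.nd (nat_lit 78) (nat_lit 0) (nat_lit 76) (XT.lf (nat_lit 76) (nat_lit 2638571981) (nat_lit 0) (nat_lit 2669059303) (nat_lit 1824) (nat_lit 9028972871) (nat_lit 440) (nat_lit 5) (nat_lit 439) (nat_lit 5) (nat_lit 463) (nat_lit 5) (nat_lit 451) (nat_lit 434) (nat_lit 255)) (XT.lf (nat_lit 0) (nat_lit 6452178741) (nat_lit 1748) (nat_lit 4382184341) (nat_lit 1824) (nat_lit 3647762369) (nat_lit 440) (nat_lit 5) (nat_lit 463) (nat_lit 5) (nat_lit 464) (nat_lit 5) (nat_lit 452) (nat_lit 434) (nat_lit 254)))) (XT.nd (nat_lit 78) (nat_lit 0) (nat_lit 76) (XT.lf (nat_lit 76) (nat_lit 3096252030) (nat_lit 0) (nat_lit 4552429530) (nat_lit 1824) (nat_lit 6981296776) (nat_lit 441) (nat_lit 5) (nat_lit 440) (nat_lit 5) (nat_lit 464) (nat_lit 5) (nat_lit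 453) (nat_lit 434) (nat_lit 253)) (XT.nd (nat_lit 78) (nat_lit 0) (nat_lit 0) (XT.lf (nat_lit 0) (nat_lit 8902187066) (nat_lit 1748) (nat_lit 4015584451) (nat_lit 1824) (nat_lit 1862357712) (nat_lit 441) (nat_lit 5) (nat_lit 464) (nat_lit 5) (nat_lit 465) (nat_lit 5) (nat_lit 454) (nat_lit 434) (nat_lit 252)) (XT.lf (nat_lit 76) (nat_lit 3664157656) (nat_lit 0) (nat_lit 6562138121) (nat_lit 1824) (nat_lit 4706079055) (nat_lit 442) (nat_lit 5) (nat_lit 441) (nat_lit 5) (nat_lit 465) (nat_lit 5) (nat_lit 455) (nat_lit 434) (nat_lit 251))))))))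
noncomputable def xc211 : XT := (XT.nd (nat_lit 1716) (nat_lit 8284) (nat_lit 0) (XT.nd (nat_lit 858) (nat_lit 4104) (nat_lit 0) (XT.nd (nat_lit 390) (nat_lit 3952) (nat_lit 0) (XT.nd (nat_lit 156) (nat_lit 1672) (nat_lit 0) (XT.nd (nat_lit 78) (nat_lit 0) (nat_lit 76) (XT.lf (nat_lit 76) (nat_lit 11545300660) (nat_lit 0) (nat_lit 50248896) (nat_lit 1824) (nat_lit 3491744843) (nat_lit 442) (nat_lit 5) (nat_lit 441) (nat_lit 5) (nat_lit 465) (nat_lit 5) (nat_lit 456) (nat_lit 434) (nat_lit 250)) (XT.lf (nat_lit 76) (nat_lit 4346286078) (nat_lit 0) (nat_lit 8708809334) (nat_lit 1824) (nat_lit 2188961068) (nat_lit 443) (nat_lit 5) (nat_lit 442) (nat_lit 5) (nat_lit 466) (nat_lit 5) (nat_lit 457) (nat_lit 434) (nat_lit 249))) (XT.nd (nat_lit 78) (nat_lit 1748) (nat_lit 0) (XT.lf (nat_lit 76) (nat_lit 12433379280) (nat_lit 0) (nat_lit 2126557324) (nat_lit 1824) (nat_lit 843697332) (nat_lit 443) (nat_lit 5) (nat_lit 442) (nat_lit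 5) (nat_lit 466) (nat_lit 5) (nat_lit 458) (nat_lit 434) (nat_lit 248)) (XT.nd (nat_lit 78) (nat_lit 0) (nat_lit 0) (XT.lf (nat_lit 0) (nat_lit 577276790) (nat_lit 1824) (nat_lit 10422231519) (nat_lit 76) (nat_lit 4565713420) (nat_lit 419) (nat_lit 5) (nat_lit 443) (nat_lit 5) (nat_lit 420) (nat_lit 5) (nat_lit 459) (nat_lit 434) (nat_lit 247)) (XT.lf (nat_lit 0) (nat_lit 2041758936) (nat_lit 1824) (nat_lit 2297409524) (nat_lit 76) (nat_lit 11390235657) (nat_lit 419) (nat_lit 5) (nat_lit 443) (nat_lit 5) (nat_lit 420) (nat_lit 5) (nat_lit 460) (nat_lit 434) (nat_lit 246))))) (XT.nd (nat_lit 234) (nat_lit 1748) (nat_lit 0) (XT.nd (nat_lit 78) (nat_lit 912) (nat_lit 0) (XT.lf (nat_lit 0) (nat_lit 3583477773) (nat_lit 1368) (nat_lit 9849611097) (nat_lit 76) (nat_lit 2462824394) (nat_lit 402) (nat_lit 5) (nat_lit 420) (nat_lit 5) (nat_lit 403) (nat_lit 5) (nat_lit 461) (nat_lit 434) (nat_lit 245)) (XT.nd (nat_lit 78) (nat_lit 912)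 (nat_lit 0) (XT.lf (nat_lit 0) (nat_lit 5192779584) (nat_lit 1368) (nat_lit 1512962590) (nat_lit 76) (nat_lit 9359277458) (nat_lit 402) (nat_lit 5) (nat_lit 420) (nat_lit 5) (nat_lit 403) (nat_lit 5) (nat_lit 462) (nat_lit 434) (nat_lit 244)) (XT.lf (nat_lit 0) (nat_lit 6874177582) (nat_lit 988) (nat_lit 9161409634) (nat_lit 76) (nat_lit 201124680) (nat_lit 390) (nat_lit 5) (nat_lit 403) (nat_lit 5) (nat_lit 391) (nat_lit 5) (nat_lit 463) (nat_lit 434) (nat_lit 243)))) (XT.nd (nat_lit 78) (nat_lit 1748) (nat_lit 0) (XT.lf (nat_lit 0) (nat_lit 8636579643) (nat_lit 988) (nat_lit 606957082) (nat_lit 76) (nat_lit 7167355690) (nat_lit 390) (nat_lit 5) (nat_lit 403) (nat_lit 5) (nat_lit 391) (nat_lit 5) (nat_lit 464) (nat_lit 434) (nat_lit 242)) (XT.nd (nat_lit 78) (nat_lit 912) (nat_lit 0) (XT.lf (nat_lit 0) (nat_lit 8219833204) (nat_lit 836) (nat_lit 2260654565) (nat_lit 912) (nat_lit 6107145509) (nat_lit 379) (nat_lit 5) (nat_lit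 390) (nat_lit 5) (nat_lit 391) (nat_lit 5) (nat_lit 465) (nat_lit 434) (nat_lit 241)) (XT.lf (nat_lit 0) (nat_lit 430959663) (nat_lit 912) (nat_lit 11961768834) (nat_lit 988) (nat_lit 4374553231) (nat_lit 367) (nat_lit 5) (nat_lit 379) (nat_lit 5) (nat_lit 380) (nat_lit 5) (nat_lit 466) (nat_lit 434) (nat_lit 240)))))) (XT.nd (nat_lit 390) (nat_lit 2356) (nat_lit 0) (XT.nd (nat_lit 156) (nat_lit 912) (nat_lit 0) (XT.nd (nat_lit 78) (nat_lit 836) (nat_lit 0) (XT.lf (nat_lit 0) (nat_lit 9497337797) (nat_lit 912) (nat_lit 4909985626) (nat_lit 988) (nat_lit 2541919356) (nat_lit 367) (nat_lit 5) (nat_lit 379) (nat_lit 5) (nat_lit 380) (nat_lit 5) (nat_lit 467) (nat_lit 434) (nat_lit 239)) (XT.lf (nat_lit 0) (nat_lit 1609868527) (nat_lit 836) (nat_lit 14870837555) (nat_lit 912) (nat_lit 653768838) (nat_lit 356) (nat_lit 5) (nat_lit 367) (nat_lit 5) (nat_lit 368) (nat_lit 5) (nat_lit 468) (nat_lit 434) (nat_lit 238))) (XT.nd (nat_lit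 78) (nat_lit 836) (nat_lit 0) (XT.lf (nat_lit 0) (nat_lit 1331580111) (nat_lit 912) (nat_lit 6416300364) (nat_lit 76) (nat_lit 9573845355) (nat_lit 355) (nat_lit 5) (nat_lit 367) (nat_lit 5) (nat_lit 356) (nat_lit 5) (nat_lit 469) (nat_lit 434) (nat_lit 237)) (XT.nd (nat_lit 78) (nat_lit 0) (nat_lit 0) (XT.lf (nat_lit 0) (nat_lit 2901353185) (nat_lit 836) (nat_lit 458772618) (nat_lit 912) (nat_lit 14152266336) (nat_lit 344) (nat_lit 5) (nat_lit 355) (nat_lit 5) (nat_lit 356) (nat_lit 5) (nat_lit 470) (nat_lit 434) (nat_lit 236)) (XT.lf (nat_lit 0) (nat_lit 5511363295) (nat_lit 912) (nat_lit 5265884715) (nat_lit 76) (nat_lit 6927982995) (nat_lit 344) (nat_lit 5) (nat_lit 356) (nat_lit 5) (nat_lit 345) (nat_lit 5) (nat_lit 471) (nat_lit 434) (nat_lit 235))))) (XT.nd (nat_lit 234) (nat_lit 836) (nat_lit 0) (XT.nd (nat_lit 78) (nat_lit 760) (nat_lit 0) (XT.lf (nat_lit 0) (nat_lit 4313203012) (nat_lit 760) (nat_lit 3417078073) (nat_lit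 836) (nat_lit 10171154069) (nat_lit 334) (nat_lit 5) (nat_lit 344) (nat_lit 5) (nat_lit 345) (nat_lit 5) (nat_lit 472) (nat_lit 434) (nat_lit 234)) (XT.nd (nat_lit 78) (nat_lit 760) (nat_lit 0) (XT.lf (nat_lit 0) (nat_lit 10049400476) (nat_lit 836) (nat_lit 3978978329) (nat_lit 76) (nat_lit 4072069702) (nat_lit 334) (nat_lit 5) (nat_lit 345) (nat_lit 5) (nat_lit 335) (nat_lit 5) (nat_lit 473) (nat_lit 434) (nat_lit 233)) (XT.lf (nat_lit 0) (nat_lit 5870367221) (nat_lit 760) (nat_lit 6599098083) (nat_lit 836) (nat_lit 5832887115) (nat_lit 324) (nat_lit 5) (nat_lit 334) (nat_lit 5) (nat_lit 335) (nat_lit 5) (nat_lit 474) (nat_lit 434) (nat_lit 232)))) (XT.nd (nat_lit 78) (nat_lit 836) (nat_lit 0) (XT.lf (nat_lit 0) (nat_lit 14965060730) (nat_lit 836) (nat_lit 2550189925) (nat_lit 76) (nat_lit 992502693) (nat_lit 324) (nat_lit 5) (nat_lit 335) (nat_lit 5) (nat_lit 325) (nat_lit 5) (nat_lit 475) (nat_lit 434) (nat_lit 231)) (XT.nd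 (nat_lit 78) (nat_lit 76) (nat_lit 0) (XT.lf (nat_lit 0) (nat_lit 7578526796) (nat_lit 760) (nat_lit 10018965021) (nat_lit 836) (nat_lit 1118033497) (nat_lit 314) (nat_lit 5) (nat_lit 324) (nat_lit 5) (nat_lit 325) (nat_lit 5) (nat_lit 476) (nat_lit 434) (nat_lit 230)) (XT.lf (nat_lit 0) (nat_lit 1348624366) (nat_lit 836) (nat_lit 998079677) (nat_lit 76) (nat_lit 16580348582) (nat_lit 313) (nat_lit 5) (nat_lit 324) (nat_lit 5) (nat_lit 314) (nat_lit 5) (nat_lit 477) (nat_lit 434) (nat_lit 229))))))) (XT.nd (nat_lit 858) (nat_lit 4104) (nat_lit 0) (XT.nd (nat_lit 390) (nat_lit 2052) (nat_lit 0) (XT.nd (nat_lit 156) (nat_lit 684) (nat_lit 0) (XT.nd (nat_lit 78) (nat_lit 684) (nat_lit 0) (XT.lf (nat_lit 0) (nat_lit 3941233868) (nat_lit 836) (nat_lit 9723693317) (nat_lit 76) (nat_lit 5475905121) (nat_lit 303) (nat_lit 5) (nat_lit 314) (nat_lit 5) (nat_lit 304) (nat_lit 5) (nat_lit 478) (nat_lit 434) (nat_lit 228)) (XT.lf (nat_lit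 0) (nat_lit 682412991) (nat_lit 684) (nat_lit 5924234933) (nat_lit 760) (nat_lit 12751821989) (nat_lit 294) (nat_lit 5) (nat_lit 303) (nat_lit 5) (nat_lit 304) (nat_lit 5) (nat_lit 479) (nat_lit 434) (nat_lit 227))) (XT.nd (nat_lit 78) (nat_lit 684) (nat_lit 0) (XT.lf (nat_lit 0) (nat_lit 9398158384) (nat_lit 760) (nat_lit 8170395543) (nat_lit 76) (nat_lit 2010451936) (nat_lit 294) (nat_lit 5) (nat_lit 304) (nat_lit 5) (nat_lit 295) (nat_lit 5) (nat_lit 480) (nat_lit 434) (nat_lit 226)) (XT.nd (nat_lit 78) (nat_lit 0) (nat_lit 0) (XT.lf (nat_lit 0) (nat_lit 2533035551) (nat_lit 684) (nat_lit 9762560732) (nat_lit 760) (nat_lit 7507355632) (nat_lit 285) (nat_lit 5) (nat_lit 294) (nat_lit 5) (nat_lit 295) (nat_lit 5) (nat_lit 481) (nat_lit 434) (nat_lit 225)) (XT.lf (nat_lit 0) (nat_lit 13554997399) (nat_lit 684) (nat_lit 1745299555) (nat_lit 760) (nat_lit 4730094953) (nat_lit 285) (nat_lit 5) (nat_lit 294) (nat_lit 5) (nat_lit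 295) (nat_lit 5) (nat_lit 482) (nat_lit 434) (nat_lit 224))))) (XT.nd (nat_lit 234) (nat_lit 608) (nat_lit 0) (XT.nd (nat_lit 78) (nat_lit 760) (nat_lit 0) (XT.lf (nat_lit 0) (nat_lit 4546613790) (nat_lit 684) (nat_lit 13884349813) (nat_lit 760) (nat_lit 1830100931) (nat_lit 276) (nat_lit 5) (nat_lit 285) (nat_lit 5) (nat_lit 286) (nat_lit 5) (nat_lit 483) (nat_lit 434) (nat_lit 223)) (XT.nd (nat_lit 78) (nat_lit 684) (nat_lit 0) (XT.lf (nat_lit 0) (nat_lit 1163018343) (nat_lit 760) (nat_lit 4644115026) (nat_lit 76) (nat_lit 14688073652) (nat_lit 275) (nat_lit 5) (nat_lit 285) (nat_lit 5) (nat_lit 276) (nat_lit 5) (nat_lit 484) (nat_lit 434) (nat_lit 222)) (XT.lf (nat_lit 0) (nat_lit 4246006898) (nat_lit 760) (nat_lit 14031746314) (nat_lit 76) (nat_lit 2454948169) (nat_lit 266) (nat_lit 5) (nat_lit 276) (nat_lit 5) (nat_lit 267) (nat_lit 5) (nat_lit 485) (nat_lit 434) (nat_lit 221)))) (XT.nd (nat_lit 78) (nat_lit 608) (nat_lit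 0) (XT.lf (nat_lit 0) (nat_lit 7455265550) (nat_lit 760) (nat_lit 2683345322) (nat_lit 76) (nat_lit 10835043727) (nat_lit 266) (nat_lit 5) (nat_lit 276) (nat_lit 5) (nat_lit 267) (nat_lit 5) (nat_lit 486) (nat_lit 434) (nat_lit 220)) (XT.nd (nat_lit 78) (nat_lit 0) (nat_lit 0) (XT.lf (nat_lit 0) (nat_lit 9003997516) (nat_lit 608) (nat_lit 1778055750) (nat_lit 684) (nat_lit 10436307893) (nat_lit 258) (nat_lit 5) (nat_lit 266) (nat_lit 5) (nat_lit 267) (nat_lit 5) (nat_lit 487) (nat_lit 434) (nat_lit 219)) (XT.lf (nat_lit 0) (nat_lit 14232264462) (nat_lit 684) (nat_lit 556254502) (nat_lit 76) (nat_lit 6678306264) (nat_lit 258) (nat_lit 5) (nat_lit 267) (nat_lit 5) (nat_lit 259) (nat_lit 5) (nat_lit 488) (nat_lit 434) (nat_lit 218)))))) (XT.nd (nat_lit 468) (nat_lit 1672) (nat_lit 0) (XT.nd (nat_lit 234) (nat_lit 1140) (nat_lit 0) (XT.nd (nat_lit 78) (nat_lit 684) (nat_lit 0) (XT.lf (nat_lit 0) (nat_lit 11467591534) (nat_lit 608)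 (nat_lit 6365156228) (nat_lit 684) (nat_lit 3885886569) (nat_lit 250) (nat_lit 5) (nat_lit 258) (nat_lit 5) (nat_lit 259) (nat_lit 5) (nat_lit 489) (nat_lit 434) (nat_lit 217)) (XT.nd (nat_lit 78) (nat_lit 76) (nat_lit 0) (XT.lf (nat_lit 0) (nat_lit 1766635886) (nat_lit 608) (nat_lit 19763378112) (nat_lit 684) (nat_lit 444971239) (nat_lit 242) (nat_lit 5) (nat_lit 250) (nat_lit 5) (nat_lit 251) (nat_lit 5) (nat_lit 490) (nat_lit 434) (nat_lit 216)) (XT.lf (nat_lit 0) (nat_lit 3131078612) (nat_lit 684) (nat_lit 8140098685) (nat_lit 76) (nat_lit 10962758719) (nat_lit 241) (nat_lit 5) (nat_lit 250) (nat_lit 5) (nat_lit 242) (nat_lit 5) (nat_lit 491) (nat_lit 434) (nat_lit 215)))) (XT.nd (nat_lit 78) (nat_lit 532) (nat_lit 0) (XT.lf (nat_lit 0) (nat_lit 4215854342) (nat_lit 608) (nat_lit 2579422803) (nat_lit 684) (nat_lit 15702279149) (nat_lit 233) (nat_lit 5) (nat_lit 241) (nat_lit 5) (nat_lit 242) (nat_lit 5) (nat_lit 492) (nat_lit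 434) (nat_lit 214)) (XT.nd (nat_lit 78) (nat_lit 532) (nat_lit 0) (XT.lf (nat_lit 0) (nat_lit 10623815081) (nat_lit 684) (nat_lit 5883320328) (nat_lit 76) (nat_lit 6257493465) (nat_lit 233) (nat_lit 5) (nat_lit 242) (nat_lit 5) (nat_lit 234) (nat_lit 5) (nat_lit 493) (nat_lit 434) (nat_lit 213)) (XT.lf (nat_lit 0) (nat_lit 6829580848) (nat_lit 532) (nat_lit 7756115768) (nat_lit 608) (nat_lit 8450211817) (nat_lit 226) (nat_lit 5) (nat_lit 233) (nat_lit 5) (nat_lit 234) (nat_lit 5) (nat_lit 494) (nat_lit 434) (nat_lit 212))))) (XT.nd (nat_lit 234) (nat_lit 1064) (nat_lit 0) (XT.nd (nat_lit 78) (nat_lit 608) (nat_lit 0) (XT.lf (nat_lit 0) (nat_lit 18669546223) (nat_lit 608) (nat_lit 3449173798) (nat_lit 76) (nat_lit 1193039921) (nat_lit 226) (nat_lit 5) (nat_lit 234) (nat_lit 5) (nat_lit 227) (nat_lit 5) (nat_lit 495) (nat_lit 434) (nat_lit 211)) (XT.nd (nat_lit 78) (nat_lit 76) (nat_lit 0) (XT.lf (nat_lit 0) (nat_lit 9632221240)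 (nat_lit 532) (nat_lit 13312238574) (nat_lit 608) (nat_lit 646481875) (nat_lit 219) (nat_lit 5) (nat_lit 226) (nat_lit 5) (nat_lit 227) (nat_lit 5) (nat_lit 496) (nat_lit 434) (nat_lit 210)) (XT.lf (nat_lit 0) (nat_lit 3402993008) (nat_lit 608) (nat_lit 881550426) (nat_lit 76) (nat_lit 19590343207) (nat_lit 218) (nat_lit 5) (nat_lit 226) (nat_lit 5) (nat_lit 219) (nat_lit 5) (nat_lit 497) (nat_lit 434) (nat_lit 209)))) (XT.nd (nat_lit 78) (nat_lit 532) (nat_lit 0) (XT.lf (nat_lit 0) (nat_lit 7634819371) (nat_lit 608) (nat_lit 11582880505) (nat_lit 76) (nat_lit 4944525678) (nat_lit 211) (nat_lit 5) (nat_lit 219) (nat_lit 5) (nat_lit 212) (nat_lit 5) (nat_lit 498) (nat_lit 434) (nat_lit 208)) (XT.nd (nat_lit 78) (nat_lit 0) (nat_lit 0) (XT.lf (nat_lit 0) (nat_lit 1856334737) (nat_lit 532) (nat_lit 10136961295) (nat_lit 608) (nat_lit 12461175812) (nat_lit 204) (nat_lit 5) (nat_lit 211) (nat_lit 5) (nat_lit 212) (nat_lit 5) (nat_lit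 499) (nat_lit 434) (nat_lit 207)) (XT.lf (nat_lit 0) (nat_lit 15715568582) (nat_lit 532) (nat_lit 796780938) (nat_lit 608) (nat_lit 8238746253) (nat_lit 204) (nat_lit 5) (nat_lit 211) (nat_lit 5) (nat_lit 212) (nat_lit 5) (nat_lit 500) (nat_lit 434) (nat_lit 206))))))))
noncomputable def xc212 : XT := (XT.nd (nat_lit 55380) (nat_lit 0) (nat_lit 12616) (XT.nd (nat_lit 54522) (nat_lit 0) (nat_lit 19684) (XT.nd (nat_lit 390) (nat_lit 456) (nat_lit 0) (XT.nd (nat_lit 156) (nat_lit 988) (nat_lit 0) (XT.nd (nat_lit 78) (nat_lit 76) (nat_lit 0) (XT.lf (nat_lit 0) (nat_lit 4798852716) (nat_lit 456) (nat_lit 16406526477) (nat_lit 532) (nat_lit 3846601925) (nat_lit 198) (nat_lit 5) (nat_lit 204) (nat_lit 5) (nat_lit 205) (nat_lit 5) (nat_lit 501) (nat_lit 434) (nat_lit 205)) (XT.lf (nat_lit 0) (nat_lit 687162820) (nat_lit 532) (nat_lit 6340819920) (nat_lit 76) (nat_lit 18329578303) (nat_lit 197) (nat_lit 5) (nat_lit 204) (nat_lit 5) (nat_lit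 198) (nat_lit 5) (nat_lit 502) (nat_lit 434) (nat_lit 204))) (XT.nd (nat_lit 78) (nat_lit 456) (nat_lit 0) (XT.lf (nat_lit 0) (nat_lit 5324418116) (nat_lit 608) (nat_lit 17762255101) (nat_lit 76) (nat_lit 2580785196) (nat_lit 190) (nat_lit 5) (nat_lit 198) (nat_lit 5) (nat_lit 191) (nat_lit 5) (nat_lit 503) (nat_lit 434) (nat_lit 203)) (XT.nd (nat_lit 78) (nat_lit 456) (nat_lit 0) (XT.lf (nat_lit 0) (nat_lit 10139684533) (nat_lit 608) (nat_lit 3513108896) (nat_lit 76) (nat_lit 12329055757) (nat_lit 190) (nat_lit 5) (nat_lit 198) (nat_lit 5) (nat_lit 191) (nat_lit 5) (nat_lit 504) (nat_lit 434) (nat_lit 202)) (XT.lf (nat_lit 0) (nat_lit 11161841214) (nat_lit 456) (nat_lit 3957856761) (nat_lit 532) (nat_lit 11181461728) (nat_lit 184) (nat_lit 5) (nat_lit 190) (nat_lit 5) (nat_lit 191) (nat_lit 5) (nat_lit 505) (nat_lit 434) (nat_lit 201))))) (XT.nd (nat_lit 53898) (nat_lit 0) (nat_lit 21052) (XT.nd (nat_lit 78) (nat_lit 456) (nat_lit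 0) (XT.lf (nat_lit 0) (nat_lit 20257555119) (nat_lit 532) (nat_lit 492739810) (nat_lit 76) (nat_lit 5875397379) (nat_lit 184) (nat_lit 5) (nat_lit 191) (nat_lit 5) (nat_lit 185) (nat_lit 5) (nat_lit 506) (nat_lit 434) (nat_lit 200)) (XT.nd (nat_lit 53742) (nat_lit 0) (nat_lit 21052) (XT.lf (nat_lit 0) (nat_lit 14606635625) (nat_lit 456) (nat_lit 11008663709) (nat_lit 532) (nat_lit 1339074365) (nat_lit 178) (nat_lit 5) (nat_lit 184) (nat_lit 5) (nat_lit 185) (nat_lit 5) (nat_lit 507) (nat_lit 434) (nat_lit 199)) (XT.lf (nat_lit 0) (nat_lit 3121170262) (nat_lit 1748) (nat_lit 1538754902) (nat_lit 1748) (nat_lit 1538754902) (nat_lit 455) (nat_lit 3) (nat_lit 478) (nat_lit 3) (nat_lit 478) (nat_lit 5) (nat_lit 435) (nat_lit 435) (nat_lit 270)))) (XT.nd (nat_lit 78) (nat_lit 0) (nat_lit 76) (XT.lf (nat_lit 76) (nat_lit 2943407969) (nat_lit 0) (nat_lit 3816810752) (nat_lit 1748) (nat_lit 5751877665) (nat_lit 456) (nat_lit 5) (nat_lit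 455) (nat_lit 3) (nat_lit 478) (nat_lit 5) (nat_lit 436) (nat_lit 435) (nat_lit 269)) (XT.nd (nat_lit 78) (nat_lit 0) (nat_lit 0) (XT.lf (nat_lit 0) (nat_lit 7309457929) (nat_lit 1672) (nat_lit 3520238896) (nat_lit 1748) (nat_lit 1799013830) (nat_lit 456) (nat_lit 5) (nat_lit 478) (nat_lit 5) (nat_lit 479) (nat_lit 5) (nat_lit 437) (nat_lit 435) (nat_lit 268)) (XT.lf (nat_lit 76) (nat_lit 2652628049) (nat_lit 0) (nat_lit 5248330117) (nat_lit 1748) (nat_lit 4846076817) (nat_lit 457) (nat_lit 5) (nat_lit 456) (nat_lit 5) (nat_lit 479) (nat_lit 5) (nat_lit 438) (nat_lit 435) (nat_lit 267)))))) (XT.nd (nat_lit 390) (nat_lit 1520) (nat_lit 0) (XT.nd (nat_lit 156) (nat_lit 0) (nat_lit 0) (XT.nd (nat_lit 78) (nat_lit 0) (nat_lit 0) (XT.lf (nat_lit 0) (nat_lit 8519944821) (nat_lit 1672) (nat_lit 3879907871) (nat_lit 1748) (nat_lit 467563212) (nat_lit 457) (nat_lit 5) (nat_lit 479) (nat_lit 5) (nat_lit 480) (nat_lit 5) (nat_lit 439)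 (nat_lit 435) (nat_lit 266)) (XT.lf (nat_lit 76) (nat_lit 2450099547) (nat_lit 0) (nat_lit 6741082625) (nat_lit 1748) (nat_lit 3798228022) (nat_lit 458) (nat_lit 5) (nat_lit 457) (nat_lit 5) (nat_lit 480) (nat_lit 5) (nat_lit 440) (nat_lit 435) (nat_lit 265))) (XT.nd (nat_lit 78) (nat_lit 0) (nat_lit 76) (XT.lf (nat_lit 76) (nat_lit 8953182829) (nat_lit 0) (nat_lit 938075728) (nat_lit 1748) (nat_lit 3222280634) (nat_lit 458) (nat_lit 5) (nat_lit 457) (nat_lit 5) (nat_lit 480) (nat_lit 5) (nat_lit 441) (nat_lit 435) (nat_lit 264)) (XT.nd (nat_lit 78) (nat_lit 0) (nat_lit 0) (XT.lf (nat_lit 76) (nat_lit 2338266392) (nat_lit 0) (nat_lit 8304206565) (nat_lit 1748) (nat_lit 2596938130) (nat_lit 459) (nat_lit 5) (nat_lit 458) (nat_lit 5) (nat_lit 481) (nat_lit 5) (nat_lit 442) (nat_lit 435) (nat_lit 263)) (XT.lf (nat_lit 76) (nat_lit 9010764883) (nat_lit 0) (nat_lit 2421814898) (nat_lit 1748) (nat_lit 1934746263) (nat_lit 459) (nat_lit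 5) (nat_lit 458) (nat_lit 5) (nat_lit 481) (nat_lit 5) (nat_lit 443) (nat_lit 435) (nat_lit 262))))) (XT.nd (nat_lit 234) (nat_lit 0) (nat_lit 0) (XT.nd (nat_lit 78) (nat_lit 1672) (nat_lit 0) (XT.lf (nat_lit 76) (nat_lit 2319802524) (nat_lit 0) (nat_lit 9946984574) (nat_lit 1748) (nat_lit 1230449165) (nat_lit 460) (nat_lit 5) (nat_lit 459) (nat_lit 5) (nat_lit 482) (nat_lit 5) (nat_lit 444) (nat_lit 435) (nat_lit 261)) (XT.nd (nat_lit 78) (nat_lit 1672) (nat_lit 0) (XT.lf (nat_lit 76) (nat_lit 9166233700) (nat_lit 0) (nat_lit 3986772453) (nat_lit 1748) (nat_lit 476034852) (nat_lit 460) (nat_lit 5) (nat_lit 459) (nat_lit 5) (nat_lit 482) (nat_lit 5) (nat_lit 445) (nat_lit 435) (nat_lit 260)) (XT.lf (nat_lit 0) (nat_lit 309274637) (nat_lit 1748) (nat_lit 11367517046) (nat_lit 1824) (nat_lit 2086261695) (nat_lit 437) (nat_lit 5) (nat_lit 460) (nat_lit 5) (nat_lit 461) (nat_lit 5) (nat_lit 446) (nat_lit 435) (nat_lit 259)))) (XT.nd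 (nat_lit 78) (nat_lit 0) (nat_lit 76) (XT.lf (nat_lit 0) (nat_lit 1150928474) (nat_lit 1748) (nat_lit 4483804910) (nat_lit 1824) (nat_lit 8264012144) (nat_lit 437) (nat_lit 5) (nat_lit 460) (nat_lit 5) (nat_lit 461) (nat_lit 5) (nat_lit 447) (nat_lit 435) (nat_lit 258)) (XT.nd (nat_lit 78) (nat_lit 0) (nat_lit 0) (XT.lf (nat_lit 0) (nat_lit 2020272452) (nat_lit 1748) (nat_lit 11475666310) (nat_lit 1824) (nat_lit 540998270) (nat_lit 438) (nat_lit 5) (nat_lit 461) (nat_lit 5) (nat_lit 462) (nat_lit 5) (nat_lit 448) (nat_lit 435) (nat_lit 257)) (XT.lf (nat_lit 0) (nat_lit 2965413931) (nat_lit 1748) (nat_lit 4413262777) (nat_lit 1824) (nat_lit 6798050045) (nat_lit 438) (nat_lit 5) (nat_lit 461) (nat_lit 5) (nat_lit 462) (nat_lit 5) (nat_lit 449) (nat_lit 435) (nat_lit 256))))))) (XT.nd (nat_lit 858) (nat_lit 5700) (nat_lit 0) (XT.nd (nat_lit 390) (nat_lit 1444) (nat_lit 0) (XT.nd (nat_lit 156) (nat_lit 0) (nat_lit 76) (XT.nd (nat_lit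 78) (nat_lit 0) (nat_lit 76) (XT.lf (nat_lit 76) (nat_lit 2821030450) (nat_lit 0) (nat_lit 1117730609) (nat_lit 1824) (nat_lit 10380367705) (nat_lit 439) (nat_lit 5) (nat_lit 438) (nat_lit 5) (nat_lit 462) (nat_lit 5) (nat_lit 450) (nat_lit 435) (nat_lit 255)) (XT.lf (nat_lit 0) (nat_lit 4986731927) (nat_lit 1748) (nat_lit 4244867889) (nat_lit 1824) (nat_lit 5231678361) (nat_lit 439) (nat_lit 5) (nat_lit 462) (nat_lit 5) (nat_lit 463) (nat_lit 5) (nat_lit 451) (nat_lit 435) (nat_lit 254))) (XT.nd (nat_lit 78) (nat_lit 0) (nat_lit 76) (XT.lf (nat_lit 76) (nat_lit 3181365247) (nat_lit 0) (nat_lit 2893667614) (nat_lit 1824) (nat_lit 8534892757) (nat_lit 440) (nat_lit 5) (nat_lit 439) (nat_lit 5) (nat_lit 463) (nat_lit 5) (nat_lit 452) (nat_lit 435) (nat_lit 253)) (XT.nd (nat_lit 78) (nat_lit 0) (nat_lit 0) (XT.lf (nat_lit 0) (nat_lit 7228415680) (nat_lit 1748) (nat_lit 3975176883) (nat_lit 1824) (nat_lit 3555049528) (nat_lit 440)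 (nat_lit 5) (nat_lit 463) (nat_lit 5) (nat_lit 464) (nat_lit 5) (nat_lit 453) (nat_lit 435) (nat_lit 252)) (XT.lf (nat_lit 76) (nat_lit 3649573931) (nat_lit 0) (nat_lit 4789775032) (nat_lit 1824) (nat_lit 6470296631) (nat_lit 441) (nat_lit 5) (nat_lit 440) (nat_lit 5) (nat_lit 464) (nat_lit 5) (nat_lit 454) (nat_lit 435) (nat_lit 251))))) (XT.nd (nat_lit 234) (nat_lit 1672) (nat_lit 0) (XT.nd (nat_lit 78) (nat_lit 0) (nat_lit 0) (XT.lf (nat_lit 0) (nat_lit 9704489548) (nat_lit 1748) (nat_lit 3600524545) (nat_lit 1824) (nat_lit 1758057610) (nat_lit 441) (nat_lit 5) (nat_lit 464) (nat_lit 5) (nat_lit 465) (nat_lit 5) (nat_lit 455) (nat_lit 435) (nat_lit 250)) (XT.nd (nat_lit 78) (nat_lit 0) (nat_lit 0) (XT.lf (nat_lit 76) (nat_lit 4229553380) (nat_lit 0) (nat_lit 6816481807) (nat_lit 1824) (nat_lit 4172511367) (nat_lit 442) (nat_lit 5) (nat_lit 441) (nat_lit 5) (nat_lit 465) (nat_lit 5) (nat_lit 456) (nat_lit 435) (nat_lit 249))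 (XT.lf (nat_lit 76) (nat_lit 12258669978) (nat_lit 0) (nat_lit 171941053) (nat_lit 1824) (nat_lit 2946198104) (nat_lit 442) (nat_lit 5) (nat_lit 441) (nat_lit 5) (nat_lit 465) (nat_lit 5) (nat_lit 457) (nat_lit 435) (nat_lit 248)))) (XT.nd (nat_lit 78) (nat_lit 1748) (nat_lit 0) (XT.lf (nat_lit 76) (nat_lit 4925430113) (nat_lit 0) (nat_lit 8984518803) (nat_lit 1824) (nat_lit 1626948817) (nat_lit 443) (nat_lit 5) (nat_lit 442) (nat_lit 5) (nat_lit 466) (nat_lit 5) (nat_lit 458) (nat_lit 435) (nat_lit 247)) (XT.nd (nat_lit 78) (nat_lit 1748) (nat_lit 0) (XT.lf (nat_lit 76) (nat_lit 13164613840) (nat_lit 0) (nat_lit 2268630904) (nat_lit 1824) (nat_lit 266658070) (nat_lit 443) (nat_lit 5) (nat_lit 442) (nat_lit 5) (nat_lit 466) (nat_lit 5) (nat_lit 459) (nat_lit 435) (nat_lit 246)) (XT.lf (nat_lit 0) (nat_lit 1166029789) (nat_lit 1824) (nat_lit 10131089650) (nat_lit 76) (nat_lit 4567707238) (nat_lit 419) (nat_lit 5) (nat_lit 443)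 (nat_lit 5) (nat_lit 420) (nat_lit 5) (nat_lit 460) (nat_lit 435) (nat_lit 245)))))) (XT.nd (nat_lit 468) (nat_lit 2660) (nat_lit 0) (XT.nd (nat_lit 234) (nat_lit 1748) (nat_lit 0) (XT.nd (nat_lit 78) (nat_lit 1292) (nat_lit 0) (XT.lf (nat_lit 0) (nat_lit 2648483785) (nat_lit 1824) (nat_lit 1853567029) (nat_lit 76) (nat_lit 11530471301) (nat_lit 419) (nat_lit 5) (nat_lit 443) (nat_lit 5) (nat_lit 420) (nat_lit 5) (nat_lit 461) (nat_lit 435) (nat_lit 244)) (XT.nd (nat_lit 78) (nat_lit 0) (nat_lit 0) (XT.lf (nat_lit 0) (nat_lit 4212636772) (nat_lit 1368) (nat_lit 9548263101) (nat_lit 76) (nat_lit 2441632563) (nat_lit 402) (nat_lit 5) (nat_lit 420) (nat_lit 5) (nat_lit 403) (nat_lit 5) (nat_lit 462) (nat_lit 435) (nat_lit 243)) (XT.lf (nat_lit 0) (nat_lit 5843193453) (nat_lit 1368) (nat_lit 1054653001) (nat_lit 76) (nat_lit 9477396028) (nat_lit 402) (nat_lit 5) (nat_lit 420) (nat_lit 5) (nat_lit 403) (nat_lit 5) (nat_lit 463) (nat_lit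 435) (nat_lit 242)))) (XT.nd (nat_lit 78) (nat_lit 836) (nat_lit 0) (XT.lf (nat_lit 0) (nat_lit 7550305572) (nat_lit 988) (nat_lit 8848011640) (nat_lit 76) (nat_lit 152212527) (nat_lit 390) (nat_lit 5) (nat_lit 403) (nat_lit 5) (nat_lit 391) (nat_lit 5) (nat_lit 464) (nat_lit 435) (nat_lit 241)) (XT.nd (nat_lit 78) (nat_lit 836) (nat_lit 0) (XT.lf (nat_lit 0) (nat_lit 9337394019) (nat_lit 988) (nat_lit 132207804) (nat_lit 76) (nat_lit 7258806091) (nat_lit 390) (nat_lit 5) (nat_lit 403) (nat_lit 5) (nat_lit 391) (nat_lit 5) (nat_lit 465) (nat_lit 435) (nat_lit 240)) (XT.lf (nat_lit 0) (nat_lit 8867915074) (nat_lit 836) (nat_lit 2343051074) (nat_lit 912) (nat_lit 5697864488) (nat_lit 379) (nat_lit 5) (nat_lit 390) (nat_lit 5) (nat_lit 391) (nat_lit 5) (nat_lit 466) (nat_lit 435) (nat_lit 239))))) (XT.nd (nat_lit 234) (nat_lit 912) (nat_lit 0) (XT.nd (nat_lit 78) (nat_lit 836) (nat_lit 0) (XT.lf (nat_lit 0) (nat_lit 930807618)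 (nat_lit 912) (nat_lit 12223383660) (nat_lit 988) (nat_lit 3938028691) (nat_lit 367) (nat_lit 5) (nat_lit 379) (nat_lit 5) (nat_lit 380) (nat_lit 5) (nat_lit 467) (nat_lit 435) (nat_lit 238)) (XT.nd (nat_lit 78) (nat_lit 836) (nat_lit 0) (XT.lf (nat_lit 0) (nat_lit 10168881378) (nat_lit 912) (nat_lit 5030125974) (nat_lit 988) (nat_lit 2079016955) (nat_lit 367) (nat_lit 5) (nat_lit 379) (nat_lit 5) (nat_lit 380) (nat_lit 5) (nat_lit 468) (nat_lit 435) (nat_lit 237)) (XT.lf (nat_lit 0) (nat_lit 2130772039) (nat_lit 836) (nat_lit 15176245686) (nat_lit 912) (nat_lit 160082764) (nat_lit 356) (nat_lit 5) (nat_lit 367) (nat_lit 5) (nat_lit 368) (nat_lit 5) (nat_lit 469) (nat_lit 435) (nat_lit 236)))) (XT.nd (nat_lit 78) (nat_lit 836) (nat_lit 0) (XT.lf (nat_lit 0) (nat_lit 1848520717) (nat_lit 912) (nat_lit 6058861822) (nat_lit 76) (nat_lit 9750846696) (nat_lit 355) (nat_lit 5) (nat_lit 367) (nat_lit 5) (nat_lit 356) (nat_lit 5) (nat_lit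 470) (nat_lit 435) (nat_lit 235)) (XT.nd (nat_lit 78) (nat_lit 0) (nat_lit 0) (XT.lf (nat_lit 0) (nat_lit 3441948978) (nat_lit 836) (nat_lit 469207599) (nat_lit 912) (nat_lit 13941684357) (nat_lit 344) (nat_lit 5) (nat_lit 355) (nat_lit 5) (nat_lit 356) (nat_lit 5) (nat_lit 471) (nat_lit 435) (nat_lit 234)) (XT.lf (nat_lit 0) (nat_lit 6095923973) (nat_lit 912) (nat_lit 4888480885) (nat_lit 76) (nat_lit 7065324018) (nat_lit 344) (nat_lit 5) (nat_lit 356) (nat_lit 5) (nat_lit 345) (nat_lit 5) (nat_lit 472) (nat_lit 435) (nat_lit 233))))))))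
noncomputable def xc213 : XT := (XT.nd (nat_lit 1716) (nat_lit 3724) (nat_lit 0) (XT.nd (nat_lit 858) (nat_lit 3952) (nat_lit 0) (XT.nd (nat_lit 390) (nat_lit 2204) (nat_lit 0) (XT.nd (nat_lit 156) (nat_lit 1520) (nat_lit 0) (XT.nd (nat_lit 78) (nat_lit 0) (nat_lit 0) (XT.lf (nat_lit 0) (nat_lit 4879012797) (nat_lit 760) (nat_lit 3474020196) (nat_lit 836) (nat_lit 9896950213) (nat_lit 334) (nat_lit 5) (nat_lit 344) (nat_lit 5) (nat_lit 345) (nat_lit 5) (nat_lit 473) (nat_lit 435) (nat_lit 232)) (XT.lf (nat_lit 0) (nat_lit 10709427994) (nat_lit 836) (nat_lit 3579192833) (nat_lit 76) (nat_lit 4164540442) (nat_lit 334) (nat_lit 5) (nat_lit 345) (nat_lit 5) (nat_lit 335) (nat_lit 5) (nat_lit 474) (nat_lit 435) (nat_lit 231))) (XT.nd (nat_lit 78) (nat_lit 760) (nat_lit 0) (XT.lf (nat_lit 0) (nat_lit 6463985910) (nat_lit 760) (nat_lit 6707999314) (nat_lit 836) (nat_lit 5487238477) (nat_lit 324) (nat_lit 5) (nat_lit 334) (nat_lit 5)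 (nat_lit 335) (nat_lit 5) (nat_lit 475) (nat_lit 435) (nat_lit 230)) (XT.nd (nat_lit 78) (nat_lit 760) (nat_lit 0) (XT.lf (nat_lit 0) (nat_lit 15708754561) (nat_lit 836) (nat_lit 2125470924) (nat_lit 76) (nat_lit 1034684142) (nat_lit 324) (nat_lit 5) (nat_lit 335) (nat_lit 5) (nat_lit 325) (nat_lit 5) (nat_lit 476) (nat_lit 435) (nat_lit 229)) (XT.lf (nat_lit 0) (nat_lit 8202690377) (nat_lit 760) (nat_lit 10185498700) (nat_lit 836) (nat_lit 692763034) (nat_lit 314) (nat_lit 5) (nat_lit 324) (nat_lit 5) (nat_lit 325) (nat_lit 5) (nat_lit 477) (nat_lit 435) (nat_lit 228))))) (XT.nd (nat_lit 234) (nat_lit 684) (nat_lit 0) (XT.nd (nat_lit 78) (nat_lit 1444) (nat_lit 0) (XT.lf (nat_lit 0) (nat_lit 1808695255) (nat_lit 836) (nat_lit 548854569) (nat_lit 76) (nat_lit 16939277348) (nat_lit 313) (nat_lit 5) (nat_lit 324) (nat_lit 5) (nat_lit 314) (nat_lit 5) (nat_lit 478) (nat_lit 435) (nat_lit 227)) (XT.nd (nat_lit 78) (nat_lit 684)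 (nat_lit 0) (XT.lf (nat_lit 0) (nat_lit 4447940808) (nat_lit 836) (nat_lit 9443661855) (nat_lit 76) (nat_lit 5623386157) (nat_lit 303) (nat_lit 5) (nat_lit 314) (nat_lit 5) (nat_lit 304) (nat_lit 5) (nat_lit 479) (nat_lit 435) (nat_lit 226)) (XT.lf (nat_lit 0) (nat_lit 1167444833) (nat_lit 684) (nat_lit 5993888998) (nat_lit 760) (nat_lit 12575753943) (nat_lit 294) (nat_lit 5) (nat_lit 303) (nat_lit 5) (nat_lit 304) (nat_lit 5) (nat_lit 480) (nat_lit 435) (nat_lit 225)))) (XT.nd (nat_lit 78) (nat_lit 684) (nat_lit 0) (XT.lf (nat_lit 0) (nat_lit 10000699973) (nat_lit 760) (nat_lit 7863589651) (nat_lit 76) (nat_lit 2097906280) (nat_lit 294) (nat_lit 5) (nat_lit 304) (nat_lit 5) (nat_lit 295) (nat_lit 5) (nat_lit 481) (nat_lit 435) (nat_lit 224)) (XT.nd (nat_lit 78) (nat_lit 0) (nat_lit 0) (XT.lf (nat_lit 0) (nat_lit 3050816553) (nat_lit 684) (nat_lit 9900173943) (nat_lit 760) (nat_lit 7239734235) (nat_lit 285) (nat_lit 5) (nat_lit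 294) (nat_lit 5) (nat_lit 295) (nat_lit 5) (nat_lit 482) (nat_lit 435) (nat_lit 223)) (XT.lf (nat_lit 0) (nat_lit 14284058416) (nat_lit 684) (nat_lit 1723697700) (nat_lit 760) (nat_lit 4415119882) (nat_lit 285) (nat_lit 5) (nat_lit 294) (nat_lit 5) (nat_lit 295) (nat_lit 5) (nat_lit 483) (nat_lit 435) (nat_lit 222)))))) (XT.nd (nat_lit 390) (nat_lit 1900) (nat_lit 0) (XT.nd (nat_lit 156) (nat_lit 1292) (nat_lit 0) (XT.nd (nat_lit 78) (nat_lit 76) (nat_lit 0) (XT.lf (nat_lit 0) (nat_lit 5100200062) (nat_lit 684) (nat_lit 14096327953) (nat_lit 760) (nat_lit 1461726080) (nat_lit 276) (nat_lit 5) (nat_lit 285) (nat_lit 5) (nat_lit 286) (nat_lit 5) (nat_lit 484) (nat_lit 435) (nat_lit 221)) (XT.lf (nat_lit 0) (nat_lit 1578107656) (nat_lit 760) (nat_lit 4278118555) (nat_lit 76) (nat_lit 15040959150) (nat_lit 275) (nat_lit 5) (nat_lit 285) (nat_lit 5) (nat_lit 276) (nat_lit 5) (nat_lit 485) (nat_lit 435) (nat_lit 220))) (XT.nd (nat_lit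 78) (nat_lit 608) (nat_lit 0) (XT.lf (nat_lit 0) (nat_lit 4718479203) (nat_lit 760) (nat_lit 13849138218) (nat_lit 76) (nat_lit 2571899473) (nat_lit 266) (nat_lit 5) (nat_lit 276) (nat_lit 5) (nat_lit 267) (nat_lit 5) (nat_lit 486) (nat_lit 435) (nat_lit 219)) (XT.nd (nat_lit 78) (nat_lit 608) (nat_lit 0) (XT.lf (nat_lit 0) (nat_lit 7984323966) (nat_lit 760) (nat_lit 2282852402) (nat_lit 76) (nat_lit 11118266504) (nat_lit 266) (nat_lit 5) (nat_lit 276) (nat_lit 5) (nat_lit 267) (nat_lit 5) (nat_lit 487) (nat_lit 435) (nat_lit 218)) (XT.lf (nat_lit 0) (nat_lit 9635249399) (nat_lit 608) (nat_lit 1737877284) (nat_lit 684) (nat_lit 10262008977) (nat_lit 258) (nat_lit 5) (nat_lit 266) (nat_lit 5) (nat_lit 267) (nat_lit 5) (nat_lit 488) (nat_lit 435) (nat_lit 217))))) (XT.nd (nat_lit 234) (nat_lit 684) (nat_lit 0) (XT.nd (nat_lit 78) (nat_lit 1216) (nat_lit 0) (XT.lf (nat_lit 0) (nat_lit 14885462793) (nat_lit 684) (nat_lit 118092432)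 (nat_lit 76) (nat_lit 6885153020) (nat_lit 258) (nat_lit 5) (nat_lit 267) (nat_lit 5) (nat_lit 259) (nat_lit 5) (nat_lit 489) (nat_lit 435) (nat_lit 216)) (XT.nd (nat_lit 78) (nat_lit 608) (nat_lit 0) (XT.lf (nat_lit 0) (nat_lit 12143274688) (nat_lit 608) (nat_lit 6410352419) (nat_lit 684) (nat_lit 3592014611) (nat_lit 250) (nat_lit 5) (nat_lit 258) (nat_lit 5) (nat_lit 259) (nat_lit 5) (nat_lit 490) (nat_lit 435) (nat_lit 215)) (XT.lf (nat_lit 0) (nat_lit 2252150795) (nat_lit 608) (nat_lit 20068991741) (nat_lit 684) (nat_lit 86052615) (nat_lit 242) (nat_lit 5) (nat_lit 250) (nat_lit 5) (nat_lit 251) (nat_lit 5) (nat_lit 491) (nat_lit 435) (nat_lit 214)))) (XT.nd (nat_lit 78) (nat_lit 608) (nat_lit 0) (XT.lf (nat_lit 0) (nat_lit 3549576703) (nat_lit 684) (nat_lit 7856740008) (nat_lit 76) (nat_lit 11265104345) (nat_lit 241) (nat_lit 5) (nat_lit 250) (nat_lit 5) (nat_lit 242) (nat_lit 5) (nat_lit 492) (nat_lit 435) (nat_lit 213))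 (XT.nd (nat_lit 78) (nat_lit 0) (nat_lit 0) (XT.lf (nat_lit 0) (nat_lit 4743396811) (nat_lit 608) (nat_lit 2539562137) (nat_lit 684) (nat_lit 15657438289) (nat_lit 233) (nat_lit 5) (nat_lit 241) (nat_lit 5) (nat_lit 242) (nat_lit 5) (nat_lit 493) (nat_lit 435) (nat_lit 212)) (XT.lf (nat_lit 0) (nat_lit 11181752175) (nat_lit 684) (nat_lit 5560063385) (nat_lit 76) (nat_lit 6471123482) (nat_lit 233) (nat_lit 5) (nat_lit 242) (nat_lit 5) (nat_lit 234) (nat_lit 5) (nat_lit 494) (nat_lit 435) (nat_lit 211))))))) (XT.nd (nat_lit 858) (nat_lit 456) (nat_lit 0) (XT.nd (nat_lit 390) (nat_lit 1596) (nat_lit 0) (XT.nd (nat_lit 156) (nat_lit 1140) (nat_lit 0) (XT.nd (nat_lit 78) (nat_lit 0) (nat_lit 0) (XT.lf (nat_lit 0) (nat_lit 7404195003) (nat_lit 532) (nat_lit 7814746531) (nat_lit 608) (nat_lit 8270782691) (nat_lit 226) (nat_lit 5) (nat_lit 233) (nat_lit 5) (nat_lit 234) (nat_lit 5) (nat_lit 495) (nat_lit 435) (nat_lit 210)) (XT.lf (nat_lit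 0) (nat_lit 19378385650) (nat_lit 608) (nat_lit 3082570580) (nat_lit 76) (nat_lit 1310259591) (nat_lit 226) (nat_lit 5) (nat_lit 234) (nat_lit 5) (nat_lit 227) (nat_lit 5) (nat_lit 496) (nat_lit 435) (nat_lit 209))) (XT.nd (nat_lit 78) (nat_lit 608) (nat_lit 0) (XT.lf (nat_lit 0) (nat_lit 10257586657) (nat_lit 532) (nat_lit 13477442945) (nat_lit 608) (nat_lit 321028337) (nat_lit 219) (nat_lit 5) (nat_lit 226) (nat_lit 5) (nat_lit 227) (nat_lit 5) (nat_lit 497) (nat_lit 435) (nat_lit 208)) (XT.nd (nat_lit 78) (nat_lit 532) (nat_lit 0) (XT.lf (nat_lit 0) (nat_lit 3798450142) (nat_lit 608) (nat_lit 470527938) (nat_lit 76) (nat_lit 20076792057) (nat_lit 218) (nat_lit 5) (nat_lit 226) (nat_lit 5) (nat_lit 219) (nat_lit 5) (nat_lit 498) (nat_lit 435) (nat_lit 207)) (XT.lf (nat_lit 0) (nat_lit 8111921112) (nat_lit 608) (nat_lit 11382827706) (nat_lit 76) (nat_lit 5144168147) (nat_lit 211) (nat_lit 5) (nat_lit 219) (nat_lit 5) (nat_lit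 212) (nat_lit 5) (nat_lit 499) (nat_lit 435) (nat_lit 206))))) (XT.nd (nat_lit 234) (nat_lit 608) (nat_lit 0) (XT.nd (nat_lit 78) (nat_lit 456) (nat_lit 0) (XT.lf (nat_lit 0) (nat_lit 2322331642) (nat_lit 532) (nat_lit 10231659286) (nat_lit 608) (nat_lit 12383090056) (nat_lit 204) (nat_lit 5) (nat_lit 211) (nat_lit 5) (nat_lit 212) (nat_lit 5) (nat_lit 500) (nat_lit 435) (nat_lit 205)) (XT.nd (nat_lit 78) (nat_lit 456) (nat_lit 0) (XT.lf (nat_lit 0) (nat_lit 16450340944) (nat_lit 532) (nat_lit 706793777) (nat_lit 608) (nat_lit 8082629734) (nat_lit 204) (nat_lit 5) (nat_lit 211) (nat_lit 5) (nat_lit 212) (nat_lit 5) (nat_lit 501) (nat_lit 435) (nat_lit 204)) (XT.lf (nat_lit 0) (nat_lit 5318152810) (nat_lit 456) (nat_lit 16623127492) (nat_lit 532) (nat_lit 3605443324) (nat_lit 198) (nat_lit 5) (nat_lit 204) (nat_lit 5) (nat_lit 205) (nat_lit 5) (nat_lit 502) (nat_lit 435) (nat_lit 203)))) (XT.nd (nat_lit 78) (nat_lit 532) (nat_lit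 0) (XT.lf (nat_lit 0) (nat_lit 1008669629) (nat_lit 532) (nat_lit 6048464850) (nat_lit 76) (nat_lit 18801363648) (nat_lit 197) (nat_lit 5) (nat_lit 204) (nat_lit 5) (nat_lit 198) (nat_lit 5) (nat_lit 503) (nat_lit 435) (nat_lit 202)) (XT.nd (nat_lit 78) (nat_lit 0) (nat_lit 0) (XT.lf (nat_lit 0) (nat_lit 5736066142) (nat_lit 608) (nat_lit 17695667133) (nat_lit 76) (nat_lit 2742913401) (nat_lit 190) (nat_lit 5) (nat_lit 198) (nat_lit 5) (nat_lit 191) (nat_lit 5) (nat_lit 504) (nat_lit 435) (nat_lit 201)) (XT.lf (nat_lit 0) (nat_lit 10641654364) (nat_lit 608) (nat_lit 3169809241) (nat_lit 76) (nat_lit 12683982462) (nat_lit 190) (nat_lit 5) (nat_lit 198) (nat_lit 5) (nat_lit 191) (nat_lit 5) (nat_lit 505) (nat_lit 435) (nat_lit 200)))))) (XT.nd (nat_lit 54288) (nat_lit 0) (nat_lit 19152) (XT.nd (nat_lit 54054) (nat_lit 0) (nat_lit 20672) (XT.nd (nat_lit 53898) (nat_lit 0) (nat_lit 20596) (XT.lf (nat_lit 0) (nat_lit 11795919071)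 (nat_lit 456) (nat_lit 3922150258) (nat_lit 532) (nat_lit 11103138549) (nat_lit 184) (nat_lit 5) (nat_lit 190) (nat_lit 5) (nat_lit 191) (nat_lit 5) (nat_lit 506) (nat_lit 435) (nat_lit 199)) (XT.nd (nat_lit 78) (nat_lit 0) (nat_lit 0) (XT.lf (nat_lit 0) (nat_lit 3617104865) (nat_lit 1748) (nat_lit 1348375578) (nat_lit 1748) (nat_lit 1348375578) (nat_lit 455) (nat_lit 3) (nat_lit 478) (nat_lit 3) (nat_lit 478) (nat_lit 5) (nat_lit 436) (nat_lit 436) (nat_lit 268)) (XT.lf (nat_lit 76) (nat_lit 3441675047) (nat_lit 0) (nat_lit 4306622874) (nat_lit 1748) (nat_lit 4996733047) (nat_lit 456) (nat_lit 5) (nat_lit 455) (nat_lit 3) (nat_lit 478) (nat_lit 5) (nat_lit 437) (nat_lit 436) (nat_lit 267)))) (XT.nd (nat_lit 78) (nat_lit 0) (nat_lit 0) (XT.lf (nat_lit 0) (nat_lit 8289166956) (nat_lit 1672) (nat_lit 3140260513) (nat_lit 1748) (nat_lit 1434942052) (nat_lit 456) (nat_lit 5) (nat_lit 478) (nat_lit 5) (nat_lit 479) (nat_lit 5) (nat_lit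 438) (nat_lit 436) (nat_lit 266)) (XT.nd (nat_lit 78) (nat_lit 0) (nat_lit 76) (XT.lf (nat_lit 76) (nat_lit 3153100724) (nat_lit 0) (nat_lit 5725957895) (nat_lit 1748) (nat_lit 4106275291) (nat_lit 457) (nat_lit 5) (nat_lit 456) (nat_lit 5) (nat_lit 479) (nat_lit 5) (nat_lit 439) (nat_lit 436) (nat_lit 265)) (XT.lf (nat_lit 0) (nat_lit 9491972861) (nat_lit 1672) (nat_lit 3500171273) (nat_lit 1748) (nat_lit 116352067) (nat_lit 457) (nat_lit 5) (nat_lit 479) (nat_lit 5) (nat_lit 480) (nat_lit 5) (nat_lit 440) (nat_lit 436) (nat_lit 264))))) (XT.nd (nat_lit 234) (nat_lit 1596) (nat_lit 0) (XT.nd (nat_lit 78) (nat_lit 0) (nat_lit 0) (XT.lf (nat_lit 76) (nat_lit 2953427512) (nat_lit 0) (nat_lit 7210439013) (nat_lit 1748) (nat_lit 3069323836) (nat_lit 458) (nat_lit 5) (nat_lit 457) (nat_lit 5) (nat_lit 480) (nat_lit 5) (nat_lit 441) (nat_lit 436) (nat_lit 263)) (XT.nd (nat_lit 78) (nat_lit 0) (nat_lit 76) (XT.lf (nat_lit 76) (nat_lit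 9577664108) (nat_lit 0) (nat_lit 1284812473) (nat_lit 1748) (nat_lit 2497639241) (nat_lit 458) (nat_lit 5) (nat_lit 457) (nat_lit 5) (nat_lit 480) (nat_lit 5) (nat_lit 442) (nat_lit 436) (nat_lit 262)) (XT.lf (nat_lit 76) (nat_lit 2845225289) (nat_lit 0) (nat_lit 8769225617) (nat_lit 1748) (nat_lit 1874343974) (nat_lit 459) (nat_lit 5) (nat_lit 458) (nat_lit 5) (nat_lit 481) (nat_lit 5) (nat_lit 443) (nat_lit 436) (nat_lit 261)))) (XT.nd (nat_lit 78) (nat_lit 1672) (nat_lit 0) (XT.lf (nat_lit 76) (nat_lit 9642150346) (nat_lit 0) (nat_lit 2763324648) (nat_lit 1748) (nat_lit 1214095189) (nat_lit 459) (nat_lit 5) (nat_lit 458) (nat_lit 5) (nat_lit 481) (nat_lit 5) (nat_lit 444) (nat_lit 436) (nat_lit 260)) (XT.nd (nat_lit 78) (nat_lit 1748) (nat_lit 0) (XT.lf (nat_lit 76) (nat_lit 2831293847) (nat_lit 0) (nat_lit 10411633787) (nat_lit 1748) (nat_lit 509424013) (nat_lit 460) (nat_lit 5) (nat_lit 459) (nat_lit 5) (nat_lit 482) (nat_lit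 5) (nat_lit 445) (nat_lit 436) (nat_lit 259)) (XT.lf (nat_lit 0) (nat_lit 242239079) (nat_lit 1748) (nat_lit 4083142803) (nat_lit 1824) (nat_lit 9561669501) (nat_lit 436) (nat_lit 5) (nat_lit 459) (nat_lit 5) (nat_lit 460) (nat_lit 5) (nat_lit 446) (nat_lit 436) (nat_lit 258))))))))
noncomputable def xc214 : XT := (XT.nd (nat_lit 1716) (nat_lit 8892) (nat_lit 0) (XT.nd (nat_lit 858) (nat_lit 5320) (nat_lit 0) (XT.nd (nat_lit 390) (nat_lit 0) (nat_lit 152) (XT.nd (nat_lit 156) (nat_lit 0) (nat_lit 76) (XT.nd (nat_lit 78) (nat_lit 0) (nat_lit 0) (XT.lf (nat_lit 0) (nat_lit 1024137712) (nat_lit 1748) (nat_lit 11116149443) (nat_lit 1824) (nat_lit 1883652793) (nat_lit 437) (nat_lit 5) (nat_lit 460) (nat_lit 5) (nat_lit 461) (nat_lit 5) (nat_lit 447) (nat_lit 436) (nat_lit 257)) (XT.lf (nat_lit 0) (nat_lit 1868728986) (nat_lit 1748) (nat_lit 4104149691) (nat_lit 1824) (nat_lit 8189749117) (nat_lit 437) (nat_lit 5) (nat_lit 460) (nat_lit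 5) (nat_lit 461) (nat_lit 5) (nat_lit 448) (nat_lit 436) (nat_lit 256))) (XT.nd (nat_lit 78) (nat_lit 0) (nat_lit 0) (XT.lf (nat_lit 0) (nat_lit 2743448805) (nat_lit 1748) (nat_lit 11223644138) (nat_lit 1824) (nat_lit 336734269) (nat_lit 438) (nat_lit 5) (nat_lit 461) (nat_lit 5) (nat_lit 462) (nat_lit 5) (nat_lit 449) (nat_lit 436) (nat_lit 255)) (XT.nd (nat_lit 78) (nat_lit 0) (nat_lit 0) (XT.lf (nat_lit 0) (nat_lit 3694105450) (nat_lit 1748) (nat_lit 4029434408) (nat_lit 1824) (nat_lit 6723144412) (nat_lit 438) (nat_lit 5) (nat_lit 461) (nat_lit 5) (nat_lit 462) (nat_lit 5) (nat_lit 450) (nat_lit 436) (nat_lit 254)) (XT.lf (nat_lit 76) (nat_lit 3346438805) (nat_lit 0) (nat_lit 1330400532) (nat_lit 1824) (nat_lit 9915300299) (nat_lit 439) (nat_lit 5) (nat_lit 438) (nat_lit 5) (nat_lit 462) (nat_lit 5) (nat_lit 451) (nat_lit 436) (nat_lit 253))))) (XT.nd (nat_lit 234) (nat_lit 0) (nat_lit 76) (XT.nd (nat_lit 78) (nat_lit 0)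 (nat_lit 0) (XT.lf (nat_lit 0) (nat_lit 5731630688) (nat_lit 1748) (nat_lit 3855652401) (nat_lit 1824) (nat_lit 5152175368) (nat_lit 439) (nat_lit 5) (nat_lit 462) (nat_lit 5) (nat_lit 463) (nat_lit 5) (nat_lit 452) (nat_lit 436) (nat_lit 252)) (XT.nd (nat_lit 78) (nat_lit 0) (nat_lit 76) (XT.lf (nat_lit 76) (nat_lit 3715986234) (nat_lit 0) (nat_lit 3116119132) (nat_lit 1824) (nat_lit 8057128893) (nat_lit 440) (nat_lit 5) (nat_lit 439) (nat_lit 5) (nat_lit 463) (nat_lit 5) (nat_lit 453) (nat_lit 436) (nat_lit 251)) (XT.lf (nat_lit 0) (nat_lit 7995046050) (nat_lit 1748) (nat_lit 3579237183) (nat_lit 1824) (nat_lit 3466915525) (nat_lit 440) (nat_lit 5) (nat_lit 463) (nat_lit 5) (nat_lit 464) (nat_lit 5) (nat_lit 454) (nat_lit 436) (nat_lit 250)))) (XT.nd (nat_lit 78) (nat_lit 0) (nat_lit 76) (XT.lf (nat_lit 76) (nat_lit 4194880732) (nat_lit 0) (nat_lit 5026186556) (nat_lit 1824) (nat_lit 5974341086) (nat_lit 441) (nat_lit 5) (nat_lit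 440) (nat_lit 5) (nat_lit 464) (nat_lit 5) (nat_lit 455) (nat_lit 436) (nat_lit 249)) (XT.nd (nat_lit 78) (nat_lit 0) (nat_lit 0) (XT.lf (nat_lit 0) (nat_lit 10498597352) (nat_lit 1748) (nat_lit 3196399324) (nat_lit 1824) (nat_lit 1657167959) (nat_lit 441) (nat_lit 5) (nat_lit 464) (nat_lit 5) (nat_lit 465) (nat_lit 5) (nat_lit 456) (nat_lit 436) (nat_lit 248)) (XT.lf (nat_lit 76) (nat_lit 4787147688) (nat_lit 0) (nat_lit 7071132208) (nat_lit 1824) (nat_lit 3652646265) (nat_lit 442) (nat_lit 5) (nat_lit 441) (nat_lit 5) (nat_lit 465) (nat_lit 5) (nat_lit 457) (nat_lit 436) (nat_lit 247)))))) (XT.nd (nat_lit 390) (nat_lit 3876) (nat_lit 0) (XT.nd (nat_lit 156) (nat_lit 1748) (nat_lit 0) (XT.nd (nat_lit 78) (nat_lit 0) (nat_lit 76) (XT.lf (nat_lit 76) (nat_lit 12967572044) (nat_lit 0) (nat_lit 291380624) (nat_lit 1824) (nat_lit 2413636449) (nat_lit 442) (nat_lit 5) (nat_lit 441) (nat_lit 5) (nat_lit 465) (nat_lit 5) (nat_lit 458)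 (nat_lit 436) (nat_lit 246)) (XT.lf (nat_lit 76) (nat_lit 5497043592) (nat_lit 0) (nat_lit 9261799800) (nat_lit 1824) (nat_lit 1077219943) (nat_lit 443) (nat_lit 5) (nat_lit 442) (nat_lit 5) (nat_lit 466) (nat_lit 5) (nat_lit 459) (nat_lit 436) (nat_lit 245))) (XT.nd (nat_lit 78) (nat_lit 0) (nat_lit 76) (XT.lf (nat_lit 0) (nat_lit 294940004) (nat_lit 1824) (nat_lit 2112761394) (nat_lit 1900) (nat_lit 13594815220) (nat_lit 418) (nat_lit 5) (nat_lit 442) (nat_lit 5) (nat_lit 443) (nat_lit 5) (nat_lit 460) (nat_lit 436) (nat_lit 244)) (XT.nd (nat_lit 78) (nat_lit 0) (nat_lit 0) (XT.lf (nat_lit 0) (nat_lit 1744144179) (nat_lit 1824) (nat_lit 9853524496) (nat_lit 76) (nat_lit 4573209354) (nat_lit 419) (nat_lit 5) (nat_lit 443) (nat_lit 5) (nat_lit 420) (nat_lit 5) (nat_lit 461) (nat_lit 436) (nat_lit 243)) (XT.lf (nat_lit 0) (nat_lit 3245368945) (nat_lit 1824) (nat_lit 1419866854) (nat_lit 76) (nat_lit 11676912072) (nat_lit 419)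 (nat_lit 5) (nat_lit 443) (nat_lit 5) (nat_lit 420) (nat_lit 5) (nat_lit 462) (nat_lit 436) (nat_lit 242))))) (XT.nd (nat_lit 234) (nat_lit 1748) (nat_lit 0) (XT.nd (nat_lit 78) (nat_lit 912) (nat_lit 0) (XT.lf (nat_lit 0) (nat_lit 4832730956) (nat_lit 1368) (nat_lit 9260239304) (nat_lit 76) (nat_lit 2422752489) (nat_lit 402) (nat_lit 5) (nat_lit 420) (nat_lit 5) (nat_lit 403) (nat_lit 5) (nat_lit 463) (nat_lit 436) (nat_lit 241)) (XT.nd (nat_lit 78) (nat_lit 912) (nat_lit 0) (XT.lf (nat_lit 0) (nat_lit 6485392076) (nat_lit 1368) (nat_lit 606148944) (nat_lit 76) (nat_lit 9600558924) (nat_lit 402) (nat_lit 5) (nat_lit 420) (nat_lit 5) (nat_lit 403) (nat_lit 5) (nat_lit 464) (nat_lit 436) (nat_lit 240)) (XT.lf (nat_lit 0) (nat_lit 8219039901) (nat_lit 988) (nat_lit 8547630285) (nat_lit 76) (nat_lit 104377647) (nat_lit 390) (nat_lit 5) (nat_lit 403) (nat_lit 5) (nat_lit 391) (nat_lit 5) (nat_lit 465) (nat_lit 436) (nat_lit 239))))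 (XT.nd (nat_lit 78) (nat_lit 912) (nat_lit 0) (XT.lf (nat_lit 0) (nat_lit 337557109) (nat_lit 836) (nat_lit 9696353119) (nat_lit 912) (nat_lit 7018735248) (nat_lit 379) (nat_lit 5) (nat_lit 390) (nat_lit 5) (nat_lit 391) (nat_lit 5) (nat_lit 466) (nat_lit 436) (nat_lit 238)) (XT.nd (nat_lit 78) (nat_lit 912) (nat_lit 0) (XT.lf (nat_lit 0) (nat_lit 9510176495) (nat_lit 836) (nat_lit 2425651636) (nat_lit 912) (nat_lit 5301033687) (nat_lit 379) (nat_lit 5) (nat_lit 390) (nat_lit 5) (nat_lit 391) (nat_lit 5) (nat_lit 467) (nat_lit 436) (nat_lit 237)) (XT.lf (nat_lit 0) (nat_lit 1421577521) (nat_lit 912) (nat_lit 12489361760) (nat_lit 988) (nat_lit 3513121824) (nat_lit 367) (nat_lit 5) (nat_lit 379) (nat_lit 5) (nat_lit 380) (nat_lit 5) (nat_lit 468) (nat_lit 436) (nat_lit 236))))))) (XT.nd (nat_lit 858) (nat_lit 4788) (nat_lit 0) (XT.nd (nat_lit 390) (nat_lit 2356) (nat_lit 0) (XT.nd (nat_lit 156) (nat_lit 836) (nat_lit 0) (XT.nd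 (nat_lit 78) (nat_lit 912) (nat_lit 0) (XT.lf (nat_lit 0) (nat_lit 10835154839) (nat_lit 912) (nat_lit 5151817148) (nat_lit 988) (nat_lit 1626805686) (nat_lit 367) (nat_lit 5) (nat_lit 379) (nat_lit 5) (nat_lit 380) (nat_lit 5) (nat_lit 469) (nat_lit 436) (nat_lit 235)) (XT.lf (nat_lit 0) (nat_lit 319552186) (nat_lit 912) (nat_lit 15165755115) (nat_lit 76) (nat_lit 2321420016) (nat_lit 355) (nat_lit 5) (nat_lit 367) (nat_lit 5) (nat_lit 356) (nat_lit 5) (nat_lit 470) (nat_lit 436) (nat_lit 234))) (XT.nd (nat_lit 78) (nat_lit 836) (nat_lit 0) (XT.lf (nat_lit 0) (nat_lit 2356760839) (nat_lit 912) (nat_lit 5713137340) (nat_lit 76) (nat_lit 9931950167) (nat_lit 355) (nat_lit 5) (nat_lit 367) (nat_lit 5) (nat_lit 356) (nat_lit 5) (nat_lit 471) (nat_lit 436) (nat_lit 233)) (XT.nd (nat_lit 78) (nat_lit 0) (nat_lit 0) (XT.lf (nat_lit 0) (nat_lit 3974617955) (nat_lit 836) (nat_lit 479802371) (nat_lit 912) (nat_lit 13746058889) (nat_lit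 344) (nat_lit 5) (nat_lit 355) (nat_lit 5) (nat_lit 356) (nat_lit 5) (nat_lit 472) (nat_lit 436) (nat_lit 232)) (XT.lf (nat_lit 0) (nat_lit 6673756920) (nat_lit 912) (nat_lit 4522273644) (nat_lit 76) (nat_lit 7205459182) (nat_lit 344) (nat_lit 5) (nat_lit 356) (nat_lit 5) (nat_lit 345) (nat_lit 5) (nat_lit 473) (nat_lit 436) (nat_lit 231))))) (XT.nd (nat_lit 234) (nat_lit 836) (nat_lit 0) (XT.nd (nat_lit 78) (nat_lit 760) (nat_lit 0) (XT.lf (nat_lit 0) (nat_lit 5437517432) (nat_lit 760) (nat_lit 3532543816) (nat_lit 836) (nat_lit 9635809116) (nat_lit 334) (nat_lit 5) (nat_lit 344) (nat_lit 5) (nat_lit 345) (nat_lit 5) (nat_lit 474) (nat_lit 436) (nat_lit 230)) (XT.nd (nat_lit 78) (nat_lit 760) (nat_lit 0) (XT.lf (nat_lit 0) (nat_lit 11364830999) (nat_lit 836) (nat_lit 3190025957) (nat_lit 76) (nat_lit 4258432314) (nat_lit 334) (nat_lit 5) (nat_lit 345) (nat_lit 5) (nat_lit 335) (nat_lit 5) (nat_lit 475) (nat_lit 436) (nat_lit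 229)) (XT.lf (nat_lit 0) (nat_lit 7050985105) (nat_lit 760) (nat_lit 6819974823) (nat_lit 836) (nat_lit 5152628787) (nat_lit 324) (nat_lit 5) (nat_lit 334) (nat_lit 5) (nat_lit 335) (nat_lit 5) (nat_lit 476) (nat_lit 436) (nat_lit 228)))) (XT.nd (nat_lit 78) (nat_lit 836) (nat_lit 0) (XT.lf (nat_lit 0) (nat_lit 16450065962) (nat_lit 836) (nat_lit 1710730438) (nat_lit 76) (nat_lit 1076842065) (nat_lit 324) (nat_lit 5) (nat_lit 335) (nat_lit 5) (nat_lit 325) (nat_lit 5) (nat_lit 477) (nat_lit 436) (nat_lit 227)) (XT.nd (nat_lit 78) (nat_lit 76) (nat_lit 0) (XT.lf (nat_lit 0) (nat_lit 8820985865) (nat_lit 760) (nat_lit 10356677319) (nat_lit 836) (nat_lit 276369225) (nat_lit 314) (nat_lit 5) (nat_lit 324) (nat_lit 5) (nat_lit 325) (nat_lit 5) (nat_lit 478) (nat_lit 436) (nat_lit 226)) (XT.lf (nat_lit 0) (nat_lit 2261149823) (nat_lit 836) (nat_lit 108864050) (nat_lit 76) (nat_lit 17304323751) (nat_lit 313) (nat_lit 5) (nat_lit 324)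 (nat_lit 5) (nat_lit 314) (nat_lit 5) (nat_lit 479) (nat_lit 436) (nat_lit 225)))))) (XT.nd (nat_lit 468) (nat_lit 1976) (nat_lit 0) (XT.nd (nat_lit 234) (nat_lit 1368) (nat_lit 0) (XT.nd (nat_lit 78) (nat_lit 684) (nat_lit 0) (XT.lf (nat_lit 0) (nat_lit 4948166696) (nat_lit 836) (nat_lit 9176455384) (nat_lit 76) (nat_lit 5772342666) (nat_lit 303) (nat_lit 5) (nat_lit 314) (nat_lit 5) (nat_lit 304) (nat_lit 5) (nat_lit 480) (nat_lit 436) (nat_lit 224)) (XT.nd (nat_lit 78) (nat_lit 0) (nat_lit 0) (XT.lf (nat_lit 0) (nat_lit 1643872914) (nat_lit 684) (nat_lit 6066832297) (nat_lit 760) (nat_lit 12412904849) (nat_lit 294) (nat_lit 5) (nat_lit 303) (nat_lit 5) (nat_lit 304) (nat_lit 5) (nat_lit 481) (nat_lit 436) (nat_lit 223)) (XT.lf (nat_lit 0) (nat_lit 10599193808) (nat_lit 760) (nat_lit 7568906617) (nat_lit 76) (nat_lit 2185275118) (nat_lit 294) (nat_lit 5) (nat_lit 304) (nat_lit 5) (nat_lit 295) (nat_lit 5) (nat_lit 482) (nat_lit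 436) (nat_lit 222)))) (XT.nd (nat_lit 78) (nat_lit 684) (nat_lit 0) (XT.lf (nat_lit 0) (nat_lit 3560814325) (nat_lit 684) (nat_lit 10042777572) (nat_lit 760) (nat_lit 6982982870) (nat_lit 285) (nat_lit 5) (nat_lit 294) (nat_lit 5) (nat_lit 295) (nat_lit 5) (nat_lit 483) (nat_lit 436) (nat_lit 221)) (XT.nd (nat_lit 78) (nat_lit 684) (nat_lit 0) (XT.lf (nat_lit 0) (nat_lit 15009917468) (nat_lit 684) (nat_lit 1703858076) (nat_lit 760) (nat_lit 4109749682) (nat_lit 285) (nat_lit 5) (nat_lit 294) (nat_lit 5) (nat_lit 295) (nat_lit 5) (nat_lit 484) (nat_lit 436) (nat_lit 220)) (XT.lf (nat_lit 0) (nat_lit 5646892642) (nat_lit 684) (nat_lit 14315097211) (nat_lit 760) (nat_lit 1101709478) (nat_lit 276) (nat_lit 5) (nat_lit 285) (nat_lit 5) (nat_lit 286) (nat_lit 5) (nat_lit 485) (nat_lit 436) (nat_lit 219))))) (XT.nd (nat_lit 234) (nat_lit 1216) (nat_lit 0) (XT.nd (nat_lit 78) (nat_lit 684) (nat_lit 0) (XT.lf (nat_lit 0) (nat_lit 1986283559)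 (nat_lit 760) (nat_lit 3922620977) (nat_lit 76) (nat_lit 15398606500) (nat_lit 275) (nat_lit 5) (nat_lit 285) (nat_lit 5) (nat_lit 276) (nat_lit 5) (nat_lit 486) (nat_lit 436) (nat_lit 218)) (XT.nd (nat_lit 78) (nat_lit 0) (nat_lit 0) (XT.lf (nat_lit 0) (nat_lit 5185351831) (nat_lit 760) (nat_lit 13680866250) (nat_lit 76) (nat_lit 2688555014) (nat_lit 266) (nat_lit 5) (nat_lit 276) (nat_lit 5) (nat_lit 267) (nat_lit 5) (nat_lit 487) (nat_lit 436) (nat_lit 217)) (XT.lf (nat_lit 0) (nat_lit 8509209508) (nat_lit 760) (nat_lit 1891985204) (nat_lit 76) (nat_lit 11404570610) (nat_lit 266) (nat_lit 5) (nat_lit 276) (nat_lit 5) (nat_lit 267) (nat_lit 5) (nat_lit 488) (nat_lit 436) (nat_lit 216)))) (XT.nd (nat_lit 78) (nat_lit 608) (nat_lit 0) (XT.lf (nat_lit 0) (nat_lit 10261606764) (nat_lit 608) (nat_lit 1699836309) (nat_lit 684) (nat_lit 10099097413) (nat_lit 258) (nat_lit 5) (nat_lit 266) (nat_lit 5) (nat_lit 267) (nat_lit 5) (nat_lit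 489) (nat_lit 436) (nat_lit 215)) (XT.nd (nat_lit 78) (nat_lit 0) (nat_lit 0) (XT.lf (nat_lit 0) (nat_lit 315524674) (nat_lit 608) (nat_lit 15223937648) (nat_lit 684) (nat_lit 6779815056) (nat_lit 250) (nat_lit 5) (nat_lit 258) (nat_lit 5) (nat_lit 259) (nat_lit 5) (nat_lit 490) (nat_lit 436) (nat_lit 214)) (XT.lf (nat_lit 0) (nat_lit 12815139916) (nat_lit 608) (nat_lit 6459640847) (nat_lit 684) (nat_lit 3306694494) (nat_lit 250) (nat_lit 5) (nat_lit 258) (nat_lit 5) (nat_lit 259) (nat_lit 5) (nat_lit 491) (nat_lit 436) (nat_lit 213))))))))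
noncomputable def xc215 : XT := (XT.nd (nat_lit 55614) (nat_lit 0) (nat_lit 15200) (XT.nd (nat_lit 858) (nat_lit 1064) (nat_lit 0) (XT.nd (nat_lit 390) (nat_lit 1672) (nat_lit 0) (XT.nd (nat_lit 156) (nat_lit 1140) (nat_lit 0) (XT.nd (nat_lit 78) (nat_lit 0) (nat_lit 0) (XT.lf (nat_lit 0) (nat_lit 262276046) (nat_lit 684) (nat_lit 20120162956) (nat_lit 76) (nat_lit 2465858821) (nat_lit 241) (nat_lit 5) (nat_lit 250) (nat_lit 5) (nat_lit 242) (nat_lit 5) (nat_lit 492) (nat_lit 436) (nat_lit 212)) (XT.lf (nat_lit 0) (nat_lit 3962625637) (nat_lit 684) (nat_lit 7585039120) (nat_lit 76) (nat_lit 11570270380) (nat_lit 241) (nat_lit 5) (nat_lit 250) (nat_lit 5) (nat_lit 242) (nat_lit 5) (nat_lit 493) (nat_lit 436) (nat_lit 211))) (XT.nd (nat_lit 78) (nat_lit 532) (nat_lit 0) (XT.lf (nat_lit 0) (nat_lit 5264279149) (nat_lit 608) (nat_lit 2502455338) (nat_lit 684) (nat_lit 15625636611) (nat_lit 233) (nat_lit 5) (nat_lit 241) (nat_lit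 5) (nat_lit 242) (nat_lit 5) (nat_lit 494) (nat_lit 436) (nat_lit 210)) (XT.nd (nat_lit 78) (nat_lit 532) (nat_lit 0) (XT.lf (nat_lit 0) (nat_lit 11737433349) (nat_lit 684) (nat_lit 5247462894) (nat_lit 76) (nat_lit 6685590307) (nat_lit 233) (nat_lit 5) (nat_lit 242) (nat_lit 5) (nat_lit 234) (nat_lit 5) (nat_lit 495) (nat_lit 436) (nat_lit 209)) (XT.lf (nat_lit 0) (nat_lit 7973292492) (nat_lit 532) (nat_lit 7878296793) (nat_lit 608) (nat_lit 8101295075) (nat_lit 226) (nat_lit 5) (nat_lit 233) (nat_lit 5) (nat_lit 234) (nat_lit 5) (nat_lit 496) (nat_lit 436) (nat_lit 208))))) (XT.nd (nat_lit 234) (nat_lit 1064) (nat_lit 0) (XT.nd (nat_lit 78) (nat_lit 608) (nat_lit 0) (XT.lf (nat_lit 0) (nat_lit 20088375991) (nat_lit 608) (nat_lit 2725549659) (nat_lit 76) (nat_lit 1426198415) (nat_lit 226) (nat_lit 5) (nat_lit 234) (nat_lit 5) (nat_lit 227) (nat_lit 5) (nat_lit 497) (nat_lit 436) (nat_lit 207)) (XT.nd (nat_lit 78) (nat_lit 76)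 (nat_lit 0) (XT.lf (nat_lit 0) (nat_lit 10878656299) (nat_lit 532) (nat_lit 13649874926) (nat_lit 608) (nat_lit 2205560) (nat_lit 219) (nat_lit 5) (nat_lit 226) (nat_lit 5) (nat_lit 227) (nat_lit 5) (nat_lit 498) (nat_lit 436) (nat_lit 206)) (XT.lf (nat_lit 0) (nat_lit 4189103183) (nat_lit 608) (nat_lit 67930137) (nat_lit 76) (nat_lit 20569294819) (nat_lit 218) (nat_lit 5) (nat_lit 226) (nat_lit 5) (nat_lit 219) (nat_lit 5) (nat_lit 499) (nat_lit 436) (nat_lit 205)))) (XT.nd (nat_lit 78) (nat_lit 532) (nat_lit 0) (XT.lf (nat_lit 0) (nat_lit 8585967833) (nat_lit 608) (nat_lit 11195537691) (nat_lit 76) (nat_lit 5343891145) (nat_lit 211) (nat_lit 5) (nat_lit 219) (nat_lit 5) (nat_lit 212) (nat_lit 5) (nat_lit 500) (nat_lit 436) (nat_lit 204)) (XT.nd (nat_lit 78) (nat_lit 0) (nat_lit 0) (XT.lf (nat_lit 0) (nat_lit 2780994932) (nat_lit 532) (nat_lit 10332446609) (nat_lit 608) (nat_lit 12316152402) (nat_lit 204) (nat_lit 5) (nat_lit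 211) (nat_lit 5) (nat_lit 212) (nat_lit 5) (nat_lit 501) (nat_lit 436) (nat_lit 203)) (XT.lf (nat_lit 0) (nat_lit 17183481740) (nat_lit 532) (nat_lit 619119983) (nat_lit 608) (nat_lit 7935851491) (nat_lit 204) (nat_lit 5) (nat_lit 211) (nat_lit 5) (nat_lit 212) (nat_lit 5) (nat_lit 502) (nat_lit 436) (nat_lit 202)))))) (XT.nd (nat_lit 54288) (nat_lit 0) (nat_lit 20140) (XT.nd (nat_lit 156) (nat_lit 532) (nat_lit 0) (XT.nd (nat_lit 78) (nat_lit 76) (nat_lit 0) (XT.lf (nat_lit 0) (nat_lit 5831400755) (nat_lit 456) (nat_lit 16848391355) (nat_lit 532) (nat_lit 3371813399) (nat_lit 198) (nat_lit 5) (nat_lit 204) (nat_lit 5) (nat_lit 205) (nat_lit 5) (nat_lit 503) (nat_lit 436) (nat_lit 201)) (XT.lf (nat_lit 0) (nat_lit 1324655740) (nat_lit 532) (nat_lit 5766539617) (nat_lit 76) (nat_lit 19278499898) (nat_lit 197) (nat_lit 5) (nat_lit 204) (nat_lit 5) (nat_lit 198) (nat_lit 5) (nat_lit 504) (nat_lit 436) (nat_lit 200))) (XT.nd (nat_lit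 78) (nat_lit 0) (nat_lit 0) (XT.lf (nat_lit 0) (nat_lit 6144097407) (nat_lit 608) (nat_lit 17644127697) (nat_lit 76) (nat_lit 2903992835) (nat_lit 190) (nat_lit 5) (nat_lit 198) (nat_lit 5) (nat_lit 191) (nat_lit 5) (nat_lit 505) (nat_lit 436) (nat_lit 199)) (XT.nd (nat_lit 53976) (nat_lit 0) (nat_lit 20140) (XT.lf (nat_lit 0) (nat_lit 11142046218) (nat_lit 608) (nat_lit 2835702702) (nat_lit 76) (nat_lit 13041800509) (nat_lit 190) (nat_lit 5) (nat_lit 198) (nat_lit 5) (nat_lit 191) (nat_lit 5) (nat_lit 506) (nat_lit 436) (nat_lit 198)) (XT.lf (nat_lit 0) (nat_lit 4106124392) (nat_lit 1748) (nat_lit 1162776363) (nat_lit 1748) (nat_lit 1162776363) (nat_lit 455) (nat_lit 3) (nat_lit 478) (nat_lit 3) (nat_lit 478) (nat_lit 5) (nat_lit 437) (nat_lit 437) (nat_lit 266))))) (XT.nd (nat_lit 234) (nat_lit 0) (nat_lit 76) (XT.nd (nat_lit 78) (nat_lit 0) (nat_lit 76) (XT.lf (nat_lit 76) (nat_lit 3932845070) (nat_lit 0) (nat_lit 4790175465)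 (nat_lit 1748) (nat_lit 4260275770) (nat_lit 456) (nat_lit 5) (nat_lit 455) (nat_lit 3) (nat_lit 478) (nat_lit 5) (nat_lit 438) (nat_lit 437) (nat_lit 265)) (XT.nd (nat_lit 78) (nat_lit 0) (nat_lit 0) (XT.lf (nat_lit 0) (nat_lit 9256103571) (nat_lit 1672) (nat_lit 2770171489) (nat_lit 1748) (nat_lit 1079123347) (nat_lit 456) (nat_lit 5) (nat_lit 478) (nat_lit 5) (nat_lit 479) (nat_lit 5) (nat_lit 439) (nat_lit 437) (nat_lit 264)) (XT.lf (nat_lit 76) (nat_lit 3646208984) (nat_lit 0) (nat_lit 6198667341) (nat_lit 1748) (nat_lit 3384168710) (nat_lit 457) (nat_lit 5) (nat_lit 456) (nat_lit 5) (nat_lit 479) (nat_lit 5) (nat_lit 440) (nat_lit 437) (nat_lit 263)))) (XT.nd (nat_lit 78) (nat_lit 0) (nat_lit 76) (XT.lf (nat_lit 76) (nat_lit 10222901792) (nat_lit 0) (nat_lit 230910657) (nat_lit 1748) (nat_lit 2901187376) (nat_lit 457) (nat_lit 5) (nat_lit 456) (nat_lit 5) (nat_lit 479) (nat_lit 5) (nat_lit 441) (nat_lit 437) (nat_lit 262))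 (XT.nd (nat_lit 78) (nat_lit 0) (nat_lit 0) (XT.lf (nat_lit 76) (nat_lit 3449180006) (nat_lit 0) (nat_lit 7676192137) (nat_lit 1748) (nat_lit 2357095600) (nat_lit 458) (nat_lit 5) (nat_lit 457) (nat_lit 5) (nat_lit 480) (nat_lit 5) (nat_lit 442) (nat_lit 437) (nat_lit 261)) (XT.lf (nat_lit 76) (nat_lit 10197338903) (nat_lit 0) (nat_lit 1625748276) (nat_lit 1748) (nat_lit 1789146229) (nat_lit 458) (nat_lit 5) (nat_lit 457) (nat_lit 5) (nat_lit 480) (nat_lit 5) (nat_lit 443) (nat_lit 437) (nat_lit 260))))))) (XT.nd (nat_lit 858) (nat_lit 3496) (nat_lit 0) (XT.nd (nat_lit 390) (nat_lit 0) (nat_lit 76) (XT.nd (nat_lit 156) (nat_lit 1672) (nat_lit 0) (XT.nd (nat_lit 78) (nat_lit 0) (nat_lit 0) (XT.lf (nat_lit 76) (nat_lit 3344453486) (nat_lit 0) (nat_lit 9231937043) (nat_lit 1748) (nat_lit 1167373991) (nat_lit 459) (nat_lit 5) (nat_lit 458) (nat_lit 5) (nat_lit 481) (nat_lit 5) (nat_lit 444) (nat_lit 437) (nat_lit 259)) (XT.lf (nat_lit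 76) (nat_lit 10268644031) (nat_lit 0) (nat_lit 3100284194) (nat_lit 1748) (nat_lit 508517424) (nat_lit 459) (nat_lit 5) (nat_lit 458) (nat_lit 5) (nat_lit 481) (nat_lit 5) (nat_lit 445) (nat_lit 437) (nat_lit 258))) (XT.nd (nat_lit 78) (nat_lit 0) (nat_lit 0) (XT.lf (nat_lit 0) (nat_lit 194483181) (nat_lit 1748) (nat_lit 10679469895) (nat_lit 1824) (nat_lit 3139166516) (nat_lit 436) (nat_lit 5) (nat_lit 459) (nat_lit 5) (nat_lit 460) (nat_lit 5) (nat_lit 446) (nat_lit 437) (nat_lit 257)) (XT.nd (nat_lit 78) (nat_lit 0) (nat_lit 76) (XT.lf (nat_lit 0) (nat_lit 940496471) (nat_lit 1748) (nat_lit 3717123901) (nat_lit 1824) (nat_lit 9493106780) (nat_lit 436) (nat_lit 5) (nat_lit 459) (nat_lit 5) (nat_lit 460) (nat_lit 5) (nat_lit 447) (nat_lit 437) (nat_lit 256)) (XT.lf (nat_lit 0) (nat_lit 1725779234) (nat_lit 1748) (nat_lit 10878343690) (nat_lit 1824) (nat_lit 1686479507) (nat_lit 437) (nat_lit 5) (nat_lit 460) (nat_lit 5) (nat_lit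 461) (nat_lit 5) (nat_lit 448) (nat_lit 437) (nat_lit 255))))) (XT.nd (nat_lit 234) (nat_lit 0) (nat_lit 76) (XT.nd (nat_lit 78) (nat_lit 0) (nat_lit 76) (XT.lf (nat_lit 0) (nat_lit 2573906280) (nat_lit 1748) (nat_lit 3735126074) (nat_lit 1824) (nat_lit 8123302587) (nat_lit 437) (nat_lit 5) (nat_lit 460) (nat_lit 5) (nat_lit 461) (nat_lit 5) (nat_lit 449) (nat_lit 437) (nat_lit 254)) (XT.nd (nat_lit 78) (nat_lit 0) (nat_lit 0) (XT.lf (nat_lit 0) (nat_lit 3454575859) (nat_lit 1748) (nat_lit 10985280134) (nat_lit 1824) (nat_lit 136736960) (nat_lit 438) (nat_lit 5) (nat_lit 461) (nat_lit 5) (nat_lit 462) (nat_lit 5) (nat_lit 450) (nat_lit 437) (nat_lit 253)) (XT.lf (nat_lit 0) (nat_lit 4411377831) (nat_lit 1748) (nat_lit 3656261442) (nat_lit 1824) (nat_lit 6654928874) (nat_lit 438) (nat_lit 5) (nat_lit 461) (nat_lit 5) (nat_lit 462) (nat_lit 5) (nat_lit 451) (nat_lit 437) (nat_lit 252)))) (XT.nd (nat_lit 78) (nat_lit 0) (nat_lit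 76) (XT.lf (nat_lit 76) (nat_lit 3864143961) (nat_lit 0) (nat_lit 1539933679) (nat_lit 1824) (nat_lit 9467052325) (nat_lit 439) (nat_lit 5) (nat_lit 438) (nat_lit 5) (nat_lit 462) (nat_lit 5) (nat_lit 452) (nat_lit 437) (nat_lit 251)) (XT.nd (nat_lit 78) (nat_lit 0) (nat_lit 0) (XT.lf (nat_lit 0) (nat_lit 6466374914) (nat_lit 1748) (nat_lit 3477062983) (nat_lit 1824) (nat_lit 5078232562) (nat_lit 439) (nat_lit 5) (nat_lit 462) (nat_lit 5) (nat_lit 463) (nat_lit 5) (nat_lit 453) (nat_lit 437) (nat_lit 250)) (XT.lf (nat_lit 76) (nat_lit 4243010382) (nat_lit 0) (nat_lit 3336628911) (nat_lit 1824) (nat_lit 7594990311) (nat_lit 440) (nat_lit 5) (nat_lit 439) (nat_lit 5) (nat_lit 463) (nat_lit 5) (nat_lit 454) (nat_lit 437) (nat_lit 249)))))) (XT.nd (nat_lit 468) (nat_lit 3800) (nat_lit 0) (XT.nd (nat_lit 234) (nat_lit 0) (nat_lit 76) (XT.nd (nat_lit 78) (nat_lit 0) (nat_lit 0) (XT.lf (nat_lit 0) (nat_lit 8752853600) (nat_lit 1748)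 (nat_lit 3193840728) (nat_lit 1824) (nat_lit 3383202130) (nat_lit 440) (nat_lit 5) (nat_lit 463) (nat_lit 5) (nat_lit 464) (nat_lit 5) (nat_lit 455) (nat_lit 437) (nat_lit 248)) (XT.nd (nat_lit 78) (nat_lit 0) (nat_lit 76) (XT.lf (nat_lit 76) (nat_lit 4732753089) (nat_lit 0) (nat_lit 5261866019) (nat_lit 1824) (nat_lit 5492749979) (nat_lit 441) (nat_lit 5) (nat_lit 440) (nat_lit 5) (nat_lit 464) (nat_lit 5) (nat_lit 456) (nat_lit 437) (nat_lit 247)) (XT.lf (nat_lit 0) (nat_lit 11285287881) (nat_lit 1748) (nat_lit 2802680529) (nat_lit 1824) (nat_lit 1559543534) (nat_lit 441) (nat_lit 5) (nat_lit 464) (nat_lit 5) (nat_lit 465) (nat_lit 5) (nat_lit 457) (nat_lit 437) (nat_lit 246)))) (XT.nd (nat_lit 78) (nat_lit 0) (nat_lit 0) (XT.lf (nat_lit 76) (nat_lit 5337526589) (nat_lit 0) (nat_lit 7326281077) (nat_lit 1824) (nat_lit 3145811330) (nat_lit 442) (nat_lit 5) (nat_lit 441) (nat_lit 5) (nat_lit 465) (nat_lit 5) (nat_lit 458) (nat_lit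 437) (nat_lit 245)) (XT.nd (nat_lit 78) (nat_lit 0) (nat_lit 76) (XT.lf (nat_lit 76) (nat_lit 13672645002) (nat_lit 0) (nat_lit 408704536) (nat_lit 1824) (nat_lit 1893391668) (nat_lit 442) (nat_lit 5) (nat_lit 441) (nat_lit 5) (nat_lit 465) (nat_lit 5) (nat_lit 459) (nat_lit 437) (nat_lit 244)) (XT.lf (nat_lit 76) (nat_lit 6061718101) (nat_lit 0) (nat_lit 9540836854) (nat_lit 1824) (nat_lit 539106661) (nat_lit 443) (nat_lit 5) (nat_lit 442) (nat_lit 5) (nat_lit 466) (nat_lit 5) (nat_lit 460) (nat_lit 437) (nat_lit 243))))) (XT.nd (nat_lit 234) (nat_lit 2128) (nat_lit 0) (XT.nd (nat_lit 78) (nat_lit 0) (nat_lit 76) (XT.lf (nat_lit 0) (nat_lit 842326716) (nat_lit 1824) (nat_lit 1701856863) (nat_lit 1900) (nat_lit 13767407236) (nat_lit 418) (nat_lit 5) (nat_lit 442) (nat_lit 5) (nat_lit 443) (nat_lit 5) (nat_lit 461) (nat_lit 437) (nat_lit 242)) (XT.nd (nat_lit 78) (nat_lit 0) (nat_lit 0) (XT.lf (nat_lit 0) (nat_lit 2312277537)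 (nat_lit 1824) (nat_lit 9589054284) (nat_lit 76) (nat_lit 4582155252) (nat_lit 419) (nat_lit 5) (nat_lit 443) (nat_lit 5) (nat_lit 420) (nat_lit 5) (nat_lit 462) (nat_lit 437) (nat_lit 241)) (XT.lf (nat_lit 0) (nat_lit 3833070907) (nat_lit 1824) (nat_lit 995773306) (nat_lit 76) (nat_lit 11829550029) (nat_lit 419) (nat_lit 5) (nat_lit 443) (nat_lit 5) (nat_lit 420) (nat_lit 5) (nat_lit 463) (nat_lit 437) (nat_lit 240)))) (XT.nd (nat_lit 78) (nat_lit 912) (nat_lit 0) (XT.lf (nat_lit 0) (nat_lit 5444419647) (nat_lit 1368) (nat_lit 8985054759) (nat_lit 76) (nat_lit 2406124181) (nat_lit 402) (nat_lit 5) (nat_lit 420) (nat_lit 5) (nat_lit 403) (nat_lit 5) (nat_lit 464) (nat_lit 437) (nat_lit 239)) (XT.nd (nat_lit 78) (nat_lit 912) (nat_lit 0) (XT.lf (nat_lit 0) (nat_lit 7120035282) (nat_lit 1368) (nat_lit 166909834) (nat_lit 76) (nat_lit 9728762889) (nat_lit 402) (nat_lit 5) (nat_lit 420) (nat_lit 5) (nat_lit 403) (nat_lit 5) (nat_lit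 465) (nat_lit 437) (nat_lit 238)) (XT.lf (nat_lit 0) (nat_lit 8881044900) (nat_lit 988) (nat_lit 8259777059) (nat_lit 76) (nat_lit 57561769) (nat_lit 390) (nat_lit 5) (nat_lit 403) (nat_lit 5) (nat_lit 391) (nat_lit 5) (nat_lit 466) (nat_lit 437) (nat_lit 237))))))))
noncomputable def xc216 : XT := (XT.nd (nat_lit 1716) (nat_lit 5776) (nat_lit 0) (XT.nd (nat_lit 858) (nat_lit 4408) (nat_lit 0) (XT.nd (nat_lit 390) (nat_lit 2356) (nat_lit 0) (XT.nd (nat_lit 156) (nat_lit 1824) (nat_lit 0) (XT.nd (nat_lit 78) (nat_lit 0) (nat_lit 0) (XT.lf (nat_lit 0) (nat_lit 800095624) (nat_lit 836) (nat_lit 9925318946) (nat_lit 912) (nat_lit 6658337314) (nat_lit 379) (nat_lit 5) (nat_lit 390) (nat_lit 5) (nat_lit 391) (nat_lit 5) (nat_lit 467) (nat_lit 437) (nat_lit 236)) (XT.lf (nat_lit 0) (nat_lit 10147230390) (nat_lit 836) (nat_lit 2508516399) (nat_lit 912) (nat_lit 4916100793) (nat_lit 379) (nat_lit 5) (nat_lit 390) (nat_lit 5) (nat_lit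 391) (nat_lit 5) (nat_lit 468) (nat_lit 437) (nat_lit 235))) (XT.nd (nat_lit 78) (nat_lit 912) (nat_lit 0) (XT.lf (nat_lit 0) (nat_lit 1903828516) (nat_lit 912) (nat_lit 12759824146) (nat_lit 988) (nat_lit 3099274841) (nat_lit 367) (nat_lit 5) (nat_lit 379) (nat_lit 5) (nat_lit 380) (nat_lit 5) (nat_lit 469) (nat_lit 437) (nat_lit 234)) (XT.nd (nat_lit 78) (nat_lit 912) (nat_lit 0) (XT.lf (nat_lit 0) (nat_lit 11496778960) (nat_lit 912) (nat_lit 5275123247) (nat_lit 988) (nat_lit 1184724722) (nat_lit 367) (nat_lit 5) (nat_lit 379) (nat_lit 5) (nat_lit 380) (nat_lit 5) (nat_lit 470) (nat_lit 437) (nat_lit 233)) (XT.lf (nat_lit 0) (nat_lit 787972355) (nat_lit 912) (nat_lit 15011323433) (nat_lit 76) (nat_lit 2354207767) (nat_lit 355) (nat_lit 5) (nat_lit 367) (nat_lit 5) (nat_lit 356) (nat_lit 5) (nat_lit 471) (nat_lit 437) (nat_lit 232))))) (XT.nd (nat_lit 234) (nat_lit 1520) (nat_lit 0) (XT.nd (nat_lit 78) (nat_lit 836) (nat_lit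 0) (XT.lf (nat_lit 0) (nat_lit 2856865787) (nat_lit 912) (nat_lit 5378628730) (nat_lit 76) (nat_lit 10117215984) (nat_lit 355) (nat_lit 5) (nat_lit 367) (nat_lit 5) (nat_lit 356) (nat_lit 5) (nat_lit 472) (nat_lit 437) (nat_lit 231)) (XT.nd (nat_lit 78) (nat_lit 0) (nat_lit 0) (XT.lf (nat_lit 0) (nat_lit 4499929227) (nat_lit 836) (nat_lit 490562028) (nat_lit 912) (nat_lit 13564944739) (nat_lit 344) (nat_lit 5) (nat_lit 355) (nat_lit 5) (nat_lit 356) (nat_lit 5) (nat_lit 473) (nat_lit 437) (nat_lit 230)) (XT.lf (nat_lit 0) (nat_lit 7245442812) (nat_lit 912) (nat_lit 4166759046) (nat_lit 76) (nat_lit 7348442534) (nat_lit 344) (nat_lit 5) (nat_lit 356) (nat_lit 5) (nat_lit 345) (nat_lit 5) (nat_lit 474) (nat_lit 437) (nat_lit 229)))) (XT.nd (nat_lit 78) (nat_lit 760) (nat_lit 0) (XT.lf (nat_lit 0) (nat_lit 5989293905) (nat_lit 760) (nat_lit 3592663373) (nat_lit 836) (nat_lit 9387271837) (nat_lit 334) (nat_lit 5) (nat_lit 344) (nat_lit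 5) (nat_lit 345) (nat_lit 5) (nat_lit 475) (nat_lit 437) (nat_lit 228)) (XT.nd (nat_lit 78) (nat_lit 760) (nat_lit 0) (XT.lf (nat_lit 0) (nat_lit 12016209169) (nat_lit 836) (nat_lit 2810967257) (nat_lit 76) (nat_lit 4353790371) (nat_lit 334) (nat_lit 5) (nat_lit 345) (nat_lit 5) (nat_lit 335) (nat_lit 5) (nat_lit 476) (nat_lit 437) (nat_lit 227)) (XT.lf (nat_lit 0) (nat_lit 7631950480) (nat_lit 760) (nat_lit 6935051291) (nat_lit 836) (nat_lit 4828581727) (nat_lit 324) (nat_lit 5) (nat_lit 334) (nat_lit 5) (nat_lit 335) (nat_lit 5) (nat_lit 477) (nat_lit 437) (nat_lit 226)))))) (XT.nd (nat_lit 390) (nat_lit 2128) (nat_lit 0) (XT.nd (nat_lit 156) (nat_lit 1444) (nat_lit 0) (XT.nd (nat_lit 78) (nat_lit 836) (nat_lit 0) (XT.lf (nat_lit 0) (nat_lit 17189617368) (nat_lit 836) (nat_lit 1305450714) (nat_lit 76) (nat_lit 1119009663) (nat_lit 324) (nat_lit 5) (nat_lit 335) (nat_lit 5) (nat_lit 325) (nat_lit 5) (nat_lit 478) (nat_lit 437)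 (nat_lit 225)) (XT.lf (nat_lit 0) (nat_lit 129918811) (nat_lit 836) (nat_lit 10401752108) (nat_lit 76) (nat_lit 9303217870) (nat_lit 313) (nat_lit 5) (nat_lit 324) (nat_lit 5) (nat_lit 314) (nat_lit 5) (nat_lit 479) (nat_lit 437) (nat_lit 224))) (XT.nd (nat_lit 78) (nat_lit 684) (nat_lit 0) (XT.lf (nat_lit 0) (nat_lit 326699377) (nat_lit 760) (nat_lit 2381910568) (nat_lit 836) (nat_lit 17351073112) (nat_lit 303) (nat_lit 5) (nat_lit 313) (nat_lit 5) (nat_lit 314) (nat_lit 5) (nat_lit 480) (nat_lit 437) (nat_lit 223)) (XT.nd (nat_lit 78) (nat_lit 684) (nat_lit 0) (XT.lf (nat_lit 0) (nat_lit 5442427101) (nat_lit 836) (nat_lit 8921614914) (nat_lit 76) (nat_lit 5922861402) (nat_lit 303) (nat_lit 5) (nat_lit 314) (nat_lit 5) (nat_lit 304) (nat_lit 5) (nat_lit 481) (nat_lit 437) (nat_lit 222)) (XT.lf (nat_lit 0) (nat_lit 2112235939) (nat_lit 684) (nat_lit 6143056985) (nat_lit 760) (nat_lit 12262889038) (nat_lit 294) (nat_lit 5) (nat_lit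 303) (nat_lit 5) (nat_lit 304) (nat_lit 5) (nat_lit 482) (nat_lit 437) (nat_lit 221))))) (XT.nd (nat_lit 234) (nat_lit 1444) (nat_lit 0) (XT.nd (nat_lit 78) (nat_lit 684) (nat_lit 0) (XT.lf (nat_lit 0) (nat_lit 11194184063) (nat_lit 760) (nat_lit 7285879878) (nat_lit 76) (nat_lit 2272627980) (nat_lit 294) (nat_lit 5) (nat_lit 304) (nat_lit 5) (nat_lit 295) (nat_lit 5) (nat_lit 483) (nat_lit 437) (nat_lit 220)) (XT.nd (nat_lit 78) (nat_lit 0) (nat_lit 0) (XT.lf (nat_lit 0) (nat_lit 4063577556) (nat_lit 684) (nat_lit 10190384518) (nat_lit 760) (nat_lit 6736689001) (nat_lit 285) (nat_lit 5) (nat_lit 294) (nat_lit 5) (nat_lit 295) (nat_lit 5) (nat_lit 484) (nat_lit 437) (nat_lit 219)) (XT.lf (nat_lit 0) (nat_lit 15733201057) (nat_lit 684) (nat_lit 1685730722) (nat_lit 760) (nat_lit 3813558865) (nat_lit 285) (nat_lit 5) (nat_lit 294) (nat_lit 5) (nat_lit 295) (nat_lit 5) (nat_lit 485) (nat_lit 437) (nat_lit 218)))) (XT.nd (nat_lit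 78) (nat_lit 760) (nat_lit 0) (XT.lf (nat_lit 0) (nat_lit 6187251273) (nat_lit 684) (nat_lit 14540694329) (nat_lit 760) (nat_lit 749607639) (nat_lit 276) (nat_lit 5) (nat_lit 285) (nat_lit 5) (nat_lit 286) (nat_lit 5) (nat_lit 486) (nat_lit 437) (nat_lit 217)) (XT.nd (nat_lit 78) (nat_lit 684) (nat_lit 0) (XT.lf (nat_lit 0) (nat_lit 2387998610) (nat_lit 760) (nat_lit 3577140342) (nat_lit 76) (nat_lit 15761200091) (nat_lit 275) (nat_lit 5) (nat_lit 285) (nat_lit 5) (nat_lit 276) (nat_lit 5) (nat_lit 487) (nat_lit 437) (nat_lit 216)) (XT.lf (nat_lit 0) (nat_lit 5647097164) (nat_lit 760) (nat_lit 13526518628) (nat_lit 76) (nat_lit 2805011189) (nat_lit 266) (nat_lit 5) (nat_lit 276) (nat_lit 5) (nat_lit 267) (nat_lit 5) (nat_lit 488) (nat_lit 437) (nat_lit 215))))))) (XT.nd (nat_lit 858) (nat_lit 2128) (nat_lit 0) (XT.nd (nat_lit 390) (nat_lit 1748) (nat_lit 0) (XT.nd (nat_lit 156) (nat_lit 1292) (nat_lit 0) (XT.nd (nat_lit 78)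 (nat_lit 608) (nat_lit 0) (XT.lf (nat_lit 0) (nat_lit 9030411636) (nat_lit 760) (nat_lit 1510251429) (nat_lit 76) (nat_lit 11694117978) (nat_lit 266) (nat_lit 5) (nat_lit 276) (nat_lit 5) (nat_lit 267) (nat_lit 5) (nat_lit 489) (nat_lit 437) (nat_lit 214)) (XT.lf (nat_lit 0) (nat_lit 10883652026) (nat_lit 608) (nat_lit 1663861369) (nat_lit 684) (nat_lit 9947223399) (nat_lit 258) (nat_lit 5) (nat_lit 266) (nat_lit 5) (nat_lit 267) (nat_lit 5) (nat_lit 490) (nat_lit 437) (nat_lit 213))) (XT.nd (nat_lit 78) (nat_lit 684) (nat_lit 0) (XT.lf (nat_lit 0) (nat_lit 742423142) (nat_lit 608) (nat_lit 15451045204) (nat_lit 684) (nat_lit 6565254094) (nat_lit 250) (nat_lit 5) (nat_lit 258) (nat_lit 5) (nat_lit 259) (nat_lit 5) (nat_lit 491) (nat_lit 437) (nat_lit 212)) (XT.nd (nat_lit 78) (nat_lit 684) (nat_lit 0) (XT.lf (nat_lit 0) (nat_lit 13483783867) (nat_lit 608) (nat_lit 6512979549) (nat_lit 684) (nat_lit 3029536949) (nat_lit 250)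 (nat_lit 5) (nat_lit 258) (nat_lit 5) (nat_lit 259) (nat_lit 5) (nat_lit 492) (nat_lit 437) (nat_lit 211)) (XT.lf (nat_lit 0) (nat_lit 602871959) (nat_lit 684) (nat_lit 20102139070) (nat_lit 76) (nat_lit 2593473986) (nat_lit 241) (nat_lit 5) (nat_lit 250) (nat_lit 5) (nat_lit 242) (nat_lit 5) (nat_lit 493) (nat_lit 437) (nat_lit 210))))) (XT.nd (nat_lit 234) (nat_lit 1140) (nat_lit 0) (XT.nd (nat_lit 78) (nat_lit 608) (nat_lit 0) (XT.lf (nat_lit 0) (nat_lit 4370653043) (nat_lit 684) (nat_lit 7324556426) (nat_lit 76) (nat_lit 11878438522) (nat_lit 241) (nat_lit 5) (nat_lit 250) (nat_lit 5) (nat_lit 242) (nat_lit 5) (nat_lit 494) (nat_lit 437) (nat_lit 209)) (XT.nd (nat_lit 78) (nat_lit 0) (nat_lit 0) (XT.lf (nat_lit 0) (nat_lit 5779036474) (nat_lit 608) (nat_lit 2468019592) (nat_lit 684) (nat_lit 15606593744) (nat_lit 233) (nat_lit 5) (nat_lit 241) (nat_lit 5) (nat_lit 242) (nat_lit 5) (nat_lit 495) (nat_lit 437) (nat_lit 208))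 (XT.lf (nat_lit 0) (nat_lit 12291334389) (nat_lit 684) (nat_lit 4945067133) (nat_lit 76) (nat_lit 6901044093) (nat_lit 233) (nat_lit 5) (nat_lit 242) (nat_lit 5) (nat_lit 234) (nat_lit 5) (nat_lit 496) (nat_lit 437) (nat_lit 207)))) (XT.nd (nat_lit 78) (nat_lit 608) (nat_lit 0) (XT.lf (nat_lit 0) (nat_lit 8537423459) (nat_lit 532) (nat_lit 7946719449) (nat_lit 608) (nat_lit 7941422408) (nat_lit 226) (nat_lit 5) (nat_lit 233) (nat_lit 5) (nat_lit 234) (nat_lit 5) (nat_lit 497) (nat_lit 437) (nat_lit 206)) (XT.nd (nat_lit 78) (nat_lit 608) (nat_lit 0) (XT.lf (nat_lit 0) (nat_lit 20800046075) (nat_lit 608) (nat_lit 2377645878) (nat_lit 76) (nat_lit 1540971550) (nat_lit 226) (nat_lit 5) (nat_lit 234) (nat_lit 5) (nat_lit 227) (nat_lit 5) (nat_lit 498) (nat_lit 437) (nat_lit 205)) (XT.lf (nat_lit 0) (nat_lit 306293596) (nat_lit 608) (nat_lit 13521177726) (nat_lit 76) (nat_lit 11187647746) (nat_lit 218) (nat_lit 5) (nat_lit 226) (nat_lit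 5) (nat_lit 219) (nat_lit 5) (nat_lit 499) (nat_lit 437) (nat_lit 204)))))) (XT.nd (nat_lit 468) (nat_lit 532) (nat_lit 0) (XT.nd (nat_lit 234) (nat_lit 532) (nat_lit 0) (XT.nd (nat_lit 78) (nat_lit 532) (nat_lit 0) (XT.lf (nat_lit 0) (nat_lit 331062780) (nat_lit 532) (nat_lit 4246436419) (nat_lit 608) (nat_lit 20739201980) (nat_lit 211) (nat_lit 5) (nat_lit 218) (nat_lit 5) (nat_lit 219) (nat_lit 5) (nat_lit 500) (nat_lit 437) (nat_lit 203)) (XT.nd (nat_lit 78) (nat_lit 532) (nat_lit 0) (XT.lf (nat_lit 0) (nat_lit 9057387592) (nat_lit 608) (nat_lit 11020614757) (nat_lit 76) (nat_lit 5543848202) (nat_lit 211) (nat_lit 5) (nat_lit 219) (nat_lit 5) (nat_lit 212) (nat_lit 5) (nat_lit 501) (nat_lit 437) (nat_lit 202)) (XT.lf (nat_lit 0) (nat_lit 3232824612) (nat_lit 532) (nat_lit 10439282140) (nat_lit 608) (nat_lit 12260092276) (nat_lit 204) (nat_lit 5) (nat_lit 211) (nat_lit 5) (nat_lit 212) (nat_lit 5) (nat_lit 502) (nat_lit 437)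 (nat_lit 201)))) (XT.nd (nat_lit 78) (nat_lit 532) (nat_lit 0) (XT.lf (nat_lit 0) (nat_lit 17915592337) (nat_lit 532) (nat_lit 533646107) (nat_lit 608) (nat_lit 7798114428) (nat_lit 204) (nat_lit 5) (nat_lit 211) (nat_lit 5) (nat_lit 212) (nat_lit 5) (nat_lit 503) (nat_lit 437) (nat_lit 200)) (XT.nd (nat_lit 78) (nat_lit 76) (nat_lit 0) (XT.lf (nat_lit 0) (nat_lit 6339113823) (nat_lit 456) (nat_lit 17082323150) (nat_lit 532) (nat_lit 3145383084) (nat_lit 198) (nat_lit 5) (nat_lit 204) (nat_lit 5) (nat_lit 205) (nat_lit 5) (nat_lit 504) (nat_lit 437) (nat_lit 199)) (XT.lf (nat_lit 0) (nat_lit 1635474805) (nat_lit 532) (nat_lit 5494620765) (nat_lit 76) (nat_lit 19761252687) (nat_lit 197) (nat_lit 5) (nat_lit 204) (nat_lit 5) (nat_lit 198) (nat_lit 5) (nat_lit 505) (nat_lit 437) (nat_lit 198))))) (XT.nd (nat_lit 54210) (nat_lit 0) (nat_lit 20216) (XT.nd (nat_lit 54054) (nat_lit 0) (nat_lit 20140) (XT.lf (nat_lit 0) (nat_lit 6548899714)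 (nat_lit 608) (nat_lit 17607301699) (nat_lit 76) (nat_lit 3064169161) (nat_lit 190) (nat_lit 5) (nat_lit 198) (nat_lit 5) (nat_lit 191) (nat_lit 5) (nat_lit 506) (nat_lit 437) (nat_lit 197)) (XT.nd (nat_lit 78) (nat_lit 0) (nat_lit 0) (XT.lf (nat_lit 0) (nat_lit 4588744217) (nat_lit 1748) (nat_lit 981719389) (nat_lit 1748) (nat_lit 981719389) (nat_lit 455) (nat_lit 3) (nat_lit 478) (nat_lit 3) (nat_lit 478) (nat_lit 5) (nat_lit 438) (nat_lit 438) (nat_lit 264)) (XT.lf (nat_lit 76) (nat_lit 4417438652) (nat_lit 0) (nat_lit 5267966800) (nat_lit 1748) (nat_lit 3541567467) (nat_lit 456) (nat_lit 5) (nat_lit 455) (nat_lit 3) (nat_lit 478) (nat_lit 5) (nat_lit 439) (nat_lit 438) (nat_lit 263)))) (XT.nd (nat_lit 78) (nat_lit 0) (nat_lit 0) (XT.lf (nat_lit 0) (nat_lit 10211269160) (nat_lit 1672) (nat_lit 2409490496) (nat_lit 1748) (nat_lit 731119553) (nat_lit 456) (nat_lit 5) (nat_lit 478) (nat_lit 5) (nat_lit 479) (nat_lit 5) (nat_lit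 440) (nat_lit 438) (nat_lit 262)) (XT.nd (nat_lit 78) (nat_lit 0) (nat_lit 0) (XT.lf (nat_lit 76) (nat_lit 4132480190) (nat_lit 0) (nat_lit 6666922010) (nat_lit 1748) (nat_lit 2678849310) (nat_lit 457) (nat_lit 5) (nat_lit 456) (nat_lit 5) (nat_lit 479) (nat_lit 5) (nat_lit 441) (nat_lit 438) (nat_lit 261)) (XT.lf (nat_lit 76) (nat_lit 10832602010) (nat_lit 0) (nat_lit 573059578) (nat_lit 1748) (nat_lit 2201365266) (nat_lit 457) (nat_lit 5) (nat_lit 456) (nat_lit 5) (nat_lit 479) (nat_lit 5) (nat_lit 442) (nat_lit 438) (nat_lit 260))))))))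
noncomputable def xc217 : XT := (XT.nd (nat_lit 1716) (nat_lit 10792) (nat_lit 0) (XT.nd (nat_lit 858) (nat_lit 1292) (nat_lit 0) (XT.nd (nat_lit 390) (nat_lit 0) (nat_lit 76) (XT.nd (nat_lit 156) (nat_lit 1672) (nat_lit 0) (XT.nd (nat_lit 78) (nat_lit 0) (nat_lit 0) (XT.lf (nat_lit 76) (nat_lit 3937890579) (nat_lit 0) (nat_lit 8138774365) (nat_lit 1748) (nat_lit 1660663202) (nat_lit 458) (nat_lit 5) (nat_lit 457) (nat_lit 5) (nat_lit 480) (nat_lit 5) (nat_lit 443) (nat_lit 438) (nat_lit 259)) (XT.lf (nat_lit 76) (nat_lit 10812782714) (nat_lit 0) (nat_lit 1961261658) (nat_lit 1748) (nat_lit 1095934732) (nat_lit 458) (nat_lit 5) (nat_lit 457) (nat_lit 5) (nat_lit 480) (nat_lit 5) (nat_lit 444) (nat_lit 438) (nat_lit 258))) (XT.nd (nat_lit 78) (nat_lit 1748) (nat_lit 0) (XT.lf (nat_lit 76) (nat_lit 3836490280) (nat_lit 0) (nat_lit 9692745443) (nat_lit 1748) (nat_lit 475172776) (nat_lit 459) (nat_lit 5) (nat_lit 458) (nat_lit 5)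 (nat_lit 481) (nat_lit 5) (nat_lit 445) (nat_lit 438) (nat_lit 257)) (XT.nd (nat_lit 78) (nat_lit 0) (nat_lit 76) (XT.lf (nat_lit 0) (nat_lit 180432699) (nat_lit 1748) (nat_lit 3251400948) (nat_lit 1824) (nat_lit 10709184908) (nat_lit 435) (nat_lit 5) (nat_lit 458) (nat_lit 5) (nat_lit 459) (nat_lit 5) (nat_lit 446) (nat_lit 438) (nat_lit 256)) (XT.lf (nat_lit 0) (nat_lit 878189129) (nat_lit 1748) (nat_lit 10454155610) (nat_lit 1824) (nat_lit 2947247777) (nat_lit 436) (nat_lit 5) (nat_lit 459) (nat_lit 5) (nat_lit 460) (nat_lit 5) (nat_lit 447) (nat_lit 438) (nat_lit 255))))) (XT.nd (nat_lit 234) (nat_lit 0) (nat_lit 76) (XT.nd (nat_lit 78) (nat_lit 0) (nat_lit 76) (XT.lf (nat_lit 0) (nat_lit 1625792955) (nat_lit 1748) (nat_lit 3361168651) (nat_lit 1824) (nat_lit 9433261004) (nat_lit 436) (nat_lit 5) (nat_lit 459) (nat_lit 5) (nat_lit 460) (nat_lit 5) (nat_lit 448) (nat_lit 438) (nat_lit 254)) (XT.nd (nat_lit 78) (nat_lit 0)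 (nat_lit 0) (XT.lf (nat_lit 0) (nat_lit 2415003361) (nat_lit 1748) (nat_lit 10653649181) (nat_lit 1824) (nat_lit 1494482124) (nat_lit 437) (nat_lit 5) (nat_lit 460) (nat_lit 5) (nat_lit 461) (nat_lit 5) (nat_lit 449) (nat_lit 438) (nat_lit 253)) (XT.lf (nat_lit 0) (nat_lit 3267255526) (nat_lit 1748) (nat_lit 3376239005) (nat_lit 1824) (nat_lit 8064467685) (nat_lit 437) (nat_lit 5) (nat_lit 460) (nat_lit 5) (nat_lit 461) (nat_lit 5) (nat_lit 450) (nat_lit 438) (nat_lit 252)))) (XT.nd (nat_lit 78) (nat_lit 0) (nat_lit 76) (XT.lf (nat_lit 76) (nat_lit 4094812032) (nat_lit 0) (nat_lit 60019809) (nat_lit 1824) (nat_lit 10700491248) (nat_lit 438) (nat_lit 5) (nat_lit 437) (nat_lit 5) (nat_lit 461) (nat_lit 5) (nat_lit 451) (nat_lit 438) (nat_lit 251)) (XT.nd (nat_lit 78) (nat_lit 0) (nat_lit 0) (XT.lf (nat_lit 0) (nat_lit 5118012032) (nat_lit 1748) (nat_lit 3293245134) (nat_lit 1824) (nat_lit 6593219276) (nat_lit 438) (nat_lit 5)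 (nat_lit 461) (nat_lit 5) (nat_lit 462) (nat_lit 5) (nat_lit 452) (nat_lit 438) (nat_lit 250)) (XT.lf (nat_lit 76) (nat_lit 4374699024) (nat_lit 0) (nat_lit 1746554283) (nat_lit 1824) (nat_lit 9034945870) (nat_lit 439) (nat_lit 5) (nat_lit 438) (nat_lit 5) (nat_lit 462) (nat_lit 5) (nat_lit 453) (nat_lit 438) (nat_lit 249)))))) (XT.nd (nat_lit 390) (nat_lit 1596) (nat_lit 0) (XT.nd (nat_lit 156) (nat_lit 0) (nat_lit 76) (XT.nd (nat_lit 78) (nat_lit 0) (nat_lit 0) (XT.lf (nat_lit 0) (nat_lit 7191734336) (nat_lit 1748) (nat_lit 3108597259) (nat_lit 1824) (nat_lit 5009683493) (nat_lit 439) (nat_lit 5) (nat_lit 462) (nat_lit 5) (nat_lit 463) (nat_lit 5) (nat_lit 454) (nat_lit 438) (nat_lit 248)) (XT.lf (nat_lit 76) (nat_lit 4762995949) (nat_lit 0) (nat_lit 3555406275) (nat_lit 1824) (nat_lit 7147811725) (nat_lit 440) (nat_lit 5) (nat_lit 439) (nat_lit 5) (nat_lit 463) (nat_lit 5) (nat_lit 455) (nat_lit 438) (nat_lit 247))) (XT.nd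 (nat_lit 78) (nat_lit 0) (nat_lit 0) (XT.lf (nat_lit 0) (nat_lit 9502599858) (nat_lit 1748) (nat_lit 2818481482) (nat_lit 1824) (nat_lit 3303757651) (nat_lit 440) (nat_lit 5) (nat_lit 463) (nat_lit 5) (nat_lit 464) (nat_lit 5) (nat_lit 456) (nat_lit 438) (nat_lit 246)) (XT.nd (nat_lit 78) (nat_lit 0) (nat_lit 76) (XT.lf (nat_lit 76) (nat_lit 5263754501) (nat_lit 0) (nat_lit 5497010810) (nat_lit 1824) (nat_lit 5024867638) (nat_lit 441) (nat_lit 5) (nat_lit 440) (nat_lit 5) (nat_lit 464) (nat_lit 5) (nat_lit 457) (nat_lit 438) (nat_lit 245)) (XT.lf (nat_lit 0) (nat_lit 12065317536) (nat_lit 1748) (nat_lit 2418858340) (nat_lit 1824) (nat_lit 1465044493) (nat_lit 441) (nat_lit 5) (nat_lit 464) (nat_lit 5) (nat_lit 465) (nat_lit 5) (nat_lit 458) (nat_lit 438) (nat_lit 244))))) (XT.nd (nat_lit 234) (nat_lit 1748) (nat_lit 0) (XT.nd (nat_lit 78) (nat_lit 0) (nat_lit 0) (XT.lf (nat_lit 76) (nat_lit 5881259001) (nat_lit 0) (nat_lit 7582116796)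 (nat_lit 1824) (nat_lit 2651357449) (nat_lit 442) (nat_lit 5) (nat_lit 441) (nat_lit 5) (nat_lit 465) (nat_lit 5) (nat_lit 459) (nat_lit 438) (nat_lit 243)) (XT.nd (nat_lit 78) (nat_lit 0) (nat_lit 76) (XT.lf (nat_lit 76) (nat_lit 14374511510) (nat_lit 0) (nat_lit 524045389) (nat_lit 1824) (nat_lit 1384818219) (nat_lit 442) (nat_lit 5) (nat_lit 441) (nat_lit 5) (nat_lit 465) (nat_lit 5) (nat_lit 460) (nat_lit 438) (nat_lit 242)) (XT.lf (nat_lit 76) (nat_lit 6620028240) (nat_lit 0) (nat_lit 9821812240) (nat_lit 1824) (nat_lit 11963303) (nat_lit 443) (nat_lit 5) (nat_lit 442) (nat_lit 5) (nat_lit 466) (nat_lit 5) (nat_lit 461) (nat_lit 438) (nat_lit 241)))) (XT.nd (nat_lit 78) (nat_lit 0) (nat_lit 76) (XT.lf (nat_lit 0) (nat_lit 1379634526) (nat_lit 1824) (nat_lit 1300330988) (nat_lit 1900) (nat_lit 13947307198) (nat_lit 418) (nat_lit 5) (nat_lit 442) (nat_lit 5) (nat_lit 443) (nat_lit 5) (nat_lit 462) (nat_lit 438) (nat_lit 240))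 (XT.nd (nat_lit 78) (nat_lit 0) (nat_lit 0) (XT.lf (nat_lit 0) (nat_lit 2871066797) (nat_lit 1824) (nat_lit 9337216855) (nat_lit 76) (nat_lit 4594484353) (nat_lit 419) (nat_lit 5) (nat_lit 443) (nat_lit 5) (nat_lit 420) (nat_lit 5) (nat_lit 463) (nat_lit 438) (nat_lit 239)) (XT.lf (nat_lit 0) (nat_lit 4412226158) (nat_lit 1824) (nat_lit 580768660) (nat_lit 76) (nat_lit 11988382203) (nat_lit 419) (nat_lit 5) (nat_lit 443) (nat_lit 5) (nat_lit 420) (nat_lit 5) (nat_lit 464) (nat_lit 438) (nat_lit 238))))))) (XT.nd (nat_lit 858) (nat_lit 5168) (nat_lit 0) (XT.nd (nat_lit 390) (nat_lit 2660) (nat_lit 0) (XT.nd (nat_lit 156) (nat_lit 836) (nat_lit 0) (XT.nd (nat_lit 78) (nat_lit 912) (nat_lit 0) (XT.lf (nat_lit 0) (nat_lit 6048342711) (nat_lit 1368) (nat_lit 8722244003) (nat_lit 76) (nat_lit 2391690573) (nat_lit 402) (nat_lit 5) (nat_lit 420) (nat_lit 5) (nat_lit 403) (nat_lit 5) (nat_lit 465) (nat_lit 438) (nat_lit 237)) (XT.lf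 (nat_lit 0) (nat_lit 267090051) (nat_lit 912) (nat_lit 7482408171) (nat_lit 988) (nat_lit 9596652719) (nat_lit 390) (nat_lit 5) (nat_lit 402) (nat_lit 5) (nat_lit 403) (nat_lit 5) (nat_lit 466) (nat_lit 438) (nat_lit 236))) (XT.nd (nat_lit 78) (nat_lit 836) (nat_lit 0) (XT.lf (nat_lit 0) (nat_lit 9536966644) (nat_lit 988) (nat_lit 7983982758) (nat_lit 76) (nat_lit 11708553) (nat_lit 390) (nat_lit 5) (nat_lit 403) (nat_lit 5) (nat_lit 391) (nat_lit 5) (nat_lit 467) (nat_lit 438) (nat_lit 235)) (XT.nd (nat_lit 78) (nat_lit 0) (nat_lit 0) (XT.lf (nat_lit 0) (nat_lit 1254186129) (nat_lit 836) (nat_lit 10157503492) (nat_lit 912) (nat_lit 6310177034) (nat_lit 379) (nat_lit 5) (nat_lit 390) (nat_lit 5) (nat_lit 391) (nat_lit 5) (nat_lit 468) (nat_lit 438) (nat_lit 234)) (XT.lf (nat_lit 0) (nat_lit 10779673619) (nat_lit 836) (nat_lit 2591704537) (nat_lit 912) (nat_lit 4542533567) (nat_lit 379) (nat_lit 5) (nat_lit 390) (nat_lit 5) (nat_lit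 391) (nat_lit 5) (nat_lit 469) (nat_lit 438) (nat_lit 233))))) (XT.nd (nat_lit 234) (nat_lit 836) (nat_lit 0) (XT.nd (nat_lit 78) (nat_lit 912) (nat_lit 0) (XT.lf (nat_lit 0) (nat_lit 2378102169) (nat_lit 912) (nat_lit 13034892939) (nat_lit 988) (nat_lit 2695949477) (nat_lit 367) (nat_lit 5) (nat_lit 379) (nat_lit 5) (nat_lit 380) (nat_lit 5) (nat_lit 470) (nat_lit 438) (nat_lit 232)) (XT.nd (nat_lit 78) (nat_lit 912) (nat_lit 0) (XT.lf (nat_lit 0) (nat_lit 12154358738) (nat_lit 912) (nat_lit 5400108368) (nat_lit 988) (nat_lit 752232098) (nat_lit 367) (nat_lit 5) (nat_lit 379) (nat_lit 5) (nat_lit 380) (nat_lit 5) (nat_lit 471) (nat_lit 438) (nat_lit 231)) (XT.lf (nat_lit 0) (nat_lit 1247819773) (nat_lit 912) (nat_lit 14871577984) (nat_lit 76) (nat_lit 2388180955) (nat_lit 355) (nat_lit 5) (nat_lit 367) (nat_lit 5) (nat_lit 356) (nat_lit 5) (nat_lit 472) (nat_lit 438) (nat_lit 230)))) (XT.nd (nat_lit 78) (nat_lit 836) (nat_lit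 0) (XT.lf (nat_lit 0) (nat_lit 3349383466) (nat_lit 912) (nat_lit 5054856287) (nat_lit 76) (nat_lit 10306706414) (nat_lit 355) (nat_lit 5) (nat_lit 367) (nat_lit 5) (nat_lit 356) (nat_lit 5) (nat_lit 473) (nat_lit 438) (nat_lit 229)) (XT.nd (nat_lit 78) (nat_lit 0) (nat_lit 0) (XT.lf (nat_lit 0) (nat_lit 5018435034) (nat_lit 836) (nat_lit 501491694) (nat_lit 912) (nat_lit 13397916713) (nat_lit 344) (nat_lit 5) (nat_lit 355) (nat_lit 5) (nat_lit 356) (nat_lit 5) (nat_lit 474) (nat_lit 438) (nat_lit 228)) (XT.lf (nat_lit 0) (nat_lit 7811546164) (nat_lit 912) (nat_lit 3821451328) (nat_lit 76) (nat_lit 7494329270) (nat_lit 344) (nat_lit 5) (nat_lit 356) (nat_lit 5) (nat_lit 345) (nat_lit 5) (nat_lit 475) (nat_lit 438) (nat_lit 227)))))) (XT.nd (nat_lit 468) (nat_lit 2052) (nat_lit 0) (XT.nd (nat_lit 234) (nat_lit 1596) (nat_lit 0) (XT.nd (nat_lit 78) (nat_lit 760) (nat_lit 0) (XT.lf (nat_lit 0) (nat_lit 6534902662) (nat_lit 760)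 (nat_lit 3654394265) (nat_lit 836) (nat_lit 9150898221) (nat_lit 334) (nat_lit 5) (nat_lit 344) (nat_lit 5) (nat_lit 345) (nat_lit 5) (nat_lit 476) (nat_lit 438) (nat_lit 226)) (XT.nd (nat_lit 78) (nat_lit 760) (nat_lit 0) (XT.lf (nat_lit 0) (nat_lit 12664147299) (nat_lit 836) (nat_lit 2441524145) (nat_lit 76) (nat_lit 4450659922) (nat_lit 334) (nat_lit 5) (nat_lit 345) (nat_lit 5) (nat_lit 335) (nat_lit 5) (nat_lit 477) (nat_lit 438) (nat_lit 225)) (XT.lf (nat_lit 0) (nat_lit 8207451535) (nat_lit 760) (nat_lit 7053257289) (nat_lit 836) (nat_lit 4514638526) (nat_lit 324) (nat_lit 5) (nat_lit 334) (nat_lit 5) (nat_lit 335) (nat_lit 5) (nat_lit 478) (nat_lit 438) (nat_lit 224)))) (XT.nd (nat_lit 78) (nat_lit 1596) (nat_lit 0) (XT.lf (nat_lit 0) (nat_lit 17928017641) (nat_lit 836) (nat_lit 909131496) (nat_lit 76) (nat_lit 1161219496) (nat_lit 324) (nat_lit 5) (nat_lit 335) (nat_lit 5) (nat_lit 325) (nat_lit 5) (nat_lit 479) (nat_lit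 438) (nat_lit 223)) (XT.nd (nat_lit 78) (nat_lit 760) (nat_lit 0) (XT.lf (nat_lit 0) (nat_lit 524787754) (nat_lit 836) (nat_lit 10184830299) (nat_lit 76) (nat_lit 9514028418) (nat_lit 313) (nat_lit 5) (nat_lit 324) (nat_lit 5) (nat_lit 314) (nat_lit 5) (nat_lit 480) (nat_lit 438) (nat_lit 222)) (XT.lf (nat_lit 0) (nat_lit 755394447) (nat_lit 760) (nat_lit 2394707633) (nat_lit 836) (nat_lit 17302935413) (nat_lit 303) (nat_lit 5) (nat_lit 313) (nat_lit 5) (nat_lit 314) (nat_lit 5) (nat_lit 481) (nat_lit 438) (nat_lit 221))))) (XT.nd (nat_lit 234) (nat_lit 1368) (nat_lit 0) (XT.nd (nat_lit 78) (nat_lit 684) (nat_lit 0) (XT.lf (nat_lit 0) (nat_lit 5931222847) (nat_lit 836) (nat_lit 8678700060) (nat_lit 76) (nat_lit 6075028628) (nat_lit 303) (nat_lit 5) (nat_lit 314) (nat_lit 5) (nat_lit 304) (nat_lit 5) (nat_lit 482) (nat_lit 438) (nat_lit 220)) (XT.nd (nat_lit 78) (nat_lit 0) (nat_lit 0) (XT.lf (nat_lit 0) (nat_lit 2573055789)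 (nat_lit 684) (nat_lit 6222557920) (nat_lit 760) (nat_lit 12125338373) (nat_lit 294) (nat_lit 5) (nat_lit 303) (nat_lit 5) (nat_lit 304) (nat_lit 5) (nat_lit 483) (nat_lit 438) (nat_lit 219)) (XT.lf (nat_lit 0) (nat_lit 11786201518) (nat_lit 760) (nat_lit 7014061075) (nat_lit 76) (nat_lit 2360033018) (nat_lit 294) (nat_lit 5) (nat_lit 304) (nat_lit 5) (nat_lit 295) (nat_lit 5) (nat_lit 484) (nat_lit 438) (nat_lit 218)))) (XT.nd (nat_lit 78) (nat_lit 684) (nat_lit 0) (XT.lf (nat_lit 0) (nat_lit 4559638557) (nat_lit 684) (nat_lit 10343011311) (nat_lit 760) (nat_lit 6500456300) (nat_lit 285) (nat_lit 5) (nat_lit 294) (nat_lit 5) (nat_lit 295) (nat_lit 5) (nat_lit 485) (nat_lit 438) (nat_lit 217)) (XT.nd (nat_lit 78) (nat_lit 684) (nat_lit 0) (XT.lf (nat_lit 0) (nat_lit 16454521402) (nat_lit 684) (nat_lit 1669267986) (nat_lit 760) (nat_lit 3526137414) (nat_lit 285) (nat_lit 5) (nat_lit 294) (nat_lit 5) (nat_lit 295) (nat_lit 5)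 (nat_lit 486) (nat_lit 438) (nat_lit 216)) (XT.lf (nat_lit 0) (nat_lit 6721819807) (nat_lit 684) (nat_lit 14773160632) (nat_lit 760) (nat_lit 404991921) (nat_lit 276) (nat_lit 5) (nat_lit 285) (nat_lit 5) (nat_lit 286) (nat_lit 5) (nat_lit 487) (nat_lit 438) (nat_lit 215))))))))
noncomputable def xc218 : XT := (XT.nd (nat_lit 55770) (nat_lit 0) (nat_lit 16796) (XT.nd (nat_lit 858) (nat_lit 2204) (nat_lit 0) (XT.nd (nat_lit 390) (nat_lit 1824) (nat_lit 0) (XT.nd (nat_lit 156) (nat_lit 1216) (nat_lit 0) (XT.nd (nat_lit 78) (nat_lit 684) (nat_lit 0) (XT.lf (nat_lit 0) (nat_lit 2783691473) (nat_lit 760) (nat_lit 3241211932) (nat_lit 76) (nat_lit 16128924535) (nat_lit 275) (nat_lit 5) (nat_lit 285) (nat_lit 5) (nat_lit 276) (nat_lit 5) (nat_lit 488) (nat_lit 438) (nat_lit 214)) (XT.lf (nat_lit 0) (nat_lit 6104174340) (nat_lit 760) (nat_lit 13385702453) (nat_lit 76) (nat_lit 2921362349) (nat_lit 266) (nat_lit 5) (nat_lit 276) (nat_lit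 5) (nat_lit 267) (nat_lit 5) (nat_lit 489) (nat_lit 438) (nat_lit 213))) (XT.nd (nat_lit 78) (nat_lit 1216) (nat_lit 0) (XT.lf (nat_lit 0) (nat_lit 9548407352) (nat_lit 760) (nat_lit 1137175529) (nat_lit 76) (nat_lit 11987069883) (nat_lit 266) (nat_lit 5) (nat_lit 276) (nat_lit 5) (nat_lit 267) (nat_lit 5) (nat_lit 490) (nat_lit 438) (nat_lit 212)) (XT.nd (nat_lit 78) (nat_lit 608) (nat_lit 0) (XT.lf (nat_lit 0) (nat_lit 11501952831) (nat_lit 608) (nat_lit 1629884015) (nat_lit 684) (nat_lit 9806052563) (nat_lit 258) (nat_lit 5) (nat_lit 266) (nat_lit 5) (nat_lit 267) (nat_lit 5) (nat_lit 491) (nat_lit 438) (nat_lit 211)) (XT.lf (nat_lit 0) (nat_lit 1161527637) (nat_lit 608) (nat_lit 15685699329) (nat_lit 684) (nat_lit 6359998945) (nat_lit 250) (nat_lit 5) (nat_lit 258) (nat_lit 5) (nat_lit 259) (nat_lit 5) (nat_lit 492) (nat_lit 438) (nat_lit 210))))) (XT.nd (nat_lit 234) (nat_lit 1140) (nat_lit 0) (XT.nd (nat_lit 78) (nat_lit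 684) (nat_lit 0) (XT.lf (nat_lit 0) (nat_lit 14149788987) (nat_lit 608) (nat_lit 6570330534) (nat_lit 684) (nat_lit 2760166678) (nat_lit 250) (nat_lit 5) (nat_lit 258) (nat_lit 5) (nat_lit 259) (nat_lit 5) (nat_lit 493) (nat_lit 438) (nat_lit 209)) (XT.nd (nat_lit 78) (nat_lit 0) (nat_lit 0) (XT.lf (nat_lit 0) (nat_lit 937257725) (nat_lit 684) (nat_lit 20100080404) (nat_lit 76) (nat_lit 2720601047) (nat_lit 241) (nat_lit 5) (nat_lit 250) (nat_lit 5) (nat_lit 242) (nat_lit 5) (nat_lit 494) (nat_lit 438) (nat_lit 208)) (XT.lf (nat_lit 0) (nat_lit 4774074268) (nat_lit 684) (nat_lit 7074869665) (nat_lit 76) (nat_lit 12189789235) (nat_lit 241) (nat_lit 5) (nat_lit 250) (nat_lit 5) (nat_lit 242) (nat_lit 5) (nat_lit 495) (nat_lit 438) (nat_lit 207)))) (XT.nd (nat_lit 78) (nat_lit 532) (nat_lit 0) (XT.lf (nat_lit 0) (nat_lit 6288188660) (nat_lit 608) (nat_lit 2436175780) (nat_lit 684) (nat_lit 15600044729) (nat_lit 233) (nat_lit 5)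 (nat_lit 241) (nat_lit 5) (nat_lit 242) (nat_lit 5) (nat_lit 496) (nat_lit 438) (nat_lit 206)) (XT.nd (nat_lit 78) (nat_lit 532) (nat_lit 0) (XT.lf (nat_lit 0) (nat_lit 12843920375) (nat_lit 684) (nat_lit 4652441159) (nat_lit 76) (nat_lit 7117632814) (nat_lit 233) (nat_lit 5) (nat_lit 242) (nat_lit 5) (nat_lit 234) (nat_lit 5) (nat_lit 497) (nat_lit 438) (nat_lit 205)) (XT.lf (nat_lit 0) (nat_lit 9097123407) (nat_lit 532) (nat_lit 8019972101) (nat_lit 608) (nat_lit 7790852002) (nat_lit 226) (nat_lit 5) (nat_lit 233) (nat_lit 5) (nat_lit 234) (nat_lit 5) (nat_lit 498) (nat_lit 438) (nat_lit 204)))))) (XT.nd (nat_lit 390) (nat_lit 532) (nat_lit 0) (XT.nd (nat_lit 156) (nat_lit 1064) (nat_lit 0) (XT.nd (nat_lit 78) (nat_lit 608) (nat_lit 0) (XT.lf (nat_lit 0) (nat_lit 21513915667) (nat_lit 608) (nat_lit 2038410276) (nat_lit 76) (nat_lit 1654690987) (nat_lit 226) (nat_lit 5) (nat_lit 234) (nat_lit 5) (nat_lit 227) (nat_lit 5) (nat_lit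 499) (nat_lit 438) (nat_lit 203)) (XT.lf (nat_lit 0) (nat_lit 608953266) (nat_lit 608) (nat_lit 13403356601) (nat_lit 76) (nat_lit 11497120863) (nat_lit 218) (nat_lit 5) (nat_lit 226) (nat_lit 5) (nat_lit 219) (nat_lit 5) (nat_lit 500) (nat_lit 438) (nat_lit 202))) (XT.nd (nat_lit 78) (nat_lit 532) (nat_lit 0) (XT.lf (nat_lit 0) (nat_lit 723374473) (nat_lit 532) (nat_lit 4238898277) (nat_lit 608) (nat_lit 20854839114) (nat_lit 211) (nat_lit 5) (nat_lit 218) (nat_lit 5) (nat_lit 219) (nat_lit 5) (nat_lit 501) (nat_lit 438) (nat_lit 201)) (XT.nd (nat_lit 78) (nat_lit 532) (nat_lit 0) (XT.lf (nat_lit 0) (nat_lit 9526598014) (nat_lit 608) (nat_lit 10857680563) (nat_lit 76) (nat_lit 5744190019) (nat_lit 211) (nat_lit 5) (nat_lit 219) (nat_lit 5) (nat_lit 212) (nat_lit 5) (nat_lit 502) (nat_lit 438) (nat_lit 200)) (XT.lf (nat_lit 0) (nat_lit 3678305577) (nat_lit 532) (nat_lit 10552130258) (nat_lit 608) (nat_lit 12214652854) (nat_lit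 204) (nat_lit 5) (nat_lit 211) (nat_lit 5) (nat_lit 212) (nat_lit 5) (nat_lit 503) (nat_lit 438) (nat_lit 199))))) (XT.nd (nat_lit 54288) (nat_lit 0) (nat_lit 19608) (XT.nd (nat_lit 78) (nat_lit 532) (nat_lit 0) (XT.lf (nat_lit 0) (nat_lit 18647261511) (nat_lit 532) (nat_lit 450262632) (nat_lit 608) (nat_lit 7669134298) (nat_lit 204) (nat_lit 5) (nat_lit 211) (nat_lit 5) (nat_lit 212) (nat_lit 5) (nat_lit 504) (nat_lit 438) (nat_lit 198)) (XT.nd (nat_lit 78) (nat_lit 76) (nat_lit 0) (XT.lf (nat_lit 0) (nat_lit 6841794844) (nat_lit 456) (nat_lit 17324934597) (nat_lit 532) (nat_lit 2925835361) (nat_lit 198) (nat_lit 5) (nat_lit 204) (nat_lit 5) (nat_lit 205) (nat_lit 5) (nat_lit 505) (nat_lit 438) (nat_lit 197)) (XT.lf (nat_lit 0) (nat_lit 1941469528) (nat_lit 532) (nat_lit 5232300911) (nat_lit 76) (nat_lit 20249886807) (nat_lit 197) (nat_lit 5) (nat_lit 204) (nat_lit 5) (nat_lit 198) (nat_lit 5) (nat_lit 506) (nat_lit 438) (nat_lit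 196)))) (XT.nd (nat_lit 78) (nat_lit 0) (nat_lit 0) (XT.lf (nat_lit 0) (nat_lit 5065464639) (nat_lit 1748) (nat_lit 804974978) (nat_lit 1748) (nat_lit 804974978) (nat_lit 455) (nat_lit 3) (nat_lit 478) (nat_lit 3) (nat_lit 478) (nat_lit 5) (nat_lit 439) (nat_lit 439) (nat_lit 262)) (XT.nd (nat_lit 78) (nat_lit 0) (nat_lit 76) (XT.lf (nat_lit 76) (nat_lit 4895961090) (nat_lit 0) (nat_lit 5740480908) (nat_lit 1748) (nat_lit 2839701951) (nat_lit 456) (nat_lit 5) (nat_lit 455) (nat_lit 3) (nat_lit 478) (nat_lit 5) (nat_lit 440) (nat_lit 439) (nat_lit 261)) (XT.lf (nat_lit 0) (nat_lit 11155636332) (nat_lit 1672) (nat_lit 2057752947) (nat_lit 1748) (nat_lit 390507167) (nat_lit 456) (nat_lit 5) (nat_lit 478) (nat_lit 5) (nat_lit 479) (nat_lit 5) (nat_lit 441) (nat_lit 439) (nat_lit 260))))))) (XT.nd (nat_lit 858) (nat_lit 1292) (nat_lit 0) (XT.nd (nat_lit 390) (nat_lit 0) (nat_lit 0) (XT.nd (nat_lit 156) (nat_lit 1596) (nat_lit 0)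 (XT.nd (nat_lit 78) (nat_lit 0) (nat_lit 0) (XT.lf (nat_lit 76) (nat_lit 4612426051) (nat_lit 0) (nat_lit 7131172909) (nat_lit 1748) (nat_lit 1989440161) (nat_lit 457) (nat_lit 5) (nat_lit 456) (nat_lit 5) (nat_lit 479) (nat_lit 5) (nat_lit 442) (nat_lit 439) (nat_lit 259)) (XT.lf (nat_lit 76) (nat_lit 11438760185) (nat_lit 0) (nat_lit 908944749) (nat_lit 1748) (nat_lit 1516974793) (nat_lit 457) (nat_lit 5) (nat_lit 456) (nat_lit 5) (nat_lit 479) (nat_lit 5) (nat_lit 443) (nat_lit 439) (nat_lit 258))) (XT.nd (nat_lit 78) (nat_lit 1672) (nat_lit 0) (XT.lf (nat_lit 76) (nat_lit 4420076854) (nat_lit 0) (nat_lit 8598607124) (nat_lit 1748) (nat_lit 979176053) (nat_lit 458) (nat_lit 5) (nat_lit 457) (nat_lit 5) (nat_lit 480) (nat_lit 5) (nat_lit 444) (nat_lit 439) (nat_lit 257)) (XT.nd (nat_lit 78) (nat_lit 1672) (nat_lit 0) (XT.lf (nat_lit 76) (nat_lit 11424556470) (nat_lit 0) (nat_lit 2291719511) (nat_lit 1748) (nat_lit 417166746)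 (nat_lit 458) (nat_lit 5) (nat_lit 457) (nat_lit 5) (nat_lit 480) (nat_lit 5) (nat_lit 445) (nat_lit 439) (nat_lit 256)) (XT.lf (nat_lit 0) (nat_lit 200423314) (nat_lit 1748) (nat_lit 9950277747) (nat_lit 1824) (nat_lit 4120090545) (nat_lit 435) (nat_lit 5) (nat_lit 458) (nat_lit 5) (nat_lit 459) (nat_lit 5) (nat_lit 446) (nat_lit 439) (nat_lit 255))))) (XT.nd (nat_lit 234) (nat_lit 0) (nat_lit 152) (XT.nd (nat_lit 78) (nat_lit 0) (nat_lit 76) (XT.lf (nat_lit 0) (nat_lit 849475598) (nat_lit 1748) (nat_lit 2906770146) (nat_lit 1824) (nat_lit 10654095142) (nat_lit 435) (nat_lit 5) (nat_lit 458) (nat_lit 5) (nat_lit 459) (nat_lit 5) (nat_lit 447) (nat_lit 439) (nat_lit 254)) (XT.nd (nat_lit 78) (nat_lit 0) (nat_lit 0) (XT.lf (nat_lit 0) (nat_lit 1549171102) (nat_lit 1748) (nat_lit 10241378203) (nat_lit 1824) (nat_lit 2761381054) (nat_lit 436) (nat_lit 5) (nat_lit 459) (nat_lit 5) (nat_lit 460) (nat_lit 5) (nat_lit 448) (nat_lit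 439) (nat_lit 253)) (XT.lf (nat_lit 0) (nat_lit 2298914883) (nat_lit 1748) (nat_lit 3014803280) (nat_lit 1824) (nat_lit 9381914776) (nat_lit 436) (nat_lit 5) (nat_lit 459) (nat_lit 5) (nat_lit 460) (nat_lit 5) (nat_lit 449) (nat_lit 439) (nat_lit 252)))) (XT.nd (nat_lit 78) (nat_lit 0) (nat_lit 0) (XT.lf (nat_lit 0) (nat_lit 3092588841) (nat_lit 1748) (nat_lit 10441634331) (nat_lit 1824) (nat_lit 1307410047) (nat_lit 437) (nat_lit 5) (nat_lit 460) (nat_lit 5) (nat_lit 461) (nat_lit 5) (nat_lit 450) (nat_lit 439) (nat_lit 251)) (XT.nd (nat_lit 78) (nat_lit 0) (nat_lit 0) (XT.lf (nat_lit 0) (nat_lit 3949547118) (nat_lit 1748) (nat_lit 3027011007) (nat_lit 1824) (nat_lit 8013049470) (nat_lit 437) (nat_lit 5) (nat_lit 460) (nat_lit 5) (nat_lit 461) (nat_lit 5) (nat_lit 451) (nat_lit 439) (nat_lit 250)) (XT.lf (nat_lit 76) (nat_lit 4590719257) (nat_lit 0) (nat_lit 254746748) (nat_lit 1824) (nat_lit 10294641291) (nat_lit 438) (nat_lit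 5) (nat_lit 437) (nat_lit 5) (nat_lit 461) (nat_lit 5) (nat_lit 452) (nat_lit 439) (nat_lit 249)))))) (XT.nd (nat_lit 468) (nat_lit 1520) (nat_lit 0) (XT.nd (nat_lit 234) (nat_lit 0) (nat_lit 76) (XT.nd (nat_lit 78) (nat_lit 0) (nat_lit 0) (XT.lf (nat_lit 0) (nat_lit 5814765433) (nat_lit 1748) (nat_lit 2939904408) (nat_lit 1824) (nat_lit 6537840125) (nat_lit 438) (nat_lit 5) (nat_lit 461) (nat_lit 5) (nat_lit 462) (nat_lit 5) (nat_lit 453) (nat_lit 439) (nat_lit 248)) (XT.nd (nat_lit 78) (nat_lit 0) (nat_lit 76) (XT.lf (nat_lit 76) (nat_lit 4878640702) (nat_lit 0) (nat_lit 1950479918) (nat_lit 1824) (nat_lit 8618328851) (nat_lit 439) (nat_lit 5) (nat_lit 438) (nat_lit 5) (nat_lit 462) (nat_lit 5) (nat_lit 454) (nat_lit 439) (nat_lit 247)) (XT.lf (nat_lit 0) (nat_lit 7908456299) (nat_lit 1748) (nat_lit 2749770565) (nat_lit 1824) (nat_lit 4946369167) (nat_lit 439) (nat_lit 5) (nat_lit 462) (nat_lit 5) (nat_lit 463) (nat_lit 5)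 (nat_lit 455) (nat_lit 439) (nat_lit 246)))) (XT.nd (nat_lit 78) (nat_lit 0) (nat_lit 76) (XT.lf (nat_lit 76) (nat_lit 5276484779) (nat_lit 0) (nat_lit 3772655102) (nat_lit 1824) (nat_lit 6714952510) (nat_lit 440) (nat_lit 5) (nat_lit 439) (nat_lit 5) (nat_lit 463) (nat_lit 5) (nat_lit 456) (nat_lit 439) (nat_lit 245)) (XT.nd (nat_lit 78) (nat_lit 0) (nat_lit 0) (XT.lf (nat_lit 0) (nat_lit 10245025159) (nat_lit 1748) (nat_lit 2452671122) (nat_lit 1824) (nat_lit 3228436687) (nat_lit 440) (nat_lit 5) (nat_lit 463) (nat_lit 5) (nat_lit 464) (nat_lit 5) (nat_lit 457) (nat_lit 439) (nat_lit 244)) (XT.lf (nat_lit 76) (nat_lit 5788432081) (nat_lit 0) (nat_lit 5731814031) (nat_lit 1824) (nat_lit 4570061896) (nat_lit 441) (nat_lit 5) (nat_lit 440) (nat_lit 5) (nat_lit 464) (nat_lit 5) (nat_lit 458) (nat_lit 439) (nat_lit 243))))) (XT.nd (nat_lit 234) (nat_lit 1748) (nat_lit 0) (XT.nd (nat_lit 78) (nat_lit 0) (nat_lit 0) (XT.lf (nat_lit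 0) (nat_lit 12839422711) (nat_lit 1748) (nat_lit 2044440620) (nat_lit 1824) (nat_lit 1373536163) (nat_lit 441) (nat_lit 5) (nat_lit 464) (nat_lit 5) (nat_lit 465) (nat_lit 5) (nat_lit 459) (nat_lit 439) (nat_lit 242)) (XT.nd (nat_lit 78) (nat_lit 0) (nat_lit 0) (XT.lf (nat_lit 76) (nat_lit 6418897522) (nat_lit 0) (nat_lit 7838824585) (nat_lit 1824) (nat_lit 2168657851) (nat_lit 442) (nat_lit 5) (nat_lit 441) (nat_lit 5) (nat_lit 465) (nat_lit 5) (nat_lit 460) (nat_lit 439) (nat_lit 241)) (XT.lf (nat_lit 76) (nat_lit 15073779525) (nat_lit 0) (nat_lit 637531642) (nat_lit 1824) (nat_lit 887292283) (nat_lit 442) (nat_lit 5) (nat_lit 441) (nat_lit 5) (nat_lit 465) (nat_lit 5) (nat_lit 461) (nat_lit 439) (nat_lit 240)))) (XT.nd (nat_lit 78) (nat_lit 0) (nat_lit 0) (XT.lf (nat_lit 0) (nat_lit 498213622) (nat_lit 1824) (nat_lit 9603349266) (nat_lit 1900) (nat_lit 6670975498) (nat_lit 418) (nat_lit 5) (nat_lit 442) (nat_lit 5) (nat_lit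 443) (nat_lit 5) (nat_lit 462) (nat_lit 439) (nat_lit 239)) (XT.nd (nat_lit 78) (nat_lit 0) (nat_lit 76) (XT.lf (nat_lit 0) (nat_lit 1907478347) (nat_lit 1824) (nat_lit 907688038) (nat_lit 1900) (nat_lit 14134511529) (nat_lit 418) (nat_lit 5) (nat_lit 442) (nat_lit 5) (nat_lit 443) (nat_lit 5) (nat_lit 463) (nat_lit 439) (nat_lit 238)) (XT.lf (nat_lit 0) (nat_lit 3421129146) (nat_lit 1824) (nat_lit 9097568925) (nat_lit 76) (nat_lit 4610139896) (nat_lit 419) (nat_lit 5) (nat_lit 443) (nat_lit 5) (nat_lit 420) (nat_lit 5) (nat_lit 464) (nat_lit 439) (nat_lit 237))))))))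
noncomputable def xc219 : XT := (XT.nd (nat_lit 1716) (nat_lit 6612) (nat_lit 0) (XT.nd (nat_lit 858) (nat_lit 4484) (nat_lit 0) (XT.nd (nat_lit 390) (nat_lit 2660) (nat_lit 0) (XT.nd (nat_lit 156) (nat_lit 1748) (nat_lit 0) (XT.nd (nat_lit 78) (nat_lit 1292) (nat_lit 0) (XT.lf (nat_lit 0) (nat_lit 4983452066) (nat_lit 1824) (nat_lit 174352399) (nat_lit 76) (nat_lit 12153410490) (nat_lit 419) (nat_lit 5) (nat_lit 443) (nat_lit 5) (nat_lit 420) (nat_lit 5) (nat_lit 465) (nat_lit 439) (nat_lit 236)) (XT.lf (nat_lit 0) (nat_lit 6645121437) (nat_lit 1368) (nat_lit 8471360305) (nat_lit 76) (nat_lit 2379397422) (nat_lit 402) (nat_lit 5) (nat_lit 420) (nat_lit 5) (nat_lit 403) (nat_lit 5) (nat_lit 466) (nat_lit 439) (nat_lit 235))) (XT.nd (nat_lit 78) (nat_lit 836) (nat_lit 0) (XT.lf (nat_lit 0) (nat_lit 694962215) (nat_lit 912) (nat_lit 7678751546) (nat_lit 988) (nat_lit 9309850756) (nat_lit 390) (nat_lit 5) (nat_lit 402) (nat_lit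 5) (nat_lit 403) (nat_lit 5) (nat_lit 467) (nat_lit 439) (nat_lit 234)) (XT.nd (nat_lit 78) (nat_lit 836) (nat_lit 0) (XT.lf (nat_lit 0) (nat_lit 10153974297) (nat_lit 912) (nat_lit 33678181) (nat_lit 988) (nat_lit 7686337223) (nat_lit 390) (nat_lit 5) (nat_lit 402) (nat_lit 5) (nat_lit 403) (nat_lit 5) (nat_lit 468) (nat_lit 439) (nat_lit 233)) (XT.lf (nat_lit 0) (nat_lit 1700346931) (nat_lit 836) (nat_lit 10393023964) (nat_lit 912) (nat_lit 5973744063) (nat_lit 379) (nat_lit 5) (nat_lit 390) (nat_lit 5) (nat_lit 391) (nat_lit 5) (nat_lit 469) (nat_lit 439) (nat_lit 232))))) (XT.nd (nat_lit 234) (nat_lit 1748) (nat_lit 0) (XT.nd (nat_lit 78) (nat_lit 912) (nat_lit 0) (XT.lf (nat_lit 0) (nat_lit 11408087757) (nat_lit 836) (nat_lit 2675274317) (nat_lit 912) (nat_lit 4179819030) (nat_lit 379) (nat_lit 5) (nat_lit 390) (nat_lit 5) (nat_lit 391) (nat_lit 5) (nat_lit 470) (nat_lit 439) (nat_lit 231)) (XT.nd (nat_lit 78) (nat_lit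 0) (nat_lit 0) (XT.lf (nat_lit 0) (nat_lit 2844923230) (nat_lit 912) (nat_lit 13314691441) (nat_lit 988) (nat_lit 2302626194) (nat_lit 367) (nat_lit 5) (nat_lit 379) (nat_lit 5) (nat_lit 380) (nat_lit 5) (nat_lit 471) (nat_lit 439) (nat_lit 230)) (XT.lf (nat_lit 0) (nat_lit 12808484166) (nat_lit 912) (nat_lit 5526836657) (nat_lit 988) (nat_lit 328803923) (nat_lit 367) (nat_lit 5) (nat_lit 379) (nat_lit 5) (nat_lit 380) (nat_lit 5) (nat_lit 472) (nat_lit 439) (nat_lit 229)))) (XT.nd (nat_lit 78) (nat_lit 836) (nat_lit 0) (XT.lf (nat_lit 0) (nat_lit 1699619663) (nat_lit 912) (nat_lit 14746122271) (nat_lit 76) (nat_lit 2423342722) (nat_lit 355) (nat_lit 5) (nat_lit 367) (nat_lit 5) (nat_lit 356) (nat_lit 5) (nat_lit 473) (nat_lit 439) (nat_lit 228)) (XT.nd (nat_lit 78) (nat_lit 836) (nat_lit 0) (XT.lf (nat_lit 0) (nat_lit 3834845149) (nat_lit 912) (nat_lit 4741358048) (nat_lit 76) (nat_lit 10500485786) (nat_lit 355) (nat_lit 5)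 (nat_lit 367) (nat_lit 5) (nat_lit 356) (nat_lit 5) (nat_lit 474) (nat_lit 439) (nat_lit 227)) (XT.lf (nat_lit 0) (nat_lit 5530671498) (nat_lit 836) (nat_lit 512596523) (nat_lit 912) (nat_lit 13244568895) (nat_lit 344) (nat_lit 5) (nat_lit 355) (nat_lit 5) (nat_lit 356) (nat_lit 5) (nat_lit 475) (nat_lit 439) (nat_lit 226)))))) (XT.nd (nat_lit 390) (nat_lit 2964) (nat_lit 0) (XT.nd (nat_lit 156) (nat_lit 760) (nat_lit 0) (XT.nd (nat_lit 78) (nat_lit 760) (nat_lit 0) (XT.lf (nat_lit 0) (nat_lit 8372616087) (nat_lit 912) (nat_lit 3485882182) (nat_lit 76) (nat_lit 7643175760) (nat_lit 344) (nat_lit 5) (nat_lit 356) (nat_lit 5) (nat_lit 345) (nat_lit 5) (nat_lit 476) (nat_lit 439) (nat_lit 225)) (XT.lf (nat_lit 0) (nat_lit 7074888374) (nat_lit 760) (nat_lit 3717752839) (nat_lit 836) (nat_lit 8926266194) (nat_lit 334) (nat_lit 5) (nat_lit 344) (nat_lit 5) (nat_lit 345) (nat_lit 5) (nat_lit 477) (nat_lit 439) (nat_lit 224))) (XT.nd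 (nat_lit 78) (nat_lit 760) (nat_lit 0) (XT.lf (nat_lit 0) (nat_lit 13309216046) (nat_lit 836) (nat_lit 2081221163) (nat_lit 76) (nat_lit 4549086560) (nat_lit 334) (nat_lit 5) (nat_lit 345) (nat_lit 5) (nat_lit 335) (nat_lit 5) (nat_lit 478) (nat_lit 439) (nat_lit 223)) (XT.nd (nat_lit 78) (nat_lit 0) (nat_lit 0) (XT.lf (nat_lit 0) (nat_lit 8778042363) (nat_lit 760) (nat_lit 7174623253) (nat_lit 836) (nat_lit 4210357253) (nat_lit 324) (nat_lit 5) (nat_lit 334) (nat_lit 5) (nat_lit 335) (nat_lit 5) (nat_lit 479) (nat_lit 439) (nat_lit 222)) (XT.lf (nat_lit 0) (nat_lit 18665862813) (nat_lit 836) (nat_lit 521289297) (nat_lit 76) (nat_lit 1203503517) (nat_lit 324) (nat_lit 5) (nat_lit 335) (nat_lit 5) (nat_lit 325) (nat_lit 5) (nat_lit 480) (nat_lit 439) (nat_lit 221))))) (XT.nd (nat_lit 234) (nat_lit 1368) (nat_lit 0) (XT.nd (nat_lit 78) (nat_lit 760) (nat_lit 0) (XT.lf (nat_lit 0) (nat_lit 912321731) (nat_lit 836) (nat_lit 9980071647)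 (nat_lit 76) (nat_lit 9728094253) (nat_lit 313) (nat_lit 5) (nat_lit 324) (nat_lit 5) (nat_lit 314) (nat_lit 5) (nat_lit 481) (nat_lit 439) (nat_lit 220)) (XT.nd (nat_lit 78) (nat_lit 0) (nat_lit 0) (XT.lf (nat_lit 0) (nat_lit 1176270389) (nat_lit 760) (nat_lit 2409113564) (nat_lit 836) (nat_lit 17269179472) (nat_lit 303) (nat_lit 5) (nat_lit 313) (nat_lit 5) (nat_lit 314) (nat_lit 5) (nat_lit 482) (nat_lit 439) (nat_lit 219)) (XT.lf (nat_lit 0) (nat_lit 6415040695) (nat_lit 836) (nat_lit 8447288332) (nat_lit 76) (nat_lit 6228930199) (nat_lit 303) (nat_lit 5) (nat_lit 314) (nat_lit 5) (nat_lit 304) (nat_lit 5) (nat_lit 483) (nat_lit 439) (nat_lit 218)))) (XT.nd (nat_lit 78) (nat_lit 684) (nat_lit 0) (XT.lf (nat_lit 0) (nat_lit 3026838254) (nat_lit 684) (nat_lit 6305332602) (nat_lit 760) (nat_lit 11999901612) (nat_lit 294) (nat_lit 5) (nat_lit 303) (nat_lit 5) (nat_lit 304) (nat_lit 5) (nat_lit 484) (nat_lit 439) (nat_lit 217))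 (XT.nd (nat_lit 78) (nat_lit 684) (nat_lit 0) (XT.lf (nat_lit 0) (nat_lit 12375764239) (nat_lit 760) (nat_lit 6753019343) (nat_lit 76) (nat_lit 2447557092) (nat_lit 294) (nat_lit 5) (nat_lit 304) (nat_lit 5) (nat_lit 295) (nat_lit 5) (nat_lit 485) (nat_lit 439) (nat_lit 216)) (XT.lf (nat_lit 0) (nat_lit 5049513999) (nat_lit 684) (nat_lit 10500678056) (nat_lit 760) (nat_lit 6273904026) (nat_lit 285) (nat_lit 5) (nat_lit 294) (nat_lit 5) (nat_lit 295) (nat_lit 5) (nat_lit 486) (nat_lit 439) (nat_lit 215))))))) (XT.nd (nat_lit 858) (nat_lit 2660) (nat_lit 0) (XT.nd (nat_lit 390) (nat_lit 2508) (nat_lit 0) (XT.nd (nat_lit 156) (nat_lit 760) (nat_lit 0) (XT.nd (nat_lit 78) (nat_lit 684) (nat_lit 0) (XT.lf (nat_lit 0) (nat_lit 17174477193) (nat_lit 684) (nat_lit 1654424442) (nat_lit 760) (nat_lit 3247090162) (nat_lit 285) (nat_lit 5) (nat_lit 294) (nat_lit 5) (nat_lit 295) (nat_lit 5) (nat_lit 487) (nat_lit 439) (nat_lit 214)) (XT.lf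 (nat_lit 0) (nat_lit 7251126935) (nat_lit 684) (nat_lit 15012541969) (nat_lit 760) (nat_lit 67447901) (nat_lit 276) (nat_lit 5) (nat_lit 285) (nat_lit 5) (nat_lit 286) (nat_lit 5) (nat_lit 488) (nat_lit 439) (nat_lit 213))) (XT.nd (nat_lit 78) (nat_lit 684) (nat_lit 0) (XT.lf (nat_lit 0) (nat_lit 3173787535) (nat_lit 760) (nat_lit 2914387558) (nat_lit 76) (nat_lit 16501964812) (nat_lit 275) (nat_lit 5) (nat_lit 285) (nat_lit 5) (nat_lit 276) (nat_lit 5) (nat_lit 489) (nat_lit 439) (nat_lit 212)) (XT.nd (nat_lit 78) (nat_lit 0) (nat_lit 0) (XT.lf (nat_lit 0) (nat_lit 6557029870) (nat_lit 760) (nat_lit 13258043043) (nat_lit 76) (nat_lit 3037700916) (nat_lit 266) (nat_lit 5) (nat_lit 276) (nat_lit 5) (nat_lit 267) (nat_lit 5) (nat_lit 490) (nat_lit 439) (nat_lit 211)) (XT.lf (nat_lit 0) (nat_lit 10063661816) (nat_lit 760) (nat_lit 772298001) (nat_lit 76) (nat_lit 12283587084) (nat_lit 266) (nat_lit 5) (nat_lit 276) (nat_lit 5)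 (nat_lit 267) (nat_lit 5) (nat_lit 491) (nat_lit 439) (nat_lit 210))))) (XT.nd (nat_lit 234) (nat_lit 1292) (nat_lit 0) (XT.nd (nat_lit 78) (nat_lit 608) (nat_lit 0) (XT.lf (nat_lit 0) (nat_lit 12117062788) (nat_lit 608) (nat_lit 1597838692) (nat_lit 684) (nat_lit 9675265402) (nat_lit 258) (nat_lit 5) (nat_lit 266) (nat_lit 5) (nat_lit 267) (nat_lit 5) (nat_lit 492) (nat_lit 439) (nat_lit 209)) (XT.nd (nat_lit 78) (nat_lit 0) (nat_lit 0) (XT.lf (nat_lit 0) (nat_lit 1573316466) (nat_lit 608) (nat_lit 15927934290) (nat_lit 684) (nat_lit 6163707738) (nat_lit 250) (nat_lit 5) (nat_lit 258) (nat_lit 5) (nat_lit 259) (nat_lit 5) (nat_lit 493) (nat_lit 439) (nat_lit 208)) (XT.lf (nat_lit 0) (nat_lit 14813724254) (nat_lit 608) (nat_lit 6631659667) (nat_lit 684) (nat_lit 2498221790) (nat_lit 250) (nat_lit 5) (nat_lit 258) (nat_lit 5) (nat_lit 259) (nat_lit 5) (nat_lit 494) (nat_lit 439) (nat_lit 207)))) (XT.nd (nat_lit 78) (nat_lit 608)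 (nat_lit 0) (XT.lf (nat_lit 0) (nat_lit 1265814805) (nat_lit 684) (nat_lit 20113672317) (nat_lit 76) (nat_lit 2847348307) (nat_lit 241) (nat_lit 5) (nat_lit 250) (nat_lit 5) (nat_lit 242) (nat_lit 5) (nat_lit 495) (nat_lit 439) (nat_lit 206)) (XT.nd (nat_lit 78) (nat_lit 608) (nat_lit 0) (XT.lf (nat_lit 0) (nat_lit 5173292935) (nat_lit 684) (nat_lit 6835573240) (nat_lit 76) (nat_lit 12504501920) (nat_lit 241) (nat_lit 5) (nat_lit 250) (nat_lit 5) (nat_lit 242) (nat_lit 5) (nat_lit 496) (nat_lit 439) (nat_lit 205)) (XT.lf (nat_lit 0) (nat_lit 6792241029) (nat_lit 608) (nat_lit 2406848351) (nat_lit 684) (nat_lit 15605739500) (nat_lit 233) (nat_lit 5) (nat_lit 241) (nat_lit 5) (nat_lit 242) (nat_lit 5) (nat_lit 497) (nat_lit 439) (nat_lit 204)))))) (XT.nd (nat_lit 468) (nat_lit 988) (nat_lit 0) (XT.nd (nat_lit 234) (nat_lit 1140) (nat_lit 0) (XT.nd (nat_lit 78) (nat_lit 532) (nat_lit 0) (XT.lf (nat_lit 0) (nat_lit 13395646243)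 (nat_lit 684) (nat_lit 4369166149) (nat_lit 76) (nat_lit 7335502424) (nat_lit 233) (nat_lit 5) (nat_lit 242) (nat_lit 5) (nat_lit 234) (nat_lit 5) (nat_lit 498) (nat_lit 439) (nat_lit 203)) (XT.nd (nat_lit 78) (nat_lit 0) (nat_lit 0) (XT.lf (nat_lit 0) (nat_lit 9652913894) (nat_lit 532) (nat_lit 8098016932) (nat_lit 608) (nat_lit 7649284522) (nat_lit 226) (nat_lit 5) (nat_lit 233) (nat_lit 5) (nat_lit 234) (nat_lit 5) (nat_lit 499) (nat_lit 439) (nat_lit 202)) (XT.lf (nat_lit 0) (nat_lit 22230496047) (nat_lit 608) (nat_lit 1707409433) (nat_lit 76) (nat_lit 1767465704) (nat_lit 226) (nat_lit 5) (nat_lit 234) (nat_lit 5) (nat_lit 227) (nat_lit 5) (nat_lit 500) (nat_lit 439) (nat_lit 201)))) (XT.nd (nat_lit 78) (nat_lit 532) (nat_lit 0) (XT.lf (nat_lit 0) (nat_lit 906151360) (nat_lit 608) (nat_lit 13298255068) (nat_lit 76) (nat_lit 11809454824) (nat_lit 218) (nat_lit 5) (nat_lit 226) (nat_lit 5) (nat_lit 219) (nat_lit 5) (nat_lit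 501) (nat_lit 439) (nat_lit 200)) (XT.nd (nat_lit 78) (nat_lit 0) (nat_lit 0) (XT.lf (nat_lit 0) (nat_lit 1108555571) (nat_lit 532) (nat_lit 4234799974) (nat_lit 608) (nat_lit 20984405230) (nat_lit 211) (nat_lit 5) (nat_lit 218) (nat_lit 5) (nat_lit 219) (nat_lit 5) (nat_lit 502) (nat_lit 439) (nat_lit 199)) (XT.lf (nat_lit 0) (nat_lit 9994006821) (nat_lit 608) (nat_lit 10706373496) (nat_lit 76) (nat_lit 5945064644) (nat_lit 211) (nat_lit 5) (nat_lit 219) (nat_lit 5) (nat_lit 212) (nat_lit 5) (nat_lit 503) (nat_lit 439) (nat_lit 198))))) (XT.nd (nat_lit 54366) (nat_lit 0) (nat_lit 19532) (XT.nd (nat_lit 78) (nat_lit 456) (nat_lit 0) (XT.lf (nat_lit 0) (nat_lit 4117908284) (nat_lit 532) (nat_lit 10670960709) (nat_lit 608) (nat_lit 12179590599) (nat_lit 204) (nat_lit 5) (nat_lit 211) (nat_lit 5) (nat_lit 212) (nat_lit 5) (nat_lit 504) (nat_lit 439) (nat_lit 197)) (XT.nd (nat_lit 78) (nat_lit 456) (nat_lit 0) (XT.lf (nat_lit 0)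 (nat_lit 19379066147) (nat_lit 532) (nat_lit 368863812) (nat_lit 608) (nat_lit 7548639226) (nat_lit 204) (nat_lit 5) (nat_lit 211) (nat_lit 5) (nat_lit 212) (nat_lit 5) (nat_lit 505) (nat_lit 439) (nat_lit 196)) (XT.lf (nat_lit 0) (nat_lit 7339932878) (nat_lit 456) (nat_lit 17576243922) (nat_lit 532) (nat_lit 2712864770) (nat_lit 198) (nat_lit 5) (nat_lit 204) (nat_lit 5) (nat_lit 205) (nat_lit 5) (nat_lit 506) (nat_lit 439) (nat_lit 195)))) (XT.nd (nat_lit 78) (nat_lit 0) (nat_lit 0) (XT.lf (nat_lit 0) (nat_lit 5536771564) (nat_lit 1748) (nat_lit 632321308) (nat_lit 1748) (nat_lit 632321308) (nat_lit 455) (nat_lit 3) (nat_lit 478) (nat_lit 3) (nat_lit 478) (nat_lit 5) (nat_lit 440) (nat_lit 440) (nat_lit 260)) (XT.nd (nat_lit 78) (nat_lit 0) (nat_lit 76) (XT.lf (nat_lit 76) (nat_lit 5368903058) (nat_lit 0) (nat_lit 6208188232) (nat_lit 1748) (nat_lit 2153803885) (nat_lit 456) (nat_lit 5) (nat_lit 455) (nat_lit 3) (nat_lit 478)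 (nat_lit 5) (nat_lit 441) (nat_lit 440) (nat_lit 259)) (XT.lf (nat_lit 0) (nat_lit 12090150240) (nat_lit 1672) (nat_lit 1714510315) (nat_lit 1748) (nat_lit 56876734) (nat_lit 456) (nat_lit 5) (nat_lit 478) (nat_lit 5) (nat_lit 479) (nat_lit 5) (nat_lit 442) (nat_lit 440) (nat_lit 258))))))))
noncomputable def xc220 : XT := (XT.nd (nat_lit 1716) (nat_lit 10108) (nat_lit 0) (XT.nd (nat_lit 858) (nat_lit 1216) (nat_lit 0) (XT.nd (nat_lit 390) (nat_lit 0) (nat_lit 76) (XT.nd (nat_lit 156) (nat_lit 1672) (nat_lit 0) (XT.nd (nat_lit 78) (nat_lit 0) (nat_lit 0) (XT.lf (nat_lit 76) (nat_lit 5086543331) (nat_lit 0) (nat_lit 7591859093) (nat_lit 1748) (nat_lit 1315093887) (nat_lit 457) (nat_lit 5) (nat_lit 456) (nat_lit 5) (nat_lit 479) (nat_lit 5) (nat_lit 443) (nat_lit 440) (nat_lit 257)) (XT.lf (nat_lit 76) (nat_lit 12041916525) (nat_lit 0) (nat_lit 1238949845) (nat_lit 1748) (nat_lit 847181860) (nat_lit 457) (nat_lit 5) (nat_lit 456)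 (nat_lit 5) (nat_lit 479) (nat_lit 5) (nat_lit 444) (nat_lit 440) (nat_lit 256))) (XT.nd (nat_lit 78) (nat_lit 1748) (nat_lit 0) (XT.lf (nat_lit 76) (nat_lit 4896241236) (nat_lit 0) (nat_lit 9056101442) (nat_lit 1748) (nat_lit 311811848) (nat_lit 458) (nat_lit 5) (nat_lit 457) (nat_lit 5) (nat_lit 480) (nat_lit 5) (nat_lit 445) (nat_lit 440) (nat_lit 255)) (XT.nd (nat_lit 78) (nat_lit 0) (nat_lit 76) (XT.lf (nat_lit 0) (nat_lit 244715934) (nat_lit 1748) (nat_lit 2371119495) (nat_lit 1824) (nat_lit 11786849144) (nat_lit 434) (nat_lit 5) (nat_lit 457) (nat_lit 5) (nat_lit 458) (nat_lit 5) (nat_lit 446) (nat_lit 440) (nat_lit 254)) (XT.lf (nat_lit 0) (nat_lit 856818295) (nat_lit 1748) (nat_lit 9747657007) (nat_lit 1824) (nat_lit 3938498764) (nat_lit 435) (nat_lit 5) (nat_lit 458) (nat_lit 5) (nat_lit 459) (nat_lit 5) (nat_lit 447) (nat_lit 440) (nat_lit 253))))) (XT.nd (nat_lit 234) (nat_lit 0) (nat_lit 152) (XT.nd (nat_lit 78)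 (nat_lit 0) (nat_lit 76) (XT.lf (nat_lit 0) (nat_lit 1506059733) (nat_lit 1748) (nat_lit 2571154279) (nat_lit 1824) (nat_lit 10608359798) (nat_lit 435) (nat_lit 5) (nat_lit 458) (nat_lit 5) (nat_lit 459) (nat_lit 5) (nat_lit 448) (nat_lit 440) (nat_lit 252)) (XT.nd (nat_lit 78) (nat_lit 0) (nat_lit 0) (XT.lf (nat_lit 0) (nat_lit 2208199690) (nat_lit 1748) (nat_lit 10040726607) (nat_lit 1824) (nat_lit 2581303334) (nat_lit 436) (nat_lit 5) (nat_lit 459) (nat_lit 5) (nat_lit 460) (nat_lit 5) (nat_lit 449) (nat_lit 440) (nat_lit 251)) (XT.lf (nat_lit 0) (nat_lit 2960623735) (nat_lit 1748) (nat_lit 2677570757) (nat_lit 1824) (nat_lit 9338861560) (nat_lit 436) (nat_lit 5) (nat_lit 459) (nat_lit 5) (nat_lit 460) (nat_lit 5) (nat_lit 450) (nat_lit 440) (nat_lit 250)))) (XT.nd (nat_lit 78) (nat_lit 0) (nat_lit 0) (XT.lf (nat_lit 0) (nat_lit 3759290110) (nat_lit 1748) (nat_lit 10241885862) (nat_lit 1824) (nat_lit 1125021416) (nat_lit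 437) (nat_lit 5) (nat_lit 460) (nat_lit 5) (nat_lit 461) (nat_lit 5) (nat_lit 451) (nat_lit 440) (nat_lit 249)) (XT.nd (nat_lit 78) (nat_lit 0) (nat_lit 0) (XT.lf (nat_lit 0) (nat_lit 4621527759) (nat_lit 1748) (nat_lit 2686981467) (nat_lit 1824) (nat_lit 7968862585) (nat_lit 437) (nat_lit 5) (nat_lit 460) (nat_lit 5) (nat_lit 461) (nat_lit 5) (nat_lit 452) (nat_lit 440) (nat_lit 248)) (XT.lf (nat_lit 76) (nat_lit 5080468074) (nat_lit 0) (nat_lit 445853354) (nat_lit 1824) (nat_lit 9904744246) (nat_lit 438) (nat_lit 5) (nat_lit 437) (nat_lit 5) (nat_lit 461) (nat_lit 5) (nat_lit 453) (nat_lit 440) (nat_lit 247)))))) (XT.nd (nat_lit 390) (nat_lit 1520) (nat_lit 0) (XT.nd (nat_lit 156) (nat_lit 0) (nat_lit 76) (XT.nd (nat_lit 78) (nat_lit 0) (nat_lit 0) (XT.lf (nat_lit 0) (nat_lit 6502372892) (nat_lit 1748) (nat_lit 2595775133) (nat_lit 1824) (nat_lit 6488624286) (nat_lit 438) (nat_lit 5) (nat_lit 461) (nat_lit 5) (nat_lit 462)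 (nat_lit 5) (nat_lit 454) (nat_lit 440) (nat_lit 246)) (XT.lf (nat_lit 76) (nat_lit 5376490042) (nat_lit 0) (nat_lit 2151921803) (nat_lit 1824) (nat_lit 8216573996) (nat_lit 439) (nat_lit 5) (nat_lit 438) (nat_lit 5) (nat_lit 462) (nat_lit 5) (nat_lit 455) (nat_lit 440) (nat_lit 245))) (XT.nd (nat_lit 78) (nat_lit 0) (nat_lit 0) (XT.lf (nat_lit 0) (nat_lit 8617266791) (nat_lit 1748) (nat_lit 2400115228) (nat_lit 1824) (nat_lit 4888137769) (nat_lit 439) (nat_lit 5) (nat_lit 462) (nat_lit 5) (nat_lit 463) (nat_lit 5) (nat_lit 456) (nat_lit 440) (nat_lit 244)) (XT.nd (nat_lit 78) (nat_lit 0) (nat_lit 76) (XT.lf (nat_lit 76) (nat_lit 5784003047) (nat_lit 0) (nat_lit 3988574085) (nat_lit 1824) (nat_lit 6295795728) (nat_lit 440) (nat_lit 5) (nat_lit 439) (nat_lit 5) (nat_lit 463) (nat_lit 5) (nat_lit 457) (nat_lit 440) (nat_lit 243)) (XT.lf (nat_lit 0) (nat_lit 10980849638) (nat_lit 1748) (nat_lit 2095938319) (nat_lit 1824) (nat_lit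 3157099886) (nat_lit 440) (nat_lit 5) (nat_lit 463) (nat_lit 5) (nat_lit 464) (nat_lit 5) (nat_lit 458) (nat_lit 440) (nat_lit 242))))) (XT.nd (nat_lit 234) (nat_lit 1672) (nat_lit 0) (XT.nd (nat_lit 78) (nat_lit 0) (nat_lit 76) (XT.lf (nat_lit 76) (nat_lit 6307317302) (nat_lit 0) (nat_lit 5966464734) (nat_lit 1824) (nat_lit 4127723134) (nat_lit 441) (nat_lit 5) (nat_lit 440) (nat_lit 5) (nat_lit 464) (nat_lit 5) (nat_lit 459) (nat_lit 440) (nat_lit 241)) (XT.nd (nat_lit 78) (nat_lit 0) (nat_lit 0) (XT.lf (nat_lit 0) (nat_lit 13608320762) (nat_lit 1748) (nat_lit 1678952187) (nat_lit 1824) (nat_lit 1284888836) (nat_lit 441) (nat_lit 5) (nat_lit 464) (nat_lit 5) (nat_lit 465) (nat_lit 5) (nat_lit 460) (nat_lit 440) (nat_lit 240)) (XT.lf (nat_lit 76) (nat_lit 6950979183) (nat_lit 0) (nat_lit 8096586710) (nat_lit 1824) (nat_lit 1697107183) (nat_lit 442) (nat_lit 5) (nat_lit 441) (nat_lit 5) (nat_lit 465) (nat_lit 5) (nat_lit 461)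 (nat_lit 440) (nat_lit 239)))) (XT.nd (nat_lit 78) (nat_lit 1748) (nat_lit 0) (XT.lf (nat_lit 76) (nat_lit 15771043068) (nat_lit 0) (nat_lit 749287798) (nat_lit 1824) (nat_lit 400210849) (nat_lit 442) (nat_lit 5) (nat_lit 441) (nat_lit 5) (nat_lit 465) (nat_lit 5) (nat_lit 462) (nat_lit 440) (nat_lit 238)) (XT.nd (nat_lit 78) (nat_lit 0) (nat_lit 0) (XT.lf (nat_lit 0) (nat_lit 998620179) (nat_lit 1824) (nat_lit 9384975496) (nat_lit 1900) (nat_lit 6714452054) (nat_lit 418) (nat_lit 5) (nat_lit 442) (nat_lit 5) (nat_lit 443) (nat_lit 5) (nat_lit 463) (nat_lit 440) (nat_lit 237)) (XT.lf (nat_lit 0) (nat_lit 2426453683) (nat_lit 1824) (nat_lit 523448901) (nat_lit 1900) (nat_lit 14329022394) (nat_lit 418) (nat_lit 5) (nat_lit 442) (nat_lit 5) (nat_lit 443) (nat_lit 5) (nat_lit 464) (nat_lit 440) (nat_lit 236))))))) (XT.nd (nat_lit 858) (nat_lit 5320) (nat_lit 0) (XT.nd (nat_lit 390) (nat_lit 2660) (nat_lit 0) (XT.nd (nat_lit 156)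 (nat_lit 912) (nat_lit 0) (XT.nd (nat_lit 78) (nat_lit 1292) (nat_lit 0) (XT.lf (nat_lit 0) (nat_lit 3963062890) (nat_lit 1824) (nat_lit 8869685369) (nat_lit 76) (nat_lit 4629068814) (nat_lit 419) (nat_lit 5) (nat_lit 443) (nat_lit 5) (nat_lit 420) (nat_lit 5) (nat_lit 465) (nat_lit 440) (nat_lit 235)) (XT.lf (nat_lit 0) (nat_lit 226935812) (nat_lit 1292) (nat_lit 5321885341) (nat_lit 1368) (nat_lit 12099179168) (nat_lit 402) (nat_lit 5) (nat_lit 419) (nat_lit 5) (nat_lit 420) (nat_lit 5) (nat_lit 466) (nat_lit 440) (nat_lit 234))) (XT.nd (nat_lit 78) (nat_lit 912) (nat_lit 0) (XT.lf (nat_lit 0) (nat_lit 7235359383) (nat_lit 1368) (nat_lit 8231974961) (nat_lit 76) (nat_lit 2369193212) (nat_lit 402) (nat_lit 5) (nat_lit 420) (nat_lit 5) (nat_lit 403) (nat_lit 5) (nat_lit 467) (nat_lit 440) (nat_lit 233)) (XT.nd (nat_lit 78) (nat_lit 0) (nat_lit 0) (XT.lf (nat_lit 0) (nat_lit 1114984454) (nat_lit 912) (nat_lit 7877208556) (nat_lit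 988) (nat_lit 9035902617) (nat_lit 390) (nat_lit 5) (nat_lit 402) (nat_lit 5) (nat_lit 403) (nat_lit 5) (nat_lit 468) (nat_lit 440) (nat_lit 232)) (XT.lf (nat_lit 0) (nat_lit 10755213581) (nat_lit 912) (nat_lit 78353686) (nat_lit 988) (nat_lit 7388941268) (nat_lit 390) (nat_lit 5) (nat_lit 402) (nat_lit 5) (nat_lit 403) (nat_lit 5) (nat_lit 469) (nat_lit 440) (nat_lit 231))))) (XT.nd (nat_lit 234) (nat_lit 912) (nat_lit 0) (XT.nd (nat_lit 78) (nat_lit 912) (nat_lit 0) (XT.lf (nat_lit 0) (nat_lit 2139080013) (nat_lit 836) (nat_lit 10631997864) (nat_lit 912) (nat_lit 5648547172) (nat_lit 379) (nat_lit 5) (nat_lit 390) (nat_lit 5) (nat_lit 391) (nat_lit 5) (nat_lit 470) (nat_lit 440) (nat_lit 230)) (XT.nd (nat_lit 78) (nat_lit 912) (nat_lit 0) (XT.lf (nat_lit 0) (nat_lit 12033039849) (nat_lit 836) (nat_lit 2759283156) (nat_lit 912) (nat_lit 3827462693) (nat_lit 379) (nat_lit 5) (nat_lit 390) (nat_lit 5) (nat_lit 391) (nat_lit 5)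 (nat_lit 471) (nat_lit 440) (nat_lit 229)) (XT.lf (nat_lit 0) (nat_lit 3304800375) (nat_lit 912) (nat_lit 13599344213) (nat_lit 988) (nat_lit 1918803408) (nat_lit 367) (nat_lit 5) (nat_lit 379) (nat_lit 5) (nat_lit 380) (nat_lit 5) (nat_lit 472) (nat_lit 440) (nat_lit 228)))) (XT.nd (nat_lit 78) (nat_lit 836) (nat_lit 0) (XT.lf (nat_lit 0) (nat_lit 84937604) (nat_lit 988) (nat_lit 5569864773) (nat_lit 76) (nat_lit 13374223406) (nat_lit 366) (nat_lit 5) (nat_lit 379) (nat_lit 5) (nat_lit 367) (nat_lit 5) (nat_lit 473) (nat_lit 440) (nat_lit 227)) (XT.nd (nat_lit 78) (nat_lit 0) (nat_lit 0) (XT.lf (nat_lit 0) (nat_lit 2143880697) (nat_lit 912) (nat_lit 14634578673) (nat_lit 76) (nat_lit 2459697070) (nat_lit 355) (nat_lit 5) (nat_lit 367) (nat_lit 5) (nat_lit 356) (nat_lit 5) (nat_lit 474) (nat_lit 440) (nat_lit 226)) (XT.lf (nat_lit 0) (nat_lit 4313766210) (nat_lit 912) (nat_lit 4437689087) (nat_lit 76) (nat_lit 10698620495) (nat_lit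 355) (nat_lit 5) (nat_lit 367) (nat_lit 5) (nat_lit 356) (nat_lit 5) (nat_lit 475) (nat_lit 440) (nat_lit 225)))))) (XT.nd (nat_lit 468) (nat_lit 2964) (nat_lit 0) (XT.nd (nat_lit 234) (nat_lit 760) (nat_lit 0) (XT.nd (nat_lit 78) (nat_lit 760) (nat_lit 0) (XT.lf (nat_lit 0) (nat_lit 6037159365) (nat_lit 836) (nat_lit 523881706) (nat_lit 912) (nat_lit 13104513953) (nat_lit 344) (nat_lit 5) (nat_lit 355) (nat_lit 5) (nat_lit 356) (nat_lit 5) (nat_lit 476) (nat_lit 440) (nat_lit 224)) (XT.nd (nat_lit 78) (nat_lit 760) (nat_lit 0) (XT.lf (nat_lit 0) (nat_lit 8929187017) (nat_lit 912) (nat_lit 3159600044) (nat_lit 76) (nat_lit 7795039569) (nat_lit 344) (nat_lit 5) (nat_lit 356) (nat_lit 5) (nat_lit 345) (nat_lit 5) (nat_lit 477) (nat_lit 440) (nat_lit 223)) (XT.lf (nat_lit 0) (nat_lit 7609780661) (nat_lit 760) (nat_lit 3782756386) (nat_lit 836) (nat_lit 8712971071) (nat_lit 334) (nat_lit 5) (nat_lit 344) (nat_lit 5) (nat_lit 345)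 (nat_lit 5) (nat_lit 478) (nat_lit 440) (nat_lit 222)))) (XT.nd (nat_lit 78) (nat_lit 760) (nat_lit 0) (XT.lf (nat_lit 0) (nat_lit 13951972647) (nat_lit 836) (nat_lit 1729599273) (nat_lit 76) (nat_lit 4649116197) (nat_lit 334) (nat_lit 5) (nat_lit 345) (nat_lit 5) (nat_lit 335) (nat_lit 5) (nat_lit 479) (nat_lit 440) (nat_lit 221)) (XT.nd (nat_lit 78) (nat_lit 0) (nat_lit 0) (XT.lf (nat_lit 0) (nat_lit 9344262377) (nat_lit 760) (nat_lit 7299181480) (nat_lit 836) (nat_lit 3915312145) (nat_lit 324) (nat_lit 5) (nat_lit 334) (nat_lit 5) (nat_lit 335) (nat_lit 5) (nat_lit 480) (nat_lit 440) (nat_lit 220)) (XT.lf (nat_lit 0) (nat_lit 19403736797) (nat_lit 836) (nat_lit 141456693) (nat_lit 76) (nat_lit 1245893109) (nat_lit 324) (nat_lit 5) (nat_lit 335) (nat_lit 5) (nat_lit 325) (nat_lit 5) (nat_lit 481) (nat_lit 440) (nat_lit 219))))) (XT.nd (nat_lit 234) (nat_lit 1368) (nat_lit 0) (XT.nd (nat_lit 78) (nat_lit 760) (nat_lit 0) (XT.lf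 (nat_lit 0) (nat_lit 1292965534) (nat_lit 836) (nat_lit 9787078636) (nat_lit 76) (nat_lit 9945517793) (nat_lit 313) (nat_lit 5) (nat_lit 324) (nat_lit 5) (nat_lit 314) (nat_lit 5) (nat_lit 482) (nat_lit 440) (nat_lit 218)) (XT.nd (nat_lit 78) (nat_lit 0) (nat_lit 0) (XT.lf (nat_lit 0) (nat_lit 1589807382) (nat_lit 760) (nat_lit 2425108002) (nat_lit 836) (nat_lit 17249497078) (nat_lit 303) (nat_lit 5) (nat_lit 313) (nat_lit 5) (nat_lit 314) (nat_lit 5) (nat_lit 483) (nat_lit 440) (nat_lit 217)) (XT.lf (nat_lit 0) (nat_lit 6894353995) (nat_lit 836) (nat_lit 8226974460) (nat_lit 76) (nat_lit 6384651630) (nat_lit 303) (nat_lit 5) (nat_lit 314) (nat_lit 5) (nat_lit 304) (nat_lit 5) (nat_lit 484) (nat_lit 440) (nat_lit 216)))) (XT.nd (nat_lit 78) (nat_lit 684) (nat_lit 0) (XT.lf (nat_lit 0) (nat_lit 3474073740) (nat_lit 684) (nat_lit 6391381127) (nat_lit 760) (nat_lit 11886243813) (nat_lit 294) (nat_lit 5) (nat_lit 303) (nat_lit 5)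 (nat_lit 304) (nat_lit 5) (nat_lit 485) (nat_lit 440) (nat_lit 215)) (XT.nd (nat_lit 78) (nat_lit 684) (nat_lit 0) (XT.lf (nat_lit 0) (nat_lit 12963378227) (nat_lit 760) (nat_lit 6502340637) (nat_lit 76) (nat_lit 2535265840) (nat_lit 294) (nat_lit 5) (nat_lit 304) (nat_lit 5) (nat_lit 295) (nat_lit 5) (nat_lit 486) (nat_lit 440) (nat_lit 214)) (XT.lf (nat_lit 0) (nat_lit 5533705615) (nat_lit 684) (nat_lit 10663408379) (nat_lit 760) (nat_lit 6056666420) (nat_lit 285) (nat_lit 5) (nat_lit 294) (nat_lit 5) (nat_lit 295) (nat_lit 5) (nat_lit 487) (nat_lit 440) (nat_lit 213))))))))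
noncomputable def xc221 : XT := (XT.nd (nat_lit 55926) (nat_lit 0) (nat_lit 16188) (XT.nd (nat_lit 858) (nat_lit 2204) (nat_lit 0) (XT.nd (nat_lit 390) (nat_lit 2508) (nat_lit 0) (XT.nd (nat_lit 156) (nat_lit 684) (nat_lit 0) (XT.nd (nat_lit 78) (nat_lit 760) (nat_lit 0) (XT.lf (nat_lit 0) (nat_lit 17893654322) (nat_lit 684) (nat_lit 1641156815) (nat_lit 760) (nat_lit 2976036194) (nat_lit 285) (nat_lit 5) (nat_lit 294) (nat_lit 5) (nat_lit 295) (nat_lit 5) (nat_lit 488) (nat_lit 440) (nat_lit 212)) (XT.lf (nat_lit 0) (nat_lit 259970357) (nat_lit 760) (nat_lit 14997173765) (nat_lit 76) (nat_lit 7513971998) (nat_lit 275) (nat_lit 5) (nat_lit 285) (nat_lit 5) (nat_lit 276) (nat_lit 5) (nat_lit 489) (nat_lit 440) (nat_lit 211))) (XT.nd (nat_lit 78) (nat_lit 684) (nat_lit 0) (XT.lf (nat_lit 0) (nat_lit 3558699495) (nat_lit 760) (nat_lit 2596234889) (nat_lit 76) (nat_lit 16880506401) (nat_lit 275) (nat_lit 5) (nat_lit 285) (nat_lit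 5) (nat_lit 276) (nat_lit 5) (nat_lit 490) (nat_lit 440) (nat_lit 210)) (XT.nd (nat_lit 78) (nat_lit 0) (nat_lit 0) (XT.lf (nat_lit 0) (nat_lit 7006098228) (nat_lit 760) (nat_lit 13143183277) (nat_lit 76) (nat_lit 3154117486) (nat_lit 266) (nat_lit 5) (nat_lit 276) (nat_lit 5) (nat_lit 267) (nat_lit 5) (nat_lit 491) (nat_lit 440) (nat_lit 209)) (XT.lf (nat_lit 0) (nat_lit 10576628936) (nat_lit 760) (nat_lit 415174720) (nat_lit 76) (nat_lit 12583829956) (nat_lit 266) (nat_lit 5) (nat_lit 276) (nat_lit 5) (nat_lit 267) (nat_lit 5) (nat_lit 492) (nat_lit 440) (nat_lit 208))))) (XT.nd (nat_lit 234) (nat_lit 1292) (nat_lit 0) (XT.nd (nat_lit 78) (nat_lit 608) (nat_lit 0) (XT.lf (nat_lit 0) (nat_lit 12729522171) (nat_lit 608) (nat_lit 1567662629) (nat_lit 684) (nat_lit 9554556742) (nat_lit 258) (nat_lit 5) (nat_lit 266) (nat_lit 5) (nat_lit 267) (nat_lit 5) (nat_lit 493) (nat_lit 440) (nat_lit 207)) (XT.nd (nat_lit 78) (nat_lit 0)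 (nat_lit 0) (XT.lf (nat_lit 0) (nat_lit 1978252881) (nat_lit 608) (nat_lit 16177789567) (nat_lit 684) (nat_lit 5976052263) (nat_lit 250) (nat_lit 5) (nat_lit 258) (nat_lit 5) (nat_lit 259) (nat_lit 5) (nat_lit 494) (nat_lit 440) (nat_lit 206)) (XT.lf (nat_lit 0) (nat_lit 15476145881) (nat_lit 608) (nat_lit 6696936578) (nat_lit 684) (nat_lit 2243353256) (nat_lit 250) (nat_lit 5) (nat_lit 258) (nat_lit 5) (nat_lit 259) (nat_lit 5) (nat_lit 495) (nat_lit 440) (nat_lit 205)))) (XT.nd (nat_lit 78) (nat_lit 608) (nat_lit 0) (XT.lf (nat_lit 0) (nat_lit 1588912652) (nat_lit 684) (nat_lit 20142618490) (nat_lit 76) (nat_lit 2973821646) (nat_lit 241) (nat_lit 5) (nat_lit 250) (nat_lit 5) (nat_lit 242) (nat_lit 5) (nat_lit 496) (nat_lit 440) (nat_lit 204)) (XT.nd (nat_lit 78) (nat_lit 608) (nat_lit 0) (XT.lf (nat_lit 0) (nat_lit 5568701491) (nat_lit 684) (nat_lit 6606277573) (nat_lit 76) (nat_lit 12822755070) (nat_lit 241) (nat_lit 5) (nat_lit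 250) (nat_lit 5) (nat_lit 242) (nat_lit 5) (nat_lit 497) (nat_lit 440) (nat_lit 203)) (XT.lf (nat_lit 0) (nat_lit 7291685039) (nat_lit 608) (nat_lit 2379965186) (nat_lit 684) (nat_lit 15623442407) (nat_lit 233) (nat_lit 5) (nat_lit 241) (nat_lit 5) (nat_lit 242) (nat_lit 5) (nat_lit 498) (nat_lit 440) (nat_lit 202)))))) (XT.nd (nat_lit 390) (nat_lit 532) (nat_lit 0) (XT.nd (nat_lit 156) (nat_lit 1140) (nat_lit 0) (XT.nd (nat_lit 78) (nat_lit 532) (nat_lit 0) (XT.lf (nat_lit 0) (nat_lit 13946957342) (nat_lit 684) (nat_lit 4094838752) (nat_lit 76) (nat_lit 7554797011) (nat_lit 233) (nat_lit 5) (nat_lit 242) (nat_lit 5) (nat_lit 234) (nat_lit 5) (nat_lit 499) (nat_lit 440) (nat_lit 201)) (XT.lf (nat_lit 0) (nat_lit 10205303216) (nat_lit 532) (nat_lit 8180820589) (nat_lit 608) (nat_lit 7516433497) (nat_lit 226) (nat_lit 5) (nat_lit 233) (nat_lit 5) (nat_lit 234) (nat_lit 5) (nat_lit 500) (nat_lit 440) (nat_lit 200))) (XT.nd (nat_lit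 78) (nat_lit 1140) (nat_lit 0) (XT.lf (nat_lit 0) (nat_lit 22950290576) (nat_lit 608) (nat_lit 1384224817) (nat_lit 76) (nat_lit 1879401810) (nat_lit 226) (nat_lit 5) (nat_lit 234) (nat_lit 5) (nat_lit 227) (nat_lit 5) (nat_lit 501) (nat_lit 440) (nat_lit 199)) (XT.nd (nat_lit 78) (nat_lit 532) (nat_lit 0) (XT.lf (nat_lit 0) (nat_lit 1198225780) (nat_lit 608) (nat_lit 13205542098) (nat_lit 76) (nat_lit 12124836100) (nat_lit 218) (nat_lit 5) (nat_lit 226) (nat_lit 5) (nat_lit 219) (nat_lit 5) (nat_lit 502) (nat_lit 440) (nat_lit 198)) (XT.lf (nat_lit 0) (nat_lit 1487045029) (nat_lit 532) (nat_lit 4234070878) (nat_lit 608) (nat_lit 21127727834) (nat_lit 211) (nat_lit 5) (nat_lit 218) (nat_lit 5) (nat_lit 219) (nat_lit 5) (nat_lit 503) (nat_lit 440) (nat_lit 197))))) (XT.nd (nat_lit 54444) (nat_lit 0) (nat_lit 19076) (XT.nd (nat_lit 78) (nat_lit 532) (nat_lit 0) (XT.lf (nat_lit 0) (nat_lit 10460012338) (nat_lit 608) (nat_lit 10566348066)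 (nat_lit 76) (nat_lit 6146617632) (nat_lit 211) (nat_lit 5) (nat_lit 219) (nat_lit 5) (nat_lit 212) (nat_lit 5) (nat_lit 504) (nat_lit 440) (nat_lit 196)) (XT.nd (nat_lit 78) (nat_lit 0) (nat_lit 0) (XT.lf (nat_lit 0) (nat_lit 4552089397) (nat_lit 532) (nat_lit 10795748479) (nat_lit 608) (nat_lit 12154674805) (nat_lit 204) (nat_lit 5) (nat_lit 211) (nat_lit 5) (nat_lit 212) (nat_lit 5) (nat_lit 505) (nat_lit 440) (nat_lit 195)) (XT.lf (nat_lit 0) (nat_lit 20111571929) (nat_lit 532) (nat_lit 289347516) (nat_lit 608) (nat_lit 7436369261) (nat_lit 204) (nat_lit 5) (nat_lit 211) (nat_lit 5) (nat_lit 212) (nat_lit 5) (nat_lit 506) (nat_lit 440) (nat_lit 194)))) (XT.nd (nat_lit 78) (nat_lit 0) (nat_lit 0) (XT.lf (nat_lit 0) (nat_lit 6003137169) (nat_lit 1748) (nat_lit 463544079) (nat_lit 1748) (nat_lit 463544079) (nat_lit 455) (nat_lit 3) (nat_lit 478) (nat_lit 3) (nat_lit 478) (nat_lit 5) (nat_lit 441) (nat_lit 441) (nat_lit 258))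 (XT.nd (nat_lit 78) (nat_lit 0) (nat_lit 0) (XT.lf (nat_lit 76) (nat_lit 5836741275) (nat_lit 0) (nat_lit 6671546254) (nat_lit 1748) (nat_lit 1483027498) (nat_lit 456) (nat_lit 5) (nat_lit 455) (nat_lit 3) (nat_lit 478) (nat_lit 5) (nat_lit 442) (nat_lit 441) (nat_lit 257)) (XT.lf (nat_lit 76) (nat_lit 12743749130) (nat_lit 0) (nat_lit 273758141) (nat_lit 1748) (nat_lit 1107348739) (nat_lit 456) (nat_lit 5) (nat_lit 455) (nat_lit 3) (nat_lit 478) (nat_lit 5) (nat_lit 443) (nat_lit 441) (nat_lit 256))))))) (XT.nd (nat_lit 858) (nat_lit 1292) (nat_lit 0) (XT.nd (nat_lit 390) (nat_lit 0) (nat_lit 76) (XT.nd (nat_lit 156) (nat_lit 1672) (nat_lit 0) (XT.nd (nat_lit 78) (nat_lit 0) (nat_lit 0) (XT.lf (nat_lit 76) (nat_lit 5555314527) (nat_lit 0) (nat_lit 8049408236) (nat_lit 1748) (nat_lit 654991423) (nat_lit 457) (nat_lit 5) (nat_lit 456) (nat_lit 5) (nat_lit 479) (nat_lit 5) (nat_lit 444) (nat_lit 441) (nat_lit 255)) (XT.lf (nat_lit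 76) (nat_lit 12642598316) (nat_lit 0) (nat_lit 1563446451) (nat_lit 1748) (nat_lit 191180063) (nat_lit 457) (nat_lit 5) (nat_lit 456) (nat_lit 5) (nat_lit 479) (nat_lit 5) (nat_lit 445) (nat_lit 441) (nat_lit 254))) (XT.nd (nat_lit 78) (nat_lit 0) (nat_lit 0) (XT.lf (nat_lit 0) (nat_lit 337736284) (nat_lit 1748) (nat_lit 9171655799) (nat_lit 1824) (nat_lit 5026868929) (nat_lit 434) (nat_lit 5) (nat_lit 457) (nat_lit 5) (nat_lit 458) (nat_lit 5) (nat_lit 446) (nat_lit 441) (nat_lit 253)) (XT.nd (nat_lit 78) (nat_lit 0) (nat_lit 76) (XT.lf (nat_lit 0) (nat_lit 888446638) (nat_lit 1748) (nat_lit 2044472495) (nat_lit 1824) (nat_lit 11744860402) (nat_lit 434) (nat_lit 5) (nat_lit 457) (nat_lit 5) (nat_lit 458) (nat_lit 5) (nat_lit 447) (nat_lit 441) (nat_lit 252)) (XT.lf (nat_lit 0) (nat_lit 1501008213) (nat_lit 1748) (nat_lit 9556579490) (nat_lit 1824) (nat_lit 3763526340) (nat_lit 435) (nat_lit 5) (nat_lit 458) (nat_lit 5) (nat_lit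 459) (nat_lit 5) (nat_lit 448) (nat_lit 441) (nat_lit 251))))) (XT.nd (nat_lit 234) (nat_lit 0) (nat_lit 152) (XT.nd (nat_lit 78) (nat_lit 0) (nat_lit 76) (XT.lf (nat_lit 0) (nat_lit 2150939312) (nat_lit 1748) (nat_lit 2244115936) (nat_lit 1824) (nat_lit 10571759936) (nat_lit 435) (nat_lit 5) (nat_lit 458) (nat_lit 5) (nat_lit 459) (nat_lit 5) (nat_lit 449) (nat_lit 441) (nat_lit 250)) (XT.nd (nat_lit 78) (nat_lit 0) (nat_lit 0) (XT.lf (nat_lit 0) (nat_lit 2856021090) (nat_lit 1748) (nat_lit 9851807229) (nat_lit 1824) (nat_lit 2406761252) (nat_lit 436) (nat_lit 5) (nat_lit 459) (nat_lit 5) (nat_lit 460) (nat_lit 5) (nat_lit 450) (nat_lit 441) (nat_lit 249)) (XT.lf (nat_lit 0) (nat_lit 3611657197) (nat_lit 1748) (nat_lit 2349030103) (nat_lit 1824) (nat_lit 9303905312) (nat_lit 436) (nat_lit 5) (nat_lit 459) (nat_lit 5) (nat_lit 460) (nat_lit 5) (nat_lit 451) (nat_lit 441) (nat_lit 248)))) (XT.nd (nat_lit 78) (nat_lit 0) (nat_lit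 0) (XT.lf (nat_lit 0) (nat_lit 4415838362) (nat_lit 1748) (nat_lit 10054008129) (nat_lit 1824) (nat_lit 947082752) (nat_lit 437) (nat_lit 5) (nat_lit 460) (nat_lit 5) (nat_lit 461) (nat_lit 5) (nat_lit 452) (nat_lit 441) (nat_lit 247)) (XT.nd (nat_lit 78) (nat_lit 0) (nat_lit 0) (XT.lf (nat_lit 0) (nat_lit 5283921500) (nat_lit 1748) (nat_lit 2355705949) (nat_lit 1824) (nat_lit 7931730923) (nat_lit 437) (nat_lit 5) (nat_lit 460) (nat_lit 5) (nat_lit 461) (nat_lit 5) (nat_lit 453) (nat_lit 441) (nat_lit 246)) (XT.lf (nat_lit 76) (nat_lit 5564559590) (nat_lit 0) (nat_lit 633559033) (nat_lit 1824) (nat_lit 9530184507) (nat_lit 438) (nat_lit 5) (nat_lit 437) (nat_lit 5) (nat_lit 461) (nat_lit 5) (nat_lit 454) (nat_lit 441) (nat_lit 245)))))) (XT.nd (nat_lit 468) (nat_lit 1596) (nat_lit 0) (XT.nd (nat_lit 234) (nat_lit 0) (nat_lit 76) (XT.nd (nat_lit 78) (nat_lit 0) (nat_lit 0) (XT.lf (nat_lit 0) (nat_lit 7181547752) (nat_lit 1748)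 (nat_lit 2260409433) (nat_lit 1824) (nat_lit 6445412687) (nat_lit 438) (nat_lit 5) (nat_lit 461) (nat_lit 5) (nat_lit 462) (nat_lit 5) (nat_lit 455) (nat_lit 441) (nat_lit 244)) (XT.nd (nat_lit 78) (nat_lit 0) (nat_lit 76) (XT.lf (nat_lit 76) (nat_lit 5868753143) (nat_lit 0) (nat_lit 2351085081) (nat_lit 1824) (nat_lit 7829077880) (nat_lit 439) (nat_lit 5) (nat_lit 438) (nat_lit 5) (nat_lit 462) (nat_lit 5) (nat_lit 456) (nat_lit 441) (nat_lit 243)) (XT.lf (nat_lit 0) (nat_lit 9318871418) (nat_lit 1748) (nat_lit 2059179866) (nat_lit 1824) (nat_lit 4834844409) (nat_lit 439) (nat_lit 5) (nat_lit 462) (nat_lit 5) (nat_lit 463) (nat_lit 5) (nat_lit 457) (nat_lit 441) (nat_lit 242)))) (XT.nd (nat_lit 78) (nat_lit 0) (nat_lit 76) (XT.lf (nat_lit 76) (nat_lit 6286061974) (nat_lit 0) (nat_lit 4203356985) (nat_lit 1824) (nat_lit 5889747174) (nat_lit 440) (nat_lit 5) (nat_lit 439) (nat_lit 5) (nat_lit 463) (nat_lit 5) (nat_lit 458) (nat_lit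 441) (nat_lit 241)) (XT.nd (nat_lit 78) (nat_lit 0) (nat_lit 0) (XT.lf (nat_lit 0) (nat_lit 11710774181) (nat_lit 1748) (nat_lit 1747828033) (nat_lit 1824) (nat_lit 3089613727) (nat_lit 440) (nat_lit 5) (nat_lit 463) (nat_lit 5) (nat_lit 464) (nat_lit 5) (nat_lit 459) (nat_lit 441) (nat_lit 240)) (XT.lf (nat_lit 76) (nat_lit 6820926720) (nat_lit 0) (nat_lit 6201148144) (nat_lit 1824) (nat_lit 3697263372) (nat_lit 441) (nat_lit 5) (nat_lit 440) (nat_lit 5) (nat_lit 464) (nat_lit 5) (nat_lit 460) (nat_lit 441) (nat_lit 239))))) (XT.nd (nat_lit 234) (nat_lit 0) (nat_lit 76) (XT.nd (nat_lit 78) (nat_lit 1824) (nat_lit 0) (XT.lf (nat_lit 0) (nat_lit 14372710934) (nat_lit 1748) (nat_lit 1321934109) (nat_lit 1824) (nat_lit 1198977567) (nat_lit 441) (nat_lit 5) (nat_lit 464) (nat_lit 5) (nat_lit 465) (nat_lit 5) (nat_lit 461) (nat_lit 441) (nat_lit 238)) (XT.nd (nat_lit 78) (nat_lit 1824) (nat_lit 0) (XT.lf (nat_lit 76) (nat_lit 7478026170)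 (nat_lit 0) (nat_lit 8355582682) (nat_lit 1824) (nat_lit 1236120622) (nat_lit 442) (nat_lit 5) (nat_lit 441) (nat_lit 5) (nat_lit 465) (nat_lit 5) (nat_lit 462) (nat_lit 441) (nat_lit 237)) (XT.lf (nat_lit 0) (nat_lit 75999164) (nat_lit 1824) (nat_lit 782925413) (nat_lit 1900) (nat_lit 16390373793) (nat_lit 417) (nat_lit 5) (nat_lit 441) (nat_lit 5) (nat_lit 442) (nat_lit 5) (nat_lit 463) (nat_lit 441) (nat_lit 236)))) (XT.nd (nat_lit 78) (nat_lit 0) (nat_lit 0) (XT.lf (nat_lit 0) (nat_lit 1489990395) (nat_lit 1824) (nat_lit 9178172166) (nat_lit 1900) (nat_lit 6762290736) (nat_lit 418) (nat_lit 5) (nat_lit 442) (nat_lit 5) (nat_lit 443) (nat_lit 5) (nat_lit 464) (nat_lit 441) (nat_lit 235)) (XT.nd (nat_lit 78) (nat_lit 0) (nat_lit 76) (XT.lf (nat_lit 0) (nat_lit 2937137475) (nat_lit 1824) (nat_lit 147150389) (nat_lit 1900) (nat_lit 14530847587) (nat_lit 418) (nat_lit 5) (nat_lit 442) (nat_lit 5) (nat_lit 443) (nat_lit 5) (nat_lit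 465) (nat_lit 441) (nat_lit 234)) (XT.lf (nat_lit 0) (nat_lit 4497448294) (nat_lit 1824) (nat_lit 8653158531) (nat_lit 76) (nat_lit 4651221625) (nat_lit 419) (nat_lit 5) (nat_lit 443) (nat_lit 5) (nat_lit 420) (nat_lit 5) (nat_lit 466) (nat_lit 441) (nat_lit 233))))))))
noncomputable def xc222 : XT := (XT.nd (nat_lit 1716) (nat_lit 5624) (nat_lit 0) (XT.nd (nat_lit 858) (nat_lit 4484) (nat_lit 0) (XT.nd (nat_lit 390) (nat_lit 2660) (nat_lit 0) (XT.nd (nat_lit 156) (nat_lit 1748) (nat_lit 0) (XT.nd (nat_lit 78) (nat_lit 0) (nat_lit 0) (XT.lf (nat_lit 0) (nat_lit 622803491) (nat_lit 1292) (nat_lit 5485734995) (nat_lit 1368) (nat_lit 11883326943) (nat_lit 402) (nat_lit 5) (nat_lit 419) (nat_lit 5) (nat_lit 420) (nat_lit 5) (nat_lit 467) (nat_lit 441) (nat_lit 232)) (XT.lf (nat_lit 0) (nat_lit 7819643192) (nat_lit 1368) (nat_lit 8003676600) (nat_lit 76) (nat_lit 2361029057) (nat_lit 402) (nat_lit 5) (nat_lit 420) (nat_lit 5) (nat_lit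 403) (nat_lit 5) (nat_lit 468) (nat_lit 441) (nat_lit 231))) (XT.nd (nat_lit 78) (nat_lit 836) (nat_lit 0) (XT.lf (nat_lit 0) (nat_lit 1527636886) (nat_lit 912) (nat_lit 8077891885) (nat_lit 988) (nat_lit 8774343513) (nat_lit 390) (nat_lit 5) (nat_lit 402) (nat_lit 5) (nat_lit 403) (nat_lit 5) (nat_lit 469) (nat_lit 441) (nat_lit 230)) (XT.nd (nat_lit 78) (nat_lit 836) (nat_lit 0) (XT.lf (nat_lit 0) (nat_lit 11353016621) (nat_lit 912) (nat_lit 122214051) (nat_lit 988) (nat_lit 7103115038) (nat_lit 390) (nat_lit 5) (nat_lit 402) (nat_lit 5) (nat_lit 403) (nat_lit 5) (nat_lit 470) (nat_lit 441) (nat_lit 229)) (XT.lf (nat_lit 0) (nat_lit 2570871746) (nat_lit 836) (nat_lit 10874543069) (nat_lit 912) (nat_lit 5334113490) (nat_lit 379) (nat_lit 5) (nat_lit 390) (nat_lit 5) (nat_lit 391) (nat_lit 5) (nat_lit 471) (nat_lit 441) (nat_lit 228))))) (XT.nd (nat_lit 234) (nat_lit 1672) (nat_lit 0) (XT.nd (nat_lit 78) (nat_lit 988) (nat_lit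 0) (XT.lf (nat_lit 0) (nat_lit 12655083130) (nat_lit 836) (nat_lit 2843787690) (nat_lit 912) (nat_lit 3484987805) (nat_lit 379) (nat_lit 5) (nat_lit 390) (nat_lit 5) (nat_lit 391) (nat_lit 5) (nat_lit 472) (nat_lit 441) (nat_lit 227)) (XT.nd (nat_lit 78) (nat_lit 76) (nat_lit 0) (XT.lf (nat_lit 0) (nat_lit 3758226908) (nat_lit 912) (nat_lit 13888977139) (nat_lit 988) (nat_lit 1543996748) (nat_lit 367) (nat_lit 5) (nat_lit 379) (nat_lit 5) (nat_lit 380) (nat_lit 5) (nat_lit 473) (nat_lit 441) (nat_lit 226)) (XT.lf (nat_lit 0) (nat_lit 486404750) (nat_lit 988) (nat_lit 5296111059) (nat_lit 76) (nat_lit 13618992633) (nat_lit 366) (nat_lit 5) (nat_lit 379) (nat_lit 5) (nat_lit 367) (nat_lit 5) (nat_lit 474) (nat_lit 441) (nat_lit 225)))) (XT.nd (nat_lit 78) (nat_lit 836) (nat_lit 0) (XT.lf (nat_lit 0) (nat_lit 2581095720) (nat_lit 912) (nat_lit 14536587774) (nat_lit 76) (nat_lit 2497248848) (nat_lit 355) (nat_lit 5) (nat_lit 367)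 (nat_lit 5) (nat_lit 356) (nat_lit 5) (nat_lit 475) (nat_lit 441) (nat_lit 224)) (XT.nd (nat_lit 78) (nat_lit 836) (nat_lit 0) (XT.lf (nat_lit 0) (nat_lit 4786646837) (nat_lit 912) (nat_lit 4143420837) (nat_lit 76) (nat_lit 10901179019) (nat_lit 355) (nat_lit 5) (nat_lit 367) (nat_lit 5) (nat_lit 356) (nat_lit 5) (nat_lit 476) (nat_lit 441) (nat_lit 223)) (XT.lf (nat_lit 0) (nat_lit 6538404702) (nat_lit 836) (nat_lit 535352470) (nat_lit 912) (nat_lit 12977382470) (nat_lit 344) (nat_lit 5) (nat_lit 355) (nat_lit 5) (nat_lit 356) (nat_lit 5) (nat_lit 477) (nat_lit 441) (nat_lit 222)))))) (XT.nd (nat_lit 390) (nat_lit 2204) (nat_lit 0) (XT.nd (nat_lit 156) (nat_lit 1520) (nat_lit 0) (XT.nd (nat_lit 78) (nat_lit 760) (nat_lit 0) (XT.lf (nat_lit 0) (nat_lit 9481779415) (nat_lit 912) (nat_lit 2842169418) (nat_lit 76) (nat_lit 7949979473) (nat_lit 344) (nat_lit 5) (nat_lit 356) (nat_lit 5) (nat_lit 345) (nat_lit 5) (nat_lit 478) (nat_lit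 441) (nat_lit 221)) (XT.lf (nat_lit 0) (nat_lit 8140094805) (nat_lit 760) (nat_lit 3849423135) (nat_lit 836) (nat_lit 8510624912) (nat_lit 334) (nat_lit 5) (nat_lit 344) (nat_lit 5) (nat_lit 345) (nat_lit 5) (nat_lit 479) (nat_lit 441) (nat_lit 220))) (XT.nd (nat_lit 78) (nat_lit 1520) (nat_lit 0) (XT.lf (nat_lit 0) (nat_lit 14592961619) (nat_lit 836) (nat_lit 1386215178) (nat_lit 76) (nat_lit 4750795085) (nat_lit 334) (nat_lit 5) (nat_lit 345) (nat_lit 5) (nat_lit 335) (nat_lit 5) (nat_lit 480) (nat_lit 441) (nat_lit 219)) (XT.nd (nat_lit 78) (nat_lit 760) (nat_lit 0) (XT.lf (nat_lit 0) (nat_lit 9906637020) (nat_lit 760) (nat_lit 7426966110) (nat_lit 836) (nat_lit 3629092962) (nat_lit 324) (nat_lit 5) (nat_lit 334) (nat_lit 5) (nat_lit 335) (nat_lit 5) (nat_lit 481) (nat_lit 441) (nat_lit 218)) (XT.lf (nat_lit 0) (nat_lit 233885808) (nat_lit 760) (nat_lit 19909844812) (nat_lit 836) (nat_lit 1056051858) (nat_lit 314) (nat_lit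 5) (nat_lit 324) (nat_lit 5) (nat_lit 325) (nat_lit 5) (nat_lit 482) (nat_lit 441) (nat_lit 217))))) (XT.nd (nat_lit 234) (nat_lit 1368) (nat_lit 0) (XT.nd (nat_lit 78) (nat_lit 760) (nat_lit 0) (XT.lf (nat_lit 0) (nat_lit 1667149881) (nat_lit 836) (nat_lit 9605470687) (nat_lit 76) (nat_lit 10166402059) (nat_lit 313) (nat_lit 5) (nat_lit 324) (nat_lit 5) (nat_lit 314) (nat_lit 5) (nat_lit 483) (nat_lit 441) (nat_lit 216)) (XT.nd (nat_lit 78) (nat_lit 0) (nat_lit 0) (XT.lf (nat_lit 0) (nat_lit 1996470489) (nat_lit 760) (nat_lit 2442672221) (nat_lit 836) (nat_lit 17243596994) (nat_lit 303) (nat_lit 5) (nat_lit 313) (nat_lit 5) (nat_lit 314) (nat_lit 5) (nat_lit 484) (nat_lit 441) (nat_lit 215)) (XT.lf (nat_lit 0) (nat_lit 7369623319) (nat_lit 836) (nat_lit 8017369736) (nat_lit 76) (nat_lit 6542278177) (nat_lit 303) (nat_lit 5) (nat_lit 314) (nat_lit 5) (nat_lit 304) (nat_lit 5) (nat_lit 485) (nat_lit 441) (nat_lit 214)))) (XT.nd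 (nat_lit 78) (nat_lit 684) (nat_lit 0) (XT.lf (nat_lit 0) (nat_lit 3915237953) (nat_lit 684) (nat_lit 6480706128) (nat_lit 760) (nat_lit 11784045744) (nat_lit 294) (nat_lit 5) (nat_lit 303) (nat_lit 5) (nat_lit 304) (nat_lit 5) (nat_lit 486) (nat_lit 441) (nat_lit 213)) (XT.nd (nat_lit 78) (nat_lit 684) (nat_lit 0) (XT.lf (nat_lit 0) (nat_lit 13549538048) (nat_lit 760) (nat_lit 6261627075) (nat_lit 76) (nat_lit 2623223757) (nat_lit 294) (nat_lit 5) (nat_lit 304) (nat_lit 5) (nat_lit 295) (nat_lit 5) (nat_lit 487) (nat_lit 441) (nat_lit 212)) (XT.lf (nat_lit 0) (nat_lit 6012700889) (nat_lit 684) (nat_lit 10831229374) (nat_lit 760) (nat_lit 5848392130) (nat_lit 285) (nat_lit 5) (nat_lit 294) (nat_lit 5) (nat_lit 295) (nat_lit 5) (nat_lit 488) (nat_lit 441) (nat_lit 211))))))) (XT.nd (nat_lit 858) (nat_lit 1672) (nat_lit 0) (XT.nd (nat_lit 390) (nat_lit 2508) (nat_lit 0) (XT.nd (nat_lit 156) (nat_lit 684) (nat_lit 0) (XT.nd (nat_lit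 78) (nat_lit 760) (nat_lit 0) (XT.lf (nat_lit 0) (nat_lit 18612626586) (nat_lit 684) (nat_lit 1629423900) (nat_lit 760) (nat_lit 2712608272) (nat_lit 285) (nat_lit 5) (nat_lit 294) (nat_lit 5) (nat_lit 295) (nat_lit 5) (nat_lit 489) (nat_lit 441) (nat_lit 210)) (XT.lf (nat_lit 0) (nat_lit 580303303) (nat_lit 760) (nat_lit 14928058005) (nat_lit 76) (nat_lit 7711802706) (nat_lit 275) (nat_lit 5) (nat_lit 285) (nat_lit 5) (nat_lit 276) (nat_lit 5) (nat_lit 490) (nat_lit 441) (nat_lit 209))) (XT.nd (nat_lit 78) (nat_lit 684) (nat_lit 0) (XT.lf (nat_lit 0) (nat_lit 3938827935) (nat_lit 760) (nat_lit 2286336807) (nat_lit 76) (nat_lit 17264735420) (nat_lit 275) (nat_lit 5) (nat_lit 285) (nat_lit 5) (nat_lit 276) (nat_lit 5) (nat_lit 491) (nat_lit 441) (nat_lit 208)) (XT.nd (nat_lit 78) (nat_lit 0) (nat_lit 0) (XT.lf (nat_lit 0) (nat_lit 7451802432) (nat_lit 760) (nat_lit 13040782981) (nat_lit 76) (nat_lit 3270700943) (nat_lit 266)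 (nat_lit 5) (nat_lit 276) (nat_lit 5) (nat_lit 267) (nat_lit 5) (nat_lit 492) (nat_lit 441) (nat_lit 207)) (XT.lf (nat_lit 0) (nat_lit 11087751944) (nat_lit 760) (nat_lit 65376291) (nat_lit 76) (nat_lit 12887958621) (nat_lit 266) (nat_lit 5) (nat_lit 276) (nat_lit 5) (nat_lit 267) (nat_lit 5) (nat_lit 493) (nat_lit 441) (nat_lit 206))))) (XT.nd (nat_lit 234) (nat_lit 1292) (nat_lit 0) (XT.nd (nat_lit 78) (nat_lit 608) (nat_lit 0) (XT.lf (nat_lit 0) (nat_lit 13339858605) (nat_lit 608) (nat_lit 1539295739) (nat_lit 684) (nat_lit 9443635220) (nat_lit 258) (nat_lit 5) (nat_lit 266) (nat_lit 5) (nat_lit 267) (nat_lit 5) (nat_lit 494) (nat_lit 441) (nat_lit 205)) (XT.nd (nat_lit 78) (nat_lit 0) (nat_lit 0) (XT.lf (nat_lit 0) (nat_lit 2376785726) (nat_lit 608) (nat_lit 16435309787) (nat_lit 684) (nat_lit 5796717456) (nat_lit 250) (nat_lit 5) (nat_lit 258) (nat_lit 5) (nat_lit 259) (nat_lit 5) (nat_lit 495) (nat_lit 441) (nat_lit 204))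 (XT.lf (nat_lit 0) (nat_lit 16137598002) (nat_lit 608) (nat_lit 6766134553) (nat_lit 684) (nat_lit 1995224387) (nat_lit 250) (nat_lit 5) (nat_lit 258) (nat_lit 5) (nat_lit 259) (nat_lit 5) (nat_lit 496) (nat_lit 441) (nat_lit 203)))) (XT.nd (nat_lit 78) (nat_lit 608) (nat_lit 0) (XT.lf (nat_lit 0) (nat_lit 1906909236) (nat_lit 684) (nat_lit 20186640339) (nat_lit 76) (nat_lit 3100124658) (nat_lit 241) (nat_lit 5) (nat_lit 250) (nat_lit 5) (nat_lit 242) (nat_lit 5) (nat_lit 497) (nat_lit 441) (nat_lit 202)) (XT.nd (nat_lit 78) (nat_lit 608) (nat_lit 0) (XT.lf (nat_lit 0) (nat_lit 5960681727) (nat_lit 684) (nat_lit 6386608497) (nat_lit 76) (nat_lit 13144726425) (nat_lit 241) (nat_lit 5) (nat_lit 250) (nat_lit 5) (nat_lit 242) (nat_lit 5) (nat_lit 498) (nat_lit 441) (nat_lit 201)) (XT.lf (nat_lit 0) (nat_lit 7786998930) (nat_lit 608) (nat_lit 2355457481) (nat_lit 684) (nat_lit 15652931745) (nat_lit 233) (nat_lit 5) (nat_lit 241)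 (nat_lit 5) (nat_lit 242) (nat_lit 5) (nat_lit 499) (nat_lit 441) (nat_lit 200)))))) (XT.nd (nat_lit 54834) (nat_lit 0) (nat_lit 16872) (XT.nd (nat_lit 234) (nat_lit 1140) (nat_lit 0) (XT.nd (nat_lit 78) (nat_lit 532) (nat_lit 0) (XT.lf (nat_lit 0) (nat_lit 14498289967) (nat_lit 684) (nat_lit 3829070476) (nat_lit 76) (nat_lit 7775658944) (nat_lit 233) (nat_lit 5) (nat_lit 242) (nat_lit 5) (nat_lit 234) (nat_lit 5) (nat_lit 500) (nat_lit 441) (nat_lit 199)) (XT.nd (nat_lit 78) (nat_lit 0) (nat_lit 0) (XT.lf (nat_lit 0) (nat_lit 10754787062) (nat_lit 532) (nat_lit 8268354070) (nat_lit 608) (nat_lit 7392024838) (nat_lit 226) (nat_lit 5) (nat_lit 233) (nat_lit 5) (nat_lit 234) (nat_lit 5) (nat_lit 501) (nat_lit 441) (nat_lit 198)) (XT.lf (nat_lit 0) (nat_lit 23673795242) (nat_lit 608) (nat_lit 1068452178) (nat_lit 76) (nat_lit 1990602679) (nat_lit 226) (nat_lit 5) (nat_lit 234) (nat_lit 5) (nat_lit 227) (nat_lit 5) (nat_lit 502)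 (nat_lit 441) (nat_lit 197)))) (XT.nd (nat_lit 78) (nat_lit 532) (nat_lit 0) (XT.lf (nat_lit 0) (nat_lit 1485503821) (nat_lit 608) (nat_lit 13124902776) (nat_lit 76) (nat_lit 12443449873) (nat_lit 218) (nat_lit 5) (nat_lit 226) (nat_lit 5) (nat_lit 219) (nat_lit 5) (nat_lit 503) (nat_lit 441) (nat_lit 196)) (XT.nd (nat_lit 78) (nat_lit 0) (nat_lit 0) (XT.lf (nat_lit 0) (nat_lit 1859268001) (nat_lit 532) (nat_lit 4236644361) (nat_lit 608) (nat_lit 21284648500) (nat_lit 211) (nat_lit 5) (nat_lit 218) (nat_lit 5) (nat_lit 219) (nat_lit 5) (nat_lit 504) (nat_lit 441) (nat_lit 195)) (XT.lf (nat_lit 0) (nat_lit 10925003992) (nat_lit 608) (nat_lit 10437274315) (nat_lit 76) (nat_lit 6348992215) (nat_lit 211) (nat_lit 5) (nat_lit 219) (nat_lit 5) (nat_lit 212) (nat_lit 5) (nat_lit 505) (nat_lit 441) (nat_lit 194))))) (XT.nd (nat_lit 234) (nat_lit 1672) (nat_lit 0) (XT.nd (nat_lit 78) (nat_lit 0) (nat_lit 0) (XT.lf (nat_lit 0) (nat_lit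 6465020534) (nat_lit 1748) (nat_lit 298436208) (nat_lit 1748) (nat_lit 298436208) (nat_lit 455) (nat_lit 3) (nat_lit 478) (nat_lit 3) (nat_lit 478) (nat_lit 5) (nat_lit 442) (nat_lit 442) (nat_lit 256)) (XT.nd (nat_lit 78) (nat_lit 0) (nat_lit 0) (XT.lf (nat_lit 76) (nat_lit 6299939149) (nat_lit 0) (nat_lit 7131000110) (nat_lit 1748) (nat_lit 826555344) (nat_lit 456) (nat_lit 5) (nat_lit 455) (nat_lit 3) (nat_lit 478) (nat_lit 5) (nat_lit 443) (nat_lit 442) (nat_lit 255)) (XT.lf (nat_lit 76) (nat_lit 13338293768) (nat_lit 0) (nat_lit 598863628) (nat_lit 1748) (nat_lit 456816592) (nat_lit 456) (nat_lit 5) (nat_lit 455) (nat_lit 3) (nat_lit 478) (nat_lit 5) (nat_lit 444) (nat_lit 442) (nat_lit 254)))) (XT.nd (nat_lit 78) (nat_lit 1748) (nat_lit 0) (XT.lf (nat_lit 76) (nat_lit 6019208524) (nat_lit 0) (nat_lit 8504237194) (nat_lit 1748) (nat_lit 8340826) (nat_lit 457) (nat_lit 5) (nat_lit 456) (nat_lit 5) (nat_lit 479) (nat_lit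 5) (nat_lit 445) (nat_lit 442) (nat_lit 253)) (XT.nd (nat_lit 78) (nat_lit 0) (nat_lit 76) (XT.lf (nat_lit 0) (nat_lit 445884901) (nat_lit 1748) (nat_lit 1433917566) (nat_lit 1824) (nat_lit 12792443559) (nat_lit 433) (nat_lit 5) (nat_lit 456) (nat_lit 5) (nat_lit 457) (nat_lit 5) (nat_lit 446) (nat_lit 442) (nat_lit 252)) (XT.lf (nat_lit 0) (nat_lit 970801191) (nat_lit 1748) (nat_lit 8988354219) (nat_lit 1824) (nat_lit 4855126186) (nat_lit 434) (nat_lit 5) (nat_lit 457) (nat_lit 5) (nat_lit 458) (nat_lit 5) (nat_lit 447) (nat_lit 442) (nat_lit 251))))))))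
noncomputable def xc223 : XT := (XT.nd (nat_lit 1716) (nat_lit 9652) (nat_lit 0) (XT.nd (nat_lit 858) (nat_lit 2432) (nat_lit 0) (XT.nd (nat_lit 390) (nat_lit 0) (nat_lit 228) (XT.nd (nat_lit 156) (nat_lit 0) (nat_lit 76) (XT.nd (nat_lit 78) (nat_lit 0) (nat_lit 76) (XT.lf (nat_lit 0) (nat_lit 1520245160) (nat_lit 1748) (nat_lit 1725818125) (nat_lit 1824) (nat_lit 11712816314) (nat_lit 434) (nat_lit 5) (nat_lit 457) (nat_lit 5) (nat_lit 458) (nat_lit 5) (nat_lit 448) (nat_lit 442) (nat_lit 250)) (XT.lf (nat_lit 0) (nat_lit 2133732675) (nat_lit 1748) (nat_lit 9376670464) (nat_lit 1824) (nat_lit 3594907594) (nat_lit 435) (nat_lit 5) (nat_lit 458) (nat_lit 5) (nat_lit 459) (nat_lit 5) (nat_lit 449) (nat_lit 442) (nat_lit 249))) (XT.nd (nat_lit 78) (nat_lit 0) (nat_lit 76) (XT.lf (nat_lit 0) (nat_lit 2784844665) (nat_lit 1748) (nat_lit 1925232945) (nat_lit 1824) (nat_lit 10544088005) (nat_lit 435) (nat_lit 5) (nat_lit 458) (nat_lit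 5) (nat_lit 459) (nat_lit 5) (nat_lit 450) (nat_lit 442) (nat_lit 248)) (XT.nd (nat_lit 78) (nat_lit 0) (nat_lit 0) (XT.lf (nat_lit 0) (nat_lit 3493358166) (nat_lit 1748) (nat_lit 9674243306) (nat_lit 1824) (nat_lit 2237510713) (nat_lit 436) (nat_lit 5) (nat_lit 459) (nat_lit 5) (nat_lit 460) (nat_lit 5) (nat_lit 451) (nat_lit 442) (nat_lit 247)) (XT.lf (nat_lit 0) (nat_lit 4252730197) (nat_lit 1748) (nat_lit 2028755737) (nat_lit 1824) (nat_lit 9276860120) (nat_lit 436) (nat_lit 5) (nat_lit 459) (nat_lit 5) (nat_lit 460) (nat_lit 5) (nat_lit 452) (nat_lit 442) (nat_lit 246))))) (XT.nd (nat_lit 234) (nat_lit 0) (nat_lit 76) (XT.nd (nat_lit 78) (nat_lit 0) (nat_lit 0) (XT.lf (nat_lit 0) (nat_lit 5062942566) (nat_lit 1748) (nat_lit 9877622460) (nat_lit 1824) (nat_lit 773368609) (nat_lit 437) (nat_lit 5) (nat_lit 460) (nat_lit 5) (nat_lit 461) (nat_lit 5) (nat_lit 453) (nat_lit 442) (nat_lit 245)) (XT.nd (nat_lit 78) (nat_lit 0)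 (nat_lit 0) (XT.lf (nat_lit 0) (nat_lit 5937430751) (nat_lit 1748) (nat_lit 2032755527) (nat_lit 1824) (nat_lit 7901487308) (nat_lit 437) (nat_lit 5) (nat_lit 460) (nat_lit 5) (nat_lit 461) (nat_lit 5) (nat_lit 454) (nat_lit 442) (nat_lit 244)) (XT.lf (nat_lit 76) (nat_lit 6043480687) (nat_lit 0) (nat_lit 818076245) (nat_lit 1824) (nat_lit 9170370451) (nat_lit 438) (nat_lit 5) (nat_lit 437) (nat_lit 5) (nat_lit 461) (nat_lit 5) (nat_lit 455) (nat_lit 442) (nat_lit 243)))) (XT.nd (nat_lit 78) (nat_lit 0) (nat_lit 0) (XT.lf (nat_lit 0) (nat_lit 7852982823) (nat_lit 1748) (nat_lit 1933375019) (nat_lit 1824) (nat_lit 6408054039) (nat_lit 438) (nat_lit 5) (nat_lit 461) (nat_lit 5) (nat_lit 462) (nat_lit 5) (nat_lit 456) (nat_lit 442) (nat_lit 242)) (XT.nd (nat_lit 78) (nat_lit 0) (nat_lit 76) (XT.lf (nat_lit 76) (nat_lit 6355921843) (nat_lit 0) (nat_lit 2548169107) (nat_lit 1824) (nat_lit 7455259979) (nat_lit 439) (nat_lit 5) (nat_lit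 438) (nat_lit 5) (nat_lit 462) (nat_lit 5) (nat_lit 457) (nat_lit 442) (nat_lit 241)) (XT.lf (nat_lit 0) (nat_lit 10013956353) (nat_lit 1748) (nat_lit 1726528720) (nat_lit 1824) (nat_lit 4786350876) (nat_lit 439) (nat_lit 5) (nat_lit 462) (nat_lit 5) (nat_lit 463) (nat_lit 5) (nat_lit 458) (nat_lit 442) (nat_lit 240)))))) (XT.nd (nat_lit 390) (nat_lit 2812) (nat_lit 0) (XT.nd (nat_lit 156) (nat_lit 0) (nat_lit 76) (XT.nd (nat_lit 78) (nat_lit 0) (nat_lit 76) (XT.lf (nat_lit 76) (nat_lit 6783158518) (nat_lit 0) (nat_lit 4417192886) (nat_lit 1824) (nat_lit 5496234477) (nat_lit 440) (nat_lit 5) (nat_lit 439) (nat_lit 5) (nat_lit 463) (nat_lit 5) (nat_lit 459) (nat_lit 442) (nat_lit 239)) (XT.lf (nat_lit 0) (nat_lit 12435481352) (nat_lit 1748) (nat_lit 1407900845) (nat_lit 1824) (nat_lit 3025850295) (nat_lit 440) (nat_lit 5) (nat_lit 463) (nat_lit 5) (nat_lit 464) (nat_lit 5) (nat_lit 460) (nat_lit 442) (nat_lit 238))) (XT.nd (nat_lit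 78) (nat_lit 0) (nat_lit 76) (XT.lf (nat_lit 76) (nat_lit 7329762662) (nat_lit 0) (nat_lit 6436045882) (nat_lit 1824) (nat_lit 3278115383) (nat_lit 441) (nat_lit 5) (nat_lit 440) (nat_lit 5) (nat_lit 464) (nat_lit 5) (nat_lit 461) (nat_lit 442) (nat_lit 237)) (XT.nd (nat_lit 78) (nat_lit 0) (nat_lit 0) (XT.lf (nat_lit 0) (nat_lit 15133275261) (nat_lit 1748) (nat_lit 972943032) (nat_lit 1824) (nat_lit 1115681989) (nat_lit 441) (nat_lit 5) (nat_lit 464) (nat_lit 5) (nat_lit 465) (nat_lit 5) (nat_lit 462) (nat_lit 442) (nat_lit 236)) (XT.lf (nat_lit 76) (nat_lit 8000546521) (nat_lit 0) (nat_lit 8615989451) (nat_lit 1824) (nat_lit 785133014) (nat_lit 442) (nat_lit 5) (nat_lit 441) (nat_lit 5) (nat_lit 465) (nat_lit 5) (nat_lit 463) (nat_lit 442) (nat_lit 235))))) (XT.nd (nat_lit 234) (nat_lit 1140) (nat_lit 0) (XT.nd (nat_lit 78) (nat_lit 0) (nat_lit 76) (XT.lf (nat_lit 0) (nat_lit 537784832) (nat_lit 1824) (nat_lit 426695411) (nat_lit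 1900) (nat_lit 16620473849) (nat_lit 417) (nat_lit 5) (nat_lit 441) (nat_lit 5) (nat_lit 442) (nat_lit 5) (nat_lit 464) (nat_lit 442) (nat_lit 234)) (XT.nd (nat_lit 78) (nat_lit 0) (nat_lit 0) (XT.lf (nat_lit 0) (nat_lit 1972883064) (nat_lit 1824) (nat_lit 8982551795) (nat_lit 1900) (nat_lit 6814443164) (nat_lit 418) (nat_lit 5) (nat_lit 442) (nat_lit 5) (nat_lit 443) (nat_lit 5) (nat_lit 465) (nat_lit 442) (nat_lit 233)) (XT.lf (nat_lit 76) (nat_lit 224601124) (nat_lit 0) (nat_lit 3216946047) (nat_lit 1900) (nat_lit 14516857570) (nat_lit 419) (nat_lit 5) (nat_lit 418) (nat_lit 5) (nat_lit 443) (nat_lit 5) (nat_lit 466) (nat_lit 442) (nat_lit 232)))) (XT.nd (nat_lit 78) (nat_lit 1292) (nat_lit 0) (XT.lf (nat_lit 0) (nat_lit 5024848380) (nat_lit 1824) (nat_lit 8447597571) (nat_lit 76) (nat_lit 4676552319) (nat_lit 419) (nat_lit 5) (nat_lit 443) (nat_lit 5) (nat_lit 420) (nat_lit 5) (nat_lit 467) (nat_lit 442) (nat_lit 231)) (XT.nd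 (nat_lit 78) (nat_lit 0) (nat_lit 0) (XT.lf (nat_lit 0) (nat_lit 1011392743) (nat_lit 1292) (nat_lit 5650632267) (nat_lit 1368) (nat_lit 11680935995) (nat_lit 402) (nat_lit 5) (nat_lit 419) (nat_lit 5) (nat_lit 420) (nat_lit 5) (nat_lit 468) (nat_lit 442) (nat_lit 230)) (XT.lf (nat_lit 0) (nat_lit 8398543381) (nat_lit 1368) (nat_lit 7786070527) (nat_lit 76) (nat_lit 2354858616) (nat_lit 402) (nat_lit 5) (nat_lit 420) (nat_lit 5) (nat_lit 403) (nat_lit 5) (nat_lit 469) (nat_lit 442) (nat_lit 229))))))) (XT.nd (nat_lit 858) (nat_lit 4484) (nat_lit 0) (XT.nd (nat_lit 390) (nat_lit 2508) (nat_lit 0) (XT.nd (nat_lit 156) (nat_lit 1748) (nat_lit 0) (XT.nd (nat_lit 78) (nat_lit 0) (nat_lit 0) (XT.lf (nat_lit 0) (nat_lit 1933384494) (nat_lit 912) (nat_lit 8280913734) (nat_lit 988) (nat_lit 8524727388) (nat_lit 390) (nat_lit 5) (nat_lit 402) (nat_lit 5) (nat_lit 403) (nat_lit 5) (nat_lit 470) (nat_lit 442) (nat_lit 228)) (XT.lf (nat_lit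 0) (nat_lit 11947915062) (nat_lit 912) (nat_lit 165309324) (nat_lit 988) (nat_lit 6828409696) (nat_lit 390) (nat_lit 5) (nat_lit 402) (nat_lit 5) (nat_lit 403) (nat_lit 5) (nat_lit 471) (nat_lit 442) (nat_lit 227))) (XT.nd (nat_lit 78) (nat_lit 912) (nat_lit 0) (XT.lf (nat_lit 0) (nat_lit 2996193577) (nat_lit 836) (nat_lit 11120777922) (nat_lit 912) (nat_lit 5029987777) (nat_lit 379) (nat_lit 5) (nat_lit 390) (nat_lit 5) (nat_lit 391) (nat_lit 5) (nat_lit 472) (nat_lit 442) (nat_lit 226)) (XT.nd (nat_lit 78) (nat_lit 912) (nat_lit 0) (XT.lf (nat_lit 0) (nat_lit 13274757729) (nat_lit 836) (nat_lit 2928843828) (nat_lit 912) (nat_lit 3151934636) (nat_lit 379) (nat_lit 5) (nat_lit 390) (nat_lit 5) (nat_lit 391) (nat_lit 5) (nat_lit 473) (nat_lit 442) (nat_lit 225)) (XT.lf (nat_lit 0) (nat_lit 4205681457) (nat_lit 912) (nat_lit 14183717507) (nat_lit 988) (nat_lit 1177738343) (nat_lit 367) (nat_lit 5) (nat_lit 379) (nat_lit 5) (nat_lit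 380) (nat_lit 5) (nat_lit 474) (nat_lit 442) (nat_lit 224))))) (XT.nd (nat_lit 234) (nat_lit 1596) (nat_lit 0) (XT.nd (nat_lit 78) (nat_lit 836) (nat_lit 0) (XT.lf (nat_lit 0) (nat_lit 880377746) (nat_lit 988) (nat_lit 5031838154) (nat_lit 76) (nat_lit 13869539306) (nat_lit 366) (nat_lit 5) (nat_lit 379) (nat_lit 5) (nat_lit 367) (nat_lit 5) (nat_lit 475) (nat_lit 442) (nat_lit 223)) (XT.nd (nat_lit 78) (nat_lit 0) (nat_lit 0) (XT.lf (nat_lit 0) (nat_lit 3011742442) (nat_lit 912) (nat_lit 14451807734) (nat_lit 76) (nat_lit 2536003741) (nat_lit 355) (nat_lit 5) (nat_lit 367) (nat_lit 5) (nat_lit 356) (nat_lit 5) (nat_lit 476) (nat_lit 442) (nat_lit 222)) (XT.lf (nat_lit 0) (nat_lit 5253972722) (nat_lit 912) (nat_lit 3858140434) (nat_lit 76) (nat_lit 11108231929) (nat_lit 355) (nat_lit 5) (nat_lit 367) (nat_lit 5) (nat_lit 356) (nat_lit 5) (nat_lit 477) (nat_lit 442) (nat_lit 221)))) (XT.nd (nat_lit 78) (nat_lit 760) (nat_lit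 0) (XT.lf (nat_lit 0) (nat_lit 7034899584) (nat_lit 836) (nat_lit 547014085) (nat_lit 912) (nat_lit 12862822314) (nat_lit 344) (nat_lit 5) (nat_lit 355) (nat_lit 5) (nat_lit 356) (nat_lit 5) (nat_lit 478) (nat_lit 442) (nat_lit 220)) (XT.nd (nat_lit 78) (nat_lit 760) (nat_lit 0) (XT.lf (nat_lit 0) (nat_lit 10030900450) (nat_lit 912) (nat_lit 2533170219) (nat_lit 76) (nat_lit 8108055488) (nat_lit 344) (nat_lit 5) (nat_lit 356) (nat_lit 5) (nat_lit 345) (nat_lit 5) (nat_lit 479) (nat_lit 442) (nat_lit 219)) (XT.lf (nat_lit 0) (nat_lit 8666332429) (nat_lit 760) (nat_lit 3917772248) (nat_lit 836) (nat_lit 8318855883) (nat_lit 334) (nat_lit 5) (nat_lit 344) (nat_lit 5) (nat_lit 345) (nat_lit 5) (nat_lit 480) (nat_lit 442) (nat_lit 218)))))) (XT.nd (nat_lit 468) (nat_lit 2128) (nat_lit 0) (XT.nd (nat_lit 234) (nat_lit 836) (nat_lit 0) (XT.nd (nat_lit 78) (nat_lit 1520) (nat_lit 0) (XT.lf (nat_lit 0) (nat_lit 15232715431) (nat_lit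 836) (nat_lit 1050640674) (nat_lit 76) (nat_lit 4854169852) (nat_lit 334) (nat_lit 5) (nat_lit 345) (nat_lit 5) (nat_lit 335) (nat_lit 5) (nat_lit 481) (nat_lit 442) (nat_lit 217)) (XT.nd (nat_lit 78) (nat_lit 760) (nat_lit 0) (XT.lf (nat_lit 0) (nat_lit 10465678445) (nat_lit 760) (nat_lit 7558013123) (nat_lit 836) (nat_lit 3351304361) (nat_lit 324) (nat_lit 5) (nat_lit 334) (nat_lit 5) (nat_lit 335) (nat_lit 5) (nat_lit 482) (nat_lit 442) (nat_lit 216)) (XT.lf (nat_lit 0) (nat_lit 603893318) (nat_lit 760) (nat_lit 20281877943) (nat_lit 836) (nat_lit 731139470) (nat_lit 314) (nat_lit 5) (nat_lit 324) (nat_lit 5) (nat_lit 325) (nat_lit 5) (nat_lit 483) (nat_lit 442) (nat_lit 215)))) (XT.nd (nat_lit 78) (nat_lit 760) (nat_lit 0) (XT.lf (nat_lit 0) (nat_lit 2035292030) (nat_lit 836) (nat_lit 9434883520) (nat_lit 76) (nat_lit 10390850736) (nat_lit 313) (nat_lit 5) (nat_lit 324) (nat_lit 5) (nat_lit 314) (nat_lit 5) (nat_lit 484)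 (nat_lit 442) (nat_lit 214)) (XT.nd (nat_lit 78) (nat_lit 0) (nat_lit 0) (XT.lf (nat_lit 0) (nat_lit 2396710318) (nat_lit 760) (nat_lit 2461789083) (nat_lit 836) (nat_lit 17251204394) (nat_lit 303) (nat_lit 5) (nat_lit 313) (nat_lit 5) (nat_lit 314) (nat_lit 5) (nat_lit 485) (nat_lit 442) (nat_lit 213)) (XT.lf (nat_lit 0) (nat_lit 7841297066) (nat_lit 836) (nat_lit 7818101393) (nat_lit 76) (nat_lit 6701894899) (nat_lit 303) (nat_lit 5) (nat_lit 314) (nat_lit 5) (nat_lit 304) (nat_lit 5) (nat_lit 486) (nat_lit 442) (nat_lit 212))))) (XT.nd (nat_lit 234) (nat_lit 760) (nat_lit 0) (XT.nd (nat_lit 78) (nat_lit 684) (nat_lit 0) (XT.lf (nat_lit 0) (nat_lit 4350792556) (nat_lit 684) (nat_lit 6573312733) (nat_lit 760) (nat_lit 11693003336) (nat_lit 294) (nat_lit 5) (nat_lit 303) (nat_lit 5) (nat_lit 304) (nat_lit 5) (nat_lit 487) (nat_lit 442) (nat_lit 211)) (XT.nd (nat_lit 78) (nat_lit 684) (nat_lit 0) (XT.lf (nat_lit 0) (nat_lit 14134727440)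 (nat_lit 760) (nat_lit 6030496319) (nat_lit 76) (nat_lit 2711494269) (nat_lit 294) (nat_lit 5) (nat_lit 304) (nat_lit 5) (nat_lit 295) (nat_lit 5) (nat_lit 488) (nat_lit 442) (nat_lit 210)) (XT.lf (nat_lit 0) (nat_lit 6486973709) (nat_lit 684) (nat_lit 11004171558) (nat_lit 760) (nat_lit 5648743653) (nat_lit 285) (nat_lit 5) (nat_lit 294) (nat_lit 5) (nat_lit 295) (nat_lit 5) (nat_lit 489) (nat_lit 442) (nat_lit 209)))) (XT.nd (nat_lit 78) (nat_lit 760) (nat_lit 0) (XT.lf (nat_lit 0) (nat_lit 19331956375) (nat_lit 684) (nat_lit 1619186493) (nat_lit 760) (nat_lit 2456452282) (nat_lit 285) (nat_lit 5) (nat_lit 294) (nat_lit 5) (nat_lit 295) (nat_lit 5) (nat_lit 490) (nat_lit 442) (nat_lit 208)) (XT.nd (nat_lit 78) (nat_lit 0) (nat_lit 0) (XT.lf (nat_lit 0) (nat_lit 894805888) (nat_lit 760) (nat_lit 14871890949) (nat_lit 76) (nat_lit 7911743554) (nat_lit 275) (nat_lit 5) (nat_lit 285) (nat_lit 5) (nat_lit 276) (nat_lit 5) (nat_lit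 491) (nat_lit 442) (nat_lit 207)) (XT.lf (nat_lit 0) (nat_lit 4314561866) (nat_lit 760) (nat_lit 1984290783) (nat_lit 76) (nat_lit 17654838750) (nat_lit 275) (nat_lit 5) (nat_lit 285) (nat_lit 5) (nat_lit 276) (nat_lit 5) (nat_lit 492) (nat_lit 442) (nat_lit 206))))))))
noncomputable def xc224 : XT := (XT.nd (nat_lit 56160) (nat_lit 0) (nat_lit 12768) (XT.nd (nat_lit 858) (nat_lit 1140) (nat_lit 0) (XT.nd (nat_lit 390) (nat_lit 1824) (nat_lit 0) (XT.nd (nat_lit 156) (nat_lit 608) (nat_lit 0) (XT.nd (nat_lit 78) (nat_lit 608) (nat_lit 0) (XT.lf (nat_lit 0) (nat_lit 7894554588) (nat_lit 760) (nat_lit 12950518323) (nat_lit 76) (nat_lit 3387538557) (nat_lit 266) (nat_lit 5) (nat_lit 276) (nat_lit 5) (nat_lit 267) (nat_lit 5) (nat_lit 493) (nat_lit 442) (nat_lit 205)) (XT.lf (nat_lit 0) (nat_lit 281200568) (nat_lit 608) (nat_lit 11318089124) (nat_lit 684) (nat_lit 12916758254) (nat_lit 258) (nat_lit 5) (nat_lit 266) (nat_lit 5) (nat_lit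 267) (nat_lit 5) (nat_lit 494) (nat_lit 442) (nat_lit 204))) (XT.nd (nat_lit 78) (nat_lit 608) (nat_lit 0) (XT.lf (nat_lit 0) (nat_lit 13948587717) (nat_lit 608) (nat_lit 1512680516) (nat_lit 684) (nat_lit 9342222787) (nat_lit 258) (nat_lit 5) (nat_lit 266) (nat_lit 5) (nat_lit 267) (nat_lit 5) (nat_lit 495) (nat_lit 442) (nat_lit 203)) (XT.nd (nat_lit 78) (nat_lit 0) (nat_lit 0) (XT.lf (nat_lit 0) (nat_lit 2769350071) (nat_lit 608) (nat_lit 16700544653) (nat_lit 684) (nat_lit 5625400889) (nat_lit 250) (nat_lit 5) (nat_lit 258) (nat_lit 5) (nat_lit 259) (nat_lit 5) (nat_lit 496) (nat_lit 442) (nat_lit 202)) (XT.lf (nat_lit 0) (nat_lit 16798613325) (nat_lit 608) (nat_lit 6839230450) (nat_lit 684) (nat_lit 1753510330) (nat_lit 250) (nat_lit 5) (nat_lit 258) (nat_lit 5) (nat_lit 259) (nat_lit 5) (nat_lit 497) (nat_lit 442) (nat_lit 201))))) (XT.nd (nat_lit 234) (nat_lit 532) (nat_lit 0) (XT.nd (nat_lit 78) (nat_lit 608) (nat_lit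 0) (XT.lf (nat_lit 0) (nat_lit 2220151544) (nat_lit 684) (nat_lit 20245476452) (nat_lit 76) (nat_lit 3226358773) (nat_lit 241) (nat_lit 5) (nat_lit 250) (nat_lit 5) (nat_lit 242) (nat_lit 5) (nat_lit 498) (nat_lit 442) (nat_lit 200)) (XT.nd (nat_lit 78) (nat_lit 608) (nat_lit 0) (XT.lf (nat_lit 0) (nat_lit 6349605287) (nat_lit 684) (nat_lit 6176206653) (nat_lit 76) (nat_lit 13470593132) (nat_lit 241) (nat_lit 5) (nat_lit 250) (nat_lit 5) (nat_lit 242) (nat_lit 5) (nat_lit 499) (nat_lit 442) (nat_lit 199)) (XT.lf (nat_lit 0) (nat_lit 8278648356) (nat_lit 608) (nat_lit 2333259625) (nat_lit 684) (nat_lit 15693999308) (nat_lit 233) (nat_lit 5) (nat_lit 241) (nat_lit 5) (nat_lit 242) (nat_lit 5) (nat_lit 500) (nat_lit 442) (nat_lit 198)))) (XT.nd (nat_lit 78) (nat_lit 532) (nat_lit 0) (XT.lf (nat_lit 0) (nat_lit 15050071873) (nat_lit 684) (nat_lit 3571487091) (nat_lit 76) (nat_lit 7998229017) (nat_lit 233) (nat_lit 5) (nat_lit 242)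 (nat_lit 5) (nat_lit 234) (nat_lit 5) (nat_lit 501) (nat_lit 442) (nat_lit 197)) (XT.nd (nat_lit 78) (nat_lit 0) (nat_lit 0) (XT.lf (nat_lit 0) (nat_lit 11301849145) (nat_lit 532) (nat_lit 8360592613) (nat_lit 608) (nat_lit 7275796392) (nat_lit 226) (nat_lit 5) (nat_lit 233) (nat_lit 5) (nat_lit 234) (nat_lit 5) (nat_lit 502) (nat_lit 442) (nat_lit 196)) (XT.lf (nat_lit 0) (nat_lit 24401499189) (nat_lit 608) (nat_lit 759700945) (nat_lit 76) (nat_lit 2101169089) (nat_lit 226) (nat_lit 5) (nat_lit 234) (nat_lit 5) (nat_lit 227) (nat_lit 5) (nat_lit 503) (nat_lit 442) (nat_lit 195)))))) (XT.nd (nat_lit 54834) (nat_lit 0) (nat_lit 16872) (XT.nd (nat_lit 54600) (nat_lit 0) (nat_lit 16796) (XT.nd (nat_lit 78) (nat_lit 532) (nat_lit 0) (XT.lf (nat_lit 0) (nat_lit 1768302639) (nat_lit 608) (nat_lit 13056037736) (nat_lit 76) (nat_lit 12765480203) (nat_lit 218) (nat_lit 5) (nat_lit 226) (nat_lit 5) (nat_lit 219) (nat_lit 5) (nat_lit 504)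 (nat_lit 442) (nat_lit 194)) (XT.lf (nat_lit 0) (nat_lit 2225636436) (nat_lit 532) (nat_lit 4242457665) (nat_lit 608) (nat_lit 21455022467) (nat_lit 211) (nat_lit 5) (nat_lit 218) (nat_lit 5) (nat_lit 219) (nat_lit 5) (nat_lit 505) (nat_lit 442) (nat_lit 193))) (XT.nd (nat_lit 78) (nat_lit 1748) (nat_lit 0) (XT.lf (nat_lit 0) (nat_lit 6922868254) (nat_lit 1748) (nat_lit 136797519) (nat_lit 1748) (nat_lit 136797519) (nat_lit 455) (nat_lit 3) (nat_lit 478) (nat_lit 3) (nat_lit 478) (nat_lit 5) (nat_lit 443) (nat_lit 443) (nat_lit 254)) (XT.nd (nat_lit 78) (nat_lit 1748) (nat_lit 0) (XT.lf (nat_lit 76) (nat_lit 6758947398) (nat_lit 0) (nat_lit 7586983175) (nat_lit 1748) (nat_lit 183597117) (nat_lit 456) (nat_lit 5) (nat_lit 455) (nat_lit 3) (nat_lit 478) (nat_lit 5) (nat_lit 444) (nat_lit 443) (nat_lit 253)) (XT.lf (nat_lit 0) (nat_lit 178236576) (nat_lit 1748) (nat_lit 738626953) (nat_lit 1824) (nat_lit 13752106874) (nat_lit 432)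 (nat_lit 5) (nat_lit 455) (nat_lit 3) (nat_lit 456) (nat_lit 5) (nat_lit 445) (nat_lit 443) (nat_lit 252))))) (XT.nd (nat_lit 234) (nat_lit 0) (nat_lit 76) (XT.nd (nat_lit 78) (nat_lit 0) (nat_lit 0) (XT.lf (nat_lit 0) (nat_lit 617418699) (nat_lit 1748) (nat_lit 8335190632) (nat_lit 1824) (nat_lit 5857119321) (nat_lit 433) (nat_lit 5) (nat_lit 456) (nat_lit 5) (nat_lit 457) (nat_lit 5) (nat_lit 446) (nat_lit 443) (nat_lit 251)) (XT.nd (nat_lit 78) (nat_lit 0) (nat_lit 76) (XT.lf (nat_lit 0) (nat_lit 1068346484) (nat_lit 1748) (nat_lit 1121827572) (nat_lit 1824) (nat_lit 12763071078) (nat_lit 433) (nat_lit 5) (nat_lit 456) (nat_lit 5) (nat_lit 457) (nat_lit 5) (nat_lit 447) (nat_lit 443) (nat_lit 250)) (XT.lf (nat_lit 0) (nat_lit 1592207009) (nat_lit 1748) (nat_lit 8815627362) (nat_lit 1824) (nat_lit 4690521556) (nat_lit 434) (nat_lit 5) (nat_lit 457) (nat_lit 5) (nat_lit 458) (nat_lit 5) (nat_lit 448) (nat_lit 443) (nat_lit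 249)))) (XT.nd (nat_lit 78) (nat_lit 0) (nat_lit 76) (XT.lf (nat_lit 0) (nat_lit 2140836135) (nat_lit 1748) (nat_lit 1414752192) (nat_lit 1824) (nat_lit 11690497000) (nat_lit 434) (nat_lit 5) (nat_lit 457) (nat_lit 5) (nat_lit 458) (nat_lit 5) (nat_lit 449) (nat_lit 443) (nat_lit 248)) (XT.nd (nat_lit 78) (nat_lit 0) (nat_lit 0) (XT.lf (nat_lit 0) (nat_lit 2755707884) (nat_lit 1748) (nat_lit 9207571216) (nat_lit 1824) (nat_lit 3432386991) (nat_lit 435) (nat_lit 5) (nat_lit 458) (nat_lit 5) (nat_lit 459) (nat_lit 5) (nat_lit 450) (nat_lit 443) (nat_lit 247)) (XT.lf (nat_lit 0) (nat_lit 3408483279) (nat_lit 1748) (nat_lit 1614097744) (nat_lit 1824) (nat_lit 10525147456) (nat_lit 435) (nat_lit 5) (nat_lit 458) (nat_lit 5) (nat_lit 459) (nat_lit 5) (nat_lit 451) (nat_lit 443) (nat_lit 246))))))) (XT.nd (nat_lit 858) (nat_lit 4332) (nat_lit 0) (XT.nd (nat_lit 390) (nat_lit 0) (nat_lit 152) (XT.nd (nat_lit 156) (nat_lit 0) (nat_lit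 76) (XT.nd (nat_lit 78) (nat_lit 0) (nat_lit 0) (XT.lf (nat_lit 0) (nat_lit 4120911463) (nat_lit 1748) (nat_lit 9507674281) (nat_lit 1824) (nat_lit 2073316518) (nat_lit 436) (nat_lit 5) (nat_lit 459) (nat_lit 5) (nat_lit 460) (nat_lit 5) (nat_lit 452) (nat_lit 443) (nat_lit 245)) (XT.lf (nat_lit 0) (nat_lit 4884535913) (nat_lit 1748) (nat_lit 1716336841) (nat_lit 1824) (nat_lit 9257549862) (nat_lit 436) (nat_lit 5) (nat_lit 459) (nat_lit 5) (nat_lit 460) (nat_lit 5) (nat_lit 453) (nat_lit 443) (nat_lit 244))) (XT.nd (nat_lit 78) (nat_lit 0) (nat_lit 0) (XT.lf (nat_lit 0) (nat_lit 5701290457) (nat_lit 1748) (nat_lit 9712366536) (nat_lit 1824) (nat_lit 603661242) (nat_lit 437) (nat_lit 5) (nat_lit 460) (nat_lit 5) (nat_lit 461) (nat_lit 5) (nat_lit 454) (nat_lit 443) (nat_lit 243)) (XT.nd (nat_lit 78) (nat_lit 0) (nat_lit 0) (XT.lf (nat_lit 0) (nat_lit 6582737248) (nat_lit 1748) (nat_lit 1717716154) (nat_lit 1824) (nat_lit 7877973193)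 (nat_lit 437) (nat_lit 5) (nat_lit 460) (nat_lit 5) (nat_lit 461) (nat_lit 5) (nat_lit 455) (nat_lit 443) (nat_lit 242)) (XT.lf (nat_lit 76) (nat_lit 6517704689) (nat_lit 0) (nat_lit 999610811) (nat_lit 1824) (nat_lit 8824733505) (nat_lit 438) (nat_lit 5) (nat_lit 437) (nat_lit 5) (nat_lit 461) (nat_lit 5) (nat_lit 456) (nat_lit 443) (nat_lit 241))))) (XT.nd (nat_lit 234) (nat_lit 0) (nat_lit 76) (XT.nd (nat_lit 78) (nat_lit 0) (nat_lit 0) (XT.lf (nat_lit 0) (nat_lit 8517351319) (nat_lit 1748) (nat_lit 1614254552) (nat_lit 1824) (nat_lit 6376404564) (nat_lit 438) (nat_lit 5) (nat_lit 461) (nat_lit 5) (nat_lit 462) (nat_lit 5) (nat_lit 457) (nat_lit 443) (nat_lit 240)) (XT.nd (nat_lit 78) (nat_lit 0) (nat_lit 76) (XT.lf (nat_lit 76) (nat_lit 6838474379) (nat_lit 0) (nat_lit 2743367711) (nat_lit 1824) (nat_lit 7094561778) (nat_lit 439) (nat_lit 5) (nat_lit 438) (nat_lit 5) (nat_lit 462) (nat_lit 5) (nat_lit 458) (nat_lit 443)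 (nat_lit 239)) (XT.lf (nat_lit 0) (nat_lit 10703189255) (nat_lit 1748) (nat_lit 1401741010) (nat_lit 1824) (nat_lit 4742525393) (nat_lit 439) (nat_lit 5) (nat_lit 462) (nat_lit 5) (nat_lit 463) (nat_lit 5) (nat_lit 459) (nat_lit 443) (nat_lit 238)))) (XT.nd (nat_lit 78) (nat_lit 0) (nat_lit 76) (XT.lf (nat_lit 76) (nat_lit 7275776036) (nat_lit 0) (nat_lit 4630266426) (nat_lit 1824) (nat_lit 5114706226) (nat_lit 440) (nat_lit 5) (nat_lit 439) (nat_lit 5) (nat_lit 463) (nat_lit 5) (nat_lit 460) (nat_lit 443) (nat_lit 237)) (XT.nd (nat_lit 78) (nat_lit 0) (nat_lit 0) (XT.lf (nat_lit 0) (nat_lit 13155636275) (nat_lit 1748) (nat_lit 1075732306) (nat_lit 1824) (nat_lit 2965687076) (nat_lit 440) (nat_lit 5) (nat_lit 463) (nat_lit 5) (nat_lit 464) (nat_lit 5) (nat_lit 461) (nat_lit 443) (nat_lit 236)) (XT.lf (nat_lit 76) (nat_lit 7834313902) (nat_lit 0) (nat_lit 6671336172) (nat_lit 1824) (nat_lit 2869731845) (nat_lit 441) (nat_lit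 5) (nat_lit 440) (nat_lit 5) (nat_lit 464) (nat_lit 5) (nat_lit 462) (nat_lit 443) (nat_lit 235)))))) (XT.nd (nat_lit 390) (nat_lit 2888) (nat_lit 0) (XT.nd (nat_lit 156) (nat_lit 1824) (nat_lit 0) (XT.nd (nat_lit 78) (nat_lit 0) (nat_lit 0) (XT.lf (nat_lit 0) (nat_lit 15890679432) (nat_lit 1748) (nat_lit 631550529) (nat_lit 1824) (nat_lit 1034886123) (nat_lit 441) (nat_lit 5) (nat_lit 464) (nat_lit 5) (nat_lit 465) (nat_lit 5) (nat_lit 463) (nat_lit 443) (nat_lit 234)) (XT.lf (nat_lit 76) (nat_lit 8519034793) (nat_lit 0) (nat_lit 8877981593) (nat_lit 1824) (nat_lit 343598054) (nat_lit 442) (nat_lit 5) (nat_lit 441) (nat_lit 5) (nat_lit 465) (nat_lit 5) (nat_lit 464) (nat_lit 443) (nat_lit 233))) (XT.nd (nat_lit 78) (nat_lit 0) (nat_lit 76) (XT.lf (nat_lit 0) (nat_lit 990933535) (nat_lit 1824) (nat_lit 77781694) (nat_lit 1900) (nat_lit 16858970004) (nat_lit 417) (nat_lit 5) (nat_lit 441) (nat_lit 5) (nat_lit 442) (nat_lit 5)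 (nat_lit 465) (nat_lit 443) (nat_lit 232)) (XT.nd (nat_lit 78) (nat_lit 0) (nat_lit 0) (XT.lf (nat_lit 0) (nat_lit 2447839439) (nat_lit 1824) (nat_lit 8797743186) (nat_lit 1900) (nat_lit 6870865259) (nat_lit 418) (nat_lit 5) (nat_lit 442) (nat_lit 5) (nat_lit 443) (nat_lit 5) (nat_lit 466) (nat_lit 443) (nat_lit 231)) (XT.lf (nat_lit 76) (nat_lit 591155030) (nat_lit 0) (nat_lit 3348533353) (nat_lit 1900) (nat_lit 14369182829) (nat_lit 419) (nat_lit 5) (nat_lit 418) (nat_lit 5) (nat_lit 443) (nat_lit 5) (nat_lit 467) (nat_lit 443) (nat_lit 230))))) (XT.nd (nat_lit 234) (nat_lit 1748) (nat_lit 0) (XT.nd (nat_lit 78) (nat_lit 1292) (nat_lit 0) (XT.lf (nat_lit 0) (nat_lit 5545809708) (nat_lit 1824) (nat_lit 8252627828) (nat_lit 76) (nat_lit 4705018257) (nat_lit 419) (nat_lit 5) (nat_lit 443) (nat_lit 5) (nat_lit 420) (nat_lit 5) (nat_lit 468) (nat_lit 443) (nat_lit 229)) (XT.nd (nat_lit 78) (nat_lit 0) (nat_lit 0) (XT.lf (nat_lit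 0) (nat_lit 1393148070) (nat_lit 1292) (nat_lit 5816684677) (nat_lit 1368) (nat_lit 11491585197) (nat_lit 402) (nat_lit 5) (nat_lit 419) (nat_lit 5) (nat_lit 420) (nat_lit 5) (nat_lit 469) (nat_lit 443) (nat_lit 228)) (XT.lf (nat_lit 0) (nat_lit 8972615099) (nat_lit 1368) (nat_lit 7578778092) (nat_lit 76) (nat_lit 2350638005) (nat_lit 402) (nat_lit 5) (nat_lit 420) (nat_lit 5) (nat_lit 403) (nat_lit 5) (nat_lit 470) (nat_lit 443) (nat_lit 227)))) (XT.nd (nat_lit 78) (nat_lit 836) (nat_lit 0) (XT.lf (nat_lit 0) (nat_lit 2332677780) (nat_lit 912) (nat_lit 8486385923) (nat_lit 988) (nat_lit 8286626208) (nat_lit 390) (nat_lit 5) (nat_lit 402) (nat_lit 5) (nat_lit 403) (nat_lit 5) (nat_lit 471) (nat_lit 443) (nat_lit 226)) (XT.nd (nat_lit 78) (nat_lit 836) (nat_lit 0) (XT.lf (nat_lit 0) (nat_lit 12540427869) (nat_lit 912) (nat_lit 207687975) (nat_lit 988) (nat_lit 6564393843) (nat_lit 390) (nat_lit 5) (nat_lit 402) (nat_lit 5) (nat_lit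 403) (nat_lit 5) (nat_lit 472) (nat_lit 443) (nat_lit 225)) (XT.lf (nat_lit 0) (nat_lit 3415502682) (nat_lit 836) (nat_lit 11370821307) (nat_lit 912) (nat_lit 4735731724) (nat_lit 379) (nat_lit 5) (nat_lit 390) (nat_lit 5) (nat_lit 391) (nat_lit 5) (nat_lit 473) (nat_lit 443) (nat_lit 224))))))))
noncomputable def xc225 : XT := (XT.nd (nat_lit 1716) (nat_lit 3040) (nat_lit 0) (XT.nd (nat_lit 858) (nat_lit 4256) (nat_lit 0) (XT.nd (nat_lit 390) (nat_lit 3116) (nat_lit 0) (XT.nd (nat_lit 156) (nat_lit 912) (nat_lit 0) (XT.nd (nat_lit 78) (nat_lit 912) (nat_lit 0) (XT.lf (nat_lit 0) (nat_lit 13892591347) (nat_lit 836) (nat_lit 3014506809) (nat_lit 912) (nat_lit 2827859792) (nat_lit 379) (nat_lit 5) (nat_lit 390) (nat_lit 5) (nat_lit 391) (nat_lit 5) (nat_lit 474) (nat_lit 443) (nat_lit 223)) (XT.lf (nat_lit 0) (nat_lit 4647628621) (nat_lit 912) (nat_lit 14483694073) (nat_lit 988) (nat_lit 819576137) (nat_lit 367) (nat_lit 5) (nat_lit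 379) (nat_lit 5) (nat_lit 380) (nat_lit 5) (nat_lit 475) (nat_lit 443) (nat_lit 222))) (XT.nd (nat_lit 78) (nat_lit 836) (nat_lit 0) (XT.lf (nat_lit 0) (nat_lit 1267309504) (nat_lit 988) (nat_lit 4776654919) (nat_lit 76) (nat_lit 14125944721) (nat_lit 366) (nat_lit 5) (nat_lit 379) (nat_lit 5) (nat_lit 367) (nat_lit 5) (nat_lit 476) (nat_lit 443) (nat_lit 221)) (XT.nd (nat_lit 78) (nat_lit 0) (nat_lit 0) (XT.lf (nat_lit 0) (nat_lit 3436284103) (nat_lit 912) (nat_lit 14379913673) (nat_lit 76) (nat_lit 2575968257) (nat_lit 355) (nat_lit 5) (nat_lit 367) (nat_lit 5) (nat_lit 356) (nat_lit 5) (nat_lit 477) (nat_lit 443) (nat_lit 220)) (XT.lf (nat_lit 0) (nat_lit 5716215718) (nat_lit 912) (nat_lit 3581450091) (nat_lit 76) (nat_lit 11319851902) (nat_lit 355) (nat_lit 5) (nat_lit 367) (nat_lit 5) (nat_lit 356) (nat_lit 5) (nat_lit 478) (nat_lit 443) (nat_lit 219))))) (XT.nd (nat_lit 234) (nat_lit 1520) (nat_lit 0) (XT.nd (nat_lit 78)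 (nat_lit 760) (nat_lit 0) (XT.lf (nat_lit 0) (nat_lit 7527122746) (nat_lit 836) (nat_lit 558871865) (nat_lit 912) (nat_lit 12760498016) (nat_lit 344) (nat_lit 5) (nat_lit 355) (nat_lit 5) (nat_lit 356) (nat_lit 5) (nat_lit 479) (nat_lit 443) (nat_lit 218)) (XT.nd (nat_lit 78) (nat_lit 760) (nat_lit 0) (XT.lf (nat_lit 0) (nat_lit 10577044647) (nat_lit 912) (nat_lit 2232197151) (nat_lit 76) (nat_lit 8269328887) (nat_lit 344) (nat_lit 5) (nat_lit 356) (nat_lit 5) (nat_lit 345) (nat_lit 5) (nat_lit 480) (nat_lit 443) (nat_lit 217)) (XT.lf (nat_lit 0) (nat_lit 9188982153) (nat_lit 760) (nat_lit 3987823819) (nat_lit 836) (nat_lit 8137307658) (nat_lit 334) (nat_lit 5) (nat_lit 344) (nat_lit 5) (nat_lit 345) (nat_lit 5) (nat_lit 481) (nat_lit 443) (nat_lit 216)))) (XT.nd (nat_lit 78) (nat_lit 1520) (nat_lit 0) (XT.lf (nat_lit 0) (nat_lit 15871755147) (nat_lit 836) (nat_lit 722462014) (nat_lit 76) (nat_lit 4959287530) (nat_lit 334) (nat_lit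 5) (nat_lit 345) (nat_lit 5) (nat_lit 335) (nat_lit 5) (nat_lit 482) (nat_lit 443) (nat_lit 215)) (XT.nd (nat_lit 78) (nat_lit 760) (nat_lit 0) (XT.lf (nat_lit 0) (nat_lit 11021886174) (nat_lit 760) (nat_lit 7692360324) (nat_lit 836) (nat_lit 3081565301) (nat_lit 324) (nat_lit 5) (nat_lit 334) (nat_lit 5) (nat_lit 335) (nat_lit 5) (nat_lit 483) (nat_lit 443) (nat_lit 214)) (XT.lf (nat_lit 0) (nat_lit 967114778) (nat_lit 760) (nat_lit 20662367706) (nat_lit 836) (nat_lit 413165735) (nat_lit 314) (nat_lit 5) (nat_lit 324) (nat_lit 5) (nat_lit 325) (nat_lit 5) (nat_lit 484) (nat_lit 443) (nat_lit 213)))))) (XT.nd (nat_lit 390) (nat_lit 2736) (nat_lit 0) (XT.nd (nat_lit 156) (nat_lit 684) (nat_lit 0) (XT.nd (nat_lit 78) (nat_lit 760) (nat_lit 0) (XT.lf (nat_lit 0) (nat_lit 2397796362) (nat_lit 836) (nat_lit 9274968560) (nat_lit 76) (nat_lit 10618968246) (nat_lit 313) (nat_lit 5) (nat_lit 324) (nat_lit 5) (nat_lit 314) (nat_lit 5)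 (nat_lit 485) (nat_lit 443) (nat_lit 212)) (XT.lf (nat_lit 0) (nat_lit 2790963650) (nat_lit 760) (nat_lit 2482442990) (nat_lit 836) (nat_lit 17272060336) (nat_lit 303) (nat_lit 5) (nat_lit 313) (nat_lit 5) (nat_lit 314) (nat_lit 5) (nat_lit 486) (nat_lit 443) (nat_lit 211))) (XT.nd (nat_lit 78) (nat_lit 684) (nat_lit 0) (XT.lf (nat_lit 0) (nat_lit 8309812050) (nat_lit 836) (nat_lit 7628812001) (nat_lit 76) (nat_lit 6863586737) (nat_lit 303) (nat_lit 5) (nat_lit 314) (nat_lit 5) (nat_lit 304) (nat_lit 5) (nat_lit 487) (nat_lit 443) (nat_lit 210)) (XT.nd (nat_lit 78) (nat_lit 0) (nat_lit 0) (XT.lf (nat_lit 0) (nat_lit 4781185805) (nat_lit 684) (nat_lit 6669208517) (nat_lit 760) (nat_lit 11612827145) (nat_lit 294) (nat_lit 5) (nat_lit 303) (nat_lit 5) (nat_lit 304) (nat_lit 5) (nat_lit 488) (nat_lit 443) (nat_lit 209)) (XT.lf (nat_lit 0) (nat_lit 14719419904) (nat_lit 760) (nat_lit 5808580969) (nat_lit 76) (nat_lit 2800139799)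 (nat_lit 294) (nat_lit 5) (nat_lit 304) (nat_lit 5) (nat_lit 295) (nat_lit 5) (nat_lit 489) (nat_lit 443) (nat_lit 208))))) (XT.nd (nat_lit 234) (nat_lit 1292) (nat_lit 0) (XT.nd (nat_lit 78) (nat_lit 760) (nat_lit 0) (XT.lf (nat_lit 0) (nat_lit 6956985004) (nat_lit 684) (nat_lit 11182268827) (nat_lit 760) (nat_lit 5457396804) (nat_lit 285) (nat_lit 5) (nat_lit 294) (nat_lit 5) (nat_lit 295) (nat_lit 5) (nat_lit 490) (nat_lit 443) (nat_lit 207)) (XT.nd (nat_lit 78) (nat_lit 760) (nat_lit 0) (XT.lf (nat_lit 0) (nat_lit 20052195326) (nat_lit 684) (nat_lit 1610407318) (nat_lit 760) (nat_lit 2207226698) (nat_lit 285) (nat_lit 5) (nat_lit 294) (nat_lit 5) (nat_lit 295) (nat_lit 5) (nat_lit 491) (nat_lit 443) (nat_lit 206)) (XT.lf (nat_lit 0) (nat_lit 1203836684) (nat_lit 760) (nat_lit 14828375082) (nat_lit 76) (nat_lit 8113908447) (nat_lit 275) (nat_lit 5) (nat_lit 285) (nat_lit 5) (nat_lit 276) (nat_lit 5) (nat_lit 492) (nat_lit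 443) (nat_lit 205)))) (XT.nd (nat_lit 78) (nat_lit 1292) (nat_lit 0) (XT.lf (nat_lit 0) (nat_lit 4686279258) (nat_lit 760) (nat_lit 1689708278) (nat_lit 76) (nat_lit 18051004174) (nat_lit 275) (nat_lit 5) (nat_lit 285) (nat_lit 5) (nat_lit 276) (nat_lit 5) (nat_lit 493) (nat_lit 443) (nat_lit 204)) (XT.nd (nat_lit 78) (nat_lit 608) (nat_lit 0) (XT.lf (nat_lit 0) (nat_lit 8334756434) (nat_lit 760) (nat_lit 12872081249) (nat_lit 76) (nat_lit 3504716081) (nat_lit 266) (nat_lit 5) (nat_lit 276) (nat_lit 5) (nat_lit 267) (nat_lit 5) (nat_lit 494) (nat_lit 443) (nat_lit 203)) (XT.lf (nat_lit 0) (nat_lit 622051971) (nat_lit 608) (nat_lit 11488175282) (nat_lit 684) (nat_lit 12890500147) (nat_lit 258) (nat_lit 5) (nat_lit 266) (nat_lit 5) (nat_lit 267) (nat_lit 5) (nat_lit 495) (nat_lit 443) (nat_lit 202))))))) (XT.nd (nat_lit 55380) (nat_lit 0) (nat_lit 16264) (XT.nd (nat_lit 390) (nat_lit 1748) (nat_lit 0) (XT.nd (nat_lit 156) (nat_lit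 684) (nat_lit 0) (XT.nd (nat_lit 78) (nat_lit 608) (nat_lit 0) (XT.lf (nat_lit 0) (nat_lit 14556213777) (nat_lit 608) (nat_lit 1487761946) (nat_lit 684) (nat_lit 9250054231) (nat_lit 258) (nat_lit 5) (nat_lit 266) (nat_lit 5) (nat_lit 267) (nat_lit 5) (nat_lit 496) (nat_lit 443) (nat_lit 201)) (XT.lf (nat_lit 0) (nat_lit 3156367820) (nat_lit 608) (nat_lit 16973548885) (nat_lit 684) (nat_lit 5461812294) (nat_lit 250) (nat_lit 5) (nat_lit 258) (nat_lit 5) (nat_lit 259) (nat_lit 5) (nat_lit 497) (nat_lit 443) (nat_lit 200))) (XT.nd (nat_lit 78) (nat_lit 684) (nat_lit 0) (XT.lf (nat_lit 0) (nat_lit 17459713776) (nat_lit 608) (nat_lit 6916204608) (nat_lit 684) (nat_lit 1517897583) (nat_lit 250) (nat_lit 5) (nat_lit 258) (nat_lit 5) (nat_lit 259) (nat_lit 5) (nat_lit 498) (nat_lit 443) (nat_lit 199)) (XT.nd (nat_lit 78) (nat_lit 0) (nat_lit 0) (XT.lf (nat_lit 0) (nat_lit 2528976070) (nat_lit 684) (nat_lit 20318882046) (nat_lit 76)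 (nat_lit 3352623378) (nat_lit 241) (nat_lit 5) (nat_lit 250) (nat_lit 5) (nat_lit 242) (nat_lit 5) (nat_lit 499) (nat_lit 443) (nat_lit 198)) (XT.lf (nat_lit 0) (nat_lit 6735834152) (nat_lit 684) (nat_lit 5974726928) (nat_lit 76) (nat_lit 13800531886) (nat_lit 241) (nat_lit 5) (nat_lit 250) (nat_lit 5) (nat_lit 242) (nat_lit 5) (nat_lit 500) (nat_lit 443) (nat_lit 197))))) (XT.nd (nat_lit 234) (nat_lit 608) (nat_lit 0) (XT.nd (nat_lit 78) (nat_lit 532) (nat_lit 0) (XT.lf (nat_lit 0) (nat_lit 8767086998) (nat_lit 608) (nat_lit 2313309087) (nat_lit 684) (nat_lit 15746449968) (nat_lit 233) (nat_lit 5) (nat_lit 241) (nat_lit 5) (nat_lit 242) (nat_lit 5) (nat_lit 501) (nat_lit 443) (nat_lit 196)) (XT.nd (nat_lit 78) (nat_lit 532) (nat_lit 0) (XT.lf (nat_lit 0) (nat_lit 15602722780) (nat_lit 684) (nat_lit 3321728065) (nat_lit 76) (nat_lit 8222646590) (nat_lit 233) (nat_lit 5) (nat_lit 242) (nat_lit 5) (nat_lit 234) (nat_lit 5) (nat_lit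 502) (nat_lit 443) (nat_lit 195)) (XT.lf (nat_lit 0) (nat_lit 11846961812) (nat_lit 532) (nat_lit 8457515598) (nat_lit 608) (nat_lit 7167497496) (nat_lit 226) (nat_lit 5) (nat_lit 233) (nat_lit 5) (nat_lit 234) (nat_lit 5) (nat_lit 503) (nat_lit 443) (nat_lit 194)))) (XT.nd (nat_lit 78) (nat_lit 608) (nat_lit 0) (XT.lf (nat_lit 0) (nat_lit 25133885230) (nat_lit 608) (nat_lit 457593660) (nat_lit 76) (nat_lit 2211199350) (nat_lit 226) (nat_lit 5) (nat_lit 234) (nat_lit 5) (nat_lit 227) (nat_lit 5) (nat_lit 504) (nat_lit 443) (nat_lit 193)) (XT.nd (nat_lit 54600) (nat_lit 0) (nat_lit 16264) (XT.lf (nat_lit 0) (nat_lit 2046929689) (nat_lit 608) (nat_lit 12998662628) (nat_lit 76) (nat_lit 13091110196) (nat_lit 218) (nat_lit 5) (nat_lit 226) (nat_lit 5) (nat_lit 219) (nat_lit 5) (nat_lit 505) (nat_lit 443) (nat_lit 192)) (XT.lf (nat_lit 0) (nat_lit 21423664) (nat_lit 0) (nat_lit 21423664) (nat_lit 1748) (nat_lit 7291125381) (nat_lit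 432) (nat_lit 5) (nat_lit 432) (nat_lit 3) (nat_lit 455) (nat_lit 3) (nat_lit 444) (nat_lit 444) (nat_lit 252)))))) (XT.nd (nat_lit 468) (nat_lit 0) (nat_lit 228) (XT.nd (nat_lit 234) (nat_lit 0) (nat_lit 76) (XT.nd (nat_lit 78) (nat_lit 0) (nat_lit 0) (XT.lf (nat_lit 0) (nat_lit 440754110) (nat_lit 1748) (nat_lit 7596205830) (nat_lit 1824) (nat_lit 6770492846) (nat_lit 432) (nat_lit 5) (nat_lit 455) (nat_lit 3) (nat_lit 456) (nat_lit 5) (nat_lit 445) (nat_lit 444) (nat_lit 251)) (XT.nd (nat_lit 78) (nat_lit 0) (nat_lit 76) (XT.lf (nat_lit 0) (nat_lit 795102388) (nat_lit 1748) (nat_lit 431271851) (nat_lit 1824) (nat_lit 13723534615) (nat_lit 432) (nat_lit 5) (nat_lit 455) (nat_lit 3) (nat_lit 456) (nat_lit 5) (nat_lit 446) (nat_lit 444) (nat_lit 250)) (XT.lf (nat_lit 0) (nat_lit 1231280686) (nat_lit 1748) (nat_lit 8167807832) (nat_lit 1824) (nat_lit 5694632930) (nat_lit 433) (nat_lit 5) (nat_lit 456) (nat_lit 5) (nat_lit 457)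 (nat_lit 5) (nat_lit 447) (nat_lit 444) (nat_lit 249)))) (XT.nd (nat_lit 78) (nat_lit 0) (nat_lit 76) (XT.lf (nat_lit 0) (nat_lit 1679432642) (nat_lit 1748) (nat_lit 816728229) (nat_lit 1824) (nat_lit 12744186640) (nat_lit 433) (nat_lit 5) (nat_lit 456) (nat_lit 5) (nat_lit 457) (nat_lit 5) (nat_lit 448) (nat_lit 444) (nat_lit 248)) (XT.nd (nat_lit 78) (nat_lit 0) (nat_lit 0) (XT.lf (nat_lit 0) (nat_lit 2202664945) (nat_lit 1748) (nat_lit 8653133738) (nat_lit 1824) (nat_lit 4532787242) (nat_lit 434) (nat_lit 5) (nat_lit 457) (nat_lit 5) (nat_lit 458) (nat_lit 5) (nat_lit 449) (nat_lit 444) (nat_lit 247)) (XT.lf (nat_lit 0) (nat_lit 2750921286) (nat_lit 1748) (nat_lit 1110884322) (nat_lit 1824) (nat_lit 11677694445) (nat_lit 434) (nat_lit 5) (nat_lit 457) (nat_lit 5) (nat_lit 458) (nat_lit 5) (nat_lit 450) (nat_lit 444) (nat_lit 246))))) (XT.nd (nat_lit 234) (nat_lit 0) (nat_lit 76) (XT.nd (nat_lit 78) (nat_lit 0) (nat_lit 0)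 (XT.lf (nat_lit 0) (nat_lit 3367627651) (nat_lit 1748) (nat_lit 9048938465) (nat_lit 1824) (nat_lit 3275718742) (nat_lit 435) (nat_lit 5) (nat_lit 458) (nat_lit 5) (nat_lit 459) (nat_lit 5) (nat_lit 451) (nat_lit 444) (nat_lit 245)) (XT.nd (nat_lit 78) (nat_lit 0) (nat_lit 76) (XT.lf (nat_lit 0) (nat_lit 4022540797) (nat_lit 1748) (nat_lit 1310316782) (nat_lit 1824) (nat_lit 10514752377) (nat_lit 435) (nat_lit 5) (nat_lit 458) (nat_lit 5) (nat_lit 459) (nat_lit 5) (nat_lit 452) (nat_lit 444) (nat_lit 244)) (XT.lf (nat_lit 0) (nat_lit 4739360194) (nat_lit 1748) (nat_lit 9351755208) (nat_lit 1824) (nat_lit 1913952004) (nat_lit 436) (nat_lit 5) (nat_lit 459) (nat_lit 5) (nat_lit 460) (nat_lit 5) (nat_lit 453) (nat_lit 444) (nat_lit 243)))) (XT.nd (nat_lit 78) (nat_lit 0) (nat_lit 76) (XT.lf (nat_lit 0) (nat_lit 5507746731) (nat_lit 1748) (nat_lit 1411376755) (nat_lit 1824) (nat_lit 9245807876) (nat_lit 436) (nat_lit 5) (nat_lit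 459) (nat_lit 5) (nat_lit 460) (nat_lit 5) (nat_lit 454) (nat_lit 444) (nat_lit 242)) (XT.nd (nat_lit 78) (nat_lit 0) (nat_lit 0) (XT.lf (nat_lit 0) (nat_lit 6331549484) (nat_lit 1748) (nat_lit 9557893785) (nat_lit 1824) (nat_lit 437750290) (nat_lit 437) (nat_lit 5) (nat_lit 460) (nat_lit 5) (nat_lit 461) (nat_lit 5) (nat_lit 455) (nat_lit 444) (nat_lit 241)) (XT.lf (nat_lit 0) (nat_lit 7220502991) (nat_lit 1748) (nat_lit 1410188044) (nat_lit 1824) (nat_lit 7861038365) (nat_lit 437) (nat_lit 5) (nat_lit 460) (nat_lit 5) (nat_lit 461) (nat_lit 5) (nat_lit 456) (nat_lit 444) (nat_lit 240))))))))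
noncomputable def xc226 : XT := (XT.nd (nat_lit 1716) (nat_lit 8664) (nat_lit 0) (XT.nd (nat_lit 858) (nat_lit 4712) (nat_lit 0) (XT.nd (nat_lit 390) (nat_lit 1520) (nat_lit 0) (XT.nd (nat_lit 156) (nat_lit 0) (nat_lit 76) (XT.nd (nat_lit 78) (nat_lit 0) (nat_lit 76) (XT.lf (nat_lit 76) (nat_lit 6987691989) (nat_lit 0) (nat_lit 1178362197) (nat_lit 1824) (nat_lit 8492727257) (nat_lit 438) (nat_lit 5) (nat_lit 437) (nat_lit 5) (nat_lit 461) (nat_lit 5) (nat_lit 457) (nat_lit 444) (nat_lit 239)) (XT.lf (nat_lit 0) (nat_lit 9175307764) (nat_lit 1748) (nat_lit 1302645018) (nat_lit 1824) (nat_lit 6350327739) (nat_lit 438) (nat_lit 5) (nat_lit 461) (nat_lit 5) (nat_lit 462) (nat_lit 5) (nat_lit 458) (nat_lit 444) (nat_lit 238))) (XT.nd (nat_lit 78) (nat_lit 0) (nat_lit 76) (XT.lf (nat_lit 76) (nat_lit 7316876027) (nat_lit 0) (nat_lit 2936869457) (nat_lit 1824) (nat_lit 6746445900) (nat_lit 439) (nat_lit 5) (nat_lit 438) (nat_lit 5)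 (nat_lit 462) (nat_lit 5) (nat_lit 459) (nat_lit 444) (nat_lit 237)) (XT.nd (nat_lit 78) (nat_lit 0) (nat_lit 0) (XT.lf (nat_lit 0) (nat_lit 11387220144) (nat_lit 1748) (nat_lit 1084410313) (nat_lit 1824) (nat_lit 4703242394) (nat_lit 439) (nat_lit 5) (nat_lit 462) (nat_lit 5) (nat_lit 463) (nat_lit 5) (nat_lit 460) (nat_lit 444) (nat_lit 236)) (XT.lf (nat_lit 76) (nat_lit 7764384933) (nat_lit 0) (nat_lit 4842758030) (nat_lit 1824) (nat_lit 4744631126) (nat_lit 440) (nat_lit 5) (nat_lit 439) (nat_lit 5) (nat_lit 463) (nat_lit 5) (nat_lit 461) (nat_lit 444) (nat_lit 235))))) (XT.nd (nat_lit 234) (nat_lit 1748) (nat_lit 0) (XT.nd (nat_lit 78) (nat_lit 0) (nat_lit 0) (XT.lf (nat_lit 0) (nat_lit 13871887502) (nat_lit 1748) (nat_lit 750912316) (nat_lit 1824) (nat_lit 2909006753) (nat_lit 440) (nat_lit 5) (nat_lit 463) (nat_lit 5) (nat_lit 464) (nat_lit 5) (nat_lit 462) (nat_lit 444) (nat_lit 234)) (XT.nd (nat_lit 78) (nat_lit 0)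 (nat_lit 76) (XT.lf (nat_lit 76) (nat_lit 8335056299) (nat_lit 0) (nat_lit 6907194050) (nat_lit 1824) (nat_lit 2471584532) (nat_lit 441) (nat_lit 5) (nat_lit 440) (nat_lit 5) (nat_lit 464) (nat_lit 5) (nat_lit 463) (nat_lit 444) (nat_lit 233)) (XT.lf (nat_lit 0) (nat_lit 16645573631) (nat_lit 1748) (nat_lit 297342473) (nat_lit 1824) (nat_lit 956478207) (nat_lit 441) (nat_lit 5) (nat_lit 464) (nat_lit 5) (nat_lit 465) (nat_lit 5) (nat_lit 464) (nat_lit 444) (nat_lit 232)))) (XT.nd (nat_lit 78) (nat_lit 0) (nat_lit 0) (XT.lf (nat_lit 0) (nat_lit 87845095) (nat_lit 1824) (nat_lit 9053296908) (nat_lit 1900) (nat_lit 8945538137) (nat_lit 417) (nat_lit 5) (nat_lit 441) (nat_lit 5) (nat_lit 442) (nat_lit 5) (nat_lit 465) (nat_lit 444) (nat_lit 231)) (XT.nd (nat_lit 78) (nat_lit 0) (nat_lit 76) (XT.lf (nat_lit 76) (nat_lit 267741649) (nat_lit 0) (nat_lit 1169963259) (nat_lit 1900) (nat_lit 16839879558) (nat_lit 418) (nat_lit 5) (nat_lit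 417) (nat_lit 5) (nat_lit 442) (nat_lit 5) (nat_lit 466) (nat_lit 444) (nat_lit 230)) (XT.lf (nat_lit 0) (nat_lit 2915383995) (nat_lit 1824) (nat_lit 8623390818) (nat_lit 1900) (nat_lit 6931517119) (nat_lit 418) (nat_lit 5) (nat_lit 442) (nat_lit 5) (nat_lit 443) (nat_lit 5) (nat_lit 467) (nat_lit 444) (nat_lit 229)))))) (XT.nd (nat_lit 390) (nat_lit 2660) (nat_lit 0) (XT.nd (nat_lit 156) (nat_lit 2128) (nat_lit 0) (XT.nd (nat_lit 78) (nat_lit 0) (nat_lit 76) (XT.lf (nat_lit 76) (nat_lit 950980711) (nat_lit 0) (nat_lit 3480141068) (nat_lit 1900) (nat_lit 14235563130) (nat_lit 419) (nat_lit 5) (nat_lit 418) (nat_lit 5) (nat_lit 443) (nat_lit 5) (nat_lit 468) (nat_lit 444) (nat_lit 228)) (XT.lf (nat_lit 0) (nat_lit 6060863119) (nat_lit 1824) (nat_lit 8067890214) (nat_lit 76) (nat_lit 4736580071) (nat_lit 419) (nat_lit 5) (nat_lit 443) (nat_lit 5) (nat_lit 420) (nat_lit 5) (nat_lit 469) (nat_lit 444) (nat_lit 227))) (XT.nd (nat_lit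 78) (nat_lit 912) (nat_lit 0) (XT.lf (nat_lit 0) (nat_lit 1768499951) (nat_lit 1292) (nat_lit 5983998537) (nat_lit 1368) (nat_lit 11314871805) (nat_lit 402) (nat_lit 5) (nat_lit 419) (nat_lit 5) (nat_lit 420) (nat_lit 5) (nat_lit 470) (nat_lit 444) (nat_lit 226)) (XT.nd (nat_lit 78) (nat_lit 912) (nat_lit 0) (XT.lf (nat_lit 0) (nat_lit 9542398861) (nat_lit 1368) (nat_lit 7381436079) (nat_lit 76) (nat_lit 2348325714) (nat_lit 402) (nat_lit 5) (nat_lit 420) (nat_lit 5) (nat_lit 403) (nat_lit 5) (nat_lit 471) (nat_lit 444) (nat_lit 225)) (XT.lf (nat_lit 0) (nat_lit 2725953401) (nat_lit 912) (nat_lit 8694419978) (nat_lit 988) (nat_lit 8059629274) (nat_lit 390) (nat_lit 5) (nat_lit 402) (nat_lit 5) (nat_lit 403) (nat_lit 5) (nat_lit 472) (nat_lit 444) (nat_lit 224))))) (XT.nd (nat_lit 234) (nat_lit 1824) (nat_lit 0) (XT.nd (nat_lit 78) (nat_lit 836) (nat_lit 0) (XT.lf (nat_lit 0) (nat_lit 13131061980) (nat_lit 912) (nat_lit 249396967)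 (nat_lit 988) (nat_lit 6310652840) (nat_lit 390) (nat_lit 5) (nat_lit 402) (nat_lit 5) (nat_lit 403) (nat_lit 5) (nat_lit 473) (nat_lit 444) (nat_lit 223)) (XT.nd (nat_lit 78) (nat_lit 0) (nat_lit 0) (XT.lf (nat_lit 0) (nat_lit 3829242601) (nat_lit 836) (nat_lit 11624792738) (nat_lit 912) (nat_lit 4450923283) (nat_lit 379) (nat_lit 5) (nat_lit 390) (nat_lit 5) (nat_lit 391) (nat_lit 5) (nat_lit 474) (nat_lit 444) (nat_lit 222)) (XT.lf (nat_lit 0) (nat_lit 14509099906) (nat_lit 836) (nat_lit 3100831263) (nat_lit 912) (nat_lit 2512335540) (nat_lit 379) (nat_lit 5) (nat_lit 390) (nat_lit 5) (nat_lit 391) (nat_lit 5) (nat_lit 475) (nat_lit 444) (nat_lit 221)))) (XT.nd (nat_lit 78) (nat_lit 912) (nat_lit 0) (XT.lf (nat_lit 0) (nat_lit 5084519616) (nat_lit 912) (nat_lit 14789037135) (nat_lit 988) (nat_lit 469073221) (nat_lit 367) (nat_lit 5) (nat_lit 379) (nat_lit 5) (nat_lit 380) (nat_lit 5) (nat_lit 476) (nat_lit 444) (nat_lit 220))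 (XT.nd (nat_lit 78) (nat_lit 836) (nat_lit 0) (XT.lf (nat_lit 0) (nat_lit 1647638587) (nat_lit 988) (nat_lit 4530184943) (nat_lit 76) (nat_lit 14388293132) (nat_lit 366) (nat_lit 5) (nat_lit 379) (nat_lit 5) (nat_lit 367) (nat_lit 5) (nat_lit 477) (nat_lit 444) (nat_lit 219)) (XT.lf (nat_lit 0) (nat_lit 3855170119) (nat_lit 912) (nat_lit 14320597092) (nat_lit 76) (nat_lit 2617149714) (nat_lit 355) (nat_lit 5) (nat_lit 367) (nat_lit 5) (nat_lit 356) (nat_lit 5) (nat_lit 478) (nat_lit 444) (nat_lit 218))))))) (XT.nd (nat_lit 858) (nat_lit 4028) (nat_lit 0) (XT.nd (nat_lit 390) (nat_lit 3040) (nat_lit 0) (XT.nd (nat_lit 156) (nat_lit 760) (nat_lit 0) (XT.nd (nat_lit 78) (nat_lit 836) (nat_lit 0) (XT.lf (nat_lit 0) (nat_lit 6173834478) (nat_lit 912) (nat_lit 3312966490) (nat_lit 76) (nat_lit 11536113736) (nat_lit 355) (nat_lit 5) (nat_lit 367) (nat_lit 5) (nat_lit 356) (nat_lit 5) (nat_lit 479) (nat_lit 444) (nat_lit 217)) (XT.lf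 (nat_lit 0) (nat_lit 8015540221) (nat_lit 836) (nat_lit 570931173) (nat_lit 912) (nat_lit 12670090191) (nat_lit 344) (nat_lit 5) (nat_lit 355) (nat_lit 5) (nat_lit 356) (nat_lit 5) (nat_lit 480) (nat_lit 444) (nat_lit 216))) (XT.nd (nat_lit 78) (nat_lit 760) (nat_lit 0) (XT.lf (nat_lit 0) (nat_lit 11120694525) (nat_lit 912) (nat_lit 1938859093) (nat_lit 76) (nat_lit 8433862225) (nat_lit 344) (nat_lit 5) (nat_lit 356) (nat_lit 5) (nat_lit 345) (nat_lit 5) (nat_lit 481) (nat_lit 444) (nat_lit 215)) (XT.nd (nat_lit 78) (nat_lit 0) (nat_lit 0) (XT.lf (nat_lit 0) (nat_lit 9708520231) (nat_lit 760) (nat_lit 4059598872) (nat_lit 836) (nat_lit 7965638833) (nat_lit 334) (nat_lit 5) (nat_lit 344) (nat_lit 5) (nat_lit 345) (nat_lit 5) (nat_lit 482) (nat_lit 444) (nat_lit 214)) (XT.lf (nat_lit 0) (nat_lit 16510591066) (nat_lit 836) (nat_lit 401279313) (nat_lit 76) (nat_lit 5066195581) (nat_lit 334) (nat_lit 5) (nat_lit 345) (nat_lit 5)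 (nat_lit 335) (nat_lit 5) (nat_lit 483) (nat_lit 444) (nat_lit 213))))) (XT.nd (nat_lit 234) (nat_lit 1444) (nat_lit 0) (XT.nd (nat_lit 78) (nat_lit 836) (nat_lit 0) (XT.lf (nat_lit 0) (nat_lit 11575747735) (nat_lit 760) (nat_lit 7830047340) (nat_lit 836) (nat_lit 2819508461) (nat_lit 324) (nat_lit 5) (nat_lit 334) (nat_lit 5) (nat_lit 335) (nat_lit 5) (nat_lit 484) (nat_lit 444) (nat_lit 212)) (XT.nd (nat_lit 78) (nat_lit 76) (nat_lit 0) (XT.lf (nat_lit 0) (nat_lit 1323965334) (nat_lit 760) (nat_lit 21051443785) (nat_lit 836) (nat_lit 101747653) (nat_lit 314) (nat_lit 5) (nat_lit 324) (nat_lit 5) (nat_lit 325) (nat_lit 5) (nat_lit 485) (nat_lit 444) (nat_lit 211)) (XT.lf (nat_lit 0) (nat_lit 2755054954) (nat_lit 836) (nat_lit 9125392354) (nat_lit 76) (nat_lit 10850859814) (nat_lit 313) (nat_lit 5) (nat_lit 324) (nat_lit 5) (nat_lit 314) (nat_lit 5) (nat_lit 486) (nat_lit 444) (nat_lit 210)))) (XT.nd (nat_lit 78) (nat_lit 684)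 (nat_lit 0) (XT.lf (nat_lit 0) (nat_lit 3179654056) (nat_lit 760) (nat_lit 2504619843) (nat_lit 836) (nat_lit 17305921241) (nat_lit 303) (nat_lit 5) (nat_lit 313) (nat_lit 5) (nat_lit 314) (nat_lit 5) (nat_lit 487) (nat_lit 444) (nat_lit 209)) (XT.nd (nat_lit 78) (nat_lit 684) (nat_lit 0) (XT.lf (nat_lit 0) (nat_lit 8775594068) (nat_lit 836) (nat_lit 7449158887) (nat_lit 76) (nat_lit 7027438575) (nat_lit 303) (nat_lit 5) (nat_lit 314) (nat_lit 5) (nat_lit 304) (nat_lit 5) (nat_lit 488) (nat_lit 444) (nat_lit 208)) (XT.lf (nat_lit 0) (nat_lit 5206853156) (nat_lit 684) (nat_lit 6768403461) (nat_lit 760) (nat_lit 11543241840) (nat_lit 294) (nat_lit 5) (nat_lit 303) (nat_lit 5) (nat_lit 304) (nat_lit 5) (nat_lit 489) (nat_lit 444) (nat_lit 207)))))) (XT.nd (nat_lit 468) (nat_lit 1900) (nat_lit 0) (XT.nd (nat_lit 234) (nat_lit 1444) (nat_lit 0) (XT.nd (nat_lit 78) (nat_lit 684) (nat_lit 0) (XT.lf (nat_lit 0) (nat_lit 15304079271)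 (nat_lit 760) (nat_lit 5595527986) (nat_lit 76) (nat_lit 2889221839) (nat_lit 294) (nat_lit 5) (nat_lit 304) (nat_lit 5) (nat_lit 295) (nat_lit 5) (nat_lit 490) (nat_lit 444) (nat_lit 206)) (XT.nd (nat_lit 78) (nat_lit 0) (nat_lit 0) (XT.lf (nat_lit 0) (nat_lit 7423183355) (nat_lit 684) (nat_lit 11365558415) (nat_lit 760) (nat_lit 5274040201) (nat_lit 285) (nat_lit 5) (nat_lit 294) (nat_lit 5) (nat_lit 295) (nat_lit 5) (nat_lit 491) (nat_lit 444) (nat_lit 205)) (XT.lf (nat_lit 0) (nat_lit 20773884969) (nat_lit 684) (nat_lit 1603050966) (nat_lit 760) (nat_lit 1964602076) (nat_lit 285) (nat_lit 5) (nat_lit 294) (nat_lit 5) (nat_lit 295) (nat_lit 5) (nat_lit 492) (nat_lit 444) (nat_lit 204)))) (XT.nd (nat_lit 78) (nat_lit 684) (nat_lit 0) (XT.lf (nat_lit 0) (nat_lit 1507742982) (nat_lit 760) (nat_lit 14797228544) (nat_lit 76) (nat_lit 8318410781) (nat_lit 275) (nat_lit 5) (nat_lit 285) (nat_lit 5) (nat_lit 276) (nat_lit 5) (nat_lit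 493) (nat_lit 444) (nat_lit 203)) (XT.nd (nat_lit 78) (nat_lit 684) (nat_lit 0) (XT.lf (nat_lit 0) (nat_lit 5054347553) (nat_lit 760) (nat_lit 1402214170) (nat_lit 76) (nat_lit 18453420498) (nat_lit 275) (nat_lit 5) (nat_lit 285) (nat_lit 5) (nat_lit 276) (nat_lit 5) (nat_lit 494) (nat_lit 444) (nat_lit 202)) (XT.lf (nat_lit 0) (nat_lit 8772799845) (nat_lit 760) (nat_lit 12805178928) (nat_lit 76) (nat_lit 3622317855) (nat_lit 266) (nat_lit 5) (nat_lit 276) (nat_lit 5) (nat_lit 267) (nat_lit 5) (nat_lit 495) (nat_lit 444) (nat_lit 201))))) (XT.nd (nat_lit 234) (nat_lit 684) (nat_lit 0) (XT.nd (nat_lit 78) (nat_lit 608) (nat_lit 0) (XT.lf (nat_lit 0) (nat_lit 956703114) (nat_lit 608) (nat_lit 11663848414) (nat_lit 684) (nat_lit 12874767982) (nat_lit 258) (nat_lit 5) (nat_lit 266) (nat_lit 5) (nat_lit 267) (nat_lit 5) (nat_lit 496) (nat_lit 444) (nat_lit 200)) (XT.nd (nat_lit 78) (nat_lit 608) (nat_lit 0) (XT.lf (nat_lit 0) (nat_lit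 15163230310) (nat_lit 608) (nat_lit 1464487407) (nat_lit 684) (nat_lit 9166876719) (nat_lit 258) (nat_lit 5) (nat_lit 266) (nat_lit 5) (nat_lit 267) (nat_lit 5) (nat_lit 497) (nat_lit 444) (nat_lit 199)) (XT.lf (nat_lit 0) (nat_lit 3538248298) (nat_lit 608) (nat_lit 17254382165) (nat_lit 684) (nat_lit 5305673095) (nat_lit 250) (nat_lit 5) (nat_lit 258) (nat_lit 5) (nat_lit 259) (nat_lit 5) (nat_lit 498) (nat_lit 444) (nat_lit 198)))) (XT.nd (nat_lit 78) (nat_lit 684) (nat_lit 0) (XT.lf (nat_lit 0) (nat_lit 18121411112) (nat_lit 608) (nat_lit 6997040761) (nat_lit 684) (nat_lit 1288083530) (nat_lit 250) (nat_lit 5) (nat_lit 258) (nat_lit 5) (nat_lit 259) (nat_lit 5) (nat_lit 499) (nat_lit 444) (nat_lit 197)) (XT.nd (nat_lit 78) (nat_lit 0) (nat_lit 0) (XT.lf (nat_lit 0) (nat_lit 2833709278) (nat_lit 684) (nat_lit 20406628453) (nat_lit 76) (nat_lit 3479015936) (nat_lit 241) (nat_lit 5) (nat_lit 250) (nat_lit 5) (nat_lit 242) (nat_lit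 5) (nat_lit 500) (nat_lit 444) (nat_lit 196)) (XT.lf (nat_lit 0) (nat_lit 7119721116) (nat_lit 684) (nat_lit 5781837905) (nat_lit 76) (nat_lit 14134719083) (nat_lit 241) (nat_lit 5) (nat_lit 250) (nat_lit 5) (nat_lit 242) (nat_lit 5) (nat_lit 501) (nat_lit 444) (nat_lit 195))))))))
noncomputable def xc227 : XT := (XT.nd (nat_lit 56316) (nat_lit 0) (nat_lit 7448) (XT.nd (nat_lit 55458) (nat_lit 0) (nat_lit 15884) (XT.nd (nat_lit 54990) (nat_lit 0) (nat_lit 15656) (XT.nd (nat_lit 156) (nat_lit 532) (nat_lit 0) (XT.nd (nat_lit 78) (nat_lit 0) (nat_lit 0) (XT.lf (nat_lit 0) (nat_lit 9252757145) (nat_lit 608) (nat_lit 2295546309) (nat_lit 684) (nat_lit 15810101260) (nat_lit 233) (nat_lit 5) (nat_lit 241) (nat_lit 5) (nat_lit 242) (nat_lit 5) (nat_lit 502) (nat_lit 444) (nat_lit 194)) (XT.lf (nat_lit 0) (nat_lit 16156654848) (nat_lit 684) (nat_lit 3079446009) (nat_lit 76) (nat_lit 8449049727) (nat_lit 233) (nat_lit 5) (nat_lit 242)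 (nat_lit 5) (nat_lit 234) (nat_lit 5) (nat_lit 503) (nat_lit 444) (nat_lit 193))) (XT.nd (nat_lit 78) (nat_lit 0) (nat_lit 0) (XT.lf (nat_lit 0) (nat_lit 12390586634) (nat_lit 532) (nat_lit 8559106444) (nat_lit 608) (nat_lit 7066888560) (nat_lit 226) (nat_lit 5) (nat_lit 233) (nat_lit 5) (nat_lit 234) (nat_lit 5) (nat_lit 504) (nat_lit 444) (nat_lit 192)) (XT.nd (nat_lit 54678) (nat_lit 0) (nat_lit 15656) (XT.lf (nat_lit 0) (nat_lit 25871430348) (nat_lit 608) (nat_lit 161765426) (nat_lit 76) (nat_lit 2320789426) (nat_lit 226) (nat_lit 5) (nat_lit 234) (nat_lit 5) (nat_lit 227) (nat_lit 5) (nat_lit 505) (nat_lit 444) (nat_lit 191)) (XT.lf (nat_lit 0) (nat_lit 175676773) (nat_lit 0) (nat_lit 175676773) (nat_lit 1748) (nat_lit 7123058164) (nat_lit 432) (nat_lit 5) (nat_lit 432) (nat_lit 3) (nat_lit 455) (nat_lit 3) (nat_lit 445) (nat_lit 445) (nat_lit 250))))) (XT.nd (nat_lit 234) (nat_lit 0) (nat_lit 76) (XT.nd (nat_lit 78) (nat_lit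 0) (nat_lit 0) (XT.lf (nat_lit 0) (nat_lit 1050844761) (nat_lit 1748) (nat_lit 7432318534) (nat_lit 1824) (nat_lit 6608241530) (nat_lit 432) (nat_lit 5) (nat_lit 455) (nat_lit 3) (nat_lit 456) (nat_lit 5) (nat_lit 446) (nat_lit 445) (nat_lit 249)) (XT.nd (nat_lit 78) (nat_lit 0) (nat_lit 76) (XT.lf (nat_lit 0) (nat_lit 1400490288) (nat_lit 1748) (nat_lit 130278257) (nat_lit 1824) (nat_lit 13706180628) (nat_lit 432) (nat_lit 5) (nat_lit 455) (nat_lit 3) (nat_lit 456) (nat_lit 5) (nat_lit 447) (nat_lit 445) (nat_lit 248)) (XT.lf (nat_lit 0) (nat_lit 1834062406) (nat_lit 1748) (nat_lit 8010050366) (nat_lit 1824) (nat_lit 5539755138) (nat_lit 433) (nat_lit 5) (nat_lit 456) (nat_lit 5) (nat_lit 457) (nat_lit 5) (nat_lit 448) (nat_lit 445) (nat_lit 247)))) (XT.nd (nat_lit 78) (nat_lit 0) (nat_lit 76) (XT.lf (nat_lit 0) (nat_lit 2279841007) (nat_lit 1748) (nat_lit 518245517) (nat_lit 1824) (nat_lit 12735569931) (nat_lit 433) (nat_lit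 5) (nat_lit 456) (nat_lit 5) (nat_lit 457) (nat_lit 5) (nat_lit 449) (nat_lit 445) (nat_lit 246)) (XT.nd (nat_lit 78) (nat_lit 0) (nat_lit 0) (XT.lf (nat_lit 0) (nat_lit 2802863762) (nat_lit 1748) (nat_lit 8500546497) (nat_lit 1824) (nat_lit 4381666031) (nat_lit 434) (nat_lit 5) (nat_lit 457) (nat_lit 5) (nat_lit 458) (nat_lit 5) (nat_lit 450) (nat_lit 445) (nat_lit 245)) (XT.lf (nat_lit 0) (nat_lit 3351180415) (nat_lit 1748) (nat_lit 813837386) (nat_lit 1824) (nat_lit 11674212103) (nat_lit 434) (nat_lit 5) (nat_lit 457) (nat_lit 5) (nat_lit 458) (nat_lit 5) (nat_lit 451) (nat_lit 445) (nat_lit 244)))))) (XT.nd (nat_lit 390) (nat_lit 0) (nat_lit 152) (XT.nd (nat_lit 156) (nat_lit 0) (nat_lit 76) (XT.nd (nat_lit 78) (nat_lit 0) (nat_lit 0) (XT.lf (nat_lit 0) (nat_lit 3970164373) (nat_lit 1748) (nat_lit 8900443785) (nat_lit 1824) (nat_lit 3124666422) (nat_lit 435) (nat_lit 5) (nat_lit 458) (nat_lit 5) (nat_lit 459) (nat_lit 5)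 (nat_lit 452) (nat_lit 445) (nat_lit 243)) (XT.lf (nat_lit 0) (nat_lit 4627681974) (nat_lit 1748) (nat_lit 1013509932) (nat_lit 1824) (nat_lit 10512727136) (nat_lit 435) (nat_lit 5) (nat_lit 458) (nat_lit 5) (nat_lit 459) (nat_lit 5) (nat_lit 453) (nat_lit 445) (nat_lit 242))) (XT.nd (nat_lit 78) (nat_lit 0) (nat_lit 0) (XT.lf (nat_lit 0) (nat_lit 5349363182) (nat_lit 1748) (nat_lit 9206156172) (nat_lit 1824) (nat_lit 1759198707) (nat_lit 436) (nat_lit 5) (nat_lit 459) (nat_lit 5) (nat_lit 460) (nat_lit 5) (nat_lit 454) (nat_lit 445) (nat_lit 241)) (XT.nd (nat_lit 78) (nat_lit 0) (nat_lit 76) (XT.lf (nat_lit 0) (nat_lit 6123015179) (nat_lit 1748) (nat_lit 1113492389) (nat_lit 1824) (nat_lit 9241476644) (nat_lit 436) (nat_lit 5) (nat_lit 459) (nat_lit 5) (nat_lit 460) (nat_lit 5) (nat_lit 455) (nat_lit 445) (nat_lit 240)) (XT.lf (nat_lit 0) (nat_lit 6954367727) (nat_lit 1748) (nat_lit 9413872804) (nat_lit 1824) (nat_lit 275432460)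 (nat_lit 437) (nat_lit 5) (nat_lit 460) (nat_lit 5) (nat_lit 461) (nat_lit 5) (nat_lit 456) (nat_lit 445) (nat_lit 239))))) (XT.nd (nat_lit 234) (nat_lit 0) (nat_lit 76) (XT.nd (nat_lit 78) (nat_lit 0) (nat_lit 0) (XT.lf (nat_lit 0) (nat_lit 7851371142) (nat_lit 1748) (nat_lit 1109785083) (nat_lit 1824) (nat_lit 7850540666) (nat_lit 437) (nat_lit 5) (nat_lit 460) (nat_lit 5) (nat_lit 461) (nat_lit 5) (nat_lit 457) (nat_lit 445) (nat_lit 238)) (XT.nd (nat_lit 78) (nat_lit 0) (nat_lit 76) (XT.lf (nat_lit 76) (nat_lit 7453890664) (nat_lit 0) (nat_lit 1354523799) (nat_lit 1824) (nat_lit 8173826595) (nat_lit 438) (nat_lit 5) (nat_lit 437) (nat_lit 5) (nat_lit 461) (nat_lit 5) (nat_lit 458) (nat_lit 445) (nat_lit 237)) (XT.lf (nat_lit 0) (nat_lit 9827488870) (nat_lit 1748) (nat_lit 998157141) (nat_lit 1824) (nat_lit 6329694043) (nat_lit 438) (nat_lit 5) (nat_lit 461) (nat_lit 5) (nat_lit 462) (nat_lit 5) (nat_lit 459) (nat_lit 445)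 (nat_lit 236)))) (XT.nd (nat_lit 78) (nat_lit 0) (nat_lit 76) (XT.lf (nat_lit 76) (nat_lit 7791579715) (nat_lit 0) (nat_lit 3128857895) (nat_lit 1824) (nat_lit 6410395278) (nat_lit 439) (nat_lit 5) (nat_lit 438) (nat_lit 5) (nat_lit 462) (nat_lit 5) (nat_lit 460) (nat_lit 445) (nat_lit 235)) (XT.nd (nat_lit 78) (nat_lit 0) (nat_lit 0) (XT.lf (nat_lit 0) (nat_lit 12066682255) (nat_lit 1748) (nat_lit 774143965) (nat_lit 1824) (nat_lit 4668382303) (nat_lit 439) (nat_lit 5) (nat_lit 462) (nat_lit 5) (nat_lit 463) (nat_lit 5) (nat_lit 461) (nat_lit 445) (nat_lit 234)) (XT.lf (nat_lit 76) (nat_lit 8249443274) (nat_lit 0) (nat_lit 5054844137) (nat_lit 1824) (nat_lit 4385497197) (nat_lit 440) (nat_lit 5) (nat_lit 439) (nat_lit 5) (nat_lit 463) (nat_lit 5) (nat_lit 462) (nat_lit 445) (nat_lit 233))))))) (XT.nd (nat_lit 858) (nat_lit 5016) (nat_lit 0) (XT.nd (nat_lit 390) (nat_lit 2052) (nat_lit 0) (XT.nd (nat_lit 156) (nat_lit 1748)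 (nat_lit 0) (XT.nd (nat_lit 78) (nat_lit 0) (nat_lit 0) (XT.lf (nat_lit 0) (nat_lit 14584867833) (nat_lit 1748) (nat_lit 433044521) (nat_lit 1824) (nat_lit 2855697014) (nat_lit 440) (nat_lit 5) (nat_lit 463) (nat_lit 5) (nat_lit 464) (nat_lit 5) (nat_lit 463) (nat_lit 445) (nat_lit 232)) (XT.lf (nat_lit 76) (nat_lit 8832453426) (nat_lit 0) (nat_lit 7143791558) (nat_lit 1824) (nat_lit 2083163522) (nat_lit 441) (nat_lit 5) (nat_lit 440) (nat_lit 5) (nat_lit 464) (nat_lit 5) (nat_lit 464) (nat_lit 445) (nat_lit 231))) (XT.nd (nat_lit 78) (nat_lit 1824) (nat_lit 0) (XT.lf (nat_lit 76) (nat_lit 30481327) (nat_lit 0) (nat_lit 17368309918) (nat_lit 1824) (nat_lit 850067104) (nat_lit 442) (nat_lit 5) (nat_lit 441) (nat_lit 5) (nat_lit 465) (nat_lit 5) (nat_lit 465) (nat_lit 445) (nat_lit 230)) (XT.nd (nat_lit 78) (nat_lit 0) (nat_lit 0) (XT.lf (nat_lit 0) (nat_lit 506478807) (nat_lit 1824) (nat_lit 8897531965) (nat_lit 1900) (nat_lit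 9035952280) (nat_lit 417) (nat_lit 5) (nat_lit 441) (nat_lit 5) (nat_lit 442) (nat_lit 5) (nat_lit 466) (nat_lit 445) (nat_lit 229)) (XT.lf (nat_lit 76) (nat_lit 607711370) (nat_lit 0) (nat_lit 1269622933) (nat_lit 1900) (nat_lit 16757473410) (nat_lit 418) (nat_lit 5) (nat_lit 417) (nat_lit 5) (nat_lit 442) (nat_lit 5) (nat_lit 467) (nat_lit 445) (nat_lit 228))))) (XT.nd (nat_lit 234) (nat_lit 2128) (nat_lit 0) (XT.nd (nat_lit 78) (nat_lit 0) (nat_lit 0) (XT.lf (nat_lit 0) (nat_lit 3376025170) (nat_lit 1824) (nat_lit 8459154258) (nat_lit 1900) (nat_lit 6996362912) (nat_lit 418) (nat_lit 5) (nat_lit 442) (nat_lit 5) (nat_lit 443) (nat_lit 5) (nat_lit 468) (nat_lit 445) (nat_lit 227)) (XT.nd (nat_lit 78) (nat_lit 0) (nat_lit 76) (XT.lf (nat_lit 76) (nat_lit 1304489540) (nat_lit 0) (nat_lit 3611871002) (nat_lit 1900) (nat_lit 14115619109) (nat_lit 419) (nat_lit 5) (nat_lit 418) (nat_lit 5) (nat_lit 443) (nat_lit 5) (nat_lit 469)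 (nat_lit 445) (nat_lit 226)) (XT.lf (nat_lit 0) (nat_lit 6570524458) (nat_lit 1824) (nat_lit 7893040626) (nat_lit 76) (nat_lit 4771201570) (nat_lit 419) (nat_lit 5) (nat_lit 443) (nat_lit 5) (nat_lit 420) (nat_lit 5) (nat_lit 470) (nat_lit 445) (nat_lit 225)))) (XT.nd (nat_lit 78) (nat_lit 912) (nat_lit 0) (XT.lf (nat_lit 0) (nat_lit 2137865452) (nat_lit 1292) (nat_lit 6152679052) (nat_lit 1368) (nat_lit 11150410787) (nat_lit 402) (nat_lit 5) (nat_lit 419) (nat_lit 5) (nat_lit 420) (nat_lit 5) (nat_lit 471) (nat_lit 445) (nat_lit 224)) (XT.nd (nat_lit 78) (nat_lit 912) (nat_lit 0) (XT.lf (nat_lit 0) (nat_lit 10108421252) (nat_lit 1368) (nat_lit 7193696120) (nat_lit 76) (nat_lit 2347882529) (nat_lit 402) (nat_lit 5) (nat_lit 420) (nat_lit 5) (nat_lit 403) (nat_lit 5) (nat_lit 472) (nat_lit 445) (nat_lit 223)) (XT.lf (nat_lit 0) (nat_lit 3113634776) (nat_lit 912) (nat_lit 8905127234) (nat_lit 988) (nat_lit 7843342565) (nat_lit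 390) (nat_lit 5) (nat_lit 402) (nat_lit 5) (nat_lit 403) (nat_lit 5) (nat_lit 473) (nat_lit 445) (nat_lit 222)))))) (XT.nd (nat_lit 468) (nat_lit 2356) (nat_lit 0) (XT.nd (nat_lit 234) (nat_lit 1824) (nat_lit 0) (XT.nd (nat_lit 78) (nat_lit 836) (nat_lit 0) (XT.lf (nat_lit 0) (nat_lit 13720312933) (nat_lit 912) (nat_lit 290481824) (nat_lit 988) (nat_lit 6066788157) (nat_lit 390) (nat_lit 5) (nat_lit 402) (nat_lit 5) (nat_lit 403) (nat_lit 5) (nat_lit 474) (nat_lit 445) (nat_lit 221)) (XT.nd (nat_lit 78) (nat_lit 0) (nat_lit 0) (XT.lf (nat_lit 0) (nat_lit 4237843857) (nat_lit 836) (nat_lit 11882812434) (nat_lit 912) (nat_lit 4175156016) (nat_lit 379) (nat_lit 5) (nat_lit 390) (nat_lit 5) (nat_lit 391) (nat_lit 5) (nat_lit 475) (nat_lit 445) (nat_lit 220)) (XT.lf (nat_lit 0) (nat_lit 15124788182) (nat_lit 836) (nat_lit 3187871263) (nat_lit 912) (nat_lit 2204949180) (nat_lit 379) (nat_lit 5) (nat_lit 390) (nat_lit 5) (nat_lit 391)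 (nat_lit 5) (nat_lit 476) (nat_lit 445) (nat_lit 219)))) (XT.nd (nat_lit 78) (nat_lit 912) (nat_lit 0) (XT.lf (nat_lit 0) (nat_lit 5516792883) (nat_lit 912) (nat_lit 15099878605) (nat_lit 988) (nat_lit 125807206) (nat_lit 367) (nat_lit 5) (nat_lit 379) (nat_lit 5) (nat_lit 380) (nat_lit 5) (nat_lit 477) (nat_lit 445) (nat_lit 218)) (XT.nd (nat_lit 78) (nat_lit 836) (nat_lit 0) (XT.lf (nat_lit 0) (nat_lit 2021789834) (nat_lit 988) (nat_lit 4292065964) (nat_lit 76) (nat_lit 14656671755) (nat_lit 366) (nat_lit 5) (nat_lit 379) (nat_lit 5) (nat_lit 367) (nat_lit 5) (nat_lit 478) (nat_lit 445) (nat_lit 217)) (XT.lf (nat_lit 0) (nat_lit 4268836704) (nat_lit 912) (nat_lit 14273565306) (nat_lit 76) (nat_lit 2659556234) (nat_lit 355) (nat_lit 5) (nat_lit 367) (nat_lit 5) (nat_lit 356) (nat_lit 5) (nat_lit 479) (nat_lit 445) (nat_lit 216))))) (XT.nd (nat_lit 234) (nat_lit 1520) (nat_lit 0) (XT.nd (nat_lit 78) (nat_lit 836) (nat_lit 0)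 (XT.lf (nat_lit 0) (nat_lit 6627275071) (nat_lit 912) (nat_lit 3052320204) (nat_lit 76) (nat_lit 11757094369) (nat_lit 355) (nat_lit 5) (nat_lit 367) (nat_lit 5) (nat_lit 356) (nat_lit 5) (nat_lit 480) (nat_lit 445) (nat_lit 215)) (XT.nd (nat_lit 78) (nat_lit 0) (nat_lit 0) (XT.lf (nat_lit 0) (nat_lit 8500605946) (nat_lit 836) (nat_lit 583197423) (nat_lit 912) (nat_lit 12591294969) (nat_lit 344) (nat_lit 5) (nat_lit 355) (nat_lit 5) (nat_lit 356) (nat_lit 5) (nat_lit 481) (nat_lit 445) (nat_lit 214)) (XT.lf (nat_lit 0) (nat_lit 11662321205) (nat_lit 912) (nat_lit 1652778528) (nat_lit 76) (nat_lit 8601719361) (nat_lit 344) (nat_lit 5) (nat_lit 356) (nat_lit 5) (nat_lit 345) (nat_lit 5) (nat_lit 482) (nat_lit 445) (nat_lit 213)))) (XT.nd (nat_lit 78) (nat_lit 760) (nat_lit 0) (XT.lf (nat_lit 0) (nat_lit 10225411161) (nat_lit 760) (nat_lit 4133119354) (nat_lit 836) (nat_lit 7803522373) (nat_lit 334) (nat_lit 5) (nat_lit 344) (nat_lit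 5) (nat_lit 345) (nat_lit 5) (nat_lit 483) (nat_lit 445) (nat_lit 212)) (XT.nd (nat_lit 78) (nat_lit 760) (nat_lit 0) (XT.lf (nat_lit 0) (nat_lit 17149723317) (nat_lit 836) (nat_lit 86705954) (nat_lit 76) (nat_lit 5174941926) (nat_lit 334) (nat_lit 5) (nat_lit 345) (nat_lit 5) (nat_lit 335) (nat_lit 5) (nat_lit 484) (nat_lit 445) (nat_lit 211)) (XT.lf (nat_lit 0) (nat_lit 12127739273) (nat_lit 760) (nat_lit 7971115617) (nat_lit 836) (nat_lit 2564779689) (nat_lit 324) (nat_lit 5) (nat_lit 334) (nat_lit 5) (nat_lit 335) (nat_lit 5) (nat_lit 485) (nat_lit 445) (nat_lit 210))))))))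
noncomputable def xc228 : XT := (XT.nd (nat_lit 56472) (nat_lit 0) (nat_lit 13984) (XT.nd (nat_lit 858) (nat_lit 2508) (nat_lit 0) (XT.nd (nat_lit 390) (nat_lit 2128) (nat_lit 0) (XT.nd (nat_lit 156) (nat_lit 1444) (nat_lit 0) (XT.nd (nat_lit 78) (nat_lit 0) (nat_lit 0) (XT.lf (nat_lit 0) (nat_lit 200816427) (nat_lit 836) (nat_lit 21247075974) (nat_lit 76) (nat_lit 1472683032) (nat_lit 313) (nat_lit 5) (nat_lit 324) (nat_lit 5) (nat_lit 314) (nat_lit 5) (nat_lit 486) (nat_lit 445) (nat_lit 209)) (XT.lf (nat_lit 0) (nat_lit 3107448118) (nat_lit 836) (nat_lit 8985836017) (nat_lit 76) (nat_lit 11086631530) (nat_lit 313) (nat_lit 5) (nat_lit 324) (nat_lit 5) (nat_lit 314) (nat_lit 5) (nat_lit 487) (nat_lit 445) (nat_lit 208))) (XT.nd (nat_lit 78) (nat_lit 684) (nat_lit 0) (XT.lf (nat_lit 0) (nat_lit 3563192478) (nat_lit 760) (nat_lit 2528307006) (nat_lit 836) (nat_lit 17352558407) (nat_lit 303) (nat_lit 5) (nat_lit 313) (nat_lit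 5) (nat_lit 314) (nat_lit 5) (nat_lit 488) (nat_lit 445) (nat_lit 207)) (XT.nd (nat_lit 78) (nat_lit 684) (nat_lit 0) (XT.lf (nat_lit 0) (nat_lit 9239058446) (nat_lit 836) (nat_lit 7278813581) (nat_lit 76) (nat_lit 7193535313) (nat_lit 303) (nat_lit 5) (nat_lit 314) (nat_lit 5) (nat_lit 304) (nat_lit 5) (nat_lit 489) (nat_lit 445) (nat_lit 206)) (XT.lf (nat_lit 0) (nat_lit 5628217857) (nat_lit 684) (nat_lit 6870909913) (nat_lit 760) (nat_lit 11483985716) (nat_lit 294) (nat_lit 5) (nat_lit 303) (nat_lit 5) (nat_lit 304) (nat_lit 5) (nat_lit 490) (nat_lit 445) (nat_lit 205))))) (XT.nd (nat_lit 234) (nat_lit 1444) (nat_lit 0) (XT.nd (nat_lit 78) (nat_lit 684) (nat_lit 0) (XT.lf (nat_lit 0) (nat_lit 15889160249) (nat_lit 760) (nat_lit 5390998136) (nat_lit 76) (nat_lit 2978801011) (nat_lit 294) (nat_lit 5) (nat_lit 304) (nat_lit 5) (nat_lit 295) (nat_lit 5) (nat_lit 491) (nat_lit 445) (nat_lit 204)) (XT.nd (nat_lit 78) (nat_lit 0)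 (nat_lit 0) (XT.lf (nat_lit 0) (nat_lit 7886005587) (nat_lit 684) (nat_lit 11554080859) (nat_lit 760) (nat_lit 5098374775) (nat_lit 285) (nat_lit 5) (nat_lit 294) (nat_lit 5) (nat_lit 295) (nat_lit 5) (nat_lit 492) (nat_lit 445) (nat_lit 203)) (XT.lf (nat_lit 0) (nat_lit 21497557340) (nat_lit 684) (nat_lit 1597083825) (nat_lit 760) (nat_lit 1728260558) (nat_lit 285) (nat_lit 5) (nat_lit 294) (nat_lit 5) (nat_lit 295) (nat_lit 5) (nat_lit 493) (nat_lit 445) (nat_lit 202)))) (XT.nd (nat_lit 78) (nat_lit 684) (nat_lit 0) (XT.lf (nat_lit 0) (nat_lit 1806861283) (nat_lit 760) (nat_lit 14778184611) (nat_lit 76) (nat_lit 8525363546) (nat_lit 275) (nat_lit 5) (nat_lit 285) (nat_lit 5) (nat_lit 276) (nat_lit 5) (nat_lit 494) (nat_lit 445) (nat_lit 201)) (XT.nd (nat_lit 78) (nat_lit 684) (nat_lit 0) (XT.lf (nat_lit 0) (nat_lit 5419124152) (nat_lit 760) (nat_lit 1121446195) (nat_lit 76) (nat_lit 18862277682) (nat_lit 275) (nat_lit 5) (nat_lit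 285) (nat_lit 5) (nat_lit 276) (nat_lit 5) (nat_lit 495) (nat_lit 445) (nat_lit 200)) (XT.lf (nat_lit 0) (nat_lit 9209067340) (nat_lit 760) (nat_lit 12749533232) (nat_lit 76) (nat_lit 3740426892) (nat_lit 266) (nat_lit 5) (nat_lit 276) (nat_lit 5) (nat_lit 267) (nat_lit 5) (nat_lit 496) (nat_lit 445) (nat_lit 199)))))) (XT.nd (nat_lit 390) (nat_lit 608) (nat_lit 0) (XT.nd (nat_lit 156) (nat_lit 1292) (nat_lit 0) (XT.nd (nat_lit 78) (nat_lit 0) (nat_lit 0) (XT.lf (nat_lit 0) (nat_lit 1285535469) (nat_lit 608) (nat_lit 11845135404) (nat_lit 684) (nat_lit 12869343149) (nat_lit 258) (nat_lit 5) (nat_lit 266) (nat_lit 5) (nat_lit 267) (nat_lit 5) (nat_lit 497) (nat_lit 445) (nat_lit 198)) (XT.lf (nat_lit 0) (nat_lit 15770120694) (nat_lit 608) (nat_lit 1442806588) (nat_lit 684) (nat_lit 9092449359) (nat_lit 258) (nat_lit 5) (nat_lit 266) (nat_lit 5) (nat_lit 267) (nat_lit 5) (nat_lit 498) (nat_lit 445) (nat_lit 197))) (XT.nd (nat_lit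 78) (nat_lit 684) (nat_lit 0) (XT.lf (nat_lit 0) (nat_lit 3915388814) (nat_lit 608) (nat_lit 17543109084) (nat_lit 684) (nat_lit 5156715965) (nat_lit 250) (nat_lit 5) (nat_lit 258) (nat_lit 5) (nat_lit 259) (nat_lit 5) (nat_lit 499) (nat_lit 445) (nat_lit 196)) (XT.nd (nat_lit 78) (nat_lit 684) (nat_lit 0) (XT.lf (nat_lit 0) (nat_lit 18784207520) (nat_lit 608) (nat_lit 7081725964) (nat_lit 684) (nat_lit 1063775992) (nat_lit 250) (nat_lit 5) (nat_lit 258) (nat_lit 5) (nat_lit 259) (nat_lit 5) (nat_lit 500) (nat_lit 445) (nat_lit 195)) (XT.lf (nat_lit 0) (nat_lit 3134668053) (nat_lit 684) (nat_lit 20508502628) (nat_lit 76) (nat_lit 3605632096) (nat_lit 241) (nat_lit 5) (nat_lit 250) (nat_lit 5) (nat_lit 242) (nat_lit 5) (nat_lit 501) (nat_lit 445) (nat_lit 194))))) (XT.nd (nat_lit 54990) (nat_lit 0) (nat_lit 15124) (XT.nd (nat_lit 78) (nat_lit 608) (nat_lit 0) (XT.lf (nat_lit 0) (nat_lit 7501610233) (nat_lit 684) (nat_lit 5597221335)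 (nat_lit 76) (nat_lit 14473330956) (nat_lit 241) (nat_lit 5) (nat_lit 250) (nat_lit 5) (nat_lit 242) (nat_lit 5) (nat_lit 502) (nat_lit 445) (nat_lit 193)) (XT.nd (nat_lit 78) (nat_lit 0) (nat_lit 0) (XT.lf (nat_lit 0) (nat_lit 9736090265) (nat_lit 608) (nat_lit 2279914597) (nat_lit 684) (nat_lit 15884782998) (nat_lit 233) (nat_lit 5) (nat_lit 241) (nat_lit 5) (nat_lit 242) (nat_lit 5) (nat_lit 503) (nat_lit 445) (nat_lit 192)) (XT.lf (nat_lit 0) (nat_lit 16712273156) (nat_lit 684) (nat_lit 2844306155) (nat_lit 76) (nat_lit 8677575324) (nat_lit 233) (nat_lit 5) (nat_lit 242) (nat_lit 5) (nat_lit 234) (nat_lit 5) (nat_lit 504) (nat_lit 445) (nat_lit 191)))) (XT.nd (nat_lit 78) (nat_lit 0) (nat_lit 0) (XT.lf (nat_lit 0) (nat_lit 327041747) (nat_lit 0) (nat_lit 327041747) (nat_lit 1748) (nat_lit 6963818323) (nat_lit 432) (nat_lit 5) (nat_lit 432) (nat_lit 3) (nat_lit 455) (nat_lit 3) (nat_lit 446) (nat_lit 446) (nat_lit 248)) (XT.nd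 (nat_lit 78) (nat_lit 0) (nat_lit 0) (XT.lf (nat_lit 0) (nat_lit 1649788963) (nat_lit 1748) (nat_lit 7277416835) (nat_lit 1824) (nat_lit 6454303733) (nat_lit 432) (nat_lit 5) (nat_lit 455) (nat_lit 3) (nat_lit 456) (nat_lit 5) (nat_lit 447) (nat_lit 446) (nat_lit 247)) (XT.lf (nat_lit 76) (nat_lit 166901265) (nat_lit 0) (nat_lit 1829277861) (nat_lit 1824) (nat_lit 13533993838) (nat_lit 433) (nat_lit 5) (nat_lit 432) (nat_lit 5) (nat_lit 456) (nat_lit 5) (nat_lit 448) (nat_lit 446) (nat_lit 246))))))) (XT.nd (nat_lit 858) (nat_lit 1216) (nat_lit 0) (XT.nd (nat_lit 390) (nat_lit 0) (nat_lit 152) (XT.nd (nat_lit 156) (nat_lit 0) (nat_lit 76) (XT.nd (nat_lit 78) (nat_lit 0) (nat_lit 0) (XT.lf (nat_lit 0) (nat_lit 2426449254) (nat_lit 1748) (nat_lit 7861606984) (nat_lit 1824) (nat_lit 5392216474) (nat_lit 433) (nat_lit 5) (nat_lit 456) (nat_lit 5) (nat_lit 457) (nat_lit 5) (nat_lit 449) (nat_lit 446) (nat_lit 245)) (XT.lf (nat_lit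 0) (nat_lit 2870247239) (nat_lit 1748) (nat_lit 226017889) (nat_lit 1824) (nat_lit 12737012930) (nat_lit 433) (nat_lit 5) (nat_lit 456) (nat_lit 5) (nat_lit 457) (nat_lit 5) (nat_lit 450) (nat_lit 446) (nat_lit 244))) (XT.nd (nat_lit 78) (nat_lit 0) (nat_lit 0) (XT.lf (nat_lit 0) (nat_lit 3393470746) (nat_lit 1748) (nat_lit 8357552895) (nat_lit 1824) (nat_lit 4236910889) (nat_lit 434) (nat_lit 5) (nat_lit 457) (nat_lit 5) (nat_lit 458) (nat_lit 5) (nat_lit 451) (nat_lit 446) (nat_lit 243)) (XT.nd (nat_lit 78) (nat_lit 0) (nat_lit 76) (XT.lf (nat_lit 0) (nat_lit 3942272366) (nat_lit 1748) (nat_lit 523246945) (nat_lit 1824) (nat_lit 11679864519) (nat_lit 434) (nat_lit 5) (nat_lit 457) (nat_lit 5) (nat_lit 458) (nat_lit 5) (nat_lit 452) (nat_lit 446) (nat_lit 242)) (XT.lf (nat_lit 0) (nat_lit 4563969975) (nat_lit 1748) (nat_lit 8761773068) (nat_lit 1824) (nat_lit 2979002605) (nat_lit 435) (nat_lit 5) (nat_lit 458) (nat_lit 5) (nat_lit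 459) (nat_lit 5) (nat_lit 453) (nat_lit 446) (nat_lit 241))))) (XT.nd (nat_lit 234) (nat_lit 0) (nat_lit 152) (XT.nd (nat_lit 78) (nat_lit 0) (nat_lit 76) (XT.lf (nat_lit 0) (nat_lit 5224551609) (nat_lit 1748) (nat_lit 723309942) (nat_lit 1824) (nat_lit 10518906045) (nat_lit 435) (nat_lit 5) (nat_lit 458) (nat_lit 5) (nat_lit 459) (nat_lit 5) (nat_lit 454) (nat_lit 446) (nat_lit 240)) (XT.nd (nat_lit 78) (nat_lit 0) (nat_lit 0) (XT.lf (nat_lit 0) (nat_lit 5951559772) (nat_lit 1748) (nat_lit 9070561745) (nat_lit 1824) (nat_lit 1608846025) (nat_lit 436) (nat_lit 5) (nat_lit 459) (nat_lit 5) (nat_lit 460) (nat_lit 5) (nat_lit 455) (nat_lit 446) (nat_lit 239)) (XT.lf (nat_lit 0) (nat_lit 6730974823) (nat_lit 1748) (nat_lit 822313657) (nat_lit 1824) (nat_lit 9244407494) (nat_lit 436) (nat_lit 5) (nat_lit 459) (nat_lit 5) (nat_lit 460) (nat_lit 5) (nat_lit 456) (nat_lit 446) (nat_lit 238)))) (XT.nd (nat_lit 78) (nat_lit 0) (nat_lit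 0) (XT.lf (nat_lit 0) (nat_lit 7570374778) (nat_lit 1748) (nat_lit 9279986808) (nat_lit 1824) (nat_lit 116511241) (nat_lit 437) (nat_lit 5) (nat_lit 460) (nat_lit 5) (nat_lit 461) (nat_lit 5) (nat_lit 457) (nat_lit 446) (nat_lit 237)) (XT.nd (nat_lit 78) (nat_lit 0) (nat_lit 0) (XT.lf (nat_lit 0) (nat_lit 8475966895) (nat_lit 1748) (nat_lit 816134263) (nat_lit 1824) (nat_lit 7846345726) (nat_lit 437) (nat_lit 5) (nat_lit 460) (nat_lit 5) (nat_lit 461) (nat_lit 5) (nat_lit 458) (nat_lit 446) (nat_lit 236)) (XT.lf (nat_lit 76) (nat_lit 7916737062) (nat_lit 0) (nat_lit 1528283208) (nat_lit 1824) (nat_lit 7867526879) (nat_lit 438) (nat_lit 5) (nat_lit 437) (nat_lit 5) (nat_lit 461) (nat_lit 5) (nat_lit 459) (nat_lit 446) (nat_lit 235)))))) (XT.nd (nat_lit 468) (nat_lit 1596) (nat_lit 0) (XT.nd (nat_lit 234) (nat_lit 0) (nat_lit 76) (XT.nd (nat_lit 78) (nat_lit 0) (nat_lit 0) (XT.lf (nat_lit 0) (nat_lit 10474514379) (nat_lit 1748)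 (nat_lit 700414807) (nat_lit 1824) (nat_lit 6314380724) (nat_lit 438) (nat_lit 5) (nat_lit 461) (nat_lit 5) (nat_lit 462) (nat_lit 5) (nat_lit 460) (nat_lit 446) (nat_lit 234)) (XT.nd (nat_lit 78) (nat_lit 0) (nat_lit 76) (XT.lf (nat_lit 76) (nat_lit 8263026618) (nat_lit 0) (nat_lit 3319511802) (nat_lit 1824) (nat_lit 6085912353) (nat_lit 439) (nat_lit 5) (nat_lit 438) (nat_lit 5) (nat_lit 462) (nat_lit 5) (nat_lit 461) (nat_lit 446) (nat_lit 233)) (XT.lf (nat_lit 0) (nat_lit 12742192860) (nat_lit 1748) (nat_lit 470562491) (nat_lit 1824) (nat_lit 4637831322) (nat_lit 439) (nat_lit 5) (nat_lit 462) (nat_lit 5) (nat_lit 463) (nat_lit 5) (nat_lit 462) (nat_lit 446) (nat_lit 232)))) (XT.nd (nat_lit 78) (nat_lit 0) (nat_lit 76) (XT.lf (nat_lit 76) (nat_lit 8731397386) (nat_lit 0) (nat_lit 5266697408) (nat_lit 1824) (nat_lit 4036810994) (nat_lit 440) (nat_lit 5) (nat_lit 439) (nat_lit 5) (nat_lit 463) (nat_lit 5) (nat_lit 463) (nat_lit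 446) (nat_lit 231)) (XT.nd (nat_lit 78) (nat_lit 0) (nat_lit 0) (XT.lf (nat_lit 0) (nat_lit 15295195121) (nat_lit 1748) (nat_lit 121745742) (nat_lit 1824) (nat_lit 2805650368) (nat_lit 440) (nat_lit 5) (nat_lit 463) (nat_lit 5) (nat_lit 464) (nat_lit 5) (nat_lit 464) (nat_lit 446) (nat_lit 230)) (XT.lf (nat_lit 76) (nat_lit 9326957167) (nat_lit 0) (nat_lit 7381297942) (nat_lit 1824) (nat_lit 1703976445) (nat_lit 441) (nat_lit 5) (nat_lit 440) (nat_lit 5) (nat_lit 464) (nat_lit 5) (nat_lit 465) (nat_lit 446) (nat_lit 229))))) (XT.nd (nat_lit 234) (nat_lit 0) (nat_lit 76) (XT.nd (nat_lit 78) (nat_lit 1824) (nat_lit 0) (XT.lf (nat_lit 76) (nat_lit 355774927) (nat_lit 0) (nat_lit 17796895129) (nat_lit 1824) (nat_lit 452934246) (nat_lit 442) (nat_lit 5) (nat_lit 441) (nat_lit 5) (nat_lit 465) (nat_lit 5) (nat_lit 466) (nat_lit 446) (nat_lit 228)) (XT.nd (nat_lit 78) (nat_lit 0) (nat_lit 0) (XT.lf (nat_lit 0) (nat_lit 917297359) (nat_lit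 1824) (nat_lit 8751731278) (nat_lit 1900) (nat_lit 9131611136) (nat_lit 417) (nat_lit 5) (nat_lit 441) (nat_lit 5) (nat_lit 442) (nat_lit 5) (nat_lit 467) (nat_lit 446) (nat_lit 227)) (XT.lf (nat_lit 76) (nat_lit 941486982) (nat_lit 0) (nat_lit 1368314517) (nat_lit 1900) (nat_lit 16689697331) (nat_lit 418) (nat_lit 5) (nat_lit 417) (nat_lit 5) (nat_lit 442) (nat_lit 5) (nat_lit 468) (nat_lit 446) (nat_lit 226)))) (XT.nd (nat_lit 78) (nat_lit 0) (nat_lit 0) (XT.lf (nat_lit 0) (nat_lit 3830256067) (nat_lit 1824) (nat_lit 8304707609) (nat_lit 1900) (nat_lit 7065370765) (nat_lit 418) (nat_lit 5) (nat_lit 442) (nat_lit 5) (nat_lit 443) (nat_lit 5) (nat_lit 469) (nat_lit 446) (nat_lit 225)) (XT.nd (nat_lit 78) (nat_lit 0) (nat_lit 76) (XT.lf (nat_lit 76) (nat_lit 1652079922) (nat_lit 0) (nat_lit 3743823064) (nat_lit 1900) (nat_lit 14008989467) (nat_lit 419) (nat_lit 5) (nat_lit 418) (nat_lit 5) (nat_lit 443) (nat_lit 5) (nat_lit 470)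 (nat_lit 446) (nat_lit 224)) (XT.lf (nat_lit 0) (nat_lit 7075295266) (nat_lit 1824) (nat_lit 7727749388) (nat_lit 76) (nat_lit 4808849648) (nat_lit 419) (nat_lit 5) (nat_lit 443) (nat_lit 5) (nat_lit 420) (nat_lit 5) (nat_lit 471) (nat_lit 446) (nat_lit 223))))))))
noncomputable def xc229 : XT := (XT.nd (nat_lit 1716) (nat_lit 3952) (nat_lit 0) (XT.nd (nat_lit 858) (nat_lit 4484) (nat_lit 0) (XT.nd (nat_lit 390) (nat_lit 2660) (nat_lit 0) (XT.nd (nat_lit 156) (nat_lit 1748) (nat_lit 0) (XT.nd (nat_lit 78) (nat_lit 0) (nat_lit 0) (XT.lf (nat_lit 0) (nat_lit 2501648811) (nat_lit 1292) (nat_lit 6322830427) (nat_lit 1368) (nat_lit 10997834175) (nat_lit 402) (nat_lit 5) (nat_lit 419) (nat_lit 5) (nat_lit 420) (nat_lit 5) (nat_lit 472) (nat_lit 446) (nat_lit 222)) (XT.lf (nat_lit 0) (nat_lit 10671195611) (nat_lit 1368) (nat_lit 7015224136) (nat_lit 76) (nat_lit 2349271457) (nat_lit 402) (nat_lit 5) (nat_lit 420) (nat_lit 5) (nat_lit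 403) (nat_lit 5) (nat_lit 473) (nat_lit 446) (nat_lit 221))) (XT.nd (nat_lit 78) (nat_lit 836) (nat_lit 0) (XT.lf (nat_lit 0) (nat_lit 3496132681) (nat_lit 912) (nat_lit 9118618913) (nat_lit 988) (nat_lit 7637388103) (nat_lit 390) (nat_lit 5) (nat_lit 402) (nat_lit 5) (nat_lit 403) (nat_lit 5) (nat_lit 474) (nat_lit 446) (nat_lit 220)) (XT.nd (nat_lit 78) (nat_lit 836) (nat_lit 0) (XT.lf (nat_lit 0) (nat_lit 14308665475) (nat_lit 912) (nat_lit 330986690) (nat_lit 988) (nat_lit 5832416750) (nat_lit 390) (nat_lit 5) (nat_lit 402) (nat_lit 5) (nat_lit 403) (nat_lit 5) (nat_lit 475) (nat_lit 446) (nat_lit 219)) (XT.lf (nat_lit 0) (nat_lit 4641724536) (nat_lit 836) (nat_lit 12145001402) (nat_lit 912) (nat_lit 3908038478) (nat_lit 379) (nat_lit 5) (nat_lit 390) (nat_lit 5) (nat_lit 391) (nat_lit 5) (nat_lit 476) (nat_lit 446) (nat_lit 218))))) (XT.nd (nat_lit 234) (nat_lit 1672) (nat_lit 0) (XT.nd (nat_lit 78) (nat_lit 988) (nat_lit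 0) (XT.lf (nat_lit 0) (nat_lit 15740150418) (nat_lit 836) (nat_lit 3275680374) (nat_lit 912) (nat_lit 1905302421) (nat_lit 379) (nat_lit 5) (nat_lit 390) (nat_lit 5) (nat_lit 391) (nat_lit 5) (nat_lit 477) (nat_lit 446) (nat_lit 217)) (XT.nd (nat_lit 78) (nat_lit 0) (nat_lit 0) (XT.lf (nat_lit 0) (nat_lit 207867942) (nat_lit 988) (nat_lit 15207089232) (nat_lit 76) (nat_lit 5735611834) (nat_lit 366) (nat_lit 5) (nat_lit 379) (nat_lit 5) (nat_lit 367) (nat_lit 5) (nat_lit 478) (nat_lit 446) (nat_lit 216)) (XT.lf (nat_lit 0) (nat_lit 2390174954) (nat_lit 988) (nat_lit 4061949308) (nat_lit 76) (nat_lit 14931170781) (nat_lit 366) (nat_lit 5) (nat_lit 379) (nat_lit 5) (nat_lit 367) (nat_lit 5) (nat_lit 479) (nat_lit 446) (nat_lit 215)))) (XT.nd (nat_lit 78) (nat_lit 836) (nat_lit 0) (XT.lf (nat_lit 0) (nat_lit 4677707461) (nat_lit 912) (nat_lit 14238540910) (nat_lit 76) (nat_lit 2703196730) (nat_lit 355) (nat_lit 5) (nat_lit 367)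 (nat_lit 5) (nat_lit 356) (nat_lit 5) (nat_lit 480) (nat_lit 446) (nat_lit 214)) (XT.nd (nat_lit 78) (nat_lit 836) (nat_lit 0) (XT.lf (nat_lit 0) (nat_lit 7076971576) (nat_lit 912) (nat_lit 2799155136) (nat_lit 76) (nat_lit 11982872895) (nat_lit 355) (nat_lit 5) (nat_lit 367) (nat_lit 5) (nat_lit 356) (nat_lit 5) (nat_lit 481) (nat_lit 446) (nat_lit 213)) (XT.lf (nat_lit 0) (nat_lit 8982762357) (nat_lit 836) (nat_lit 595676084) (nat_lit 912) (nat_lit 12523823458) (nat_lit 344) (nat_lit 5) (nat_lit 355) (nat_lit 5) (nat_lit 356) (nat_lit 5) (nat_lit 482) (nat_lit 446) (nat_lit 212)))))) (XT.nd (nat_lit 390) (nat_lit 2128) (nat_lit 0) (XT.nd (nat_lit 156) (nat_lit 1596) (nat_lit 0) (XT.nd (nat_lit 78) (nat_lit 760) (nat_lit 0) (XT.lf (nat_lit 0) (nat_lit 12202384996) (nat_lit 912) (nat_lit 1373590973) (nat_lit 76) (nat_lit 8772965487) (nat_lit 344) (nat_lit 5) (nat_lit 356) (nat_lit 5) (nat_lit 345) (nat_lit 5) (nat_lit 483) (nat_lit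 446) (nat_lit 211)) (XT.lf (nat_lit 0) (nat_lit 10740108278) (nat_lit 760) (nat_lit 4208408139) (nat_lit 836) (nat_lit 7650645072) (nat_lit 334) (nat_lit 5) (nat_lit 344) (nat_lit 5) (nat_lit 345) (nat_lit 5) (nat_lit 484) (nat_lit 446) (nat_lit 210))) (XT.nd (nat_lit 78) (nat_lit 836) (nat_lit 0) (XT.lf (nat_lit 0) (nat_lit 224577333) (nat_lit 760) (nat_lit 17566523228) (nat_lit 836) (nat_lit 5062455748) (nat_lit 324) (nat_lit 5) (nat_lit 334) (nat_lit 5) (nat_lit 335) (nat_lit 5) (nat_lit 485) (nat_lit 446) (nat_lit 209)) (XT.nd (nat_lit 78) (nat_lit 836) (nat_lit 0) (XT.lf (nat_lit 0) (nat_lit 12678326146) (nat_lit 760) (nat_lit 8115608411) (nat_lit 836) (nat_lit 2317037469) (nat_lit 324) (nat_lit 5) (nat_lit 334) (nat_lit 5) (nat_lit 335) (nat_lit 5) (nat_lit 486) (nat_lit 446) (nat_lit 208)) (XT.lf (nat_lit 0) (nat_lit 496295564) (nat_lit 836) (nat_lit 21356268293) (nat_lit 76) (nat_lit 1520523477) (nat_lit 313) (nat_lit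 5) (nat_lit 324) (nat_lit 5) (nat_lit 314) (nat_lit 5) (nat_lit 487) (nat_lit 446) (nat_lit 207))))) (XT.nd (nat_lit 234) (nat_lit 1368) (nat_lit 0) (XT.nd (nat_lit 78) (nat_lit 760) (nat_lit 0) (XT.lf (nat_lit 0) (nat_lit 3455344932) (nat_lit 836) (nat_lit 8855994698) (nat_lit 76) (nat_lit 11326390420) (nat_lit 313) (nat_lit 5) (nat_lit 324) (nat_lit 5) (nat_lit 314) (nat_lit 5) (nat_lit 488) (nat_lit 446) (nat_lit 206)) (XT.nd (nat_lit 78) (nat_lit 0) (nat_lit 0) (XT.lf (nat_lit 0) (nat_lit 3941977800) (nat_lit 760) (nat_lit 2553493259) (nat_lit 836) (nat_lit 17411757539) (nat_lit 303) (nat_lit 5) (nat_lit 313) (nat_lit 5) (nat_lit 314) (nat_lit 5) (nat_lit 489) (nat_lit 446) (nat_lit 205)) (XT.lf (nat_lit 0) (nat_lit 9700610565) (nat_lit 836) (nat_lit 7117461283) (nat_lit 76) (nat_lit 7361961926) (nat_lit 303) (nat_lit 5) (nat_lit 314) (nat_lit 5) (nat_lit 304) (nat_lit 5) (nat_lit 490) (nat_lit 446) (nat_lit 204)))) (XT.nd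 (nat_lit 78) (nat_lit 684) (nat_lit 0) (XT.lf (nat_lit 0) (nat_lit 6045691517) (nat_lit 684) (nat_lit 6976742551) (nat_lit 760) (nat_lit 11434810221) (nat_lit 294) (nat_lit 5) (nat_lit 303) (nat_lit 5) (nat_lit 304) (nat_lit 5) (nat_lit 491) (nat_lit 446) (nat_lit 203)) (XT.nd (nat_lit 78) (nat_lit 684) (nat_lit 0) (XT.lf (nat_lit 0) (nat_lit 16475108960) (nat_lit 760) (nat_lit 5194665456) (nat_lit 76) (nat_lit 3068937139) (nat_lit 294) (nat_lit 5) (nat_lit 304) (nat_lit 5) (nat_lit 295) (nat_lit 5) (nat_lit 492) (nat_lit 446) (nat_lit 202)) (XT.lf (nat_lit 0) (nat_lit 8345877337) (nat_lit 684) (nat_lit 11747879966) (nat_lit 760) (nat_lit 4930113290) (nat_lit 285) (nat_lit 5) (nat_lit 294) (nat_lit 5) (nat_lit 295) (nat_lit 5) (nat_lit 493) (nat_lit 446) (nat_lit 201))))))) (XT.nd (nat_lit 55692) (nat_lit 0) (nat_lit 15124) (XT.nd (nat_lit 390) (nat_lit 1900) (nat_lit 0) (XT.nd (nat_lit 156) (nat_lit 1292) (nat_lit 0) (XT.nd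 (nat_lit 78) (nat_lit 760) (nat_lit 0) (XT.lf (nat_lit 0) (nat_lit 22223735584) (nat_lit 684) (nat_lit 1592474020) (nat_lit 760) (nat_lit 1497895397) (nat_lit 285) (nat_lit 5) (nat_lit 294) (nat_lit 5) (nat_lit 295) (nat_lit 5) (nat_lit 494) (nat_lit 446) (nat_lit 200)) (XT.lf (nat_lit 0) (nat_lit 2101517771) (nat_lit 760) (nat_lit 14770991187) (nat_lit 76) (nat_lit 8734879419) (nat_lit 275) (nat_lit 5) (nat_lit 285) (nat_lit 5) (nat_lit 276) (nat_lit 5) (nat_lit 495) (nat_lit 446) (nat_lit 199))) (XT.nd (nat_lit 78) (nat_lit 1292) (nat_lit 0) (XT.lf (nat_lit 0) (nat_lit 5780956893) (nat_lit 760) (nat_lit 847054416) (nat_lit 76) (nat_lit 19277766963) (nat_lit 275) (nat_lit 5) (nat_lit 285) (nat_lit 5) (nat_lit 276) (nat_lit 5) (nat_lit 496) (nat_lit 446) (nat_lit 198)) (XT.nd (nat_lit 78) (nat_lit 608) (nat_lit 0) (XT.lf (nat_lit 0) (nat_lit 9643932557) (nat_lit 760) (nat_lit 12704880227) (nat_lit 76) (nat_lit 3859124973) (nat_lit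 266) (nat_lit 5) (nat_lit 276) (nat_lit 5) (nat_lit 267) (nat_lit 5) (nat_lit 497) (nat_lit 446) (nat_lit 197)) (XT.lf (nat_lit 0) (nat_lit 1608918509) (nat_lit 608) (nat_lit 12032066968) (nat_lit 684) (nat_lit 12874019331) (nat_lit 258) (nat_lit 5) (nat_lit 266) (nat_lit 5) (nat_lit 267) (nat_lit 5) (nat_lit 498) (nat_lit 446) (nat_lit 196))))) (XT.nd (nat_lit 234) (nat_lit 1292) (nat_lit 0) (XT.nd (nat_lit 78) (nat_lit 608) (nat_lit 0) (XT.lf (nat_lit 0) (nat_lit 16377358726) (nat_lit 608) (nat_lit 1422671402) (nat_lit 684) (nat_lit 9026542777) (nat_lit 258) (nat_lit 5) (nat_lit 266) (nat_lit 5) (nat_lit 267) (nat_lit 5) (nat_lit 499) (nat_lit 446) (nat_lit 195)) (XT.nd (nat_lit 78) (nat_lit 0) (nat_lit 0) (XT.lf (nat_lit 0) (nat_lit 4288175204) (nat_lit 608) (nat_lit 17839799097) (nat_lit 684) (nat_lit 5014684393) (nat_lit 250) (nat_lit 5) (nat_lit 258) (nat_lit 5) (nat_lit 259) (nat_lit 5) (nat_lit 500) (nat_lit 446) (nat_lit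 194)) (XT.lf (nat_lit 0) (nat_lit 19448596194) (nat_lit 608) (nat_lit 7170250514) (nat_lit 684) (nat_lit 844692795) (nat_lit 250) (nat_lit 5) (nat_lit 258) (nat_lit 5) (nat_lit 259) (nat_lit 5) (nat_lit 501) (nat_lit 446) (nat_lit 193)))) (XT.nd (nat_lit 78) (nat_lit 608) (nat_lit 0) (XT.lf (nat_lit 0) (nat_lit 3432160134) (nat_lit 684) (nat_lit 20624306673) (nat_lit 76) (nat_lit 3732565809) (nat_lit 241) (nat_lit 5) (nat_lit 250) (nat_lit 5) (nat_lit 242) (nat_lit 5) (nat_lit 502) (nat_lit 446) (nat_lit 192)) (XT.nd (nat_lit 78) (nat_lit 608) (nat_lit 0) (XT.lf (nat_lit 0) (nat_lit 7881837262) (nat_lit 684) (nat_lit 5420571637) (nat_lit 76) (nat_lit 14816543723) (nat_lit 241) (nat_lit 5) (nat_lit 250) (nat_lit 5) (nat_lit 242) (nat_lit 5) (nat_lit 503) (nat_lit 446) (nat_lit 191)) (XT.lf (nat_lit 0) (nat_lit 10217507549) (nat_lit 608) (nat_lit 2266360027) (nat_lit 684) (nat_lit 15970336897) (nat_lit 233) (nat_lit 5) (nat_lit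 241) (nat_lit 5) (nat_lit 242) (nat_lit 5) (nat_lit 504) (nat_lit 446) (nat_lit 190)))))) (XT.nd (nat_lit 468) (nat_lit 0) (nat_lit 152) (XT.nd (nat_lit 234) (nat_lit 0) (nat_lit 76) (XT.nd (nat_lit 78) (nat_lit 0) (nat_lit 0) (XT.lf (nat_lit 0) (nat_lit 475692768) (nat_lit 0) (nat_lit 475692768) (nat_lit 1748) (nat_lit 6813109103) (nat_lit 432) (nat_lit 5) (nat_lit 432) (nat_lit 3) (nat_lit 455) (nat_lit 3) (nat_lit 447) (nat_lit 447) (nat_lit 246)) (XT.nd (nat_lit 78) (nat_lit 0) (nat_lit 0) (XT.lf (nat_lit 0) (nat_lit 2238270427) (nat_lit 1748) (nat_lit 7131204243) (nat_lit 1824) (nat_lit 6308396895) (nat_lit 432) (nat_lit 5) (nat_lit 455) (nat_lit 3) (nat_lit 456) (nat_lit 5) (nat_lit 448) (nat_lit 447) (nat_lit 245)) (XT.lf (nat_lit 76) (nat_lit 460080739) (nat_lit 0) (nat_lit 2122497620) (nat_lit 1824) (nat_lit 13247113214) (nat_lit 433) (nat_lit 5) (nat_lit 432) (nat_lit 5) (nat_lit 456) (nat_lit 5) (nat_lit 449) (nat_lit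 447) (nat_lit 244)))) (XT.nd (nat_lit 78) (nat_lit 0) (nat_lit 0) (XT.lf (nat_lit 0) (nat_lit 3009105114) (nat_lit 1748) (nat_lit 7722179773) (nat_lit 1824) (nat_lit 5251758452) (nat_lit 433) (nat_lit 5) (nat_lit 456) (nat_lit 5) (nat_lit 457) (nat_lit 5) (nat_lit 450) (nat_lit 447) (nat_lit 243)) (XT.nd (nat_lit 78) (nat_lit 0) (nat_lit 76) (XT.lf (nat_lit 76) (nat_lit 61105666) (nat_lit 0) (nat_lit 3390597055) (nat_lit 1824) (nat_lit 12687610583) (nat_lit 434) (nat_lit 5) (nat_lit 433) (nat_lit 5) (nat_lit 457) (nat_lit 5) (nat_lit 451) (nat_lit 447) (nat_lit 242)) (XT.lf (nat_lit 0) (nat_lit 3975132654) (nat_lit 1748) (nat_lit 8223853768) (nat_lit 1824) (nat_lit 4098284572) (nat_lit 434) (nat_lit 5) (nat_lit 457) (nat_lit 5) (nat_lit 458) (nat_lit 5) (nat_lit 452) (nat_lit 447) (nat_lit 241))))) (XT.nd (nat_lit 234) (nat_lit 0) (nat_lit 152) (XT.nd (nat_lit 78) (nat_lit 0) (nat_lit 76) (XT.lf (nat_lit 0) (nat_lit 4524835943)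 (nat_lit 1748) (nat_lit 238760723) (nat_lit 1824) (nat_lit 11694476971) (nat_lit 434) (nat_lit 5) (nat_lit 457) (nat_lit 5) (nat_lit 458) (nat_lit 5) (nat_lit 453) (nat_lit 447) (nat_lit 240)) (XT.nd (nat_lit 78) (nat_lit 0) (nat_lit 0) (XT.lf (nat_lit 0) (nat_lit 5149676821) (nat_lit 1748) (nat_lit 8632625991) (nat_lit 1824) (nat_lit 2838508507) (nat_lit 435) (nat_lit 5) (nat_lit 458) (nat_lit 5) (nat_lit 459) (nat_lit 5) (nat_lit 454) (nat_lit 447) (nat_lit 239)) (XT.lf (nat_lit 0) (nat_lit 5813775432) (nat_lit 1748) (nat_lit 439361887) (nat_lit 1824) (nat_lit 10533133038) (nat_lit 435) (nat_lit 5) (nat_lit 458) (nat_lit 5) (nat_lit 459) (nat_lit 5) (nat_lit 455) (nat_lit 447) (nat_lit 238)))) (XT.nd (nat_lit 78) (nat_lit 0) (nat_lit 0) (XT.lf (nat_lit 0) (nat_lit 6546570713) (nat_lit 1748) (nat_lit 8944670451) (nat_lit 1824) (nat_lit 1462690904) (nat_lit 436) (nat_lit 5) (nat_lit 459) (nat_lit 5) (nat_lit 460) (nat_lit 5)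 (nat_lit 456) (nat_lit 447) (nat_lit 237)) (XT.nd (nat_lit 78) (nat_lit 0) (nat_lit 0) (XT.lf (nat_lit 0) (nat_lit 7332241128) (nat_lit 1748) (nat_lit 537482941) (nat_lit 1824) (nat_lit 9254460309) (nat_lit 436) (nat_lit 5) (nat_lit 459) (nat_lit 5) (nat_lit 460) (nat_lit 5) (nat_lit 457) (nat_lit 447) (nat_lit 236)) (XT.lf (nat_lit 76) (nat_lit 8140716132) (nat_lit 0) (nat_lit 39724382) (nat_lit 1824) (nat_lit 9116466625) (nat_lit 437) (nat_lit 5) (nat_lit 436) (nat_lit 5) (nat_lit 460) (nat_lit 5) (nat_lit 458) (nat_lit 447) (nat_lit 235))))))))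
noncomputable def xc230 : XT := (XT.nd (nat_lit 1716) (nat_lit 9500) (nat_lit 0) (XT.nd (nat_lit 858) (nat_lit 3876) (nat_lit 0) (XT.nd (nat_lit 390) (nat_lit 1520) (nat_lit 0) (XT.nd (nat_lit 156) (nat_lit 0) (nat_lit 76) (XT.nd (nat_lit 78) (nat_lit 0) (nat_lit 0) (XT.lf (nat_lit 0) (nat_lit 9094898316) (nat_lit 1748) (nat_lit 528875131) (nat_lit 1824) (nat_lit 7848326703) (nat_lit 437) (nat_lit 5) (nat_lit 460) (nat_lit 5) (nat_lit 461) (nat_lit 5) (nat_lit 459) (nat_lit 447) (nat_lit 234)) (XT.lf (nat_lit 76) (nat_lit 8376656371) (nat_lit 0) (nat_lit 1699822472) (nat_lit 1824) (nat_lit 7573343154) (nat_lit 438) (nat_lit 5) (nat_lit 437) (nat_lit 5) (nat_lit 461) (nat_lit 5) (nat_lit 460) (nat_lit 447) (nat_lit 233))) (XT.nd (nat_lit 78) (nat_lit 0) (nat_lit 0) (XT.lf (nat_lit 0) (nat_lit 11116987876) (nat_lit 1748) (nat_lit 409054518) (nat_lit 1824) (nat_lit 6304271568) (nat_lit 438) (nat_lit 5) (nat_lit 461) (nat_lit 5)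 (nat_lit 462) (nat_lit 5) (nat_lit 461) (nat_lit 447) (nat_lit 232)) (XT.nd (nat_lit 78) (nat_lit 0) (nat_lit 76) (XT.lf (nat_lit 76) (nat_lit 8731646732) (nat_lit 0) (nat_lit 3509005411) (nat_lit 1824) (nat_lit 5772518307) (nat_lit 439) (nat_lit 5) (nat_lit 438) (nat_lit 5) (nat_lit 462) (nat_lit 5) (nat_lit 462) (nat_lit 447) (nat_lit 231)) (XT.lf (nat_lit 0) (nat_lit 13414354056) (nat_lit 1748) (nat_lit 173299045) (nat_lit 1824) (nat_lit 4611481233) (nat_lit 439) (nat_lit 5) (nat_lit 462) (nat_lit 5) (nat_lit 463) (nat_lit 5) (nat_lit 463) (nat_lit 447) (nat_lit 230))))) (XT.nd (nat_lit 234) (nat_lit 1672) (nat_lit 0) (XT.nd (nat_lit 78) (nat_lit 0) (nat_lit 76) (XT.lf (nat_lit 76) (nat_lit 9210682433) (nat_lit 0) (nat_lit 5478486938) (nat_lit 1824) (nat_lit 3698096861) (nat_lit 440) (nat_lit 5) (nat_lit 439) (nat_lit 5) (nat_lit 463) (nat_lit 5) (nat_lit 464) (nat_lit 447) (nat_lit 229)) (XT.nd (nat_lit 78) (nat_lit 0) (nat_lit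 0) (XT.lf (nat_lit 76) (nat_lit 185791274) (nat_lit 0) (nat_lit 15818888050) (nat_lit 1824) (nat_lit 2574178971) (nat_lit 441) (nat_lit 5) (nat_lit 440) (nat_lit 5) (nat_lit 464) (nat_lit 5) (nat_lit 465) (nat_lit 447) (nat_lit 228)) (XT.lf (nat_lit 76) (nat_lit 9819008298) (nat_lit 0) (nat_lit 7619879834) (nat_lit 1824) (nat_lit 1333547759) (nat_lit 441) (nat_lit 5) (nat_lit 440) (nat_lit 5) (nat_lit 464) (nat_lit 5) (nat_lit 466) (nat_lit 447) (nat_lit 227)))) (XT.nd (nat_lit 78) (nat_lit 1824) (nat_lit 0) (XT.lf (nat_lit 76) (nat_lit 674966525) (nat_lit 0) (nat_lit 18230898211) (nat_lit 1824) (nat_lit 63940066) (nat_lit 442) (nat_lit 5) (nat_lit 441) (nat_lit 5) (nat_lit 465) (nat_lit 5) (nat_lit 467) (nat_lit 447) (nat_lit 226)) (XT.nd (nat_lit 78) (nat_lit 0) (nat_lit 0) (XT.lf (nat_lit 0) (nat_lit 1320773041) (nat_lit 1824) (nat_lit 8615586235) (nat_lit 1900) (nat_lit 9232486161) (nat_lit 417) (nat_lit 5) (nat_lit 441)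 (nat_lit 5) (nat_lit 442) (nat_lit 5) (nat_lit 468) (nat_lit 447) (nat_lit 225)) (XT.lf (nat_lit 76) (nat_lit 1269449156) (nat_lit 0) (nat_lit 1466133637) (nat_lit 1900) (nat_lit 16636211821) (nat_lit 418) (nat_lit 5) (nat_lit 417) (nat_lit 5) (nat_lit 442) (nat_lit 5) (nat_lit 469) (nat_lit 447) (nat_lit 224)))))) (XT.nd (nat_lit 390) (nat_lit 2736) (nat_lit 0) (XT.nd (nat_lit 156) (nat_lit 1216) (nat_lit 0) (XT.nd (nat_lit 78) (nat_lit 0) (nat_lit 0) (XT.lf (nat_lit 0) (nat_lit 4278555147) (nat_lit 1824) (nat_lit 8159738964) (nat_lit 1900) (nat_lit 7138512662) (nat_lit 418) (nat_lit 5) (nat_lit 442) (nat_lit 5) (nat_lit 443) (nat_lit 5) (nat_lit 470) (nat_lit 447) (nat_lit 223)) (XT.lf (nat_lit 76) (nat_lit 1994137852) (nat_lit 0) (nat_lit 3876095374) (nat_lit 1900) (nat_lit 13915330324) (nat_lit 419) (nat_lit 5) (nat_lit 418) (nat_lit 5) (nat_lit 443) (nat_lit 5) (nat_lit 471) (nat_lit 447) (nat_lit 222))) (XT.nd (nat_lit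 78) (nat_lit 1292) (nat_lit 0) (XT.lf (nat_lit 0) (nat_lit 7575663454) (nat_lit 1824) (nat_lit 7571700715) (nat_lit 76) (nat_lit 4849494197) (nat_lit 419) (nat_lit 5) (nat_lit 443) (nat_lit 5) (nat_lit 420) (nat_lit 5) (nat_lit 472) (nat_lit 447) (nat_lit 221)) (XT.nd (nat_lit 78) (nat_lit 0) (nat_lit 0) (XT.lf (nat_lit 0) (nat_lit 2860242003) (nat_lit 1292) (nat_lit 6494555964) (nat_lit 1368) (nat_lit 10856790448) (nat_lit 402) (nat_lit 5) (nat_lit 419) (nat_lit 5) (nat_lit 420) (nat_lit 5) (nat_lit 473) (nat_lit 447) (nat_lit 220)) (XT.lf (nat_lit 0) (nat_lit 11231222690) (nat_lit 1368) (nat_lit 6845699798) (nat_lit 76) (nat_lit 2352457652) (nat_lit 402) (nat_lit 5) (nat_lit 420) (nat_lit 5) (nat_lit 403) (nat_lit 5) (nat_lit 474) (nat_lit 447) (nat_lit 219))))) (XT.nd (nat_lit 234) (nat_lit 988) (nat_lit 0) (XT.nd (nat_lit 78) (nat_lit 836) (nat_lit 0) (XT.lf (nat_lit 0) (nat_lit 3873845809) (nat_lit 912) (nat_lit 9335006223)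 (nat_lit 988) (nat_lit 7441403346) (nat_lit 390) (nat_lit 5) (nat_lit 402) (nat_lit 5) (nat_lit 403) (nat_lit 5) (nat_lit 475) (nat_lit 447) (nat_lit 218)) (XT.nd (nat_lit 78) (nat_lit 836) (nat_lit 0) (XT.lf (nat_lit 0) (nat_lit 14896594152) (nat_lit 912) (nat_lit 370954396) (nat_lit 988) (nat_lit 5607170458) (nat_lit 390) (nat_lit 5) (nat_lit 402) (nat_lit 5) (nat_lit 403) (nat_lit 5) (nat_lit 476) (nat_lit 447) (nat_lit 217)) (XT.lf (nat_lit 0) (nat_lit 5041290862) (nat_lit 836) (nat_lit 12411481515) (nat_lit 912) (nat_lit 3649193618) (nat_lit 379) (nat_lit 5) (nat_lit 390) (nat_lit 5) (nat_lit 391) (nat_lit 5) (nat_lit 477) (nat_lit 447) (nat_lit 216)))) (XT.nd (nat_lit 78) (nat_lit 988) (nat_lit 0) (XT.lf (nat_lit 0) (nat_lit 16355670912) (nat_lit 836) (nat_lit 3364311711) (nat_lit 912) (nat_lit 1613010793) (nat_lit 379) (nat_lit 5) (nat_lit 390) (nat_lit 5) (nat_lit 391) (nat_lit 5) (nat_lit 478) (nat_lit 447) (nat_lit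 215)) (XT.nd (nat_lit 78) (nat_lit 0) (nat_lit 0) (XT.lf (nat_lit 0) (nat_lit 533544245) (nat_lit 988) (nat_lit 15201468296) (nat_lit 76) (nat_lit 5832055042) (nat_lit 366) (nat_lit 5) (nat_lit 379) (nat_lit 5) (nat_lit 367) (nat_lit 5) (nat_lit 479) (nat_lit 447) (nat_lit 214)) (XT.lf (nat_lit 0) (nat_lit 2753193104) (nat_lit 988) (nat_lit 3839499352) (nat_lit 76) (nat_lit 15211883385) (nat_lit 366) (nat_lit 5) (nat_lit 379) (nat_lit 5) (nat_lit 367) (nat_lit 5) (nat_lit 480) (nat_lit 447) (nat_lit 213))))))) (XT.nd (nat_lit 858) (nat_lit 4712) (nat_lit 0) (XT.nd (nat_lit 390) (nat_lit 2356) (nat_lit 0) (XT.nd (nat_lit 156) (nat_lit 1596) (nat_lit 0) (XT.nd (nat_lit 78) (nat_lit 0) (nat_lit 0) (XT.lf (nat_lit 0) (nat_lit 5082193966) (nat_lit 912) (nat_lit 14215261265) (nat_lit 76) (nat_lit 2748080898) (nat_lit 355) (nat_lit 5) (nat_lit 367) (nat_lit 5) (nat_lit 356) (nat_lit 5) (nat_lit 481) (nat_lit 447) (nat_lit 212)) (XT.lf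 (nat_lit 0) (nat_lit 7523346651) (nat_lit 912) (nat_lit 2553127980) (nat_lit 76) (nat_lit 12213530582) (nat_lit 355) (nat_lit 5) (nat_lit 367) (nat_lit 5) (nat_lit 356) (nat_lit 5) (nat_lit 482) (nat_lit 447) (nat_lit 211))) (XT.nd (nat_lit 78) (nat_lit 760) (nat_lit 0) (XT.lf (nat_lit 0) (nat_lit 9462440953) (nat_lit 836) (nat_lit 608372681) (nat_lit 912) (nat_lit 12467401225) (nat_lit 344) (nat_lit 5) (nat_lit 355) (nat_lit 5) (nat_lit 356) (nat_lit 5) (nat_lit 483) (nat_lit 447) (nat_lit 210)) (XT.nd (nat_lit 78) (nat_lit 760) (nat_lit 0) (XT.lf (nat_lit 0) (nat_lit 12741335970) (nat_lit 912) (nat_lit 1100944449) (nat_lit 76) (nat_lit 8947667144) (nat_lit 344) (nat_lit 5) (nat_lit 356) (nat_lit 5) (nat_lit 345) (nat_lit 5) (nat_lit 484) (nat_lit 447) (nat_lit 209)) (XT.lf (nat_lit 0) (nat_lit 11253054325) (nat_lit 760) (nat_lit 4285489026) (nat_lit 836) (nat_lit 7506707044) (nat_lit 334) (nat_lit 5) (nat_lit 344) (nat_lit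 5) (nat_lit 345) (nat_lit 5) (nat_lit 485) (nat_lit 447) (nat_lit 208))))) (XT.nd (nat_lit 234) (nat_lit 760) (nat_lit 0) (XT.nd (nat_lit 78) (nat_lit 836) (nat_lit 0) (XT.lf (nat_lit 0) (nat_lit 531061122) (nat_lit 760) (nat_lit 17903216911) (nat_lit 836) (nat_lit 4870530536) (nat_lit 324) (nat_lit 5) (nat_lit 334) (nat_lit 5) (nat_lit 335) (nat_lit 5) (nat_lit 486) (nat_lit 447) (nat_lit 207)) (XT.nd (nat_lit 78) (nat_lit 836) (nat_lit 0) (XT.lf (nat_lit 0) (nat_lit 13227963495) (nat_lit 760) (nat_lit 8263570793) (nat_lit 836) (nat_lit 2075952408) (nat_lit 324) (nat_lit 5) (nat_lit 334) (nat_lit 5) (nat_lit 335) (nat_lit 5) (nat_lit 487) (nat_lit 447) (nat_lit 206)) (XT.lf (nat_lit 0) (nat_lit 786366428) (nat_lit 836) (nat_lit 21479905386) (nat_lit 76) (nat_lit 1568606749) (nat_lit 313) (nat_lit 5) (nat_lit 324) (nat_lit 5) (nat_lit 314) (nat_lit 5) (nat_lit 488) (nat_lit 447) (nat_lit 205)))) (XT.nd (nat_lit 78) (nat_lit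 760) (nat_lit 0) (XT.lf (nat_lit 0) (nat_lit 3799103745) (nat_lit 836) (nat_lit 8735577069) (nat_lit 76) (nat_lit 11570244506) (nat_lit 313) (nat_lit 5) (nat_lit 324) (nat_lit 5) (nat_lit 314) (nat_lit 5) (nat_lit 489) (nat_lit 447) (nat_lit 204)) (XT.nd (nat_lit 78) (nat_lit 0) (nat_lit 0) (XT.lf (nat_lit 0) (nat_lit 4316397396) (nat_lit 760) (nat_lit 2580168769) (nat_lit 836) (nat_lit 17483318299) (nat_lit 303) (nat_lit 5) (nat_lit 313) (nat_lit 5) (nat_lit 314) (nat_lit 5) (nat_lit 490) (nat_lit 447) (nat_lit 203)) (XT.lf (nat_lit 0) (nat_lit 10160646373) (nat_lit 836) (nat_lit 6964800350) (nat_lit 76) (nat_lit 7532803536) (nat_lit 303) (nat_lit 5) (nat_lit 314) (nat_lit 5) (nat_lit 304) (nat_lit 5) (nat_lit 491) (nat_lit 447) (nat_lit 202)))))) (XT.nd (nat_lit 468) (nat_lit 2584) (nat_lit 0) (XT.nd (nat_lit 234) (nat_lit 760) (nat_lit 0) (XT.nd (nat_lit 78) (nat_lit 684) (nat_lit 0) (XT.lf (nat_lit 0) (nat_lit 6459674649)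 (nat_lit 684) (nat_lit 7085918348) (nat_lit 760) (nat_lit 11395479502) (nat_lit 294) (nat_lit 5) (nat_lit 303) (nat_lit 5) (nat_lit 304) (nat_lit 5) (nat_lit 492) (nat_lit 447) (nat_lit 201)) (XT.nd (nat_lit 78) (nat_lit 684) (nat_lit 0) (XT.lf (nat_lit 0) (nat_lit 17062363453) (nat_lit 760) (nat_lit 5006216740) (nat_lit 76) (nat_lit 3159689304) (nat_lit 294) (nat_lit 5) (nat_lit 304) (nat_lit 5) (nat_lit 295) (nat_lit 5) (nat_lit 493) (nat_lit 447) (nat_lit 200)) (XT.lf (nat_lit 0) (nat_lit 8803213606) (nat_lit 684) (nat_lit 11947002780) (nat_lit 760) (nat_lit 4768979897) (nat_lit 285) (nat_lit 5) (nat_lit 294) (nat_lit 5) (nat_lit 295) (nat_lit 5) (nat_lit 494) (nat_lit 447) (nat_lit 199)))) (XT.nd (nat_lit 78) (nat_lit 760) (nat_lit 0) (XT.lf (nat_lit 0) (nat_lit 22952934533) (nat_lit 684) (nat_lit 1589191358) (nat_lit 760) (nat_lit 1273210502) (nat_lit 285) (nat_lit 5) (nat_lit 294) (nat_lit 5) (nat_lit 295) (nat_lit 5)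 (nat_lit 495) (nat_lit 447) (nat_lit 198)) (XT.nd (nat_lit 78) (nat_lit 0) (nat_lit 0) (XT.lf (nat_lit 0) (nat_lit 2392028772) (nat_lit 760) (nat_lit 14775410322) (nat_lit 76) (nat_lit 8947070858) (nat_lit 275) (nat_lit 5) (nat_lit 285) (nat_lit 5) (nat_lit 276) (nat_lit 5) (nat_lit 496) (nat_lit 447) (nat_lit 197)) (XT.lf (nat_lit 0) (nat_lit 6140184506) (nat_lit 760) (nat_lit 578700712) (nat_lit 76) (nat_lit 19700080979) (nat_lit 275) (nat_lit 5) (nat_lit 285) (nat_lit 5) (nat_lit 276) (nat_lit 5) (nat_lit 497) (nat_lit 447) (nat_lit 196))))) (XT.nd (nat_lit 234) (nat_lit 1292) (nat_lit 0) (XT.nd (nat_lit 78) (nat_lit 608) (nat_lit 0) (XT.lf (nat_lit 0) (nat_lit 10077760718) (nat_lit 760) (nat_lit 12670969690) (nat_lit 76) (nat_lit 3978492730) (nat_lit 266) (nat_lit 5) (nat_lit 276) (nat_lit 5) (nat_lit 267) (nat_lit 5) (nat_lit 498) (nat_lit 447) (nat_lit 195)) (XT.nd (nat_lit 78) (nat_lit 0) (nat_lit 0) (XT.lf (nat_lit 0)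 (nat_lit 1927210230) (nat_lit 608) (nat_lit 12224677603) (nat_lit 684) (nat_lit 12888602101) (nat_lit 258) (nat_lit 5) (nat_lit 266) (nat_lit 5) (nat_lit 267) (nat_lit 5) (nat_lit 499) (nat_lit 447) (nat_lit 194)) (XT.lf (nat_lit 0) (nat_lit 16985409185) (nat_lit 608) (nat_lit 1404035904) (nat_lit 684) (nat_lit 8968938714) (nat_lit 258) (nat_lit 5) (nat_lit 266) (nat_lit 5) (nat_lit 267) (nat_lit 5) (nat_lit 500) (nat_lit 447) (nat_lit 193)))) (XT.nd (nat_lit 78) (nat_lit 684) (nat_lit 0) (XT.lf (nat_lit 0) (nat_lit 4656982358) (nat_lit 608) (nat_lit 18144526481) (nat_lit 684) (nat_lit 4879332280) (nat_lit 250) (nat_lit 5) (nat_lit 258) (nat_lit 5) (nat_lit 259) (nat_lit 5) (nat_lit 501) (nat_lit 447) (nat_lit 192)) (XT.nd (nat_lit 78) (nat_lit 684) (nat_lit 0) (XT.lf (nat_lit 0) (nat_lit 20115061893) (nat_lit 608) (nat_lit 7262607880) (nat_lit 684) (nat_lit 630561356) (nat_lit 250) (nat_lit 5) (nat_lit 258) (nat_lit 5) (nat_lit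 259) (nat_lit 5) (nat_lit 502) (nat_lit 447) (nat_lit 191)) (XT.lf (nat_lit 0) (nat_lit 3726484537) (nat_lit 684) (nat_lit 20753857390) (nat_lit 76) (nat_lit 3859909427) (nat_lit 241) (nat_lit 5) (nat_lit 250) (nat_lit 5) (nat_lit 242) (nat_lit 5) (nat_lit 503) (nat_lit 447) (nat_lit 190))))))))
noncomputable def xc231 : XT := (XT.nd (nat_lit 56628) (nat_lit 0) (nat_lit 4712) (XT.nd (nat_lit 55770) (nat_lit 0) (nat_lit 13376) (XT.nd (nat_lit 55302) (nat_lit 0) (nat_lit 14592) (XT.nd (nat_lit 55068) (nat_lit 0) (nat_lit 14516) (XT.nd (nat_lit 54990) (nat_lit 0) (nat_lit 14516) (XT.lf (nat_lit 0) (nat_lit 8260730086) (nat_lit 684) (nat_lit 5251595406) (nat_lit 76) (nat_lit 15164533717) (nat_lit 241) (nat_lit 5) (nat_lit 250) (nat_lit 5) (nat_lit 242) (nat_lit 5) (nat_lit 504) (nat_lit 447) (nat_lit 189)) (XT.lf (nat_lit 0) (nat_lit 621798498) (nat_lit 0) (nat_lit 621798498) (nat_lit 1748) (nat_lit 6670646192) (nat_lit 432) (nat_lit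 5) (nat_lit 432) (nat_lit 3) (nat_lit 455) (nat_lit 3) (nat_lit 448) (nat_lit 448) (nat_lit 244))) (XT.nd (nat_lit 78) (nat_lit 0) (nat_lit 0) (XT.lf (nat_lit 0) (nat_lit 2816951334) (nat_lit 1748) (nat_lit 6993396831) (nat_lit 1824) (nat_lit 6170250230) (nat_lit 432) (nat_lit 5) (nat_lit 455) (nat_lit 3) (nat_lit 456) (nat_lit 5) (nat_lit 449) (nat_lit 448) (nat_lit 243)) (XT.nd (nat_lit 78) (nat_lit 0) (nat_lit 76) (XT.lf (nat_lit 76) (nat_lit 747868906) (nat_lit 0) (nat_lit 2411616356) (nat_lit 1824) (nat_lit 12976145730) (nat_lit 433) (nat_lit 5) (nat_lit 432) (nat_lit 5) (nat_lit 456) (nat_lit 5) (nat_lit 450) (nat_lit 448) (nat_lit 242)) (XT.lf (nat_lit 0) (nat_lit 3582673293) (nat_lit 1748) (nat_lit 7591483661) (nat_lit 1824) (nat_lit 5118133152) (nat_lit 433) (nat_lit 5) (nat_lit 456) (nat_lit 5) (nat_lit 457) (nat_lit 5) (nat_lit 451) (nat_lit 448) (nat_lit 241))))) (XT.nd (nat_lit 234) (nat_lit 0) (nat_lit 152) (XT.nd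 (nat_lit 78) (nat_lit 0) (nat_lit 76) (XT.lf (nat_lit 76) (nat_lit 345591567) (nat_lit 0) (nat_lit 3680304028) (nat_lit 1824) (nat_lit 12425957292) (nat_lit 434) (nat_lit 5) (nat_lit 433) (nat_lit 5) (nat_lit 457) (nat_lit 5) (nat_lit 452) (nat_lit 448) (nat_lit 240)) (XT.nd (nat_lit 78) (nat_lit 0) (nat_lit 0) (XT.lf (nat_lit 0) (nat_lit 4548476611) (nat_lit 1748) (nat_lit 8099163038) (nat_lit 1824) (nat_lit 3965559245) (nat_lit 434) (nat_lit 5) (nat_lit 457) (nat_lit 5) (nat_lit 458) (nat_lit 5) (nat_lit 453) (nat_lit 448) (nat_lit 239)) (XT.lf (nat_lit 76) (nat_lit 40492983) (nat_lit 0) (nat_lit 5059260727) (nat_lit 1824) (nat_lit 11677655044) (nat_lit 435) (nat_lit 5) (nat_lit 434) (nat_lit 5) (nat_lit 458) (nat_lit 5) (nat_lit 454) (nat_lit 448) (nat_lit 238)))) (XT.nd (nat_lit 78) (nat_lit 0) (nat_lit 0) (XT.lf (nat_lit 0) (nat_lit 5727898584) (nat_lit 1748) (nat_lit 8512715517) (nat_lit 1824) (nat_lit 2702973650) (nat_lit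 435) (nat_lit 5) (nat_lit 458) (nat_lit 5) (nat_lit 459) (nat_lit 5) (nat_lit 455) (nat_lit 448) (nat_lit 237)) (XT.nd (nat_lit 78) (nat_lit 0) (nat_lit 76) (XT.lf (nat_lit 0) (nat_lit 6395960966) (nat_lit 1748) (nat_lit 161322661) (nat_lit 1824) (nat_lit 10555261359) (nat_lit 435) (nat_lit 5) (nat_lit 458) (nat_lit 5) (nat_lit 459) (nat_lit 5) (nat_lit 456) (nat_lit 448) (nat_lit 236)) (XT.lf (nat_lit 0) (nat_lit 7134998999) (nat_lit 1748) (nat_lit 8828194263) (nat_lit 1824) (nat_lit 1320537531) (nat_lit 436) (nat_lit 5) (nat_lit 459) (nat_lit 5) (nat_lit 460) (nat_lit 5) (nat_lit 457) (nat_lit 448) (nat_lit 235)))))) (XT.nd (nat_lit 390) (nat_lit 1444) (nat_lit 0) (XT.nd (nat_lit 156) (nat_lit 0) (nat_lit 76) (XT.nd (nat_lit 78) (nat_lit 0) (nat_lit 0) (XT.lf (nat_lit 0) (nat_lit 7927412296) (nat_lit 1748) (nat_lit 258654564) (nat_lit 1824) (nat_lit 9271503249) (nat_lit 436) (nat_lit 5) (nat_lit 459) (nat_lit 5) (nat_lit 460)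 (nat_lit 5) (nat_lit 458) (nat_lit 448) (nat_lit 234)) (XT.lf (nat_lit 76) (nat_lit 8591203372) (nat_lit 0) (nat_lit 194445426) (nat_lit 1824) (nat_lit 8848239562) (nat_lit 437) (nat_lit 5) (nat_lit 436) (nat_lit 5) (nat_lit 460) (nat_lit 5) (nat_lit 459) (nat_lit 448) (nat_lit 233))) (XT.nd (nat_lit 78) (nat_lit 0) (nat_lit 0) (XT.lf (nat_lit 0) (nat_lit 9708757145) (nat_lit 1748) (nat_lit 247659269) (nat_lit 1824) (nat_lit 7856364039) (nat_lit 437) (nat_lit 5) (nat_lit 460) (nat_lit 5) (nat_lit 461) (nat_lit 5) (nat_lit 460) (nat_lit 448) (nat_lit 232)) (XT.nd (nat_lit 78) (nat_lit 0) (nat_lit 76) (XT.lf (nat_lit 76) (nat_lit 8834063170) (nat_lit 0) (nat_lit 1869318345) (nat_lit 1824) (nat_lit 7290809380) (nat_lit 438) (nat_lit 5) (nat_lit 437) (nat_lit 5) (nat_lit 461) (nat_lit 5) (nat_lit 461) (nat_lit 448) (nat_lit 231)) (XT.lf (nat_lit 0) (nat_lit 11755497577) (nat_lit 1748) (nat_lit 123724857) (nat_lit 1824) (nat_lit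 6299256682) (nat_lit 438) (nat_lit 5) (nat_lit 461) (nat_lit 5) (nat_lit 462) (nat_lit 5) (nat_lit 462) (nat_lit 448) (nat_lit 230))))) (XT.nd (nat_lit 234) (nat_lit 1596) (nat_lit 0) (XT.nd (nat_lit 78) (nat_lit 0) (nat_lit 76) (XT.lf (nat_lit 76) (nat_lit 9197859426) (nat_lit 0) (nat_lit 3697508638) (nat_lit 1824) (nat_lit 5469752320) (nat_lit 439) (nat_lit 5) (nat_lit 438) (nat_lit 5) (nat_lit 462) (nat_lit 5) (nat_lit 463) (nat_lit 448) (nat_lit 229)) (XT.nd (nat_lit 78) (nat_lit 0) (nat_lit 0) (XT.lf (nat_lit 76) (nat_lit 119569290) (nat_lit 0) (nat_lit 13964960567) (nat_lit 1824) (nat_lit 4470436234) (nat_lit 440) (nat_lit 5) (nat_lit 439) (nat_lit 5) (nat_lit 463) (nat_lit 5) (nat_lit 464) (nat_lit 448) (nat_lit 228)) (XT.lf (nat_lit 76) (nat_lit 9687722974) (nat_lit 0) (nat_lit 5690378460) (nat_lit 1824) (nat_lit 3368896213) (nat_lit 440) (nat_lit 5) (nat_lit 439) (nat_lit 5) (nat_lit 463) (nat_lit 5) (nat_lit 465) (nat_lit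 448) (nat_lit 227)))) (XT.nd (nat_lit 78) (nat_lit 1748) (nat_lit 0) (XT.lf (nat_lit 76) (nat_lit 489028656) (nat_lit 0) (nat_lit 16224438294) (nat_lit 1824) (nat_lit 2229085869) (nat_lit 441) (nat_lit 5) (nat_lit 440) (nat_lit 5) (nat_lit 464) (nat_lit 5) (nat_lit 466) (nat_lit 448) (nat_lit 226)) (XT.nd (nat_lit 78) (nat_lit 1748) (nat_lit 0) (XT.lf (nat_lit 76) (nat_lit 10309037048) (nat_lit 0) (nat_lit 7859701434) (nat_lit 1824) (nat_lit 971418046) (nat_lit 441) (nat_lit 5) (nat_lit 440) (nat_lit 5) (nat_lit 464) (nat_lit 5) (nat_lit 467) (nat_lit 448) (nat_lit 225)) (XT.lf (nat_lit 0) (nat_lit 313214660) (nat_lit 1824) (nat_lit 18355233492) (nat_lit 1900) (nat_lit 673107163) (nat_lit 417) (nat_lit 5) (nat_lit 441) (nat_lit 5) (nat_lit 442) (nat_lit 5) (nat_lit 468) (nat_lit 448) (nat_lit 224))))))) (XT.nd (nat_lit 858) (nat_lit 5776) (nat_lit 0) (XT.nd (nat_lit 390) (nat_lit 2888) (nat_lit 0) (XT.nd (nat_lit 156) (nat_lit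 0) (nat_lit 76) (XT.nd (nat_lit 78) (nat_lit 0) (nat_lit 0) (XT.lf (nat_lit 0) (nat_lit 1717363180) (nat_lit 1824) (nat_lit 8488801776) (nat_lit 1900) (nat_lit 9338553418) (nat_lit 417) (nat_lit 5) (nat_lit 441) (nat_lit 5) (nat_lit 442) (nat_lit 5) (nat_lit 469) (nat_lit 448) (nat_lit 223)) (XT.lf (nat_lit 76) (nat_lit 1591966584) (nat_lit 0) (nat_lit 1563173371) (nat_lit 1900) (nat_lit 16596695134) (nat_lit 418) (nat_lit 5) (nat_lit 417) (nat_lit 5) (nat_lit 442) (nat_lit 5) (nat_lit 470) (nat_lit 448) (nat_lit 222))) (XT.nd (nat_lit 78) (nat_lit 0) (nat_lit 0) (XT.lf (nat_lit 0) (nat_lit 4721386879) (nat_lit 1824) (nat_lit 8023949894) (nat_lit 1900) (nat_lit 7215764347) (nat_lit 418) (nat_lit 5) (nat_lit 442) (nat_lit 5) (nat_lit 443) (nat_lit 5) (nat_lit 471) (nat_lit 448) (nat_lit 221)) (XT.nd (nat_lit 78) (nat_lit 0) (nat_lit 76) (XT.lf (nat_lit 76) (nat_lit 2331037460) (nat_lit 0) (nat_lit 4008784380) (nat_lit 1900) (nat_lit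 13834314620) (nat_lit 419) (nat_lit 5) (nat_lit 418) (nat_lit 5) (nat_lit 443) (nat_lit 5) (nat_lit 472) (nat_lit 448) (nat_lit 220)) (XT.lf (nat_lit 0) (nat_lit 8072103947) (nat_lit 1824) (nat_lit 7424592186) (nat_lit 76) (nat_lit 4893108030) (nat_lit 419) (nat_lit 5) (nat_lit 443) (nat_lit 5) (nat_lit 420) (nat_lit 5) (nat_lit 473) (nat_lit 448) (nat_lit 219))))) (XT.nd (nat_lit 234) (nat_lit 836) (nat_lit 0) (XT.nd (nat_lit 78) (nat_lit 912) (nat_lit 0) (XT.lf (nat_lit 0) (nat_lit 3214025291) (nat_lit 1292) (nat_lit 6667958164) (nat_lit 1368) (nat_lit 10726943932) (nat_lit 402) (nat_lit 5) (nat_lit 419) (nat_lit 5) (nat_lit 420) (nat_lit 5) (nat_lit 474) (nat_lit 448) (nat_lit 218)) (XT.nd (nat_lit 78) (nat_lit 912) (nat_lit 0) (XT.lf (nat_lit 0) (nat_lit 11788991286) (nat_lit 1368) (nat_lit 6684816003) (nat_lit 76) (nat_lit 2357408349) (nat_lit 402) (nat_lit 5) (nat_lit 420) (nat_lit 5) (nat_lit 403) (nat_lit 5) (nat_lit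 475) (nat_lit 448) (nat_lit 217)) (XT.lf (nat_lit 0) (nat_lit 4247161320) (nat_lit 912) (nat_lit 9554400437) (nat_lit 988) (nat_lit 7255040602) (nat_lit 390) (nat_lit 5) (nat_lit 402) (nat_lit 5) (nat_lit 403) (nat_lit 5) (nat_lit 476) (nat_lit 448) (nat_lit 216)))) (XT.nd (nat_lit 78) (nat_lit 836) (nat_lit 0) (XT.lf (nat_lit 0) (nat_lit 15484563873) (nat_lit 912) (nat_lit 410426513) (nat_lit 988) (nat_lit 5390695425) (nat_lit 390) (nat_lit 5) (nat_lit 402) (nat_lit 5) (nat_lit 403) (nat_lit 5) (nat_lit 477) (nat_lit 448) (nat_lit 215)) (XT.nd (nat_lit 78) (nat_lit 0) (nat_lit 0) (XT.lf (nat_lit 0) (nat_lit 5436937744) (nat_lit 836) (nat_lit 12682375586) (nat_lit 912) (nat_lit 3398258199) (nat_lit 379) (nat_lit 5) (nat_lit 390) (nat_lit 5) (nat_lit 391) (nat_lit 5) (nat_lit 478) (nat_lit 448) (nat_lit 214)) (XT.lf (nat_lit 0) (nat_lit 16971824589) (nat_lit 836) (nat_lit 3453817985) (nat_lit 912) (nat_lit 1327703076) (nat_lit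 379) (nat_lit 5) (nat_lit 390) (nat_lit 5) (nat_lit 391) (nat_lit 5) (nat_lit 479) (nat_lit 448) (nat_lit 213)))))) (XT.nd (nat_lit 468) (nat_lit 3116) (nat_lit 0) (XT.nd (nat_lit 234) (nat_lit 836) (nat_lit 0) (XT.nd (nat_lit 78) (nat_lit 836) (nat_lit 0) (XT.lf (nat_lit 0) (nat_lit 853249101) (nat_lit 988) (nat_lit 15207763404) (nat_lit 76) (nat_lit 5931136523) (nat_lit 366) (nat_lit 5) (nat_lit 379) (nat_lit 5) (nat_lit 367) (nat_lit 5) (nat_lit 480) (nat_lit 448) (nat_lit 212)) (XT.nd (nat_lit 78) (nat_lit 836) (nat_lit 0) (XT.lf (nat_lit 0) (nat_lit 3111231448) (nat_lit 988) (nat_lit 3624393008) (nat_lit 76) (nat_lit 15498905739) (nat_lit 366) (nat_lit 5) (nat_lit 379) (nat_lit 5) (nat_lit 367) (nat_lit 5) (nat_lit 481) (nat_lit 448) (nat_lit 211)) (XT.lf (nat_lit 0) (nat_lit 5482696320) (nat_lit 912) (nat_lit 14203478002) (nat_lit 76) (nat_lit 2794219211) (nat_lit 355) (nat_lit 5) (nat_lit 367) (nat_lit 5) (nat_lit 356)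 (nat_lit 5) (nat_lit 482) (nat_lit 448) (nat_lit 210)))) (XT.nd (nat_lit 78) (nat_lit 836) (nat_lit 0) (XT.lf (nat_lit 0) (nat_lit 7966812088) (nat_lit 912) (nat_lit 2313907708) (nat_lit 76) (nat_lit 12449150894) (nat_lit 355) (nat_lit 5) (nat_lit 367) (nat_lit 5) (nat_lit 356) (nat_lit 5) (nat_lit 483) (nat_lit 448) (nat_lit 209)) (XT.nd (nat_lit 78) (nat_lit 0) (nat_lit 0) (XT.lf (nat_lit 0) (nat_lit 9940062848) (nat_lit 836) (nat_lit 621292803) (nat_lit 912) (nat_lit 12421767797) (nat_lit 344) (nat_lit 5) (nat_lit 355) (nat_lit 5) (nat_lit 356) (nat_lit 5) (nat_lit 484) (nat_lit 448) (nat_lit 208)) (XT.lf (nat_lit 0) (nat_lit 13279614511) (nat_lit 912) (nat_lit 834498955) (nat_lit 76) (nat_lit 9125892254) (nat_lit 344) (nat_lit 5) (nat_lit 356) (nat_lit 5) (nat_lit 345) (nat_lit 5) (nat_lit 485) (nat_lit 448) (nat_lit 207))))) (XT.nd (nat_lit 234) (nat_lit 1596) (nat_lit 0) (XT.nd (nat_lit 78) (nat_lit 760) (nat_lit 0) (XT.lf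 (nat_lit 0) (nat_lit 11764682002) (nat_lit 760) (nat_lit 4364386739) (nat_lit 836) (nat_lit 7371421221) (nat_lit 334) (nat_lit 5) (nat_lit 344) (nat_lit 5) (nat_lit 345) (nat_lit 5) (nat_lit 486) (nat_lit 448) (nat_lit 206)) (XT.nd (nat_lit 78) (nat_lit 0) (nat_lit 0) (XT.lf (nat_lit 0) (nat_lit 831947859) (nat_lit 760) (nat_lit 18247212831) (nat_lit 836) (nat_lit 4686151136) (nat_lit 324) (nat_lit 5) (nat_lit 334) (nat_lit 5) (nat_lit 335) (nat_lit 5) (nat_lit 487) (nat_lit 448) (nat_lit 205)) (XT.lf (nat_lit 0) (nat_lit 13777096799) (nat_lit 760) (nat_lit 8415049642) (nat_lit 836) (nat_lit 1841206740) (nat_lit 324) (nat_lit 5) (nat_lit 334) (nat_lit 5) (nat_lit 335) (nat_lit 5) (nat_lit 488) (nat_lit 448) (nat_lit 204)))) (XT.nd (nat_lit 78) (nat_lit 760) (nat_lit 0) (XT.lf (nat_lit 0) (nat_lit 1071360340) (nat_lit 836) (nat_lit 21617800039) (nat_lit 76) (nat_lit 1616965431) (nat_lit 313) (nat_lit 5) (nat_lit 324) (nat_lit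 5) (nat_lit 314) (nat_lit 5) (nat_lit 489) (nat_lit 448) (nat_lit 203)) (XT.nd (nat_lit 78) (nat_lit 760) (nat_lit 0) (XT.lf (nat_lit 0) (nat_lit 4139072666) (nat_lit 836) (nat_lit 8624304832) (nat_lit 76) (nat_lit 11818302873) (nat_lit 313) (nat_lit 5) (nat_lit 324) (nat_lit 5) (nat_lit 314) (nat_lit 5) (nat_lit 490) (nat_lit 448) (nat_lit 202)) (XT.lf (nat_lit 0) (nat_lit 4686827650) (nat_lit 760) (nat_lit 2608325052) (nat_lit 836) (nat_lit 17567053877) (nat_lit 303) (nat_lit 5) (nat_lit 313) (nat_lit 5) (nat_lit 314) (nat_lit 5) (nat_lit 491) (nat_lit 448) (nat_lit 201))))))))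
noncomputable def xc232 : XT := (XT.nd (nat_lit 56706) (nat_lit 0) (nat_lit 10488) (XT.nd (nat_lit 858) (nat_lit 684) (nat_lit 0) (XT.nd (nat_lit 390) (nat_lit 2660) (nat_lit 0) (XT.nd (nat_lit 156) (nat_lit 684) (nat_lit 0) (XT.nd (nat_lit 78) (nat_lit 684) (nat_lit 0) (XT.lf (nat_lit 0) (nat_lit 10619552877) (nat_lit 836) (nat_lit 6820541803) (nat_lit 76) (nat_lit 7706145469) (nat_lit 303) (nat_lit 5) (nat_lit 314) (nat_lit 5) (nat_lit 304) (nat_lit 5) (nat_lit 492) (nat_lit 448) (nat_lit 200)) (XT.lf (nat_lit 0) (nat_lit 6870557207) (nat_lit 684) (nat_lit 7198456540) (nat_lit 760) (nat_lit 11365769982) (nat_lit 294) (nat_lit 5) (nat_lit 303) (nat_lit 5) (nat_lit 304) (nat_lit 5) (nat_lit 493) (nat_lit 448) (nat_lit 199))) (XT.nd (nat_lit 78) (nat_lit 684) (nat_lit 0) (XT.lf (nat_lit 0) (nat_lit 17651354198) (nat_lit 760) (nat_lit 4825351047) (nat_lit 76) (nat_lit 3251115905) (nat_lit 294) (nat_lit 5) (nat_lit 304) (nat_lit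 5) (nat_lit 295) (nat_lit 5) (nat_lit 494) (nat_lit 448) (nat_lit 198)) (XT.nd (nat_lit 78) (nat_lit 0) (nat_lit 0) (XT.lf (nat_lit 0) (nat_lit 9258419288) (nat_lit 684) (nat_lit 12151499559) (nat_lit 760) (nat_lit 4614709687) (nat_lit 285) (nat_lit 5) (nat_lit 294) (nat_lit 5) (nat_lit 295) (nat_lit 5) (nat_lit 495) (nat_lit 448) (nat_lit 197)) (XT.lf (nat_lit 0) (nat_lit 23685661272) (nat_lit 684) (nat_lit 1587207267) (nat_lit 760) (nat_lit 1053919999) (nat_lit 285) (nat_lit 5) (nat_lit 294) (nat_lit 5) (nat_lit 295) (nat_lit 5) (nat_lit 496) (nat_lit 448) (nat_lit 196))))) (XT.nd (nat_lit 234) (nat_lit 1216) (nat_lit 0) (XT.nd (nat_lit 78) (nat_lit 684) (nat_lit 0) (XT.lf (nat_lit 0) (nat_lit 2678701185) (nat_lit 760) (nat_lit 14791217752) (nat_lit 76) (nat_lit 9162050194) (nat_lit 275) (nat_lit 5) (nat_lit 285) (nat_lit 5) (nat_lit 276) (nat_lit 5) (nat_lit 497) (nat_lit 448) (nat_lit 195)) (XT.nd (nat_lit 78) (nat_lit 684)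 (nat_lit 0) (XT.lf (nat_lit 0) (nat_lit 6497137058) (nat_lit 760) (nat_lit 316058278) (nat_lit 76) (nat_lit 20129413891) (nat_lit 275) (nat_lit 5) (nat_lit 285) (nat_lit 5) (nat_lit 276) (nat_lit 5) (nat_lit 498) (nat_lit 448) (nat_lit 194)) (XT.lf (nat_lit 0) (nat_lit 10510909079) (nat_lit 760) (nat_lit 12647564649) (nat_lit 76) (nat_lit 4098609738) (nat_lit 266) (nat_lit 5) (nat_lit 276) (nat_lit 5) (nat_lit 267) (nat_lit 5) (nat_lit 499) (nat_lit 448) (nat_lit 193)))) (XT.nd (nat_lit 78) (nat_lit 608) (nat_lit 0) (XT.lf (nat_lit 0) (nat_lit 2240757656) (nat_lit 608) (nat_lit 12423005542) (nat_lit 684) (nat_lit 12912908536) (nat_lit 258) (nat_lit 5) (nat_lit 266) (nat_lit 5) (nat_lit 267) (nat_lit 5) (nat_lit 500) (nat_lit 448) (nat_lit 192)) (XT.nd (nat_lit 78) (nat_lit 608) (nat_lit 0) (XT.lf (nat_lit 0) (nat_lit 17594728370) (nat_lit 608) (nat_lit 1386856218) (nat_lit 684) (nat_lit 8919429638) (nat_lit 258) (nat_lit 5)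 (nat_lit 266) (nat_lit 5) (nat_lit 267) (nat_lit 5) (nat_lit 501) (nat_lit 448) (nat_lit 191)) (XT.lf (nat_lit 0) (nat_lit 5022174726) (nat_lit 608) (nat_lit 18457370301) (nat_lit 684) (nat_lit 4750423539) (nat_lit 250) (nat_lit 5) (nat_lit 258) (nat_lit 5) (nat_lit 259) (nat_lit 5) (nat_lit 502) (nat_lit 448) (nat_lit 190)))))) (XT.nd (nat_lit 55380) (nat_lit 0) (nat_lit 14592) (XT.nd (nat_lit 55146) (nat_lit 0) (nat_lit 14516) (XT.nd (nat_lit 78) (nat_lit 684) (nat_lit 0) (XT.lf (nat_lit 0) (nat_lit 20784081484) (nat_lit 608) (nat_lit 7358794635) (nat_lit 684) (nat_lit 421118283) (nat_lit 250) (nat_lit 5) (nat_lit 258) (nat_lit 5) (nat_lit 259) (nat_lit 5) (nat_lit 503) (nat_lit 448) (nat_lit 189)) (XT.lf (nat_lit 0) (nat_lit 4017931952) (nat_lit 684) (nat_lit 20896985848) (nat_lit 76) (nat_lit 3987753811) (nat_lit 241) (nat_lit 5) (nat_lit 250) (nat_lit 5) (nat_lit 242) (nat_lit 5) (nat_lit 504) (nat_lit 448) (nat_lit 188)))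 (XT.nd (nat_lit 78) (nat_lit 0) (nat_lit 0) (XT.lf (nat_lit 0) (nat_lit 765522314) (nat_lit 0) (nat_lit 765522314) (nat_lit 1748) (nat_lit 6536157259) (nat_lit 432) (nat_lit 5) (nat_lit 432) (nat_lit 3) (nat_lit 455) (nat_lit 3) (nat_lit 449) (nat_lit 449) (nat_lit 242)) (XT.nd (nat_lit 78) (nat_lit 0) (nat_lit 0) (XT.lf (nat_lit 0) (nat_lit 3386473269) (nat_lit 1748) (nat_lit 6863722768) (nat_lit 1824) (nat_lit 6039604289) (nat_lit 432) (nat_lit 5) (nat_lit 455) (nat_lit 3) (nat_lit 456) (nat_lit 5) (nat_lit 450) (nat_lit 449) (nat_lit 241)) (XT.lf (nat_lit 76) (nat_lit 1030594981) (nat_lit 0) (nat_lit 2696939017) (nat_lit 1824) (nat_lit 12720568926) (nat_lit 433) (nat_lit 5) (nat_lit 432) (nat_lit 5) (nat_lit 456) (nat_lit 5) (nat_lit 451) (nat_lit 449) (nat_lit 240))))) (XT.nd (nat_lit 234) (nat_lit 0) (nat_lit 76) (XT.nd (nat_lit 78) (nat_lit 0) (nat_lit 0) (XT.lf (nat_lit 0) (nat_lit 4147777428) (nat_lit 1748) (nat_lit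 7469245949) (nat_lit 1824) (nat_lit 4991102824) (nat_lit 433) (nat_lit 5) (nat_lit 456) (nat_lit 5) (nat_lit 457) (nat_lit 5) (nat_lit 452) (nat_lit 449) (nat_lit 239)) (XT.nd (nat_lit 78) (nat_lit 0) (nat_lit 76) (XT.lf (nat_lit 76) (nat_lit 624767708) (nat_lit 0) (nat_lit 3967188685) (nat_lit 1824) (nat_lit 12179084758) (nat_lit 434) (nat_lit 5) (nat_lit 433) (nat_lit 5) (nat_lit 457) (nat_lit 5) (nat_lit 453) (nat_lit 449) (nat_lit 238)) (XT.lf (nat_lit 0) (nat_lit 5114110987) (nat_lit 1748) (nat_lit 7983207232) (nat_lit 1824) (nat_lit 3838516126) (nat_lit 434) (nat_lit 5) (nat_lit 457) (nat_lit 5) (nat_lit 458) (nat_lit 5) (nat_lit 454) (nat_lit 449) (nat_lit 237)))) (XT.nd (nat_lit 78) (nat_lit 0) (nat_lit 76) (XT.lf (nat_lit 76) (nat_lit 317413363) (nat_lit 0) (nat_lit 5351485803) (nat_lit 1824) (nat_lit 11434582176) (nat_lit 435) (nat_lit 5) (nat_lit 434) (nat_lit 5) (nat_lit 458) (nat_lit 5) (nat_lit 455) (nat_lit 449)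 (nat_lit 236)) (XT.nd (nat_lit 78) (nat_lit 0) (nat_lit 0) (XT.lf (nat_lit 0) (nat_lit 6299231090) (nat_lit 1748) (nat_lit 8401767412) (nat_lit 1824) (nat_lit 2572195534) (nat_lit 435) (nat_lit 5) (nat_lit 458) (nat_lit 5) (nat_lit 459) (nat_lit 5) (nat_lit 456) (nat_lit 449) (nat_lit 235)) (XT.lf (nat_lit 76) (nat_lit 112616514) (nat_lit 0) (nat_lit 6859813023) (nat_lit 1824) (nat_lit 10473267931) (nat_lit 436) (nat_lit 5) (nat_lit 435) (nat_lit 5) (nat_lit 459) (nat_lit 5) (nat_lit 457) (nat_lit 449) (nat_lit 234))))))) (XT.nd (nat_lit 858) (nat_lit 4332) (nat_lit 0) (XT.nd (nat_lit 390) (nat_lit 0) (nat_lit 152) (XT.nd (nat_lit 156) (nat_lit 0) (nat_lit 0) (XT.nd (nat_lit 78) (nat_lit 0) (nat_lit 0) (XT.lf (nat_lit 0) (nat_lit 7717430690) (nat_lit 1748) (nat_lit 8720858113) (nat_lit 1824) (nat_lit 1182197040) (nat_lit 436) (nat_lit 5) (nat_lit 459) (nat_lit 5) (nat_lit 460) (nat_lit 5) (nat_lit 458) (nat_lit 449) (nat_lit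 233)) (XT.lf (nat_lit 76) (nat_lit 14698485) (nat_lit 0) (nat_lit 8502467009) (nat_lit 1824) (nat_lit 9280809436) (nat_lit 437) (nat_lit 5) (nat_lit 436) (nat_lit 5) (nat_lit 460) (nat_lit 5) (nat_lit 459) (nat_lit 449) (nat_lit 232))) (XT.nd (nat_lit 78) (nat_lit 0) (nat_lit 76) (XT.lf (nat_lit 76) (nat_lit 9039529668) (nat_lit 0) (nat_lit 346283736) (nat_lit 1824) (nat_lit 8592143612) (nat_lit 437) (nat_lit 5) (nat_lit 436) (nat_lit 5) (nat_lit 460) (nat_lit 5) (nat_lit 460) (nat_lit 449) (nat_lit 231)) (XT.nd (nat_lit 78) (nat_lit 0) (nat_lit 0) (XT.lf (nat_lit 76) (nat_lit 28220332) (nat_lit 0) (nat_lit 10290082477) (nat_lit 1824) (nat_lit 7842308117) (nat_lit 438) (nat_lit 5) (nat_lit 437) (nat_lit 5) (nat_lit 461) (nat_lit 5) (nat_lit 461) (nat_lit 449) (nat_lit 230)) (XT.lf (nat_lit 76) (nat_lit 9289361957) (nat_lit 0) (nat_lit 2036942527) (nat_lit 1824) (nat_lit 7019477704) (nat_lit 438) (nat_lit 5) (nat_lit 437) (nat_lit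 5) (nat_lit 461) (nat_lit 5) (nat_lit 462) (nat_lit 449) (nat_lit 229))))) (XT.nd (nat_lit 234) (nat_lit 0) (nat_lit 76) (XT.nd (nat_lit 78) (nat_lit 0) (nat_lit 0) (XT.lf (nat_lit 76) (nat_lit 157986031) (nat_lit 0) (nat_lit 12233656805) (nat_lit 1824) (nat_lit 6142272002) (nat_lit 439) (nat_lit 5) (nat_lit 438) (nat_lit 5) (nat_lit 462) (nat_lit 5) (nat_lit 463) (nat_lit 449) (nat_lit 228)) (XT.nd (nat_lit 78) (nat_lit 0) (nat_lit 76) (XT.lf (nat_lit 76) (nat_lit 9662073976) (nat_lit 0) (nat_lit 3885187298) (nat_lit 1824) (nat_lit 5177170863) (nat_lit 439) (nat_lit 5) (nat_lit 438) (nat_lit 5) (nat_lit 462) (nat_lit 5) (nat_lit 464) (nat_lit 449) (nat_lit 227)) (XT.lf (nat_lit 76) (nat_lit 409045865) (nat_lit 0) (nat_lit 14344575252) (nat_lit 1824) (nat_lit 4164587523) (nat_lit 440) (nat_lit 5) (nat_lit 439) (nat_lit 5) (nat_lit 463) (nat_lit 5) (nat_lit 465) (nat_lit 449) (nat_lit 226)))) (XT.nd (nat_lit 78) (nat_lit 0) (nat_lit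 76) (XT.lf (nat_lit 76) (nat_lit 10162933501) (nat_lit 0) (nat_lit 5902534532) (nat_lit 1824) (nat_lit 3048766847) (nat_lit 440) (nat_lit 5) (nat_lit 439) (nat_lit 5) (nat_lit 463) (nat_lit 5) (nat_lit 466) (nat_lit 449) (nat_lit 225)) (XT.nd (nat_lit 78) (nat_lit 0) (nat_lit 0) (XT.lf (nat_lit 76) (nat_lit 786699999) (nat_lit 0) (nat_lit 16634636868) (nat_lit 1824) (nat_lit 1892490460) (nat_lit 441) (nat_lit 5) (nat_lit 440) (nat_lit 5) (nat_lit 464) (nat_lit 5) (nat_lit 467) (nat_lit 449) (nat_lit 224)) (XT.lf (nat_lit 76) (nat_lit 10797463642) (nat_lit 0) (nat_lit 8100924685) (nat_lit 1824) (nat_lit 617143343) (nat_lit 441) (nat_lit 5) (nat_lit 440) (nat_lit 5) (nat_lit 464) (nat_lit 5) (nat_lit 468) (nat_lit 449) (nat_lit 223)))))) (XT.nd (nat_lit 468) (nat_lit 2888) (nat_lit 0) (XT.nd (nat_lit 234) (nat_lit 0) (nat_lit 76) (XT.nd (nat_lit 78) (nat_lit 0) (nat_lit 0) (XT.lf (nat_lit 0) (nat_lit 682395304) (nat_lit 1824)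 (nat_lit 18429106610) (nat_lit 1900) (nat_lit 609527673) (nat_lit 417) (nat_lit 5) (nat_lit 441) (nat_lit 5) (nat_lit 442) (nat_lit 5) (nat_lit 469) (nat_lit 449) (nat_lit 222)) (XT.nd (nat_lit 78) (nat_lit 0) (nat_lit 0) (XT.lf (nat_lit 0) (nat_lit 2107510787) (nat_lit 1824) (nat_lit 8371095898) (nat_lit 1900) (nat_lit 9449793472) (nat_lit 417) (nat_lit 5) (nat_lit 441) (nat_lit 5) (nat_lit 442) (nat_lit 5) (nat_lit 470) (nat_lit 449) (nat_lit 221)) (XT.lf (nat_lit 76) (nat_lit 1909396501) (nat_lit 0) (nat_lit 1659524363) (nat_lit 1900) (nat_lit 16570842682) (nat_lit 418) (nat_lit 5) (nat_lit 417) (nat_lit 5) (nat_lit 442) (nat_lit 5) (nat_lit 471) (nat_lit 449) (nat_lit 220)))) (XT.nd (nat_lit 78) (nat_lit 0) (nat_lit 0) (XT.lf (nat_lit 0) (nat_lit 5159202380) (nat_lit 1824) (nat_lit 7897054949) (nat_lit 1900) (nat_lit 7297105232) (nat_lit 418) (nat_lit 5) (nat_lit 442) (nat_lit 5) (nat_lit 443) (nat_lit 5) (nat_lit 472) (nat_lit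 449) (nat_lit 219)) (XT.nd (nat_lit 78) (nat_lit 0) (nat_lit 76) (XT.lf (nat_lit 76) (nat_lit 2663141534) (nat_lit 0) (nat_lit 4141984960) (nat_lit 1900) (nat_lit 13765631525) (nat_lit 419) (nat_lit 5) (nat_lit 418) (nat_lit 5) (nat_lit 443) (nat_lit 5) (nat_lit 473) (nat_lit 449) (nat_lit 218)) (XT.lf (nat_lit 0) (nat_lit 8565079305) (nat_lit 1824) (nat_lit 7286134257) (nat_lit 76) (nat_lit 4939666797) (nat_lit 419) (nat_lit 5) (nat_lit 443) (nat_lit 5) (nat_lit 420) (nat_lit 5) (nat_lit 474) (nat_lit 449) (nat_lit 217))))) (XT.nd (nat_lit 234) (nat_lit 836) (nat_lit 0) (XT.nd (nat_lit 78) (nat_lit 912) (nat_lit 0) (XT.lf (nat_lit 0) (nat_lit 3563367741) (nat_lit 1292) (nat_lit 6843138820) (nat_lit 1368) (nat_lit 10607974232) (nat_lit 402) (nat_lit 5) (nat_lit 419) (nat_lit 5) (nat_lit 420) (nat_lit 5) (nat_lit 475) (nat_lit 449) (nat_lit 216)) (XT.nd (nat_lit 78) (nat_lit 912) (nat_lit 0) (XT.lf (nat_lit 0) (nat_lit 12344978861)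 (nat_lit 1368) (nat_lit 6532278383) (nat_lit 76) (nat_lit 2364092794) (nat_lit 402) (nat_lit 5) (nat_lit 420) (nat_lit 5) (nat_lit 403) (nat_lit 5) (nat_lit 476) (nat_lit 449) (nat_lit 215)) (XT.lf (nat_lit 0) (nat_lit 4616455368) (nat_lit 912) (nat_lit 9776912985) (nat_lit 988) (nat_lit 7077966471) (nat_lit 390) (nat_lit 5) (nat_lit 402) (nat_lit 5) (nat_lit 403) (nat_lit 5) (nat_lit 477) (nat_lit 449) (nat_lit 214)))) (XT.nd (nat_lit 78) (nat_lit 836) (nat_lit 0) (XT.lf (nat_lit 0) (nat_lit 16073030466) (nat_lit 912) (nat_lit 449443415) (nat_lit 988) (nat_lit 5182651547) (nat_lit 390) (nat_lit 5) (nat_lit 402) (nat_lit 5) (nat_lit 403) (nat_lit 5) (nat_lit 478) (nat_lit 449) (nat_lit 213)) (XT.nd (nat_lit 78) (nat_lit 0) (nat_lit 0) (XT.lf (nat_lit 0) (nat_lit 5829049302) (nat_lit 836) (nat_lit 12957807450) (nat_lit 912) (nat_lit 3154882253) (nat_lit 379) (nat_lit 5) (nat_lit 390) (nat_lit 5) (nat_lit 391) (nat_lit 5) (nat_lit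 479) (nat_lit 449) (nat_lit 212)) (XT.lf (nat_lit 0) (nat_lit 17589077555) (nat_lit 836) (nat_lit 3544251554) (nat_lit 912) (nat_lit 1049020755) (nat_lit 379) (nat_lit 5) (nat_lit 390) (nat_lit 5) (nat_lit 391) (nat_lit 5) (nat_lit 480) (nat_lit 449) (nat_lit 211))))))))
noncomputable def xc233 : XT := (XT.nd (nat_lit 1716) (nat_lit 608) (nat_lit 0) (XT.nd (nat_lit 858) (nat_lit 4180) (nat_lit 0) (XT.nd (nat_lit 390) (nat_lit 2356) (nat_lit 0) (XT.nd (nat_lit 156) (nat_lit 1672) (nat_lit 0) (XT.nd (nat_lit 78) (nat_lit 0) (nat_lit 0) (XT.lf (nat_lit 0) (nat_lit 1167347889) (nat_lit 988) (nat_lit 15225745799) (nat_lit 76) (nat_lit 6032881495) (nat_lit 366) (nat_lit 5) (nat_lit 379) (nat_lit 5) (nat_lit 367) (nat_lit 5) (nat_lit 481) (nat_lit 449) (nat_lit 210)) (XT.lf (nat_lit 0) (nat_lit 3464665690) (nat_lit 988) (nat_lit 3416319228) (nat_lit 76) (nat_lit 15792337032) (nat_lit 366) (nat_lit 5) (nat_lit 379) (nat_lit 5) (nat_lit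 367) (nat_lit 5) (nat_lit 482) (nat_lit 449) (nat_lit 209))) (XT.nd (nat_lit 78) (nat_lit 836) (nat_lit 0) (XT.lf (nat_lit 0) (nat_lit 5879603681) (nat_lit 912) (nat_lit 14202956551) (nat_lit 76) (nat_lit 2841622910) (nat_lit 355) (nat_lit 5) (nat_lit 367) (nat_lit 5) (nat_lit 356) (nat_lit 5) (nat_lit 483) (nat_lit 449) (nat_lit 208)) (XT.nd (nat_lit 78) (nat_lit 836) (nat_lit 0) (XT.lf (nat_lit 0) (nat_lit 8407769344) (nat_lit 912) (nat_lit 2081175067) (nat_lit 76) (nat_lit 12689819515) (nat_lit 355) (nat_lit 5) (nat_lit 367) (nat_lit 5) (nat_lit 356) (nat_lit 5) (nat_lit 484) (nat_lit 449) (nat_lit 207)) (XT.lf (nat_lit 0) (nat_lit 10416039303) (nat_lit 836) (nat_lit 634442101) (nat_lit 912) (nat_lit 12386676190) (nat_lit 344) (nat_lit 5) (nat_lit 355) (nat_lit 5) (nat_lit 356) (nat_lit 5) (nat_lit 485) (nat_lit 449) (nat_lit 206))))) (XT.nd (nat_lit 234) (nat_lit 836) (nat_lit 0) (XT.nd (nat_lit 78) (nat_lit 1520) (nat_lit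 0) (XT.lf (nat_lit 0) (nat_lit 13817651843) (nat_lit 912) (nat_lit 573925974) (nat_lit 76) (nat_lit 9307710145) (nat_lit 344) (nat_lit 5) (nat_lit 356) (nat_lit 5) (nat_lit 345) (nat_lit 5) (nat_lit 486) (nat_lit 449) (nat_lit 205)) (XT.nd (nat_lit 78) (nat_lit 760) (nat_lit 0) (XT.lf (nat_lit 0) (nat_lit 12275414503) (nat_lit 760) (nat_lit 4445126926) (nat_lit 836) (nat_lit 7244512887) (nat_lit 334) (nat_lit 5) (nat_lit 344) (nat_lit 5) (nat_lit 345) (nat_lit 5) (nat_lit 487) (nat_lit 449) (nat_lit 204)) (XT.lf (nat_lit 0) (nat_lit 1127580968) (nat_lit 760) (nat_lit 18598634963) (nat_lit 836) (nat_lit 4509026398) (nat_lit 324) (nat_lit 5) (nat_lit 334) (nat_lit 5) (nat_lit 335) (nat_lit 5) (nat_lit 488) (nat_lit 449) (nat_lit 203)))) (XT.nd (nat_lit 78) (nat_lit 836) (nat_lit 0) (XT.lf (nat_lit 0) (nat_lit 14326162413) (nat_lit 760) (nat_lit 8570093651) (nat_lit 836) (nat_lit 1612493854) (nat_lit 324) (nat_lit 5) (nat_lit 334)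 (nat_lit 5) (nat_lit 335) (nat_lit 5) (nat_lit 489) (nat_lit 449) (nat_lit 202)) (XT.nd (nat_lit 78) (nat_lit 0) (nat_lit 0) (XT.lf (nat_lit 0) (nat_lit 1351598180) (nat_lit 836) (nat_lit 21769779786) (nat_lit 76) (nat_lit 1665631678) (nat_lit 313) (nat_lit 5) (nat_lit 324) (nat_lit 5) (nat_lit 314) (nat_lit 5) (nat_lit 490) (nat_lit 449) (nat_lit 201)) (XT.lf (nat_lit 0) (nat_lit 4475590034) (nat_lit 836) (nat_lit 8521912249) (nat_lit 76) (nat_lit 12070675733) (nat_lit 313) (nat_lit 5) (nat_lit 324) (nat_lit 5) (nat_lit 314) (nat_lit 5) (nat_lit 491) (nat_lit 449) (nat_lit 200)))))) (XT.nd (nat_lit 390) (nat_lit 2052) (nat_lit 0) (XT.nd (nat_lit 156) (nat_lit 1368) (nat_lit 0) (XT.nd (nat_lit 78) (nat_lit 0) (nat_lit 0) (XT.lf (nat_lit 0) (nat_lit 5053634471) (nat_lit 760) (nat_lit 2637954939) (nat_lit 836) (nat_lit 17662790584) (nat_lit 303) (nat_lit 5) (nat_lit 313) (nat_lit 5) (nat_lit 314) (nat_lit 5) (nat_lit 492) (nat_lit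 449) (nat_lit 199)) (XT.lf (nat_lit 0) (nat_lit 11077708618) (nat_lit 836) (nat_lit 6684408853) (nat_lit 76) (nat_lit 7882073321) (nat_lit 303) (nat_lit 5) (nat_lit 314) (nat_lit 5) (nat_lit 304) (nat_lit 5) (nat_lit 493) (nat_lit 449) (nat_lit 198))) (XT.nd (nat_lit 78) (nat_lit 684) (nat_lit 0) (XT.lf (nat_lit 0) (nat_lit 7278719086) (nat_lit 684) (nat_lit 7314378597) (nat_lit 760) (nat_lit 11345469935) (nat_lit 294) (nat_lit 5) (nat_lit 303) (nat_lit 5) (nat_lit 304) (nat_lit 5) (nat_lit 494) (nat_lit 449) (nat_lit 197)) (XT.nd (nat_lit 78) (nat_lit 684) (nat_lit 0) (XT.lf (nat_lit 0) (nat_lit 18242504578) (nat_lit 760) (nat_lit 4651779225) (nat_lit 76) (nat_lit 3343274725) (nat_lit 294) (nat_lit 5) (nat_lit 304) (nat_lit 5) (nat_lit 295) (nat_lit 5) (nat_lit 495) (nat_lit 449) (nat_lit 196)) (XT.lf (nat_lit 0) (nat_lit 9711889682) (nat_lit 684) (nat_lit 12361423747) (nat_lit 760) (nat_lit 4467048280) (nat_lit 285) (nat_lit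 5) (nat_lit 294) (nat_lit 5) (nat_lit 295) (nat_lit 5) (nat_lit 496) (nat_lit 449) (nat_lit 195))))) (XT.nd (nat_lit 234) (nat_lit 1292) (nat_lit 0) (XT.nd (nat_lit 78) (nat_lit 760) (nat_lit 0) (XT.lf (nat_lit 0) (nat_lit 24422415682) (nat_lit 684) (nat_lit 1586494743) (nat_lit 760) (nat_lit 839747810) (nat_lit 285) (nat_lit 5) (nat_lit 294) (nat_lit 5) (nat_lit 295) (nat_lit 5) (nat_lit 497) (nat_lit 449) (nat_lit 194)) (XT.nd (nat_lit 78) (nat_lit 0) (nat_lit 0) (XT.lf (nat_lit 0) (nat_lit 2961832916) (nat_lit 760) (nat_lit 14818202452) (nat_lit 76) (nat_lit 9379929720) (nat_lit 275) (nat_lit 5) (nat_lit 285) (nat_lit 5) (nat_lit 276) (nat_lit 5) (nat_lit 498) (nat_lit 449) (nat_lit 193)) (XT.lf (nat_lit 0) (nat_lit 6852136375) (nat_lit 760) (nat_lit 58811154) (nat_lit 76) (nat_lit 20565961505) (nat_lit 275) (nat_lit 5) (nat_lit 285) (nat_lit 5) (nat_lit 276) (nat_lit 5) (nat_lit 499) (nat_lit 449) (nat_lit 192)))) (XT.nd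 (nat_lit 78) (nat_lit 608) (nat_lit 0) (XT.lf (nat_lit 0) (nat_lit 10943727363) (nat_lit 760) (nat_lit 12634440938) (nat_lit 76) (nat_lit 4219554591) (nat_lit 266) (nat_lit 5) (nat_lit 276) (nat_lit 5) (nat_lit 267) (nat_lit 5) (nat_lit 500) (nat_lit 449) (nat_lit 191)) (XT.nd (nat_lit 78) (nat_lit 0) (nat_lit 0) (XT.lf (nat_lit 0) (nat_lit 2549897319) (nat_lit 608) (nat_lit 12627092707) (nat_lit 684) (nat_lit 12946766854) (nat_lit 258) (nat_lit 5) (nat_lit 266) (nat_lit 5) (nat_lit 267) (nat_lit 5) (nat_lit 501) (nat_lit 449) (nat_lit 190)) (XT.lf (nat_lit 0) (nat_lit 18205764615) (nat_lit 608) (nat_lit 1371090454) (nat_lit 684) (nat_lit 8877818376) (nat_lit 258) (nat_lit 5) (nat_lit 266) (nat_lit 5) (nat_lit 267) (nat_lit 5) (nat_lit 502) (nat_lit 449) (nat_lit 189))))))) (XT.nd (nat_lit 56004) (nat_lit 0) (nat_lit 12692) (XT.nd (nat_lit 55536) (nat_lit 0) (nat_lit 13908) (XT.nd (nat_lit 55302) (nat_lit 0) (nat_lit 13832)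 (XT.nd (nat_lit 55224) (nat_lit 0) (nat_lit 13832) (XT.lf (nat_lit 0) (nat_lit 5384106802) (nat_lit 608) (nat_lit 18778414371) (nat_lit 684) (nat_lit 4627731715) (nat_lit 250) (nat_lit 5) (nat_lit 258) (nat_lit 5) (nat_lit 259) (nat_lit 5) (nat_lit 503) (nat_lit 449) (nat_lit 188)) (XT.lf (nat_lit 0) (nat_lit 907022539) (nat_lit 0) (nat_lit 907022539) (nat_lit 1748) (nat_lit 6409381502) (nat_lit 432) (nat_lit 5) (nat_lit 432) (nat_lit 3) (nat_lit 455) (nat_lit 3) (nat_lit 450) (nat_lit 450) (nat_lit 240))) (XT.nd (nat_lit 78) (nat_lit 0) (nat_lit 0) (XT.lf (nat_lit 0) (nat_lit 3947458126) (nat_lit 1748) (nat_lit 6741921869) (nat_lit 1824) (nat_lit 5916210538) (nat_lit 432) (nat_lit 5) (nat_lit 455) (nat_lit 3) (nat_lit 456) (nat_lit 5) (nat_lit 451) (nat_lit 450) (nat_lit 239)) (XT.nd (nat_lit 78) (nat_lit 0) (nat_lit 76) (XT.lf (nat_lit 76) (nat_lit 1308577793) (nat_lit 0) (nat_lit 2978761625) (nat_lit 1824) (nat_lit 12479882536)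 (nat_lit 433) (nat_lit 5) (nat_lit 432) (nat_lit 5) (nat_lit 456) (nat_lit 5) (nat_lit 452) (nat_lit 450) (nat_lit 238)) (XT.lf (nat_lit 0) (nat_lit 4705022356) (nat_lit 1748) (nat_lit 7355205854) (nat_lit 1824) (nat_lit 4870439498) (nat_lit 433) (nat_lit 5) (nat_lit 456) (nat_lit 5) (nat_lit 457) (nat_lit 5) (nat_lit 453) (nat_lit 450) (nat_lit 237))))) (XT.nd (nat_lit 234) (nat_lit 0) (nat_lit 152) (XT.nd (nat_lit 78) (nat_lit 0) (nat_lit 76) (XT.lf (nat_lit 76) (nat_lit 898955018) (nat_lit 0) (nat_lit 4251529169) (nat_lit 1824) (nat_lit 11946511436) (nat_lit 434) (nat_lit 5) (nat_lit 433) (nat_lit 5) (nat_lit 457) (nat_lit 5) (nat_lit 454) (nat_lit 450) (nat_lit 236)) (XT.nd (nat_lit 78) (nat_lit 0) (nat_lit 0) (XT.lf (nat_lit 0) (nat_lit 5672626236) (nat_lit 1748) (nat_lit 7875725022) (nat_lit 1824) (nat_lit 3716945134) (nat_lit 434) (nat_lit 5) (nat_lit 457) (nat_lit 5) (nat_lit 458) (nat_lit 5) (nat_lit 455) (nat_lit 450)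 (nat_lit 235)) (XT.lf (nat_lit 76) (nat_lit 589150443) (nat_lit 0) (nat_lit 5642137071) (nat_lit 1824) (nat_lit 11205155817) (nat_lit 435) (nat_lit 5) (nat_lit 434) (nat_lit 5) (nat_lit 458) (nat_lit 5) (nat_lit 456) (nat_lit 450) (nat_lit 234)))) (XT.nd (nat_lit 78) (nat_lit 0) (nat_lit 0) (XT.lf (nat_lit 0) (nat_lit 6864253135) (nat_lit 1748) (nat_lit 8299519776) (nat_lit 1824) (nat_lit 2445979325) (nat_lit 435) (nat_lit 5) (nat_lit 458) (nat_lit 5) (nat_lit 459) (nat_lit 5) (nat_lit 457) (nat_lit 450) (nat_lit 233)) (XT.nd (nat_lit 78) (nat_lit 0) (nat_lit 76) (XT.lf (nat_lit 76) (nat_lit 383373650) (nat_lit 0) (nat_lit 7160676635) (nat_lit 1824) (nat_lit 10241795207) (nat_lit 436) (nat_lit 5) (nat_lit 435) (nat_lit 5) (nat_lit 459) (nat_lit 5) (nat_lit 458) (nat_lit 450) (nat_lit 232)) (XT.lf (nat_lit 0) (nat_lit 8294435696) (nat_lit 1748) (nat_lit 8622399424) (nat_lit 1824) (nat_lit 1047487232) (nat_lit 436) (nat_lit 5)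 (nat_lit 459) (nat_lit 5) (nat_lit 460) (nat_lit 5) (nat_lit 459) (nat_lit 450) (nat_lit 231)))))) (XT.nd (nat_lit 468) (nat_lit 1444) (nat_lit 0) (XT.nd (nat_lit 234) (nat_lit 0) (nat_lit 76) (XT.nd (nat_lit 78) (nat_lit 0) (nat_lit 0) (XT.lf (nat_lit 76) (nat_lit 286073070) (nat_lit 0) (nat_lit 8817564781) (nat_lit 1824) (nat_lit 9041856271) (nat_lit 437) (nat_lit 5) (nat_lit 436) (nat_lit 5) (nat_lit 460) (nat_lit 5) (nat_lit 460) (nat_lit 450) (nat_lit 230)) (XT.nd (nat_lit 78) (nat_lit 0) (nat_lit 76) (XT.lf (nat_lit 76) (nat_lit 9486085570) (nat_lit 0) (nat_lit 495413756) (nat_lit 1824) (nat_lit 8347742020) (nat_lit 437) (nat_lit 5) (nat_lit 436) (nat_lit 5) (nat_lit 460) (nat_lit 5) (nat_lit 461) (nat_lit 450) (nat_lit 229)) (XT.lf (nat_lit 76) (nat_lit 301939174) (nat_lit 0) (nat_lit 10623568260) (nat_lit 1824) (nat_lit 7590185785) (nat_lit 438) (nat_lit 5) (nat_lit 437) (nat_lit 5) (nat_lit 461) (nat_lit 5) (nat_lit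 462) (nat_lit 450) (nat_lit 228)))) (XT.nd (nat_lit 78) (nat_lit 0) (nat_lit 76) (XT.lf (nat_lit 76) (nat_lit 9742947662) (nat_lit 0) (nat_lit 2202861900) (nat_lit 1824) (nat_lit 6758917755) (nat_lit 438) (nat_lit 5) (nat_lit 437) (nat_lit 5) (nat_lit 461) (nat_lit 5) (nat_lit 463) (nat_lit 450) (nat_lit 227)) (XT.nd (nat_lit 78) (nat_lit 0) (nat_lit 0) (XT.lf (nat_lit 76) (nat_lit 435907871) (nat_lit 0) (nat_lit 12589828459) (nat_lit 1824) (nat_lit 5871022832) (nat_lit 439) (nat_lit 5) (nat_lit 438) (nat_lit 5) (nat_lit 462) (nat_lit 5) (nat_lit 464) (nat_lit 450) (nat_lit 226)) (XT.lf (nat_lit 76) (nat_lit 10124690083) (nat_lit 0) (nat_lit 4072203316) (nat_lit 1824) (nat_lit 4894347016) (nat_lit 439) (nat_lit 5) (nat_lit 438) (nat_lit 5) (nat_lit 462) (nat_lit 5) (nat_lit 465) (nat_lit 450) (nat_lit 225))))) (XT.nd (nat_lit 234) (nat_lit 1672) (nat_lit 0) (XT.nd (nat_lit 78) (nat_lit 0) (nat_lit 0) (XT.lf (nat_lit 76) (nat_lit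 693164103) (nat_lit 0) (nat_lit 14727886858) (nat_lit 1824) (nat_lit 3867970165) (nat_lit 440) (nat_lit 5) (nat_lit 439) (nat_lit 5) (nat_lit 463) (nat_lit 5) (nat_lit 466) (nat_lit 450) (nat_lit 224)) (XT.nd (nat_lit 78) (nat_lit 0) (nat_lit 76) (XT.lf (nat_lit 76) (nat_lit 10636718957) (nat_lit 0) (nat_lit 6115114733) (nat_lit 1824) (nat_lit 2737282275) (nat_lit 440) (nat_lit 5) (nat_lit 439) (nat_lit 5) (nat_lit 463) (nat_lit 5) (nat_lit 467) (nat_lit 450) (nat_lit 223)) (XT.lf (nat_lit 76) (nat_lit 1079145619) (nat_lit 0) (nat_lit 17049711196) (nat_lit 1824) (nat_lit 1563964716) (nat_lit 441) (nat_lit 5) (nat_lit 440) (nat_lit 5) (nat_lit 464) (nat_lit 5) (nat_lit 468) (nat_lit 450) (nat_lit 222)))) (XT.nd (nat_lit 78) (nat_lit 1748) (nat_lit 0) (XT.lf (nat_lit 76) (nat_lit 11284698817) (nat_lit 0) (nat_lit 8343709445) (nat_lit 1824) (nat_lit 270294491) (nat_lit 441) (nat_lit 5) (nat_lit 440) (nat_lit 5) (nat_lit 464) (nat_lit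 5) (nat_lit 469) (nat_lit 450) (nat_lit 221)) (XT.nd (nat_lit 78) (nat_lit 0) (nat_lit 0) (XT.lf (nat_lit 0) (nat_lit 1044867077) (nat_lit 1824) (nat_lit 18515843729) (nat_lit 1900) (nat_lit 547668213) (nat_lit 417) (nat_lit 5) (nat_lit 441) (nat_lit 5) (nat_lit 442) (nat_lit 5) (nat_lit 470) (nat_lit 450) (nat_lit 220)) (XT.lf (nat_lit 0) (nat_lit 2491645186) (nat_lit 1824) (nat_lit 8262199176) (nat_lit 1900) (nat_lit 9566191290) (nat_lit 417) (nat_lit 5) (nat_lit 441) (nat_lit 5) (nat_lit 442) (nat_lit 5) (nat_lit 471) (nat_lit 450) (nat_lit 219))))))))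
noncomputable def xc234 : XT := (XT.nd (nat_lit 1716) (nat_lit 3420) (nat_lit 0) (XT.nd (nat_lit 858) (nat_lit 4788) (nat_lit 0) (XT.nd (nat_lit 390) (nat_lit 2736) (nat_lit 0) (XT.nd (nat_lit 156) (nat_lit 1140) (nat_lit 0) (XT.nd (nat_lit 78) (nat_lit 0) (nat_lit 76) (XT.lf (nat_lit 76) (nat_lit 2222085185) (nat_lit 0) (nat_lit 1755274947) (nat_lit 1900) (nat_lit 16558366461) (nat_lit 418) (nat_lit 5) (nat_lit 417) (nat_lit 5) (nat_lit 442) (nat_lit 5) (nat_lit 472) (nat_lit 450) (nat_lit 218)) (XT.lf (nat_lit 0) (nat_lit 5592440026) (nat_lit 1824) (nat_lit 7778781186) (nat_lit 1900) (nat_lit 7382518307) (nat_lit 418) (nat_lit 5) (nat_lit 442) (nat_lit 5) (nat_lit 443) (nat_lit 5) (nat_lit 473) (nat_lit 450) (nat_lit 217))) (XT.nd (nat_lit 78) (nat_lit 1216) (nat_lit 0) (XT.lf (nat_lit 76) (nat_lit 2990802024) (nat_lit 0) (nat_lit 4275790531) (nat_lit 1900) (nat_lit 13708985882) (nat_lit 419) (nat_lit 5) (nat_lit 418) (nat_lit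 5) (nat_lit 443) (nat_lit 5) (nat_lit 474) (nat_lit 450) (nat_lit 216)) (XT.nd (nat_lit 78) (nat_lit 1292) (nat_lit 0) (XT.lf (nat_lit 0) (nat_lit 9055040328) (nat_lit 1824) (nat_lit 7156049780) (nat_lit 76) (nat_lit 4989148913) (nat_lit 419) (nat_lit 5) (nat_lit 443) (nat_lit 5) (nat_lit 420) (nat_lit 5) (nat_lit 475) (nat_lit 450) (nat_lit 215)) (XT.lf (nat_lit 0) (nat_lit 3908627738) (nat_lit 1292) (nat_lit 7020199110) (nat_lit 1368) (nat_lit 10499575683) (nat_lit 402) (nat_lit 5) (nat_lit 419) (nat_lit 5) (nat_lit 420) (nat_lit 5) (nat_lit 476) (nat_lit 450) (nat_lit 214))))) (XT.nd (nat_lit 234) (nat_lit 1824) (nat_lit 0) (XT.nd (nat_lit 78) (nat_lit 912) (nat_lit 0) (XT.lf (nat_lit 0) (nat_lit 12899652131) (nat_lit 1368) (nat_lit 6387804824) (nat_lit 76) (nat_lit 2372482184) (nat_lit 402) (nat_lit 5) (nat_lit 420) (nat_lit 5) (nat_lit 403) (nat_lit 5) (nat_lit 477) (nat_lit 450) (nat_lit 213)) (XT.nd (nat_lit 78) (nat_lit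 0) (nat_lit 0) (XT.lf (nat_lit 0) (nat_lit 4982093608) (nat_lit 912) (nat_lit 10002655530) (nat_lit 988) (nat_lit 6909861303) (nat_lit 390) (nat_lit 5) (nat_lit 402) (nat_lit 5) (nat_lit 403) (nat_lit 5) (nat_lit 478) (nat_lit 450) (nat_lit 212)) (XT.lf (nat_lit 0) (nat_lit 16662441205) (nat_lit 912) (nat_lit 488044328) (nat_lit 988) (nat_lit 4982711933) (nat_lit 390) (nat_lit 5) (nat_lit 402) (nat_lit 5) (nat_lit 403) (nat_lit 5) (nat_lit 479) (nat_lit 450) (nat_lit 211)))) (XT.nd (nat_lit 78) (nat_lit 988) (nat_lit 0) (XT.lf (nat_lit 0) (nat_lit 6217999380) (nat_lit 836) (nat_lit 13237902039) (nat_lit 912) (nat_lit 2918728543) (nat_lit 379) (nat_lit 5) (nat_lit 390) (nat_lit 5) (nat_lit 391) (nat_lit 5) (nat_lit 480) (nat_lit 450) (nat_lit 210)) (XT.nd (nat_lit 78) (nat_lit 988) (nat_lit 0) (XT.lf (nat_lit 0) (nat_lit 18207887628) (nat_lit 836) (nat_lit 3635664467) (nat_lit 912) (nat_lit 776617489) (nat_lit 379) (nat_lit 5)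 (nat_lit 390) (nat_lit 5) (nat_lit 391) (nat_lit 5) (nat_lit 481) (nat_lit 450) (nat_lit 209)) (XT.lf (nat_lit 0) (nat_lit 1476194467) (nat_lit 988) (nat_lit 15255200283) (nat_lit 76) (nat_lit 6137316751) (nat_lit 366) (nat_lit 5) (nat_lit 379) (nat_lit 5) (nat_lit 367) (nat_lit 5) (nat_lit 482) (nat_lit 450) (nat_lit 208)))))) (XT.nd (nat_lit 390) (nat_lit 3116) (nat_lit 0) (XT.nd (nat_lit 156) (nat_lit 836) (nat_lit 0) (XT.nd (nat_lit 78) (nat_lit 836) (nat_lit 0) (XT.lf (nat_lit 0) (nat_lit 3813860593) (nat_lit 988) (nat_lit 3214978523) (nat_lit 76) (nat_lit 16092279484) (nat_lit 366) (nat_lit 5) (nat_lit 379) (nat_lit 5) (nat_lit 367) (nat_lit 5) (nat_lit 483) (nat_lit 450) (nat_lit 207)) (XT.lf (nat_lit 0) (nat_lit 6273294789) (nat_lit 912) (nat_lit 14213475686) (nat_lit 76) (nat_lit 2890303998) (nat_lit 355) (nat_lit 5) (nat_lit 367) (nat_lit 5) (nat_lit 356) (nat_lit 5) (nat_lit 484) (nat_lit 450) (nat_lit 206))) (XT.nd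 (nat_lit 78) (nat_lit 836) (nat_lit 0) (XT.lf (nat_lit 0) (nat_lit 8846610059) (nat_lit 912) (nat_lit 1854622102) (nat_lit 76) (nat_lit 12935624366) (nat_lit 355) (nat_lit 5) (nat_lit 367) (nat_lit 5) (nat_lit 356) (nat_lit 5) (nat_lit 485) (nat_lit 450) (nat_lit 205)) (XT.nd (nat_lit 78) (nat_lit 0) (nat_lit 0) (XT.lf (nat_lit 0) (nat_lit 10890772236) (nat_lit 836) (nat_lit 647826292) (nat_lit 912) (nat_lit 12361892449) (nat_lit 344) (nat_lit 5) (nat_lit 355) (nat_lit 5) (nat_lit 356) (nat_lit 5) (nat_lit 486) (nat_lit 450) (nat_lit 204)) (XT.lf (nat_lit 0) (nat_lit 14355870548) (nat_lit 912) (nat_lit 318907993) (nat_lit 76) (nat_lit 9493191574) (nat_lit 344) (nat_lit 5) (nat_lit 356) (nat_lit 5) (nat_lit 345) (nat_lit 5) (nat_lit 487) (nat_lit 450) (nat_lit 203))))) (XT.nd (nat_lit 234) (nat_lit 1596) (nat_lit 0) (XT.nd (nat_lit 78) (nat_lit 760) (nat_lit 0) (XT.lf (nat_lit 0) (nat_lit 12785666028) (nat_lit 760) (nat_lit 4527736166)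 (nat_lit 836) (nat_lit 7125719216) (nat_lit 334) (nat_lit 5) (nat_lit 344) (nat_lit 5) (nat_lit 345) (nat_lit 5) (nat_lit 488) (nat_lit 450) (nat_lit 202)) (XT.nd (nat_lit 78) (nat_lit 0) (nat_lit 0) (XT.lf (nat_lit 0) (nat_lit 1418293056) (nat_lit 760) (nat_lit 18957610619) (nat_lit 836) (nat_lit 4338876513) (nat_lit 324) (nat_lit 5) (nat_lit 334) (nat_lit 5) (nat_lit 335) (nat_lit 5) (nat_lit 489) (nat_lit 450) (nat_lit 201)) (XT.lf (nat_lit 0) (nat_lit 14875588082) (nat_lit 760) (nat_lit 8728753324) (nat_lit 836) (nat_lit 1389517837) (nat_lit 324) (nat_lit 5) (nat_lit 334) (nat_lit 5) (nat_lit 335) (nat_lit 5) (nat_lit 490) (nat_lit 450) (nat_lit 200)))) (XT.nd (nat_lit 78) (nat_lit 760) (nat_lit 0) (XT.lf (nat_lit 0) (nat_lit 1627390844) (nat_lit 836) (nat_lit 21935686480) (nat_lit 76) (nat_lit 1714637255) (nat_lit 313) (nat_lit 5) (nat_lit 324) (nat_lit 5) (nat_lit 314) (nat_lit 5) (nat_lit 491) (nat_lit 450) (nat_lit 199))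 (XT.nd (nat_lit 78) (nat_lit 760) (nat_lit 0) (XT.lf (nat_lit 0) (nat_lit 4808984875) (nat_lit 836) (nat_lit 8428145688) (nat_lit 76) (nat_lit 12327474486) (nat_lit 313) (nat_lit 5) (nat_lit 324) (nat_lit 5) (nat_lit 314) (nat_lit 5) (nat_lit 492) (nat_lit 450) (nat_lit 198)) (XT.lf (nat_lit 0) (nat_lit 5417173776) (nat_lit 760) (nat_lit 2669052549) (nat_lit 836) (nat_lit 17770367454) (nat_lit 303) (nat_lit 5) (nat_lit 313) (nat_lit 5) (nat_lit 314) (nat_lit 5) (nat_lit 493) (nat_lit 450) (nat_lit 197))))))) (XT.nd (nat_lit 56082) (nat_lit 0) (nat_lit 13224) (XT.nd (nat_lit 390) (nat_lit 2052) (nat_lit 0) (XT.nd (nat_lit 156) (nat_lit 684) (nat_lit 0) (XT.nd (nat_lit 78) (nat_lit 684) (nat_lit 0) (XT.lf (nat_lit 0) (nat_lit 11535484131) (nat_lit 836) (nat_lit 6556136451) (nat_lit 76) (nat_lit 8060673018) (nat_lit 303) (nat_lit 5) (nat_lit 314) (nat_lit 5) (nat_lit 304) (nat_lit 5) (nat_lit 494) (nat_lit 450) (nat_lit 196)) (XT.lf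 (nat_lit 0) (nat_lit 7684530621) (nat_lit 684) (nat_lit 7433708198) (nat_lit 760) (nat_lit 11334379097) (nat_lit 294) (nat_lit 5) (nat_lit 303) (nat_lit 5) (nat_lit 304) (nat_lit 5) (nat_lit 495) (nat_lit 450) (nat_lit 195))) (XT.nd (nat_lit 78) (nat_lit 684) (nat_lit 0) (XT.lf (nat_lit 0) (nat_lit 18836231347) (nat_lit 760) (nat_lit 4485223457) (nat_lit 76) (nat_lit 3436222977) (nat_lit 294) (nat_lit 5) (nat_lit 304) (nat_lit 5) (nat_lit 295) (nat_lit 5) (nat_lit 496) (nat_lit 450) (nat_lit 194)) (XT.nd (nat_lit 78) (nat_lit 0) (nat_lit 0) (XT.lf (nat_lit 0) (nat_lit 10164010990) (nat_lit 684) (nat_lit 12576831959) (nat_lit 760) (nat_lit 4325751414) (nat_lit 285) (nat_lit 5) (nat_lit 294) (nat_lit 5) (nat_lit 295) (nat_lit 5) (nat_lit 497) (nat_lit 450) (nat_lit 193)) (XT.lf (nat_lit 0) (nat_lit 25163690971) (nat_lit 684) (nat_lit 1587028301) (nat_lit 760) (nat_lit 630427244) (nat_lit 285) (nat_lit 5) (nat_lit 294) (nat_lit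 5) (nat_lit 295) (nat_lit 5) (nat_lit 498) (nat_lit 450) (nat_lit 192))))) (XT.nd (nat_lit 234) (nat_lit 608) (nat_lit 0) (XT.nd (nat_lit 78) (nat_lit 684) (nat_lit 0) (XT.lf (nat_lit 0) (nat_lit 3241713276) (nat_lit 760) (nat_lit 14856166217) (nat_lit 76) (nat_lit 9600821781) (nat_lit 275) (nat_lit 5) (nat_lit 285) (nat_lit 5) (nat_lit 276) (nat_lit 5) (nat_lit 499) (nat_lit 450) (nat_lit 191)) (XT.nd (nat_lit 78) (nat_lit 0) (nat_lit 0) (XT.lf (nat_lit 0) (nat_lit 195915703) (nat_lit 684) (nat_lit 7010852768) (nat_lit 760) (nat_lit 20815277700) (nat_lit 266) (nat_lit 5) (nat_lit 275) (nat_lit 5) (nat_lit 276) (nat_lit 5) (nat_lit 500) (nat_lit 450) (nat_lit 190)) (XT.lf (nat_lit 0) (nat_lit 11376558180) (nat_lit 760) (nat_lit 12631386769) (nat_lit 76) (nat_lit 4341404984) (nat_lit 266) (nat_lit 5) (nat_lit 276) (nat_lit 5) (nat_lit 267) (nat_lit 5) (nat_lit 501) (nat_lit 450) (nat_lit 189)))) (XT.nd (nat_lit 78) (nat_lit 0)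 (nat_lit 0) (XT.lf (nat_lit 0) (nat_lit 2854955734) (nat_lit 608) (nat_lit 12836984671) (nat_lit 684) (nat_lit 12990016058) (nat_lit 258) (nat_lit 5) (nat_lit 266) (nat_lit 5) (nat_lit 267) (nat_lit 5) (nat_lit 502) (nat_lit 450) (nat_lit 188)) (XT.nd (nat_lit 55302) (nat_lit 0) (nat_lit 13224) (XT.lf (nat_lit 0) (nat_lit 18818958797) (nat_lit 608) (nat_lit 1356698645) (nat_lit 684) (nat_lit 8843917750) (nat_lit 258) (nat_lit 5) (nat_lit 266) (nat_lit 5) (nat_lit 267) (nat_lit 5) (nat_lit 503) (nat_lit 450) (nat_lit 187)) (XT.lf (nat_lit 0) (nat_lit 1046452665) (nat_lit 0) (nat_lit 1046452665) (nat_lit 1748) (nat_lit 6290069226) (nat_lit 432) (nat_lit 5) (nat_lit 432) (nat_lit 3) (nat_lit 455) (nat_lit 3) (nat_lit 451) (nat_lit 451) (nat_lit 238)))))) (XT.nd (nat_lit 468) (nat_lit 0) (nat_lit 228) (XT.nd (nat_lit 234) (nat_lit 0) (nat_lit 76) (XT.nd (nat_lit 78) (nat_lit 0) (nat_lit 0) (XT.lf (nat_lit 0) (nat_lit 4500508971)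 (nat_lit 1748) (nat_lit 6627745163) (nat_lit 1824) (nat_lit 5799830945) (nat_lit 432) (nat_lit 5) (nat_lit 455) (nat_lit 3) (nat_lit 456) (nat_lit 5) (nat_lit 452) (nat_lit 451) (nat_lit 237)) (XT.nd (nat_lit 78) (nat_lit 0) (nat_lit 76) (XT.lf (nat_lit 76) (nat_lit 1582126234) (nat_lit 0) (nat_lit 3257371678) (nat_lit 1824) (nat_lit 12253607667) (nat_lit 433) (nat_lit 5) (nat_lit 432) (nat_lit 5) (nat_lit 456) (nat_lit 5) (nat_lit 453) (nat_lit 451) (nat_lit 236)) (XT.lf (nat_lit 0) (nat_lit 5254994947) (nat_lit 1748) (nat_lit 7249114071) (nat_lit 1824) (nat_lit 4755924621) (nat_lit 433) (nat_lit 5) (nat_lit 456) (nat_lit 5) (nat_lit 457) (nat_lit 5) (nat_lit 454) (nat_lit 451) (nat_lit 235)))) (XT.nd (nat_lit 78) (nat_lit 0) (nat_lit 76) (XT.lf (nat_lit 76) (nat_lit 1168464255) (nat_lit 0) (nat_lit 4533596190) (nat_lit 1824) (nat_lit 11727776328) (nat_lit 434) (nat_lit 5) (nat_lit 433) (nat_lit 5) (nat_lit 457) (nat_lit 5)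 (nat_lit 455) (nat_lit 451) (nat_lit 234)) (XT.nd (nat_lit 78) (nat_lit 0) (nat_lit 0) (XT.lf (nat_lit 0) (nat_lit 6224595706) (nat_lit 1748) (nat_lit 7776466787) (nat_lit 1824) (nat_lit 3600644557) (nat_lit 434) (nat_lit 5) (nat_lit 457) (nat_lit 5) (nat_lit 458) (nat_lit 5) (nat_lit 456) (nat_lit 451) (nat_lit 233)) (XT.lf (nat_lit 76) (nat_lit 856016894) (nat_lit 0) (nat_lit 5931471116) (nat_lit 1824) (nat_lit 10988930212) (nat_lit 435) (nat_lit 5) (nat_lit 434) (nat_lit 5) (nat_lit 458) (nat_lit 5) (nat_lit 457) (nat_lit 451) (nat_lit 232))))) (XT.nd (nat_lit 234) (nat_lit 0) (nat_lit 76) (XT.nd (nat_lit 78) (nat_lit 0) (nat_lit 0) (XT.lf (nat_lit 0) (nat_lit 7423527262) (nat_lit 1748) (nat_lit 8205722606) (nat_lit 1824) (nat_lit 2324137551) (nat_lit 435) (nat_lit 5) (nat_lit 458) (nat_lit 5) (nat_lit 459) (nat_lit 5) (nat_lit 458) (nat_lit 451) (nat_lit 231)) (XT.nd (nat_lit 78) (nat_lit 0) (nat_lit 76) (XT.lf (nat_lit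 76) (nat_lit 649119560) (nat_lit 0) (nat_lit 7461202116) (nat_lit 1824) (nat_lit 10022815192) (nat_lit 436) (nat_lit 5) (nat_lit 435) (nat_lit 5) (nat_lit 459) (nat_lit 5) (nat_lit 459) (nat_lit 451) (nat_lit 230)) (XT.lf (nat_lit 0) (nat_lit 8866568540) (nat_lit 1748) (nat_lit 8532567663) (nat_lit 1824) (nat_lit 916232296) (nat_lit 436) (nat_lit 5) (nat_lit 459) (nat_lit 5) (nat_lit 460) (nat_lit 5) (nat_lit 460) (nat_lit 451) (nat_lit 229)))) (XT.nd (nat_lit 78) (nat_lit 0) (nat_lit 0) (XT.lf (nat_lit 76) (nat_lit 552348756) (nat_lit 0) (nat_lit 9133332101) (nat_lit 1824) (nat_lit 8814610587) (nat_lit 437) (nat_lit 5) (nat_lit 436) (nat_lit 5) (nat_lit 460) (nat_lit 5) (nat_lit 461) (nat_lit 451) (nat_lit 228)) (XT.nd (nat_lit 78) (nat_lit 0) (nat_lit 76) (XT.lf (nat_lit 76) (nat_lit 9931252600) (nat_lit 0) (nat_lit 642004408) (nat_lit 1824) (nat_lit 8114615675) (nat_lit 437) (nat_lit 5) (nat_lit 436) (nat_lit 5) (nat_lit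 460) (nat_lit 5) (nat_lit 462) (nat_lit 451) (nat_lit 227)) (XT.lf (nat_lit 76) (nat_lit 570525473) (nat_lit 0) (nat_lit 10958765627) (nat_lit 1824) (nat_lit 7348901752) (nat_lit 438) (nat_lit 5) (nat_lit 437) (nat_lit 5) (nat_lit 461) (nat_lit 5) (nat_lit 463) (nat_lit 451) (nat_lit 226))))))))
noncomputable def xc235 : XT := (XT.nd (nat_lit 1716) (nat_lit 7372) (nat_lit 0) (XT.nd (nat_lit 858) (nat_lit 4636) (nat_lit 0) (XT.nd (nat_lit 390) (nat_lit 1596) (nat_lit 0) (XT.nd (nat_lit 156) (nat_lit 0) (nat_lit 76) (XT.nd (nat_lit 78) (nat_lit 0) (nat_lit 76) (XT.lf (nat_lit 76) (nat_lit 10195206140) (nat_lit 0) (nat_lit 2367238748) (nat_lit 1824) (nat_lit 6508715964) (nat_lit 438) (nat_lit 5) (nat_lit 437) (nat_lit 5) (nat_lit 461) (nat_lit 5) (nat_lit 464) (nat_lit 451) (nat_lit 225)) (XT.lf (nat_lit 76) (nat_lit 708718800) (nat_lit 0) (nat_lit 12948793922) (nat_lit 1824) (nat_lit 5609651852) (nat_lit 439) (nat_lit 5) (nat_lit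 438) (nat_lit 5) (nat_lit 462) (nat_lit 5) (nat_lit 465) (nat_lit 451) (nat_lit 224))) (XT.nd (nat_lit 78) (nat_lit 0) (nat_lit 76) (XT.lf (nat_lit 76) (nat_lit 10586098366) (nat_lit 0) (nat_lit 4258714926) (nat_lit 1824) (nat_lit 4620869803) (nat_lit 439) (nat_lit 5) (nat_lit 438) (nat_lit 5) (nat_lit 462) (nat_lit 5) (nat_lit 466) (nat_lit 451) (nat_lit 223)) (XT.nd (nat_lit 78) (nat_lit 0) (nat_lit 0) (XT.lf (nat_lit 76) (nat_lit 972249724) (nat_lit 0) (nat_lit 15115120586) (nat_lit 1824) (nat_lit 3580172794) (nat_lit 440) (nat_lit 5) (nat_lit 439) (nat_lit 5) (nat_lit 463) (nat_lit 5) (nat_lit 467) (nat_lit 451) (nat_lit 222)) (XT.lf (nat_lit 76) (nat_lit 11109475237) (nat_lit 0) (nat_lit 6328275842) (nat_lit 1824) (nat_lit 2434031083) (nat_lit 440) (nat_lit 5) (nat_lit 439) (nat_lit 5) (nat_lit 463) (nat_lit 5) (nat_lit 468) (nat_lit 451) (nat_lit 221))))) (XT.nd (nat_lit 234) (nat_lit 0) (nat_lit 76) (XT.nd (nat_lit 78)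 (nat_lit 1824) (nat_lit 0) (XT.lf (nat_lit 76) (nat_lit 1366695102) (nat_lit 0) (nat_lit 17469888033) (nat_lit 1824) (nat_lit 1243095267) (nat_lit 441) (nat_lit 5) (nat_lit 440) (nat_lit 5) (nat_lit 464) (nat_lit 5) (nat_lit 469) (nat_lit 451) (nat_lit 220)) (XT.nd (nat_lit 78) (nat_lit 0) (nat_lit 76) (XT.lf (nat_lit 0) (nat_lit 68631410) (nat_lit 1824) (nat_lit 8519121684) (nat_lit 1900) (nat_lit 11702052370) (nat_lit 416) (nat_lit 5) (nat_lit 440) (nat_lit 5) (nat_lit 441) (nat_lit 5) (nat_lit 470) (nat_lit 451) (nat_lit 219)) (XT.lf (nat_lit 0) (nat_lit 1401043029) (nat_lit 1824) (nat_lit 18615259976) (nat_lit 1900) (nat_lit 487447016) (nat_lit 417) (nat_lit 5) (nat_lit 441) (nat_lit 5) (nat_lit 442) (nat_lit 5) (nat_lit 471) (nat_lit 451) (nat_lit 218)))) (XT.nd (nat_lit 78) (nat_lit 0) (nat_lit 0) (XT.lf (nat_lit 0) (nat_lit 2870182610) (nat_lit 1824) (nat_lit 8161854309) (nat_lit 1900) (nat_lit 9687736134) (nat_lit 417)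 (nat_lit 5) (nat_lit 441) (nat_lit 5) (nat_lit 442) (nat_lit 5) (nat_lit 472) (nat_lit 451) (nat_lit 217)) (XT.nd (nat_lit 78) (nat_lit 0) (nat_lit 76) (XT.lf (nat_lit 76) (nat_lit 2530368445) (nat_lit 0) (nat_lit 1850511259) (nat_lit 1900) (nat_lit 16558994502) (nat_lit 418) (nat_lit 5) (nat_lit 417) (nat_lit 5) (nat_lit 442) (nat_lit 5) (nat_lit 473) (nat_lit 451) (nat_lit 216)) (XT.lf (nat_lit 0) (nat_lit 6021526041) (nat_lit 1824) (nat_lit 7668867707) (nat_lit 1900) (nat_lit 7471990060) (nat_lit 418) (nat_lit 5) (nat_lit 442) (nat_lit 5) (nat_lit 443) (nat_lit 5) (nat_lit 474) (nat_lit 451) (nat_lit 215)))))) (XT.nd (nat_lit 390) (nat_lit 2660) (nat_lit 0) (XT.nd (nat_lit 156) (nat_lit 2128) (nat_lit 0) (XT.nd (nat_lit 78) (nat_lit 0) (nat_lit 76) (XT.lf (nat_lit 76) (nat_lit 3314360528) (nat_lit 0) (nat_lit 4410293146) (nat_lit 1900) (nat_lit 13664097671) (nat_lit 419) (nat_lit 5) (nat_lit 418) (nat_lit 5) (nat_lit 443)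 (nat_lit 5) (nat_lit 475) (nat_lit 451) (nat_lit 214)) (XT.lf (nat_lit 0) (nat_lit 9542426638) (nat_lit 1824) (nat_lit 7034073541) (nat_lit 76) (nat_lit 5041535485) (nat_lit 419) (nat_lit 5) (nat_lit 443) (nat_lit 5) (nat_lit 420) (nat_lit 5) (nat_lit 476) (nat_lit 451) (nat_lit 213))) (XT.nd (nat_lit 78) (nat_lit 912) (nat_lit 0) (XT.lf (nat_lit 0) (nat_lit 4250153467) (nat_lit 1292) (nat_lit 7199239687) (nat_lit 1368) (nat_lit 10401456822) (nat_lit 402) (nat_lit 5) (nat_lit 419) (nat_lit 5) (nat_lit 420) (nat_lit 5) (nat_lit 477) (nat_lit 451) (nat_lit 212)) (XT.nd (nat_lit 78) (nat_lit 912) (nat_lit 0) (XT.lf (nat_lit 0) (nat_lit 13453467639) (nat_lit 1368) (nat_lit 6251125004) (nat_lit 76) (nat_lit 2382549603) (nat_lit 402) (nat_lit 5) (nat_lit 420) (nat_lit 5) (nat_lit 403) (nat_lit 5) (nat_lit 478) (nat_lit 451) (nat_lit 211)) (XT.lf (nat_lit 0) (nat_lit 5344431686) (nat_lit 912) (nat_lit 10231740057) (nat_lit 988) (nat_lit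 6750418681) (nat_lit 390) (nat_lit 5) (nat_lit 402) (nat_lit 5) (nat_lit 403) (nat_lit 5) (nat_lit 479) (nat_lit 451) (nat_lit 210))))) (XT.nd (nat_lit 234) (nat_lit 1824) (nat_lit 0) (XT.nd (nat_lit 78) (nat_lit 836) (nat_lit 0) (XT.lf (nat_lit 0) (nat_lit 17253235329) (nat_lit 912) (nat_lit 526267387) (nat_lit 988) (nat_lit 4790562400) (nat_lit 390) (nat_lit 5) (nat_lit 402) (nat_lit 5) (nat_lit 403) (nat_lit 5) (nat_lit 480) (nat_lit 451) (nat_lit 209)) (XT.nd (nat_lit 78) (nat_lit 0) (nat_lit 0) (XT.lf (nat_lit 0) (nat_lit 6604152036) (nat_lit 836) (nat_lit 13522785455) (nat_lit 912) (nat_lit 2689472053) (nat_lit 379) (nat_lit 5) (nat_lit 390) (nat_lit 5) (nat_lit 391) (nat_lit 5) (nat_lit 481) (nat_lit 451) (nat_lit 208)) (XT.lf (nat_lit 0) (nat_lit 18828704859) (nat_lit 836) (nat_lit 3728108516) (nat_lit 912) (nat_lit 510158603) (nat_lit 379) (nat_lit 5) (nat_lit 390) (nat_lit 5) (nat_lit 391) (nat_lit 5) (nat_lit 482)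 (nat_lit 451) (nat_lit 207)))) (XT.nd (nat_lit 78) (nat_lit 836) (nat_lit 0) (XT.lf (nat_lit 0) (nat_lit 1780131680) (nat_lit 988) (nat_lit 15295924789) (nat_lit 76) (nat_lit 6244470646) (nat_lit 366) (nat_lit 5) (nat_lit 379) (nat_lit 5) (nat_lit 367) (nat_lit 5) (nat_lit 483) (nat_lit 451) (nat_lit 206)) (XT.nd (nat_lit 78) (nat_lit 836) (nat_lit 0) (XT.lf (nat_lit 0) (nat_lit 4159170474) (nat_lit 988) (nat_lit 3020082505) (nat_lit 76) (nat_lit 16398838368) (nat_lit 366) (nat_lit 5) (nat_lit 379) (nat_lit 5) (nat_lit 367) (nat_lit 5) (nat_lit 484) (nat_lit 451) (nat_lit 205)) (XT.lf (nat_lit 0) (nat_lit 6664138457) (nat_lit 912) (nat_lit 14234827096) (nat_lit 76) (nat_lit 2940275236) (nat_lit 355) (nat_lit 5) (nat_lit 367) (nat_lit 5) (nat_lit 356) (nat_lit 5) (nat_lit 485) (nat_lit 451) (nat_lit 204))))))) (XT.nd (nat_lit 858) (nat_lit 2736) (nat_lit 0) (XT.nd (nat_lit 390) (nat_lit 2280) (nat_lit 0) (XT.nd (nat_lit 156)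 (nat_lit 1520) (nat_lit 0) (XT.nd (nat_lit 78) (nat_lit 836) (nat_lit 0) (XT.lf (nat_lit 0) (nat_lit 9283716546) (nat_lit 912) (nat_lit 1633951697) (nat_lit 76) (nat_lit 13186655636) (nat_lit 355) (nat_lit 5) (nat_lit 367) (nat_lit 5) (nat_lit 356) (nat_lit 5) (nat_lit 486) (nat_lit 451) (nat_lit 203)) (XT.lf (nat_lit 0) (nat_lit 11364654720) (nat_lit 836) (nat_lit 661451165) (nat_lit 912) (nat_lit 12347195210) (nat_lit 344) (nat_lit 5) (nat_lit 355) (nat_lit 5) (nat_lit 356) (nat_lit 5) (nat_lit 487) (nat_lit 451) (nat_lit 202))) (XT.nd (nat_lit 78) (nat_lit 1520) (nat_lit 0) (XT.lf (nat_lit 0) (nat_lit 14894685064) (nat_lit 912) (nat_lit 69138036) (nat_lit 76) (nat_lit 9682408756) (nat_lit 344) (nat_lit 5) (nat_lit 356) (nat_lit 5) (nat_lit 345) (nat_lit 5) (nat_lit 488) (nat_lit 451) (nat_lit 201)) (XT.nd (nat_lit 78) (nat_lit 760) (nat_lit 0) (XT.lf (nat_lit 0) (nat_lit 13295842280) (nat_lit 760) (nat_lit 4612241968) (nat_lit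 836) (nat_lit 7014788841) (nat_lit 334) (nat_lit 5) (nat_lit 344) (nat_lit 5) (nat_lit 345) (nat_lit 5) (nat_lit 489) (nat_lit 451) (nat_lit 200)) (XT.lf (nat_lit 0) (nat_lit 1704406388) (nat_lit 760) (nat_lit 19324270479) (nat_lit 836) (nat_lit 4175432579) (nat_lit 324) (nat_lit 5) (nat_lit 334) (nat_lit 5) (nat_lit 335) (nat_lit 5) (nat_lit 490) (nat_lit 451) (nat_lit 199))))) (XT.nd (nat_lit 234) (nat_lit 1444) (nat_lit 0) (XT.nd (nat_lit 78) (nat_lit 836) (nat_lit 0) (XT.lf (nat_lit 0) (nat_lit 15425793442) (nat_lit 760) (nat_lit 8891080986) (nat_lit 836) (nat_lit 1171993032) (nat_lit 324) (nat_lit 5) (nat_lit 334) (nat_lit 5) (nat_lit 335) (nat_lit 5) (nat_lit 491) (nat_lit 451) (nat_lit 198)) (XT.nd (nat_lit 78) (nat_lit 0) (nat_lit 0) (XT.lf (nat_lit 0) (nat_lit 1899039681) (nat_lit 836) (nat_lit 22115375890) (nat_lit 76) (nat_lit 1764013568) (nat_lit 313) (nat_lit 5) (nat_lit 324) (nat_lit 5) (nat_lit 314) (nat_lit 5)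 (nat_lit 492) (nat_lit 451) (nat_lit 197)) (XT.lf (nat_lit 0) (nat_lit 5139577337) (nat_lit 836) (nat_lit 8342763191) (nat_lit 76) (nat_lit 12588811787) (nat_lit 313) (nat_lit 5) (nat_lit 324) (nat_lit 5) (nat_lit 314) (nat_lit 5) (nat_lit 493) (nat_lit 451) (nat_lit 196)))) (XT.nd (nat_lit 78) (nat_lit 684) (nat_lit 0) (XT.lf (nat_lit 0) (nat_lit 5777791970) (nat_lit 760) (nat_lit 2701613253) (nat_lit 836) (nat_lit 17889635874) (nat_lit 303) (nat_lit 5) (nat_lit 313) (nat_lit 5) (nat_lit 314) (nat_lit 5) (nat_lit 494) (nat_lit 451) (nat_lit 195)) (XT.nd (nat_lit 78) (nat_lit 684) (nat_lit 0) (XT.lf (nat_lit 0) (nat_lit 11993242392) (nat_lit 836) (nat_lit 6435470850) (nat_lit 76) (nat_lit 8242030875) (nat_lit 303) (nat_lit 5) (nat_lit 314) (nat_lit 5) (nat_lit 304) (nat_lit 5) (nat_lit 495) (nat_lit 451) (nat_lit 194)) (XT.lf (nat_lit 0) (nat_lit 8088353061) (nat_lit 684) (nat_lit 7556471201) (nat_lit 760) (nat_lit 11332308282)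 (nat_lit 294) (nat_lit 5) (nat_lit 303) (nat_lit 5) (nat_lit 304) (nat_lit 5) (nat_lit 496) (nat_lit 451) (nat_lit 193)))))) (XT.nd (nat_lit 468) (nat_lit 608) (nat_lit 0) (XT.nd (nat_lit 234) (nat_lit 1444) (nat_lit 0) (XT.nd (nat_lit 78) (nat_lit 684) (nat_lit 0) (XT.lf (nat_lit 0) (nat_lit 19432945091) (nat_lit 760) (nat_lit 4325416823) (nat_lit 76) (nat_lit 3530017369) (nat_lit 294) (nat_lit 5) (nat_lit 304) (nat_lit 5) (nat_lit 295) (nat_lit 5) (nat_lit 497) (nat_lit 451) (nat_lit 192)) (XT.nd (nat_lit 78) (nat_lit 0) (nat_lit 0) (XT.lf (nat_lit 0) (nat_lit 10615160793) (nat_lit 684) (nat_lit 12797783954) (nat_lit 760) (nat_lit 4190584557) (nat_lit 285) (nat_lit 5) (nat_lit 294) (nat_lit 5) (nat_lit 295) (nat_lit 5) (nat_lit 498) (nat_lit 451) (nat_lit 191)) (XT.lf (nat_lit 0) (nat_lit 25909974185) (nat_lit 684) (nat_lit 1588783922) (nat_lit 760) (nat_lit 425700608) (nat_lit 285) (nat_lit 5) (nat_lit 294) (nat_lit 5) (nat_lit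 295) (nat_lit 5) (nat_lit 499) (nat_lit 451) (nat_lit 190)))) (XT.nd (nat_lit 78) (nat_lit 684) (nat_lit 0) (XT.lf (nat_lit 0) (nat_lit 3518623380) (nat_lit 760) (nat_lit 14904923256) (nat_lit 76) (nat_lit 9824838857) (nat_lit 275) (nat_lit 5) (nat_lit 285) (nat_lit 5) (nat_lit 276) (nat_lit 5) (nat_lit 500) (nat_lit 451) (nat_lit 189)) (XT.nd (nat_lit 78) (nat_lit 0) (nat_lit 0) (XT.lf (nat_lit 0) (nat_lit 446566314) (nat_lit 684) (nat_lit 7113856964) (nat_lit 760) (nat_lit 21017826083) (nat_lit 266) (nat_lit 5) (nat_lit 275) (nat_lit 5) (nat_lit 276) (nat_lit 5) (nat_lit 501) (nat_lit 451) (nat_lit 188)) (XT.lf (nat_lit 0) (nat_lit 11809737430) (nat_lit 760) (nat_lit 12638202329) (nat_lit 76) (nat_lit 4464237796) (nat_lit 266) (nat_lit 5) (nat_lit 276) (nat_lit 5) (nat_lit 267) (nat_lit 5) (nat_lit 502) (nat_lit 451) (nat_lit 187))))) (XT.nd (nat_lit 55536) (nat_lit 0) (nat_lit 13224) (XT.nd (nat_lit 55380) (nat_lit 0) (nat_lit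 13224) (XT.lf (nat_lit 0) (nat_lit 3156249839) (nat_lit 608) (nat_lit 13052730621) (nat_lit 684) (nat_lit 13042505602) (nat_lit 258) (nat_lit 5) (nat_lit 266) (nat_lit 5) (nat_lit 267) (nat_lit 5) (nat_lit 503) (nat_lit 451) (nat_lit 186)) (XT.nd (nat_lit 78) (nat_lit 0) (nat_lit 0) (XT.lf (nat_lit 0) (nat_lit 1183961568) (nat_lit 0) (nat_lit 1183961568) (nat_lit 1748) (nat_lit 6177981428) (nat_lit 432) (nat_lit 5) (nat_lit 432) (nat_lit 3) (nat_lit 455) (nat_lit 3) (nat_lit 452) (nat_lit 452) (nat_lit 236)) (XT.lf (nat_lit 0) (nat_lit 5046210888) (nat_lit 1748) (nat_lit 6520954484) (nat_lit 1824) (nat_lit 5690237595) (nat_lit 432) (nat_lit 5) (nat_lit 455) (nat_lit 3) (nat_lit 456) (nat_lit 5) (nat_lit 453) (nat_lit 452) (nat_lit 235)))) (XT.nd (nat_lit 78) (nat_lit 0) (nat_lit 76) (XT.lf (nat_lit 76) (nat_lit 1851539699) (nat_lit 0) (nat_lit 3533048544) (nat_lit 1824) (nat_lit 12041286011) (nat_lit 433) (nat_lit 5) (nat_lit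 432) (nat_lit 5) (nat_lit 456) (nat_lit 5) (nat_lit 454) (nat_lit 452) (nat_lit 234)) (XT.nd (nat_lit 78) (nat_lit 0) (nat_lit 0) (XT.lf (nat_lit 0) (nat_lit 5798264920) (nat_lit 1748) (nat_lit 7150732358) (nat_lit 1824) (nat_lit 4647348702) (nat_lit 433) (nat_lit 5) (nat_lit 456) (nat_lit 5) (nat_lit 457) (nat_lit 5) (nat_lit 455) (nat_lit 452) (nat_lit 233)) (XT.lf (nat_lit 76) (nat_lit 1433596456) (nat_lit 0) (nat_lit 4813653387) (nat_lit 1824) (nat_lit 11522438220) (nat_lit 434) (nat_lit 5) (nat_lit 433) (nat_lit 5) (nat_lit 457) (nat_lit 5) (nat_lit 456) (nat_lit 452) (nat_lit 232))))))))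
noncomputable def xc236 : XT := (XT.nd (nat_lit 1716) (nat_lit 9652) (nat_lit 0) (XT.nd (nat_lit 858) (nat_lit 2432) (nat_lit 0) (XT.nd (nat_lit 390) (nat_lit 0) (nat_lit 152) (XT.nd (nat_lit 156) (nat_lit 0) (nat_lit 76) (XT.nd (nat_lit 78) (nat_lit 0) (nat_lit 0) (XT.lf (nat_lit 0) (nat_lit 6770576418) (nat_lit 1748) (nat_lit 7685194185) (nat_lit 1824) (nat_lit 3489420731) (nat_lit 434) (nat_lit 5) (nat_lit 457) (nat_lit 5) (nat_lit 458) (nat_lit 5) (nat_lit 457) (nat_lit 452) (nat_lit 231)) (XT.lf (nat_lit 76) (nat_lit 1118315472) (nat_lit 0) (nat_lit 6219738469) (nat_lit 1824) (nat_lit 10785478596) (nat_lit 435) (nat_lit 5) (nat_lit 434) (nat_lit 5) (nat_lit 458) (nat_lit 5) (nat_lit 458) (nat_lit 452) (nat_lit 230))) (XT.nd (nat_lit 78) (nat_lit 0) (nat_lit 0) (XT.lf (nat_lit 0) (nat_lit 7977600522) (nat_lit 1748) (nat_lit 8120137360) (nat_lit 1824) (nat_lit 2206489813) (nat_lit 435) (nat_lit 5) (nat_lit 458) (nat_lit 5)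 (nat_lit 459) (nat_lit 5) (nat_lit 459) (nat_lit 452) (nat_lit 229)) (XT.nd (nat_lit 78) (nat_lit 0) (nat_lit 76) (XT.lf (nat_lit 76) (nat_lit 910158888) (nat_lit 0) (nat_lit 7761629493) (nat_lit 1824) (nat_lit 9815912865) (nat_lit 436) (nat_lit 5) (nat_lit 435) (nat_lit 5) (nat_lit 459) (nat_lit 5) (nat_lit 460) (nat_lit 452) (nat_lit 228)) (XT.lf (nat_lit 0) (nat_lit 9434369085) (nat_lit 1748) (nat_lit 8451123909) (nat_lit 1824) (nat_lit 788262554) (nat_lit 436) (nat_lit 5) (nat_lit 459) (nat_lit 5) (nat_lit 460) (nat_lit 5) (nat_lit 461) (nat_lit 452) (nat_lit 227))))) (XT.nd (nat_lit 234) (nat_lit 0) (nat_lit 76) (XT.nd (nat_lit 78) (nat_lit 0) (nat_lit 0) (XT.lf (nat_lit 76) (nat_lit 813832318) (nat_lit 0) (nat_lit 9450001074) (nat_lit 1824) (nat_lit 8598666343) (nat_lit 437) (nat_lit 5) (nat_lit 436) (nat_lit 5) (nat_lit 460) (nat_lit 5) (nat_lit 462) (nat_lit 452) (nat_lit 226)) (XT.nd (nat_lit 78) (nat_lit 0) (nat_lit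 76) (XT.lf (nat_lit 76) (nat_lit 10375403717) (nat_lit 0) (nat_lit 786219330) (nat_lit 1824) (nat_lit 7892362444) (nat_lit 437) (nat_lit 5) (nat_lit 436) (nat_lit 5) (nat_lit 460) (nat_lit 5) (nat_lit 463) (nat_lit 452) (nat_lit 225)) (XT.lf (nat_lit 76) (nat_lit 834288457) (nat_lit 0) (nat_lit 11295901342) (nat_lit 1824) (nat_lit 7118056115) (nat_lit 438) (nat_lit 5) (nat_lit 437) (nat_lit 5) (nat_lit 461) (nat_lit 5) (nat_lit 464) (nat_lit 452) (nat_lit 224)))) (XT.nd (nat_lit 78) (nat_lit 0) (nat_lit 76) (XT.lf (nat_lit 76) (nat_lit 10646514651) (nat_lit 0) (nat_lit 2530230976) (nat_lit 1824) (nat_lit 6268474919) (nat_lit 438) (nat_lit 5) (nat_lit 437) (nat_lit 5) (nat_lit 461) (nat_lit 5) (nat_lit 465) (nat_lit 452) (nat_lit 223)) (XT.nd (nat_lit 78) (nat_lit 0) (nat_lit 0) (XT.lf (nat_lit 76) (nat_lit 976730903) (nat_lit 0) (nat_lit 13310777196) (nat_lit 1824) (nat_lit 5357762386) (nat_lit 439) (nat_lit 5) (nat_lit 438)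 (nat_lit 5) (nat_lit 462) (nat_lit 5) (nat_lit 466) (nat_lit 452) (nat_lit 222)) (XT.lf (nat_lit 76) (nat_lit 11046680851) (nat_lit 0) (nat_lit 4444876867) (nat_lit 1824) (nat_lit 4356343569) (nat_lit 439) (nat_lit 5) (nat_lit 438) (nat_lit 5) (nat_lit 462) (nat_lit 5) (nat_lit 467) (nat_lit 452) (nat_lit 221)))))) (XT.nd (nat_lit 390) (nat_lit 1064) (nat_lit 0) (XT.nd (nat_lit 156) (nat_lit 1748) (nat_lit 0) (XT.nd (nat_lit 78) (nat_lit 0) (nat_lit 0) (XT.lf (nat_lit 76) (nat_lit 1246618151) (nat_lit 0) (nat_lit 15506500267) (nat_lit 1824) (nat_lit 3300798959) (nat_lit 440) (nat_lit 5) (nat_lit 439) (nat_lit 5) (nat_lit 463) (nat_lit 5) (nat_lit 468) (nat_lit 452) (nat_lit 220)) (XT.lf (nat_lit 76) (nat_lit 11581589675) (nat_lit 0) (nat_lit 6542172015) (nat_lit 1824) (nat_lit 2138616320) (nat_lit 440) (nat_lit 5) (nat_lit 439) (nat_lit 5) (nat_lit 463) (nat_lit 5) (nat_lit 469) (nat_lit 452) (nat_lit 219))) (XT.nd (nat_lit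 78) (nat_lit 1824) (nat_lit 0) (XT.lf (nat_lit 76) (nat_lit 1649667768) (nat_lit 0) (nat_lit 17895393650) (nat_lit 1824) (nat_lit 929482793) (nat_lit 441) (nat_lit 5) (nat_lit 440) (nat_lit 5) (nat_lit 464) (nat_lit 5) (nat_lit 470) (nat_lit 452) (nat_lit 218)) (XT.nd (nat_lit 78) (nat_lit 0) (nat_lit 76) (XT.lf (nat_lit 0) (nat_lit 397489555) (nat_lit 1824) (nat_lit 8434436546) (nat_lit 1900) (nat_lit 11857036540) (nat_lit 416) (nat_lit 5) (nat_lit 440) (nat_lit 5) (nat_lit 441) (nat_lit 5) (nat_lit 471) (nat_lit 452) (nat_lit 217)) (XT.lf (nat_lit 0) (nat_lit 1751323223) (nat_lit 1824) (nat_lit 18727183949) (nat_lit 1900) (nat_lit 428785190) (nat_lit 417) (nat_lit 5) (nat_lit 441) (nat_lit 5) (nat_lit 442) (nat_lit 5) (nat_lit 472) (nat_lit 452) (nat_lit 216))))) (XT.nd (nat_lit 234) (nat_lit 1140) (nat_lit 0) (XT.nd (nat_lit 78) (nat_lit 0) (nat_lit 0) (XT.lf (nat_lit 0) (nat_lit 3243526786) (nat_lit 1824) (nat_lit 8069815683)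 (nat_lit 1900) (nat_lit 9814421478) (nat_lit 417) (nat_lit 5) (nat_lit 441) (nat_lit 5) (nat_lit 442) (nat_lit 5) (nat_lit 473) (nat_lit 452) (nat_lit 215)) (XT.nd (nat_lit 78) (nat_lit 0) (nat_lit 76) (XT.lf (nat_lit 76) (nat_lit 2834572080) (nat_lit 0) (nat_lit 1945317343) (nat_lit 1900) (nat_lit 16572470348) (nat_lit 418) (nat_lit 5) (nat_lit 417) (nat_lit 5) (nat_lit 442) (nat_lit 5) (nat_lit 474) (nat_lit 452) (nat_lit 214)) (XT.lf (nat_lit 0) (nat_lit 6446875069) (nat_lit 1824) (nat_lit 7567065224) (nat_lit 1900) (nat_lit 7565510394) (nat_lit 418) (nat_lit 5) (nat_lit 442) (nat_lit 5) (nat_lit 443) (nat_lit 5) (nat_lit 475) (nat_lit 452) (nat_lit 213)))) (XT.nd (nat_lit 78) (nat_lit 1216) (nat_lit 0) (XT.lf (nat_lit 76) (nat_lit 3634148760) (nat_lit 0) (nat_lit 4545583596) (nat_lit 1900) (nat_lit 13630701492) (nat_lit 419) (nat_lit 5) (nat_lit 418) (nat_lit 5) (nat_lit 443) (nat_lit 5) (nat_lit 476) (nat_lit 452) (nat_lit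 212)) (XT.nd (nat_lit 78) (nat_lit 1292) (nat_lit 0) (XT.lf (nat_lit 0) (nat_lit 10027667234) (nat_lit 1824) (nat_lit 6919951826) (nat_lit 76) (nat_lit 5096810250) (nat_lit 419) (nat_lit 5) (nat_lit 443) (nat_lit 5) (nat_lit 420) (nat_lit 5) (nat_lit 477) (nat_lit 452) (nat_lit 211)) (XT.lf (nat_lit 0) (nat_lit 4588283385) (nat_lit 1292) (nat_lit 7380360769) (nat_lit 1368) (nat_lit 10313339885) (nat_lit 402) (nat_lit 5) (nat_lit 419) (nat_lit 5) (nat_lit 420) (nat_lit 5) (nat_lit 478) (nat_lit 452) (nat_lit 210))))))) (XT.nd (nat_lit 858) (nat_lit 4484) (nat_lit 0) (XT.nd (nat_lit 390) (nat_lit 3420) (nat_lit 0) (XT.nd (nat_lit 156) (nat_lit 836) (nat_lit 0) (XT.nd (nat_lit 78) (nat_lit 912) (nat_lit 0) (XT.lf (nat_lit 0) (nat_lit 14006872309) (nat_lit 1368) (nat_lit 6121979957) (nat_lit 76) (nat_lit 2394269968) (nat_lit 402) (nat_lit 5) (nat_lit 420) (nat_lit 5) (nat_lit 403) (nat_lit 5) (nat_lit 479) (nat_lit 452) (nat_lit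 209)) (XT.lf (nat_lit 0) (nat_lit 5703815712) (nat_lit 912) (nat_lit 10464278949) (nat_lit 988) (nat_lit 6599344925) (nat_lit 390) (nat_lit 5) (nat_lit 402) (nat_lit 5) (nat_lit 403) (nat_lit 5) (nat_lit 480) (nat_lit 452) (nat_lit 208))) (XT.nd (nat_lit 78) (nat_lit 836) (nat_lit 0) (XT.lf (nat_lit 0) (nat_lit 17845844538) (nat_lit 912) (nat_lit 564149687) (nat_lit 988) (nat_lit 4605900972) (nat_lit 390) (nat_lit 5) (nat_lit 402) (nat_lit 5) (nat_lit 403) (nat_lit 5) (nat_lit 481) (nat_lit 452) (nat_lit 207)) (XT.nd (nat_lit 78) (nat_lit 0) (nat_lit 0) (XT.lf (nat_lit 0) (nat_lit 6987862016) (nat_lit 836) (nat_lit 13812585046) (nat_lit 912) (nat_lit 2466799498) (nat_lit 379) (nat_lit 5) (nat_lit 390) (nat_lit 5) (nat_lit 391) (nat_lit 5) (nat_lit 482) (nat_lit 452) (nat_lit 206)) (XT.lf (nat_lit 0) (nat_lit 19451972034) (nat_lit 836) (nat_lit 3821635277) (nat_lit 912) (nat_lit 249320602) (nat_lit 379) (nat_lit 5) (nat_lit 390)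 (nat_lit 5) (nat_lit 391) (nat_lit 5) (nat_lit 483) (nat_lit 452) (nat_lit 205))))) (XT.nd (nat_lit 234) (nat_lit 1596) (nat_lit 0) (XT.nd (nat_lit 78) (nat_lit 836) (nat_lit 0) (XT.lf (nat_lit 0) (nat_lit 2079491832) (nat_lit 988) (nat_lit 15347729963) (nat_lit 76) (nat_lit 6354373092) (nat_lit 366) (nat_lit 5) (nat_lit 379) (nat_lit 5) (nat_lit 367) (nat_lit 5) (nat_lit 484) (nat_lit 452) (nat_lit 204)) (XT.nd (nat_lit 78) (nat_lit 836) (nat_lit 0) (XT.lf (nat_lit 0) (nat_lit 4500939687) (nat_lit 988) (nat_lit 2831353448) (nat_lit 76) (nat_lit 16712122031) (nat_lit 366) (nat_lit 5) (nat_lit 379) (nat_lit 5) (nat_lit 367) (nat_lit 5) (nat_lit 485) (nat_lit 452) (nat_lit 203)) (XT.lf (nat_lit 0) (nat_lit 7052494056) (nat_lit 912) (nat_lit 14266814964) (nat_lit 76) (nat_lit 2991550135) (nat_lit 355) (nat_lit 5) (nat_lit 367) (nat_lit 5) (nat_lit 356) (nat_lit 5) (nat_lit 486) (nat_lit 452) (nat_lit 202)))) (XT.nd (nat_lit 78)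 (nat_lit 1596) (nat_lit 0) (XT.lf (nat_lit 0) (nat_lit 9719462279) (nat_lit 912) (nat_lit 1418877129) (nat_lit 76) (nat_lit 13443005802) (nat_lit 355) (nat_lit 5) (nat_lit 367) (nat_lit 5) (nat_lit 356) (nat_lit 5) (nat_lit 487) (nat_lit 452) (nat_lit 201)) (XT.nd (nat_lit 78) (nat_lit 760) (nat_lit 0) (XT.lf (nat_lit 0) (nat_lit 11838071458) (nat_lit 836) (nat_lit 675322584) (nat_lit 912) (nat_lit 12342375285) (nat_lit 344) (nat_lit 5) (nat_lit 355) (nat_lit 5) (nat_lit 356) (nat_lit 5) (nat_lit 488) (nat_lit 452) (nat_lit 200)) (XT.lf (nat_lit 0) (nat_lit 178015481) (nat_lit 760) (nat_lit 15257642479) (nat_lit 836) (nat_lit 9698575706) (nat_lit 334) (nat_lit 5) (nat_lit 344) (nat_lit 5) (nat_lit 345) (nat_lit 5) (nat_lit 489) (nat_lit 452) (nat_lit 199)))))) (XT.nd (nat_lit 468) (nat_lit 2128) (nat_lit 0) (XT.nd (nat_lit 234) (nat_lit 1596) (nat_lit 0) (XT.nd (nat_lit 78) (nat_lit 760) (nat_lit 0) (XT.lf (nat_lit 0) (nat_lit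 13806340952) (nat_lit 760) (nat_lit 4698672773) (nat_lit 836) (nat_lit 6911481427) (nat_lit 334) (nat_lit 5) (nat_lit 344) (nat_lit 5) (nat_lit 345) (nat_lit 5) (nat_lit 490) (nat_lit 452) (nat_lit 198)) (XT.nd (nat_lit 78) (nat_lit 0) (nat_lit 0) (XT.lf (nat_lit 0) (nat_lit 1986233339) (nat_lit 760) (nat_lit 19698748629) (nat_lit 836) (nat_lit 4018436169) (nat_lit 324) (nat_lit 5) (nat_lit 334) (nat_lit 5) (nat_lit 335) (nat_lit 5) (nat_lit 491) (nat_lit 452) (nat_lit 197)) (XT.lf (nat_lit 0) (nat_lit 15977190510) (nat_lit 760) (nat_lit 9057130783) (nat_lit 836) (nat_lit 959643617) (nat_lit 324) (nat_lit 5) (nat_lit 334) (nat_lit 5) (nat_lit 335) (nat_lit 5) (nat_lit 492) (nat_lit 452) (nat_lit 196)))) (XT.nd (nat_lit 78) (nat_lit 760) (nat_lit 0) (XT.lf (nat_lit 0) (nat_lit 2166836910) (nat_lit 836) (nat_lit 22308717319) (nat_lit 76) (nat_lit 1813791693) (nat_lit 313) (nat_lit 5) (nat_lit 324) (nat_lit 5) (nat_lit 314) (nat_lit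 5) (nat_lit 493) (nat_lit 452) (nat_lit 195)) (XT.nd (nat_lit 78) (nat_lit 760) (nat_lit 0) (XT.lf (nat_lit 0) (nat_lit 5467679114) (nat_lit 836) (nat_lit 8265534053) (nat_lit 76) (nat_lit 12854801605) (nat_lit 313) (nat_lit 5) (nat_lit 324) (nat_lit 5) (nat_lit 314) (nat_lit 5) (nat_lit 494) (nat_lit 452) (nat_lit 194)) (XT.lf (nat_lit 0) (nat_lit 6135826392) (nat_lit 760) (nat_lit 2735633650) (nat_lit 836) (nat_lit 18020459226) (nat_lit 303) (nat_lit 5) (nat_lit 313) (nat_lit 5) (nat_lit 314) (nat_lit 5) (nat_lit 495) (nat_lit 452) (nat_lit 193))))) (XT.nd (nat_lit 234) (nat_lit 1444) (nat_lit 0) (XT.nd (nat_lit 78) (nat_lit 684) (nat_lit 0) (XT.lf (nat_lit 0) (nat_lit 12451339245) (nat_lit 836) (nat_lit 6322169185) (nat_lit 76) (nat_lit 8426233658) (nat_lit 303) (nat_lit 5) (nat_lit 314) (nat_lit 5) (nat_lit 304) (nat_lit 5) (nat_lit 496) (nat_lit 452) (nat_lit 192)) (XT.nd (nat_lit 78) (nat_lit 0) (nat_lit 0) (XT.lf (nat_lit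 0) (nat_lit 8490539026) (nat_lit 684) (nat_lit 7682695626) (nat_lit 760) (nat_lit 11339079017) (nat_lit 294) (nat_lit 5) (nat_lit 303) (nat_lit 5) (nat_lit 304) (nat_lit 5) (nat_lit 497) (nat_lit 452) (nat_lit 191)) (XT.lf (nat_lit 0) (nat_lit 20033050665) (nat_lit 760) (nat_lit 4172102876) (nat_lit 76) (nat_lit 3624714152) (nat_lit 294) (nat_lit 5) (nat_lit 304) (nat_lit 5) (nat_lit 295) (nat_lit 5) (nat_lit 498) (nat_lit 452) (nat_lit 190)))) (XT.nd (nat_lit 78) (nat_lit 760) (nat_lit 0) (XT.lf (nat_lit 0) (nat_lit 11065708514) (nat_lit 684) (nat_lit 13024342627) (nat_lit 760) (nat_lit 4061322542) (nat_lit 285) (nat_lit 5) (nat_lit 294) (nat_lit 5) (nat_lit 295) (nat_lit 5) (nat_lit 499) (nat_lit 452) (nat_lit 189)) (XT.nd (nat_lit 78) (nat_lit 760) (nat_lit 0) (XT.lf (nat_lit 0) (nat_lit 26661746713) (nat_lit 684) (nat_lit 1591739007) (nat_lit 760) (nat_lit 225318830) (nat_lit 285) (nat_lit 5) (nat_lit 294) (nat_lit 5) (nat_lit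 295) (nat_lit 5) (nat_lit 500) (nat_lit 452) (nat_lit 188)) (XT.lf (nat_lit 0) (nat_lit 3792836522) (nat_lit 760) (nat_lit 14964299801) (nat_lit 76) (nat_lit 10052093650) (nat_lit 275) (nat_lit 5) (nat_lit 285) (nat_lit 5) (nat_lit 276) (nat_lit 5) (nat_lit 501) (nat_lit 452) (nat_lit 187))))))))
noncomputable def xc237 : XT := (XT.nd (nat_lit 57174) (nat_lit 0) (nat_lit 2812) (XT.nd (nat_lit 56316) (nat_lit 0) (nat_lit 11400) (XT.nd (nat_lit 55848) (nat_lit 0) (nat_lit 12692) (XT.nd (nat_lit 55614) (nat_lit 0) (nat_lit 12616) (XT.nd (nat_lit 55536) (nat_lit 0) (nat_lit 12616) (XT.lf (nat_lit 0) (nat_lit 692649021) (nat_lit 684) (nat_lit 7220366265) (nat_lit 760) (nat_lit 21232725886) (nat_lit 266) (nat_lit 5) (nat_lit 275) (nat_lit 5) (nat_lit 276) (nat_lit 5) (nat_lit 502) (nat_lit 452) (nat_lit 186)) (XT.lf (nat_lit 0) (nat_lit 1319693712) (nat_lit 0) (nat_lit 1319693712) (nat_lit 1748) (nat_lit 6072889400) (nat_lit 432)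 (nat_lit 5) (nat_lit 432) (nat_lit 3) (nat_lit 455) (nat_lit 3) (nat_lit 453) (nat_lit 453) (nat_lit 234))) (XT.nd (nat_lit 78) (nat_lit 0) (nat_lit 0) (XT.lf (nat_lit 0) (nat_lit 5585131777) (nat_lit 1748) (nat_lit 6421322072) (nat_lit 1824) (nat_lit 5587212312) (nat_lit 432) (nat_lit 5) (nat_lit 455) (nat_lit 3) (nat_lit 456) (nat_lit 5) (nat_lit 454) (nat_lit 453) (nat_lit 233)) (XT.nd (nat_lit 78) (nat_lit 0) (nat_lit 76) (XT.lf (nat_lit 76) (nat_lit 2117108498) (nat_lit 0) (nat_lit 3806063832) (nat_lit 1824) (nat_lit 11842479081) (nat_lit 433) (nat_lit 5) (nat_lit 432) (nat_lit 5) (nat_lit 456) (nat_lit 5) (nat_lit 455) (nat_lit 453) (nat_lit 232)) (XT.lf (nat_lit 0) (nat_lit 6335385613) (nat_lit 1748) (nat_lit 7059833131) (nat_lit 1824) (nat_lit 4544510966) (nat_lit 433) (nat_lit 5) (nat_lit 456) (nat_lit 5) (nat_lit 457) (nat_lit 5) (nat_lit 456) (nat_lit 453) (nat_lit 231))))) (XT.nd (nat_lit 234) (nat_lit 0) (nat_lit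 152) (XT.nd (nat_lit 78) (nat_lit 0) (nat_lit 76) (XT.lf (nat_lit 76) (nat_lit 1694643352) (nat_lit 0) (nat_lit 5091957666) (nat_lit 1824) (nat_lit 11330074956) (nat_lit 434) (nat_lit 5) (nat_lit 433) (nat_lit 5) (nat_lit 457) (nat_lit 5) (nat_lit 457) (nat_lit 453) (nat_lit 230)) (XT.nd (nat_lit 78) (nat_lit 0) (nat_lit 0) (XT.lf (nat_lit 0) (nat_lit 7311109820) (nat_lit 1748) (nat_lit 7601679751) (nat_lit 1824) (nat_lit 3383087734) (nat_lit 434) (nat_lit 5) (nat_lit 457) (nat_lit 5) (nat_lit 458) (nat_lit 5) (nat_lit 458) (nat_lit 453) (nat_lit 229)) (XT.lf (nat_lit 76) (nat_lit 1376339452) (nat_lit 0) (nat_lit 6507183921) (nat_lit 1824) (nat_lit 10594392492) (nat_lit 435) (nat_lit 5) (nat_lit 434) (nat_lit 5) (nat_lit 458) (nat_lit 5) (nat_lit 459) (nat_lit 453) (nat_lit 228)))) (XT.nd (nat_lit 78) (nat_lit 0) (nat_lit 0) (XT.lf (nat_lit 0) (nat_lit 8527005200) (nat_lit 1748) (nat_lit 8042536553) (nat_lit 1824) (nat_lit 2092862508)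 (nat_lit 435) (nat_lit 5) (nat_lit 458) (nat_lit 5) (nat_lit 459) (nat_lit 5) (nat_lit 460) (nat_lit 453) (nat_lit 227)) (XT.nd (nat_lit 78) (nat_lit 0) (nat_lit 76) (XT.lf (nat_lit 76) (nat_lit 1166786650) (nat_lit 0) (nat_lit 8062194007) (nat_lit 1824) (nat_lit 9620690724) (nat_lit 436) (nat_lit 5) (nat_lit 435) (nat_lit 5) (nat_lit 459) (nat_lit 5) (nat_lit 461) (nat_lit 453) (nat_lit 226)) (XT.lf (nat_lit 0) (nat_lit 9998363248) (nat_lit 1748) (nat_lit 8377840441) (nat_lit 1824) (nat_lit 663414208) (nat_lit 436) (nat_lit 5) (nat_lit 459) (nat_lit 5) (nat_lit 460) (nat_lit 5) (nat_lit 462) (nat_lit 453) (nat_lit 225)))))) (XT.nd (nat_lit 390) (nat_lit 1520) (nat_lit 0) (XT.nd (nat_lit 156) (nat_lit 0) (nat_lit 76) (XT.nd (nat_lit 78) (nat_lit 0) (nat_lit 0) (XT.lf (nat_lit 76) (nat_lit 1070820793) (nat_lit 0) (nat_lit 9767799952) (nat_lit 1824) (nat_lit 8393634234) (nat_lit 437) (nat_lit 5) (nat_lit 436) (nat_lit 5) (nat_lit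 460) (nat_lit 5) (nat_lit 463) (nat_lit 453) (nat_lit 224)) (XT.lf (nat_lit 76) (nat_lit 10818903780) (nat_lit 0) (nat_lit 928217105) (nat_lit 1824) (nat_lit 7680596520) (nat_lit 437) (nat_lit 5) (nat_lit 436) (nat_lit 5) (nat_lit 460) (nat_lit 5) (nat_lit 464) (nat_lit 453) (nat_lit 223))) (XT.nd (nat_lit 78) (nat_lit 0) (nat_lit 0) (XT.lf (nat_lit 76) (nat_lit 1093527548) (nat_lit 0) (nat_lit 11635199225) (nat_lit 1824) (nat_lit 6897264919) (nat_lit 438) (nat_lit 5) (nat_lit 437) (nat_lit 5) (nat_lit 461) (nat_lit 5) (nat_lit 465) (nat_lit 453) (nat_lit 222)) (XT.nd (nat_lit 78) (nat_lit 0) (nat_lit 76) (XT.lf (nat_lit 76) (nat_lit 11097242317) (nat_lit 0) (nat_lit 2691992317) (nat_lit 1824) (nat_lit 6037812732) (nat_lit 438) (nat_lit 5) (nat_lit 437) (nat_lit 5) (nat_lit 461) (nat_lit 5) (nat_lit 466) (nat_lit 453) (nat_lit 221)) (XT.lf (nat_lit 76) (nat_lit 1240246420) (nat_lit 0) (nat_lit 13676000233) (nat_lit 1824) (nat_lit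 5114972898) (nat_lit 439) (nat_lit 5) (nat_lit 438) (nat_lit 5) (nat_lit 462) (nat_lit 5) (nat_lit 467) (nat_lit 453) (nat_lit 220))))) (XT.nd (nat_lit 234) (nat_lit 1672) (nat_lit 0) (XT.nd (nat_lit 78) (nat_lit 0) (nat_lit 76) (XT.lf (nat_lit 76) (nat_lit 11506811428) (nat_lit 0) (nat_lit 4630840573) (nat_lit 1824) (nat_lit 4100387366) (nat_lit 439) (nat_lit 5) (nat_lit 438) (nat_lit 5) (nat_lit 462) (nat_lit 5) (nat_lit 468) (nat_lit 453) (nat_lit 219)) (XT.nd (nat_lit 78) (nat_lit 0) (nat_lit 0) (XT.lf (nat_lit 76) (nat_lit 1516574958) (nat_lit 0) (nat_lit 15902248562) (nat_lit 1824) (nat_lit 3029466522) (nat_lit 440) (nat_lit 5) (nat_lit 439) (nat_lit 5) (nat_lit 463) (nat_lit 5) (nat_lit 469) (nat_lit 453) (nat_lit 218)) (XT.lf (nat_lit 76) (nat_lit 12053441512) (nat_lit 0) (nat_lit 6756954956) (nat_lit 1824) (nat_lit 1850654906) (nat_lit 440) (nat_lit 5) (nat_lit 439) (nat_lit 5) (nat_lit 463) (nat_lit 5) (nat_lit 470)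 (nat_lit 453) (nat_lit 217)))) (XT.nd (nat_lit 78) (nat_lit 1824) (nat_lit 0) (XT.lf (nat_lit 76) (nat_lit 1928373123) (nat_lit 0) (nat_lit 18326454018) (nat_lit 1824) (nat_lit 622741442) (nat_lit 441) (nat_lit 5) (nat_lit 440) (nat_lit 5) (nat_lit 464) (nat_lit 5) (nat_lit 471) (nat_lit 453) (nat_lit 216)) (XT.nd (nat_lit 78) (nat_lit 0) (nat_lit 76) (XT.lf (nat_lit 0) (nat_lit 720208200) (nat_lit 1824) (nat_lit 8357962290) (nat_lit 1900) (nat_lit 12018190269) (nat_lit 416) (nat_lit 5) (nat_lit 440) (nat_lit 5) (nat_lit 441) (nat_lit 5) (nat_lit 472) (nat_lit 453) (nat_lit 215)) (XT.lf (nat_lit 0) (nat_lit 2096095298) (nat_lit 1824) (nat_lit 18851457322) (nat_lit 1900) (nat_lit 371606602) (nat_lit 417) (nat_lit 5) (nat_lit 441) (nat_lit 5) (nat_lit 442) (nat_lit 5) (nat_lit 473) (nat_lit 453) (nat_lit 214))))))) (XT.nd (nat_lit 858) (nat_lit 5700) (nat_lit 0) (XT.nd (nat_lit 390) (nat_lit 2964) (nat_lit 0) (XT.nd (nat_lit 156)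 (nat_lit 0) (nat_lit 76) (XT.nd (nat_lit 78) (nat_lit 0) (nat_lit 0) (XT.lf (nat_lit 0) (nat_lit 3612069489) (nat_lit 1824) (nat_lit 7985848951) (nat_lit 1900) (nat_lit 9946244915) (nat_lit 417) (nat_lit 5) (nat_lit 441) (nat_lit 5) (nat_lit 442) (nat_lit 5) (nat_lit 474) (nat_lit 453) (nat_lit 213)) (XT.lf (nat_lit 76) (nat_lit 3135012336) (nat_lit 0) (nat_lit 2039775266) (nat_lit 1900) (nat_lit 16598552546) (nat_lit 418) (nat_lit 5) (nat_lit 417) (nat_lit 5) (nat_lit 442) (nat_lit 5) (nat_lit 475) (nat_lit 453) (nat_lit 212))) (XT.nd (nat_lit 78) (nat_lit 0) (nat_lit 0) (XT.lf (nat_lit 0) (nat_lit 6868890720) (nat_lit 1824) (nat_lit 7473135636) (nat_lit 1900) (nat_lit 7663072556) (nat_lit 418) (nat_lit 5) (nat_lit 442) (nat_lit 5) (nat_lit 443) (nat_lit 5) (nat_lit 476) (nat_lit 453) (nat_lit 211)) (XT.nd (nat_lit 78) (nat_lit 0) (nat_lit 76) (XT.lf (nat_lit 76) (nat_lit 3950489004) (nat_lit 0) (nat_lit 4681751503) (nat_lit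 1900) (nat_lit 13608546075) (nat_lit 419) (nat_lit 5) (nat_lit 418) (nat_lit 5) (nat_lit 443) (nat_lit 5) (nat_lit 477) (nat_lit 453) (nat_lit 210)) (XT.lf (nat_lit 0) (nat_lit 10511181040) (nat_lit 1824) (nat_lit 6813441995) (nat_lit 76) (nat_lit 5154959502) (nat_lit 419) (nat_lit 5) (nat_lit 443) (nat_lit 5) (nat_lit 420) (nat_lit 5) (nat_lit 478) (nat_lit 453) (nat_lit 209))))) (XT.nd (nat_lit 234) (nat_lit 912) (nat_lit 0) (XT.nd (nat_lit 78) (nat_lit 912) (nat_lit 0) (XT.lf (nat_lit 0) (nat_lit 4923346678) (nat_lit 1292) (nat_lit 7563662226) (nat_lit 1368) (nat_lit 10234960322) (nat_lit 402) (nat_lit 5) (nat_lit 419) (nat_lit 5) (nat_lit 420) (nat_lit 5) (nat_lit 479) (nat_lit 453) (nat_lit 208)) (XT.nd (nat_lit 78) (nat_lit 912) (nat_lit 0) (XT.lf (nat_lit 0) (nat_lit 14560303987) (nat_lit 1368) (nat_lit 6000121645) (nat_lit 76) (nat_lit 2407619970) (nat_lit 402) (nat_lit 5) (nat_lit 420) (nat_lit 5) (nat_lit 403) (nat_lit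 5) (nat_lit 480) (nat_lit 453) (nat_lit 207)) (XT.lf (nat_lit 0) (nat_lit 6060582715) (nat_lit 912) (nat_lit 10700385070) (nat_lit 988) (nat_lit 6456358612) (nat_lit 390) (nat_lit 5) (nat_lit 402) (nat_lit 5) (nat_lit 403) (nat_lit 5) (nat_lit 481) (nat_lit 453) (nat_lit 206)))) (XT.nd (nat_lit 78) (nat_lit 912) (nat_lit 0) (XT.lf (nat_lit 0) (nat_lit 18440693476) (nat_lit 912) (nat_lit 601727329) (nat_lit 988) (nat_lit 4428437411) (nat_lit 390) (nat_lit 5) (nat_lit 402) (nat_lit 5) (nat_lit 403) (nat_lit 5) (nat_lit 482) (nat_lit 453) (nat_lit 205)) (XT.nd (nat_lit 78) (nat_lit 76) (nat_lit 0) (XT.lf (nat_lit 0) (nat_lit 7369475216) (nat_lit 836) (nat_lit 14107429482) (nat_lit 912) (nat_lit 2250408849) (nat_lit 379) (nat_lit 5) (nat_lit 390) (nat_lit 5) (nat_lit 391) (nat_lit 5) (nat_lit 483) (nat_lit 453) (nat_lit 204)) (XT.lf (nat_lit 0) (nat_lit 6127862) (nat_lit 912) (nat_lit 3910127170) (nat_lit 76) (nat_lit 20071956177)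 (nat_lit 378) (nat_lit 5) (nat_lit 390) (nat_lit 5) (nat_lit 379) (nat_lit 5) (nat_lit 484) (nat_lit 453) (nat_lit 203)))))) (XT.nd (nat_lit 468) (nat_lit 2356) (nat_lit 0) (XT.nd (nat_lit 234) (nat_lit 1596) (nat_lit 0) (XT.nd (nat_lit 78) (nat_lit 836) (nat_lit 0) (XT.lf (nat_lit 0) (nat_lit 2374597162) (nat_lit 988) (nat_lit 15410438771) (nat_lit 76) (nat_lit 6467055550) (nat_lit 366) (nat_lit 5) (nat_lit 379) (nat_lit 5) (nat_lit 367) (nat_lit 5) (nat_lit 485) (nat_lit 453) (nat_lit 202)) (XT.nd (nat_lit 78) (nat_lit 836) (nat_lit 0) (XT.lf (nat_lit 0) (nat_lit 4839503081) (nat_lit 988) (nat_lit 2648523858) (nat_lit 76) (nat_lit 17032241918) (nat_lit 366) (nat_lit 5) (nat_lit 379) (nat_lit 5) (nat_lit 367) (nat_lit 5) (nat_lit 486) (nat_lit 453) (nat_lit 201)) (XT.lf (nat_lit 0) (nat_lit 7438711978) (nat_lit 912) (nat_lit 14309255575) (nat_lit 76) (nat_lit 3044142955) (nat_lit 355) (nat_lit 5) (nat_lit 367) (nat_lit 5) (nat_lit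 356) (nat_lit 5) (nat_lit 487) (nat_lit 453) (nat_lit 200)))) (XT.nd (nat_lit 78) (nat_lit 1596) (nat_lit 0) (XT.lf (nat_lit 0) (nat_lit 10154212349) (nat_lit 912) (nat_lit 1209121644) (nat_lit 76) (nat_lit 13704769660) (nat_lit 355) (nat_lit 5) (nat_lit 367) (nat_lit 5) (nat_lit 356) (nat_lit 5) (nat_lit 488) (nat_lit 453) (nat_lit 199)) (XT.nd (nat_lit 78) (nat_lit 760) (nat_lit 0) (XT.lf (nat_lit 0) (nat_lit 12311399250) (nat_lit 836) (nat_lit 689446486) (nat_lit 912) (nat_lit 12347235258) (nat_lit 344) (nat_lit 5) (nat_lit 355) (nat_lit 5) (nat_lit 356) (nat_lit 5) (nat_lit 489) (nat_lit 453) (nat_lit 198)) (XT.lf (nat_lit 0) (nat_lit 421361894) (nat_lit 760) (nat_lit 15557095295) (nat_lit 836) (nat_lit 9653720562) (nat_lit 334) (nat_lit 5) (nat_lit 344) (nat_lit 5) (nat_lit 345) (nat_lit 5) (nat_lit 490) (nat_lit 453) (nat_lit 197))))) (XT.nd (nat_lit 234) (nat_lit 1596) (nat_lit 0) (XT.nd (nat_lit 78) (nat_lit 760) (nat_lit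 0) (XT.lf (nat_lit 0) (nat_lit 14317552187) (nat_lit 760) (nat_lit 4787057959) (nat_lit 836) (nat_lit 6815567274) (nat_lit 334) (nat_lit 5) (nat_lit 344) (nat_lit 5) (nat_lit 345) (nat_lit 5) (nat_lit 491) (nat_lit 453) (nat_lit 196)) (XT.nd (nat_lit 78) (nat_lit 0) (nat_lit 0) (XT.lf (nat_lit 0) (nat_lit 2264076827) (nat_lit 760) (nat_lit 20081182599) (nat_lit 836) (nat_lit 3867638937) (nat_lit 324) (nat_lit 5) (nat_lit 334) (nat_lit 5) (nat_lit 335) (nat_lit 5) (nat_lit 492) (nat_lit 453) (nat_lit 195)) (XT.lf (nat_lit 0) (nat_lit 16530184145) (nat_lit 760) (nat_lit 9226958690) (nat_lit 836) (nat_lit 752203199) (nat_lit 324) (nat_lit 5) (nat_lit 334) (nat_lit 5) (nat_lit 335) (nat_lit 5) (nat_lit 493) (nat_lit 453) (nat_lit 194)))) (XT.nd (nat_lit 78) (nat_lit 760) (nat_lit 0) (XT.lf (nat_lit 0) (nat_lit 2431066031) (nat_lit 836) (nat_lit 22515593233) (nat_lit 76) (nat_lit 1864002411) (nat_lit 313) (nat_lit 5) (nat_lit 324)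 (nat_lit 5) (nat_lit 314) (nat_lit 5) (nat_lit 494) (nat_lit 453) (nat_lit 193)) (XT.nd (nat_lit 78) (nat_lit 760) (nat_lit 0) (XT.lf (nat_lit 0) (nat_lit 5793593857) (nat_lit 836) (nat_lit 8196238428) (nat_lit 76) (nat_lit 13125559289) (nat_lit 313) (nat_lit 5) (nat_lit 324) (nat_lit 5) (nat_lit 314) (nat_lit 5) (nat_lit 495) (nat_lit 453) (nat_lit 192)) (XT.lf (nat_lit 0) (nat_lit 6491605764) (nat_lit 760) (nat_lit 2771111540) (nat_lit 836) (nat_lit 18162712541) (nat_lit 303) (nat_lit 5) (nat_lit 313) (nat_lit 5) (nat_lit 314) (nat_lit 5) (nat_lit 496) (nat_lit 453) (nat_lit 191))))))))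
noncomputable def xc238 : XT := (XT.nd (nat_lit 57252) (nat_lit 0) (nat_lit 4484) (XT.nd (nat_lit 56394) (nat_lit 0) (nat_lit 12084) (XT.nd (nat_lit 390) (nat_lit 760) (nat_lit 0) (XT.nd (nat_lit 156) (nat_lit 684) (nat_lit 0) (XT.nd (nat_lit 78) (nat_lit 684) (nat_lit 0) (XT.lf (nat_lit 0) (nat_lit 12910123821) (nat_lit 836) (nat_lit 6215999072) (nat_lit 76) (nat_lit 8613368640) (nat_lit 303) (nat_lit 5) (nat_lit 314) (nat_lit 5) (nat_lit 304) (nat_lit 5) (nat_lit 497) (nat_lit 453) (nat_lit 190)) (XT.lf (nat_lit 0) (nat_lit 8891432952) (nat_lit 684) (nat_lit 7812411632) (nat_lit 760) (nat_lit 11354523199) (nat_lit 294) (nat_lit 5) (nat_lit 303) (nat_lit 5) (nat_lit 304) (nat_lit 5) (nat_lit 498) (nat_lit 453) (nat_lit 189))) (XT.nd (nat_lit 78) (nat_lit 684) (nat_lit 0) (XT.lf (nat_lit 0) (nat_lit 20636947618) (nat_lit 760) (nat_lit 4025035242) (nat_lit 76) (nat_lit 3720369178) (nat_lit 294) (nat_lit 5) (nat_lit 304) (nat_lit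 5) (nat_lit 295) (nat_lit 5) (nat_lit 499) (nat_lit 453) (nat_lit 188)) (XT.nd (nat_lit 78) (nat_lit 0) (nat_lit 0) (XT.lf (nat_lit 0) (nat_lit 11516015865) (nat_lit 684) (nat_lit 13256573996) (nat_lit 760) (nat_lit 3937749198) (nat_lit 285) (nat_lit 5) (nat_lit 294) (nat_lit 5) (nat_lit 295) (nat_lit 5) (nat_lit 500) (nat_lit 453) (nat_lit 187)) (XT.lf (nat_lit 0) (nat_lit 27419484766) (nat_lit 684) (nat_lit 1595872332) (nat_lit 760) (nat_lit 29041094) (nat_lit 285) (nat_lit 5) (nat_lit 294) (nat_lit 5) (nat_lit 295) (nat_lit 5) (nat_lit 501) (nat_lit 453) (nat_lit 186))))) (XT.nd (nat_lit 55770) (nat_lit 0) (nat_lit 11932) (XT.nd (nat_lit 55614) (nat_lit 0) (nat_lit 11932) (XT.lf (nat_lit 0) (nat_lit 4064618545) (nat_lit 760) (nat_lit 15034133740) (nat_lit 76) (nat_lit 10282699168) (nat_lit 275) (nat_lit 5) (nat_lit 285) (nat_lit 5) (nat_lit 276) (nat_lit 5) (nat_lit 502) (nat_lit 453) (nat_lit 185)) (XT.nd (nat_lit 78) (nat_lit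 0) (nat_lit 0) (XT.lf (nat_lit 0) (nat_lit 1453789347) (nat_lit 0) (nat_lit 1453789347) (nat_lit 1748) (nat_lit 5974574355) (nat_lit 432) (nat_lit 5) (nat_lit 432) (nat_lit 3) (nat_lit 455) (nat_lit 3) (nat_lit 454) (nat_lit 454) (nat_lit 232)) (XT.lf (nat_lit 0) (nat_lit 6117823139) (nat_lit 1748) (nat_lit 6328630193) (nat_lit 1824) (nat_lit 5490546297) (nat_lit 432) (nat_lit 5) (nat_lit 455) (nat_lit 3) (nat_lit 456) (nat_lit 5) (nat_lit 455) (nat_lit 454) (nat_lit 231)))) (XT.nd (nat_lit 78) (nat_lit 0) (nat_lit 76) (XT.lf (nat_lit 76) (nat_lit 2379114263) (nat_lit 0) (nat_lit 4076681761) (nat_lit 1824) (nat_lit 11656767484) (nat_lit 433) (nat_lit 5) (nat_lit 432) (nat_lit 5) (nat_lit 456) (nat_lit 5) (nat_lit 456) (nat_lit 454) (nat_lit 230)) (XT.nd (nat_lit 78) (nat_lit 0) (nat_lit 0) (XT.lf (nat_lit 0) (nat_lit 6866894744) (nat_lit 1748) (nat_lit 6976199081) (nat_lit 1824) (nat_lit 4447219035) (nat_lit 433) (nat_lit 5)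 (nat_lit 456) (nat_lit 5) (nat_lit 457) (nat_lit 5) (nat_lit 457) (nat_lit 454) (nat_lit 229)) (XT.lf (nat_lit 76) (nat_lit 1951887783) (nat_lit 0) (nat_lit 5368759538) (nat_lit 1824) (nat_lit 11150282733) (nat_lit 434) (nat_lit 5) (nat_lit 433) (nat_lit 5) (nat_lit 457) (nat_lit 5) (nat_lit 458) (nat_lit 454) (nat_lit 228)))))) (XT.nd (nat_lit 390) (nat_lit 0) (nat_lit 152) (XT.nd (nat_lit 156) (nat_lit 0) (nat_lit 76) (XT.nd (nat_lit 78) (nat_lit 0) (nat_lit 0) (XT.lf (nat_lit 0) (nat_lit 7846722515) (nat_lit 1748) (nat_lit 7525706505) (nat_lit 1824) (nat_lit 3281467086) (nat_lit 434) (nat_lit 5) (nat_lit 457) (nat_lit 5) (nat_lit 458) (nat_lit 5) (nat_lit 459) (nat_lit 454) (nat_lit 227)) (XT.lf (nat_lit 76) (nat_lit 1630373037) (nat_lit 0) (nat_lit 6794046826) (nat_lit 1824) (nat_lit 10415281039) (nat_lit 435) (nat_lit 5) (nat_lit 434) (nat_lit 5) (nat_lit 458) (nat_lit 5) (nat_lit 460) (nat_lit 454) (nat_lit 226))) (XT.nd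 (nat_lit 78) (nat_lit 0) (nat_lit 0) (XT.lf (nat_lit 0) (nat_lit 9072259517) (nat_lit 1748) (nat_lit 7972703360) (nat_lit 1824) (nat_lit 1983088556) (nat_lit 435) (nat_lit 5) (nat_lit 458) (nat_lit 5) (nat_lit 459) (nat_lit 5) (nat_lit 461) (nat_lit 454) (nat_lit 225)) (XT.nd (nat_lit 78) (nat_lit 0) (nat_lit 76) (XT.lf (nat_lit 76) (nat_lit 1419288649) (nat_lit 0) (nat_lit 8363126395) (nat_lit 1824) (nat_lit 9436768130) (nat_lit 436) (nat_lit 5) (nat_lit 435) (nat_lit 5) (nat_lit 459) (nat_lit 5) (nat_lit 462) (nat_lit 454) (nat_lit 224)) (XT.lf (nat_lit 0) (nat_lit 10559063674) (nat_lit 1748) (nat_lit 8312500338) (nat_lit 1824) (nat_lit 541529091) (nat_lit 436) (nat_lit 5) (nat_lit 459) (nat_lit 5) (nat_lit 460) (nat_lit 5) (nat_lit 463) (nat_lit 454) (nat_lit 223))))) (XT.nd (nat_lit 234) (nat_lit 0) (nat_lit 76) (XT.nd (nat_lit 78) (nat_lit 0) (nat_lit 0) (XT.lf (nat_lit 76) (nat_lit 1323601904) (nat_lit 0) (nat_lit 10086953391)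 (nat_lit 1824) (nat_lit 8199141063) (nat_lit 437) (nat_lit 5) (nat_lit 436) (nat_lit 5) (nat_lit 460) (nat_lit 5) (nat_lit 464) (nat_lit 454) (nat_lit 222)) (XT.nd (nat_lit 78) (nat_lit 0) (nat_lit 76) (XT.lf (nat_lit 76) (nat_lit 11262109988) (nat_lit 0) (nat_lit 1068151487) (nat_lit 1824) (nat_lit 7478947807) (nat_lit 437) (nat_lit 5) (nat_lit 436) (nat_lit 5) (nat_lit 460) (nat_lit 5) (nat_lit 465) (nat_lit 454) (nat_lit 221)) (XT.lf (nat_lit 76) (nat_lit 1348532779) (nat_lit 0) (nat_lit 11976880387) (nat_lit 1824) (nat_lit 6686159546) (nat_lit 438) (nat_lit 5) (nat_lit 437) (nat_lit 5) (nat_lit 461) (nat_lit 5) (nat_lit 466) (nat_lit 454) (nat_lit 220)))) (XT.nd (nat_lit 78) (nat_lit 0) (nat_lit 76) (XT.lf (nat_lit 76) (nat_lit 11547750576) (nat_lit 0) (nat_lit 2852672534) (nat_lit 1824) (nat_lit 5816362446) (nat_lit 438) (nat_lit 5) (nat_lit 437) (nat_lit 5) (nat_lit 461) (nat_lit 5) (nat_lit 467) (nat_lit 454) (nat_lit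 219)) (XT.nd (nat_lit 78) (nat_lit 0) (nat_lit 0) (XT.lf (nat_lit 76) (nat_lit 1499558172) (nat_lit 0) (nat_lit 14044683148) (nat_lit 1824) (nat_lit 4880916401) (nat_lit 439) (nat_lit 5) (nat_lit 438) (nat_lit 5) (nat_lit 462) (nat_lit 5) (nat_lit 468) (nat_lit 454) (nat_lit 218)) (XT.lf (nat_lit 76) (nat_lit 11966856306) (nat_lit 0) (nat_lit 4816754357) (nat_lit 1824) (nat_lit 3852634373) (nat_lit 439) (nat_lit 5) (nat_lit 438) (nat_lit 5) (nat_lit 462) (nat_lit 5) (nat_lit 469) (nat_lit 454) (nat_lit 217))))))) (XT.nd (nat_lit 858) (nat_lit 5168) (nat_lit 0) (XT.nd (nat_lit 390) (nat_lit 1064) (nat_lit 0) (XT.nd (nat_lit 156) (nat_lit 1748) (nat_lit 0) (XT.nd (nat_lit 78) (nat_lit 0) (nat_lit 0) (XT.lf (nat_lit 76) (nat_lit 1782416304) (nat_lit 0) (nat_lit 16302587161) (nat_lit 1824) (nat_lit 2765807087) (nat_lit 440) (nat_lit 5) (nat_lit 439) (nat_lit 5) (nat_lit 463) (nat_lit 5) (nat_lit 470) (nat_lit 454) (nat_lit 216))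 (XT.lf (nat_lit 76) (nat_lit 12525402349) (nat_lit 0) (nat_lit 6972774082) (nat_lit 1824) (nat_lit 1569777057) (nat_lit 440) (nat_lit 5) (nat_lit 439) (nat_lit 5) (nat_lit 463) (nat_lit 5) (nat_lit 471) (nat_lit 454) (nat_lit 215))) (XT.nd (nat_lit 78) (nat_lit 1824) (nat_lit 0) (XT.lf (nat_lit 76) (nat_lit 2203111289) (nat_lit 0) (nat_lit 18763294993) (nat_lit 1824) (nat_lit 322498264) (nat_lit 441) (nat_lit 5) (nat_lit 440) (nat_lit 5) (nat_lit 464) (nat_lit 5) (nat_lit 472) (nat_lit 454) (nat_lit 214)) (XT.nd (nat_lit 78) (nat_lit 0) (nat_lit 76) (XT.lf (nat_lit 0) (nat_lit 1037158361) (nat_lit 1824) (nat_lit 8289478527) (nat_lit 1900) (nat_lit 12185517740) (nat_lit 416) (nat_lit 5) (nat_lit 440) (nat_lit 5) (nat_lit 441) (nat_lit 5) (nat_lit 473) (nat_lit 454) (nat_lit 213)) (XT.lf (nat_lit 0) (nat_lit 2435735016) (nat_lit 1824) (nat_lit 18987934463) (nat_lit 1900) (nat_lit 315837760) (nat_lit 417) (nat_lit 5) (nat_lit 441)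 (nat_lit 5) (nat_lit 442) (nat_lit 5) (nat_lit 474) (nat_lit 454) (nat_lit 212))))) (XT.nd (nat_lit 234) (nat_lit 1140) (nat_lit 0) (XT.nd (nat_lit 78) (nat_lit 0) (nat_lit 0) (XT.lf (nat_lit 0) (nat_lit 3976191086) (nat_lit 1824) (nat_lit 7909730631) (nat_lit 1900) (nat_lit 10083208075) (nat_lit 417) (nat_lit 5) (nat_lit 441) (nat_lit 5) (nat_lit 442) (nat_lit 5) (nat_lit 475) (nat_lit 454) (nat_lit 211)) (XT.nd (nat_lit 78) (nat_lit 0) (nat_lit 76) (XT.lf (nat_lit 76) (nat_lit 3431996334) (nat_lit 0) (nat_lit 2133965212) (nat_lit 1900) (nat_lit 16637014169) (nat_lit 418) (nat_lit 5) (nat_lit 417) (nat_lit 5) (nat_lit 442) (nat_lit 5) (nat_lit 476) (nat_lit 454) (nat_lit 210)) (XT.lf (nat_lit 0) (nat_lit 7287966102) (nat_lit 1824) (nat_lit 7386851624) (nat_lit 1900) (nat_lit 7764673063) (nat_lit 418) (nat_lit 5) (nat_lit 442) (nat_lit 5) (nat_lit 443) (nat_lit 5) (nat_lit 477) (nat_lit 454) (nat_lit 209)))) (XT.nd (nat_lit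 78) (nat_lit 1216) (nat_lit 0) (XT.lf (nat_lit 76) (nat_lit 4263694544) (nat_lit 0) (nat_lit 4818885414) (nat_lit 1900) (nat_lit 13597393807) (nat_lit 419) (nat_lit 5) (nat_lit 418) (nat_lit 5) (nat_lit 443) (nat_lit 5) (nat_lit 478) (nat_lit 454) (nat_lit 208)) (XT.nd (nat_lit 78) (nat_lit 1292) (nat_lit 0) (XT.lf (nat_lit 0) (nat_lit 10993377423) (nat_lit 1824) (nat_lit 6714312077) (nat_lit 76) (nat_lit 5215972040) (nat_lit 419) (nat_lit 5) (nat_lit 443) (nat_lit 5) (nat_lit 420) (nat_lit 5) (nat_lit 479) (nat_lit 454) (nat_lit 207)) (XT.lf (nat_lit 0) (nat_lit 5255663693) (nat_lit 1292) (nat_lit 7749243661) (nat_lit 1368) (nat_lit 10166066334) (nat_lit 402) (nat_lit 5) (nat_lit 419) (nat_lit 5) (nat_lit 420) (nat_lit 5) (nat_lit 480) (nat_lit 454) (nat_lit 206)))))) (XT.nd (nat_lit 468) (nat_lit 2432) (nat_lit 0) (XT.nd (nat_lit 234) (nat_lit 1824) (nat_lit 0) (XT.nd (nat_lit 78) (nat_lit 912) (nat_lit 0) (XT.lf (nat_lit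 0) (nat_lit 15114191949) (nat_lit 1368) (nat_lit 5885312552) (nat_lit 76) (nat_lit 2422578024) (nat_lit 402) (nat_lit 5) (nat_lit 420) (nat_lit 5) (nat_lit 403) (nat_lit 5) (nat_lit 481) (nat_lit 454) (nat_lit 205)) (XT.nd (nat_lit 78) (nat_lit 0) (nat_lit 0) (XT.lf (nat_lit 0) (nat_lit 6415061082) (nat_lit 912) (nat_lit 10940171838) (nat_lit 988) (nat_lit 6321190117) (nat_lit 390) (nat_lit 5) (nat_lit 402) (nat_lit 5) (nat_lit 403) (nat_lit 5) (nat_lit 482) (nat_lit 454) (nat_lit 204)) (XT.lf (nat_lit 0) (nat_lit 19038200201) (nat_lit 912) (nat_lit 639035471) (nat_lit 988) (nat_lit 4257892760) (nat_lit 390) (nat_lit 5) (nat_lit 402) (nat_lit 5) (nat_lit 403) (nat_lit 5) (nat_lit 483) (nat_lit 454) (nat_lit 203)))) (XT.nd (nat_lit 78) (nat_lit 988) (nat_lit 0) (XT.lf (nat_lit 0) (nat_lit 7749329117) (nat_lit 836) (nat_lit 14407448829) (nat_lit 912) (nat_lit 2040008875) (nat_lit 379) (nat_lit 5) (nat_lit 390) (nat_lit 5) (nat_lit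 391) (nat_lit 5) (nat_lit 484) (nat_lit 454) (nat_lit 202)) (XT.nd (nat_lit 78) (nat_lit 912) (nat_lit 0) (XT.lf (nat_lit 0) (nat_lit 253366524) (nat_lit 912) (nat_lit 3757075680) (nat_lit 76) (nat_lit 20452527189) (nat_lit 378) (nat_lit 5) (nat_lit 390) (nat_lit 5) (nat_lit 379) (nat_lit 5) (nat_lit 485) (nat_lit 454) (nat_lit 201)) (XT.lf (nat_lit 0) (nat_lit 2665760283) (nat_lit 988) (nat_lit 15483886116) (nat_lit 76) (nat_lit 6582551020) (nat_lit 366) (nat_lit 5) (nat_lit 379) (nat_lit 5) (nat_lit 367) (nat_lit 5) (nat_lit 486) (nat_lit 454) (nat_lit 200))))) (XT.nd (nat_lit 234) (nat_lit 1596) (nat_lit 0) (XT.nd (nat_lit 78) (nat_lit 836) (nat_lit 0) (XT.lf (nat_lit 0) (nat_lit 5175186454) (nat_lit 988) (nat_lit 2471336071) (nat_lit 76) (nat_lit 17359312599) (nat_lit 366) (nat_lit 5) (nat_lit 379) (nat_lit 5) (nat_lit 367) (nat_lit 5) (nat_lit 487) (nat_lit 454) (nat_lit 199)) (XT.nd (nat_lit 78) (nat_lit 0) (nat_lit 0)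 (XT.lf (nat_lit 0) (nat_lit 7823134085) (nat_lit 912) (nat_lit 14361976934) (nat_lit 76) (nat_lit 3098068698) (nat_lit 355) (nat_lit 5) (nat_lit 367) (nat_lit 5) (nat_lit 356) (nat_lit 5) (nat_lit 488) (nat_lit 454) (nat_lit 198)) (XT.lf (nat_lit 0) (nat_lit 10588323917) (nat_lit 912) (nat_lit 1004418045) (nat_lit 76) (nat_lit 13972044351) (nat_lit 355) (nat_lit 5) (nat_lit 367) (nat_lit 5) (nat_lit 356) (nat_lit 5) (nat_lit 489) (nat_lit 454) (nat_lit 197)))) (XT.nd (nat_lit 78) (nat_lit 760) (nat_lit 0) (XT.lf (nat_lit 0) (nat_lit 12785007438) (nat_lit 836) (nat_lit 703828889) (nat_lit 912) (nat_lit 12361589102) (nat_lit 344) (nat_lit 5) (nat_lit 355) (nat_lit 5) (nat_lit 356) (nat_lit 5) (nat_lit 490) (nat_lit 454) (nat_lit 196)) (XT.nd (nat_lit 78) (nat_lit 0) (nat_lit 0) (XT.lf (nat_lit 0) (nat_lit 660264050) (nat_lit 760) (nat_lit 15862758506) (nat_lit 836) (nat_lit 9617242246) (nat_lit 334) (nat_lit 5) (nat_lit 344) (nat_lit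 5) (nat_lit 345) (nat_lit 5) (nat_lit 491) (nat_lit 454) (nat_lit 195)) (XT.lf (nat_lit 0) (nat_lit 14829859032) (nat_lit 760) (nat_lit 4877427849) (nat_lit 836) (nat_lit 6726826925) (nat_lit 334) (nat_lit 5) (nat_lit 344) (nat_lit 5) (nat_lit 345) (nat_lit 5) (nat_lit 492) (nat_lit 454) (nat_lit 194))))))))
noncomputable def xc239 : XT := (XT.nd (nat_lit 57408) (nat_lit 0) (nat_lit 5320) (XT.nd (nat_lit 56550) (nat_lit 0) (nat_lit 11172) (XT.nd (nat_lit 390) (nat_lit 1368) (nat_lit 0) (XT.nd (nat_lit 156) (nat_lit 1596) (nat_lit 0) (XT.nd (nat_lit 78) (nat_lit 0) (nat_lit 0) (XT.lf (nat_lit 0) (nat_lit 2538230742) (nat_lit 760) (nat_lit 20471713399) (nat_lit 836) (nat_lit 3722802215) (nat_lit 324) (nat_lit 5) (nat_lit 334) (nat_lit 5) (nat_lit 335) (nat_lit 5) (nat_lit 493) (nat_lit 454) (nat_lit 193)) (XT.lf (nat_lit 0) (nat_lit 17085172513) (nat_lit 760) (nat_lit 9400622519) (nat_lit 836) (nat_lit 549414420) (nat_lit 324)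 (nat_lit 5) (nat_lit 334) (nat_lit 5) (nat_lit 335) (nat_lit 5) (nat_lit 494) (nat_lit 454) (nat_lit 192))) (XT.nd (nat_lit 78) (nat_lit 760) (nat_lit 0) (XT.lf (nat_lit 0) (nat_lit 2692002215) (nat_lit 836) (nat_lit 22735898914) (nat_lit 76) (nat_lit 1914676236) (nat_lit 313) (nat_lit 5) (nat_lit 324) (nat_lit 5) (nat_lit 314) (nat_lit 5) (nat_lit 495) (nat_lit 454) (nat_lit 191)) (XT.nd (nat_lit 78) (nat_lit 760) (nat_lit 0) (XT.lf (nat_lit 0) (nat_lit 6117617560) (nat_lit 836) (nat_lit 8134666938) (nat_lit 76) (nat_lit 13401201628) (nat_lit 313) (nat_lit 5) (nat_lit 324) (nat_lit 5) (nat_lit 314) (nat_lit 5) (nat_lit 496) (nat_lit 454) (nat_lit 190)) (XT.lf (nat_lit 0) (nat_lit 6845450609) (nat_lit 760) (nat_lit 2808045899) (nat_lit 836) (nat_lit 18316282181) (nat_lit 303) (nat_lit 5) (nat_lit 313) (nat_lit 5) (nat_lit 314) (nat_lit 5) (nat_lit 497) (nat_lit 454) (nat_lit 189))))) (XT.nd (nat_lit 234) (nat_lit 684) (nat_lit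 0) (XT.nd (nat_lit 78) (nat_lit 684) (nat_lit 0) (XT.lf (nat_lit 0) (nat_lit 13369938937) (nat_lit 836) (nat_lit 6116738222) (nat_lit 76) (nat_lit 8803523660) (nat_lit 303) (nat_lit 5) (nat_lit 314) (nat_lit 5) (nat_lit 304) (nat_lit 5) (nat_lit 498) (nat_lit 454) (nat_lit 188)) (XT.nd (nat_lit 78) (nat_lit 0) (nat_lit 0) (XT.lf (nat_lit 0) (nat_lit 9291371516) (nat_lit 684) (nat_lit 7945651495) (nat_lit 760) (nat_lit 11378482752) (nat_lit 294) (nat_lit 5) (nat_lit 303) (nat_lit 5) (nat_lit 304) (nat_lit 5) (nat_lit 499) (nat_lit 454) (nat_lit 187)) (XT.lf (nat_lit 0) (nat_lit 21245030611) (nat_lit 760) (nat_lit 3883977227) (nat_lit 76) (nat_lit 3817037944) (nat_lit 294) (nat_lit 5) (nat_lit 304) (nat_lit 5) (nat_lit 295) (nat_lit 5) (nat_lit 500) (nat_lit 454) (nat_lit 186)))) (XT.nd (nat_lit 55770) (nat_lit 0) (nat_lit 11172) (XT.lf (nat_lit 0) (nat_lit 11966437278) (nat_lit 684) (nat_lit 13494547187) (nat_lit 760) (nat_lit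 3819657013) (nat_lit 285) (nat_lit 5) (nat_lit 294) (nat_lit 5) (nat_lit 295) (nat_lit 5) (nat_lit 501) (nat_lit 454) (nat_lit 185)) (XT.nd (nat_lit 78) (nat_lit 0) (nat_lit 0) (XT.lf (nat_lit 0) (nat_lit 1586384704) (nat_lit 0) (nat_lit 1586384704) (nat_lit 1748) (nat_lit 5882827056) (nat_lit 432) (nat_lit 5) (nat_lit 432) (nat_lit 3) (nat_lit 455) (nat_lit 3) (nat_lit 455) (nat_lit 455) (nat_lit 230)) (XT.lf (nat_lit 0) (nat_lit 6644820824) (nat_lit 1748) (nat_lit 6242670769) (nat_lit 1824) (nat_lit 5400039787) (nat_lit 432) (nat_lit 5) (nat_lit 455) (nat_lit 3) (nat_lit 456) (nat_lit 5) (nat_lit 456) (nat_lit 455) (nat_lit 229)))))) (XT.nd (nat_lit 390) (nat_lit 0) (nat_lit 228) (XT.nd (nat_lit 156) (nat_lit 0) (nat_lit 76) (XT.nd (nat_lit 78) (nat_lit 0) (nat_lit 76) (XT.lf (nat_lit 76) (nat_lit 2637830338) (nat_lit 0) (nat_lit 4345159506) (nat_lit 1824) (nat_lit 11483750221) (nat_lit 433) (nat_lit 5) (nat_lit 432) (nat_lit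 5) (nat_lit 456) (nat_lit 5) (nat_lit 457) (nat_lit 455) (nat_lit 228)) (XT.lf (nat_lit 0) (nat_lit 7393315124) (nat_lit 1748) (nat_lit 6899622800) (nat_lit 1824) (nat_lit 4355288607) (nat_lit 433) (nat_lit 5) (nat_lit 456) (nat_lit 5) (nat_lit 457) (nat_lit 5) (nat_lit 458) (nat_lit 455) (nat_lit 227))) (XT.nd (nat_lit 78) (nat_lit 0) (nat_lit 76) (XT.lf (nat_lit 76) (nat_lit 2205604089) (nat_lit 0) (nat_lit 5644303431) (nat_lit 1824) (nat_lit 10982675430) (nat_lit 434) (nat_lit 5) (nat_lit 433) (nat_lit 5) (nat_lit 457) (nat_lit 5) (nat_lit 459) (nat_lit 455) (nat_lit 226)) (XT.nd (nat_lit 78) (nat_lit 0) (nat_lit 0) (XT.lf (nat_lit 0) (nat_lit 8377926955) (nat_lit 1748) (nat_lit 7457067577) (nat_lit 1824) (nat_lit 3184387468) (nat_lit 434) (nat_lit 5) (nat_lit 457) (nat_lit 5) (nat_lit 458) (nat_lit 5) (nat_lit 460) (nat_lit 455) (nat_lit 225)) (XT.lf (nat_lit 76) (nat_lit 1880691759) (nat_lit 0) (nat_lit 7080561390) (nat_lit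 1824) (nat_lit 10247770335) (nat_lit 435) (nat_lit 5) (nat_lit 434) (nat_lit 5) (nat_lit 458) (nat_lit 5) (nat_lit 461) (nat_lit 455) (nat_lit 224))))) (XT.nd (nat_lit 234) (nat_lit 0) (nat_lit 76) (XT.nd (nat_lit 78) (nat_lit 0) (nat_lit 0) (XT.lf (nat_lit 0) (nat_lit 9613868311) (nat_lit 1748) (nat_lit 7910431242) (nat_lit 1824) (nat_lit 1877007151) (nat_lit 435) (nat_lit 5) (nat_lit 458) (nat_lit 5) (nat_lit 459) (nat_lit 5) (nat_lit 462) (nat_lit 455) (nat_lit 223)) (XT.nd (nat_lit 78) (nat_lit 0) (nat_lit 76) (XT.lf (nat_lit 76) (nat_lit 1667941883) (nat_lit 0) (nat_lit 8664653156) (nat_lit 1824) (nat_lit 9263780687) (nat_lit 436) (nat_lit 5) (nat_lit 435) (nat_lit 5) (nat_lit 459) (nat_lit 5) (nat_lit 463) (nat_lit 455) (nat_lit 222)) (XT.lf (nat_lit 0) (nat_lit 11116970401) (nat_lit 1748) (nat_lit 8254897104) (nat_lit 1824) (nat_lit 422454444) (nat_lit 436) (nat_lit 5) (nat_lit 459) (nat_lit 5) (nat_lit 460) (nat_lit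 5) (nat_lit 464) (nat_lit 455) (nat_lit 221)))) (XT.nd (nat_lit 78) (nat_lit 0) (nat_lit 0) (XT.lf (nat_lit 76) (nat_lit 1572454464) (nat_lit 0) (nat_lit 10407682693) (nat_lit 1824) (nat_lit 8014829136) (nat_lit 437) (nat_lit 5) (nat_lit 436) (nat_lit 5) (nat_lit 460) (nat_lit 5) (nat_lit 465) (nat_lit 455) (nat_lit 220)) (XT.nd (nat_lit 78) (nat_lit 0) (nat_lit 76) (XT.lf (nat_lit 76) (nat_lit 11705372307) (nat_lit 0) (nat_lit 1206171609) (nat_lit 1824) (nat_lit 7287061324) (nat_lit 437) (nat_lit 5) (nat_lit 436) (nat_lit 5) (nat_lit 460) (nat_lit 5) (nat_lit 466) (nat_lit 455) (nat_lit 219)) (XT.lf (nat_lit 76) (nat_lit 1599585211) (nat_lit 0) (nat_lit 12321163456) (nat_lit 1824) (nat_lit 6484386129) (nat_lit 438) (nat_lit 5) (nat_lit 437) (nat_lit 5) (nat_lit 461) (nat_lit 5) (nat_lit 467) (nat_lit 455) (nat_lit 218))))))) (XT.nd (nat_lit 858) (nat_lit 4636) (nat_lit 0) (XT.nd (nat_lit 390) (nat_lit 1596) (nat_lit 0) (XT.nd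 (nat_lit 156) (nat_lit 0) (nat_lit 76) (XT.nd (nat_lit 78) (nat_lit 0) (nat_lit 76) (XT.lf (nat_lit 76) (nat_lit 11998393603) (nat_lit 0) (nat_lit 3012417613) (nat_lit 1824) (nat_lit 5603771452) (nat_lit 438) (nat_lit 5) (nat_lit 437) (nat_lit 5) (nat_lit 461) (nat_lit 5) (nat_lit 468) (nat_lit 455) (nat_lit 217)) (XT.lf (nat_lit 76) (nat_lit 1754949973) (nat_lit 0) (nat_lit 14417044430) (nat_lit 1824) (nat_lit 4655239886) (nat_lit 439) (nat_lit 5) (nat_lit 438) (nat_lit 5) (nat_lit 462) (nat_lit 5) (nat_lit 469) (nat_lit 455) (nat_lit 216))) (XT.nd (nat_lit 78) (nat_lit 0) (nat_lit 76) (XT.lf (nat_lit 76) (nat_lit 12427174450) (nat_lit 0) (nat_lit 5002763580) (nat_lit 1824) (nat_lit 3612731331) (nat_lit 439) (nat_lit 5) (nat_lit 438) (nat_lit 5) (nat_lit 462) (nat_lit 5) (nat_lit 470) (nat_lit 455) (nat_lit 215)) (XT.nd (nat_lit 78) (nat_lit 0) (nat_lit 0) (XT.lf (nat_lit 76) (nat_lit 2044429343) (nat_lit 0) (nat_lit 16707736970)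 (nat_lit 1824) (nat_lit 2509465438) (nat_lit 440) (nat_lit 5) (nat_lit 439) (nat_lit 5) (nat_lit 463) (nat_lit 5) (nat_lit 471) (nat_lit 455) (nat_lit 214)) (XT.lf (nat_lit 76) (nat_lit 12997836585) (nat_lit 0) (nat_lit 7189776687) (nat_lit 1824) (nat_lit 1295625745) (nat_lit 440) (nat_lit 5) (nat_lit 439) (nat_lit 5) (nat_lit 463) (nat_lit 5) (nat_lit 472) (nat_lit 455) (nat_lit 213))))) (XT.nd (nat_lit 234) (nat_lit 0) (nat_lit 76) (XT.nd (nat_lit 78) (nat_lit 1824) (nat_lit 0) (XT.lf (nat_lit 76) (nat_lit 2474173422) (nat_lit 0) (nat_lit 19206142491) (nat_lit 1824) (nat_lit 28392667) (nat_lit 441) (nat_lit 5) (nat_lit 440) (nat_lit 5) (nat_lit 464) (nat_lit 5) (nat_lit 473) (nat_lit 455) (nat_lit 212)) (XT.nd (nat_lit 78) (nat_lit 0) (nat_lit 76) (XT.lf (nat_lit 0) (nat_lit 1348699295) (nat_lit 1824) (nat_lit 8228775393) (nat_lit 1900) (nat_lit 12359027851) (nat_lit 416) (nat_lit 5) (nat_lit 440) (nat_lit 5) (nat_lit 441)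 (nat_lit 5) (nat_lit 474) (nat_lit 455) (nat_lit 211)) (XT.lf (nat_lit 0) (nat_lit 2770606782) (nat_lit 1824) (nat_lit 19136482075) (nat_lit 1900) (nat_lit 261407713) (nat_lit 417) (nat_lit 5) (nat_lit 441) (nat_lit 5) (nat_lit 442) (nat_lit 5) (nat_lit 475) (nat_lit 455) (nat_lit 210)))) (XT.nd (nat_lit 78) (nat_lit 0) (nat_lit 0) (XT.lf (nat_lit 0) (nat_lit 4336261051) (nat_lit 1824) (nat_lit 7841247717) (nat_lit 1900) (nat_lit 10225316548) (nat_lit 417) (nat_lit 5) (nat_lit 441) (nat_lit 5) (nat_lit 442) (nat_lit 5) (nat_lit 476) (nat_lit 455) (nat_lit 209)) (XT.nd (nat_lit 78) (nat_lit 0) (nat_lit 76) (XT.lf (nat_lit 76) (nat_lit 3725822488) (nat_lit 0) (nat_lit 2227965585) (nat_lit 1900) (nat_lit 16687642354) (nat_lit 418) (nat_lit 5) (nat_lit 417) (nat_lit 5) (nat_lit 442) (nat_lit 5) (nat_lit 477) (nat_lit 455) (nat_lit 208)) (XT.lf (nat_lit 0) (nat_lit 7704484332) (nat_lit 1824) (nat_lit 7307996263) (nat_lit 1900) (nat_lit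 7870311638) (nat_lit 418) (nat_lit 5) (nat_lit 442) (nat_lit 5) (nat_lit 443) (nat_lit 5) (nat_lit 478) (nat_lit 455) (nat_lit 207)))))) (XT.nd (nat_lit 468) (nat_lit 2660) (nat_lit 0) (XT.nd (nat_lit 234) (nat_lit 912) (nat_lit 0) (XT.nd (nat_lit 78) (nat_lit 1216) (nat_lit 0) (XT.lf (nat_lit 76) (nat_lit 4574070088) (nat_lit 0) (nat_lit 4957072888) (nat_lit 1900) (nat_lit 13597020278) (nat_lit 419) (nat_lit 5) (nat_lit 418) (nat_lit 5) (nat_lit 443) (nat_lit 5) (nat_lit 479) (nat_lit 455) (nat_lit 206)) (XT.nd (nat_lit 78) (nat_lit 1292) (nat_lit 0) (XT.lf (nat_lit 0) (nat_lit 11474656699) (nat_lit 1824) (nat_lit 6622340382) (nat_lit 76) (nat_lit 5279839105) (nat_lit 419) (nat_lit 5) (nat_lit 443) (nat_lit 5) (nat_lit 420) (nat_lit 5) (nat_lit 480) (nat_lit 455) (nat_lit 205)) (XT.lf (nat_lit 0) (nat_lit 5585546365) (nat_lit 1292) (nat_lit 7937204496) (nat_lit 1368) (nat_lit 10106418422) (nat_lit 402) (nat_lit 5) (nat_lit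 419) (nat_lit 5) (nat_lit 420) (nat_lit 5) (nat_lit 481) (nat_lit 455) (nat_lit 204)))) (XT.nd (nat_lit 78) (nat_lit 912) (nat_lit 0) (XT.lf (nat_lit 0) (nat_lit 15668957414) (nat_lit 1368) (nat_lit 5777325295) (nat_lit 76) (nat_lit 2439124216) (nat_lit 402) (nat_lit 5) (nat_lit 420) (nat_lit 5) (nat_lit 403) (nat_lit 5) (nat_lit 482) (nat_lit 455) (nat_lit 203)) (XT.nd (nat_lit 78) (nat_lit 0) (nat_lit 0) (XT.lf (nat_lit 0) (nat_lit 6767570986) (nat_lit 912) (nat_lit 11183753309) (nat_lit 988) (nat_lit 6193581176) (nat_lit 390) (nat_lit 5) (nat_lit 402) (nat_lit 5) (nat_lit 403) (nat_lit 5) (nat_lit 483) (nat_lit 455) (nat_lit 202)) (XT.lf (nat_lit 0) (nat_lit 19638776639) (nat_lit 912) (nat_lit 676108371) (nat_lit 988) (nat_lit 4093998906) (nat_lit 390) (nat_lit 5) (nat_lit 402) (nat_lit 5) (nat_lit 403) (nat_lit 5) (nat_lit 484) (nat_lit 455) (nat_lit 201))))) (XT.nd (nat_lit 234) (nat_lit 836) (nat_lit 0) (XT.nd (nat_lit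 78) (nat_lit 988) (nat_lit 0) (XT.lf (nat_lit 0) (nat_lit 8127753221) (nat_lit 836) (nat_lit 14712774619) (nat_lit 912) (nat_lit 1835318712) (nat_lit 379) (nat_lit 5) (nat_lit 390) (nat_lit 5) (nat_lit 391) (nat_lit 5) (nat_lit 485) (nat_lit 455) (nat_lit 200)) (XT.nd (nat_lit 78) (nat_lit 912) (nat_lit 0) (XT.lf (nat_lit 0) (nat_lit 495954139) (nat_lit 912) (nat_lit 3609943036) (nat_lit 76) (nat_lit 20841519955) (nat_lit 378) (nat_lit 5) (nat_lit 390) (nat_lit 5) (nat_lit 379) (nat_lit 5) (nat_lit 486) (nat_lit 455) (nat_lit 199)) (XT.lf (nat_lit 0) (nat_lit 2953284617) (nat_lit 988) (nat_lit 15567918481) (nat_lit 76) (nat_lit 6700894043) (nat_lit 366) (nat_lit 5) (nat_lit 379) (nat_lit 5) (nat_lit 367) (nat_lit 5) (nat_lit 487) (nat_lit 455) (nat_lit 198)))) (XT.nd (nat_lit 78) (nat_lit 836) (nat_lit 0) (XT.lf (nat_lit 0) (nat_lit 5508306976) (nat_lit 988) (nat_lit 2299541853) (nat_lit 76) (nat_lit 17693451795) (nat_lit 366)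 (nat_lit 5) (nat_lit 379) (nat_lit 5) (nat_lit 367) (nat_lit 5) (nat_lit 488) (nat_lit 455) (nat_lit 197)) (XT.nd (nat_lit 78) (nat_lit 0) (nat_lit 0) (XT.lf (nat_lit 0) (nat_lit 8206094139) (nat_lit 912) (nat_lit 14424818403) (nat_lit 76) (nat_lit 3153343110) (nat_lit 355) (nat_lit 5) (nat_lit 367) (nat_lit 5) (nat_lit 356) (nat_lit 5) (nat_lit 489) (nat_lit 455) (nat_lit 196)) (XT.lf (nat_lit 0) (nat_lit 11022146643) (nat_lit 912) (nat_lit 804508298) (nat_lit 76) (nat_lit 14244929393) (nat_lit 355) (nat_lit 5) (nat_lit 367) (nat_lit 5) (nat_lit 356) (nat_lit 5) (nat_lit 490) (nat_lit 455) (nat_lit 195))))))))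
noncomputable def xc240 : XT := (XT.nd (nat_lit 57486) (nat_lit 0) (nat_lit 5472) (XT.nd (nat_lit 56628) (nat_lit 0) (nat_lit 10488) (XT.nd (nat_lit 390) (nat_lit 2280) (nat_lit 0) (XT.nd (nat_lit 156) (nat_lit 760) (nat_lit 0) (XT.nd (nat_lit 78) (nat_lit 760) (nat_lit 0) (XT.lf (nat_lit 0) (nat_lit 13259258339) (nat_lit 836) (nat_lit 718475895) (nat_lit 912) (nat_lit 12385261809) (nat_lit 344) (nat_lit 5) (nat_lit 355) (nat_lit 5) (nat_lit 356) (nat_lit 5) (nat_lit 491) (nat_lit 455) (nat_lit 194)) (XT.lf (nat_lit 0) (nat_lit 894994626) (nat_lit 760) (nat_lit 16174747726) (nat_lit 836) (nat_lit 9588948176) (nat_lit 334) (nat_lit 5) (nat_lit 344) (nat_lit 5) (nat_lit 345) (nat_lit 5) (nat_lit 492) (nat_lit 455) (nat_lit 193))) (XT.nd (nat_lit 78) (nat_lit 760) (nat_lit 0) (XT.lf (nat_lit 0) (nat_lit 15343637875) (nat_lit 760) (nat_lit 4969813710) (nat_lit 836) (nat_lit 6645050802) (nat_lit 334) (nat_lit 5) (nat_lit 344) (nat_lit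 5) (nat_lit 345) (nat_lit 5) (nat_lit 493) (nat_lit 455) (nat_lit 192)) (XT.nd (nat_lit 78) (nat_lit 0) (nat_lit 0) (XT.lf (nat_lit 0) (nat_lit 2808980341) (nat_lit 760) (nat_lit 20870485564) (nat_lit 836) (nat_lit 3583696649) (nat_lit 324) (nat_lit 5) (nat_lit 334) (nat_lit 5) (nat_lit 335) (nat_lit 5) (nat_lit 494) (nat_lit 455) (nat_lit 191)) (XT.lf (nat_lit 0) (nat_lit 17642547516) (nat_lit 760) (nat_lit 9578181928) (nat_lit 836) (nat_lit 351028580) (nat_lit 324) (nat_lit 5) (nat_lit 334) (nat_lit 5) (nat_lit 335) (nat_lit 5) (nat_lit 495) (nat_lit 455) (nat_lit 190))))) (XT.nd (nat_lit 234) (nat_lit 684) (nat_lit 0) (XT.nd (nat_lit 78) (nat_lit 760) (nat_lit 0) (XT.lf (nat_lit 0) (nat_lit 2949912677) (nat_lit 836) (nat_lit 22969542130) (nat_lit 76) (nat_lit 1965843440) (nat_lit 313) (nat_lit 5) (nat_lit 324) (nat_lit 5) (nat_lit 314) (nat_lit 5) (nat_lit 496) (nat_lit 455) (nat_lit 189)) (XT.nd (nat_lit 78) (nat_lit 760)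 (nat_lit 0) (XT.lf (nat_lit 0) (nat_lit 6440038949) (nat_lit 836) (nat_lit 8080620314) (nat_lit 76) (nat_lit 13681846915) (nat_lit 313) (nat_lit 5) (nat_lit 324) (nat_lit 5) (nat_lit 314) (nat_lit 5) (nat_lit 497) (nat_lit 455) (nat_lit 188)) (XT.lf (nat_lit 0) (nat_lit 7197673663) (nat_lit 760) (nat_lit 2846436851) (nat_lit 836) (nat_lit 18481065522) (nat_lit 303) (nat_lit 5) (nat_lit 313) (nat_lit 5) (nat_lit 314) (nat_lit 5) (nat_lit 498) (nat_lit 455) (nat_lit 187)))) (XT.nd (nat_lit 78) (nat_lit 684) (nat_lit 0) (XT.lf (nat_lit 0) (nat_lit 13831121491) (nat_lit 836) (nat_lit 6024174071) (nat_lit 76) (nat_lit 8996787182) (nat_lit 303) (nat_lit 5) (nat_lit 314) (nat_lit 5) (nat_lit 304) (nat_lit 5) (nat_lit 499) (nat_lit 455) (nat_lit 186)) (XT.nd (nat_lit 78) (nat_lit 0) (nat_lit 0) (XT.lf (nat_lit 0) (nat_lit 9690684053) (nat_lit 684) (nat_lit 8082449599) (nat_lit 760) (nat_lit 11410809318) (nat_lit 294) (nat_lit 5) (nat_lit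 303) (nat_lit 5) (nat_lit 304) (nat_lit 5) (nat_lit 500) (nat_lit 455) (nat_lit 185)) (XT.lf (nat_lit 0) (nat_lit 21857689816) (nat_lit 760) (nat_lit 3748701447) (nat_lit 76) (nat_lit 3914775649) (nat_lit 294) (nat_lit 5) (nat_lit 304) (nat_lit 5) (nat_lit 295) (nat_lit 5) (nat_lit 501) (nat_lit 455) (nat_lit 184)))))) (XT.nd (nat_lit 390) (nat_lit 0) (nat_lit 152) (XT.nd (nat_lit 156) (nat_lit 0) (nat_lit 0) (XT.nd (nat_lit 78) (nat_lit 0) (nat_lit 0) (XT.lf (nat_lit 0) (nat_lit 1717612178) (nat_lit 0) (nat_lit 1717612178) (nat_lit 1748) (nat_lit 5797447470) (nat_lit 432) (nat_lit 5) (nat_lit 432) (nat_lit 3) (nat_lit 455) (nat_lit 3) (nat_lit 456) (nat_lit 456) (nat_lit 228)) (XT.lf (nat_lit 0) (nat_lit 7166645750) (nat_lit 1748) (nat_lit 6163245035) (nat_lit 1824) (nat_lit 5315501716) (nat_lit 432) (nat_lit 5) (nat_lit 455) (nat_lit 3) (nat_lit 456) (nat_lit 5) (nat_lit 457) (nat_lit 456) (nat_lit 227))) (XT.nd (nat_lit 78)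 (nat_lit 0) (nat_lit 76) (XT.lf (nat_lit 76) (nat_lit 2893522153) (nat_lit 0) (nat_lit 4611747539) (nat_lit 1824) (nat_lit 11323044013) (nat_lit 433) (nat_lit 5) (nat_lit 432) (nat_lit 5) (nat_lit 456) (nat_lit 5) (nat_lit 458) (nat_lit 456) (nat_lit 226)) (XT.nd (nat_lit 78) (nat_lit 0) (nat_lit 0) (XT.lf (nat_lit 0) (nat_lit 7915155365) (nat_lit 1748) (nat_lit 6829906430) (nat_lit 1824) (nat_lit 4268543160) (nat_lit 433) (nat_lit 5) (nat_lit 456) (nat_lit 5) (nat_lit 457) (nat_lit 5) (nat_lit 459) (nat_lit 456) (nat_lit 225)) (XT.lf (nat_lit 76) (nat_lit 2456058491) (nat_lit 0) (nat_lit 5918828007) (nat_lit 1824) (nat_lit 10826883957) (nat_lit 434) (nat_lit 5) (nat_lit 433) (nat_lit 5) (nat_lit 457) (nat_lit 5) (nat_lit 460) (nat_lit 456) (nat_lit 224))))) (XT.nd (nat_lit 234) (nat_lit 0) (nat_lit 76) (XT.nd (nat_lit 78) (nat_lit 0) (nat_lit 0) (XT.lf (nat_lit 0) (nat_lit 8905222125) (nat_lit 1748) (nat_lit 7395565852) (nat_lit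 1824) (nat_lit 3091684444) (nat_lit 434) (nat_lit 5) (nat_lit 457) (nat_lit 5) (nat_lit 458) (nat_lit 5) (nat_lit 461) (nat_lit 456) (nat_lit 223)) (XT.nd (nat_lit 78) (nat_lit 0) (nat_lit 76) (XT.lf (nat_lit 76) (nat_lit 2127562862) (nat_lit 0) (nat_lit 7366956958) (nat_lit 1824) (nat_lit 10091502824) (nat_lit 435) (nat_lit 5) (nat_lit 434) (nat_lit 5) (nat_lit 458) (nat_lit 5) (nat_lit 462) (nat_lit 456) (nat_lit 222)) (XT.lf (nat_lit 0) (nat_lit 10152323689) (nat_lit 1748) (nat_lit 7855523579) (nat_lit 1824) (nat_lit 1774463502) (nat_lit 435) (nat_lit 5) (nat_lit 458) (nat_lit 5) (nat_lit 459) (nat_lit 5) (nat_lit 463) (nat_lit 456) (nat_lit 221)))) (XT.nd (nat_lit 78) (nat_lit 0) (nat_lit 76) (XT.lf (nat_lit 76) (nat_lit 1913014928) (nat_lit 0) (nat_lit 8966996809) (nat_lit 1824) (nat_lit 9101379632) (nat_lit 436) (nat_lit 5) (nat_lit 435) (nat_lit 5) (nat_lit 459) (nat_lit 5) (nat_lit 464) (nat_lit 456) (nat_lit 220)) (XT.nd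 (nat_lit 78) (nat_lit 0) (nat_lit 0) (XT.lf (nat_lit 0) (nat_lit 11672571490) (nat_lit 1748) (nat_lit 8204834300) (nat_lit 1824) (nat_lit 306042682) (nat_lit 436) (nat_lit 5) (nat_lit 459) (nat_lit 5) (nat_lit 460) (nat_lit 5) (nat_lit 465) (nat_lit 456) (nat_lit 219)) (XT.lf (nat_lit 76) (nat_lit 1817648768) (nat_lit 0) (nat_lit 10730206046) (nat_lit 1824) (nat_lit 7840355680) (nat_lit 437) (nat_lit 5) (nat_lit 436) (nat_lit 5) (nat_lit 460) (nat_lit 5) (nat_lit 466) (nat_lit 456) (nat_lit 218))))))) (XT.nd (nat_lit 858) (nat_lit 3800) (nat_lit 0) (XT.nd (nat_lit 390) (nat_lit 1520) (nat_lit 0) (XT.nd (nat_lit 156) (nat_lit 0) (nat_lit 76) (XT.nd (nat_lit 78) (nat_lit 0) (nat_lit 76) (XT.lf (nat_lit 76) (nat_lit 12149033886) (nat_lit 0) (nat_lit 1342422197) (nat_lit 1824) (nat_lit 7104596631) (nat_lit 437) (nat_lit 5) (nat_lit 436) (nat_lit 5) (nat_lit 460) (nat_lit 5) (nat_lit 467) (nat_lit 456) (nat_lit 217)) (XT.lf (nat_lit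 76) (nat_lit 1846957323) (nat_lit 0) (nat_lit 12668264792) (nat_lit 1824) (nat_lit 6291604985) (nat_lit 438) (nat_lit 5) (nat_lit 437) (nat_lit 5) (nat_lit 461) (nat_lit 5) (nat_lit 468) (nat_lit 456) (nat_lit 216))) (XT.nd (nat_lit 78) (nat_lit 0) (nat_lit 76) (XT.lf (nat_lit 76) (nat_lit 12449518738) (nat_lit 0) (nat_lit 3171369953) (nat_lit 1824) (nat_lit 5399700933) (nat_lit 438) (nat_lit 5) (nat_lit 437) (nat_lit 5) (nat_lit 461) (nat_lit 5) (nat_lit 469) (nat_lit 456) (nat_lit 215)) (XT.nd (nat_lit 78) (nat_lit 0) (nat_lit 0) (XT.lf (nat_lit 76) (nat_lit 2006697029) (nat_lit 0) (nat_lit 14793301139) (nat_lit 1824) (nat_lit 4437603773) (nat_lit 439) (nat_lit 5) (nat_lit 438) (nat_lit 5) (nat_lit 462) (nat_lit 5) (nat_lit 470) (nat_lit 456) (nat_lit 214)) (XT.lf (nat_lit 76) (nat_lit 12888117994) (nat_lit 0) (nat_lit 5189010832) (nat_lit 1824) (nat_lit 3380338006) (nat_lit 439) (nat_lit 5) (nat_lit 438) (nat_lit 5) (nat_lit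 462) (nat_lit 5) (nat_lit 471) (nat_lit 456) (nat_lit 213))))) (XT.nd (nat_lit 234) (nat_lit 0) (nat_lit 0) (XT.nd (nat_lit 78) (nat_lit 1748) (nat_lit 0) (XT.lf (nat_lit 76) (nat_lit 2302892624) (nat_lit 0) (nat_lit 17117918301) (nat_lit 1824) (nat_lit 2260099008) (nat_lit 440) (nat_lit 5) (nat_lit 439) (nat_lit 5) (nat_lit 463) (nat_lit 5) (nat_lit 472) (nat_lit 456) (nat_lit 212)) (XT.nd (nat_lit 78) (nat_lit 1748) (nat_lit 0) (XT.lf (nat_lit 76) (nat_lit 13471101841) (nat_lit 0) (nat_lit 7408108095) (nat_lit 1824) (nat_lit 1027856163) (nat_lit 440) (nat_lit 5) (nat_lit 439) (nat_lit 5) (nat_lit 463) (nat_lit 5) (nat_lit 473) (nat_lit 456) (nat_lit 211)) (XT.lf (nat_lit 0) (nat_lit 256515150) (nat_lit 1824) (nat_lit 19396986161) (nat_lit 1900) (nat_lit 2483605612) (nat_lit 416) (nat_lit 5) (nat_lit 440) (nat_lit 5) (nat_lit 441) (nat_lit 5) (nat_lit 474) (nat_lit 456) (nat_lit 210)))) (XT.nd (nat_lit 78) (nat_lit 0) (nat_lit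 76) (XT.lf (nat_lit 0) (nat_lit 1655179015) (nat_lit 1824) (nat_lit 8175653185) (nat_lit 1900) (nat_lit 12538734125) (nat_lit 416) (nat_lit 5) (nat_lit 440) (nat_lit 5) (nat_lit 441) (nat_lit 5) (nat_lit 475) (nat_lit 456) (nat_lit 209)) (XT.nd (nat_lit 78) (nat_lit 0) (nat_lit 0) (XT.lf (nat_lit 0) (nat_lit 3101064156) (nat_lit 1824) (nat_lit 19296978847) (nat_lit 1900) (nat_lit 208247937) (nat_lit 417) (nat_lit 5) (nat_lit 441) (nat_lit 5) (nat_lit 442) (nat_lit 5) (nat_lit 476) (nat_lit 456) (nat_lit 208)) (XT.lf (nat_lit 0) (nat_lit 4692638466) (nat_lit 1824) (nat_lit 7780197309) (nat_lit 1900) (nat_lit 10372579810) (nat_lit 417) (nat_lit 5) (nat_lit 441) (nat_lit 5) (nat_lit 442) (nat_lit 5) (nat_lit 477) (nat_lit 456) (nat_lit 207)))))) (XT.nd (nat_lit 390) (nat_lit 2736) (nat_lit 0) (XT.nd (nat_lit 156) (nat_lit 1140) (nat_lit 0) (XT.nd (nat_lit 78) (nat_lit 0) (nat_lit 76) (XT.lf (nat_lit 76) (nat_lit 4016780910) (nat_lit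 0) (nat_lit 2321853106) (nat_lit 1900) (nat_lit 16750237858) (nat_lit 418) (nat_lit 5) (nat_lit 417) (nat_lit 5) (nat_lit 442) (nat_lit 5) (nat_lit 478) (nat_lit 456) (nat_lit 206)) (XT.lf (nat_lit 0) (nat_lit 8118819028) (nat_lit 1824) (nat_lit 7236362655) (nat_lit 1900) (nat_lit 7979991144) (nat_lit 418) (nat_lit 5) (nat_lit 442) (nat_lit 5) (nat_lit 443) (nat_lit 5) (nat_lit 479) (nat_lit 456) (nat_lit 205))) (XT.nd (nat_lit 78) (nat_lit 1216) (nat_lit 0) (XT.lf (nat_lit 76) (nat_lit 4881912172) (nat_lit 0) (nat_lit 5096400588) (nat_lit 1900) (nat_lit 13607213850) (nat_lit 419) (nat_lit 5) (nat_lit 418) (nat_lit 5) (nat_lit 443) (nat_lit 5) (nat_lit 480) (nat_lit 456) (nat_lit 204)) (XT.nd (nat_lit 78) (nat_lit 1292) (nat_lit 0) (XT.lf (nat_lit 0) (nat_lit 11955410625) (nat_lit 1824) (nat_lit 6537315124) (nat_lit 76) (nat_lit 5346554327) (nat_lit 419) (nat_lit 5) (nat_lit 443) (nat_lit 5) (nat_lit 420) (nat_lit 5) (nat_lit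 481) (nat_lit 456) (nat_lit 203)) (XT.lf (nat_lit 0) (nat_lit 5913298621) (nat_lit 1292) (nat_lit 8127644051) (nat_lit 1368) (nat_lit 10055788969) (nat_lit 402) (nat_lit 5) (nat_lit 419) (nat_lit 5) (nat_lit 420) (nat_lit 5) (nat_lit 482) (nat_lit 456) (nat_lit 202))))) (XT.nd (nat_lit 234) (nat_lit 1824) (nat_lit 0) (XT.nd (nat_lit 78) (nat_lit 912) (nat_lit 0) (XT.lf (nat_lit 0) (nat_lit 16225014018) (nat_lit 1368) (nat_lit 5675942247) (nat_lit 76) (nat_lit 2457240256) (nat_lit 402) (nat_lit 5) (nat_lit 420) (nat_lit 5) (nat_lit 403) (nat_lit 5) (nat_lit 483) (nat_lit 456) (nat_lit 201)) (XT.nd (nat_lit 78) (nat_lit 0) (nat_lit 0) (XT.lf (nat_lit 0) (nat_lit 7118424792) (nat_lit 912) (nat_lit 11431244248) (nat_lit 988) (nat_lit 6073284456) (nat_lit 390) (nat_lit 5) (nat_lit 402) (nat_lit 5) (nat_lit 403) (nat_lit 5) (nat_lit 484) (nat_lit 456) (nat_lit 200)) (XT.lf (nat_lit 0) (nat_lit 20242829021) (nat_lit 912) (nat_lit 712979434)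 (nat_lit 988) (nat_lit 3936498155) (nat_lit 390) (nat_lit 5) (nat_lit 402) (nat_lit 5) (nat_lit 403) (nat_lit 5) (nat_lit 485) (nat_lit 456) (nat_lit 199)))) (XT.nd (nat_lit 78) (nat_lit 988) (nat_lit 0) (XT.lf (nat_lit 0) (nat_lit 8505069456) (nat_lit 836) (nat_lit 15023539929) (nat_lit 912) (nat_lit 1636067435) (nat_lit 379) (nat_lit 5) (nat_lit 390) (nat_lit 5) (nat_lit 391) (nat_lit 5) (nat_lit 486) (nat_lit 456) (nat_lit 198)) (XT.nd (nat_lit 78) (nat_lit 912) (nat_lit 0) (XT.lf (nat_lit 0) (nat_lit 734170305) (nat_lit 912) (nat_lit 3468498916) (nat_lit 76) (nat_lit 21239071445) (nat_lit 378) (nat_lit 5) (nat_lit 390) (nat_lit 5) (nat_lit 379) (nat_lit 5) (nat_lit 487) (nat_lit 456) (nat_lit 197)) (XT.lf (nat_lit 0) (nat_lit 3237464812) (nat_lit 988) (nat_lit 15662393578) (nat_lit 76) (nat_lit 6822120693) (nat_lit 366) (nat_lit 5) (nat_lit 379) (nat_lit 5) (nat_lit 367) (nat_lit 5) (nat_lit 488) (nat_lit 456) (nat_lit 196))))))))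
noncomputable def xc241 : XT := (XT.nd (nat_lit 57564) (nat_lit 0) (nat_lit 6384) (XT.nd (nat_lit 858) (nat_lit 684) (nat_lit 0) (XT.nd (nat_lit 390) (nat_lit 2356) (nat_lit 0) (XT.nd (nat_lit 156) (nat_lit 1596) (nat_lit 0) (XT.nd (nat_lit 78) (nat_lit 836) (nat_lit 0) (XT.lf (nat_lit 0) (nat_lit 5839173609) (nat_lit 988) (nat_lit 2132902030) (nat_lit 76) (nat_lit 18034780408) (nat_lit 366) (nat_lit 5) (nat_lit 379) (nat_lit 5) (nat_lit 367) (nat_lit 5) (nat_lit 489) (nat_lit 456) (nat_lit 195)) (XT.lf (nat_lit 0) (nat_lit 8587918226) (nat_lit 912) (nat_lit 14497630351) (nat_lit 76) (nat_lit 3209982673) (nat_lit 355) (nat_lit 5) (nat_lit 367) (nat_lit 5) (nat_lit 356) (nat_lit 5) (nat_lit 490) (nat_lit 456) (nat_lit 194))) (XT.nd (nat_lit 78) (nat_lit 1596) (nat_lit 0) (XT.lf (nat_lit 0) (nat_lit 11456023110) (nat_lit 912) (nat_lit 609143151) (nat_lit 76) (nat_lit 14523526707) (nat_lit 355) (nat_lit 5) (nat_lit 367) (nat_lit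 5) (nat_lit 356) (nat_lit 5) (nat_lit 491) (nat_lit 456) (nat_lit 193)) (XT.nd (nat_lit 78) (nat_lit 760) (nat_lit 0) (XT.lf (nat_lit 0) (nat_lit 13734507666) (nat_lit 836) (nat_lit 733393691) (nat_lit 912) (nat_lit 12418089041) (nat_lit 344) (nat_lit 5) (nat_lit 355) (nat_lit 5) (nat_lit 356) (nat_lit 5) (nat_lit 492) (nat_lit 456) (nat_lit 192)) (XT.lf (nat_lit 0) (nat_lit 1125817717) (nat_lit 760) (nat_lit 16493181213) (nat_lit 836) (nat_lit 9568655902) (nat_lit 334) (nat_lit 5) (nat_lit 344) (nat_lit 5) (nat_lit 345) (nat_lit 5) (nat_lit 493) (nat_lit 456) (nat_lit 191))))) (XT.nd (nat_lit 234) (nat_lit 1596) (nat_lit 0) (XT.nd (nat_lit 78) (nat_lit 760) (nat_lit 0) (XT.lf (nat_lit 0) (nat_lit 15859258866) (nat_lit 760) (nat_lit 5064247761) (nat_lit 836) (nat_lit 6570038840) (nat_lit 334) (nat_lit 5) (nat_lit 344) (nat_lit 5) (nat_lit 345) (nat_lit 5) (nat_lit 494) (nat_lit 456) (nat_lit 190)) (XT.nd (nat_lit 78) (nat_lit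 0) (nat_lit 0) (XT.lf (nat_lit 0) (nat_lit 3076602648) (nat_lit 760) (nat_lit 21277647196) (nat_lit 836) (nat_lit 3450101828) (nat_lit 324) (nat_lit 5) (nat_lit 334) (nat_lit 5) (nat_lit 335) (nat_lit 5) (nat_lit 495) (nat_lit 456) (nat_lit 189)) (XT.lf (nat_lit 0) (nat_lit 18202695231) (nat_lit 760) (nat_lit 9759698429) (nat_lit 836) (nat_lit 156805275) (nat_lit 324) (nat_lit 5) (nat_lit 334) (nat_lit 5) (nat_lit 335) (nat_lit 5) (nat_lit 496) (nat_lit 456) (nat_lit 188)))) (XT.nd (nat_lit 78) (nat_lit 760) (nat_lit 0) (XT.lf (nat_lit 0) (nat_lit 3205057046) (nat_lit 836) (nat_lit 23216442813) (nat_lit 76) (nat_lit 2017534088) (nat_lit 313) (nat_lit 5) (nat_lit 324) (nat_lit 5) (nat_lit 314) (nat_lit 5) (nat_lit 497) (nat_lit 456) (nat_lit 187)) (XT.nd (nat_lit 78) (nat_lit 760) (nat_lit 0) (XT.lf (nat_lit 0) (nat_lit 6761139841) (nat_lit 836) (nat_lit 8033909034) (nat_lit 76) (nat_lit 13967615009) (nat_lit 313) (nat_lit 5)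 (nat_lit 324) (nat_lit 5) (nat_lit 314) (nat_lit 5) (nat_lit 498) (nat_lit 456) (nat_lit 186)) (XT.lf (nat_lit 0) (nat_lit 7548580272) (nat_lit 760) (nat_lit 2886285651) (nat_lit 836) (nat_lit 18656970664) (nat_lit 303) (nat_lit 5) (nat_lit 313) (nat_lit 5) (nat_lit 314) (nat_lit 5) (nat_lit 499) (nat_lit 456) (nat_lit 185)))))) (XT.nd (nat_lit 56238) (nat_lit 0) (nat_lit 10564) (XT.nd (nat_lit 56004) (nat_lit 0) (nat_lit 10488) (XT.nd (nat_lit 78) (nat_lit 684) (nat_lit 0) (XT.lf (nat_lit 0) (nat_lit 14294002836) (nat_lit 836) (nat_lit 5938103425) (nat_lit 76) (nat_lit 9193248348) (nat_lit 303) (nat_lit 5) (nat_lit 314) (nat_lit 5) (nat_lit 304) (nat_lit 5) (nat_lit 500) (nat_lit 456) (nat_lit 184)) (XT.lf (nat_lit 0) (nat_lit 10089692953) (nat_lit 684) (nat_lit 8222842415) (nat_lit 760) (nat_lit 11451363941) (nat_lit 294) (nat_lit 5) (nat_lit 303) (nat_lit 5) (nat_lit 304) (nat_lit 5) (nat_lit 501) (nat_lit 456) (nat_lit 183)))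 (XT.nd (nat_lit 78) (nat_lit 0) (nat_lit 0) (XT.lf (nat_lit 0) (nat_lit 1847600503) (nat_lit 0) (nat_lit 1847600503) (nat_lit 1748) (nat_lit 5718244433) (nat_lit 432) (nat_lit 5) (nat_lit 432) (nat_lit 3) (nat_lit 455) (nat_lit 3) (nat_lit 457) (nat_lit 457) (nat_lit 226)) (XT.nd (nat_lit 78) (nat_lit 0) (nat_lit 0) (XT.lf (nat_lit 0) (nat_lit 7683804607) (nat_lit 1748) (nat_lit 6090163195) (nat_lit 1824) (nat_lit 5236749403) (nat_lit 432) (nat_lit 5) (nat_lit 455) (nat_lit 3) (nat_lit 456) (nat_lit 5) (nat_lit 458) (nat_lit 457) (nat_lit 225)) (XT.lf (nat_lit 76) (nat_lit 3146447582) (nat_lit 0) (nat_lit 4876689951) (nat_lit 1824) (nat_lit 11174282660) (nat_lit 433) (nat_lit 5) (nat_lit 432) (nat_lit 5) (nat_lit 456) (nat_lit 5) (nat_lit 459) (nat_lit 457) (nat_lit 224))))) (XT.nd (nat_lit 234) (nat_lit 0) (nat_lit 76) (XT.nd (nat_lit 78) (nat_lit 0) (nat_lit 0) (XT.lf (nat_lit 0) (nat_lit 8432910547) (nat_lit 1748) (nat_lit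 6766861319) (nat_lit 1824) (nat_lit 4186813658) (nat_lit 433) (nat_lit 5) (nat_lit 456) (nat_lit 5) (nat_lit 457) (nat_lit 5) (nat_lit 460) (nat_lit 457) (nat_lit 223)) (XT.nd (nat_lit 78) (nat_lit 0) (nat_lit 76) (XT.lf (nat_lit 76) (nat_lit 2703509458) (nat_lit 0) (nat_lit 6192566453) (nat_lit 1824) (nat_lit 10682555641) (nat_lit 434) (nat_lit 5) (nat_lit 433) (nat_lit 5) (nat_lit 457) (nat_lit 5) (nat_lit 461) (nat_lit 457) (nat_lit 222)) (XT.lf (nat_lit 0) (nat_lit 9429094186) (nat_lit 1748) (nat_lit 7341013619) (nat_lit 1824) (nat_lit 3003200204) (nat_lit 434) (nat_lit 5) (nat_lit 457) (nat_lit 5) (nat_lit 458) (nat_lit 5) (nat_lit 462) (nat_lit 457) (nat_lit 221)))) (XT.nd (nat_lit 78) (nat_lit 0) (nat_lit 76) (XT.lf (nat_lit 76) (nat_lit 2371245672) (nat_lit 0) (nat_lit 7653458286) (nat_lit 1824) (nat_lit 9946136688) (nat_lit 435) (nat_lit 5) (nat_lit 434) (nat_lit 5) (nat_lit 458) (nat_lit 5) (nat_lit 463) (nat_lit 457)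 (nat_lit 220)) (XT.nd (nat_lit 78) (nat_lit 0) (nat_lit 0) (XT.lf (nat_lit 0) (nat_lit 10688105660) (nat_lit 1748) (nat_lit 7807793327) (nat_lit 1824) (nat_lit 1675308604) (nat_lit 435) (nat_lit 5) (nat_lit 458) (nat_lit 5) (nat_lit 459) (nat_lit 5) (nat_lit 464) (nat_lit 457) (nat_lit 219)) (XT.lf (nat_lit 76) (nat_lit 2154768313) (nat_lit 0) (nat_lit 9270376143) (nat_lit 1824) (nat_lit 8949231264) (nat_lit 436) (nat_lit 5) (nat_lit 435) (nat_lit 5) (nat_lit 459) (nat_lit 5) (nat_lit 465) (nat_lit 457) (nat_lit 218))))))) (XT.nd (nat_lit 858) (nat_lit 2888) (nat_lit 0) (XT.nd (nat_lit 390) (nat_lit 1520) (nat_lit 0) (XT.nd (nat_lit 156) (nat_lit 0) (nat_lit 0) (XT.nd (nat_lit 78) (nat_lit 0) (nat_lit 0) (XT.lf (nat_lit 0) (nat_lit 12226343643) (nat_lit 1748) (nat_lit 8162125194) (nat_lit 1824) (nat_lit 192151184) (nat_lit 436) (nat_lit 5) (nat_lit 459) (nat_lit 5) (nat_lit 460) (nat_lit 5) (nat_lit 466) (nat_lit 457) (nat_lit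 217)) (XT.lf (nat_lit 76) (nat_lit 2059446971) (nat_lit 0) (nat_lit 11054738751) (nat_lit 1824) (nat_lit 7675392284) (nat_lit 437) (nat_lit 5) (nat_lit 436) (nat_lit 5) (nat_lit 460) (nat_lit 5) (nat_lit 467) (nat_lit 457) (nat_lit 216))) (XT.nd (nat_lit 78) (nat_lit 0) (nat_lit 76) (XT.lf (nat_lit 76) (nat_lit 12593431454) (nat_lit 0) (nat_lit 1477043763) (nat_lit 1824) (nat_lit 6931227279) (nat_lit 437) (nat_lit 5) (nat_lit 436) (nat_lit 5) (nat_lit 460) (nat_lit 5) (nat_lit 468) (nat_lit 457) (nat_lit 215)) (XT.nd (nat_lit 78) (nat_lit 0) (nat_lit 0) (XT.lf (nat_lit 76) (nat_lit 2090913393) (nat_lit 0) (nat_lit 13018398703) (nat_lit 1824) (nat_lit 6107490078) (nat_lit 438) (nat_lit 5) (nat_lit 437) (nat_lit 5) (nat_lit 461) (nat_lit 5) (nat_lit 469) (nat_lit 457) (nat_lit 214)) (XT.lf (nat_lit 76) (nat_lit 12901466881) (nat_lit 0) (nat_lit 3329668544) (nat_lit 1824) (nat_lit 5203825337) (nat_lit 438) (nat_lit 5) (nat_lit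 437) (nat_lit 5) (nat_lit 461) (nat_lit 5) (nat_lit 470) (nat_lit 457) (nat_lit 213))))) (XT.nd (nat_lit 234) (nat_lit 1672) (nat_lit 0) (XT.nd (nat_lit 78) (nat_lit 0) (nat_lit 0) (XT.lf (nat_lit 76) (nat_lit 2255066317) (nat_lit 0) (nat_lit 15173669103) (nat_lit 1824) (nat_lit 4227681386) (nat_lit 439) (nat_lit 5) (nat_lit 438) (nat_lit 5) (nat_lit 462) (nat_lit 5) (nat_lit 471) (nat_lit 457) (nat_lit 212)) (XT.nd (nat_lit 78) (nat_lit 0) (nat_lit 76) (XT.lf (nat_lit 76) (nat_lit 13350032656) (nat_lit 0) (nat_lit 5375636090) (nat_lit 1824) (nat_lit 3155126666) (nat_lit 439) (nat_lit 5) (nat_lit 438) (nat_lit 5) (nat_lit 462) (nat_lit 5) (nat_lit 472) (nat_lit 457) (nat_lit 211)) (XT.lf (nat_lit 76) (nat_lit 2558076481) (nat_lit 0) (nat_lit 17533351054) (nat_lit 1824) (nat_lit 2017377363) (nat_lit 440) (nat_lit 5) (nat_lit 439) (nat_lit 5) (nat_lit 463) (nat_lit 5) (nat_lit 473) (nat_lit 457) (nat_lit 210)))) (XT.nd (nat_lit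 78) (nat_lit 1748) (nat_lit 0) (XT.lf (nat_lit 76) (nat_lit 13945549372) (nat_lit 0) (nat_lit 7627911812) (nat_lit 1824) (nat_lit 766135223) (nat_lit 440) (nat_lit 5) (nat_lit 439) (nat_lit 5) (nat_lit 463) (nat_lit 5) (nat_lit 474) (nat_lit 457) (nat_lit 209)) (XT.nd (nat_lit 78) (nat_lit 0) (nat_lit 0) (XT.lf (nat_lit 0) (nat_lit 535670684) (nat_lit 1824) (nat_lit 19571496751) (nat_lit 1900) (nat_lit 2467126466) (nat_lit 416) (nat_lit 5) (nat_lit 440) (nat_lit 5) (nat_lit 441) (nat_lit 5) (nat_lit 475) (nat_lit 457) (nat_lit 208)) (XT.lf (nat_lit 0) (nat_lit 1956934782) (nat_lit 1824) (nat_lit 8129922000) (nat_lit 1900) (nat_lit 12724654633) (nat_lit 416) (nat_lit 5) (nat_lit 440) (nat_lit 5) (nat_lit 441) (nat_lit 5) (nat_lit 476) (nat_lit 457) (nat_lit 207)))))) (XT.nd (nat_lit 468) (nat_lit 2964) (nat_lit 0) (XT.nd (nat_lit 234) (nat_lit 0) (nat_lit 76) (XT.nd (nat_lit 78) (nat_lit 0) (nat_lit 0) (XT.lf (nat_lit 0) (nat_lit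 3427450335) (nat_lit 1824) (nat_lit 19469315128) (nat_lit 1900) (nat_lit 156292240) (nat_lit 417) (nat_lit 5) (nat_lit 441) (nat_lit 5) (nat_lit 442) (nat_lit 5) (nat_lit 477) (nat_lit 457) (nat_lit 206)) (XT.nd (nat_lit 78) (nat_lit 0) (nat_lit 0) (XT.lf (nat_lit 0) (nat_lit 5045672506) (nat_lit 1824) (nat_lit 7726386259) (nat_lit 1900) (nat_lit 10525011155) (nat_lit 417) (nat_lit 5) (nat_lit 441) (nat_lit 5) (nat_lit 442) (nat_lit 5) (nat_lit 478) (nat_lit 457) (nat_lit 205)) (XT.lf (nat_lit 76) (nat_lit 4305153794) (nat_lit 0) (nat_lit 2415702904) (nat_lit 1900) (nat_lit 16824614643) (nat_lit 418) (nat_lit 5) (nat_lit 417) (nat_lit 5) (nat_lit 442) (nat_lit 5) (nat_lit 479) (nat_lit 457) (nat_lit 204)))) (XT.nd (nat_lit 78) (nat_lit 0) (nat_lit 0) (XT.lf (nat_lit 0) (nat_lit 8531334788) (nat_lit 1824) (nat_lit 7171753563) (nat_lit 1900) (nat_lit 8093717527) (nat_lit 418) (nat_lit 5) (nat_lit 442) (nat_lit 5) (nat_lit 443)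 (nat_lit 5) (nat_lit 480) (nat_lit 457) (nat_lit 203)) (XT.nd (nat_lit 78) (nat_lit 0) (nat_lit 76) (XT.lf (nat_lit 76) (nat_lit 5187509548) (nat_lit 0) (nat_lit 5236954361) (nat_lit 1900) (nat_lit 13627775243) (nat_lit 419) (nat_lit 5) (nat_lit 418) (nat_lit 5) (nat_lit 443) (nat_lit 5) (nat_lit 481) (nat_lit 457) (nat_lit 202)) (XT.lf (nat_lit 0) (nat_lit 12436022866) (nat_lit 1824) (nat_lit 6459034066) (nat_lit 76) (nat_lit 5416113671) (nat_lit 419) (nat_lit 5) (nat_lit 443) (nat_lit 5) (nat_lit 420) (nat_lit 5) (nat_lit 482) (nat_lit 457) (nat_lit 201))))) (XT.nd (nat_lit 234) (nat_lit 912) (nat_lit 0) (XT.nd (nat_lit 78) (nat_lit 912) (nat_lit 0) (XT.lf (nat_lit 0) (nat_lit 6239216773) (nat_lit 1292) (nat_lit 8320661623) (nat_lit 1368) (nat_lit 10013961820) (nat_lit 402) (nat_lit 5) (nat_lit 419) (nat_lit 5) (nat_lit 420) (nat_lit 5) (nat_lit 483) (nat_lit 457) (nat_lit 200)) (XT.nd (nat_lit 78) (nat_lit 912) (nat_lit 0)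 (XT.lf (nat_lit 0) (nat_lit 16782768293) (nat_lit 1368) (nat_lit 5580955177) (nat_lit 76) (nat_lit 2476909433) (nat_lit 402) (nat_lit 5) (nat_lit 420) (nat_lit 5) (nat_lit 403) (nat_lit 5) (nat_lit 484) (nat_lit 457) (nat_lit 199)) (XT.lf (nat_lit 0) (nat_lit 7467927453) (nat_lit 912) (nat_lit 11682760207) (nat_lit 988) (nat_lit 5960063157) (nat_lit 390) (nat_lit 5) (nat_lit 402) (nat_lit 5) (nat_lit 403) (nat_lit 5) (nat_lit 485) (nat_lit 457) (nat_lit 198)))) (XT.nd (nat_lit 78) (nat_lit 912) (nat_lit 0) (XT.lf (nat_lit 0) (nat_lit 20850758313) (nat_lit 912) (nat_lit 749681251) (nat_lit 988) (nat_lit 3785142836) (nat_lit 390) (nat_lit 5) (nat_lit 402) (nat_lit 5) (nat_lit 403) (nat_lit 5) (nat_lit 486) (nat_lit 457) (nat_lit 197)) (XT.nd (nat_lit 78) (nat_lit 76) (nat_lit 0) (XT.lf (nat_lit 0) (nat_lit 8881592577) (nat_lit 836) (nat_lit 15339879448) (nat_lit 912) (nat_lit 1441993655) (nat_lit 379) (nat_lit 5) (nat_lit 390)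 (nat_lit 5) (nat_lit 391) (nat_lit 5) (nat_lit 487) (nat_lit 457) (nat_lit 196)) (XT.lf (nat_lit 0) (nat_lit 968285740) (nat_lit 912) (nat_lit 3332521930) (nat_lit 76) (nat_lit 21645322588) (nat_lit 378) (nat_lit 5) (nat_lit 390) (nat_lit 5) (nat_lit 379) (nat_lit 5) (nat_lit 488) (nat_lit 457) (nat_lit 195))))))))
noncomputable def xc242 : XT := (XT.nd (nat_lit 57720) (nat_lit 0) (nat_lit 4788) (XT.nd (nat_lit 858) (nat_lit 760) (nat_lit 0) (XT.nd (nat_lit 390) (nat_lit 2356) (nat_lit 0) (XT.nd (nat_lit 156) (nat_lit 1672) (nat_lit 0) (XT.nd (nat_lit 78) (nat_lit 0) (nat_lit 0) (XT.lf (nat_lit 0) (nat_lit 3518587141) (nat_lit 988) (nat_lit 15767180018) (nat_lit 76) (nat_lit 6946268574) (nat_lit 366) (nat_lit 5) (nat_lit 379) (nat_lit 5) (nat_lit 367) (nat_lit 5) (nat_lit 489) (nat_lit 457) (nat_lit 194)) (XT.lf (nat_lit 0) (nat_lit 6168087505) (nat_lit 988) (nat_lit 1971186118) (nat_lit 76) (nat_lit 18383422553) (nat_lit 366)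 (nat_lit 5) (nat_lit 379) (nat_lit 5) (nat_lit 367) (nat_lit 5) (nat_lit 490) (nat_lit 457) (nat_lit 193))) (XT.nd (nat_lit 78) (nat_lit 836) (nat_lit 0) (XT.lf (nat_lit 0) (nat_lit 8968925153) (nat_lit 912) (nat_lit 14580273827) (nat_lit 76) (nat_lit 3268004606) (nat_lit 355) (nat_lit 5) (nat_lit 367) (nat_lit 5) (nat_lit 356) (nat_lit 5) (nat_lit 491) (nat_lit 457) (nat_lit 192)) (XT.nd (nat_lit 78) (nat_lit 836) (nat_lit 0) (XT.lf (nat_lit 0) (nat_lit 11890289221) (nat_lit 912) (nat_lit 418081768) (nat_lit 76) (nat_lit 14807940653) (nat_lit 355) (nat_lit 5) (nat_lit 367) (nat_lit 5) (nat_lit 356) (nat_lit 5) (nat_lit 492) (nat_lit 457) (nat_lit 191)) (XT.lf (nat_lit 0) (nat_lit 14211104932) (nat_lit 836) (nat_lit 748588553) (nat_lit 912) (nat_lit 12459916793) (nat_lit 344) (nat_lit 5) (nat_lit 355) (nat_lit 5) (nat_lit 356) (nat_lit 5) (nat_lit 493) (nat_lit 457) (nat_lit 190))))) (XT.nd (nat_lit 234) (nat_lit 836) (nat_lit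 0) (XT.nd (nat_lit 78) (nat_lit 760) (nat_lit 0) (XT.lf (nat_lit 0) (nat_lit 1352989202) (nat_lit 760) (nat_lit 16818179913) (nat_lit 836) (nat_lit 9556192767) (nat_lit 334) (nat_lit 5) (nat_lit 344) (nat_lit 5) (nat_lit 345) (nat_lit 5) (nat_lit 494) (nat_lit 457) (nat_lit 189)) (XT.nd (nat_lit 78) (nat_lit 760) (nat_lit 0) (XT.lf (nat_lit 0) (nat_lit 16377086328) (nat_lit 760) (nat_lit 5160763183) (nat_lit 836) (nat_lit 6501600154) (nat_lit 334) (nat_lit 5) (nat_lit 344) (nat_lit 5) (nat_lit 345) (nat_lit 5) (nat_lit 495) (nat_lit 457) (nat_lit 188)) (XT.lf (nat_lit 0) (nat_lit 3341366823) (nat_lit 760) (nat_lit 21693350005) (nat_lit 836) (nat_lit 3321805947) (nat_lit 324) (nat_lit 5) (nat_lit 334) (nat_lit 5) (nat_lit 335) (nat_lit 5) (nat_lit 496) (nat_lit 457) (nat_lit 187)))) (XT.nd (nat_lit 78) (nat_lit 760) (nat_lit 0) (XT.lf (nat_lit 0) (nat_lit 33048749) (nat_lit 836) (nat_lit 9911964879) (nat_lit 76) (nat_lit 18732725790)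 (nat_lit 323) (nat_lit 5) (nat_lit 334) (nat_lit 5) (nat_lit 324) (nat_lit 5) (nat_lit 497) (nat_lit 457) (nat_lit 186)) (XT.nd (nat_lit 78) (nat_lit 0) (nat_lit 0) (XT.lf (nat_lit 0) (nat_lit 3457687709) (nat_lit 836) (nat_lit 23476532761) (nat_lit 76) (nat_lit 2069778059) (nat_lit 313) (nat_lit 5) (nat_lit 324) (nat_lit 5) (nat_lit 314) (nat_lit 5) (nat_lit 498) (nat_lit 457) (nat_lit 185)) (XT.lf (nat_lit 0) (nat_lit 7081195502) (nat_lit 836) (nat_lit 7994352991) (nat_lit 76) (nat_lit 14258627397) (nat_lit 313) (nat_lit 5) (nat_lit 324) (nat_lit 5) (nat_lit 314) (nat_lit 5) (nat_lit 499) (nat_lit 457) (nat_lit 184)))))) (XT.nd (nat_lit 56394) (nat_lit 0) (nat_lit 9880) (XT.nd (nat_lit 56160) (nat_lit 0) (nat_lit 9804) (XT.nd (nat_lit 56082) (nat_lit 0) (nat_lit 9804) (XT.lf (nat_lit 0) (nat_lit 7898468771) (nat_lit 760) (nat_lit 2927594663) (nat_lit 836) (nat_lit 18843916143) (nat_lit 303) (nat_lit 5) (nat_lit 313) (nat_lit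 5) (nat_lit 314) (nat_lit 5) (nat_lit 500) (nat_lit 457) (nat_lit 183)) (XT.lf (nat_lit 0) (nat_lit 1976474929) (nat_lit 0) (nat_lit 1976474929) (nat_lit 1748) (nat_lit 5645035324) (nat_lit 432) (nat_lit 5) (nat_lit 432) (nat_lit 3) (nat_lit 455) (nat_lit 3) (nat_lit 458) (nat_lit 458) (nat_lit 224))) (XT.nd (nat_lit 78) (nat_lit 0) (nat_lit 0) (XT.lf (nat_lit 0) (nat_lit 8196790524) (nat_lit 1748) (nat_lit 6023244101) (nat_lit 1824) (nat_lit 5163608241) (nat_lit 432) (nat_lit 5) (nat_lit 455) (nat_lit 3) (nat_lit 456) (nat_lit 5) (nat_lit 459) (nat_lit 458) (nat_lit 223)) (XT.nd (nat_lit 78) (nat_lit 0) (nat_lit 76) (XT.lf (nat_lit 76) (nat_lit 3396857297) (nat_lit 0) (nat_lit 5140224770) (nat_lit 1824) (nat_lit 11037116416) (nat_lit 433) (nat_lit 5) (nat_lit 432) (nat_lit 5) (nat_lit 456) (nat_lit 5) (nat_lit 460) (nat_lit 458) (nat_lit 222)) (XT.lf (nat_lit 0) (nat_lit 8947062871) (nat_lit 1748) (nat_lit 6710307697) (nat_lit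 1824) (nat_lit 4109938278) (nat_lit 433) (nat_lit 5) (nat_lit 456) (nat_lit 5) (nat_lit 457) (nat_lit 5) (nat_lit 461) (nat_lit 458) (nat_lit 221))))) (XT.nd (nat_lit 234) (nat_lit 0) (nat_lit 152) (XT.nd (nat_lit 78) (nat_lit 0) (nat_lit 76) (XT.lf (nat_lit 76) (nat_lit 2948208056) (nat_lit 0) (nat_lit 6465746778) (nat_lit 1824) (nat_lit 10549353625) (nat_lit 434) (nat_lit 5) (nat_lit 433) (nat_lit 5) (nat_lit 457) (nat_lit 5) (nat_lit 462) (nat_lit 458) (nat_lit 220)) (XT.nd (nat_lit 78) (nat_lit 0) (nat_lit 0) (XT.lf (nat_lit 0) (nat_lit 9950017110) (nat_lit 1748) (nat_lit 7293232248) (nat_lit 1824) (nat_lit 2918783307) (nat_lit 434) (nat_lit 5) (nat_lit 457) (nat_lit 5) (nat_lit 458) (nat_lit 5) (nat_lit 463) (nat_lit 458) (nat_lit 219)) (XT.lf (nat_lit 76) (nat_lit 2611991955) (nat_lit 0) (nat_lit 7940285802) (nat_lit 1824) (nat_lit 9811345282) (nat_lit 435) (nat_lit 5) (nat_lit 434) (nat_lit 5) (nat_lit 458) (nat_lit 5)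 (nat_lit 464) (nat_lit 458) (nat_lit 218)))) (XT.nd (nat_lit 78) (nat_lit 0) (nat_lit 0) (XT.lf (nat_lit 0) (nat_lit 11221682746) (nat_lit 1748) (nat_lit 7767062686) (nat_lit 1824) (nat_lit 1579399006) (nat_lit 435) (nat_lit 5) (nat_lit 458) (nat_lit 5) (nat_lit 459) (nat_lit 5) (nat_lit 465) (nat_lit 458) (nat_lit 217)) (XT.nd (nat_lit 78) (nat_lit 0) (nat_lit 76) (XT.lf (nat_lit 76) (nat_lit 2393454881) (nat_lit 0) (nat_lit 9575006463) (nat_lit 1824) (nat_lit 8807016389) (nat_lit 436) (nat_lit 5) (nat_lit 435) (nat_lit 5) (nat_lit 459) (nat_lit 5) (nat_lit 466) (nat_lit 458) (nat_lit 216)) (XT.lf (nat_lit 0) (nat_lit 12778752796) (nat_lit 1748) (nat_lit 8126592426) (nat_lit 1824) (nat_lit 80642081) (nat_lit 436) (nat_lit 5) (nat_lit 459) (nat_lit 5) (nat_lit 460) (nat_lit 5) (nat_lit 467) (nat_lit 458) (nat_lit 215))))))) (XT.nd (nat_lit 858) (nat_lit 3800) (nat_lit 0) (XT.nd (nat_lit 390) (nat_lit 1520) (nat_lit 0) (XT.nd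 (nat_lit 156) (nat_lit 0) (nat_lit 76) (XT.nd (nat_lit 78) (nat_lit 0) (nat_lit 0) (XT.lf (nat_lit 76) (nat_lit 2298103450) (nat_lit 0) (nat_lit 11381493449) (nat_lit 1824) (nat_lit 7519624361) (nat_lit 437) (nat_lit 5) (nat_lit 436) (nat_lit 5) (nat_lit 460) (nat_lit 5) (nat_lit 468) (nat_lit 458) (nat_lit 214)) (XT.lf (nat_lit 76) (nat_lit 13038895710) (nat_lit 0) (nat_lit 1610172798) (nat_lit 1824) (nat_lit 6766640287) (nat_lit 437) (nat_lit 5) (nat_lit 436) (nat_lit 5) (nat_lit 460) (nat_lit 5) (nat_lit 469) (nat_lit 458) (nat_lit 213))) (XT.nd (nat_lit 78) (nat_lit 0) (nat_lit 0) (XT.lf (nat_lit 76) (nat_lit 2331709866) (nat_lit 0) (nat_lit 13371777649) (nat_lit 1824) (nat_lit 5931728492) (nat_lit 438) (nat_lit 5) (nat_lit 437) (nat_lit 5) (nat_lit 461) (nat_lit 5) (nat_lit 470) (nat_lit 458) (nat_lit 212)) (XT.nd (nat_lit 78) (nat_lit 0) (nat_lit 76) (XT.lf (nat_lit 76) (nat_lit 13354572890) (nat_lit 0) (nat_lit 3487449142)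 (nat_lit 1824) (nat_lit 5015831857) (nat_lit 438) (nat_lit 5) (nat_lit 437) (nat_lit 5) (nat_lit 461) (nat_lit 5) (nat_lit 471) (nat_lit 458) (nat_lit 211)) (XT.lf (nat_lit 76) (nat_lit 2500316959) (nat_lit 0) (nat_lit 15558363114) (nat_lit 1824) (nat_lit 4025158444) (nat_lit 439) (nat_lit 5) (nat_lit 438) (nat_lit 5) (nat_lit 462) (nat_lit 5) (nat_lit 472) (nat_lit 458) (nat_lit 210))))) (XT.nd (nat_lit 234) (nat_lit 1672) (nat_lit 0) (XT.nd (nat_lit 78) (nat_lit 0) (nat_lit 76) (XT.lf (nat_lit 76) (nat_lit 13813258128) (nat_lit 0) (nat_lit 5562776878) (nat_lit 1824) (nat_lit 2936781582) (nat_lit 439) (nat_lit 5) (nat_lit 438) (nat_lit 5) (nat_lit 462) (nat_lit 5) (nat_lit 473) (nat_lit 458) (nat_lit 209)) (XT.nd (nat_lit 78) (nat_lit 0) (nat_lit 0) (XT.lf (nat_lit 76) (nat_lit 2810243397) (nat_lit 0) (nat_lit 17954254894) (nat_lit 1824) (nat_lit 1780981711) (nat_lit 440) (nat_lit 5) (nat_lit 439) (nat_lit 5) (nat_lit 463)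 (nat_lit 5) (nat_lit 474) (nat_lit 458) (nat_lit 208)) (XT.lf (nat_lit 76) (nat_lit 14421524464) (nat_lit 0) (nat_lit 7849329675) (nat_lit 1824) (nat_lit 510141065) (nat_lit 440) (nat_lit 5) (nat_lit 439) (nat_lit 5) (nat_lit 463) (nat_lit 5) (nat_lit 475) (nat_lit 458) (nat_lit 207)))) (XT.nd (nat_lit 78) (nat_lit 0) (nat_lit 0) (XT.lf (nat_lit 0) (nat_lit 809768594) (nat_lit 1824) (nat_lit 19757785266) (nat_lit 1900) (nat_lit 2452886471) (nat_lit 416) (nat_lit 5) (nat_lit 440) (nat_lit 5) (nat_lit 441) (nat_lit 5) (nat_lit 476) (nat_lit 458) (nat_lit 206)) (XT.nd (nat_lit 78) (nat_lit 0) (nat_lit 76) (XT.lf (nat_lit 0) (nat_lit 2254293573) (nat_lit 1824) (nat_lit 8091401401) (nat_lit 1900) (nat_lit 12916811917) (nat_lit 416) (nat_lit 5) (nat_lit 440) (nat_lit 5) (nat_lit 441) (nat_lit 5) (nat_lit 477) (nat_lit 458) (nat_lit 205)) (XT.lf (nat_lit 0) (nat_lit 3750098627) (nat_lit 1824) (nat_lit 19653392610) (nat_lit 1900) (nat_lit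 105476663) (nat_lit 417) (nat_lit 5) (nat_lit 441) (nat_lit 5) (nat_lit 442) (nat_lit 5) (nat_lit 478) (nat_lit 458) (nat_lit 204)))))) (XT.nd (nat_lit 468) (nat_lit 2736) (nat_lit 0) (XT.nd (nat_lit 234) (nat_lit 1140) (nat_lit 0) (XT.nd (nat_lit 78) (nat_lit 0) (nat_lit 0) (XT.lf (nat_lit 0) (nat_lit 5395702903) (nat_lit 1824) (nat_lit 7679630827) (nat_lit 1900) (nat_lit 10682627631) (nat_lit 417) (nat_lit 5) (nat_lit 441) (nat_lit 5) (nat_lit 442) (nat_lit 5) (nat_lit 479) (nat_lit 458) (nat_lit 203)) (XT.nd (nat_lit 78) (nat_lit 0) (nat_lit 76) (XT.lf (nat_lit 76) (nat_lit 4591215796) (nat_lit 0) (nat_lit 2509588602) (nat_lit 1900) (nat_lit 16910599465) (nat_lit 418) (nat_lit 5) (nat_lit 417) (nat_lit 5) (nat_lit 442) (nat_lit 5) (nat_lit 480) (nat_lit 458) (nat_lit 202)) (XT.lf (nat_lit 0) (nat_lit 8942387645) (nat_lit 1824) (nat_lit 7113981074) (nat_lit 1900) (nat_lit 8211499760) (nat_lit 418) (nat_lit 5) (nat_lit 442)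 (nat_lit 5) (nat_lit 443) (nat_lit 5) (nat_lit 481) (nat_lit 458) (nat_lit 201)))) (XT.nd (nat_lit 78) (nat_lit 1216) (nat_lit 0) (XT.lf (nat_lit 76) (nat_lit 5491143565) (nat_lit 0) (nat_lit 5378819324) (nat_lit 1900) (nat_lit 13658517133) (nat_lit 419) (nat_lit 5) (nat_lit 418) (nat_lit 5) (nat_lit 443) (nat_lit 5) (nat_lit 482) (nat_lit 458) (nat_lit 200)) (XT.nd (nat_lit 78) (nat_lit 1292) (nat_lit 0) (XT.lf (nat_lit 0) (nat_lit 12916869457) (nat_lit 1824) (nat_lit 6387304174) (nat_lit 76) (nat_lit 5488515392) (nat_lit 419) (nat_lit 5) (nat_lit 443) (nat_lit 5) (nat_lit 420) (nat_lit 5) (nat_lit 483) (nat_lit 458) (nat_lit 199)) (XT.lf (nat_lit 0) (nat_lit 6563589902) (nat_lit 1292) (nat_lit 8516356566) (nat_lit 1368) (nat_lit 9980731899) (nat_lit 402) (nat_lit 5) (nat_lit 419) (nat_lit 5) (nat_lit 420) (nat_lit 5) (nat_lit 484) (nat_lit 458) (nat_lit 198))))) (XT.nd (nat_lit 234) (nat_lit 1824) (nat_lit 0) (XT.nd (nat_lit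 78) (nat_lit 912) (nat_lit 0) (XT.lf (nat_lit 0) (nat_lit 17342620117) (nat_lit 1368) (nat_lit 5492164904) (nat_lit 76) (nat_lit 2498116567) (nat_lit 402) (nat_lit 5) (nat_lit 420) (nat_lit 5) (nat_lit 403) (nat_lit 5) (nat_lit 485) (nat_lit 458) (nat_lit 197)) (XT.nd (nat_lit 78) (nat_lit 0) (nat_lit 0) (XT.lf (nat_lit 0) (nat_lit 7816376896) (nat_lit 912) (nat_lit 11938417597) (nat_lit 988) (nat_lit 5853690613) (nat_lit 390) (nat_lit 5) (nat_lit 402) (nat_lit 5) (nat_lit 403) (nat_lit 5) (nat_lit 486) (nat_lit 458) (nat_lit 196)) (XT.lf (nat_lit 0) (nat_lit 21462960630) (nat_lit 912) (nat_lit 786245647) (nat_lit 988) (nat_lit 3639694901) (nat_lit 390) (nat_lit 5) (nat_lit 402) (nat_lit 5) (nat_lit 403) (nat_lit 5) (nat_lit 487) (nat_lit 458) (nat_lit 195)))) (XT.nd (nat_lit 78) (nat_lit 988) (nat_lit 0) (XT.lf (nat_lit 0) (nat_lit 9257630554) (nat_lit 836) (nat_lit 15661929556) (nat_lit 912) (nat_lit 1252845131) (nat_lit 379)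 (nat_lit 5) (nat_lit 390) (nat_lit 5) (nat_lit 391) (nat_lit 5) (nat_lit 488) (nat_lit 458) (nat_lit 194)) (XT.nd (nat_lit 78) (nat_lit 912) (nat_lit 0) (XT.lf (nat_lit 0) (nat_lit 1198562670) (nat_lit 912) (nat_lit 3201799278) (nat_lit 76) (nat_lit 22060418307) (nat_lit 378) (nat_lit 5) (nat_lit 390) (nat_lit 5) (nat_lit 379) (nat_lit 5) (nat_lit 489) (nat_lit 458) (nat_lit 193)) (XT.lf (nat_lit 0) (nat_lit 3796929887) (nat_lit 988) (nat_lit 15882156998) (nat_lit 76) (nat_lit 7073376825) (nat_lit 366) (nat_lit 5) (nat_lit 379) (nat_lit 5) (nat_lit 367) (nat_lit 5) (nat_lit 490) (nat_lit 458) (nat_lit 192))))))))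
noncomputable def xc243 : XT := (XT.nd (nat_lit 57798) (nat_lit 0) (nat_lit 3192) (XT.nd (nat_lit 56940) (nat_lit 0) (nat_lit 9044) (XT.nd (nat_lit 390) (nat_lit 1596) (nat_lit 0) (XT.nd (nat_lit 156) (nat_lit 1596) (nat_lit 0) (XT.nd (nat_lit 78) (nat_lit 836) (nat_lit 0) (XT.lf (nat_lit 0) (nat_lit 6495342396) (nat_lit 988) (nat_lit 1814171978) (nat_lit 76) (nat_lit 18739505591) (nat_lit 366) (nat_lit 5) (nat_lit 379) (nat_lit 5) (nat_lit 367) (nat_lit 5) (nat_lit 491) (nat_lit 458) (nat_lit 191)) (XT.lf (nat_lit 0) (nat_lit 9349426842) (nat_lit 912) (nat_lit 14672620239) (nat_lit 76) (nat_lit 3327426867) (nat_lit 355) (nat_lit 5) (nat_lit 367) (nat_lit 5) (nat_lit 356) (nat_lit 5) (nat_lit 492) (nat_lit 458) (nat_lit 190))) (XT.nd (nat_lit 78) (nat_lit 1596) (nat_lit 0) (XT.lf (nat_lit 0) (nat_lit 12325274599) (nat_lit 912) (nat_lit 231091379) (nat_lit 76) (nat_lit 15098278063) (nat_lit 355) (nat_lit 5) (nat_lit 367) (nat_lit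 5) (nat_lit 356) (nat_lit 5) (nat_lit 493) (nat_lit 458) (nat_lit 189)) (XT.nd (nat_lit 78) (nat_lit 760) (nat_lit 0) (XT.lf (nat_lit 0) (nat_lit 14689393844) (nat_lit 836) (nat_lit 764066848) (nat_lit 912) (nat_lit 12510601067) (nat_lit 344) (nat_lit 5) (nat_lit 355) (nat_lit 5) (nat_lit 356) (nat_lit 5) (nat_lit 494) (nat_lit 458) (nat_lit 188)) (XT.lf (nat_lit 0) (nat_lit 1576757109) (nat_lit 760) (nat_lit 17149867498) (nat_lit 836) (nat_lit 9551395580) (nat_lit 334) (nat_lit 5) (nat_lit 344) (nat_lit 5) (nat_lit 345) (nat_lit 5) (nat_lit 495) (nat_lit 458) (nat_lit 187))))) (XT.nd (nat_lit 234) (nat_lit 760) (nat_lit 0) (XT.nd (nat_lit 78) (nat_lit 836) (nat_lit 0) (XT.lf (nat_lit 0) (nat_lit 16897479155) (nat_lit 760) (nat_lit 5259394120) (nat_lit 836) (nat_lit 6439552703) (nat_lit 334) (nat_lit 5) (nat_lit 344) (nat_lit 5) (nat_lit 345) (nat_lit 5) (nat_lit 496) (nat_lit 458) (nat_lit 186)) (XT.nd (nat_lit 78) (nat_lit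 76) (nat_lit 0) (XT.lf (nat_lit 0) (nat_lit 3603534530) (nat_lit 760) (nat_lit 22117749363) (nat_lit 836) (nat_lit 3198605467) (nat_lit 324) (nat_lit 5) (nat_lit 334) (nat_lit 5) (nat_lit 335) (nat_lit 5) (nat_lit 497) (nat_lit 458) (nat_lit 185)) (XT.lf (nat_lit 0) (nat_lit 217189607) (nat_lit 836) (nat_lit 9916211045) (nat_lit 76) (nat_lit 19114179344) (nat_lit 323) (nat_lit 5) (nat_lit 334) (nat_lit 5) (nat_lit 324) (nat_lit 5) (nat_lit 498) (nat_lit 458) (nat_lit 184)))) (XT.nd (nat_lit 78) (nat_lit 0) (nat_lit 0) (XT.lf (nat_lit 0) (nat_lit 3708050154) (nat_lit 836) (nat_lit 23749755354) (nat_lit 76) (nat_lit 2122605080) (nat_lit 313) (nat_lit 5) (nat_lit 324) (nat_lit 5) (nat_lit 314) (nat_lit 5) (nat_lit 499) (nat_lit 458) (nat_lit 183)) (XT.nd (nat_lit 56160) (nat_lit 0) (nat_lit 9044) (XT.lf (nat_lit 0) (nat_lit 7400474992) (nat_lit 836) (nat_lit 7961781166) (nat_lit 76) (nat_lit 14555007258) (nat_lit 313) (nat_lit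 5) (nat_lit 324) (nat_lit 5) (nat_lit 314) (nat_lit 5) (nat_lit 500) (nat_lit 458) (nat_lit 182)) (XT.lf (nat_lit 0) (nat_lit 2104357384) (nat_lit 0) (nat_lit 2104357384) (nat_lit 1748) (nat_lit 5577645760) (nat_lit 432) (nat_lit 5) (nat_lit 432) (nat_lit 3) (nat_lit 455) (nat_lit 3) (nat_lit 459) (nat_lit 459) (nat_lit 222)))))) (XT.nd (nat_lit 390) (nat_lit 0) (nat_lit 152) (XT.nd (nat_lit 156) (nat_lit 0) (nat_lit 76) (XT.nd (nat_lit 78) (nat_lit 0) (nat_lit 0) (XT.lf (nat_lit 0) (nat_lit 8706083720) (nat_lit 1748) (nat_lit 5962314944) (nat_lit 1824) (nat_lit 5095911402) (nat_lit 432) (nat_lit 5) (nat_lit 455) (nat_lit 3) (nat_lit 456) (nat_lit 5) (nat_lit 460) (nat_lit 459) (nat_lit 221)) (XT.lf (nat_lit 76) (nat_lit 3644995100) (nat_lit 0) (nat_lit 5402584264) (nat_lit 1824) (nat_lit 10911211399) (nat_lit 433) (nat_lit 5) (nat_lit 432) (nat_lit 5) (nat_lit 456) (nat_lit 5) (nat_lit 461) (nat_lit 459) (nat_lit 220))) (XT.nd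 (nat_lit 78) (nat_lit 0) (nat_lit 0) (XT.lf (nat_lit 0) (nat_lit 9458082283) (nat_lit 1748) (nat_lit 6660074357) (nat_lit 1824) (nat_lit 4037762136) (nat_lit 433) (nat_lit 5) (nat_lit 456) (nat_lit 5) (nat_lit 457) (nat_lit 5) (nat_lit 462) (nat_lit 459) (nat_lit 219)) (XT.nd (nat_lit 78) (nat_lit 0) (nat_lit 76) (XT.lf (nat_lit 76) (nat_lit 3190398293) (nat_lit 0) (nat_lit 6738592081) (nat_lit 1824) (nat_lit 10426956299) (nat_lit 434) (nat_lit 5) (nat_lit 433) (nat_lit 5) (nat_lit 457) (nat_lit 5) (nat_lit 463) (nat_lit 459) (nat_lit 218)) (XT.lf (nat_lit 0) (nat_lit 10468453285) (nat_lit 1748) (nat_lit 7252051868) (nat_lit 1824) (nat_lit 2838288442) (nat_lit 434) (nat_lit 5) (nat_lit 457) (nat_lit 5) (nat_lit 458) (nat_lit 5) (nat_lit 464) (nat_lit 459) (nat_lit 217))))) (XT.nd (nat_lit 234) (nat_lit 0) (nat_lit 76) (XT.nd (nat_lit 78) (nat_lit 0) (nat_lit 76) (XT.lf (nat_lit 76) (nat_lit 2850046259) (nat_lit 0) (nat_lit 8227655869)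 (nat_lit 1824) (nat_lit 9686816573) (nat_lit 435) (nat_lit 5) (nat_lit 434) (nat_lit 5) (nat_lit 458) (nat_lit 5) (nat_lit 465) (nat_lit 459) (nat_lit 216)) (XT.nd (nat_lit 78) (nat_lit 0) (nat_lit 0) (XT.lf (nat_lit 0) (nat_lit 11753512569) (nat_lit 1748) (nat_lit 7733162775) (nat_lit 1824) (nat_lit 1486596588) (nat_lit 435) (nat_lit 5) (nat_lit 458) (nat_lit 5) (nat_lit 459) (nat_lit 5) (nat_lit 466) (nat_lit 459) (nat_lit 215)) (XT.lf (nat_lit 76) (nat_lit 2629320136) (nat_lit 0) (nat_lit 9881099823) (nat_lit 1824) (nat_lit 8674429785) (nat_lit 436) (nat_lit 5) (nat_lit 435) (nat_lit 5) (nat_lit 459) (nat_lit 5) (nat_lit 467) (nat_lit 459) (nat_lit 214)))) (XT.nd (nat_lit 78) (nat_lit 0) (nat_lit 76) (XT.lf (nat_lit 76) (nat_lit 13301444707) (nat_lit 0) (nat_lit 28998256) (nat_lit 1824) (nat_lit 8069257709) (nat_lit 436) (nat_lit 5) (nat_lit 435) (nat_lit 5) (nat_lit 459) (nat_lit 5) (nat_lit 468) (nat_lit 459) (nat_lit 213))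 (XT.nd (nat_lit 78) (nat_lit 0) (nat_lit 0) (XT.lf (nat_lit 76) (nat_lit 2533865153) (nat_lit 0) (nat_lit 11710680338) (nat_lit 1824) (nat_lit 7372750635) (nat_lit 437) (nat_lit 5) (nat_lit 436) (nat_lit 5) (nat_lit 460) (nat_lit 5) (nat_lit 469) (nat_lit 459) (nat_lit 212)) (XT.lf (nat_lit 76) (nat_lit 13485751697) (nat_lit 0) (nat_lit 1741941959) (nat_lit 1824) (nat_lit 6610535628) (nat_lit 437) (nat_lit 5) (nat_lit 436) (nat_lit 5) (nat_lit 460) (nat_lit 5) (nat_lit 470) (nat_lit 459) (nat_lit 211))))))) (XT.nd (nat_lit 858) (nat_lit 4636) (nat_lit 0) (XT.nd (nat_lit 390) (nat_lit 1596) (nat_lit 0) (XT.nd (nat_lit 156) (nat_lit 0) (nat_lit 76) (XT.nd (nat_lit 78) (nat_lit 0) (nat_lit 0) (XT.lf (nat_lit 76) (nat_lit 2569595702) (nat_lit 0) (nat_lit 13728612445) (nat_lit 1824) (nat_lit 5764019937) (nat_lit 438) (nat_lit 5) (nat_lit 437) (nat_lit 5) (nat_lit 461) (nat_lit 5) (nat_lit 471) (nat_lit 459) (nat_lit 210)) (XT.lf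 (nat_lit 76) (nat_lit 13809165954) (nat_lit 0) (nat_lit 3644844441) (nat_lit 1824) (nat_lit 4835419940) (nat_lit 438) (nat_lit 5) (nat_lit 437) (nat_lit 5) (nat_lit 461) (nat_lit 5) (nat_lit 472) (nat_lit 459) (nat_lit 209))) (XT.nd (nat_lit 78) (nat_lit 0) (nat_lit 0) (XT.lf (nat_lit 76) (nat_lit 2742700572) (nat_lit 0) (nat_lit 15947597108) (nat_lit 1824) (nat_lit 3829732577) (nat_lit 439) (nat_lit 5) (nat_lit 438) (nat_lit 5) (nat_lit 462) (nat_lit 5) (nat_lit 473) (nat_lit 459) (nat_lit 208)) (XT.nd (nat_lit 78) (nat_lit 0) (nat_lit 76) (XT.lf (nat_lit 76) (nat_lit 14278128461) (nat_lit 0) (nat_lit 5750568428) (nat_lit 1824) (nat_lit 2724998551) (nat_lit 439) (nat_lit 5) (nat_lit 438) (nat_lit 5) (nat_lit 462) (nat_lit 5) (nat_lit 474) (nat_lit 459) (nat_lit 207)) (XT.lf (nat_lit 76) (nat_lit 3059648368) (nat_lit 0) (nat_lit 18380849429) (nat_lit 1824) (nat_lit 1550604422) (nat_lit 440) (nat_lit 5) (nat_lit 439) (nat_lit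 5) (nat_lit 463) (nat_lit 5) (nat_lit 475) (nat_lit 459) (nat_lit 206))))) (XT.nd (nat_lit 234) (nat_lit 0) (nat_lit 76) (XT.nd (nat_lit 78) (nat_lit 1748) (nat_lit 0) (XT.lf (nat_lit 76) (nat_lit 14899366818) (nat_lit 0) (nat_lit 8072501991) (nat_lit 1824) (nat_lit 259562589) (nat_lit 440) (nat_lit 5) (nat_lit 439) (nat_lit 5) (nat_lit 463) (nat_lit 5) (nat_lit 476) (nat_lit 459) (nat_lit 205)) (XT.nd (nat_lit 78) (nat_lit 0) (nat_lit 0) (XT.lf (nat_lit 0) (nat_lit 1079120922) (nat_lit 1824) (nat_lit 19955765442) (nat_lit 1900) (nat_lit 2440830664) (nat_lit 416) (nat_lit 5) (nat_lit 440) (nat_lit 5) (nat_lit 441) (nat_lit 5) (nat_lit 477) (nat_lit 459) (nat_lit 204)) (XT.lf (nat_lit 0) (nat_lit 2547572538) (nat_lit 1824) (nat_lit 8059920087) (nat_lit 1900) (nat_lit 13115232923) (nat_lit 416) (nat_lit 5) (nat_lit 440) (nat_lit 5) (nat_lit 441) (nat_lit 5) (nat_lit 478) (nat_lit 459) (nat_lit 203)))) (XT.nd (nat_lit 78) (nat_lit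 0) (nat_lit 0) (XT.lf (nat_lit 0) (nat_lit 4069332900) (nat_lit 1824) (nat_lit 19849124034) (nat_lit 1900) (nat_lit 55739385) (nat_lit 417) (nat_lit 5) (nat_lit 441) (nat_lit 5) (nat_lit 442) (nat_lit 5) (nat_lit 479) (nat_lit 459) (nat_lit 202)) (XT.nd (nat_lit 78) (nat_lit 0) (nat_lit 0) (XT.lf (nat_lit 0) (nat_lit 5743060393) (nat_lit 1824) (nat_lit 7639756357) (nat_lit 1900) (nat_lit 10845449977) (nat_lit 417) (nat_lit 5) (nat_lit 441) (nat_lit 5) (nat_lit 442) (nat_lit 5) (nat_lit 480) (nat_lit 459) (nat_lit 201)) (XT.lf (nat_lit 76) (nat_lit 4875234388) (nat_lit 0) (nat_lit 2603582413) (nat_lit 1900) (nat_lit 17008031494) (nat_lit 418) (nat_lit 5) (nat_lit 417) (nat_lit 5) (nat_lit 442) (nat_lit 5) (nat_lit 481) (nat_lit 459) (nat_lit 200)))))) (XT.nd (nat_lit 468) (nat_lit 2660) (nat_lit 0) (XT.nd (nat_lit 234) (nat_lit 2128) (nat_lit 0) (XT.nd (nat_lit 78) (nat_lit 0) (nat_lit 0) (XT.lf (nat_lit 0) (nat_lit 9352325519)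 (nat_lit 1824) (nat_lit 7062866270) (nat_lit 1900) (nat_lit 8333349787) (nat_lit 418) (nat_lit 5) (nat_lit 442) (nat_lit 5) (nat_lit 443) (nat_lit 5) (nat_lit 482) (nat_lit 459) (nat_lit 199)) (XT.nd (nat_lit 78) (nat_lit 0) (nat_lit 76) (XT.lf (nat_lit 76) (nat_lit 5793088529) (nat_lit 0) (nat_lit 5522079943) (nat_lit 1900) (nat_lit 13699263779) (nat_lit 419) (nat_lit 5) (nat_lit 418) (nat_lit 5) (nat_lit 443) (nat_lit 5) (nat_lit 483) (nat_lit 459) (nat_lit 198)) (XT.lf (nat_lit 0) (nat_lit 13398319239) (nat_lit 1824) (nat_lit 6321941287) (nat_lit 76) (nat_lit 5563759987) (nat_lit 419) (nat_lit 5) (nat_lit 443) (nat_lit 5) (nat_lit 420) (nat_lit 5) (nat_lit 484) (nat_lit 459) (nat_lit 197)))) (XT.nd (nat_lit 78) (nat_lit 912) (nat_lit 0) (XT.lf (nat_lit 0) (nat_lit 6886700217) (nat_lit 1292) (nat_lit 8714828363) (nat_lit 1368) (nat_lit 9955904824) (nat_lit 402) (nat_lit 5) (nat_lit 419) (nat_lit 5) (nat_lit 420) (nat_lit 5)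 (nat_lit 485) (nat_lit 459) (nat_lit 196)) (XT.nd (nat_lit 78) (nat_lit 912) (nat_lit 0) (XT.lf (nat_lit 0) (nat_lit 17904963155) (nat_lit 1368) (nat_lit 5409380966) (nat_lit 76) (nat_lit 2520847973) (nat_lit 402) (nat_lit 5) (nat_lit 420) (nat_lit 5) (nat_lit 403) (nat_lit 5) (nat_lit 486) (nat_lit 459) (nat_lit 195)) (XT.lf (nat_lit 0) (nat_lit 8164064385) (nat_lit 912) (nat_lit 12198333762) (nat_lit 988) (nat_lit 5753949925) (nat_lit 390) (nat_lit 5) (nat_lit 402) (nat_lit 5) (nat_lit 403) (nat_lit 5) (nat_lit 487) (nat_lit 459) (nat_lit 194))))) (XT.nd (nat_lit 234) (nat_lit 1748) (nat_lit 0) (XT.nd (nat_lit 78) (nat_lit 912) (nat_lit 0) (XT.lf (nat_lit 0) (nat_lit 22079827638) (nat_lit 912) (nat_lit 822703710) (nat_lit 988) (nat_lit 3499925563) (nat_lit 390) (nat_lit 5) (nat_lit 402) (nat_lit 5) (nat_lit 403) (nat_lit 5) (nat_lit 488) (nat_lit 459) (nat_lit 193)) (XT.nd (nat_lit 78) (nat_lit 76) (nat_lit 0) (XT.lf (nat_lit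 0) (nat_lit 9633484938) (nat_lit 836) (nat_lit 15989828392) (nat_lit 912) (nat_lit 1068378392) (nat_lit 379) (nat_lit 5) (nat_lit 390) (nat_lit 5) (nat_lit 391) (nat_lit 5) (nat_lit 489) (nat_lit 459) (nat_lit 192)) (XT.lf (nat_lit 0) (nat_lit 1425255200) (nat_lit 912) (nat_lit 3076126410) (nat_lit 76) (nat_lit 22484507554) (nat_lit 378) (nat_lit 5) (nat_lit 390) (nat_lit 5) (nat_lit 379) (nat_lit 5) (nat_lit 490) (nat_lit 459) (nat_lit 191)))) (XT.nd (nat_lit 78) (nat_lit 836) (nat_lit 0) (XT.lf (nat_lit 0) (nat_lit 4072763721) (nat_lit 988) (nat_lit 16007213998) (nat_lit 76) (nat_lit 7203486114) (nat_lit 366) (nat_lit 5) (nat_lit 379) (nat_lit 5) (nat_lit 367) (nat_lit 5) (nat_lit 491) (nat_lit 459) (nat_lit 190)) (XT.nd (nat_lit 78) (nat_lit 836) (nat_lit 0) (XT.lf (nat_lit 0) (nat_lit 6821224965) (nat_lit 988) (nat_lit 1661645477) (nat_lit 76) (nat_lit 19103160166) (nat_lit 366) (nat_lit 5) (nat_lit 379) (nat_lit 5) (nat_lit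 367) (nat_lit 5) (nat_lit 492) (nat_lit 459) (nat_lit 189)) (XT.lf (nat_lit 0) (nat_lit 9729728706) (nat_lit 912) (nat_lit 14774551051) (nat_lit 76) (nat_lit 3388268147) (nat_lit 355) (nat_lit 5) (nat_lit 367) (nat_lit 5) (nat_lit 356) (nat_lit 5) (nat_lit 493) (nat_lit 459) (nat_lit 188))))))))
noncomputable def xc244 : XT := (XT.nd (nat_lit 57954) (nat_lit 0) (nat_lit 836) (XT.nd (nat_lit 57096) (nat_lit 0) (nat_lit 8436) (XT.nd (nat_lit 390) (nat_lit 76) (nat_lit 0) (XT.nd (nat_lit 156) (nat_lit 1520) (nat_lit 0) (XT.nd (nat_lit 78) (nat_lit 836) (nat_lit 0) (XT.lf (nat_lit 0) (nat_lit 12761302961) (nat_lit 912) (nat_lit 47946940) (nat_lit 76) (nat_lit 15394648273) (nat_lit 355) (nat_lit 5) (nat_lit 367) (nat_lit 5) (nat_lit 356) (nat_lit 5) (nat_lit 494) (nat_lit 459) (nat_lit 187)) (XT.lf (nat_lit 0) (nat_lit 15169712683) (nat_lit 836) (nat_lit 779835040) (nat_lit 912) (nat_lit 12570007571) (nat_lit 344) (nat_lit 5) (nat_lit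 355) (nat_lit 5) (nat_lit 356) (nat_lit 5) (nat_lit 495) (nat_lit 459) (nat_lit 186))) (XT.nd (nat_lit 78) (nat_lit 760) (nat_lit 0) (XT.lf (nat_lit 0) (nat_lit 1797361958) (nat_lit 760) (nat_lit 17488370410) (nat_lit 836) (nat_lit 9554110302) (nat_lit 334) (nat_lit 5) (nat_lit 344) (nat_lit 5) (nat_lit 345) (nat_lit 5) (nat_lit 496) (nat_lit 459) (nat_lit 185)) (XT.nd (nat_lit 78) (nat_lit 760) (nat_lit 0) (XT.lf (nat_lit 0) (nat_lit 17420791196) (nat_lit 760) (nat_lit 5360175691) (nat_lit 836) (nat_lit 6383722983) (nat_lit 334) (nat_lit 5) (nat_lit 344) (nat_lit 5) (nat_lit 345) (nat_lit 5) (nat_lit 497) (nat_lit 459) (nat_lit 184)) (XT.lf (nat_lit 0) (nat_lit 3863360287) (nat_lit 760) (nat_lit 22551004348) (nat_lit 836) (nat_lit 3080304797) (nat_lit 324) (nat_lit 5) (nat_lit 334) (nat_lit 5) (nat_lit 335) (nat_lit 5) (nat_lit 498) (nat_lit 459) (nat_lit 183))))) (XT.nd (nat_lit 56472) (nat_lit 0) (nat_lit 8284) (XT.nd (nat_lit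 56316) (nat_lit 0) (nat_lit 8284) (XT.lf (nat_lit 0) (nat_lit 397888535) (nat_lit 836) (nat_lit 9928075123) (nat_lit 76) (nat_lit 19502997954) (nat_lit 323) (nat_lit 5) (nat_lit 334) (nat_lit 5) (nat_lit 324) (nat_lit 5) (nat_lit 499) (nat_lit 459) (nat_lit 182)) (XT.nd (nat_lit 78) (nat_lit 0) (nat_lit 0) (XT.lf (nat_lit 0) (nat_lit 2231366635) (nat_lit 0) (nat_lit 2231366635) (nat_lit 1748) (nat_lit 5515909296) (nat_lit 432) (nat_lit 5) (nat_lit 432) (nat_lit 3) (nat_lit 455) (nat_lit 3) (nat_lit 460) (nat_lit 460) (nat_lit 220)) (XT.lf (nat_lit 0) (nat_lit 9212152133) (nat_lit 1748) (nat_lit 5907210956) (nat_lit 1824) (nat_lit 5033499562) (nat_lit 432) (nat_lit 5) (nat_lit 455) (nat_lit 3) (nat_lit 456) (nat_lit 5) (nat_lit 461) (nat_lit 460) (nat_lit 219)))) (XT.nd (nat_lit 78) (nat_lit 0) (nat_lit 76) (XT.lf (nat_lit 76) (nat_lit 3891098248) (nat_lit 0) (nat_lit 5663995232) (nat_lit 1824) (nat_lit 10796249022) (nat_lit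 433) (nat_lit 5) (nat_lit 432) (nat_lit 5) (nat_lit 456) (nat_lit 5) (nat_lit 462) (nat_lit 460) (nat_lit 218)) (XT.nd (nat_lit 78) (nat_lit 0) (nat_lit 0) (XT.lf (nat_lit 0) (nat_lit 9966427085) (nat_lit 1748) (nat_lit 6615998362) (nat_lit 1824) (nat_lit 3970137037) (nat_lit 433) (nat_lit 5) (nat_lit 456) (nat_lit 5) (nat_lit 457) (nat_lit 5) (nat_lit 463) (nat_lit 460) (nat_lit 217)) (XT.lf (nat_lit 76) (nat_lit 3430317443) (nat_lit 0) (nat_lit 7011320832) (nat_lit 1824) (nat_lit 10315056748) (nat_lit 434) (nat_lit 5) (nat_lit 433) (nat_lit 5) (nat_lit 457) (nat_lit 5) (nat_lit 464) (nat_lit 460) (nat_lit 216)))))) (XT.nd (nat_lit 390) (nat_lit 0) (nat_lit 152) (XT.nd (nat_lit 156) (nat_lit 0) (nat_lit 76) (XT.nd (nat_lit 78) (nat_lit 0) (nat_lit 0) (XT.lf (nat_lit 0) (nat_lit 10984854101) (nat_lit 1748) (nat_lit 7217311067) (nat_lit 1824) (nat_lit 2761576192) (nat_lit 434) (nat_lit 5) (nat_lit 457) (nat_lit 5) (nat_lit 458)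 (nat_lit 5) (nat_lit 465) (nat_lit 460) (nat_lit 215)) (XT.lf (nat_lit 76) (nat_lit 3085646247) (nat_lit 0) (nat_lit 8515781027) (nat_lit 1824) (nat_lit 9572252622) (nat_lit 435) (nat_lit 5) (nat_lit 434) (nat_lit 5) (nat_lit 458) (nat_lit 5) (nat_lit 466) (nat_lit 460) (nat_lit 214))) (XT.nd (nat_lit 78) (nat_lit 0) (nat_lit 0) (XT.lf (nat_lit 0) (nat_lit 12284042420) (nat_lit 1748) (nat_lit 7705933331) (nat_lit 1824) (nat_lit 1396768352) (nat_lit 435) (nat_lit 5) (nat_lit 458) (nat_lit 5) (nat_lit 459) (nat_lit 5) (nat_lit 467) (nat_lit 460) (nat_lit 213)) (XT.nd (nat_lit 78) (nat_lit 0) (nat_lit 0) (XT.lf (nat_lit 76) (nat_lit 2862602576) (nat_lit 0) (nat_lit 10188865255) (nat_lit 1824) (nat_lit 8551179691) (nat_lit 436) (nat_lit 5) (nat_lit 435) (nat_lit 5) (nat_lit 459) (nat_lit 5) (nat_lit 468) (nat_lit 460) (nat_lit 212)) (XT.lf (nat_lit 76) (nat_lit 13744626579) (nat_lit 0) (nat_lit 137561981) (nat_lit 1824) (nat_lit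 7939722580) (nat_lit 436) (nat_lit 5) (nat_lit 435) (nat_lit 5) (nat_lit 459) (nat_lit 5) (nat_lit 469) (nat_lit 460) (nat_lit 211))))) (XT.nd (nat_lit 234) (nat_lit 0) (nat_lit 76) (XT.nd (nat_lit 78) (nat_lit 0) (nat_lit 0) (XT.lf (nat_lit 76) (nat_lit 2766971940) (nat_lit 0) (nat_lit 12042507381) (nat_lit 1824) (nat_lit 7234482643) (nat_lit 437) (nat_lit 5) (nat_lit 436) (nat_lit 5) (nat_lit 460) (nat_lit 5) (nat_lit 470) (nat_lit 460) (nat_lit 210)) (XT.nd (nat_lit 78) (nat_lit 0) (nat_lit 76) (XT.lf (nat_lit 76) (nat_lit 13934319165) (nat_lit 0) (nat_lit 1872480246) (nat_lit 1824) (nat_lit 6462625748) (nat_lit 437) (nat_lit 5) (nat_lit 436) (nat_lit 5) (nat_lit 460) (nat_lit 5) (nat_lit 471) (nat_lit 460) (nat_lit 209)) (XT.lf (nat_lit 76) (nat_lit 2804812720) (nat_lit 0) (nat_lit 14089112455) (nat_lit 1824) (nat_lit 5604076263) (nat_lit 438) (nat_lit 5) (nat_lit 437) (nat_lit 5) (nat_lit 461) (nat_lit 5) (nat_lit 472)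 (nat_lit 460) (nat_lit 208)))) (XT.nd (nat_lit 78) (nat_lit 0) (nat_lit 76) (XT.lf (nat_lit 76) (nat_lit 14265569964) (nat_lit 0) (nat_lit 3801984233) (nat_lit 1824) (nat_lit 4662300817) (nat_lit 438) (nat_lit 5) (nat_lit 437) (nat_lit 5) (nat_lit 461) (nat_lit 5) (nat_lit 473) (nat_lit 460) (nat_lit 207)) (XT.nd (nat_lit 78) (nat_lit 0) (nat_lit 0) (XT.lf (nat_lit 76) (nat_lit 2982461614) (nat_lit 0) (nat_lit 16341584356) (nat_lit 1824) (nat_lit 3641112854) (nat_lit 439) (nat_lit 5) (nat_lit 438) (nat_lit 5) (nat_lit 462) (nat_lit 5) (nat_lit 474) (nat_lit 460) (nat_lit 206)) (XT.lf (nat_lit 76) (nat_lit 14744972432) (nat_lit 0) (nat_lit 5939143822) (nat_lit 1824) (nat_lit 2519484429) (nat_lit 439) (nat_lit 5) (nat_lit 438) (nat_lit 5) (nat_lit 462) (nat_lit 5) (nat_lit 475) (nat_lit 460) (nat_lit 205))))))) (XT.nd (nat_lit 858) (nat_lit 5168) (nat_lit 0) (XT.nd (nat_lit 390) (nat_lit 1064) (nat_lit 0) (XT.nd (nat_lit 156)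 (nat_lit 1748) (nat_lit 0) (XT.nd (nat_lit 78) (nat_lit 0) (nat_lit 0) (XT.lf (nat_lit 76) (nat_lit 3306539242) (nat_lit 0) (nat_lit 18813354382) (nat_lit 1824) (nat_lit 1325948572) (nat_lit 440) (nat_lit 5) (nat_lit 439) (nat_lit 5) (nat_lit 463) (nat_lit 5) (nat_lit 476) (nat_lit 460) (nat_lit 204)) (XT.lf (nat_lit 76) (nat_lit 15379410926) (nat_lit 0) (nat_lit 8297567682) (nat_lit 1824) (nat_lit 14098999) (nat_lit 440) (nat_lit 5) (nat_lit 439) (nat_lit 5) (nat_lit 463) (nat_lit 5) (nat_lit 477) (nat_lit 460) (nat_lit 203))) (XT.nd (nat_lit 78) (nat_lit 0) (nat_lit 0) (XT.lf (nat_lit 0) (nat_lit 1344029903) (nat_lit 1824) (nat_lit 20165361788) (nat_lit 1900) (nat_lit 2430906853) (nat_lit 416) (nat_lit 5) (nat_lit 440) (nat_lit 5) (nat_lit 441) (nat_lit 5) (nat_lit 478) (nat_lit 460) (nat_lit 202)) (XT.nd (nat_lit 78) (nat_lit 0) (nat_lit 76) (XT.lf (nat_lit 0) (nat_lit 2837079442) (nat_lit 1824) (nat_lit 8035315584) (nat_lit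 1900) (nat_lit 13319948931) (nat_lit 416) (nat_lit 5) (nat_lit 440) (nat_lit 5) (nat_lit 441) (nat_lit 5) (nat_lit 479) (nat_lit 460) (nat_lit 201)) (XT.lf (nat_lit 0) (nat_lit 4385468021) (nat_lit 1824) (nat_lit 20056432901) (nat_lit 1900) (nat_lit 7020637) (nat_lit 417) (nat_lit 5) (nat_lit 441) (nat_lit 5) (nat_lit 442) (nat_lit 5) (nat_lit 480) (nat_lit 460) (nat_lit 200))))) (XT.nd (nat_lit 234) (nat_lit 1140) (nat_lit 0) (XT.nd (nat_lit 78) (nat_lit 0) (nat_lit 0) (XT.lf (nat_lit 0) (nat_lit 6088067152) (nat_lit 1824) (nat_lit 7606596960) (nat_lit 1900) (nat_lit 11013502569) (nat_lit 417) (nat_lit 5) (nat_lit 441) (nat_lit 5) (nat_lit 442) (nat_lit 5) (nat_lit 481) (nat_lit 460) (nat_lit 199)) (XT.nd (nat_lit 78) (nat_lit 0) (nat_lit 76) (XT.lf (nat_lit 76) (nat_lit 5157470215) (nat_lit 0) (nat_lit 2697755213) (nat_lit 1900) (nat_lit 17116761943) (nat_lit 418) (nat_lit 5) (nat_lit 417) (nat_lit 5) (nat_lit 442) (nat_lit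 5) (nat_lit 482) (nat_lit 460) (nat_lit 198)) (XT.lf (nat_lit 0) (nat_lit 9761488639) (nat_lit 1824) (nat_lit 7018238912) (nat_lit 1900) (nat_lit 8459282481) (nat_lit 418) (nat_lit 5) (nat_lit 442) (nat_lit 5) (nat_lit 443) (nat_lit 5) (nat_lit 483) (nat_lit 460) (nat_lit 197)))) (XT.nd (nat_lit 78) (nat_lit 1216) (nat_lit 0) (XT.lf (nat_lit 76) (nat_lit 6093612058) (nat_lit 0) (nat_lit 5666820112) (nat_lit 1900) (nat_lit 13749850653) (nat_lit 419) (nat_lit 5) (nat_lit 418) (nat_lit 5) (nat_lit 443) (nat_lit 5) (nat_lit 484) (nat_lit 460) (nat_lit 196)) (XT.nd (nat_lit 78) (nat_lit 1292) (nat_lit 0) (XT.lf (nat_lit 0) (nat_lit 13880734290) (nat_lit 1824) (nat_lit 6262769798) (nat_lit 76) (nat_lit 5641850149) (nat_lit 419) (nat_lit 5) (nat_lit 443) (nat_lit 5) (nat_lit 420) (nat_lit 5) (nat_lit 485) (nat_lit 460) (nat_lit 195)) (XT.lf (nat_lit 0) (nat_lit 7208823415) (nat_lit 1292) (nat_lit 8916176704) (nat_lit 1368) (nat_lit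 9939296554) (nat_lit 402) (nat_lit 5) (nat_lit 419) (nat_lit 5) (nat_lit 420) (nat_lit 5) (nat_lit 486) (nat_lit 460) (nat_lit 194)))))) (XT.nd (nat_lit 468) (nat_lit 2432) (nat_lit 0) (XT.nd (nat_lit 234) (nat_lit 1824) (nat_lit 0) (XT.nd (nat_lit 78) (nat_lit 912) (nat_lit 0) (XT.lf (nat_lit 0) (nat_lit 18470185291) (nat_lit 1368) (nat_lit 5332421300) (nat_lit 76) (nat_lit 2545091418) (nat_lit 402) (nat_lit 5) (nat_lit 420) (nat_lit 5) (nat_lit 403) (nat_lit 5) (nat_lit 487) (nat_lit 460) (nat_lit 193)) (XT.nd (nat_lit 78) (nat_lit 0) (nat_lit 0) (XT.lf (nat_lit 0) (nat_lit 8511274884) (nat_lit 912) (nat_lit 12462627056) (nat_lit 988) (nat_lit 5660633593) (nat_lit 390) (nat_lit 5) (nat_lit 402) (nat_lit 5) (nat_lit 403) (nat_lit 5) (nat_lit 488) (nat_lit 460) (nat_lit 192)) (XT.lf (nat_lit 0) (nat_lit 22701746947) (nat_lit 912) (nat_lit 859085842) (nat_lit 988) (nat_lit 3365614928) (nat_lit 390) (nat_lit 5) (nat_lit 402) (nat_lit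 5) (nat_lit 403) (nat_lit 5) (nat_lit 489) (nat_lit 460) (nat_lit 191)))) (XT.nd (nat_lit 78) (nat_lit 988) (nat_lit 0) (XT.lf (nat_lit 0) (nat_lit 10009451228) (nat_lit 836) (nat_lit 16323715930) (nat_lit 912) (nat_lit 888358376) (nat_lit 379) (nat_lit 5) (nat_lit 390) (nat_lit 5) (nat_lit 391) (nat_lit 5) (nat_lit 490) (nat_lit 460) (nat_lit 190)) (XT.nd (nat_lit 78) (nat_lit 912) (nat_lit 0) (XT.lf (nat_lit 0) (nat_lit 1648609666) (nat_lit 912) (nat_lit 2955306711) (nat_lit 76) (nat_lit 22917743341) (nat_lit 378) (nat_lit 5) (nat_lit 390) (nat_lit 5) (nat_lit 379) (nat_lit 5) (nat_lit 491) (nat_lit 460) (nat_lit 189)) (XT.lf (nat_lit 0) (nat_lit 4346352056) (nat_lit 988) (nat_lit 16142250493) (nat_lit 76) (nat_lit 7336638643) (nat_lit 366) (nat_lit 5) (nat_lit 379) (nat_lit 5) (nat_lit 367) (nat_lit 5) (nat_lit 492) (nat_lit 460) (nat_lit 188))))) (XT.nd (nat_lit 234) (nat_lit 760) (nat_lit 0) (XT.nd (nat_lit 78) (nat_lit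 1672) (nat_lit 0) (XT.lf (nat_lit 0) (nat_lit 7146015210) (nat_lit 988) (nat_lit 1513400165) (nat_lit 76) (nat_lit 19474520239) (nat_lit 366) (nat_lit 5) (nat_lit 379) (nat_lit 5) (nat_lit 367) (nat_lit 5) (nat_lit 493) (nat_lit 460) (nat_lit 187)) (XT.nd (nat_lit 78) (nat_lit 836) (nat_lit 0) (XT.lf (nat_lit 0) (nat_lit 10110130015) (nat_lit 912) (nat_lit 14885957497) (nat_lit 76) (nat_lit 3450547871) (nat_lit 355) (nat_lit 5) (nat_lit 367) (nat_lit 5) (nat_lit 356) (nat_lit 5) (nat_lit 494) (nat_lit 460) (nat_lit 186)) (XT.lf (nat_lit 0) (nat_lit 133317680) (nat_lit 836) (nat_lit 13066240392) (nat_lit 912) (nat_lit 15564711069) (nat_lit 344) (nat_lit 5) (nat_lit 355) (nat_lit 5) (nat_lit 356) (nat_lit 5) (nat_lit 495) (nat_lit 460) (nat_lit 185)))) (XT.nd (nat_lit 78) (nat_lit 760) (nat_lit 0) (XT.lf (nat_lit 0) (nat_lit 15652394675) (nat_lit 836) (nat_lit 795899691) (nat_lit 912) (nat_lit 12638011415) (nat_lit 344) (nat_lit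 5) (nat_lit 355) (nat_lit 5) (nat_lit 356) (nat_lit 5) (nat_lit 496) (nat_lit 460) (nat_lit 184)) (XT.nd (nat_lit 78) (nat_lit 0) (nat_lit 0) (XT.lf (nat_lit 0) (nat_lit 2015037096) (nat_lit 760) (nat_lit 17833817905) (nat_lit 836) (nat_lit 9564191749) (nat_lit 334) (nat_lit 5) (nat_lit 344) (nat_lit 5) (nat_lit 345) (nat_lit 5) (nat_lit 497) (nat_lit 460) (nat_lit 183)) (XT.lf (nat_lit 0) (nat_lit 17947371627) (nat_lit 760) (nat_lit 5463143995) (nat_lit 836) (nat_lit 6333945718) (nat_lit 334) (nat_lit 5) (nat_lit 344) (nat_lit 5) (nat_lit 345) (nat_lit 5) (nat_lit 498) (nat_lit 460) (nat_lit 182))))))))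
noncomputable def xc245 : XT := (XT.nd (nat_lit 58032) (nat_lit 0) (nat_lit 760) (XT.nd (nat_lit 57174) (nat_lit 0) (nat_lit 6916) (XT.nd (nat_lit 56706) (nat_lit 0) (nat_lit 8284) (XT.nd (nat_lit 56472) (nat_lit 0) (nat_lit 8208) (XT.nd (nat_lit 56394) (nat_lit 0) (nat_lit 8208) (XT.lf (nat_lit 0) (nat_lit 4121091801) (nat_lit 760) (nat_lit 22993277797) (nat_lit 836) (nat_lit 2966715989) (nat_lit 324) (nat_lit 5) (nat_lit 334) (nat_lit 5) (nat_lit 335) (nat_lit 5) (nat_lit 499) (nat_lit 460) (nat_lit 181)) (XT.lf (nat_lit 0) (nat_lit 2357618443) (nat_lit 0) (nat_lit 2357618443) (nat_lit 1748) (nat_lit 5459667140) (nat_lit 432) (nat_lit 5) (nat_lit 432) (nat_lit 3) (nat_lit 455) (nat_lit 3) (nat_lit 461) (nat_lit 461) (nat_lit 218))) (XT.nd (nat_lit 78) (nat_lit 0) (nat_lit 0) (XT.lf (nat_lit 0) (nat_lit 9715452017) (nat_lit 1748) (nat_lit 5857775122) (nat_lit 1824) (nat_lit 4976220622) (nat_lit 432) (nat_lit 5) (nat_lit 455)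 (nat_lit 3) (nat_lit 456) (nat_lit 5) (nat_lit 462) (nat_lit 461) (nat_lit 217)) (XT.nd (nat_lit 78) (nat_lit 0) (nat_lit 76) (XT.lf (nat_lit 76) (nat_lit 4135397765) (nat_lit 0) (nat_lit 5924679292) (nat_lit 1824) (nat_lit 10691925439) (nat_lit 433) (nat_lit 5) (nat_lit 432) (nat_lit 5) (nat_lit 456) (nat_lit 5) (nat_lit 463) (nat_lit 461) (nat_lit 216)) (XT.lf (nat_lit 0) (nat_lit 10472544511) (nat_lit 1748) (nat_lit 6577924747) (nat_lit 1824) (nat_lit 3906921225) (nat_lit 433) (nat_lit 5) (nat_lit 456) (nat_lit 5) (nat_lit 457) (nat_lit 5) (nat_lit 464) (nat_lit 461) (nat_lit 215))))) (XT.nd (nat_lit 234) (nat_lit 0) (nat_lit 152) (XT.nd (nat_lit 78) (nat_lit 0) (nat_lit 76) (XT.lf (nat_lit 76) (nat_lit 3668196363) (nat_lit 0) (nat_lit 7284147123) (nat_lit 1824) (nat_lit 10213362231) (nat_lit 434) (nat_lit 5) (nat_lit 433) (nat_lit 5) (nat_lit 457) (nat_lit 5) (nat_lit 465) (nat_lit 461) (nat_lit 214)) (XT.nd (nat_lit 78)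 (nat_lit 0) (nat_lit 0) (XT.lf (nat_lit 0) (nat_lit 11499660517) (nat_lit 1748) (nat_lit 7188856599) (nat_lit 1824) (nat_lit 2688512811) (nat_lit 434) (nat_lit 5) (nat_lit 457) (nat_lit 5) (nat_lit 458) (nat_lit 5) (nat_lit 466) (nat_lit 461) (nat_lit 213)) (XT.lf (nat_lit 76) (nat_lit 3319023016) (nat_lit 0) (nat_lit 8804870235) (nat_lit 1824) (nat_lit 9467369068) (nat_lit 435) (nat_lit 5) (nat_lit 434) (nat_lit 5) (nat_lit 458) (nat_lit 5) (nat_lit 467) (nat_lit 461) (nat_lit 212)))) (XT.nd (nat_lit 78) (nat_lit 0) (nat_lit 0) (XT.lf (nat_lit 0) (nat_lit 12813709812) (nat_lit 1748) (nat_lit 7685222413) (nat_lit 1824) (nat_lit 1309786218) (nat_lit 435) (nat_lit 5) (nat_lit 458) (nat_lit 5) (nat_lit 459) (nat_lit 5) (nat_lit 468) (nat_lit 461) (nat_lit 211)) (XT.nd (nat_lit 78) (nat_lit 0) (nat_lit 0) (XT.lf (nat_lit 76) (nat_lit 3093534017) (nat_lit 0) (nat_lit 10498508992) (nat_lit 1824) (nat_lit 8436987321) (nat_lit 436)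 (nat_lit 5) (nat_lit 435) (nat_lit 5) (nat_lit 459) (nat_lit 5) (nat_lit 469) (nat_lit 461) (nat_lit 210)) (XT.lf (nat_lit 76) (nat_lit 14189793022) (nat_lit 0) (nat_lit 244103840) (nat_lit 1824) (nat_lit 7818893537) (nat_lit 436) (nat_lit 5) (nat_lit 435) (nat_lit 5) (nat_lit 459) (nat_lit 5) (nat_lit 470) (nat_lit 461) (nat_lit 209)))))) (XT.nd (nat_lit 390) (nat_lit 1596) (nat_lit 0) (XT.nd (nat_lit 156) (nat_lit 0) (nat_lit 76) (XT.nd (nat_lit 78) (nat_lit 0) (nat_lit 0) (XT.lf (nat_lit 76) (nat_lit 2997656902) (nat_lit 0) (nat_lit 12377180517) (nat_lit 1824) (nat_lit 7104544264) (nat_lit 437) (nat_lit 5) (nat_lit 436) (nat_lit 5) (nat_lit 460) (nat_lit 5) (nat_lit 471) (nat_lit 461) (nat_lit 208)) (XT.lf (nat_lit 76) (nat_lit 14384912925) (nat_lit 0) (nat_lit 2001913172) (nat_lit 1824) (nat_lit 6322635095) (nat_lit 437) (nat_lit 5) (nat_lit 436) (nat_lit 5) (nat_lit 460) (nat_lit 5) (nat_lit 472) (nat_lit 461) (nat_lit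 207))) (XT.nd (nat_lit 78) (nat_lit 0) (nat_lit 0) (XT.lf (nat_lit 76) (nat_lit 3037595926) (nat_lit 0) (nat_lit 14453485785) (nat_lit 1824) (nat_lit 5451621003) (nat_lit 438) (nat_lit 5) (nat_lit 437) (nat_lit 5) (nat_lit 461) (nat_lit 5) (nat_lit 473) (nat_lit 461) (nat_lit 206)) (XT.nd (nat_lit 78) (nat_lit 0) (nat_lit 76) (XT.lf (nat_lit 76) (nat_lit 14724103865) (nat_lit 0) (nat_lit 3958995566) (nat_lit 1824) (nat_lit 4496197043) (nat_lit 438) (nat_lit 5) (nat_lit 437) (nat_lit 5) (nat_lit 461) (nat_lit 5) (nat_lit 474) (nat_lit 461) (nat_lit 205)) (XT.lf (nat_lit 76) (nat_lit 3219837710) (nat_lit 0) (nat_lit 16740537637) (nat_lit 1824) (nat_lit 3459019333) (nat_lit 439) (nat_lit 5) (nat_lit 438) (nat_lit 5) (nat_lit 462) (nat_lit 5) (nat_lit 475) (nat_lit 461) (nat_lit 204))))) (XT.nd (nat_lit 234) (nat_lit 0) (nat_lit 76) (XT.nd (nat_lit 78) (nat_lit 1748) (nat_lit 0) (XT.lf (nat_lit 76) (nat_lit 15214113905) (nat_lit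 0) (nat_lit 6128634143) (nat_lit 1824) (nat_lit 2319956688) (nat_lit 439) (nat_lit 5) (nat_lit 438) (nat_lit 5) (nat_lit 462) (nat_lit 5) (nat_lit 476) (nat_lit 461) (nat_lit 203)) (XT.nd (nat_lit 78) (nat_lit 1824) (nat_lit 0) (XT.lf (nat_lit 76) (nat_lit 3551157058) (nat_lit 0) (nat_lit 19251989754) (nat_lit 1824) (nat_lit 1106727502) (nat_lit 440) (nat_lit 5) (nat_lit 439) (nat_lit 5) (nat_lit 463) (nat_lit 5) (nat_lit 477) (nat_lit 461) (nat_lit 202)) (XT.lf (nat_lit 0) (nat_lit 223569508) (nat_lit 1824) (nat_lit 8299594635) (nat_lit 1900) (nat_lit 15636916652) (nat_lit 415) (nat_lit 5) (nat_lit 439) (nat_lit 5) (nat_lit 440) (nat_lit 5) (nat_lit 478) (nat_lit 461) (nat_lit 201)))) (XT.nd (nat_lit 78) (nat_lit 0) (nat_lit 0) (XT.lf (nat_lit 0) (nat_lit 1604788396) (nat_lit 1824) (nat_lit 20386509314) (nat_lit 1900) (nat_lit 2423065528) (nat_lit 416) (nat_lit 5) (nat_lit 440) (nat_lit 5) (nat_lit 441) (nat_lit 5) (nat_lit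 479) (nat_lit 461) (nat_lit 200)) (XT.nd (nat_lit 78) (nat_lit 0) (nat_lit 0) (XT.lf (nat_lit 0) (nat_lit 3123113086) (nat_lit 1824) (nat_lit 8017433944) (nat_lit 1900) (nat_lit 13530995496) (nat_lit 416) (nat_lit 5) (nat_lit 440) (nat_lit 5) (nat_lit 441) (nat_lit 5) (nat_lit 480) (nat_lit 461) (nat_lit 199)) (XT.lf (nat_lit 76) (nat_lit 4657799516) (nat_lit 0) (nat_lit 41278767) (nat_lit 1900) (nat_lit 20234242444) (nat_lit 417) (nat_lit 5) (nat_lit 416) (nat_lit 5) (nat_lit 441) (nat_lit 5) (nat_lit 481) (nat_lit 461) (nat_lit 198))))))) (XT.nd (nat_lit 858) (nat_lit 3344) (nat_lit 0) (XT.nd (nat_lit 390) (nat_lit 2964) (nat_lit 0) (XT.nd (nat_lit 156) (nat_lit 0) (nat_lit 76) (XT.nd (nat_lit 78) (nat_lit 0) (nat_lit 0) (XT.lf (nat_lit 0) (nat_lit 6431037214) (nat_lit 1824) (nat_lit 7579995217) (nat_lit 1900) (nat_lit 11186813366) (nat_lit 417) (nat_lit 5) (nat_lit 441) (nat_lit 5) (nat_lit 442) (nat_lit 5) (nat_lit 482)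 (nat_lit 461) (nat_lit 197)) (XT.lf (nat_lit 76) (nat_lit 5438177423) (nat_lit 0) (nat_lit 2792176630) (nat_lit 1900) (nat_lit 17236653717) (nat_lit 418) (nat_lit 5) (nat_lit 417) (nat_lit 5) (nat_lit 442) (nat_lit 5) (nat_lit 483) (nat_lit 461) (nat_lit 196))) (XT.nd (nat_lit 78) (nat_lit 0) (nat_lit 0) (XT.lf (nat_lit 0) (nat_lit 10170209964) (nat_lit 1824) (nat_lit 6979937135) (nat_lit 1900) (nat_lit 8589315592) (nat_lit 418) (nat_lit 5) (nat_lit 442) (nat_lit 5) (nat_lit 443) (nat_lit 5) (nat_lit 484) (nat_lit 461) (nat_lit 195)) (XT.nd (nat_lit 78) (nat_lit 0) (nat_lit 76) (XT.lf (nat_lit 76) (nat_lit 6392975417) (nat_lit 0) (nat_lit 5813123229) (nat_lit 1900) (nat_lit 13810124096) (nat_lit 419) (nat_lit 5) (nat_lit 418) (nat_lit 5) (nat_lit 443) (nat_lit 5) (nat_lit 485) (nat_lit 461) (nat_lit 194)) (XT.lf (nat_lit 0) (nat_lit 14364470339) (nat_lit 1824) (nat_lit 6209622355) (nat_lit 76) (nat_lit 5722790729) (nat_lit 419)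 (nat_lit 5) (nat_lit 443) (nat_lit 5) (nat_lit 420) (nat_lit 5) (nat_lit 486) (nat_lit 461) (nat_lit 193))))) (XT.nd (nat_lit 234) (nat_lit 912) (nat_lit 0) (XT.nd (nat_lit 78) (nat_lit 912) (nat_lit 0) (XT.lf (nat_lit 0) (nat_lit 7530229019) (nat_lit 1292) (nat_lit 9120501559) (nat_lit 1368) (nat_lit 9930733035) (nat_lit 402) (nat_lit 5) (nat_lit 419) (nat_lit 5) (nat_lit 420) (nat_lit 5) (nat_lit 487) (nat_lit 461) (nat_lit 192)) (XT.nd (nat_lit 78) (nat_lit 912) (nat_lit 0) (XT.lf (nat_lit 0) (nat_lit 19038669035) (nat_lit 1368) (nat_lit 5261111935) (nat_lit 76) (nat_lit 2570836081) (nat_lit 402) (nat_lit 5) (nat_lit 420) (nat_lit 5) (nat_lit 403) (nat_lit 5) (nat_lit 488) (nat_lit 461) (nat_lit 191)) (XT.lf (nat_lit 0) (nat_lit 8858287398) (nat_lit 912) (nat_lit 12731416908) (nat_lit 988) (nat_lit 5573543180) (nat_lit 390) (nat_lit 5) (nat_lit 402) (nat_lit 5) (nat_lit 403) (nat_lit 5) (nat_lit 489) (nat_lit 461) (nat_lit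 190)))) (XT.nd (nat_lit 78) (nat_lit 912) (nat_lit 0) (XT.lf (nat_lit 0) (nat_lit 23329102490) (nat_lit 912) (nat_lit 895421785) (nat_lit 988) (nat_lit 3236551653) (nat_lit 390) (nat_lit 5) (nat_lit 402) (nat_lit 5) (nat_lit 403) (nat_lit 5) (nat_lit 490) (nat_lit 461) (nat_lit 189)) (XT.nd (nat_lit 78) (nat_lit 76) (nat_lit 0) (XT.lf (nat_lit 0) (nat_lit 10385819213) (nat_lit 836) (nat_lit 16663734049) (nat_lit 912) (nat_lit 712558086) (nat_lit 379) (nat_lit 5) (nat_lit 390) (nat_lit 5) (nat_lit 391) (nat_lit 5) (nat_lit 491) (nat_lit 461) (nat_lit 188)) (XT.lf (nat_lit 0) (nat_lit 1868864983) (nat_lit 912) (nat_lit 2839151188) (nat_lit 76) (nat_lit 23360282788) (nat_lit 378) (nat_lit 5) (nat_lit 390) (nat_lit 5) (nat_lit 379) (nat_lit 5) (nat_lit 492) (nat_lit 461) (nat_lit 187)))))) (XT.nd (nat_lit 468) (nat_lit 0) (nat_lit 0) (XT.nd (nat_lit 234) (nat_lit 1596) (nat_lit 0) (XT.nd (nat_lit 78) (nat_lit 836) (nat_lit 0) (XT.lf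 (nat_lit 0) (nat_lit 4617951397) (nat_lit 988) (nat_lit 16287175678) (nat_lit 76) (nat_lit 7472878151) (nat_lit 366) (nat_lit 5) (nat_lit 379) (nat_lit 5) (nat_lit 367) (nat_lit 5) (nat_lit 493) (nat_lit 461) (nat_lit 186)) (XT.nd (nat_lit 78) (nat_lit 836) (nat_lit 0) (XT.lf (nat_lit 0) (nat_lit 7469986789) (nat_lit 988) (nat_lit 1369236968) (nat_lit 76) (nat_lit 19853723129) (nat_lit 366) (nat_lit 5) (nat_lit 379) (nat_lit 5) (nat_lit 367) (nat_lit 5) (nat_lit 494) (nat_lit 461) (nat_lit 185)) (XT.lf (nat_lit 0) (nat_lit 10490924249) (nat_lit 912) (nat_lit 15006740300) (nat_lit 76) (nat_lit 3514286205) (nat_lit 355) (nat_lit 5) (nat_lit 367) (nat_lit 5) (nat_lit 356) (nat_lit 5) (nat_lit 495) (nat_lit 461) (nat_lit 184)))) (XT.nd (nat_lit 78) (nat_lit 760) (nat_lit 0) (XT.lf (nat_lit 0) (nat_lit 311756326) (nat_lit 836) (nat_lit 13328023975) (nat_lit 912) (nat_lit 15696204989) (nat_lit 344) (nat_lit 5) (nat_lit 355) (nat_lit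 5) (nat_lit 356) (nat_lit 5) (nat_lit 496) (nat_lit 461) (nat_lit 183)) (XT.nd (nat_lit 78) (nat_lit 760) (nat_lit 0) (XT.lf (nat_lit 0) (nat_lit 16137768345) (nat_lit 836) (nat_lit 812267464) (nat_lit 912) (nat_lit 12714496838) (nat_lit 344) (nat_lit 5) (nat_lit 355) (nat_lit 5) (nat_lit 356) (nat_lit 5) (nat_lit 497) (nat_lit 461) (nat_lit 182)) (XT.lf (nat_lit 0) (nat_lit 2230009022) (nat_lit 760) (nat_lit 18186342097) (nat_lit 836) (nat_lit 9581503305) (nat_lit 334) (nat_lit 5) (nat_lit 344) (nat_lit 5) (nat_lit 345) (nat_lit 5) (nat_lit 498) (nat_lit 461) (nat_lit 181))))) (XT.nd (nat_lit 56628) (nat_lit 0) (nat_lit 7448) (XT.nd (nat_lit 56472) (nat_lit 0) (nat_lit 7448) (XT.lf (nat_lit 0) (nat_lit 18477565318) (nat_lit 760) (nat_lit 5568336124) (nat_lit 836) (nat_lit 6290063575) (nat_lit 334) (nat_lit 5) (nat_lit 344) (nat_lit 5) (nat_lit 345) (nat_lit 5) (nat_lit 499) (nat_lit 461) (nat_lit 180)) (XT.nd (nat_lit 78) (nat_lit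 0) (nat_lit 0) (XT.lf (nat_lit 0) (nat_lit 2483225708) (nat_lit 0) (nat_lit 2483225708) (nat_lit 1748) (nat_lit 5408767883) (nat_lit 432) (nat_lit 5) (nat_lit 432) (nat_lit 3) (nat_lit 455) (nat_lit 3) (nat_lit 462) (nat_lit 462) (nat_lit 216)) (XT.lf (nat_lit 0) (nat_lit 10216428533) (nat_lit 1748) (nat_lit 5813857909) (nat_lit 1824) (nat_lit 4923929452) (nat_lit 432) (nat_lit 5) (nat_lit 455) (nat_lit 3) (nat_lit 456) (nat_lit 5) (nat_lit 463) (nat_lit 462) (nat_lit 215)))) (XT.nd (nat_lit 78) (nat_lit 0) (nat_lit 76) (XT.lf (nat_lit 76) (nat_lit 4378118747) (nat_lit 0) (nat_lit 6184853150) (nat_lit 1824) (nat_lit 10597951026) (nat_lit 433) (nat_lit 5) (nat_lit 432) (nat_lit 5) (nat_lit 456) (nat_lit 5) (nat_lit 464) (nat_lit 462) (nat_lit 214)) (XT.nd (nat_lit 78) (nat_lit 0) (nat_lit 0) (XT.lf (nat_lit 0) (nat_lit 10976871300) (nat_lit 1748) (nat_lit 6545706250) (nat_lit 1824) (nat_lit 3847979150) (nat_lit 433) (nat_lit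 5) (nat_lit 456) (nat_lit 5) (nat_lit 457) (nat_lit 5) (nat_lit 465) (nat_lit 462) (nat_lit 213)) (XT.lf (nat_lit 76) (nat_lit 3904259802) (nat_lit 0) (nat_lit 7557280925) (nat_lit 1824) (nat_lit 10121593670) (nat_lit 434) (nat_lit 5) (nat_lit 433) (nat_lit 5) (nat_lit 457) (nat_lit 5) (nat_lit 466) (nat_lit 462) (nat_lit 212))))))))
noncomputable def xc246 : XT := (XT.nd (nat_lit 1716) (nat_lit 4408) (nat_lit 0) (XT.nd (nat_lit 858) (nat_lit 2432) (nat_lit 0) (XT.nd (nat_lit 390) (nat_lit 0) (nat_lit 152) (XT.nd (nat_lit 156) (nat_lit 0) (nat_lit 76) (XT.nd (nat_lit 78) (nat_lit 0) (nat_lit 0) (XT.lf (nat_lit 0) (nat_lit 12013303605) (nat_lit 1748) (nat_lit 7166543102) (nat_lit 1824) (nat_lit 2618970010) (nat_lit 434) (nat_lit 5) (nat_lit 457) (nat_lit 5) (nat_lit 458) (nat_lit 5) (nat_lit 467) (nat_lit 462) (nat_lit 211)) (XT.lf (nat_lit 76) (nat_lit 3550401404) (nat_lit 0) (nat_lit 9095129104) (nat_lit 1824) (nat_lit 9371894644)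 (nat_lit 435) (nat_lit 5) (nat_lit 434) (nat_lit 5) (nat_lit 458) (nat_lit 5) (nat_lit 468) (nat_lit 462) (nat_lit 210))) (XT.nd (nat_lit 78) (nat_lit 0) (nat_lit 0) (XT.lf (nat_lit 0) (nat_lit 13342943008) (nat_lit 1748) (nat_lit 7670886123) (nat_lit 1824) (nat_lit 1225526829) (nat_lit 435) (nat_lit 5) (nat_lit 458) (nat_lit 5) (nat_lit 459) (nat_lit 5) (nat_lit 469) (nat_lit 462) (nat_lit 209)) (XT.nd (nat_lit 78) (nat_lit 0) (nat_lit 0) (XT.lf (nat_lit 76) (nat_lit 3322339905) (nat_lit 0) (nat_lit 10810234681) (nat_lit 1824) (nat_lit 8331586386) (nat_lit 436) (nat_lit 5) (nat_lit 435) (nat_lit 5) (nat_lit 459) (nat_lit 5) (nat_lit 470) (nat_lit 462) (nat_lit 208)) (XT.lf (nat_lit 76) (nat_lit 14637250851) (nat_lit 0) (nat_lit 348746220) (nat_lit 1824) (nat_lit 7706506034) (nat_lit 436) (nat_lit 5) (nat_lit 435) (nat_lit 5) (nat_lit 459) (nat_lit 5) (nat_lit 471) (nat_lit 462) (nat_lit 207))))) (XT.nd (nat_lit 234) (nat_lit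 0) (nat_lit 76) (XT.nd (nat_lit 78) (nat_lit 0) (nat_lit 0) (XT.lf (nat_lit 76) (nat_lit 3226146684) (nat_lit 0) (nat_lit 12714903854) (nat_lit 1824) (nat_lit 6982671259) (nat_lit 437) (nat_lit 5) (nat_lit 436) (nat_lit 5) (nat_lit 460) (nat_lit 5) (nat_lit 472) (nat_lit 462) (nat_lit 206)) (XT.nd (nat_lit 78) (nat_lit 0) (nat_lit 76) (XT.lf (nat_lit 76) (nat_lit 14837843186) (nat_lit 0) (nat_lit 2130362933) (nat_lit 1824) (nat_lit 6190299669) (nat_lit 437) (nat_lit 5) (nat_lit 436) (nat_lit 5) (nat_lit 460) (nat_lit 5) (nat_lit 473) (nat_lit 462) (nat_lit 205)) (XT.lf (nat_lit 76) (nat_lit 3268173826) (nat_lit 0) (nat_lit 14821939470) (nat_lit 1824) (nat_lit 5306388922) (nat_lit 438) (nat_lit 5) (nat_lit 437) (nat_lit 5) (nat_lit 461) (nat_lit 5) (nat_lit 474) (nat_lit 462) (nat_lit 204)))) (XT.nd (nat_lit 78) (nat_lit 0) (nat_lit 76) (XT.lf (nat_lit 76) (nat_lit 15185082002) (nat_lit 0) (nat_lit 4116002898) (nat_lit 1824)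 (nat_lit 4336842062) (nat_lit 438) (nat_lit 5) (nat_lit 437) (nat_lit 5) (nat_lit 461) (nat_lit 5) (nat_lit 475) (nat_lit 462) (nat_lit 203)) (XT.nd (nat_lit 78) (nat_lit 0) (nat_lit 0) (XT.lf (nat_lit 76) (nat_lit 3455059978) (nat_lit 0) (nat_lit 17144669414) (nat_lit 1824) (nat_lit 3283182632) (nat_lit 439) (nat_lit 5) (nat_lit 438) (nat_lit 5) (nat_lit 462) (nat_lit 5) (nat_lit 476) (nat_lit 462) (nat_lit 202)) (XT.lf (nat_lit 76) (nat_lit 15685872177) (nat_lit 0) (nat_lit 6319168614) (nat_lit 1824) (nat_lit 2126142991) (nat_lit 439) (nat_lit 5) (nat_lit 438) (nat_lit 5) (nat_lit 462) (nat_lit 5) (nat_lit 477) (nat_lit 462) (nat_lit 201)))))) (XT.nd (nat_lit 390) (nat_lit 988) (nat_lit 0) (XT.nd (nat_lit 156) (nat_lit 0) (nat_lit 76) (XT.nd (nat_lit 78) (nat_lit 1824) (nat_lit 0) (XT.lf (nat_lit 76) (nat_lit 3793736361) (nat_lit 0) (nat_lit 19696975998) (nat_lit 1824) (nat_lit 892664396) (nat_lit 440) (nat_lit 5) (nat_lit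 439) (nat_lit 5) (nat_lit 463) (nat_lit 5) (nat_lit 478) (nat_lit 462) (nat_lit 200)) (XT.lf (nat_lit 0) (nat_lit 456570194) (nat_lit 1824) (nat_lit 8294294709) (nat_lit 1900) (nat_lit 15887784453) (nat_lit 415) (nat_lit 5) (nat_lit 439) (nat_lit 5) (nat_lit 440) (nat_lit 5) (nat_lit 479) (nat_lit 462) (nat_lit 199))) (XT.nd (nat_lit 78) (nat_lit 0) (nat_lit 0) (XT.lf (nat_lit 0) (nat_lit 1861680296) (nat_lit 1824) (nat_lit 20619153273) (nat_lit 1900) (nat_lit 2417259767) (nat_lit 416) (nat_lit 5) (nat_lit 440) (nat_lit 5) (nat_lit 441) (nat_lit 5) (nat_lit 480) (nat_lit 462) (nat_lit 198)) (XT.nd (nat_lit 78) (nat_lit 0) (nat_lit 0) (XT.lf (nat_lit 0) (nat_lit 3405963712) (nat_lit 1824) (nat_lit 8006129459) (nat_lit 1900) (nat_lit 13748412394) (nat_lit 416) (nat_lit 5) (nat_lit 440) (nat_lit 5) (nat_lit 441) (nat_lit 5) (nat_lit 481) (nat_lit 462) (nat_lit 197)) (XT.lf (nat_lit 76) (nat_lit 4921479373) (nat_lit 0) (nat_lit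 88754654) (nat_lit 1900) (nat_lit 20417350764) (nat_lit 417) (nat_lit 5) (nat_lit 416) (nat_lit 5) (nat_lit 441) (nat_lit 5) (nat_lit 482) (nat_lit 462) (nat_lit 196))))) (XT.nd (nat_lit 234) (nat_lit 1140) (nat_lit 0) (XT.nd (nat_lit 78) (nat_lit 0) (nat_lit 0) (XT.lf (nat_lit 0) (nat_lit 6772276874) (nat_lit 1824) (nat_lit 7559801885) (nat_lit 1900) (nat_lit 11365413864) (nat_lit 417) (nat_lit 5) (nat_lit 441) (nat_lit 5) (nat_lit 442) (nat_lit 5) (nat_lit 483) (nat_lit 462) (nat_lit 195)) (XT.nd (nat_lit 78) (nat_lit 0) (nat_lit 76) (XT.lf (nat_lit 76) (nat_lit 5717603989) (nat_lit 0) (nat_lit 2886915119) (nat_lit 1900) (nat_lit 17367581077) (nat_lit 418) (nat_lit 5) (nat_lit 417) (nat_lit 5) (nat_lit 442) (nat_lit 5) (nat_lit 484) (nat_lit 462) (nat_lit 194)) (XT.lf (nat_lit 0) (nat_lit 10578815577) (nat_lit 1824) (nat_lit 6947807162) (nat_lit 1900) (nat_lit 8723469705) (nat_lit 418) (nat_lit 5) (nat_lit 442) (nat_lit 5)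 (nat_lit 443) (nat_lit 5) (nat_lit 485) (nat_lit 462) (nat_lit 193)))) (XT.nd (nat_lit 78) (nat_lit 1216) (nat_lit 0) (XT.lf (nat_lit 76) (nat_lit 6691433846) (nat_lit 0) (nat_lit 5961072271) (nat_lit 1900) (nat_lit 13879940987) (nat_lit 419) (nat_lit 5) (nat_lit 418) (nat_lit 5) (nat_lit 443) (nat_lit 5) (nat_lit 486) (nat_lit 462) (nat_lit 192)) (XT.nd (nat_lit 78) (nat_lit 1292) (nat_lit 0) (XT.lf (nat_lit 0) (nat_lit 14849877165) (nat_lit 1824) (nat_lit 6162339563) (nat_lit 76) (nat_lit 5806588699) (nat_lit 419) (nat_lit 5) (nat_lit 443) (nat_lit 5) (nat_lit 420) (nat_lit 5) (nat_lit 487) (nat_lit 462) (nat_lit 191)) (XT.lf (nat_lit 0) (nat_lit 7851180713) (nat_lit 1292) (nat_lit 9327903248) (nat_lit 1368) (nat_lit 9930049878) (nat_lit 402) (nat_lit 5) (nat_lit 419) (nat_lit 5) (nat_lit 420) (nat_lit 5) (nat_lit 488) (nat_lit 462) (nat_lit 190))))))) (XT.nd (nat_lit 57408) (nat_lit 0) (nat_lit 6688) (XT.nd (nat_lit 390)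 (nat_lit 2584) (nat_lit 0) (XT.nd (nat_lit 156) (nat_lit 912) (nat_lit 0) (XT.nd (nat_lit 78) (nat_lit 912) (nat_lit 0) (XT.lf (nat_lit 0) (nat_lit 19610791934) (nat_lit 1368) (nat_lit 5195286701) (nat_lit 76) (nat_lit 2598072521) (nat_lit 402) (nat_lit 5) (nat_lit 420) (nat_lit 5) (nat_lit 403) (nat_lit 5) (nat_lit 489) (nat_lit 462) (nat_lit 189)) (XT.lf (nat_lit 0) (nat_lit 9205375307) (nat_lit 912) (nat_lit 13004823900) (nat_lit 988) (nat_lit 5492488972) (nat_lit 390) (nat_lit 5) (nat_lit 402) (nat_lit 5) (nat_lit 403) (nat_lit 5) (nat_lit 490) (nat_lit 462) (nat_lit 188))) (XT.nd (nat_lit 78) (nat_lit 912) (nat_lit 0) (XT.lf (nat_lit 0) (nat_lit 23962274893) (nat_lit 912) (nat_lit 931740665) (nat_lit 988) (nat_lit 3112532615) (nat_lit 390) (nat_lit 5) (nat_lit 402) (nat_lit 5) (nat_lit 403) (nat_lit 5) (nat_lit 491) (nat_lit 462) (nat_lit 187)) (XT.nd (nat_lit 78) (nat_lit 76) (nat_lit 0) (XT.lf (nat_lit 0) (nat_lit 10762873315)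 (nat_lit 836) (nat_lit 17010026608) (nat_lit 912) (nat_lit 540758249) (nat_lit 379) (nat_lit 5) (nat_lit 390) (nat_lit 5) (nat_lit 391) (nat_lit 5) (nat_lit 492) (nat_lit 462) (nat_lit 186)) (XT.lf (nat_lit 0) (nat_lit 2086252974) (nat_lit 912) (nat_lit 2727478179) (nat_lit 76) (nat_lit 23812287155) (nat_lit 378) (nat_lit 5) (nat_lit 390) (nat_lit 5) (nat_lit 379) (nat_lit 5) (nat_lit 493) (nat_lit 462) (nat_lit 185))))) (XT.nd (nat_lit 234) (nat_lit 836) (nat_lit 0) (XT.nd (nat_lit 78) (nat_lit 836) (nat_lit 0) (XT.lf (nat_lit 0) (nat_lit 4887811674) (nat_lit 988) (nat_lit 16441908211) (nat_lit 76) (nat_lit 7612249915) (nat_lit 366) (nat_lit 5) (nat_lit 379) (nat_lit 5) (nat_lit 367) (nat_lit 5) (nat_lit 494) (nat_lit 462) (nat_lit 184)) (XT.nd (nat_lit 78) (nat_lit 836) (nat_lit 0) (XT.lf (nat_lit 0) (nat_lit 7793407357) (nat_lit 988) (nat_lit 1228963883) (nat_lit 76) (nat_lit 20240909554) (nat_lit 366) (nat_lit 5) (nat_lit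 379) (nat_lit 5) (nat_lit 367) (nat_lit 5) (nat_lit 495) (nat_lit 462) (nat_lit 183)) (XT.lf (nat_lit 0) (nat_lit 10872399436) (nat_lit 912) (nat_lit 15136809413) (nat_lit 76) (nat_lit 3579504047) (nat_lit 355) (nat_lit 5) (nat_lit 367) (nat_lit 5) (nat_lit 356) (nat_lit 5) (nat_lit 496) (nat_lit 462) (nat_lit 182)))) (XT.nd (nat_lit 78) (nat_lit 0) (nat_lit 0) (XT.lf (nat_lit 0) (nat_lit 486938292) (nat_lit 836) (nat_lit 13595025414) (nat_lit 912) (nat_lit 15837310652) (nat_lit 344) (nat_lit 5) (nat_lit 355) (nat_lit 5) (nat_lit 356) (nat_lit 5) (nat_lit 497) (nat_lit 462) (nat_lit 181)) (XT.nd (nat_lit 56628) (nat_lit 0) (nat_lit 6688) (XT.lf (nat_lit 0) (nat_lit 16626157869) (nat_lit 836) (nat_lit 828945126) (nat_lit 912) (nat_lit 12799356935) (nat_lit 344) (nat_lit 5) (nat_lit 355) (nat_lit 5) (nat_lit 356) (nat_lit 5) (nat_lit 498) (nat_lit 462) (nat_lit 180)) (XT.lf (nat_lit 0) (nat_lit 2608298620) (nat_lit 0) (nat_lit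 2608298620) (nat_lit 1748) (nat_lit 5363067231) (nat_lit 432) (nat_lit 5) (nat_lit 432) (nat_lit 3) (nat_lit 455) (nat_lit 3) (nat_lit 463) (nat_lit 463) (nat_lit 214)))))) (XT.nd (nat_lit 468) (nat_lit 0) (nat_lit 228) (XT.nd (nat_lit 234) (nat_lit 0) (nat_lit 76) (XT.nd (nat_lit 78) (nat_lit 0) (nat_lit 0) (XT.lf (nat_lit 0) (nat_lit 10715516308) (nat_lit 1748) (nat_lit 5775317002) (nat_lit 1824) (nat_lit 4876487643) (nat_lit 432) (nat_lit 5) (nat_lit 455) (nat_lit 3) (nat_lit 456) (nat_lit 5) (nat_lit 464) (nat_lit 463) (nat_lit 213)) (XT.nd (nat_lit 78) (nat_lit 0) (nat_lit 76) (XT.lf (nat_lit 76) (nat_lit 4619480648) (nat_lit 0) (nat_lit 6444728868) (nat_lit 1824) (nat_lit 10514049876) (nat_lit 433) (nat_lit 5) (nat_lit 432) (nat_lit 5) (nat_lit 456) (nat_lit 5) (nat_lit 465) (nat_lit 463) (nat_lit 212)) (XT.lf (nat_lit 0) (nat_lit 11479834234) (nat_lit 1748) (nat_lit 6519203043) (nat_lit 1824) (nat_lit 3793181236) (nat_lit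 433) (nat_lit 5) (nat_lit 456) (nat_lit 5) (nat_lit 457) (nat_lit 5) (nat_lit 466) (nat_lit 463) (nat_lit 211)))) (XT.nd (nat_lit 78) (nat_lit 0) (nat_lit 76) (XT.lf (nat_lit 76) (nat_lit 4138726690) (nat_lit 0) (nat_lit 7830928331) (nat_lit 1824) (nat_lit 10039485169) (nat_lit 434) (nat_lit 5) (nat_lit 433) (nat_lit 5) (nat_lit 457) (nat_lit 5) (nat_lit 467) (nat_lit 463) (nat_lit 210)) (XT.nd (nat_lit 78) (nat_lit 0) (nat_lit 0) (XT.lf (nat_lit 0) (nat_lit 12526205085) (nat_lit 1748) (nat_lit 7150232836) (nat_lit 1824) (nat_lit 2552824749) (nat_lit 434) (nat_lit 5) (nat_lit 457) (nat_lit 5) (nat_lit 458) (nat_lit 5) (nat_lit 468) (nat_lit 463) (nat_lit 209)) (XT.lf (nat_lit 76) (nat_lit 3780000289) (nat_lit 0) (nat_lit 9386760121) (nat_lit 1824) (nat_lit 9285570709) (nat_lit 435) (nat_lit 5) (nat_lit 434) (nat_lit 5) (nat_lit 458) (nat_lit 5) (nat_lit 469) (nat_lit 463) (nat_lit 208))))) (XT.nd (nat_lit 234) (nat_lit 0) (nat_lit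 76) (XT.nd (nat_lit 78) (nat_lit 0) (nat_lit 0) (XT.lf (nat_lit 0) (nat_lit 13872161537) (nat_lit 1748) (nat_lit 7662788333) (nat_lit 1824) (nat_lit 1143871358) (nat_lit 435) (nat_lit 5) (nat_lit 458) (nat_lit 5) (nat_lit 459) (nat_lit 5) (nat_lit 470) (nat_lit 463) (nat_lit 207)) (XT.nd (nat_lit 78) (nat_lit 0) (nat_lit 0) (XT.lf (nat_lit 76) (nat_lit 3549239613) (nat_lit 0) (nat_lit 11124243593) (nat_lit 1824) (nat_lit 8234722650) (nat_lit 436) (nat_lit 5) (nat_lit 435) (nat_lit 5) (nat_lit 459) (nat_lit 5) (nat_lit 471) (nat_lit 463) (nat_lit 206)) (XT.lf (nat_lit 76) (nat_lit 15087302642) (nat_lit 0) (nat_lit 451607634) (nat_lit 1824) (nat_lit 7602307269) (nat_lit 436) (nat_lit 5) (nat_lit 435) (nat_lit 5) (nat_lit 459) (nat_lit 5) (nat_lit 472) (nat_lit 463) (nat_lit 205)))) (XT.nd (nat_lit 78) (nat_lit 0) (nat_lit 0) (XT.lf (nat_lit 76) (nat_lit 3452661778) (nat_lit 0) (nat_lit 13055879869) (nat_lit 1824) (nat_lit 6868610833)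 (nat_lit 437) (nat_lit 5) (nat_lit 436) (nat_lit 5) (nat_lit 460) (nat_lit 5) (nat_lit 473) (nat_lit 463) (nat_lit 204)) (XT.nd (nat_lit 78) (nat_lit 0) (nat_lit 76) (XT.lf (nat_lit 76) (nat_lit 15293415894) (nat_lit 0) (nat_lit 2257948562) (nat_lit 1824) (nat_lit 6065366592) (nat_lit 437) (nat_lit 5) (nat_lit 436) (nat_lit 5) (nat_lit 460) (nat_lit 5) (nat_lit 474) (nat_lit 463) (nat_lit 203)) (XT.lf (nat_lit 76) (nat_lit 3496768734) (nat_lit 0) (nat_lit 15194679652) (nat_lit 1824) (nat_lit 5168125601) (nat_lit 438) (nat_lit 5) (nat_lit 437) (nat_lit 5) (nat_lit 461) (nat_lit 5) (nat_lit 475) (nat_lit 463) (nat_lit 202))))))))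
noncomputable def xc247 : XT := (XT.nd (nat_lit 1716) (nat_lit 836) (nat_lit 0) (XT.nd (nat_lit 858) (nat_lit 4560) (nat_lit 0) (XT.nd (nat_lit 390) (nat_lit 0) (nat_lit 76) (XT.nd (nat_lit 156) (nat_lit 1672) (nat_lit 0) (XT.nd (nat_lit 78) (nat_lit 0) (nat_lit 76) (XT.lf (nat_lit 76) (nat_lit 15648814458) (nat_lit 0) (nat_lit 4273128243) (nat_lit 1824) (nat_lit 4183979786) (nat_lit 438) (nat_lit 5) (nat_lit 437) (nat_lit 5) (nat_lit 461) (nat_lit 5) (nat_lit 476) (nat_lit 463) (nat_lit 201)) (XT.lf (nat_lit 76) (nat_lit 3688353329) (nat_lit 0) (nat_lit 17554192007) (nat_lit 1824) (nat_lit 3113343509) (nat_lit 439) (nat_lit 5) (nat_lit 438) (nat_lit 5) (nat_lit 462) (nat_lit 5) (nat_lit 477) (nat_lit 463) (nat_lit 200))) (XT.nd (nat_lit 78) (nat_lit 1748) (nat_lit 0) (XT.lf (nat_lit 76) (nat_lit 16160562318) (nat_lit 0) (nat_lit 6510874736) (nat_lit 1824) (nat_lit 1937780777) (nat_lit 439) (nat_lit 5) (nat_lit 438) (nat_lit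 5) (nat_lit 462) (nat_lit 5) (nat_lit 478) (nat_lit 463) (nat_lit 199)) (XT.nd (nat_lit 78) (nat_lit 1824) (nat_lit 0) (XT.lf (nat_lit 76) (nat_lit 4034505515) (nat_lit 0) (nat_lit 20148534173) (nat_lit 1824) (nat_lit 683491871) (nat_lit 440) (nat_lit 5) (nat_lit 439) (nat_lit 5) (nat_lit 463) (nat_lit 5) (nat_lit 479) (nat_lit 463) (nat_lit 198)) (XT.lf (nat_lit 0) (nat_lit 685356822) (nat_lit 1824) (nat_lit 8295540254) (nat_lit 1900) (nat_lit 16146072119) (nat_lit 415) (nat_lit 5) (nat_lit 439) (nat_lit 5) (nat_lit 440) (nat_lit 5) (nat_lit 480) (nat_lit 463) (nat_lit 197))))) (XT.nd (nat_lit 234) (nat_lit 0) (nat_lit 76) (XT.nd (nat_lit 78) (nat_lit 0) (nat_lit 0) (XT.lf (nat_lit 0) (nat_lit 2114980926) (nat_lit 1824) (nat_lit 20863248923) (nat_lit 1900) (nat_lit 2413445147) (nat_lit 416) (nat_lit 5) (nat_lit 440) (nat_lit 5) (nat_lit 441) (nat_lit 5) (nat_lit 481) (nat_lit 463) (nat_lit 196)) (XT.nd (nat_lit 78) (nat_lit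 0) (nat_lit 0) (XT.lf (nat_lit 0) (nat_lit 3685913402) (nat_lit 1824) (nat_lit 8001264387) (nat_lit 1900) (nat_lit 13972243568) (nat_lit 416) (nat_lit 5) (nat_lit 440) (nat_lit 5) (nat_lit 441) (nat_lit 5) (nat_lit 482) (nat_lit 463) (nat_lit 195)) (XT.lf (nat_lit 76) (nat_lit 5183811178) (nat_lit 0) (nat_lit 135368570) (nat_lit 1900) (nat_lit 20612725339) (nat_lit 417) (nat_lit 5) (nat_lit 416) (nat_lit 5) (nat_lit 441) (nat_lit 5) (nat_lit 483) (nat_lit 463) (nat_lit 194)))) (XT.nd (nat_lit 78) (nat_lit 0) (nat_lit 0) (XT.lf (nat_lit 0) (nat_lit 7112085075) (nat_lit 1824) (nat_lit 7545875627) (nat_lit 1900) (nat_lit 11549339049) (nat_lit 417) (nat_lit 5) (nat_lit 441) (nat_lit 5) (nat_lit 442) (nat_lit 5) (nat_lit 484) (nat_lit 463) (nat_lit 193)) (XT.nd (nat_lit 78) (nat_lit 0) (nat_lit 76) (XT.lf (nat_lit 76) (nat_lit 5995992033) (nat_lit 0) (nat_lit 2982038040) (nat_lit 1900) (nat_lit 17509429321) (nat_lit 418) (nat_lit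 5) (nat_lit 417) (nat_lit 5) (nat_lit 442) (nat_lit 5) (nat_lit 485) (nat_lit 463) (nat_lit 192)) (XT.lf (nat_lit 0) (nat_lit 10987625081) (nat_lit 1824) (nat_lit 6921703026) (nat_lit 1900) (nat_lit 8861768205) (nat_lit 418) (nat_lit 5) (nat_lit 442) (nat_lit 5) (nat_lit 443) (nat_lit 5) (nat_lit 486) (nat_lit 463) (nat_lit 191)))))) (XT.nd (nat_lit 390) (nat_lit 2660) (nat_lit 0) (XT.nd (nat_lit 156) (nat_lit 2128) (nat_lit 0) (XT.nd (nat_lit 78) (nat_lit 0) (nat_lit 76) (XT.lf (nat_lit 76) (nat_lit 6989236880) (nat_lit 0) (nat_lit 6110749866) (nat_lit 1900) (nat_lit 13959168419) (nat_lit 419) (nat_lit 5) (nat_lit 418) (nat_lit 5) (nat_lit 443) (nat_lit 5) (nat_lit 487) (nat_lit 463) (nat_lit 190)) (XT.lf (nat_lit 0) (nat_lit 15337298987) (nat_lit 1824) (nat_lit 6120769707) (nat_lit 76) (nat_lit 5893253109) (nat_lit 419) (nat_lit 5) (nat_lit 443) (nat_lit 5) (nat_lit 420) (nat_lit 5) (nat_lit 488) (nat_lit 463) (nat_lit 189)))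 (XT.nd (nat_lit 78) (nat_lit 912) (nat_lit 0) (XT.lf (nat_lit 0) (nat_lit 8171936654) (nat_lit 1292) (nat_lit 9538482514) (nat_lit 1368) (nat_lit 9937092035) (nat_lit 402) (nat_lit 5) (nat_lit 419) (nat_lit 5) (nat_lit 420) (nat_lit 5) (nat_lit 489) (nat_lit 463) (nat_lit 188)) (XT.nd (nat_lit 78) (nat_lit 912) (nat_lit 0) (XT.lf (nat_lit 0) (nat_lit 20186926955) (nat_lit 1368) (nat_lit 5134786944) (nat_lit 76) (nat_lit 2626792639) (nat_lit 402) (nat_lit 5) (nat_lit 420) (nat_lit 5) (nat_lit 403) (nat_lit 5) (nat_lit 490) (nat_lit 463) (nat_lit 187)) (XT.lf (nat_lit 0) (nat_lit 9552806689) (nat_lit 912) (nat_lit 13282969833) (nat_lit 988) (nat_lit 5417289662) (nat_lit 390) (nat_lit 5) (nat_lit 402) (nat_lit 5) (nat_lit 403) (nat_lit 5) (nat_lit 491) (nat_lit 463) (nat_lit 186))))) (XT.nd (nat_lit 234) (nat_lit 1748) (nat_lit 0) (XT.nd (nat_lit 78) (nat_lit 912) (nat_lit 0) (XT.lf (nat_lit 0) (nat_lit 24601641838) (nat_lit 912)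 (nat_lit 968071023) (nat_lit 988) (nat_lit 2993362592) (nat_lit 390) (nat_lit 5) (nat_lit 402) (nat_lit 5) (nat_lit 403) (nat_lit 5) (nat_lit 492) (nat_lit 463) (nat_lit 185)) (XT.nd (nat_lit 78) (nat_lit 76) (nat_lit 0) (XT.lf (nat_lit 0) (nat_lit 11140892908) (nat_lit 836) (nat_lit 17362739518) (nat_lit 912) (nat_lit 372747004) (nat_lit 379) (nat_lit 5) (nat_lit 390) (nat_lit 5) (nat_lit 391) (nat_lit 5) (nat_lit 493) (nat_lit 463) (nat_lit 184)) (XT.lf (nat_lit 0) (nat_lit 2300998691) (nat_lit 912) (nat_lit 2620113063) (nat_lit 76) (nat_lit 24273921894) (nat_lit 378) (nat_lit 5) (nat_lit 390) (nat_lit 5) (nat_lit 379) (nat_lit 5) (nat_lit 494) (nat_lit 463) (nat_lit 183)))) (XT.nd (nat_lit 78) (nat_lit 836) (nat_lit 0) (XT.lf (nat_lit 0) (nat_lit 5156176567) (nat_lit 988) (nat_lit 16606375959) (nat_lit 76) (nat_lit 7754800759) (nat_lit 366) (nat_lit 5) (nat_lit 379) (nat_lit 5) (nat_lit 367) (nat_lit 5) (nat_lit 495) (nat_lit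 463) (nat_lit 182)) (XT.nd (nat_lit 78) (nat_lit 836) (nat_lit 0) (XT.lf (nat_lit 0) (nat_lit 8116538896) (nat_lit 988) (nat_lit 1092395694) (nat_lit 76) (nat_lit 20636223672) (nat_lit 366) (nat_lit 5) (nat_lit 379) (nat_lit 5) (nat_lit 367) (nat_lit 5) (nat_lit 496) (nat_lit 463) (nat_lit 181)) (XT.lf (nat_lit 0) (nat_lit 11254838488) (nat_lit 912) (nat_lit 15276083766) (nat_lit 76) (nat_lit 3646223038) (nat_lit 355) (nat_lit 5) (nat_lit 367) (nat_lit 5) (nat_lit 356) (nat_lit 5) (nat_lit 497) (nat_lit 463) (nat_lit 180))))))) (XT.nd (nat_lit 57486) (nat_lit 0) (nat_lit 5396) (XT.nd (nat_lit 57018) (nat_lit 0) (nat_lit 6764) (XT.nd (nat_lit 56784) (nat_lit 0) (nat_lit 6688) (XT.nd (nat_lit 56706) (nat_lit 0) (nat_lit 6688) (XT.lf (nat_lit 0) (nat_lit 659063486) (nat_lit 836) (nat_lit 13867349759) (nat_lit 912) (nat_lit 15987949179) (nat_lit 344) (nat_lit 5) (nat_lit 355) (nat_lit 5) (nat_lit 356) (nat_lit 5) (nat_lit 498) (nat_lit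 463) (nat_lit 179)) (XT.lf (nat_lit 0) (nat_lit 2732944790) (nat_lit 0) (nat_lit 2732944790) (nat_lit 1748) (nat_lit 5322427759) (nat_lit 432) (nat_lit 5) (nat_lit 432) (nat_lit 3) (nat_lit 455) (nat_lit 3) (nat_lit 464) (nat_lit 464) (nat_lit 212))) (XT.nd (nat_lit 78) (nat_lit 0) (nat_lit 0) (XT.lf (nat_lit 0) (nat_lit 11213139979) (nat_lit 1748) (nat_lit 5742017051) (nat_lit 1824) (nat_lit 4833763265) (nat_lit 432) (nat_lit 5) (nat_lit 455) (nat_lit 3) (nat_lit 456) (nat_lit 5) (nat_lit 465) (nat_lit 464) (nat_lit 211)) (XT.nd (nat_lit 78) (nat_lit 0) (nat_lit 76) (XT.lf (nat_lit 76) (nat_lit 4859697563) (nat_lit 0) (nat_lit 6704514117) (nat_lit 1824) (nat_lit 10439959313) (nat_lit 433) (nat_lit 5) (nat_lit 432) (nat_lit 5) (nat_lit 456) (nat_lit 5) (nat_lit 466) (nat_lit 464) (nat_lit 210)) (XT.lf (nat_lit 0) (nat_lit 11981850668) (nat_lit 1748) (nat_lit 6498282479) (nat_lit 1824) (nat_lit 3742403668) (nat_lit 433) (nat_lit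 5) (nat_lit 456) (nat_lit 5) (nat_lit 457) (nat_lit 5) (nat_lit 467) (nat_lit 464) (nat_lit 209))))) (XT.nd (nat_lit 234) (nat_lit 0) (nat_lit 152) (XT.nd (nat_lit 78) (nat_lit 0) (nat_lit 76) (XT.lf (nat_lit 76) (nat_lit 4371810423) (nat_lit 0) (nat_lit 8105291791) (nat_lit 1824) (nat_lit 9966783548) (nat_lit 434) (nat_lit 5) (nat_lit 433) (nat_lit 5) (nat_lit 457) (nat_lit 5) (nat_lit 468) (nat_lit 464) (nat_lit 208)) (XT.nd (nat_lit 78) (nat_lit 0) (nat_lit 0) (XT.lf (nat_lit 0) (nat_lit 13038777829) (nat_lit 1748) (nat_lit 7139795425) (nat_lit 1824) (nat_lit 2489959040) (nat_lit 434) (nat_lit 5) (nat_lit 457) (nat_lit 5) (nat_lit 458) (nat_lit 5) (nat_lit 469) (nat_lit 464) (nat_lit 207)) (XT.lf (nat_lit 76) (nat_lit 4008032875) (nat_lit 0) (nat_lit 9679962870) (nat_lit 1824) (nat_lit 9208150800) (nat_lit 435) (nat_lit 5) (nat_lit 434) (nat_lit 5) (nat_lit 458) (nat_lit 5) (nat_lit 470) (nat_lit 464) (nat_lit 206)))) (XT.nd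 (nat_lit 78) (nat_lit 0) (nat_lit 0) (XT.lf (nat_lit 0) (nat_lit 14401776691) (nat_lit 1748) (nat_lit 7660800432) (nat_lit 1824) (nat_lit 1064705334) (nat_lit 435) (nat_lit 5) (nat_lit 458) (nat_lit 5) (nat_lit 459) (nat_lit 5) (nat_lit 471) (nat_lit 464) (nat_lit 205)) (XT.nd (nat_lit 78) (nat_lit 0) (nat_lit 0) (XT.lf (nat_lit 76) (nat_lit 3774446733) (nat_lit 0) (nat_lit 11440734827) (nat_lit 1824) (nat_lit 8146153489) (nat_lit 436) (nat_lit 5) (nat_lit 435) (nat_lit 5) (nat_lit 459) (nat_lit 5) (nat_lit 472) (nat_lit 464) (nat_lit 204)) (XT.lf (nat_lit 76) (nat_lit 15540247056) (nat_lit 0) (nat_lit 552802886) (nat_lit 1824) (nat_lit 7506055753) (nat_lit 436) (nat_lit 5) (nat_lit 435) (nat_lit 5) (nat_lit 459) (nat_lit 5) (nat_lit 473) (nat_lit 464) (nat_lit 203)))))) (XT.nd (nat_lit 468) (nat_lit 1596) (nat_lit 0) (XT.nd (nat_lit 234) (nat_lit 0) (nat_lit 76) (XT.nd (nat_lit 78) (nat_lit 0) (nat_lit 0) (XT.lf (nat_lit 76)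 (nat_lit 3677416820) (nat_lit 0) (nat_lit 13400309595) (nat_lit 1824) (nat_lit 6762121217) (nat_lit 437) (nat_lit 5) (nat_lit 436) (nat_lit 5) (nat_lit 460) (nat_lit 5) (nat_lit 474) (nat_lit 464) (nat_lit 202)) (XT.nd (nat_lit 78) (nat_lit 0) (nat_lit 76) (XT.lf (nat_lit 76) (nat_lit 15751933042) (nat_lit 0) (nat_lit 2384786091) (nat_lit 1824) (nat_lit 5947593696) (nat_lit 437) (nat_lit 5) (nat_lit 436) (nat_lit 5) (nat_lit 460) (nat_lit 5) (nat_lit 475) (nat_lit 464) (nat_lit 201)) (XT.lf (nat_lit 76) (nat_lit 3723597066) (nat_lit 0) (nat_lit 15571911762) (nat_lit 1824) (nat_lit 5036587017) (nat_lit 438) (nat_lit 5) (nat_lit 437) (nat_lit 5) (nat_lit 461) (nat_lit 5) (nat_lit 476) (nat_lit 464) (nat_lit 200)))) (XT.nd (nat_lit 78) (nat_lit 0) (nat_lit 76) (XT.lf (nat_lit 76) (nat_lit 16115607371) (nat_lit 0) (nat_lit 4430491314) (nat_lit 1824) (nat_lit 4037364189) (nat_lit 438) (nat_lit 5) (nat_lit 437) (nat_lit 5) (nat_lit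 461) (nat_lit 5) (nat_lit 477) (nat_lit 464) (nat_lit 199)) (XT.nd (nat_lit 78) (nat_lit 0) (nat_lit 0) (XT.lf (nat_lit 76) (nat_lit 3919936765) (nat_lit 0) (nat_lit 17969317758) (nat_lit 1824) (nat_lit 2949252464) (nat_lit 439) (nat_lit 5) (nat_lit 438) (nat_lit 5) (nat_lit 462) (nat_lit 5) (nat_lit 478) (nat_lit 464) (nat_lit 198)) (XT.lf (nat_lit 76) (nat_lit 16638495495) (nat_lit 0) (nat_lit 6703878418) (nat_lit 1824) (nat_lit 1754616868) (nat_lit 439) (nat_lit 5) (nat_lit 438) (nat_lit 5) (nat_lit 462) (nat_lit 5) (nat_lit 479) (nat_lit 464) (nat_lit 197))))) (XT.nd (nat_lit 234) (nat_lit 0) (nat_lit 76) (XT.nd (nat_lit 78) (nat_lit 1824) (nat_lit 0) (XT.lf (nat_lit 76) (nat_lit 4273687001) (nat_lit 0) (nat_lit 20606886109) (nat_lit 1824) (nat_lit 478951584) (nat_lit 440) (nat_lit 5) (nat_lit 439) (nat_lit 5) (nat_lit 463) (nat_lit 5) (nat_lit 480) (nat_lit 464) (nat_lit 196)) (XT.nd (nat_lit 78) (nat_lit 0) (nat_lit 76)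 (XT.lf (nat_lit 0) (nat_lit 910189702) (nat_lit 1824) (nat_lit 8303203896) (nat_lit 1900) (nat_lit 16411834754) (nat_lit 415) (nat_lit 5) (nat_lit 439) (nat_lit 5) (nat_lit 440) (nat_lit 5) (nat_lit 481) (nat_lit 464) (nat_lit 195)) (XT.lf (nat_lit 0) (nat_lit 2364957423) (nat_lit 1824) (nat_lit 21118761292) (nat_lit 1900) (nat_lit 2411579663) (nat_lit 416) (nat_lit 5) (nat_lit 440) (nat_lit 5) (nat_lit 441) (nat_lit 5) (nat_lit 482) (nat_lit 464) (nat_lit 194)))) (XT.nd (nat_lit 78) (nat_lit 0) (nat_lit 0) (XT.lf (nat_lit 0) (nat_lit 3963236453) (nat_lit 1824) (nat_lit 8002708684) (nat_lit 1900) (nat_lit 14202537080) (nat_lit 416) (nat_lit 5) (nat_lit 440) (nat_lit 5) (nat_lit 441) (nat_lit 5) (nat_lit 483) (nat_lit 464) (nat_lit 193)) (XT.nd (nat_lit 78) (nat_lit 0) (nat_lit 76) (XT.lf (nat_lit 76) (nat_lit 5445025095) (nat_lit 0) (nat_lit 181173619) (nat_lit 1900) (nat_lit 20820277383) (nat_lit 417) (nat_lit 5) (nat_lit 416)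 (nat_lit 5) (nat_lit 441) (nat_lit 5) (nat_lit 484) (nat_lit 464) (nat_lit 192)) (XT.lf (nat_lit 0) (nat_lit 7450753788) (nat_lit 1824) (nat_lit 7538082744) (nat_lit 1900) (nat_lit 11738627357) (nat_lit 417) (nat_lit 5) (nat_lit 441) (nat_lit 5) (nat_lit 442) (nat_lit 5) (nat_lit 485) (nat_lit 464) (nat_lit 191))))))))
noncomputable def xc248 : XT := (XT.nd (nat_lit 58500) (nat_lit 0) (nat_lit 0) (XT.nd (nat_lit 858) (nat_lit 0) (nat_lit 0) (XT.nd (nat_lit 390) (nat_lit 2736) (nat_lit 0) (XT.nd (nat_lit 156) (nat_lit 1140) (nat_lit 0) (XT.nd (nat_lit 78) (nat_lit 0) (nat_lit 76) (XT.lf (nat_lit 76) (nat_lit 6273578122) (nat_lit 0) (nat_lit 3077611728) (nat_lit 1900) (nat_lit 17662094477) (nat_lit 418) (nat_lit 5) (nat_lit 417) (nat_lit 5) (nat_lit 442) (nat_lit 5) (nat_lit 486) (nat_lit 464) (nat_lit 190)) (XT.lf (nat_lit 0) (nat_lit 11396951971) (nat_lit 1824) (nat_lit 6901486299) (nat_lit 1900) (nat_lit 9004237235) (nat_lit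 418) (nat_lit 5) (nat_lit 442) (nat_lit 5) (nat_lit 443) (nat_lit 5) (nat_lit 487) (nat_lit 464) (nat_lit 189))) (XT.nd (nat_lit 78) (nat_lit 1216) (nat_lit 0) (XT.lf (nat_lit 76) (nat_lit 7286628650) (nat_lit 0) (nat_lit 6262238363) (nat_lit 1900) (nat_lit 14047683403) (nat_lit 419) (nat_lit 5) (nat_lit 418) (nat_lit 5) (nat_lit 443) (nat_lit 5) (nat_lit 488) (nat_lit 464) (nat_lit 188)) (XT.nd (nat_lit 78) (nat_lit 1292) (nat_lit 0) (XT.lf (nat_lit 0) (nat_lit 15827074839) (nat_lit 1824) (nat_lit 6084768485) (nat_lit 76) (nat_lit 5982795061) (nat_lit 419) (nat_lit 5) (nat_lit 443) (nat_lit 5) (nat_lit 420) (nat_lit 5) (nat_lit 489) (nat_lit 464) (nat_lit 187)) (XT.lf (nat_lit 0) (nat_lit 8492749789) (nat_lit 1292) (nat_lit 9752340593) (nat_lit 1368) (nat_lit 9951713498) (nat_lit 402) (nat_lit 5) (nat_lit 419) (nat_lit 5) (nat_lit 420) (nat_lit 5) (nat_lit 490) (nat_lit 464) (nat_lit 186))))) (XT.nd (nat_lit 234) (nat_lit 1824)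 (nat_lit 0) (XT.nd (nat_lit 78) (nat_lit 912) (nat_lit 0) (XT.lf (nat_lit 0) (nat_lit 20767442871) (nat_lit 1368) (nat_lit 5079461257) (nat_lit 76) (nat_lit 2656989649) (nat_lit 402) (nat_lit 5) (nat_lit 420) (nat_lit 5) (nat_lit 403) (nat_lit 5) (nat_lit 491) (nat_lit 464) (nat_lit 185)) (XT.nd (nat_lit 78) (nat_lit 0) (nat_lit 0) (XT.lf (nat_lit 0) (nat_lit 9900844633) (nat_lit 912) (nat_lit 13565977803) (nat_lit 988) (nat_lit 5347772048) (nat_lit 390) (nat_lit 5) (nat_lit 402) (nat_lit 5) (nat_lit 403) (nat_lit 5) (nat_lit 492) (nat_lit 464) (nat_lit 184)) (XT.lf (nat_lit 0) (nat_lit 25247578411) (nat_lit 912) (nat_lit 1004440848) (nat_lit 988) (nat_lit 2878853954) (nat_lit 390) (nat_lit 5) (nat_lit 402) (nat_lit 5) (nat_lit 403) (nat_lit 5) (nat_lit 493) (nat_lit 464) (nat_lit 183)))) (XT.nd (nat_lit 78) (nat_lit 988) (nat_lit 0) (XT.lf (nat_lit 0) (nat_lit 11520152642) (nat_lit 836) (nat_lit 17722020815) (nat_lit 912) (nat_lit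 208319580) (nat_lit 379) (nat_lit 5) (nat_lit 390) (nat_lit 5) (nat_lit 391) (nat_lit 5) (nat_lit 494) (nat_lit 464) (nat_lit 182)) (XT.nd (nat_lit 78) (nat_lit 912) (nat_lit 0) (XT.lf (nat_lit 0) (nat_lit 2513320719) (nat_lit 912) (nat_lit 2516887989) (nat_lit 76) (nat_lit 24745356691) (nat_lit 378) (nat_lit 5) (nat_lit 390) (nat_lit 5) (nat_lit 379) (nat_lit 5) (nat_lit 495) (nat_lit 464) (nat_lit 181)) (XT.lf (nat_lit 0) (nat_lit 5423283815) (nat_lit 988) (nat_lit 16780515766) (nat_lit 76) (nat_lit 7900579055) (nat_lit 366) (nat_lit 5) (nat_lit 379) (nat_lit 5) (nat_lit 367) (nat_lit 5) (nat_lit 496) (nat_lit 464) (nat_lit 180)))))) (XT.nd (nat_lit 57174) (nat_lit 0) (nat_lit 5092) (XT.nd (nat_lit 56940) (nat_lit 0) (nat_lit 5016) (XT.nd (nat_lit 56862) (nat_lit 0) (nat_lit 5016) (XT.lf (nat_lit 0) (nat_lit 8439638024) (nat_lit 988) (nat_lit 959353694) (nat_lit 76) (nat_lit 21039813126) (nat_lit 366) (nat_lit 5) (nat_lit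 379) (nat_lit 5) (nat_lit 367) (nat_lit 5) (nat_lit 497) (nat_lit 464) (nat_lit 179)) (XT.lf (nat_lit 0) (nat_lit 2857269389) (nat_lit 0) (nat_lit 2857269389) (nat_lit 1748) (nat_lit 5286718666) (nat_lit 432) (nat_lit 5) (nat_lit 432) (nat_lit 3) (nat_lit 455) (nat_lit 3) (nat_lit 465) (nat_lit 465) (nat_lit 210))) (XT.nd (nat_lit 78) (nat_lit 0) (nat_lit 0) (XT.lf (nat_lit 0) (nat_lit 11709714721) (nat_lit 1748) (nat_lit 5713829430) (nat_lit 1824) (nat_lit 4795630638) (nat_lit 432) (nat_lit 5) (nat_lit 455) (nat_lit 3) (nat_lit 456) (nat_lit 5) (nat_lit 466) (nat_lit 465) (nat_lit 209)) (XT.nd (nat_lit 78) (nat_lit 0) (nat_lit 76) (XT.lf (nat_lit 76) (nat_lit 5098978503) (nat_lit 0) (nat_lit 6964412426) (nat_lit 1824) (nat_lit 10375429434) (nat_lit 433) (nat_lit 5) (nat_lit 432) (nat_lit 5) (nat_lit 456) (nat_lit 5) (nat_lit 467) (nat_lit 465) (nat_lit 208)) (XT.lf (nat_lit 0) (nat_lit 12483329041) (nat_lit 1748) (nat_lit 6482818847)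 (nat_lit 1824) (nat_lit 3695528180) (nat_lit 433) (nat_lit 5) (nat_lit 456) (nat_lit 5) (nat_lit 457) (nat_lit 5) (nat_lit 468) (nat_lit 465) (nat_lit 207))))) (XT.nd (nat_lit 234) (nat_lit 0) (nat_lit 152) (XT.nd (nat_lit 78) (nat_lit 0) (nat_lit 76) (XT.lf (nat_lit 76) (nat_lit 4603719142) (nat_lit 0) (nat_lit 8380570343) (nat_lit 1824) (nat_lit 9903247895) (nat_lit 434) (nat_lit 5) (nat_lit 433) (nat_lit 5) (nat_lit 457) (nat_lit 5) (nat_lit 469) (nat_lit 465) (nat_lit 206)) (XT.nd (nat_lit 78) (nat_lit 0) (nat_lit 0) (XT.lf (nat_lit 0) (nat_lit 13551426360) (nat_lit 1748) (nat_lit 7135107608) (nat_lit 1824) (nat_lit 2430259754) (nat_lit 434) (nat_lit 5) (nat_lit 457) (nat_lit 5) (nat_lit 458) (nat_lit 5) (nat_lit 470) (nat_lit 465) (nat_lit 205)) (XT.lf (nat_lit 76) (nat_lit 4234706970) (nat_lit 0) (nat_lit 9974934241) (nat_lit 1824) (nat_lit 9139400204) (nat_lit 435) (nat_lit 5) (nat_lit 434) (nat_lit 5) (nat_lit 458) (nat_lit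 5) (nat_lit 471) (nat_lit 465) (nat_lit 204)))) (XT.nd (nat_lit 78) (nat_lit 0) (nat_lit 0) (XT.lf (nat_lit 0) (nat_lit 14932192005) (nat_lit 1748) (nat_lit 7664801074) (nat_lit 1824) (nat_lit 987918460) (nat_lit 435) (nat_lit 5) (nat_lit 458) (nat_lit 5) (nat_lit 459) (nat_lit 5) (nat_lit 472) (nat_lit 465) (nat_lit 203)) (XT.nd (nat_lit 78) (nat_lit 0) (nat_lit 0) (XT.lf (nat_lit 76) (nat_lit 3998169355) (nat_lit 0) (nat_lit 11759905503) (nat_lit 1824) (nat_lit 8065647480) (nat_lit 436) (nat_lit 5) (nat_lit 435) (nat_lit 5) (nat_lit 459) (nat_lit 5) (nat_lit 473) (nat_lit 465) (nat_lit 202)) (XT.lf (nat_lit 76) (nat_lit 15996379141) (nat_lit 0) (nat_lit 652443238) (nat_lit 1824) (nat_lit 7417520909) (nat_lit 436) (nat_lit 5) (nat_lit 435) (nat_lit 5) (nat_lit 459) (nat_lit 5) (nat_lit 474) (nat_lit 465) (nat_lit 201))))))) (XT.nd (nat_lit 858) (nat_lit 3724) (nat_lit 0) (XT.nd (nat_lit 390) (nat_lit 1596) (nat_lit 0) (XT.nd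 (nat_lit 156) (nat_lit 0) (nat_lit 76) (XT.nd (nat_lit 78) (nat_lit 0) (nat_lit 0) (XT.lf (nat_lit 76) (nat_lit 3900620873) (nat_lit 0) (nat_lit 13748392804) (nat_lit 1824) (nat_lit 6662971260) (nat_lit 437) (nat_lit 5) (nat_lit 436) (nat_lit 5) (nat_lit 460) (nat_lit 5) (nat_lit 475) (nat_lit 465) (nat_lit 200)) (XT.lf (nat_lit 76) (nat_lit 16213692993) (nat_lit 0) (nat_lit 2510988692) (nat_lit 1824) (nat_lit 5836749118) (nat_lit 437) (nat_lit 5) (nat_lit 436) (nat_lit 5) (nat_lit 460) (nat_lit 5) (nat_lit 476) (nat_lit 465) (nat_lit 199))) (XT.nd (nat_lit 78) (nat_lit 0) (nat_lit 0) (XT.lf (nat_lit 76) (nat_lit 3948869619) (nat_lit 0) (nat_lit 15953840690) (nat_lit 1824) (nat_lit 4911539158) (nat_lit 438) (nat_lit 5) (nat_lit 437) (nat_lit 5) (nat_lit 461) (nat_lit 5) (nat_lit 477) (nat_lit 465) (nat_lit 198)) (XT.nd (nat_lit 78) (nat_lit 0) (nat_lit 76) (XT.lf (nat_lit 76) (nat_lit 16585763256) (nat_lit 0) (nat_lit 4588209663)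 (nat_lit 1824) (nat_lit 3896758924) (nat_lit 438) (nat_lit 5) (nat_lit 437) (nat_lit 5) (nat_lit 461) (nat_lit 5) (nat_lit 478) (nat_lit 465) (nat_lit 197)) (XT.lf (nat_lit 76) (nat_lit 4150023668) (nat_lit 0) (nat_lit 18390259199) (nat_lit 1824) (nat_lit 2790669351) (nat_lit 439) (nat_lit 5) (nat_lit 438) (nat_lit 5) (nat_lit 462) (nat_lit 5) (nat_lit 479) (nat_lit 465) (nat_lit 196))))) (XT.nd (nat_lit 234) (nat_lit 0) (nat_lit 76) (XT.nd (nat_lit 78) (nat_lit 1748) (nat_lit 0) (XT.lf (nat_lit 76) (nat_lit 17119979295) (nat_lit 0) (nat_lit 6898304109) (nat_lit 1824) (nat_lit 1576407086) (nat_lit 439) (nat_lit 5) (nat_lit 438) (nat_lit 5) (nat_lit 462) (nat_lit 5) (nat_lit 480) (nat_lit 465) (nat_lit 195)) (XT.nd (nat_lit 78) (nat_lit 1824) (nat_lit 0) (XT.lf (nat_lit 76) (nat_lit 4511497703) (nat_lit 0) (nat_lit 21072254562) (nat_lit 1824) (nat_lit 278793857) (nat_lit 440) (nat_lit 5) (nat_lit 439) (nat_lit 5) (nat_lit 463)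 (nat_lit 5) (nat_lit 481) (nat_lit 465) (nat_lit 194)) (XT.lf (nat_lit 0) (nat_lit 1131320971) (nat_lit 1824) (nat_lit 8317165740) (nat_lit 1900) (nat_lit 16685132188) (nat_lit 415) (nat_lit 5) (nat_lit 439) (nat_lit 5) (nat_lit 440) (nat_lit 5) (nat_lit 482) (nat_lit 465) (nat_lit 193)))) (XT.nd (nat_lit 78) (nat_lit 0) (nat_lit 0) (XT.lf (nat_lit 0) (nat_lit 2611869103) (nat_lit 1824) (nat_lit 21385664959) (nat_lit 1900) (nat_lit 2411623650) (nat_lit 416) (nat_lit 5) (nat_lit 440) (nat_lit 5) (nat_lit 441) (nat_lit 5) (nat_lit 483) (nat_lit 465) (nat_lit 192)) (XT.nd (nat_lit 78) (nat_lit 0) (nat_lit 0) (XT.lf (nat_lit 0) (nat_lit 4238199742) (nat_lit 1824) (nat_lit 8010339761) (nat_lit 1900) (nat_lit 14439345070) (nat_lit 416) (nat_lit 5) (nat_lit 440) (nat_lit 5) (nat_lit 441) (nat_lit 5) (nat_lit 484) (nat_lit 465) (nat_lit 191)) (XT.lf (nat_lit 76) (nat_lit 5705345910) (nat_lit 0) (nat_lit 226221233) (nat_lit 1900) (nat_lit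 21039929315) (nat_lit 417) (nat_lit 5) (nat_lit 416) (nat_lit 5) (nat_lit 441) (nat_lit 5) (nat_lit 485) (nat_lit 465) (nat_lit 190)))))) (XT.nd (nat_lit 468) (nat_lit 2736) (nat_lit 0) (XT.nd (nat_lit 234) (nat_lit 1140) (nat_lit 0) (XT.nd (nat_lit 78) (nat_lit 0) (nat_lit 0) (XT.lf (nat_lit 0) (nat_lit 7788568376) (nat_lit 1824) (nat_lit 7536296921) (nat_lit 1900) (nat_lit 11933320632) (nat_lit 417) (nat_lit 5) (nat_lit 441) (nat_lit 5) (nat_lit 442) (nat_lit 5) (nat_lit 486) (nat_lit 465) (nat_lit 189)) (XT.nd (nat_lit 78) (nat_lit 0) (nat_lit 76) (XT.lf (nat_lit 76) (nat_lit 6550593560) (nat_lit 0) (nat_lit 3173701571) (nat_lit 1900) (nat_lit 17825483011) (nat_lit 418) (nat_lit 5) (nat_lit 417) (nat_lit 5) (nat_lit 442) (nat_lit 5) (nat_lit 487) (nat_lit 465) (nat_lit 188)) (XT.lf (nat_lit 0) (nat_lit 11807103994) (nat_lit 1824) (nat_lit 6887025840) (nat_lit 1900) (nat_lit 9150905665) (nat_lit 418) (nat_lit 5) (nat_lit 442)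 (nat_lit 5) (nat_lit 443) (nat_lit 5) (nat_lit 488) (nat_lit 465) (nat_lit 187)))) (XT.nd (nat_lit 78) (nat_lit 1216) (nat_lit 0) (XT.lf (nat_lit 76) (nat_lit 7583848183) (nat_lit 0) (nat_lit 6415619904) (nat_lit 1900) (nat_lit 14145372572) (nat_lit 419) (nat_lit 5) (nat_lit 418) (nat_lit 5) (nat_lit 443) (nat_lit 5) (nat_lit 489) (nat_lit 465) (nat_lit 186)) (XT.nd (nat_lit 78) (nat_lit 1292) (nat_lit 0) (XT.lf (nat_lit 0) (nat_lit 16319538935) (nat_lit 1824) (nat_lit 6054198749) (nat_lit 76) (nat_lit 6075227673) (nat_lit 419) (nat_lit 5) (nat_lit 443) (nat_lit 5) (nat_lit 420) (nat_lit 5) (nat_lit 490) (nat_lit 465) (nat_lit 185)) (XT.lf (nat_lit 0) (nat_lit 8813868146) (nat_lit 1292) (nat_lit 9969579282) (nat_lit 1368) (nat_lit 9973777010) (nat_lit 402) (nat_lit 5) (nat_lit 419) (nat_lit 5) (nat_lit 420) (nat_lit 5) (nat_lit 491) (nat_lit 465) (nat_lit 184))))) (XT.nd (nat_lit 234) (nat_lit 1824) (nat_lit 0) (XT.nd (nat_lit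 78) (nat_lit 912) (nat_lit 0) (XT.lf (nat_lit 0) (nat_lit 21352704625) (nat_lit 1368) (nat_lit 5029165221) (nat_lit 76) (nat_lit 2688658043) (nat_lit 402) (nat_lit 5) (nat_lit 420) (nat_lit 5) (nat_lit 403) (nat_lit 5) (nat_lit 492) (nat_lit 465) (nat_lit 183)) (XT.nd (nat_lit 78) (nat_lit 0) (nat_lit 0) (XT.lf (nat_lit 0) (nat_lit 10249747542) (nat_lit 912) (nat_lit 13853972266) (nat_lit 988) (nat_lit 5283770735) (nat_lit 390) (nat_lit 5) (nat_lit 402) (nat_lit 5) (nat_lit 403) (nat_lit 5) (nat_lit 493) (nat_lit 465) (nat_lit 182)) (XT.lf (nat_lit 0) (nat_lit 25900457446) (nat_lit 912) (nat_lit 1040877613) (nat_lit 988) (nat_lit 2768826372) (nat_lit 390) (nat_lit 5) (nat_lit 402) (nat_lit 5) (nat_lit 403) (nat_lit 5) (nat_lit 494) (nat_lit 465) (nat_lit 181)))) (XT.nd (nat_lit 78) (nat_lit 988) (nat_lit 0) (XT.lf (nat_lit 0) (nat_lit 11900922742) (nat_lit 836) (nat_lit 18088020735) (nat_lit 912) (nat_lit 47278010) (nat_lit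 379) (nat_lit 5) (nat_lit 390) (nat_lit 5) (nat_lit 391) (nat_lit 5) (nat_lit 495) (nat_lit 465) (nat_lit 180)) (XT.nd (nat_lit 78) (nat_lit 912) (nat_lit 0) (XT.lf (nat_lit 0) (nat_lit 2723431476) (nat_lit 912) (nat_lit 2417641613) (nat_lit 76) (nat_lit 25226765516) (nat_lit 378) (nat_lit 5) (nat_lit 390) (nat_lit 5) (nat_lit 379) (nat_lit 5) (nat_lit 496) (nat_lit 465) (nat_lit 179)) (XT.lf (nat_lit 0) (nat_lit 5689365521) (nat_lit 988) (nat_lit 16964273224) (nat_lit 76) (nat_lit 8049634735) (nat_lit 366) (nat_lit 5) (nat_lit 379) (nat_lit 5) (nat_lit 367) (nat_lit 5) (nat_lit 497) (nat_lit 465) (nat_lit 178))))))))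
noncomputable def xc249 : XT := (XT.nd (nat_lit 1716) (nat_lit 2812) (nat_lit 0) (XT.nd (nat_lit 858) (nat_lit 1292) (nat_lit 0) (XT.nd (nat_lit 390) (nat_lit 0) (nat_lit 152) (XT.nd (nat_lit 156) (nat_lit 0) (nat_lit 0) (XT.nd (nat_lit 78) (nat_lit 0) (nat_lit 0) (XT.lf (nat_lit 0) (nat_lit 2981375276) (nat_lit 0) (nat_lit 2981375276) (nat_lit 1748) (nat_lit 5255815546) (nat_lit 432) (nat_lit 5) (nat_lit 432) (nat_lit 3) (nat_lit 455) (nat_lit 3) (nat_lit 466) (nat_lit 466) (nat_lit 208)) (XT.lf (nat_lit 0) (nat_lit 12205646753) (nat_lit 1748) (nat_lit 5690632007) (nat_lit 1824) (nat_lit 4761970113) (nat_lit 432) (nat_lit 5) (nat_lit 455) (nat_lit 3) (nat_lit 456) (nat_lit 5) (nat_lit 467) (nat_lit 466) (nat_lit 207))) (XT.nd (nat_lit 78) (nat_lit 0) (nat_lit 76) (XT.lf (nat_lit 76) (nat_lit 5337527650) (nat_lit 0) (nat_lit 7224623423) (nat_lit 1824) (nat_lit 10320222658) (nat_lit 433) (nat_lit 5) (nat_lit 432) (nat_lit 5)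 (nat_lit 456) (nat_lit 5) (nat_lit 468) (nat_lit 466) (nat_lit 206)) (XT.nd (nat_lit 78) (nat_lit 0) (nat_lit 0) (XT.lf (nat_lit 0) (nat_lit 12984669361) (nat_lit 1748) (nat_lit 6472693138) (nat_lit 1824) (nat_lit 3652441857) (nat_lit 433) (nat_lit 5) (nat_lit 456) (nat_lit 5) (nat_lit 457) (nat_lit 5) (nat_lit 469) (nat_lit 466) (nat_lit 205)) (XT.lf (nat_lit 76) (nat_lit 4834655991) (nat_lit 0) (nat_lit 8656959831) (nat_lit 1824) (nat_lit 9848649144) (nat_lit 434) (nat_lit 5) (nat_lit 433) (nat_lit 5) (nat_lit 457) (nat_lit 5) (nat_lit 470) (nat_lit 466) (nat_lit 204))))) (XT.nd (nat_lit 234) (nat_lit 0) (nat_lit 76) (XT.nd (nat_lit 78) (nat_lit 0) (nat_lit 0) (XT.lf (nat_lit 0) (nat_lit 14064547327) (nat_lit 1748) (nat_lit 7136053008) (nat_lit 1824) (nat_lit 2373618442) (nat_lit 434) (nat_lit 5) (nat_lit 457) (nat_lit 5) (nat_lit 458) (nat_lit 5) (nat_lit 471) (nat_lit 466) (nat_lit 203)) (XT.nd (nat_lit 78) (nat_lit 0) (nat_lit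 76) (XT.lf (nat_lit 76) (nat_lit 4460225252) (nat_lit 0) (nat_lit 10271868637) (nat_lit 1824) (nat_lit 9079095539) (nat_lit 435) (nat_lit 5) (nat_lit 434) (nat_lit 5) (nat_lit 458) (nat_lit 5) (nat_lit 472) (nat_lit 466) (nat_lit 202)) (XT.lf (nat_lit 0) (nat_lit 15463803724) (nat_lit 1748) (nat_lit 7674675943) (nat_lit 1824) (nat_lit 913404453) (nat_lit 435) (nat_lit 5) (nat_lit 458) (nat_lit 5) (nat_lit 459) (nat_lit 5) (nat_lit 473) (nat_lit 466) (nat_lit 201)))) (XT.nd (nat_lit 78) (nat_lit 0) (nat_lit 0) (XT.lf (nat_lit 76) (nat_lit 4220610334) (nat_lit 0) (nat_lit 12081950961) (nat_lit 1824) (nat_lit 7992983998) (nat_lit 436) (nat_lit 5) (nat_lit 435) (nat_lit 5) (nat_lit 459) (nat_lit 5) (nat_lit 474) (nat_lit 466) (nat_lit 200)) (XT.nd (nat_lit 78) (nat_lit 0) (nat_lit 76) (XT.lf (nat_lit 76) (nat_lit 16455990637) (nat_lit 0) (nat_lit 750636561) (nat_lit 1824) (nat_lit 7336482668) (nat_lit 436) (nat_lit 5) (nat_lit 435)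 (nat_lit 5) (nat_lit 459) (nat_lit 5) (nat_lit 475) (nat_lit 466) (nat_lit 199)) (XT.lf (nat_lit 76) (nat_lit 4122477693) (nat_lit 0) (nat_lit 14100328188) (nat_lit 1824) (nat_lit 6570940046) (nat_lit 437) (nat_lit 5) (nat_lit 436) (nat_lit 5) (nat_lit 460) (nat_lit 5) (nat_lit 476) (nat_lit 466) (nat_lit 198)))))) (XT.nd (nat_lit 390) (nat_lit 1596) (nat_lit 0) (XT.nd (nat_lit 156) (nat_lit 0) (nat_lit 76) (XT.nd (nat_lit 78) (nat_lit 0) (nat_lit 76) (XT.lf (nat_lit 76) (nat_lit 16678990777) (nat_lit 0) (nat_lit 2636666827) (nat_lit 1824) (nat_lit 5732610925) (nat_lit 437) (nat_lit 5) (nat_lit 436) (nat_lit 5) (nat_lit 460) (nat_lit 5) (nat_lit 477) (nat_lit 466) (nat_lit 197)) (XT.lf (nat_lit 76) (nat_lit 4172791851) (nat_lit 0) (nat_lit 16340670957) (nat_lit 1824) (nat_lit 4792757638) (nat_lit 438) (nat_lit 5) (nat_lit 437) (nat_lit 5) (nat_lit 461) (nat_lit 5) (nat_lit 478) (nat_lit 466) (nat_lit 196))) (XT.nd (nat_lit 78)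 (nat_lit 0) (nat_lit 76) (XT.lf (nat_lit 76) (nat_lit 17059581305) (nat_lit 0) (nat_lit 4746398810) (nat_lit 1824) (nat_lit 3761936943) (nat_lit 438) (nat_lit 5) (nat_lit 437) (nat_lit 5) (nat_lit 461) (nat_lit 5) (nat_lit 479) (nat_lit 466) (nat_lit 195)) (XT.nd (nat_lit 78) (nat_lit 0) (nat_lit 0) (XT.lf (nat_lit 76) (nat_lit 4378822072) (nat_lit 0) (nat_lit 18817229209) (nat_lit 1824) (nat_lit 2637363013) (nat_lit 439) (nat_lit 5) (nat_lit 438) (nat_lit 5) (nat_lit 462) (nat_lit 5) (nat_lit 480) (nat_lit 466) (nat_lit 194)) (XT.lf (nat_lit 76) (nat_lit 17605318029) (nat_lit 0) (nat_lit 7094274924) (nat_lit 1824) (nat_lit 1402915889) (nat_lit 439) (nat_lit 5) (nat_lit 438) (nat_lit 5) (nat_lit 462) (nat_lit 5) (nat_lit 481) (nat_lit 466) (nat_lit 193))))) (XT.nd (nat_lit 234) (nat_lit 0) (nat_lit 76) (XT.nd (nat_lit 78) (nat_lit 1824) (nat_lit 0) (XT.lf (nat_lit 76) (nat_lit 4748149190) (nat_lit 0) (nat_lit 21544863370) (nat_lit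 1824) (nat_lit 82777309) (nat_lit 440) (nat_lit 5) (nat_lit 439) (nat_lit 5) (nat_lit 463) (nat_lit 5) (nat_lit 482) (nat_lit 466) (nat_lit 192)) (XT.nd (nat_lit 78) (nat_lit 0) (nat_lit 76) (XT.lf (nat_lit 0) (nat_lit 1348994943) (nat_lit 1824) (nat_lit 8337313137) (nat_lit 1900) (nat_lit 16966028929) (nat_lit 415) (nat_lit 5) (nat_lit 439) (nat_lit 5) (nat_lit 440) (nat_lit 5) (nat_lit 483) (nat_lit 466) (nat_lit 191)) (XT.lf (nat_lit 0) (nat_lit 2855967819) (nat_lit 1824) (nat_lit 21663943849) (nat_lit 1900) (nat_lit 2413539699) (nat_lit 416) (nat_lit 5) (nat_lit 440) (nat_lit 5) (nat_lit 441) (nat_lit 5) (nat_lit 484) (nat_lit 466) (nat_lit 190)))) (XT.nd (nat_lit 78) (nat_lit 0) (nat_lit 0) (XT.lf (nat_lit 0) (nat_lit 4511063084) (nat_lit 1824) (nat_lit 8024042234) (nat_lit 1900) (nat_lit 14682723713) (nat_lit 416) (nat_lit 5) (nat_lit 440) (nat_lit 5) (nat_lit 441) (nat_lit 5) (nat_lit 485) (nat_lit 466) (nat_lit 189))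 (XT.nd (nat_lit 78) (nat_lit 0) (nat_lit 76) (XT.lf (nat_lit 76) (nat_lit 5964993307) (nat_lit 0) (nat_lit 270561250) (nat_lit 1900) (nat_lit 21271614469) (nat_lit 417) (nat_lit 5) (nat_lit 416) (nat_lit 5) (nat_lit 441) (nat_lit 5) (nat_lit 486) (nat_lit 466) (nat_lit 188)) (XT.lf (nat_lit 0) (nat_lit 8125807940) (nat_lit 1824) (nat_lit 7540398987) (nat_lit 1900) (nat_lit 12133464101) (nat_lit 417) (nat_lit 5) (nat_lit 441) (nat_lit 5) (nat_lit 442) (nat_lit 5) (nat_lit 487) (nat_lit 466) (nat_lit 187))))))) (XT.nd (nat_lit 57876) (nat_lit 0) (nat_lit 4104) (XT.nd (nat_lit 390) (nat_lit 1824) (nat_lit 0) (XT.nd (nat_lit 156) (nat_lit 1140) (nat_lit 0) (XT.nd (nat_lit 78) (nat_lit 0) (nat_lit 76) (XT.lf (nat_lit 76) (nat_lit 6827264674) (nat_lit 0) (nat_lit 3270372074) (nat_lit 1900) (nat_lit 17999511553) (nat_lit 418) (nat_lit 5) (nat_lit 417) (nat_lit 5) (nat_lit 442) (nat_lit 5) (nat_lit 488) (nat_lit 466) (nat_lit 186))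 (XT.lf (nat_lit 0) (nat_lit 12218383505) (nat_lit 1824) (nat_lit 6878197552) (nat_lit 1900) (nat_lit 9301805059) (nat_lit 418) (nat_lit 5) (nat_lit 442) (nat_lit 5) (nat_lit 443) (nat_lit 5) (nat_lit 489) (nat_lit 466) (nat_lit 185))) (XT.nd (nat_lit 78) (nat_lit 1216) (nat_lit 0) (XT.lf (nat_lit 76) (nat_lit 7881129683) (nat_lit 0) (nat_lit 6570976491) (nat_lit 1900) (nat_lit 14252131908) (nat_lit 419) (nat_lit 5) (nat_lit 418) (nat_lit 5) (nat_lit 443) (nat_lit 5) (nat_lit 490) (nat_lit 466) (nat_lit 184)) (XT.nd (nat_lit 78) (nat_lit 1292) (nat_lit 0) (XT.lf (nat_lit 0) (nat_lit 16815021024) (nat_lit 1824) (nat_lit 6028930258) (nat_lit 76) (nat_lit 6170566050) (nat_lit 419) (nat_lit 5) (nat_lit 443) (nat_lit 5) (nat_lit 420) (nat_lit 5) (nat_lit 491) (nat_lit 466) (nat_lit 183)) (XT.lf (nat_lit 0) (nat_lit 9135535129) (nat_lit 1292) (nat_lit 10190301007) (nat_lit 1368) (nat_lit 10003153782) (nat_lit 402) (nat_lit 5) (nat_lit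 419) (nat_lit 5) (nat_lit 420) (nat_lit 5) (nat_lit 492) (nat_lit 466) (nat_lit 182))))) (XT.nd (nat_lit 234) (nat_lit 912) (nat_lit 0) (XT.nd (nat_lit 78) (nat_lit 912) (nat_lit 0) (XT.lf (nat_lit 0) (nat_lit 21943073689) (nat_lit 1368) (nat_lit 4983761155) (nat_lit 76) (nat_lit 2721793566) (nat_lit 402) (nat_lit 5) (nat_lit 420) (nat_lit 5) (nat_lit 403) (nat_lit 5) (nat_lit 493) (nat_lit 466) (nat_lit 181)) (XT.nd (nat_lit 78) (nat_lit 0) (nat_lit 0) (XT.lf (nat_lit 0) (nat_lit 10599769421) (nat_lit 912) (nat_lit 14147079111) (nat_lit 988) (nat_lit 5225127854) (nat_lit 390) (nat_lit 5) (nat_lit 402) (nat_lit 5) (nat_lit 403) (nat_lit 5) (nat_lit 494) (nat_lit 466) (nat_lit 180)) (XT.lf (nat_lit 0) (nat_lit 26560649857) (nat_lit 912) (nat_lit 1077408303) (nat_lit 988) (nat_lit 2663106532) (nat_lit 390) (nat_lit 5) (nat_lit 402) (nat_lit 5) (nat_lit 403) (nat_lit 5) (nat_lit 495) (nat_lit 466) (nat_lit 179)))) (XT.nd (nat_lit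 57096) (nat_lit 0) (nat_lit 4104) (XT.lf (nat_lit 0) (nat_lit 109119030) (nat_lit 912) (nat_lit 18351040507) (nat_lit 76) (nat_lit 12173618031) (nat_lit 378) (nat_lit 5) (nat_lit 390) (nat_lit 5) (nat_lit 379) (nat_lit 5) (nat_lit 496) (nat_lit 466) (nat_lit 178)) (XT.nd (nat_lit 78) (nat_lit 0) (nat_lit 0) (XT.lf (nat_lit 0) (nat_lit 3105363123) (nat_lit 0) (nat_lit 3105363123) (nat_lit 1748) (nat_lit 5229600165) (nat_lit 432) (nat_lit 5) (nat_lit 432) (nat_lit 3) (nat_lit 455) (nat_lit 3) (nat_lit 467) (nat_lit 467) (nat_lit 206)) (XT.lf (nat_lit 0) (nat_lit 12701333830) (nat_lit 1748) (nat_lit 5672308919) (nat_lit 1824) (nat_lit 4732667861) (nat_lit 432) (nat_lit 5) (nat_lit 455) (nat_lit 3) (nat_lit 456) (nat_lit 5) (nat_lit 468) (nat_lit 467) (nat_lit 205)))))) (XT.nd (nat_lit 468) (nat_lit 0) (nat_lit 228) (XT.nd (nat_lit 234) (nat_lit 0) (nat_lit 152) (XT.nd (nat_lit 78) (nat_lit 0) (nat_lit 76) (XT.lf (nat_lit 76) (nat_lit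 5575544617) (nat_lit 0) (nat_lit 7485343062) (nat_lit 1824) (nat_lit 10274113304) (nat_lit 433) (nat_lit 5) (nat_lit 432) (nat_lit 5) (nat_lit 456) (nat_lit 5) (nat_lit 469) (nat_lit 467) (nat_lit 204)) (XT.nd (nat_lit 78) (nat_lit 0) (nat_lit 0) (XT.lf (nat_lit 0) (nat_lit 13486263691) (nat_lit 1748) (nat_lit 6467792824) (nat_lit 1824) (nat_lit 3613036939) (nat_lit 433) (nat_lit 5) (nat_lit 456) (nat_lit 5) (nat_lit 457) (nat_lit 5) (nat_lit 470) (nat_lit 467) (nat_lit 203)) (XT.lf (nat_lit 76) (nat_lit 5064819379) (nat_lit 0) (nat_lit 8934653124) (nat_lit 1824) (nat_lit 9802769657) (nat_lit 434) (nat_lit 5) (nat_lit 433) (nat_lit 5) (nat_lit 457) (nat_lit 5) (nat_lit 471) (nat_lit 467) (nat_lit 202)))) (XT.nd (nat_lit 78) (nat_lit 0) (nat_lit 0) (XT.lf (nat_lit 0) (nat_lit 14578529968) (nat_lit 1748) (nat_lit 7142521903) (nat_lit 1824) (nat_lit 2319931154) (nat_lit 434) (nat_lit 5) (nat_lit 457) (nat_lit 5) (nat_lit 458) (nat_lit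 5) (nat_lit 472) (nat_lit 467) (nat_lit 201)) (XT.nd (nat_lit 78) (nat_lit 0) (nat_lit 76) (XT.lf (nat_lit 76) (nat_lit 4684785526) (nat_lit 0) (nat_lit 10570958173) (nat_lit 1824) (nat_lit 9027024366) (nat_lit 435) (nat_lit 5) (nat_lit 434) (nat_lit 5) (nat_lit 458) (nat_lit 5) (nat_lit 473) (nat_lit 467) (nat_lit 200)) (XT.lf (nat_lit 0) (nat_lit 15997001249) (nat_lit 1748) (nat_lit 7690317528) (nat_lit 1824) (nat_lit 841060877) (nat_lit 435) (nat_lit 5) (nat_lit 458) (nat_lit 5) (nat_lit 459) (nat_lit 5) (nat_lit 474) (nat_lit 467) (nat_lit 199))))) (XT.nd (nat_lit 234) (nat_lit 0) (nat_lit 76) (XT.nd (nat_lit 78) (nat_lit 0) (nat_lit 0) (XT.lf (nat_lit 76) (nat_lit 4441967554) (nat_lit 0) (nat_lit 12407064939) (nat_lit 1824) (nat_lit 7927952837) (nat_lit 436) (nat_lit 5) (nat_lit 435) (nat_lit 5) (nat_lit 459) (nat_lit 5) (nat_lit 475) (nat_lit 467) (nat_lit 198)) (XT.nd (nat_lit 78) (nat_lit 0) (nat_lit 76) (XT.lf (nat_lit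 76) (nat_lit 16919370267) (nat_lit 0) (nat_lit 847487487) (nat_lit 1824) (nat_lit 7262731105) (nat_lit 436) (nat_lit 5) (nat_lit 435) (nat_lit 5) (nat_lit 459) (nat_lit 5) (nat_lit 476) (nat_lit 467) (nat_lit 197)) (XT.lf (nat_lit 76) (nat_lit 4343185996) (nat_lit 0) (nat_lit 14456313538) (nat_lit 1824) (nat_lit 6485816518) (nat_lit 437) (nat_lit 5) (nat_lit 436) (nat_lit 5) (nat_lit 460) (nat_lit 5) (nat_lit 477) (nat_lit 467) (nat_lit 196)))) (XT.nd (nat_lit 78) (nat_lit 0) (nat_lit 76) (XT.lf (nat_lit 76) (nat_lit 17148118386) (nat_lit 0) (nat_lit 2761928385) (nat_lit 1824) (nat_lit 5634966742) (nat_lit 437) (nat_lit 5) (nat_lit 436) (nat_lit 5) (nat_lit 460) (nat_lit 5) (nat_lit 478) (nat_lit 467) (nat_lit 195)) (XT.nd (nat_lit 78) (nat_lit 0) (nat_lit 0) (XT.lf (nat_lit 76) (nat_lit 4395564144) (nat_lit 0) (nat_lit 16732606880) (nat_lit 1824) (nat_lit 4680027340) (nat_lit 438) (nat_lit 5) (nat_lit 437) (nat_lit 5) (nat_lit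 461) (nat_lit 5) (nat_lit 479) (nat_lit 467) (nat_lit 194)) (XT.lf (nat_lit 76) (nat_lit 17537357692) (nat_lit 0) (nat_lit 4905172378) (nat_lit 1824) (nat_lit 3632680142) (nat_lit 438) (nat_lit 5) (nat_lit 437) (nat_lit 5) (nat_lit 461) (nat_lit 5) (nat_lit 480) (nat_lit 467) (nat_lit 193))))))))
noncomputable def xc250 : XT := (XT.nd (nat_lit 58812) (nat_lit 0) (nat_lit 912) (XT.nd (nat_lit 858) (nat_lit 1900) (nat_lit 0) (XT.nd (nat_lit 390) (nat_lit 0) (nat_lit 76) (XT.nd (nat_lit 156) (nat_lit 1748) (nat_lit 0) (XT.nd (nat_lit 78) (nat_lit 0) (nat_lit 0) (XT.lf (nat_lit 76) (nat_lit 4606534934) (nat_lit 0) (nat_lit 19250441178) (nat_lit 1824) (nat_lit 2489110923) (nat_lit 439) (nat_lit 5) (nat_lit 438) (nat_lit 5) (nat_lit 462) (nat_lit 5) (nat_lit 481) (nat_lit 467) (nat_lit 192)) (XT.lf (nat_lit 76) (nat_lit 18094813036) (nat_lit 0) (nat_lit 7291912760) (nat_lit 1824) (nat_lit 1233916020) (nat_lit 439) (nat_lit 5) (nat_lit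 438) (nat_lit 5) (nat_lit 462) (nat_lit 5) (nat_lit 482) (nat_lit 467) (nat_lit 191))) (XT.nd (nat_lit 78) (nat_lit 0) (nat_lit 0) (XT.lf (nat_lit 0) (nat_lit 107897587) (nat_lit 1824) (nat_lit 21916315968) (nat_lit 1900) (nat_lit 4875226343) (nat_lit 415) (nat_lit 5) (nat_lit 439) (nat_lit 5) (nat_lit 440) (nat_lit 5) (nat_lit 483) (nat_lit 467) (nat_lit 190)) (XT.nd (nat_lit 78) (nat_lit 0) (nat_lit 76) (XT.lf (nat_lit 0) (nat_lit 1563448461) (nat_lit 1824) (nat_lit 8363540447) (nat_lit 1900) (nat_lit 17254594122) (nat_lit 415) (nat_lit 5) (nat_lit 439) (nat_lit 5) (nat_lit 440) (nat_lit 5) (nat_lit 484) (nat_lit 467) (nat_lit 189)) (XT.lf (nat_lit 0) (nat_lit 3097498300) (nat_lit 1824) (nat_lit 21953591038) (nat_lit 1900) (nat_lit 2417292593) (nat_lit 416) (nat_lit 5) (nat_lit 440) (nat_lit 5) (nat_lit 441) (nat_lit 5) (nat_lit 485) (nat_lit 467) (nat_lit 188))))) (XT.nd (nat_lit 234) (nat_lit 0) (nat_lit 76) (XT.nd (nat_lit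 78) (nat_lit 0) (nat_lit 0) (XT.lf (nat_lit 0) (nat_lit 4782079566) (nat_lit 1824) (nat_lit 8043707698) (nat_lit 1900) (nat_lit 14932733187) (nat_lit 416) (nat_lit 5) (nat_lit 440) (nat_lit 5) (nat_lit 441) (nat_lit 5) (nat_lit 486) (nat_lit 467) (nat_lit 187)) (XT.nd (nat_lit 78) (nat_lit 0) (nat_lit 76) (XT.lf (nat_lit 76) (nat_lit 6224182137) (nat_lit 0) (nat_lit 314241978) (nat_lit 1900) (nat_lit 21515276830) (nat_lit 417) (nat_lit 5) (nat_lit 416) (nat_lit 5) (nat_lit 441) (nat_lit 5) (nat_lit 487) (nat_lit 467) (nat_lit 186)) (XT.lf (nat_lit 0) (nat_lit 8462745664) (nat_lit 1824) (nat_lit 7550276677) (nat_lit 1900) (nat_lit 12339106331) (nat_lit 417) (nat_lit 5) (nat_lit 441) (nat_lit 5) (nat_lit 442) (nat_lit 5) (nat_lit 488) (nat_lit 467) (nat_lit 185)))) (XT.nd (nat_lit 78) (nat_lit 0) (nat_lit 76) (XT.lf (nat_lit 76) (nat_lit 7103813084) (nat_lit 0) (nat_lit 3367686927) (nat_lit 1900) (nat_lit 18184106630) (nat_lit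 418) (nat_lit 5) (nat_lit 417) (nat_lit 5) (nat_lit 442) (nat_lit 5) (nat_lit 489) (nat_lit 467) (nat_lit 184)) (XT.nd (nat_lit 78) (nat_lit 0) (nat_lit 0) (XT.lf (nat_lit 0) (nat_lit 12631087806) (nat_lit 1824) (nat_lit 6874884144) (nat_lit 1900) (nat_lit 9456969651) (nat_lit 418) (nat_lit 5) (nat_lit 442) (nat_lit 5) (nat_lit 443) (nat_lit 5) (nat_lit 490) (nat_lit 467) (nat_lit 183)) (XT.lf (nat_lit 76) (nat_lit 8178702811) (nat_lit 0) (nat_lit 6728390050) (nat_lit 1900) (nat_lit 14367866477) (nat_lit 419) (nat_lit 5) (nat_lit 418) (nat_lit 5) (nat_lit 443) (nat_lit 5) (nat_lit 491) (nat_lit 467) (nat_lit 182)))))) (XT.nd (nat_lit 57486) (nat_lit 0) (nat_lit 3192) (XT.nd (nat_lit 156) (nat_lit 912) (nat_lit 0) (XT.nd (nat_lit 78) (nat_lit 1292) (nat_lit 0) (XT.lf (nat_lit 0) (nat_lit 17313846732) (nat_lit 1824) (nat_lit 6008839442) (nat_lit 76) (nat_lit 6268827260) (nat_lit 419) (nat_lit 5) (nat_lit 443) (nat_lit 5) (nat_lit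 420) (nat_lit 5) (nat_lit 492) (nat_lit 467) (nat_lit 181)) (XT.lf (nat_lit 0) (nat_lit 9457989797) (nat_lit 1292) (nat_lit 10414608891) (nat_lit 1368) (nat_lit 10039723231) (nat_lit 402) (nat_lit 5) (nat_lit 419) (nat_lit 5) (nat_lit 420) (nat_lit 5) (nat_lit 493) (nat_lit 467) (nat_lit 180))) (XT.nd (nat_lit 78) (nat_lit 912) (nat_lit 0) (XT.lf (nat_lit 0) (nat_lit 22538908414) (nat_lit 1368) (nat_lit 4943117874) (nat_lit 76) (nat_lit 2756393184) (nat_lit 402) (nat_lit 5) (nat_lit 420) (nat_lit 5) (nat_lit 403) (nat_lit 5) (nat_lit 494) (nat_lit 467) (nat_lit 179)) (XT.nd (nat_lit 78) (nat_lit 0) (nat_lit 0) (XT.lf (nat_lit 0) (nat_lit 10951160165) (nat_lit 912) (nat_lit 14445425730) (nat_lit 988) (nat_lit 5171692796) (nat_lit 390) (nat_lit 5) (nat_lit 402) (nat_lit 5) (nat_lit 403) (nat_lit 5) (nat_lit 495) (nat_lit 467) (nat_lit 178)) (XT.lf (nat_lit 0) (nat_lit 27228524968) (nat_lit 912) (nat_lit 1114059446) (nat_lit 988)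 (nat_lit 2561527863) (nat_lit 390) (nat_lit 5) (nat_lit 402) (nat_lit 5) (nat_lit 403) (nat_lit 5) (nat_lit 496) (nat_lit 467) (nat_lit 177))))) (XT.nd (nat_lit 234) (nat_lit 0) (nat_lit 76) (XT.nd (nat_lit 78) (nat_lit 0) (nat_lit 0) (XT.lf (nat_lit 0) (nat_lit 3229331536) (nat_lit 0) (nat_lit 3229331536) (nat_lit 1748) (nat_lit 5207960245) (nat_lit 432) (nat_lit 5) (nat_lit 432) (nat_lit 3) (nat_lit 455) (nat_lit 3) (nat_lit 468) (nat_lit 468) (nat_lit 204)) (XT.nd (nat_lit 78) (nat_lit 0) (nat_lit 0) (XT.lf (nat_lit 0) (nat_lit 13197165718) (nat_lit 1748) (nat_lit 5658750361) (nat_lit 1824) (nat_lit 4707615668) (nat_lit 432) (nat_lit 5) (nat_lit 455) (nat_lit 3) (nat_lit 456) (nat_lit 5) (nat_lit 469) (nat_lit 468) (nat_lit 203)) (XT.lf (nat_lit 76) (nat_lit 5813224689) (nat_lit 0) (nat_lit 7746763851) (nat_lit 1824) (nat_lit 10236887183) (nat_lit 433) (nat_lit 5) (nat_lit 432) (nat_lit 5) (nat_lit 456) (nat_lit 5) (nat_lit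 470) (nat_lit 468) (nat_lit 202)))) (XT.nd (nat_lit 78) (nat_lit 0) (nat_lit 0) (XT.lf (nat_lit 0) (nat_lit 13988496598) (nat_lit 1748) (nat_lit 6468011640) (nat_lit 1824) (nat_lit 3577210639) (nat_lit 433) (nat_lit 5) (nat_lit 456) (nat_lit 5) (nat_lit 457) (nat_lit 5) (nat_lit 471) (nat_lit 468) (nat_lit 201)) (XT.nd (nat_lit 78) (nat_lit 0) (nat_lit 76) (XT.lf (nat_lit 76) (nat_lit 5294403221) (nat_lit 0) (nat_lit 9213840319) (nat_lit 1824) (nat_lit 9765402838) (nat_lit 434) (nat_lit 5) (nat_lit 433) (nat_lit 5) (nat_lit 457) (nat_lit 5) (nat_lit 472) (nat_lit 468) (nat_lit 200)) (XT.lf (nat_lit 0) (nat_lit 15093756561) (nat_lit 1748) (nat_lit 7154411014) (nat_lit 1824) (nat_lit 2269098273) (nat_lit 434) (nat_lit 5) (nat_lit 457) (nat_lit 5) (nat_lit 458) (nat_lit 5) (nat_lit 473) (nat_lit 468) (nat_lit 199))))))) (XT.nd (nat_lit 858) (nat_lit 988) (nat_lit 0) (XT.nd (nat_lit 390) (nat_lit 1444) (nat_lit 0) (XT.nd (nat_lit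 156) (nat_lit 0) (nat_lit 76) (XT.nd (nat_lit 78) (nat_lit 0) (nat_lit 76) (XT.lf (nat_lit 76) (nat_lit 4908580977) (nat_lit 0) (nat_lit 10872392872) (nat_lit 1824) (nat_lit 8982984803) (nat_lit 435) (nat_lit 5) (nat_lit 434) (nat_lit 5) (nat_lit 458) (nat_lit 5) (nat_lit 474) (nat_lit 468) (nat_lit 198)) (XT.lf (nat_lit 0) (nat_lit 16532167583) (nat_lit 1748) (nat_lit 7711624903) (nat_lit 1824) (nat_lit 770788991) (nat_lit 435) (nat_lit 5) (nat_lit 458) (nat_lit 5) (nat_lit 459) (nat_lit 5) (nat_lit 475) (nat_lit 468) (nat_lit 197))) (XT.nd (nat_lit 78) (nat_lit 0) (nat_lit 0) (XT.lf (nat_lit 76) (nat_lit 4662434177) (nat_lit 0) (nat_lit 12735439762) (nat_lit 1824) (nat_lit 7870353837) (nat_lit 436) (nat_lit 5) (nat_lit 435) (nat_lit 5) (nat_lit 459) (nat_lit 5) (nat_lit 476) (nat_lit 468) (nat_lit 196)) (XT.nd (nat_lit 78) (nat_lit 0) (nat_lit 76) (XT.lf (nat_lit 76) (nat_lit 17386804018) (nat_lit 0) (nat_lit 943097555) (nat_lit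 1824) (nat_lit 7196066064) (nat_lit 436) (nat_lit 5) (nat_lit 435) (nat_lit 5) (nat_lit 459) (nat_lit 5) (nat_lit 477) (nat_lit 468) (nat_lit 195)) (XT.lf (nat_lit 76) (nat_lit 4562939709) (nat_lit 0) (nat_lit 14816545908) (nat_lit 1824) (nat_lit 6407399122) (nat_lit 437) (nat_lit 5) (nat_lit 436) (nat_lit 5) (nat_lit 460) (nat_lit 5) (nat_lit 478) (nat_lit 468) (nat_lit 194))))) (XT.nd (nat_lit 234) (nat_lit 1596) (nat_lit 0) (XT.nd (nat_lit 78) (nat_lit 0) (nat_lit 76) (XT.lf (nat_lit 76) (nat_lit 17621365061) (nat_lit 0) (nat_lit 2886878815) (nat_lit 1824) (nat_lit 5543613404) (nat_lit 437) (nat_lit 5) (nat_lit 436) (nat_lit 5) (nat_lit 460) (nat_lit 5) (nat_lit 479) (nat_lit 468) (nat_lit 193)) (XT.nd (nat_lit 78) (nat_lit 0) (nat_lit 0) (XT.lf (nat_lit 76) (nat_lit 4617382054) (nat_lit 0) (nat_lit 17129852735) (nat_lit 1824) (nat_lit 4573142064) (nat_lit 438) (nat_lit 5) (nat_lit 437) (nat_lit 5) (nat_lit 461) (nat_lit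 5) (nat_lit 480) (nat_lit 468) (nat_lit 192)) (XT.lf (nat_lit 76) (nat_lit 18019385853) (nat_lit 0) (nat_lit 5064642216) (nat_lit 1824) (nat_lit 3508779017) (nat_lit 438) (nat_lit 5) (nat_lit 437) (nat_lit 5) (nat_lit 461) (nat_lit 5) (nat_lit 481) (nat_lit 468) (nat_lit 191)))) (XT.nd (nat_lit 78) (nat_lit 1748) (nat_lit 0) (XT.lf (nat_lit 76) (nat_lit 4833360384) (nat_lit 0) (nat_lit 19690109156) (nat_lit 1824) (nat_lit 2345698840) (nat_lit 439) (nat_lit 5) (nat_lit 438) (nat_lit 5) (nat_lit 462) (nat_lit 5) (nat_lit 482) (nat_lit 468) (nat_lit 190)) (XT.nd (nat_lit 78) (nat_lit 1748) (nat_lit 0) (XT.lf (nat_lit 76) (nat_lit 18588762975) (nat_lit 0) (nat_lit 7491338421) (nat_lit 1824) (nat_lit 1069188162) (nat_lit 439) (nat_lit 5) (nat_lit 438) (nat_lit 5) (nat_lit 462) (nat_lit 5) (nat_lit 483) (nat_lit 468) (nat_lit 189)) (XT.lf (nat_lit 0) (nat_lit 293853204) (nat_lit 1824) (nat_lit 22216878608) (nat_lit 1900) (nat_lit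 4922970688) (nat_lit 415) (nat_lit 5) (nat_lit 439) (nat_lit 5) (nat_lit 440) (nat_lit 5) (nat_lit 484) (nat_lit 468) (nat_lit 188)))))) (XT.nd (nat_lit 468) (nat_lit 988) (nat_lit 0) (XT.nd (nat_lit 234) (nat_lit 0) (nat_lit 76) (XT.nd (nat_lit 78) (nat_lit 0) (nat_lit 76) (XT.lf (nat_lit 0) (nat_lit 1774911220) (nat_lit 1824) (nat_lit 8395748826) (nat_lit 1900) (nat_lit 17550901513) (nat_lit 415) (nat_lit 5) (nat_lit 439) (nat_lit 5) (nat_lit 440) (nat_lit 5) (nat_lit 485) (nat_lit 468) (nat_lit 187)) (XT.nd (nat_lit 78) (nat_lit 0) (nat_lit 0) (XT.lf (nat_lit 0) (nat_lit 3336698482) (nat_lit 1824) (nat_lit 22254608563) (nat_lit 1900) (nat_lit 2422849229) (nat_lit 416) (nat_lit 5) (nat_lit 440) (nat_lit 5) (nat_lit 441) (nat_lit 5) (nat_lit 486) (nat_lit 468) (nat_lit 186)) (XT.lf (nat_lit 0) (nat_lit 5051495879) (nat_lit 1824) (nat_lit 8069234504) (nat_lit 1900) (nat_lit 15189437639) (nat_lit 416) (nat_lit 5) (nat_lit 440)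 (nat_lit 5) (nat_lit 441) (nat_lit 5) (nat_lit 487) (nat_lit 468) (nat_lit 185)))) (XT.nd (nat_lit 78) (nat_lit 0) (nat_lit 76) (XT.lf (nat_lit 76) (nat_lit 6483122685) (nat_lit 0) (nat_lit 357310270) (nat_lit 1900) (nat_lit 21770870787) (nat_lit 417) (nat_lit 5) (nat_lit 416) (nat_lit 5) (nat_lit 441) (nat_lit 5) (nat_lit 488) (nat_lit 468) (nat_lit 184)) (XT.nd (nat_lit 78) (nat_lit 0) (nat_lit 0) (XT.lf (nat_lit 0) (nat_lit 8799649141) (nat_lit 1824) (nat_lit 7565824416) (nat_lit 1900) (nat_lit 12550299212) (nat_lit 417) (nat_lit 5) (nat_lit 441) (nat_lit 5) (nat_lit 442) (nat_lit 5) (nat_lit 489) (nat_lit 468) (nat_lit 183)) (XT.lf (nat_lit 76) (nat_lit 7380455970) (nat_lit 0) (nat_lit 3465709073) (nat_lit 1900) (nat_lit 18379204416) (nat_lit 418) (nat_lit 5) (nat_lit 417) (nat_lit 5) (nat_lit 442) (nat_lit 5) (nat_lit 490) (nat_lit 468) (nat_lit 182))))) (XT.nd (nat_lit 234) (nat_lit 1216) (nat_lit 0) (XT.nd (nat_lit 78)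 (nat_lit 0) (nat_lit 0) (XT.lf (nat_lit 0) (nat_lit 13045509477) (nat_lit 1824) (nat_lit 6876974907) (nat_lit 1900) (nat_lit 9616436312) (nat_lit 418) (nat_lit 5) (nat_lit 442) (nat_lit 5) (nat_lit 443) (nat_lit 5) (nat_lit 491) (nat_lit 468) (nat_lit 181)) (XT.nd (nat_lit 78) (nat_lit 0) (nat_lit 76) (XT.lf (nat_lit 76) (nat_lit 8476792952) (nat_lit 0) (nat_lit 6887942502) (nat_lit 1900) (nat_lit 14492490176) (nat_lit 419) (nat_lit 5) (nat_lit 418) (nat_lit 5) (nat_lit 443) (nat_lit 5) (nat_lit 492) (nat_lit 468) (nat_lit 180)) (XT.lf (nat_lit 0) (nat_lit 17816337900) (nat_lit 1824) (nat_lit 5993809175) (nat_lit 76) (nat_lit 6370030303) (nat_lit 419) (nat_lit 5) (nat_lit 443) (nat_lit 5) (nat_lit 420) (nat_lit 5) (nat_lit 493) (nat_lit 468) (nat_lit 179)))) (XT.nd (nat_lit 78) (nat_lit 0) (nat_lit 0) (XT.lf (nat_lit 0) (nat_lit 9781467129) (nat_lit 1292) (nat_lit 10642606820) (nat_lit 1368) (nat_lit 10083372727) (nat_lit 402)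 (nat_lit 5) (nat_lit 419) (nat_lit 5) (nat_lit 420) (nat_lit 5) (nat_lit 494) (nat_lit 468) (nat_lit 178)) (XT.nd (nat_lit 57330) (nat_lit 0) (nat_lit 2280) (XT.lf (nat_lit 0) (nat_lit 23140564371) (nat_lit 1368) (nat_lit 4907110466) (nat_lit 76) (nat_lit 2792455061) (nat_lit 402) (nat_lit 5) (nat_lit 420) (nat_lit 5) (nat_lit 403) (nat_lit 5) (nat_lit 495) (nat_lit 468) (nat_lit 177)) (XT.lf (nat_lit 0) (nat_lit 3353377174) (nat_lit 0) (nat_lit 3353377174) (nat_lit 1748) (nat_lit 5190789266) (nat_lit 432) (nat_lit 5) (nat_lit 432) (nat_lit 3) (nat_lit 455) (nat_lit 3) (nat_lit 469) (nat_lit 469) (nat_lit 202))))))))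
noncomputable def xc251 : XT := (XT.nd (nat_lit 1716) (nat_lit 988) (nat_lit 0) (XT.nd (nat_lit 858) (nat_lit 1292) (nat_lit 0) (XT.nd (nat_lit 390) (nat_lit 0) (nat_lit 152) (XT.nd (nat_lit 156) (nat_lit 0) (nat_lit 76) (XT.nd (nat_lit 78) (nat_lit 0) (nat_lit 0) (XT.lf (nat_lit 0) (nat_lit 13693524654) (nat_lit 1748) (nat_lit 5649852380) (nat_lit 1824) (nat_lit 4686710743) (nat_lit 432) (nat_lit 5) (nat_lit 455) (nat_lit 3) (nat_lit 456) (nat_lit 5) (nat_lit 470) (nat_lit 469) (nat_lit 201)) (XT.lf (nat_lit 76) (nat_lit 6050759059) (nat_lit 0) (nat_lit 8009075068) (nat_lit 1824) (nat_lit 10208341201) (nat_lit 433) (nat_lit 5) (nat_lit 432) (nat_lit 5) (nat_lit 456) (nat_lit 5) (nat_lit 471) (nat_lit 469) (nat_lit 200))) (XT.nd (nat_lit 78) (nat_lit 0) (nat_lit 0) (XT.lf (nat_lit 0) (nat_lit 14491745609) (nat_lit 1748) (nat_lit 6473249381) (nat_lit 1824) (nat_lit 3544864964) (nat_lit 433) (nat_lit 5) (nat_lit 456) (nat_lit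 5) (nat_lit 457) (nat_lit 5) (nat_lit 472) (nat_lit 469) (nat_lit 199)) (XT.nd (nat_lit 78) (nat_lit 0) (nat_lit 76) (XT.lf (nat_lit 76) (nat_lit 5523597182) (nat_lit 0) (nat_lit 9494708949) (nat_lit 1824) (nat_lit 9736352751) (nat_lit 434) (nat_lit 5) (nat_lit 433) (nat_lit 5) (nat_lit 457) (nat_lit 5) (nat_lit 473) (nat_lit 469) (nat_lit 198)) (XT.lf (nat_lit 0) (nat_lit 15610602851) (nat_lit 1748) (nat_lit 7171623295) (nat_lit 1824) (nat_lit 2221024352) (nat_lit 434) (nat_lit 5) (nat_lit 457) (nat_lit 5) (nat_lit 458) (nat_lit 5) (nat_lit 474) (nat_lit 469) (nat_lit 197))))) (XT.nd (nat_lit 234) (nat_lit 0) (nat_lit 76) (XT.nd (nat_lit 78) (nat_lit 0) (nat_lit 76) (XT.lf (nat_lit 76) (nat_lit 5131800404) (nat_lit 0) (nat_lit 11176360852) (nat_lit 1824) (nat_lit 8946785166) (nat_lit 435) (nat_lit 5) (nat_lit 434) (nat_lit 5) (nat_lit 458) (nat_lit 5) (nat_lit 475) (nat_lit 469) (nat_lit 196)) (XT.nd (nat_lit 78) (nat_lit 0)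 (nat_lit 0) (XT.lf (nat_lit 0) (nat_lit 17069679743) (nat_lit 1748) (nat_lit 7738503522) (nat_lit 1824) (nat_lit 702493599) (nat_lit 435) (nat_lit 5) (nat_lit 458) (nat_lit 5) (nat_lit 459) (nat_lit 5) (nat_lit 476) (nat_lit 469) (nat_lit 195)) (XT.lf (nat_lit 76) (nat_lit 4882198885) (nat_lit 0) (nat_lit 13067266517) (nat_lit 1824) (nat_lit 7819996539) (nat_lit 436) (nat_lit 5) (nat_lit 435) (nat_lit 5) (nat_lit 459) (nat_lit 5) (nat_lit 477) (nat_lit 469) (nat_lit 194)))) (XT.nd (nat_lit 78) (nat_lit 0) (nat_lit 76) (XT.lf (nat_lit 76) (nat_lit 17858575416) (nat_lit 0) (nat_lit 1037565348) (nat_lit 1824) (nat_lit 7136296822) (nat_lit 436) (nat_lit 5) (nat_lit 435) (nat_lit 5) (nat_lit 459) (nat_lit 5) (nat_lit 478) (nat_lit 469) (nat_lit 193)) (XT.nd (nat_lit 78) (nat_lit 0) (nat_lit 0) (XT.lf (nat_lit 76) (nat_lit 4781928216) (nat_lit 0) (nat_lit 15181221789) (nat_lit 1824) (nat_lit 6335495465) (nat_lit 437) (nat_lit 5) (nat_lit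 436) (nat_lit 5) (nat_lit 460) (nat_lit 5) (nat_lit 479) (nat_lit 469) (nat_lit 192)) (XT.lf (nat_lit 76) (nat_lit 18099017570) (nat_lit 0) (nat_lit 3011621257) (nat_lit 1824) (nat_lit 5458356613) (nat_lit 437) (nat_lit 5) (nat_lit 436) (nat_lit 5) (nat_lit 460) (nat_lit 5) (nat_lit 480) (nat_lit 469) (nat_lit 191)))))) (XT.nd (nat_lit 390) (nat_lit 0) (nat_lit 0) (XT.nd (nat_lit 156) (nat_lit 1672) (nat_lit 0) (XT.nd (nat_lit 78) (nat_lit 0) (nat_lit 0) (XT.lf (nat_lit 76) (nat_lit 4838436565) (nat_lit 0) (nat_lit 17532612918) (nat_lit 1824) (nat_lit 4471904191) (nat_lit 438) (nat_lit 5) (nat_lit 437) (nat_lit 5) (nat_lit 461) (nat_lit 5) (nat_lit 481) (nat_lit 469) (nat_lit 190)) (XT.lf (nat_lit 76) (nat_lit 18505956776) (nat_lit 0) (nat_lit 5224918519) (nat_lit 1824) (nat_lit 3390032328) (nat_lit 438) (nat_lit 5) (nat_lit 437) (nat_lit 5) (nat_lit 461) (nat_lit 5) (nat_lit 482) (nat_lit 469) (nat_lit 189))) (XT.nd (nat_lit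 78) (nat_lit 1748) (nat_lit 0) (XT.lf (nat_lit 76) (nat_lit 5059491982) (nat_lit 0) (nat_lit 20136448012) (nat_lit 1824) (nat_lit 2206920485) (nat_lit 439) (nat_lit 5) (nat_lit 438) (nat_lit 5) (nat_lit 462) (nat_lit 5) (nat_lit 483) (nat_lit 469) (nat_lit 188)) (XT.nd (nat_lit 78) (nat_lit 1748) (nat_lit 0) (XT.lf (nat_lit 76) (nat_lit 19087464108) (nat_lit 0) (nat_lit 7692671732) (nat_lit 1824) (nat_lit 908520620) (nat_lit 439) (nat_lit 5) (nat_lit 438) (nat_lit 5) (nat_lit 462) (nat_lit 5) (nat_lit 484) (nat_lit 469) (nat_lit 187)) (XT.lf (nat_lit 0) (nat_lit 476390846) (nat_lit 1824) (nat_lit 22528802033) (nat_lit 1900) (nat_lit 4973602168) (nat_lit 415) (nat_lit 5) (nat_lit 439) (nat_lit 5) (nat_lit 440) (nat_lit 5) (nat_lit 485) (nat_lit 469) (nat_lit 186))))) (XT.nd (nat_lit 234) (nat_lit 0) (nat_lit 76) (XT.nd (nat_lit 78) (nat_lit 0) (nat_lit 76) (XT.lf (nat_lit 0) (nat_lit 1983606089) (nat_lit 1824) (nat_lit 8433846011)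 (nat_lit 1900) (nat_lit 17855029413) (nat_lit 415) (nat_lit 5) (nat_lit 439) (nat_lit 5) (nat_lit 440) (nat_lit 5) (nat_lit 486) (nat_lit 469) (nat_lit 185)) (XT.nd (nat_lit 78) (nat_lit 0) (nat_lit 0) (XT.lf (nat_lit 0) (nat_lit 3573799826) (nat_lit 1824) (nat_lit 22567007256) (nat_lit 1900) (nat_lit 2430178555) (nat_lit 416) (nat_lit 5) (nat_lit 440) (nat_lit 5) (nat_lit 441) (nat_lit 5) (nat_lit 487) (nat_lit 469) (nat_lit 184)) (XT.lf (nat_lit 0) (nat_lit 5319552634) (nat_lit 1824) (nat_lit 8100527548) (nat_lit 1900) (nat_lit 15452905158) (nat_lit 416) (nat_lit 5) (nat_lit 440) (nat_lit 5) (nat_lit 441) (nat_lit 5) (nat_lit 488) (nat_lit 469) (nat_lit 183)))) (XT.nd (nat_lit 78) (nat_lit 0) (nat_lit 76) (XT.lf (nat_lit 76) (nat_lit 6742020918) (nat_lit 0) (nat_lit 399811582) (nat_lit 1900) (nat_lit 22038360886) (nat_lit 417) (nat_lit 5) (nat_lit 416) (nat_lit 5) (nat_lit 441) (nat_lit 5) (nat_lit 489) (nat_lit 469) (nat_lit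 182)) (XT.nd (nat_lit 78) (nat_lit 0) (nat_lit 0) (XT.lf (nat_lit 0) (nat_lit 9136780689) (nat_lit 1824) (nat_lit 7586943101) (nat_lit 1900) (nat_lit 12767097924) (nat_lit 417) (nat_lit 5) (nat_lit 441) (nat_lit 5) (nat_lit 442) (nat_lit 5) (nat_lit 490) (nat_lit 469) (nat_lit 181)) (XT.lf (nat_lit 76) (nat_lit 7657406328) (nat_lit 0) (nat_lit 3564500771) (nat_lit 1900) (nat_lit 18584750493) (nat_lit 418) (nat_lit 5) (nat_lit 417) (nat_lit 5) (nat_lit 442) (nat_lit 5) (nat_lit 491) (nat_lit 469) (nat_lit 180))))))) (XT.nd (nat_lit 58188) (nat_lit 0) (nat_lit 988) (XT.nd (nat_lit 57720) (nat_lit 0) (nat_lit 2280) (XT.nd (nat_lit 156) (nat_lit 1216) (nat_lit 0) (XT.nd (nat_lit 78) (nat_lit 0) (nat_lit 0) (XT.lf (nat_lit 0) (nat_lit 13461936693) (nat_lit 1824) (nat_lit 6884365501) (nat_lit 1900) (nat_lit 9780244535) (nat_lit 418) (nat_lit 5) (nat_lit 442) (nat_lit 5) (nat_lit 443) (nat_lit 5) (nat_lit 492) (nat_lit 469) (nat_lit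 179)) (XT.lf (nat_lit 76) (nat_lit 8775621473) (nat_lit 0) (nat_lit 7049715817) (nat_lit 1900) (nat_lit 14625925494) (nat_lit 419) (nat_lit 5) (nat_lit 418) (nat_lit 5) (nat_lit 443) (nat_lit 5) (nat_lit 493) (nat_lit 469) (nat_lit 178))) (XT.nd (nat_lit 78) (nat_lit 1292) (nat_lit 0) (XT.lf (nat_lit 0) (nat_lit 18322812903) (nat_lit 1824) (nat_lit 5983728557) (nat_lit 76) (nat_lit 6474196094) (nat_lit 419) (nat_lit 5) (nat_lit 443) (nat_lit 5) (nat_lit 420) (nat_lit 5) (nat_lit 494) (nat_lit 469) (nat_lit 177)) (XT.nd (nat_lit 57408) (nat_lit 0) (nat_lit 2280) (XT.lf (nat_lit 0) (nat_lit 10106198294) (nat_lit 1292) (nat_lit 10874399510) (nat_lit 1368) (nat_lit 10133997343) (nat_lit 402) (nat_lit 5) (nat_lit 419) (nat_lit 5) (nat_lit 420) (nat_lit 5) (nat_lit 495) (nat_lit 469) (nat_lit 176)) (XT.lf (nat_lit 0) (nat_lit 3477594859) (nat_lit 0) (nat_lit 3477594859) (nat_lit 1748) (nat_lit 5177986267) (nat_lit 432) (nat_lit 5)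 (nat_lit 432) (nat_lit 3) (nat_lit 455) (nat_lit 3) (nat_lit 470) (nat_lit 470) (nat_lit 200))))) (XT.nd (nat_lit 234) (nat_lit 0) (nat_lit 76) (XT.nd (nat_lit 78) (nat_lit 0) (nat_lit 0) (XT.lf (nat_lit 0) (nat_lit 14190785785) (nat_lit 1748) (nat_lit 5645516682) (nat_lit 1824) (nat_lit 4669855533) (nat_lit 432) (nat_lit 5) (nat_lit 455) (nat_lit 3) (nat_lit 456) (nat_lit 5) (nat_lit 471) (nat_lit 470) (nat_lit 199)) (XT.nd (nat_lit 78) (nat_lit 0) (nat_lit 76) (XT.lf (nat_lit 76) (nat_lit 6288335059) (nat_lit 0) (nat_lit 8272462970) (nat_lit 1824) (nat_lit 10188282991) (nat_lit 433) (nat_lit 5) (nat_lit 432) (nat_lit 5) (nat_lit 456) (nat_lit 5) (nat_lit 472) (nat_lit 470) (nat_lit 198)) (XT.lf (nat_lit 0) (nat_lit 14996381634) (nat_lit 1748) (nat_lit 6483411705) (nat_lit 1824) (nat_lit 3515906547) (nat_lit 433) (nat_lit 5) (nat_lit 456) (nat_lit 5) (nat_lit 457) (nat_lit 5) (nat_lit 473) (nat_lit 470) (nat_lit 197)))) (XT.nd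 (nat_lit 78) (nat_lit 0) (nat_lit 76) (XT.lf (nat_lit 76) (nat_lit 5752586903) (nat_lit 0) (nat_lit 9777444173) (nat_lit 1824) (nat_lit 9715433763) (nat_lit 434) (nat_lit 5) (nat_lit 433) (nat_lit 5) (nat_lit 457) (nat_lit 5) (nat_lit 474) (nat_lit 470) (nat_lit 196)) (XT.nd (nat_lit 78) (nat_lit 0) (nat_lit 0) (XT.lf (nat_lit 0) (nat_lit 16129438474) (nat_lit 1748) (nat_lit 7194067737) (nat_lit 1824) (nat_lit 2175617958) (nat_lit 434) (nat_lit 5) (nat_lit 457) (nat_lit 5) (nat_lit 458) (nat_lit 5) (nat_lit 475) (nat_lit 470) (nat_lit 195)) (XT.lf (nat_lit 76) (nat_lit 5354628462) (nat_lit 0) (nat_lit 11483048509) (nat_lit 1824) (nat_lit 8918243617) (nat_lit 435) (nat_lit 5) (nat_lit 434) (nat_lit 5) (nat_lit 458) (nat_lit 5) (nat_lit 476) (nat_lit 470) (nat_lit 194)))))) (XT.nd (nat_lit 468) (nat_lit 1520) (nat_lit 0) (XT.nd (nat_lit 234) (nat_lit 0) (nat_lit 76) (XT.nd (nat_lit 78) (nat_lit 0) (nat_lit 0) (XT.lf (nat_lit 0)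 (nat_lit 17609909179) (nat_lit 1748) (nat_lit 7770865020) (nat_lit 1824) (nat_lit 636082906) (nat_lit 435) (nat_lit 5) (nat_lit 458) (nat_lit 5) (nat_lit 459) (nat_lit 5) (nat_lit 477) (nat_lit 470) (nat_lit 193)) (XT.nd (nat_lit 78) (nat_lit 0) (nat_lit 0) (XT.lf (nat_lit 76) (nat_lit 5101446116) (nat_lit 0) (nat_lit 13402735222) (nat_lit 1824) (nat_lit 7776699839) (nat_lit 436) (nat_lit 5) (nat_lit 435) (nat_lit 5) (nat_lit 459) (nat_lit 5) (nat_lit 478) (nat_lit 470) (nat_lit 192)) (XT.lf (nat_lit 76) (nat_lit 18334965800) (nat_lit 0) (nat_lit 1130986631) (nat_lit 1824) (nat_lit 7083241747) (nat_lit 436) (nat_lit 5) (nat_lit 435) (nat_lit 5) (nat_lit 459) (nat_lit 5) (nat_lit 479) (nat_lit 470) (nat_lit 191)))) (XT.nd (nat_lit 78) (nat_lit 0) (nat_lit 0) (XT.lf (nat_lit 76) (nat_lit 5000336593) (nat_lit 0) (nat_lit 15550537269) (nat_lit 1824) (nat_lit 6269921983) (nat_lit 437) (nat_lit 5) (nat_lit 436) (nat_lit 5) (nat_lit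 460) (nat_lit 5) (nat_lit 480) (nat_lit 470) (nat_lit 190)) (XT.nd (nat_lit 78) (nat_lit 0) (nat_lit 76) (XT.lf (nat_lit 76) (nat_lit 18581360483) (nat_lit 0) (nat_lit 3136256667) (nat_lit 1824) (nat_lit 5379010617) (nat_lit 437) (nat_lit 5) (nat_lit 436) (nat_lit 5) (nat_lit 460) (nat_lit 5) (nat_lit 481) (nat_lit 470) (nat_lit 189)) (XT.lf (nat_lit 76) (nat_lit 5058914322) (nat_lit 0) (nat_lit 17941092096) (nat_lit 1824) (nat_lit 4376124364) (nat_lit 438) (nat_lit 5) (nat_lit 437) (nat_lit 5) (nat_lit 461) (nat_lit 5) (nat_lit 482) (nat_lit 470) (nat_lit 188))))) (XT.nd (nat_lit 234) (nat_lit 1672) (nat_lit 0) (XT.nd (nat_lit 78) (nat_lit 0) (nat_lit 76) (XT.lf (nat_lit 76) (nat_lit 18997359270) (nat_lit 0) (nat_lit 5386109948) (nat_lit 1824) (nat_lit 3276246787) (nat_lit 438) (nat_lit 5) (nat_lit 437) (nat_lit 5) (nat_lit 461) (nat_lit 5) (nat_lit 483) (nat_lit 470) (nat_lit 187)) (XT.nd (nat_lit 78) (nat_lit 0) (nat_lit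 0) (XT.lf (nat_lit 76) (nat_lit 5285118952) (nat_lit 0) (nat_lit 20589673582) (nat_lit 1824) (nat_lit 2072577223) (nat_lit 439) (nat_lit 5) (nat_lit 438) (nat_lit 5) (nat_lit 462) (nat_lit 5) (nat_lit 484) (nat_lit 470) (nat_lit 186)) (XT.lf (nat_lit 76) (nat_lit 19591210576) (nat_lit 0) (nat_lit 7896031647) (nat_lit 1824) (nat_lit 751709002) (nat_lit 439) (nat_lit 5) (nat_lit 438) (nat_lit 5) (nat_lit 462) (nat_lit 5) (nat_lit 485) (nat_lit 470) (nat_lit 185)))) (XT.nd (nat_lit 78) (nat_lit 0) (nat_lit 0) (XT.lf (nat_lit 0) (nat_lit 655719296) (nat_lit 1824) (nat_lit 22852105729) (nat_lit 1900) (nat_lit 5027103496) (nat_lit 415) (nat_lit 5) (nat_lit 439) (nat_lit 5) (nat_lit 440) (nat_lit 5) (nat_lit 486) (nat_lit 470) (nat_lit 184)) (XT.nd (nat_lit 78) (nat_lit 0) (nat_lit 76) (XT.lf (nat_lit 0) (nat_lit 2189749419) (nat_lit 1824) (nat_lit 8477746123) (nat_lit 1900) (nat_lit 18167060671) (nat_lit 415) (nat_lit 5) (nat_lit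 439) (nat_lit 5) (nat_lit 440) (nat_lit 5) (nat_lit 487) (nat_lit 470) (nat_lit 183)) (XT.lf (nat_lit 0) (nat_lit 3809027623) (nat_lit 1824) (nat_lit 22890806572) (nat_lit 1900) (nat_lit 2439251504) (nat_lit 416) (nat_lit 5) (nat_lit 440) (nat_lit 5) (nat_lit 441) (nat_lit 5) (nat_lit 488) (nat_lit 470) (nat_lit 182))))))))
noncomputable def xc252 : XT := (XT.nd (nat_lit 59202) (nat_lit 76) (nat_lit 0) (XT.nd (nat_lit 58344) (nat_lit 0) (nat_lit 1368) (XT.nd (nat_lit 390) (nat_lit 0) (nat_lit 152) (XT.nd (nat_lit 156) (nat_lit 0) (nat_lit 76) (XT.nd (nat_lit 78) (nat_lit 0) (nat_lit 0) (XT.lf (nat_lit 0) (nat_lit 5586484668) (nat_lit 1824) (nat_lit 8137498071) (nat_lit 1900) (nat_lit 15723207750) (nat_lit 416) (nat_lit 5) (nat_lit 440) (nat_lit 5) (nat_lit 441) (nat_lit 5) (nat_lit 489) (nat_lit 470) (nat_lit 181)) (XT.lf (nat_lit 76) (nat_lit 7001078733) (nat_lit 0) (nat_lit 441790038) (nat_lit 1900) (nat_lit 22317721609) (nat_lit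 417) (nat_lit 5) (nat_lit 416) (nat_lit 5) (nat_lit 441) (nat_lit 5) (nat_lit 490) (nat_lit 470) (nat_lit 180))) (XT.nd (nat_lit 78) (nat_lit 0) (nat_lit 0) (XT.lf (nat_lit 0) (nat_lit 9474397662) (nat_lit 1824) (nat_lit 7613539899) (nat_lit 1900) (nat_lit 12989560921) (nat_lit 417) (nat_lit 5) (nat_lit 441) (nat_lit 5) (nat_lit 442) (nat_lit 5) (nat_lit 491) (nat_lit 470) (nat_lit 179)) (XT.nd (nat_lit 78) (nat_lit 0) (nat_lit 76) (XT.lf (nat_lit 76) (nat_lit 7934873216) (nat_lit 0) (nat_lit 3664123654) (nat_lit 1900) (nat_lit 18800699626) (nat_lit 418) (nat_lit 5) (nat_lit 417) (nat_lit 5) (nat_lit 442) (nat_lit 5) (nat_lit 492) (nat_lit 470) (nat_lit 178)) (XT.lf (nat_lit 0) (nat_lit 13880653538) (nat_lit 1824) (nat_lit 6896957747) (nat_lit 1900) (nat_lit 9948436409) (nat_lit 418) (nat_lit 5) (nat_lit 442) (nat_lit 5) (nat_lit 443) (nat_lit 5) (nat_lit 493) (nat_lit 470) (nat_lit 177))))) (XT.nd (nat_lit 57720) (nat_lit 0)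 (nat_lit 1064) (XT.nd (nat_lit 57564) (nat_lit 0) (nat_lit 1064) (XT.lf (nat_lit 76) (nat_lit 9075405972) (nat_lit 0) (nat_lit 7213792088) (nat_lit 1900) (nat_lit 14768103284) (nat_lit 419) (nat_lit 5) (nat_lit 418) (nat_lit 5) (nat_lit 443) (nat_lit 5) (nat_lit 494) (nat_lit 470) (nat_lit 176)) (XT.nd (nat_lit 78) (nat_lit 0) (nat_lit 0) (XT.lf (nat_lit 0) (nat_lit 3602077688) (nat_lit 0) (nat_lit 3602077688) (nat_lit 1748) (nat_lit 5169455657) (nat_lit 432) (nat_lit 5) (nat_lit 432) (nat_lit 3) (nat_lit 455) (nat_lit 3) (nat_lit 471) (nat_lit 471) (nat_lit 198)) (XT.lf (nat_lit 0) (nat_lit 14689317609) (nat_lit 1748) (nat_lit 5645650444) (nat_lit 1824) (nat_lit 4656957541) (nat_lit 432) (nat_lit 5) (nat_lit 455) (nat_lit 3) (nat_lit 456) (nat_lit 5) (nat_lit 472) (nat_lit 471) (nat_lit 197)))) (XT.nd (nat_lit 78) (nat_lit 0) (nat_lit 76) (XT.lf (nat_lit 76) (nat_lit 6526136381) (nat_lit 0) (nat_lit 8537111001) (nat_lit 1824)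 (nat_lit 10176530548) (nat_lit 433) (nat_lit 5) (nat_lit 432) (nat_lit 5) (nat_lit 456) (nat_lit 5) (nat_lit 473) (nat_lit 471) (nat_lit 196)) (XT.nd (nat_lit 78) (nat_lit 0) (nat_lit 0) (XT.lf (nat_lit 0) (nat_lit 15502769392) (nat_lit 1748) (nat_lit 6498409943) (nat_lit 1824) (nat_lit 3490246481) (nat_lit 433) (nat_lit 5) (nat_lit 456) (nat_lit 5) (nat_lit 457) (nat_lit 5) (nat_lit 474) (nat_lit 471) (nat_lit 195)) (XT.lf (nat_lit 76) (nat_lit 5981554230) (nat_lit 0) (nat_lit 10062228971) (nat_lit 1824) (nat_lit 9702470193) (nat_lit 434) (nat_lit 5) (nat_lit 433) (nat_lit 5) (nat_lit 457) (nat_lit 5) (nat_lit 475) (nat_lit 471) (nat_lit 194)))))) (XT.nd (nat_lit 390) (nat_lit 0) (nat_lit 152) (XT.nd (nat_lit 156) (nat_lit 0) (nat_lit 76) (XT.nd (nat_lit 78) (nat_lit 0) (nat_lit 0) (XT.lf (nat_lit 0) (nat_lit 16650627365) (nat_lit 1748) (nat_lit 7221659181) (nat_lit 1824) (nat_lit 2132791524) (nat_lit 434) (nat_lit 5) (nat_lit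 457) (nat_lit 5) (nat_lit 458) (nat_lit 5) (nat_lit 476) (nat_lit 471) (nat_lit 193)) (XT.lf (nat_lit 76) (nat_lit 5577245877) (nat_lit 0) (nat_lit 11792640699) (nat_lit 1824) (nat_lit 8897187832) (nat_lit 435) (nat_lit 5) (nat_lit 434) (nat_lit 5) (nat_lit 458) (nat_lit 5) (nat_lit 477) (nat_lit 471) (nat_lit 192))) (XT.nd (nat_lit 78) (nat_lit 0) (nat_lit 0) (XT.lf (nat_lit 0) (nat_lit 18153222165) (nat_lit 1748) (nat_lit 7808627021) (nat_lit 1824) (nat_lit 571468380) (nat_lit 435) (nat_lit 5) (nat_lit 458) (nat_lit 5) (nat_lit 459) (nat_lit 5) (nat_lit 478) (nat_lit 471) (nat_lit 191)) (XT.nd (nat_lit 78) (nat_lit 0) (nat_lit 0) (XT.lf (nat_lit 76) (nat_lit 5320356289) (nat_lit 0) (nat_lit 13742035000) (nat_lit 1824) (nat_lit 7740291668) (nat_lit 436) (nat_lit 5) (nat_lit 435) (nat_lit 5) (nat_lit 459) (nat_lit 5) (nat_lit 479) (nat_lit 471) (nat_lit 190)) (XT.lf (nat_lit 76) (nat_lit 18816254577) (nat_lit 0) (nat_lit 1223454475)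 (nat_lit 1824) (nat_lit 7036727986) (nat_lit 436) (nat_lit 5) (nat_lit 435) (nat_lit 5) (nat_lit 459) (nat_lit 5) (nat_lit 480) (nat_lit 471) (nat_lit 189))))) (XT.nd (nat_lit 234) (nat_lit 0) (nat_lit 76) (XT.nd (nat_lit 78) (nat_lit 0) (nat_lit 0) (XT.lf (nat_lit 76) (nat_lit 5218345836) (nat_lit 0) (nat_lit 15924688196) (nat_lit 1824) (nat_lit 6210503630) (nat_lit 437) (nat_lit 5) (nat_lit 436) (nat_lit 5) (nat_lit 460) (nat_lit 5) (nat_lit 481) (nat_lit 471) (nat_lit 188)) (XT.nd (nat_lit 78) (nat_lit 0) (nat_lit 76) (XT.lf (nat_lit 76) (nat_lit 19068676429) (nat_lit 0) (nat_lit 3260883939) (nat_lit 1824) (nat_lit 5305397896) (nat_lit 437) (nat_lit 5) (nat_lit 436) (nat_lit 5) (nat_lit 460) (nat_lit 5) (nat_lit 482) (nat_lit 471) (nat_lit 187)) (XT.lf (nat_lit 76) (nat_lit 5278997862) (nat_lit 0) (nat_lit 18355495368) (nat_lit 1824) (nat_lit 4285621177) (nat_lit 438) (nat_lit 5) (nat_lit 437) (nat_lit 5) (nat_lit 461) (nat_lit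 5) (nat_lit 483) (nat_lit 471) (nat_lit 186)))) (XT.nd (nat_lit 78) (nat_lit 0) (nat_lit 76) (XT.lf (nat_lit 76) (nat_lit 19493880233) (nat_lit 0) (nat_lit 5548323745) (nat_lit 1824) (nat_lit 3167236749) (nat_lit 438) (nat_lit 5) (nat_lit 437) (nat_lit 5) (nat_lit 461) (nat_lit 5) (nat_lit 484) (nat_lit 471) (nat_lit 185)) (XT.nd (nat_lit 78) (nat_lit 0) (nat_lit 0) (XT.lf (nat_lit 76) (nat_lit 5510426416) (nat_lit 0) (nat_lit 21050002818) (nat_lit 1824) (nat_lit 1942477757) (nat_lit 439) (nat_lit 5) (nat_lit 438) (nat_lit 5) (nat_lit 462) (nat_lit 5) (nat_lit 485) (nat_lit 471) (nat_lit 184)) (XT.lf (nat_lit 76) (nat_lit 20100294675) (nat_lit 0) (nat_lit 8101536363) (nat_lit 1824) (nat_lit 598555916) (nat_lit 439) (nat_lit 5) (nat_lit 438) (nat_lit 5) (nat_lit 462) (nat_lit 5) (nat_lit 486) (nat_lit 471) (nat_lit 183))))))) (XT.nd (nat_lit 58422) (nat_lit 0) (nat_lit 1368) (XT.nd (nat_lit 390) (nat_lit 0) (nat_lit 152) (XT.nd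 (nat_lit 156) (nat_lit 0) (nat_lit 76) (XT.nd (nat_lit 78) (nat_lit 0) (nat_lit 0) (XT.lf (nat_lit 0) (nat_lit 832040749) (nat_lit 1824) (nat_lit 23186817639) (nat_lit 1900) (nat_lit 5083459948) (nat_lit 415) (nat_lit 5) (nat_lit 439) (nat_lit 5) (nat_lit 440) (nat_lit 5) (nat_lit 487) (nat_lit 471) (nat_lit 182)) (XT.lf (nat_lit 0) (nat_lit 2393551336) (nat_lit 1824) (nat_lit 8527369472) (nat_lit 1900) (nat_lit 18487082652) (nat_lit 415) (nat_lit 5) (nat_lit 439) (nat_lit 5) (nat_lit 440) (nat_lit 5) (nat_lit 488) (nat_lit 471) (nat_lit 181))) (XT.nd (nat_lit 78) (nat_lit 0) (nat_lit 0) (XT.lf (nat_lit 0) (nat_lit 4042601295) (nat_lit 1824) (nat_lit 23226034441) (nat_lit 1900) (nat_lit 2450040935) (nat_lit 416) (nat_lit 5) (nat_lit 440) (nat_lit 5) (nat_lit 441) (nat_lit 5) (nat_lit 489) (nat_lit 471) (nat_lit 180)) (XT.nd (nat_lit 78) (nat_lit 0) (nat_lit 0) (XT.lf (nat_lit 0) (nat_lit 5852521341) (nat_lit 1824) (nat_lit 8180063460)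 (nat_lit 1900) (nat_lit 16000421317) (nat_lit 416) (nat_lit 5) (nat_lit 440) (nat_lit 5) (nat_lit 441) (nat_lit 5) (nat_lit 490) (nat_lit 471) (nat_lit 179)) (XT.lf (nat_lit 76) (nat_lit 7260494191) (nat_lit 0) (nat_lit 483288492) (nat_lit 1900) (nat_lit 22608937158) (nat_lit 417) (nat_lit 5) (nat_lit 416) (nat_lit 5) (nat_lit 441) (nat_lit 5) (nat_lit 491) (nat_lit 471) (nat_lit 178))))) (XT.nd (nat_lit 57798) (nat_lit 0) (nat_lit 1140) (XT.nd (nat_lit 78) (nat_lit 0) (nat_lit 0) (XT.lf (nat_lit 0) (nat_lit 9812752742) (nat_lit 1824) (nat_lit 7645528053) (nat_lit 1900) (nat_lit 13217749907) (nat_lit 417) (nat_lit 5) (nat_lit 441) (nat_lit 5) (nat_lit 442) (nat_lit 5) (nat_lit 492) (nat_lit 471) (nat_lit 177)) (XT.nd (nat_lit 78) (nat_lit 0) (nat_lit 76) (XT.lf (nat_lit 76) (nat_lit 8213061992) (nat_lit 0) (nat_lit 3764638796) (nat_lit 1900) (nat_lit 19027015543) (nat_lit 418) (nat_lit 5) (nat_lit 417) (nat_lit 5) (nat_lit 442)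 (nat_lit 5) (nat_lit 493) (nat_lit 471) (nat_lit 176)) (XT.lf (nat_lit 0) (nat_lit 14301940302) (nat_lit 1824) (nat_lit 6914659432) (nat_lit 1900) (nat_lit 10121056600) (nat_lit 418) (nat_lit 5) (nat_lit 442) (nat_lit 5) (nat_lit 443) (nat_lit 5) (nat_lit 494) (nat_lit 471) (nat_lit 175)))) (XT.nd (nat_lit 78) (nat_lit 0) (nat_lit 0) (XT.lf (nat_lit 0) (nat_lit 3726917138) (nat_lit 0) (nat_lit 3726917138) (nat_lit 1748) (nat_lit 5165107040) (nat_lit 432) (nat_lit 5) (nat_lit 432) (nat_lit 3) (nat_lit 455) (nat_lit 3) (nat_lit 472) (nat_lit 472) (nat_lit 196)) (XT.nd (nat_lit 78) (nat_lit 0) (nat_lit 0) (XT.lf (nat_lit 0) (nat_lit 15189482381) (nat_lit 1748) (nat_lit 5650166133) (nat_lit 1824) (nat_lit 4647929157) (nat_lit 432) (nat_lit 5) (nat_lit 455) (nat_lit 3) (nat_lit 456) (nat_lit 5) (nat_lit 473) (nat_lit 472) (nat_lit 195)) (XT.lf (nat_lit 76) (nat_lit 6764343289) (nat_lit 0) (nat_lit 8803199982) (nat_lit 1824) (nat_lit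 10172911886) (nat_lit 433) (nat_lit 5) (nat_lit 432) (nat_lit 5) (nat_lit 456) (nat_lit 5) (nat_lit 474) (nat_lit 472) (nat_lit 194)))))) (XT.nd (nat_lit 468) (nat_lit 0) (nat_lit 152) (XT.nd (nat_lit 234) (nat_lit 0) (nat_lit 76) (XT.nd (nat_lit 78) (nat_lit 0) (nat_lit 0) (XT.lf (nat_lit 0) (nat_lit 16011267806) (nat_lit 1748) (nat_lit 6518160921) (nat_lit 1824) (nat_lit 3467800164) (nat_lit 433) (nat_lit 5) (nat_lit 456) (nat_lit 5) (nat_lit 457) (nat_lit 5) (nat_lit 475) (nat_lit 472) (nat_lit 193)) (XT.nd (nat_lit 78) (nat_lit 0) (nat_lit 76) (XT.lf (nat_lit 76) (nat_lit 6210677422) (nat_lit 0) (nat_lit 10349244325) (nat_lit 1824) (nat_lit 9697295987) (nat_lit 434) (nat_lit 5) (nat_lit 433) (nat_lit 5) (nat_lit 457) (nat_lit 5) (nat_lit 476) (nat_lit 472) (nat_lit 192)) (XT.lf (nat_lit 0) (nat_lit 17174528149) (nat_lit 1748) (nat_lit 7254318133) (nat_lit 1824) (nat_lit 2092461202) (nat_lit 434) (nat_lit 5) (nat_lit 457)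 (nat_lit 5) (nat_lit 458) (nat_lit 5) (nat_lit 477) (nat_lit 472) (nat_lit 191)))) (XT.nd (nat_lit 78) (nat_lit 0) (nat_lit 76) (XT.lf (nat_lit 76) (nat_lit 5799829670) (nat_lit 0) (nat_lit 12105320906) (nat_lit 1824) (nat_lit 8883454678) (nat_lit 435) (nat_lit 5) (nat_lit 434) (nat_lit 5) (nat_lit 458) (nat_lit 5) (nat_lit 478) (nat_lit 472) (nat_lit 190)) (XT.nd (nat_lit 78) (nat_lit 0) (nat_lit 0) (XT.lf (nat_lit 0) (nat_lit 18699980191) (nat_lit 1748) (nat_lit 7851712962) (nat_lit 1824) (nat_lit 508564623) (nat_lit 435) (nat_lit 5) (nat_lit 458) (nat_lit 5) (nat_lit 459) (nat_lit 5) (nat_lit 479) (nat_lit 472) (nat_lit 189)) (XT.lf (nat_lit 76) (nat_lit 5539106023) (nat_lit 0) (nat_lit 14085354241) (nat_lit 1824) (nat_lit 7710608682) (nat_lit 436) (nat_lit 5) (nat_lit 435) (nat_lit 5) (nat_lit 459) (nat_lit 5) (nat_lit 480) (nat_lit 472) (nat_lit 188))))) (XT.nd (nat_lit 234) (nat_lit 0) (nat_lit 152) (XT.nd (nat_lit 78)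 (nat_lit 0) (nat_lit 76) (XT.lf (nat_lit 76) (nat_lit 19302719482) (nat_lit 0) (nat_lit 1315059388) (nat_lit 1824) (nat_lit 6996591155) (nat_lit 436) (nat_lit 5) (nat_lit 435) (nat_lit 5) (nat_lit 459) (nat_lit 5) (nat_lit 481) (nat_lit 472) (nat_lit 187)) (XT.nd (nat_lit 78) (nat_lit 0) (nat_lit 0) (XT.lf (nat_lit 76) (nat_lit 5436133082) (nat_lit 0) (nat_lit 16303870331) (nat_lit 1824) (nat_lit 6157073571) (nat_lit 437) (nat_lit 5) (nat_lit 436) (nat_lit 5) (nat_lit 460) (nat_lit 5) (nat_lit 482) (nat_lit 472) (nat_lit 186)) (XT.lf (nat_lit 76) (nat_lit 19561246359) (nat_lit 0) (nat_lit 3385600020) (nat_lit 1824) (nat_lit 5237348862) (nat_lit 437) (nat_lit 5) (nat_lit 436) (nat_lit 5) (nat_lit 460) (nat_lit 5) (nat_lit 483) (nat_lit 472) (nat_lit 185)))) (XT.nd (nat_lit 78) (nat_lit 0) (nat_lit 0) (XT.lf (nat_lit 76) (nat_lit 5498865836) (nat_lit 0) (nat_lit 18776028411) (nat_lit 1824) (nat_lit 4200220881) (nat_lit 438) (nat_lit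 5) (nat_lit 437) (nat_lit 5) (nat_lit 461) (nat_lit 5) (nat_lit 484) (nat_lit 472) (nat_lit 184)) (XT.nd (nat_lit 78) (nat_lit 0) (nat_lit 76) (XT.lf (nat_lit 76) (nat_lit 19995804913) (nat_lit 0) (nat_lit 5711665843) (nat_lit 1824) (nat_lit 3062823915) (nat_lit 438) (nat_lit 5) (nat_lit 437) (nat_lit 5) (nat_lit 461) (nat_lit 5) (nat_lit 485) (nat_lit 472) (nat_lit 183)) (XT.lf (nat_lit 76) (nat_lit 5735595619) (nat_lit 0) (nat_lit 21517653937) (nat_lit 1824) (nat_lit 1816437836) (nat_lit 439) (nat_lit 5) (nat_lit 438) (nat_lit 5) (nat_lit 462) (nat_lit 5) (nat_lit 486) (nat_lit 472) (nat_lit 182))))))))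
noncomputable def xc253 : XT := (XT.nd (nat_lit 59436) (nat_lit 0) (nat_lit 0) (XT.nd (nat_lit 58578) (nat_lit 0) (nat_lit 1368) (XT.nd (nat_lit 390) (nat_lit 0) (nat_lit 76) (XT.nd (nat_lit 156) (nat_lit 0) (nat_lit 0) (XT.nd (nat_lit 78) (nat_lit 1748) (nat_lit 0) (XT.lf (nat_lit 76) (nat_lit 20615007112) (nat_lit 0) (nat_lit 8309303425) (nat_lit 1824) (nat_lit 448870685) (nat_lit 439) (nat_lit 5) (nat_lit 438) (nat_lit 5) (nat_lit 462) (nat_lit 5) (nat_lit 487) (nat_lit 472) (nat_lit 181)) (XT.lf (nat_lit 0) (nat_lit 1005551101) (nat_lit 1824) (nat_lit 23532974018) (nat_lit 1900) (nat_lit 5142659311) (nat_lit 415) (nat_lit 5) (nat_lit 439) (nat_lit 5) (nat_lit 440) (nat_lit 5) (nat_lit 488) (nat_lit 472) (nat_lit 180))) (XT.nd (nat_lit 78) (nat_lit 0) (nat_lit 76) (XT.lf (nat_lit 0) (nat_lit 2595216028) (nat_lit 1824) (nat_lit 8582642378) (nat_lit 1900) (nat_lit 18815187211) (nat_lit 415) (nat_lit 5) (nat_lit 439) (nat_lit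 5) (nat_lit 440) (nat_lit 5) (nat_lit 489) (nat_lit 472) (nat_lit 179)) (XT.nd (nat_lit 78) (nat_lit 0) (nat_lit 0) (XT.lf (nat_lit 0) (nat_lit 4274734673) (nat_lit 1824) (nat_lit 23572727118) (nat_lit 1900) (nat_lit 2462521570) (nat_lit 416) (nat_lit 5) (nat_lit 440) (nat_lit 5) (nat_lit 441) (nat_lit 5) (nat_lit 490) (nat_lit 472) (nat_lit 178)) (XT.lf (nat_lit 0) (nat_lit 6117886819) (nat_lit 1824) (nat_lit 8228147071) (nat_lit 1900) (nat_lit 16284625642) (nat_lit 416) (nat_lit 5) (nat_lit 440) (nat_lit 5) (nat_lit 441) (nat_lit 5) (nat_lit 491) (nat_lit 472) (nat_lit 177))))) (XT.nd (nat_lit 57954) (nat_lit 0) (nat_lit 1216) (XT.nd (nat_lit 78) (nat_lit 0) (nat_lit 76) (XT.lf (nat_lit 76) (nat_lit 7520461749) (nat_lit 0) (nat_lit 524348584) (nat_lit 1900) (nat_lit 22912001250) (nat_lit 417) (nat_lit 5) (nat_lit 416) (nat_lit 5) (nat_lit 441) (nat_lit 5) (nat_lit 492) (nat_lit 472) (nat_lit 176)) (XT.nd (nat_lit 57798) (nat_lit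 0) (nat_lit 1140) (XT.lf (nat_lit 0) (nat_lit 10152094231) (nat_lit 1824) (nat_lit 7682826690) (nat_lit 1900) (nat_lit 13451729827) (nat_lit 417) (nat_lit 5) (nat_lit 441) (nat_lit 5) (nat_lit 442) (nat_lit 5) (nat_lit 493) (nat_lit 472) (nat_lit 175)) (XT.lf (nat_lit 0) (nat_lit 3852203171) (nat_lit 0) (nat_lit 3852203171) (nat_lit 1748) (nat_lit 5164855037) (nat_lit 432) (nat_lit 5) (nat_lit 432) (nat_lit 3) (nat_lit 455) (nat_lit 3) (nat_lit 473) (nat_lit 473) (nat_lit 194)))) (XT.nd (nat_lit 78) (nat_lit 0) (nat_lit 0) (XT.lf (nat_lit 0) (nat_lit 15691636523) (nat_lit 1748) (nat_lit 5658981336) (nat_lit 1824) (nat_lit 4642687495) (nat_lit 432) (nat_lit 5) (nat_lit 455) (nat_lit 3) (nat_lit 456) (nat_lit 5) (nat_lit 474) (nat_lit 473) (nat_lit 193)) (XT.nd (nat_lit 78) (nat_lit 0) (nat_lit 76) (XT.lf (nat_lit 76) (nat_lit 7003132826) (nat_lit 0) (nat_lit 9070908313) (nat_lit 1824) (nat_lit 10177264711) (nat_lit 433) (nat_lit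 5) (nat_lit 432) (nat_lit 5) (nat_lit 456) (nat_lit 5) (nat_lit 475) (nat_lit 473) (nat_lit 192)) (XT.lf (nat_lit 0) (nat_lit 16522230404) (nat_lit 1748) (nat_lit 6542586788) (nat_lit 1824) (nat_lit 3448487148) (nat_lit 433) (nat_lit 5) (nat_lit 456) (nat_lit 5) (nat_lit 457) (nat_lit 5) (nat_lit 476) (nat_lit 473) (nat_lit 191)))))) (XT.nd (nat_lit 390) (nat_lit 0) (nat_lit 152) (XT.nd (nat_lit 156) (nat_lit 0) (nat_lit 76) (XT.nd (nat_lit 78) (nat_lit 0) (nat_lit 76) (XT.lf (nat_lit 76) (nat_lit 6440131365) (nat_lit 0) (nat_lit 10638669403) (nat_lit 1824) (nat_lit 9699754391) (nat_lit 434) (nat_lit 5) (nat_lit 433) (nat_lit 5) (nat_lit 457) (nat_lit 5) (nat_lit 477) (nat_lit 473) (nat_lit 190)) (XT.lf (nat_lit 0) (nat_lit 17701494525) (nat_lit 1748) (nat_lit 7291970593) (nat_lit 1824) (nat_lit 2054546727) (nat_lit 434) (nat_lit 5) (nat_lit 457) (nat_lit 5) (nat_lit 458) (nat_lit 5) (nat_lit 478) (nat_lit 473) (nat_lit 189)))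 (XT.nd (nat_lit 78) (nat_lit 0) (nat_lit 76) (XT.lf (nat_lit 76) (nat_lit 6022553363) (nat_lit 0) (nat_lit 12421271416) (nat_lit 1824) (nat_lit 8876889910) (nat_lit 435) (nat_lit 5) (nat_lit 434) (nat_lit 5) (nat_lit 458) (nat_lit 5) (nat_lit 479) (nat_lit 473) (nat_lit 188)) (XT.nd (nat_lit 78) (nat_lit 0) (nat_lit 0) (XT.lf (nat_lit 0) (nat_lit 19250540331) (nat_lit 1748) (nat_lit 7900051912) (nat_lit 1824) (nat_lit 447289236) (nat_lit 435) (nat_lit 5) (nat_lit 458) (nat_lit 5) (nat_lit 459) (nat_lit 5) (nat_lit 480) (nat_lit 473) (nat_lit 187)) (XT.lf (nat_lit 76) (nat_lit 5757868353) (nat_lit 0) (nat_lit 14432880761) (nat_lit 1824) (nat_lit 7687495962) (nat_lit 436) (nat_lit 5) (nat_lit 435) (nat_lit 5) (nat_lit 459) (nat_lit 5) (nat_lit 481) (nat_lit 473) (nat_lit 186))))) (XT.nd (nat_lit 234) (nat_lit 0) (nat_lit 152) (XT.nd (nat_lit 78) (nat_lit 0) (nat_lit 76) (XT.lf (nat_lit 76) (nat_lit 19794636821) (nat_lit 0) (nat_lit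 1405889435) (nat_lit 1824) (nat_lit 6962675043) (nat_lit 436) (nat_lit 5) (nat_lit 435) (nat_lit 5) (nat_lit 459) (nat_lit 5) (nat_lit 482) (nat_lit 473) (nat_lit 185)) (XT.nd (nat_lit 78) (nat_lit 0) (nat_lit 0) (XT.lf (nat_lit 76) (nat_lit 5653871824) (nat_lit 0) (nat_lit 16688279505) (nat_lit 1824) (nat_lit 6109472894) (nat_lit 437) (nat_lit 5) (nat_lit 436) (nat_lit 5) (nat_lit 460) (nat_lit 5) (nat_lit 483) (nat_lit 473) (nat_lit 184)) (XT.lf (nat_lit 76) (nat_lit 20059349796) (nat_lit 0) (nat_lit 3510500028) (nat_lit 1824) (nat_lit 5174701576) (nat_lit 437) (nat_lit 5) (nat_lit 436) (nat_lit 5) (nat_lit 460) (nat_lit 5) (nat_lit 484) (nat_lit 473) (nat_lit 183)))) (XT.nd (nat_lit 78) (nat_lit 0) (nat_lit 0) (XT.lf (nat_lit 76) (nat_lit 5718693227) (nat_lit 0) (nat_lit 19202897629) (nat_lit 1824) (nat_lit 4119757094) (nat_lit 438) (nat_lit 5) (nat_lit 437) (nat_lit 5) (nat_lit 461) (nat_lit 5) (nat_lit 485) (nat_lit 473)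 (nat_lit 182)) (XT.nd (nat_lit 78) (nat_lit 0) (nat_lit 76) (XT.lf (nat_lit 76) (nat_lit 20503417163) (nat_lit 0) (nat_lit 5876240973) (nat_lit 1824) (nat_lit 2962837056) (nat_lit 438) (nat_lit 5) (nat_lit 437) (nat_lit 5) (nat_lit 461) (nat_lit 5) (nat_lit 486) (nat_lit 473) (nat_lit 181)) (XT.lf (nat_lit 76) (nat_lit 5960804142) (nat_lit 0) (nat_lit 21992846560) (nat_lit 1824) (nat_lit 1694279976) (nat_lit 439) (nat_lit 5) (nat_lit 438) (nat_lit 5) (nat_lit 462) (nat_lit 5) (nat_lit 487) (nat_lit 473) (nat_lit 180))))))) (XT.nd (nat_lit 58734) (nat_lit 0) (nat_lit 0) (XT.nd (nat_lit 58266) (nat_lit 0) (nat_lit 1292) (XT.nd (nat_lit 156) (nat_lit 0) (nat_lit 0) (XT.nd (nat_lit 78) (nat_lit 1748) (nat_lit 0) (XT.lf (nat_lit 76) (nat_lit 21135637264) (nat_lit 0) (nat_lit 8519449832) (nat_lit 1824) (nat_lit 302469063) (nat_lit 439) (nat_lit 5) (nat_lit 438) (nat_lit 5) (nat_lit 462) (nat_lit 5) (nat_lit 488) (nat_lit 473) (nat_lit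 179)) (XT.lf (nat_lit 0) (nat_lit 1176440226) (nat_lit 1824) (nat_lit 23890619299) (nat_lit 1900) (nat_lit 5204691817) (nat_lit 415) (nat_lit 5) (nat_lit 439) (nat_lit 5) (nat_lit 440) (nat_lit 5) (nat_lit 489) (nat_lit 473) (nat_lit 178))) (XT.nd (nat_lit 78) (nat_lit 0) (nat_lit 76) (XT.lf (nat_lit 0) (nat_lit 2794942017) (nat_lit 1824) (nat_lit 8643496990) (nat_lit 1900) (nat_lit 19151470681) (nat_lit 415) (nat_lit 5) (nat_lit 439) (nat_lit 5) (nat_lit 440) (nat_lit 5) (nat_lit 490) (nat_lit 473) (nat_lit 177)) (XT.nd (nat_lit 78) (nat_lit 0) (nat_lit 0) (XT.lf (nat_lit 0) (nat_lit 4505636280) (nat_lit 1824) (nat_lit 23930929054) (nat_lit 1900) (nat_lit 2476669941) (nat_lit 416) (nat_lit 5) (nat_lit 440) (nat_lit 5) (nat_lit 441) (nat_lit 5) (nat_lit 491) (nat_lit 473) (nat_lit 176)) (XT.lf (nat_lit 0) (nat_lit 6382800353) (nat_lit 1824) (nat_lit 8281678046) (nat_lit 1900) (nat_lit 16575904370) (nat_lit 416) (nat_lit 5) (nat_lit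 440) (nat_lit 5) (nat_lit 441) (nat_lit 5) (nat_lit 492) (nat_lit 473) (nat_lit 175))))) (XT.nd (nat_lit 234) (nat_lit 0) (nat_lit 76) (XT.nd (nat_lit 78) (nat_lit 0) (nat_lit 0) (XT.lf (nat_lit 0) (nat_lit 3978024329) (nat_lit 0) (nat_lit 3978024329) (nat_lit 1748) (nat_lit 5168619128) (nat_lit 432) (nat_lit 5) (nat_lit 432) (nat_lit 3) (nat_lit 455) (nat_lit 3) (nat_lit 474) (nat_lit 474) (nat_lit 192)) (XT.nd (nat_lit 78) (nat_lit 0) (nat_lit 0) (XT.lf (nat_lit 0) (nat_lit 16196131013) (nat_lit 1748) (nat_lit 5672018594) (nat_lit 1824) (nat_lit 4641154236) (nat_lit 432) (nat_lit 5) (nat_lit 455) (nat_lit 3) (nat_lit 456) (nat_lit 5) (nat_lit 475) (nat_lit 474) (nat_lit 191)) (XT.lf (nat_lit 76) (nat_lit 7242679019) (nat_lit 0) (nat_lit 9340412149) (nat_lit 1824) (nat_lit 10189436097) (nat_lit 433) (nat_lit 5) (nat_lit 432) (nat_lit 5) (nat_lit 456) (nat_lit 5) (nat_lit 476) (nat_lit 474) (nat_lit 190)))) (XT.nd (nat_lit 78)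 (nat_lit 0) (nat_lit 0) (XT.lf (nat_lit 0) (nat_lit 17036005695) (nat_lit 1748) (nat_lit 6571614849) (nat_lit 1824) (nat_lit 3432230999) (nat_lit 433) (nat_lit 5) (nat_lit 456) (nat_lit 5) (nat_lit 457) (nat_lit 5) (nat_lit 477) (nat_lit 474) (nat_lit 189)) (XT.nd (nat_lit 78) (nat_lit 0) (nat_lit 76) (XT.lf (nat_lit 76) (nat_lit 6670087775) (nat_lit 0) (nat_lit 10930681729) (nat_lit 1824) (nat_lit 9709697658) (nat_lit 434) (nat_lit 5) (nat_lit 433) (nat_lit 5) (nat_lit 457) (nat_lit 5) (nat_lit 478) (nat_lit 474) (nat_lit 188)) (XT.lf (nat_lit 0) (nat_lit 18231875640) (nat_lit 1748) (nat_lit 7334547892) (nat_lit 1824) (nat_lit 2018971284) (nat_lit 434) (nat_lit 5) (nat_lit 457) (nat_lit 5) (nat_lit 458) (nat_lit 5) (nat_lit 479) (nat_lit 474) (nat_lit 187)))))) (XT.nd (nat_lit 468) (nat_lit 1444) (nat_lit 0) (XT.nd (nat_lit 234) (nat_lit 0) (nat_lit 76) (XT.nd (nat_lit 78) (nat_lit 0) (nat_lit 76) (XT.lf (nat_lit 76) (nat_lit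 6245587188) (nat_lit 0) (nat_lit 12740673479) (nat_lit 1824) (nat_lit 8877347871) (nat_lit 435) (nat_lit 5) (nat_lit 434) (nat_lit 5) (nat_lit 458) (nat_lit 5) (nat_lit 480) (nat_lit 474) (nat_lit 186)) (XT.nd (nat_lit 78) (nat_lit 0) (nat_lit 0) (XT.lf (nat_lit 0) (nat_lit 19805255613) (nat_lit 1748) (nat_lit 7953578412) (nat_lit 1824) (nat_lit 387562702) (nat_lit 435) (nat_lit 5) (nat_lit 458) (nat_lit 5) (nat_lit 459) (nat_lit 5) (nat_lit 481) (nat_lit 474) (nat_lit 185)) (XT.lf (nat_lit 76) (nat_lit 5976812925) (nat_lit 0) (nat_lit 14784801963) (nat_lit 1824) (nat_lit 7670806729) (nat_lit 436) (nat_lit 5) (nat_lit 435) (nat_lit 5) (nat_lit 459) (nat_lit 5) (nat_lit 482) (nat_lit 474) (nat_lit 184)))) (XT.nd (nat_lit 78) (nat_lit 0) (nat_lit 76) (XT.lf (nat_lit 76) (nat_lit 20292281720) (nat_lit 0) (nat_lit 1496030347) (nat_lit 1824) (nat_lit 6934831336) (nat_lit 436) (nat_lit 5) (nat_lit 435) (nat_lit 5) (nat_lit 459) (nat_lit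 5) (nat_lit 483) (nat_lit 474) (nat_lit 183)) (XT.nd (nat_lit 78) (nat_lit 0) (nat_lit 0) (XT.lf (nat_lit 76) (nat_lit 5871732113) (nat_lit 0) (nat_lit 17078111770) (nat_lit 1824) (nat_lit 6067550329) (nat_lit 437) (nat_lit 5) (nat_lit 436) (nat_lit 5) (nat_lit 460) (nat_lit 5) (nat_lit 484) (nat_lit 474) (nat_lit 182)) (XT.lf (nat_lit 76) (nat_lit 20563265079) (nat_lit 0) (nat_lit 3635677356) (nat_lit 1824) (nat_lit 5117301467) (nat_lit 437) (nat_lit 5) (nat_lit 436) (nat_lit 5) (nat_lit 460) (nat_lit 5) (nat_lit 485) (nat_lit 474) (nat_lit 181))))) (XT.nd (nat_lit 234) (nat_lit 1672) (nat_lit 0) (XT.nd (nat_lit 78) (nat_lit 0) (nat_lit 0) (XT.lf (nat_lit 76) (nat_lit 5938651554) (nat_lit 0) (nat_lit 19636310301) (nat_lit 1824) (nat_lit 4044070533) (nat_lit 438) (nat_lit 5) (nat_lit 437) (nat_lit 5) (nat_lit 461) (nat_lit 5) (nat_lit 486) (nat_lit 474) (nat_lit 180)) (XT.nd (nat_lit 78) (nat_lit 0) (nat_lit 76) (XT.lf (nat_lit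 76) (nat_lit 21016999685) (nat_lit 0) (nat_lit 6042152773) (nat_lit 1824) (nat_lit 2867111735) (nat_lit 438) (nat_lit 5) (nat_lit 437) (nat_lit 5) (nat_lit 461) (nat_lit 5) (nat_lit 487) (nat_lit 474) (nat_lit 179)) (XT.lf (nat_lit 76) (nat_lit 6186226117) (nat_lit 0) (nat_lit 22475801861) (nat_lit 1824) (nat_lit 1575833188) (nat_lit 439) (nat_lit 5) (nat_lit 438) (nat_lit 5) (nat_lit 462) (nat_lit 5) (nat_lit 488) (nat_lit 474) (nat_lit 178)))) (XT.nd (nat_lit 78) (nat_lit 1748) (nat_lit 0) (XT.lf (nat_lit 76) (nat_lit 21662473434) (nat_lit 0) (nat_lit 8732092132) (nat_lit 1824) (nat_lit 159172966) (nat_lit 439) (nat_lit 5) (nat_lit 438) (nat_lit 5) (nat_lit 462) (nat_lit 5) (nat_lit 489) (nat_lit 474) (nat_lit 177)) (XT.nd (nat_lit 78) (nat_lit 0) (nat_lit 0) (XT.lf (nat_lit 0) (nat_lit 1344892235) (nat_lit 1824) (nat_lit 24259805964) (nat_lit 1900) (nat_lit 5269550090) (nat_lit 415) (nat_lit 5) (nat_lit 439) (nat_lit 5) (nat_lit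 440) (nat_lit 5) (nat_lit 490) (nat_lit 474) (nat_lit 176)) (XT.lf (nat_lit 0) (nat_lit 2992922431) (nat_lit 1824) (nat_lit 8709871125) (nat_lit 1900) (nat_lit 19496033855) (nat_lit 415) (nat_lit 5) (nat_lit 439) (nat_lit 5) (nat_lit 440) (nat_lit 5) (nat_lit 491) (nat_lit 474) (nat_lit 175))))))))
noncomputable def xc254 : XT := (XT.nd (nat_lit 117780) (nat_lit 0) (nat_lit 1292) (XT.nd (nat_lit 58812) (nat_lit 76) (nat_lit 0) (XT.nd (nat_lit 58344) (nat_lit 0) (nat_lit 1292) (XT.nd (nat_lit 58110) (nat_lit 0) (nat_lit 1216) (XT.nd (nat_lit 58032) (nat_lit 0) (nat_lit 1216) (XT.lf (nat_lit 0) (nat_lit 4735509591) (nat_lit 1824) (nat_lit 24300692766) (nat_lit 1900) (nat_lit 2492464335) (nat_lit 416) (nat_lit 5) (nat_lit 440) (nat_lit 5) (nat_lit 441) (nat_lit 5) (nat_lit 492) (nat_lit 474) (nat_lit 174)) (XT.lf (nat_lit 0) (nat_lit 4104467837) (nat_lit 0) (nat_lit 4104467837) (nat_lit 1748) (nat_lit 5176323489) (nat_lit 432)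 (nat_lit 5) (nat_lit 432) (nat_lit 3) (nat_lit 455) (nat_lit 3) (nat_lit 475) (nat_lit 475) (nat_lit 190))) (XT.nd (nat_lit 78) (nat_lit 0) (nat_lit 0) (XT.lf (nat_lit 0) (nat_lit 16703311764) (nat_lit 1748) (nat_lit 5689205248) (nat_lit 1824) (nat_lit 4643255473) (nat_lit 432) (nat_lit 5) (nat_lit 455) (nat_lit 3) (nat_lit 456) (nat_lit 5) (nat_lit 476) (nat_lit 475) (nat_lit 189)) (XT.nd (nat_lit 78) (nat_lit 0) (nat_lit 76) (XT.lf (nat_lit 76) (nat_lit 7483153070) (nat_lit 0) (nat_lit 9611885587) (nat_lit 1824) (nat_lit 10209282194) (nat_lit 433) (nat_lit 5) (nat_lit 432) (nat_lit 5) (nat_lit 456) (nat_lit 5) (nat_lit 477) (nat_lit 475) (nat_lit 188)) (XT.lf (nat_lit 0) (nat_lit 17552937537) (nat_lit 1748) (nat_lit 6605177408) (nat_lit 1824) (nat_lit 3418959152) (nat_lit 433) (nat_lit 5) (nat_lit 456) (nat_lit 5) (nat_lit 457) (nat_lit 5) (nat_lit 478) (nat_lit 475) (nat_lit 187))))) (XT.nd (nat_lit 234) (nat_lit 0) (nat_lit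 152) (XT.nd (nat_lit 78) (nat_lit 0) (nat_lit 76) (XT.lf (nat_lit 76) (nat_lit 6900715389) (nat_lit 0) (nat_lit 11225457357) (nat_lit 1824) (nat_lit 9726986746) (nat_lit 434) (nat_lit 5) (nat_lit 433) (nat_lit 5) (nat_lit 457) (nat_lit 5) (nat_lit 479) (nat_lit 475) (nat_lit 186)) (XT.nd (nat_lit 78) (nat_lit 0) (nat_lit 0) (XT.lf (nat_lit 0) (nat_lit 18766016444) (nat_lit 1748) (nat_lit 7381986530) (nat_lit 1824) (nat_lit 1985661381) (nat_lit 434) (nat_lit 5) (nat_lit 457) (nat_lit 5) (nat_lit 458) (nat_lit 5) (nat_lit 480) (nat_lit 475) (nat_lit 185)) (XT.lf (nat_lit 76) (nat_lit 6469098275) (nat_lit 0) (nat_lit 13063707475) (nat_lit 1824) (nat_lit 8884691217) (nat_lit 435) (nat_lit 5) (nat_lit 434) (nat_lit 5) (nat_lit 458) (nat_lit 5) (nat_lit 481) (nat_lit 475) (nat_lit 184)))) (XT.nd (nat_lit 78) (nat_lit 0) (nat_lit 0) (XT.lf (nat_lit 0) (nat_lit 20364475369) (nat_lit 1748) (nat_lit 8012232316) (nat_lit 1824) (nat_lit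 329308269) (nat_lit 435) (nat_lit 5) (nat_lit 458) (nat_lit 5) (nat_lit 459) (nat_lit 5) (nat_lit 482) (nat_lit 475) (nat_lit 183)) (XT.nd (nat_lit 78) (nat_lit 0) (nat_lit 0) (XT.lf (nat_lit 76) (nat_lit 6196106206) (nat_lit 0) (nat_lit 15141304986) (nat_lit 1824) (nat_lit 7660402072) (nat_lit 436) (nat_lit 5) (nat_lit 435) (nat_lit 5) (nat_lit 459) (nat_lit 5) (nat_lit 483) (nat_lit 475) (nat_lit 182)) (XT.lf (nat_lit 76) (nat_lit 20795928356) (nat_lit 0) (nat_lit 1585565645) (nat_lit 1824) (nat_lit 6912919343) (nat_lit 436) (nat_lit 5) (nat_lit 435) (nat_lit 5) (nat_lit 459) (nat_lit 5) (nat_lit 484) (nat_lit 475) (nat_lit 181)))))) (XT.nd (nat_lit 390) (nat_lit 1596) (nat_lit 0) (XT.nd (nat_lit 156) (nat_lit 0) (nat_lit 76) (XT.nd (nat_lit 78) (nat_lit 0) (nat_lit 0) (XT.lf (nat_lit 76) (nat_lit 6089880762) (nat_lit 0) (nat_lit 17473563542) (nat_lit 1824) (nat_lit 6031161983) (nat_lit 437) (nat_lit 5) (nat_lit 436) (nat_lit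 5) (nat_lit 460) (nat_lit 5) (nat_lit 485) (nat_lit 475) (nat_lit 180)) (XT.lf (nat_lit 76) (nat_lit 21073269603) (nat_lit 0) (nat_lit 3761223783) (nat_lit 1824) (nat_lit 5065001072) (nat_lit 437) (nat_lit 5) (nat_lit 436) (nat_lit 5) (nat_lit 460) (nat_lit 5) (nat_lit 486) (nat_lit 475) (nat_lit 179))) (XT.nd (nat_lit 78) (nat_lit 0) (nat_lit 0) (XT.lf (nat_lit 76) (nat_lit 6158909074) (nat_lit 0) (nat_lit 20076474722) (nat_lit 1824) (nat_lit 3973008745) (nat_lit 438) (nat_lit 5) (nat_lit 437) (nat_lit 5) (nat_lit 461) (nat_lit 5) (nat_lit 487) (nat_lit 475) (nat_lit 178)) (XT.nd (nat_lit 78) (nat_lit 0) (nat_lit 76) (XT.lf (nat_lit 76) (nat_lit 21536834275) (nat_lit 0) (nat_lit 6209503882) (nat_lit 1824) (nat_lit 2775490050) (nat_lit 438) (nat_lit 5) (nat_lit 437) (nat_lit 5) (nat_lit 461) (nat_lit 5) (nat_lit 488) (nat_lit 475) (nat_lit 177)) (XT.lf (nat_lit 76) (nat_lit 6412032428) (nat_lit 0) (nat_lit 22966742707) (nat_lit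 1824) (nat_lit 1460932715) (nat_lit 439) (nat_lit 5) (nat_lit 438) (nat_lit 5) (nat_lit 462) (nat_lit 5) (nat_lit 489) (nat_lit 475) (nat_lit 176))))) (XT.nd (nat_lit 58344) (nat_lit 0) (nat_lit 1292) (XT.nd (nat_lit 78) (nat_lit 1748) (nat_lit 0) (XT.lf (nat_lit 76) (nat_lit 22195803087) (nat_lit 0) (nat_lit 8947346532) (nat_lit 1824) (nat_lit 18810214) (nat_lit 439) (nat_lit 5) (nat_lit 438) (nat_lit 5) (nat_lit 462) (nat_lit 5) (nat_lit 490) (nat_lit 475) (nat_lit 175)) (XT.nd (nat_lit 58188) (nat_lit 0) (nat_lit 1292) (XT.lf (nat_lit 0) (nat_lit 1511085740) (nat_lit 1824) (nat_lit 24640594432) (nat_lit 1900) (nat_lit 5337229093) (nat_lit 415) (nat_lit 5) (nat_lit 439) (nat_lit 5) (nat_lit 440) (nat_lit 5) (nat_lit 491) (nat_lit 475) (nat_lit 174)) (XT.lf (nat_lit 0) (nat_lit 4231619690) (nat_lit 0) (nat_lit 4231619690) (nat_lit 1748) (nat_lit 5187896843) (nat_lit 432) (nat_lit 5) (nat_lit 432) (nat_lit 3) (nat_lit 455) (nat_lit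 3) (nat_lit 476) (nat_lit 476) (nat_lit 188)))) (XT.nd (nat_lit 78) (nat_lit 0) (nat_lit 0) (XT.lf (nat_lit 0) (nat_lit 17213519994) (nat_lit 1748) (nat_lit 5710473284) (nat_lit 1824) (nat_lit 4648921576) (nat_lit 432) (nat_lit 5) (nat_lit 455) (nat_lit 3) (nat_lit 456) (nat_lit 5) (nat_lit 477) (nat_lit 476) (nat_lit 187)) (XT.nd (nat_lit 78) (nat_lit 0) (nat_lit 76) (XT.lf (nat_lit 76) (nat_lit 7724723542) (nat_lit 0) (nat_lit 9885500842) (nat_lit 1824) (nat_lit 10236667928) (nat_lit 433) (nat_lit 5) (nat_lit 432) (nat_lit 5) (nat_lit 456) (nat_lit 5) (nat_lit 478) (nat_lit 476) (nat_lit 186)) (XT.lf (nat_lit 0) (nat_lit 18073365500) (nat_lit 1748) (nat_lit 6643211620) (nat_lit 1824) (nat_lit 3408602784) (nat_lit 433) (nat_lit 5) (nat_lit 456) (nat_lit 5) (nat_lit 457) (nat_lit 5) (nat_lit 479) (nat_lit 476) (nat_lit 185))))))) (XT.nd (nat_lit 59124) (nat_lit 76) (nat_lit 0) (XT.nd (nat_lit 390) (nat_lit 0) (nat_lit 152) (XT.nd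 (nat_lit 156) (nat_lit 0) (nat_lit 76) (XT.nd (nat_lit 78) (nat_lit 0) (nat_lit 76) (XT.lf (nat_lit 76) (nat_lit 7132180156) (nat_lit 0) (nat_lit 11523171035) (nat_lit 1824) (nat_lit 9751491047) (nat_lit 434) (nat_lit 5) (nat_lit 433) (nat_lit 5) (nat_lit 457) (nat_lit 5) (nat_lit 480) (nat_lit 476) (nat_lit 184)) (XT.lf (nat_lit 0) (nat_lit 19304258045) (nat_lit 1748) (nat_lit 7434228030) (nat_lit 1824) (nat_lit 1954546726) (nat_lit 434) (nat_lit 5) (nat_lit 457) (nat_lit 5) (nat_lit 458) (nat_lit 5) (nat_lit 481) (nat_lit 476) (nat_lit 183))) (XT.nd (nat_lit 78) (nat_lit 0) (nat_lit 76) (XT.lf (nat_lit 76) (nat_lit 6693250851) (nat_lit 0) (nat_lit 13390553065) (nat_lit 1824) (nat_lit 8898790644) (nat_lit 435) (nat_lit 5) (nat_lit 434) (nat_lit 5) (nat_lit 458) (nat_lit 5) (nat_lit 482) (nat_lit 476) (nat_lit 182)) (XT.nd (nat_lit 78) (nat_lit 0) (nat_lit 0) (XT.lf (nat_lit 0) (nat_lit 20928545580) (nat_lit 1748) (nat_lit 8075958638)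 (nat_lit 1824) (nat_lit 272451827) (nat_lit 435) (nat_lit 5) (nat_lit 458) (nat_lit 5) (nat_lit 459) (nat_lit 5) (nat_lit 483) (nat_lit 476) (nat_lit 181)) (XT.lf (nat_lit 76) (nat_lit 6415911665) (nat_lit 0) (nat_lit 15502576861) (nat_lit 1824) (nat_lit 7656150682) (nat_lit 436) (nat_lit 5) (nat_lit 435) (nat_lit 5) (nat_lit 459) (nat_lit 5) (nat_lit 484) (nat_lit 476) (nat_lit 180))))) (XT.nd (nat_lit 234) (nat_lit 0) (nat_lit 152) (XT.nd (nat_lit 78) (nat_lit 0) (nat_lit 76) (XT.lf (nat_lit 76) (nat_lit 21305850193) (nat_lit 0) (nat_lit 1674576737) (nat_lit 1824) (nat_lit 6896805739) (nat_lit 436) (nat_lit 5) (nat_lit 435) (nat_lit 5) (nat_lit 459) (nat_lit 5) (nat_lit 485) (nat_lit 476) (nat_lit 179)) (XT.nd (nat_lit 78) (nat_lit 0) (nat_lit 0) (XT.lf (nat_lit 76) (nat_lit 6308481536) (nat_lit 0) (nat_lit 17874831753) (nat_lit 1824) (nat_lit 6000171081) (nat_lit 437) (nat_lit 5) (nat_lit 436) (nat_lit 5) (nat_lit 460) (nat_lit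 5) (nat_lit 486) (nat_lit 476) (nat_lit 178)) (XT.lf (nat_lit 76) (nat_lit 21589640053) (nat_lit 0) (nat_lit 3887229572) (nat_lit 1824) (nat_lit 5017659778) (nat_lit 437) (nat_lit 5) (nat_lit 436) (nat_lit 5) (nat_lit 460) (nat_lit 5) (nat_lit 487) (nat_lit 476) (nat_lit 177)))) (XT.nd (nat_lit 78) (nat_lit 0) (nat_lit 0) (XT.lf (nat_lit 76) (nat_lit 6379630978) (nat_lit 0) (nat_lit 20523600348) (nat_lit 1824) (nat_lit 3906425861) (nat_lit 438) (nat_lit 5) (nat_lit 437) (nat_lit 5) (nat_lit 461) (nat_lit 5) (nat_lit 488) (nat_lit 476) (nat_lit 176)) (XT.nd (nat_lit 78) (nat_lit 0) (nat_lit 76) (XT.lf (nat_lit 76) (nat_lit 22063202061) (nat_lit 0) (nat_lit 6378396050) (nat_lit 1824) (nat_lit 2687820382) (nat_lit 438) (nat_lit 5) (nat_lit 437) (nat_lit 5) (nat_lit 461) (nat_lit 5) (nat_lit 489) (nat_lit 476) (nat_lit 175)) (XT.lf (nat_lit 76) (nat_lit 6638390904) (nat_lit 0) (nat_lit 23465893793) (nat_lit 1824) (nat_lit 1349419790)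 (nat_lit 439) (nat_lit 5) (nat_lit 438) (nat_lit 5) (nat_lit 462) (nat_lit 5) (nat_lit 490) (nat_lit 476) (nat_lit 174)))))) (XT.nd (nat_lit 468) (nat_lit 0) (nat_lit 152) (XT.nd (nat_lit 234) (nat_lit 0) (nat_lit 76) (XT.nd (nat_lit 78) (nat_lit 0) (nat_lit 0) (XT.lf (nat_lit 0) (nat_lit 4359564749) (nat_lit 0) (nat_lit 4359564749) (nat_lit 1748) (nat_lit 5203272315) (nat_lit 432) (nat_lit 5) (nat_lit 432) (nat_lit 3) (nat_lit 455) (nat_lit 3) (nat_lit 477) (nat_lit 477) (nat_lit 186)) (XT.nd (nat_lit 78) (nat_lit 0) (nat_lit 0) (XT.lf (nat_lit 0) (nat_lit 17727092580) (nat_lit 1748) (nat_lit 5735759193) (nat_lit 1824) (nat_lit 4658087044) (nat_lit 432) (nat_lit 5) (nat_lit 455) (nat_lit 3) (nat_lit 456) (nat_lit 5) (nat_lit 478) (nat_lit 477) (nat_lit 185)) (XT.lf (nat_lit 76) (nat_lit 7967556546) (nat_lit 0) (nat_lit 10161428413) (nat_lit 1824) (nat_lit 10271466733) (nat_lit 433) (nat_lit 5) (nat_lit 432) (nat_lit 5) (nat_lit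 456) (nat_lit 5) (nat_lit 479) (nat_lit 477) (nat_lit 184)))) (XT.nd (nat_lit 78) (nat_lit 0) (nat_lit 0) (XT.lf (nat_lit 0) (nat_lit 18597625209) (nat_lit 1748) (nat_lit 6685659343) (nat_lit 1824) (nat_lit 3401096686) (nat_lit 433) (nat_lit 5) (nat_lit 456) (nat_lit 5) (nat_lit 457) (nat_lit 5) (nat_lit 480) (nat_lit 477) (nat_lit 183)) (XT.nd (nat_lit 78) (nat_lit 0) (nat_lit 76) (XT.lf (nat_lit 76) (nat_lit 7364645423) (nat_lit 0) (nat_lit 11823996365) (nat_lit 1824) (nat_lit 9783088118) (nat_lit 434) (nat_lit 5) (nat_lit 433) (nat_lit 5) (nat_lit 457) (nat_lit 5) (nat_lit 481) (nat_lit 477) (nat_lit 182)) (XT.lf (nat_lit 0) (nat_lit 19846938046) (nat_lit 1748) (nat_lit 7491218790) (nat_lit 1824) (nat_lit 1925560112) (nat_lit 434) (nat_lit 5) (nat_lit 457) (nat_lit 5) (nat_lit 458) (nat_lit 5) (nat_lit 482) (nat_lit 477) (nat_lit 181))))) (XT.nd (nat_lit 234) (nat_lit 0) (nat_lit 76) (XT.nd (nat_lit 78) (nat_lit 0) (nat_lit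 76) (XT.lf (nat_lit 76) (nat_lit 6918206421) (nat_lit 0) (nat_lit 13721389347) (nat_lit 1824) (nat_lit 8919524630) (nat_lit 435) (nat_lit 5) (nat_lit 434) (nat_lit 5) (nat_lit 458) (nat_lit 5) (nat_lit 483) (nat_lit 477) (nat_lit 180)) (XT.nd (nat_lit 78) (nat_lit 0) (nat_lit 0) (XT.lf (nat_lit 0) (nat_lit 21497809209) (nat_lit 1748) (nat_lit 8144707411) (nat_lit 1824) (nat_lit 216921811) (nat_lit 435) (nat_lit 5) (nat_lit 458) (nat_lit 5) (nat_lit 459) (nat_lit 5) (nat_lit 484) (nat_lit 477) (nat_lit 179)) (XT.lf (nat_lit 76) (nat_lit 6636389967) (nat_lit 0) (nat_lit 15868804653) (nat_lit 1824) (nat_lit 7657928607) (nat_lit 436) (nat_lit 5) (nat_lit 435) (nat_lit 5) (nat_lit 459) (nat_lit 5) (nat_lit 485) (nat_lit 477) (nat_lit 178)))) (XT.nd (nat_lit 78) (nat_lit 0) (nat_lit 76) (XT.lf (nat_lit 76) (nat_lit 21822320205) (nat_lit 0) (nat_lit 1763143031) (nat_lit 1824) (nat_lit 6886364315) (nat_lit 436) (nat_lit 5) (nat_lit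 435) (nat_lit 5) (nat_lit 459) (nat_lit 5) (nat_lit 486) (nat_lit 477) (nat_lit 177)) (XT.nd (nat_lit 78) (nat_lit 0) (nat_lit 0) (XT.lf (nat_lit 76) (nat_lit 6527695342) (nat_lit 0) (nat_lit 18282113990) (nat_lit 1824) (nat_lit 5974447722) (nat_lit 437) (nat_lit 5) (nat_lit 436) (nat_lit 5) (nat_lit 460) (nat_lit 5) (nat_lit 487) (nat_lit 477) (nat_lit 176)) (XT.lf (nat_lit 76) (nat_lit 22112652633) (nat_lit 0) (nat_lit 4013783578) (nat_lit 1824) (nat_lit 4975143582) (nat_lit 437) (nat_lit 5) (nat_lit 436) (nat_lit 5) (nat_lit 460) (nat_lit 5) (nat_lit 488) (nat_lit 477) (nat_lit 175))))))))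
noncomputable def xc255 : XT := (XT.nd (nat_lit 118560) (nat_lit 0) (nat_lit 0) (XT.nd (nat_lit 59202) (nat_lit 0) (nat_lit 0) (XT.nd (nat_lit 58734) (nat_lit 0) (nat_lit 76) (XT.nd (nat_lit 58500) (nat_lit 380) (nat_lit 0) (XT.nd (nat_lit 78) (nat_lit 0) (nat_lit 0) (XT.lf (nat_lit 76) (nat_lit 6600979578) (nat_lit 0) (nat_lit 20977897934) (nat_lit 1824) (nat_lit 3844182350) (nat_lit 438) (nat_lit 5) (nat_lit 437) (nat_lit 5) (nat_lit 461) (nat_lit 5) (nat_lit 489) (nat_lit 477) (nat_lit 174)) (XT.lf (nat_lit 76) (nat_lit 22596383730) (nat_lit 0) (nat_lit 6548930224) (nat_lit 1824) (nat_lit 2603957153) (nat_lit 438) (nat_lit 5) (nat_lit 437) (nat_lit 5) (nat_lit 461) (nat_lit 5) (nat_lit 490) (nat_lit 477) (nat_lit 173))) (XT.nd (nat_lit 78) (nat_lit 0) (nat_lit 0) (XT.lf (nat_lit 0) (nat_lit 4488386825) (nat_lit 0) (nat_lit 4488386825) (nat_lit 1748) (nat_lit 5222387296) (nat_lit 432) (nat_lit 5) (nat_lit 432) (nat_lit 3)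 (nat_lit 455) (nat_lit 3) (nat_lit 478) (nat_lit 478) (nat_lit 184)) (XT.nd (nat_lit 78) (nat_lit 0) (nat_lit 0) (XT.lf (nat_lit 0) (nat_lit 18244362407) (nat_lit 1748) (nat_lit 5765003830) (nat_lit 1824) (nat_lit 4670690381) (nat_lit 432) (nat_lit 5) (nat_lit 455) (nat_lit 3) (nat_lit 456) (nat_lit 5) (nat_lit 479) (nat_lit 478) (nat_lit 183)) (XT.lf (nat_lit 76) (nat_lit 8211815918) (nat_lit 0) (nat_lit 10439837252) (nat_lit 1824) (nat_lit 10313560281) (nat_lit 433) (nat_lit 5) (nat_lit 432) (nat_lit 5) (nat_lit 456) (nat_lit 5) (nat_lit 480) (nat_lit 478) (nat_lit 182))))) (XT.nd (nat_lit 234) (nat_lit 0) (nat_lit 76) (XT.nd (nat_lit 78) (nat_lit 0) (nat_lit 0) (XT.lf (nat_lit 0) (nat_lit 19126048686) (nat_lit 1748) (nat_lit 6732467004) (nat_lit 1824) (nat_lit 3396379141) (nat_lit 433) (nat_lit 5) (nat_lit 456) (nat_lit 5) (nat_lit 457) (nat_lit 5) (nat_lit 481) (nat_lit 478) (nat_lit 181)) (XT.nd (nat_lit 78) (nat_lit 0)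 (nat_lit 76) (XT.lf (nat_lit 76) (nat_lit 7598272111) (nat_lit 0) (nat_lit 12128105963) (nat_lit 1824) (nat_lit 9821663423) (nat_lit 434) (nat_lit 5) (nat_lit 433) (nat_lit 5) (nat_lit 457) (nat_lit 5) (nat_lit 482) (nat_lit 478) (nat_lit 180)) (XT.lf (nat_lit 0) (nat_lit 20394390879) (nat_lit 1748) (nat_lit 7552909947) (nat_lit 1824) (nat_lit 1898637299) (nat_lit 434) (nat_lit 5) (nat_lit 457) (nat_lit 5) (nat_lit 458) (nat_lit 5) (nat_lit 483) (nat_lit 478) (nat_lit 179)))) (XT.nd (nat_lit 78) (nat_lit 0) (nat_lit 76) (XT.lf (nat_lit 76) (nat_lit 7144123944) (nat_lit 0) (nat_lit 14056395009) (nat_lit 1824) (nat_lit 8946779187) (nat_lit 435) (nat_lit 5) (nat_lit 434) (nat_lit 5) (nat_lit 458) (nat_lit 5) (nat_lit 484) (nat_lit 478) (nat_lit 178)) (XT.nd (nat_lit 78) (nat_lit 0) (nat_lit 0) (XT.lf (nat_lit 0) (nat_lit 22072606529) (nat_lit 1748) (nat_lit 8218433547) (nat_lit 1824) (nat_lit 162649085) (nat_lit 435) (nat_lit 5)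 (nat_lit 458) (nat_lit 5) (nat_lit 459) (nat_lit 5) (nat_lit 485) (nat_lit 478) (nat_lit 177)) (XT.lf (nat_lit 76) (nat_lit 6857699147) (nat_lit 0) (nat_lit 16240175608) (nat_lit 1824) (nat_lit 7665619004) (nat_lit 436) (nat_lit 5) (nat_lit 435) (nat_lit 5) (nat_lit 459) (nat_lit 5) (nat_lit 486) (nat_lit 478) (nat_lit 176)))))) (XT.nd (nat_lit 58890) (nat_lit 0) (nat_lit 0) (XT.nd (nat_lit 156) (nat_lit 228) (nat_lit 0) (XT.nd (nat_lit 78) (nat_lit 0) (nat_lit 76) (XT.lf (nat_lit 76) (nat_lit 22345611100) (nat_lit 0) (nat_lit 1851342031) (nat_lit 1824) (nat_lit 6881475743) (nat_lit 436) (nat_lit 5) (nat_lit 435) (nat_lit 5) (nat_lit 459) (nat_lit 5) (nat_lit 487) (nat_lit 478) (nat_lit 175)) (XT.lf (nat_lit 76) (nat_lit 6747680404) (nat_lit 0) (nat_lit 18695608636) (nat_lit 1824) (nat_lit 5953868646) (nat_lit 437) (nat_lit 5) (nat_lit 436) (nat_lit 5) (nat_lit 460) (nat_lit 5) (nat_lit 488) (nat_lit 478) (nat_lit 174))) (XT.nd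 (nat_lit 58578) (nat_lit 304) (nat_lit 0) (XT.lf (nat_lit 76) (nat_lit 22642583290) (nat_lit 0) (nat_lit 4140973334) (nat_lit 1824) (nat_lit 4937324854) (nat_lit 437) (nat_lit 5) (nat_lit 436) (nat_lit 5) (nat_lit 460) (nat_lit 5) (nat_lit 489) (nat_lit 478) (nat_lit 173)) (XT.nd (nat_lit 78) (nat_lit 0) (nat_lit 0) (XT.lf (nat_lit 0) (nat_lit 4618168768) (nat_lit 0) (nat_lit 4618168768) (nat_lit 1748) (nat_lit 5245183307) (nat_lit 432) (nat_lit 5) (nat_lit 432) (nat_lit 3) (nat_lit 455) (nat_lit 3) (nat_lit 479) (nat_lit 479) (nat_lit 182)) (XT.lf (nat_lit 0) (nat_lit 18765658705) (nat_lit 1748) (nat_lit 5798152285) (nat_lit 1824) (nat_lit 4686673966) (nat_lit 432) (nat_lit 5) (nat_lit 455) (nat_lit 3) (nat_lit 456) (nat_lit 5) (nat_lit 480) (nat_lit 479) (nat_lit 181))))) (XT.nd (nat_lit 234) (nat_lit 0) (nat_lit 152) (XT.nd (nat_lit 78) (nat_lit 0) (nat_lit 76) (XT.lf (nat_lit 76) (nat_lit 8457663387) (nat_lit 0) (nat_lit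 10720894926) (nat_lit 1824) (nat_lit 10362838227) (nat_lit 433) (nat_lit 5) (nat_lit 432) (nat_lit 5) (nat_lit 456) (nat_lit 5) (nat_lit 481) (nat_lit 479) (nat_lit 180)) (XT.nd (nat_lit 78) (nat_lit 0) (nat_lit 0) (XT.lf (nat_lit 0) (nat_lit 19658964673) (nat_lit 1748) (nat_lit 6783585465) (nat_lit 1824) (nat_lit 3394391808) (nat_lit 433) (nat_lit 5) (nat_lit 456) (nat_lit 5) (nat_lit 457) (nat_lit 5) (nat_lit 482) (nat_lit 479) (nat_lit 179)) (XT.lf (nat_lit 76) (nat_lit 7833218886) (nat_lit 0) (nat_lit 12435671610) (nat_lit 1824) (nat_lit 9867110093) (nat_lit 434) (nat_lit 5) (nat_lit 433) (nat_lit 5) (nat_lit 457) (nat_lit 5) (nat_lit 483) (nat_lit 479) (nat_lit 178)))) (XT.nd (nat_lit 78) (nat_lit 0) (nat_lit 0) (XT.lf (nat_lit 0) (nat_lit 20946948124) (nat_lit 1748) (nat_lit 7619257247) (nat_lit 1824) (nat_lit 1873716912) (nat_lit 434) (nat_lit 5) (nat_lit 457) (nat_lit 5) (nat_lit 458) (nat_lit 5) (nat_lit 484) (nat_lit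 479) (nat_lit 177)) (XT.nd (nat_lit 78) (nat_lit 0) (nat_lit 76) (XT.lf (nat_lit 76) (nat_lit 7371160013) (nat_lit 0) (nat_lit 14395748472) (nat_lit 1824) (nat_lit 8980447627) (nat_lit 435) (nat_lit 5) (nat_lit 434) (nat_lit 5) (nat_lit 458) (nat_lit 5) (nat_lit 485) (nat_lit 479) (nat_lit 176)) (XT.lf (nat_lit 0) (nat_lit 22653275438) (nat_lit 1748) (nat_lit 8297096708) (nat_lit 1824) (nat_lit 109566848) (nat_lit 435) (nat_lit 5) (nat_lit 458) (nat_lit 5) (nat_lit 459) (nat_lit 5) (nat_lit 486) (nat_lit 479) (nat_lit 175))))))) (XT.nd (nat_lit 118326) (nat_lit 0) (nat_lit 0) (XT.nd (nat_lit 59046) (nat_lit 0) (nat_lit 0) (XT.nd (nat_lit 58812) (nat_lit 228) (nat_lit 0) (XT.nd (nat_lit 78) (nat_lit 0) (nat_lit 0) (XT.lf (nat_lit 76) (nat_lit 7079994787) (nat_lit 0) (nat_lit 16616877296) (nat_lit 1824) (nat_lit 7679111915) (nat_lit 436) (nat_lit 5) (nat_lit 435) (nat_lit 5) (nat_lit 459) (nat_lit 5) (nat_lit 487) (nat_lit 479)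 (nat_lit 174)) (XT.lf (nat_lit 76) (nat_lit 22875995535) (nat_lit 0) (nat_lit 1939249436) (nat_lit 1824) (nat_lit 6882027348) (nat_lit 436) (nat_lit 5) (nat_lit 435) (nat_lit 5) (nat_lit 459) (nat_lit 5) (nat_lit 488) (nat_lit 479) (nat_lit 173))) (XT.nd (nat_lit 78) (nat_lit 0) (nat_lit 0) (XT.lf (nat_lit 0) (nat_lit 4748992550) (nat_lit 0) (nat_lit 4748992550) (nat_lit 1748) (nat_lit 5271605874) (nat_lit 432) (nat_lit 5) (nat_lit 432) (nat_lit 3) (nat_lit 455) (nat_lit 3) (nat_lit 480) (nat_lit 480) (nat_lit 180)) (XT.nd (nat_lit 78) (nat_lit 0) (nat_lit 0) (XT.lf (nat_lit 0) (nat_lit 19291307375) (nat_lit 1748) (nat_lit 5835153757) (nat_lit 1824) (nat_lit 4705983932) (nat_lit 432) (nat_lit 5) (nat_lit 455) (nat_lit 3) (nat_lit 456) (nat_lit 5) (nat_lit 481) (nat_lit 480) (nat_lit 179)) (XT.lf (nat_lit 76) (nat_lit 8705258744) (nat_lit 0) (nat_lit 11004767774) (nat_lit 1824) (nat_lit 10419197971) (nat_lit 433) (nat_lit 5)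 (nat_lit 432) (nat_lit 5) (nat_lit 456) (nat_lit 5) (nat_lit 482) (nat_lit 480) (nat_lit 178))))) (XT.nd (nat_lit 234) (nat_lit 76) (nat_lit 0) (XT.nd (nat_lit 78) (nat_lit 0) (nat_lit 0) (XT.lf (nat_lit 0) (nat_lit 20196698958) (nat_lit 1748) (nat_lit 6838969901) (nat_lit 1824) (nat_lit 3395079610) (nat_lit 433) (nat_lit 5) (nat_lit 456) (nat_lit 5) (nat_lit 457) (nat_lit 5) (nat_lit 483) (nat_lit 480) (nat_lit 177)) (XT.nd (nat_lit 78) (nat_lit 0) (nat_lit 76) (XT.lf (nat_lit 76) (nat_lit 8069642331) (nat_lit 0) (nat_lit 12746864404) (nat_lit 1824) (nat_lit 9919328689) (nat_lit 434) (nat_lit 5) (nat_lit 433) (nat_lit 5) (nat_lit 457) (nat_lit 5) (nat_lit 484) (nat_lit 480) (nat_lit 176)) (XT.lf (nat_lit 0) (nat_lit 21504938823) (nat_lit 1748) (nat_lit 7690220920) (nat_lit 1824) (nat_lit 1850740335) (nat_lit 434) (nat_lit 5) (nat_lit 457) (nat_lit 5) (nat_lit 458) (nat_lit 5) (nat_lit 485) (nat_lit 480) (nat_lit 175)))) (XT.nd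 (nat_lit 78) (nat_lit 152) (nat_lit 0) (XT.lf (nat_lit 76) (nat_lit 7599469018) (nat_lit 0) (nat_lit 14739628034) (nat_lit 1824) (nat_lit 9020430337) (nat_lit 435) (nat_lit 5) (nat_lit 434) (nat_lit 5) (nat_lit 458) (nat_lit 5) (nat_lit 486) (nat_lit 480) (nat_lit 174)) (XT.nd (nat_lit 58890) (nat_lit 228) (nat_lit 0) (XT.lf (nat_lit 0) (nat_lit 23240151767) (nat_lit 1748) (nat_lit 8380661182) (nat_lit 1824) (nat_lit 57610531) (nat_lit 435) (nat_lit 5) (nat_lit 458) (nat_lit 5) (nat_lit 459) (nat_lit 5) (nat_lit 487) (nat_lit 480) (nat_lit 173)) (XT.lf (nat_lit 0) (nat_lit 4880939344) (nat_lit 0) (nat_lit 4880939344) (nat_lit 1748) (nat_lit 5301604409) (nat_lit 432) (nat_lit 5) (nat_lit 432) (nat_lit 3) (nat_lit 455) (nat_lit 3) (nat_lit 481) (nat_lit 481) (nat_lit 178)))))) (XT.nd (nat_lit 59436) (nat_lit 0) (nat_lit 0) (XT.nd (nat_lit 234) (nat_lit 0) (nat_lit 76) (XT.nd (nat_lit 78) (nat_lit 0) (nat_lit 0) (XT.lf (nat_lit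 0) (nat_lit 19821631308) (nat_lit 1748) (nat_lit 5875961432) (nat_lit 1824) (nat_lit 4728570054) (nat_lit 432) (nat_lit 5) (nat_lit 455) (nat_lit 3) (nat_lit 456) (nat_lit 5) (nat_lit 482) (nat_lit 481) (nat_lit 177)) (XT.nd (nat_lit 78) (nat_lit 0) (nat_lit 76) (XT.lf (nat_lit 76) (nat_lit 8954760007) (nat_lit 0) (nat_lit 11291621059) (nat_lit 1824) (nat_lit 10482544425) (nat_lit 433) (nat_lit 5) (nat_lit 432) (nat_lit 5) (nat_lit 456) (nat_lit 5) (nat_lit 483) (nat_lit 481) (nat_lit 176)) (XT.lf (nat_lit 0) (nat_lit 20739574683) (nat_lit 1748) (nat_lit 6898579679) (nat_lit 1824) (nat_lit 3398390627) (nat_lit 433) (nat_lit 5) (nat_lit 456) (nat_lit 5) (nat_lit 457) (nat_lit 5) (nat_lit 484) (nat_lit 481) (nat_lit 175)))) (XT.nd (nat_lit 78) (nat_lit 0) (nat_lit 76) (XT.lf (nat_lit 76) (nat_lit 8307697103) (nat_lit 0) (nat_lit 13061854904) (nat_lit 1824) (nat_lit 9978226984) (nat_lit 434) (nat_lit 5) (nat_lit 433) (nat_lit 5)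 (nat_lit 457) (nat_lit 5) (nat_lit 485) (nat_lit 481) (nat_lit 174)) (XT.nd (nat_lit 78) (nat_lit 0) (nat_lit 0) (XT.lf (nat_lit 0) (nat_lit 22068689788) (nat_lit 1748) (nat_lit 7765765562) (nat_lit 1824) (nat_lit 1829651609) (nat_lit 434) (nat_lit 5) (nat_lit 457) (nat_lit 5) (nat_lit 458) (nat_lit 5) (nat_lit 486) (nat_lit 481) (nat_lit 173)) (XT.lf (nat_lit 76) (nat_lit 7829203307) (nat_lit 0) (nat_lit 15088212014) (nat_lit 1824) (nat_lit 9066634558) (nat_lit 435) (nat_lit 5) (nat_lit 434) (nat_lit 5) (nat_lit 458) (nat_lit 5) (nat_lit 487) (nat_lit 481) (nat_lit 172))))) (XT.nd (nat_lit 234) (nat_lit 0) (nat_lit 0) (XT.nd (nat_lit 78) (nat_lit 0) (nat_lit 0) (XT.lf (nat_lit 0) (nat_lit 20356950695) (nat_lit 1748) (nat_lit 5920532372) (nat_lit 1824) (nat_lit 4754385633) (nat_lit 432) (nat_lit 5) (nat_lit 455) (nat_lit 3) (nat_lit 456) (nat_lit 5) (nat_lit 483) (nat_lit 482) (nat_lit 175)) (XT.nd (nat_lit 78) (nat_lit 0) (nat_lit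 76) (XT.lf (nat_lit 76) (nat_lit 9206323573) (nat_lit 0) (nat_lit 11581619117) (nat_lit 1824) (nat_lit 10552789792) (nat_lit 433) (nat_lit 5) (nat_lit 432) (nat_lit 5) (nat_lit 456) (nat_lit 5) (nat_lit 484) (nat_lit 482) (nat_lit 174)) (XT.lf (nat_lit 0) (nat_lit 21287912644) (nat_lit 1748) (nat_lit 6962378243) (nat_lit 1824) (nat_lit 3404275995) (nat_lit 433) (nat_lit 5) (nat_lit 456) (nat_lit 5) (nat_lit 457) (nat_lit 5) (nat_lit 485) (nat_lit 482) (nat_lit 173)))) (XT.nd (nat_lit 59202) (nat_lit 76) (nat_lit 0) (XT.lf (nat_lit 76) (nat_lit 8547536095) (nat_lit 0) (nat_lit 13380813275) (nat_lit 1824) (nat_lit 10043719745) (nat_lit 434) (nat_lit 5) (nat_lit 433) (nat_lit 5) (nat_lit 457) (nat_lit 5) (nat_lit 486) (nat_lit 482) (nat_lit 172)) (XT.nd (nat_lit 78) (nat_lit 0) (nat_lit 0) (XT.lf (nat_lit 0) (nat_lit 20897583327) (nat_lit 1748) (nat_lit 5968827401) (nat_lit 1824) (nat_lit 4783387396) (nat_lit 432) (nat_lit 5) (nat_lit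 455) (nat_lit 3) (nat_lit 456) (nat_lit 5) (nat_lit 484) (nat_lit 483) (nat_lit 173)) (XT.lf (nat_lit 76) (nat_lit 9460104376) (nat_lit 0) (nat_lit 11874925507) (nat_lit 1824) (nat_lit 10629853352) (nat_lit 433) (nat_lit 5) (nat_lit 432) (nat_lit 5) (nat_lit 456) (nat_lit 5) (nat_lit 485) (nat_lit 483) (nat_lit 172))))))))

set_option maxRecDepth 10000000 in
noncomputable def Tp : PT := (PT.nd (nat_lit 11708424) (PT.nd (nat_lit 10344672) (PT.nd (nat_lit 9098622) (PT.nd (nat_lit 8030490) (PT.nd (nat_lit 7199634) (PT.nd (nat_lit 6547242) pc0 pc1) (PT.nd (nat_lit 474552) pc2 pc3)) (PT.nd (nat_lit 593424) (PT.nd (nat_lit 355368) pc4 pc5) (PT.nd (nat_lit 295698) pc6 pc7))) (PT.nd (nat_lit 711984) (PT.nd (nat_lit 414492) (PT.nd (nat_lit 236418) pc8 pc9) (PT.nd (nat_lit 177606) pc10 pc11)) (PT.nd (nat_lit 296088) (PT.nd (nat_lit 176904) pc12 pc13) (PT.nd (nat_lit 119106) pc14 pc15)))) (PT.nd (nat_lit 827814) (PT.nd (nat_lit 472290)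 (PT.nd (nat_lit 236730) (PT.nd (nat_lit 118482) pc16 pc17) (PT.nd (nat_lit 117936) pc18 pc19)) (PT.nd (nat_lit 178308) (PT.nd (nat_lit 61152) pc20 pc21) (PT.nd (nat_lit 60840) pc22 pc23))) (PT.nd (nat_lit 296712) (PT.nd (nat_lit 120978) (PT.nd (nat_lit 60528) pc24 pc25) (PT.nd (nat_lit 60372) pc26 pc27)) (PT.nd (nat_lit 119886) (PT.nd (nat_lit 59982) pc28 pc29) (PT.nd (nat_lit 59748) pc30 pc31))))) (PT.nd (nat_lit 830544) (PT.nd (nat_lit 472524) (PT.nd (nat_lit 237276) (PT.nd (nat_lit 118872) (PT.nd (nat_lit 59436) pc32 pc33) (PT.nd (nat_lit 59280) pc34 pc35)) (PT.nd (nat_lit 117936) (PT.nd (nat_lit 59046) pc36 pc37) (PT.nd (nat_lit 58734) pc38 pc39))) (PT.nd (nat_lit 179712) (PT.nd (nat_lit 63336) (PT.nd (nat_lit 58422) pc40 pc41) (PT.nd (nat_lit 58266) pc42 pc43)) (PT.nd (nat_lit 115752) (PT.nd (nat_lit 57954) pc44 pc45) (PT.nd (nat_lit 4914) pc46 pc47)))) (PT.nd (nat_lit 417846) (PT.nd (nat_lit 176826) (PT.nd (nat_lit 114738)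 (PT.nd (nat_lit 57408) pc48 pc49) (PT.nd (nat_lit 4914) pc50 pc51)) (PT.nd (nat_lit 117234) (PT.nd (nat_lit 58188) pc52 pc53) (PT.nd (nat_lit 59592) pc54 pc55))) (PT.nd (nat_lit 415818) (PT.nd (nat_lit 178308) (PT.nd (nat_lit 112086) pc56 pc57) (PT.nd (nat_lit 118326) pc58 pc59)) (PT.nd (nat_lit 297726) (PT.nd (nat_lit 119574) pc60 pc61) (PT.nd (nat_lit 227682) pc62 pc63))))))

set_option maxRecDepth 10000000 in
noncomputable def Tx : XT := (XT.nd (nat_lit 18855954) (nat_lit 0) (nat_lit 1064) XT.nil (XT.nd (nat_lit 9851868) (nat_lit 0) (nat_lit 0) (XT.nd (nat_lit 4564872) (nat_lit 0) (nat_lit 4940) (XT.nd (nat_lit 3086226) (nat_lit 0) (nat_lit 2128) (XT.nd (nat_lit 2190708) (nat_lit 0) (nat_lit 988) (XT.nd (nat_lit 1483404) (nat_lit 0) (nat_lit 456) (XT.nd (nat_lit 1009242) (nat_lit 0) (nat_lit 228) (XT.nd (nat_lit 711282) (nat_lit 0) (nat_lit 76) (XT.nd (nat_lit 474318) (nat_lit 0) (nat_lit 76) (XT.nd (nat_lit 296712) (nat_lit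 0) (nat_lit 0) xc0 xc1) (XT.nd (nat_lit 118794) (nat_lit 0) (nat_lit 0) xc2 xc3)) (XT.nd (nat_lit 177840) (nat_lit 0) (nat_lit 152) (XT.nd (nat_lit 117546) (nat_lit 0) (nat_lit 152) xc4 xc5) (XT.nd (nat_lit 60138) (nat_lit 0) (nat_lit 0) xc6 xc7))) (XT.nd (nat_lit 293982) (nat_lit 0) (nat_lit 76) (XT.nd (nat_lit 175422) (nat_lit 0) (nat_lit 76) (XT.nd (nat_lit 115908) (nat_lit 0) (nat_lit 0) xc8 xc9) (XT.nd (nat_lit 59358) (nat_lit 0) (nat_lit 0) xc10 xc11)) (XT.nd (nat_lit 117936) (nat_lit 0) (nat_lit 0) (XT.nd (nat_lit 59046) (nat_lit 0) (nat_lit 0) xc12 xc13) (XT.nd (nat_lit 3510) (nat_lit 304) (nat_lit 0) xc14 xc15)))) (XT.nd (nat_lit 356304) (nat_lit 0) (nat_lit 304) (XT.nd (nat_lit 178698) (nat_lit 0) (nat_lit 152) (XT.nd (nat_lit 116922) (nat_lit 0) (nat_lit 76) (XT.nd (nat_lit 58500) (nat_lit 0) (nat_lit 76) xc16 xc17) (XT.nd (nat_lit 58266) (nat_lit 0) (nat_lit 76) xc18 xc19)) (XT.nd (nat_lit 116220) (nat_lit 0) (nat_lit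 0) (XT.nd (nat_lit 58188) (nat_lit 0) (nat_lit 0) xc20 xc21) (XT.nd (nat_lit 57876) (nat_lit 0) (nat_lit 912) xc22 xc23))) (XT.nd (nat_lit 176202) (nat_lit 0) (nat_lit 76) (XT.nd (nat_lit 115284) (nat_lit 0) (nat_lit 76) (XT.nd (nat_lit 57720) (nat_lit 0) (nat_lit 0) xc24 xc25) (XT.nd (nat_lit 3510) (nat_lit 684) (nat_lit 0) xc26 xc27)) (XT.nd (nat_lit 60762) (nat_lit 0) (nat_lit 152) (XT.nd (nat_lit 57252) (nat_lit 0) (nat_lit 1748) xc28 xc29) (XT.nd (nat_lit 57096) (nat_lit 0) (nat_lit 0) xc30 xc31))))) (XT.nd (nat_lit 477984) (nat_lit 0) (nat_lit 684) (XT.nd (nat_lit 240162) (nat_lit 0) (nat_lit 380) (XT.nd (nat_lit 120354) (nat_lit 0) (nat_lit 152) (XT.nd (nat_lit 60216) (nat_lit 0) (nat_lit 152) (XT.nd (nat_lit 3432) (nat_lit 4408) (nat_lit 0) xc32 xc33) (XT.nd (nat_lit 3510) (nat_lit 2128) (nat_lit 0) xc34 xc35)) (XT.nd (nat_lit 59982) (nat_lit 0) (nat_lit 0) (XT.nd (nat_lit 3510) (nat_lit 760) (nat_lit 0) xc36 xc37) (XT.nd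 (nat_lit 56316) (nat_lit 0) (nat_lit 6460) xc38 xc39))) (XT.nd (nat_lit 119184) (nat_lit 0) (nat_lit 0) (XT.nd (nat_lit 59670) (nat_lit 0) (nat_lit 0) (XT.nd (nat_lit 56160) (nat_lit 0) (nat_lit 5548) xc40 xc41) (XT.nd (nat_lit 56004) (nat_lit 0) (nat_lit 5168) xc42 xc43)) (XT.nd (nat_lit 59358) (nat_lit 0) (nat_lit 152) (XT.nd (nat_lit 55848) (nat_lit 0) (nat_lit 5244) xc44 xc45) (XT.nd (nat_lit 55770) (nat_lit 0) (nat_lit 5396) xc46 xc47)))) (XT.nd (nat_lit 235482) (nat_lit 0) (nat_lit 228) (XT.nd (nat_lit 118014) (nat_lit 0) (nat_lit 76) (XT.nd (nat_lit 59046) (nat_lit 0) (nat_lit 76) (XT.nd (nat_lit 55536) (nat_lit 0) (nat_lit 6308) xc48 xc49) (XT.nd (nat_lit 55458) (nat_lit 0) (nat_lit 7372) xc50 xc51)) (XT.nd (nat_lit 58812) (nat_lit 0) (nat_lit 152) (XT.nd (nat_lit 55302) (nat_lit 0) (nat_lit 9880) xc52 xc53) (XT.nd (nat_lit 3510) (nat_lit 228) (nat_lit 0) xc54 xc55))) (XT.nd (nat_lit 116844) (nat_lit 0) (nat_lit 152)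 (XT.nd (nat_lit 58500) (nat_lit 0) (nat_lit 0) (XT.nd (nat_lit 3510) (nat_lit 1520) (nat_lit 0) xc56 xc57) (XT.nd (nat_lit 3510) (nat_lit 3496) (nat_lit 0) xc58 xc59)) (XT.nd (nat_lit 58188) (nat_lit 0) (nat_lit 912) (XT.nd (nat_lit 3510) (nat_lit 6308) (nat_lit 0) xc60 xc61) (XT.nd (nat_lit 3510) (nat_lit 10184) (nat_lit 0) xc62 xc63)))))) (XT.nd (nat_lit 764166) (nat_lit 0) (nat_lit 1292) (XT.nd (nat_lit 409812) (nat_lit 0) (nat_lit 684) (XT.nd (nat_lit 231114) (nat_lit 0) (nat_lit 380) (XT.nd (nat_lit 115830) (nat_lit 0) (nat_lit 228) (XT.nd (nat_lit 57954) (nat_lit 0) (nat_lit 228) (XT.nd (nat_lit 54444) (nat_lit 0) (nat_lit 3800) xc64 xc65) (XT.nd (nat_lit 54366) (nat_lit 0) (nat_lit 8360) xc66 xc67)) (XT.nd (nat_lit 57720) (nat_lit 0) (nat_lit 0) (XT.nd (nat_lit 54210) (nat_lit 0) (nat_lit 15884) xc68 xc69) (XT.nd (nat_lit 3510) (nat_lit 2964) (nat_lit 0) xc70 xc71))) (XT.nd (nat_lit 64350) (nat_lit 0) (nat_lit 0) (XT.nd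 (nat_lit 57330) (nat_lit 0) (nat_lit 3724) (XT.nd (nat_lit 3432) (nat_lit 8664) (nat_lit 0) xc72 xc73) (XT.nd (nat_lit 3510) (nat_lit 14668) (nat_lit 0) xc74 xc75)) (XT.nd (nat_lit 57252) (nat_lit 0) (nat_lit 304) (XT.nd (nat_lit 53742) (nat_lit 0) (nat_lit 11020) xc76 xc77) (XT.nd (nat_lit 3510) (nat_lit 608) (nat_lit 0) xc78 xc79)))) (XT.nd (nat_lit 177450) (nat_lit 0) (nat_lit 380) (XT.nd (nat_lit 63882) (nat_lit 0) (nat_lit 152) (XT.nd (nat_lit 56862) (nat_lit 0) (nat_lit 3344) (XT.nd (nat_lit 3432) (nat_lit 6232) (nat_lit 0) xc80 xc81) (XT.nd (nat_lit 3510) (nat_lit 13984) (nat_lit 0) xc82 xc83)) (XT.nd (nat_lit 56862) (nat_lit 0) (nat_lit 228) (XT.nd (nat_lit 53352) (nat_lit 0) (nat_lit 12160) xc84 xc85) (XT.nd (nat_lit 3510) (nat_lit 988) (nat_lit 0) xc86 xc87))) (XT.nd (nat_lit 63570) (nat_lit 0) (nat_lit 76) (XT.nd (nat_lit 56550) (nat_lit 0) (nat_lit 6232) (XT.nd (nat_lit 3510) (nat_lit 8360) (nat_lit 0) xc88 xc89)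 (XT.nd (nat_lit 3510) (nat_lit 17784) (nat_lit 0) xc90 xc91)) (XT.nd (nat_lit 56628) (nat_lit 0) (nat_lit 152) (XT.nd (nat_lit 53118) (nat_lit 0) (nat_lit 18316) xc92 xc93) (XT.nd (nat_lit 3510) (nat_lit 3800) (nat_lit 0) xc94 xc95))))) (XT.nd (nat_lit 355836) (nat_lit 0) (nat_lit 760) (XT.nd (nat_lit 177528) (nat_lit 0) (nat_lit 532) (XT.nd (nat_lit 63726) (nat_lit 0) (nat_lit 228) (XT.nd (nat_lit 6942) (nat_lit 1900) (nat_lit 0) (XT.nd (nat_lit 3432) (nat_lit 12160) (nat_lit 0) xc96 xc97) (XT.nd (nat_lit 53274) (nat_lit 0) (nat_lit 10108) xc98 xc99)) (XT.nd (nat_lit 56862) (nat_lit 0) (nat_lit 0) (XT.nd (nat_lit 53352) (nat_lit 0) (nat_lit 24472) xc100 xc101) (XT.nd (nat_lit 3510) (nat_lit 6232) (nat_lit 0) xc102 xc103))) (XT.nd (nat_lit 64038) (nat_lit 0) (nat_lit 0) (XT.nd (nat_lit 7020) (nat_lit 2888) (nat_lit 0) (XT.nd (nat_lit 3510) (nat_lit 13984) (nat_lit 0) xc104 xc105) (XT.nd (nat_lit 53508) (nat_lit 0) (nat_lit 11172)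 xc106 xc107)) (XT.nd (nat_lit 57096) (nat_lit 0) (nat_lit 228) (XT.nd (nat_lit 3510) (nat_lit 532) (nat_lit 0) xc108 xc109) (XT.nd (nat_lit 3510) (nat_lit 6460) (nat_lit 0) xc110 xc111)))) (XT.nd (nat_lit 178932) (nat_lit 0) (nat_lit 532) (XT.nd (nat_lit 64194) (nat_lit 0) (nat_lit 228) (XT.nd (nat_lit 6942) (nat_lit 2660) (nat_lit 0) (XT.nd (nat_lit 3432) (nat_lit 13908) (nat_lit 0) xc112 xc113) (XT.nd (nat_lit 53742) (nat_lit 0) (nat_lit 9880) xc114 xc115)) (XT.nd (nat_lit 57330) (nat_lit 0) (nat_lit 76) (XT.nd (nat_lit 53820) (nat_lit 0) (nat_lit 20900) xc116 xc117) (XT.nd (nat_lit 3510) (nat_lit 4484) (nat_lit 0) xc118 xc119))) (XT.nd (nat_lit 64506) (nat_lit 0) (nat_lit 0) (XT.nd (nat_lit 7020) (nat_lit 608) (nat_lit 0) (XT.nd (nat_lit 3510) (nat_lit 11476) (nat_lit 0) xc120 xc121) (XT.nd (nat_lit 53976) (nat_lit 0) (nat_lit 5548) xc122 xc123)) (XT.nd (nat_lit 57564) (nat_lit 0) (nat_lit 228) (XT.nd (nat_lit 54054) (nat_lit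 0) (nat_lit 13300) xc124 xc125) (XT.nd (nat_lit 3510) (nat_lit 988) (nat_lit 0) xc126 xc127))))))) (XT.nd (nat_lit 1724034) (nat_lit 0) (nat_lit 4408) (XT.nd (nat_lit 776334) (nat_lit 0) (nat_lit 1900) (XT.nd (nat_lit 360984) (nat_lit 0) (nat_lit 912) (XT.nd (nat_lit 180180) (nat_lit 0) (nat_lit 380) (XT.nd (nat_lit 64662) (nat_lit 0) (nat_lit 0) (XT.nd (nat_lit 57642) (nat_lit 0) (nat_lit 988) (XT.nd (nat_lit 3432) (nat_lit 6156) (nat_lit 0) xc128 xc129) (XT.nd (nat_lit 3510) (nat_lit 12084) (nat_lit 0) xc130 xc131)) (XT.nd (nat_lit 57720) (nat_lit 0) (nat_lit 0) (XT.nd (nat_lit 54210) (nat_lit 0) (nat_lit 5700) xc132 xc133) (XT.nd (nat_lit 54288) (nat_lit 0) (nat_lit 11780) xc134 xc135))) (XT.nd (nat_lit 115752) (nat_lit 0) (nat_lit 228) (XT.nd (nat_lit 57798) (nat_lit 0) (nat_lit 0) (XT.nd (nat_lit 3432) (nat_lit 532) (nat_lit 0) xc136 xc137) (XT.nd (nat_lit 3510) (nat_lit 4484) (nat_lit 0) xc138 xc139)) (XT.nd (nat_lit 58032)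 (nat_lit 0) (nat_lit 2356) (XT.nd (nat_lit 3510) (nat_lit 9500) (nat_lit 0) xc140 xc141) (XT.nd (nat_lit 3510) (nat_lit 14212) (nat_lit 0) xc142 xc143)))) (XT.nd (nat_lit 232830) (nat_lit 0) (nat_lit 608) (XT.nd (nat_lit 116220) (nat_lit 0) (nat_lit 304) (XT.nd (nat_lit 58032) (nat_lit 0) (nat_lit 0) (XT.nd (nat_lit 54522) (nat_lit 0) (nat_lit 6612) xc144 xc145) (XT.nd (nat_lit 54678) (nat_lit 0) (nat_lit 11476) xc146 xc147)) (XT.nd (nat_lit 58266) (nat_lit 0) (nat_lit 0) (XT.nd (nat_lit 54756) (nat_lit 0) (nat_lit 17480) xc148 xc149) (XT.nd (nat_lit 3510) (nat_lit 2508) (nat_lit 0) xc150 xc151))) (XT.nd (nat_lit 116922) (nat_lit 0) (nat_lit 304) (XT.nd (nat_lit 58422) (nat_lit 0) (nat_lit 0) (XT.nd (nat_lit 3510) (nat_lit 5548) (nat_lit 0) xc152 xc153) (XT.nd (nat_lit 3510) (nat_lit 9652) (nat_lit 0) xc154 xc155)) (XT.nd (nat_lit 7020) (nat_lit 684) (nat_lit 0) (XT.nd (nat_lit 3510) (nat_lit 13224) (nat_lit 0) xc156 xc157)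 (XT.nd (nat_lit 55068) (nat_lit 0) (nat_lit 3040) xc158 xc159))))) (XT.nd (nat_lit 471354) (nat_lit 0) (nat_lit 1368) (XT.nd (nat_lit 235014) (nat_lit 0) (nat_lit 608) (XT.nd (nat_lit 117312) (nat_lit 0) (nat_lit 304) (XT.nd (nat_lit 58578) (nat_lit 0) (nat_lit 304) (XT.nd (nat_lit 55068) (nat_lit 0) (nat_lit 5624) xc160 xc161) (XT.nd (nat_lit 55224) (nat_lit 0) (nat_lit 7904) xc162 xc163)) (XT.nd (nat_lit 58812) (nat_lit 0) (nat_lit 304) (XT.nd (nat_lit 55302) (nat_lit 0) (nat_lit 10792) xc164 xc165) (XT.nd (nat_lit 55380) (nat_lit 0) (nat_lit 13148) xc166 xc167))) (XT.nd (nat_lit 118014) (nat_lit 0) (nat_lit 456) (XT.nd (nat_lit 58968) (nat_lit 0) (nat_lit 456) (XT.nd (nat_lit 55458) (nat_lit 0) (nat_lit 15352) xc168 xc169) (XT.nd (nat_lit 3510) (nat_lit 1064) (nat_lit 0) xc170 xc171)) (XT.nd (nat_lit 59124) (nat_lit 0) (nat_lit 304) (XT.nd (nat_lit 3510) (nat_lit 1900) (nat_lit 0) xc172 xc173) (XT.nd (nat_lit 3510) (nat_lit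 2888) (nat_lit 0) xc174 xc175)))) (XT.nd (nat_lit 237510) (nat_lit 0) (nat_lit 760) (XT.nd (nat_lit 118560) (nat_lit 0) (nat_lit 456) (XT.nd (nat_lit 59202) (nat_lit 0) (nat_lit 380) (XT.nd (nat_lit 3432) (nat_lit 3724) (nat_lit 0) xc176 xc177) (XT.nd (nat_lit 3510) (nat_lit 3876) (nat_lit 0) xc178 xc179)) (XT.nd (nat_lit 59436) (nat_lit 0) (nat_lit 304) (XT.nd (nat_lit 3510) (nat_lit 3800) (nat_lit 0) xc180 xc181) (XT.nd (nat_lit 3510) (nat_lit 3496) (nat_lit 0) xc182 xc183))) (XT.nd (nat_lit 119262) (nat_lit 0) (nat_lit 380) (XT.nd (nat_lit 59592) (nat_lit 0) (nat_lit 380) (XT.nd (nat_lit 3510) (nat_lit 3496) (nat_lit 0) xc184 xc185) (XT.nd (nat_lit 3510) (nat_lit 2584) (nat_lit 0) xc186 xc187)) (XT.nd (nat_lit 59748) (nat_lit 0) (nat_lit 456) (XT.nd (nat_lit 3510) (nat_lit 1748) (nat_lit 0) xc188 xc189) (XT.nd (nat_lit 3510) (nat_lit 380) (nat_lit 0) xc190 xc191)))))) (XT.nd (nat_lit 1129830) (nat_lit 0) (nat_lit 5624) (XT.nd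 (nat_lit 534534) (nat_lit 0) (nat_lit 2584) (XT.nd (nat_lit 239772) (nat_lit 0) (nat_lit 1216) (XT.nd (nat_lit 119652) (nat_lit 0) (nat_lit 836) (XT.nd (nat_lit 59748) (nat_lit 0) (nat_lit 456) (XT.nd (nat_lit 56238) (nat_lit 0) (nat_lit 11932) xc192 xc193) (XT.nd (nat_lit 56394) (nat_lit 0) (nat_lit 8740) xc194 xc195)) (XT.nd (nat_lit 59982) (nat_lit 0) (nat_lit 380) (XT.nd (nat_lit 56472) (nat_lit 0) (nat_lit 5928) xc196 xc197) (XT.nd (nat_lit 56628) (nat_lit 0) (nat_lit 2812) xc198 xc199))) (XT.nd (nat_lit 173862) (nat_lit 0) (nat_lit 912) (XT.nd (nat_lit 113490) (nat_lit 0) (nat_lit 532) (XT.nd (nat_lit 56706) (nat_lit 0) (nat_lit 456) xc200 xc201) (XT.nd (nat_lit 3510) (nat_lit 10868) (nat_lit 0) xc202 xc203)) (XT.nd (nat_lit 60450) (nat_lit 0) (nat_lit 0) (XT.nd (nat_lit 3510) (nat_lit 5776) (nat_lit 0) xc204 xc205) (XT.nd (nat_lit 3510) (nat_lit 1900) (nat_lit 0) xc206 xc207)))) (XT.nd (nat_lit 296478) (nat_lit 0) (nat_lit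 1444) (XT.nd (nat_lit 121056) (nat_lit 0) (nat_lit 532) (XT.nd (nat_lit 60450) (nat_lit 0) (nat_lit 0) (XT.nd (nat_lit 56940) (nat_lit 0) (nat_lit 7220) xc208 xc209) (XT.nd (nat_lit 57096) (nat_lit 0) (nat_lit 2508) xc210 xc211)) (XT.nd (nat_lit 114504) (nat_lit 0) (nat_lit 912) (XT.nd (nat_lit 57174) (nat_lit 0) (nat_lit 456) xc212 xc213) (XT.nd (nat_lit 3510) (nat_lit 4560) (nat_lit 0) xc214 xc215))) (XT.nd (nat_lit 176202) (nat_lit 0) (nat_lit 1064) (XT.nd (nat_lit 60996) (nat_lit 0) (nat_lit 532) (XT.nd (nat_lit 57486) (nat_lit 0) (nat_lit 6536) xc216 xc217) (XT.nd (nat_lit 57564) (nat_lit 0) (nat_lit 76) xc218 xc219)) (XT.nd (nat_lit 61230) (nat_lit 0) (nat_lit 532) (XT.nd (nat_lit 3510) (nat_lit 6156) (nat_lit 0) xc220 xc221) (XT.nd (nat_lit 57876) (nat_lit 0) (nat_lit 4864) xc222 xc223))))) (XT.nd (nat_lit 771498) (nat_lit 0) (nat_lit 6308) (XT.nd (nat_lit 356070) (nat_lit 0) (nat_lit 2280) (XT.nd (nat_lit 177528) (nat_lit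 0) (nat_lit 1672) (XT.nd (nat_lit 115908) (nat_lit 0) (nat_lit 1140) (XT.nd (nat_lit 57876) (nat_lit 0) (nat_lit 532) xc224 xc225) (XT.nd (nat_lit 3510) (nat_lit 1140) (nat_lit 0) xc226 xc227)) (XT.nd (nat_lit 116610) (nat_lit 0) (nat_lit 608) (XT.nd (nat_lit 58266) (nat_lit 0) (nat_lit 0) xc228 xc229) (XT.nd (nat_lit 3510) (nat_lit 0) (nat_lit 0) xc230 xc231))) (XT.nd (nat_lit 234702) (nat_lit 0) (nat_lit 1900) (XT.nd (nat_lit 117156) (nat_lit 0) (nat_lit 1292) (XT.nd (nat_lit 58500) (nat_lit 0) (nat_lit 684) xc232 xc233) (XT.nd (nat_lit 58734) (nat_lit 0) (nat_lit 0) xc234 xc235)) (XT.nd (nat_lit 62478) (nat_lit 0) (nat_lit 684) (XT.nd (nat_lit 3510) (nat_lit 684) (nat_lit 0) xc236 xc237) (XT.nd (nat_lit 59046) (nat_lit 0) (nat_lit 760) xc238 xc239)))) (XT.nd (nat_lit 533832) (nat_lit 0) (nat_lit 5472) (XT.nd (nat_lit 237666) (nat_lit 0) (nat_lit 2204) (XT.nd (nat_lit 118560) (nat_lit 0) (nat_lit 684) (XT.nd (nat_lit 59202)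 (nat_lit 0) (nat_lit 0) xc240 xc241) (XT.nd (nat_lit 59514) (nat_lit 0) (nat_lit 760) xc242 xc243)) (XT.nd (nat_lit 175968) (nat_lit 0) (nat_lit 1596) (XT.nd (nat_lit 59748) (nat_lit 0) (nat_lit 76) xc244 xc245) (XT.nd (nat_lit 60060) (nat_lit 0) (nat_lit 0) xc246 xc247))) (XT.nd (nat_lit 356382) (nat_lit 0) (nat_lit 3724) (XT.nd (nat_lit 177684) (nat_lit 0) (nat_lit 1824) (XT.nd (nat_lit 117156) (nat_lit 0) (nat_lit 912) xc248 xc249) (XT.nd (nat_lit 117858) (nat_lit 0) (nat_lit 912) xc250 xc251)) (XT.nd (nat_lit 237666) (nat_lit 0) (nat_lit 0) (XT.nd (nat_lit 118560) (nat_lit 0) (nat_lit 0) xc252 xc253) (XT.nd (nat_lit 177840) (nat_lit 0) (nat_lit 1292) xc254 xc255)))))))) XT.nil))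

set_option maxRecDepth 10000000 in
noncomputable def Te : XT := XT.nil

set_option maxRecDepth 10000000 in
noncomputable def Tz : ZL := (ZL.cons (nat_lit 76) (nat_lit 6) (nat_lit 283421082686032285152) (ZL.cons (nat_lit 152) (nat_lit 3) (nat_lit 140345536608492594615) (ZL.cons (nat_lit 684) (nat_lit 6) (nat_lit 198205242678930648666) (ZL.cons (nat_lit 760) (nat_lit 6) (nat_lit 196441835899796208348) (ZL.cons (nat_lit 836) (nat_lit 3) (nat_lit 98202203038014974343) (ZL.cons (nat_lit 988) (nat_lit 6) (nat_lit 194643160985079079222) (ZL.cons (nat_lit 1064) (nat_lit 6) (nat_lit 192920816721728647774) (ZL.cons (nat_lit 1140) (nat_lit 3) (nat_lit 96442060408037726015) (ZL.cons (nat_lit 1292) (nat_lit 6) (nat_lit 191164025573111207700) (ZL.cons (nat_lit 1368) (nat_lit 6) (nat_lit 189482200709032242608) (ZL.cons (nat_lit 1444) (nat_lit 3) (nat_lit 94723112165470437114) (ZL.cons (nat_lit 1520) (nat_lit 6) (nat_lit 187837986684676172844)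 (ZL.cons (nat_lit 1596) (nat_lit 6) (nat_lit 187766739347671698212) (ZL.cons (nat_lit 1672) (nat_lit 6) (nat_lit 186124912001741613306) (ZL.cons (nat_lit 1748) (nat_lit 3) (nat_lit 93044820521414253527) (ZL.cons (nat_lit 1824) (nat_lit 6) (nat_lit 184520098439289470460) (ZL.cons (nat_lit 1900) (nat_lit 6) (nat_lit 184450248108892926704) (ZL.cons (nat_lit 2052) (nat_lit 6) (nat_lit 182847917646675178504) (ZL.cons (nat_lit 2128) (nat_lit 3) (nat_lit 91406669137595870500) (ZL.cons (nat_lit 2204) (nat_lit 6) (nat_lit 181282021291288118240) (ZL.cons (nat_lit 2280) (nat_lit 6) (nat_lit 181213540575213075340) (ZL.cons (nat_lit 2432) (nat_lit 6) (nat_lit 179650227637309879264) (ZL.cons (nat_lit 2508) (nat_lit 3) (nat_lit 89808163146359136934) (ZL.cons (nat_lit 2584) (nat_lit 6) (nat_lit 178122786397584935832) (ZL.cons (nat_lit 2660) (nat_lit 6) (nat_lit 178055648440648619266) (ZL.cons (nat_lit 2736) (nat_lit 6) (nat_lit 176630617859473647030)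 (ZL.cons (nat_lit 2812) (nat_lit 6) (nat_lit 176530894988473888138) (ZL.cons (nat_lit 2888) (nat_lit 3) (nat_lit 88248829188064588484) (ZL.cons (nat_lit 2964) (nat_lit 6) (nat_lit 175041467993663815886) (ZL.cons (nat_lit 3040) (nat_lit 6) (nat_lit 174975646467255662390) (ZL.cons (nat_lit 3116) (nat_lit 6) (nat_lit 173586783367200829932) (ZL.cons (nat_lit 3192) (nat_lit 6) (nat_lit 173489015846612831018) (ZL.cons (nat_lit 3268) (nat_lit 3) (nat_lit 86728215466274694346) (ZL.cons (nat_lit 3420) (nat_lit 6) (nat_lit 172037183521800430762) (ZL.cons (nat_lit 3496) (nat_lit 6) (nat_lit 171972652613557143018) (ZL.cons (nat_lit 3572) (nat_lit 6) (nat_lit 170619580146808731264) (ZL.cons (nat_lit 3648) (nat_lit 6) (nat_lit 170523729636428340172) (ZL.cons (nat_lit 3724) (nat_lit 3) (nat_lit 85245891821124247377) (ZL.cons (nat_lit 3800) (nat_lit 6) (nat_lit 169235649798745578924) (ZL.cons (nat_lit 3876) (nat_lit 6) (nat_lit 169109093796073910036)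 (ZL.cons (nat_lit 3952) (nat_lit 6) (nat_lit 169045828199756961270) (ZL.cons (nat_lit 4028) (nat_lit 6) (nat_lit 167728190333340772442) (ZL.cons (nat_lit 4104) (nat_lit 6) (nat_lit 167634219244732545880) (ZL.cons (nat_lit 4180) (nat_lit 3) (nat_lit 83801449821297721266) (ZL.cons (nat_lit 4256) (nat_lit 6) (nat_lit 166380477717459228120) (ZL.cons (nat_lit 4332) (nat_lit 6) (nat_lit 166256403205036023330) (ZL.cons (nat_lit 4408) (nat_lit 6) (nat_lit 166194378110607642186) (ZL.cons (nat_lit 4484) (nat_lit 6) (nat_lit 164911839760651826350) (ZL.cons (nat_lit 4560) (nat_lit 6) (nat_lit 164819711242408466978) (ZL.cons (nat_lit 4636) (nat_lit 3) (nat_lit 82394502875058594591) (ZL.cons (nat_lit 4712) (nat_lit 6) (nat_lit 163600001631797843492) (ZL.cons (nat_lit 4788) (nat_lit 6) (nat_lit 163478359952951564286) (ZL.cons (nat_lit 4864) (nat_lit 6) (nat_lit 163417551036845308262) (ZL.cons (nat_lit 5016) (nat_lit 6) (nat_lit 162169798222123421606)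 (ZL.cons (nat_lit 5092) (nat_lit 6) (nat_lit 162079476145414245748) (ZL.cons (nat_lit 5168) (nat_lit 3) (nat_lit 81024686360799633760) (ZL.cons (nat_lit 5244) (nat_lit 6) (nat_lit 160893512888460969072) (ZL.cons (nat_lit 5320) (nat_lit 6) (nat_lit 160774256340572460046) (ZL.cons (nat_lit 5396) (nat_lit 6) (nat_lit 160714639756154561984) (ZL.cons (nat_lit 5472) (nat_lit 6) (nat_lit 159649003447911790042) (ZL.cons (nat_lit 5548) (nat_lit 6) (nat_lit 159501379771416091632) (ZL.cons (nat_lit 5624) (nat_lit 6) (nat_lit 159412828715818860402) (ZL.cons (nat_lit 5700) (nat_lit 3) (nat_lit 79691657777607970284) (ZL.cons (nat_lit 5776) (nat_lit 6) (nat_lit 158260347270663118404) (ZL.cons (nat_lit 5852) (nat_lit 6) (nat_lit 158143429086458697790) (ZL.cons (nat_lit 5928) (nat_lit 6) (nat_lit 158084981454676444788) (ZL.cons (nat_lit 6004) (nat_lit 6) (nat_lit 157050672158901480366) (ZL.cons (nat_lit 6080) (nat_lit 6) (nat_lit 156905943064297854478)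 (ZL.cons (nat_lit 6156) (nat_lit 6) (nat_lit 156819128303908412092) (ZL.cons (nat_lit 6232) (nat_lit 3) (nat_lit 78395096916364539462) (ZL.cons (nat_lit 6384) (nat_lit 6) (nat_lit 155699885360700188954) (ZL.cons (nat_lit 6460) (nat_lit 6) (nat_lit 155585259689911541294) (ZL.cons (nat_lit 6536) (nat_lit 6) (nat_lit 155527958090125018742) (ZL.cons (nat_lit 6612) (nat_lit 6) (nat_lit 154524783011860368808) (ZL.cons (nat_lit 6688) (nat_lit 6) (nat_lit 154382891742641127738) (ZL.cons (nat_lit 6764) (nat_lit 6) (nat_lit 154297779232455399912) (ZL.cons (nat_lit 6840) (nat_lit 3) (nat_lit 77134706051924105264) (ZL.cons (nat_lit 6916) (nat_lit 6) (nat_lit 153380175193327868614) (ZL.cons (nat_lit 6992) (nat_lit 6) (nat_lit 153211552945255104596) (ZL.cons (nat_lit 7068) (nat_lit 6) (nat_lit 153099174836638783360) (ZL.cons (nat_lit 7144) (nat_lit 6) (nat_lit 153042996797632388702) (ZL.cons (nat_lit 7220) (nat_lit 6) (nat_lit 152070783949205477348)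 (ZL.cons (nat_lit 7296) (nat_lit 6) (nat_lit 151931674861735633164) (ZL.cons (nat_lit 7372) (nat_lit 6) (nat_lit 151848231224298645096) (ZL.cons (nat_lit 7448) (nat_lit 3) (nat_lit 75910210156949719911) (ZL.cons (nat_lit 7524) (nat_lit 6) (nat_lit 150960137394101638298) (ZL.cons (nat_lit 7600) (nat_lit 6) (nat_lit 150794821464618536320) (ZL.cons (nat_lit 7676) (nat_lit 6) (nat_lit 150684646848328025304) (ZL.cons (nat_lit 7752) (nat_lit 6) (nat_lit 150629570339498226620) (ZL.cons (nat_lit 7828) (nat_lit 6) (nat_lit 149879177732274919272) (ZL.cons (nat_lit 7904) (nat_lit 6) (nat_lit 149688168820425878282) (ZL.cons (nat_lit 7980) (nat_lit 6) (nat_lit 149551787362122109472) (ZL.cons (nat_lit 8056) (nat_lit 6) (nat_lit 149469979874438787840) (ZL.cons (nat_lit 8132) (nat_lit 3) (nat_lit 74721357138004097215) (ZL.cons (nat_lit 8208) (nat_lit 6) (nat_lit 148611282947728563890) (ZL.cons (nat_lit 8284) (nat_lit 6) (nat_lit 148449208507058856068)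 (ZL.cons (nat_lit 8360) (nat_lit 6) (nat_lit 148341194177362276642) (ZL.cons (nat_lit 8436) (nat_lit 6) (nat_lit 148287197600078160284) (ZL.cons (nat_lit 8512) (nat_lit 6) (nat_lit 147563741538341221648) (ZL.cons (nat_lit 8588) (nat_lit 6) (nat_lit 147376477899273534400) (ZL.cons (nat_lit 8664) (nat_lit 6) (nat_lit 147242770587211015962) (ZL.cons (nat_lit 8740) (nat_lit 6) (nat_lit 147162567167913641810) (ZL.cons (nat_lit 8816) (nat_lit 3) (nat_lit 73567918094530059431) (ZL.cons (nat_lit 8968) (nat_lit 6) (nat_lit 146333174860096424738) (ZL.cons (nat_lit 9044) (nat_lit 6) (nat_lit 146174278349635926874) (ZL.cons (nat_lit 9120) (nat_lit 6) (nat_lit 146068381947972613710) (ZL.cons (nat_lit 9196) (nat_lit 6) (nat_lit 146015444127105832968) (ZL.cons (nat_lit 9272) (nat_lit 6) (nat_lit 145318890251080790956) (ZL.cons (nat_lit 9348) (nat_lit 6) (nat_lit 145135298448073254442) (ZL.cons (nat_lit 9424) (nat_lit 6) (nat_lit 145004212848011961852)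 (ZL.cons (nat_lit 9500) (nat_lit 6) (nat_lit 144925582044779242098) (ZL.cons (nat_lit 9576) (nat_lit 3) (nat_lit 72449687601382992152) (ZL.cons (nat_lit 9652) (nat_lit 6) (nat_lit 144333226313556430850) (ZL.cons (nat_lit 9728) (nat_lit 6) (nat_lit 144125423439424346636) (ZL.cons (nat_lit 9804) (nat_lit 6) (nat_lit 143969642546816015396) (ZL.cons (nat_lit 9880) (nat_lit 6) (nat_lit 143865822545185316216) (ZL.cons (nat_lit 9956) (nat_lit 6) (nat_lit 143813922720806119410) (ZL.cons (nat_lit 10032) (nat_lit 6) (nat_lit 143144257294274047028) (ZL.cons (nat_lit 10108) (nat_lit 6) (nat_lit 142964265330541168088) (ZL.cons (nat_lit 10184) (nat_lit 6) (nat_lit 142835750036363430258) (ZL.cons (nat_lit 10260) (nat_lit 6) (nat_lit 142758661013586254026) (ZL.cons (nat_lit 10336) (nat_lit 3) (nat_lit 71366484015610157507) (ZL.cons (nat_lit 10412) (nat_lit 6) (nat_lit 142191415241585041764) (ZL.cons (nat_lit 10488) (nat_lit 6) (nat_lit 141987686933612410182)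 (ZL.cons (nat_lit 10564) (nat_lit 6) (nat_lit 141834960568310124652) (ZL.cons (nat_lit 10640) (nat_lit 6) (nat_lit 141733176252985909770) (ZL.cons (nat_lit 10716) (nat_lit 6) (nat_lit 141682294072221991332) (ZL.cons (nat_lit 10792) (nat_lit 6) (nat_lit 141266523617807256734) (ZL.cons (nat_lit 10868) (nat_lit 6) (nat_lit 141039524384109377460) (ZL.cons (nat_lit 10944) (nat_lit 6) (nat_lit 140863061674567339288) (ZL.cons (nat_lit 11020) (nat_lit 6) (nat_lit 140737066288118576706) (ZL.cons (nat_lit 11096) (nat_lit 6) (nat_lit 140661488814807619618) (ZL.cons (nat_lit 11172) (nat_lit 3) (nat_lit 70318149808204820096) (ZL.cons (nat_lit 11248) (nat_lit 6) (nat_lit 140119405853581284420) (ZL.cons (nat_lit 11324) (nat_lit 6) (nat_lit 139919672218313998556) (ZL.cons (nat_lit 11400) (nat_lit 6) (nat_lit 139769940487625483332) (ZL.cons (nat_lit 11476) (nat_lit 6) (nat_lit 139670151943189978544) (ZL.cons (nat_lit 11552) (nat_lit 6) (nat_lit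 139620267452244960468) (ZL.cons (nat_lit 11628) (nat_lit 6) (nat_lit 139226970511231845532) (ZL.cons (nat_lit 11704) (nat_lit 6) (nat_lit 139004422242900591344) (ZL.cons (nat_lit 11780) (nat_lit 6) (nat_lit 138831419586486828428) (ZL.cons (nat_lit 11856) (nat_lit 6) (nat_lit 138707894697811570998) (ZL.cons (nat_lit 11932) (nat_lit 6) (nat_lit 138633799135742005222) (ZL.cons (nat_lit 12008) (nat_lit 3) (nat_lit 69304551921597483286) (ZL.cons (nat_lit 12084) (nat_lit 6) (nat_lit 138361868382417002196) (ZL.cons (nat_lit 12160) (nat_lit 6) (nat_lit 138116952826768132004) (ZL.cons (nat_lit 12236) (nat_lit 6) (nat_lit 137921135537290400764) (ZL.cons (nat_lit 12312) (nat_lit 6) (nat_lit 137774339722889895642) (ZL.cons (nat_lit 12388) (nat_lit 6) (nat_lit 137676507816580577224) (ZL.cons (nat_lit 12464) (nat_lit 6) (nat_lit 137627601452908990874) (ZL.cons (nat_lit 12540) (nat_lit 6) (nat_lit 137256915942694607806) (ZL.cons (nat_lit 12616)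 (nat_lit 6) (nat_lit 137038731365899260562) (ZL.cons (nat_lit 12692) (nat_lit 6) (nat_lit 136869120918434787116) (ZL.cons (nat_lit 12768) (nat_lit 6) (nat_lit 136748018086400221006) (ZL.cons (nat_lit 12844) (nat_lit 6) (nat_lit 136675375378488882014) (ZL.cons (nat_lit 12920) (nat_lit 3) (nat_lit 68325582153682167157) (ZL.cons (nat_lit 12996) (nat_lit 6) (nat_lit 136423974321313715408) (ZL.cons (nat_lit 13072) (nat_lit 6) (nat_lit 136183861031461881884) (ZL.cons (nat_lit 13148) (nat_lit 6) (nat_lit 135991883296679792434) (ZL.cons (nat_lit 13224) (nat_lit 6) (nat_lit 135847965831581258000) (ZL.cons (nat_lit 13300) (nat_lit 6) (nat_lit 135752052197944671316) (ZL.cons (nat_lit 13376) (nat_lit 6) (nat_lit 135704104782580370974) (ZL.cons (nat_lit 13452) (nat_lit 6) (nat_lit 135617801318852364262) (ZL.cons (nat_lit 13528) (nat_lit 6) (nat_lit 135356189290709857916) (ZL.cons (nat_lit 13604) (nat_lit 6) (nat_lit 135142282842871282186)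 (ZL.cons (nat_lit 13680) (nat_lit 6) (nat_lit 134975998090455131748) (ZL.cons (nat_lit 13756) (nat_lit 6) (nat_lit 134857269823754576740) (ZL.cons (nat_lit 13832) (nat_lit 6) (nat_lit 134786051482665028706) (ZL.cons (nat_lit 13908) (nat_lit 3) (nat_lit 67381157569212638032) (ZL.cons (nat_lit 13984) (nat_lit 6) (nat_lit 134555391566489952570) (ZL.cons (nat_lit 14060) (nat_lit 6) (nat_lit 134319986380360704018) (ZL.cons (nat_lit 14136) (nat_lit 6) (nat_lit 134131772914888067300) (ZL.cons (nat_lit 14212) (nat_lit 6) (nat_lit 133990677360869896288) (ZL.cons (nat_lit 14288) (nat_lit 6) (nat_lit 133896644386716379930) (ZL.cons (nat_lit 14364) (nat_lit 6) (nat_lit 133849637116751379596) (ZL.cons (nat_lit 14440) (nat_lit 6) (nat_lit 133781153820478942352) (ZL.cons (nat_lit 14516) (nat_lit 6) (nat_lit 133524671439947073388) (ZL.cons (nat_lit 14592) (nat_lit 6) (nat_lit 133314959236183763848) (ZL.cons (nat_lit 14668) (nat_lit 6) (nat_lit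 133151934969109106556) (ZL.cons (nat_lit 14744) (nat_lit 6) (nat_lit 133035534707637974194) (ZL.cons (nat_lit 14820) (nat_lit 6) (nat_lit 132965712804609005536) (ZL.cons (nat_lit 14896) (nat_lit 3) (nat_lit 66471220939441878922) (ZL.cons (nat_lit 14972) (nat_lit 6) (nat_lit 133033172430031332750) (ZL.cons (nat_lit 15048) (nat_lit 6) (nat_lit 132756026133418463378) (ZL.cons (nat_lit 15124) (nat_lit 6) (nat_lit 132525236735252533426) (ZL.cons (nat_lit 15200) (nat_lit 6) (nat_lit 132340713729887203312) (ZL.cons (nat_lit 15276) (nat_lit 6) (nat_lit 132202384755359584670) (ZL.cons (nat_lit 15352) (nat_lit 6) (nat_lit 132110195565013000008) (ZL.cons (nat_lit 15428) (nat_lit 6) (nat_lit 132064110006223783992) (ZL.cons (nat_lit 15504) (nat_lit 6) (nat_lit 132013749031242901990) (ZL.cons (nat_lit 15580) (nat_lit 6) (nat_lit 131762295716995971630) (ZL.cons (nat_lit 15656) (nat_lit 6) (nat_lit 131556695517228021104) (ZL.cons (nat_lit 15732)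 (nat_lit 6) (nat_lit 131396867804409729640) (ZL.cons (nat_lit 15808) (nat_lit 6) (nat_lit 131282749901006658698) (ZL.cons (nat_lit 15884) (nat_lit 6) (nat_lit 131214297054899826678) (ZL.cons (nat_lit 15960) (nat_lit 3) (nat_lit 65595741210917929177) (ZL.cons (nat_lit 16036) (nat_lit 6) (nat_lit 131297549044360712532) (ZL.cons (nat_lit 16112) (nat_lit 6) (nat_lit 131025836988857899422) (ZL.cons (nat_lit 16188) (nat_lit 6) (nat_lit 130799572873008948488) (ZL.cons (nat_lit 16264) (nat_lit 6) (nat_lit 130618667965788036612) (ZL.cons (nat_lit 16340) (nat_lit 6) (nat_lit 130483051324094292848) (ZL.cons (nat_lit 16416) (nat_lit 6) (nat_lit 130392669764930974548) (ZL.cons (nat_lit 16492) (nat_lit 6) (nat_lit 130347487844549390220) (ZL.cons (nat_lit 16568) (nat_lit 6) (nat_lit 130607145310031941202) (ZL.cons (nat_lit 16644) (nat_lit 6) (nat_lit 130315571743493948924) (ZL.cons (nat_lit 16720) (nat_lit 6) (nat_lit 130069048886389115240)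 (ZL.cons (nat_lit 16796) (nat_lit 6) (nat_lit 129867480063087202956) (ZL.cons (nat_lit 16872) (nat_lit 6) (nat_lit 129710786226990838780) (ZL.cons (nat_lit 16948) (nat_lit 6) (nat_lit 129598905929536847658) (ZL.cons (nat_lit 17024) (nat_lit 6) (nat_lit 129531795296098777050) (ZL.cons (nat_lit 17100) (nat_lit 3) (nat_lit 64754714004390580523) (ZL.cons (nat_lit 17176) (nat_lit 6) (nat_lit 129631221445513781334) (ZL.cons (nat_lit 17252) (nat_lit 6) (nat_lit 129364837077373768482) (ZL.cons (nat_lit 17328) (nat_lit 6) (nat_lit 129143009512815973448) (ZL.cons (nat_lit 17404) (nat_lit 6) (nat_lit 128965651760638608864) (ZL.cons (nat_lit 17480) (nat_lit 6) (nat_lit 128832694268781997330) (ZL.cons (nat_lit 17556) (nat_lit 6) (nat_lit 128744084897053253900) (ZL.cons (nat_lit 17632) (nat_lit 6) (nat_lit 128699788896679151616) (ZL.cons (nat_lit 17708) (nat_lit 6) (nat_lit 128972517722251522078) (ZL.cons (nat_lit 17784) (nat_lit 6) (nat_lit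 128686661284469176710) (ZL.cons (nat_lit 17860) (nat_lit 6) (nat_lit 128444972208876202508) (ZL.cons (nat_lit 17936) (nat_lit 6) (nat_lit 128247355715442955174) (ZL.cons (nat_lit 18012) (nat_lit 6) (nat_lit 128093734307505343232) (ZL.cons (nat_lit 18088) (nat_lit 6) (nat_lit 127984047741373979390) (ZL.cons (nat_lit 18164) (nat_lit 6) (nat_lit 127918253002709204284) (ZL.cons (nat_lit 18240) (nat_lit 3) (nat_lit 63948162144826359002) (ZL.cons (nat_lit 18316) (nat_lit 6) (nat_lit 128339202258521578110) (ZL.cons (nat_lit 18392) (nat_lit 6) (nat_lit 128034255556384004784) (ZL.cons (nat_lit 18468) (nat_lit 6) (nat_lit 127773094411148698066) (ZL.cons (nat_lit 18544) (nat_lit 6) (nat_lit 127555616406680271564) (ZL.cons (nat_lit 18620) (nat_lit 6) (nat_lit 127381736257486776872) (ZL.cons (nat_lit 18696) (nat_lit 6) (nat_lit 127251385775274412622) (ZL.cons (nat_lit 18772) (nat_lit 6) (nat_lit 127164513842207017104) (ZL.cons (nat_lit 18848)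 (nat_lit 6) (nat_lit 127121086390859858002) (ZL.cons (nat_lit 19000) (nat_lit 6) (nat_lit 127407364047734689896) (ZL.cons (nat_lit 19076) (nat_lit 6) (nat_lit 127127112638144155220) (ZL.cons (nat_lit 19152) (nat_lit 6) (nat_lit 126890162564033396202) (ZL.cons (nat_lit 19228) (nat_lit 6) (nat_lit 126696420903804722342) (ZL.cons (nat_lit 19304) (nat_lit 6) (nat_lit 126545811680336475342) (ZL.cons (nat_lit 19380) (nat_lit 6) (nat_lit 126438275831188079416) (ZL.cons (nat_lit 19456) (nat_lit 6) (nat_lit 126373771185438299902) (ZL.cons (nat_lit 19532) (nat_lit 3) (nat_lit 63176136223573813540) (ZL.cons (nat_lit 19608) (nat_lit 6) (nat_lit 126805740918713918588) (ZL.cons (nat_lit 19684) (nat_lit 6) (nat_lit 126506773563677081992) (ZL.cons (nat_lit 19760) (nat_lit 6) (nat_lit 126250733225211095016) (ZL.cons (nat_lit 19836) (nat_lit 6) (nat_lit 126037519495340088640) (ZL.cons (nat_lit 19912) (nat_lit 6) (nat_lit 125867048760836662472)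 (ZL.cons (nat_lit 19988) (nat_lit 6) (nat_lit 125739254170432383796) (ZL.cons (nat_lit 20064) (nat_lit 6) (nat_lit 125654085608601603874) (ZL.cons (nat_lit 20140) (nat_lit 6) (nat_lit 125611509675908310640) (ZL.cons (nat_lit 20216) (nat_lit 6) (nat_lit 126229150238682859186) (ZL.cons (nat_lit 20292) (nat_lit 6) (nat_lit 125911833917522197178) (ZL.cons (nat_lit 20368) (nat_lit 6) (nat_lit 125637077633609908282) (ZL.cons (nat_lit 20444) (nat_lit 6) (nat_lit 125404773639383673948) (ZL.cons (nat_lit 20520) (nat_lit 6) (nat_lit 125214830835237915264) (ZL.cons (nat_lit 20596) (nat_lit 6) (nat_lit 125067174733798457420) (ZL.cons (nat_lit 20672) (nat_lit 6) (nat_lit 124961747430711794748) (ZL.cons (nat_lit 20748) (nat_lit 6) (nat_lit 124898507581937501106) (ZL.cons (nat_lit 20824) (nat_lit 3) (nat_lit 62438715193767440347) (ZL.cons (nat_lit 20900) (nat_lit 6) (nat_lit 125677365893649342644) (ZL.cons (nat_lit 20976) (nat_lit 6) (nat_lit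 125342060390014341998) (ZL.cons (nat_lit 21052) (nat_lit 6) (nat_lit 125048955139978227690) (ZL.cons (nat_lit 21128) (nat_lit 6) (nat_lit 124797935200305691436) (ZL.cons (nat_lit 21204) (nat_lit 6) (nat_lit 124588902131804704794) (ZL.cons (nat_lit 21280) (nat_lit 6) (nat_lit 124421773960722914434) (ZL.cons (nat_lit 21356) (nat_lit 6) (nat_lit 124296485146601072594) (ZL.cons (nat_lit 21432) (nat_lit 6) (nat_lit 124212986556570896202) (ZL.cons (nat_lit 21508) (nat_lit 6) (nat_lit 124171245446087275382) (ZL.cons (nat_lit 21660) (nat_lit 6) (nat_lit 124797229540554493764) (ZL.cons (nat_lit 21736) (nat_lit 6) (nat_lit 124486135108044040818) (ZL.cons (nat_lit 21812) (nat_lit 6) (nat_lit 124216766202247679152) (ZL.cons (nat_lit 21888) (nat_lit 6) (nat_lit 123989017188300390590) (ZL.cons (nat_lit 21964) (nat_lit 6) (nat_lit 123802798752863372272) (ZL.cons (nat_lit 22040) (nat_lit 6) (nat_lit 123658037869099197916) (ZL.cons (nat_lit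 22116) (nat_lit 6) (nat_lit 123554677768033842356) (ZL.cons (nat_lit 22192) (nat_lit 6) (nat_lit 123492677916294338786) (ZL.cons (nat_lit 22268) (nat_lit 3) (nat_lit 61736007000106669189) (ZL.cons (nat_lit 22344) (nat_lit 6) (nat_lit 124277127709986001556) (ZL.cons (nat_lit 22420) (nat_lit 6) (nat_lit 123948396824069334258) (ZL.cons (nat_lit 22496) (nat_lit 6) (nat_lit 123661038735798633954) (ZL.cons (nat_lit 22572) (nat_lit 6) (nat_lit 123414940755727519980) (ZL.cons (nat_lit 22648) (nat_lit 6) (nat_lit 123210006374844199742) (ZL.cons (nat_lit 22724) (nat_lit 6) (nat_lit 123046155226724797428) (ZL.cons (nat_lit 22800) (nat_lit 6) (nat_lit 122923323056017109352) (ZL.cons (nat_lit 22876) (nat_lit 6) (nat_lit 122841461693242426614) (ZL.cons (nat_lit 22952) (nat_lit 6) (nat_lit 122800539035905543456) (ZL.cons (nat_lit 23028) (nat_lit 6) (nat_lit 123781550936806681652) (ZL.cons (nat_lit 23104) (nat_lit 6) (nat_lit 123435529410295686558)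 (ZL.cons (nat_lit 23180) (nat_lit 6) (nat_lit 123130534868618771902) (ZL.cons (nat_lit 23256) (nat_lit 6) (nat_lit 122866447706073319290) (ZL.cons (nat_lit 23332) (nat_lit 6) (nat_lit 122643164359066173640) (ZL.cons (nat_lit 23408) (nat_lit 6) (nat_lit 122460597265500469406) (ZL.cons (nat_lit 23484) (nat_lit 6) (nat_lit 122318674830437553372) (ZL.cons (nat_lit 23560) (nat_lit 6) (nat_lit 122217341398020538118) (ZL.cons (nat_lit 23636) (nat_lit 6) (nat_lit 122156557229648475792) (ZL.cons (nat_lit 23712) (nat_lit 3) (nat_lit 61068149244196296521) (ZL.cons (nat_lit 23788) (nat_lit 6) (nat_lit 123310304877183914710) (ZL.cons (nat_lit 23864) (nat_lit 6) (nat_lit 122947331742247108052) (ZL.cons (nat_lit 23940) (nat_lit 6) (nat_lit 122625046559975865600) (ZL.cons (nat_lit 24016) (nat_lit 6) (nat_lit 122343322944024198636) (ZL.cons (nat_lit 24092) (nat_lit 6) (nat_lit 122102050414542714348) (ZL.cons (nat_lit 24168) (nat_lit 6) (nat_lit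 121901134354853184702) (ZL.cons (nat_lit 24244) (nat_lit 6) (nat_lit 121740495974343966748) (ZL.cons (nat_lit 24320) (nat_lit 6) (nat_lit 121620072277571723536) (ZL.cons (nat_lit 24396) (nat_lit 6) (nat_lit 121539816039557328694) (ZL.cons (nat_lit 24472) (nat_lit 6) (nat_lit 121499695787266266776) (ZL.cons (nat_lit 24548) (nat_lit 6) (nat_lit 122863204728741378074) (ZL.cons (nat_lit 24624) (nat_lit 6) (nat_lit 122483612369857697334) (ZL.cons (nat_lit 24700) (nat_lit 6) (nat_lit 122144375579160643318) (ZL.cons (nat_lit 24776) (nat_lit 6) (nat_lit 121845361322614648558) (ZL.cons (nat_lit 24852) (nat_lit 6) (nat_lit 121586452339726949918) (ZL.cons (nat_lit 24928) (nat_lit 6) (nat_lit 121367547097563081634) (ZL.cons (nat_lit 25004) (nat_lit 6) (nat_lit 121188559750930038268) (ZL.cons (nat_lit 25080) (nat_lit 6) (nat_lit 121049420108711493136) (ZL.cons (nat_lit 25156) (nat_lit 6) (nat_lit 120950073606341870336) (ZL.cons (nat_lit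 25232) (nat_lit 6) (nat_lit 120890481284408475902) (ZL.cons (nat_lit 25308) (nat_lit 3) (nat_lit 60435309886686648367) (ZL.cons (nat_lit 25384) (nat_lit 6) (nat_lit 122044189442393184048) (ZL.cons (nat_lit 25460) (nat_lit 6) (nat_lit 121688333427749255950) (ZL.cons (nat_lit 25536) (nat_lit 6) (nat_lit 121372367562777449626) (ZL.cons (nat_lit 25612) (nat_lit 6) (nat_lit 121096167939295423190) (ZL.cons (nat_lit 25688) (nat_lit 6) (nat_lit 120859626243725340554) (ZL.cons (nat_lit 25764) (nat_lit 6) (nat_lit 120662649714617958550) (ZL.cons (nat_lit 25840) (nat_lit 6) (nat_lit 120505161106275588006) (ZL.cons (nat_lit 25916) (nat_lit 6) (nat_lit 120387098658459663286) (ZL.cons (nat_lit 25992) (nat_lit 6) (nat_lit 120308416072171040894) (ZL.cons (nat_lit 26068) (nat_lit 6) (nat_lit 120269082491493529210) (ZL.cons (nat_lit 26144) (nat_lit 6) (nat_lit 121628890637136915446) (ZL.cons (nat_lit 26220) (nat_lit 6) (nat_lit 121256741265682326482)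 (ZL.cons (nat_lit 26296) (nat_lit 6) (nat_lit 120924156176763646076) (ZL.cons (nat_lit 26372) (nat_lit 6) (nat_lit 120631004944855808076) (ZL.cons (nat_lit 26448) (nat_lit 6) (nat_lit 120377172608691397644) (ZL.cons (nat_lit 26524) (nat_lit 6) (nat_lit 120162559626177801288) (ZL.cons (nat_lit 26600) (nat_lit 6) (nat_lit 119987081835361092106) (ZL.cons (nat_lit 26676) (nat_lit 6) (nat_lit 119850670421421341974) (ZL.cons (nat_lit 26752) (nat_lit 6) (nat_lit 119753271889686417662) (ZL.cons (nat_lit 26828) (nat_lit 6) (nat_lit 119694848044653678020) (ZL.cons (nat_lit 26904) (nat_lit 3) (nat_lit 59837687987505672752) (ZL.cons (nat_lit 26980) (nat_lit 6) (nat_lit 121237553091812320442) (ZL.cons (nat_lit 27056) (nat_lit 6) (nat_lit 120849429841131593374) (ZL.cons (nat_lit 27132) (nat_lit 6) (nat_lit 120500551395402252102) (ZL.cons (nat_lit 27208) (nat_lit 6) (nat_lit 120190780939547540020) (ZL.cons (nat_lit 27284) (nat_lit 6) (nat_lit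 119919996994957318024) (ZL.cons (nat_lit 27360) (nat_lit 6) (nat_lit 119688093371849393872) (ZL.cons (nat_lit 27436) (nat_lit 6) (nat_lit 119494979127626470338) (ZL.cons (nat_lit 27512) (nat_lit 6) (nat_lit 119340578531212381568) (ZL.cons (nat_lit 27588) (nat_lit 6) (nat_lit 119224831033353631844) (ZL.cons (nat_lit 27664) (nat_lit 6) (nat_lit 119147691242874590282) (ZL.cons (nat_lit 27740) (nat_lit 6) (nat_lit 119109128908877029808) (ZL.cons (nat_lit 27816) (nat_lit 6) (nat_lit 120870023340715350172) (ZL.cons (nat_lit 27892) (nat_lit 6) (nat_lit 120466239424126644572) (ZL.cons (nat_lit 27968) (nat_lit 6) (nat_lit 120101387099171165196) (ZL.cons (nat_lit 28044) (nat_lit 6) (nat_lit 119775323286505792248) (ZL.cons (nat_lit 28120) (nat_lit 6) (nat_lit 119487920117968696170) (ZL.cons (nat_lit 28196) (nat_lit 6) (nat_lit 119239064886434960454) (ZL.cons (nat_lit 28272) (nat_lit 6) (nat_lit 119028660001617709124) (ZL.cons (nat_lit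 28348) (nat_lit 6) (nat_lit 118856622951797406002) (ZL.cons (nat_lit 28424) (nat_lit 6) (nat_lit 118722886271464317640) (ZL.cons (nat_lit 28500) (nat_lit 6) (nat_lit 118627397514861450666) (ZL.cons (nat_lit 28576) (nat_lit 6) (nat_lit 118570119235417588272) (ZL.cons (nat_lit 28652) (nat_lit 3) (nat_lit 59275514485531180157) (ZL.cons (nat_lit 28728) (nat_lit 6) (nat_lit 120526157254531848964) (ZL.cons (nat_lit 28804) (nat_lit 6) (nat_lit 120107019743915713430) (ZL.cons (nat_lit 28880) (nat_lit 6) (nat_lit 119726506753052255522) (ZL.cons (nat_lit 28956) (nat_lit 6) (nat_lit 119384469061160744470) (ZL.cons (nat_lit 29032) (nat_lit 6) (nat_lit 119080772535812987526) (ZL.cons (nat_lit 29108) (nat_lit 6) (nat_lit 118815298080332377728) (ZL.cons (nat_lit 29184) (nat_lit 6) (nat_lit 118587941587089314834) (ZL.cons (nat_lit 29260) (nat_lit 6) (nat_lit 118398613896674683916) (ZL.cons (nat_lit 29336) (nat_lit 6) (nat_lit 118247240762935381202)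 (ZL.cons (nat_lit 29412) (nat_lit 6) (nat_lit 118133762823858175590) (ZL.cons (nat_lit 29488) (nat_lit 6) (nat_lit 118058135578290487784) (ZL.cons (nat_lit 29564) (nat_lit 6) (nat_lit 118020329368488957906) (ZL.cons (nat_lit 29640) (nat_lit 6) (nat_lit 119771629930035972130) (ZL.cons (nat_lit 29716) (nat_lit 6) (nat_lit 119375763345145084288) (ZL.cons (nat_lit 29792) (nat_lit 6) (nat_lit 119018064987345594704) (ZL.cons (nat_lit 29868) (nat_lit 6) (nat_lit 118698394582771699656) (ZL.cons (nat_lit 29944) (nat_lit 6) (nat_lit 118416626770480428992) (ZL.cons (nat_lit 30020) (nat_lit 6) (nat_lit 118172651053290492016) (ZL.cons (nat_lit 30096) (nat_lit 6) (nat_lit 117966371754450049534) (ZL.cons (nat_lit 30172) (nat_lit 6) (nat_lit 117797707980116419024) (ZL.cons (nat_lit 30248) (nat_lit 6) (nat_lit 117666593587632999060) (ZL.cons (nat_lit 30324) (nat_lit 6) (nat_lit 117572977159590972616) (ZL.cons (nat_lit 30400) (nat_lit 6) (nat_lit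 117516821983665617326) (ZL.cons (nat_lit 30476) (nat_lit 3) (nat_lit 58749053019109657703) (ZL.cons (nat_lit 30552) (nat_lit 6) (nat_lit 119459938457070212934) (ZL.cons (nat_lit 30628) (nat_lit 6) (nat_lit 119049019329015178098) (ZL.cons (nat_lit 30704) (nat_lit 6) (nat_lit 118675967377188258580) (ZL.cons (nat_lit 30780) (nat_lit 6) (nat_lit 118340636306706385000) (ZL.cons (nat_lit 30856) (nat_lit 6) (nat_lit 118042894615188976232) (ZL.cons (nat_lit 30932) (nat_lit 6) (nat_lit 117782625541188378390) (ZL.cons (nat_lit 31008) (nat_lit 6) (nat_lit 117559727018401061826) (ZL.cons (nat_lit 31084) (nat_lit 6) (nat_lit 117374111635641619752) (ZL.cons (nat_lit 31160) (nat_lit 6) (nat_lit 117225706602563871992) (ZL.cons (nat_lit 31236) (nat_lit 6) (nat_lit 117114453721115631196) (ZL.cons (nat_lit 31312) (nat_lit 6) (nat_lit 117040309362715937268) (ZL.cons (nat_lit 31388) (nat_lit 6) (nat_lit 117003244451145809936) (ZL.cons (nat_lit 31540)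 (nat_lit 6) (nat_lit 118253000776113125214) (ZL.cons (nat_lit 31616) (nat_lit 6) (nat_lit 118447849756095178660) (ZL.cons (nat_lit 31692) (nat_lit 6) (nat_lit 118665877947511237428) (ZL.cons (nat_lit 31768) (nat_lit 6) (nat_lit 118907170851612837224) (ZL.cons (nat_lit 31844) (nat_lit 6) (nat_lit 119171823093068253190) (ZL.cons (nat_lit 31920) (nat_lit 6) (nat_lit 118746146569754250712) (ZL.cons (nat_lit 31996) (nat_lit 6) (nat_lit 118358042074763184200) (ZL.cons (nat_lit 32072) (nat_lit 6) (nat_lit 118007357410253880686) (ZL.cons (nat_lit 32148) (nat_lit 6) (nat_lit 117693955052828493386) (ZL.cons (nat_lit 32224) (nat_lit 6) (nat_lit 117417712099601757440) (ZL.cons (nat_lit 32300) (nat_lit 6) (nat_lit 117178520220003780010) (ZL.cons (nat_lit 32376) (nat_lit 6) (nat_lit 116976285613297463854) (ZL.cons (nat_lit 32452) (nat_lit 6) (nat_lit 116810928971793904530) (ZL.cons (nat_lit 32528) (nat_lit 6) (nat_lit 116682385449751335938)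 (ZL.cons (nat_lit 32604) (nat_lit 6) (nat_lit 116590604637945427658) (ZL.cons (nat_lit 32680) (nat_lit 6) (nat_lit 116535550543900961688) (ZL.cons (nat_lit 32756) (nat_lit 3) (nat_lit 58258600788888568138) (ZL.cons (nat_lit 32832) (nat_lit 6) (nat_lit 116939646840957458466) (ZL.cons (nat_lit 32908) (nat_lit 6) (nat_lit 116962690892929159732) (ZL.cons (nat_lit 32984) (nat_lit 6) (nat_lit 117008788033755688422) (ZL.cons (nat_lit 33060) (nat_lit 6) (nat_lit 117077956340747172590) (ZL.cons (nat_lit 33136) (nat_lit 6) (nat_lit 117170222938729883404) (ZL.cons (nat_lit 33212) (nat_lit 6) (nat_lit 117285624010683421922) (ZL.cons (nat_lit 33288) (nat_lit 6) (nat_lit 117424204811930122872) (ZL.cons (nat_lit 33364) (nat_lit 6) (nat_lit 117586019687882239860) (ZL.cons (nat_lit 33440) (nat_lit 6) (nat_lit 117771132095353871754) (ZL.cons (nat_lit 33516) (nat_lit 6) (nat_lit 117979614627445987822) (ZL.cons (nat_lit 33592) (nat_lit 6) (nat_lit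 118211549042014310464) (ZL.cons (nat_lit 33668) (nat_lit 6) (nat_lit 118467026293731219414) (ZL.cons (nat_lit 33744) (nat_lit 6) (nat_lit 118064164403481185260) (ZL.cons (nat_lit 33820) (nat_lit 6) (nat_lit 117698427195807734752) (ZL.cons (nat_lit 33896) (nat_lit 6) (nat_lit 117369671244354917518) (ZL.cons (nat_lit 33972) (nat_lit 6) (nat_lit 117077767625220203040) (ZL.cons (nat_lit 34048) (nat_lit 6) (nat_lit 116822601866396087506) (ZL.cons (nat_lit 34124) (nat_lit 6) (nat_lit 116604073902879110484) (ZL.cons (nat_lit 34200) (nat_lit 6) (nat_lit 116422098037428677078) (ZL.cons (nat_lit 34276) (nat_lit 6) (nat_lit 116276602906960296922) (ZL.cons (nat_lit 34352) (nat_lit 6) (nat_lit 116167531454560060846) (ZL.cons (nat_lit 34428) (nat_lit 6) (nat_lit 116094840907109380524) (ZL.cons (nat_lit 34504) (nat_lit 6) (nat_lit 116058502758511216474) (ZL.cons (nat_lit 34580) (nat_lit 3) (nat_lit 58190360230155948012) (ZL.cons (nat_lit 34656)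 (nat_lit 6) (nat_lit 116392356565762953098) (ZL.cons (nat_lit 34732) (nat_lit 6) (nat_lit 116427269445294732582) (ZL.cons (nat_lit 34808) (nat_lit 6) (nat_lit 116485472790232541054) (ZL.cons (nat_lit 34884) (nat_lit 6) (nat_lit 116566989425417530600) (ZL.cons (nat_lit 34960) (nat_lit 6) (nat_lit 116671851318157616896) (ZL.cons (nat_lit 35036) (nat_lit 6) (nat_lit 116800099590763678410) (ZL.cons (nat_lit 35112) (nat_lit 6) (nat_lit 116951784536675952814) (ZL.cons (nat_lit 35188) (nat_lit 6) (nat_lit 117126965640186954724) (ZL.cons (nat_lit 35264) (nat_lit 6) (nat_lit 117325711599768649240) (ZL.cons (nat_lit 35340) (nat_lit 6) (nat_lit 117548100355013029182) (ZL.cons (nat_lit 35416) (nat_lit 6) (nat_lit 117794219117196660978) (ZL.cons (nat_lit 35492) (nat_lit 6) (nat_lit 117413724514264242828) (ZL.cons (nat_lit 35568) (nat_lit 6) (nat_lit 117069916019647278600) (ZL.cons (nat_lit 35644) (nat_lit 6) (nat_lit 116762658806485134188)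 (ZL.cons (nat_lit 35720) (nat_lit 6) (nat_lit 116491832381753040122) (ZL.cons (nat_lit 35796) (nat_lit 6) (nat_lit 116257330539009924996) (ZL.cons (nat_lit 35872) (nat_lit 6) (nat_lit 116059061316748830724) (ZL.cons (nat_lit 35948) (nat_lit 6) (nat_lit 115896946962333576486) (ZL.cons (nat_lit 36024) (nat_lit 6) (nat_lit 115770923901507528846) (ZL.cons (nat_lit 36100) (nat_lit 6) (nat_lit 115680942713462520728) (ZL.cons (nat_lit 36176) (nat_lit 6) (nat_lit 115626968111458142326) (ZL.cons (nat_lit 36252) (nat_lit 3) (nat_lit 57804489464491901844) (ZL.cons (nat_lit 36328) (nat_lit 6) (nat_lit 115855797472435006660) (ZL.cons (nat_lit 36404) (nat_lit 6) (nat_lit 115879302405446141952) (ZL.cons (nat_lit 36480) (nat_lit 6) (nat_lit 115926321489089201218) (ZL.cons (nat_lit 36556) (nat_lit 6) (nat_lit 115996873162220515068) (ZL.cons (nat_lit 36632) (nat_lit 6) (nat_lit 116090985092162880096) (ZL.cons (nat_lit 36708) (nat_lit 6) (nat_lit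 116208694185555489388) (ZL.cons (nat_lit 36784) (nat_lit 6) (nat_lit 116350046602827124356) (ZL.cons (nat_lit 36860) (nat_lit 6) (nat_lit 116515097776298283682) (ZL.cons (nat_lit 36936) (nat_lit 6) (nat_lit 116703912431919348214) (ZL.cons (nat_lit 37012) (nat_lit 6) (nat_lit 116916564614653306604) (ZL.cons (nat_lit 37088) (nat_lit 6) (nat_lit 117153137717512995700) (ZL.cons (nat_lit 37164) (nat_lit 6) (nat_lit 116794571827637063830) (ZL.cons (nat_lit 37240) (nat_lit 6) (nat_lit 116472262071310772424) (ZL.cons (nat_lit 37316) (nat_lit 6) (nat_lit 116186082052551248424) (ZL.cons (nat_lit 37392) (nat_lit 6) (nat_lit 115935919543900154766) (ZL.cons (nat_lit 37468) (nat_lit 6) (nat_lit 115721676442412922390) (ZL.cons (nat_lit 37544) (nat_lit 6) (nat_lit 115543268731187007286) (ZL.cons (nat_lit 37620) (nat_lit 6) (nat_lit 115400626446414085564) (ZL.cons (nat_lit 37696) (nat_lit 6) (nat_lit 115293693649943265882) (ZL.cons (nat_lit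 37772) (nat_lit 6) (nat_lit 115222428407344559684) (ZL.cons (nat_lit 37848) (nat_lit 6) (nat_lit 115186802771464006694) (ZL.cons (nat_lit 37924) (nat_lit 3) (nat_lit 57676401598807301788) (ZL.cons (nat_lit 38000) (nat_lit 6) (nat_lit 115364672025174681794) (ZL.cons (nat_lit 38076) (nat_lit 6) (nat_lit 115400283162297096868) (ZL.cons (nat_lit 38152) (nat_lit 6) (nat_lit 115459650574133661512) (ZL.cons (nat_lit 38228) (nat_lit 6) (nat_lit 115542797542022350844) (ZL.cons (nat_lit 38304) (nat_lit 6) (nat_lit 115649756672617238868) (ZL.cons (nat_lit 38380) (nat_lit 6) (nat_lit 115780569910675421614) (ZL.cons (nat_lit 38456) (nat_lit 6) (nat_lit 115935288555505941504) (ZL.cons (nat_lit 38532) (nat_lit 6) (nat_lit 116113973281087163452) (ZL.cons (nat_lit 38608) (nat_lit 6) (nat_lit 116316694159860491858) (ZL.cons (nat_lit 38684) (nat_lit 6) (nat_lit 116543530690209759402) (ZL.cons (nat_lit 38760) (nat_lit 6) (nat_lit 116206463538624500354)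 (ZL.cons (nat_lit 38836) (nat_lit 6) (nat_lit 115905230976700829360) (ZL.cons (nat_lit 38912) (nat_lit 6) (nat_lit 115639714874022305768) (ZL.cons (nat_lit 38988) (nat_lit 6) (nat_lit 115409811106627094860) (ZL.cons (nat_lit 39064) (nat_lit 6) (nat_lit 115215429516175041652) (ZL.cons (nat_lit 39140) (nat_lit 6) (nat_lit 115056493874591459064) (ZL.cons (nat_lit 39216) (nat_lit 6) (nat_lit 114932941854173765300) (ZL.cons (nat_lit 39292) (nat_lit 6) (nat_lit 114844725003149247538) (ZL.cons (nat_lit 39368) (nat_lit 6) (nat_lit 114791808726674366752) (ZL.cons (nat_lit 39444) (nat_lit 3) (nat_lit 57387086136634076200) (ZL.cons (nat_lit 39520) (nat_lit 6) (nat_lit 114883176488644951532) (ZL.cons (nat_lit 39596) (nat_lit 6) (nat_lit 114907151520316309532) (ZL.cons (nat_lit 39672) (nat_lit 6) (nat_lit 114955110985632229984) (ZL.cons (nat_lit 39748) (nat_lit 6) (nat_lit 115027073692226170110) (ZL.cons (nat_lit 39824) (nat_lit 6) (nat_lit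 115123067860767382438) (ZL.cons (nat_lit 39900) (nat_lit 6) (nat_lit 115243131136027843916) (ZL.cons (nat_lit 39976) (nat_lit 6) (nat_lit 115387310601644911584) (ZL.cons (nat_lit 40052) (nat_lit 6) (nat_lit 115555662798585494096) (ZL.cons (nat_lit 40128) (nat_lit 6) (nat_lit 115748253747318979918) (ZL.cons (nat_lit 40204) (nat_lit 6) (nat_lit 115965158973707617478) (ZL.cons (nat_lit 40280) (nat_lit 6) (nat_lit 115649169016524978842) (ZL.cons (nat_lit 40356) (nat_lit 6) (nat_lit 115368600370682308256) (ZL.cons (nat_lit 40432) (nat_lit 6) (nat_lit 115123343009259667414) (ZL.cons (nat_lit 40508) (nat_lit 6) (nat_lit 114913300752899635674) (ZL.cons (nat_lit 40584) (nat_lit 6) (nat_lit 114738391232089914982) (ZL.cons (nat_lit 40660) (nat_lit 6) (nat_lit 114598545854861560352) (ZL.cons (nat_lit 40736) (nat_lit 6) (nat_lit 114493709779890168508) (ZL.cons (nat_lit 40812) (nat_lit 6) (nat_lit 114423841894989476158) (ZL.cons (nat_lit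 40888) (nat_lit 6) (nat_lit 114388914800988934010) (ZL.cons (nat_lit 40964) (nat_lit 3) (nat_lit 57217313487038959950) (ZL.cons (nat_lit 41040) (nat_lit 6) (nat_lit 114446733178189199682) (ZL.cons (nat_lit 41116) (nat_lit 6) (nat_lit 114483056538054063060) (ZL.cons (nat_lit 41192) (nat_lit 6) (nat_lit 114543611298127358994) (ZL.cons (nat_lit 41268) (nat_lit 6) (nat_lit 114628421205373822116) (ZL.cons (nat_lit 41344) (nat_lit 6) (nat_lit 114737519518580607898) (ZL.cons (nat_lit 41420) (nat_lit 6) (nat_lit 114870949021399954298) (ZL.cons (nat_lit 41496) (nat_lit 6) (nat_lit 115028762039127084588) (ZL.cons (nat_lit 41572) (nat_lit 6) (nat_lit 115211020459219930974) (ZL.cons (nat_lit 41648) (nat_lit 6) (nat_lit 115417795755568725950) (ZL.cons (nat_lit 41724) (nat_lit 6) (nat_lit 115122469714467087722) (ZL.cons (nat_lit 41800) (nat_lit 6) (nat_lit 114862159809880299886) (ZL.cons (nat_lit 41876) (nat_lit 6) (nat_lit 114636763959492838212)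 (ZL.cons (nat_lit 41952) (nat_lit 6) (nat_lit 114446193772775138988) (ZL.cons (nat_lit 42028) (nat_lit 6) (nat_lit 114290374516320646254) (ZL.cons (nat_lit 42104) (nat_lit 6) (nat_lit 114169245084538593544) (ZL.cons (nat_lit 42180) (nat_lit 6) (nat_lit 114082757975691027112) (ZL.cons (nat_lit 42256) (nat_lit 6) (nat_lit 114030879273264673400) (ZL.cons (nat_lit 42332) (nat_lit 3) (nat_lit 57006794316335172802) (ZL.cons (nat_lit 42408) (nat_lit 6) (nat_lit 114018847579703168458) (ZL.cons (nat_lit 42484) (nat_lit 6) (nat_lit 114043302112007953618) (ZL.cons (nat_lit 42560) (nat_lit 6) (nat_lit 114092220766630192478) (ZL.cons (nat_lit 42636) (nat_lit 6) (nat_lit 114165622727356011408) (ZL.cons (nat_lit 42712) (nat_lit 6) (nat_lit 114263536779268047984) (ZL.cons (nat_lit 42788) (nat_lit 6) (nat_lit 114386001320033718688) (ZL.cons (nat_lit 42864) (nat_lit 6) (nat_lit 114533064374963127710) (ZL.cons (nat_lit 42940) (nat_lit 6) (nat_lit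 114704783615842521874) (ZL.cons (nat_lit 43016) (nat_lit 6) (nat_lit 114901226383550677414) (ZL.cons (nat_lit 43092) (nat_lit 6) (nat_lit 114626159083704921936) (ZL.cons (nat_lit 43168) (nat_lit 6) (nat_lit 114385710690153313268) (ZL.cons (nat_lit 43244) (nat_lit 6) (nat_lit 114179786909408184110) (ZL.cons (nat_lit 43320) (nat_lit 6) (nat_lit 114008306987045712844) (ZL.cons (nat_lit 43396) (nat_lit 6) (nat_lit 113871203676037522030) (ZL.cons (nat_lit 43472) (nat_lit 6) (nat_lit 113768423210379294732) (ZL.cons (nat_lit 43548) (nat_lit 6) (nat_lit 113699925284006066938) (ZL.cons (nat_lit 43624) (nat_lit 6) (nat_lit 113665683034985927578) (ZL.cons (nat_lit 43700) (nat_lit 3) (nat_lit 56811663463292149883) (ZL.cons (nat_lit 43776) (nat_lit 6) (nat_lit 113635675254777805144) (ZL.cons (nat_lit 43852) (nat_lit 6) (nat_lit 113672725081839965786) (ZL.cons (nat_lit 43928) (nat_lit 6) (nat_lit 113734490937114727642) (ZL.cons (nat_lit 44004)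 (nat_lit 6) (nat_lit 113820997042506120026) (ZL.cons (nat_lit 44080) (nat_lit 6) (nat_lit 113932277321977041524) (ZL.cons (nat_lit 44156) (nat_lit 6) (nat_lit 114068375414852774850) (ZL.cons (nat_lit 44232) (nat_lit 6) (nat_lit 114229344692934447746) (ZL.cons (nat_lit 44308) (nat_lit 6) (nat_lit 114415248281429151064) (ZL.cons (nat_lit 44384) (nat_lit 6) (nat_lit 114160042492618574754) (ZL.cons (nat_lit 44460) (nat_lit 6) (nat_lit 113939066168709298602) (ZL.cons (nat_lit 44536) (nat_lit 6) (nat_lit 113752232652319397402) (ZL.cons (nat_lit 44612) (nat_lit 6) (nat_lit 113599468675403228056) (ZL.cons (nat_lit 44688) (nat_lit 6) (nat_lit 113480714330518862654) (ZL.cons (nat_lit 44764) (nat_lit 6) (nat_lit 113395923047334973994) (ZL.cons (nat_lit 44840) (nat_lit 6) (nat_lit 113345061574367960552) (ZL.cons (nat_lit 44916) (nat_lit 3) (nat_lit 56664054982971074494) (ZL.cons (nat_lit 44992) (nat_lit 6) (nat_lit 113260016112694115620)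 (ZL.cons (nat_lit 45068) (nat_lit 6) (nat_lit 113284959735644996480) (ZL.cons (nat_lit 45144) (nat_lit 6) (nat_lit 113334856763359680118) (ZL.cons (nat_lit 45220) (nat_lit 6) (nat_lit 113409726763300015428) (ZL.cons (nat_lit 45296) (nat_lit 6) (nat_lit 113509599096250292734) (ZL.cons (nat_lit 45372) (nat_lit 6) (nat_lit 113634512927831276854) (ZL.cons (nat_lit 45448) (nat_lit 6) (nat_lit 113784517243859274054) (ZL.cons (nat_lit 45524) (nat_lit 6) (nat_lit 113959670869556256104) (ZL.cons (nat_lit 45600) (nat_lit 6) (nat_lit 113723937150388012310) (ZL.cons (nat_lit 45676) (nat_lit 6) (nat_lit 113522051090833964116) (ZL.cons (nat_lit 45752) (nat_lit 6) (nat_lit 113353933519890364836) (ZL.cons (nat_lit 45828) (nat_lit 6) (nat_lit 113219518509098020902) (ZL.cons (nat_lit 45904) (nat_lit 6) (nat_lit 113118753346687994138) (ZL.cons (nat_lit 45980) (nat_lit 6) (nat_lit 113051598516910319830) (ZL.cons (nat_lit 46056) (nat_lit 6) (nat_lit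 113018027684537634184) (ZL.cons (nat_lit 46132) (nat_lit 3) (nat_lit 56458088684223131995) (ZL.cons (nat_lit 46208) (nat_lit 6) (nat_lit 112928772663203639472) (ZL.cons (nat_lit 46284) (nat_lit 6) (nat_lit 112966563486807043328) (ZL.cons (nat_lit 46360) (nat_lit 6) (nat_lit 113029564659187300420) (ZL.cons (nat_lit 46436) (nat_lit 6) (nat_lit 113117800886686520652) (ZL.cons (nat_lit 46512) (nat_lit 6) (nat_lit 113231306771746860580) (ZL.cons (nat_lit 46588) (nat_lit 6) (nat_lit 113370126826480108574) (ZL.cons (nat_lit 46664) (nat_lit 6) (nat_lit 113534315490123414928) (ZL.cons (nat_lit 46740) (nat_lit 6) (nat_lit 113317672035310399092) (ZL.cons (nat_lit 46816) (nat_lit 6) (nat_lit 113134501921202652818) (ZL.cons (nat_lit 46892) (nat_lit 6) (nat_lit 112984733316382878950) (ZL.cons (nat_lit 46968) (nat_lit 6) (nat_lit 112868307488064873654) (ZL.cons (nat_lit 47044) (nat_lit 6) (nat_lit 112785178779061061242) (ZL.cons (nat_lit 47120)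 (nat_lit 6) (nat_lit 112735314589877714730) (ZL.cons (nat_lit 47196) (nat_lit 3) (nat_lit 56359347682965420324) (ZL.cons (nat_lit 47272) (nat_lit 6) (nat_lit 112604024183311015800) (ZL.cons (nat_lit 47348) (nat_lit 6) (nat_lit 112629466678720914278) (ZL.cons (nat_lit 47424) (nat_lit 6) (nat_lit 112680361646989891588) (ZL.cons (nat_lit 47500) (nat_lit 6) (nat_lit 112756729046929033602) (ZL.cons (nat_lit 47576) (nat_lit 6) (nat_lit 112858598826538316456) (ZL.cons (nat_lit 47652) (nat_lit 6) (nat_lit 112986010934750920258) (ZL.cons (nat_lit 47728) (nat_lit 6) (nat_lit 113139015337099477406) (ZL.cons (nat_lit 47804) (nat_lit 6) (nat_lit 112941087827732763490) (ZL.cons (nat_lit 47880) (nat_lit 6) (nat_lit 112776266679748842628) (ZL.cons (nat_lit 47956) (nat_lit 6) (nat_lit 112644487257403407398) (ZL.cons (nat_lit 48032) (nat_lit 6) (nat_lit 112545697882491616454) (ZL.cons (nat_lit 48108) (nat_lit 6) (nat_lit 112479859814082131838)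 (ZL.cons (nat_lit 48184) (nat_lit 6) (nat_lit 112446947233324596890) (ZL.cons (nat_lit 48260) (nat_lit 3) (nat_lit 56155293471811034765) (ZL.cons (nat_lit 48336) (nat_lit 6) (nat_lit 112323434144274592526) (ZL.cons (nat_lit 48412) (nat_lit 6) (nat_lit 112361980784350064458) (ZL.cons (nat_lit 48488) (nat_lit 6) (nat_lit 112426241980177926690) (ZL.cons (nat_lit 48564) (nat_lit 6) (nat_lit 112516242932227131326) (ZL.cons (nat_lit 48640) (nat_lit 6) (nat_lit 112632018934988678054) (ZL.cons (nat_lit 48716) (nat_lit 6) (nat_lit 112773615390816591010) (ZL.cons (nat_lit 48792) (nat_lit 6) (nat_lit 112594036847573702506) (ZL.cons (nat_lit 48868) (nat_lit 6) (nat_lit 112447204882064120282) (ZL.cons (nat_lit 48944) (nat_lit 6) (nat_lit 112333061913124899404) (ZL.cons (nat_lit 49020) (nat_lit 6) (nat_lit 112251563178807436256) (ZL.cons (nat_lit 49096) (nat_lit 6) (nat_lit 112202676718823763204) (ZL.cons (nat_lit 49172) (nat_lit 3) (nat_lit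 56093191681006551169) (ZL.cons (nat_lit 49248) (nat_lit 6) (nat_lit 112048345870709471668) (ZL.cons (nat_lit 49324) (nat_lit 6) (nat_lit 112074297216027568118) (ZL.cons (nat_lit 49400) (nat_lit 6) (nat_lit 112126210083661924972) (ZL.cons (nat_lit 49476) (nat_lit 6) (nat_lit 112204104831599849826) (ZL.cons (nat_lit 49552) (nat_lit 6) (nat_lit 112308012006801318336) (ZL.cons (nat_lit 49628) (nat_lit 6) (nat_lit 112437972357178174218) (ZL.cons (nat_lit 49704) (nat_lit 6) (nat_lit 112276382996409624352) (ZL.cons (nat_lit 49780) (nat_lit 6) (nat_lit 112147187484306256480) (ZL.cons (nat_lit 49856) (nat_lit 6) (nat_lit 112050335155961363398) (ZL.cons (nat_lit 49932) (nat_lit 6) (nat_lit 111985788030069711814) (ZL.cons (nat_lit 50008) (nat_lit 6) (nat_lit 111953520794032912844) (ZL.cons (nat_lit 50084) (nat_lit 3) (nat_lit 55902046990135606222) (ZL.cons (nat_lit 50160) (nat_lit 6) (nat_lit 111817198124936785898) (ZL.cons (nat_lit 50236)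 (nat_lit 6) (nat_lit 111856515697813767270) (ZL.cons (nat_lit 50312) (nat_lit 6) (nat_lit 111922062117558186746) (ZL.cons (nat_lit 50388) (nat_lit 6) (nat_lit 112013863088648375474) (ZL.cons (nat_lit 50464) (nat_lit 6) (nat_lit 112131954611465153138) (ZL.cons (nat_lit 50540) (nat_lit 6) (nat_lit 111988001704102817624) (ZL.cons (nat_lit 50616) (nat_lit 6) (nat_lit 111876096832593777548) (ZL.cons (nat_lit 50692) (nat_lit 6) (nat_lit 111796196112674696030) (ZL.cons (nat_lit 50768) (nat_lit 6) (nat_lit 111748268210729918528) (ZL.cons (nat_lit 50844) (nat_lit 3) (nat_lit 55866147165751890212) (ZL.cons (nat_lit 50920) (nat_lit 6) (nat_lit 111590582687904741026) (ZL.cons (nat_lit 50996) (nat_lit 6) (nat_lit 111617053060129199402) (ZL.cons (nat_lit 51072) (nat_lit 6) (nat_lit 111670004185116243396) (ZL.cons (nat_lit 51148) (nat_lit 6) (nat_lit 111749456828012926746) (ZL.cons (nat_lit 51224) (nat_lit 6) (nat_lit 111855442146718424628)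 (ZL.cons (nat_lit 51300) (nat_lit 6) (nat_lit 111728779879950416910) (ZL.cons (nat_lit 51376) (nat_lit 6) (nat_lit 111633826616867188398) (ZL.cons (nat_lit 51452) (nat_lit 6) (nat_lit 111570545120894980962) (ZL.cons (nat_lit 51528) (nat_lit 6) (nat_lit 111538910575760864326) (ZL.cons (nat_lit 51604) (nat_lit 3) (nat_lit 55697181018066298702) (ZL.cons (nat_lit 51680) (nat_lit 6) (nat_lit 111407728263691482326) (ZL.cons (nat_lit 51756) (nat_lit 6) (nat_lit 111447832188026003324) (ZL.cons (nat_lit 51832) (nat_lit 6) (nat_lit 111514689536165311192) (ZL.cons (nat_lit 51908) (nat_lit 6) (nat_lit 111608326526677303696) (ZL.cons (nat_lit 51984) (nat_lit 6) (nat_lit 111498615868335107542) (ZL.cons (nat_lit 52060) (nat_lit 6) (nat_lit 111420281829198753112) (ZL.cons (nat_lit 52136) (nat_lit 6) (nat_lit 111373293690037206542) (ZL.cons (nat_lit 52212) (nat_lit 3) (nat_lit 55678816512064614005) (ZL.cons (nat_lit 52288) (nat_lit 6) (nat_lit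 111228459220345150268) (ZL.cons (nat_lit 52364) (nat_lit 6) (nat_lit 111255459000014097812) (ZL.cons (nat_lit 52440) (nat_lit 6) (nat_lit 111309469147500882684) (ZL.cons (nat_lit 52516) (nat_lit 6) (nat_lit 111390510843255499706) (ZL.cons (nat_lit 52592) (nat_lit 6) (nat_lit 111297419408860177634) (ZL.cons (nat_lit 52668) (nat_lit 6) (nat_lit 111235378726534484070) (ZL.cons (nat_lit 52744) (nat_lit 6) (nat_lit 111204364466599075604) (ZL.cons (nat_lit 52820) (nat_lit 3) (nat_lit 55539587814252288607) (ZL.cons (nat_lit 52896) (nat_lit 6) (nat_lit 111092809180614639836) (ZL.cons (nat_lit 52972) (nat_lit 6) (nat_lit 111133715183435851254) (ZL.cons (nat_lit 53048) (nat_lit 6) (nat_lit 111201909678537945280) (ZL.cons (nat_lit 53124) (nat_lit 6) (nat_lit 111125111600953284074) (ZL.cons (nat_lit 53200) (nat_lit 6) (nat_lit 111079044797853728614) (ZL.cons (nat_lit 53276) (nat_lit 3) (nat_lit 55531845601913149340) (ZL.cons (nat_lit 53352)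 (nat_lit 6) (nat_lit 110959818945584727648) (ZL.cons (nat_lit 53428) (nat_lit 6) (nat_lit 110987358720847054144) (ZL.cons (nat_lit 53504) (nat_lit 6) (nat_lit 111042449071283574716) (ZL.cons (nat_lit 53580) (nat_lit 6) (nat_lit 110981624872925051614) (ZL.cons (nat_lit 53656) (nat_lit 6) (nat_lit 110951218735733474686) (ZL.cons (nat_lit 53732) (nat_lit 3) (nat_lit 55428218070945508093) (ZL.cons (nat_lit 53808) (nat_lit 6) (nat_lit 110870342365043280060) (ZL.cons (nat_lit 53884) (nat_lit 6) (nat_lit 110912066487920915710) (ZL.cons (nat_lit 53960) (nat_lit 6) (nat_lit 110866902955470371140) (ZL.cons (nat_lit 54036) (nat_lit 3) (nat_lit 55425925206153112073) (ZL.cons (nat_lit 54112) (nat_lit 6) (nat_lit 110782620227257547130) (ZL.cons (nat_lit 54188) (nat_lit 6) (nat_lit 110810710798025120158) (ZL.cons (nat_lit 54264) (nat_lit 6) (nat_lit 110780900859602005522) (ZL.cons (nat_lit 54340) (nat_lit 3) (nat_lit 55362078953325754004)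 (ZL.cons (nat_lit 54416) (nat_lit 6) (nat_lit 110738342254266817162) (ZL.cons (nat_lit 54492) (nat_lit 3) (nat_lit 55361792429503924760) (ZL.cons (nat_lit 54568) (nat_lit 6) (nat_lit 110694932476824925034) (ZL.cons (nat_lit 54644) (nat_lit 1) (nat_lit 18446744073709551617) ZL.nil))))))))))))))))))))))))))))))))))))))))))))))))))))))))))))))))))))))))))))))))))))))))))))))))))))))))))))))))))))))))))))))))))))))))))))))))))))))))))))))))))))))))))))))))))))))))))))))))))))))))))))))))))))))))))))))))))))))))))))))))))))))))))))))))))))))))))))))))))))))))))))))))))))))))))))))))))))))))))))))))))))))))))))))))))))))))))))))))))))))))))))))))))))))))))))))))))))))))))))))))))))))))))))))))))))))))))))))))))))))))))))))))))))))))))))))))))))))))))))))))))))))))))))))))))))))))))))))))))))))))))))))))))))))))))))))))))))))))))))))))))))))))))))))))))))))))))))))))))))))))))))))))))))))))))))))))))))))))))))))))))))))))))))))))))))))))))))))))))))))))))))))))))))))))))))))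

noncomputable def vl : XL := ⟨(nat_lit 0), (nat_lit 76), (nat_lit 197575558), (nat_lit 152), (nat_lit 24397236), (nat_lit 76), (nat_lit 197575558), (nat_lit 1), (nat_lit 5), (nat_lit 2), (nat_lit 4), (nat_lit 1), (nat_lit 4), (nat_lit 0), (nat_lit 0), (nat_lit 0)⟩

noncomputable def cp0 : Nat := (nat_lit 176585739046775930201543327961344101545797328139087041331894622334889958068604481086857169155468103722201717072219805706742969105022283632534855219091929314936672556400592304657058820614458537759687011224188439997169811618643964469887602004639327284209973648458543882031059459319918145859958946515236786040497254709774679266704374161520437700204471182094118989764270799005051401334068023519228436083520265148050973409698367740800590379493630750726676227536279007031244777611330400414713245566026102562928674553420320712458156006979763342446708873102023993681271520192017344813283334139570784885302697309431342728478856489767008164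07170449186174485463156558373668372409125661883955637021011072368083327712838437076488455912880816120653314857492867113813413146029646436478140071932964716168527279180532417479193452026543113848203102371130351359316177767512398473981223390382123025404290595968866425803673492273666838330612782390688482670897972054728639931081281572278040453214062779339624872643238641592015996118196312143652526906362317148704316829402994233102489467341424187088202595937588694525801493506145762799185751246265317559573078504887168659865207207078773757661856548049274988153902595404294700373299566863971451183386699242665357634004385514446176268099779994866700855997587807992301200716199587363816564443486745955918275809657074341677003464066287129519285232731137889780956795008608579766167581196768365458438607446516562617900343291084423724108431326697976117399677307713085519027128477661520361981365781266858574641870064057884810365730337316243265169007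94049551839761620373281951674167264008683906493057767110515985363718748749871695472897939204992599618374088877094421110582926365885266724121811189223198276063192270456795364664973134408200235412165442486872999662403333657042869079572398561041387686121797359459158190779494894634507090709623692305571534842399083451026756614025108197651586572733785436621824159163646444959530212362066313241552686912420882690205753478559493429873698399801923514592242516756600069818058053753671014952250969610131204918126869358458288477737693411009233183671965927135527258265502692961330285499459080681128608901578780040128049704985842823673296989810882237447811199083436090891405570140075108833168073616853101174441180816215566176449367498920709266880948436452256005022772257128993368380960034729316324942903735917293514055274256873176571689017411192495646319832952702167097508283374817229244822427280695587145877733310243488922730628986585453069651207372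02331358592800769583034435381642193212045470254144559058014636085866753532528935826030940612944002860592196529984290437904032565402234309942753668085415679031639291392688687474066171596953622190666953829218671043937960611773785211661383538384770249987627171864080714468220358055037507270715524046637453431353068224074739072313083093932339666671812108077486847145786075608697702302439793052949911782981292902513363296712811546371797965436503814036466563543855029889897677925229667853938148482518927220945093621666397919428330625931778328570404132527039757805102891329486105861791583215908040371122481555381379928686918977347899148696404276415444839697060584881772886106513058235723707611248343990494926550566704598749674192186832900132960214165130699798991098710256619894334545401750373032799233337512492711595924256429040441725617868484750605222918469261014430483175119620787407568727653379845517184191250510383188066115993312910964213836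55343945556959498072869568111249174579289101450102661771433043533472049359519065495237121757994784609034223829765878026954019008419265127819537925460645191760883714205507822963791358811297502026157108602744624544156926566108483134402569627626362584939418884612297365400956175663394589806301671906450590658189619423095752494633032249170325413934125245225903248925538550221655907321827113290683522437391821673916469097615272980718629256500746322471940815908175634150285546189268109948607028960286468829786370704154242786352762271864219315856678628293774509305112626130801469258333764172015268379292593991638224654531975745987470242245678087191945000613574530266211021380418502797017016429102651376715722143200984082217104978161825303092765217199016868133400926867135153778692676036880858575165292156046708231356690740298182454214307124095230474171735873634646609571937809856066727669860812463121690040815725295377272697483772882103727365289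70767911826110277947383960510701734467651672212014080950868038266437193746225518043974187895879528553796434144787324443002919762187102339241783707910990153622673615042747426814639099089970083997956432607501450478689260442485260519413686655745059652348463515416436134815496512162200291119822894928102306839345967171803254834013836060859084917481525249517138494327615753803641062918604796877335933371803746967620704806864838033821064805346035473673234895595057142910814636635898687876216092847030430925941819633232381660695381432630248178846096524642903309212503298860627383452443035969856455930700983888164012180070791702393662532275353813174650365480655567163501458662445930579084230377774037232180481216211661575154372217123035432965763305705687176415782699629353438696039208872722777987956257983538004145205262935943978948409741456467213691375202407972417984259989387964167513943558990825351127294275219720480230355461231134490863156511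69060667242227399676798990656253623373872932045421852024165983242001427350694232897162771799741476549185017617703104286609794809691622782646387122391316754911743585353965920219518115586343052405919815130503326643831862074497934224476021097086615210716905842252828103516832904570206810770510428773090894480266867252221800422769317539991318355821149977970815980494405137024088465748445324619647547738852764969435523022962808220597589876938536803324868147770239855205390474867136173607616366519901053726111464538432982586270823395723413975909141618663998390443882271392265508431634090525596230018398245125055664409161115888736174130622009354008973030798970657818495840436154716651320767565835431063414589028090926114525621105680897614305353718855083868922130808053475024382664619064190383750873391029793195825447857027591731602708935451844158198603315489934683924125817307938785582680158195114516101375103995512645244089447475388736130586978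19237784706029349207743490159211658966615793963317058591675561609978711822512189134431695210269890626399641877064840966657497093468578967779574658818932633265704801113359745459556191511301647622327230121509671539369084246566143621678431652347788880538031187989922015615681402591399000770670206537386957382578809832736521588392543725267092672417596832879065160149388620016539457127321871884604758252386616991353440733883234057416061295164179032032123906059899625737056276151240429654504238833076261140974319915274596725555690405615665890768911300776295282281970461887852149674972777778777061046373378551672696321419184466998384755640334641401266141837657101806262791960512619560941384286402855280398781460242663306603728962239938035241726970998175285311813262281620757225902585674634575973104682998665771470510565393827128490359983126263359630928120699745275952897953200861577301601829638185896478832852205777208229308668470271462204079909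66145956532962091682697885527913580410955530634321174807801012377644081370698383632645028420906095753558569586260748111496339866507474490328227977468621654101602588913783993456888278315365195164581009932805609224922822032186437318360630566451625643435634830210348705296803244191525823330320313586368044575067684964798589819321615049477604262201381382152417218707766652235110271208919426760388290267479100214304287024235593174834710744447671846159128013933749113064444398001664252218980011192500790787538692971863337665364413596109389614182435068732999477984199039086528269573431088848328675531199437592202823741225116247515332377103688187379473885029045538905328444248076129939225219169423619415751553629122895253503779063060201283912037105937384427403554186469041492613112636527112229236071018221771202808900627103623283515340275198907325544890142707777645729457523899770568195233602643710567509050289658314230726737355091442723225646447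54827544612081702737242092268956493387149857446278913470333291324990966210037792837286256069412490473649390447636524762637696714895421432979234920750588600118402458013264997259435217161521703294874451409748431188448879806542044467501653145010216014541811585014933711213996493958944617254120935328788282187207117323820477669986240203174538250791191783739665597792692533666509765356524167380399214334233116543647611065086392874689739373655965638271763007032718882543438724127785516150931659565151566666663286239902709074680010043481123972536560668203475927170691009803094139338842427176875080604843449999652694941468100874791033473627130057481614505780123924178308579755753207643256098092251197300640752713566178021441341464112409318100012268603511198456210238254757597053108410677148114314177999146847914231799080969084752016897687494785435209809619839536212784104204815235011946327032666083029385542502415482820083635719280293924815687154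93492274532540077558249846954875363706674546737761212569883918304682032209676283052560529408686011023688906443591457659542575781433007087443736280927184807697991502389288726653996114013387805420093768768044816340557667549529084374948591303717631371501266399811627884403851148674451370890437827157589494183420404451393687452942209012752452325462691363685134114040553308355995130756001796788698460000737723736501428163169685429861389441617759308785051061920786142278517853192639709048976448770476337480732398815268988903101617123171510993185860102188532565083255273789039091263031527002996532585085421211522560127611785868870151315480455437017514254417710467001474059416276859462805496107092824294679509819408394606739892735023202065790118888064723520588884832713058490723095664224659192053673395121263738050124417639329095411589834195156173120050774234820933398207014455078102963705000133736698079582415802205736558496837733409432872686654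04715494025756930951176226400162022918902337479576859655450385460115732790771701318250849766966897424639243174350223697512001587903357802779119111001156394043583280761496159243575495620292681823141908550819875643984414354686884665810885836223907974333082497480292565570176523558833232630478560269482998672529715546029859781430034226247064049583981199490632736067499812110749593995508450311636812069303247721294945070473163223126968531531653501589086376019781389511298202792320759539334756517460567790936142040088256524688933090626356469491313499608934956511866144463414154182267365362831890096723264523217107642123425121217343461704690168088895037903970935842575057834056488840477175007122704234897945281820464762876081334294067353807710543468615172768296031571217002566043720385789634992724608480420914883859842293400926828885903310821140287347500757599093033605805869100520361265963579994849176144596736764031935155176360254590959162665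12061206776474922139000747051689496793868721507809026515620693678251541369741362871357978484389704863349917590036200636801292300827231756187964568411918548753642572733807639834841367976587566534830641583001730782246758194610436874336967206354562347471072567711058131617477530211381425069405121969550727568811063043580452901131145291629096793459820215074966516093445986239688472710271136843394775995141558906333405583893856878037203179927055685670153759731381215259675314939696751459294466795265626397736169753314003570415070297872127214566286248346648936293640726941374829352052812461643652315996638642089874631183319588179395421335030562871678457895135190588938163982273906776074677563545305224338501158751168815658355488985632753967864048166651753673044826540190230887236539212238626728650303930884025252103008007183391468249879990877046455314367632540385459984839863155677445143762615221593789254540910790600966306311631045966612159093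63123889632980361855645230701414130611051637128204982960191879607849966356091231801633207861220945512047354509074072753799951102355275180671515677219484765433015514476169651741644359415378682503959310198840175696877569151020656838806687867001047947387076869751636772977305594119089666837543769378133813632656375891900640225369497148373679299043368073769860450754764426903378449926458628218492548403609369809206046992257892899339037098299963781301651388517845191544142136638342006107942045976449373926793456407149373538484054284063253974609208322164270557555986089834977055712040229118674392134906860190302917281622458033209736707408133947897766951168962378175445770793062714946591059098825328844495485620714034373282284733644537388826675734475873732891810785554634733438025522340688346307859395330926082687663378243555453235383033564789789776248808148765575403389477789425554701743715177012320442522919791140978065889394953042877907959766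52570075897877720265437942245379965738398550257754696893580364240065122430270485606082744862642941608403185492569542437995508149735248953482688469606165147343886847906453022415660765833388984020498185624051435787514378832449631165136346484045630156691969109384814711455327640201618417261717094242395657153915684447063213881895490143100522861443460708040264391661239263196139619299609004405430991947166464762741234927134054861355316973150590271192737441961877287624780209620231091797122759545363563408340767493999241864052934041782768216250262896153148288407980225671031278234755518043567874852868975004376292060713187042206049817975906632830692834634562214645346380609130086081594054791633104546445166877119120618185307727827584140792711393148710635248809349205907010108457803109260530425407077421481557732123535824709378463298986935387780050882838781268263634966866077472859427291797056158278148105731356211185276838772339987784496184243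76087209446406588680386318413132502001545027603913142982611953030124590899597852149857640199510463881889079544695522027742371512756149073817264501531269373699097637128340770678085845496189180356462136054239621282898351479439928657574856414227797558178384593090199764157726599523498400337458185235675529878292514352565689277087418494077769373506718504720642714299023070347093303311579334827138607609926812961807721233758598696331156015015795478475280004701281756358647946412873502346154318469836301893339525563900495978300578367102704249410344765087169156249934158691498494831621344305251863274774817636792155058260068831082863097739807568746653178873271524723509702890962616364300472409270217643035850791488722957164119778914897405487376155054762517953876943031642417069423832443603321310523648741092734301299808573939683049803637172675702200021893356223107306404976149548145561378125280882248556055016391275442218924885200789414446141283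18118759255187365017326449462196821001375638547208714592468996286597290645615337526950783334043739011812821164247936656292014429201540333515184706388302921939761579561521717999324154572114335804709570988488156368060665549106354719530878472754269651342231999161755195533620717569812049478276777516258405005297011444420667888629986498612062598737652210487150776903829482507819939738560720640069214861982504862772305359639953653325688521217377416652741998905930391180792435948506081640804355307018792187239868125920365077852498747275022298299872271466429626760348260080673384525206752355214101793749959374789418568201238340538154327207639516734653211082750863691112289648767272795623865023556354820943380356172484720059169190125440682548804925443838849935938395868807212887635572271975539755448443497997579062851661702489231473131652077471744978262730910948994751948762897074412041906282163588567097170445083801794635833288092276087114032042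228542373663772020778607165102206349701291104754367404120024092010029211178400707086412849846004987849899760429848697554372925731154428912348166263263702204763666487098811911319184229582869171683786384104181641534136045018907893456775293114948995456766069248913368614177929069424242773274421994071462727431291175221850703329726900597153662798501169739181289728887042280280739937337083224492104284456166036927510845391124341032748397656914809425437048749147422888130673781419966103139139702144712566846710464548936850788090622933164300140906751040649101244247709701320780367586598744020329930915954738014747356501752544236643661617795000226594901337923358936429786376886126249269478104559501629432694032533335251511135960457525944615493458437923622889941501788885151508460217756934928435496294801746000316935227194698831024936189952)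

noncomputable def cp1 : Nat := (nat_lit 18239333357548461246061854544123944358643590019089322178981515585853063298900101331925430674817801884849955983015133147079044382542495649907340642240651116650747800820843357881385584693637864251147885049957285012355641664727771272924243034893981415313103912977118618613152002936969735822289436838544284568306449409509279468425551871676682092359072272393548417395609228339329928643629034540800853489113972731429886341107154316969271091337448770195630823530716791912577295933952973197774399427978167225384293751962605279460053773720602524055377687500822545341417238445369818946135039137266582618617397266862019816394759028477474349198577347251622822571074755436561991955440156522095844709990064094394582836253391433925252006854440329976922353294173848808218342611401404955791210141699877498308290659745136434563520124503868321231281998535321254692156564619350444618105667087870929113751565419488595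92471969884573856975807874815914773462816442863092177886998717891157913592276428838675246222754787764475121992514898170040269649697820879027121378566437003816505654689752877220914445314345925157851274288485855207887381515635752014857364588815017618422278634509022018838414327194840870857235718383761305013035907405808695486967165378196551190303905138211427808075356969567143956745034120397098515918054740797409246688047625295777423365259049338339295295673072959600863719119545201555857859226980673719591879853963885298236166487718167081008429613272423924937556327446591172346463495312117707317419414328431204225128570566037273316439587828764828301167282970088800952393138961927196059989266994256178781128982158612388631861056297289195538291028957271145465296746009156819089686626186564783304584152136898040946100823671057794657685799151218571757271669008701967172683996681259795745041954925360884931696823183723137520192425001756298650781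09337640822829431241348139639258095165642781700710761092547695501222708205023427587405986754021873992438406337935545457946685453309420399662489842166215660376445801100154322410571760337566145283648013453896896223819837817582017476957518081526555449799966796846744087495970325277981351472309080575975466827930445518103817574220380653939734588961419482825543669528819729580727912851223596033841456887998863116493201375647689781798323319129313190149472747036049062353892217827445845509855945620778945409905430115679823322031280792534311125965994357587696110481476245224809660210590341312349419764157628747291511433543465032190882286683353642249453889033229930866923860785649222208641314066042146304316187377027000576445236190593410652344799013350642266172647054959392366435239361871867651522060238627116631122788344105265654904005748661912653884251289696216648886189125462826224091922833261242766187967179537693859408604436052938117866610590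22428784771166988072295933012500439036041880690579626461312338023485278610954513332845109075082034153680932567753058459425077226874655211622725048134679822417820153144702472130287235441117333802298810262645208175907177342115622162475390758544399213193303404407530912641895971065606117503826115229979478816580720840932373146828425695166617447910427277205907830871196389592099822235446492528270977803499691667240554140228031026815561789737053527879653556624325227309088214839078363208112530334877317289121981929760083161186384037225087951183423523869971278334100750685923845054228367266424384495707563294701135468914988808560587516641148483939396437667857462812535859508081459921246148581423261315525955974633804085689639161491579543988367088100587336116261794495077483037908176172884858885349697140932612502075265921280937215068773024141850615144006436269917648751096980699962319649629259035169730956685909364516663331040529967627340649577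16176274042264133784492580377397218061406762754256326278796557961539441294166052792175946209485311110414567555872659013410047172814621928979477539619479759343822131372119219504140211815111828432407796908210164751375270967529354254484525977533507457977236286281612644905699653254542840582323771871131829100215865572432243958196693696884647973537229062869208331243027009090564336503663289092084756707617441851398144733054005614692273903763274132618868895548539625124329305897205702818778080637377410056118126652218992010732733418048256001682221275111937567646878704650166049461917302007108263915112414395491900373170272378232095043356266558526089272308119544065997940035418725168142758339823344799389734463317905936505659587189239542707699737091587982323604231983359140503275238258116956550306353383275836007326235663305140719146433327872952183621378219182077287362242441587450805696516794424895882130061568294936858483259001175506285938862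89034744715832944311878568304318588403794972053322852147729580695262944555512201270110174120073491066755980389217337091735366448269543084838844336687825979316949111901566123322706677823662894769624525443513952442064840868313259499537099802801354562273249452208117430712417869174486547318663174952288325317587610266325659906650522894715422895833567118327616549127592770384169828091982810005377265172732170695690200602307169723543604871025746802032800114202201892815683000027868266173885291829200553977067501058574441468200239522206119211386486591916949620765477068871446756848046032386356215657435456000940970061153506218624428572254489636400544052455585566699734940554854015507553086409807453789194601787825756250382692934834131424972894107732605159122354565474250149305052491743004409189197062612742052219593783601128949809482010844623456543674031220810501824875550076859687435092570464612151922390155109741903119777304433155679871563073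71521927393337334051779299472191315387683032753030667662526416220904428866068016892240379424145876999430429755899066529519168302012796574811273925910364491894742066892331680424171315847656877318489297133813811350960943781189347094494681114910890029317886836964612247863838698918651925251580887288296448905056020835161086170837975216448041184285378915137721564917350646007307935060736398305770368905620397925861085450571082150019769353237741706601830512630269928866531689638627878878520961263847519562466806812185477225307125662934940168471708810542144306136229423349783815402678359650680388714305641341805683619195847006649695108808338741799732509909200004601207208070566338540460136383378300753945827049150677793878368001154650525270040003013426280798684325708293931247593864354900461107841655341810373353690983614980992884698009260607455585442254865738354072773058955026265352679615780788290537914897499162936248540600024486681807204108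33629682005762336974328934358997092647431321796502670127059246498002133888420128291692513769481648913087056460296799948286102192717958911379560313792123151360245033471990476569297102334006456154381759009656952832047457383561488893679426205055418454893260605218087658197832218271784454921518931719926728327753268432142216242867211842748304818455461113083556476169352742670055079218872850470266675932502498921916571059094364228023622648201153610619527998074025435704181689408607756626944949721524937928612263253613083743340774295192979941328519799065551197195014799035015158267036292500681649704731992499732007516064616616548482892635599130293395776417525101330701212893210815100128244248158965206614874438493083519739648339598852331183523916113093620011123937152622773013604347967243049715012389129534905829641086295906910304570326489941069813080169204025591544286653551116811621848623125042603843487498151601098773443470276386047877829479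91417910313346274443571722065489345172366124127243168343566610787321748385502153827416006712382038430256287886989927965957819939658111687351949013991758310490838258449062154939778324790774212041246627674237163664349941477177877915006605102695005767955923355536770310078572668149831164503161553845963176723345371398428984945241822432606772689419535656094426451651911042841151224092363370422845875252263964694033259032367422805016336614479844472019414867024200990041357930436674795691094193484734006434254920155582504184522288796346015306826446314888609770078119143124544160173303709855369987115276684914153218786549017776715259391034330200596634955054261357587979972907174046763053784647137384027071792237245593344741027847644382458058850851626341359067559610294295282069059192317442952253734719960751604274706863088201681747678647375973409139745481676349379045602046900359731248441424719683860866075085206968657097544552783251678806395396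48227497529039867988071070901330700778063203342570206712535014919630929014325422878077844948730510419341109338065481638494067989095076736544594909900105377917404270331784690177297452511166534822733387583788538905761063053918568957996639314567331476444864722715585564474022170046829816916386286087144750279711661891316529910884996384209120503467115465349151751250525423033794330290372721427965028276722225870675421798593874651380067936446746361383932841618890577544246670919932166636246667705207372120741333460178453488652926523234680306035114583543788937264185374816352868099627755035480737343091696729854897310482772282035257863445748508822492326964931983251619362671402723061634895540544512662104602689227523717393141228534213716889823176172003391287849906655434358493744166122311308248787448154852365093976908537882106606504331356410352782901100044658708264463263565556763444211425744915903019566518865921807734847976985147463045635663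15021067866895630890298608296574964865970228831035825662155695668047775600702188531152171447785875664945770259350157814853302938020745405850031627024274029350362971664435434335305069139775079533212106198503240627506825692202090911535755641837335734686093693916765014239197771394892469680989577968296679679910259940347775099517814527027272784986469016739740074093275434449270256687151887602236617738136494148139040746958232348514634506751978859880633123382347000076731697806179302632029275589172317487562046248631832732608404473539552151875825062897236111362922363957558242388018438865022717126569159902406634621477930016819712277652517458204460959229602072663607060934738003710976309648055905504126824242875320491872777693152552443190036326254446611204523577339150657503581310770460228221501748375641842981355325480138593538922668387576355117477519124817862748084469781520245087694989308340175404750510485726009900774410492846174844437698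13438922110604328439388816639833127711993149210529096248311150754862740922760077267126355639317024504677532419001556292709079168607337066453917539162069695423952854517366135361987710230356350471584629170982794543729019941544985882225849064417387992493815945867885878641590134828502681455035906208993564309938694520884628494015682016007145258522644097223742862943589378067764538193399199985886944211142201844038129563932354967652964838885039183370430255321199312588502931533596204989032743382853846165548862999182769491818198818950064712912025710404791863052430229124821710970522238356580596251338398572203084621301591403815430096042068202643576431173166016091195242363270634768109257545097175154029402165881836807506735993713956683771590859305989558183986850279843139764241096357974512407843027157911635957702531714879696435798296538631242367981525482198543726964899899347382898865298221856195526208534376576443052065630227175020500829963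38386972034809900754428330382791105101942628003742659276063984574674322854566524691010004403818999910139680318260950688276831697941963188521733280988752229968681463574434406613381046361195503131727888327310723412291075038022234858027120334979369391759523453944921263744616262126499245023713020816606929794904432131465562490739336662942430694673325175622680953623940671273874023913726976841926127446327263031571894392545289228071136767790326623821347954433256412256170041908396895060033100190041173058880119483516040880611255054146472949506889242690979251649991347808389300314213101388200694519875344853885210814808311463015031243056616855157371069197567804305192508553099584857095134890555334967085135650519811492137299705546199133609657173151827028219306129815627674173349883716772201115381842007579033378730121350219696978429598282677442684733516459999392443860376061132060754216326789870984189251243433241132886112854660720641451093542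76862850365863319321462224948143435767887067310680118585001271856554709992966979354937563539354366586298217554426382694109248691906522136121472208058154610874310077027343754876928935321452893247852652243929612612537542931765901273324353860373709791298903717692094370509930437430006278834989980579115954302729073860658426979138078404431504466228731277939720595502098601742987901735276467516569811272590395190946029509049602179491506313348626659608318380274320968493075221917078772905759917375029262350646634713794141481839887990057974421096190608626927628643861027297008666062082490074428295025340161111671563291395500327080754526133540082818123249661013341045827158340473715949639638332194503130991373761048910565685903739195377910333060539065202733263582599996340797112356134718094382960289998352807657343555114402268141384194175901953628220337366584768148087729084631791525471670168855860500816421018120436904664431330005435319985746624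60343776261211708743293421445209654608694956849810981082487335250767253525123224801374524044987531901613253182445867869992257206740915517733828020009652924525453549374686232788071396231642167104425659221714748352565179787158645004674053458615892520421821605811757707665384742013095253877343851679925666548289448125529262907807528835495923004595760273294734321428625977407071516451056793297519006356669395138467203844756005095165195017600542988526976239209060861523978675049028371258824091693559083717675699005382868390541537927083939274150139806930292170767599344642165354746855372786362876768392865349641274322480166807856506598944984139808660449411820653568123730561467233657219992496391828432344720289395980437901927641437141960512147331516557081472349369400246396756157837900247434340267473917520433823871383474980719979643299370110170303870729562741531822479288387335720467226417177291440050692241162841571669590989466989648480584867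97178351611089920072312625803374281584570334832348237565349250571072901431076276482561599887966626371237103433885377674500262105141573543191476475008654484250154992008557385070691901868539375480867424868348037735630691835309928112508814080438905962231435895579934499194905637436745804176322009164005410694199668367696236502053878282138590329541449391078418844064653789701734825544185435335596559612104365622501538892647868703188840202718140459912136606185646685593191700338545149670749181132637231020435473936488606108914464806330212020771871693530921638369291918588913711789666276540030095943935866744868793024189857956146601392108958610577304889625545701318304489128416964513378147908104261045833112136044637150460822822407248226575222654961036397246705984197363910308360458431942933992562238007757153717328356223553855948309891496697417412359126361988950522258059209413543408151398376073050609242646140451206705478266960439434443282312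07320986645735002287602039783402505465226902580736160555367025306549360188461003791809283201151947010134838236484132274155783095295000098547987975108911184038335379109795195654971466791488174665325638199561379181890623694935376977786448795422304873312301337281186392832854183140021881004305075510996816149344073019340646503042977820863282412606320346143029983800588794974200705319996350986472693757815786347890420138665751408867915995170558283839249460439067328751374727179797439616936055524685719724986937664824215580733281245061734990939242899754481986971777973956674123010147611804516808353444615995314757493235940228213370375925968630314310354694563115264733545016118684558980483903156871447485730509106917515377520802662808669254911712336254544060823024704321193229493046146896538691569408619790566667580608870605671544206231760897417722247997389252141567202594028903620734990395136825945377240760282029543798855268576400823151293518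3432125623089278204798795093362783841962002508113347527878039969759096559471660275746272187442832961355917086323145530772566602733885208761920425731658286688730860067693083079203412323401205053636150109981131830391572850035187982442139310833276436826857934267441152539566856572320210830873761619963165386047489929787674863529788096560325333573901458632676400187620615455825427709511949868752086635537147912676598374505834401923435641199177051810738254859619459255910082384553897602001643569680542495867544801982157479565905676210932491553076191834701576559283666944)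

noncomputable def rc0 : Nat := (nat_lit 16753626781663383335650999567050824185898249712880030725345559940722560265917306407498913212233847042142125744507964211295554029911812834304418196826191695528981778500102567406342080627599667797112655341599321817376873482547195186324624451034964048972878669291490944515856656016576078272504983980163132845165455678818722556998031199667635064988724687147448835996643086019908466653370382715102534630619606610843781507257781644320431535861204592931175197446196836547845250603550330815071969185294368701178941843551650767410334461816285544158612744336190638989789416305946822510949750221351658819668147136710984918451152116693825024314486179816857843977120539071573487261912526860586102894307190042165541331537319638273423794030508586158136913228675766477929268387769377954536274347245399785062991027442745434265158660778828626462245468418887251131828042808212207852460939354173783860210904512539059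50885156401151484767420801661519599356510915633630373270354283843368577006960689598250594967176605251661450380704720442916107933365078377343492225947758344380355162769127890982361400971199799971837232228943413678726169210319395888482096492713431963277566444224318635819362196916720852370124711271582361965669746459003492541670845909310410467912821479911416970587294880190890460382591037387663343123895233493254854561474363560137020857575197531641156955673984275476906093457652603053448134578448929793268840194694360911720862271588624229588102346901692498823010470476792523731524798005116723487033952254732363393971277886650003233468848761465484176181649906495105196363996863336779875573393735694026880343700951796589095591199093726192776994613679537039994939109786896546042848863336713728465392262042440094533869216991421421786477253650397958914848877635335183739293579290325452962722017161676642916729051099264513196361763537682599662125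15354677376123708930235288401127722443229725594754009871106289020467511461388390990873134699304138783728431596825979873242216657004376693072041886141747704007422832825731293715815070452670440050549735580665372886768387445268684210103942791861060028099304310795811579487204574824237078610469010942012950777226369628206263357343317278144552616109087433122931566680816161797411723487650871694362531130356574558748292868316562328960080982461853550991089627991409459259546402609686750476150335590308899608691050460863653066380640985501889301014608223551448189688320370131530042855181064354509616830858765241532528999558043617846394143354704600120714263901305669051708641968533845135669209650047599742656078513713787664519280134286843608451924698628844463527109808228681447671471748708518082382672219405338509249668390105985908246444416329001907755625014004659621672452482450681783032846030242458940829651145090459332304650524370665136156794082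35888728834763637397529958539553058750395898847020147237347610967595670528051285448447966774355210929446063254104930226220561870484284490111469342189319452147885876859632989634934049477702224361245486485209378468594062168620283076553604862852780370907314487381583342480151521911694662377730420498701267019157583265508814188625937931869897429884804186846928637947366857888025772841297882270554718775478204911359525598858600654502934437812924375126695211371830333856604410634168269445908404175943467593460422633178303083768236132351361433433639809529747236216784770879733741396448561065237759027115764439181265556464313039697584327578312923563183659535448455611921081237810268741365168475545343078642077489139826527698137328104799078822293641301471139398939044178844394454289225946853579315048673407364240751812926062479179227221931631542713759407094100457292113257533946098345507371874261798949841572895821281767623479110640796462449566897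77653476665402920662684387778015404092589249736886360926951513760634277145244208592201598769401587708969801686785188809711002474161211350064955392477424539853577299484856678966440449076321144714462013377963155109104275822365297134764912521449245950063648520554985291971375485154435382391594050985806415810033652434060646757042851557240773971185894571859408898592454396953300378102114924040233125607593724885704129926178796413863751418526680993022224987899517843715300925417094433925469435128832961986203029774728056309836759590480429182114651781223474476152166574882985396710127684625116675606837144437113996261301221176243195836541608839603160932397171225383884682846980740330466089826228032555368365278241289714816161190938977693413983796124935810566094536661340034027508586251052021512877415553018723743732447769006340802940912010711976819185264224164912358137389046056075620079700005214005766390368174614611820138009889070648656254661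32002705455427051257987451652833862399929079457569733072933498033718457068577547943216245196102925529609904369415767992369137847376262643740622706701577071162908595665155752111773450489184289203418082319161719395899098450609875084106874152282331597470362313381833080667343140390507775864111445784411441620686792986677404594037269485400816177109893708452726079850086527371492517962841602230785435444663462298030269117029346056460300802206757496360361699795469876434317454783207992262311750330885445909936017760578176624714252548578374432685210097607923393496697382304198117818465900619534936814714343139505539845787661456404117249523480231832861961653995358419159095654036349101924863649095661845068208969841926586488088983885673770156480130049526192041359995254672202257005584405664281035522257012692621449187980923591685804573431841099393274939535239799791021976609576238203096661514980161218326094472240440429105534924613795328097991610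29749975623467077847992342935006105531201177945645961139839146325234364519323596881008395786416031721367270616896641408730767134641892141465429537142319527313453977448277703254162873064955064948098957416477776191503295654179724332148823586703821970628643052750884794757028172369205694634170720176195961600437297531368674540289628887378659728851982337188713577743291758436339639153258930892602443822494275022887899754500812581761632196264847845174959200835024069452532536264242880399720971710772870919034293896068907282757946644662116762851041702094140125046851827737450261396466231128263008111320810767362870164814620803951472072322683721329108372436701049632405050756884787556984274234630206221750665716419904088098568505435281592500181337145325583509572307227616364401059735446283553036912176965369269076376147954451961545550442140849170264167638994600424516291740277108095484484145882831831153026473189324744204875608665283596069974005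12387237706222383346667274505358027672491050387814022946154723740963203215865188470767836517702137242003542350501741120164465047522542465073561672604776109056212219028420665575866098939287993784540408252460318597571111278402544494990557183668775042041733283375795454777285617609612189668478728409374096258744901729954221512434246615141730338915493256242778375267449106858205150829827627363446471663235356541426805952778445336856791621617891260780089192987111442419367677404528251456678556297419984607033944830329382226843340240994165241889594766825567785737575750464622742516175813581823620116486499075317938040478654454604796267181159445089609238032614280623856144676793525620357410476342352575233031952092293823174085414793241439251029506671553004977439059107771763093537279024265633763688663094181337954326077651031087351932608319448256238436285209773083303145446536759364099952591546079848650453474452354596458978628329046111284227364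36165029306334691472236846978916901706196638819904551498798487289353795225621214144013614435443818916742310902946063741894678381709602494640112005284396492318285982889027123723376438387311450318182205574899340007524654359044824655367742849919782908434462602377271322510566250686188879473174506154647574570948564494875555929372799011027431567241727649046216743884008782201647653254480072422970272963201324546648250237469935665856312950733344541949178673315016434804692661407528375471200831823883425639516043042078778304552335412700305694706265920306223785311771078670470452924422644397404903663211656780795412193142340802693707308674142711303207235043710938743671427142212941958305797726949594515188666071352159160542528639164956921283149900792511656349664911944807691567418214391579987915067416866335894432884277063667954031632834231457628527648484303725370247626297817093950845097959369972546533589330316761209017648563394177304208343697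19229690870651073107299041306356890051435777401009740411153822893879314499750287412903410521114199598835276205776718276881169683500033547131961985719295765699988192066259668526380558686723942615362680126612475676835239046809624088702106519296210733750861312795891936626362105421994707042593685808604284547765872885040166918210773344524570964076452414483978933046350051634212980469838568892395398541997620360900488840709517525469558450187014128297178139324812732517111097610351469280848648349234142279836923495476878864257109047299744596245503143495985443200227968362336503014645068231337484443392885522898756878509908108278718430116011832592578549185429697360060223267183022476479858555338256127916739968364095682016768648161755601264631383977492518710198096003756076920231294992891316762045246255968354494956556262299480182089091682696640072558810393675187841203371385402619344974241630940750159069857023510728804936185158066737851708366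54630021017095409791548185242146665239535483129104493162991560256715629532141375232056731985131161000985836397667750820747517356753876705625553203275822434244364999945411583769240355604406170750742514620410348900651538855348810047408422070541385024404757701969722251131194551126799766507884545587074512624309465329810843932515566871832607183192080299863062460073781347874622680704440973474634799485356611234530055352728537678034959118667280594532388089914229259276465336414253681285809234423594199876973059420520882867637326967579005707579237613700796811995440338826790915830365562165145922468369417405366259023047462113768073209409629527042760603893274057105220609696898374118345849203116581548162799961975263561387986224631113214880218269157098242713892813017804274842780162378806460920120513823482857890142428293418281520545639144288246827461500479282300812561414005451897942745053146093108070204805849255331199816381209015046637036921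06513127961223631064782834877147747150764899528344131774814255288482922681428530773063260100687476241928449175069877337986377404674865631935987583550635195230542269346752404674872198401735189766865308111610121782913473108097185890653590720674291151378700294142474227515760392208832113236103275699926143665701908852243489375878972540167454252613963247861255424580455666638559763575318839574466039945338448178028335772427060557238988635230931101801295948526284701843742299680850172696740828648270936583398951596478815892190221795316469583218048195479202057786187125698198941460804455614317628548862404472810551870685959479585223720287044030771665993964995196171765682489771545637267884139997596112565495808970785541326344084760497712081258537049870552778362631866920740914903270666747413056338183141256919265935621752186403655301345647413770894423439639113142433553651018857206660012507794798257575735830302817421746490419237376072185392845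79900450164315303391999502166738079132199679695563604715854196960442368875990713926280956275968417530994592524385564720728489673128147636679453697270770252737749262755976581935892146180986405327216248486155019670432193061626534810821220202077807530256563098387985109356259076341881192429429110857826663509305727399097230363665135808294955326464828353178543205639627091647493108031657768779266115072131727637351330804955484815043938094559828103715422717139898366559304110641480176316642167321182597749891355206419004100124207081862823529048120935869088908058084032062731715802652277500776824370906567544676837877432992291916739691535076313596205340781180247767032927839547627986759145102504520693367614028083978242064535363605728045782506433312901853068788786435211826428432050606832366042196572690600446288986668834526889294537841844666433883737918976755287700465055681780900237721321788347406711331405832653097392034902823711968817827848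92617396684047041619944125439121937710845313416803987499955926743248947952280435886963207025379141560805479624475137330223160639593678435017912762157207170851296794727662062335291655751956144836328294106672049571670671266585397172459394167614386256998690718078903118274287962810952157361082062993264638959146269040437265937984053983176299783525601545516228353504589661287004233464279584946041567809460560944771806196693230026486749556494369159762623542123119214940754582427874843761381069421698962038249604400210461066099065822417077255602428984131836572692392787375853150684267232556972334140178483225490001586213371566388564014227714665125229755548369377914012113009708780190984469249405963330267728579157870027992138780185704362803940779487250220589225711649417226219339486903613883009615273175046317477371533022774315137156741247320899176163719531796610268102021799738122911749161990119438963649271874719422897342776064713849931214257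55361406801777945148963671232553745061330106634756852562404232577095067660094020998576918643196028544537493371036079518011973964361504024754490414162053141233783751539354737764887000545079120331734700535038294517320279848848069476777923026247328740571799389036239710056489165493617656175515534678714934767563433061959307197430020588510039670226236445218168327141434853596760892275662240530086320945912875130601524925328072042513717823039688331975546550028668275239591573014082319116273212519268180256098319845122526032198444910586938736388857621827274517331747197815352741132812054517215974608199777919772070729635120137508680243908583928334947216938092024809732863565317333266325256322221547350257179020398528597785665579546601108184793318153565018711257481233673742218150704827488657363711413341203842208038075788801927965708402507082020807231648389191934161943713120672119939295692991544439661332503973643108219612734528150491822046937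82794523757772973232499678519862022764707940695758171785272397387029598539654174106122270759637220430111265358099896690530343098516548980564918465785709440574439161900826836923113914148994073076991026630937556111429500733893949922729312928941372451932067776880925028938258392140059440149150595089723495946616598704196511336677105226291778598489078650836291602035088320635115677138709978312159893011827390646741939695703490759487879041914137881448311959138838781212695166796200507270379815013776408199969089918897250477060924767925584173880559233525653662841201665577731337954863302613165492537407981549978743463289473649402273161323440143661971926259369983888909130076162877039807718360216070325695019915370133546190462627807563499856530274187151741736647834566831386382914911538678654508738154592795597330235375042128299537236194402801102800240535962274657725330175012719998626512614894475469931540845186763928971165373482175765690909727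92347966677880888344664858339015512234276375940265055035024140126161107893416581009678167480401313330918453334667002207570868672250835430361213897931322275321794600582020238818132228405290421358566428214663567813596303544913708325534352865397754993492588724412032794365702099349092274785365781157945244613545627717665509806971435872757378106283595033179350336838419174855471243842575161277661035359766062676956112745454393208342642098966169837937135830430842772336628438186840621452303935168139137983558495143808124980004212580762144451050436359754069750723851738858135749013689673699005190609210271596852131015587555717442658568794561268084831718626158375355868783796881325946418797672480589585756605820443279440631888193380897571418095928149181286661469387747346449320586825301581727179505888557980897548411591761765224808602049053268185141527152678840128883487819399040078395811657380451071327937591750396630108636006473782468835303324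6004564121447490971885936113351105794463382829918123214984109456008932935255593112542980324815954997629798045963969131339550346535715907869009033979019070045711929450368879317563262359937736912296190180229317217935310108052809148456955883503394453570100702959347765474533610369874358549358956020213905452382616402188616972414740372658182158503786843833398404156933328154519808452442131188469320028663336325254625990951367960491369984939497782591773642677205733027784302575873281397665097031687920156732226841665302155382574278994916332686875057396307035239848345600)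

noncomputable def rc1 : Nat := (nat_lit 16854792978030658700884749258631666586186910832377731855344750790826467846987021662973142951589706834555179269662763283841589292089087303345419162188596667136213584522853521700855071501972535348737838874455690353254868566771206717782572843226372056363831720219165918406510193778266695481799998517185925375568911562945579037520317880714355577891024948244047925565108489464171005190365335585477245887250620341787513344564082758072740675789514812308508185174785066165857307444960608342056494759212919563391286022483701166456446098834768819414394664076926860491964063594619574660709057511772794107869125801729732016736553787133890247888167851285636789256337197011397098652484408682840676125410159575988363868350104691420675076507172066896530673954755082084179474356527408724422906380399650307092277574224628788236649333128658865081385955216397165087852561461853936907055642729804343248098715004382218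22196704009387453359942014661009704978656904044731101759787180660547462783987122439826930255724516203155411571325645972721625510259006665752941806267241377351786032043785273174697142714005890773409779229409984624575066374608033675959704255270993302469521396381033332237970762248702395281406910418013955752860528504678324079336531060543504578442623696622624680222041777595707051603078460953568628592966373446443529893399892666419585416321735140482290148390482326075994918017573313694788699621843395825630847215344535683234681121290472352965388716699726180412656450363640349521361301660106851937401781199089266853211468711629020837446208416596667537529735145110636349415259932566013547634479175950593382740995565837785762326182211321638233003881762171631659132214787685781369708589185712655867343170707420894140919223742414760424841277390823187495687960895425810566356420645063287409693249508489083176720922319513061771439590869705419799152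06286539482323163691264595384396360834751569419580716323150140938525802379878348309033953339604593553558617673643635799079009246115196972916533384503834547807194890699274184314306500033769164335506078600129696069330265222878839011434967805028154320858594587467603210507650034704232438383263013657233378561949873105225023786631478901733417474103706586403555541331043655367027851145099359291618368706993382861751410037537907099419090901107361743092523098792153507754262793667388866845921505409941350172175352140369992987252035618862202984643343209675400231984597832851516540319575218061404842595449833167565305154240385608164401936721742683182227162621709168099397995745359744098808414488649623480084134106556793282220910924025338617021547646994316707152139363190019458475762547338234145774093456261657958816115935428258810158462733748764740613334947839769166714757598978276883924432788398751813412251158460686695333644590020792679271140357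44102033216322222504118398423416873211288195080921079105108265828394747245404581006444695572288269171268934607274748553240983257790462441269087980941702806556395071351365701625424464591542320481443979319566353940049175469473763477555682499543393510270769790901488146273960067064426019032654224220581486898587017655610917640818259456307641437277591141891869039438931333427401976688723988999110145322229054956340872280552940039418381226222867931443776746908699639992350861068589535362506397383707777177491835852010635844935369957279799776076393310583632372841916600857589630777898848146692556670570363472461219444310982297799026632612511109680473559717734627711978922269925222412454322562057165150258045858503478835875508313736881616364375996588013090576108909924530598402072516186356701898950646565870374429572662689137839770107334539351970769622503733717666854879499419498040186324216101572188873291502395084426385746684863493572799944832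51729680098656771935748692609915093646061121470158492654881891878496814571444330158642554839864583528594522234708151899738769854057756659456728186963901123280084503177762128336906238725685325024238405791634345616990704942194106540976572579996458692596996296466931472216727620179267222640755586694347263165583853157036391552485918980879527676467404736753660061515616054527583797348411334739974976689627344731788270231472226569564650630569317445114281255791375234737848199218111572168983466114695057657004554830864602382133082701766628386407526664186947912141079117629328587632479693188171522829225503931084291188809980129649917022247379620577298768061598549329669827750651196168897376089542594088327922791182618499675519055183468829040550690469517863966952388616304488377046717060140968971072326237862533592473653993826112232052995777292299793333831264878601967692590217159239664669252471142194294609491005459985148858401426293310609040658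39276562309830389806098819161499369661644043576098118203814953744107720443032959303215328298914684686861836099522913199082882925014602483084968310889787682310227908367479070095871476627159456244357700446971187626337950939633707857646369416740789759739852101731574997524854815137584964455386225316414224740850601618117837269984920946447439441739296682192660239390081948477142277790733741312956368074927223367317793563499283572126444504482171103193842894176798469760694623044649531436862922434714742672273136355972066056398879201249381916193620965133158247225199706322533745499969615834110603122381309699350770747876457562180644337522702403695773306680785020767314301589455428512307918993189946478158016289858945974881865503438445726912035387687283026731649971308662915448444127234331343723533713430606939570424037897880667892461029960675181277498739398344105087551053222938423691835986889115787346717804457569120237895437419227795620744446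16617166158702057577192250213425942697484377731767597098244625839415470713987958329112614845994059144929256048191033975500380123484995131931548213029796412096035433369050146737994111940039701047067078015655447854078243056001429992545483411714536391213966912611462268925967515308581694104628814888251957844067733268542462679415882967902362729187047993792168698751180673893439526166972651458359426310603823875981749404384748589702483055284786269073573893983540862251712823418267319003196349850184261098565298085417492094239711376448669252115546088611234970095558427833216610795050928679326381440216811296714138889133214169598367200728344771656290694059464299385667575846538248082930947611057565645716160556426310744350364763634208779160346346426731458185982137802908825944577392968667794758048753466407581261967298808777675194587895026712637899270933474608932477348599726460524680607383208966472525384083561927374273349619527636765876721553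79947939601673659065296987152628526400426913663928335360864115533999584833214188828730281701426899442736424905735690469540247904281971066596436749261452945869569392456165282236622828386665251424104138454043081483082155602704958711274855219494989328296684995920148665378738172619326004117591057132702889939555950916206240541614477163891689286817421329695394057050230307344086172027267218234736707580160495683948908198788744978352300358180856588366365659412569472117761127152816876645190786655600671068957608466477642461218502257101316561480541057105769201892147901526087393657130255585015956042783204635432297538072152369056718162156704634279537120093823186147111121757366528152296614632211642277550822317418600604071481921884674380573416172787670790827969791633187862972850623790852905606993872027250331945119234785427409915046850491266948291318150768564126656935275529432260825927570789161822445184004726524611246778167485166868074974784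05028611613447471524442534047919046025453713939773825159151881496570536364674325401689819480108169930229214789327284482077578405595880681279230479559824352849614663331666660186222567472051535768439974142989830837810131720060622006683643638280958762209026837120833397419381927206857455199127865138681986631235359964922697924101810724772128891842349017369710327058732948174325187385448451257964149642214295267898788068465178207433561887297038741224588177148647289310099325069897788760184127289939933740166466552445048712075264733785299945419801721984079161948258054659094176079984059718871985333486015994006622437562551714387942941931901887399211557068635463063882203239129896079559696056901386008030901410319522309196156262129373888358755007104851668116736993403852739103785194528755436062959834154729731214629936616554014246541580416891715910628047411652922374370667007563061843183994785609583575646652135054017170379817111434244595604198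48729421824549255597630908605074395192501600046232287155968715027577321255360951150921607746652263022432702396342104571347453198541157856678591821201579261514060740342363802724385859314152752199876514258955987975582573999738545810506397111901679247858878362359682886067034219284264115156408392126481239710826877000506519460885179328719641757730982321755702804140614964118743281354054606928458337584438869147420783267355474871965829617535439515353263370399988138531497930867889880202544503424599805800663256580932512346925064081712803807485428944780235521195321429038755302570502493013267515089583988229438741950449421798807739301880716416849488750756174462581389906844184313087292737361828707452904524186637426021272682433139196201462198797261672755987034938292179004754995632651473526074588910999003073067866116869761043103772229829913987078104227770809155245642573245973740342880332967311919688855071583538008058811667987567602964131637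77201485560945754080558683938706051693018825551993562541253210005999320729072280074965021586147893897713335518244868061519755441144863631861198775737490481722194629783790781238203142160306842372308203218073744013324316752024637598764830596230594683096108509991244291136069027141021766130674953615782180814949417615310239979475012248304469576321387606470761537915873913484717781967387823057981954958529951352994292993009877030465998751087271586094504895385632879910908024353202891869546422134688551708093468740536084676303844517308011808691190317100450830184853536212078702898193432099057073168734483136776871631513239581045388207433743513808305420709285911947110440377492418491924250514973240509019278672878398182764458603603001843899184332501978248040680489460885919528499173048944265872119174684401197358212068440429679097811620835628878248127941079792241628873295328943812323185962837809442432372898990330960651437243564233986272291115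35518405927526714776255419346653746407752518510938158012662783059551374963518855011627223927553370220567832778621963514710842610689186600676082549318669781085145855833771382521168197581319223715557113002535215949433790238296370248011405283500856790863834430869992352534398908757715529144529704057845088449870947491479970668653885671173668660402549025163196164937340965783455934761784905572533450252620548446212444442813545647339438347031645352601821942030721100984424702843050938500510050576482747968625923243826709499568138262831336016509388116957842406193239309894026962528481311511383140747430180480256725701930478132625566451035095563009042951495928404210953605243316980567438105780495081602959500022052771787999637090974511621694796319928161716222861197328795039718208775827202995845077584990145954750586566492867956638581799899431194636302636468446816335566891627546832697777736103905295099362160714771374886569549016019282486090572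76299287687777576135601810377268710214594208245763738346048438422905948965611950101521959599394440033462919559868181976610812687927200557945070905656496281841500880847189906190358459310485633794662940242398372956698618412674593621947224451547695366122632467051201615930854074891939510432256762859420950165657071278826500611939451900880971500696980416715761516887468387833916593092439025080539644720574597553132473801793266477973264802835568646560646820174376972747005947997664006129783049460577300113429170955709687073818269064436575184153957265193060681410328685324609196840313786820200184879002217557541139494147283533010917457230752539755326352807271865155017761073495151019461133775210680101934623403438314722481494751728430907777015949621087125157386428676309664181396538244317631132734207824532557561305740504398610353542141619306407628312876129081502347089482344733199308485363295242536209966497740551568421373618247513600706181745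02753185042659611925820659248021673395199560532083389181370811652598287908352628844348266424915781765340450122002980590181366532727578447346000294956482316328310226603569128073310181539097859557714994565349781987500118876221699822595555612228164082382103244397306454682765952282075040357533396151427471555383220370438830130798371580378320570180604937095676608755343690118959874157575318361143836970472830627340244619716032923299690948622187563607192451804628220818270998470147957783452865167535879131711265950125426694872293179942220727664301875447245094788796469553396214435463627864200048933354485770289703595349326248894616348996116494284315753959009533435842078735330262081599186048522206618246248986393628671408142963174141777185253528267725520169186967222250943882401672658128517210856318744528998640099616488645060698945310803149565783438619083395074651029203696535972133600373481271641532578649463627068604121502388148953682727323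52617477282406604348463842006456190149243391671074564595683035258674118286020365227650803641517900706337318005181133298379976388348696801109436098461881030215180913407590761346309965688277745598008926385947102989051168731778934167634515777926090468226809727507880462397133544066561219406677556459672217410987459357856276194401677310129872730514838004309772925990335593581952988057156597852034174751077805017950557505746494879369244282757344279558120381624786813603607119069011211713853552280118261937149798246774313333561319424614679672131213585845709191224983303195428268658201323188149168741730118339539288025521203066349172973112523454563751087411245057780191448839166194455626219796197414335113121239890676310186105185479714145885436222120261989518327342770143900952691109468027177106933453309396063243377790457745293433163389276047413149112318551147864380395527849875811814140793469854298849431412340310931205146066983409527405147421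81648860650221513055593837870516325763693731836514868856113545807033410528171433061821486857039630191284072961332963970917433614643165599108197524071513213701105993924115602888985505322062509435956227687279633757605301654248382882510439319564782191637600356907789649435107286941475899457705525997610439164426140996785334538562334540750710802842521266708388307212353391438173932873524778444152524968966879790085572435937784971660263510479295735199919817033198155153635943334977153835158064915986876038035694695882871933360400821994361012361400124020884026747851071240813125865164696331015617830793381550775782692973614266746646907795335243467542952269724745728501100754737604305146519124924248378141253621226658502254714050709001211114417296605556034407497225548726565669696518437600803242864847525531043252065999338450812074693254831130073415814453022684093468404690494119648959449911779572465740949280085041530416213594212536813466275914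10330171518058339221345958485662435851067814054042140791897704990862880367571985352336287685408089211433682849251764697886781171772801536344530603027695476768095660896418872130419176854188201163455088876204052476295850724037790688125138532326980189492814680705113020324535368502158702056206475354734514668768432463947340148931973842932082011346244761626354571411887939352216366060965504253421822844361692651093863879011173984747391092347572878867581132072302408838134110639889433469127566335097606774120705628581322371059430145741917390076689037534149210904455367629781831276777105802234990998868371659318022781152908190217937788307579747361968162134015462339005916463976609268073145323107781374681502927640746103527562472737740305847700289500132818299265834290917946361297297618577379463003920323616645224690056213249325434508655805070053944571251393256723338695569597913877462421257352836857867049574886062549615508214736701307378182079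8578680465230463724548861998007593669491327297544439625753922189534940112569245608290379869444778752357865950691306032936974615089456721392456456806139710182320534909106020517133155677696440967851989132897518522680825680749550220117765375159691019659763463668563817248769424960850604767568499998429902068083759808406082402472599086712252064001193535791962014141904703336032119892430162965112600868765411066597712713542099950219910966597076176633796516531762761099172096774603729593849450415190937479644131799905034521622765325092094343057026742445743410292946108416)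

noncomputable def rc2 : Nat := (nat_lit 16955113099331338540695891696880456062500774679118514101180943666730095817343573717130578140730444815610447254887769366269627052526703551499369074943962698080525150447107420244056032339117241613247585665865284704294678444068072552833581849189861687753617084501313627422899452278601193151995332392251993836434950916816557664598490277273583537685521900128462260569290153810300229756401671148332788649054730045401737334589381955303451088102049177077161234745832626687896558522146170638236960255702690258022750104521011108046979654770563566516809104142434263307688199199343254898977030776670602044802417393146626733987820374869835722386276570995945096370444229752136202936079122094153810160358223192926449184001423184385486976109863784409693873666841349407524927552881665366308203739804403130206666834690859174483286135370353916956843806867391513458766843634441618266948679689349651529735576873420868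84027869006743089731823359776815946902822593464348906942519113007615740430358652692477895980483165311921308671482221626008944883895520940023979609056412689558111938806990284248390269094426974631340668749723711478747449116071747843767162711787830744052905493508433424330150595518282519033506456324041844716704417068445603549959637263090142453374230361644833889125594117035147228666500983679659286675884319248422727925889786133507071619504813109883712693255748265177247458107925475400010824808185636784970210276778208842705332962370183782164741447186250662416785510364504446717282106928713602780831176313935492457100293244873581113489731423728704957616363598263412807131861970505234787914023078611293367275099414237431206049341279881830430316753597720174155186600854442447667538510928780446919851599511656631128953024971500545946833611102613774866238698932588429566239900152760366077974437928952988508065740575144277516333766788701483844574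92352785663224447529092768766600909922188713684250060630331442789602136353436402526677779180948400189963723638613892464392561865547334308189368951036355535840482042762726814287445611120244427195189452619295574724972910623770623924348284535147262440226500224932432254759852552014669982607070135937925055542989090401688107334036531425249453543624411811295611267468485597881099359308067256203732629473033575453324370449700706853274843551380531417069666647472483253582907545557176586410381050404047071409933633570436122774434120787785199612558738551692947555638009062222569577219875127743805120053149937721464371158688100741075134411164761479223920864583069134932538504052860463131415974753677258888856508680329452863623512630557547236821701596469610312516659529758461602919225139901822327753089856963153216326638119659715008388911521671789171467318698532088615586031992003653549242052875486322962382222862852852072076841901750824351701263952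57779046218360733808581252937149626221058824731682477727311313591442334502613336540127923422867306125023866438361675867653760958549059663233745748513640830832134167016664369769321196702775148841767810223018392796230716096693501987446126418597897904210909890002074149838690035018685497648984181110931592496513262444914248019753429508671306625853544739261263421330903789041030539660047583525076731261705922513865763216289890952083244269626656847149698766148659982161283266374793806339875151832764580321076291461866929752430051670271075957263162398399935201447126317151973777106256719827848163203641853379636594671408030560914488452140044693890629333431731377084927389211984945057073629214781562524686475764078175745693569498159360333581993784224169811056246312331048146748166146349293330116113559049614191279125263599694040558366950064745419419485529169051804130272248362598166169086769433246312473213723403793747617960755920533339610945345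84897058528499705930881553122641393381502126336899527726100456846567844159045004040175124972047001074973057370998745890907586688058947036611913181543158002818152694270631881766938600314988610758560265688578656494501689989201708424619083732276160587561537852112588738267285275325259201114804373157688191105514731016548952473537079566617185444438429550019955736808516414035206730197398668463722327618253258324389967977328755326358135517898849374143469479552288077700598158964314442387074002528371109004306097413853482542742277658127286165046010118728375336719067626869036209495311691811056187079724755092364352599433064199663846236124956214773761244277639384586289566071775523913292809623227698309198371904313638582252438156879165103366129619121895758336352692961470518184034839532411568853317354012025464562144184489283926612394341612497055251340510595788235897824507283890538372251280113025002081901388367427816230733085181095409258462495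93169510532421571981866494051857130882703201647466319481546826985203525917594951767126820066435556284980254748783082434534775878917905243030043275871528165824349236567123553391149701985363316081181793793959447620521617256194295668237828524718081643378711458395074492520874024663811088032483232033638870300384617429892544442204255875770036318141394996977560483254113823269008235558291119215574649617083237289473200348885730650185189281150159139024753217620664840207640680431955142822374486551825629154911448849308357358066344300242918793577593699672814010308542347921325555147276996459612082031820832963379608103566676507659330316978026176962864301044607002555938274680794842496498926098970882141630495993545233192450473644088366374650229007234136414888218426679537409969343715528899114684936023756187290837244875848150351020884948716099669032509442889473686435712136732599399058131732546619227851191677567418273051728443576345258870055826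16121630597757644547652912007385477312913913100310155842610509705494734992843838192062895875152766677731385453699706792146842973511707054008608761415686187034648087910777401124600717806838128400365749095075118378387189295022031510893360136159777117713773797941904944992029324324773952001461127165703466564489768884027333430954559665737480850757223413729416365322674128337192175050822892933774739857185234018428199042164388712365168227348254913913361341897003253100282546917625480046527957201191099436808133477345899469728573031749447133074228810407878599826266936939741618102047901652875890440169242347559299136701045789908171207412841332861984322615610608017434746298264525951979514319843923986910905967932106642128778318443268549624918905424274279957275617115100614802037966308219859639764046171767469275284247176096520685694244685692677290149534884899541699035702841793037564926851270948702836289618284742207154109795756611927112295659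03549824667212044937382451023039769056661702850803221393258882152663562126068678645850052939265084216418703259501648530286005723246293492194490735309588691788155731648149079719911191543337436166758481538970205823667587635396162530490118568985870855552412200794580090432184851193352296950454090740426739211208792479439923067445242550999637683678603524847223032940871011292375262610182095885404543563847720334288692692862857200239863315489017742076337506290666036147346100418322477505209160683844379051414640466128130251014997047944763000879161067870043643354254611380844537521922549435502880846587117856096165802710597792595416589457680919031297201042998325442024872728680379048708511920615961748564853450797556175031714188958686694646714820315328195214630094297963644249261676737561007988160249523601511850817525817330302078759762385435932296039258835208014630006912170747350953065595810434596600815266330096801541286002513386851946545494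32457361840737182316562057655352764900976606094808070804211093546253235657782024465181932809934915523690263015533826146728596750190196015475205985041424995576533573107189678899411173220619853217839953398589223760930948303481052980838174211033005934198087963651323121246218648536298593841041418736827572927681992727289618909953472360282102987505257271446898771738348377060613635525518880022228686229361272008099474263321791414355523129885171928604749688663008096907112691480256558354325386901038814749559431514414870453734872558899032683735423929925726441151797663914169777385007243130906560641401627214500538984285300174989432040961608538576226519584566815216876857883010568265838347859969938909076767947463862524036132865912061598305719733188957357803645316289840801815364661469355012208776917612545003669304730593899970079142428464844496733036819063685023887658644486348877349220683625653904539680354698633633838128364475532044947868168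48593863378673689409374944674891791370807440174998714233068381965800410103177146700834360920622767409945396980546201033114492010831932793746102009391301497765567333910050356683376537977211398877175214607139076375911436248608246840758045015200972775603005814867287468915145485610344187341235556484832256194517989453252570405366212457087180383347362978793625693749818119679060978066117489086606749143653138403286329094238401386944688944377975128189930052001489831634408460673522645185185190509950859592264794123210277919315247184540290077265175084506964830815678151067735569737731326148138015341549527513740957609595552846548115615989259857087793689595463363814722802085379272988710584600709182673537616973524763583730079357103882144198220829989214452648815242334686776658854707740709361248618043753297911562696930423678387742048740949353609251918902881509455770802002203084405316568383991698553027259486390431562933156582729980256717089782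64191817954916729790041389342783237582536982577147879932999604905097096678830905488248448950050543226732050551982495414542419860352583207768386574366562142915406338996127755835767752385121323172430468925970727577963117740954549433466090139935969644605069871695905989514403592243296851848455185221217986401282364730095457475132004374678665183807784159749701752132095708533762625211843286160503608160532342198012791243722590545839156933379406802117322972431684949322324576458711597864301097059654970743419952992700065534234059205503341897947083281845545622579317221239334880412057351712916603070458770192608932909651853438487384252662302716388207086577232258746539833081812087035135844143080201988841238300584458815221025153243667910537959159991481327677378274895660638803343178487042357144168893591861179679001105099670327050840689879702513621233409363294476910389305206145423157781173725752095412073553921480658242609910671684387862454285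33646067708891164796536642434465674635320133860180295498365569533267182426598200969139654677489631626527622514276913802881754884159275115869878771129661124720669392323288864309225274626462083634190978069569462006572429170865445042484918069275079912268482915917465468585014346535339228125838295467381732435149357213391470075115952573956445301332685621032330703128956043159612360655144124964999370962835989121310662465213751533739185658430206562317020754216521799817887418284550195292578365294640334945541511118366543796785834320447607384210870595436153156767032803395430854415700890988459293668461926541339387314188944374090551719826912024069840638835493017501441374308023274942315616614480948647387994661898973633132447438712840653707553825055121875413677842257459841754547678409113989766532416869384992582767194029626804551356312509196275657551339695369069370484360286894144061971470446145650136693449653493966524742754105402376921888917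37880361444263646897550963907406405198637328297876606410819302467124708120541585489862972552295045725343650740925484479879732296764173813324682504580444350711648029925028364837152459147640992667882662958180571838231466491323461266629628159641360918848983859153833758002456557806519254595332266114411107983044409173536361818096490638053906231551910755845314347702853758918318733765715019095947827269523339645455838073548819306256965599705078530591704853792459995666241264953674350599795021319167148021162777380487348646550780700242794889297853676971327528310394818368145453674467933145822006004569850029933801425883140948431113572494749180187003316537923087684680169536989479893161060920112842386946717651747987607149347843643028630930584899425844846074476305055164633268697861809208961720136751502463139339050802371333567349942315252803524264059132062957570044917371543041253563183750884402487570772593229146067736698936216928787725412051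74707067350483349500959450530524395896718777816546073086238810074076772846368639111010040897459366934141262388463205084403416543332655426658133159683596296967644093700508211049582746068747535831856693406131465728036665742239429788396113077274950578856517051934271720168371084835572914265129239342100128441096537707065762480410587322221209493369612835453241707186498834917478917527936114186936215859088010673272997837706483664529545556421565156570922282674539886854337236577835494480132785563639085856341340774925149167925378151933332795202232961551236533959470179806326192280070589624579123620817910842630476541366635315143534675409576416979485016139938212697076993205573788695693471219380131285609598007888940257874205948666261603006243386815638836126066331659658885344600360893659167006616354955411480061834752607389786321819880333889347331852969683105693350875191065288238701805540669492506239448033297807994095794448848182442982238928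70927450624520769990220625685276772040225807999362695403621556900195585475683104863974409595184758090676601415865284018062382221455823021412809024498436954579923079107576622593486933491418875207094956990215998266047622110947153842873221667477368987387377611993811874148398509047456391201887004945461331514907866988278126519407062983192989568334941564579052333637702341804556574704566545992710331378465108502825776993660637771374109916514304879461096140724674279967805063000866149645407826190040639523250628902040910254095027662885318046561271078223478045356332504508746381448270413304096355281916735615849696867699996749523884018066833774984754241475841203295443674314074032382245032474100406696991073932072021195801839734123688536061576472354080984300271236616226677228717609566248153298095674419907075327295340474601946035270701725993823607358157054115005174247495846741194959486977119364984033309047024318946427846300627972897087518670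21676041289465134288019803404675307328671366326077555046081740356049821183844268846200899041207827960180504269438419912413063475998932379721389025275430128337631779031843896258543052179780825727034016608710394091511822192751170577513365434128174721308046945577810899653223966236107149036108406591982607244569513216227147489502224066754923496711934625242620175613107039901733180893814342264461372120539885034589624642835395040013468615264574412457957178331866772330432548834717155310839670851898981500557595375201734797412563013571955873665992357328818112500132043518198583197322282727418749553262866512422283528226067509897576500948788692079013266811028963681900958757848833891265767524651086119988001655194469580885353192279589005082133944737103766382636806414607703674414600244672471430641146093794110328422643201102306886681583469679299838801925250824545993947162163505711332837924148832369509112607254805230410805692217387694410255424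06500694590631290980602563068117055264793441366609221439993057435567485726476794205172582290556140800033475467972811218341531475284035041830782389376750744357610981171328453753939609938406014129704851817212341098868402808038162891143536038863074778908104728250693580864986041055177129612984065330368215120205779389254802614841267477743755032893821599507490044134261841934436664464031475033332523137512048618524304249308525555304267874646955297755114387279039780985878447229799225269212964899356414946021082782349924561706808974670726419799311812394172755453766115095122688746915039648125959793707103914797151145217833022833977493107557816055370611771052009721145019995955599055662967976854408376818634208310427370102754631244526081220043773701654148633994149539471285429109284170036098997274935383375285634187569638681344557403289818179411088834279406931234797847881867400307067581567194173642428626210062406510695644869358416695275975207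7464708011210236051110501492633503982436180375476264156189849803698217135915756605287652916487704911826633272327390109860134119380553661121425741597783728450975271903263685672869848709865224336886453092110163618145494285593387260997888610354433246094250500767144434776149002343537970853297751802218008237008340556553418388022023906836736197063459931229086189823640602956052418537716294522950842447432791286041256580473618538359248044679841762107079888183993215933507772092449382489784602052823057400323530165142860987175173672500120120229789999169879490159821455360)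

noncomputable def rc3 : Nat := (nat_lit 17053895215559388232037233444112976070441876462459361975847011548210217012684698148605481255522410627132053151506104752430881848966627341018309314107393202312537896090750198136967290137750694240318923055252028304939461507177791171375938667039111448378774771664403093144999070889701758451283151904993585098438928357052474625125380264215485517986048757194604593686487561934863813461186041784861407355471023437371505496203163030708170860789246919757931270380883215616050335642887184188632686909834527883694020976728622561377405407588501260995288507855827794741838549777986783243320580000125865448829445318833025056531631953270142610193972563207078627220156159031956982345151940095429992261775941122482554095546482734801183869240799163183278585165570991956293769226512774445944052997984565140628867144104956689582016092443043320310064321463029613606908317198642826609817771712299548731393573191248464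61811441067276493733109973617107268146471116959362422739528887574886241388976630481678653386411573151531314111719701078847368570183185146069834849532414134369025794460920992388385840955816242754111621409827031181986430873933360282964940872613832818401663654485310035019866973274331777756146219230852429009428634935975489853754950462974289631861937691294060960887554168096610716066720234440847499348305183418098889126289240965763982448992624047124245994081971487052315516595909586027726968693940004145219812415573094440527927790745504255639071713441746191828517891380816011974786646849588918052966964767843281211467023313777769295407690042100858520872800389958285075055877023735028329513722479537263622954836304224299102739931158502766868716325789728829810825070277997027608230893587396305947569819022447196088775195049545604493140246344621579216458032762260875338071986235647447070494691414674224683678343744547276656725923309314618123213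71706834471580355651944755105636775814092069442431090889011094636611240434837521956201337689138085492430792833365484692622254064126224950587224789306045344977458774480548656810297336787850642270009637965683236988745241495495937872601064963747055312459768311470932430617190747551693327805522124171501604340699275383813503784496354179919423332763384061805515197668943237490290141482419527132334237644421924259517712153058851303745869528822142225625241676039085878200984755824490183445838804713601263208732164889375258494338829227562938504419972780773447816053726238973725441521189086662318959167235084488446901622331518318850308557604278579375610722913422316069361737364854398386789647444965031481112496572462757993583988758494530897427289628641532665085557892839436314717749997082783764954927281842301225261197304120667389291999608585769327084213229226727163179217605453666756146232374867632127524485552928830601945629343145860272403410859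09524522843281317998635140479806322980437704563527987347085046420995167682165890066040461916051639036834708281517722028560212876707272070731044367857229072970542732214318009507775798236509511548438486036928121829093081234405914669081935049533528848252859893600482157307885227986252789898242797345536058667099458350582175101936007148329766323068753749696469964463862916188627113171838651837405036574582881496378702444212997610237459620373227191367835363929023089025538745813098875167422578055351011315411903827143054849492199067547831456650134506210024551606156169903443336530647526632040158693985706394174507054380497613399102558635589872009031712254795499193867563266650188798709879621142708966708654785064623822831554789293680776129384852853203243672759262035562397671855679959236353517475230424707063665733334837652282000780805175145980614069132942040258794709517436868137138976648376697661869440954890289376080490059818115274679025990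42510610949053403485223181806495258091150135163455453474661902501793694411824717039629680648253010338763289207513229028044726110025794150122221455488483735837903495799300416428962742246926276623717585949399839713550394071712125255557341836609000153633346103948952939729028879273244111871495660749210612578304725489437266747238872153716939452917068585103275577393649167563293145750473187383577881700114048818432962830617949599720302377050460309122236999864584492435399979674734353086751008421916007588739613011259659319208704935984070538519948825846900611951457730524206219629706723783370612830186814500434739916622395361013712251777291648803320134986253923016939348102957174614372241220895309143374936766680968392198851492837883788265244508578552922868958274742177288680492889920146053964198615656712160536484779980409537722712911311155872413508188554482849514996450023239124949307088602743284603471972933937736574958912057709317861648461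44625378786263156408630151657676462000838443669832615392307147838489610974751480348952448049753127449649749341455626719397381753036900594479520864941647813717345001736168878358555650905989746679845407214283583386352223514151886462686663529366131703374916957375206124560561019483633671590542128003003144831449757651003474681466243733279072492213442756669354540181349902484305069374525514795000637343176361707415615967543399278883813147709844259641209996365751172733417478636086258402938466161471069846409977935881371255658398897104174819149302446704654795815531270499902933457790669748601079244261042161475420775633604814355702412118794415506095910663270565951440827046404172356834196168592861118638229850153987324584830596742766808305506884944191717070512516621095465457246039820978405503617318135564941130846990349212607354540047946979304598125943506415426883071455944661423469825358355134460589012508264296388673214968220857198194708681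80073370132193511821399173587151514356967929761503256395970614781145181367983968840267489307285760062487363823379751715449470994406784109845296289761709684966576512898220419847924478658798110099197785362557723793525741002802827672485658139860940998719898312346642857597406537968849077524759214562377611777143462405465539242142043679907144834614727367746647319057559321528665990672853760962621964332311095419774652546790488485877636820274042529928836195015315764115178525787719505702302840174844604364974355026555259380182733143472866132097759941798464883959774475922027215686407885978292539252560143157037474392529617832340373437056507227989231142950487684567395433202609370667533247328310632655646666650626770709760182786302527819179201926047952291431338001150421593170909052970378469625614300925412559563174168231442663410919593897404303295177094459825924480068048193307667331102700436894829278888635504080563297280542041867431056504036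05200612755929162092998880975093808939196497755033854628034234553226082232327416980798780379542906341594605435454380108562407218648711078451607533045230976512108647815959205160832156719646078255206701122627782859909588821658150601209140098835941408500732578685387424373474330520412320715007144713023413848517458340860304202266179835803667266042891823126837279416673281257341068740332941353174295026705335510006583078431470924607927043200291063846151487246167598617451103242984363201777362294462657936526547116314135135147451415866961486338503564771653444581405137756886018000825122187653895473512183768559631248061887962222219096901071000647824858269566788811307458139234271153195161758002559348479090445989273135566490547573170597774458609165719910415092875210608615335454894169972859862757475641017266059313190800291426070130807742185979340359473029141840729950527837455000797796547201038397101479588598381070296240414342796519747429742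76442096550374365774405490950350107115968583207880482877209084581626979678211431872518617864450764040752044135269826653121723911571995065343062566897420038487654901552893235815278830231659757723784418558681346439790417506562875528251066229209290079633014308037089165531703956679638589865749291282009673914566285884361801059056411095407655934989985551455436666899377903547650378897819504735606313303638294802092999433377691147137418314142721320337923407104442039490825582618878685954469688710795308246972851067831811353885363883600986751789649575584432452554336978309241307933734329903437304452035814294545759795252199876450344836963621993456339820817584195647442730788188084147209328914043446051051012144683151020945768135789158323844534256380779830783553794906390768883109957078719912919266409494353509734333183612933512618029715714800868207688069984597672584849481754917802144186754243175272745848582972271833774341984888184245920450759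17736992376308942794706029813921997080506516544130559820225301531522687109323657613027350918724265739909338219940102201508987934273333459640911144715093770292271888948191216975067652951011500732583268710584272657785876368440530017129352758828584536348554536000958755927493080668758674515289118974636142519031544512000992182148779307318771899680610052401309184818514329122757216070639302618543662945926169341138847098635528625454773184679874535486483677619451407132417767726506934873545493416303387250445924724209649036414665099433798452267643626340781538374858213462803403131667036897301548680166517718545759252655378902330022337615484187656314929833866934849849840750919461871508602893656662856821177342472713376126098063004568783511904596836278754688653598140301947156825167948914321548167515170424942725435446240837764306813864709515296226315368786905692877935947778883339787219290932169878683737545505923242849480860013539513770401272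89141026229601679109116620209426442906969155168946422583975621426016030556663596857447303545127945252999452835471585183081282598726188007395143839503649867393073057373801286208985991378410728583952582131732509160200998844314780877586827927684632275103361667207049210033197264631836895672996371754519076876145096948349737364146895005032913850034770935361244282704266166887231330668959927337541633614506322617439805184178203448423617738128336863038721676071769751066857935359628907604864142722779337223818462682843680856085502990504465879611836683992807875781729858057636151109150058834198064104522113699389937696968424778846473346360251106420492627606957821735163344941405724001296201096919370076774959659214806659150333555518691652645368504536816168989194705264064447486514397916124208281426011217993379247612134835475636910598872378863740007884894604895083872974123260495363387248351414238266979065450332680449394412962021413821808585236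22114373480131797351415164533900142973443705284074446560620403456000589211173710010321552283594931568968381434801975914199057128618905098447674494404414162077756459999418290881102828038700289391160288307969460567099839034088714774376923057224541199181429182930693419959006588102078754125915440291631084447185855642004244954748695489907735002942386422594738744045365792139994065210356224079157530094962698887922952268011475996093178310141392687378715017316148058944097242627191289925918969923399813460304472541002243089323438353699662788474793304409482966078907542540939412467388064891346457270084606360982408757343682858988984326151849221130288071021418282602622839864335355566790739810921665720115609085226906498727100464516797915041649284174497199795331375355306085231109917083234551261081535131109985578055375230395657086267358936667513771355108944078809018570174568028484661423785172542974540824700337328458520383365525885060910102382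76688073369650974677216815749916664067743197533664709107436926665161801687362009587046308673562167050215605451150432181877762685821157347872703163864511445264211471053304226148159194875054671616481393846166107709055889751633232903117974937949262256527232084896892001674602543911182325974432802163868916688751722436786544408977279578291440757109055756387135818368074304859606521677990689285283642138437007139344878555182350808058628521369214542688623661377463570847244666690504404982143293374786491440667089694253863063385706666501323789496891082634713858014793501009372873245585429363718254661326601490349298897504149473555596675907462775053003142143504345025026355808273039074465569510931138873159278060908173295436871645475507435222634027747796522482706759419863917956217222378306120359766597785989027009567093297616495284514101127035521802752309469997630087896255381963434909229383688203965560196110701741912029059684972603836207085618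56136502532987294091896875464857134398043190550848889369400487200191189492006356509670754432793942189529485955925334067206252417467509753056851678108274601564604888384976335378498598060254672107221720333478310067222711644946922113230516542565682642085624364797901130209242720337320115861541158516230035810817786675107095965608868811633047103639221704457283713145768129175726467026856737275517862283634015651529572688553294684717197819021901304438344634322008439707848518584327369807147327079104714860358349021001917357251503325186102383174833827080293586341505013981135577448714196417199555398466504007496810795425432126693799715262603693547921436471747884090174215398203066552629580800156235755293502055783096830966222038179484047213738772601587893394105536229224388600282479250393707006573526728798135490085188232401290446463170514350799598523578266183589221125886535058698716469104599746976921123989954573698996733100745409919310894753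84032952752814068916638514860747191505080376427584241426309896855150894102045658726653042897954939180838061975309865722122738880777197397342644070058470436852577809965863886297527282897293658255069108445922745736854606707094419898253681249248204419608353046751005391652910155812156064258846215143868068729068755173522000598899972694022045702406482943606409905358840084463029353091519672106350571965296512099399630854126918896331838362803507485881047027734213688324256460604050324142368700915172184625842928588106864393259189240475639195017184004353902040245940674603980919858190805248026486828062511478387767097126141415116219743365808220898373695277994088068328716085691181390631253748523232026217585385616828876472979650655252961096318757860413340722975868384182257788944482400079383212715689722018940227783676176847111216831073396893000379387458187314800134741972081852698656270052194546280861535143730673513117774447025961651699964802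08827679398289009761439835603332958242117355211490046148573647010596759694288756920691781356802531185183028416228715196699851744929723757366834387918788874756650588112854410532322832061925770637516753346253479805351011410874547446587748226964339575970355182958313886234373182199608273304514345209130269903803896528250793690122148308663997751099187471745724977912719255402585069739440345710384318690068865281552291067070927084875187271546129101700733208100714977417937300107183547184794923740311256764940567221522469317392307040912914357257967287818593149616916060610647101662877680223732083059349929746931393571313321974758336030662593432451618671727940828345862521130954490163361227952885904576514457563094366178120876354998182839293757727826400202572417485317481317656632968238769079310237135106104903699539736663879126922443489761847084988110524027450783594025292445356538797197987300200206147059914326507123647800714647342237269844515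64185033907144219960641775535091092738762343535912014014286844167576009236302892136043557338872805605661949532539686988220796182566773762413549255309101552862364702671450860069069184004715717966352786362400643548087711238809408913515973187355132641651255720134333623749809812396011726280127551737031066930027458147558477288846694141860169208166836602798114794246869121291342554527844234200297969825256923737376355022542596904672679695276539429414301419937563036323628040603832758464600937209744178106474376609233178944261979590177342445786251574226792361476347840995270793050579633964804061981458996805010759150825158721198819191481894144291555589241162594850152919890092549877112441457729939424748493973492457157456236652777635698258870717427090777759915968659384383030814551555243060010038815123152034418640679342986581986680160009144858700578554147390969983744295698800677664096628544147052706093417863823620083172695585119616372776751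6261817033996036218902532971420660724886780828068201073143842879554164030603779506459846050669014289136279654766934860997043139365728917986756836085218270864117721297674955569512272146154252823350566256783380553607172906565359913391151875545568541789488238452751422039447654198549819627849859761606617716003770000695454712270514869787748439030897507231200570295570841547230656715651696431800632828545245090128579030631598790932063393591275940943528590669547967824884100729398876651728110204920752871141086012917435894109985491124262357855022132183556925242254295040)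

noncomputable def rc4 : Nat := (nat_lit 17151244099558132295684444521363820782005119745448878366121299921758212425418666295791917613425369348679672073137728814800367212698446700559510923525224716193045456546395427429938817394516608098917608296028661839359776783351988861412997636231941018812081473249262059831422466817332886574124675404826438153496742242248381892223129623402824974973981640263721110347113265464181463477132014290258204884781021728923949162165515143067930862865848850654703362714148852280657419612230411911645516480499854073251685990201817376625783375845242415113735998770883390174040388349980013867185958213425062094039959248128349206603230264129299674290415363136270023935620301655601331006799791499942807131743092452386080075626207158852800494084903133171208030286699213412259131767617547078131734680351431636188342259603828390835605410703047617167429367696190174883732513039958466401966862564954183230542274494569225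76051145374435736428596168791888534979394272103388736405492050588244837295254418823608432257948252461404552114527721423476128188865766188661561255961667470979839233257724103890275364412752056776959323158730775513903024096471183711477043600327223102590249476938292090761908907122175919305242523597305490226035753179240730539169073918066539869002797641842464311002053461016641355582174628096846728630456680455501789165775733172133960759913283902628297438228855095443522836008254422160660959221986668420257836322470022014417625195452578912962291558085003209850628626092154454595965198409098601429661506458792391093646079367988753543909941315098841787268795080142382415553496826785798139653434896213988929199096146995038193849823855158409235456824250519969525645909810072237527191213408901475541021680370357695616895976001212367293639628552682945318459960258670455569547745853231076229561786560154841898060142199641092898108796617997616490118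15314083651116523989883723841567206416391524430247121564543195952307878753794524664598300333302845244268725287928480102302161052092001481177564660536551278004021169253118362273848879083543990179882137642152284941478967504872044141558953832557864216974837367036921758693807100665904115856180559918702597006463679721033533142225910754798100971005381743241275741080694006009025259676064020841711889071862136860300092663250559468292467541718825239923126796884814719039757007546022478572055478309177071328483842451242363579050320426307595655051196820794438575922417705756076069847775110384384226929076246099012350515031137418900059972216027947956429651645482985394382625002818717229099621626995967933694653539362914018318312623515037988499066638583503729421562508087763484690406383986929600003681245774929330910606157527083726513015958491862578747883959560142978654419486207617178770203030194264852561319629977719740608167283932777734251091390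61196903872439486300556559725592744114323195903808431070882323415566981170301046392688434214259643939301450252934035994038916488396515761565384102127403929187269348808222660998238396823410266731416690588933130982534170472934396899674376983111853065459163500880821336501003619684986845563391128869233597401306152612517094813025974573681162860629772768629260922768267285008363355916374365699040784907446389457348434164553059789133147229612221693947438050830287960286879838231040947968219372682128164747312816769310576164455572201685234320657941745808116915048482420065662270905919461288284614455248819619322733857856899150725121352162087251265641210914020595893109351362927424772871095159867267724118599557282682043246396076392824545767624699114965298261303626960948302001088184367056541419742355282027687758130045742148359343834396371337303519851865360672547885941213134325803080445265197013933077364418863326684562676342268253466567610631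01616081482367337050689975685594809406479956755485701235745210230061180123809978010596692222552321793070778608319990563180322972089770905128659664897601988505971729176487591924200380815453366235493688703207918483866692645282506216792249185724615142117995112471581401606906024164028101565414045752246863682866129843684359711595796371832298774727671505379895725668651766252700543501139792414956467385386745186199354970626373673348106989925834086558860657297570393324775650437859696984472821132907292128388741897225008304791880874517337225417614295637531343820118422011830700117154284117018656630896961586788438013513591189283694256523390245122774809675093788917799658554925069322167672668716619792882313258988313853056565845014400236737473150014262006963180307064678450963796044436248099031056290364602109582818238188658811729906706124750254391016615847250099440705850495211969471695787544850683561156445658937465734059844656159428585489489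52136740010476815693004074842076997338562285910292168818014826684849867344710756284310020178925479860260996114874175829196810638698966954106735629162169005823246331888577319877995094492631811568750321790422617998648373610375571011282755898576000030855851240093386119881906607960506629361420921682166166299918609462931592314954019499511140232781392812887466944768814658584807527794505562746469247891058910311266698581090091696960402383398413631558273638534715647743992675152842547235592771805829043200346370306155611929439947867713172886093948512754312505250121787431154572342209508408405164295480103205449113561083302010889285711734473244679508552547288381071419116245593113893575249118491974024830030607569932203958123582170976179267050897006928802782268297288744932803951958413149376795331677469071842161608581189990771286670483836024039982994645646856237817267706575200136813330897857854579218261702286588993292513626624268123900613830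51015946356152861003703003670727849585222861320425524394722852564396784407250564077584352438070944437099804755090422085027468778016957115999000796030251583402276019373095460589077148253987967908960430055854641163019241470773310516431860127689993050154738380638529161220231513788804256280712060686358840618374257098365198817006230201304232268910768580612855127556879418859493667058292773344956283273261412238767951300749141355205627684869044712106963945231127766103360689380217344268202476358778700934986556773125415388578856422207427718684095089660513355309017075280586399835820364817535245461643723392283658168439714921156534231728272073548467496193049267113224572008265815264367053327876395602909706987531282191896769387482180763819876754438199728666882813917446068709474267834517436382762837942391238197762839120307542464058542193946834345984393341823011946510447560997861931309033350940486076517678931284350875091754160303069335667047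71933313140336700360949223603955494482469143898718590165364358960410089132633383308042625739716555663929965469199670760191259557876164742056007706902761109611751635004209307189003277090027331378725690525552160785996187582879159707971207864908080001809629755025257568769625794013053251975032394672460593191911900738522654636618015210017669485418659991194982613428054980842702820203679204083054175336980170812407316381700244940979262785578314221696187394610329097791545577071480256287908023996454437473077561605958403159267185557418120650946509230679947176881167054433817238683309884040648774453175992818993382877265764391247719940779782159755839563741741450946770429476050493231253342996244761421076209672566426629100552490774297274829280564824545123750764176761489865327306343138727010614257511222036889268123860719213067813720792143064362878435292887007862036149849274318721071574812970396873730824770482600119384204387160419815984510121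15295486352954628963968470526015912735466679855510380362506860949937102262473087318738242637258232444593371606339541247078636295043971701275681075619641566224801582409693061534601706149766195573157062084307045295239059562300883098653441557610330900883441767357424242813890714414192019768996793843824249736732404967484579582913352637428922302010186329820514462416553162574971636544336252152299543194463488579149089208857580158085282353092666153817917149964452856749041391701530245940328653607461995712764973416267217105528957898446035539567421035895314573488061022700956270351808831556567126487914481128062270411134646834621550881713335417447523183131298231510128706974929300228146415908102174343401413286200335675710380500710177876933839867850578299165856650528808628136704720673626483536932020706466651436318379051793911598080775872970001252976502348327707406935567398489530690651050517808640400179680611310729543302022481479102667637991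74739090090173721211310431310831351532208082885881138542048048689091905739749890647347288010926737477957222427257300688920751894730896736301188220774713426466557241645022347113810157076418638541142671715490489440429259953496795903197641322714727305367819887595777039675790818002834851538093007862781747159048385616475659099718936852492926580363359036589668668421221522074558197802582354610036693233909156705743268926058868038162967148576129565051679251315535169510153881342860324022090391132213586748059664029875790223064357562920340000976903523519273407468497620737645553770721661558480807218428069186682610929631809278636588377271019623474921937127463307806611330845477296610191481597686177268982698394527397518610243805649082083741142600302253389315974565738727024472402538072289439586927072954531592284126475638219272323112025193911719575417320506338821567587049974674866885757183950707042935384049270357995871711783502966145056806476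33744473265469087620536277391543287324160153826368572460815113770606891320178138352017505003960255377495352628685355943427240502914550868177580234385432137819401460133453122821615174162849245404135109014743650046032426929435690636660038640047786061056277725962531778744015334679099600623727093494821512644370270941049749661135269242476102913807485289346004411352405944895986038563818608771000017519235614665475993410733112175436568260878378508665264183581795567686461572052396158102640702835088546481190010952710785104562819524372533299207844168608519211224149286599008127117810893281966081353553104701368701531158430391540338543308268046476486353972442982882952698467056768349397074600093881388717696329779107893785961813373430457379021307370462198291003058903535793893214743077597553050686546127078420212605071196720660611328832734148475346147389908083111225200977404987377894540494287226957810665628239857784821203777969530574411719169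70135498042061062628186654031254002552226199127035194845866108502184038592724518277031568718221975394976920501472903137940845254933886956389478430194470274678372778691241619076381848452841994832439954447799957374859338363659319583253600753019131094210462062317686088650696678741468570148454160043791516862251209677917006866248827337722060193462249545917002086715660075713096627627139227599469773854753936052746400572239485338648217046789591095940292098812348148677272038206184630853963675965763322778394841521144544488075077146275643468163140897019429262259537897181945629427805464002406759069447823500475370470552275576535497734538866400610292898705087622749177834697255416830290276108355898590022198052490870206332034214726884419238666333291674709493734855746623446976831748916599729480032973641912280855173889213745606365104614468279157561761575945512429013488474810068724593617255251057413215286683306707224200315292054673339683276064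11568902467264791600276658851536937591714843388495377719689965818604856780627278337986381844333820009427140321051748429507082577442749428585374339142379784887561879785759344774470854644097033317586554300274188207031473094300592356721828965513654450225993043453196466623526049382057549524670949466800159344420589238668453354647879106748730206614581590267652032519403072669834243705847812962027728886064435681352024338850499239973338054430217547676052196027708253748841328135450032601767136632631911638469077097663649667142446981194359638360318258483770863385346846307158712148986738410693963181451143608396714437635341824601893664780077003362369067208923427638401716245770986481704086098746395318432311199036824189119897534161226993203837483655210737185898802460792665784952517519879602714532985333622621689193521396782887478409838073228767700749378635983976825004374671455674074905788633475074485970600522342154992249141288967643241661299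03983646373506808192800653227431397454956544245585357949096341389022094852866257136223515823565992395174059729745282090167997825476157308368307827036651447773653112886016548731040258558720109625060644513181180686411987737672685024072680307807011123908582590983207809261095364962432023378648662748780148351057665916624697098584777800074843522915532384771445798360743165686213789350479045873754441487469997486785621895486056397491933309473499449407807300719420695322816928925959664371321440786994592887901605111965728447271047477839459637932080821035831134550631494132742437059161786354774608140125723130643617581563593620215992779620364221518231903473863226674137340302887433089697908230263121880567453160275841223107671170462359796355703045328934854839011846978782687454500902287037502176653263311084541689125223690637597831588940828473279610359025947215338551186314939872764434607742854026626735641982819691488206237940953995763151005094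82059612778949819696182060769640363378843345232685586422998093443858611872530048955970209416466956709876828028550343718397061299000987385979405125706399519337217370403997503684061633571209914850087372807348795835191047362418688352621525603154220526689567051998192372275481623952708616806383790174154046218184563815820032202584071650764946628140180086584471679684772777502239518758077870635213425975098072034406136130464196377313644399935092417481615791330184426359181653615608282892652027732893161777640278806267326206609166247767944691614705542777740075614437086562574635462126590544474645970943235218037217241592691363571969489510143746207858575519290657823284631958394551574867840065357345861172335109878999913303476465821705017222890403197147938762490751162303271371741927794592476197632868709413295303328987073971457438868919847151219666026278815522841460532029627200517071812234799624629555300075797775923581085711835688507777824891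65557398830817395978981064795438254104364512716072292293120303042663423428719265026776329183380530636375025994998717100732370726043305362708993280267477352714385386169639766637702191500393304031169570945095092747080897883547747912369840807322127744894553361962963831867989259538265073745023371634492437038527012966069221788594908878829086436234151110525505303505961217508363020701716517345606902313917914766440439627056551291733355495717004143365691798110593031435598319625008845995485846833554807625093550502612961239226126431584129655280101089887848512576618653850295838604844676506856837040081619356496459238429566977526809771941071854091215646338466640547611064970932989237906347035418636370659249704126403243758456979189595485010449643829810092993384130702616486150857298759763705857496201701993754205454675229712358094455459626275040354528654077027776211250642301431049216582741715040784101443433827032555590379144410763823072612216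52022598354443220608237000248795567867771194687652083195638206967976117181893994229638214914145514760176668605785063507844757544352218842029525709499359223325371751205522500068576890319357344732469582352746738103018329165954168888630961086520785060223267523980569938990399634697409971278217292884802889120522151896245613088932408584825229250640420704165973787191289659738197591840980812658662375101237184141201854202194601266882552082789865837476739412415219598743546104753025881460296424837117779014599501433796810066255011683453419051521358112558931815818764288518274238357156758076811751187526298719503368958834298668976752382250061368899969822953925596730618588738847442314858520006494371756916921766332989465536031652015295349785101230098329796204770398387840237083666991693535189619650779833022965765094201108379887432273582662749158156826195770279945387563047403294064145533874066321765623194436535529723453056632973911913164632806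6021242575622229146233013377878369928526350160015136234658833309389977416620019664984082256835773438611327188960508451972599951048469257105294702613271768956517157666195853065521535123963859907199761484836344716031508352422272501544035434680562138072197333817443410372341739009216101743319779515171268439426019010282242959545491899034608350218866252806953552549354190464085483700423037542663033114475202532681583826310028572180516349801643825508723026607897684995551301381310916862653937405000641030353704371599788653863977205611274428423341847871371533655302209536)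

noncomputable def rc5 : Nat := (nat_lit 17247157386315582320615549913459224650132196844929207858838876207397910284563712492065855756962307492134322908789299636414918126297356433164589080310720775443024398089499939560083291707734126229382296846219154061757930420231344301377787941912979892565437784632361220867930921517122509119282457211171064163086351523250744318217970621430525124748457162375444225681852899536180712303077389331454776488046337540729935441168832408311909839521981169278131779406082149431726823975273160657136908972480719263161833479543305930128832678258613571326166932430601091313052564048906084604218830007160053089365899900418580310067577748738785311042491693568926105192999771386280056083309139901044344758299725142663313429498905610389696434840647836693429332931053609794468722258032421460183667029286073535807234189305556558480915039279749634448608933840766417059334238541531468095395481828866943674615873404009893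35336555776433264602625631759807337760590602712030613352258982021559110467831361161824463549436090079063290135581473359671528208223323562241724495303911094172653678049995028973312816652713751513838658709902626123787158753338083556729795767863497372026310367458099839875546275464782875791726046457828462048607654193843381706458922509641172943408508726589810757717363999761938431687703931570217079688735592500528249786045605092801533588722972009958272275946300722492737827512956067417170269750275352571552862563015359852826448610827302944698256555274349018510636366559203936231768973494568105753347155744688232533293264725333553556252936878793073091322826397992363484997347232269125928581525492821243011344380403808512001342933151277237911708432637424059526842457436292786639550206740444984952331926057761446487897936800893659608112311140703972920131166911840048191421947918440051030387572077907543037286396498716605554848081545676674489772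63686008942550413593605288119209659118091792008305909467052631120438859544674310529107743200780433059020470416757735448424908708240860264599956054742309036176347154558927590355517188865026521178149527231207229947649726426484952692350742818735484062884421274727977073155259927073108638269753564461058390472241754276286363196796272067763171153783284205518842210801021170442429855693167425623755637379915151349301161076443585545132025500201380397128371896750263421848757296705789456978393042703367326723317326297223392261206817945336580590066192218828518812686193128946396972213577667340581487257693959661593060217198438896529652576827195367156894561332145561242335582301748808121591527099669814583952781021726286883093210068342544534974856031621379904145625701841219530631433737943664940194632325975904121321876627908488659315295259022095414173914133046503023173538207602879559871652960907391432776345473539676446522586986536576618716484974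14910095007638738753147552962084336215902451439506812946250610197041551962664849515083308188585842842404479928473776047354778592486076113669496426299049613472829150670494220730817068018380852835457748221420538819113127529672041314357058683888678570046480120733656988734833456956458451870896975129023031540948456613068174577695862088731927666992584758239990709808126583054915405418337074036212605961981856821560363850848170403953326724651116964988589865948903813939074808983371758657430908401214572170547353601077363943663881383932946786216214794481272277272945928954379452387662721105200047139856733689367841328044727373707558769003751012956979633770235276210923131287321894641620907941765796952265238445026358506095186654293371467140774411764191370953560477953882778879462940239586544007464770971248274556556807083262488750940258213206883769277480127190064398875730833756440686038050411440418722324203137551887129587087833436636565666611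54934780878045436842979389173304731491477800577323732221404022314901537441702937082760081669243805597946141923327268171159242658853931930902743100243975781416585700920315796493830432331539702406440144814609963813626722421401376794376277918306575601187743417559399334845145680788467336573307307584733117839167681526639727944035770995212806429052526568724556361148129638758041437073302273267929296038167805044852722832530732050858566509238025172873932860106117756203582745627274156464846797014414106717416382019455599902288147005057179238079120795706985839737941889434097951518892352599345802958971022346068009618646226101241642524817954456727504566319463978522423500248551115795414201685691998012272753292836174808041540350158750798839478573238066899832233631077831271096760586591069747823058842043110310345734448138823235201062978749226939029554267107578911327729387790576864510959848532167908167525907254532775347740393417414926328299429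92758834559078200608573260451800967427870748496306290799330041300295325497692510469734975287603245779930367962367298032326996527728788496409481104563545368683553022897325642204487128534390436275619307588241712099594884074141666539036047877156772513654661105922233792910130135835694936455017293519783876050761461130116124962295295961751171331848923097346653753541920581361990746434705544779694954350260289651732369767577888444954736606994434150603165821027679104714179222350329386427063857601232152905244357185797201995107888964910774989525071124870668999046160255745776169899563163522901672023621828223299814971996112067611283180745256986873545980435211482651425193844189235974339767103629911671552376597217664264675381193870095179648459503131349125477021854257679455299799187787754904109746485962844282969496420287945803998006276418855976100076163050446806242072764846940727417361024220707861363359672998016243829956287898501077639282046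07996810462069829348255134459775308706895379679308289055749221558973374354078015094571605869676314240381284400835678459759607338945492179660949775102351773643261464062080907732073103312296356735442491984404941045435363949590375718421972654269408475284452456604969430735902551487530182658607890178471421583611682926492158718022656166716939359598042078023430612529259297193532064350956152037282609290856177182645138373386252833269208941238284866606180450527508204028236751224722183237507322249950772961312303847911332405326085506432431036045344782749093073964940774632449404221276449105364741885658718059950090015860919548901432520611452295466199583424032808272127698099146604096133556736117048503401204152968010758768952755884530007955502521148687952656309998019094360601787767833681104971626424975079342130239587191036243607587215551416379838540085834800827824476759443060988731104314564822070819331391083197443708172268486121610035276157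51338698062737077551615471776752386503113492006855055583064513840282600999835494882340525855514011431861719946069164219498533908646160632019556717390844150089509823998341955662222121932433818556579748041959628939289543362265428272506211791880940211940291296104581381416064167517571923009501996258234208552879051277604736881670361530751218640762369822873686277408641138514224884903821168883551534576737775848185657609610399780387200767382951666795323658789570528167567693079744682965023779065365273844706946017895306999913214294011914291307780910247335762336499248659743403851890447873636818514367948756346515055665592526861937721259086955304097169012878979726924181841507209531885227193994636438738395185153237134739541915671591289804796856074551388424998256160996939113014825745488180003282568396320854353792137443021767945548091990470324240422840345518393275083965399610131382059293596537335204930351341055756429711576577327200316226214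88357497211209496159835861174276661867442249827343833441813411265643973335448024418776287022332817019518535741455710716713273297989574286518505091239698743914340307323602057660866008836961507832064226968979274400306211762976040310278544977197324229524929219123129201844829062035554425524886827705144005830997578231336459586832251814560068740388647627058133945433404558711059493469343154744265187866122741493470760463632902972888812819916448989366924802853465655682024702957123479670544697138916274683378771647413058215687164993109737217631402634547934269676231953183439585398938537574170185712941168443155185237656030342784872312058702799484164581693071631465484100167147136525395439257444893007398433805851680248101294146695060913492141145784445064533314356375745389355051646575091370425719753962388226473297141268757904755419806631444557872100418166744933837681946840483952494945807225350781755896773902953325319359061735624247631569599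28251599329160494348897789145107398071950122952498945292248497115552591783161145509279779298335279421859475120715353923097789988312266655518941188040098456273519600771348249744593130133870355155355608829592580417877390465651500349660761594932128035399220095570435459343589751886561808220542126440119106965944213206713503632328347584131811516754035047360219573341084298796316756049738795423409708900844726605083225908495251123246024162594775015419716582882976382679250383505011182768465557564084085370520542391391460570658309159235288092349208045594315215089276948714966660597103595947461360677719007969822593339625614974483649157845301996728100637574187165004595041829526529115545155511702203515458868625030888605998934626613089651106819746953755387802527292006577425143088307709066226596289262440814873076537781919907286674092190451417540708090082689762321751079796398415790212448988451008765906429358449336086901995061312531890071722265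91394437157752362562123623564018284892227400184109426712758403918951481322475730266553223480216346347141810879329472207590952724629097550905235875962008250104248515074282589662825001013535265094289903292414352947607177022320084578425999231480958940434380075000534073262173452600279917417630398004719291972610979669732254443045872371831572491541108131301470126484793775337274051166864270323345622270669587328659699010456691692501673553649013269888916126233945778067927960434122589703995752013472391967322560727777183745418237189225378556171689953659565295358850497124279172978881738474607827016975735466242659861795857842259560616958367058856464002850955229447741157538103259825226002521945156077591505332309470607152735466749617554696703312858635182840802313584812903218601287329536079415537511880305164685514021391892717980561964176665965425963260995031190586876311179790751818031174085406199498097031127666245304667586354817978877913231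73944078822754565399778776631390067261824346932535726208817489050800059665176560040934744758229502254728542210396720443836043375712421498004362346418873658475417436435509356440178752099246940042817042930063544261842098758888438173876814129931218637293985183357398310476256545123363345899725212628752102564973096267712963825119472719803591337069845115724282876410638053477891725984412248886967668825596426203873489105932459872773923913796952976524920239220042597761439813312624772833677467830699602648083871162241178531578983773516892795959952008937208756101853211866529805818418420912068583874870536435830259196702125452562523848516141111713427595408796025714999833253011601400480044527682196610449968260508342809216545630225671363978737615027903667299648532714772063815557170900063234640854853814692821829121541496963160824217641170789039590469829111530204723434955122373151440416952438491884181620880045962554176212717154430070468255319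49960976723423024210292515173136222348522921701662140197867972009258802758890436881104695191661636862543123408364254619922730432489828924286207566278033633543903454362581722795730273863517191659056008499979575163864119249587735571616890873101062021704945280145668239653872772450401157476025062843744584409476522842248442930062028045258993728714874166024912015459591646847635205882141494055733536880680456116082021013741319462318842650281804888487799179056631477984953536479100372350691412904037611413056106795650347611798688390469145589295136920756325782382232073557518495129511486605487060749795773002075706888087493526411678709986359489086150105706783011849121707126592414891133009668214382121924927779575446915077009128195797230057656210040479075174782641129285453746620060870430069306071362552079635197045170576928272256766430092682973150364479452862666627995914014572735308159750875494622357624401762069190715478707827475194908598779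85673570080557111643034332184616473010481160737032677321612788292543988172421624427333154769296194078296969271343686802706374020537679550704738708756940093347133165481455459141085689886511536993088647940932531338972635893839199388972116824839938676277258927659578790999952292220687742579411441746793977970683772842940985483603088816072659984188858681689846933905905274344354201544653399446587141004984302997616174569037102179233152941448215603707175448074916391366537157075676498597680266695818435525459314179810462796134415555627983502937649568541766878671147976801481917660077366588945611184973441699009080473021564396341860026706373341063135936440521779208987770461923088462374189042548590144544699860797815178540493683453279692403247960878135722319936868416483969253729718065111142926901025428697449431651794258332996719378606781019412710083549942825217067382385520180039376468451453562685401933639194482807947248745447378496827355746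59846362102259194438810089657912604401238394714228168863605593835757257850520232672562857749105407851026774977470770334666002530241750704952700889180053293696443088228311758150004746180896456356522331867785740615995313421751992840961947468902858747699902378957467733930157294382038656130417571679651092427931095338858425550212560546135670683554401676659144911898446664668500422957659217911317082050109211723856341889170944269262566376755243864642061571487029029139819802395091707388215272582136652877606692800063056514172619222510155718406236502970846189975657677931202725631606505212047861219259513120463797985230528169810586574671354822051251964067900201020367539381660621484506654184690533761870959347595111952619467356452079274828904784959106177322541187585212785097726080502531005739418036634101002924387648465461345415866106782817481717802875201781496278851011841399518614232472238849865951736912756793035434351709888476759219519555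23483621818552144718710928151308119887438453008888533520738135651004133941435713258295081650400071930520031311279156606314342250904117185423080401307796374038206526547750970647167997348806360742529936874099613055375694834239718243632601414851211325219212099311873746230037266802027983892933734479184418969557817917030028674777722227985701786668077356781674500041179775214522720863925400782585653286832913673340474914152321172945448285025661383022332460945356861164603901991852146652913149594439722908379606643990774897608319966612390891595472788834772457276479909076733553324210921161972909352761948295345907001261877690529697455257114907695662227782156383445385421150468571668793294056369019414697921978348288548576437076246952968392669023049984154119923719633674257102515231855791972743035946208238539839789606883451455165868556965758043878540985143533988146554648011033264072017359206449415652067780956485251087882790800362081012459080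33538615670427977796695325034295658282303632707465056811455717377004939509595302368811183471023398111265297358292582087949230703383642364382343971311841475329524740382217827531072448383925154375453080321610730898619898210536295438311194038159144668772692678885135445041263646264629321679831355043819576926741574671275375039023709138117201989942895101552272396952359524936941000187749832029748866829788720551156620709067329872949481402005854809039672268162630185426444984896614160120231940776517840545721280043276858221792177306503070324468450817726842882684738769093601880259776220653374206843248396148343247548058498856312675786811549665977808627564662867231310343804673121188374572713258328465088440898920489094016836539183802579581407956206833197657223370411176598709854832679151783734954671712478823244244943777601895454199714855794932569643270745347699208230366941060127837563186466982627859810120833886820516576983939347910589226848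6764235171972994221621958642296369741619297469221880839561270945488238100047868214481590715109194831833570412553973668767011487400489177818281838151712412323670020251146137569847864863495350214740667282339394589173857179352526586351725079996953128713153206797621144449774667941092908533935862854388658293148333888393194460262916845506940338027484216621449715175255840908703757575283160093160737128071768767525206180374436595090892068379767932972854092121466015573069435554645290778288775218397554898013681644607840293640693257846642084394985640755056242348624183296)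

noncomputable def rc6 : Nat := (nat_lit 17341604165891187974395530424475092690653351043892166018197011600802458100840257247532829405462791338027131462119722879900677084556725247284947783075372270870800505853956629151686868515478228021329637777490140895803243781271426487150892409756491906739861685259301405901623478935967745053639918091215555786379461136424997117147229997846124519295382125637868040294202527777514669831483347162487501837053351740280373768686518899786411299725753242178002243888203119381914910703702124816032375883651131042450116832464450838319670910333678386507158102624655869595923666076873241349622237217342051217763681111612847615650531965967134601242563789226991506010131366931540761647037221450615115967264568817706994160132369362179791375798123248642341858695467678987358710074142923965741900086380760380238251868220718484264996523345493986113917245791156711255128210503443047315903726062178158889498639117057818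18835241882658207637992153070020854785881896531303444503522345571244223057383469323887298354512004922819905853238448944198992703704427226624181874914217428314881073612323323530464099179416198416997216594363278548890559495709141586426219788488139865644652550054117617672559535320607356643084842273740402905938469154417374632658352565306649143190826000352330461522664958629074696578197255008043630038280529509306755990551470167954431257175607123161665750420057181750516341365362993273797325068576492208495569208995000143236317370981942490528921631873854210351757631121062213024649405750681174887491417198051418633594426180785925582393070842581523250549134615108495192406833988865086723634214040994946382035754620071051046945659660279252587439338338218545685798931708759231619474026174219012640632116177792709400095125580582964703939649268579043001654207126047219659018680956011552915533067729212063724375551562384886062339589657269731759713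24339473242268329353844692761983927150294484732070789084970448399604578384798861681192037795002028547343438747255880337033105863832806844782368925112589047608125804728841504876305747952800053671693262099097422954376616904481445627493206765441533810136398172573052725652967821016341988247511094477384563303432895708185166393193184571911354918328641035298918897062554240948784280648966044949514539842099628998713594290594747535838041009355232437929049623289264741164328577366763148047465287031891579623398309841229576566438182991856413104450107241089644190593089535135907580557719516224198333605590484308830042610421601577040876635775152844894996323576763418176792156303796416310649317673021419717370671096116157429303411502525633408638444605584501885176894713025911484559513197150661318244508621285507119244120810211218000518366753629952905122303361642024978581222854959709438755759756619678673305869885566371247588601925936826520391535031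33123155823111033018087721416310799127274225038611957270879974239559321518500922040143808447856953784510721036208367707127529270556813275764445698844973710364505732595081795129460937846311491455758025651996378257689714487897707863299328298582916083559423314071172876782301481778139760546153034247344867857921638008204875130234413085865111113183939030966420420127429399486124320871919629550689801786070499798249621665821968482842996558553866536398981042215528942051943967108950893986544843266334666550928474379202307245664986701407440445748085679721219454312079641538850876061294630367280410801979642063149018501831080634151276910146815172933791439945354763148359930365437465460069892328976484203664463916905603287245277899993567990014581109425773142907010975368650772248747186779007831729519003572338290621887594014996431802686490956892866613237660820503814903925639860339264737550501115543203266154847498268753166535644559037454533854287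24930715545986628806952553684484737200859472710337128985900673222352155613254113481747533443640189499101292418155767988855237645393743650901343710901351879857430252095357229709651490684745059625546706226895674143575435435511578734277051076584784939642786802521277714020964152031002685504486389632647832390912893912965621805368200433216004013288986260229416955378727014416903261803639618213530428665748254437575752183728227539399243396896013727894733785371638555400190090439564778584823349213015669932752407593371278290196828238051881695314398887504193988146322359896542957876041419955887162655190073186431330425152589131561806922106760035992167433785103605052173248427927416949099775052382244211087154232484450884536364782133583310713937816901372189156936224680918688249585411616591719077429454009584252520167819461297560686741015105101771229356280172991384508100241905845937747751600138031432803227346099840377630718283072628384847404106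84906609567772429392672576299790285020020239249788801515307719377572614662925324862755027933610861905717171700630929931707805475530738318247164602179651532559999045288345512779465001443414902614283500416641859925660870236900844026635658062076588097730827196090398317140954682174853487708046392974275230871410349218214158002009121895338300589707091071114649980155375851673138335463933369370008129353070362523719043444923842032659939726341061891914962871483152126319058765530622610753981220365769493339834024175529045646920343607973580855545648326018820249083650108674999358638373298266546133964005142752762029203920914577527879693264848355762826567572888336199368969177596617107025002824643135314145843588253759861645549460635610452391106377570732017563112210037692092979339559033171954897294004861396457475016226121515013463714763016742934016506939133505761034907584622896827796675955737857464768744741556696831337007924208388833747219566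95926755933584647983806883346064811584868439593335225576097647386226134694554723225923101003220006816392240102124410415417340908675571144724049635165344425066164679534881747314175407528597462491424259861753972891452078982709215727031954383987710333975922127912809792901221851972238332565197503261478646117152868684992927345657247079473798769385615599101247253934538394589931240947565446819998416719119365787351520382683497559237725240740299666657805185934864304556610164592250818772067845796152952884068401621991782600881580675343155938994139002072492184715634642430032010754728392064617412580838409009190081084956211311290744526878943285510928339614880488059758803261526888652036276704104182540945299114644676785620082620131585071826873360854901925206959042113884585725178282392202215282896194920925342529787745038370390215100484000935363944775757202580241777598927117835620138721410375928477643674068200625223475930919877842249054736660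74334805953087453840401681978618146174680020759889761371063073016968768834129757559167803795064038746841699426375583162087332535463629564636163688231188011895613149490398971498930480814675275370425872346613180343973876049853534663350508488224264624542383545547181716150716559082445571507849929754955417832295784229965940372035231476432133958794650311798982268009237094749442059896051418286158515952561698732992215714542817233543181229568186107986932078640245972092618868159101967139116996270819503618551673026355687708989243786646066220797861991033452993843513879458610391859942008745675892530380667789469538387601521532791777997695589014950326153331721919740508998161822834418826623701635974660664865110200797694870921378494314599640312533046296561370842193938615416429387620770874375854686596368927685927082812212188862037913270465015800706673021731305883443762513982064980185684043838000214923112484987600942531840976059506331968922553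63233287123124069921808339373681947186042371798403723108312169353557702574268188045327168567775894309586050375100957926149851001415699418387231498545700581865859870693510501342985578901696302472973602543948430235869376532121151795643222071499995810082619691246589088745502469352323218158655292005913835803631256516469375015723011677546720012288557785550417013511101263756873835098195689114369840907937577293010325269677519905759127836919665480473617413590527839962394090810072618680620359873646023250763825407227510635601277906763742281356336018956405201247138521423601387528849262230191772907383518496975516919315738504655150352414787351888375934266671557903258221790421935740817089863831794763609118634521894224295994459570909001793838261812502549463210781198266517587039177860666923504042611610382738579493122135328471348565309163271335503738556683782066613711102063175721176491993545538821792942615973963503167611768991254661079463862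85057597853373486207131658398549500337150900070420020352456884341157429721647456227545410312391944331843375639762529618948400454131348851300955341822036730389179067091393127031932731321077752502358360284752677736120698904649268877793380999136961840803060892303955025581114506025025842810086057971184820159152750017550720631799992913727026090713695768390759270598015365376163169821031361238338110227007496870458244100912699082437100317669348659320078580657924115863230669026154800329283169623475606793238830334780929673178345789539368211068792063014363917447203340647121641294925998425794352069539816960812681014168366459786797220758702566118200327026947661433281456442839207661778484591976830578052312103523811848672583388198240008867119611596359917532298408649876858839044196634708457918989451626246752521201837246842986264787055680905326958077544166137819124962846907107225663975649602409019516019609210435947790038054422713977693514543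11236348604707696205626939088179678858135758422364865441135035162858367473449833616926583649406437158945253302892776527876848432666275182891615390724408873359881671582145388372967172757156755295794811596916487554953084231369853202075731667821935601169524738881053212367078363733134488322010304166691156154316449914723710621398093440770502965950595348748188223173838247397323628475478890416546973451094090772347456434298633744570557001474532063336907285861429084328182581053181237220408124226548349986016699193660819491632283753687057926859456222878399469226496763580296504631850481655449058000019776889471876020131270010548614252893014971166835462177760198414373690730063604946997312239404632695903296253166289453501046181155723854219957769572661799900081088600165371317580424075638213712003118945172923692904332660232368752452587087062755694909462937611879568797954795757790941183146980590821223030138909029692839231584082251132992198277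52116077096659774077449887866618737643373355864216851549889846492238292283311866796614786173770087794447402494066465876308501832669593246317434483387898935786609115083400427706750641291161944935947312609905484349726148794243971018053036772502124142894299539341951965841533410119632165238300092281055249749901605503259035610550507909265163493750225059394447303466315982638165784915545799993308510382814126815637580115777184449141258916874872388142769476117955794867397556117855604016257237339538915977577216840846856792954004343136377414700116499021221547089752681804326403409960408053075210612316672454280043879563151818591362342674850219094420124820351448063544502091343283221484808526768657293527023649467891781979899419895920088891155981904325378573980277796203999755203580206826356526114583204993080481886914876164182995444016033655939961811037942198344284470641751692588012367789767808033115457846666549880527817682156067544823266416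42478652608693386573233956095091339799230563025183779685873154258991797007511647723544940611737497352097877506716894796093478750015558264715601722711812507754167782532597776047096868241102184212438667455193504606473082007162861406075602292193727772841844970072320956916517315028010676226646457655527232555957889907875972797332636331541727472644395814961662982834090611714521438257822061351814494377156927427049748472550433565349299999627381976193754028123639079002216672905072191552808637923910718595050181840761630282428063790062620045406597265301790892524232733540429208124978719465284213413683896426244570542779345995481683948023963342082186901966778014642506830641096264311593503071722541701692473553742879326280402919296526015764104117916926029146731372856006264153164372430599307029270141510167418088425505764448183596807759596737215414970032989434296998149939223231437700513368644930248236969500610972261820509193718072814240166696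68246275135522257507949766158902388170314881231872690853782148979764348637276562808853938029125095836075824622672747410935490816822702388646470844521540432155940503002103386029346051261579330980506831577354544054701070302043056853093964893124030386937764744413185799722499851524085169598689073586871907647501736897255984518871563273877221771310379424600947627073915651994165052720034963244891768200815656045741576855985015874738243503878995694676372686659114683911832360128241232389432804345661404785590840876145872768528535391132406508012436515186103778636830387187813309345789567358475288158765271505455147234510642039988694638573544937171656789680739997276701656266703970056068002582117890642624697211784606316603466291328418256277489334107377445147202983365845283744154129460552262276494469172457083712598403333531842579630468828111539149535988700269837347945172978956726415282405974622128290378849726265197825845103355444289929867476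28546114971411398116432346179253933915250122941018190855420141825138421055309003592177505199309523967071489694587407725328545229123021201016207409630586570203273879052625734192221395917340591717658309670338151300637905883384119998147892853652508581159725183992128234416641871999168863891605165978805622284351949511638195028824789838905455233999455385880806983894571868594835271843760453065389932320982866268721515717318261340474506650866842531608086018332201778155293000824110757528017336029083544189987043512677447230639750308074369273658802123591361288067933516177384129163913777754547309146222865777577701183578618096468260047593329447263416867137328443665267802080809601395459683423111702699455781196271349088210904376593059475761322022867754854363538486990903899718509649788435459961607371274376520145835555017597443115897809753836306574022600360300188069325036555476618634027270036825753039276091607255490369654037886896151775756071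30198084176207481178568854680606946523319071251879467455152349679032568843713716131295717570022793809741556442419397935648512409451484296933950957587109812313329393525480288380622233912420553846543485859462931551501475026616412177326904989021126627511040530804548920978340751357218234129564857682249050950585291638502857114706276627502149372757646592631496102031520740212726382989164539307654821990860793896536709057052795403162028824474597455600835390467124489636968799452819668834357531156714664374732365301109057648180096047641709354896501632052213199737150401263776615679386425924088596947319622232914798196727179223665384136645881345928657874081448928537161598224763398729939317756492018228601470375032699491032856349041158860122770581094907207185211302117347400607873059857076022247248838159011103537113294089996324548601396700085031368620292436395637536828827360366264655666780619528205011270392610404249450509058244024936931641761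28321033901841988511386847464643241421671237272373589542066332521668039002460401011918125525423816363616777866375949585124429966418760002939518900165329963888126324678358458301294234807274297373311235845982105795307806229606467860128442279543726403397814461451255798151707136524621777917995987798002203524037311911226767881740430067639522171351087507181897152882838044024808819723437294352504426418341014272775459595720344268685934886377544798631726384777136151809843150069392251343938586755486916657671174628197947690939880113954920245768417581946773359181402353098053713827062879614942145734668731171025487334667812984183444436141799064156617422870982259371321531032400696495529398339086373716456720064380406045099808508266687615823572490173169500039844586190623571061420112486850922685088536512910272541250755820295866447363034093589428384150577033279593300048735399958801194932182903537034357784053510936843224363298109023997472472469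3197176235759359536643154104797753422571292944735161516402211188658538560850585647509503516554753029731875994390141522890286071591928332925265276701353663535092659193198486418169975595070453394173289266520891408017043605968508141219979478530001321556907871208463141254578765026458824609110998701031684349162848955465463050271443210602022828686685963777955582107059202936880698662587814971827057277944368598940899999909121944901154507929108905292895827205135766897196537169275452343057405048022086943441788005576381614631243360352372988232011468765927936594792153088)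

noncomputable def rc7 : Nat := (nat_lit 17434551694434953957698495567326630693917268013079448142382787129424522751831225753304572784469095562579467714774627057582427743023565900556783232769686040221605429971056301324191224376837536742225532671845471643888388820941837877407975838157678658441393801356977157266338760726487407753889004430863520038976015956112305214344324659481801845098709507928587668748378278322671232945259803658555441606186032376790207538825672743190329000621029358077117996664207805304435224863624433096259199730144631116334310870944326931373138673802528553278098293344231650864824728182313868550203811003697759350489467144537292927323788988933733887167341330506391665520206015850796561163697229312753164445047304180501589582933956158716502523147418349286392732683611444382927908574107593883445362154608952482318753944984077134762801106274376957880180778109919046435863268688193073573844099351451031839192206436323071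34738764765797154723175671501754670466315680477563742990992117359136173498554541849818929528135778989850703084146020760429366261068112499466461605661942660383569260118898578270745096590175363501944209403002796173078236800730071598980570299125987455394014805736220412972831000272896900680372537120632450749087321513182987979903883780050156412846018441471723024838100120923457351666421308857003370086717247897789360350532421312551198523040080799946140231522950666801257066380094284525580520718848628463430047728418739233882133503169213661928832113434514629386882160307478541877256720405351320819448061491553744002023831107986082269440841692473411036206297831322973937789856016164335964222038907608177767254995453679646660096850177321056534720793764464589287171783078438702888574982387780529091871984943936790474166242747960034855311589088091276826550429007743503455012696495415535119699059226101899336538842579878256068594965451917079597061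64457750977078637604897141554872264193324283348346848169476076630822460271771451668505556995469694840818436156824646448283515479398581837819927408761826083331698073585784883763988768346658432978090641464294764041191112354918972024374915077336141928036441695799381895924533093756579832691210666407197336728541004776493187816862282859828508495717059842440371739022401135040081250811676771371941048629285538386555126983168990573677514366990977440938008191117252268801747610631898272534397935261842602108916533428845289043593306682382742629216551115093420849612716359557402796112312248621351445218747937524119152920095801642748042520644387273415768995939813069944881036040081023106889511996390920043358442270170220826428640479109956061617256707550599042686798954533070739064027118904059200060167737529121081524761442612184539098588287052831431098816509428663276781832170006485525459613552807235295156203744918582838867772922117361875955415859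04284159303603660943094521042866224280998984998212284334820712908640291151263322212798489971578339232863168689584600708178980377731431527051090980392691653027366482023452403198629659718078214505020500209206822165821395874363836874933378536557846491662717037276018842531611610189929840765957092471246809736263429876864477521750786566786683134031590461291254890509783085347116548149959285111718210033071051206806354951910561802496873179864283154828821173409147841391970703897245997780969703419962311426696068870551827959757730693626452999473466784150444874915881227037993051014961306730016185697886389397998743405744501821208799935334164375129900845703299524429208863032854522548209061745740084541100427204817962562752800837746776089993393104382822122727312320288589275567280199984220490432045992450424577326002980266676975975523431269319771338467232493365491301120199641714459641500139350789887732764143237971629306965992187649876388300562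57683081847537648897305608997850449357321934455518432328872272327684383195775870330464768316453373757241768540521505427843849163222251046107240342179459559246044684697918271921604439551980570078294213963406996339785243682300866638654350742262675040505822729734279579424654183204939320307003561606349997732183508184696672220806642063043091109086209342983803173931857280091261320793063424842312212878929965556042017085822370257841646904720120035797463529015759732641964109430676237357989783756141793479366113980996519527904601753344769773148221203994128620078670112743324108051147208539963806839064168773344808231531319021490055708896429542169699779175377665450598068246984688048144072514413430139617575183297702121173190894348158218100799402242195067689217818762006800876931574668043202556037543434553789517384549514517898060489819539229052799503222574568896112825715713748074062126349557386845212600220504009130934971882724933976817622814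78412681977799443744138327697706306892631181949351373178792417222690570318547003267208173554974311584852487918857959172508970944381306004378994475187961996735212231941195282624782386081489361589093198547015727455850128247466372774497931135384321801894929492774583993271632945530856680361995050792602075771446162374689477459355644582186576426103525274231113097079761048586115723283202764445252768512918496939932397781090291597736353420459823225893107686101565559172932630405792267333672347727049599850689098650218955703156163373529595746202174896441357749533565600074357976752832463884499225106540180471448972533764441548605701280615432944639187966446451844773669504012903194729425682940236385122967179541457418664519255203663490359487557351927741857586703599581964594411438573292638753455949022612261640811098037071237574771338136000103327743395166120254347550763780573155485606239066638589443943421217046867621974842479304777444084073507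83072073252583125231217058904800542389754009018872193926562463299804226653324589054721476698533929010192423959914500897107139283539852906200695819660956605237075814245305794035334547558405142500487243791206026828104241397958590304040260219565178108646021754402745428555909772314768498767978989103760018039963286324203086982972034980106031510337016618153255372929570308956684766821080589888468611351115344728370653701342034393134902662114498734363808307323650287158716910401785807826298322781406134979043583460084187316318429346069230100551874361468706901323817553555434585699066491302213579228839699720138744990948079074431261522105452853658887609714602608118060009968339896440160710452352410145455790943889751614728805430844243589740328376363563130176526465968786843742204091403545015098910033632187905081692398903020700441487810578889107521653888010916411596162114566650000163899001606482256545209975857211506474027527882648972025417554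80058672732285576911379108211399528887551857078303059983601989994711590298363345153162872297503831658651308828939754400741471363628806425724836579614011420253436742514719411727345686386018964742391917658090851721266724139951244973036170816485319246802951445315478996884463167151636868230651501462687856279472466982010781637292565151283343503800892754428299557468655488888046611947527097548178594266211137228596609225222360492924590652548395833504591195631129012563721285770595399403315889503491706069591389468301217208310595653366501322346358148343797249710129891605169184999696476628824501264726351442166164246551408486084620030764369895921595670581546205860913704358747859156710704657178398768109772558071679329093806195071395151828198163996885708940630267856294998626242313582471137742000761518229435371775695879632144957320355589789579935049356837656524984516676480930647883267754657029251563461680730475372996521535062824505936210438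93191673563824743850032959816908496591013901597759729047269456681367814260221436960615741997538452501449186068797369818616780447829949401901150521845361855369557359238736195076841309915816581205315594803921003512714544637555488344238857006958226604544459900093713858140269595976889657808444223483671315928412704999486254714495119082305097778285637224411552778578776836863577318016805866044692616277329259030738532489174980009955669458988692419208889410331268663196311674030110577645638642505774363196704129613700987375345040147199592099619530084274395166143132565520648893638961521250353974831491960859774323412963360612451508271225621416013767867584997739933150181093378386276873284606059911007718748780199630367585163815440170939807319278109536509188566693924221388808228062101562180224512393384751175682680256690648208274415040752126500060765282757178339773897229645613151869302400362630632949581092830700243077394024392223011287353410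16831601889450624344497187180371709435808245614027301295260798842215231048210803247457689324046253267694600872985746807077821354945710945550046697352144265923243792207528308804474121762052849553464617591300622185492530149692040380207355164623402577259768306981224624441403748099728656647013753756560234801030945355294778472452349509838880886601358857204250925307371085690074661591123933219226830355965561966031041419368729320139366576868923015302071974621583027243728348188467559530733033146496673355500162838276206141185717097067279277465945790164166071217488761632137871405498197404107966441014822730762970283909011336584656380755457429935886913732809493300944638931973536771423481545372590886420810614035421982528829508934743731337506968490194908534896899984135477810265453447684732128937925851192072337252724892914971636888274112075167432748673442776837295186726843762872950739676966419925013691223000046822104703581731598231685485832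05256591832182358166373362371420475289968020558292548129236762086522834511433283977841741093400593003019677265392094395164242192583313630364242504237348363734969374763208577868469727021994296331130396030239794441189716786861300524598556530740720106181240077020106269666315366844509895913861510264290068882726029735407977074279394941793053377146652600188085608017688468905332798000520077797354037480294140063668318351168864153011155000302314938361070571696003357982005439553488000406484372699984174147101614634406675884352392979958471113621951605211896094690888478763763738142311197971187156585632879017648543975835284062750081147535207718112494612814254966620027868718481473857212768418784928949171834890253124101697629196687509390620156337584601562192664288249961242930827437359229513076857587086304434662981875439432476775004045249320147256215131041741824801957079319842645740322803041005019621763454206011005864766490234957201149196946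39100529610520089478299324450027322228060025207783646780163262184628230628109071245820784626785183799346035399686291899559340138608519057018123067854862037610517214285263669136794962331645873687545119676777902943634522283852373686107723297399672536786973139529117281349245714231372960914418759841564397225563559343533332798631357245652978401380014090279239266336759747614890603270031187107874105792279797432200411063574036310696309680226012447545522445951091986448171804354173505051428240692843164032558204668975763667597696778209123454803088360019710795326330661959877128085480905325577161847257078928434351673154751318776812935116084530571408028141592508014974885040195135090086765192967778001273639336792131595567122261404138921881820047585257813688881516172056456769175662127544473870900401814239933661564168320629699257799752109843035856503211811340893641957016409825944486376557264333945095437806306337880795691717175659278507369438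92000501262002089914850557702564884648620912315365783321090810345317459142320441647148035876994449319984259935834602647744434269956379330819705557557344284463059558794853302648336217386925098117692080341993261487921462417911888579847173026851407887969598347160447580604366580701208752538521838908220231135550474822526800648670478422789585411360029027803509473546728100260359531758282305990854324078172438804891639536661020274868192738698749610033979495399374423546522144916820958425809518277279933583121344361198522117541495120318096099017011554070252526040084485873044227616953016855030664653890006336908547189445475348807472440855123235893580884398913034049428002229081504106291402051215707733197082295587806186992239873069864082643499354688777627509808410526543030517276022200510341253036324404999014620399914342880306919462964095491870527302746314152002766039739346464383424378905089011436206606034082162756336682722366261721347538604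75791935662901495399825343433871375824543966699288936103927684770169771721962341474800906926381939653048304729169474884996485532438132253105511972059122981021193235770449198514588215500957153397895369825829804778160351289175925004407864447973592228685169502092022621553659540340405196808066696693534128071975640565849667697276887351871805474011187091417372793198690863186169075126193046145853691967642198499717191675641308589986218321304455284594863720054057659341503530109018766755136666701762318004779062794368013496136072731561902614080546848915690466871214214599562007541046484623405275030550456825672542124372904369951560134102305632696416203858898865919575731808000341683008170798182215381891986400432474949549412300440154661809530892018134028871969530817723816114082388910817477987712154172819492945556339106801614668687508679274716843835539506560304391474910318522725301774191311272039395996768894191901989490153892028033278999469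35919554096776845127381101954435736915823688920044442138672746360855014547510513628578470682155695335215010624371622259074567934998159580799384531807853698642962009611979160239189463658685973918978694622251915504464746817797089822691548253849421643613374864458687372497605130143835118290950794582815901657043276989649544581945627270498605466931768291516831590064285153015603084674320217087209884674332383005830072226652803083131874680694245613581860553643683567671416452551345659649458443992623117494645237806331114523861773957285961404532573512776379487719335384339934154037576429219562455564599795418114097436525673420656158813079691881327387442110050143766239572511419522412426497182502596974083350562612540594712047835160460510565185124922466895378141826531605519626532436509695553373999933519510657716164520650356511815140860500159892073311363844308633331816439315406874658273462829332892782186504167008363556293397778263970448572851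46378894316948315648573911705732890166490810589894986470056257293678685536280372452406990721757877251901522299334333070329614571431185235240709155425054163827760019773192377204726347226588890017337709222214326266143854272955303258387914782146067277485051464958590854684044580359808871773614917813042310385751446207640992503306114753293936948785393057146109319996048724995664374903766502552418101106927469869812594059672800891618315885003762964097042902861158083966071008534235863205523506259752778190923362225540333980799327976331820331800996721267644368949154716967899448162389732587864841099789658820295630081508919999417823162572146904237801394414283337460767917396093700193472273837576766013317512059361691421545526703995420151728357280291842878188937491615226009762021306535650241176749766340301961265973978315850095944142112384525226891358626329756161956374276610350757813870881632746732125056704525546173381927732033179226493218977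09344369592910845631160627945231268722713315226821651484464927284345584945618740285958227584290167003234588987925387125342904607249681208590607500518038184583022725045213240515086794454393644383405292207089964783933779836445791624716423553602099785316832465882610853726369863127465767552194427067466311923951515195561245979331809430959103715246637757005129394743022982042718871721860547467578846237435477653592789704062624582667196010169079609566904297110573750338639464707006027757511317717663388343195964442968959925286875736895012450976243785930305767984679830925479998552106123754364035913867848897853334663562047153853855028503994589185625490975549105738958039694083321187311060732676222408335272235535178197118106861272178158340974283383602429324241414432882021572548743687503418592668062948085604924972400249331281801821532603278046867076173733886446712856548324910846378612045525250613794586356457604743648893527865253490832164051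7100868188673399510603561747277928453930228491645187095001263444963539134637660335251596315684472860283657859937543663256366579144362197804758259462027801200460476156941265557362300916353388214423642467741256872970034071917443214207280718305448935042981494371003410312636714315553273792995583159992792935086369513041358443007037040679954487849826296639722623654085474951782293056115178805281852462564256856006172083708727908819244468449487032033048889893137882048185345431850556036708385908476906245013781060472228191742660982737690683709691031337528530247998242816)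

noncomputable def rc8 : Nat := (nat_lit 17525973472542010051085910961375915563394345880945972667396628718655303221824426680007383866996538230969737943482809020831803617308105803330740423605851725152500032495570055589040685757655834735470362524923592050310120368709539991528792991297972201751972236809014637083076899324404951567369031806772915429033109976556869550793498336908453037078961347191240461886706094865177413300590800887378644776605023089936367014949450333721667704321292892531201974149453834588710857851166881368792689875326771420937647789944132146997878000515152148306743815119000932184132692243177541192951700709249860959091717295832989247812901404721942808957351536183431728034087728443843428232909383339315640779643026609820238527868731800687642662782951799581209526001346480928571387900972634350441623705782105288894632390125104923516798195635239759052661748482252985017017050576922348522114883573579641278883165380461598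12343105899024686829307114632294973394241422568673802500487631078066001449469706754720548983939908022828255936060945552429664329178390975533745219718019557002073389880486307650345560493199564869058215711387334774639525108893142361620239813044267711583174133237478424486697449948552911882391193196128977121096149680527642618099795190285660551234613673105846070123388748830866892770565000817224326940006672207072941442098765696475321238252106398892539968371132477123626293674454127644789525504603459810274419998563289568112754282346525816457287022719772030122102573806315978732974709030672938121956255635928150035241239621932407948572328507957617506573835934877892424294371973232952851122258531194072963921761859342671277874716572694226312022165975474139826696231019517153276422037663040056688493217019643856963138644035601190178938776746416141867973251764037940053750472347522607850403437106474464543945605188474812385248389867441450304597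82201816411954416254094375430105028051884568222152592506761634145909804713528678266450255448383115996173313972892312927049318560018662507793691801039355760111024072714727679748862811674746487723863817001089319872964617057081080655135472809243772444046634149452368556695667702167995819751127498989186089625509920219884075688657454535117407721408317841815626803869425283434509116438586475753477578014201017128719806718604568308484253853070208574660743334794931753046673308727502537392619796603334994575409385180620011189786572773068196207733521895347420909504633635929336338616929278288834325833456586540990566274299873221772321352049433128533620897472373716275631458914615770823230115790792561014448894828167007891845540002812618647988376594189251157595720648129387993868493143358853831509438218943403136899963569187871306148612347733156061417634868930485833960160789121306518047980273898268160388000287388676091413646381509789927731318257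51900657534823852388340895532671072987861010332382034204459349745859931678833399044742973351435777565446529394428474681860400709856948920593480396003309933986497697930715967250144100783075576557774003425937571572551217059226009773476899826612809248086146635471665727349546146441513448858753975349874425944641299752160412298443846403024953857159108075974513490255052105440890750434692016541765721589470765372487203414098128511529722688218344877357552789643278107937444864165460581406468790751250824653090081510408798514148425020862255159104488161220487481599488955707801130179947435698462830775455915228638141626564003934752880136294883338503602176076376754544517515632292554516995101802337302576217054321296022354161709767500334438499243452653714216494200595755016479624241697802829042484595513388995603476030201198981197808906076689286566354068269830501466459643369705590781218307387786296158151200024069215968014527230309285464839294249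04590388429449311650347723233987637765032563474708942652015841565677262666115610785089963702286195666661711441098747275886564489568376289680079110981733270526323333829645491460041637401846055218091040116118410159637351481387295249169444873547692139127616613580346220846690516689661670683627786074240072223797269209787024181455372181859136907384998706675187543374256691179783953748628379138656357066894222479890132798036021381918703515038134605230454995924511140225688276256266424598663381108905102981708024882584680201592002549676708285011669041979714378411237862917011841768488113838776092501321602362930827773212478697934209797738311766612935721280002205262627369306692971325725700448888378679172907824121452298222923995018367029606245134360860765844987301166260464211506119454334937530708977796120475157255639683262926211779983036194264500815841897006351326697507645467501929877469307621620188200904313443221888420772566834117521460963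38491951651801052795879818421809379024732908516874839582884229422377706126184491786856232809706438958893853041488238657079178977858156443371939989771090830042187126598746957476024127250911774878650718483228557780744495527175137412506328270979797524537484658786127729946322024349574116127668169287311120668617644852892477810048685872946349281753077158430665114817972731881916319055054224865948689237429855248761958708001987115345546554477926002895455053798293010118562259072607661530240109299307613176204526402488155883022978403568298090424566765537912961612266494712090599337757677990796740731032336949971515820697670802469879224286341258788866631741135125024240116298651466042242991151372509747206876053731852742574997278833581977662431759300928654776055482714649818471849989340148175166743342039126441591044740691069204088988185332993285819074999033816518644009201638604053703694043816829589577683570562972530856255218675799194431653935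85498715104701527941836215794167251644963267074399889860904627494718110037431782656997550240949863790299984645046764968048493682196142867821159188806217444410967986898797396309997624190659817888604023867655362938248045851441698490872947251578132003520276250816985614715234193401847878607771569728929317528499737100404981966860661059374137088892389897383991517807474727733399998170879104627683390601485694077100775920846889196703669570048428488366572962762191656594886081349321483540189390655212224391755124690705725763361621809066715503549372575106002063643326163981124242517441009927748006054993200160041461786612420735974103239779109761175682010295043609599275258573225456347032158660962518431282517046140712281886398490673923399963137216966643557603860817702112031507079373912957761339219365277793500452423538340229256469545938675918083438698947982608530348752575607668904692198137269610592996162241244327407389614396417791489513942489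71438854340056184262625348464566705978180654877330393633561553167698246272010538715662568566539850981473170283017251571591493410270867232565578319990878168174352185601338244850228739349648817708263290151181177892170865373882800796628293538476516417272528576795857937266332107053455221947632366773373434677615869701145866126767204919941688983233791313242818678531014184294178631790217539826816222660788408114003789663056022041587817451157652526685680920683790880592741463044980272758784462457866218906139916467688502061042630326006385542489508461533603656284152504422348765578295080087086488930091253042490731301227256089465413595434862338484609794993460359578763014095188337495311935097518986240274675454037396355529071292681534620327606617786305691332055112794623719370455571861413054719912454411846764212369223099974731210538364342345588954455998262067837918344056609813799221005420325276008783623374926500759582272267498151120976669382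19083425519704017982908187265212808706532861160542645520473190668808493061431157724388539730447626979687753454423281546054719500132847364601289768719531007000774904302216512366930678479335897032194744942477284800692260142148726902450029169674540812460635428474261773595384763650241021255988140398116229408800253493592634535264529451805278711500825571983131214702137269641454541351755909936705159859498897971134355687494832778465003650017959521274147964738752803120322268118208174585595845286244414481767287600482092029532282514355825228645093524859309264538306169732072943212564575630373103179801420165330806774071741181269002388902449785818048596700707308867478279662858666270077601058494468003919899164019017733413877805893254565179407773408118041366912175297716292747370166144580145664872685296505117188276165901313835600998975792698931491448163572031554124966007678392770911379232362171518253985249154842811733319435233136151950426226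93055307642780748594319720143837513746426224412301335045447482941203577516843713631451532074675344368640348035613422767135105053706522772548572420210133598461329773678728935039144596495178186370229943457377914312002141488436567977413167306714086891815109901100227345718407963245819878958613999305941699136243715341990058224056780066402769361765685529297776038576803214375530333102995417757439332222890013029771807491062669292825476573823130214257745988704864964249175004333808673661213190567790227874613600212938741264821070282232352275203860144455150744150932097239699052071578984815561347592716162646436211366625359941983320534198053351913531743131655512676743776285325751871055115152700056627147702795398577861203837541596218778920664937078043512721963651303885721379059297929745510549859235842079533109675238746408344183010252770516620128898038835179839270652550959653669180650856811196179989794830885505332635810190958261762635238419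78399150594052626630993003223819455121193378746122960600009548064692928048084414480036553835271616454822531744058623996810310472586319711379119779696822073825897269315590694550631142559883098176932393809608111185277221158599431858678849190276125993586050452373253224678924824482913041182450878015838544875718553395152235258751993336583149382457839122291244469272434388113532518883231460004568481359137718415852431342914892684730975146201158245893015250651772691710669088688890744163465787555915439115784136647874876811213658291155486522860482282837425305762195251940393686870454465179060656955845134711947141518277722772493157027809904810230742074580651567983952522913572944208931675382026572999639878760800130845413048843421871409592398740532965489185221540822186000546271180027912177858032746262920263167390004428427417799595418578822813814514021285003880267575631249769265679690044878481667199838778888695441090954922093078016804923649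55114813682467075245735688260219307497739444217443995824198837536206715594305536500914639743654894816625661870517789373983946685046792426438593307585083725221193252068647154643581387010119240109339367836452019456283797144976078194150594507250135431691663901278263302861420348252195464474361851897145315808718556022488345613828079292660615999197847881542059276409556057282659510223433646840890956136154511350632373083478409302446034837715795166998057150888963610288626330940868858470170598261624130823883239988250191996096184078431314112146621516049294694945013261956688001481334578785107853476455787894947778675923807058817956051288543488532867117636350389092370690851842218507122988628619063242833675836401675490741321776379320065789023004156463206149840654060300283006149676739501579357175569300154043831449389403000886087414460651447349701038310292003220763613219271631310897714248871780301176235218477315117872222621912416788308726637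15402731416383631596186233612978598713895040033112980036509130035161009513210533958362360968156309428494527253489039987674118777693084600093747407302015058333403544401930102739366591709960810942436789472681430791640220713963431096784490994880840585024478538138405862853626979251167151203872206438339588635478477510840115004816402253055589872333608200388449536614368890717956673875745488813041528689321850553291006904551050850867017044066360404916894644753337493111607755033271946351792855228033038359154347289194356808688010829026416979579122946858600861730627470383617926139376795887332227255258883688129987440235172349394901901727754757053290712531053884991440501547336523685762071585618494007301243457378355628793839983431321170620658704604762927688662650793240067620738891750606082692395161063572795993906377998837878155754241112159871738317078880566041484092322665755502035919458107348927405585890437612098531872869806100979612992357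67119228591908364266201667776392331650562629078272409432353376196502667218103520650056774577996260603929611945512411096535904603139217987756994493015278108293523743068203104194821174531241078250419779449958557268715003498639901373431450258293040658057769488353413640211601149017250914568925937903166095725496976296656371844013886720011354625293545284837982422854928998744407249357616263322321365613844242733274830834762645915761147995436595002599956666901343624713918694940090047799379214709454452279754343463873072433562432439722051171320877902639694364766581410512009614026709453240470728813033135934910482919487098065661868677676998214158943548002557505763676251108102772250349505653952829103858163533265055418385279116724320045412169938673216886435394132464299660418109535036183980655361768346377916378948843841980173538809975692863184876908045542907902268678237521559283906667381915897947871951547662438073084205877972107520149734536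92157372682860154175734617784573941023137898968535102915583499514519290225656424286672904762490973818797246676912975027159064512821806999010990221842422542400939555066753301050827570359206983947166823688622397790078863226084838559492589607295144079698163055160487845557569854173603621434229172795719345416651256522704413090331950558302493450807828712161991107177337837540245013300986237801790064438187590172703487749472647456034404879449951979763387909366491431365226403717518520590853607426656437380037450483773153769813671367536142280943065130639285768459546734673479245891353794111631227885888982352126252494542961046287465311629348830599820062171657130617750141697421020815436076452651988613703010202291713009195331484414885965517777992758255319608546226623237791872274969517958794424311765849323411194668641887137359941783522016326117659132302008633694004786067149990309048175136377594765064798732646292689928196293498938643495273082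85293509943895195923086659656842235393750494385582782431208082645324677738575475447771722311208979586157332883138562417056922716058099616577721317802057372482615516653407066098362637259036885351144729646187984410600238269678036297221934269703774398638868781125756087872912547035259505572041405061775923959241449698939071497442809554108749909713194402722547693714134865896846083156155405818774826585062916752380640929300101781782503120217735019414311307226077184571938521089559308411329254489990182356610900082462744712364017561242401716880013170419988982709902243617710493459896175583012526208959135714173034730431225434261667667894720005167435691804781744725096156832714779525991317476793705835327404120638411896476983585191387826255993310069582458524708884789082408566545040558837286913595817926830528003255817695247724654056447552436202522629140622156585710355558098743634592177558201817107787780112499186899522275867708091767107349732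36688090667432295044114666649193096436446625473525067307184017060544057925391368943513671739404627552344689988613552808491513486642674941775293063351890122296662978261138309932839963887334993574097807402485297841286418145470113712236108067325575036919390243756082590567053844822741717062404214051173098997593824502996105884534228604563498315230175422207479396264083298080155867739141281213574066109739732306335906745467628690809481024535164719945729682643106998572277234324997597638647722922336228762565569236596680449734520016157657173477644596125559188756344220251143095318436011028675605129020032040510984042341723743155254796127476316627230532001312526591108471771334538105437427718855998395635437917694154784547073710319087601922109017162074139079892167376574628141880041952033502200310623834886541918999087922758729124141459197851846087774190960232267793838304086104838104861677148333197616738810445173509179379486066916662434050712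0469485329573649334401968216030621925930096251365115156838345378955975940945737179429978398862425145028854060917456566299014549240024351361615941473745128926158637032844821670500548622331456121209184203931368150112607066181013481477394082826851241102844028530511134646022694760561442271280772289824662789252574772615015813920813522400150924733842984597849199131018015200017210890350707558947607980294603763791323755281989348302516616223764206416292533525098315683395267540391922667346501545849891715861703651219309839470722001262891618768317882581695262327524294656)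

noncomputable def rc9 : Nat := (nat_lit 17615849309049456395839303646149822701338550210954020666728319852505350089843382605815304981305662138863090881260281950288932695679286954190143737323133974550246174289688697456977969803021119696800397530914890717865682893705329021999212489973151622131597412562949436918835922168256883450728579398048425627398598119969962473994861619334070312336301632321018211072297498824884472157516630308431343421508481124828594225635889933079218923654797757360870675028287312550569354587978998003913249651276540270317813107931214417350766966895500153147633767119225868410056003960297945653384002378951478270688197818830882197368891098589829239022227875423762910431438770259459981201457923494399997727793015845915139266901715001227583371148880437407942369680961176490333817681604091782498689085108763847084105684495029172505836746597870618159368137508233961750513102019906850096591930769333127554401794456191314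14549322673285421765157807448981405183184685694702915444630750315957685959862331746062575600028967159754634124682214735968867659380754568479990234761551536097477216820644329293753897128748876143956585135138217052848670720555357375692167066776963087575270585306961382306954597895918443487788497958569379263263831619924855376888470595361278360004463811473694184348048115444132979704487345135354291153565574987569379275858512725375176233851762845938599569138074286634246911342706285523935671097918760647364813660915460813571546213428033692048069227277757674653507308813291865552050376123004051158125884712903286244254855289437298120813653902423088757050503075786435988260614426792077392468778889684502080527147186663945294701348687341321879454644962093559508909198944800489717720049487746326375262579771556823315691921110109964205453837614489794629225630851407459941152959897944513903697480845107776081870616346114726787541943648463269305750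03843992163792302417239581219440425179815402868023362371377414957977429254623067310683957729292140719099213228348964278172875756343220281728845954924220152179275994463505153612864655003060388016608682309802277993797372741828976887155795725528491202135441516751918269763265809090841396188150229033655673377726502301102126202887721063255116810607193485013318986376568985653209573319495209437424469640440709820380730262266802728350007474160919142017702650344052453559478550374065784443818480766066194336931179926426575446960334291433877532526673373104989504508930724243657773175367336295912746487872801553554996173553502296490524291295784384584425372409717882160958385794626565761762667173806843387790967072252836563628889788447317961900271863828728996239088533441563498298348389339953953910867047569185420251241983150268503679001242038912076558766927066734867097551090476744145072500437428455732421432785918792437943557560598061956654554801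52488707157931629861969779325836089365483420014019305134726693567561775808585022750569977578464860911248864107695656873040762658986517618086784067154137994517366299671032025025339050518358468363939661971187506804376093359424702645468398727581064547830908138211305815777880302016818637361061949988986390489411121806242169096476756166502752648799597779991401808551209946660692195390142096343830614262621250580279162718770546853533844403763669526882882144802071570179264709405377090500739089760144841184135224390108198955109278356971442786400977059372560029146512242980547814310593170753632546809375492091151068454456818867395307818205754714857500580696147473558141639861861417067281126922660275910437362227943252006636327900767310340282815281981496282650811369497143793658607522147798425623668435054830388439108068511195963606637116114186914753993267334098247928034376307960439934283184820814751518870259183258236977393031999429495829900095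22591031017438038965347545113686993542386407121390612075564606068818557547869699642636842728656431835066538874366190297758488753249904620770234437142542119154962761478811017726458005030129871837488578808977014815028693166591010020608567452124959496642123961245245089450075058885198368585065825944436826016448774527880861074457149293253884623940663634442941903824510248074119036150779424530473791463034909037328446798641259010682785198737118007912091503205740520451441963429459338394608073865136532446866095413790347450774152919125360087782654399224465979763774505111002493627614213701362820419898260703742245383254966676012200959788374341925238953852743204362550526555222737190999056839437394492900806813203502816057213298090555025738853480253782759033007483938560328136400215009130714749104669215613011424640480956284779550148985462323986047658141174020028340005443267331550537831618545317066068271383392316032039792700133813179951857048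59630867551214541815756224932614499004741597965697517048533417627841050231460362327134040635633041567194165553478369661511070602088114147727832993445729503457893305706758743494684136939772413164785438248845599262244351372615038350188274960441877401003391620372346280689556768362559692654517793735697399200847069195380219109331379655909299633328907355134020300505941756799738770459060382555199771502858518618709038002619171280342044259845947419714315627991706993303768865450209375416497834612466507236313057992016497873711471645938592749342558194284020165824946796187803595207295503680551143162780335078998424130945321909169067184410434999411526675124051698637146904610933805807291376839617503130613608894491915156749361350521154971448158616487745158763614655312284121644434806411137962975516046164735220019084495247154225316529115291528285278886909046843062224891286620509744674250823732468758582976297612593711967371220369640720089893766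93931438312837952835024241675253588589298267434107113022472352038675810971512457180901540844782610661449520720725082478235408061956067286910027523358422903731418541680031625517861913817558996281204684137305554834716333732766190508459791395289939639964251112189721040542359373333146804009551243490996757186623541322558550054009445599379873858188026582153936904935759185295487276832299949347590039403776841650358273029276360268774746516483095929402592641436112180492022887759849188980300915693663857995022374264739747282139489511801656957698966613085808496377796784222893056557794344008018178846684461757315314943587041243081317379524398489433221725393308131161143365344743886476522782988003827776935552254111280788270220998928647208650259817222343413871925846553395845745181515065495877714077247478391126528306568306499472694009181757182174533984472990133042539931069571190379948262426415271157063178708530447219048786173820992376453597252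91077847262659529741847683980387465650594164918401205582388240940151761679939935378812225138054488110266850626597012775906158287271989051291110085084717812360434474626509074061983239333246292144991553520023648574017410288461458268290351923566486667379422401751420777673231939896979335934007719416326212840475058125717706508550574337011163494033945138896329995485816913138736963917409986581387787065295271863424222815682627240601868040795759888229355833134828937366209392223516399756861943963951092596547885982684964427493433144422099299324846589675277594863458646816986740076233392785457725942735252939391791516564992838797528996738058224050572185097268873907992597641895866904126613509402758955156682315127853858101651469614445169373749445448196987322775474760263867723066241620065670719648911601453651328045522554814700774486617403813480647708614050359793516476084345499702978510034056580602608487006136521316831562937452680776126713615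63363589493783050824089029511972682427413103887040693046526909618222682824697725871874196069745829957570323915309583619753979724392915142115195107115330545968362996886222337321853026730979389902121708446787868564653167689504576072668789961590165863773677842527891645618643401416551929272911302612510289495113383329722935026016356758887377354328180100383906325776994402184606752625288243645305397985960296245970351686754305071549292615525641855825034308801106661239033193332619045545986280850716331829657520099708269067835821502022852388974332759342883620896642128655235262901202249082036277320968417732684324934824133333956141799630891471817444842449137742329366788903700168364430886373072668602175715605877731154463679697738919555728819059744267531571969189119597171714067353448476176667025265431649016129931465894276905552262411465964787233841372347818902679194465151816822617155424820983108392576119813028568677738812993919135416605193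59183067741818953311392582521960190400859454006220472764314851408676501512667721188611120256152047656987075463104951332266546755445450199698282177445407113518435068402821862361432626780870361497804341428265109069650084585237150805560578222809292824254736681356588820815025213628705797251361853439749510444884125566845093367145169436893745411768589984015055871263139425136775162372153633247809647716512191985306194709705073518876013901858857078480980827328875746435169661695332074781920782830744838987234145029693653226446887878624519934407242360940503452156194830263867362147987117571688811681203233110434873733430337742894910686763084576183405552346180304389581632632112706521526043916483026844784871328255918100567999197555370661128011788743221059648302148177918189923689866224507534127270358251583688429916635005282052647292955231574750121995027560517400789574508365507872760205248705063434198504255426790507630168776979698727754014941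20350984152181540986672283031537835469598576530867116435711817581425885070492356712116155739831848769629182147642378159079024355171193808380189742299518401951149667167201327606883683304079660473086727797953262453301177622830636241602734160328203978830843471915200542919309349172668196370736129222071167240370045784137726488393337200349857799553640056819909198741437169599838627851983014146116014417032611063698378329516684965810737520437203156477529578289501109999550650911886848110825492438666350616451419263438653577446591609157380673970383155765398696982903554572207789270080424287208085020479297429588708896379227592355503776268047253336734905807617988352128239725253883909123104556348155566823558599522371835756464429493282026626923872887844258075628949696265612528509892186383307161059796068350636695097254160492093771211501945621082056381363994890309633804047715739477433182135459137733103331532154979771946652517720687010099046870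17167083060934138992660460552898528064103829583643041933260911399221109503797342386147666883230240071850259751331164721019765094186433891867758025316361915330594646386426443288368061646336347283975084730528143040410830724535287696663842621377739581644744960110842204978460786693698615635430000160730671698233803023016915168260450407343936918713437473804771793675643581577459584204098492104388506524026252670401024865431781124079179902901757387057493647715827968835493530676723561634195465684650385483998097754366430602721861861383511657688953436462648548039422107488457403884610934762471994696616126372519107921138069297935500557104477988545927982769048458525353492434426929765579743706318489416043148933767582066824145140034603530163789033726397958634636302607731415034734631280603293508354711245358494660540647396430978165634771108556352701848339784352820017372016238897309974477424701392068474362525445117056697605647759027425318819933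27351532319146839474812417480528560281682488365487936538271682546390895925905321971809805284450542136026636285603884837356825417321022072721258179454426389670904695191397336035987333211775961560422071680972887305275298703354653631576409296644857061559967208656513451897413769452572774781810730316991987765948510001650808589300026101633338994472818244704970926365728252055612212690191740109972536331548665959958556961424572787788215796995237599031542851013871577426024557727428169428279469410476566606948166242197816537189707266364556551419919708068801161136339597299847393941334457014833606762017391237216777816057815391660599148262372441240304476145842136500288069054487923489719697411859840240824122987179679631606776244012170740516814791783895491061128486675182017314888648912987991780045548734727501917486905336314815382964416103735989241972091703276982413250569816033603626638689411853359259201567740736277873436752812102600422629000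90762291683366604644870933842915230415737732820785713125238920901450216762136672526975971117536818754702835505351366625564073373411430651055339252770796824435610008707210370768867179781505689118868052943335576782582955530429319784701483804260111024269449218941357701673574281029995581663685186176465884810830939000553607813747929766631490297938018847481836202133727210141354152378017831149223717699251151415995798796607794887613793690684694353090273270549458325743032004538222394188565312688259952144109045654114507885321508853219006895847870698461526516506129661964054373465849666158544152820112651063863944670858507155061137701806030638256714786602739361968888581384408825822592543971028762178092135572324734815731183380701701511087789630738501818790794723497697276419644400644445780400485478095948576752606247674359485492708804712810191787331245284716104179375757007378591206750620983312328633401856927804365424866716761360157395696869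65129977568450540285745956530185829101461370908441978520176772357973458717754569248102303533559061167294255524483572513069155013910446596949243184171311707444902157313840900439946780059267297112431547688490261402873157435139342405060238963307751818487519005791496134298887689649846073880799720244890896375193018639010195852523023492693772885440549466604409229857084793219836769011853399258998259743953117475867904981282496987863441282397697345385452273230838296491973047282371012802261950594066286981474710352629100345272816262294492137887190031989276125192013897395533849180486803077142997557558214357938049826681018517153380964805799614380145120894714201612348440703650047074645901413069327489159409856765053442118758650211700743757327919064617319644109228804747367896743971934413801979725015518689875921660965025602879511927438312760162829390998259585644528663701970154415916429470971083924009626340287840195893347109984694186088517400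45812549744049781675359995770740086202641739622858878381377657541944432068955326237552131352836849819497237344802945795095873344024507991169701787350833561886808509356437321140870274588335330512092814067874977380812460230003709972269417859011350861946263917718090862058160823133058769188348499473277352768678229014005313346807681560159825452576291818415274338295785741072362502986509678633649096788543244383361983838911921146478203741026699429092623574472605257555163709272729590300915873785885959886317474631806097791509278219747672106200652668168421756260817711919625319717689326840703934170149416407280377974552425749102054872790531229584505136617275702727289918610885353452196247837230404315389125275914412797333921330985769654947620544499424950002627875469345275690418385756787826612543179765693815741940811401123679062797873960891799025892383773748400510697177189706653613813306593157330630061220075326112993035797099953122347376509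74016440905092440737859690811207346576127200966553568443869264506015859845409450839980746939782821190704353315449840999297649421488536430153029902002410331946816215637614092771082647669978315901266308298360943030377652567562226887541065837283122369421079121919590249432528080973397257430114064659762073966082338702741510279273342134634864258368182001531502110846704112893671968475282423772564543692109621422688432446522863918739876353245408909533106279240587915100234144952170919005514599503995623770940659758646996703311938470676395092555287166645044877418184329443470498439045393948195486037064857702286053123304403119771086658944544739355058081481437727295474404859767099700037354890144818043914619280070806475815251851438527096100580304905213850870648787877079504989845041152046889892088325094174639606058815397599573135694962168961291879227749453524310206398649835519879928700072380635580650511898377464234264159050099484113610575715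9599257326396874209457697185451117047308870238579174449883714192375617205471863176482061289340420385248215053772071793579295033057633579962608275772884459898164535890463712834048506079850343555486809173244206366966967457647563620765767755646842734421159471620543985462157193375616785320169819060011791123571296661964619233487208959591152484419772163827237622939851876963379745922699998501232546918630727483861005711082012003407962854074732219197651764810151127877891047577021441753322290930124336351142964484021765842805045620715676562924752946671381255333829672960)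

noncomputable def rc10 : Nat := (nat_lit 1770415939014376961879718895246519888068828589389606518960704985973268775808540929678272666070063023014713792601452910828032729755660807388317899835182359485884761811367390942513949537755663456296712304367962329618481043407222308780501833537517311932364346937511558521144838215786908598183285778503073426846349089170233556496762034268891411174948299486845760880152545826530115465735603635690568274297848961808240733144109250375109247388476836032903290988441804033949296648690449657808995835310917250035241049321658345762701467421829230185574265376335742291606451600098112173239480228775261076431755752481358104955541853017952795789899792615841640600350497563437181144344478378083740585967602526009391489531934513942846781456234406939931044261422950223895455322149414965520832807373711238373270405948181104735112274118143192465306830708310866433715502712767929512446217742819654131954319118898185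95620052213965160053670962061404284233438748483203995565440762552975332943610468442208495658178695832324385503486296056555947417660897449747544927612789790785351280384160770365327833052922963015502520692860610656313154808274642629516798501577362817166499491729700842996209560638891710390749499778974799810759343860578903591148032496740036178501896444981189187190996717860012681451404323086792608877198181038226692773428390917037779668953740838918482275871579678007187779667055945362288592794848473054820658412092521422699013957887336999371240944644382375668943836652318413950970065498334325093714898977676404746983648586361191662388783849762425911797959773262285456082087664441675609744213417160571242158644157867319996278330182743871221807156758922198195029677162044519110334237411825198991540573127974325138569929092763046914684703041209242787339990115354428731113224780969888083379697543295148863885196623286204238668548511502012149093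27568505864717894511532351642679400507962834607790362591787033529142857203550899147556612965857847547435624026932136860697444685152610870459861079959740778084200589728515823071230253109980012633839997534604552845536978052252631799053755217525097766993439712934132980398957453071644778429043078427897637041924133765115201765677023220696720982654600998187800618408337393469759322841841355430484995373168885548717958531200659825663541819308781382120802419057834396499085368466958938700627575305127897510481255533905390941724808454179050137508191556487359669506623390155041613021339430775547177440599483245130426536443683689791098491280424276992654371708270078996967292895201956119780161664144447849213626125296408587504480717659706280789625766330079926699132709471688874153809015351268214139699975570646905778476585679031103810913196732738154755399744372516113066061018384086452924403936024794259149201877263716347365920166154326745472653104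76063607380021811017438968375526645905397103165902381672183165376725381304488411776795187523178757709778366341746476962358075011702464968560915536238924159457503562554798047045626171933122988714582963318760149812451262567783770167958180314904023120777577447068185805804625324746631486069146397642061643240830721035061384206383970646733661300089585672338387677091372768068373532045959464413659734786724078150421608314786152609051618717634800035171446099362446434276041269226582046805244971018791694378562354854953544745809399486656708314405623170722319783738540528513397230042588004515605788502324809842156454276295330724063286980135741300153779945266549068961047875019308626030049874068976624999063333406073708012213651123601815529099418300528411676988865873039605053120182120981159007380690219436218013939445285596353496590279895370368676534658713443591548603051944578951834280179995886686086660994888115910275122502176452957283547560599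04510539733239400992506225492782315823085963681803261308279094666435995092104743448843047771425553225114387850534509857104430641447100368106036440166591112274067679193058508480518739097851964876167129015453466496902211619480282168516026805071893736558755373452283644465117619403164932480831220787614490669184250890217045894051571812770135639885883866628369300426634422449710285359003429076725775711866092807081019107921166413043061040964103773551882683182414581805714342563152320356006078430178249961872194895439550333262679835587596777692062241327453181268492476160206246789465941059825630116439041143929696650872214145493323075161539445110513576397099329272398651335998034046738749556480524979565464201343077252641683762454482759763383890408087987812981190672366524316764538379185226259383237175802018500239990699094462585866322648112150761100694327283901510838687738508304549470145191706365254685402498288048256234309215221518406095296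50211968909026592747627578662807555287972273191074461789886785919055272722491021290252122449478186380691427389011943217129742730320779823911773008491063435155114125785555483514287530408720831293526166278645352011665643154065029602457035424460950490427539692343537010847528941839400694546056321473323191113904532425784498456075982852051119138681952917225591707347446642702759187400882778794908084365024107746874341189295749786901938367496933603296714444732215759628823588423771035002366277180688690387512362439470433310011850793622899440494934399750504876684577640090312854135534606544174025108122379044510847445985347111171105050650570224599327952097347525279310788847087582808368744845068604094662506156065571534407642661859004559349173265546674077410931689248384894744696311379151850058733213384928232156926345250746474017410457940253103333580560798240629028679870374488217395685465800618220231288437443088928449794397265664328034158512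06518751903102410700153579400197765993763613712283973253355313097717743122016101235056091371362353754007381504904455864155799781658664690817680028154399112798940187303403452311124491876353678489647998734298169880860587674303173196705533654831263553640656069583830234361393312706747531319028730459653525166914031835774325364466585716261377802906745519611434103168776820680163454955188851284703853719632494466689881551015917873685232308202792112398841070579426856103084015138047568746554355898225162742585326208447386435137707084706998133910196618699334554248290345856739273157173987424156384320488127632993152418395856616972401579997017599019194736777711151015579378359859830402001201278166863921994813609435398159912152181458645913826255170908786235389488408984432943651186463329158247517811756645196238305176303482693923493465240340261269000156501263987475198357400704519546685916926914913935250258491643802613971995215690644104201022528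65240039201244845082266797623217996050661581426992455038250925035693486333554692766183730776162021094147750064786474012659658725858207331192491251662390295614073000275800335846976098327938335723656499456686240277428673305522878007029409289784875097416268638977870370462642001646890374446136771843136614241304512251918548332481221941453871107768159144837490288793145458720349178869359290937828598078438534145977893261045008553610854570657107872727237940572747659842772554461059863086593302414861075057516726004206706599629609627048032760420202020491831943003946480178011778582411674896287648155002833735550882840209063166653252210602746467296491089046054209434251620768062312401255580254463801036347945618427953199190291083358039961964827529812613088351381108200250647553069806137892554960735169653857663382361345940790344747060134555842750910584257904584239707575216450579497492330387279914222873051275459443107262152498254787518430891289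13965775175341623155704189385979555382786780598963338468394078487744115222636435753994306317974972229386082003250718036924525476641868591590552243508328879607689185937303566805825107236614202267989654003504401839152430153735411060845542545427724823485861680777980382337097827531179926999035849066642566868464062427482466770865838028769399498242907482405167965500360986780414239358515843225815593656047107781353027841830009258361714652607574239387383250085306031499103325404188889032800129208630137899077295072512092466114408357970240000321816812317165163211699239839109682839612716137132346868762706577458701295445255449138543509140370001732906476327834652702949616153315236956161038070524934798401443203104381755656288053750159040625551125184214386469637529534731908207488753543927131981597220260981957407410944719646699083234832053681311526150510126161292213129448108806703882909171427506429833637342574273884429918023149785979216425436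04730970972708907384649000691531799894766651371510388030496075100922941286508114292876277305084296704899302698418342676250601619628709142461041496070928944415594830851951896977272031782124085041433221061641744596717905102312188592287355161186194364190754039709421364987762093120947690087253552591324168104214195992493245953328165434378141235995527597400841198217059040222451572319708209045023762658420023993253727202400582331635832293124659144069104786934215952100088597117611629613082053722431083284053035510730320095228427245464590786314523244024803916065858371904976712285728601687824970818428178671677097729870021797612982344681455022242150800523834351864373556552835592524663745817285784412194577872033861363629505415181980069560834078681841093122823972848815992482842498760597373086048185002620298606457189972985165371716942951709324176472944998721744762656708032232842104354483901204190293131580879721735317153929532625006359049132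27956789086949421499823634385099492219554481524311164318137983152737859315704623202130458723257683309141498126302558886803096271042682312921965500987935567086814353150291970626910803246153834886267062493579119267786384591190043883637701504864645779030028528790983914221788935167648824144015913359507761353468144932939233854044721008427481545101880976604482477971446692333720446499353829340998898944877899204167786804361773611257837315975246444771671068443359034700482356675738379926407114380571838147814177250183649478860611507784738349021936990929124007438739989568913586083514902338793303472722854799461121839039807015459000436080217476974240379101688067559929740186998928108385782584121070347337738479920278126208967021985922330469413454860730003439600171450639342019351834136530314643718417512276795272308027101725556995987832527066442906797413624551156611677770380377736888916662794106792174957742145048487134429068810538484821597101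77556854534487412276943682967865765137361471887711774414432506094748473966365635657163043950790933134031161989548329330137552926534786881068884036891988233366058811541605734900299676803641289308703500181451347593244897615259230752150262286819445112094375649015546460244379063288187728930682733469840311180663547044733764744899296033716760412743441822398083375334053169130935314027729927277097415112790639594135776982039825320574695271312820571886436950230332582972708939499638129501292788685623830209941119665166220695901626945054691639548802403769466269364645304397853515143203580702466563583504147922246629669973196051209059596365637863884294458110709119515329342096227330728962075952194638059646556738459960757649783170373815650125660568951393753334883752890672691877203901942881554382428405847103986946098426856109091689081196273509168195698533145879313350793310357438245118631857874890510824502298620972602261762699615327725000579178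05423229699240268088237441174144045251687612102502297401193261641411013160383182903172886435438535750898206795161415771423211196472129376419166183705930037303554927684867699327839937041851598043348068423476454708728385605394139979296195094450631815030905503756517713784307515327070959579105258371010301711170395639819124416839004044704275655179184023915467934292656325474080273414707997574284323324787239683718765049899416772101811754937787636372003034093424513956171532061790348290231808516759908629779297228877067840024982251353347584767042467552660017745207257016666720700752198046566172910758022426184289911684336672700467662708701735515877648752409880655845308042169670558206349650476055964281730129503385017322132495393962672469147043220554641888923786166299540866906797116656912838323718325235999829367984122375279876266253425519574139091027683667344999451298845225873812275710932995618681634017021626055809497993164471707922672889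64327249112341467960785431157332980115831415719993671502202435344091926585135141443573580822890872301526783907615805897687688996362155476906824607637125226536775200518529460621518426955155163240153358827074080146749385760358322238613238356507405148132561671439931006426824807625494328698413548523975438117832418584529470473751326511957883422798931761101767810410417709126690841843413208732713908689003799417201648082679852048179278941226495855979904866387908606275823955651821322775020774101332072476743021213832027673843096861793876768722815927829863425566531158735352588927451720492311713292063108744917855326475667142018641787443084136455011997697132032845384010301583140418521406500866854223298637830129228026278584581593511200497146195793631617831982670363040007102315386485471458903232370112688401957880378335341388245536961363233139344147016807192852555149215024815236594698322303484616850456680020211879973899624959052111763599019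06139850844388492347447897204283568766689170901591471074805001966919449991152889738118082895554319294442833545185678327017567369019382381009566872188355610756098591136139458121548282592548382144674940076307667986713120984134656058986117629848788121133877704220015052250956722195951162508084934855155254000004470798395388084979127077931469060537737924047624104039396222268352014496384394410820915684933386308955112795118338008571653195721381701688757207793441177047745534228958118998419430796987874421355930647109604639482627515874268777700166374712654371893752036111059331212246236600817578567564537632238238819304743943216070994392603064663431285141760664137129673156582555014973587958985594364648366946170888122929297025224986237048442310459537684804959684849670609756682161852885209587478962533409553063357739396166272328219985177625631353428317453196365662990568451390583008104902248840287723092906599702156086389141881123851328396021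47705648830741899778285122615283313654867229241959971532515864167862694289705164943841499093806638565666816855714508552431645714675370616185957099819011483211621938352658780151684573773781879628767015903332949241709297635449299984469225537127433758566174637912783293371021531553541096785623826330009566356459807089128993285845960098801387333739607782475350682216955790572242773972820526979086440092069076574931785110657655452185244154890214445016107496454140918588185443254904030874002939878104358602512194560403745284556231248654957572514599434814575192033578450927437377269001878001476746810462900266766662228401884540315667228691253572728876436866901152442722658155964105245422352900927315799249634886526288309588509455066446875065154583452634451862031709623544175598297893347668424045560065423043419835662354647436400391584514814716934939567204095696396367907876305818121799668723076373721175239833441608305065323371105467693194489574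74094986850247131403095472539098623308993739322696339163001587888594914976872004514499025382364349390314514529430599043713519761214620359913315816155689009345584779284195623931447642291189382163491107148257530217979378007481654463474665560068289506186284380306258226890522851310133037721657421273697379305365903786815888386323705875874734307431019283820661728388501516145496298932273580658691277144636337339364442556101727562538596573801421173031974252422217748949690486143896323863037967341533633175962112272540201140769581524403453058942538708538683857345308934394330021941112315681650023309246683973235870301617882713635997751718247283552377336420064782624605892447162909000429297573100159620909604030953970374960903655961610396749251813430872698990622765189861715056006144135693105550253244442076292149042210630407266584543593572847252275691018648042779655911011003849426200145783461774842490515273294360091870854862367290336889669040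09649882517766940119626761250255430809236795369830775145016673946283058964248255240398752236022307150016483725186001763520785668130849067191160051519473117094105425340194922806121186385123142861320382480901940894892529480605903073839784814623505842118905541878431111435271457871480583109266070335009381751952335837211845878129617217335778873202723960010890870279021081645478684029193706959400377741382014445547693575341471672982626002685350847487672014964361140304782091573202888770271908951485200703981461853226873196608311538822197030271957126067323520600546213888)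

noncomputable def rc11 : Nat := (nat_lit 1779088804749959376522663499748352128822510877596970280777444023299721625395820647907746701273138719973989413898848737650846398036241468038477804869753516713932267481887103112959445281635915536709295787519180006136603562815219854215059322017307046137967973002331212119594320470851249021593333689186779034693544318127933939428345915026218948487329147118459690017360801996128629660197049821946409225485498729591552352901066928687116694201039949841422223848484166245152741078279911515690357696019385186260567059200098499555289835340527106184958833587847564403804564359659211422628293210158898976051830539349872826424436427716518660068702663757288687392376518745281469937006955530554499961741334298972399004670890654627011176593077377008795792220312147319428357895898995241279803716768238913576237587545291047014405311896360240258129948748639530654646698853944274896193232805698139874512765000841375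34186239422931570155140646618800955219129717380979001515091995617783943154928710190692654127015045757930984968634763040472468328518516873173456355271235389436425129858567265455501386343315050106929836737584602679723859494884287869241213087612853343120510440991941372877650499326308652014328375193488254896341241777884552781238983792880539875910114348148323376902584552446885340696655916389214592819272420782440782511901134061078595013550661947515113043151890285783353883141033298300900310548592964928913436417612554323756031665958861443023845805404522272213033450766072817245164504539758860907851821512239097483093136077070779063539287680642868742658554217868494143561011507481139381680156152463173490330297151133992934985485337675601875565583994899451886591220104848411144828021817405720725495490274754888570121627241818259805128452141916621321433615520143439732167844278618686420075345919661522399855563333635573506627948538218580082054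71723737494388859473942833085700143734472960787288119295610541439820914904114910285156979597423541743681151554314775265397779632179749028822647627330777443883054844753466068934185454369570127446872420240164653068523939036602664533140434799123606571745544537913963084167054396588950915608692452106229425560235161810658810300251705566562430259653843736153764098728205702428629492254556570106361837059068659693074181937657296019731814971557605324203702541513154951419382714160975663638489228957952110723506530269341109249126169731315444339166967089175220593249322697424835077893566652473680214008909865544239593032163400706048461202264197919163332451148607496929810594109785632320665808885200598352283055472218969884209047837893773188487135874784677269856244099781030483248764291331365629632225756632435029984231174617647159551789844692384785275758890949020785985145834034765711038754109753827351657327555072075980666246743682124143764570546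05041934545263950366781086676150964084864381794763631776231962505519369671308929814068205850738586214790758118724889700980063156683935772279892334171829685770626593110696049564268078117612023218215054729974465447125608816437549370713306996713255988379175358460365467898230479066815193545647396445163055372376243419271781774213828711292799433077497271615311594740874221551458722976344887647675559856528269313908721562665796280709119331807875541441761410176722166826770079303711241120941294532998840333002829043811083572259436071018621649274559424476092981566080880716414643213058287893539291415211145549470967125828469552650028950537484778908556181380666361768291374630604542153979293182568863560613765390293221237666988584439246445535133484891826312466700551420370289563694740893641524860457239748442547246387704764682442010362229145749255640025970749535299079167198472421798518053274484011954164334409305238458136224042795023751362278999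01220679864573562876604901210547812609981873739730721242625740250932073308854810171641291581301874189312054916651244415584517143161949368279038704351463736139796464724352865937664534386416520129172721039136092993569557973346252267397152041671408500748852539676625835081868648828630742932544934109398250071441461178082803249322577258940925810590764578615313206168623151307167478108752656735311568395313587636611051070953597879095248747925461480257659307707904265063717122272651778807783987111577034417260856326139434053044368317250878420267631723601724036192967306467024158294522213581212302376455514427875887116413862061277597765658346088011145187809693491181432801919974176481620603301719922325486875686293929854464645608394674517433628001739981985666659239264756218332046276006804480210823448296543741263724902242869466781270354908980783266423729646565684557570783038481569461515034631221866236886686173195099638178769070034140685670377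96112459666023796026215534623801189577484633257083295205080816745982324015943914734242049927977412315692096341446519025862973289698948203930814665823789840938604465876703057938749221088517437989296808468745004138784526059923570653027135181580446560589078724405916673722975834277760405063444066967241261742282819765954760942494003020027130424251064605535531801454042296733082420852570277335891312378287361818499528346817352189008535806946604255624117346097654454636405022556271228606986060674351677658221002892094510017704703996875955997801781902821583003885638849746999617262597893032470592265201278676464588163870708759743395839196850266363464849963578961807187751725268811733436580042821754665662003590370353608933069149920579097250277523906210525645858964143304335259392483140197751433891631540650186720861684200132905943019950897014443901774264903311212516767567649799048008396931922903151901528071615475817676211392393232095358642799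26191234027608615716928309755541923579536315284697678753893323869630567916097564900650978282332016819547105213799172190515369111301587278797481063982471749287511495175629399760818267543775911726530623904411897025540956427968522950303009213024496693095505503474272608494231155461008632779582155151822438059371321620563377531454800807868125816847206094999615409038991636691663888025061574779874896528123192567789222824484843554176369173463157264779123539096483986740925452748981295412730966247871221888568764117657058717454897201243117641842054565711586666213691492790654204303129580256359308186015993322761714907825577881914343781581635171196662313648974123448812603746207940969393169569621460320698790473600198319827883298066802773762689747336519876355025523814281178250662358228925835831612173654428877656358493722074314551981400052847344816560937068510117432816060652907355600616228070409834310615547836230054914404180989327241565091124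83345527540570754767437422530298126052663665822194374620792553083709640138472959255617767482246245264087732853806683093287401752716384914017034989694387423046263486804598933063460850362196774106752882820552161909294655319176254006028068605608391330375137709948554962272473971335468297338724032275027245556976140104899810425218519884103027447301101749985237320044343933827469293337531226458427832923771330260972998432238030741982010581711122222759329342911222606766611593902178166697043922839150430794747209821763423138349636035815215761681924946634244387607276957512495534112797811297955543638333036728388773353805066408913037999928922682044507249484303800658163459541715119209131985717446688724977282640168058848653929532438535169933763959169012032471307594239840374149691513064204167643050527408854841067841748267988971323764614144110731877971389416634619666192458080249495309251432010519369760033744952088939114227928439014927804180744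27484560192167713713532780503090157819420006125182907384362052332404594649495235919235956367441511609916153255729530295476735086644122261312041151541986492323711189644644081597197001168465111158125226826271362828267422180631043406357721805676096283693752052791602490493418934613877927386753143749605154950664954883248643396753985016561850283478517499814603768886215559234026743012846696025009780651274327058911489969786995100308454800750351341252795373465029801247049309276362399375873870006447648837448458880463669253556060670209885224667022714575958065786620331906053174077935215747175164255674824053376130128391159843295922516136865331562367792753107548129663723696130926258113848266286601345426676722933761790367129471493956426921290296261944409221656758712248441154486837911968956212561429002476745749568387490716406549756504591912549238881476132092285944721219701706165121867382306677155018373042522065223166698336288045334880697586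33655959339564279490467291952026531023328680217313810536763282831642055837529970964486291994001194264539969319851654107856133065765662317575135905939242176654639153699525998438908820929302405603080265189136606025656078225616275355972747504335710275321232391505224924318111994338882721899344293629852808042675246339797205312901942632980186370150854328127596095508484555635986862532796347963013551800955895612731195389235657607498749001268125887011232225296650598983553264186544548812155646526311771396300003317945942440383901294475483171660402186260987340822578519303970923326073229893679136293772961379227229421435440508915053266348200873104864525767932626953247722606614016826088745336960697187194905011757398042521566972214561084467451194822034123224121823363562888545057970035381473070285757923649721907451675848005610318738819861296057464080832106648913814759622300767002338296910209025946145262296137890666060194113746961580994079040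96102647352032266943782322924829405470811657874478510848913011004848945359535964104704286245384114177836838403971231092556697239255329375395024210450132341794617487827663453103311553854686524075972846569264260166721493963180794599489891671659454318861620694685412317588724773096221369737218554625389631820711570418630387835539945567154504687226408502654874638222419492040766932386832356237512088855977037027717466881357320400121815124161391279009900692084443357506985618749601131348331060138091844175892822178550876825557570720747010991902376632239861274267178114690757465108571085990927361175008219628718515284459502917990736078668109481078270381588699363886622662174807494903044769788753447788018360856103683208262873418432701010634496545716470601495792742970259895965212458650057518320511777269845009340324644989632539620543996148009915115211973630258405801464738580684719483310486083325492577894520123836368848264882819059077441263647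95330129005338514309475547162177786804540210632366831900733073653912567667295216426362378770757797993761545427473492266749897944210652610913039061768261914704108424146560301062826650942523289348132564329899290815447086408061146899319395058826719429237562727801259638666935436590988264850897152399622303203759895189130598370245431303287785230891435076250124616977827614937730944240436633925592344349801577425651492082510477303903462647797452225030429996728524807795922107558177779028396191980633892901373468244341252381904992783329982821134211632495258848881373618318313103367124225573155176385729838575594659285000198607235434296645426197516845349801164250784158692077567513856618691227205325977528150714629814409007047613835567254470647103707835449405000436778041270355253469323607607134898354298614974079960577319537263398339989941928382940477796180606778105719411335461176186558930815942900622881837931052908060670554784725362740161611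56086337601172897812945772213513856966392941965561044972686069956092863669691451215174951539986915410985726580766123144655776703291765386019954520879109704258645076472731473322811606564819717017506179482904051134337935307944662863800223798655245217925963654600751339327370760639507756432863864102490682453680951438027301091520182208103806098198342468545089208251468790749529062725878160840374760653156840856266670051641929974387514227998417442554384230370479936557250437139672539662907302152275732847324565250526989212400175278897988072248216513731656186517192371189299711116043883610122609255399681663378775922721240898645453480520618747210531969881916320313151946408081432946395675854882370808703747406999044980083967569694186573306643140587070074167315764069650822503253121561245122463735109571507362448553636242643649249954836580220795243435676689406824831577317733058724187224239019653263004742803649550431819074676968973771095879289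84427974023869128125350000646614709559889278190165942621088030303677322900146575133484179030641418489931530681689140170063091005067639346704652835388251023016990975733483160980306601167926458231301074044213467276197424155138208467431517180925564967802051207035894338911839682891415152411220487715532693445839574237305803497646148702142795546910087378648854049366485529580506077950171961227130792205836373679808397647641395006277847609588049831911972676474966786911483009399324052259697076170784606542290152693595927546578810938544813779144111896580668131368299784066481001303823660182067883386307511875297392401195246502438668080012694750376784744648650366552551905748341009379410985018127863922043203449313995302274710816609654749259192844828920947870733935834521843232471800015899411279541876925697470457234558755683256557522582826687850620552761444420887633878400107883483955817030210424132548337725551149583593731705827569665980989256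95311122099536863820145442496129423990182549706539360535971763944921152869356697619155736762725210940425569511860649161829416634703566063044893348493388831996389097160990617627054315667962789016722168289363692008827993403948603494219763542145627305598365800867592234702270007447007351432858496304119105142289092391558495260627045420876084162511108567799044598213859743023243740855100923905814502218706369051351154141542436192400991558097652319200322011366630938947763099661915488927169833151398174967649689426173147382079736088957446677953079570588448937320667268408264607566430385253079764061699690234897382725208867799935860326300073862279465779736851259809747644610643448740205766231437928274541152227467270989887185345590207369030445212930419081843360821069419692032433276945100640371479517048356195984893691542836377629080054109876327807473294403095639922666858913457342294707812065343519275147041576250557701456605295997569138198575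91141069558766400004081416300015863932642648285636373434630649320507939740735735027690596685181641510284900525404594162015669856431747287188638954644126320784431216284236358110453393408273059981434322629298071542773255672123520098841555784122712567448321825658588744279365715687769206588674053776846671609132905617326148460233386445698694563067006056107445351200366279709484294233232249370488535375894146741278810973826159402252665291529633936209293498129341844060535140855977952226236259906174729216018665822594072801997200223971807183433468120150960952933543456807967376868122900095480247231881051222379506022026464178539347901800731646762479409805310535506158821821438903664622967337525192869670904780744112828839080463305731703914538783927505737045724964873022863833730378232019614461510754774714055423348400363785567944353035517178106542634230064202081913791238468863122525589392333368731252718614277613406363130254489219169743945417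95436143023547803091460988413597263002412275258648696147068237662051119320249994920066639075445337785468025484987990968356375613685070855143290657252764329189512150205324253222083763798636591315765428852766236409243765271994829556121749094864079483725184685970581772991912345139077666562791773039489173092967698226682086983637492057292854856043714518668357134903117906892158260762761746297589516864345928613467519444286116746244683606169207839975747487416685111558023876145020469583891613878054801443547060128182327173709940850136134884076279489006474073447384526467165655453810952427810552878758557998260704664990602039081281268629766794909424311732432218802428682782593369571760139043309523087190273329992952623811521847023822280199694309917991717459924585408298173893369075008425635845633461068622137107317723528321739273443418766222046426189194696668097702490724325906383315348925357345878563437241699023860541103648744339568181144634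40184327942773220863042473941011222504117540383881675501610451541863744642080854073583100400074811279678868869033153604763840003578440837250128304691610214604765552830909129254722135236110757866828249491819816879729646301197783456934117249559181519430295054861118983186286757000995047720354142604650432714281622845196514596050088087657666130271707155171301761653326291957570805868934026750724428016266313361822210085177375557678091275384853244757161367261152862307210789467111541479895171189054297215384391913435327571561501977773733653797498880904536440259502669824)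

noncomputable def rc12 : Nat := (nat_lit 1787602530828479506346177218449103393901643502198717038615089458832711123639318429323557941814916891330734081273212350443098876535264072029425564850215910484049372848852328941941803210024112682066088930575215889681720287953901679965967844203422655071275038549668553048319198132501908834921324349741322457495344301038950512097738783088366709248463828085571369198321556950721360756305187773393320356652859089919711425406578774787994857034219037144970617574281336437535490109041274412574234568863047200210849501791848339224966958089233485181075379421410016464533559077784825816469057877662427885653874310099994080626520961868043871007443152712794954375260730115788173049635985179451728935928611396549364525279312999193220374956661147247202753932433175554971693532801765543796366749871450384212718211863720483703603909093924300517791553202709026584946454689059396135641505551693754761641582325136228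77005767117914669265024124669520150512047588757761811422626611109098545316060156729308944790032643499883959411687485659254703714257329444134671529239860758140090931059928335494725496949980460609015211867276942802615763192608375803299649306912652017956995991439333785773802713425382908370174814550668111854454237722048430839779859512583681925712829347171532629244575043015585823502822524338959775010589283835765615834315251205788976726071172520509680403638560732202099558958109906497805385926743681669394679120664896420542834948312764908690937079391596921046695811751491538572406315899809155690605707769857302462549797114268224156088654895396677947908470759818810699898646971698336337382691778655842671741524433658697435975330318825774271620370643204923691806827815523756248255811385185528846864988305787389965951553169964833959819484261226689042046966858796981629960350258442286862402439157669439807049978711590383167942840933173734118353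88748227536076659574375153116867729292537341382254978425909245348778587839500948452217404167752021375587012414786608125052395232160646616061441813299336352839403208928788086623554599180586696164386509690863670709937914450205872466287553441777290423024958620669299537373666232024145887248345505945603929525589687787916184848905871060016122147961373799597427808849372689944022283255357326109850449520064140581424681109519063610271002339947577864670925643393994844600946751927364286017761679238582716664831717673121028094197944807446236218246592623606142149821023045112884492655669605925576691387754948125694766240240571919815858784996127617522361219183919717606404260769334482172860113865905130852242874208297430064740327172400900966374638267982999512839255568968107276824357426175751318944972987884200441824194775187315810489498138637555260986223404937908926883677100423035673897840908217668946750977700166549907359079793663288455311366307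74717506323173480082439558070322517262451232567252307407064222072540029765017547829856046726677012383576068012104417946835624445098215336621641230341083702832451100917978303850458979824914560867095943718888117132211661044652814602286199795418615917405074693807939706315504749078329177637484243423393422496996069000635801008075148805504113194308607011493765675184524147002634163052245600159263837240805874517614882807886112121859670813029005183552532056980986006855597678328707011483527748674419142197510297467186147777434024629462896394826782119398122468930420786550320200642563675527052452656943355564927285253480874051113234834498611578885655098852883529510791970460147731839902058392644189433356503820484884503195157576559450792005641346181939795833436110906349154074131294784996067964800411816253363149610086535148957627496511912287270157289129891496420470113214757176037033124332236506878080935197207923853593887489735687772405263887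10988997388635144209367912080148225508700018571062872585709365842490155701789401807957962875446822687104973898596127536639130578950089569921473781806756072155354902152137522783500916651510769390392752011324670800152191702431183635882047747552470960840812632516084955067174174807953325995419887843436681785106650567117615653807834589228527838246745859222094542175947340882584232372148956149295437582855117810114951842778577364716018579535118142134456695813726665460684952666429562999954750143564874151358998779276481841706915752132538467920886596088367989903211376759829954196799121478363766700911346943701828335559553298647316104515794863978987638120410934217168087389105276136801132536550305724864120779894610578266631879067570921635172722228737674399089283636430586519804199124556318677610591094549289728901133602651488020597334378220656717230985395713493672627407364828856343564336903334134747076054995478223101576441945185158310726287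50225547880019680880969763149216143280886787615084185573115577748909055662031299064071775356226286832549444146508552149377896584984898761082815066950979025986599823568238525431535042509892048169002338201413486819653312802060221456727227644634242210850639574786322688360518727343081642193106627018818655411423970220221644087107736460110870960209609345372063549413826708896548631744096701813936489237603416637048931469906015610402134224864795957646758531485812222585761980660158002369346350204097111238140160261263663032651940183143486665791992184748631877203714846622072331364480077661188033746184652777651297772222699494616072834770692996395096812718798528886106881089518111815507387765754791613804422030613419151171473487163737622704046700651937596404017372414806210941106357603931497325751783920602678146107467144409273718201206509642803437075610953980348648680563548141073589343990381639443633159254485484166598794452149025869789874898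08258523770130080147525378118433944951725148560598449114601872899440576099983197531287520790528245658453686837801633973840600963975872611138952149801425056851948148831661848115961101178952404844212038236088145978925089756762595254595708529526571084328794845597064651625645278360514602586407034783764863526518877624620327088655307866791047776291013700753448324763515823977245451479012515750881423038838662357265194851500951132203926363894474309770106691256061421293362023932257168757664938225728786042079908917087467086714634398679597898914190065095321373889326491016090793433426287166771123593918903079035101983344106410286427799955398195971222525669996651520992372520059284799615677319768227600969969516335472430700913447906199975690657613158132308122255008741151213900273035794760118253046350442995903082073712415619298989063769129257120564946140413110657509986502455271160306148205050467573284555168380321905826299224106831898094754036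48957472281489974710368904470919650610070994188118094069241760200787364577453919492362648415637081670260007103233017633502219219226122177991147010377393721201308861552521944966630441389239665460702942971898453822592571108056173079010483846162085963911209958605422482805229509253799184572861506456899878062338820470309718836722168951631028988086874822524976316248893124333783046940844516346280040641075270824986740260477364188332794758692384952336806579920968085527993923284280704088350518790946288001990526430039039219009745610604608902590264368586489028894394236937352684173317820036408989846034127024451348255216579242539975300324821746187480102105969182844593786001363860888218474736836846094074135356157077047923887449048172352670046398130111130472272271047487287148823126633313243554504132183302197502772459831624623267980976386900460394092681623507630053030762788379221572856458401182652351877337806942320061480643651383207664363683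75111506340790277637798373288222882675510227869823400956375347944683276554394654985440597532162648846060166915715724080869782302792680632753257247925718482915399360384239357799715815554720619363514139803961174562771532093476766659199901724839686894438671245764223773897343740275272955799745968077350086476898533221203399722440792954701490588326586819388338298237569210024637381001926885883430195068037204448718729725084214388171649608451796145787285547155579022146185946683881950339751964295967162727242315123556735189214877186735325763298067201198158231958732062862777102190387908649053695284153956429231016170357545717512948137250557925949222136768461674149033076034031503979778320776297741501753880031178539217269746794702391010827515106446918420364223880890875400265156675383935621335607248773511722448288406413482235915872253522717331393241252286948709968963548384134410266812696191767993163075722208725831959292876211138569321181466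30857592093456577069906824727769813063295936137208816563542489749420709355889628514424279658018193170763772916416647956906372905381144312581127310115965051496580461122087092897967705484467866879417957244280799984765829380087904392693983616275936038509230848875377234206619888062565707533364526749240780114585470887380903842880797042813452362817585295969468684394532972101536386518958261266985925009756870399603673027160319880142824208878277752315570075684707632790091507126392459795133303043714092116042558666790924279247791201524061367029439548749209643604233267320968960726687172909725284319489640616864698103680392827655151139491349517069950389229275278428059422649171389278457517853931929844039677502213434634633230905911256437346538686244642025935863815373789732113739283273531667303783176417027947185859692767920889949268455497629031601232073432275672177009351735906978182975625398630688586955074267901023140168647299477697652354553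05679610716675768012537189878434482040780798492773105638539169211309701001485785283757190310141559683684755380473053659223206317231654391715598195819464556187943430633307912363525631360449484244249494336371596444720304828435489107709998294160108863468525238559194713215416424594645526590527401554962093119229010103788592895582871044463840435260505803548928055692795901492606028844400547575560724149390102906061012520710853321515188470730746386667210762688746734341349411774595499656676880046875275903659940890109894913829388017866835209199036808967503652650723243976017162800897404636132264521181425345428692930498571283228353759871029527843548215396587304777134342566771627475275033251911735631869313097817037500212366699942138284371835476218680252793431664341881379247293660444209767244896274038416113380117227196607437884158272316471903109119101815380905474750770062632769645237018989125289385059229005340233946045677252846060158211203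37156944687337607062587481203231413416212064511495247388659382443726327803686789985427045274819816128017554615316209807518179193243295950133425506487283947966796173315306423848739931617125589528966046087900448455714872148376143404382101802964707008424838227667355883336730068411542506346511939877763596083406870108182897733979593539107252011500425252027205418047849153699603523729654266260352748772976107903690335210956407262665798408936936450174906050793783627332231893632885576720107731460032420148973346381966431169859274379455812808129798590702759537909649417916595121477080066667506989224335850463201072284081645344714765613294860190448869129092476621985269469916060844646474657921048896056356206655623647458652218416801336181034846319890142309851545859201531371864677459213063980591677765920416545546965816598061370209936653257418535637932218775976721770090200709421958251769688663195442005360128139835407819781516698017012136062460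21079966574604049440443912261818618544044521128765645571117221595508795259092716140194978447565010266977482553812085472837312565636808163589555569849434341067477995927370002050797732115379133209150113921100955792700716672644567306606087105363518693935287747037000238860082665829525886305278250265034097871506797281703718796775073058470341579382682990825381332035247945020627242080322800581834393200533424408316658589185466976402803052251939614434581923578796246012053318823740143098986964630390011975996406620715695317163693329958291268427687111107185973704668443176320499837038047248176046076070805715625378541186348745675956381533879176215437704352402323082825369159293863735535344599633456562846921477295685344379184012142309528795299991895707084183451351436498321806630638400890510906058647081993713415003344384526179943633602604483776086396470676911934057442703020067383530028348008329527998530651738798353521959987750625924970184177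38967676920996483535108032266734962412823913014989253799301253640451186965062627711079447054704967646421552673780728934827372794396440104392970388992240840602901407601565626710044974282507939034108215209646761331517673858482563326735996971926572447964853049620369278916306057179873944418542023864443998779577409737477263780262963197403060164679001340377339459407100021879107541404729062177709009697475656639322586422448848820192535757217896842795144044476123291548998077571717764247224129347906529274607397550656659430927461642869031367100677797515023613763790353535116808710572727562040255222721541431057616839738730106069524326020806446463476345641902335219722055055123624350378168834449857308856186582263818564444592998643130112084369802071112891125939802073371809984619203950269919145773984332300826643243337369987501117186509723676322586258944354890440721878249649026945815345125841702986754346963775275817968827347629484329545304286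87724136654355622920655717627664489960060153754383756295219408967888468891910666800474157639634866074674009925506167053388041666746907995573485553150830135939313451028656657598565549236267750953082629246229755396452824173838295912271362759580228926484380612059568453274708127589956460736335043574479865791360568269499214274517748374023344097819487019909973316825294128396046512210670826745912869620771216877994246643839489677480780287467769599884458595691931588088227778543200772877094890114868015005559171533483096488153901965675894934246927112892608829244447177567239127219771885690791268887412750425641161511826357085267263668297986453377613182042645209253099290423797988569044300571800218803902635185679102286630463258638882572235864919896483609281749567166960929339511170856074057475087456448859226316526518149948119341794671294411594208065160621512182506312857000495213328344767018117215979497206026308590287172687327674490271490623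92261005924918211966179874776040423997520836428485057672707931301737932758286404309979862784559085596157308296377335111598605377575219178288735862692465108625048600848646920194153478968310289550017187107883275309890458384813697657696868859608107644188086864450705855652263126941601988121873592352734570889590416278602772081398322985127429908384431062002038627838056782283680595979390787790690980318904734075653192969992802309663817058313191508815954301664666790706406658838786150734306894421964359368545145871738880164461363264834974044769929390770363491700485349578525421547631494591196494850777173927861667901790873769432829910944882428255558687122728518933834258982734897882220148595741046601153413152604102685851334899365651485251328221561126583678905432382423342112771872532431753822740283495267387693210344539095317375032761257748481473840849435201649094896500205390515549000487414249269399929687980682884454828642338239523607015358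59907843684659304970294924700458671500398015832979913911028821496217698118023505149296523050742973943574067813739700440474714998259009278541198813803337182245512697251579084618154355159934806224543732719695491419386597060044410424621721255425216791429141425744933337786017616272962606995801654725545643260590945629122844387867635702701385537229514472106577502353691458710009422584321355523344435669824451310216420386160542224914589874568698439933300922401521634960628730255221308803577245883538470156220182052242418917541143724731370678610703649721973470913562497204133997961688257153166900654078659710819154006559280712732258991077337713425101163288899345545344873909625100188316361331089568120010183093272971426902811062482736656919183221553519195641774196096920583802814062099808336166916714557736756416521270157638370039118185445315244734095558300440797844464350768707802877739730154191138537593367781143915071450076005207999026403657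68277086915225410583372036678457036920505762747736517381098756873459640701352333480610264686452839617366822518017586242036568755530196039149203250714316143312844414851894116862410053516215893844639993533485353190748178599021638303884161009353818558450004824824604200493595472468645389557538149271869375087373866948827234498611538818384838551017043951093416521705704249980478808419148386655829147051713666885280781790606984134593382286548231666153383849564859537687198656625603005231651311120491326411313137823551412244249092809009570944584841314445456828715220598784)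

noncomputable def rc13 : Nat := (nat_lit 1795956296616637022940382918333992318733320892769119151760199588108445469936324931855370250504055378825191602175333566502478792537582406757520188170757376492843437823200089816364164899714081958351008091338120415780523636782379398684727615802313930277460120250200124711262068549420102633458201530608756853491946909550045783063808707846290397842370702263136543676863101927553854917624068945370922213922079201087954785428589374222691682251407792287897825898791409947557278916753631215573881652957651000677809918125216396578782061674983858078789826772249855184865286077662142480619724346890036615753296668023753603650457222091580787847046026163899032229583742192027997020577372444757154095754818863985348486249051470751891366723330555643307146235931958245808303316924744106447877696557689873834870880018688947839289706179539109102306512088454914697161502132693438765559155232363768067734753119811955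47480916278956765067828149025066935497497265126865702341690594538589759550575716054625577512728659594413306719087164115653369521873348337432912328105681414683359150978849288288279812028387990250427923977752453424795587708446568994940891094084934819053316313771217868365564721252706056817826968226192398379456889509684815390076850012919354851636060745879134665430727547502679381711444595910235799372957840745383850781452033827952771309360207059309665965148233160370832112154191962468120935581691286341509673379435325701138288725789119017553783738925452983072143677896918597867121641102153725017007721428500865336434339566233086323883930870794556505490287075356652680269897571182633331575670479497771928254691066732951939154661522267850266375931767075776544463720846245405766292290644989797937931536096418195458933782516665915725500849182564154541011533698685616999098310592603960431715501854778712205906694605087351685417853008368965266720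99042618870152718318472241464463676978142089444017659038971201037141127248291188315312904058254651282383964679078793256507743231213983831129523998082116397119823572777469600855451245320511710568117493865466957291579458695773101761546085779627316198445395279878879922838535662439408536924859602511733300131127591062509765935041027186170533087683816713677937210818737384093558192524827879421841973496252046049421575294994217425620521064807780383792418448447449437523945542757381715108821520200279558974407836470033252817457918893276868285071672559641063735580733996864964694714221676339163884814658029003031363746548147791132446167070638652292956922234590570275864834394367692757870104784621306577044284638623136376490653583881964460076053835070718126985833059084901118323025891844459989366229592294751082364837116580210867313338096527907613219258320125234433855798261958833295119565832094039452063936817234380073017915098804445167992432664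27685721744661735798013286463582574113642377739206839298328741326775362399614602255990313838563732255287701316040538211717579846526793104864653926058987291972473322453592141067617821570761737099431117795866062082295752766569527835029929532300376353214090728588037646252427695665427662142573236980763494656377689317216449192884572493137511746143148801489857935021315195909206418618095176428746874781548805939098954503698408471600713185054548618725837742849892996645087810674918662799610776576121853237805152524456134897170558580855071693684956606770394279272500728156747313549089299559709542951966298332055948924222373747348201376330852515893885622226722960596899925270494751628044604061165367357160400126667731987836987054399708259299795861260151739783385912135648659366884510032656498410131328927764942130324793197791298442316912976767074089899351512962244455260623292593464677834340789174992512239373476523581574000166959501456978753107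61149836845298417217863323226892766165212001122780139591637841884667232736886169028550498697968369533903388502985055396386676586180711238026486695881792816215544328496601706830736637315534237265843666556228923070202794595583136839595257406623829475382640828627299281437913863375034063522709512612153522052646668612411919664951191852747779899432720533594088645567644071452243670295787496283951669790773903432812132683880516250799368311166950088576279838512068352873467519680742071473220880640764855509292868737809142136562333179608270981382871908857186577658362229503713854915969986847744956026955022274419628272032481992387597721958403760317390404151949901350192765383853974834747297288610477824661020475511260352152300036195032780462944278814875134028873455814832219902811555730371956839233680646080833229603472447663965809741775141916029271998554798411282439287979212569662813972582062982353883985574144363988187569391947446506293219179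61982659288251465777923575452914307024423654243926473336068798384446231753484369389855640369681145310294103533624568905166118791303099234939348832501893936915692516331044251280439181226884788335165202725479197328774144240903920466202593207694938739248482567585145306984146169919610531194162307988026620501235372053207205862365442629284228262612439553957660847624903835530313832453732163649746095353660044175772406325317170316910185581808601310191809463942016172028906271740035863543209151090808549868556493515000094786283412651420806710992842515015149897953077963529645689894376135874177769793738179890402010487333883771629154464297079445563278022649572657887569859145881852537964889469797431541545932084910304038646699028456572534641447857686531402600257652699745395373586706482639081101583055982563801461687298636113401885097892485174115214893258473450853478741208016638496677920009329169848746516188430005359347095619609331829051596660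70410517252610309226121086325037035269691384914073231547488275299759714949361217397188552580584744429505129105834558388385476390232470244875268467368027641945415054134249403708229983021198985731220339228050954187550155926890027784264589334905064033756588790339263997531247626583809183643914653748663953672446254497612146107093602774637721190551027368838289537486895362680890811391958620842399420124236694587939029340215934938101565858308025032615961246022316375742878886758976372921886457659935801385951464318626725907354143466510240716589913646448379943950630696086349374590397083854415108608302302034500016502568995915289154472781889115121544439704668493345659674598786450839427401438947175960646078313558899932175265556675271136422099448692317247056500624344183576408117423769403654687893007974242045119278217457147843004026310204646145761767109961756157942565823293486613110688530641503716610986484007921689871921328502785274259040052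61716450316931200398251971034345953034333333293251775580747857779425801636356305178321809202170384334736340493458347688252186848883478155563070678094593173818624086334372363545840392275841266445375787805425691954437364277462962089725368905375455676502986320339422822629832757049038079614454862234050340714315566847530247290190435518124371303803297121556326883342772513631078975336048938872650746020538471781210024273723380498740045406334103561915129461039066640043672516324366060437024705474803536959613487385699133189108951384503582498451203850969294142234167961662628298010723552685628666654887930837224473966171774892996495193227787913661346901769082610900593649869876065487252363592675548485354768348344465738515100869187176659114925780115087406361666013231614144402351264420949034530844655631432466875814528839200966887635485878542216753782082218392701574743558519908085525789425032378635927003746513144446709952582577963659674409110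15503862901068794008680759648495129794935042487196674376035619170483231435565882448418642426538947883487077752493285359419552525750520177625748703457827741201368884454099705952826014110929823822780270669436131852298273238336387886454051812944151804989696348156512101203812227652308297993945594673970036541134147276263906363934759887517242105064526442294473168418936887379061012423369094283057040092100289797915784119920301274725585939436913431450869434107031456673615286540192525110593102869480112218672912093876385357210735247085873557038347172202936344732561655550455350852291207867111397166712307235034178982860475817416397935973920798041798871093783059735811306965515307220615906764919034975206173496778203110587124356601411504664014693045220961839876559303949616454559237863102805880236276033621528041040511077117905969771229618871902922630256628103692226176729376735304898792950463318153746867359162091431551855180075879430239683794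13767770596391126219643342787841801883193477626037213122187655507565505184216854543364290914066843477688166922243913693691496126872082221581150918787814014046730620372539034650615606918173820327280229790420719322758038354120221291723254498445184539139885948712617032316191548270136687337599844340989824013804603792842506827808135073178040125351710626138817408674757767692165124476389848347605528161526866241749177843824766345090068582777484127897045008760002589549985911693064966670828182307000738120487378649585430934734415100207855025694077463705040654739988999123629826898949539847194896588129063598610141829948683896927849815627385352491366712636333724108344789575621543071807530506989612782926809697402898247447459917796429904975580670421282443941121693333015561807634023686103284507653109433443721516528062036704240268088079728522334139839040205418579627965010994512516725728804725496951720784072568913378242486575827265187197889943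06150283612479612458284880469871462284942616133669766610647025007023939515826928249085474053680480202133238036892490897706423651208407599467387053487417723985172522484209162267010237434640266410664215596609845778341102147980755882418165707298245819942760695557990751178711322385776673933687059809657588911177955328551349592478840692006889675900085259690563814925010827635117820266812365808368996506143457017977740707787640966995119138048397022115466464433077510224201137466965421621217219782439883051580516818472216659574794020112999459039473920603162122563345851453260770715926825916530835233432555647977211699560291753944651004578120133793643491536406674468278072201628519249075347609105567699758261067279340997318600035853282544068945427543436141917826777154019836811645273613698730874174655390333490252278823410756962141658379270632378684492808679335002848752775282199751612676185468204263175313375173078330308536648933106352297010399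79286508161584215405711559905386750395812268908118624901452740039601091987547798357737085235342220751584018520864117251811795943895013351081399670468611471683217539881830223100970112464870677981934098678514783729770451296278253323688222778561584734302104717727956569162437917988503909341141581635252204015712252899073898490129701782928678818555851165265653964075514409212343211235465870821759743474734221467255815240056541140648996721920255458586612476577525571397365270526735501585861274500125921259978234144024075849863907644742748092044548936537982202220513348913555766865739470923550308898486456520715525709032583400421608147258873522169472593346082482498794631002329078895919259314557072076998613682915169208772922973665220438846239145470914665118422427318438339363013663920469936610784275182518914995332246315835838341389603350740875154802262808905426292375707476405401293456171921741689856125194840248209579258471071449234418685878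53686466574232470952342951082586706767545222582301900565793308504700821442426773609479986935749454474665725166473463013610085393253484801647324545358876342368369182345581956392564283334411326305436569586252567182184899895848619956302981825517962803085353432729585923093046068870133785365193105382858651474221940663135307033775047246145852944398281259494292343547795197165637108052697457696302772996026458109639014143168103055923029411683082037613328709941342108726761891379958843176852958594879163669363971138397368039229688524439096759767009230674101539871597165667010577480906567756605445350913578013348799602849399626402782747001635018832929867501253108748808058120578616501391765325462771980206187468460162183040129004357390553079417471284717431651136501179369085632432660209004782879496288984811522551282269705507515832204076764373436932048295823848415247673265803139967258758095570960946689103365709090749455791096747499986316207741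50061656739161595320463034015557859370448938040940093260887527770298700386832992267011665193627932085601943099245292682048638152042718763962223422990537578863612301684846283259877498641722986613521240594536051884985406364266626207207566254119945900038156041830321192859029099812151694407905641986894000369665254287810320613139904537170103704980353013891884538251901040702062328489623732083502352207155521039485151576135888789458057184194374813940560511038498494650505420470011254603460015518445506775282410811418774964352048756087480514120507733554097038457544060451925555912885525613455322773376576677275107701087370774683201800105934948922915757447419686356691258304488140385168698517507390096549927564987563240339480422558806750235563769564371583282788677645723301608095146515585638655163635373534946453924760502473570294250334933573987175528342395219312512604027438244530501483490382851970444897333617307226000643914663175167464906180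67049558149048980802257007014614473402402943703121659866152061678869127282726902195820619331430085197180038968133855939505988776037122426124567091059257386332836793069285696460965125334522677462729564718427237295009616820831613155272712511527206292427468641478435892835532849492453191551633548107622233666672220437590136360686182593167593679903239629971663055428735126806164651801673398705922674322494652069425381171555146015608905151906856066762757140843798590632699347656124131187838039238906364200883317401646599683379136392356084363651528756490678487390363928632618668212143408648982997854437962192053563945393473579951620470441304319128392557167948380265210278975218859567715640570120205543632019039412025726093358099438526555608117859732640518036243317952450629884268942289516306400648365006244546889918742654256521821570247240455664457825364594274000217905012994209269005405250310211859539567391304858061390317443748527689200233456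74439046296408191063055647457190473970834841998459195782679819403427567802890642224371895342003265491435261023166814265326265600761594115245762023999761555136494684504874826449404056064878886009482167439911921355489153169819626453769796090065845918154469914140994832924360875778229942200880048219084632182893825100488194869879841010408819579836522045050229667886360486693866595941207997756311665533170684325470016092162653812593137367158168207874830719327429119974995730959326842976053952734238138550109268121163314737998781754495670794130709504615263306498196838201364483521715286956408787473517769126290497963717586360929111775473302707459481349820210724050488312814270196187459551935487947949115178733052126613754205277620400300577034231936435702427233686242899423196505756041152875677383200008688463749275277829359818663490159163946545073996801789625221417485443125078800817547786063034111085751671397818161882614618967339965118980164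24063428995032161518895051152592133031141828955936065621005151881721185601420779357757066092831440416206150930976833341473753533398161744376302591479239158504986006943985867936451126597110502699222012343029144520683181514518530893809009118602744396197819854240956602369426722345675536505545981167924632505787357250513058986039191500115539700183623097034455598127762126565608443242704044270293841519118713077467246661606819939873006954105558885889759243214339219731734129806595893136277683421568357328061352762274004470968967069719888091775944528842816588274551759021135495343348068730933361186473585558652022790092125627898424586799518347712950786628773694595487079976664531360442737336960702223734370707268484271875380026882851374808487291114280516357745157214195318287827745493831431160246178085846131616497656034491486771474730431940742492182006587433761217520067768229870059111997592469038802328297220346447006999607494647468275684532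78001560107255398407950396616454960915396999309411677850904226879026979118722044572691116966855504035589236914422973938004539061077854533829340735835716276377328535954926948345513029420412002680285632401957876283043262575379185372353037122390599461802945046945329051546248523389025396754557620629746432311840284732415236346233505713431494049464076520260655771807630782146738070548612078368385415374225846626989620030680444964074483387127583703583891567316366285569324956747645333027702276049032440501288024584488594969843737639440509877903092550447213650051344629760)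

noncomputable def rc14 : Nat := (nat_lit 1804150017441288949757447591692084017730237336187191069210473951196936845313231248965060139107844100267256184402984884329772672067585642878448581396206061360929560414537184898907943450160099350241214643983411746384019823926076950318526783236225117797552962686985829705043932421495206359838199777285292932836606934266281745651748789999947883183356511609792571135451266718072352660122059832271880848265449082721843826877583007780983451073562263354650048816577968412798742302802121790622895426023488956973513090773386102696740909424497914663929521832758348018389435577263674992665648710738645334207342226923930469727061408854629813574551688501328793304555749420544095541315657382433034601259964856665602725185860036331383228634202151781761872894055922493730499662444943157894156933113451872064806358444414686123951718552430552587849492084090652124352577152312561485167680860141725948493425076392621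70553840777086802661558744289196516047843355576177920982809572914718343749539612852367135796391216292001936669534767527262789912400114647939731634042930938194998411654688058048155311258706545968931465031441871405315571412400052318181406848657246636748717831357719746471900500577845165410609658255757315160069976290712623784653479250785557204521948693788337118655495849755706875642634763995454444709441505081545318520208273128720047934927202489739480335377224104670835353556936743731505610960468486667480876357821697025919298981180989539905471255405541027145361447895860656315536178377527827568823868577001916843997121833006362890139074131998205671345437285043319484001982797280329623086319942010879381729292272519169483550064746827268393395130955089345892954625084577568356331305642792769169432731713093811695125511949522046284255641473931831123725700480647840020938291589089360478474549432575029539557122001688229031677797633113916857640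09824347492908748116832909800493450688880608319821992168155444371252766077829125995421475306343417779971909473008614596493641479793226767052181242006255986060125807876990708053909490354148885928738527472921940300000256641462221551465884881473882503602324065329355882665983749310561509856239892002089853361643754993480129809372492414045846894987074677551468422210385261916942048792547737512184962310841554919230321153553507587600193617385095780671038136770529467976117245219090176563470457753832722647286596959722087717828988147122152686344333529097702406110321321668517212655777244587165356710600126428621934508591761771874221373037869576120294170985331742915588685804210972953788714494855065228937635018004289136362724877314846212491576766222336276567822412388178968781951057737027147346026579462675344217715183429792902916453333479356381437885272066885504530596882761163581862594765391907521537271923938300396995455366480241307548381281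88799417137599436859248028173075096795330258517598829419921976384951641506347814838516880945326622840341761898594470006111774143710853711505315844028239260155167140399167549951875909549546535923076005387972637381424434178735661415141518404269893372884997107919832742491122931538674707651355083138095779206708760825714721940735473626881164414211530078871838576592291154425569658835612651586848880565115606791405475804415271528839687186641546075870264320322214377971791242681718014675564180088266778710104172729835408799330879929477275493294788762990560828452694649413402932062757816398493614787522041538754782503738354132185106262015920468314642782871060188448734400926136446890590410088370787742072250228843669734449578246230484779876711129626211513586416118262225450914002110465663823358446680180765583959620342353150783798815960565315303139499150836189885786278502188247316542331381833724567598655688360585010176396080491995414666033370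40310543385407754499885502785305597878747154199052322319671049921719847241628321599228133823210567811257254311823106093747800773508317365973196046677078592884667487853547980736933720552592901897504093307378605344051025231300680398298124971794075362985842350087833542314731850070522352738832525511892695384727763180210158145685620411294856745839660232617084662357251066799424657247281625817651059004898286387040560023435225414771329907893444332916190226177108305698311437940685638964169871828283467102567848785236316171120768582171656275620738347495783729451543278200489449365341697784899686247763088788166960984579633287351580926306808950697581419605800864340731989251102350628738233774937562729209944751481852290020737222121918666371573728395987013260939330709296696716677041102847242479975475367176851706113284007911282055800991588318260540930059547204318692977741589764189403096193964678429757989794045259912774712985361241294935635776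48116082653617034674469243743514582861322360307510976799198773972854307920597432024542782820369686861308678007663758814793016128519174247165917949305675851111030596297370869837899648105621797099429345130373712199021053435996334444157923648511028395140827284509676862218608553243859970915222966963761752166310094965648509910352108222250326204154775764431324112449326912901063510223987911113167010565841585989711930812324846434531868549207926185048561190628495701310433526308111539891531825733723863003761367811324206180120576250379699654744003608034732968406444817137466270785918737427039649289147062579478043359941767602863808046818390051201378006894615081499113255302201550517482352269138269207256822588929076347617274989830487769245093038294780369700917408929921949994724810045257490222867771751119871905671161304053003168842256634905857863965481341986644970188113236573328588421790649636063274353503771211429120441979814526754600205683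75279145449814110706674625762359764318589697252215886034625665957641309250956237935818133189400618204380320305272709788660571202074058236805928009836896975254280311319868768884339379371781423814545187734045688969166852746488489765676281852021246087405458837087368125813418535984406539425250802684732213759080486792998526325244674574010157750007834100631840482757722949590290131525407867410801616540498814595316288972556883978320809289147385254603583343076892079719927575388717468160006998174551569022605157391426730289530964070114967643745475929175591132967134554592344897224140383841735838969495602732168838089278200498149397618963374177950098615906294527399811255268163282799336221383741280050076786363628870069650346323618440450640612599154170438840325168732012166178401381365681399216923591231053039618238705182230362492000503579668909145418747978705134397339338865605343343791702183248541840196012807500382560274428253022486357686882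70807746426455004438691003732950448571118432433812934686270664001322373595995748501400588004470509165763078713284396522302392157965403411962751556765600791847239395750482024330090192919352064020968782203869438671446927188277562343515511238781238843176777092459369147889001452700057355463245115144597796166029158333946371067776033655033417707935444453823402246142875997717324908656406707567189513480819513221770831846019247631839954004116031437298845379405327340707291495971629772931627580316171874122456722204153222850804916919628175516259822857579428100310423857319692692425037812991902140201404221734845486966104072666060343408252808233675596092280708298797138915509471400689062094060405957415980681271266578506466577205682083942732548667174504820835238472829741313832120330513098372637293636472315478871001660644475536220070084911255480022646953332888736402138064640355693913114784651353346851461057605294355254675176549112594811947134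39636554774014582226213960553868888595993629861543854404339789575669050272174244376585418989118664448013501852635969184317809815909123736140173277436220988050069563058867087330705633420506327738484978022256153413224407916818006197528025989180927044132519234607399014711583048590389773775986156797926683221573497839484059245606453561555791437831989705870851318131032345636304376358268415857657476696045124620155326914700273589965084534280021881155704224422314872944733610923806133871231656396994733502050742432588248120421175101310674876644007586641734734876737563244931455805133676661064118222635873379054245357232919249235351309172473313529899361659697863309444715215648903238006625891969821037289166979134784651993271606270594980757862935985743885407924130108178484330203216603951183515941221980814496058358680343497742062726654940297408151852339224930626645391139509264727410042771390100095472555030261880884476936017874482953190483671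41171480969027066324201040288365015653929840803095044018044691908901488261542975507216672141130895345527520114949085170128030234993484072607422159211597040850777190501920857796167026218238281092695933613181651593303360770460594537847247857813413204943179664673909298699149252025252390634073944986937903605058458114635232423858353115831195154598323125932816744477932773204590754708904204168895095241119717938207454821970891829427486699272528937951721725282443899609201658180297268971933742676752182583558668209197740283045368485210343782660923808806719628695444258145096184546759599427901627785689282684296654385666392333746004742891995561022363432405291547786846560014348417497387219126652581705761987119435218562267634553703782297076571518652918411298980033437292196091481472689887021413144581877505676674937836275676026635487813848467811409491508860867535303167256277047970085568829894196784007600987552273024241363227631903432780465619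67146742101305908401477057477517917343656337456974191369880989543721912265690789765420122481342723695849045391393084065099534552331398378586793818061131942661707573737026468541000003743374551176000394754340776262090960692220248732321860982516634149856216406036960392295549206218313813832405130609656992929007789032735636688675454710868191784022096974578081955463917995569146851136893372309726248047436557258838906779941792373574970679207588275849594228035879715658277569261100187130785948498122636348061547146705287289257558529121430145273345763749887775037701640019340429564240967876863591873022291118070058791626736148576047197318270891559644864866301206968749113276044549149095294997996710660881455787374486232342543814740096296101879208883925013743491752111697263461071890590275147155397853535230676724449724513794472452402519123448508712656027855177491695156117212169212080871797333041866095914542930753980867439733839273773798329718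57501002374500028542794093385651324026168710739061271979671890068319376512482249179082053265960427340328691305628232251610500094604719663037433662417244181645768075327393855178731874874956764547670001142981896262782681684368743694385473955474878166677248153957362875132346521639377337130030972497928862621775757487992063239683930925178580236176210679494708409248192813424820995624328935842148953201034010322471276094390496166876245974617424825010342392357032959085394400651982025458226787766378056814745297452797960518710704926092831954932837271050849567958111725153508742506824761002764619918858534306406388383808462094718031738675648603973245532000616971177004232182744811949363722995496983479251238123579679091840247820125009108866779343980923558704494718526277762610143187215955263784828932281323450934943003117783183719206903591147728184052667484855531997495518290080421296614052652224566144112297006604699548927478558264576521584165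75878677732917925275305550558766910975943506353696601932998598040765517554559606432416701550303159528353422096437758487781619817981823573554561745862236197638894922785305485248701257141576823981688276820351969526482881135796033745921737142446772869143617990932221430821781504167775068817023033786569914011604620117679238454560631262749372030961396346800739249689803775294250477670418462102492490678888155944340001041951996870090680770652511452937145556309015678245039564387566944419171150313351373001046132284209375604375437813685162711035765783147633862071997162793578758728039485156535304125099768726674569861796186386924841262628241197754751661237783016491173699042228409962340441669384145660039348087236787913057948673207990355087135794797783563529040259050671240374197793173187141589164023034387611100566913705642140882954973210669534226198455664044077553374120447340088082304713601317116300809026093094275604454453111826560151319473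20763268095862165530566700172082467753717374703740875936630223868010363599500538472981918442966052857996396283022296825359110700058214270731749743856137756216567962140561964798678223921318348938723265010198619759187810696435307570482751078228214180946139721572859650270941011597868647029436969176476394834656905134387091718074296659600686874359295216337165060356592077661373992826580455186801901342041532118598921832558905112258550679629668124155663644963214648126418195736394132487007820227166028355221872467747129171922274729344342052445922674797207364519318014291752153150856381985084294349565633996591508140950842236926378462513776584849587814560203272053084875840796611919412586274389707448587113870436233750259727973805010759352117343732778107170234336892030090890458259299584144995518896188179557740688575917319873967058254693919889724776365908032460048132362243418423304855690222401766502047458880311284991905228982344024452336402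11297380109761723889335407138079822549484085716320218962404494236094656859890789091933455467573476778198095281181721847385396380318404072271620516644676638222558503625672515955153753138160312783063715056385735392630796441437106017251133795931526601662956837328428395646466635602613631666034884316481180781092820781875258035609300191028296742791322329099784487704626301145653997916098491682142526574072953993716509696722044348893928076400312921765955490096814870357686377007038187684849106021796043239951481936383748301651683422886016201822462145730702214288186692863669825781856231399807106270133905571984604890143845479132794293678190825850429192674963621643320654693099538498754912458210920930932112938621700987105172190985977906418797441086672055093833376841517528671490615706629033000828365656794388923430954198074509938461334902554571818555079960593371169605044284897190659317770811576369205660875510192295234318028286758704530358039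75356078374744895571116098940318203641124614740370726393621671189503939105129771404848323688118629385025471659688753692825476971335013253023894548779733231132870608897222036590448833557832560651355631447711973255732718629693350564379495780223452301546706071809139275857507867403221120481540647321669909791482413070465794308565882431750944923540034449257225317240033058717748825878218680990028907783504878918274966198635575617135294105305309369169863074764642073080561049200107425459995783312195897759597023481256317683052775801010617195195957272744789653158034860422693805335136111026254768774305246143843301448020089940812125081252519991432457586227432567578328677707323904120854191821931246694921615115730344759735830145026819771813667981218693123839040960996855845399343983076406832475500178272405955133610257500113139202939424431927956409947302243090979489833663380885370082556022981394684055057846133047582682824106819702169671564731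49782249148456784117165639394269152452636111984298511220243838959700441567146647279635256682160778516510108270378071430449197256615937959932408913593240491797187697545022401302754704629133780302351736625523826914834413173717750870993597660031650954355642492957573475979369525074970613654229741750177759122912254202494592439576532224122756188527916868701774613788413956208661589265562816794666526846537827005430657540033487725682817912202011085581822050628871547380692077171755851016239489829321221749229708299677779401731202808821392771466329654643336032882316428137430356064099681133246375050086547606040872941673137663446275872957548044510346841025752763032264653312465564466574931147958649932282474678094008914917407173594696029031894316315276913371733496248158727981426020278746569049126395987487566974153430928299091185760370030461082795085659753434282483260042257272151622891622692244050386918715431265495885389243444496896357694908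79201361148854046202648150231696631238831614929767273923151226195601563316671928057953456112766561215045242872662036474471737268337674216159378861116476234180798610501902332265875354116275700225109881115039239792289248161936802668899229297535897132472344757660808167145075963954880775555713422002821924513583978103570631495179030517673250463097198241812990360973695065152624346769714338081271636102282012170853961488458815078595473567626842964506409338101951484281566728486544780726265211156542846226755439795491408104666797769358579477349012862255176173260191563776)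

noncomputable def rc15 : Nat := (nat_lit 1812183358416982220733114358975761359321247849629601711857323242237814176039784114024341855249742013502338258444602783089723784513482146642235276456711558409410629536452544760359447380097588341642574147534356526205893123573328154716690440620868152572657621008477359947770058835057127748679542564796536289644237018996327285695153765612884860670435222728488843803986483556294273591233598625788611531827172293964377572998470406990972652125746779347827971126519963034709203693989751782138034585665687207145965585999696018211444062755491331894013550482573055517026139820069625545856488286197508311488279572536113621322142058274747062282778159113763196966328717154951774086269961867662270111093060676096897179166772617666908273522888009234248265470080299665167513397709270377289465659193300033496891078593169582921478207982835190151214413336188639147660681996536427218305198224344678417005186359041071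21961927381261192595788208099365324649281073912221318322292394360726779565203013808341320972747843447753617598525081225771683900474217808499633421688189699316595561992778359043970439749481044283117140072943233688194228605270292870442374024537488909041913573876746283524466479127501581364298784498451753373232676484251559411183345354919313975031109440253907933573986918592992911530401856008757868180749683998370056725305279582040729338115199203941290826510573182573887268349370008013995777255245231071289920943807233473639126523349083888863011115782456339757730436379869975810114483600716496081738757611789453661205584513576971422324625033464644403943352656884098327994856953572085757537288722726305851208421353880421958830554657820211163457802345218719488647246221111679740617394041866426260921902160708551049002400652451805245355778986967545763568725908284446203425591014238845902388734311512825103230238771576167624373200671398413538833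01313760089117225842982057705742705801748938469346000909111341622340714592293327196606693465123090883835996180740372121489524223837325551942208253764100119759967314802564953122373060092781894890682295704302914129902163638176556462124490660800229757477122098591349482798818802339303226385026300448511417418752897276908494697879035480798019571978320976035234712649611448985776669529741243050873858754225327494454429771099116925855078541541296949932918297608997206334278055424464295610597864242127438410972006103801787449186618615654704796793665398075371024188933238133933202662440261814779748053169837635735242305163365267273415342936997906410816804202409129600461755918303613384058381488038271729624794340398960550369412627813726529659744492217564419294217153302697147451125066926563944415222853117869448920490852157366329470869938242829316424622268063540223184969173259468629259555233055022170192439152547447371090748925774884691884681737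54209830187887184693905399992434220671168214378919888267691680012054195076623876347226762624899117296549891172692837472811228128898602473611832674700887972080180651616619972673525000266239224067531543233902817219529862768811844547596455325259853681645684061568716872954440071917989018593600037396470396951567325122102457674206792613472255688644120342801062163693767701433665286996061099052569842218412237294532444496880012240358321317394641528264839054553426593465389751817825340274338211002984602195462749530851682716807109124089389968502264828078675239895629571984303093094551853693587692922530022511151265215910992746284961932547136289955817122963324681465175082147709939110020495825784932968504162985521660686479941191021180578094186482098853654975476245210482442844281961604892581039330667417832821376642510335128586302473334330639543231201659628467485806322499528978362783463078202614714323005286890508059880415602208769230538277766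37073771715792698871993925071539414419874612139223327312787622273084461786750688962624152344144348539839165475380990037366497610346617770213048459059981960649479980472805692155267067038635314005449365761050654128104042673852764225489025065805237270780535403819849194256260059807682305795274181349404956806102479989800366631516391278072444811301467220870759297651696350365612578268728712134111693822091065273044510687347009595570513775850901993996748715048612635482887809731580032727820929169241465886283772159912671133586247145309639375320177725107904510330433699014454081495391784727064815068879346473202988944034808424925227878431600194903340884647097985811525628903828548906491983111582513978138223577413578301515050209088140403008638470209912064182310614472487498596206245058950714618602209029283436726100592794423210470463765942201617795958350259825283143358542446660082066480945399448436888994102965892005029704723898271342477621628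45105698736503985848609280957962218960464682348693268670723761886296023801414836879228270742411569488371305878566582181045867993628097477188353925105285846909521419067564224688362476295633720378611399999158103555009908365984033617895494865001659352798828226936325394103217154241319913501339599058548048372132582117020622841365165625904317098384257924680032635468940070506958064162238433915481214596362628677021356932088478161154225327256065870308069095786713718967835917424242269896653947019276135783209300535013142572734413899642054344857473739301018954925210195594517956510548839248357233863264060016364513212654259506723370757115439368781407823239544770990937148804550275301447722465841779494738241939588082727303030312163380562493755729868791836802790469537839666884918986742240231379909731999040770638634959097855555811873368770712239499070699292387681218921926394467649723147776236453780693747075966233092484915642706453479382437513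59547852542308876715986006643611387781308148600232726034632888373433528194485004441004044896242765795049835775416602207867578775012670328465477878548576465245135241595039996946429622002287374029928982872948852986865337309975735887070373085664182603376984175508816606839103313000036142139103569831805860975456863634248403920588721969773650246767703012790338699906296043841398233841632728030012786736068679968229199493752382536749896154220996714290769978820498771653115384251714185245469136989543227780937174924021213446038659151965961366828166414478542848682118721931171267213281107726618718825675417031330049496077904840867937944192590124803986349263676637150766466540994540331714697254288462647019387627069629692680338884247683185559546311581676877481336293830741638595719609937975942297678409898755938233895884572486464814476526629845604514360007957032800039474363186581341641255628703531776162212396454252019892271021102918974667664801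80255907611881650436453795630645336711990786011087950527228533155410339406042583831325818248802067112901502779530531513838064701710615919303936678575587314210888753433965296196696623253633960217270904034154832875898334946923561295743649809448319282831232087646362187439871934736436806203978169608133025554841678350484545258762441813724055320795422368555712494962422248949627227381823458197104884830870897555309345498680356524962358752400533891855886852627372770367910099666084968662467084599267232159634756707346690880654916590548368726435896822048448643908553244306872229185007240078651276489508183796873385454194084961953110939015707423323039523134368191721777179667394084821930469395218784872552320369196147476784402722015080464226778815541067249274602599662782235355962199498391009559543635646161122780525788168544982562207568632110909844785121368063471089583927388935287934585116482919861831876958585157218866310792398853230279870895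37023804276895216698822528858419045130111502604140510933969522282402244005737060096908273985108788723393491957594758166137666680412234828417967710487778181929521161558758402421179144930968073805052823342097639683159404898901186198306716846999838916324165033312746603015207893664273104339296124892213778251959252409034129467446832591138464827467264718662475814078363237541352724276719724526000880506842016284155371371344034266355991574118607466775975471940592601959172915073881966216738964557489681688500557119205327033937587982754354468714014257989469922288032322395079278295865811136207718415973906914765797030776111742157716178634974769302533799301198901594538727782091034262114009110289624348446620604711916476630954322750955813911880235065511987030735145871363589447748405612078006561988501114733928262810666419138411845939653995357471770332876676276319270691809270867027893173555751353924389207866743421537031393366932172958533598348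85914466420166162739593050246912671684339196317334718434659265790224285416928775065655887716643124839944951257491471538534654769706588323360291890030421360650960749083913350296950345042163826162977660767025141180059249673548967922928563179736313674924859753637971500061529847314703841589869767611873986400432270576352172923033206678997079008483945965864866274702946359356933180699854873308555661022075122014852937978853836381564814364203665899253065203774377237440416962027139721068997558971443920751096946393301032528240318685478463072684432524314151527971675139589054601601554227015816449715782110820208072624985632536624743712396235010719578716568928957533620599200923170588170019925296952418520758225673742533754619622026688237840025126891312584961662352742503780558988443548742988104802343247913036838148425829149261126830532383374161381161356941809835253609618792488607621092654006421783351225899863358904836521952845540118877144506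57611358171608196138764710546788886566169668823011538234062309439775461284032849249587358944169716909663238569322774939275381016853025951768516249290959982747211827584841819904753593840698895934498562907813506903592379446552446500838840573856615240672468289822484511015087335718657197589569316280064875050369736252470733678442377391860435792510332625619490506980919030472927065880113170650237643715261955177786837268632662667376633442737841387638393271593398856901124484216099405843120221161785254245849068418777130404326386709083682228422383081030648585385375664618618021454989774581774085306437936717034814024262068100741124356024808872211141635814508463746413900052392133704036324031796862162968919926235410755754028816833465025356198908177412533111411378406057087730949252149885342947979662777803990999056727334988131046624825876041861303609486587755020874699551478169122442694598480868823388977522635567272757853014555203938714181953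38400961295849724198452568249846284988742884708037016024161817676340390243715407084166677747238754231688819093152511389424246159593615723483996895961998601241492025558256309276511933711767439433118168977173883974651052197731070846588176329000135505556614578309908218401560226238454616641556515286333844742274810713089246843199790681232777118211901571411001434872909785227221542165157766243743091811925598267158502137660948449068653654227325162485181780622134226562558962583931469465666887721782724186722756123961832014372000959413766142565798051301925815209436089763431419269789549364131118964819230957534449103666774574877913076669735706416355439009990186772299995350460812563661512514863903274366860681115551361540646275726195720993414378988004880630290537655336417038492596543443771754555211573322410312817661529307586540293980303158710319622966008851575415099530942910739956140849997715414496648933803371912952920080987057450350445344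52359130198436758436869635906236490362208380889524859377254492571662169093906755101344689789044104298372126851537760037702268830133942427476057594942017607169073079245056395441105187361512075048398397846334385896258785463087977141851014857008154814614610230705046386288425178986340229858831890062790356379225754723386287042526757214389671135076947079025713517017085597427030941852929774552968328665654879570517851356381321278608456862068167269277103656330567706859440284681025513180809821288286336324302389178681369867073572520831906806389316924617186126260813631381311451696596211042763332780605366546632823896408596236082138513818949212220119136171551393515836107706427190303566339812943478826238528832949187769246399176245433433040149037734048875007387391015477819370839206458113818860785467675705756299959806198897254433554152412522499227008898361704888175721696014896911635220434452584739752881753513369118047315808380037051865866974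38004256608701336551127566132767892728489485512435473502320442462656347649936517210975424036639405977863386902123286189302520184128144634351922934203850233329636390545285269498696849961047605155120455160200960084380774922166625486427612718786703785167356296075648970275261371752729534409533758112648902533569956025097554726688035138409689791104904447681046312349113023582721640600234977892954448530431714365801056986824617588297762243926988027807501808806622482525689353688946418911631473942246243809920657940537684834869609584656118393186430673444755063068996209665949549929077750724672284102867495652112841431393149348155651150090751464534035510673146004062367673164729941471600387121206249450733564801341679754889223594203507914425317533712037101851759491130681204782263315976698804669362782349226240607171018160950073219669833369321145276764153116504072539234992844901839082038698305681587764150790719574155188074003815175516581692050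33670810138021399519765295685970200954273001639785237901483611837214757919075150806667237452697395946813981773089589233695899958714055466331462653599074985816365163264022003085618192467994939122711658633353852101071833222388060871493607487104240955381033655307724850105200584316307975508072465930172580186371195968926499756733981745132912507961206716240609033367837250208036406021207143792666083757599253779607648743212509459974584290639987267999660664404226163562814952444856394292181843060505317388673524883993167468196744836459268729649254840725728836612506295466061306288924159755050958832236126379948991164208965219521692190351950518661250524400778954889188273214542538836584719465207462245557422116186860171676449511302368880634345212908535414104487258649743837827932304376637289402752030119215629664954174424230644888567860049193525961359498081813340988853578677533478398550742018695224186313385346782326168332042986119314717348295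32238428248214324131024593572917473302677465888251204964401371903234356753899288225252474956801690642751133447960764382461104193899655860339965128461729652158256346294162269823640798912020439649612873692403922389867900909583296767396242983353394612811253023679629532633265827892542121698753491199147048278840305292366021763954499677960206029738180803687539060549959666284604755589123101168384887882586810748970852198360137555018526792107314848094202787019240843785280842847423775330499380696752514550554682926231372906330572384682585618822549229021515526258241747719140402053435214671372584060463512440517801585972725264421904371695056113772381341951340116229679438140867660043982195531081835921354972832527990099383524363509687898335528218868664120449778498684437822279879488622194144113511412325917590567699875048719884773340245245191707178575053258136938743278325415806010678942813654673545917990651976799895062784155752852473417782819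00993172694235382015184533676087880970879320969935994818127257414145047233814829283286516459348960396171980070031135093076384089786220530900644203741976822049332133740646916820010977482095141551158245414077593240211522933277172953837233621493178365725621313999051956752947491699508897528503972530047196587533727337532561685715397218327029414096909059757040080690298631073333182853003645640171906058981892026006246080395861280783601832325194227164247614577478199383836159084842841847925544946068407576068817398193473086416179529444986375110636585493561974750787792105559295543815052900788434974638057986570701413944889453201214684311570432719705584344024350522325458569149294102761982030390850290400105352531443069003828381260275672113028035374866812921559097513705765659221733191162863994820407353097698330938071052196635435717853862765297275913490135449605433629368925250180226232695219368253411128440374622256152238245076140209516078290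23952620528841048114379051437750003229940222597570114894957650876081978307333663174338909612729189930956600372047481621007683325303239726848523326242980953110573548404100570900406096768759303520468624492797945752561947984932670787953919977582272863593375706195464605360805982632648757027002798513730117886149942696732071508191833387653770126262346098447057181565549663967574265025956924686618684017198646345358401164181607638646801743963089187977105040937879613898017172476866416655263987344324976079521215669542768027996198568428227406911017646222702100023047356416)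

noncomputable def rc16 : Nat := (nat_lit 1820056645255634071175447878054274730040594466014066572089513554229091044317898740285841478803790209977373589944301090277870164972539557006026089058340799463944231027159856535681774738541899981134818614184663390273127144127072615763856136227445945531612675720486387565406219998477657389237321684634551997353715797627954734032844572282624650200183199545118291328737602625840967554189069372709780787902280451296514064026715291156762216431088009706970677749774518710827238692245231366819757421332699713985589092422630184779234729364661929274662344267780231052030639068796080627966942999013501241981356489707047200619950478324285809835780023018197744837110000965326913360249376767077703047885742306027743121270443842234724607528528878134769245133765338911486974166002620997994106387071322961617178607691318312672633211245849671942723862070731776797412640216155586348337943510828512040023997395509537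89418410695945957009261289908779092727122540171896914193768607052862077313549392144956916054263489556308770170896131097953741523622882124051388240181462800792742416844655977601024965493432492517131322996753532500976045387838439691617216732858208818717396741681372120278136440575661826921549670453856173691769652427248576182196886359529263608981514956406512257474537581078691136498345222304530608007464254278737878998053015814156531644091922879655574193732666832490607907028634000762813445151602236971402968307278889005428240444596233072404145226949394570579648130998252157930325353446190508306960396723330897833446345612434914754211815177056908879317226793891731267581308972967412670493037493659512182927988447966849033022892833056314237484172196614868103464235267865948731093624647079357569847765122402981829196566021892323887524641963178584689041115442886394137192270170924373822388393209728869212064038420235922574851078245476552321579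63329246145470526734449777195285399831686652383738487646721621805685868022589152319034385021622326811069808812149781963193038686178771263377096009049948016510230845604502586841724120824221551841287680887715951421720448672300420818820326098463749386058815881393365585263841810700484555389986894477946164442268498245496948019682498493674269097300926868785360761421094178172467923106662326987710401366111400797238492108310394079316591255786642464918414677622454472126929983190106699872585586495388606216987344031383126813645470112608508610167754064922554781891738572339071822692075851427981195347254984368600672031439118770973747506358693849737798636793442328981914188561787355368001441451746387100751301883765784998567456605764191467706736194250983463718701744265858315110207281791274751403922979352525290105024874714564761170038354321926956264774202446660779954591120474490739370794234472807538362854223559127287973203953256241845074251806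75516578051085208434822466369826553655658056413006381776333627171822129119392963457223636220854893528771562062933704763097766364929199875827589772955537594257272350608047750798038262324293867584650015452249997599701886222616999388944977308534052193212040965181311090461113397500229035679692443955904544161525068145999218095024963767597698569781999452277152982678355332626654182452098168725761239056951352977920505370620608453482570591823886374318224548866705391961722977564880766292754963771922729841463765731020844278309071853559289191190408139356812781023562940038751530147492378630983170265922033160436813262641427487820177661500949735647484754746525020002653205383722580052965797400753239511413169348803193829039568713056683652437475883446632737175146335380084316829015483685139571469269971342728636243299672605556396498402337721117254164055883965452124625502622321647813260998329741090225194890701764371776663549554897066059096952976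98259434752209210917503603419312656980980507934295830397874987239166843764564154171715520524664447456000371824560857286130337962618818926484516848690857972632221245663717694062396631950077795694669651010097333712695555270894017896791135276768546196720616912516668626711514721576255141603741469046585236908510209137148582196413732366791908322215778873829882988022647909010433207255558287067469049637466941136672545502623981370226494773597237013744181779619335763944815512653391940404306914195717951592555501302782629006064538409072958530948745816402556540980217537173279160401736272282012522680736470624497613793693369620835579395966466075474156552461698736595434322568491909421866080342558954987983692830993980836489925580363464442514168198038349656955389311379347802179384490880487581332231262407822638304563259133570234018099834691261528958475158043171160711223091278542542981483105994577556211168345033648053245887818730622720636126901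65738257798977324733282644831200990355101716461662992329015173402575787153687620095319772529223147275972803861209429275222832369695900929808478189457992829799697750615848182900257494065328025017351107122441952685239659490262839160200464453931526510831961867153166349016871261515028778225253583733160055087413455918635285626145119936224836641972704292994268103811920721071919293775243832479839807003292056351656276272494595240119095878537553622136116546866150820836807308719750699540069022134419609357437098415693854084448843869255826958554647293701111029412650101894986907473609518208515539620146904120680563196163161871973015668412484103340485415901637051186954699300270477372779957413326845696079540271655940407733754373512919161297492547360676783612851904845693703045578379404822756003781628586752438716947175796177603467623471474928232331913347797004513856633972120350761433487683065658434954846842135299642398500125630009126253643532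13357248717957211865456251808571082998928972813858432661382272532296248130869071529505614629866530676538118322853928504051703848258013385542793718632407693771320585766596125145671246954478139669371436933190844317451895226813359609523101886909769727592634947446327134869640812079162330472002286556714854815204733230161109377257421942267444948054056166341426890398682742238491086179679876672968223331560313914163377492368906680933717379757099926213347596059957105964893257495380976947680431442105945891741570862673258631422915515567227002311011686684986324220595939914846789089377593366470623435889883854050464735157366794854113625863083997929293604731030598062117879702387876414971627463064900756213173824280980485578204111041104105223522899260746251113525862860113370005916759739535979569995654609001171771820947660914879821647305135604736175278169947855675885148519121601005771458070555379094625164413452046993641222526835591181632147370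91894845656136780603544890752941912885302843931690563485863660171388584816166589216038515180779925338532727258626570874450712918065611452867014773465091939020157948626087325547104308781563122951444451762110367626276383061651787609384696178835963286029425673531006415284602344160797005927411367603048441353242523543596790307380101228814504333430352362239874086254686026653102294536666326372039622686634139773116522577029093802077726810198485377694526118400344436801734905382054753790228116319480677326933335595627189335433275654836524167880087191419301454172986236900486825365573251577352931643275558151391584792792003656471061514021162595865822976336822614061666897014364272754764599503324914340604872605651133020084973127159454237619007205834600480910371767157199172078953164150767147438977170423656866458364244500723622649636594710826673032013553225167312680795260868828143308827171593015598016846355101020209458399462179670584009945265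28257992910174545632516605858852099866965707734909919801509028381536448971360570975628247543512632557327929971825010094862580643526001337455507564839111473911198124211851551811640368434094676500618233382592638284270624192680501848491092428450237945607119988522084844379786287912553649301100398213241728359026906409595185154252088342058208392317792289777835707609530388244916895736725836853369028247290697719585062779070366600857022249664159327895753062412927545799465748096926908158749098507312057469522476041051817569361824350952238071761959974522288379558380125615811885413877340857261331548896338481436714310519452111713241874496004011326761559395376979863061831680874743647214422936485381258896600060508175731019527479339992975412038605592372551362892700700830740911567992492860786702113972774056562859608578551301972818287198491237781582099967760284866510305378663398338924528910839340985484642626289001643709672923601204110451209757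05348638909108692023653286885396222926863417332864239993788488448224254161733388338883855600357329284394322779751846626425133314181092239152709621540109063228657620922052752489652611981703515556843117154660969863895870673367679451282483669406675452865213525142193062188550883124608070153733240036933471454367834651423410508644162775751820789042690014574786470795235333349719719960567153179522574853086699272065874723013372952545071061903903486543873879137007431915376579926958828264623982709393075484909331431261792225903227231602803726248604719570233849027046645613304592192687708469702000018081543945715653201438514019210505242740334533938060413216122330270744590578420899737941112135295294245808082449655477559284189030225822865004627522504308171965098539694786651232857812229238979682009672343495523380696387750450091170286982746493944174730759956999328479315909897316619671145378972635234310358848927026014164427034721511008570477205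44801034168017166827170183116760102130459598719502240730231687101201221602954632590482902793103122804041419708718507058381561507339660526096753946644860340800414429616067077722016285620787088001788775324608043568552873940315162581952431483137406971877054121269856549546023352662960243679838405022493487856504064959666227446998065542313239193156291018435351939243392335655198068313060731922936140031617022392195448148967232075878405675930243037775876667243461589118962137393199570847529595787944009908737579616178758473427756385240917732158276532770889727475514792767796953890456386479895166669425833472941380516702533858624167525742884616473038409139457035966287316572915506104254570744864812223305236526871926274994682311106715174500481893039523354994678280579194896190875658944317437021308298990315894906983342992158451553930127652750417368953352688467972378543806656269286464357111706178320472234071618526477058114704514362981114767665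62389289236975462185365572916502380820040639189670522097070474433933451937279936154894745510264328407616935435227813516287952629954136338296149835340068986726241277912371152133878498758574967573947533263954615086459538269688499070896116346995025770165375168288749136220536831831238321868588284852068733987996955637315814770571587491909330311865341505967172022953318038046984093074052806486764283724259695484512739030651195575951528794489426514042567568030672649814829121475635082102936510157358585025651215182052470597462612675365300316216657536212106388168979849730145652796853744820903109360404332908058361447181727650136524479284781066930593485515403035773658525821046267618873514238875397671750605114028564506693150701040651113365048884076556292959237373382977046279892074429406506189219159284836949391428098059277780008200767946417268047439690460309629443336758858483104382684524805279309880141541903827394882646162756943301232402035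06773065997114591273809003404568683315152613152062347725051867028115046723962158986510459301928582886909999799058585944032603955285313666882036655312257122931655605999865379829456648020784518961066636342105695318785081371557866097812091768073321774220343773476934324904372687811484915694748089086100458086966223875955474535145413459331512255497507216074078640052215122152243346923108557783390849941146714018856249039269105780236786490176286124371253554833467980848757732327425359589352248778817680010329541392123491561208011154248046548218194738699744937252167948050571236793550875351615220020766973039995903124724611799388421106423704644345469811474387519104726588478459886592473275711487171836507982773024542508501124519538372098312725992084280760552594318197926598364909813815358053570579291783585557550588846667549136206896819868342131380503009186509388151029134659485309972789910136954077094200955519821619998373296646610335450284009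13436755068097948253878255553772507399478288089309291778158149821635688214821768097107076693454495915445112919877185987277861711949386356212619789704665538424148038304540834648647888970588694686800045198431763255376423447166810434740006605068411951659146622512494742412806704571645529727985398552209536493371351179870879038941002440260473373138104255594163996190465457693676409919612975662391879652749350044225309245815553108986460308981621423598252818685158938198745370425376170125068976977840455000920570397342862081675597936095698335167841963224156406910788431225523834814148244676369993356179770515090103155907794220300077090319239865115791552137288705934118534010824540478790907765212661540937465655370505665065841208657670145461412242916513311606750239786797773222682332073942661870627960456955747254026710637529858977995458871888940325275077727638600825179062778614789753949359450710500310632887085549905810459446609181241704565229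91904256490655687462798722628661536127753495447034913899426106759764457906405321615387352147058553638684541925042284352977402404525418889988506320452258030427358330569137402826057606494365797058528517520603426491121535436753135056258565089522824167083193099506032648180544535562905388596981736426503375734550963176089600191962344762022162584266403431046136726914581295054396968412610788105534849351275906179731684454280029381052912068266614059803713481966434127123778278318738538312485010373057337266617191118952129896718005950684699448344107572694720484663431322857779852423091920841834963420469996300158627311994789903094490444623167818115996610570544509178365813994871939545939063006262217228440609853412834585013797484036009648427813642600515396158152957395787026334253149771736370364287966966192276516293871238058455286753750232383381212141257543785234421059396905823335609015058557480011675355643109961327450107198171827273645215468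03202486870241429006998992851018097676090525510880366485460472449987181080888590569135650798514576115280857385772044134770632527413986499619453623940826425810561429198507485727363171948514572607000627563865056902286031997410076825130060616276421372583094567975607119868376153398511622974490247950760405148661226021400789644820575198725792278256526769536971150854007391323630826439253425327664276952079737334408991087729499993729779965647291103891806911205382935635625962574941037010669801128179340660148734190376577637582297562557515815102663856241835709814407928749218299056327787677080615795457238637864441431425530326947418355717662370359551192980449771036309044376295778229430094455820348318022279152137854321134787939787867463471424889052967072071078285128156177046389533768584399805687717354684440558457617763927934524779904844344545509156527796436164372516018291882033419576954000196805765522892200417044170623160632824479364450345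05657314618784750522141773646157518295544985767335236959810282058463237478729785211122659048918414918869043370464809323918546157314349805915396780518880193664103876983651534009355470514948417745157443525840062909229582201316230282870453740459024126793328044344097502000125193181515015459144967333666218667814858249384245459990664961786467558211733766383612634552451234154799215881830379530219747508903232103298134283134561763561505986314427722473141519746659890069477605297278987549864785841772722404756330810191955606282364630988074027626064366945844374396603478964305919476192727141690970230949471764435829833539789224221909976180193740158957031671336671404180182102250554767997437358212183953670443398607951174166009461541359446340709610451400372933338722560543503099869677449061006101816221909145592747457008342269891264326289935864422646105846980597759397693958146984599416719390397544326047810213461810913189816714545221470701092114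92762888934353535594349207002560678388761566260524233117565866579144979019397605009704367909673018186775255434164117212286184959318453291030074055558892653800914664297465243652786793707892868172610751336809407881645797629853879424166743353315056637948307827458451057896470923686751021966505277349167171387145578613242207216512906279194662285250565213413218783450039936791372453899102377362633287075389112926326203079975885038712579019697882765099809474559101602183316077041262442877982936329667973825881729678395038890419528792233548703947637353325156898380548407296)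

noncomputable def rc17 : Nat := (nat_lit 1823933335754846124606185454412394435864359001908932217898151558585306329890010133192543067481780188484995598301513314707904438254249564990734064224065111665074780082084335788138558469363786425114788504995728501235564166472777127292424303489398141531310391297711861861315200293696973582228943683854428456830644940950927946842555187167668209235907227239354841739560922833932992864362903454080085348911397273142988634110715431696927109133744877019563082353071679191257729593395297319777439942797816722538429375196260527946005377372060252405537768750082254534141723844536981894613503913726658261861739726686201981639475902847747434919857734725162282257107475543656199195544015652209584470999006409439458283625339143392525200685444032997692235329417384880821834261140140495579121014169987749830829065974513643456352012450386832123128199853532125469215656461935044461810566708787092911375156541948859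59247196988457385697580787481591477346281644286309217788699871789115791359227642883867524622275478776447512199251489817004026964969782087902712137856643700381650565468975287722091444531434592515785127428848585520788738151563575201485736458881501761842227863450902201883841432719484087085723571838376130501303590740580869548696716537819655119030390513821142780807535696956714395674503412039709851591805474079740924668804762529577742336525904933833929529567307295960086371911954520155585785922698067371959187985396388529823616648771816708100842961327242392493755632744659117234646349531211770731741941432843120422512857056603727331643958782876482830116728297008880095239313896192719605998926699425617878112898215861238863186105629728919553829102895727114546529674600915681908968662618656478330458415213689804094610082367105779465768579915121857175727166900870196717268399668125979574504195492536088493169682318372313752019242500175629865078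10933764082282943124134813963925809516564278170071076109254769550122270820502342758740598675402187399243840633793554545794668545330942039966248984216621566037644580110015432241057176033756614528364801345389689622381983781758201747695751808152655544979996679684674408749597032527798135147230908057597546682793044551810381757422038065393973458896141948282554366952881972958072791285122359603384145688799886311649320137564768978179832331912931319014947274703604906235389221782744584550985594562077894540990543011567982332203128079253431112596599435758769611048147624522480966021059034131234941976415762874729151143354346503219088228668335364224945388903322993086692386078564922220864131406604214630431618737702700057644523619059341065234479901335064226617264705495939236643523936187186765152206023862711663112278834410526565490400574866191265388425128969621664888618912546282622409192283326124276618796717953769385940860443605293811786661059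02242878477116698807229593301250043903604188069057962646131233802348527861095451333284510907508203415368093256775305845942507722687465521162272504813467982241782015314470247213028723544111733380229881026264520817590717734211562216247539075854439921319330340440753091264189597106560611750382611522997947881658072084093237314682842569516661744791042727720590783087119638959209982223544649252827097780349969166724055414022803102681556178973705352787965355662432522730908821483907836320811253033487731728912198192976008316118638403722508795118342352386997127833410075068592384505422836726642438449570756329470113546891498880856058751664114848393939643766785746281253585950808145992124614858142326131552595597463380408568963916149157954398836708810058733611626179449507748303790817617288485888534969714093261250207526592128093721506877302414185061514400643626991764875109698069996231964962925903516973095668590936451666333104052996762734064957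71617627404226413378449258037739721806140676275425632627879655796153944129416605279217594620948531111041456755587265901341004717281462192897947753961947975934382213137211921950414021181511182843240779690821016475137527096752935425448452597753350745797723628628161264490569965325454284058232377187113182910021586557243224395819669369688464797353722906286920833124302700909056433650366328909208475670761744185139814473305400561469227390376327413261886889554853962512432930589720570281877808063737741005611812665221899201073273341804825600168222127511193756764687870465016604946191730200710826391511241439549190037317027237823209504335626655852608927230811954406599794003541872516814275833982334479938973446331790593650565958718923954270769973709158798232360423198335914050327523825811695655030635338327583600732623566330514071914643332787295218362137821918207728736224244158745080569651679442489588213006156829493685848325900117550628593886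28903474471583294431187856830431858840379497205332285214772958069526294455551220127011017412007349106675598038921733709173536644826954308483884433668782597931694911190156612332270667782366289476962452544351395244206484086831325949953709980280135456227324945220811743071241786917448654731866317495228832531758761026632565990665052289471542289583356711832761654912759277038416982809198281000537726517273217069569020060230716972354360487102574680203280011420220189281568300002786826617388529182920055397706750105857444146820023952220611921138648659191694962076547706887144675684804603238635621565743545600094097006115350621862442857225448963640054405245558556669973494055485401550755308640980745378919460178782575625038269293483413142497289410773260515912235456547425014930505249174300440918919706261274205221959378360112894980948201084462345654367403122081050182487555007685968743509257046461215192239015510974190311977730443315567987156307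37152192739333733405177929947219131538768303275303066766252641622090442886606801689224037942414587699943042975589906652951916830201279657481127392591036449189474206689233168042417131584765687731848929713381381135096094378118934709449468111491089002931788683696461224786383869891865192525158088728829644890505602083516108617083797521644804118428537891513772156491735064600730793506073639830577036890562039792586108545057108215001976935323774170660183051263026992886653168963862787887852096126384751956246680681218547722530712566293494016847170881054214430613622942334978381540267835965068038871430564134180568361919584700664969510880833874179973250990920000460120720807056633854046013638337830075394582704915067779387836800115465052527004000301342628079868432570829393124759386435490046110784165534181037335369098361498099288469800926060745558544225486573835407277305895502626535267961578078829053791489749916293624854060002448668180720410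83362968200576233697432893435899709264743132179650267012705924649800213388842012829169251376948164891308705646029679994828610219271795891137956031379212315136024503347199047656929710233400645615438175900965695283204745738356148889367942620505541845489326060521808765819783221827178445492151893171992672832775326843214221624286721184274830481845546111308355647616935274267005507921887285047026667593250249892191657105909436422802362264820115361061952799807402543570418168940860775662694494972152493792861226325361308374334077429519297994132851979906555119719501479903501515826703629250068164970473199249973200751606461661654848289263559913029339577641752510133070121289321081510012824424815896520661487443849308351973964833959885233118352391611309362001112393715262277301360434796724304971501238912953490582964108629590691030457032648994106981308016920402559154428665355111681162184862312504260384348749815160109877344347027638604787782947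99141791031334627444357172206548934517236612412724316834356661078732174838550215382741600671238203843025628788698992796595781993965811168735194901399175831049083825844906215493977832479077421204124662767423716366434994147717787791500660510269500576795592335553677031007857266814983116450316155384596317672334537139842898494524182243260677268941953565609442645165191104284115122409236337042284587525226396469403325903236742280501633661447984447201941486702420099004135793043667479569109419348473400643425492015558250418452228879634601530682644631488860977007811914312454416017330370985536998711527668491415321878654901777671525939103433020059663495505426135758797997290717404676305378464713738402707179223724559334474102784764438245805885085162634135906755961029429528206905919231744295225373471996075160427470686308820168174767864737597340913974548167634937904560204690035973124844142471968386086607508520696865709754455278325167880639539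64822749752903986798807107090133070077806320334257020671253501491963092901432542287807784494873051041934110933806548163849406798909507673654459490990010537791740427033178469017729745251116653482273338758378853890576106305391856895799663931456733147644486472271558556447402217004682981691638628608714475027971166189131652991088499638420912050346711546534915175125052542303379433029037272142796502827672222587067542179859387465138006793644674636138393284161889057754424667091993216663624666770520737212074133346017845348865292652323468030603511458354378893726418537481635286809962775503548073734309169672985489731048277228203525786344574850882249232696493198325161936267140272306163489554054451266210460268922752371739314122853421371688982317617200339128784990665543435849374416612231130824878744815485236509397690853788210660650433135641035278290110004465870826446326356555676344421142574491590301956651886592180773484797698514746304563566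31502106786689563089029860829657496486597022883103582566215569566804777560070218853115217144778587566494577025935015781485330293802074540585003162702427402935036297166443543433530506913977507953321210619850324062750682569220209091153575564183733573468609369391676501423919777139489246968098957796829667967991025994034777509951781452702727278498646901673974007409327543444927025668715188760223661773813649414813904074695823234851463450675197885988063312338234700007673169780617930263202927558917231748756204624863183273260840447353955215187582506289723611136292236395755824238801843886502271712656915990240663462147793001681971227765251745820446095922960207266360706093473800371097630964805590550412682424287532049187277769315255244319003632625444661120452357733915065750358131077046022822150174837564184298135532548013859353892266838757635511747751912481786274808446978152024508769498930834017540475051048572600990077441049284617484443769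81343892211060432843938881663983312771199314921052909624831115075486274092276007726712635563931702450467753241900155629270907916860733706645391753916206969542395285451736613536198771023035635047158462917098279454372901994154498588222584906441738799249381594586788587864159013482850268145503590620899356430993869452088462849401568201600714525852264409722374286294358937806776453819339919998588694421114220184403812956393235496765296483888503918337043025532119931258850293153359620498903274338285384616554886299918276949181819881895006471291202571040479186305243022912482171097052223835658059625133839857220308462130159140381543009604206820264357643117316601609119524236327063476810925754509717515402940216588183680750673599371395668377159085930598955818398685027984313976424109635797451240784302715791163595770253171487969643579829653863124236798152548219854372696489989934738289886529822185619552620853437657644305206563022717502050082996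33838697203480990075442833038279110510194262800374265927606398457467432285456652469101000440381899991013968031826095068827683169794196318852173328098875222996868146357443440661338104636119550313172788832731072341229107503802223485802712033497936939175952345394492126374461626212649924502371302081660692979490443213146556249073933666294243069467332517562268095362394067127387402391372697684192612744632726303157189439254528922807113676779032662382134795443325641225617004190839689506003310019004117305888011948351604088061125505414647294950688924269097925164999134780838930031421310138820069451987534485388521081480831146301503124305661685515737106919756780430519250855309958485709513489055533496708513565051981149213729970554619913360965717315182702821930612981562767417334988371677220111538184200757903337873012135021969697842959828267744268473351645999939244386037606113206075421632678987098418925124343324113288611285466072064145109354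27686285036586331932146222494814343576788706731068011858500127185655470999296697935493756353935436658629821755442638269410924869190652213612147220805815461087431007702734375487692893532145289324785265224392961261253754293176590127332435386037370979129890371769209437050993043743000627883498998057911595430272907386065842697913807840443150446622873127793972059550209860174298790173527646751656981127259039519094602950904960217949150631334862665960831838027432096849307522191707877290575991737502926235064663471379414148183988799005797442109619060862692762864386102729700866606208249007442829502534016111167156329139550032708075452613354008281812324966101334104582715834047371594963963833219450313099137376104891056568590373919537791033306053906520273326358259999634079711235613471809438296028999835280765734355511440226814138419417590195362822033736658476814808772908463179152547167016885586050081642101812043690466443133000543531998574662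46034377626121170874329342144520965460869495684981098108248733525076725352512322480137452404498753190161325318244586786999225720674091551773382802000965292452545354937468623278807139623164216710442565922171474835256517978715864500467405345861589252042182160581175770766538474201309525387734385167992566654828944812552926290780752883549592300459576027329473432142862597740707151645105679329751900635666939513846720384475600509516519501760054298852697623920906086152397867504902837125882409169355908371767569900538286839054153792708393927415013980693029217076759934464216535474685537278636287676839286534964127432248016680785650659894498413980866044941182065356812373056146723365721999249639182843234472028939598043790192764143714196051214733151655708147234936940024639675615783790024743434026747391752043382387138347498071997964329937011017030387072956274153182247928838733572046722641717729144005069224116284157166959098946698964848058486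79717835161108992007231262580337428158457033483234823756534925057107290143107627648256159988796662637123710343388537767450026210514157354319147647500865448425015499200855738507069190186853937548086742486834803773563069183530992811250881408043890596223143589557993449919490563743674580417632200916400541069419966836769623650205387828213859032954144939107841884406465378970173482554418543533559655961210436562250153889264786870318884020271814045991213660618564668559319170033854514967074918113263723102043547393648860610891446480633021202077187169353092163836929191858891371178966627654003009594393586674486879302418985795614660139210895861057730488962554570131830448912841696451337814790810426104583311213604463715046082282240724822657522265496103639724670598419736391030836045843194293399256223800775715371732835622355385594830989149669741741235912636198895052225805920941354340815139837607305060924264614045120670547826696043943444328231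20732098664573500228760203978340250546522690258073616055536702530654936018846100379180928320115194701013483823648413227415578309529500009854798797510891118403833537910979519565497146679148817466532563819956137918189062369493537697778644879542230487331230133728118639283285418314002188100430507551099681614934407301934064650304297782086328241260632034614302998380058879497420070531999635098647269375781578634789042013866575140886791599517055828383924946043906732875137472717979743961693605552468571972498693766482421558073328124506173499093924289975448198697177797395667412301014761180451680835344461599531475749323594022821337037592596863031431035469456311526473354501611868455898048390315687144748573050910691751537752080266280866925491171233625454406082302470432119322949304614689653869156940861979056666758060887060567154420623176089741772224799738925214156720259402890362073499039513682594537724076028202954379885526857640082315129351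83432125623089278204798795093362783841962002508113347527878039969759096559471660275746272187442832961355917086323145530772566602733885208761920425731658286688730860067693083079203412323401205053636150109981131830391572850035187982442139310833276436826857934267441152539566856572320210830873761619963165386047489929787674863529788096560325333573901458632676400187620615455825427709511949868752086635537147912676598374505834401923435641199177051810738254859619459255910082384553897602001643569680542495867544801982157479565905676210932491553076191834701576559283666944)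

end Vale.Agent.Lib.P154.PChain.BG.S8
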